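import Mathlib

/-!
Row 154, ROAD 801, line (1) (helper903): smooth density of a renewal displacement, quantile of a
discrete density.  Mathlib only.
-/

set_option autoImplicit false

namespace Crest.Agent.R154.Dens903

open scoped ENNReal Classical
open Finset

/-! ### quantile of a discrete density -/

section quantile

variable {α : Type*} (p : α → ℝ≥0∞)

/-- Markov for the level set of a density -/
lemma card_le (th : ℝ≥0∞) : th * ∑' a, (if th ≤ p a then 1 else 0) ≤ ∑' a, p a := by
  rw [← ENNReal.tsum_mul_left]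
  refine ENNReal.tsum_le_tsum fun a => ?_
  by_cases h : th ≤ p a
  · simpa [h] using h
  · simp [h]

lemma finite_level (hp : ∑' a, p a ≠ ∞) {v : ℝ≥0∞} (hv : v ≠ 0) : {a | v ≤ p a}.Finite :=
  ENNReal.finite_const_le_of_tsum_ne_top hp hv

/-- **quantile**: a level `th` with at most `u` strictly below and at least `u` below or at. -/
theorem quantile (hp : ∑' a, p a = 1) {u : ℝ≥0∞} (hu0 : u ≠ 0) (hu1 : u ≤ 1) :
    ∃ th : ℝ≥0∞, th ≠ 0 ∧ th ≤ 1 ∧ ∑' a, (if p a < th then p a else 0) ≤ u ∧
      u ≤ ∑' a, (if p a ≤ th then p a else 0) := by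
  have hptop : ∑' a, p a ≠ ∞ := by rw [hp]; exact ENNReal.one_ne_top
  have hle1 : ∀ a, p a ≤ 1 := fun a => hp ▸ ENNReal.le_tsum a
  -- levels with large mass above
  set T : Set ℝ≥0∞ := {v | v ≠ 0 ∧ v ≤ 1 ∧ (∃ a, p a = v) ∧
    1 - u ≤ ∑' a, (if v ≤ p a then p a else 0)} with hT
  have key : ∀ c : ℝ≥0∞, (1 - u < ∑' a, (if c < p a then p a else 0)) → ∃ v ∈ T, c < v := by
    intro c hc
    rw [ENNReal.tsum_eq_iSup_sum, lt_iSup_iff] at hc
    obtain ⟨s, hs⟩ := hc
    set s' := s.filter fun a => c < p a with hs'
    have e : ∑ a ∈ s, (if c < p a then p a else 0) = ∑ a ∈ s', p a := by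
      rw [hs', Finset.sum_filter]
    rw [e] at hs
    have hne : s'.Nonempty := by
      rw [Finset.nonempty_iff_ne_empty]
      rintro h0
      rw [h0] at hs
      simp at hs
    obtain ⟨a, ha, hmin⟩ := s'.exists_min_image p hne
    have hca : c < p a := (Finset.mem_filter.1 ha).2
    refine ⟨p a, ⟨(bot_le.trans_lt hca).ne', hle1 a, ⟨a, rfl⟩, ?_⟩, hca⟩
    refine hs.le.trans ?_
    calc ∑ b ∈ s', p b = ∑ b ∈ s', (if p a ≤ p b then p b else 0) :=
          Finset.sum_congr rfl fun b hb => by rw [if_pos (hmin b hb)]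
      _ ≤ _ := ENNReal.sum_le_tsum s'
  have hTne : T.Nonempty := by
    have h0 : 1 - u < ∑' a, (if 0 < p a then p a else 0) := by
      have : ∑' a, (if 0 < p a then p a else 0) = 1 := by
        rw [← hp]
        refine tsum_congr fun a => ?_
        by_cases h : 0 < p a
        · simp [h]
        · simp only [h, if_false]
          exact (le_antisymm (not_lt.1 h) bot_le).symm
      rw [this]
      exact ENNReal.sub_lt_self ENNReal.one_ne_top one_ne_zero hu0
    obtain ⟨v, hv, -⟩ := key 0 h0
    exact ⟨v, hv⟩
  obtain ⟨v0, hv0⟩ := hTne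
  have hfin : (T ∩ Set.Ici v0).Finite := by
    refine ((finite_level p hptop hv0.1).image p).subset ?_
    rintro v ⟨hv, hv'⟩
    obtain ⟨a, rfl⟩ := hv.2.2.1
    exact ⟨a, hv', rfl⟩
  obtain ⟨v, ⟨hvT, hvge⟩, hmax⟩ := Set.exists_max_image (T ∩ Set.Ici v0) id hfin
    ⟨v0, hv0, le_refl v0⟩
  refine ⟨v, hvT.1, hvT.2.1, ?_, ?_⟩
  · have hsplit : ∑' a, (if p a < v then p a else 0) + ∑' a, (if v ≤ p a then p a else 0) = 1 := by
      rw [← ENNReal.tsum_add, ← hp]
      refine tsum_congr fun a => ?_
      by_cases h : p a < v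
      · simp [h, not_le.2 h]
      · simp [h, not_lt.1 h]
    have h1 := hvT.2.2.2
    have h2 : ∑' a, (if p a < v then p a else 0) + (1 - u) ≤ 1 :=
      (add_le_add le_rfl h1).trans hsplit.le
    have h3 : ∑' a, (if p a < v then p a else 0) ≤ 1 - (1 - u) :=
      ENNReal.le_sub_of_add_le_right (ne_top_of_le_ne_top ENNReal.one_ne_top tsub_le_self) h2
    rwa [ENNReal.sub_sub_cancel ENNReal.one_ne_top hu1] at h3
  · have hsplit : ∑' a, (if p a ≤ v then p a else 0) + ∑' a, (if v < p a then p a else 0) = 1 := by
      rw [← ENNReal.tsum_add, ← hp]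
      refine tsum_congr fun a => ?_
      by_cases h : p a ≤ v
      · simp [h, not_lt.2 h]
      · simp [h, not_le.1 h]
    have h1 : ∑' a, (if v < p a then p a else 0) ≤ 1 - u := by
      by_contra hc
      rw [not_le] at hc
      obtain ⟨v', hv', hlt⟩ := key v hc
      have := hmax v' ⟨hv', hvge.trans hlt.le⟩
      exact absurd hlt (not_lt.2 this)
    have h2 : 1 ≤ ∑' a, (if p a ≤ v then p a else 0) + (1 - u) :=
      hsplit.ge.trans (add_le_add le_rfl h1)
    have h3 : 1 - (1 - u) ≤ ∑' a, (if p a ≤ v then p a else 0) := tsub_le_iff_right.2 h2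
    rwa [ENNReal.sub_sub_cancel ENNReal.one_ne_top hu1] at h3

end quantile

/-! ### smooth density -/

section dens

variable {V : Type*} [AddCommGroup V]

/-- translated sums -/
lemma tsum_sub (f : V → ℝ≥0∞) (z : V) : ∑' z', f (z - z') = ∑' z', f z' :=
  (Equiv.subLeft z).tsum_eq f

lemma tsum_conv (g f : V → ℝ≥0∞) : ∑' z, ∑' z', g z' * f (z - z') = (∑' z', g z') * ∑' z, f z := by
  rw [ENNReal.tsum_comm, ← ENNReal.tsum_mul_right]
  refine tsum_congr fun z' => ?_
  rw [ENNReal.tsum_mul_left]
  congr 1
  exact (Equiv.subRight z').tsum_eq f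

/-- **smooth density**: `U h` = law of the displacement at a renewal at height `h`; `p i z` = law of
the first renewal `≥ s` (overshoot `i`, displacement `z`).  After `J` attempts, off a small mass,
some attempt had `p ≤ th`, `i ≤ i0`. -/
theorem dens_split (U p : ℕ → V → ℝ≥0∞) (s : ℕ)
    (hU : ∀ h, s ≤ h → ∀ z, U h z
      ≤ ∑' i, ∑' z', if s + i ≤ h then p i z' * U (h - s - i) (z - z') else 0)
    (hU1 : ∀ h, ∑' z, U h z ≤ 1) (i0 : ℕ) (th q ε : ℝ≥0∞)
    (hNG : ∑' i, ∑' z, (if i ≤ i0 ∧ th < p i z then p i z else 0) ≤ q)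
    (hFar : ∑' i, ∑' z, (if i0 < i then p i z else 0) ≤ ε) (J : ℕ) :
    ∀ h, J * (s + i0) ≤ h → ∃ Ag Bb : V → ℝ≥0∞, (∀ z, U h z ≤ Ag z + Bb z) ∧
      (∀ z, Ag z ≤ (i0 + 1) * th * ∑ j ∈ range J, q ^ j) ∧
      ∑' z, Bb z ≤ q ^ J + ε * ∑ j ∈ range J, q ^ j := by
  induction J with
  | zero =>
    intro h _
    refine ⟨fun _ => 0, U h, fun z => by simp, fun z => by simp, ?_⟩
    simpa using hU1 h
  | succ J ih =>
    intro h hh
    have hs : s ≤ h := by
      have : s ≤ (J + 1) * (s + i0) := by nlinarith [Nat.zero_le (J * (s + i0))]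
      omega
    have hrest : ∀ i, i ≤ i0 → J * (s + i0) ≤ h - s - i := by
      intro i hi
      have : (J + 1) * (s + i0) = J * (s + i0) + (s + i0) := by ring
      omega
    -- the decompositions of the rest
    have hch : ∀ i, ∃ Ag Bb : V → ℝ≥0∞, i ≤ i0 → (∀ z, U (h - s - i) z ≤ Ag z + Bb z) ∧
        (∀ z, Ag z ≤ (i0 + 1) * th * ∑ j ∈ range J, q ^ j) ∧
        ∑' z, Bb z ≤ q ^ J + ε * ∑ j ∈ range J, q ^ j := by
      intro i
      by_cases hi : i ≤ i0
      · obtain ⟨a, b, h1⟩ := ih _ (hrest i hi)
        exact ⟨a, b, fun _ => h1⟩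
      · exact ⟨0, 0, fun h => absurd h hi⟩
    choose A B hAB using hch
    refine ⟨fun z => ∑' i, ∑' z', ((if i ≤ i0 ∧ ¬ th < p i z' then p i z' * U (h - s - i) (z - z') else 0)
        + (if i ≤ i0 ∧ th < p i z' then p i z' * A i (z - z') else 0)),
      fun z => ∑' i, ∑' z', ((if i0 < i then p i z' * U (h - s - i) (z - z') else 0)
        + (if i ≤ i0 ∧ th < p i z' then p i z' * B i (z - z') else 0)), ?_, ?_, ?_⟩
    · intro z
      refine (hU h hs z).trans ?_
      rw [← ENNReal.tsum_add]
      refine ENNReal.tsum_le_tsum fun i => ?_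
      rw [← ENNReal.tsum_add]
      refine ENNReal.tsum_le_tsum fun z' => ?_
      by_cases hc : s + i ≤ h
      · rw [if_pos hc]
        by_cases hi : i ≤ i0
        · by_cases ht : th < p i z'
          · simp only [hi, ht, not_true, and_false, and_self, if_true, if_false, zero_add,
              not_lt.2 hi]
            rw [← mul_add]
            gcongr
            exact (hAB i hi).1 _
          · simp [hi, ht, not_lt.2 hi]
        · have hi' : i0 < i := not_le.1 hi
          simp [hi, hi']
      · rw [if_neg hc]; exact zero_le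
    · intro z
      have hq : ∑ j ∈ range (J + 1), q ^ j = 1 + q * ∑ j ∈ range J, q ^ j := by
        rw [Finset.sum_range_succ', Finset.mul_sum, add_comm]
        simp [pow_succ, mul_comm]
      rw [hq, mul_add, mul_one]
      have h1 : ∑' i, ∑' z', (if i ≤ i0 ∧ ¬ th < p i z' then p i z' * U (h - s - i) (z - z') else 0)
          ≤ (i0 + 1) * th := by
        calc _ ≤ ∑' i, (if i ≤ i0 then th else 0) := by
              refine ENNReal.tsum_le_tsum fun i => ?_
              by_cases hi : i ≤ i0
              · rw [if_pos hi]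
                calc _ ≤ ∑' z', th * U (h - s - i) (z - z') := by
                      refine ENNReal.tsum_le_tsum fun z' => ?_
                      by_cases ht : th < p i z'
                      · simp [ht]
                      · simp only [hi, ht, not_false_eq_true, and_self, if_true]
                        gcongr
                        exact not_lt.1 ht
                  _ = th * ∑' z', U (h - s - i) z' := by
                      rw [ENNReal.tsum_mul_left, tsum_sub]
                  _ ≤ th * 1 := by gcongr; exact hU1 _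
                  _ = th := mul_one _
              · simp [hi]
          _ = ∑ i ∈ range (i0 + 1), (if i ≤ i0 then th else 0) := by
              refine tsum_eq_sum fun i hi => ?_
              rw [Finset.mem_range, not_lt] at hi
              rw [if_neg (by omega)]
          _ = (i0 + 1) * th := by
              rw [Finset.sum_congr rfl fun i hi => if_pos (by
                have := Finset.mem_range.1 hi; omega)]
              simp
      have h2 : ∑' i, ∑' z', (if i ≤ i0 ∧ th < p i z' then p i z' * A i (z - z') else 0)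
          ≤ (i0 + 1) * th * (q * ∑ j ∈ range J, q ^ j) := by
        calc _ ≤ ∑' i, ∑' z', (if i ≤ i0 ∧ th < p i z' then p i z' else 0)
                * ((i0 + 1) * th * ∑ j ∈ range J, q ^ j) := by
              refine ENNReal.tsum_le_tsum fun i => ENNReal.tsum_le_tsum fun z' => ?_
              by_cases hi : i ≤ i0 ∧ th < p i z'
              · rw [if_pos hi, if_pos hi]
                gcongr
                exact (hAB i hi.1).2.1 _
              · simp [if_neg hi]
          _ = (∑' i, ∑' z', (if i ≤ i0 ∧ th < p i z' then p i z' else 0))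
                * ((i0 + 1) * th * ∑ j ∈ range J, q ^ j) := by
              rw [← ENNReal.tsum_mul_right]
              refine tsum_congr fun i => ?_
              rw [ENNReal.tsum_mul_right]
          _ ≤ q * ((i0 + 1) * th * ∑ j ∈ range J, q ^ j) := by gcongr
          _ = _ := by ring
      calc _ = ∑' i, ∑' z', (if i ≤ i0 ∧ ¬ th < p i z' then p i z' * U (h - s - i) (z - z') else 0)
            + ∑' i, ∑' z', (if i ≤ i0 ∧ th < p i z' then p i z' * A i (z - z') else 0) := by
              rw [← ENNReal.tsum_add]
              refine tsum_congr fun i => ?_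
              rw [← ENNReal.tsum_add]
        _ ≤ _ := add_le_add h1 h2
    · have hq : q ^ (J + 1) + ε * ∑ j ∈ range (J + 1), q ^ j
          = ε + q * (q ^ J + ε * ∑ j ∈ range J, q ^ j) := by
        have hq' : ∑ j ∈ range (J + 1), q ^ j = 1 + q * ∑ j ∈ range J, q ^ j := by
          rw [Finset.sum_range_succ', Finset.mul_sum, add_comm]
          simp [pow_succ, mul_comm]
        rw [hq']
        ring
      rw [hq]
      have h1 : ∑' z, ∑' i, ∑' z', (if i0 < i then p i z' * U (h - s - i) (z - z') else 0) ≤ ε := by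
        rw [ENNReal.tsum_comm]
        refine le_trans (ENNReal.tsum_le_tsum fun i => ?_) hFar
        have e : ∀ z z', (if i0 < i then p i z' * U (h - s - i) (z - z') else 0)
            = (if i0 < i then p i z' else 0) * U (h - s - i) (z - z') := by
          intro z z'; by_cases hi : i0 < i <;> simp [hi]
        simp_rw [e]
        rw [tsum_conv]
        calc _ ≤ (∑' z', (if i0 < i then p i z' else 0)) * 1 := by gcongr; exact hU1 _
          _ = _ := mul_one _
      have h2 : ∑' z, ∑' i, ∑' z', (if i ≤ i0 ∧ th < p i z' then p i z' * B i (z - z') else 0)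
          ≤ q * (q ^ J + ε * ∑ j ∈ range J, q ^ j) := by
        rw [ENNReal.tsum_comm]
        calc _ ≤ ∑' i, (∑' z', (if i ≤ i0 ∧ th < p i z' then p i z' else 0))
                * (q ^ J + ε * ∑ j ∈ range J, q ^ j) := by
              refine ENNReal.tsum_le_tsum fun i => ?_
              have e : ∀ z z', (if i ≤ i0 ∧ th < p i z' then p i z' * B i (z - z') else 0)
                  = (if i ≤ i0 ∧ th < p i z' then p i z' else 0) * B i (z - z') := by
                intro z z'; by_cases hi : i ≤ i0 ∧ th < p i z'
                · rw [if_pos hi, if_pos hi]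
                · rw [if_neg hi, if_neg hi, zero_mul]
              simp_rw [e]
              rw [tsum_conv]
              by_cases hi : i ≤ i0
              · gcongr
                exact (hAB i hi).2.2
              · simp [hi]
          _ = (∑' i, ∑' z', (if i ≤ i0 ∧ th < p i z' then p i z' else 0))
                * (q ^ J + ε * ∑ j ∈ range J, q ^ j) := ENNReal.tsum_mul_right
          _ ≤ _ := by gcongr
      calc _ = ∑' z, ∑' i, ∑' z', (if i0 < i then p i z' * U (h - s - i) (z - z') else 0)
            + ∑' z, ∑' i, ∑' z', (if i ≤ i0 ∧ th < p i z' then p i z' * B i (z - z') else 0) := by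
              rw [← ENNReal.tsum_add]
              refine tsum_congr fun z => ?_
              rw [← ENNReal.tsum_add]
              refine tsum_congr fun i => ?_
              rw [← ENNReal.tsum_add]
        _ ≤ _ := add_le_add h1 h2

end dens

end Crest.Agent.R154.Dens903
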