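import Mathlib

/-! Row 154, road 801 (helper300 for 107): one number lemma. -/

set_option autoImplicit false

namespace Crest.Agent.R154.JNum

open scoped ENNReal Topology
open Filter

lemma real_num {a b : ℝ} (ha : 0 < a) (hb : 0 < b) :
    Tendsto (fun q : ℕ => 56 * ((q:ℝ) ^ 5 * (Real.exp (-a)) ^ q) + 28 * (1 / (q:ℝ))
      + 56 * ((q:ℝ) ^ 7 * (Real.exp (-b)) ^ q)) atTop (𝓝 0) := by
  have H : ∀ (k : ℕ) {x : ℝ}, 0 < x →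
      Tendsto (fun q : ℕ => 56 * ((q:ℝ) ^ k * (Real.exp (-x)) ^ q)) atTop (𝓝 0) := by
    intro k x hx
    have h1 : |Real.exp (-x)| < 1 := by
      rw [abs_of_pos (Real.exp_pos _), Real.exp_lt_one_iff]; linarith
    simpa using (tendsto_pow_const_mul_const_pow_of_abs_lt_one k h1).const_mul 56
  have h2 : Tendsto (fun q : ℕ => 28 * (1 / (q:ℝ))) atTop (𝓝 0) := by
    simpa using (tendsto_one_div_atTop_nhds_zero_nat (𝕜 := ℝ)).const_mul 28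
  simpa using ((H 5 ha).add h2).add (H 7 hb)

theorem num (c c1 ε : ℝ≥0∞) (hc : c ≠ 0) (hc1 : c ≤ 1) (hd : c1 ≠ 0) (hd1 : c1 ≤ 1) (hε : ε ≠ 0) :
    ∃ q : ℕ, 1 ≤ q ∧ ((4 * (5 * q ^ 5 + 2) : ℕ) : ℝ≥0∞) * (2 * (1 - c * 1 * c) ^ q
      + (q : ℝ≥0∞) ^ 2 * ((((q : ℝ≥0∞) ^ 4)⁻¹) ^ 2
        + 2 * (1 - c * (c1 * ((q : ℝ≥0∞) ^ 4)⁻¹) * c) ^ (q ^ 5))) ≤ ε := by
  obtain ⟨δ, hδ0, hδ⟩ : ∃ δ : ℝ, 0 < δ ∧ ENNReal.ofReal δ ≤ ε := by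
    by_cases ht : ε = ⊤
    · exact ⟨1, one_pos, by rw [ht]; exact le_top⟩
    · exact ⟨ε.toReal, ENNReal.toReal_pos hε ht, (ENNReal.ofReal_toReal ht).le⟩
  have hct : c ≠ ⊤ := ne_top_of_le_ne_top ENNReal.one_ne_top hc1
  have hdt : c1 ≠ ⊤ := ne_top_of_le_ne_top ENNReal.one_ne_top hd1
  obtain ⟨x, hx0, hx1, hxc⟩ : ∃ x : ℝ, 0 < x ∧ x ≤ 1 ∧ c = ENNReal.ofReal x :=
    ⟨c.toReal, ENNReal.toReal_pos hc hct, by
      simpa using ENNReal.toReal_mono ENNReal.one_ne_top hc1, (ENNReal.ofReal_toReal hct).symm⟩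
  obtain ⟨y, hy0, hy1, hyc⟩ : ∃ y : ℝ, 0 < y ∧ y ≤ 1 ∧ c1 = ENNReal.ofReal y :=
    ⟨c1.toReal, ENNReal.toReal_pos hd hdt, by
      simpa using ENNReal.toReal_mono ENNReal.one_ne_top hd1, (ENNReal.ofReal_toReal hdt).symm⟩
  have ha : 0 < x * x := by positivity
  have hb : 0 < x * y * x := by positivity
  have hev := (real_num ha hb).eventually (gt_mem_nhds hδ0)
  obtain ⟨q, hq, hq1⟩ := (hev.and (eventually_ge_atTop 1)).exists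
  refine ⟨q, hq1, ?_⟩
  have hqr : (1:ℝ) ≤ q := by exact_mod_cast hq1
  have hq0 : (0:ℝ) < q := by linarith
  have hq4 : (1:ℝ) ≤ (q:ℝ) ^ 4 := one_le_pow₀ hqr
  have e4 : ((q : ℝ≥0∞) ^ 4)⁻¹ = ENNReal.ofReal (((q:ℝ) ^ 4)⁻¹) := by
    rw [ENNReal.ofReal_inv_of_pos (by positivity), ENNReal.ofReal_pow hq0.le,
      ENNReal.ofReal_natCast]
  have hxx : x * x ≤ 1 := by nlinarith
  have hxyx : x * y * x ≤ 1 := by
    have : x * y ≤ 1 := by nlinarith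
    nlinarith [mul_pos hx0 hy0]
  have hinv : ((q:ℝ) ^ 4)⁻¹ ≤ 1 := inv_le_one_of_one_le₀ hq4
  have hinv0 : 0 < ((q:ℝ) ^ 4)⁻¹ := by positivity
  have e1 : (1:ℝ≥0∞) - c * 1 * c = ENNReal.ofReal (1 - x * x) := by
    rw [hxc, mul_one, ← ENNReal.ofReal_mul hx0.le, ENNReal.ofReal_sub _ (by positivity),
      ENNReal.ofReal_one]
  have e2 : (1:ℝ≥0∞) - c * (c1 * ((q : ℝ≥0∞) ^ 4)⁻¹) * c
      = ENNReal.ofReal (1 - x * y * x * ((q:ℝ) ^ 4)⁻¹) := by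
    rw [hxc, hyc, e4, ← ENNReal.ofReal_mul hy0.le, ← ENNReal.ofReal_mul hx0.le,
      ← ENNReal.ofReal_mul (by positivity), ENNReal.ofReal_sub _ (by positivity),
      ENNReal.ofReal_one]
    congr 2
    ring
  have h1 : 0 ≤ 1 - x * x := by linarith
  have h2 : 0 ≤ 1 - x * y * x * ((q:ℝ) ^ 4)⁻¹ := by
    have : x * y * x * ((q:ℝ) ^ 4)⁻¹ ≤ 1 * 1 := by gcongr
    linarith
  have eq : (q : ℝ≥0∞) = ENNReal.ofReal (q:ℝ) := (ENNReal.ofReal_natCast q).symm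
  have eN : ((4 * (5 * q ^ 5 + 2) : ℕ) : ℝ≥0∞) = ENNReal.ofReal (4 * (5 * (q:ℝ) ^ 5 + 2)) := by
    rw [← ENNReal.ofReal_natCast]
    congr 1
    push_cast
    ring
  have etwo : (2 : ℝ≥0∞) = ENNReal.ofReal 2 := by simp
  rw [e1, e2, e4, eN, eq, etwo, ← ENNReal.ofReal_pow h1, ← ENNReal.ofReal_pow h2,
    ← ENNReal.ofReal_pow hinv0.le, ← ENNReal.ofReal_pow hq0.le,
    ← ENNReal.ofReal_mul (by norm_num), ← ENNReal.ofReal_mul (by norm_num),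
    ← ENNReal.ofReal_add (by positivity) (by positivity), ← ENNReal.ofReal_mul (by positivity),
    ← ENNReal.ofReal_add (by positivity) (by positivity), ← ENNReal.ofReal_mul (by positivity)]
  refine (ENNReal.ofReal_le_ofReal ?_).trans hδ
  refine le_trans ?_ hq.le
  -- real estimates
  have r1 : (1 - x * x) ^ q ≤ Real.exp (-(x * x)) ^ q := by
    refine pow_le_pow_left₀ h1 ?_ _
    have := Real.add_one_le_exp (-(x * x)); linarith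
  have r2 : (1 - x * y * x * ((q:ℝ) ^ 4)⁻¹) ^ (q ^ 5) ≤ Real.exp (-(x * y * x)) ^ q := by
    have : 1 - x * y * x * ((q:ℝ) ^ 4)⁻¹ ≤ Real.exp (-(x * y * x * ((q:ℝ) ^ 4)⁻¹)) := by
      have := Real.add_one_le_exp (-(x * y * x * ((q:ℝ) ^ 4)⁻¹)); linarith
    refine (pow_le_pow_left₀ h2 this _).trans ?_
    rw [← Real.exp_nat_mul, ← Real.exp_nat_mul]
    refine le_of_eq ?_
    congr 1
    push_cast
    field_simp
  have hq5 : (1:ℝ) ≤ (q:ℝ) ^ 5 := one_le_pow₀ hqr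
  have hN : 4 * (5 * (q:ℝ) ^ 5 + 2) ≤ 28 * (q:ℝ) ^ 5 := by linarith
  have r3 : (q:ℝ) ^ 5 * ((q:ℝ) ^ 2 * (((q:ℝ) ^ 4)⁻¹) ^ 2) = 1 / (q:ℝ) := by
    field_simp
  have p1 : 0 ≤ Real.exp (-(x * x)) ^ q := by positivity
  have p2 : 0 ≤ Real.exp (-(x * y * x)) ^ q := by positivity
  calc 4 * (5 * (q:ℝ) ^ 5 + 2) * (2 * (1 - x * x) ^ q
        + (q:ℝ) ^ 2 * ((((q:ℝ) ^ 4)⁻¹) ^ 2 + 2 * (1 - x * y * x * ((q:ℝ) ^ 4)⁻¹) ^ (q ^ 5)))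
      ≤ 28 * (q:ℝ) ^ 5 * (2 * Real.exp (-(x * x)) ^ q
        + (q:ℝ) ^ 2 * ((((q:ℝ) ^ 4)⁻¹) ^ 2 + 2 * Real.exp (-(x * y * x)) ^ q)) := by
        gcongr
    _ = 56 * ((q:ℝ) ^ 5 * Real.exp (-(x * x)) ^ q)
        + 28 * ((q:ℝ) ^ 5 * ((q:ℝ) ^ 2 * (((q:ℝ) ^ 4)⁻¹) ^ 2))
        + 56 * ((q:ℝ) ^ 7 * Real.exp (-(x * y * x)) ^ q) := by ring
    _ = _ := by rw [r3]

end Crest.Agent.R154.JNum
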