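import Crest.Agent.R154.AsmE_354
import Crest.Agent.R154.Dens_903
import Crest.Agent.R154.JNum_300

/-! Row 154 (helper737), ROAD 801: the last step of the assembly on 354's window (part a). -/

set_option autoImplicit false

namespace Crest.Agent.R154.AF737

open scoped ENNReal
open Crest.Agent.R154.B5A
open Crest.Agent.R154.Asm354
open Crest.Agent.R154.FP178 (fp overshoot)

section one
variable {B G : Type*} [AddCommGroup G] (Λ : B → ℝ≥0∞) (ht : B → ℕ) (z : B → G)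

open Classical in
lemma loc (h1 : ∀ b, 1 ≤ ht b) (hΛ : ∑' b, Λ b = 1) (T : ℕ) (u : ℝ≥0∞) (hu0 : u ≠ 0)
    (hu1 : u ≤ 1) : ∃ th : ℝ≥0∞, th ≠ 0 ∧ th ≤ 1 ∧ ∃ E : ℕ → Finset G,
      (∀ h, th * (E h).card ≤ 1) ∧
      (∑' V, (if fp ht T V ∧ Dp z V ∉ E (HT ht V) then LW Λ V else 0) ≤ u) ∧
      (∑' V, (if fp ht T V ∧ th < pl Λ ht z T (HT ht V) (Dp z V) then LW Λ V else 0) ≤ 1 - u) := by
  set p : ℕ × G → ℝ≥0∞ := fun q => pl Λ ht z T q.1 q.2 with hp
  have hp1 : ∑' q, p q = 1 := sum_pl_one Λ ht z h1 hΛ T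
  obtain ⟨th, t0, t1, tl, tg⟩ := Dens903.quantile p hp1 hu0 hu1
  have hsl : ∀ h, ∑' v, pl Λ ht z T h v ≤ 1 := by
    intro h
    refine le_trans ?_ hp1.le
    rw [ENNReal.tsum_prod']
    exact ENNReal.le_tsum (f := fun h => ∑' v, p (h, v)) h
  have hfin : ∀ h, {v | th ≤ pl Λ ht z T h v}.Finite := fun h =>
    Dens903.finite_level _ (ne_top_of_le_ne_top ENNReal.one_ne_top (hsl h)) t0
  refine ⟨th, t0, t1, fun h => (hfin h).toFinset, fun h => ?_, ?_, ?_⟩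
  · calc th * ((hfin h).toFinset.card : ℝ≥0∞) = ∑ v ∈ (hfin h).toFinset, th := by
          rw [Finset.sum_const, nsmul_eq_mul, mul_comm]
      _ ≤ ∑ v ∈ (hfin h).toFinset, pl Λ ht z T h v := Finset.sum_le_sum fun v hv => by
          simpa using hv
      _ ≤ ∑' v, pl Λ ht z T h v := ENNReal.sum_le_tsum _
      _ ≤ 1 := hsl h
  · refine le_trans (le_of_eq ?_) tl
    have := sum_pl Λ ht z T (fun h v => if pl Λ ht z T h v < th then 1 else 0)
    calc _ = ∑' V, (if fp ht T V then LW Λ V *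
            (if pl Λ ht z T (HT ht V) (Dp z V) < th then 1 else 0) else 0) := by
          refine tsum_congr fun V => ?_
          by_cases h : fp ht T V
          · by_cases h' : pl Λ ht z T (HT ht V) (Dp z V) < th
            · rw [if_pos ⟨h, by simpa using h'⟩, if_pos h, if_pos h', mul_one]
            · rw [if_neg (fun hh => h' (by simpa using hh.2)), if_pos h, if_neg h', mul_zero]
          · rw [if_neg (fun hh => h hh.1), if_neg h]
      _ = ∑' q, (p q * (if p q < th then 1 else 0)) := this.symm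
      _ = _ := tsum_congr fun q => by split_ifs <;> simp
  · have e1 := sum_pl Λ ht z T (fun h v => if pl Λ ht z T h v ≤ th then 1 else 0)
    have e2 : u ≤ ∑' V, (if fp ht T V then LW Λ V *
        (if pl Λ ht z T (HT ht V) (Dp z V) ≤ th then 1 else 0) else 0) := by
      rw [← e1]
      refine tg.trans (le_of_eq (tsum_congr fun q => ?_))
      show (if p q ≤ th then p q else 0) = p q * (if p q ≤ th then 1 else 0)
      split_ifs <;> simp
    refine ENNReal.le_sub_of_add_le_right (ne_top_of_le_ne_top ENNReal.one_ne_top hu1) ?_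
    refine (add_le_add le_rfl e2).trans ?_
    refine le_trans ?_ (sum_FP_eq Λ ht h1 hΛ T).le
    rw [← ENNReal.tsum_add]
    refine ENNReal.tsum_le_tsum fun V => ?_
    by_cases h : fp ht T V
    · by_cases h' : pl Λ ht z T (HT ht V) (Dp z V) ≤ th
      · rw [if_neg (fun hh => absurd hh.2 (not_lt.2 h')), if_pos h, if_pos h', if_pos h]; simp
      · rw [if_pos ⟨h, not_le.1 h'⟩, if_pos h, if_neg h', if_pos h]; simp
    · simp [h]

open Classical in
lemma dens2 (h1 : ∀ b, 1 ≤ ht b) (hΛ : ∑' b, Λ b = 1) (i0 : ℕ) (η : ℝ≥0∞)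
    (hη : ∀ a, ∑' L, (if fp ht a L ∧ a + i0 < HT ht L then LW Λ L else 0) ≤ η)
    (T : ℕ) (u : ℝ≥0∞) (hu0 : u ≠ 0) (hu1 : u ≤ 1) :
    ∃ (M : ℝ≥0∞) (E : ℕ → Finset G), (∀ h, M * (E h).card ≤ ((i0 + 1 : ℕ) : ℝ≥0∞) / u) ∧
      (∑' P, (if fp ht T P ∧ HT ht P ≤ T + i0 ∧ Dp z P ∉ E (HT ht P) then LW Λ P else 0) ≤ u) ∧
      ∀ J a, J * (T + i0) ≤ a → ∃ Gd : List B → Prop,
      (∀ h v, ∑' L, (if fp ht a L ∧ Gd L ∧ HT ht L = h ∧ Dp z L = v then LW Λ L else 0) ≤ M) ∧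
      ∑' L, (if fp ht a L ∧ ¬ Gd L then LW Λ L else 0) ≤ (1 - u) ^ J + J * η := by
  obtain ⟨th, t0, t1, E, hE, hn, ha⟩ := loc Λ ht z h1 hΛ T u hu0 hu1
  have hut : u ≠ ⊤ := ne_top_of_le_ne_top ENNReal.one_ne_top hu1
  refine ⟨((i0 + 1 : ℕ) : ℝ≥0∞) * th / u, E, fun h => ?_,
    le_trans (ENNReal.tsum_le_tsum fun V => ?_) hn,
    dens Λ ht z h1 hΛ i0 η hη T th (1 - u) _ ha tsub_le_self ?_⟩
  · calc ((i0 + 1 : ℕ) : ℝ≥0∞) * th / u * (E h).card
          = ((i0 + 1 : ℕ) : ℝ≥0∞) / u * (th * (E h).card) := by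
          rw [div_eq_mul_inv, div_eq_mul_inv]; ring
      _ ≤ ((i0 + 1 : ℕ) : ℝ≥0∞) / u * 1 := mul_le_mul' le_rfl (hE h)
      _ = _ := mul_one _
  · by_cases h : fp ht T V ∧ HT ht V ≤ T + i0 ∧ Dp z V ∉ E (HT ht V)
    · rw [if_pos h, if_pos ⟨h.1, h.2.2⟩]
    · rw [if_neg h]; exact zero_le
  · have e : u * (((i0 + 1 : ℕ) : ℝ≥0∞) * th / u) = ((i0 + 1 : ℕ) : ℝ≥0∞) * th :=
      ENNReal.mul_div_cancel hu0 hut
    set M : ℝ≥0∞ := ((i0 + 1 : ℕ) : ℝ≥0∞) * th / u with hM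
    calc ((i0 + 1 : ℕ) : ℝ≥0∞) * th + (1 - u) * M = u * M + (1 - u) * M := by rw [e]
      _ = (u + (1 - u)) * M := (add_mul _ _ _).symm
      _ = M := by rw [add_tsub_cancel_of_le hu1, one_mul]
      _ ≤ M := le_rfl

end one

end Crest.Agent.R154.AF737
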