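import Crest.Agent.R154.AFa_737

/-! Row 154 (helper737), ROAD 801: the last step of the assembly on 354's window (part b). -/

set_option autoImplicit false

namespace Crest.Agent.R154.AF737

open scoped ENNReal
open Crest.Agent.R154.B5A
open Crest.Agent.R154.Asm354
open Crest.Agent.R154.FP178 (fp overshoot)

section two
variable {BX BY G : Type*} [AddCommGroup G]
variable (ΛX : BX → ℝ≥0∞) (ΛY : BY → ℝ≥0∞) (hX : BX → ℕ) (hY : BY → ℕ) (zX : BX → G) (zY : BY → G)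
variable (sX : BX → Set (G × ℕ)) (sY : BY → Set (G × ℕ))

open Classical in
/-- the list sum of an event -/
noncomputable def SL (n : ℕ) (Q : List BX → List BY → Prop) : ℝ≥0∞ :=
  ∑' LX, ∑' LY, (if HT hX LX = n ∧ HT hY LY = n ∧ Q LX LY then LW ΛX LX * LW ΛY LY else 0)

lemma SL_mono (n : ℕ) (Q Q' : List BX → List BY → Prop) (h : ∀ L L', Q L L' → Q' L L') :
    SL ΛX ΛY hX hY n Q ≤ SL ΛX ΛY hX hY n Q' := by
  classical
  refine ENNReal.tsum_le_tsum fun L => ENNReal.tsum_le_tsum fun L' => ?_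
  by_cases h' : HT hX L = n ∧ HT hY L' = n ∧ Q L L'
  · rw [if_pos h', if_pos ⟨h'.1, h'.2.1, h _ _ h'.2.2⟩]
  · rw [if_neg h']; exact zero_le

lemma SL_or (n : ℕ) (Q Q' : List BX → List BY → Prop) :
    SL ΛX ΛY hX hY n (fun L L' => Q L L' ∨ Q' L L')
      ≤ SL ΛX ΛY hX hY n Q + SL ΛX ΛY hX hY n Q' := by
  classical
  unfold SL
  rw [← ENNReal.tsum_add]
  refine ENNReal.tsum_le_tsum fun L => ?_
  rw [← ENNReal.tsum_add]
  refine ENNReal.tsum_le_tsum fun L' => ?_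
  by_cases h' : HT hX L = n ∧ HT hY L' = n ∧ (Q L L' ∨ Q' L L')
  · rw [if_pos h']
    rcases h'.2.2 with h | h
    · rw [if_pos ⟨h'.1, h'.2.1, h⟩]; exact le_self_add
    · rw [if_pos (c := HT hX L = n ∧ HT hY L' = n ∧ Q' L L') ⟨h'.1, h'.2.1, h⟩]
      exact le_add_self
  · rw [if_neg h']; exact zero_le

lemma SL_false (n : ℕ) : SL ΛX ΛY hX hY n (fun _ _ => False) = 0 := by
  unfold SL
  simp

lemma SL_ex (n K : ℕ) (Q : ℕ → List BX → List BY → Prop) (c : ℝ≥0∞)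
    (h : ∀ j, j < K → SL ΛX ΛY hX hY n (Q j) ≤ c) :
    SL ΛX ΛY hX hY n (fun L L' => ∃ j, j < K ∧ Q j L L') ≤ K * c := by
  induction K with
  | zero =>
    refine (SL_mono ΛX ΛY hX hY n _ (fun _ _ => False) ?_).trans ?_
    · rintro L L' ⟨j, hj, -⟩; omega
    · rw [SL_false]; exact zero_le
  | succ K ih =>
    refine (SL_mono ΛX ΛY hX hY n _ (fun L L' => (∃ j, j < K ∧ Q j L L') ∨ Q K L L') ?_).trans ?_
    · rintro L L' ⟨j, hj, hq⟩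
      rcases Nat.lt_succ_iff_lt_or_eq.1 hj with h1 | rfl
      · exact Or.inl ⟨j, h1, hq⟩
      · exact Or.inr hq
    · refine (SL_or ΛX ΛY hX hY n _ _).trans ?_
      have e : ((K + 1 : ℕ) : ℝ≥0∞) * c = K * c + c := by push_cast; ring
      rw [e]
      exact add_le_add (ih fun j hj => h j (by omega)) (h K (by omega))

open Classical in
theorem window (h1X : ∀ b, 1 ≤ hX b) (h1Y : ∀ b, 1 ≤ hY b) (hΛX : ∑' b, ΛX b = 1)
    (hΛY : ∑' b, ΛY b = 1) (hsX : ∀ b, ∀ q ∈ sX b, 1 ≤ q.2 ∧ q.2 ≤ hX b)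
    (hsY : ∀ b, ∀ q ∈ sY b, 1 ≤ q.2 ∧ q.2 ≤ hY b) (i0 : ℕ) (η : ℝ≥0∞)
    (hηX : ∀ a, ∑' L, (if fp hX a L ∧ a + i0 < HT hX L then LW ΛX L else 0) ≤ η)
    (hηY : ∀ a, ∑' L, (if fp hY a L ∧ a + i0 < HT hY L then LW ΛY L else 0) ≤ η)
    (C : ℝ≥0∞) (us : ℕ → ℝ≥0∞)
    (h2 : H2 ΛX ΛY hX hY zX zY sX sY C us) (h3 : H3 ΛX ΛY hX hY zX zY sX sY C us)
    (u : ℝ≥0∞) (hu0 : u ≠ 0) (hu1 : u ≤ 1) (lam : ℝ≥0∞) (hlam : lam ≠ 0) (hlam' : lam ≠ ⊤)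
    (J s α T n : ℕ) (hα : J * (T + i0) ≤ α) (hn : α + 3 * i0 + T ≤ n) (w : G) :
    SL ΛX ΛY hX hY n (Ev hX hY zX zY sX sY w i0 s α T) ≤
      4 * η + (2 * ((1 - u) ^ J + J * η) + u * u + 2 * ((i0 + 1) ^ 4 : ℕ) *
        (C * (lam + ((i0 + 1 : ℕ) : ℝ≥0∞) / u * us s / lam + us s))) := by
  obtain ⟨MX, EX, hEX, hLX, hGX⟩ := dens2 ΛX hX zX h1X hΛX i0 η hηX T u hu0 hu1
  obtain ⟨MY, EY, hEY, hLY, hGY⟩ := dens2 ΛY hY zY h1Y hΛY i0 η hηY T u hu0 hu1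
  obtain ⟨GX, gX1, gX2⟩ := hGX J α hα
  obtain ⟨GY, gY1, gY2⟩ := hGY J (α + 2 * i0) (by omega)
  refine (to_pieces ΛX ΛY hX hY zX zY sX sY h1X h1Y hΛX hΛY hsX hsY i0 η hηX hηY s α T n hn
    w).trans (add_le_add le_rfl ?_)
  exact pieces ΛX ΛY hX hY zX zY sX sY h1X h1Y hΛX hΛY C us h2 h3 i0 s α T w GX GY MX MY _ u _
    lam hlam hlam' gX1 gY1 gX2 gY2 EX EY hLX hLY hEX hEY

/-- contact at a depth in `[a, a + s)` -/
def Sl (w : G) (a s : ℕ) (L : List BX) (L' : List BY) : Prop :=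
  ∃ k, a ≤ k ∧ k < a + s ∧ cts hX hY zX zY sX sY w L 0 L' 0 k

lemma cover (K T m i0 s : ℕ) (hT : 0 < T) (hK : m ≤ K * T) (hs : s ≤ T) (w : G) (L : List BX)
    (L' : List BY) (h : ∃ k, m < k ∧ k ≤ 2 * m ∧ cts hX hY zX zY sX sY w L 0 L' 0 k) :
    ∃ j, j < K ∧ (Ev hX hY zX zY sX sY w i0 s (m + j * T) T L L' ∨
      (Sl hX hY zX zY sX sY w (m + j * T + 1) (3 * i0 + s) L L' ∨
       Sl hX hY zX zY sX sY w (m + j * T + T - s + 1) (s + 2 * i0) L L')) := by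
  obtain ⟨k, h1, h2, hk⟩ := h
  obtain ⟨j, hj⟩ : ∃ j, j = (k - m - 1) / T := ⟨_, rfl⟩
  have e1 : T * j + (k - m - 1) % T = k - m - 1 := by rw [hj]; exact Nat.div_add_mod _ _
  have e2 : (k - m - 1) % T < T := Nat.mod_lt _ hT
  have e3 : T * j = j * T := Nat.mul_comm _ _
  rw [e3] at e1
  have hjK : j < K := by
    rw [hj]
    refine Nat.div_lt_of_lt_mul ?_
    rw [Nat.mul_comm] at hK
    omega
  refine ⟨j, hjK, ?_⟩
  by_cases hA : Sl hX hY zX zY sX sY w (m + j * T + 1) (3 * i0 + s) L L'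
  · exact Or.inr (Or.inl hA)
  by_cases hB : Sl hX hY zX zY sX sY w (m + j * T + T - s + 1) (s + 2 * i0) L L'
  · exact Or.inr (Or.inr hB)
  left
  have hA' : ∀ k, cts hX hY zX zY sX sY w L 0 L' 0 k → ¬ (m + j * T + 1 ≤ k ∧
      k < m + j * T + 1 + (3 * i0 + s)) := fun k hk hh => hA ⟨k, hh.1, hh.2, hk⟩
  have hB' : ∀ k, cts hX hY zX zY sX sY w L 0 L' 0 k → ¬ (m + j * T + T - s + 1 ≤ k ∧
      k < m + j * T + T - s + 1 + (s + 2 * i0)) := fun k hk hh => hB ⟨k, hh.1, hh.2, hk⟩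
  refine ⟨⟨k, ?_, ?_, hk⟩, fun k hk => ⟨?_, ?_⟩⟩
  · have := hA' k hk; omega
  · omega
  · have := hA' k hk; omega
  · have := hB' k hk; omega

end two

end Crest.Agent.R154.AF737
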