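import Crest.Agent.R154.AFb_737

/-! Row 154 (helper737), ROAD 801: the last step of the assembly on 354's window (part c). -/

set_option autoImplicit false

namespace Crest.Agent.R154.AF737

open scoped ENNReal
open Crest.Agent.R154.B5A
open Crest.Agent.R154.Asm354
open Crest.Agent.R154.FP178 (fp overshoot)

lemma over_small {B : Type*} (Λ : B → ℝ≥0∞) (ht : B → ℕ) (h1 : ∀ b, 1 ≤ ht b)
    (hΛ : ∑' b, Λ b = 1) (hm : ∑' b, Λ b * (ht b : ℝ≥0∞) ≠ ⊤) (η : ℝ≥0∞) (hη : η ≠ 0) :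
    ∃ i1 : ℕ, ∀ i, i1 ≤ i → ∀ a, ∑' L, (open Classical in
      if fp ht a L ∧ a + i < HT ht L then LW Λ L else 0) ≤ η := by
  rw [sum_tail Λ ht hΛ] at hm
  have h := ENNReal.tendsto_sum_nat_add (fun k => tail Λ ht k) hm
  obtain ⟨i1, hi1⟩ := Filter.eventually_atTop.1
    (h.eventually (ge_mem_nhds (bot_lt_iff_ne_bot.2 hη)))
  refine ⟨i1, fun i hi a => (overshoot Λ ht h1 (U_le_one Λ ht h1 hΛ) i a).trans ?_⟩
  refine le_trans (le_of_eq ?_) (hi1 i hi)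
  exact tsum_congr fun k => by rw [add_comm]

lemma pick_eta (A ε : ℝ≥0∞) (hA : A ≠ ⊤) (hε : ε ≠ 0) : ∃ η : ℝ≥0∞, η ≠ 0 ∧ A * η ≤ ε := by
  refine ⟨ε / (A + 1), ENNReal.div_ne_zero.2 ⟨hε, ENNReal.add_ne_top.2 ⟨hA, ENNReal.one_ne_top⟩⟩,
    le_trans (mul_le_mul' le_self_add le_rfl) ENNReal.mul_div_le⟩

lemma pick_lam (A D : ℝ≥0∞) (hA : A ≠ ⊤) (hD : D ≠ ⊤) (us : ℕ → ℝ≥0∞)
    (hus : ∀ η : ℝ≥0∞, η ≠ 0 → ∃ s, us s ≤ η) (ε : ℝ≥0∞) (hε : ε ≠ 0) :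
    ∃ (lam : ℝ≥0∞) (s : ℕ), lam ≠ 0 ∧ lam ≠ ⊤ ∧ A * (lam + D * us s / lam + us s) ≤ ε := by
  have hA3 : 3 * (A + 1) ≠ ⊤ := ENNReal.mul_ne_top (by norm_num)
    (ENNReal.add_ne_top.2 ⟨hA, ENNReal.one_ne_top⟩)
  have hA0 : 3 * (A + 1) ≠ 0 := mul_ne_zero (by norm_num) (by simp)
  have hε1 : min ε 1 ≠ 0 := by
    rw [← bot_eq_zero, Ne, min_eq_bot]
    simp [hε]
  have hεt : min ε 1 ≠ ⊤ := ne_top_of_le_ne_top ENNReal.one_ne_top (min_le_right _ _)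
  set lam : ℝ≥0∞ := min ε 1 / (3 * (A + 1)) with hlam
  have hl0 : lam ≠ 0 := ENNReal.div_ne_zero.2 ⟨hε1, hA3⟩
  have hl1 : lam ≠ ⊤ := ENNReal.div_ne_top hεt hA0
  have hD1 : D + 1 ≠ ⊤ := ENNReal.add_ne_top.2 ⟨hD, ENNReal.one_ne_top⟩
  have hb : lam * lam / (D + 1) ≠ 0 := ENNReal.div_ne_zero.2 ⟨mul_ne_zero hl0 hl0, hD1⟩
  obtain ⟨s, hs⟩ := hus (min lam (lam * lam / (D + 1))) (by
    rw [← bot_eq_zero, Ne, min_eq_bot]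
    rintro (h | h)
    · exact hl0 h
    · exact hb h)
  refine ⟨lam, s, hl0, hl1, ?_⟩
  have h1 : us s ≤ lam := hs.trans (min_le_left _ _)
  have h2 : D * us s / lam ≤ lam := by
    refine ENNReal.div_le_of_le_mul ?_
    calc D * us s ≤ (D + 1) * (lam * lam / (D + 1)) :=
          mul_le_mul' le_self_add (hs.trans (min_le_right _ _))
      _ ≤ lam * lam := ENNReal.mul_div_le
  calc A * (lam + D * us s / lam + us s) ≤ A * (lam + lam + lam) := by gcongr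
    _ = 3 * A * lam := by ring
    _ ≤ 3 * (A + 1) * lam := by gcongr; exact le_self_add
    _ ≤ min ε 1 := ENNReal.mul_div_le
    _ ≤ ε := min_le_left _ _

section two
variable {BX BY G : Type*} [AddCommGroup G]
variable (ΛX : BX → ℝ≥0∞) (ΛY : BY → ℝ≥0∞) (hX : BX → ℕ) (hY : BY → ℕ) (zX : BX → G) (zY : BY → G)
variable (sX : BX → Set (G × ℕ)) (sY : BY → Set (G × ℕ))

theorem kap (h1X : ∀ b, 1 ≤ hX b) (h1Y : ∀ b, 1 ≤ hY b) (hΛX : ∑' b, ΛX b = 1)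
    (hΛY : ∑' b, ΛY b = 1) (hmX : ∑' b, ΛX b * (hX b : ℝ≥0∞) ≠ ⊤)
    (hmY : ∑' b, ΛY b * (hY b : ℝ≥0∞) ≠ ⊤) (hsX : ∀ b, ∀ q ∈ sX b, 1 ≤ q.2 ∧ q.2 ≤ hX b)
    (hsY : ∀ b, ∀ q ∈ sY b, 1 ≤ q.2 ∧ q.2 ≤ hY b)
    (C : ℝ≥0∞) (hC : C ≠ ⊤) (us : ℕ → ℝ≥0∞) (hus : ∀ η : ℝ≥0∞, η ≠ 0 → ∃ s, us s ≤ η)
    (h2 : H2 ΛX ΛY hX hY zX zY sX sY C us) (h3 : H3 ΛX ΛY hX hY zX zY sX sY C us)
    (h5 : ∀ (s : ℕ) (η : ℝ≥0∞), η ≠ 0 → ∃ T, ∀ a, T ≤ a → ∀ n, ∀ w : G,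
      SL ΛX ΛY hX hY n (Sl hX hY zX zY sX sY w a s) ≤ η) (ε : ℝ≥0∞) (hε : ε ≠ 0) :
    ∃ M : ℕ, ∀ m, M ≤ m → ∃ n0 : ℕ, ∀ n, n0 ≤ n → ∀ w : G,
      SL ΛX ΛY hX hY n (fun L L' => ∃ k, m < k ∧ k ≤ 2 * m ∧
        cts hX hY zX zY sX sY w L 0 L' 0 k) ≤ ε := by
  have hε4 : ε / 4 ≠ 0 := ENNReal.div_ne_zero.2 ⟨hε, by norm_num⟩
  obtain ⟨q, hq1, hq⟩ := JNum.num 1 1 (ε / 4) one_ne_zero le_rfl one_ne_zero le_rfl hε4
  obtain ⟨J, hJ⟩ : ∃ J, J = q ^ 5 := ⟨_, rfl⟩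
  obtain ⟨K, hK⟩ : ∃ K, K = 2 * J := ⟨_, rfl⟩
  obtain ⟨u, hu⟩ : ∃ u : ℝ≥0∞, u = ((q : ℝ≥0∞) ^ 4)⁻¹ := ⟨_, rfl⟩
  have hu0 : u ≠ 0 := by
    rw [hu]; exact ENNReal.inv_ne_zero.2 (ENNReal.pow_ne_top (ENNReal.natCast_ne_top q))
  have hu1 : u ≤ 1 := by
    rw [hu, ENNReal.inv_le_one]; exact one_le_pow₀ (by exact_mod_cast hq1)
  have hJ1 : 1 ≤ J := by rw [hJ]; exact Nat.one_le_pow _ _ hq1
  have hN : (K : ℝ≥0∞) * (2 * (1 - u) ^ J + u * u) ≤ ε / 4 := by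
    refine le_trans (mul_le_mul' (Nat.cast_le.2 (by rw [hK, hJ]; omega)) ?_) hq
    simp only [one_mul, mul_one]
    rw [← hu, ← hJ]
    refine le_trans ?_ le_add_self
    have hq2 : (1 : ℝ≥0∞) ≤ (q : ℝ≥0∞) ^ 2 := one_le_pow₀ (by exact_mod_cast hq1)
    calc 2 * (1 - u) ^ J + u * u = 1 * (u ^ 2 + 2 * (1 - u) ^ J) := by ring
      _ ≤ _ := mul_le_mul' hq2 le_rfl
  obtain ⟨η, hη0, hη⟩ := pick_eta ((K : ℝ≥0∞) * (4 + 2 * J)) (ε / 4) (ENNReal.mul_ne_top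
    (ENNReal.natCast_ne_top _) (ENNReal.add_ne_top.2 ⟨by norm_num, ENNReal.mul_ne_top
      (by norm_num) (ENNReal.natCast_ne_top _)⟩)) hε4
  obtain ⟨iX, hiX⟩ := over_small ΛX hX h1X hΛX hmX η hη0
  obtain ⟨iY, hiY⟩ := over_small ΛY hY h1Y hΛY hmY η hη0
  obtain ⟨i0, hi0⟩ : ∃ i0, i0 = max iX iY := ⟨_, rfl⟩
  have hD : ((i0 + 1 : ℕ) : ℝ≥0∞) / u ≠ ⊤ := ENNReal.div_ne_top (ENNReal.natCast_ne_top _) hu0
  obtain ⟨lam, s, hl0, hl1, hls⟩ := pick_lam ((K : ℝ≥0∞) * (2 * ((i0 + 1) ^ 4 : ℕ) * C))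
    (((i0 + 1 : ℕ) : ℝ≥0∞) / u) (ENNReal.mul_ne_top (ENNReal.natCast_ne_top _)
      (ENNReal.mul_ne_top (ENNReal.mul_ne_top (by norm_num) (ENNReal.natCast_ne_top _)) hC)) hD us
      hus (ε / 4) hε4
  obtain ⟨ζ, hζ0, hζ⟩ := pick_eta ((K : ℝ≥0∞) * 2) (ε / 4) (ENNReal.mul_ne_top
    (ENNReal.natCast_ne_top _) (by norm_num)) hε4
  obtain ⟨T1, hT1⟩ := h5 (3 * i0 + s) ζ hζ0
  obtain ⟨T2, hT2⟩ := h5 (s + 2 * i0) ζ hζ0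
  refine ⟨T1 + T2 + K * (i0 + s + 1), fun m hm => ⟨2 * m + K + 3 * i0, fun n hn w => ?_⟩⟩
  obtain ⟨T, hT⟩ : ∃ T, T = m / K + 1 := ⟨_, rfl⟩
  have hK0 : 0 < K := by omega
  have e0 : K * (i0 + s + 1) ≤ m := by omega
  have e1 : K * T = K * (m / K) + K := by rw [hT]; ring
  have e2 : K * (m / K) ≤ m := Nat.mul_div_le _ _
  have hT0 : 0 < T := by rw [hT]; exact Nat.succ_pos _
  have hKT : m ≤ K * T := by rw [hT]; exact (Nat.lt_mul_div_succ m hK0).le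
  have hsT : s ≤ T := by
    have : s ≤ m / K := (Nat.le_div_iff_mul_le hK0).2 (by nlinarith)
    omega
  have hJT : J * (T + i0) ≤ m := by
    have a1 : K * (m / K) = 2 * (J * (m / K)) := by rw [hK]; ring
    have a2 : K * (i0 + s + 1) = 2 * (J * (i0 + 1)) + K * s := by rw [hK]; ring
    have a3 : J * (T + i0) = J * (m / K) + J * (i0 + 1) := by rw [hT]; ring
    omega
  refine (SL_mono ΛX ΛY hX hY n _ _ (fun L L' h => cover hX hY zX zY sX sY K T m i0 s hT0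
    hKT hsT w L L' h)).trans ?_
  refine (SL_ex ΛX ΛY hX hY n K _ ((4 * η + (2 * ((1 - u) ^ J + J * η) + u * u +
    2 * ((i0 + 1) ^ 4 : ℕ) * (C * (lam + ((i0 + 1 : ℕ) : ℝ≥0∞) / u * us s / lam + us s))))
      + (ζ + ζ)) (fun j hj => ?_)).trans ?_
  · have hjT : j * T + T ≤ K * T := by
      have : (j + 1) * T ≤ K * T := Nat.mul_le_mul_right _ hj
      have : (j + 1) * T = j * T + T := by ring
      omega
    refine (SL_or ΛX ΛY hX hY n _ _).trans (add_le_add (window ΛX ΛY hX hY zX zY sX sY h1X h1Y hΛX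
      hΛY hsX hsY i0 η (hiX i0 (by omega)) (hiY i0 (by omega)) C us h2 h3 u hu0 hu1 lam hl0 hl1
      J s (m + j * T) T n (by omega) (by omega) w) ((SL_or ΛX ΛY hX hY n _ _).trans
      (add_le_add (hT1 _ (by omega) n w) (hT2 _ (by omega) n w))))
  · calc (K : ℝ≥0∞) * ((4 * η + (2 * ((1 - u) ^ J + J * η) + u * u +
          2 * ((i0 + 1) ^ 4 : ℕ) * (C * (lam + ((i0 + 1 : ℕ) : ℝ≥0∞) / u * us s / lam + us s))))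
          + (ζ + ζ))
        = (K : ℝ≥0∞) * (2 * (1 - u) ^ J + u * u) + (K : ℝ≥0∞) * (4 + 2 * J) * η
          + (K : ℝ≥0∞) * (2 * ((i0 + 1) ^ 4 : ℕ) * C) *
            (lam + ((i0 + 1 : ℕ) : ℝ≥0∞) / u * us s / lam + us s) + (K : ℝ≥0∞) * 2 * ζ := by ring
      _ ≤ ε / 4 + ε / 4 + ε / 4 + ε / 4 :=
          add_le_add (add_le_add (add_le_add hN hη) hls) hζ
      _ = 4 * (ε / 4) := by ring
      _ = ε := ENNReal.mul_div_cancel (by norm_num) (by norm_num)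

end two

end Crest.Agent.R154.AF737
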