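import Crest.Agent.R154.FP_178

/-! Row 154, road 801, assembly (helper300), part A: sites of lists, decomposition of a list into
top part, piece, rest. -/

set_option autoImplicit false

namespace Crest.Agent.R154.As300

open scoped ENNReal
open Crest.Agent.R154.B5A Crest.Agent.R154.FP178

variable {B G : Type*} [AddCommGroup G]

/-- displacement of a list -/
def Dp (z : B → G) (L : List B) : G := (L.map z).sum

lemma Dp_append (z : B → G) (L L' : List B) : Dp z (L ++ L') = Dp z L + Dp z L' := by simp [Dp]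

/-- (position, depth) of the sites read by a list placed at `(x, a)` -/
def TT (h : B → ℕ) (z : B → G) (s : B → Set (G × ℕ)) : List B → G → ℕ → Set (G × ℕ)
  | [], _, _ => ∅
  | b :: L, x, a => {p | ∃ q ∈ s b, p = (x + q.1, a + q.2)} ∪ TT h z s L (x + z b) (a + h b)

variable (h : B → ℕ) (z : B → G) (s : B → Set (G × ℕ))

lemma TT_append (L L' : List B) (x : G) (a : ℕ) :
    TT h z s (L ++ L') x a = TT h z s L x a ∪ TT h z s L' (x + Dp z L) (a + HT h L) := by
  induction L generalizing x a with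
  | nil => simp [TT, Dp, HT]
  | cons b L ih =>
    rw [List.cons_append, TT, TT, ih, Set.union_assoc, HT_cons]
    have e1 : x + z b + Dp z L = x + Dp z (b :: L) := by simp [Dp, add_assoc]
    rw [e1, add_assoc a]

lemma TT_range (hs : ∀ b, ∀ q ∈ s b, 1 ≤ q.2 ∧ q.2 ≤ h b) (L : List B) (x : G) (a : ℕ)
    (p : G × ℕ) (hp : p ∈ TT h z s L x a) : a < p.2 ∧ p.2 ≤ a + HT h L := by
  induction L generalizing x a with
  | nil => simp [TT] at hp
  | cons b L ih =>
    rw [HT_cons]
    rcases hp with ⟨q, hq, rfl⟩ | hp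
    · have := hs b q hq
      simp only
      omega
    · have := ih _ _ hp
      omega

lemma TT_shift (L : List B) (x c : G) (a : ℕ) (p : G × ℕ) :
    p ∈ TT h z s L (x + c) a ↔ (p.1 - c, p.2) ∈ TT h z s L x a := by
  induction L generalizing x a with
  | nil => simp [TT]
  | cons b L ih =>
    rw [TT, TT, Set.mem_union, Set.mem_union, show x + c + z b = x + z b + c by abel, ih]
    refine or_congr ?_ Iff.rfl
    simp only [Set.mem_setOf_eq]
    constructor
    · rintro ⟨q, hq, rfl⟩
      exact ⟨q, hq, by simp only [Prod.mk.injEq, and_true]; abel⟩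
    · rintro ⟨q, hq, hp⟩
      rw [Prod.mk.injEq] at hp
      refine ⟨q, hq, Prod.ext ?_ hp.2⟩
      simp only
      rw [show x + c + q.1 = (x + q.1) + c by abel, ← hp.1]
      abel

variable (Λ : B → ℝ≥0∞) (ht : B → ℕ)

open Classical in
/-- good first passages -/
noncomputable def gw (i0 a : ℕ) (A : List B) : ℝ≥0∞ :=
  if fp ht a A ∧ HT ht A ≤ a + i0 then LW Λ A else 0

/-- overshoot tail -/
noncomputable def tl (i0 : ℕ) : ℝ≥0∞ := ∑' k, tail Λ ht (i0 + k)

lemma gw_sum (h1 : ∀ b, 1 ≤ ht b) (hΛ : ∑' b, Λ b ≤ 1) (i0 a : ℕ) : ∑' A, gw Λ ht i0 a A ≤ 1 := by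
  classical
  refine le_trans (ENNReal.tsum_le_tsum fun A => ?_) (sum_FP Λ ht h1 hΛ a)
  rw [gw]
  by_cases hA : fp ht a A ∧ HT ht A ≤ a + i0
  · rw [if_pos hA, if_pos hA.1]
  · rw [if_neg hA]; exact zero_le

open Classical in
theorem three (h1 : ∀ b, 1 ≤ ht b) (hΛ : ∑' b, Λ b ≤ 1) (hU : ∀ n, U Λ ht n ≤ 1)
    (a T i0 n : ℕ) (hn : a + i0 + T ≤ n) (F : List B → ℝ≥0∞) (hF : ∀ L, F L ≤ 1)
    (Φ : List B → List B → ℝ≥0∞)
    (hΦ : ∀ A P R, fp ht a A → HT ht A ≤ a + i0 → fp ht T P → HT ht P ≤ T + i0 →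
      F (A ++ (P ++ R)) ≤ Φ A P) :
    ∑' L, (if HT ht L = n then LW Λ L * F L else 0)
      ≤ 2 * tl Λ ht i0 + ∑' A, gw Λ ht i0 a A * ∑' P, gw Λ ht i0 T P * Φ A P := by
  have e0 : ∀ L : List B, (if HT ht L = n then LW Λ L * F L else 0)
      = if a ≤ HT ht L then LW Λ L * (if HT ht L = n then F L else 0) else 0 := by
    intro L
    by_cases hL : HT ht L = n
    · rw [if_pos hL, if_pos (by omega), if_pos hL]
    · rw [if_neg hL, if_neg hL]; simp
  rw [tsum_congr e0, split Λ ht h1 a]
  -- inner sums are at most one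
  have hin : ∀ (m : ℕ) (K : List B → List B), (∀ L, HT ht (K L) = m + HT ht L) →
      ∑' L, LW Λ L * (if HT ht (K L) = n then F (K L) else 0) ≤ 1 := by
    intro m K hK
    refine le_trans (ENNReal.tsum_le_tsum fun L => ?_) (hU (n - m))
    by_cases hL : HT ht (K L) = n
    · rw [if_pos hL, if_pos (by have := hK L; omega)]
      calc LW Λ L * F (K L) ≤ LW Λ L * 1 := mul_le_mul_right (hF _) _
        _ = _ := mul_one _
    · rw [if_neg hL, mul_zero]; exact zero_le
  -- the sum for a good top part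
  have hS : ∀ A, fp ht a A → HT ht A ≤ a + i0 →
      ∑' L, LW Λ L * (if HT ht (A ++ L) = n then F (A ++ L) else 0)
        ≤ tl Λ ht i0 + ∑' P, gw Λ ht i0 T P * Φ A P := by
    intro A hA hA2
    have e1 : ∀ L : List B, LW Λ L * (if HT ht (A ++ L) = n then F (A ++ L) else 0)
        = if T ≤ HT ht L then LW Λ L * (if HT ht (A ++ L) = n then F (A ++ L) else 0) else 0 := by
      intro L
      by_cases hL : HT ht (A ++ L) = n
      · rw [if_pos hL, if_pos]
        rw [HT_append] at hL; omega
      · rw [if_neg hL]; simp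
    rw [tsum_congr e1, split Λ ht h1 T]
    have e2 : ∀ P : List B, (if fp ht T P then LW Λ P * ∑' R, LW Λ R *
          (if HT ht (A ++ (P ++ R)) = n then F (A ++ (P ++ R)) else 0) else 0)
        ≤ (if fp ht T P ∧ T + i0 < HT ht P then LW Λ P else 0) + gw Λ ht i0 T P * Φ A P := by
      intro P
      by_cases hP : fp ht T P
      · rw [if_pos hP]
        by_cases hP2 : HT ht P ≤ T + i0
        · rw [gw, if_pos (⟨hP, hP2⟩ : fp ht T P ∧ HT ht P ≤ T + i0)]
          refine le_trans ?_ le_add_self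
          refine mul_le_mul_right ?_ _
          calc ∑' R, LW Λ R * (if HT ht (A ++ (P ++ R)) = n then F (A ++ (P ++ R)) else 0)
              ≤ ∑' R, (if HT ht R = n - HT ht A - HT ht P then LW Λ R else 0) * Φ A P := by
                refine ENNReal.tsum_le_tsum fun R => ?_
                by_cases hR : HT ht (A ++ (P ++ R)) = n
                · rw [if_pos hR, if_pos (by rw [HT_append, HT_append] at hR; omega)]
                  exact mul_le_mul_right (hΦ A P R hA hA2 hP hP2) _
                · rw [if_neg hR, mul_zero]; exact zero_le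
            _ = U Λ ht (n - HT ht A - HT ht P) * Φ A P := by rw [ENNReal.tsum_mul_right, U]
            _ ≤ 1 * Φ A P := mul_le_mul_left (hU _) _
            _ = Φ A P := one_mul _
        · rw [if_pos (⟨hP, by omega⟩ : fp ht T P ∧ T + i0 < HT ht P)]
          refine le_trans ?_ le_self_add
          calc _ ≤ LW Λ P * 1 := by
                refine mul_le_mul_right ?_ _
                exact hin (HT ht A + HT ht P) (fun R => A ++ (P ++ R)) (fun R => by
                  simp only [HT_append]; omega)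
            _ = _ := mul_one _
      · rw [if_neg hP]; exact zero_le
    refine (ENNReal.tsum_le_tsum e2).trans ?_
    rw [ENNReal.tsum_add]
    exact add_le_add (overshoot Λ ht h1 hU i0 T) le_rfl
  have e3 : ∀ A : List B, (if fp ht a A then LW Λ A * ∑' L, LW Λ L *
        (if HT ht (A ++ L) = n then F (A ++ L) else 0) else 0)
      ≤ (if fp ht a A ∧ a + i0 < HT ht A then LW Λ A else 0) + (gw Λ ht i0 a A * tl Λ ht i0
        + gw Λ ht i0 a A * ∑' P, gw Λ ht i0 T P * Φ A P) := by
    intro A
    by_cases hA : fp ht a A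
    · rw [if_pos hA]
      by_cases hA2 : HT ht A ≤ a + i0
      · rw [gw, if_pos (⟨hA, hA2⟩ : fp ht a A ∧ HT ht A ≤ a + i0), ← mul_add]
        exact (mul_le_mul_right (hS A hA hA2) _).trans le_add_self
      · rw [if_pos (⟨hA, by omega⟩ : fp ht a A ∧ a + i0 < HT ht A)]
        refine le_trans ?_ le_self_add
        calc _ ≤ LW Λ A * 1 := by
              refine mul_le_mul_right ?_ _
              exact hin (HT ht A) (fun L => A ++ L) (fun L => HT_append _ _ _)
          _ = _ := mul_one _
    · rw [if_neg hA]; exact zero_le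
  refine (ENNReal.tsum_le_tsum e3).trans ?_
  rw [ENNReal.tsum_add, ENNReal.tsum_add, ENNReal.tsum_mul_right, ← add_assoc, two_mul]
  refine add_le_add (add_le_add (overshoot Λ ht h1 hU i0 a) ?_) le_rfl
  calc _ ≤ 1 * tl Λ ht i0 := mul_le_mul_left (gw_sum Λ ht h1 hΛ i0 a) _
    _ = _ := one_mul _

end Crest.Agent.R154.As300
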