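import Crest.Agent.R154.FP_178
import Crest.Agent.R154.Dens_903

/-! Row 154 (helper568), ROAD 801, assembly part A: attempts (first passage pieces) as an alphabet,
reduction of the sum over lists of height `n` to `J` independent attempts, union bounds. -/

set_option autoImplicit false

namespace Crest.Agent.R154.AsA568

open scoped ENNReal Classical
open Crest.Agent.R154.B5A Crest.Agent.R154.FP178

variable {B G : Type*} (Λ : B → ℝ≥0∞) (ht : B → ℕ)

/-- attempts: first passage pieces of height at least `T` -/
abbrev At (ht : B → ℕ) (T : ℕ) : Type _ := ↥{A : List B | fp ht T A}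

/-- weight of an attempt -/
noncomputable def wA (Λ : B → ℝ≥0∞) (ht : B → ℕ) (T : ℕ) : At ht T → ℝ≥0∞ := fun A => LW Λ A.1

/-- flattening -/
def fl {ht : B → ℕ} {T : ℕ} : List (At ht T) → List B
  | [] => []
  | A :: L => A.1 ++ fl L

lemma fl_append {ht : B → ℕ} {T : ℕ} (L L' : List (At ht T)) : fl (L ++ L') = fl L ++ fl L' := by
  induction L with
  | nil => rfl
  | cons A L ih => simp only [List.cons_append, fl, ih, List.append_assoc]

lemma tsum_At (T : ℕ) (F : List B → ℝ≥0∞) :
    ∑' A : At ht T, F A.1 = ∑' A : List B, (if fp ht T A then F A else 0) := by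
  have := tsum_subtype {A : List B | fp ht T A} F
  rw [this]
  refine tsum_congr fun A => ?_
  by_cases h : fp ht T A
  · rw [Set.indicator_of_mem (by exact h), if_pos h]
  · rw [Set.indicator_of_notMem (by exact h), if_neg h]

lemma len_le (h1 : ∀ b, 1 ≤ ht b) : ∀ (A : List B) (T : ℕ), fp ht T A → A.length ≤ T := by
  intro A
  induction A with
  | nil => intro T _; exact Nat.zero_le _
  | cons b A ih =>
    intro T h
    rw [fp_cons] at h
    have := ih _ h.2
    have := h1 b
    rw [List.length_cons]; omega

theorem step (h1 : ∀ b, 1 ≤ ht b) (hΛ : ∑' b, Λ b = 1) (T : ℕ) : ∀ (N : ℕ) (F : List B → ℝ≥0∞),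
    T ≤ N → SL Λ N F
      = ∑' A, (if fp ht T A then LW Λ A * SL Λ (N - A.length) (fun R => F (A ++ R)) else 0) := by
  induction T using Nat.strong_induction_on with
  | _ T ih =>
    intro N F hN
    rcases Nat.eq_zero_or_pos T with rfl | hT
    · rw [sum_fp_zero Λ ht (fun A => SL Λ (N - A.length) (fun R => F (A ++ R)))]
      simp
    · obtain ⟨N', rfl⟩ : ∃ N', N = N' + 1 := ⟨N - 1, by omega⟩
      rw [sum_fp_step Λ ht T hT (fun A => SL Λ (N' + 1 - A.length) (fun R => F (A ++ R))), SL_succ]
      refine tsum_congr fun b => ?_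
      have := h1 b
      rw [ih (T - ht b) (by omega) N' (fun L => F (b :: L)) (by omega)]
      congr 1
      refine tsum_congr fun A => ?_
      rw [List.length_cons, show N' + 1 - (A.length + 1) = N' - A.length by omega]
      rfl

theorem SL_le (h1 : ∀ b, 1 ≤ ht b) (hΛ : ∑' b, Λ b = 1) (T : ℕ) : ∀ (J N : ℕ) (F : List B → ℝ≥0∞),
    J * T ≤ N → SL Λ N F ≤ SL (wA Λ ht T) J (fun L => ⨆ R, F (fl L ++ R)) := by
  intro J
  induction J with
  | zero =>
    intro N F _
    rw [SL_zero]
    calc SL Λ N F ≤ SL Λ N (fun _ => ⨆ R, F R) := SL_mono Λ N fun L _ => le_iSup F L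
      _ = ⨆ R, F R := SL_const Λ hΛ N _
      _ = _ := by simp [fl]
  | succ J ih =>
    intro N F hN
    have hTN : T ≤ N := by nlinarith
    rw [step Λ ht h1 hΛ T N F hTN, SL_succ]
    have e := tsum_At ht T (fun A => LW Λ A * SL (wA Λ ht T) J
      (fun L => ⨆ R, F (A ++ (fl L ++ R))))
    calc _ ≤ ∑' A : List B, (if fp ht T A then LW Λ A * SL (wA Λ ht T) J
            (fun L => ⨆ R, F (A ++ (fl L ++ R))) else 0) := by
          refine ENNReal.tsum_le_tsum fun A => ?_
          by_cases h : fp ht T A
          · rw [if_pos h, if_pos h]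
            refine mul_le_mul_right ?_ _
            refine ih (N - A.length) (fun R => F (A ++ R)) ?_
            have := len_le ht h1 A T h
            have h2 : (J + 1) * T = J * T + T := by ring
            omega
          · rw [if_neg h, if_neg h]
      _ = ∑' A : At ht T, LW Λ A.1 * SL (wA Λ ht T) J (fun L => ⨆ R, F (A.1 ++ (fl L ++ R))) :=
          e.symm
      _ = _ := by
          refine tsum_congr fun A => ?_
          simp only [wA, fl, List.append_assoc]

lemma wA_one (h1 : ∀ b, 1 ≤ ht b) (hΛ : ∑' b, Λ b = 1) (T : ℕ) : ∑' A, wA Λ ht T A = 1 := by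
  have h := step Λ ht h1 hΛ T T (fun _ => 1) le_rfl
  rw [SL_one Λ hΛ] at h
  have e := tsum_At ht T (fun A => LW Λ A)
  simp only [wA]
  rw [e, h]
  refine tsum_congr fun A => ?_
  rw [SL_one Λ hΛ, mul_one]

theorem red (h1 : ∀ b, 1 ≤ ht b) (hΛ : ∑' b, Λ b = 1) : ∀ (n N : ℕ) (f : List B → ℝ≥0∞), n ≤ N →
    (∀ L R, f L ≤ f (L ++ R)) →
    ∑' L, (if HT ht L = n then LW Λ L * f L else 0) ≤ SL Λ N f := by
  intro n
  induction n using Nat.strong_induction_on with
  | _ n ih =>
    intro N f hN hf
    rcases Nat.eq_zero_or_pos n with rfl | hn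
    · rw [tsum_eq_single ([] : List B)]
      · rw [if_pos (HT_nil ht), LW_nil, one_mul]
        calc f [] = SL Λ N (fun _ => f []) := (SL_const Λ hΛ N _).symm
          _ ≤ SL Λ N f := SL_mono Λ N fun L _ => hf [] L
      · intro L hL
        rw [if_neg]
        intro h0
        apply hL
        have := length_le_HT ht h1 L
        exact List.length_eq_zero_iff.1 (by omega)
    · obtain ⟨N', rfl⟩ : ∃ N', N = N' + 1 := ⟨N - 1, by omega⟩
      rw [tsum_list, if_neg (by rw [HT_nil]; omega), zero_add, SL_succ]
      refine ENNReal.tsum_le_tsum fun b => ?_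
      have hb := h1 b
      by_cases hbn : ht b ≤ n
      · have := ih (n - ht b) (by omega) N' (fun L => f (b :: L)) (by omega)
          (fun L R => by simpa using hf (b :: L) R)
        calc _ = ∑' L, Λ b * (if HT ht L = n - ht b then LW Λ L * f (b :: L) else 0) := by
              refine tsum_congr fun L => ?_
              rw [HT_cons, LW_cons]
              by_cases h : ht b + HT ht L = n
              · rw [if_pos h, if_pos (by omega), mul_assoc]
              · rw [if_neg h, if_neg (by omega), mul_zero]
          _ = Λ b * ∑' L, (if HT ht L = n - ht b then LW Λ L * f (b :: L) else 0) :=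
              ENNReal.tsum_mul_left
          _ ≤ _ := mul_le_mul_right this _
      · have e0 : ∑' L : List B, (if HT ht (b :: L) = n then LW Λ (b :: L) * f (b :: L) else 0)
            = 0 := by
          refine ENNReal.tsum_eq_zero.2 fun L => ?_
          rw [HT_cons, if_neg (by omega)]
        rw [e0]; exact zero_le

/-! ### union bounds for `SL` on any alphabet -/

section gen

variable {A : Type*} (w : A → ℝ≥0∞)

lemma SL_tsum {ι : Type*} (j : ℕ) (F : ι → List A → ℝ≥0∞) :
    SL w j (fun L => ∑' x, F x L) = ∑' x, SL w j (F x) := by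
  simp only [SL]
  rw [ENNReal.tsum_comm]
  refine tsum_congr fun L => ?_
  by_cases h : L.length = j
  · simp only [h, if_true]; rw [ENNReal.tsum_mul_left]
  · simp [h]

lemma SL_finset {ι : Type*} (s : Finset ι) (j : ℕ) (F : ι → List A → ℝ≥0∞) :
    SL w j (fun L => ∑ x ∈ s, F x L) = ∑ x ∈ s, SL w j (F x) := by
  induction s using Finset.induction_on with
  | empty =>
    simp only [Finset.sum_empty]
    simp [SL]
  | insert a s ha ih =>
    simp only [Finset.sum_insert ha]
    rw [SL_add_fun, ih]

lemma SL_exists_le (hw : ∑' a, w a = 1) (P : A → Prop) (j : ℕ) :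
    SL w j (fun L => if ∃ a ∈ L, P a then 1 else 0) ≤ j * ∑' a, (if P a then w a else 0) := by
  induction j with
  | zero => rw [SL_zero]; simp
  | succ j ih =>
    rw [SL_succ]
    calc _ ≤ ∑' a, ((if P a then w a else 0)
            + w a * SL w j (fun L => if ∃ a ∈ L, P a then 1 else 0)) := by
          refine ENNReal.tsum_le_tsum fun a => ?_
          by_cases h : P a
          · rw [if_pos h]
            calc _ ≤ w a * SL w j (fun _ => 1) := by
                  refine mul_le_mul_right (SL_mono w j fun L _ => ?_) _
                  split_ifs <;> simp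
              _ = w a := by rw [SL_one w hw, mul_one]
              _ ≤ _ := le_self_add
          · rw [if_neg h, zero_add]
            refine mul_le_mul_right (SL_mono w j fun L _ => ?_) _
            by_cases h2 : ∃ a ∈ L, P a
            · rw [if_pos h2]; split_ifs <;> simp
            · rw [if_neg h2, if_neg]
              simp only [List.mem_cons, exists_eq_or_imp, not_or]
              exact ⟨h, h2⟩
      _ = (∑' a, if P a then w a else 0) + SL w j (fun L => if ∃ a ∈ L, P a then 1 else 0) := by
          rw [ENNReal.tsum_add, ENNReal.tsum_mul_right, hw, one_mul]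
      _ ≤ (∑' a, if P a then w a else 0) + j * ∑' a, (if P a then w a else 0) := by gcongr
      _ = _ := by push_cast; ring

lemma SL_forall_le (P : A → Prop) (j : ℕ) :
    SL w j (fun L => if ∀ a ∈ L, P a then 1 else 0) ≤ (∑' a, (if P a then w a else 0)) ^ j := by
  induction j with
  | zero => rw [SL_zero]; simp
  | succ j ih =>
    rw [SL_succ, pow_succ, mul_comm, ← ENNReal.tsum_mul_right]
    refine ENNReal.tsum_le_tsum fun a => ?_
    by_cases h : P a
    · rw [if_pos h]
      refine mul_le_mul_right (le_trans (SL_mono w j fun L _ => ?_) ih) _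
      by_cases h2 : ∀ a ∈ L, P a
      · rw [if_pos h2]; split_ifs <;> simp
      · rw [if_neg h2, if_neg]
        simp only [List.mem_cons, forall_eq_or_imp, not_and]
        exact fun _ => h2
    · rw [if_neg h, zero_mul]
      have : SL w j (fun L => if ∀ a_1 ∈ a :: L, P a_1 then (1 : ℝ≥0∞) else 0) = 0 := by
        refine le_antisymm ?_ zero_le
        calc _ ≤ SL w j (fun _ => 0 * 1) := SL_mono w j fun L _ => by
              rw [if_neg]
              · exact zero_le
              · simp only [List.mem_cons, forall_eq_or_imp, not_and]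
                exact fun h' => absurd h' h
          _ = 0 := by rw [SL_const_mul, zero_mul]
      rw [this, mul_zero]

/-- one low letter makes the sum spread -/
lemma SL_dens [AddCommGroup G] (hw : ∑' a, w a = 1) (D : A → G) (Q : A → Prop) (M : ℝ≥0∞)
    (hM : ∀ y, ∑' a, (if Q a ∧ D a = y then w a else 0) ≤ M) (j : ℕ) : ∀ y : G,
    SL w j (fun L => if (∃ a ∈ L, Q a) ∧ (L.map D).sum = y then 1 else 0) ≤ j * M := by
  induction j with
  | zero => intro y; rw [SL_zero]; simp
  | succ j ih =>
    intro y
    rw [SL_succ]
    calc _ ≤ ∑' a, (w a * SL w j (fun L => if Q a ∧ D a = y - (L.map D).sum then 1 else 0)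
            + w a * SL w j (fun L => if (∃ a ∈ L, Q a) ∧ (L.map D).sum = y - D a then 1 else 0)) := by
          refine ENNReal.tsum_le_tsum fun a => ?_
          rw [← mul_add, ← SL_add_fun]
          refine mul_le_mul_right (SL_mono w j fun L _ => ?_) _
          by_cases h : (∃ a_1 ∈ a :: L, Q a_1) ∧ (List.map D (a :: L)).sum = y
          · rw [if_pos h]
            obtain ⟨h3, h4⟩ := h
            rw [List.map_cons, List.sum_cons] at h4
            simp only [List.mem_cons, exists_eq_or_imp] at h3
            rcases h3 with h3 | h3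
            · rw [if_pos (show Q a ∧ D a = y - (L.map D).sum from ⟨h3, by rw [← h4]; abel⟩)]
              exact le_self_add
            · rw [if_pos (show (∃ a ∈ L, Q a) ∧ (L.map D).sum = y - D a from
                ⟨h3, by rw [← h4]; abel⟩)]
              exact le_add_self
          · rw [if_neg h]; exact zero_le
      _ = SL w j (fun L => ∑' a, (if Q a ∧ D a = y - (L.map D).sum then w a else 0))
            + ∑' a, w a * SL w j
              (fun L => if (∃ a ∈ L, Q a) ∧ (L.map D).sum = y - D a then 1 else 0) := by
          rw [ENNReal.tsum_add, SL_tsum]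
          congr 1
          refine tsum_congr fun a => ?_
          rw [← SL_const_mul]
          refine SL_congr w j fun L _ => ?_
          split_ifs <;> simp
      _ ≤ SL w j (fun _ => M) + ∑' a, w a * (j * M) :=
          add_le_add (SL_mono w j fun L _ => hM _)
            (ENNReal.tsum_le_tsum fun a => mul_le_mul_right (ih _) _)
      _ = _ := by rw [SL_const w hw, ENNReal.tsum_mul_right, hw]; push_cast; ring

/-- extraction of the `j`-th letter -/
lemma SL_extract (hw : ∑' a, w a = 1) (j r : ℕ) (F : List A → ℝ≥0∞) (g : List A → A → ℝ≥0∞)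
    (h : ∀ L a R, L.length = j → F (L ++ a :: R) ≤ g L a) :
    SL w (j + (r + 1)) F ≤ SL w j (fun L => ∑' a, w a * g L a) := by
  rw [SL_add]
  refine SL_mono w j fun L hL => ?_
  rw [SL_succ]
  refine ENNReal.tsum_le_tsum fun a => mul_le_mul_right ?_ _
  calc _ ≤ SL w r (fun _ => g L a) := SL_mono w r fun R _ => h L a R hL
    _ = g L a := SL_const w hw r _

end gen

end Crest.Agent.R154.AsA568
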