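import Mathlib

/-! Row 154, road 801 (helper300): dyadic quantile and the selection of the constants. -/

set_option autoImplicit false

namespace Crest.Agent.R154.Sel300

open scoped ENNReal Topology
open Filter

/-- dyadic quantile: no quantile needed -/
theorem dyq {ι : Type*} (p : ι → ℝ≥0∞) (hp : ∑' i, p i ≤ 1) {u : ℝ≥0∞} (hu : u ≠ 0) :
    ∃ k : ℕ, (∑' i, (if p i < (2 ^ k)⁻¹ then p i else 0)) ≤ u ∧
      (k = 0 ∨ u ≤ ∑' i, (if p i ≤ 2 * (2 ^ k)⁻¹ then p i else 0)) ∧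
      {i | (2 ^ k)⁻¹ ≤ p i}.Finite ∧ {i | (2 ^ k)⁻¹ ≤ p i}.ncard ≤ 2 ^ k := by
  classical
  have hpt : ∑' i, p i ≠ ⊤ := ne_top_of_le_ne_top ENNReal.one_ne_top hp
  -- existence
  have hex : ∃ k : ℕ, (∑' i, (if p i < (2 ^ k : ℝ≥0∞)⁻¹ then p i else 0)) ≤ u := by
    have h0 := ENNReal.tendsto_tsum_compl_atTop_zero hpt
    have h1 : ∀ᶠ s : Finset ι in atTop, ∑' i : {i // i ∉ s}, p i < u :=
      h0.eventually_lt_const (pos_iff_ne_zero.2 hu)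
    obtain ⟨s, hs⟩ := h1.exists
    -- choose k
    have h2 : ∀ s : Finset ι, ∃ k : ℕ, ∀ i ∈ s, p i ≠ 0 → (2 ^ k : ℝ≥0∞)⁻¹ ≤ p i := by
      intro s
      induction s using Finset.induction_on with
      | empty => exact ⟨0, by simp⟩
      | insert a s _ ih =>
        obtain ⟨k, hk⟩ := ih
        by_cases ha : p a = 0
        · refine ⟨k, fun i hi hi0 => ?_⟩
          rcases Finset.mem_insert.1 hi with rfl | h
          · exact absurd ha hi0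
          · exact hk i h hi0
        · obtain ⟨m, hm⟩ := ENNReal.exists_inv_two_pow_lt ha
          refine ⟨max k m, fun i hi hi0 => ?_⟩
          have e1 : (2 ^ max k m : ℝ≥0∞)⁻¹ ≤ (2 ^ k)⁻¹ :=
            ENNReal.inv_le_inv.2 (pow_le_pow_right₀ (by norm_num) (le_max_left _ _))
          have e2 : (2 ^ max k m : ℝ≥0∞)⁻¹ ≤ (2 ^ m)⁻¹ :=
            ENNReal.inv_le_inv.2 (pow_le_pow_right₀ (by norm_num) (le_max_right _ _))
          rcases Finset.mem_insert.1 hi with rfl | h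
          · refine e2.trans ?_
            rw [ENNReal.inv_pow]
            exact hm.le
          · exact e1.trans (hk i h hi0)
    obtain ⟨k, hk⟩ := h2 s
    refine ⟨k, le_trans ?_ hs.le⟩
    rw [← tsum_subtype_eq_of_support_subset (s := {i | i ∉ s})]
    · refine ENNReal.tsum_le_tsum fun i => ?_
      split_ifs
      · exact le_rfl
      · exact zero_le
    · intro i hi
      simp only [Function.mem_support, ne_eq, ite_eq_right_iff, Classical.not_imp] at hi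
      intro his
      exact absurd (hk i his hi.2) (not_le.2 hi.1)
  have hfin : ∀ k : ℕ, {i | (2 ^ k : ℝ≥0∞)⁻¹ ≤ p i}.Finite ∧
      {i | (2 ^ k : ℝ≥0∞)⁻¹ ≤ p i}.ncard ≤ 2 ^ k := by
    intro k
    have hk0 : (2 ^ k : ℝ≥0∞)⁻¹ ≠ 0 := by
      rw [ne_eq, ENNReal.inv_eq_zero]
      exact ENNReal.pow_ne_top (by norm_num)
    obtain ⟨hf, hc⟩ := ENNReal.finset_card_const_le_le_of_tsum_le ENNReal.one_ne_top hp hk0
    refine ⟨hf, ?_⟩
    rw [Set.ncard_eq_toFinset_card _ hf]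
    have : ((hf.toFinset.card : ℕ) : ℝ≥0∞) ≤ ((2 ^ k : ℕ) : ℝ≥0∞) := by
      refine hc.trans ?_
      rw [one_div, inv_inv]
      simp
    exact_mod_cast this
  set k := Nat.find hex with hkdef
  refine ⟨k, Nat.find_spec hex, ?_, (hfin k).1, (hfin k).2⟩
  by_cases hk : k = 0
  · exact Or.inl hk
  · right
    have hlt : k - 1 < Nat.find hex := by omega
    have := Nat.find_min hex hlt
    rw [not_le] at this
    refine this.le.trans (ENNReal.tsum_le_tsum fun i => ?_)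
    have e : (2 ^ (k - 1) : ℝ≥0∞)⁻¹ = 2 * (2 ^ k)⁻¹ := by
      obtain ⟨j, hj⟩ : ∃ j, k = j + 1 := ⟨k - 1, by omega⟩
      rw [hj]
      simp only [Nat.add_sub_cancel]
      rw [pow_succ, ENNReal.mul_inv (by simp) (by simp), mul_comm (2 ^ j : ℝ≥0∞)⁻¹, ← mul_assoc,
        ENNReal.mul_inv_cancel (by norm_num) (by norm_num), one_mul]
    split_ifs with h1 h2
    · exact le_rfl
    · rw [e] at h1
      exact absurd h1.le h2
    · exact zero_le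
    · exact zero_le

lemma real_sel (C D : ℝ) :
    Tendsto (fun n : ℕ => C * (D * (n:ℝ) ^ 3) * (((1 / (n:ℝ) ^ 2)) ^ 2 + Real.exp (-(n:ℝ))))
      atTop (𝓝 0) := by
  have h1 : Tendsto (fun n : ℕ => (C * D) * (1 / (n:ℝ))) atTop (𝓝 0) := by
    have := (tendsto_one_div_atTop_nhds_zero_nat (𝕜 := ℝ)).const_mul (C * D)
    simpa using this
  have h2 : Tendsto (fun n : ℕ => (C * D) * ((n:ℝ) ^ 3 * Real.exp (-(n:ℝ)))) atTop (𝓝 0) := by
    have := ((Real.tendsto_pow_mul_exp_neg_atTop_nhds_zero 3).comp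
      tendsto_natCast_atTop_atTop).const_mul (C * D)
    simpa using this
  have h3 := h1.add h2
  rw [add_zero] at h3
  refine h3.congr' ?_
  filter_upwards [eventually_ge_atTop 1] with n hn
  have hn' : (n:ℝ) ≠ 0 := by positivity
  field_simp

/-- first selection: non-local pairs and missing low attempts -/
theorem sel (C D K0 : ℕ) (hD : 1 ≤ D) {ε : ℝ≥0∞} (hε : ε ≠ 0) :
    ∃ (u : ℝ≥0∞) (K : ℕ), u ≠ 0 ∧ u ≤ 1 ∧ K0 ≤ K ∧
      (C : ℝ≥0∞) * K * (u ^ 2 + (1 - u) ^ (K / D)) ≤ ε := by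
  obtain ⟨δ, hδ0, hδ⟩ : ∃ δ : ℝ, 0 < δ ∧ ENNReal.ofReal δ ≤ ε := by
    by_cases ht : ε = ⊤
    · exact ⟨1, one_pos, by rw [ht]; exact le_top⟩
    · exact ⟨ε.toReal, ENNReal.toReal_pos hε ht, (ENNReal.ofReal_toReal ht).le⟩
  have hev := (real_sel C D).eventually (gt_mem_nhds hδ0)
  obtain ⟨n, hn, hn1⟩ := (hev.and (eventually_ge_atTop (max 1 K0))).exists
  have hn1' : 1 ≤ n := (le_max_left _ _).trans hn1
  have hK0 : K0 ≤ n := (le_max_right _ _).trans hn1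
  have hnr : (1:ℝ) ≤ n := by exact_mod_cast hn1'
  have hn0 : (0:ℝ) < n := by linarith
  refine ⟨ENNReal.ofReal (1 / (n:ℝ) ^ 2), D * n ^ 3, ?_, ?_, ?_, ?_⟩
  · rw [ne_eq, ENNReal.ofReal_eq_zero, not_le]; positivity
  · rw [ENNReal.ofReal_le_one]
    rw [div_le_one (by positivity)]
    nlinarith
  · calc K0 ≤ n := hK0
      _ ≤ n ^ 3 := Nat.le_self_pow (by norm_num) n
      _ ≤ D * n ^ 3 := Nat.le_mul_of_pos_left _ hD
  · have e0 : D * n ^ 3 / D = n ^ 3 := Nat.mul_div_cancel_left _ (by omega)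
    rw [e0]
    have e1 : (1:ℝ≥0∞) - ENNReal.ofReal (1 / (n:ℝ) ^ 2) = ENNReal.ofReal (1 - 1 / (n:ℝ) ^ 2) := by
      rw [ENNReal.ofReal_sub _ (by positivity), ENNReal.ofReal_one]
    have hb : 0 ≤ 1 - 1 / (n:ℝ) ^ 2 := by
      rw [sub_nonneg, div_le_one (by positivity)]; nlinarith
    rw [e1, ← ENNReal.ofReal_pow (by positivity), ← ENNReal.ofReal_pow hb,
      ← ENNReal.ofReal_add (by positivity) (by positivity)]
    have e2 : ((C : ℝ≥0∞) * ((D * n ^ 3 : ℕ) : ℝ≥0∞)) = ENNReal.ofReal (C * (D * (n:ℝ) ^ 3)) := by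
      rw [ENNReal.ofReal_mul (by positivity), ENNReal.ofReal_natCast]
      congr 1
      have : ((D:ℝ) * (n:ℝ) ^ 3) = ((D * n ^ 3 : ℕ) : ℝ) := by push_cast; ring
      rw [this, ENNReal.ofReal_natCast]
    rw [e2, ← ENNReal.ofReal_mul (by positivity)]
    refine (ENNReal.ofReal_le_ofReal ?_).trans hδ
    refine le_trans ?_ hn.le
    have h3 : (1 - 1 / (n:ℝ) ^ 2) ^ n ^ 3 ≤ Real.exp (-(n:ℝ)) := by
      have h4 : 1 - 1 / (n:ℝ) ^ 2 ≤ Real.exp (-(1 / (n:ℝ) ^ 2)) := by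
        have := Real.add_one_le_exp (-(1 / (n:ℝ) ^ 2)); linarith
      refine (pow_le_pow_left₀ hb h4 _).trans ?_
      rw [← Real.exp_nat_mul]
      refine le_of_eq ?_
      congr 1
      push_cast
      field_simp
    gcongr

/-- second selection: `i0`, `lam`, `s`, `t` in this order -/
theorem sel2 {c1 c2 c3 : ℝ≥0∞} (h1 : c1 ≠ ⊤) (h2 : c2 ≠ ⊤) (h3 : c3 ≠ ⊤)
    (c4 : ℕ → ℕ → ℝ≥0∞) (h4 : ∀ i s, c4 i s ≠ ⊤)
    (tl pt : ℕ → ℝ≥0∞) (us : ℕ → ℕ → ℝ≥0∞)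
    (htl : Tendsto tl atTop (𝓝 0)) (hpt : Tendsto pt atTop (𝓝 0))
    (hus : ∀ i, Tendsto (us i) atTop (𝓝 0)) (q : ℕ) {ε : ℝ≥0∞} (hε : ε ≠ 0) :
    ∃ (i0 : ℕ) (lam : ℝ≥0∞) (s t0 : ℕ), lam ≠ 0 ∧ lam ≠ ⊤ ∧ ∀ t, t0 ≤ t →
      c1 * tl i0 + c2 * ((i0 : ℝ≥0∞) + 1) ^ q * lam
        + c3 * ((i0 : ℝ≥0∞) + 1) ^ q * (us i0 s / lam + us i0 s) + c4 i0 s * pt t ≤ ε := by
  have hε4 : ε / 4 ≠ 0 := (ENNReal.div_pos hε (by norm_num)).ne'
  have H : ∀ (c : ℝ≥0∞) (f : ℕ → ℝ≥0∞), c ≠ ⊤ → Tendsto f atTop (𝓝 0) → ∀ η : ℝ≥0∞, η ≠ 0 →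
      ∃ n0, ∀ n, n0 ≤ n → c * f n ≤ η := by
    intro c f hc hf η hη
    have := ENNReal.Tendsto.const_mul hf (Or.inr hc)
    rw [mul_zero] at this
    exact eventually_atTop.1 ((this.eventually_lt_const (pos_iff_ne_zero.2 hη)).mono
      fun _ h => h.le)
  obtain ⟨i0, hi0⟩ := H c1 tl h1 htl _ hε4
  have hq : ((i0 : ℝ≥0∞) + 1) ^ q ≠ ⊤ :=
    ENNReal.pow_ne_top (ENNReal.add_ne_top.2 ⟨ENNReal.natCast_ne_top _, ENNReal.one_ne_top⟩)
  have hl : Tendsto (fun n : ℕ => ((n : ℝ≥0∞))⁻¹) atTop (𝓝 0) := ENNReal.tendsto_inv_nat_nhds_zero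
  obtain ⟨l0, hl0⟩ := H (c2 * ((i0 : ℝ≥0∞) + 1) ^ q) _ (ENNReal.mul_ne_top h2 hq) hl _ hε4
  set l := max l0 1
  have hl1 : (l : ℝ≥0∞) ≠ 0 := by
    have : 1 ≤ l := le_max_right _ _
    exact_mod_cast (by omega : l ≠ 0)
  set lam : ℝ≥0∞ := ((l : ℝ≥0∞))⁻¹ with hlam
  have hlam0 : lam ≠ 0 := ENNReal.inv_ne_zero.2 (ENNReal.natCast_ne_top _)
  have hlamt : lam ≠ ⊤ := ENNReal.inv_ne_top.2 hl1
  have hu2 : Tendsto (fun s => us i0 s / lam + us i0 s) atTop (𝓝 0) := by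
    have e1 : Tendsto (fun s => us i0 s / lam) atTop (𝓝 0) := by
      have := ENNReal.Tendsto.mul_const (b := lam⁻¹) (hus i0) (Or.inr (ENNReal.inv_ne_top.2 hlam0))
      simpa [div_eq_mul_inv] using this
    simpa using e1.add (hus i0)
  obtain ⟨s, hs⟩ := H (c3 * ((i0 : ℝ≥0∞) + 1) ^ q) _ (ENNReal.mul_ne_top h3 hq) hu2 _ hε4
  obtain ⟨t0, ht0⟩ := H (c4 i0 s) pt (h4 i0 s) hpt _ hε4
  refine ⟨i0, lam, s, t0, hlam0, hlamt, fun t ht => ?_⟩
  have a1 := hi0 i0 le_rfl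
  have a2 := hl0 l (le_max_left _ _)
  have a3 := hs s le_rfl
  have a4 := ht0 t ht
  calc _ ≤ ε / 4 + ε / 4 + ε / 4 + ε / 4 := by gcongr
    _ = ε := by
      have : ε / 4 + ε / 4 + ε / 4 + ε / 4 = 4 * (ε / 4) := by ring
      rw [this, ENNReal.mul_div_cancel (by norm_num) (by norm_num)]

end Crest.Agent.R154.Sel300
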