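import Crest.Agent.R154.AsA_300
import Crest.Agent.R154.Sel_300

/-! Row 154, road 801, assembly (helper300), part B: smooth density at first passages. -/

set_option autoImplicit false

namespace Crest.Agent.R154.As300

open scoped ENNReal
open Crest.Agent.R154.B5A Crest.Agent.R154.FP178

variable {B G : Type*} [AddCommGroup G]
variable (Λ : B → ℝ≥0∞) (ht : B → ℕ) (z : B → G)

open Classical in
/-- weights of first passages -/
noncomputable def wt (a : ℕ) (A : List B) : ℝ≥0∞ := if fp ht a A then LW Λ A else 0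

/-- end point (height, displacement) -/
def kx (L : List B) : ℤ × G := ((HT ht L : ℤ), Dp z L)

lemma kx_append (L L' : List B) : kx ht z (L ++ L') = kx ht z L + kx ht z L' := by
  simp [kx, HT_append, Dp_append]

open Classical in
/-- law of the end point of the first passage of `a` -/
noncomputable def pl (a : ℕ) (κ : ℤ × G) : ℝ≥0∞ := ∑' A, if kx ht z A = κ then wt Λ ht a A else 0

lemma wt_sum (h1 : ∀ b, 1 ≤ ht b) (hΛ : ∑' b, Λ b ≤ 1) (a : ℕ) : ∑' A, wt Λ ht a A ≤ 1 :=
  sum_FP Λ ht h1 hΛ a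

open Classical in
lemma part {ι κ : Type*} (w : ι → ℝ≥0∞) (g : ι → κ) (Ψ : κ → ℝ≥0∞) :
    ∑' i, w i * Ψ (g i) = ∑' k, (∑' i, if g i = k then w i else 0) * Ψ k := by
  have : ∀ k, (∑' i, if g i = k then w i else 0) * Ψ k = ∑' i, (if g i = k then w i else 0) * Ψ k :=
    fun k => ENNReal.tsum_mul_right.symm
  rw [tsum_congr this, ENNReal.tsum_comm]
  refine tsum_congr fun i => ?_
  rw [tsum_eq_single (g i)]
  · rw [if_pos rfl]
  · intro k hk; rw [if_neg hk.symm, zero_mul]

lemma pl_part (a : ℕ) (Ψ : ℤ × G → ℝ≥0∞) :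
    ∑' A, wt Λ ht a A * Ψ (kx ht z A) = ∑' κ, pl Λ ht z a κ * Ψ κ := by
  have := part (wt Λ ht a) (kx ht z) Ψ
  simp only [pl]
  convert this

lemma pl_sum (h1 : ∀ b, 1 ≤ ht b) (hΛ : ∑' b, Λ b ≤ 1) (a : ℕ) : ∑' κ, pl Λ ht z a κ ≤ 1 := by
  have := pl_part Λ ht z a (fun _ => 1)
  simp only [mul_one] at this
  rw [← this]
  exact wt_sum Λ ht h1 hΛ a

lemma pl_low (a : ℕ) (κ : ℤ × G) (hκ : κ.1 < a) : pl Λ ht z a κ = 0 := by
  classical
  rw [pl, ENNReal.tsum_eq_zero]
  intro A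
  by_cases h : kx ht z A = κ
  · rw [if_pos h, wt, if_neg]
    intro hf
    have h1 := le_HT_of_fp ht hf
    have h2 : (HT ht A : ℤ) = κ.1 := congrArg Prod.fst h
    omega
  · rw [if_neg h]

lemma pl_rec (h1 : ∀ b, 1 ≤ ht b) (T a : ℕ) (hT : T ≤ a) (κ : ℤ × G) :
    pl Λ ht z a κ = ∑' P, wt Λ ht T P * pl Λ ht z (a - HT ht P) (κ - kx ht z P) := by
  classical
  have e1 : ∀ A, (if kx ht z A = κ then wt Λ ht a A else 0)
      = if fp ht a A then LW Λ A * (if kx ht z A = κ then 1 else 0) else 0 := by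
    intro A
    by_cases h : kx ht z A = κ <;> by_cases h' : fp ht a A <;> simp [wt, h, h']
  rw [pl, tsum_congr e1, fp_split Λ ht h1 T a hT]
  refine tsum_congr fun P => ?_
  by_cases hP : fp ht T P
  · rw [if_pos hP, wt, if_pos hP, pl]
    congr 1
    refine tsum_congr fun L => ?_
    have e2 : (kx ht z (P ++ L) = κ) ↔ (kx ht z L = κ - kx ht z P) := by
      rw [kx_append, eq_sub_iff_add_eq, add_comm]
    by_cases h : kx ht z L = κ - kx ht z P
    · by_cases h' : fp ht (a - HT ht P) L <;> simp [wt, h, h', e2]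
    · by_cases h' : fp ht (a - HT ht P) L <;> simp [h, h', e2]
  · rw [if_neg hP, wt, if_neg hP, zero_mul]

open Classical in
/-- **smooth density at first passages** -/
theorem dens (h1 : ∀ b, 1 ≤ ht b) (hΛ : ∑' b, Λ b ≤ 1) (T i0 : ℕ) (θ q ε G0 : ℝ≥0∞)
    (hq : ∑' P, (if θ < pl Λ ht z T (kx ht z P) then wt Λ ht T P else 0) ≤ q)
    (hε : ∑' P, (if T + i0 < HT ht P then wt Λ ht T P else 0) ≤ ε)
    (hq1 : q ≤ 1) (hG : ((i0 + 1 : ℕ) : ℝ≥0∞) * θ + q * G0 ≤ G0) :
    ∀ J a, J * (T + i0) ≤ a → ∃ b : ℤ × G → ℝ≥0∞, (∀ κ, pl Λ ht z a κ ≤ G0 + b κ) ∧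
      ∑' κ, b κ ≤ q ^ J + J * ε := by
  intro J
  induction J with
  | zero =>
    intro a _
    exact ⟨pl Λ ht z a, fun κ => le_add_self, by simpa using pl_sum Λ ht z h1 hΛ a⟩
  | succ J ih =>
    intro a ha
    have ha' : J * (T + i0) + (T + i0) ≤ a := by
      have : (J + 1) * (T + i0) = J * (T + i0) + (T + i0) := by ring
      omega
    have hch : ∀ H : ℕ, ∃ b : ℤ × G → ℝ≥0∞, H ≤ T + i0 →
        (∀ κ, pl Λ ht z (a - H) κ ≤ G0 + b κ) ∧ ∑' κ, b κ ≤ q ^ J + J * ε := by
      intro H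
      by_cases hH : H ≤ T + i0
      · obtain ⟨b, hb⟩ := ih (a - H) (by omega)
        exact ⟨b, fun _ => hb⟩
      · exact ⟨0, fun h => absurd h hH⟩
    choose bf hbf using hch
    set w : List B → ℝ≥0∞ := wt Λ ht T with hw
    set b1 : ℤ × G → ℝ≥0∞ := fun κ => ∑' P, (if T + i0 < HT ht P then w P else 0)
      * pl Λ ht z (a - HT ht P) (κ - kx ht z P) with hb1
    set b2 : ℤ × G → ℝ≥0∞ := fun κ => ∑' P,
      (if HT ht P ≤ T + i0 ∧ θ < pl Λ ht z T (kx ht z P) then w P else 0)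
        * bf (HT ht P) (κ - kx ht z P) with hb2
    refine ⟨fun κ => b1 κ + b2 κ, fun κ => ?_, ?_⟩
    · rw [pl_rec Λ ht z h1 T a (by omega) κ]
      -- three classes
      have e1 : ∀ P, w P * pl Λ ht z (a - HT ht P) (κ - kx ht z P)
          ≤ (if HT ht P ≤ T + i0 ∧ ¬ θ < pl Λ ht z T (kx ht z P) then w P else 0)
              * pl Λ ht z (a - HT ht P) (κ - kx ht z P)
            + ((if θ < pl Λ ht z T (kx ht z P) then w P else 0) * G0
            + ((if T + i0 < HT ht P then w P else 0)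
                * pl Λ ht z (a - HT ht P) (κ - kx ht z P)
            + (if HT ht P ≤ T + i0 ∧ θ < pl Λ ht z T (kx ht z P) then w P else 0)
                * bf (HT ht P) (κ - kx ht z P))) := by
        intro P
        by_cases hP : HT ht P ≤ T + i0
        · by_cases hθ : θ < pl Λ ht z T (kx ht z P)
          · have := (hbf (HT ht P) hP).1 (κ - kx ht z P)
            simp only [hP, hθ, not_true, and_false, if_false, zero_mul, zero_add, if_true,
              and_self, not_lt.2 hP]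
            rw [← mul_add]
            exact mul_le_mul_right this _
          · simp only [hP, hθ, not_false_eq_true, and_self, if_true]
            exact le_self_add
        · have hP' : T + i0 < HT ht P := not_le.1 hP
          simp only [hP', if_true, hP, false_and, if_false, zero_mul, zero_add, add_zero]
          exact le_add_self
      refine (ENNReal.tsum_le_tsum e1).trans ?_
      rw [ENNReal.tsum_add, ENNReal.tsum_add, ENNReal.tsum_add, ENNReal.tsum_mul_right]
      -- low part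
      have hlow : ∑' P, (if HT ht P ≤ T + i0 ∧ ¬ θ < pl Λ ht z T (kx ht z P) then w P else 0)
              * pl Λ ht z (a - HT ht P) (κ - kx ht z P) ≤ ((i0 + 1 : ℕ) : ℝ≥0∞) * θ := by
        set Ψ : ℤ × G → ℝ≥0∞ := fun ρ => if ρ.1 ≤ T + i0 ∧ ¬ θ < pl Λ ht z T ρ then
                pl Λ ht z (a - ρ.1.toNat) (κ - ρ) else 0 with hΨ
        have e2 : ∀ P, (if HT ht P ≤ T + i0 ∧ ¬ θ < pl Λ ht z T (kx ht z P) then w P else 0)
              * pl Λ ht z (a - HT ht P) (κ - kx ht z P)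
            = w P * Ψ (kx ht z P) := by
          intro P
          rw [hΨ]
          have e3 : ((kx ht z P).1 ≤ (T:ℤ) + i0) ↔ HT ht P ≤ T + i0 := by
            simp only [kx]; omega
          have e4 : (kx ht z P).1.toNat = HT ht P := by simp [kx]
          simp only [e3, e4]
          by_cases h : HT ht P ≤ T + i0 ∧ ¬ θ < pl Λ ht z T (kx ht z P)
          · rw [if_pos h, if_pos h]
          · rw [if_neg h, if_neg h, zero_mul, mul_zero]
        refine (tsum_congr e2).trans_le ((pl_part Λ ht z T Ψ).trans_le ?_)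
        rw [ENNReal.tsum_prod', tsum_eq_sum (s := Finset.Icc (T:ℤ) (T + i0))]
        · have hcard : (Finset.Icc (T:ℤ) (T + i0)).card = i0 + 1 := by simp; omega
          rw [← hcard, ← nsmul_eq_mul, ← Finset.sum_const]
          refine Finset.sum_le_sum fun H _ => ?_
          calc ∑' z', pl Λ ht z T (H, z') * (if H ≤ T + i0 ∧ ¬ θ < pl Λ ht z T (H, z') then
                pl Λ ht z (a - H.toNat) (κ - (H, z')) else 0)
              ≤ ∑' z', θ * pl Λ ht z (a - H.toNat) (κ - (H, z')) := by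
                refine ENNReal.tsum_le_tsum fun z' => ?_
                by_cases h : H ≤ T + i0 ∧ ¬ θ < pl Λ ht z T (H, z')
                · rw [if_pos h]
                  exact mul_le_mul_left (not_lt.1 h.2) _
                · rw [if_neg h, mul_zero]; exact zero_le
            _ = θ * ∑' z', pl Λ ht z (a - H.toNat) (κ - (H, z')) := ENNReal.tsum_mul_left
            _ ≤ θ * 1 := by
                refine mul_le_mul_right ?_ _
                refine le_trans ?_ (pl_sum Λ ht z h1 hΛ (a - H.toNat))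
                refine ENNReal.tsum_comp_le_tsum_of_injective
                  (f := fun z' : G => κ - (H, z')) ?_ (pl Λ ht z (a - H.toNat))
                intro x y hxy
                have := congrArg Prod.snd hxy
                simpa using this
            _ = θ := mul_one _
        · intro H hH
          rw [ENNReal.tsum_eq_zero]
          intro z'
          by_cases h : H ≤ T + i0
          · have : H < T := by
              by_contra hc
              exact hH (Finset.mem_Icc.2 ⟨by omega, h⟩)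
            rw [pl_low Λ ht z T (H, z') this, zero_mul]
          · have : Ψ (H, z') = 0 := if_neg (fun h' => h h'.1)
            rw [this, mul_zero]
      calc _ ≤ ((i0 + 1 : ℕ) : ℝ≥0∞) * θ + (q * G0 + (b1 κ + b2 κ)) := by
            gcongr
        _ = (((i0 + 1 : ℕ) : ℝ≥0∞) * θ + q * G0) + (b1 κ + b2 κ) := by ring
        _ ≤ G0 + (b1 κ + b2 κ) := by gcongr
    · rw [ENNReal.tsum_add]
      have hs1 : ∑' κ, b1 κ ≤ ε := by
        rw [hb1, ENNReal.tsum_comm]
        refine le_trans (ENNReal.tsum_le_tsum fun P => ?_) hε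
        rw [ENNReal.tsum_mul_left]
        have : ∑' κ, pl Λ ht z (a - HT ht P) (κ - kx ht z P) ≤ 1 :=
          ((Equiv.subRight (kx ht z P)).tsum_eq (pl Λ ht z (a - HT ht P))).trans_le
            (pl_sum Λ ht z h1 hΛ _)
        exact (mul_le_mul_right this _).trans (mul_one _).le
      have hs2 : ∑' κ, b2 κ ≤ q * (q ^ J + J * ε) := by
        rw [hb2, ENNReal.tsum_comm]
        calc _ ≤ ∑' P, (if θ < pl Λ ht z T (kx ht z P) then w P else 0) * (q ^ J + J * ε) := by
              refine ENNReal.tsum_le_tsum fun P => ?_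
              rw [ENNReal.tsum_mul_left]
              by_cases h : HT ht P ≤ T + i0 ∧ θ < pl Λ ht z T (kx ht z P)
              · rw [if_pos h, if_pos h.2]
                refine mul_le_mul_right ?_ _
                exact ((Equiv.subRight (kx ht z P)).tsum_eq (bf (HT ht P))).trans_le (hbf _ h.1).2
              · rw [if_neg h, zero_mul]; exact zero_le
          _ = (∑' P, (if θ < pl Λ ht z T (kx ht z P) then w P else 0)) * (q ^ J + J * ε) :=
              ENNReal.tsum_mul_right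
          _ ≤ _ := mul_le_mul_left hq _
      calc _ ≤ ε + q * (q ^ J + J * ε) := add_le_add hs1 hs2
        _ = q ^ (J + 1) + q * (J * ε) + ε := by ring
        _ ≤ q ^ (J + 1) + 1 * (J * ε) + ε := by gcongr
        _ = q ^ (J + 1) + ((J + 1 : ℕ) : ℝ≥0∞) * ε := by push_cast; ring

open Classical in
/-- output of the density lemma with the dyadic threshold -/
theorem densOut (h1 : ∀ b, 1 ≤ ht b) (hΛ : ∑' b, Λ b ≤ 1) (hU : ∀ n, U Λ ht n ≤ 1) (T i0 : ℕ)
    {u : ℝ≥0∞} (hu0 : u ≠ 0) (hu1 : u ≤ 1) :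
    ∃ th G0 : ℝ≥0∞,
      (∑' P, (if pl Λ ht z T (kx ht z P) < th then wt Λ ht T P else 0)) ≤ u ∧
      {κ | th ≤ pl Λ ht z T κ}.Finite ∧
      G0 * ({κ | th ≤ pl Λ ht z T κ}.ncard : ℝ≥0∞) ≤ 2 * ((i0 + 1 : ℕ) : ℝ≥0∞) / u ∧
      ∀ J a, J * (T + i0) ≤ a → ∃ b : ℤ × G → ℝ≥0∞, (∀ κ, pl Λ ht z a κ ≤ G0 + b κ) ∧
        ∑' κ, b κ ≤ (1 - u) ^ J + J * tl Λ ht i0 := by
  obtain ⟨k, hk1, hk2, hk3, hk4⟩ := Sel300.dyq (pl Λ ht z T) (pl_sum Λ ht z h1 hΛ T) hu0
  have hut : u ≠ ⊤ := ne_top_of_le_ne_top ENNReal.one_ne_top hu1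
  -- sums over lists and over end points
  have conv : ∀ (Q : ℤ × G → Prop) [DecidablePred Q], ∑' P, (if Q (kx ht z P) then wt Λ ht T P else 0)
      = ∑' κ, (if Q κ then pl Λ ht z T κ else 0) := by
    intro Q _
    have := pl_part Λ ht z T (fun κ => if Q κ then 1 else 0)
    simp only [mul_ite, mul_one, mul_zero] at this
    exact this
  have hover : ∑' P, (if T + i0 < HT ht P then wt Λ ht T P else 0) ≤ tl Λ ht i0 := by
    refine le_trans (le_of_eq (tsum_congr fun P => ?_)) (overshoot Λ ht h1 hU i0 T)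
    by_cases h : fp ht T P <;> by_cases h' : T + i0 < HT ht P <;> simp [wt, h, h']
  have hfu : (1:ℝ≥0∞) ≤ 2 * ((i0 + 1 : ℕ) : ℝ≥0∞) / u := by
    rw [ENNReal.le_div_iff_mul_le (Or.inl hu0) (Or.inl hut), one_mul]
    refine hu1.trans ?_
    have : (1:ℝ≥0∞) ≤ ((2 * (i0 + 1) : ℕ) : ℝ≥0∞) := by exact_mod_cast (by omega)
    push_cast at this ⊢
    exact this
  rcases Nat.eq_zero_or_pos k with hk | hk
  · subst hk
    refine ⟨(2 ^ 0)⁻¹, 1, ?_, hk3, ?_, ?_⟩
    · convert (conv (fun κ => pl Λ ht z T κ < (2 ^ 0)⁻¹)).trans_le (by convert hk1)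
    · rw [one_mul]
      refine le_trans ?_ hfu
      exact_mod_cast hk4
    · intro J a _
      refine ⟨0, fun κ => ?_, by simp⟩
      simp only [Pi.zero_apply, add_zero]
      exact (ENNReal.le_tsum κ).trans (pl_sum Λ ht z h1 hΛ a)
  · have hk2' := hk2.resolve_left (by omega)
    set θ : ℝ≥0∞ := 2 * (2 ^ k)⁻¹ with hθ
    set G0 : ℝ≥0∞ := ((i0 + 1 : ℕ) : ℝ≥0∞) * θ / u with hG0
    refine ⟨(2 ^ k)⁻¹, G0, ?_, hk3, ?_, ?_⟩
    · convert (conv (fun κ => pl Λ ht z T κ < (2 ^ k)⁻¹)).trans_le (by convert hk1)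
    · have e1 : ({κ | (2 ^ k : ℝ≥0∞)⁻¹ ≤ pl Λ ht z T κ}.ncard : ℝ≥0∞) ≤ 2 ^ k := by
        exact_mod_cast hk4
      calc G0 * ({κ | (2 ^ k : ℝ≥0∞)⁻¹ ≤ pl Λ ht z T κ}.ncard : ℝ≥0∞) ≤ G0 * 2 ^ k := by gcongr
        _ = 2 * ((i0 + 1 : ℕ) : ℝ≥0∞) / u * ((2 ^ k)⁻¹ * 2 ^ k) := by
            rw [hG0, hθ, div_eq_mul_inv, div_eq_mul_inv]; ring
        _ = _ := by
            rw [ENNReal.inv_mul_cancel (by simp) (ENNReal.pow_ne_top (by norm_num)), mul_one]
    · refine dens Λ ht z h1 hΛ T i0 θ (1 - u) (tl Λ ht i0) G0 ?_ hover tsub_le_self ?_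
      · refine le_trans (le_of_eq (conv (fun κ => θ < pl Λ ht z T κ))) ?_
        refine ENNReal.le_sub_of_add_le_left hut ?_
        refine le_trans (add_le_add hk2' le_rfl) ?_
        rw [← ENNReal.tsum_add]
        refine le_trans (ENNReal.tsum_le_tsum fun κ => ?_) (pl_sum Λ ht z h1 hΛ T)
        by_cases h : θ < pl Λ ht z T κ
        · rw [if_neg (not_le.2 h), if_pos h, zero_add]
        · rw [if_pos (not_lt.1 h), if_neg h, add_zero]
      · rw [hG0]
        have e2 : ((i0 + 1 : ℕ) : ℝ≥0∞) * θ = u * (((i0 + 1 : ℕ) : ℝ≥0∞) * θ / u) := by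
          rw [ENNReal.mul_div_cancel hu0 hut]
        calc ((i0 + 1 : ℕ) : ℝ≥0∞) * θ + (1 - u) * (((i0 + 1 : ℕ) : ℝ≥0∞) * θ / u)
            = u * (((i0 + 1 : ℕ) : ℝ≥0∞) * θ / u) + (1 - u) * (((i0 + 1 : ℕ) : ℝ≥0∞) * θ / u) := by
              rw [← e2]
          _ = (u + (1 - u)) * (((i0 + 1 : ℕ) : ℝ≥0∞) * θ / u) := by ring
          _ = 1 * (((i0 + 1 : ℕ) : ℝ≥0∞) * θ / u) := by rw [add_tsub_cancel_of_le hu1]
          _ ≤ _ := by rw [one_mul]

end Crest.Agent.R154.As300
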