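import Crest.Agent.R154.AsA_568

/-! Row 154 (helper568), ROAD 801, assembly part B: read sets, geometry of the pieces, conversion. -/

set_option autoImplicit false

namespace Crest.Agent.R154.AsB568

open scoped ENNReal Classical
open Crest.Agent.R154.B5A Crest.Agent.R154.FP178 Crest.Agent.R154.AsA568

variable {B G : Type*} [AddCommGroup G]

section sets

variable (h : B → ℕ) (z : B → G) (s : B → Set (G × ℕ))

/-- read set of a list placed at position `x`, depth `a` -/
def TS : List B → G → ℕ → Set (G × ℕ)
  | [], _, _ => ∅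
  | b :: L, x, a => {q | ∃ r ∈ s b, q = (x + r.1, a + r.2)} ∪ TS L (x + z b) (a + h b)

/-- displacement -/
def Dp (z : B → G) (L : List B) : G := (L.map z).sum

omit [AddCommGroup G] in
lemma Dp_nil [AddCommGroup G] (z : B → G) : Dp z [] = 0 := by simp [Dp]

lemma Dp_cons (b : B) (L : List B) : Dp z (b :: L) = z b + Dp z L := by simp [Dp]

lemma Dp_append (L L' : List B) : Dp z (L ++ L') = Dp z L + Dp z L' := by simp [Dp]

lemma TS_append (L L' : List B) (x : G) (a : ℕ) :
    TS h z s (L ++ L') x a = TS h z s L x a ∪ TS h z s L' (x + Dp z L) (a + HT h L) := by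
  induction L generalizing x a with
  | nil => simp [TS, Dp, HT]
  | cons b L ih =>
    rw [List.cons_append, TS, ih, TS, Set.union_assoc, Dp_cons, HT_cons, add_assoc, add_assoc]

lemma TS_range (hs : ∀ b, ∀ r ∈ s b, 1 ≤ r.2 ∧ r.2 ≤ h b) (L : List B) (x : G) (a : ℕ)
    (q : G × ℕ) (hq : q ∈ TS h z s L x a) : a < q.2 ∧ q.2 ≤ a + HT h L := by
  induction L generalizing x a with
  | nil => exact absurd hq (by simp [TS])
  | cons b L ih =>
    rw [HT_cons]
    rcases hq with ⟨r, hr, rfl⟩ | hq
    · have := hs b r hr
      simp only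
      omega
    · have := ih _ _ hq
      omega

lemma TS_shift (L : List B) (x y : G) (a : ℕ) (q : G × ℕ) :
    (q.1 + y, q.2) ∈ TS h z s L (x + y) a ↔ q ∈ TS h z s L x a := by
  induction L generalizing x a with
  | nil => simp [TS]
  | cons b L ih =>
    simp only [TS, Set.mem_union, Set.mem_ofPred_eq]
    rw [show x + y + z b = x + z b + y by abel, ih]
    constructor
    · rintro (⟨r, hr, h1⟩ | h2)
      · left
        refine ⟨r, hr, ?_⟩
        rw [Prod.mk.injEq] at h1
        refine Prod.ext ?_ h1.2
        have := h1.1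
        have h3 : q.1 = x + r.1 := by
          have h4 : q.1 + y = (x + r.1) + y := by rw [this]; abel
          exact add_right_cancel h4
        exact h3
      · exact Or.inr h2
    · rintro (⟨r, hr, h1⟩ | h2)
      · left
        refine ⟨r, hr, ?_⟩
        rw [h1]
        simp only [Prod.mk.injEq, and_true]
        abel
      · exact Or.inr h2

end sets

section geo

variable (h : B → ℕ) (z : B → G) (s : B → Set (G × ℕ)) {T : ℕ}

lemma HT_fl_ge (L : List (At h T)) : L.length * T ≤ HT h (fl L) := by
  induction L with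
  | nil => simp
  | cons A L ih =>
    rw [fl, HT_append, List.length_cons]
    have := le_HT_of_fp h A.2
    nlinarith

lemma HT_fl_le (i0 : ℕ) (L : List (At h T)) (hg : ∀ A ∈ L, HT h A.1 ≤ T + i0) :
    HT h (fl L) ≤ L.length * (T + i0) := by
  induction L with
  | nil => simp [fl, HT]
  | cons A L ih =>
    rw [fl, HT_append, List.length_cons]
    have h1 := hg A (by simp)
    have h2 := ih (fun A' hA' => hg A' (by simp [hA']))
    nlinarith

lemma Dp_fl (L : List (At h T)) : Dp z (fl L) = (L.map (fun A => Dp z A.1)).sum := by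
  induction L with
  | nil => simp [fl, Dp]
  | cons A L ih => rw [fl, Dp_append, ih]; simp

/-- where a read site of intermediate depth lies -/
lemma mem_piece (hs : ∀ b, ∀ r ∈ s b, 1 ≤ r.2 ∧ r.2 ≤ h b) (i0 J j : ℕ) (hj : j < J)
    (L1 L2 : List (At h T)) (A : At h T) (hl : L1.length = j)
    (hg : ∀ A' ∈ L1, HT h A'.1 ≤ T + i0) (x : G) (q : G × ℕ)
    (hq : q ∈ TS h z s (fl (L1 ++ A :: L2)) x 0)
    (h1 : j * T + J * i0 < q.2) (h2 : q.2 < (j + 1) * T) :
    q ∈ TS h z s A.1 (x + Dp z (fl L1)) (HT h (fl L1)) := by
  rw [fl_append, TS_append, fl, TS_append] at hq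
  rw [zero_add] at hq
  rcases hq with hq | hq | hq
  · have a1 := (TS_range h z s hs _ _ _ _ hq).2
    have a2 := HT_fl_le h i0 L1 hg
    rw [hl] at a2
    have a3 : j * i0 ≤ J * i0 := Nat.mul_le_mul_right _ hj.le
    nlinarith
  · exact hq
  · have a1 := (TS_range h z s hs _ _ _ _ hq).1
    have a2 := HT_fl_ge h L1
    rw [hl] at a2
    have a3 := le_HT_of_fp h A.2
    nlinarith

lemma piece_mem (L1 L2 : List (At h T)) (A : At h T) (x : G) (q : G × ℕ)
    (hq : q ∈ TS h z s A.1 (x + Dp z (fl L1)) (HT h (fl L1))) :
    q ∈ TS h z s (fl (L1 ++ A :: L2)) x 0 := by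
  rw [fl_append, TS_append, fl, TS_append, zero_add]
  exact Or.inr (Or.inl hq)

end geo

lemma exists_split {A : Type*} (L : List A) : ∀ j, j < L.length →
    ∃ L1 a L2, L = L1 ++ a :: L2 ∧ L1.length = j := by
  induction L with
  | nil => intro j hj; simp at hj
  | cons b L ih =>
    intro j hj
    cases j with
    | zero => exact ⟨[], b, L, rfl, rfl⟩
    | succ j =>
      obtain ⟨L1, a, L2, h1, h2⟩ := ih j (by simpa using hj)
      exact ⟨b :: L1, a, L2, by rw [h1]; rfl, by simp [h2]⟩

lemma SL_comm {A A' : Type*} (w : A → ℝ≥0∞) (w' : A' → ℝ≥0∞) (j j' : ℕ)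
    (F : List A → List A' → ℝ≥0∞) :
    SL w j (fun L => SL w' j' (fun M => F L M)) = SL w' j' (fun M => SL w j (fun L => F L M)) := by
  have e : ∀ (L : List A), (if L.length = j then LW w L * SL w' j' (fun M => F L M) else 0)
      = ∑' M : List A', (if L.length = j ∧ M.length = j' then LW w L * LW w' M * F L M else 0) := by
    intro L
    by_cases hL : L.length = j
    · rw [if_pos hL, SL, ← ENNReal.tsum_mul_left]
      refine tsum_congr fun M => ?_
      by_cases hM : M.length = j'
      · rw [if_pos hM, if_pos ⟨hL, hM⟩, mul_assoc]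
      · rw [if_neg hM, if_neg (fun h => hM h.2), mul_zero]
    · rw [if_neg hL]
      symm
      refine ENNReal.tsum_eq_zero.2 fun M => ?_
      rw [if_neg (fun h => hL h.1)]
  have e' : ∀ (M : List A'), (if M.length = j' then LW w' M * SL w j (fun L => F L M) else 0)
      = ∑' L : List A, (if L.length = j ∧ M.length = j' then LW w L * LW w' M * F L M else 0) := by
    intro M
    by_cases hM : M.length = j'
    · rw [if_pos hM, SL, ← ENNReal.tsum_mul_left]
      refine tsum_congr fun L => ?_
      by_cases hL : L.length = j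
      · rw [if_pos hL, if_pos ⟨hL, hM⟩]; ring
      · rw [if_neg hL, if_neg (fun h => hL h.1), mul_zero]
    · rw [if_neg hM]
      symm
      refine ENNReal.tsum_eq_zero.2 fun L => ?_
      rw [if_neg (fun h => hM h.2)]
  rw [SL, SL, tsum_congr e, tsum_congr e', ENNReal.tsum_comm]

section conv

variable (Λ : B → ℝ≥0∞) (h : B → ℕ)

/-- from attempts back to lists of exact height `n` -/
theorem conv (h1 : ∀ b, 1 ≤ h b) (c : ℝ≥0∞) (R : ℕ)
    (hU : ∀ n, R ≤ n → c ≤ U Λ h n) (T i0 : ℕ) : ∀ (J n : ℕ) (f : List B → ℝ≥0∞),
    J * (T + i0) + R ≤ n → (∀ L L', f L ≤ f (L ++ L')) →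
    c * SL (wA Λ h T) J (fun L => if (∀ A ∈ L, HT h A.1 ≤ T + i0) then f (fl L) else 0)
      ≤ ∑' L, (if HT h L = n then LW Λ L * f L else 0) := by
  intro J
  induction J with
  | zero =>
    intro n f hn hf
    rw [SL_zero]
    rw [if_pos (by simp)]
    calc c * f (fl []) ≤ U Λ h n * f [] := by
          refine mul_le_mul' (hU n (by omega)) (le_of_eq ?_)
          simp [fl]
      _ = ∑' L, (if HT h L = n then LW Λ L * f [] else 0) := by
          rw [U, ← ENNReal.tsum_mul_right]
          refine tsum_congr fun L => ?_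
          split_ifs <;> simp
      _ ≤ _ := by
          refine ENNReal.tsum_le_tsum fun L => ?_
          split_ifs
          · exact mul_le_mul_right (by simpa using hf [] L) _
          · exact le_rfl
  | succ J ih =>
    intro n f hn hf
    have hn' : (T + i0) + (J * (T + i0) + R) ≤ n := by
      have : (J + 1) * (T + i0) = J * (T + i0) + (T + i0) := by ring
      omega
    rw [SL_succ, ← ENNReal.tsum_mul_left]
    have key : ∀ A : At h T, c * (wA Λ h T A * SL (wA Λ h T) J (fun L =>
        if (∀ A' ∈ A :: L, HT h A'.1 ≤ T + i0) then f (fl (A :: L)) else 0))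
        ≤ LW Λ A.1 * ∑' L, LW Λ L * (if HT h (A.1 ++ L) = n then f (A.1 ++ L) else 0) := by
      intro A
      by_cases hA : HT h A.1 ≤ T + i0
      · have := ih (n - HT h A.1) (fun L => f (A.1 ++ L)) (by omega)
          (fun L L' => by simpa using hf (A.1 ++ L) L')
        calc _ = wA Λ h T A * (c * SL (wA Λ h T) J (fun L =>
                if (∀ A' ∈ L, HT h A'.1 ≤ T + i0) then f (A.1 ++ fl L) else 0)) := by
              rw [mul_left_comm]
              congr 2
              refine SL_congr _ J fun L _ => ?_
              by_cases h2 : ∀ A' ∈ L, HT h A'.1 ≤ T + i0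
              · rw [if_pos h2, if_pos]
                · rfl
                · intro A' hA'
                  rcases List.mem_cons.1 hA' with rfl | h3
                  · exact hA
                  · exact h2 A' h3
              · rw [if_neg h2, if_neg]
                intro h3
                exact h2 (fun A' hA' => h3 A' (List.mem_cons_of_mem _ hA'))
          _ ≤ wA Λ h T A * ∑' L, (if HT h L = n - HT h A.1 then LW Λ L * f (A.1 ++ L) else 0) :=
              mul_le_mul_right this _
          _ = _ := by
              rw [wA]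
              congr 1
              refine tsum_congr fun L => ?_
              rw [HT_append]
              by_cases h3 : HT h L = n - HT h A.1
              · rw [if_pos h3, if_pos (by omega)]
              · rw [if_neg h3, if_neg (by omega), mul_zero]
      · have e0 : SL (wA Λ h T) J (fun L =>
            if (∀ A' ∈ A :: L, HT h A'.1 ≤ T + i0) then f (fl (A :: L)) else 0) = 0 := by
          refine le_antisymm ?_ zero_le
          calc _ ≤ SL (wA Λ h T) J (fun _ => 0 * 1) := SL_mono _ J fun L _ => by
                rw [if_neg (fun h3 => hA (h3 A (by simp)))]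
                exact zero_le
            _ = 0 := by rw [SL_const_mul, zero_mul]
        rw [e0, mul_zero, mul_zero]
        exact zero_le
    calc _ ≤ ∑' A : At h T, LW Λ A.1 *
            ∑' L, LW Λ L * (if HT h (A.1 ++ L) = n then f (A.1 ++ L) else 0) :=
          ENNReal.tsum_le_tsum key
      _ = ∑' A, (if fp h T A then LW Λ A *
            ∑' L, LW Λ L * (if HT h (A ++ L) = n then f (A ++ L) else 0) else 0) :=
          tsum_At h T (fun A => LW Λ A *
            ∑' L, LW Λ L * (if HT h (A ++ L) = n then f (A ++ L) else 0))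
      _ = ∑' L, (if T ≤ HT h L then LW Λ L * (if HT h L = n then f L else 0) else 0) :=
          (split Λ h h1 T (fun L => if HT h L = n then f L else 0)).symm
      _ ≤ _ := by
          refine ENNReal.tsum_le_tsum fun L => ?_
          split_ifs <;> simp

end conv

end Crest.Agent.R154.AsB568
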