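import Crest.Agent.R154.AsB_568

/-! Row 154 (helper568), ROAD 801, assembly part C: one window. -/

set_option autoImplicit false

namespace Crest.Agent.R154.AsC568

open scoped ENNReal Classical
open Crest.Agent.R154.B5A Crest.Agent.R154.FP178 Crest.Agent.R154.AsA568 Crest.Agent.R154.AsB568

section E4

variable {A A' : Type*} (w : A → ℝ≥0∞) (w' : A' → ℝ≥0∞) (j : ℕ)

/-- independent `j` letters and one more letter for each walker -/
noncomputable def E4 (Φ : List A → List A' → A → A' → ℝ≥0∞) : ℝ≥0∞ :=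
  SL w j (fun L => SL w' j (fun M => ∑' a, w a * ∑' b, w' b * Φ L M a b))

lemma E4_add (Φ Ψ : List A → List A' → A → A' → ℝ≥0∞) :
    E4 w w' j (fun L M a b => Φ L M a b + Ψ L M a b) = E4 w w' j Φ + E4 w w' j Ψ := by
  simp only [E4, mul_add, ENNReal.tsum_add, SL_add_fun]

lemma E4_zero : E4 w w' j (fun _ _ _ _ => 0) = 0 := by
  simp [E4, SL]

lemma E4_mono {Φ Ψ : List A → List A' → A → A' → ℝ≥0∞}
    (h : ∀ L M a b, L.length = j → M.length = j → Φ L M a b ≤ Ψ L M a b) :
    E4 w w' j Φ ≤ E4 w w' j Ψ := by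
  refine SL_mono w j fun L hL => SL_mono w' j fun M hM => ?_
  refine ENNReal.tsum_le_tsum fun a => mul_le_mul_right ?_ _
  exact ENNReal.tsum_le_tsum fun b => mul_le_mul_right (h L M a b hL hM) _

lemma E4_finset {ι : Type*} (s : Finset ι) (Φ : ι → List A → List A' → A → A' → ℝ≥0∞) :
    E4 w w' j (fun L M a b => ∑ i ∈ s, Φ i L M a b) = ∑ i ∈ s, E4 w w' j (Φ i) := by
  induction s using Finset.induction_on with
  | empty => simp only [Finset.sum_empty]; exact E4_zero w w' j
  | insert i s hi ih =>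
    simp only [Finset.sum_insert hi]
    rw [E4_add, ih]

lemma E4_fst (hw : ∑' a, w a = 1) (hw' : ∑' a, w' a = 1) (f : List A → ℝ≥0∞) :
    E4 w w' j (fun L _ _ _ => f L) = SL w j f := by
  unfold E4
  refine SL_congr w j fun L _ => ?_
  simp only [ENNReal.tsum_mul_right, hw, hw', one_mul]
  exact SL_const w' hw' j _

lemma E4_snd (hw : ∑' a, w a = 1) (hw' : ∑' a, w' a = 1) (f : List A' → ℝ≥0∞) :
    E4 w w' j (fun _ M _ _ => f M) = SL w' j f := by
  unfold E4
  simp only [ENNReal.tsum_mul_right, hw, hw', one_mul]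
  exact SL_const w hw j _

lemma E4_two (hw : ∑' a, w a = 1) (hw' : ∑' a, w' a = 1) (P : A → Prop) (Q : A' → Prop)
    (u v : ℝ≥0∞) (hP : ∑' a, (if P a then w a else 0) ≤ u)
    (hQ : ∑' a, (if Q a then w' a else 0) ≤ v) :
    E4 w w' j (fun _ _ a b => if P a ∧ Q b then 1 else 0) ≤ u * v := by
  have e0 : E4 w w' j (fun _ _ a b => if P a ∧ Q b then 1 else 0)
      = ∑' a, w a * ∑' b, w' b * (if P a ∧ Q b then (1 : ℝ≥0∞) else 0) := by
    show SL w j (fun _ => SL w' j (fun _ =>
      ∑' a, w a * ∑' b, w' b * (if P a ∧ Q b then (1 : ℝ≥0∞) else 0))) = _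
    rw [SL_const w' hw', SL_const w hw]
  rw [e0]
  calc _ = ∑' a, (if P a then w a else 0) * ∑' b, (if Q b then w' b else 0) := by
        refine tsum_congr fun a => ?_
        by_cases h : P a
        · rw [if_pos h]
          congr 1
          refine tsum_congr fun b => ?_
          by_cases h2 : Q b
          · rw [if_pos ⟨h, h2⟩, if_pos h2, mul_one]
          · rw [if_neg (fun h3 => h2 h3.2), if_neg h2, mul_zero]
        · rw [if_neg h, zero_mul]
          have : ∀ b, w' b * (if P a ∧ Q b then (1 : ℝ≥0∞) else 0) = 0 := fun b => by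
            rw [if_neg (fun h3 => h h3.1), mul_zero]
          simp [this]
    _ = (∑' a, (if P a then w a else 0)) * ∑' b, (if Q b then w' b else 0) := by
        rw [ENNReal.tsum_mul_right]
    _ ≤ u * v := mul_le_mul' hP hQ

end E4

section quant

variable {B G : Type*} [AddCommGroup G] (h : B → ℕ) (z : B → G) {T : ℕ}

/-- push forward -/
noncomputable def pl {A X : Type*} (w : A → ℝ≥0∞) (g : A → X) (x : X) : ℝ≥0∞ :=
  ∑' a, if g a = x then w a else 0

lemma push {A X : Type*} (w : A → ℝ≥0∞) (g : A → X) (Q : X → Prop) :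
    ∑' x, (if Q x then pl w g x else 0)
      = ∑' a, (if Q (g a) then w a else 0) := by
  unfold pl
  have e : ∀ x, (if Q x then (∑' a, if g a = x then w a else 0) else 0)
      = ∑' a, (if x = g a then (if Q (g a) then w a else 0) else 0) := by
    intro x
    by_cases hx : Q x
    · rw [if_pos hx]
      refine tsum_congr fun a => ?_
      by_cases h2 : g a = x
      · rw [if_pos h2, if_pos h2.symm, if_pos (by rw [h2]; exact hx)]
      · rw [if_neg h2, if_neg (fun h3 => h2 h3.symm)]
    · rw [if_neg hx]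
      symm
      refine ENNReal.tsum_eq_zero.2 fun a => ?_
      by_cases h2 : x = g a
      · rw [if_pos h2, if_neg (by rw [← h2]; exact hx)]
      · rw [if_neg h2]
  rw [tsum_congr e, ENNReal.tsum_comm]
  refine tsum_congr fun a => ?_
  exact tsum_ite_eq (g a) _

theorem quant (w : At h T → ℝ≥0∞) (hw : ∑' A, w A = 1) (i0 : ℕ) (u : ℝ≥0∞) (hu0 : u ≠ 0)
    (hu1 : u ≤ 1) : ∃ (th : ℝ≥0∞) (low loc : At h T → Prop) (E : Finset G),
      ∑' A, (if ¬ low A then w A else 0) ≤ 1 - u ∧
      ∑' A, (if ¬ loc A then w A else 0) ≤ u ∧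
      (∀ y, ∑' A, (if (low A ∧ HT h A.1 ≤ T + i0) ∧ Dp z A.1 = y then w A else 0)
        ≤ (i0 + 1) * th) ∧
      (∀ A, loc A → Dp z A.1 ∈ E) ∧ th * E.card ≤ 1 := by
  set g : At h T → ℕ × G := fun A => (HT h A.1, Dp z A.1) with hg
  set p : ℕ × G → ℝ≥0∞ := pl w g with hp
  have hp1 : ∑' x, p x = 1 := by
    have := push w g (fun _ => True)
    simp only [if_true] at this
    rw [hp, this, hw]
  obtain ⟨th, hth0, hth1, hq1, hq2⟩ := Dens903.quantile p hp1 hu0 hu1
  have hfin := Dens903.finite_level p (by rw [hp1]; exact ENNReal.one_ne_top) hth0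
  refine ⟨th, fun A => p (g A) ≤ th, fun A => th ≤ p (g A), hfin.toFinset.image Prod.snd,
    ?_, ?_, ?_, ?_, ?_⟩
  · have e1 : u ≤ ∑' A, (if p (g A) ≤ th then w A else 0) := by
      have e := push w g (fun x => p x ≤ th)
      refine le_trans hq2 (le_of_eq ?_)
      convert e
    have e2 : ∑' A, (if ¬ p (g A) ≤ th then w A else 0)
        + ∑' A, (if p (g A) ≤ th then w A else 0) = 1 := by
      rw [← ENNReal.tsum_add, ← hw]
      refine tsum_congr fun A => ?_
      by_cases h2 : p (g A) ≤ th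
      · rw [if_neg (not_not.2 h2), if_pos h2, zero_add]
      · rw [if_pos h2, if_neg h2, add_zero]
    have hut : u ≠ ⊤ := ne_top_of_le_ne_top ENNReal.one_ne_top hu1
    refine ENNReal.le_sub_of_add_le_right hut ?_
    refine le_trans (add_le_add (le_of_eq ?_) e1) (le_of_eq e2)
    refine tsum_congr fun A => ?_
    by_cases h2 : p (g A) ≤ th
    · rw [if_neg (not_not.2 h2), if_neg (not_not.2 h2)]
    · rw [if_pos h2, if_pos h2]
  · have e1 := push w g (fun x => p x < th)
    calc _ = ∑' A, (if p (g A) < th then w A else 0) := by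
          refine tsum_congr fun A => ?_
          by_cases h2 : p (g A) < th
          · rw [if_pos (not_le.2 h2), if_pos h2]
          · rw [if_neg (fun h3 => h2 (not_le.1 h3)), if_neg h2]
      _ = ∑' x, (if p x < th then p x else 0) := by
          symm
          convert e1
      _ ≤ u := hq1
  · intro y
    calc _ ≤ ∑' A, ∑ k ∈ Finset.range (i0 + 1),
            (if p (g A) ≤ th ∧ g A = (T + k, y) then w A else 0) := by
          refine ENNReal.tsum_le_tsum fun A => ?_
          by_cases h2 : (p (g A) ≤ th ∧ HT h A.1 ≤ T + i0) ∧ Dp z A.1 = y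
          · rw [if_pos h2]
            have h3 := le_HT_of_fp h A.2
            refine le_trans (le_of_eq ?_) (Finset.single_le_sum
              (f := fun k => if p (g A) ≤ th ∧ g A = (T + k, y) then w A else 0)
              (fun _ _ => zero_le) (Finset.mem_range.2
              (show HT h A.1 - T < i0 + 1 by have := h2.1.2; omega)))
            rw [if_pos]
            refine ⟨h2.1.1, ?_⟩
            rw [hg]
            simp only [Prod.mk.injEq]
            exact ⟨by omega, h2.2⟩
          · rw [if_neg h2]; exact zero_le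
      _ = ∑ k ∈ Finset.range (i0 + 1), ∑' A,
            (if p (g A) ≤ th ∧ g A = (T + k, y) then w A else 0) :=
          Summable.tsum_finsetSum (fun _ _ => ENNReal.summable)
      _ ≤ ∑ k ∈ Finset.range (i0 + 1), th := by
          refine Finset.sum_le_sum fun k _ => ?_
          by_cases h2 : p (T + k, y) ≤ th
          · refine le_trans (ENNReal.tsum_le_tsum fun A => ?_) h2
            by_cases h3 : p (g A) ≤ th ∧ g A = (T + k, y)
            · rw [if_pos h3, if_pos h3.2]
            · rw [if_neg h3]; exact zero_le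
          · have : ∀ A, (if p (g A) ≤ th ∧ g A = (T + k, y) then w A else 0) = 0 := by
              intro A
              rw [if_neg]
              rintro ⟨h3, h4⟩
              rw [h4] at h3
              exact h2 h3
            simp [this]
      _ = (i0 + 1) * th := by simp
  · intro A hA
    rw [Finset.mem_image]
    exact ⟨g A, (Set.Finite.mem_toFinset hfin).2 hA, rfl⟩
  · have e := Dens903.card_le p th
    rw [hp1] at e
    refine le_trans ?_ e
    refine mul_le_mul_right ?_ _
    calc ((hfin.toFinset.image Prod.snd).card : ℝ≥0∞) ≤ (hfin.toFinset.card : ℝ≥0∞) := by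
          exact_mod_cast Finset.card_image_le
      _ = ∑ a ∈ hfin.toFinset, (if th ≤ p a then (1 : ℝ≥0∞) else 0) := by
          calc (hfin.toFinset.card : ℝ≥0∞) = ∑ a ∈ hfin.toFinset, (1 : ℝ≥0∞) := by simp
            _ = _ := Finset.sum_congr rfl (fun a ha =>
              (if_pos ((Set.Finite.mem_toFinset hfin).1 ha)).symm)
      _ ≤ _ := ENNReal.sum_le_tsum _

end quant

section win

variable {BX BY G : Type*} [AddCommGroup G]
  (ΛX : BX → ℝ≥0∞) (ΛY : BY → ℝ≥0∞) (hX : BX → ℕ) (hY : BY → ℕ) (zX : BX → G) (zY : BY → G)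
  (sX : BX → Set (G × ℕ)) (sY : BY → Set (G × ℕ))

/-- the two pieces have a contact, and all their contacts have depth in `[lo, hi]` -/
def Ev (L : List BX) (x : G) (a : ℕ) (L' : List BY) (x' : G) (a' lo hi : ℕ) : Prop :=
  (∃ z k, (z, k) ∈ TS hX zX sX L x a ∧ (z, k) ∈ TS hY zY sY L' x' a') ∧
  ∀ z k, (z, k) ∈ TS hX zX sX L x a → (z, k) ∈ TS hY zY sY L' x' a' → lo ≤ k ∧ k ≤ hi

lemma Ev_shift (L : List BX) (a : ℕ) (L' : List BY) (x0 y : G) (a' lo hi : ℕ) :
    Ev hX hY zX zY sX sY L y a L' (x0 + y) a' lo hi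
      ↔ Ev hX hY zX zY sX sY L 0 a L' x0 a' lo hi := by
  have e1 : ∀ z k, (z + y, k) ∈ TS hX zX sX L y a ↔ (z, k) ∈ TS hX zX sX L 0 a := fun z k => by
    have := TS_shift hX zX sX L 0 y a (z, k)
    rwa [zero_add] at this
  have e2 : ∀ z k, (z + y, k) ∈ TS hY zY sY L' (x0 + y) a' ↔ (z, k) ∈ TS hY zY sY L' x0 a' :=
    fun z k => TS_shift hY zY sY L' x0 y a' (z, k)
  constructor
  · rintro ⟨⟨z, k, h1, h2⟩, h3⟩
    refine ⟨⟨z - y, k, ?_, ?_⟩, ?_⟩
    · rw [← e1, sub_add_cancel]; exact h1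
    · rw [← e2, sub_add_cancel]; exact h2
    · intro z' k' h4 h5
      exact h3 (z' + y) k' ((e1 _ _).2 h4) ((e2 _ _).2 h5)
  · rintro ⟨⟨z, k, h1, h2⟩, h3⟩
    refine ⟨⟨z + y, k, (e1 _ _).2 h1, (e2 _ _).2 h2⟩, ?_⟩
    intro z' k' h4 h5
    refine h3 (z' - y) k' ?_ ?_
    · rw [← e1, sub_add_cancel]; exact h4
    · rw [← e2, sub_add_cancel]; exact h5

/-- the window input (H2: `P E L L' := Dp zX L ∈ E`; H3: `P E L L' := Dp zY L' ∈ E`) -/
def WinH (C : ℝ≥0∞) (us : ℕ → ℕ → ℝ≥0∞) (P : Finset G → List BX → List BY → Prop) : Prop :=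
  ∀ (D s h h' a a' lo hi : ℕ) (E : Finset G) (μ : G → ℝ≥0∞) (M lam : ℝ≥0∞),
    ∑' x, μ x ≤ 1 → (∀ x, μ x ≤ M) → lam ≠ 0 → lam ≠ ⊤ →
    a ≤ a' + D → a' ≤ a + D → a + h ≤ a' + h' + D → a' + h' ≤ a + h + D →
    a + s ≤ lo → a' + s ≤ lo → hi + s ≤ a + h → hi + s ≤ a' + h' →
    ∑' x, μ x * ∑' L, ∑' L', (if HT hX L = h ∧ HT hY L' = h' ∧ P E L L' ∧
      (∃ z k, (z, k) ∈ TS hX zX sX L 0 a ∧ (z, k) ∈ TS hY zY sY L' x a') ∧
      (∀ z k, (z, k) ∈ TS hX zX sX L 0 a → (z, k) ∈ TS hY zY sY L' x a' → lo ≤ k ∧ k ≤ hi)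
      then LW ΛX L * LW ΛY L' else 0) ≤ C * lam + C * M * E.card * us D s / lam + us D s

theorem win_fix (C : ℝ≥0∞) (us : ℕ → ℕ → ℝ≥0∞) (P : Finset G → List BX → List BY → Prop)
    (hH : WinH ΛX ΛY hX hY zX zY sX sY C us P) (T j : ℕ)
    (hwX : ∑' A, wA ΛX hX T A = 1) (hwY : ∑' A, wA ΛY hY T A = 1) (w : G)
    (D s h h' a a' lo hi : ℕ) (E : Finset G) (M lam : ℝ≥0∞) (hl : lam ≠ 0) (hl' : lam ≠ ⊤)
    (o1 : a ≤ a' + D) (o2 : a' ≤ a + D) (o3 : a + h ≤ a' + h' + D) (o4 : a' + h' ≤ a + h + D)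
    (i1 : a + s ≤ lo) (i2 : a' + s ≤ lo) (i3 : hi + s ≤ a + h) (i4 : hi + s ≤ a' + h')
    (cond : List (At hX T) → List (At hY T) → Prop)
    (hM : ∀ x, SL (wA ΛX hX T) j (fun L => SL (wA ΛY hY T) j (fun L' =>
      if (cond L L' ∧ HT hX (fl L) = a ∧ HT hY (fl L') = a') ∧
        w + Dp zY (fl L') - Dp zX (fl L) = x then 1 else 0)) ≤ M) :
    E4 (wA ΛX hX T) (wA ΛY hY T) j (fun L L' A A' =>
      if (cond L L' ∧ HT hX (fl L) = a ∧ HT hY (fl L') = a') ∧ HT hX A.1 = h ∧ HT hY A'.1 = h' ∧
        P E A.1 A'.1 ∧ Ev hX hY zX zY sX sY A.1 (Dp zX (fl L)) a A'.1 (w + Dp zY (fl L')) a' lo hi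
      then 1 else 0) ≤ C * lam + C * M * E.card * us D s / lam + us D s := by
  set μ : G → ℝ≥0∞ := fun x => SL (wA ΛX hX T) j (fun L => SL (wA ΛY hY T) j (fun L' =>
      if (cond L L' ∧ HT hX (fl L) = a ∧ HT hY (fl L') = a') ∧
        w + Dp zY (fl L') - Dp zX (fl L) = x then 1 else 0)) with hμ
  set Ψ : G → ℝ≥0∞ := fun x => ∑' L, ∑' L', (if HT hX L = h ∧ HT hY L' = h' ∧ P E L L' ∧
      (∃ z k, (z, k) ∈ TS hX zX sX L 0 a ∧ (z, k) ∈ TS hY zY sY L' x a') ∧
      (∀ z k, (z, k) ∈ TS hX zX sX L 0 a → (z, k) ∈ TS hY zY sY L' x a' → lo ≤ k ∧ k ≤ hi)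
      then LW ΛX L * LW ΛY L' else 0) with hΨ
  have hμ1 : ∑' x, μ x ≤ 1 := by
    rw [hμ, ← SL_tsum]
    calc _ ≤ SL (wA ΛX hX T) j (fun _ => SL (wA ΛY hY T) j (fun _ => 1)) := by
          refine SL_mono _ j fun L _ => ?_
          rw [← SL_tsum]
          refine SL_mono _ j fun L' _ => ?_
          by_cases h2 : cond L L' ∧ HT hX (fl L) = a ∧ HT hY (fl L') = a'
          · simp only [h2, true_and, and_self]
            rw [tsum_congr (g := fun x => if x = w + Dp zY (fl L') - Dp zX (fl L)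
              then (1 : ℝ≥0∞) else 0) (fun x => by
                by_cases h3 : x = w + Dp zY (fl L') - Dp zX (fl L)
                · rw [if_pos h3, if_pos h3.symm]
                · rw [if_neg h3, if_neg (fun h4 => h3 h4.symm)])]
            rw [tsum_ite_eq]
          · have : ∀ x, (if (cond L L' ∧ HT hX (fl L) = a ∧ HT hY (fl L') = a') ∧
                w + Dp zY (fl L') - Dp zX (fl L) = x then (1 : ℝ≥0∞) else 0) = 0 := fun x =>
              if_neg (fun h3 => h2 h3.1)
            simp [this]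
      _ = 1 := by rw [SL_one _ hwY, SL_one _ hwX]
  refine le_trans ?_ (hH D s h h' a a' lo hi E μ M lam hμ1 hM hl hl' o1 o2 o3 o4 i1 i2 i3 i4)
  calc _ ≤ SL (wA ΛX hX T) j (fun L => SL (wA ΛY hY T) j (fun L' => ∑' x,
          (if (cond L L' ∧ HT hX (fl L) = a ∧ HT hY (fl L') = a') ∧
            w + Dp zY (fl L') - Dp zX (fl L) = x then 1 else 0) * Ψ x)) := by
        refine SL_mono _ j fun L _ => SL_mono _ j fun L' _ => ?_
        by_cases h2 : cond L L' ∧ HT hX (fl L) = a ∧ HT hY (fl L') = a'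
        · set x0 := w + Dp zY (fl L') - Dp zX (fl L) with hx0
          refine le_trans ?_ (ENNReal.le_tsum x0)
          rw [if_pos ⟨h2, rfl⟩, one_mul]
          have e1 : ∀ (A : List BX) (A' : List BY),
              Ev hX hY zX zY sX sY A (Dp zX (fl L)) a A' (w + Dp zY (fl L')) a' lo hi
              ↔ Ev hX hY zX zY sX sY A 0 a A' x0 a' lo hi := by
            intro A A'
            rw [← Ev_shift hX hY zX zY sX sY A a A' x0 (Dp zX (fl L)) a' lo hi, hx0,
              sub_add_cancel]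
          set F : List BX → List BY → ℝ≥0∞ := fun A A' =>
            if HT hX A = h ∧ HT hY A' = h' ∧ P E A A' ∧
              Ev hX hY zX zY sX sY A 0 a A' x0 a' lo hi then LW ΛX A * LW ΛY A' else 0 with hF
          calc _ = ∑' A : At hX T, ∑' A' : At hY T, F A.1 A'.1 := by
                refine tsum_congr fun A => ?_
                rw [← ENNReal.tsum_mul_left]
                refine tsum_congr fun A' => ?_
                rw [hF]
                simp only [h2, true_and, and_self, e1, wA]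
                by_cases h3 : HT hX A.1 = h ∧ HT hY A'.1 = h' ∧ P E A.1 A'.1 ∧
                    Ev hX hY zX zY sX sY A.1 0 a A'.1 x0 a' lo hi
                · rw [if_pos h3, if_pos h3, mul_one]
                · rw [if_neg h3, if_neg h3, mul_zero, mul_zero]
            _ ≤ ∑' A : At hX T, ∑' A' : List BY, F A.1 A' := by
                refine ENNReal.tsum_le_tsum fun A => ?_
                rw [tsum_At hY T (fun A' => F A.1 A')]
                refine ENNReal.tsum_le_tsum fun A' => ?_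
                split_ifs <;> simp
            _ ≤ ∑' A : List BX, ∑' A' : List BY, F A A' := by
                rw [tsum_At hX T (fun A => ∑' A' : List BY, F A A')]
                refine ENNReal.tsum_le_tsum fun A => ?_
                split_ifs <;> simp
            _ = Ψ x0 := by
                rw [hΨ, hF]
                refine tsum_congr fun A => tsum_congr fun A' => ?_
                by_cases h3 : HT hX A = h ∧ HT hY A' = h' ∧ P E A A' ∧
                    Ev hX hY zX zY sX sY A 0 a A' x0 a' lo hi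
                · exact (if_pos h3).trans (if_pos h3).symm
                · exact (if_neg h3).trans (if_neg h3).symm
        · have e0 : ∀ (A : At hX T) (A' : At hY T),
              (if (cond L L' ∧ HT hX (fl L) = a ∧ HT hY (fl L') = a') ∧ HT hX A.1 = h ∧
                HT hY A'.1 = h' ∧ P E A.1 A'.1 ∧
                Ev hX hY zX zY sX sY A.1 (Dp zX (fl L)) a A'.1 (w + Dp zY (fl L')) a' lo hi
              then (1 : ℝ≥0∞) else 0) = 0 := fun A A' => if_neg (fun h3 => h2 h3.1)
          simp only [e0, mul_zero, tsum_zero]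
          exact zero_le
    _ = ∑' x, μ x * Ψ x := by
        rw [hμ]
        simp only [SL_tsum]
        refine tsum_congr fun x => ?_
        have : ∀ L, SL (wA ΛY hY T) j (fun L' =>
            (if (cond L L' ∧ HT hX (fl L) = a ∧ HT hY (fl L') = a') ∧
              w + Dp zY (fl L') - Dp zX (fl L) = x then (1 : ℝ≥0∞) else 0) * Ψ x)
            = Ψ x * SL (wA ΛY hY T) j (fun L' =>
            (if (cond L L' ∧ HT hX (fl L) = a ∧ HT hY (fl L') = a') ∧
              w + Dp zY (fl L') - Dp zX (fl L) = x then (1 : ℝ≥0∞) else 0)) := by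
          intro L
          rw [← SL_const_mul]
          refine SL_congr _ j fun L' _ => mul_comm _ _
        simp only [this]
        rw [SL_const_mul, mul_comm]

end win

end Crest.Agent.R154.AsC568
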