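import Crest.Agent.R154.AsC_568

/-! Row 154 (helper568), ROAD 801, assembly part D: total cost of one window. -/

set_option autoImplicit false

namespace Crest.Agent.R154.AsD568

open scoped ENNReal Classical
open Crest.Agent.R154.B5A Crest.Agent.R154.FP178 Crest.Agent.R154.AsA568 Crest.Agent.R154.AsB568
  Crest.Agent.R154.AsC568

variable {BX BY G : Type*} [AddCommGroup G]
  (ΛX : BX → ℝ≥0∞) (ΛY : BY → ℝ≥0∞) (hX : BX → ℕ) (hY : BY → ℕ) (zX : BX → G) (zY : BY → G)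
  (sX : BX → Set (G × ℕ)) (sY : BY → Set (G × ℕ))

/-- index set -/
def Ix (J i0 : ℕ) : Finset (ℕ × ℕ × ℕ × ℕ) :=
  Finset.range (J * i0 + 1) ×ˢ Finset.range (J * i0 + 1) ×ˢ
    Finset.range (i0 + 1) ×ˢ Finset.range (i0 + 1)

lemma mem_Ix {J i0 : ℕ} {i : ℕ × ℕ × ℕ × ℕ} (h : i ∈ Ix J i0) :
    i.1 ≤ J * i0 ∧ i.2.1 ≤ J * i0 ∧ i.2.2.1 ≤ i0 ∧ i.2.2.2 ≤ i0 := by
  simp only [Ix, Finset.mem_product, Finset.mem_range] at h
  omega

lemma card_bound (C th lam us : ℝ≥0∞) (j J i0 c : ℕ) (hjJ : j ≤ J) (h : th * c ≤ 1) :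
    C * ((j : ℝ≥0∞) * ((i0 + 1) * th)) * c * us / lam
      ≤ C * (J * (i0 + 1)) * us / lam := by
  refine ENNReal.div_le_div_right ?_ _
  refine mul_le_mul_left ?_ _
  calc C * ((j : ℝ≥0∞) * ((i0 + 1) * th)) * c = C * ((j : ℝ≥0∞) * (i0 + 1)) * (th * c) := by ring
    _ ≤ C * ((J : ℝ≥0∞) * (i0 + 1)) * 1 := by
        refine mul_le_mul' (mul_le_mul_right (mul_le_mul_left ?_ _) _) h
        exact_mod_cast hjJ
    _ = _ := mul_one _

theorem win_X (C : ℝ≥0∞) (us : ℕ → ℕ → ℝ≥0∞)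
    (H2 : WinH ΛX ΛY hX hY zX zY sX sY C us (fun E L _ => Dp zX L ∈ E))
    (T j J i0 s : ℕ) (hjJ : j < J) (hsT : s ≤ T)
    (hwX : ∑' A, wA ΛX hX T A = 1) (hwY : ∑' A, wA ΛY hY T A = 1) (w : G)
    (lam : ℝ≥0∞) (hl : lam ≠ 0) (hl' : lam ≠ ⊤) (th : ℝ≥0∞) (low loc : At hX T → Prop)
    (E : Finset G)
    (hd : ∀ y, ∑' A, (if (low A ∧ HT hX A.1 ≤ T + i0) ∧ Dp zX A.1 = y then wA ΛX hX T A else 0)
        ≤ (i0 + 1) * th)
    (hE : ∀ A, loc A → Dp zX A.1 ∈ E) (hc : th * E.card ≤ 1) :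
    E4 (wA ΛX hX T) (wA ΛY hY T) j (fun L L' A A' =>
      if (∀ A ∈ L, HT hX A.1 ≤ T + i0) ∧ (∀ A ∈ L', HT hY A.1 ≤ T + i0) ∧ HT hX A.1 ≤ T + i0 ∧
        HT hY A'.1 ≤ T + i0 ∧ (∃ A ∈ L, low A) ∧ loc A ∧
        Ev hX hY zX zY sX sY A.1 (Dp zX (fl L)) (HT hX (fl L)) A'.1 (w + Dp zY (fl L'))
          (HT hY (fl L')) (j * T + J * i0 + s) ((j + 1) * T - s) then 1 else 0)
      ≤ (Ix J i0).card * (C * lam + C * (J * (i0 + 1)) * us ((J + 1) * i0) s / lam
        + us ((J + 1) * i0) s) := by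
  obtain ⟨Q, hQ⟩ : ∃ Q : At hX T → Prop, ∀ A, Q A ↔ (low A ∧ HT hX A.1 ≤ T + i0) :=
    ⟨_, fun _ => Iff.rfl⟩
  have hd' : ∀ y, ∑' A, (if Q A ∧ Dp zX A.1 = y then wA ΛX hX T A else 0) ≤ (i0 + 1) * th := by
    intro y
    refine le_trans (le_of_eq (tsum_congr fun A => ?_)) (hd y)
    by_cases h : Q A ∧ Dp zX A.1 = y
    · rw [if_pos h, if_pos ⟨(hQ A).1 h.1, h.2⟩]
    · rw [if_neg h, if_neg (fun h2 => h ⟨(hQ A).2 h2.1, h2.2⟩)]
  obtain ⟨cond, hcond⟩ : ∃ cond : List (At hX T) → List (At hY T) → Prop, ∀ L L', cond L L' ↔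
    ∃ A ∈ L, Q A := ⟨_, fun _ _ => Iff.rfl⟩
  obtain ⟨P, hP⟩ : ∃ P : Finset G → List BX → List BY → Prop, P = fun E L _ => Dp zX L ∈ E :=
    ⟨_, rfl⟩
  rw [← hP] at H2
  have hPE : ∀ (A : At hX T) (A' : At hY T), loc A → P E A.1 A'.1 := fun A A' h => by
    rw [hP]; exact hE A h
  calc _ ≤ E4 (wA ΛX hX T) (wA ΛY hY T) j (fun L L' A A' => ∑ i ∈ Ix J i0,
          (if (cond L L' ∧ HT hX (fl L) = j * T + i.1 ∧ HT hY (fl L') = j * T + i.2.1) ∧
            HT hX A.1 = T + i.2.2.1 ∧ HT hY A'.1 = T + i.2.2.2 ∧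
            P E A.1 A'.1 ∧
            Ev hX hY zX zY sX sY A.1 (Dp zX (fl L)) (j * T + i.1) A'.1
              (w + Dp zY (fl L')) (j * T + i.2.1) (j * T + J * i0 + s) ((j + 1) * T - s)
          then 1 else 0)) := by
        refine E4_mono _ _ j fun L L' A A' hL hL' => ?_
        split_ifs with h0
        · obtain ⟨g1, g2, g3, g4, g5, g6, g7⟩ := h0
          have a1 := HT_fl_ge hX L
          have a2 := HT_fl_ge hY L'
          have a3 := HT_fl_le hX i0 L g1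
          have a4 := HT_fl_le hY i0 L' g2
          rw [hL] at a1 a3
          rw [hL'] at a2 a4
          rw [mul_add] at a3 a4
          have a5 := le_HT_of_fp hX A.2
          have a6 := le_HT_of_fp hY A'.2
          have a7 : j * i0 ≤ J * i0 := Nat.mul_le_mul_right _ hjJ.le
          set i : ℕ × ℕ × ℕ × ℕ := (HT hX (fl L) - j * T, HT hY (fl L') - j * T,
            HT hX A.1 - T, HT hY A'.1 - T) with hi
          have hmem : i ∈ Ix J i0 := by
            simp only [Ix, Finset.mem_product, Finset.mem_range, hi]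
            omega
          have b1 : j * T + i.1 = HT hX (fl L) := by simp only [hi]; omega
          have b2 : j * T + i.2.1 = HT hY (fl L') := by simp only [hi]; omega
          have b3 : T + i.2.2.1 = HT hX A.1 := by simp only [hi]; omega
          have b4 : T + i.2.2.2 = HT hY A'.1 := by simp only [hi]; omega
          refine le_trans (le_of_eq ?_) (Finset.single_le_sum (f := fun i =>
            (if (cond L L' ∧ HT hX (fl L) = j * T + i.1 ∧ HT hY (fl L') = j * T + i.2.1) ∧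
            HT hX A.1 = T + i.2.2.1 ∧ HT hY A'.1 = T + i.2.2.2 ∧
            P E A.1 A'.1 ∧
            Ev hX hY zX zY sX sY A.1 (Dp zX (fl L)) (j * T + i.1) A'.1
              (w + Dp zY (fl L')) (j * T + i.2.1) (j * T + J * i0 + s) ((j + 1) * T - s)
            then (1 : ℝ≥0∞) else 0)) (fun _ _ => zero_le) hmem)
          rw [if_pos]
          refine ⟨⟨(hcond _ _).2 ?_, b1.symm, b2.symm⟩, b3.symm, b4.symm, hPE A A' g6, ?_⟩
          · obtain ⟨A0, h1, h2⟩ := g5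
            exact ⟨A0, h1, (hQ A0).2 ⟨h2, g1 A0 h1⟩⟩
          · rw [b1, b2]; exact g7
        · exact zero_le
    _ = ∑ i ∈ Ix J i0, E4 (wA ΛX hX T) (wA ΛY hY T) j (fun L L' A A' =>
          (if (cond L L' ∧ HT hX (fl L) = j * T + i.1 ∧ HT hY (fl L') = j * T + i.2.1) ∧
            HT hX A.1 = T + i.2.2.1 ∧ HT hY A'.1 = T + i.2.2.2 ∧
            P E A.1 A'.1 ∧
            Ev hX hY zX zY sX sY A.1 (Dp zX (fl L)) (j * T + i.1) A'.1
              (w + Dp zY (fl L')) (j * T + i.2.1) (j * T + J * i0 + s) ((j + 1) * T - s)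
          then 1 else 0)) := E4_finset _ _ j _ _
    _ ≤ ∑ i ∈ Ix J i0, (C * lam + C * (J * (i0 + 1)) * us ((J + 1) * i0) s / lam
        + us ((J + 1) * i0) s) := by
        refine Finset.sum_le_sum fun i hi => ?_
        have hi2 := mem_Ix hi
        have e1 : (j + 1) * T = j * T + T := by ring
        have e2 : (J + 1) * i0 = J * i0 + i0 := by ring
        refine le_trans (win_fix ΛX ΛY hX hY zX zY sX sY C us _ H2 T j hwX hwY w ((J + 1) * i0) s
          (T + i.2.2.1) (T + i.2.2.2) (j * T + i.1) (j * T + i.2.1) (j * T + J * i0 + s)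
          ((j + 1) * T - s) E (j * ((i0 + 1) * th)) lam hl hl' (by omega) (by omega) (by omega)
          (by omega) (by omega) (by omega) (by omega) (by omega) cond ?_) ?_
        · intro x
          calc _ ≤ SL (wA ΛX hX T) j (fun L => SL (wA ΛY hY T) j (fun L' =>
                if (∃ A ∈ L, Q A) ∧
                  (L.map (fun A => Dp zX A.1)).sum = w + Dp zY (fl L') - x then 1 else 0)) := by
                refine SL_mono _ j fun L _ => SL_mono _ j fun L' _ => ?_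
                split_ifs with h1 h2 h2
                · exact le_rfl
                · exact absurd ⟨(hcond _ _).1 h1.1.1, by rw [← Dp_fl, ← h1.2]; abel⟩ h2
                · exact zero_le
                · exact le_rfl
            _ = SL (wA ΛY hY T) j (fun L' => SL (wA ΛX hX T) j (fun L =>
                if (∃ A ∈ L, Q A) ∧
                  (L.map (fun A => Dp zX A.1)).sum = w + Dp zY (fl L') - x then 1 else 0)) :=
                SL_comm _ _ _ _ _
            _ ≤ SL (wA ΛY hY T) j (fun _ => (j : ℝ≥0∞) * ((i0 + 1) * th)) := by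
                refine SL_mono _ j fun L' _ => ?_
                exact SL_dens (wA ΛX hX T) hwX (fun A => Dp zX A.1)
                  Q ((i0 + 1) * th) hd' j _
            _ = _ := SL_const _ hwY j _
        · exact add_le_add (add_le_add le_rfl (card_bound C th lam (us ((J + 1) * i0) s) j J i0 E.card
            hjJ.le hc)) le_rfl
    _ = _ := by rw [Finset.sum_const, nsmul_eq_mul]

theorem win_Y (C : ℝ≥0∞) (us : ℕ → ℕ → ℝ≥0∞)
    (H3 : WinH ΛX ΛY hX hY zX zY sX sY C us (fun E _ L' => Dp zY L' ∈ E))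
    (T j J i0 s : ℕ) (hjJ : j < J) (hsT : s ≤ T)
    (hwX : ∑' A, wA ΛX hX T A = 1) (hwY : ∑' A, wA ΛY hY T A = 1) (w : G)
    (lam : ℝ≥0∞) (hl : lam ≠ 0) (hl' : lam ≠ ⊤) (th : ℝ≥0∞) (low loc : At hY T → Prop)
    (E : Finset G)
    (hd : ∀ y, ∑' A, (if (low A ∧ HT hY A.1 ≤ T + i0) ∧ Dp zY A.1 = y then wA ΛY hY T A else 0)
        ≤ (i0 + 1) * th)
    (hE : ∀ A, loc A → Dp zY A.1 ∈ E) (hc : th * E.card ≤ 1) :
    E4 (wA ΛX hX T) (wA ΛY hY T) j (fun L L' A A' =>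
      if (∀ A ∈ L, HT hX A.1 ≤ T + i0) ∧ (∀ A ∈ L', HT hY A.1 ≤ T + i0) ∧ HT hX A.1 ≤ T + i0 ∧
        HT hY A'.1 ≤ T + i0 ∧ (∃ A ∈ L', low A) ∧ loc A' ∧
        Ev hX hY zX zY sX sY A.1 (Dp zX (fl L)) (HT hX (fl L)) A'.1 (w + Dp zY (fl L'))
          (HT hY (fl L')) (j * T + J * i0 + s) ((j + 1) * T - s) then 1 else 0)
      ≤ (Ix J i0).card * (C * lam + C * (J * (i0 + 1)) * us ((J + 1) * i0) s / lam
        + us ((J + 1) * i0) s) := by
  obtain ⟨Q, hQ⟩ : ∃ Q : At hY T → Prop, ∀ A, Q A ↔ (low A ∧ HT hY A.1 ≤ T + i0) :=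
    ⟨_, fun _ => Iff.rfl⟩
  have hd' : ∀ y, ∑' A, (if Q A ∧ Dp zY A.1 = y then wA ΛY hY T A else 0) ≤ (i0 + 1) * th := by
    intro y
    refine le_trans (le_of_eq (tsum_congr fun A => ?_)) (hd y)
    by_cases h : Q A ∧ Dp zY A.1 = y
    · rw [if_pos h, if_pos ⟨(hQ A).1 h.1, h.2⟩]
    · rw [if_neg h, if_neg (fun h2 => h ⟨(hQ A).2 h2.1, h2.2⟩)]
  obtain ⟨cond, hcond⟩ : ∃ cond : List (At hX T) → List (At hY T) → Prop, ∀ L L', cond L L' ↔
    ∃ A ∈ L', Q A := ⟨_, fun _ _ => Iff.rfl⟩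
  obtain ⟨P, hP⟩ : ∃ P : Finset G → List BX → List BY → Prop, P = fun E _ L' => Dp zY L' ∈ E :=
    ⟨_, rfl⟩
  rw [← hP] at H3
  have hPE : ∀ (A : At hX T) (A' : At hY T), loc A' → P E A.1 A'.1 := fun A A' h => by
    rw [hP]; exact hE A' h
  calc _ ≤ E4 (wA ΛX hX T) (wA ΛY hY T) j (fun L L' A A' => ∑ i ∈ Ix J i0,
          (if (cond L L' ∧ HT hX (fl L) = j * T + i.1 ∧ HT hY (fl L') = j * T + i.2.1) ∧
            HT hX A.1 = T + i.2.2.1 ∧ HT hY A'.1 = T + i.2.2.2 ∧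
            P E A.1 A'.1 ∧
            Ev hX hY zX zY sX sY A.1 (Dp zX (fl L)) (j * T + i.1) A'.1
              (w + Dp zY (fl L')) (j * T + i.2.1) (j * T + J * i0 + s) ((j + 1) * T - s)
          then 1 else 0)) := by
        refine E4_mono _ _ j fun L L' A A' hL hL' => ?_
        split_ifs with h0
        · obtain ⟨g1, g2, g3, g4, g5, g6, g7⟩ := h0
          have a1 := HT_fl_ge hX L
          have a2 := HT_fl_ge hY L'
          have a3 := HT_fl_le hX i0 L g1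
          have a4 := HT_fl_le hY i0 L' g2
          rw [hL] at a1 a3
          rw [hL'] at a2 a4
          rw [mul_add] at a3 a4
          have a5 := le_HT_of_fp hX A.2
          have a6 := le_HT_of_fp hY A'.2
          have a7 : j * i0 ≤ J * i0 := Nat.mul_le_mul_right _ hjJ.le
          set i : ℕ × ℕ × ℕ × ℕ := (HT hX (fl L) - j * T, HT hY (fl L') - j * T,
            HT hX A.1 - T, HT hY A'.1 - T) with hi
          have hmem : i ∈ Ix J i0 := by
            simp only [Ix, Finset.mem_product, Finset.mem_range, hi]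
            omega
          have b1 : j * T + i.1 = HT hX (fl L) := by simp only [hi]; omega
          have b2 : j * T + i.2.1 = HT hY (fl L') := by simp only [hi]; omega
          have b3 : T + i.2.2.1 = HT hX A.1 := by simp only [hi]; omega
          have b4 : T + i.2.2.2 = HT hY A'.1 := by simp only [hi]; omega
          refine le_trans (le_of_eq ?_) (Finset.single_le_sum (f := fun i =>
            (if (cond L L' ∧ HT hX (fl L) = j * T + i.1 ∧ HT hY (fl L') = j * T + i.2.1) ∧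
            HT hX A.1 = T + i.2.2.1 ∧ HT hY A'.1 = T + i.2.2.2 ∧
            P E A.1 A'.1 ∧
            Ev hX hY zX zY sX sY A.1 (Dp zX (fl L)) (j * T + i.1) A'.1
              (w + Dp zY (fl L')) (j * T + i.2.1) (j * T + J * i0 + s) ((j + 1) * T - s)
            then (1 : ℝ≥0∞) else 0)) (fun _ _ => zero_le) hmem)
          rw [if_pos]
          refine ⟨⟨(hcond _ _).2 ?_, b1.symm, b2.symm⟩, b3.symm, b4.symm, hPE A A' g6, ?_⟩
          · obtain ⟨A0, h1, h2⟩ := g5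
            exact ⟨A0, h1, (hQ A0).2 ⟨h2, g2 A0 h1⟩⟩
          · rw [b1, b2]; exact g7
        · exact zero_le
    _ = ∑ i ∈ Ix J i0, E4 (wA ΛX hX T) (wA ΛY hY T) j (fun L L' A A' =>
          (if (cond L L' ∧ HT hX (fl L) = j * T + i.1 ∧ HT hY (fl L') = j * T + i.2.1) ∧
            HT hX A.1 = T + i.2.2.1 ∧ HT hY A'.1 = T + i.2.2.2 ∧
            P E A.1 A'.1 ∧
            Ev hX hY zX zY sX sY A.1 (Dp zX (fl L)) (j * T + i.1) A'.1
              (w + Dp zY (fl L')) (j * T + i.2.1) (j * T + J * i0 + s) ((j + 1) * T - s)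
          then 1 else 0)) := E4_finset _ _ j _ _
    _ ≤ ∑ i ∈ Ix J i0, (C * lam + C * (J * (i0 + 1)) * us ((J + 1) * i0) s / lam
        + us ((J + 1) * i0) s) := by
        refine Finset.sum_le_sum fun i hi => ?_
        have hi2 := mem_Ix hi
        have e1 : (j + 1) * T = j * T + T := by ring
        have e2 : (J + 1) * i0 = J * i0 + i0 := by ring
        refine le_trans (win_fix ΛX ΛY hX hY zX zY sX sY C us _ H3 T j hwX hwY w ((J + 1) * i0) s
          (T + i.2.2.1) (T + i.2.2.2) (j * T + i.1) (j * T + i.2.1) (j * T + J * i0 + s)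
          ((j + 1) * T - s) E (j * ((i0 + 1) * th)) lam hl hl' (by omega) (by omega) (by omega)
          (by omega) (by omega) (by omega) (by omega) (by omega) cond ?_) ?_
        · intro x
          calc _ ≤ SL (wA ΛX hX T) j (fun L => SL (wA ΛY hY T) j (fun L' =>
                if (∃ A ∈ L', Q A) ∧
                  (L'.map (fun A => Dp zY A.1)).sum = x + Dp zX (fl L) - w then 1 else 0)) := by
                refine SL_mono _ j fun L _ => SL_mono _ j fun L' _ => ?_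
                split_ifs with h1 h2 h2
                · exact le_rfl
                · exact absurd ⟨(hcond _ _).1 h1.1.1, by rw [← Dp_fl, ← h1.2]; abel⟩ h2
                · exact zero_le
                · exact le_rfl
            _ ≤ SL (wA ΛX hX T) j (fun _ => (j : ℝ≥0∞) * ((i0 + 1) * th)) := by
                refine SL_mono _ j fun L _ => ?_
                exact SL_dens (wA ΛY hY T) hwY (fun A => Dp zY A.1)
                  Q ((i0 + 1) * th) hd' j _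
            _ = _ := SL_const _ hwX j _
        · exact add_le_add (add_le_add le_rfl (card_bound C th lam (us ((J + 1) * i0) s) j J i0 E.card
            hjJ.le hc)) le_rfl
    _ = _ := by rw [Finset.sum_const, nsmul_eq_mul]

lemma opq {A : Type*} (w : A → ℝ≥0∞) (P : A → Prop) (v : ℝ≥0∞)
    (h : ∑' a, (if ¬ P a then w a else 0) ≤ v) :
    ∃ N : A → Prop, (∀ a, N a ↔ ¬ P a) ∧ ∑' a, (if N a then w a else 0) ≤ v := by
  obtain ⟨N, hN⟩ : ∃ N : A → Prop, ∀ a, N a ↔ ¬ P a := ⟨_, fun _ => Iff.rfl⟩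
  refine ⟨N, hN, le_trans (le_of_eq (tsum_congr fun a => ?_)) h⟩
  by_cases h2 : P a
  · rw [if_neg (fun h3 => (hN a).1 h3 h2), if_neg (not_not.2 h2)]
  · rw [if_pos ((hN a).2 h2), if_pos h2]

/-- total cost of one window -/
theorem win_tot (C : ℝ≥0∞) (us : ℕ → ℕ → ℝ≥0∞)
    (H2 : WinH ΛX ΛY hX hY zX zY sX sY C us (fun E L _ => Dp zX L ∈ E))
    (H3 : WinH ΛX ΛY hX hY zX zY sX sY C us (fun E _ L' => Dp zY L' ∈ E))
    (T j J i0 s : ℕ) (hjJ : j < J) (hsT : s ≤ T)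
    (hwX : ∑' A, wA ΛX hX T A = 1) (hwY : ∑' A, wA ΛY hY T A = 1) (w : G)
    (lam : ℝ≥0∞) (hl : lam ≠ 0) (hl' : lam ≠ ⊤) (u : ℝ≥0∞) (hu0 : u ≠ 0) (hu1 : u ≤ 1) :
    E4 (wA ΛX hX T) (wA ΛY hY T) j (fun L L' A A' =>
      if (∀ A ∈ L, HT hX A.1 ≤ T + i0) ∧ (∀ A ∈ L', HT hY A.1 ≤ T + i0) ∧ HT hX A.1 ≤ T + i0 ∧
        HT hY A'.1 ≤ T + i0 ∧
        Ev hX hY zX zY sX sY A.1 (Dp zX (fl L)) (HT hX (fl L)) A'.1 (w + Dp zY (fl L'))
          (HT hY (fl L')) (j * T + J * i0 + s) ((j + 1) * T - s) then 1 else 0)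
      ≤ u * u + (1 - u) ^ j + (1 - u) ^ j
        + (Ix J i0).card * (C * lam + C * (J * (i0 + 1)) * us ((J + 1) * i0) s / lam
        + us ((J + 1) * i0) s)
        + (Ix J i0).card * (C * lam + C * (J * (i0 + 1)) * us ((J + 1) * i0) s / lam
        + us ((J + 1) * i0) s) := by
  obtain ⟨th, low, loc, E, q1, q2, q3, q4, q5⟩ := quant hX zX (wA ΛX hX T) hwX i0 u hu0 hu1
  obtain ⟨th', low', loc', E', r1, r2, r3, r4, r5⟩ := quant hY zY (wA ΛY hY T) hwY i0 u hu0 hu1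
  obtain ⟨nlow, n1, q1⟩ := opq _ _ _ q1
  obtain ⟨nloc, n2, q2⟩ := opq _ _ _ q2
  obtain ⟨nlow', n3, r1⟩ := opq _ _ _ r1
  obtain ⟨nloc', n4, r2⟩ := opq _ _ _ r2
  have e1 := E4_two (wA ΛX hX T) (wA ΛY hY T) j hwX hwY nloc nloc' u u q2 r2
  have e2 : E4 (wA ΛX hX T) (wA ΛY hY T) j (fun L _ _ _ => if ∀ A ∈ L, nlow A then 1 else 0)
      ≤ (1 - u) ^ j := by
    rw [E4_fst _ _ j hwX hwY (fun L => if ∀ A ∈ L, nlow A then 1 else 0)]
    exact le_trans (SL_forall_le _ _ j) (pow_le_pow_left₀ zero_le q1 j)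
  have e3 : E4 (wA ΛX hX T) (wA ΛY hY T) j (fun _ L' _ _ => if ∀ A ∈ L', nlow' A then 1 else 0)
      ≤ (1 - u) ^ j := by
    rw [E4_snd _ _ j hwX hwY (fun L => if ∀ A ∈ L, nlow' A then 1 else 0)]
    exact le_trans (SL_forall_le _ _ j) (pow_le_pow_left₀ zero_le r1 j)
  have e4 := win_X ΛX ΛY hX hY zX zY sX sY C us H2 T j J i0 s hjJ hsT hwX hwY w lam hl hl' th
    low loc E q3 q4 q5
  have e5 := win_Y ΛX ΛY hX hY zX zY sX sY C us H3 T j J i0 s hjJ hsT hwX hwY w lam hl hl' th'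
    low' loc' E' r3 r4 r5
  refine le_trans ?_ (add_le_add (add_le_add (add_le_add (add_le_add e1 e2) e3) e4) e5)
  rw [← E4_add, ← E4_add, ← E4_add, ← E4_add]
  refine E4_mono _ _ j fun L L' A A' _ _ => ?_
  by_cases h0 : (∀ A ∈ L, HT hX A.1 ≤ T + i0) ∧ (∀ A ∈ L', HT hY A.1 ≤ T + i0) ∧
        HT hX A.1 ≤ T + i0 ∧ HT hY A'.1 ≤ T + i0 ∧
        Ev hX hY zX zY sX sY A.1 (Dp zX (fl L)) (HT hX (fl L)) A'.1 (w + Dp zY (fl L'))
          (HT hY (fl L')) (j * T + J * i0 + s) ((j + 1) * T - s)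
  · rw [if_pos h0]
    obtain ⟨g1, g2, g3, g4, g5⟩ := h0
    by_cases c1 : nloc A ∧ nloc' A'
    · rw [if_pos c1]
      exact le_add_right (le_add_right (le_add_right (le_add_right le_rfl)))
    by_cases c2 : ∀ A ∈ L, nlow A
    · rw [if_pos c2]
      exact le_add_right (le_add_right (le_add_right le_add_self))
    by_cases c3 : ∀ A ∈ L', nlow' A
    · rw [if_pos c3]
      exact le_add_right (le_add_right le_add_self)
    have d2 : ∃ A ∈ L, low A := by
      by_contra h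
      exact c2 (fun A0 h1 => (n1 A0).2 (fun h2 => h ⟨A0, h1, h2⟩))
    have d3 : ∃ A ∈ L', low' A := by
      by_contra h
      exact c3 (fun A0 h1 => (n3 A0).2 (fun h2 => h ⟨A0, h1, h2⟩))
    by_cases c4 : loc A
    · rw [if_pos (show (∀ A ∈ L, HT hX A.1 ≤ T + i0) ∧ (∀ A ∈ L', HT hY A.1 ≤ T + i0) ∧
        HT hX A.1 ≤ T + i0 ∧ HT hY A'.1 ≤ T + i0 ∧ (∃ A ∈ L, low A) ∧ loc A ∧
        Ev hX hY zX zY sX sY A.1 (Dp zX (fl L)) (HT hX (fl L)) A'.1 (w + Dp zY (fl L'))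
          (HT hY (fl L')) (j * T + J * i0 + s) ((j + 1) * T - s) from
          ⟨g1, g2, g3, g4, d2, c4, g5⟩)]
      exact le_add_right le_add_self
    · have c5 : loc' A' := by
        by_contra h
        exact c1 ⟨(n2 A).2 c4, (n4 A').2 h⟩
      rw [if_pos (show (∀ A ∈ L, HT hX A.1 ≤ T + i0) ∧ (∀ A ∈ L', HT hY A.1 ≤ T + i0) ∧
        HT hX A.1 ≤ T + i0 ∧ HT hY A'.1 ≤ T + i0 ∧ (∃ A ∈ L', low' A) ∧ loc' A' ∧
        Ev hX hY zX zY sX sY A.1 (Dp zX (fl L)) (HT hX (fl L)) A'.1 (w + Dp zY (fl L'))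
          (HT hY (fl L')) (j * T + J * i0 + s) ((j + 1) * T - s) from
          ⟨g1, g2, g3, g4, d3, c5, g5⟩)]
      exact le_add_self
  · rw [if_neg h0]; exact zero_le

end Crest.Agent.R154.AsD568
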