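import Crest.Agent.R154.AsD_568

/-! Row 154 (helper568), ROAD 801, assembly part E: the sum over the windows. -/

set_option autoImplicit false

namespace Crest.Agent.R154.AsE568

open scoped ENNReal Classical
open Crest.Agent.R154.B5A Crest.Agent.R154.FP178 Crest.Agent.R154.AsA568 Crest.Agent.R154.AsB568
  Crest.Agent.R154.AsC568 Crest.Agent.R154.AsD568

variable {BX BY G : Type*} [AddCommGroup G]
  (ΛX : BX → ℝ≥0∞) (ΛY : BY → ℝ≥0∞) (hX : BX → ℕ) (hY : BY → ℕ) (zX : BX → G) (zY : BY → G)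
  (sX : BX → Set (G × ℕ)) (sY : BY → Set (G × ℕ))

/-- contact of the two lists at a depth satisfying `Q` -/
def Cn (Q : ℕ → Prop) (w : G) (L : List BX) (L' : List BY) : Prop :=
  ∃ z k, Q k ∧ (z, k) ∈ TS hX zX sX L 0 0 ∧ (z, k) ∈ TS hY zY sY L' w 0

lemma Cn_left (Q : ℕ → Prop) (w : G) (L R : List BX) (L' : List BY)
    (h : Cn hX hY zX zY sX sY Q w L L') : Cn hX hY zX zY sX sY Q w (L ++ R) L' := by
  obtain ⟨z, k, h1, h2, h3⟩ := h
  exact ⟨z, k, h1, by rw [TS_append]; exact Or.inl h2, h3⟩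

lemma Cn_right (Q : ℕ → Prop) (w : G) (L : List BX) (L' R : List BY)
    (h : Cn hX hY zX zY sX sY Q w L L') : Cn hX hY zX zY sX sY Q w L (L' ++ R) := by
  obtain ⟨z, k, h1, h2, h3⟩ := h
  exact ⟨z, k, h1, h2, by rw [TS_append]; exact Or.inl h3⟩

lemma Cn_left' (hs : ∀ b, ∀ r ∈ sX b, 1 ≤ r.2 ∧ r.2 ≤ hX b) (Q : ℕ → Prop) (b : ℕ)
    (hQ : ∀ k, Q k → k ≤ b) (w : G) (L R : List BX) (L' : List BY) (hb : b ≤ HT hX L)
    (h : Cn hX hY zX zY sX sY Q w (L ++ R) L') : Cn hX hY zX zY sX sY Q w L L' := by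
  obtain ⟨z, k, h1, h2, h3⟩ := h
  refine ⟨z, k, h1, ?_, h3⟩
  rw [TS_append] at h2
  rcases h2 with h2 | h2
  · exact h2
  · have := (TS_range hX zX sX hs _ _ _ _ h2).1
    have := hQ k h1
    simp only at *
    omega

lemma Cn_right' (hs : ∀ b, ∀ r ∈ sY b, 1 ≤ r.2 ∧ r.2 ≤ hY b) (Q : ℕ → Prop) (b : ℕ)
    (hQ : ∀ k, Q k → k ≤ b) (w : G) (L : List BX) (L' R : List BY) (hb : b ≤ HT hY L')
    (h : Cn hX hY zX zY sX sY Q w L (L' ++ R)) : Cn hX hY zX zY sX sY Q w L L' := by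
  obtain ⟨z, k, h1, h2, h3⟩ := h
  refine ⟨z, k, h1, h2, ?_⟩
  rw [TS_append] at h3
  rcases h3 with h3 | h3
  · exact h3
  · have := (TS_range hY zY sY hs _ _ _ _ h3).1
    have := hQ k h1
    simp only at *
    omega

theorem reduce2 (h1X : ∀ b, 1 ≤ hX b) (h1Y : ∀ b, 1 ≤ hY b) (hΛX : ∑' b, ΛX b = 1)
    (hΛY : ∑' b, ΛY b = 1) (hsX : ∀ b, ∀ r ∈ sX b, 1 ≤ r.2 ∧ r.2 ≤ hX b)
    (hsY : ∀ b, ∀ r ∈ sY b, 1 ≤ r.2 ∧ r.2 ≤ hY b) (Q : ℕ → Prop) (b : ℕ)
    (hQ : ∀ k, Q k → k ≤ b) (J T : ℕ) (hb : b ≤ J * T) (n : ℕ) (w : G) :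
    ∑' L, ∑' L', (if HT hX L = n ∧ HT hY L' = n ∧ Cn hX hY zX zY sX sY Q w L L'
        then LW ΛX L * LW ΛY L' else 0)
      ≤ SL (wA ΛX hX T) J (fun L => SL (wA ΛY hY T) J (fun L' =>
        if Cn hX hY zX zY sX sY Q w (fl L) (fl L') then 1 else 0)) := by
  set N := max n (J * T) with hN
  have m1 : ∀ (L : List BX) (L' R : List BY),
      (if Cn hX hY zX zY sX sY Q w L L' then (1 : ℝ≥0∞) else 0)
      ≤ (if Cn hX hY zX zY sX sY Q w L (L' ++ R) then (1 : ℝ≥0∞) else 0) := by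
    intro L L' R
    by_cases h : Cn hX hY zX zY sX sY Q w L L'
    · rw [if_pos h, if_pos (Cn_right hX hY zX zY sX sY Q w L L' R h)]
    · rw [if_neg h]; exact zero_le
  have m2 : ∀ (L R : List BX) (L' : List BY),
      (if Cn hX hY zX zY sX sY Q w L L' then (1 : ℝ≥0∞) else 0)
      ≤ (if Cn hX hY zX zY sX sY Q w (L ++ R) L' then (1 : ℝ≥0∞) else 0) := by
    intro L R L'
    by_cases h : Cn hX hY zX zY sX sY Q w L L'
    · rw [if_pos h, if_pos (Cn_left hX hY zX zY sX sY Q w L R L' h)]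
    · rw [if_neg h]; exact zero_le
  calc _ = ∑' L, (if HT hX L = n then LW ΛX L * ∑' L', (if HT hY L' = n then LW ΛY L' *
          (if Cn hX hY zX zY sX sY Q w L L' then 1 else 0) else 0) else 0) := by
        refine tsum_congr fun L => ?_
        by_cases hL : HT hX L = n
        · rw [if_pos hL, ← ENNReal.tsum_mul_left]
          refine tsum_congr fun L' => ?_
          by_cases hL' : HT hY L' = n
          · by_cases h : Cn hX hY zX zY sX sY Q w L L'
            · rw [if_pos ⟨hL, hL', h⟩, if_pos hL', if_pos h, mul_one]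
            · rw [if_neg (fun h2 => h h2.2.2), if_pos hL', if_neg h, mul_zero, mul_zero]
          · rw [if_neg (fun h2 => hL' h2.2.1), if_neg hL', mul_zero]
        · rw [if_neg hL]
          refine ENNReal.tsum_eq_zero.2 fun L' => ?_
          rw [if_neg (fun h2 => hL h2.1)]
    _ ≤ ∑' L, (if HT hX L = n then LW ΛX L * SL ΛY N (fun L' =>
          (if Cn hX hY zX zY sX sY Q w L L' then 1 else 0)) else 0) := by
        refine ENNReal.tsum_le_tsum fun L => ?_
        by_cases hL : HT hX L = n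
        · rw [if_pos hL, if_pos hL]
          refine mul_le_mul_right ?_ _
          exact red ΛY hY h1Y hΛY n N _ (le_max_left _ _) (fun L' R => m1 L L' R)
        · rw [if_neg hL, if_neg hL]
    _ ≤ SL ΛX N (fun L => SL ΛY N (fun L' =>
          (if Cn hX hY zX zY sX sY Q w L L' then 1 else 0))) :=
        red ΛX hX h1X hΛX n N _ (le_max_left _ _)
          (fun L R => SL_mono ΛY N fun L' _ => m2 L R L')
    _ ≤ SL ΛX N (fun L => SL (wA ΛY hY T) J (fun L' =>
          (if Cn hX hY zX zY sX sY Q w L (fl L') then 1 else 0))) := by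
        refine SL_mono ΛX N fun L _ => ?_
        refine le_trans (SL_le ΛY hY h1Y hΛY T J N _ (le_max_right _ _)) ?_
        refine SL_mono _ J fun L' hL' => iSup_le fun R => ?_
        by_cases h : Cn hX hY zX zY sX sY Q w L (fl L' ++ R)
        · rw [if_pos h, if_pos]
          refine Cn_right' hX hY zX zY sX sY hsY Q b hQ w L (fl L') R ?_ h
          have := HT_fl_ge hY L'
          rw [hL'] at this
          exact hb.trans this
        · rw [if_neg h]; exact zero_le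
    _ ≤ _ := by
        refine le_trans (SL_le ΛX hX h1X hΛX T J N _ (le_max_right _ _)) ?_
        refine SL_mono _ J fun L hL => iSup_le fun R => ?_
        refine SL_mono _ J fun L' _ => ?_
        by_cases h : Cn hX hY zX zY sX sY Q w (fl L ++ R) (fl L')
        · rw [if_pos h, if_pos]
          refine Cn_left' hX hY zX zY sX sY hsX Q b hQ w (fl L) R (fl L') ?_ h
          have := HT_fl_ge hX L
          rw [hL] at this
          exact hb.trans this
        · rw [if_neg h]; exact zero_le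

theorem conv2 (h1X : ∀ b, 1 ≤ hX b) (h1Y : ∀ b, 1 ≤ hY b) (c : ℝ≥0∞) (R : ℕ)
    (hUX : ∀ n, R ≤ n → c ≤ U ΛX hX n) (hUY : ∀ n, R ≤ n → c ≤ U ΛY hY n)
    (Q : ℕ → Prop) (J T i0 n : ℕ) (hn : J * (T + i0) + R ≤ n) (w : G) :
    c * c * SL (wA ΛX hX T) J (fun L => SL (wA ΛY hY T) J (fun L' =>
        if (∀ A ∈ L, HT hX A.1 ≤ T + i0) ∧ (∀ A ∈ L', HT hY A.1 ≤ T + i0) ∧
          Cn hX hY zX zY sX sY Q w (fl L) (fl L') then 1 else 0))
      ≤ ∑' L, ∑' L', (if HT hX L = n ∧ HT hY L' = n ∧ Cn hX hY zX zY sX sY Q w L L'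
        then LW ΛX L * LW ΛY L' else 0) := by
  set g : List BX → List BY → ℝ≥0∞ := fun L L' =>
    if Cn hX hY zX zY sX sY Q w L L' then 1 else 0 with hg
  set f : List BX → ℝ≥0∞ := fun L => ∑' L', (if HT hY L' = n then LW ΛY L' * g L L' else 0)
    with hf
  have m1 : ∀ L L' R, g L L' ≤ g L (L' ++ R) := by
    intro L L' R
    simp only [hg]
    by_cases h : Cn hX hY zX zY sX sY Q w L L'
    · rw [if_pos h, if_pos (Cn_right hX hY zX zY sX sY Q w L L' R h)]
    · rw [if_neg h]; exact zero_le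
  have m2 : ∀ L R L', g L L' ≤ g (L ++ R) L' := by
    intro L R L'
    simp only [hg]
    by_cases h : Cn hX hY zX zY sX sY Q w L L'
    · rw [if_pos h, if_pos (Cn_left hX hY zX zY sX sY Q w L R L' h)]
    · rw [if_neg h]; exact zero_le
  have mf : ∀ L R, f L ≤ f (L ++ R) := by
    intro L R
    refine ENNReal.tsum_le_tsum fun L' => ?_
    by_cases h : HT hY L' = n
    · rw [if_pos h, if_pos h]; exact mul_le_mul_right (m2 L R L') _
    · rw [if_neg h, if_neg h]
  have eY : ∀ L, c * SL (wA ΛY hY T) J (fun L' =>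
      if (∀ A ∈ L', HT hY A.1 ≤ T + i0) then g L (fl L') else 0) ≤ f L := fun L =>
    conv ΛY hY h1Y c R hUY T i0 J n (fun L' => g L L') hn (m1 L)
  have eX := conv ΛX hX h1X c R hUX T i0 J n f hn mf
  calc _ = c * SL (wA ΛX hX T) J (fun L => c * SL (wA ΛY hY T) J (fun L' =>
        if (∀ A ∈ L, HT hX A.1 ≤ T + i0) ∧ (∀ A ∈ L', HT hY A.1 ≤ T + i0) ∧
          Cn hX hY zX zY sX sY Q w (fl L) (fl L') then 1 else 0)) := by
        rw [SL_const_mul, mul_assoc]
    _ ≤ c * SL (wA ΛX hX T) J (fun L => if (∀ A ∈ L, HT hX A.1 ≤ T + i0) then f (fl L) else 0) := by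
        refine mul_le_mul_right (SL_mono _ J fun L _ => ?_) _
        by_cases hL : ∀ A ∈ L, HT hX A.1 ≤ T + i0
        · rw [if_pos hL]
          refine le_trans (mul_le_mul_right (SL_mono _ J fun L' _ => ?_) _) (eY (fl L))
          by_cases hL' : (∀ A ∈ L, HT hX A.1 ≤ T + i0) ∧ (∀ A ∈ L', HT hY A.1 ≤ T + i0) ∧
            Cn hX hY zX zY sX sY Q w (fl L) (fl L')
          · rw [if_pos hL', if_pos hL'.2.1]
            simp only [hg]
            rw [if_pos hL'.2.2]
          · rw [if_neg hL']; exact zero_le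
        · rw [if_neg hL]
          have : SL (wA ΛY hY T) J (fun L' =>
              if (∀ A ∈ L, HT hX A.1 ≤ T + i0) ∧ (∀ A ∈ L', HT hY A.1 ≤ T + i0) ∧
              Cn hX hY zX zY sX sY Q w (fl L) (fl L') then (1 : ℝ≥0∞) else 0)
              ≤ SL (wA ΛY hY T) J (fun _ => 0 * 1) := SL_mono _ J fun L' _ => by
            rw [if_neg (fun h => hL h.1)]; exact zero_le
          rw [SL_const_mul, zero_mul] at this
          rw [le_antisymm this zero_le, mul_zero]
    _ ≤ _ := eX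
    _ = _ := by
        refine tsum_congr fun L => ?_
        by_cases hL : HT hX L = n
        · rw [if_pos hL, hf]
          simp only
          rw [← ENNReal.tsum_mul_left]
          refine tsum_congr fun L' => ?_
          simp only [hg]
          by_cases hL' : HT hY L' = n
          · by_cases h : Cn hX hY zX zY sX sY Q w L L'
            · rw [if_pos hL', if_pos h, mul_one, if_pos ⟨hL, hL', h⟩]
            · rw [if_pos hL', if_neg h, mul_zero, mul_zero, if_neg (fun h2 => h h2.2.2)]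
          · rw [if_neg hL', mul_zero, if_neg (fun h2 => hL' h2.2.1)]
        · rw [if_neg hL]
          symm
          refine ENNReal.tsum_eq_zero.2 fun L' => ?_
          rw [if_neg (fun h2 => hL h2.1)]

/-- extraction of the `j`-th pieces of both walkers -/
theorem extract2 {A A' : Type*} (w : A → ℝ≥0∞) (w' : A' → ℝ≥0∞) (hw : ∑' a, w a = 1)
    (hw' : ∑' a, w' a = 1) (j J : ℕ) (hj : j < J) (W : List A → List A' → A → A' → Prop) :
    SL w J (fun L => SL w' J (fun L' => if (∃ L1 a L2 M1 b M2, L = L1 ++ a :: L2 ∧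
        L' = M1 ++ b :: M2 ∧ L1.length = j ∧ M1.length = j ∧ W L1 M1 a b) then 1 else 0))
      ≤ E4 w w' j (fun L M a b => if W L M a b then 1 else 0) := by
  obtain ⟨r, rfl⟩ : ∃ r, J = j + (r + 1) := ⟨J - j - 1, by omega⟩
  have e1 := SL_extract w hw j r (fun L => SL w' (j + (r + 1)) (fun L' =>
      if (∃ L1 a L2 M1 b M2, L = L1 ++ a :: L2 ∧
        L' = M1 ++ b :: M2 ∧ L1.length = j ∧ M1.length = j ∧ W L1 M1 a b) then 1 else 0))
      (fun L1 a => SL w' j (fun M1 => ∑' b, w' b * (if W L1 M1 a b then 1 else 0))) ?_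
  · refine le_trans e1 (le_of_eq ?_)
    unfold E4
    refine SL_congr w j fun L _ => ?_
    rw [SL_tsum]
    refine tsum_congr fun a => ?_
    rw [SL_const_mul]
  · intro L1 a R hL1
    refine SL_extract w' hw' j r (fun L' => if (∃ L1' a' L2 M1 b M2,
        L1 ++ a :: R = L1' ++ a' :: L2 ∧ L' = M1 ++ b :: M2 ∧ L1'.length = j ∧ M1.length = j ∧
        W L1' M1 a' b) then 1 else 0) (fun M1 b => if W L1 M1 a b then 1 else 0) ?_
    intro M1 b R' hM1
    by_cases h : ∃ L1' a' L2 M1' b' M2, L1 ++ a :: R = L1' ++ a' :: L2 ∧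
        M1 ++ b :: R' = M1' ++ b' :: M2 ∧ L1'.length = j ∧ M1'.length = j ∧ W L1' M1' a' b'
    · rw [if_pos h]
      obtain ⟨L1', a', L2, M1', b', M2, h1, h2, h3, h4, h5⟩ := h
      obtain ⟨i1, i2⟩ := List.append_inj h1 (by rw [hL1, h3])
      obtain ⟨i3, i4⟩ := List.append_inj h2 (by rw [hM1, h4])
      rw [List.cons.injEq] at i2 i4
      rw [← i1, ← i3, ← i2.1, ← i4.1] at h5
      rw [if_pos h5]
    · rw [if_neg h]; exact zero_le

end Crest.Agent.R154.AsE568
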