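import Crest.Agent.R154.AsE_568

/-! Row 154 (helper568), ROAD 801, assembly part F: KAPPA' from the window inputs. -/

set_option autoImplicit false

namespace Crest.Agent.R154.AsF568

open scoped ENNReal Classical Topology
open Filter
open Crest.Agent.R154.B5A Crest.Agent.R154.FP178 Crest.Agent.R154.AsA568 Crest.Agent.R154.AsB568
  Crest.Agent.R154.AsC568 Crest.Agent.R154.AsD568 Crest.Agent.R154.AsE568

lemma small (a e : ℝ≥0∞) (ha : a ≠ ⊤) (he : e ≠ 0) (he' : e ≠ ⊤) :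
    ∃ δ : ℝ≥0∞, δ ≠ 0 ∧ δ ≠ ⊤ ∧ a * δ ≤ e := by
  refine ⟨e / (a + 1), ?_, ?_, ?_⟩
  · exact ENNReal.div_ne_zero.2 ⟨he, by simp [ha]⟩
  · exact ENNReal.div_ne_top he' (by simp)
  · calc a * (e / (a + 1)) ≤ (a + 1) * (e / (a + 1)) := mul_le_mul_left le_self_add _
      _ = e := ENNReal.mul_div_cancel (by simp) (by simp [ha])

lemma numK (e : ℝ≥0∞) (he : e ≠ 0) : ∃ (K : ℕ) (u : ℝ≥0∞), 1 ≤ K ∧ u ≠ 0 ∧ u ≤ 1 ∧
    ((4 * K : ℕ) : ℝ≥0∞) * (u * u) ≤ e ∧ ((4 * K : ℕ) : ℝ≥0∞) * (1 - u) ^ K ≤ e := by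
  obtain ⟨x, hx0, hxe⟩ : ∃ x : ℝ, 0 < x ∧ ENNReal.ofReal x ≤ e := by
    by_cases h : e = ⊤
    · exact ⟨1, one_pos, by rw [h]; exact le_top⟩
    · exact ⟨e.toReal, ENNReal.toReal_pos he h, by rw [ENNReal.ofReal_toReal h]⟩
  have h1 : Tendsto (fun N : ℕ => (4 : ℝ) / (N : ℝ)) atTop (𝓝 0) :=
    tendsto_const_div_atTop_nhds_zero_nat 4
  have h2 : Tendsto (fun N : ℕ => (4 : ℝ) * ((N : ℝ) ^ 3 * Real.exp (-(N : ℝ)))) atTop (𝓝 0) := by
    have := ((Real.tendsto_pow_mul_exp_neg_atTop_nhds_zero 3).comp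
      (tendsto_natCast_atTop_atTop (R := ℝ))).const_mul 4
    simpa using this
  obtain ⟨N, ⟨hN1, hN2⟩, hN3⟩ := (((h1.eventually_lt_const hx0).and
    (h2.eventually_lt_const hx0)).and (eventually_ge_atTop 1)).exists
  have hNpos : (0 : ℝ) < N := by exact_mod_cast hN3
  have hN1' : (1 : ℝ) ≤ N := by exact_mod_cast hN3
  have hcast : ((4 * N ^ 3 : ℕ) : ℝ≥0∞) = ENNReal.ofReal (4 * (N : ℝ) ^ 3) := by
    rw [← ENNReal.ofReal_natCast]; push_cast; rfl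
  have hsq : (1 : ℝ) / (N : ℝ) ^ 2 ≤ 1 := by
    rw [div_le_one (by positivity)]
    nlinarith
  refine ⟨N ^ 3, ENNReal.ofReal (1 / (N : ℝ) ^ 2), Nat.one_le_pow _ _ hN3, ?_, ?_, ?_, ?_⟩
  · rw [Ne, ENNReal.ofReal_eq_zero, not_le]; positivity
  · exact ENNReal.ofReal_le_one.2 hsq
  · rw [hcast, ← ENNReal.ofReal_mul (by positivity), ← ENNReal.ofReal_mul (by positivity)]
    refine le_trans (ENNReal.ofReal_le_ofReal ?_) hxe
    have : 4 * (N : ℝ) ^ 3 * (1 / (N : ℝ) ^ 2 * (1 / (N : ℝ) ^ 2)) = 4 / N := by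
      field_simp
    rw [this]; exact hN1.le
  · have e1 : (1 : ℝ≥0∞) - ENNReal.ofReal (1 / (N : ℝ) ^ 2)
        = ENNReal.ofReal (1 - 1 / (N : ℝ) ^ 2) := by
      rw [ENNReal.ofReal_sub 1 (by positivity), ENNReal.ofReal_one]
    rw [hcast, e1, ← ENNReal.ofReal_pow (by linarith), ← ENNReal.ofReal_mul (by positivity)]
    refine le_trans (ENNReal.ofReal_le_ofReal ?_) hxe
    have e2 : (1 - 1 / (N : ℝ) ^ 2) ^ (N ^ 3) ≤ Real.exp (-(N : ℝ)) := by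
      calc (1 - 1 / (N : ℝ) ^ 2) ^ (N ^ 3) ≤ (Real.exp (-(1 / (N : ℝ) ^ 2))) ^ (N ^ 3) :=
            pow_le_pow_left₀ (by linarith) (Real.one_sub_le_exp_neg _) _
        _ = Real.exp (-(N : ℝ)) := by
            rw [← Real.exp_nat_mul]
            congr 1
            push_cast
            field_simp
    calc 4 * (N : ℝ) ^ 3 * (1 - 1 / (N : ℝ) ^ 2) ^ (N ^ 3)
        ≤ 4 * (N : ℝ) ^ 3 * Real.exp (-(N : ℝ)) := by gcongr
      _ = 4 * ((N : ℝ) ^ 3 * Real.exp (-(N : ℝ))) := by ring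
      _ ≤ x := hN2.le

variable {BX BY G : Type*} [AddCommGroup G]
  (ΛX : BX → ℝ≥0∞) (ΛY : BY → ℝ≥0∞) (hX : BX → ℕ) (hY : BY → ℕ) (zX : BX → G) (zY : BY → G)
  (sX : BX → Set (G × ℕ)) (sY : BY → Set (G × ℕ))

/-- the event of `win_tot` -/
def WW (T i0 J s : ℕ) (w : G) (j : ℕ) (L : List (At hX T)) (L' : List (At hY T))
    (A : At hX T) (A' : At hY T) : Prop :=
  (∀ A ∈ L, HT hX A.1 ≤ T + i0) ∧ (∀ A ∈ L', HT hY A.1 ≤ T + i0) ∧ HT hX A.1 ≤ T + i0 ∧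
    HT hY A'.1 ≤ T + i0 ∧
    Ev hX hY zX zY sX sY A.1 (Dp zX (fl L)) (HT hX (fl L)) A'.1 (w + Dp zY (fl L'))
      (HT hY (fl L')) (j * T + J * i0 + s) ((j + 1) * T - s)

theorem pw (hsX : ∀ b, ∀ r ∈ sX b, 1 ≤ r.2 ∧ r.2 ≤ hX b)
    (hsY : ∀ b, ∀ r ∈ sY b, 1 ≤ r.2 ∧ r.2 ≤ hY b) (K J T i0 s m : ℕ) (w : G)
    (hsT : s ≤ T) (hT0 : 0 < T) (hKT : K * T ≤ m) (hJT : 2 * m < J * T)
    (L : List (At hX T)) (L' : List (At hY T)) (hL : L.length = J) (hL' : L'.length = J)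
    (hgL : ∀ A ∈ L, HT hX A.1 ≤ T + i0) (hgL' : ∀ A ∈ L', HT hY A.1 ≤ T + i0)
    (hC : Cn hX hY zX zY sX sY (fun k => m < k ∧ k ≤ 2 * m) w (fl L) (fl L'))
    (hslab : ∀ i ∈ Finset.Icc K J, ∀ t ∈ Finset.range (J * i0 + 2 * s + 1),
      ¬ Cn hX hY zX zY sX sY (fun k => k = i * T - s + t) w (fl L) (fl L')) :
    ∃ j ∈ Finset.Ico K J, ∃ L1 a L2 M1 b M2, L = L1 ++ a :: L2 ∧
        L' = M1 ++ b :: M2 ∧ L1.length = j ∧ M1.length = j ∧
        WW hX hY zX zY sX sY T i0 J s w j L1 M1 a b := by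
  obtain ⟨z, k, ⟨h1, h2⟩, h3, h4⟩ := hC
  have hdm := Nat.div_add_mod k T
  have hml := Nat.mod_lt k hT0
  obtain ⟨j, hj⟩ : ∃ j, j = k / T := ⟨_, rfl⟩
  rw [← hj] at hdm
  have hcm : T * j = j * T := mul_comm _ _
  have e1 : (j + 1) * T = j * T + T := by ring
  have hjT : j * T ≤ k := by omega
  have hk2 : k < (j + 1) * T := by omega
  have hKj : K ≤ j := by
    rw [hj]; exact (Nat.le_div_iff_mul_le hT0).2 (by omega)
  have hjJ : j < J := by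
    rw [hj]; exact (Nat.div_lt_iff_lt_mul hT0).2 (by omega)
  have noslab : ∀ z' k', (z', k') ∈ TS hX zX sX (fl L) 0 0 → (z', k') ∈ TS hY zY sY (fl L') w 0 →
      ∀ i, K ≤ i → i ≤ J → ¬ (i * T - s ≤ k' ∧ k' ≤ i * T + J * i0 + s) := by
    intro z' k' g1 g2 i g3 g4 g5
    refine hslab i (Finset.mem_Icc.2 ⟨g3, g4⟩) (k' - (i * T - s))
      (Finset.mem_range.2 (by omega)) ⟨z', k', by omega, g1, g2⟩
  obtain ⟨L1, a, L2, i1, i2⟩ := exists_split L j (by rw [hL]; exact hjJ)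
  obtain ⟨M1, b, M2, i3, i4⟩ := exists_split L' j (by rw [hL']; exact hjJ)
  have n1 := noslab z k h3 h4 j hKj hjJ.le
  have hlow : j * T + J * i0 + s < k := by omega
  have ga : HT hX a.1 ≤ T + i0 := hgL a (by rw [i1]; simp)
  have gb : HT hY b.1 ≤ T + i0 := hgL' b (by rw [i3]; simp)
  have gL1 : ∀ A ∈ L1, HT hX A.1 ≤ T + i0 := fun A hA => hgL A (by rw [i1]; simp [hA])
  have gM1 : ∀ A ∈ M1, HT hY A.1 ≤ T + i0 := fun A hA => hgL' A (by rw [i3]; simp [hA])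
  refine ⟨j, Finset.mem_Ico.2 ⟨hKj, hjJ⟩, L1, a, L2, M1, b, M2, i1, i3, i2, i4,
    gL1, gM1, ga, gb, ⟨z, k, ?_, ?_⟩, ?_⟩
  · have := mem_piece hX zX sX hsX i0 J j hjJ L1 L2 a i2 gL1 0 (z, k) (by rw [← i1]; exact h3)
      (by simp only; omega) (by simp only; omega)
    rwa [zero_add] at this
  · exact mem_piece hY zY sY hsY i0 J j hjJ M1 M2 b i4 gM1 w (z, k) (by rw [← i3]; exact h4)
      (by simp only; omega) (by simp only; omega)
  · intro z' k' g1 g2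
    have f1 : (z', k') ∈ TS hX zX sX (fl L) 0 0 := by
      rw [i1]
      refine piece_mem hX zX sX L1 L2 a 0 (z', k') ?_
      rw [zero_add]; exact g1
    have f2 : (z', k') ∈ TS hY zY sY (fl L') w 0 := by
      rw [i3]
      exact piece_mem hY zY sY M1 M2 b w (z', k') g2
    have n2 := noslab z' k' f1 f2 j hKj hjJ.le
    have n3 := noslab z' k' f1 f2 (j + 1) (by omega) (by omega)
    have r1 := TS_range hX zX sX hsX _ _ _ _ g1
    simp only at r1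
    have r2 := HT_fl_ge hX L1
    have r3 := HT_fl_le hX i0 L1 gL1
    rw [i2] at r2 r3
    rw [mul_add] at r3
    have r4 : (j + 1) * i0 ≤ J * i0 := Nat.mul_le_mul_right _ hjJ
    have r5 : (j + 1) * i0 = j * i0 + i0 := by ring
    constructor <;> omega

lemma ovbad {B : Type*} (Λ : B → ℝ≥0∞) (h : B → ℕ) (h1 : ∀ b, 1 ≤ h b)
    (hU1 : ∀ n, U Λ h n ≤ 1) (T i0 : ℕ) (P : At h T → Prop)
    (hP : ∀ A, P A ↔ ¬ HT h A.1 ≤ T + i0) :
    ∑' A, (if P A then wA Λ h T A else 0) ≤ ∑' k, tail Λ h (i0 + k) := by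
  refine le_trans ?_ (overshoot Λ h h1 hU1 i0 T)
  calc _ = ∑' A : At h T, (if T + i0 < HT h A.1 then LW Λ A.1 else 0) := by
        refine tsum_congr fun A => ?_
        by_cases hA : P A
        · rw [if_pos hA, if_pos (not_le.1 ((hP A).1 hA))]; rfl
        · rw [if_neg hA, if_neg (fun h2 => hA ((hP A).2 (not_le.2 h2)))]
    _ = ∑' A : List B, (if fp h T A then (if T + i0 < HT h A then LW Λ A else 0) else 0) :=
        tsum_At h T (fun A => if T + i0 < HT h A then LW Λ A else 0)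
    _ ≤ _ := by
        refine ENNReal.tsum_le_tsum fun A => ?_
        by_cases h2 : fp h T A
        · rw [if_pos h2]
          by_cases h3 : T + i0 < HT h A
          · rw [if_pos h3, if_pos ⟨h2, h3⟩]
          · rw [if_neg h3]; exact zero_le
        · rw [if_neg h2]; exact zero_le

lemma tail_tendsto {B : Type*} (Λ : B → ℝ≥0∞) (h : B → ℕ) (h1 : ∀ b, 1 ≤ h b)
    (hΛ : ∑' b, Λ b = 1) (c : ℝ≥0∞) (hc : c ≠ 0) (hc' : c ≠ ⊤) (R : ℕ)
    (hU : ∀ n, R ≤ n → c ≤ U Λ h n) :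
    Tendsto (fun i => ∑' k, tail Λ h (i + k)) atTop (𝓝 0) := by
  have hfin : ∑' k, tail Λ h k ≠ ⊤ := by
    rw [← sum_tail Λ h hΛ]
    exact ne_top_of_le_ne_top (ENNReal.inv_ne_top.2 hc) (mean_le Λ h h1 hΛ c hc hc' R hU)
  have := ENNReal.tendsto_sum_nat_add (tail Λ h) hfin
  refine this.congr fun i => tsum_congr fun k => ?_
  rw [add_comm]

end Crest.Agent.R154.AsF568
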