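import Crest.Agent.R154.AsF_568

/-! Row 154 (helper568), ROAD 801, assembly part G: `kapS`. -/

set_option autoImplicit false

namespace Crest.Agent.R154.AsG568

open scoped ENNReal Classical Topology
open Filter
open Crest.Agent.R154.B5A Crest.Agent.R154.FP178 Crest.Agent.R154.AsA568 Crest.Agent.R154.AsB568
  Crest.Agent.R154.AsC568 Crest.Agent.R154.AsD568 Crest.Agent.R154.AsE568 Crest.Agent.R154.AsF568

variable {BX BY G : Type*} [AddCommGroup G]
  (ΛX : BX → ℝ≥0∞) (ΛY : BY → ℝ≥0∞) (hX : BX → ℕ) (hY : BY → ℕ) (zX : BX → G) (zY : BY → G)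
  (sX : BX → Set (G × ℕ)) (sY : BY → Set (G × ℕ))

/-- cost of the contacts in the windows, fixed parameters -/
theorem fixed (h1X : ∀ b, 1 ≤ hX b) (h1Y : ∀ b, 1 ≤ hY b) (hΛX : ∑' b, ΛX b = 1)
    (hΛY : ∑' b, ΛY b = 1) (hsX : ∀ b, ∀ r ∈ sX b, 1 ≤ r.2 ∧ r.2 ≤ hX b)
    (hsY : ∀ b, ∀ r ∈ sY b, 1 ≤ r.2 ∧ r.2 ≤ hY b)
    (hU1X : ∀ n, U ΛX hX n ≤ 1) (hU1Y : ∀ n, U ΛY hY n ≤ 1)
    (C : ℝ≥0∞) (us : ℕ → ℕ → ℝ≥0∞)
    (H2 : WinH ΛX ΛY hX hY zX zY sX sY C us (fun E L _ => Dp zX L ∈ E))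
    (H3 : WinH ΛX ΛY hX hY zX zY sX sY C us (fun E _ L' => Dp zY L' ∈ E))
    (K J T i0 s m : ℕ) (w : G) (u lam dl : ℝ≥0∞) (hu0 : u ≠ 0) (hu1 : u ≤ 1)
    (hl : lam ≠ 0) (hl' : lam ≠ ⊤)
    (hsT : s ≤ T) (hT0 : 0 < T) (hKT : K * T ≤ m) (hJT : 2 * m < J * T)
    (hdl : ∀ i ∈ Finset.Icc K J, ∀ t ∈ Finset.range (J * i0 + 2 * s + 1),
      SL (wA ΛX hX T) J (fun L => SL (wA ΛY hY T) J (fun L' =>
        if (∀ A ∈ L, HT hX A.1 ≤ T + i0) ∧ (∀ A ∈ L', HT hY A.1 ≤ T + i0) ∧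
          Cn hX hY zX zY sX sY (fun k => k = i * T - s + t) w (fl L) (fl L') then 1 else 0))
        ≤ dl) :
    SL (wA ΛX hX T) J (fun L => SL (wA ΛY hY T) J (fun L' =>
        if Cn hX hY zX zY sX sY (fun k => m < k ∧ k ≤ 2 * m) w (fl L) (fl L') then 1 else 0))
      ≤ J * (∑' k, tail ΛX hX (i0 + k)) + J * (∑' k, tail ΛY hY (i0 + k))
        + (((J + 1) * (J * i0 + 2 * s + 1) : ℕ) : ℝ≥0∞) * dl
        + J * (u * u + (1 - u) ^ K + (1 - u) ^ K
          + (Ix J i0).card * (C * lam + C * (J * (i0 + 1)) * us ((J + 1) * i0) s / lam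
            + us ((J + 1) * i0) s)
          + (Ix J i0).card * (C * lam + C * (J * (i0 + 1)) * us ((J + 1) * i0) s / lam
            + us ((J + 1) * i0) s)) := by
  have hwX := wA_one ΛX hX h1X hΛX T
  have hwY := wA_one ΛY hY h1Y hΛY T
  obtain ⟨PX, hPX⟩ : ∃ P : At hX T → Prop, ∀ A, P A ↔ ¬ HT hX A.1 ≤ T + i0 :=
    ⟨_, fun _ => Iff.rfl⟩
  obtain ⟨PY, hPY⟩ : ∃ P : At hY T → Prop, ∀ A, P A ↔ ¬ HT hY A.1 ≤ T + i0 :=
    ⟨_, fun _ => Iff.rfl⟩
  -- the four parts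
  set F1 : List (At hX T) → List (At hY T) → ℝ≥0∞ := fun L _ =>
    if ∃ A ∈ L, PX A then 1 else 0 with hF1
  set F2 : List (At hX T) → List (At hY T) → ℝ≥0∞ := fun _ L' =>
    if ∃ A ∈ L', PY A then 1 else 0 with hF2
  set F3 : ℕ → ℕ → List (At hX T) → List (At hY T) → ℝ≥0∞ := fun i t L L' =>
    if (∀ A ∈ L, HT hX A.1 ≤ T + i0) ∧ (∀ A ∈ L', HT hY A.1 ≤ T + i0) ∧
          Cn hX hY zX zY sX sY (fun k => k = i * T - s + t) w (fl L) (fl L') then 1 else 0 with hF3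
  set F4 : ℕ → List (At hX T) → List (At hY T) → ℝ≥0∞ := fun j L L' =>
    if (∃ L1 a L2 M1 b M2, L = L1 ++ a :: L2 ∧ L' = M1 ++ b :: M2 ∧ L1.length = j ∧
      M1.length = j ∧ WW hX hY zX zY sX sY T i0 J s w j L1 M1 a b) then 1 else 0 with hF4
  have step1 : SL (wA ΛX hX T) J (fun L => SL (wA ΛY hY T) J (fun L' =>
        if Cn hX hY zX zY sX sY (fun k => m < k ∧ k ≤ 2 * m) w (fl L) (fl L') then 1 else 0))
      ≤ SL (wA ΛX hX T) J (fun L => SL (wA ΛY hY T) J (fun L' =>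
        F1 L L' + F2 L L' + (∑ i ∈ Finset.Icc K J, ∑ t ∈ Finset.range (J * i0 + 2 * s + 1),
          F3 i t L L') + ∑ j ∈ Finset.Ico K J, F4 j L L')) := by
    refine SL_mono _ J fun L hL => SL_mono _ J fun L' hL' => ?_
    by_cases hC : Cn hX hY zX zY sX sY (fun k => m < k ∧ k ≤ 2 * m) w (fl L) (fl L')
    swap
    · rw [if_neg hC]; exact zero_le
    rw [if_pos hC]
    by_cases c1 : ∃ A ∈ L, PX A
    · have : F1 L L' = 1 := if_pos c1
      rw [this]
      exact le_add_right (le_add_right (le_add_right le_rfl))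
    by_cases c2 : ∃ A ∈ L', PY A
    · have : F2 L L' = 1 := if_pos c2
      rw [this]
      exact le_add_right (le_add_right le_add_self)
    have gL : ∀ A ∈ L, HT hX A.1 ≤ T + i0 := fun A hA => by
      by_contra h
      exact c1 ⟨A, hA, (hPX A).2 h⟩
    have gL' : ∀ A ∈ L', HT hY A.1 ≤ T + i0 := fun A hA => by
      by_contra h
      exact c2 ⟨A, hA, (hPY A).2 h⟩
    by_cases c3 : ∃ i ∈ Finset.Icc K J, ∃ t ∈ Finset.range (J * i0 + 2 * s + 1),
      Cn hX hY zX zY sX sY (fun k => k = i * T - s + t) w (fl L) (fl L')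
    · obtain ⟨i, hi, t, ht, h3⟩ := c3
      have e3 : F3 i t L L' = 1 := if_pos ⟨gL, gL', h3⟩
      have e4 : (1 : ℝ≥0∞) ≤ ∑ i ∈ Finset.Icc K J, ∑ t ∈ Finset.range (J * i0 + 2 * s + 1),
          F3 i t L L' := by
        calc (1 : ℝ≥0∞) = F3 i t L L' := e3.symm
          _ ≤ ∑ t ∈ Finset.range (J * i0 + 2 * s + 1), F3 i t L L' :=
              Finset.single_le_sum (f := fun t => F3 i t L L') (fun _ _ => zero_le) ht
          _ ≤ _ := Finset.single_le_sum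
              (f := fun i => ∑ t ∈ Finset.range (J * i0 + 2 * s + 1), F3 i t L L')
              (fun _ _ => zero_le) hi
      exact le_add_right (le_trans e4 le_add_self)
    · have := pw hX hY zX zY sX sY hsX hsY K J T i0 s m w hsT hT0 hKT hJT L L' hL hL' gL gL' hC
        (fun i hi t ht h => c3 ⟨i, hi, t, ht, h⟩)
      obtain ⟨j, hj, h4⟩ := this
      have e4 : F4 j L L' = 1 := if_pos h4
      have e5 : (1 : ℝ≥0∞) ≤ ∑ j ∈ Finset.Ico K J, F4 j L L' := by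
        calc (1 : ℝ≥0∞) = F4 j L L' := e4.symm
          _ ≤ _ := Finset.single_le_sum (f := fun j => F4 j L L') (fun _ _ => zero_le) hj
      exact le_trans e5 le_add_self
  refine le_trans step1 ?_
  simp only [SL_add_fun, SL_finset]
  refine add_le_add (add_le_add (add_le_add ?_ ?_) ?_) ?_
  · -- F1
    have e : SL (wA ΛX hX T) J (fun L => SL (wA ΛY hY T) J (fun L' => F1 L L'))
        = SL (wA ΛX hX T) J (fun L => if ∃ A ∈ L, PX A then 1 else 0) :=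
      SL_congr _ J fun L _ => SL_const _ hwY J _
    refine le_trans (le_of_eq e) (le_trans (SL_exists_le _ hwX PX J) ?_)
    exact mul_le_mul_right (ovbad ΛX hX h1X hU1X T i0 PX hPX) _
  · have e : SL (wA ΛX hX T) J (fun L => SL (wA ΛY hY T) J (fun L' => F2 L L'))
        = SL (wA ΛY hY T) J (fun L' => if ∃ A ∈ L', PY A then 1 else 0) :=
      SL_const (wA ΛX hX T) hwX J
        (SL (wA ΛY hY T) J (fun L' => if ∃ A ∈ L', PY A then 1 else 0))
    refine le_trans (le_of_eq e) (le_trans (SL_exists_le _ hwY PY J) ?_)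
    exact mul_le_mul_right (ovbad ΛY hY h1Y hU1Y T i0 PY hPY) _
  · calc _ ≤ ∑ i ∈ Finset.Icc K J, ∑ t ∈ Finset.range (J * i0 + 2 * s + 1), dl := by
          refine Finset.sum_le_sum fun i hi => Finset.sum_le_sum fun t ht => ?_
          exact hdl i hi t ht
      _ = ((((J + 1 - K) * (J * i0 + 2 * s + 1) : ℕ) : ℝ≥0∞)) * dl := by
          simp only [Finset.sum_const, Finset.card_range, Nat.card_Icc, nsmul_eq_mul]
          rw [← mul_assoc]
          push_cast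
          rfl
      _ ≤ _ := by
          refine mul_le_mul_left ?_ _
          exact_mod_cast Nat.mul_le_mul_right _ (Nat.sub_le _ _)
  · calc _ ≤ ∑ j ∈ Finset.Ico K J, (u * u + (1 - u) ^ K + (1 - u) ^ K
          + (Ix J i0).card * (C * lam + C * (J * (i0 + 1)) * us ((J + 1) * i0) s / lam
            + us ((J + 1) * i0) s)
          + (Ix J i0).card * (C * lam + C * (J * (i0 + 1)) * us ((J + 1) * i0) s / lam
            + us ((J + 1) * i0) s)) := by
          refine Finset.sum_le_sum fun j hj => ?_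
          obtain ⟨hj1, hj2⟩ := Finset.mem_Ico.1 hj
          refine le_trans (extract2 (wA ΛX hX T) (wA ΛY hY T) hwX hwY j J hj2
            (WW hX hY zX zY sX sY T i0 J s w j)) ?_
          refine le_trans ?_ (le_trans (win_tot ΛX ΛY hX hY zX zY sX sY C us H2 H3 T j J i0 s hj2
            hsT hwX hwY w lam hl hl' u hu0 hu1) ?_)
          · refine E4_mono _ _ j fun L M a b _ _ => ?_
            by_cases h : WW hX hY zX zY sX sY T i0 J s w j L M a b
            · refine le_of_eq ?_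
              exact (if_pos h).trans (if_pos h).symm
            · refine le_of_eq ?_
              exact (if_neg h).trans (if_neg h).symm
          · have hp : (1 - u) ^ j ≤ (1 - u) ^ K :=
              pow_le_pow_of_le_one zero_le tsub_le_self hj1
            gcongr
      _ ≤ _ := by
          rw [Finset.sum_const, nsmul_eq_mul]
          refine mul_le_mul_left ?_ _
          rw [Nat.card_Ico]
          exact_mod_cast Nat.sub_le _ _

/-- **KAPPA' for lists of blocks** -/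
theorem kapS (h1X : ∀ b, 1 ≤ hX b) (h1Y : ∀ b, 1 ≤ hY b) (hΛX : ∑' b, ΛX b = 1)
    (hΛY : ∑' b, ΛY b = 1) (hsX : ∀ b, ∀ r ∈ sX b, 1 ≤ r.2 ∧ r.2 ≤ hX b)
    (hsY : ∀ b, ∀ r ∈ sY b, 1 ≤ r.2 ∧ r.2 ≤ hY b)
    (hU1X : ∀ n, U ΛX hX n ≤ 1) (hU1Y : ∀ n, U ΛY hY n ≤ 1)
    (c : ℝ≥0∞) (hc : c ≠ 0) (R : ℕ)
    (hUX : ∀ n, R ≤ n → c ≤ U ΛX hX n) (hUY : ∀ n, R ≤ n → c ≤ U ΛY hY n)
    (C : ℝ≥0∞) (hC : C ≠ ⊤) (us : ℕ → ℕ → ℝ≥0∞) (hus : ∀ D, Tendsto (us D) atTop (𝓝 0))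
    (H2 : WinH ΛX ΛY hX hY zX zY sX sY C us (fun E L _ => Dp zX L ∈ E))
    (H3 : WinH ΛX ΛY hX hY zX zY sX sY C us (fun E _ L' => Dp zY L' ∈ E))
    (Ws : Set G)
    (hPt : ∀ ε : ℝ≥0∞, ε ≠ 0 → ∃ k0 : ℕ, ∀ k, k0 ≤ k → ∀ n, k ≤ n → ∀ w ∈ Ws,
      ∑' LX, ∑' LY, (if HT hX LX = n ∧ HT hY LY = n ∧
        (∃ z, (z, k) ∈ TS hX zX sX LX 0 0 ∧ (z, k) ∈ TS hY zY sY LY w 0)
        then LW ΛX LX * LW ΛY LY else 0) ≤ ε) :
    ∀ ε : ℝ≥0∞, ε ≠ 0 → ∃ m0 : ℕ, ∀ m, m0 ≤ m → ∀ n, ∀ w ∈ Ws,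
      ∑' LX, ∑' LY, (if HT hX LX = n ∧ HT hY LY = n ∧
        (∃ z k, (m < k ∧ k ≤ 2 * m) ∧ (z, k) ∈ TS hX zX sX LX 0 0 ∧
          (z, k) ∈ TS hY zY sY LY w 0)
        then LW ΛX LX * LW ΛY LY else 0) ≤ ε := by
  intro ε hε
  have hc' : c ≠ ⊤ := ne_top_of_le_ne_top ENNReal.one_ne_top ((hUX R le_rfl).trans (hU1X R))
  obtain ⟨e, he0, heT, he10⟩ := small 10 (min ε 1) (by norm_num)
    (by rw [Ne, min_eq_iff]; rintro (⟨h, _⟩ | ⟨h, _⟩); exacts [hε h, one_ne_zero h])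
    (ne_top_of_le_ne_top ENNReal.one_ne_top (min_le_right _ _))
  obtain ⟨K, u, hK, hu0, hu1, hA, hB⟩ := numK e he0
  obtain ⟨J, hJ⟩ : ∃ J, J = 4 * K := ⟨_, rfl⟩
  rw [← hJ] at hA hB
  -- i0
  obtain ⟨δ1, hδ1, _, hδ1'⟩ := small (J : ℝ≥0∞) e (ENNReal.natCast_ne_top J) he0 heT
  have tX := tail_tendsto ΛX hX h1X hΛX c hc hc' R hUX
  have tY := tail_tendsto ΛY hY h1Y hΛY c hc hc' R hUY
  obtain ⟨i0, ho1, ho2⟩ := ((tX.eventually_le_const (pos_iff_ne_zero.2 hδ1)).and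
    (tY.eventually_le_const (pos_iff_ne_zero.2 hδ1))).exists
  -- lam
  obtain ⟨lam, hl0, hlT, hl⟩ := small ((J : ℝ≥0∞) * ((Ix J i0).card * C)) e
    (ENNReal.mul_ne_top (ENNReal.natCast_ne_top J) (ENNReal.mul_ne_top
      (ENNReal.natCast_ne_top _) hC)) he0 heT
  -- s
  obtain ⟨δ2, hδ2, _, hδ2'⟩ := small ((J : ℝ≥0∞) * ((Ix J i0).card *
    (C * (J * (i0 + 1)) / lam + 1))) e (ENNReal.mul_ne_top (ENNReal.natCast_ne_top J)
    (ENNReal.mul_ne_top (ENNReal.natCast_ne_top _) (ENNReal.add_ne_top.2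
      ⟨ENNReal.div_ne_top (ENNReal.mul_ne_top hC (ENNReal.mul_ne_top (ENNReal.natCast_ne_top J)
        (ENNReal.add_ne_top.2 ⟨ENNReal.natCast_ne_top _, ENNReal.one_ne_top⟩))) hl0,
        ENNReal.one_ne_top⟩))) he0 heT
  obtain ⟨s, hs⟩ := ((hus ((J + 1) * i0)).eventually_le_const (pos_iff_ne_zero.2 hδ2)).exists
  -- slab
  obtain ⟨δ3, hδ3, _, hδ3'⟩ := small ((((J + 1) * (J * i0 + 2 * s + 1) : ℕ) : ℝ≥0∞)
    * (c * c)⁻¹) e (ENNReal.mul_ne_top (ENNReal.natCast_ne_top _)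
      (ENNReal.inv_ne_top.2 (mul_ne_zero hc hc))) he0 heT
  obtain ⟨k0, hk0⟩ := hPt δ3 hδ3
  refine ⟨(s + k0 + 1) * K, fun m hm n w hw => ?_⟩
  have hKpos : 0 < K := hK
  obtain ⟨T, hT⟩ : ∃ T, T = m / K := ⟨_, rfl⟩
  have hT1 : s + k0 + 1 ≤ T := by rw [hT]; exact (Nat.le_div_iff_mul_le hKpos).2 hm
  have hdm := Nat.div_add_mod m K
  have hml := Nat.mod_lt m hKpos
  rw [← hT] at hdm
  have hKT : K * T ≤ m := by omega
  have hJT : 2 * m < J * T := by
    have : K * 1 ≤ K * T := Nat.mul_le_mul_left _ (by omega)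
    have h4 : J * T = 4 * (K * T) := by rw [hJ]; ring
    omega
  have key := fixed ΛX ΛY hX hY zX zY sX sY h1X h1Y hΛX hΛY hsX hsY hU1X hU1Y C us H2 H3 K J T i0
    s m w u lam ((c * c)⁻¹ * δ3) hu0 hu1 hl0 hlT (by omega) (by omega) hKT hJT ?_
  · calc _ = ∑' L, ∑' L', (if HT hX L = n ∧ HT hY L' = n ∧
            Cn hX hY zX zY sX sY (fun k => m < k ∧ k ≤ 2 * m) w L L'
            then LW ΛX L * LW ΛY L' else 0) := by
          refine tsum_congr fun L => tsum_congr fun L' => ?_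
          by_cases h : HT hX L = n ∧ HT hY L' = n ∧
            Cn hX hY zX zY sX sY (fun k => m < k ∧ k ≤ 2 * m) w L L'
          · exact (if_pos h).trans (if_pos h).symm
          · exact (if_neg h).trans (if_neg h).symm
      _ ≤ _ := reduce2 ΛX ΛY hX hY zX zY sX sY h1X h1Y hΛX hΛY hsX hsY
          (fun k => m < k ∧ k ≤ 2 * m) (2 * m) (fun k hk => hk.2) J T hJT.le n w
      _ ≤ _ := key
      _ ≤ e + e + e + (e + e + e + (e + e) + (e + e)) := by
          refine add_le_add (add_le_add (add_le_add ?_ ?_) ?_) ?_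
          · exact le_trans (mul_le_mul_right ho1 _) hδ1'
          · exact le_trans (mul_le_mul_right ho2 _) hδ1'
          · rw [← mul_assoc]; exact hδ3'
          · have hb : (J : ℝ≥0∞) * ((Ix J i0).card * (C * lam + C * (J * (i0 + 1)) *
                us ((J + 1) * i0) s / lam + us ((J + 1) * i0) s)) ≤ e + e := by
              have e1 : C * (J * (i0 + 1)) * us ((J + 1) * i0) s / lam + us ((J + 1) * i0) s
                  = (C * (J * (i0 + 1)) / lam + 1) * us ((J + 1) * i0) s := by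
                rw [add_mul, one_mul, ENNReal.div_eq_inv_mul, ENNReal.div_eq_inv_mul]
                ring
              calc _ = (J : ℝ≥0∞) * ((Ix J i0).card * C) * lam + (J : ℝ≥0∞) * ((Ix J i0).card *
                    (C * (J * (i0 + 1)) / lam + 1)) * us ((J + 1) * i0) s := by
                    rw [add_assoc, e1]; ring
                _ ≤ e + e := add_le_add hl (le_trans (mul_le_mul_right hs _) hδ2')
            calc _ = (J : ℝ≥0∞) * (u * u) + (J : ℝ≥0∞) * (1 - u) ^ K + (J : ℝ≥0∞) * (1 - u) ^ K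
                  + (J : ℝ≥0∞) * ((Ix J i0).card * (C * lam + C * (J * (i0 + 1)) *
                    us ((J + 1) * i0) s / lam + us ((J + 1) * i0) s))
                  + (J : ℝ≥0∞) * ((Ix J i0).card * (C * lam + C * (J * (i0 + 1)) *
                    us ((J + 1) * i0) s / lam + us ((J + 1) * i0) s)) := by
                  simp only [mul_add]
              _ ≤ _ := add_le_add (add_le_add (add_le_add (add_le_add hA hB) hB) hb) hb
      _ = 10 * e := by ring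
      _ ≤ ε := he10.trans (min_le_left _ _)
  · intro i hi t ht
    obtain ⟨hi1, hi2⟩ := Finset.mem_Icc.1 hi
    have hKi : K * T ≤ i * T := Nat.mul_le_mul_right _ hi1
    have hTK : 1 * T ≤ K * T := Nat.mul_le_mul_right _ hK
    obtain ⟨k, hk⟩ : ∃ k, k = i * T - s + t := ⟨_, rfl⟩
    have hkk : k0 ≤ k := by omega
    have hn := hk0 k hkk (k + (J * (T + i0) + R)) (by omega) w hw
    have e := conv2 ΛX ΛY hX hY zX zY sX sY h1X h1Y c R hUX hUY (fun k' => k' = k) J T i0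
      (k + (J * (T + i0) + R)) (by omega) w
    have e2 : ∑' L, ∑' L', (if HT hX L = k + (J * (T + i0) + R) ∧
        HT hY L' = k + (J * (T + i0) + R) ∧ Cn hX hY zX zY sX sY (fun k' => k' = k) w L L'
        then LW ΛX L * LW ΛY L' else 0) ≤ δ3 := by
      refine le_trans (le_of_eq ?_) hn
      refine tsum_congr fun L => tsum_congr fun L' => ?_
      by_cases h : HT hX L = k + (J * (T + i0) + R) ∧
        HT hY L' = k + (J * (T + i0) + R) ∧ Cn hX hY zX zY sX sY (fun k' => k' = k) w L L'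
      · obtain ⟨h1, h2, z, k', h3, h4, h5⟩ := h
        rw [if_pos ⟨h1, h2, z, k', h3, h4, h5⟩, if_pos]
        have h3' : k' = k := h3
        rw [h3'] at h4 h5
        exact ⟨h1, h2, z, h4, h5⟩
      · rw [if_neg h, if_neg]
        rintro ⟨h1, h2, z, h4, h5⟩
        exact h ⟨h1, h2, z, k, rfl, h4, h5⟩
    rw [← hk]
    have e3 := le_trans e e2
    have hcc0 : c * c ≠ 0 := mul_ne_zero hc hc
    have hccT : c * c ≠ ⊤ := ENNReal.mul_ne_top hc' hc'
    refine le_trans (le_of_eq ?_) (mul_le_mul_right e3 (c * c)⁻¹)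
    rw [← mul_assoc, ENNReal.inv_mul_cancel hcc0 hccT, one_mul]

end Crest.Agent.R154.AsG568
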