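import Crest.Agent.R154.B5Abs_566

/-! Row 154, ROAD 801, pure sub-lemmas of the abstract assembly (helper789). -/

set_option autoImplicit false

namespace Crest.Agent.R154.AsmA789

open scoped ENNReal
open Crest.Agent.R154.B5A

variable {B : Type*} (Λ : B → ℝ≥0∞)

/-! ### (Q) dyadic quantile -/

open Classical in
lemma card_le {ι : Type*} (p : ι → ℝ≥0∞) (hp : ∑' i, p i ≤ 1) {θ : ℝ≥0∞} (hθ : θ ≠ 0) :
    {i | θ ≤ p i}.Finite ∧ (({i | θ ≤ p i}.ncard : ℕ) : ℝ≥0∞) * θ ≤ 1 := by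
  have hfin : {i | θ ≤ p i}.Finite :=
    ENNReal.finite_const_le_of_tsum_ne_top (ne_top_of_le_ne_top ENNReal.one_ne_top hp) hθ
  refine ⟨hfin, ?_⟩
  rw [Set.ncard_eq_toFinset_card _ hfin]
  calc ((hfin.toFinset.card : ℕ) : ℝ≥0∞) * θ = ∑ _i ∈ hfin.toFinset, θ := by
        rw [Finset.sum_const, nsmul_eq_mul]
    _ ≤ ∑ i ∈ hfin.toFinset, p i :=
        Finset.sum_le_sum fun i hi => by simpa using (hfin.mem_toFinset.1 hi)
    _ ≤ ∑' i, p i := ENNReal.sum_le_tsum _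
    _ ≤ 1 := hp

open Classical in
/-- the mass of `{p < 2^{-q}}` tends to zero -/
lemma exists_small {ι : Type*} (p : ι → ℝ≥0∞) (hp : ∑' i, p i ≤ 1) {u : ℝ≥0∞} (hu : u ≠ 0) :
    ∃ q : ℕ, (∑' i, if p i < (2 : ℝ≥0∞)⁻¹ ^ q then p i else 0) ≤ u := by
  have hne : ∑' i, p i ≠ ⊤ := ne_top_of_le_ne_top ENNReal.one_ne_top hp
  -- choose a finite set carrying all but `u`
  have htend := ENNReal.tendsto_tsum_compl_atTop_zero (f := p) hne
  have h1 : ∀ᶠ s : Finset ι in Filter.atTop, ∑' i : { x // x ∉ s }, p i < u :=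
    htend.eventually (gt_mem_nhds (pos_iff_ne_zero.2 hu))
  obtain ⟨s, hs⟩ := h1.exists
  -- a power below all the nonzero values on `s`
  have h2 : ∃ q : ℕ, ∀ i ∈ s, p i ≠ 0 → (2 : ℝ≥0∞)⁻¹ ^ q ≤ p i := by
    have hz : Filter.Tendsto (fun q : ℕ => (2 : ℝ≥0∞)⁻¹ ^ q) Filter.atTop (nhds 0) :=
      ENNReal.tendsto_pow_atTop_nhds_zero_of_lt_one (by simp)
    have : ∀ᶠ q : ℕ in Filter.atTop, ∀ i ∈ s, p i ≠ 0 → (2 : ℝ≥0∞)⁻¹ ^ q ≤ p i := by
      rw [Filter.eventually_all_finset]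
      intro i _
      by_cases hi : p i = 0
      · exact Filter.Eventually.of_forall fun q h => absurd hi h
      · filter_upwards [hz.eventually (gt_mem_nhds (pos_iff_ne_zero.2 hi))] with q hq _
        exact hq.le
    exact this.exists
  obtain ⟨q, hq⟩ := h2
  refine ⟨q, ?_⟩
  calc (∑' i, if p i < (2 : ℝ≥0∞)⁻¹ ^ q then p i else 0)
      ≤ ∑' i, (Set.indicator {i | i ∉ s} p i) := by
        refine ENNReal.tsum_le_tsum fun i => ?_
        by_cases hi : i ∈ s
        · by_cases h0 : p i = 0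
          · simp [h0]
          · rw [if_neg (not_lt.2 (hq i hi h0))]; exact zero_le
        · rw [Set.indicator_of_mem (by exact hi)]
          split_ifs <;> simp
    _ = ∑' i : { x // x ∉ s }, p i := (tsum_subtype {i | i ∉ s} p).symm
    _ ≤ u := hs.le

open Classical in
/-- **dyadic quantile** -/
theorem quant {ι : Type*} (p : ι → ℝ≥0∞) (hp : ∑' i, p i = 1) {u : ℝ≥0∞} (hu : u ≠ 0)
    (hu1 : u < 1) : ∃ θ : ℝ≥0∞, θ ≠ 0 ∧ θ ≤ 1 ∧ (∑' i, if p i < θ then p i else 0) ≤ u ∧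
      u ≤ (∑' i, if p i < 2 * θ then p i else 0) := by
  have hex := exists_small p hp.le hu
  set P : ℕ → Prop := fun q => (∑' i, if p i < (2 : ℝ≥0∞)⁻¹ ^ q then p i else 0) ≤ u with hP
  have hex' : ∃ q, P q := hex
  have hq := Nat.find_spec hex'
  refine ⟨(2 : ℝ≥0∞)⁻¹ ^ Nat.find hex', ?_, ?_, hq, ?_⟩
  · exact pow_ne_zero _ (by simp)
  · exact pow_le_one' (by simp) _
  · rcases Nat.eq_zero_or_pos (Nat.find hex') with h0 | hpos
    · rw [h0, pow_zero, mul_one]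
      have : ∀ i, p i < 2 := by
        intro i
        calc p i ≤ ∑' i, p i := ENNReal.le_tsum i
          _ = 1 := hp
          _ < 2 := by norm_num
      simp only [this, if_true, hp]
      exact hu1.le
    · obtain ⟨r, hr⟩ := Nat.exists_eq_succ_of_ne_zero hpos.ne'
      have hnot : ¬ P r := Nat.find_min hex' (by omega)
      have e : 2 * (2 : ℝ≥0∞)⁻¹ ^ Nat.find hex' = (2 : ℝ≥0∞)⁻¹ ^ r := by
        rw [hr, Nat.succ_eq_add_one, pow_succ, mul_comm ((2 : ℝ≥0∞)⁻¹ ^ r), ← mul_assoc,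
          ENNReal.mul_inv_cancel (by norm_num) (by norm_num), one_mul]
      rw [e]
      exact (not_le.1 hnot).le

/-! ### (N), (O), (D) -/

open Classical in
lemma nosmall (S : B → Prop) (j : ℕ) :
    SL Λ j (fun L => if ∃ b ∈ L, S b then 0 else 1) = (∑' b, if S b then 0 else Λ b) ^ j := by
  induction j with
  | zero => rw [SL_zero]; simp
  | succ j ih =>
    rw [SL_succ, pow_succ, ← ih, mul_comm, ← ENNReal.tsum_mul_right]
    refine tsum_congr fun b => ?_
    by_cases hb : S b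
    · rw [if_pos hb, zero_mul]
      have : SL Λ j (fun L => if ∃ b_1 ∈ b :: L, S b_1 then (0 : ℝ≥0∞) else 1) = 0 := by
        rw [SL]
        refine ENNReal.tsum_eq_zero.2 fun L => ?_
        have h1 : ∃ b_1 ∈ b :: L, S b_1 := ⟨b, List.mem_cons_self, hb⟩
        simp only [h1, if_true, mul_zero, ite_self]
      rw [this, mul_zero]
    · rw [if_neg hb]
      congr 1
      refine SL_congr Λ j fun L _ => ?_
      simp [hb]

open Classical in
lemma overs (hΛ : ∑' b, Λ b = 1) (S : B → Prop) (j : ℕ) :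
    SL Λ j (fun L => if ∃ b ∈ L, S b then 1 else 0) ≤ j * ∑' b, (if S b then Λ b else 0) := by
  induction j with
  | zero => rw [SL_zero]; simp
  | succ j ih =>
    rw [SL_succ]
    calc ∑' b, Λ b * SL Λ j (fun L => if ∃ b_1 ∈ b :: L, S b_1 then (1 : ℝ≥0∞) else 0)
        ≤ ∑' b, ((if S b then Λ b else 0)
            + Λ b * SL Λ j (fun L => if ∃ b_1 ∈ L, S b_1 then (1 : ℝ≥0∞) else 0)) := by
          refine ENNReal.tsum_le_tsum fun b => ?_
          by_cases hb : S b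
          · rw [if_pos hb]
            refine le_add_right ?_
            calc Λ b * SL Λ j (fun L => if ∃ b_1 ∈ b :: L, S b_1 then (1 : ℝ≥0∞) else 0)
                ≤ Λ b * SL Λ j (fun _ => 1) :=
                  mul_le_mul_right (SL_mono Λ j fun L _ => by split_ifs <;> simp) _
              _ = Λ b := by rw [SL_one Λ hΛ, mul_one]
          · rw [if_neg hb, zero_add]
            refine mul_le_mul_right (SL_mono Λ j fun L _ => ?_) _
            simp [hb]
      _ = ∑' b, (if S b then Λ b else 0)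
            + (∑' b, Λ b) * SL Λ j (fun L => if ∃ b_1 ∈ L, S b_1 then (1 : ℝ≥0∞) else 0) := by
          rw [ENNReal.tsum_add, ENNReal.tsum_mul_right]
      _ ≤ ∑' b, (if S b then Λ b else 0) + j * ∑' b, (if S b then Λ b else 0) := by
          rw [hΛ, one_mul]; exact add_le_add le_rfl ih
      _ = _ := by push_cast; ring

open Classical in
/-- **density lemma** with the free factor `j` -/
theorem dens {G : Type*} [AddCommGroup G] (hΛ : ∑' b, Λ b ≤ 1) (z : B → G) (S : B → Prop)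
    (M : ℝ≥0∞) (hM : ∀ x, ∑' b, (if S b ∧ z b = x then Λ b else 0) ≤ M) (j : ℕ) (x : G) :
    SL Λ j (fun L => if (∃ b ∈ L, S b) ∧ (L.map z).sum = x then 1 else 0) ≤ j * M := by
  induction j generalizing x with
  | zero => rw [SL_zero]; simp
  | succ j ih =>
    rw [SL_succ]
    have hone : SL Λ j (fun _ => (1 : ℝ≥0∞)) ≤ 1 := by
      rw [SL_pow]; exact pow_le_one' hΛ _
    calc ∑' b, Λ b * SL Λ j (fun L =>
          if (∃ b_1 ∈ b :: L, S b_1) ∧ ((b :: L).map z).sum = x then (1 : ℝ≥0∞) else 0)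
        ≤ ∑' b, (SL Λ j (fun L => if S b ∧ z b = x - (L.map z).sum then Λ b else 0)
            + Λ b * SL Λ j (fun L =>
              if (∃ b_1 ∈ L, S b_1) ∧ (L.map z).sum = x - z b then (1 : ℝ≥0∞) else 0)) := by
          refine ENNReal.tsum_le_tsum fun b => ?_
          rw [← SL_const_mul, ← SL_const_mul, ← SL_add_fun]
          refine SL_mono Λ j fun L _ => ?_
          by_cases hx : ((b :: L).map z).sum = x
          · have hx1 : z b = x - (L.map z).sum := by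
              rw [← hx, List.map_cons, List.sum_cons]; abel
            have hx2 : (L.map z).sum = x - z b := by
              rw [← hx, List.map_cons, List.sum_cons]; abel
            by_cases hb : S b
            · rw [if_pos (⟨hb, hx1⟩ : S b ∧ z b = x - (L.map z).sum)]
              refine le_add_right ?_
              split_ifs <;> simp
            · by_cases hL : ∃ b_1 ∈ L, S b_1
              · rw [if_pos (⟨hL, hx2⟩ : (∃ b_1 ∈ L, S b_1) ∧ (L.map z).sum = x - z b)]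
                refine le_add_left ?_
                split_ifs <;> simp
              · rw [if_neg]
                · simp
                · rintro ⟨⟨c, hc, hSc⟩, -⟩
                  rcases List.mem_cons.1 hc with rfl | hc
                  · exact hb hSc
                  · exact hL ⟨c, hc, hSc⟩
          · rw [if_neg (fun h => hx h.2)]; simp
      _ = SL Λ j (fun L => ∑' b, if S b ∧ z b = x - (L.map z).sum then Λ b else 0)
            + ∑' b, Λ b * SL Λ j (fun L =>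
              if (∃ b_1 ∈ L, S b_1) ∧ (L.map z).sum = x - z b then (1 : ℝ≥0∞) else 0) := by
          rw [ENNReal.tsum_add]
          congr 1
          simp only [SL]
          rw [ENNReal.tsum_comm]
          refine tsum_congr fun L => ?_
          by_cases hL : L.length = j
          · simp only [hL, if_true]; rw [ENNReal.tsum_mul_left]
          · simp [hL]
      _ ≤ SL Λ j (fun _ => M * 1) + ∑' b, Λ b * (j * M) :=
          add_le_add (SL_mono Λ j fun L _ => by rw [mul_one]; exact hM _)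
            (ENNReal.tsum_le_tsum fun b => mul_le_mul_right (ih _) _)
      _ ≤ M * 1 + 1 * (j * M) := by
          rw [SL_const_mul, ENNReal.tsum_mul_right]
          exact add_le_add (mul_le_mul_right hone _) (mul_le_mul_left hΛ _)
      _ = _ := by push_cast; ring

/-! ### (E) numbers -/

lemma num_real (ε : ℝ) (hε : 0 < ε) (C : ℕ) : ∃ q : ℕ, 2 ≤ q ∧
    (C : ℝ) * ((q : ℝ) ^ 3 + C) * (((q : ℝ) ^ 2)⁻¹ ^ 2 + (1 - (2 * (q : ℝ) ^ 2)⁻¹) ^ (q ^ 3)) ≤ ε := by
  have t1 : Filter.Tendsto (fun q : ℕ => (C : ℝ) * (1 + C) * ((q : ℝ))⁻¹) Filter.atTop (nhds 0) := by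
    have := (tendsto_natCast_atTop_atTop (R := ℝ)).inv_tendsto_atTop.const_mul ((C : ℝ) * (1 + C))
    simpa using this
  have t2 : Filter.Tendsto (fun q : ℕ => (C : ℝ) * (1 + C) * (8 * (((q : ℝ) / 2) ^ 3 * Real.exp (-((q : ℝ) / 2)))))
      Filter.atTop (nhds 0) := by
    have h : Filter.Tendsto (fun q : ℕ => (q : ℝ) / 2) Filter.atTop Filter.atTop :=
      (tendsto_natCast_atTop_atTop (R := ℝ)).atTop_div_const (by norm_num)
    have := ((Real.tendsto_pow_mul_exp_neg_atTop_nhds_zero 3).comp h).const_mul ((C : ℝ) * (1 + C) * 8)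
    simp only [Function.comp_def, mul_zero] at this
    refine this.congr fun q => ?_
    ring
  have t3 := t1.add t2
  rw [add_zero] at t3
  obtain ⟨q, hq1, hq2⟩ := ((t3.eventually (gt_mem_nhds hε)).and (Filter.eventually_ge_atTop 2)).exists
  refine ⟨q, hq2, le_trans ?_ hq1.le⟩
  have hq0 : (2 : ℝ) ≤ q := by exact_mod_cast hq2
  have hq : (0 : ℝ) < q := by linarith
  have e1 : (1 - (2 * (q : ℝ) ^ 2)⁻¹) ^ (q ^ 3) ≤ Real.exp (-((q : ℝ) / 2)) := by
    have h0 : (0 : ℝ) ≤ 1 - (2 * (q : ℝ) ^ 2)⁻¹ := by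
      have : (2 * (q : ℝ) ^ 2)⁻¹ ≤ 1 := inv_le_one_of_one_le₀ (by nlinarith)
      linarith
    calc (1 - (2 * (q : ℝ) ^ 2)⁻¹) ^ (q ^ 3) ≤ (Real.exp (-(2 * (q : ℝ) ^ 2)⁻¹)) ^ (q ^ 3) := by
          refine pow_le_pow_left₀ h0 ?_ _
          have := Real.add_one_le_exp (-(2 * (q : ℝ) ^ 2)⁻¹)
          linarith
      _ = Real.exp (-((q : ℝ) / 2)) := by
          rw [← Real.exp_nat_mul]
          congr 1
          push_cast
          field_simp
  have e2 : (q : ℝ) ^ 3 + C ≤ (1 + C) * (q : ℝ) ^ 3 := by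
    have : (1 : ℝ) ≤ (q : ℝ) ^ 3 := one_le_pow₀ (by linarith)
    have hC : (0 : ℝ) ≤ C := Nat.cast_nonneg C
    nlinarith
  have hC : (0 : ℝ) ≤ C := Nat.cast_nonneg C
  have hb : 0 ≤ ((q : ℝ) ^ 2)⁻¹ ^ 2 + Real.exp (-((q : ℝ) / 2)) := by positivity
  calc (C : ℝ) * ((q : ℝ) ^ 3 + C) * (((q : ℝ) ^ 2)⁻¹ ^ 2 + (1 - (2 * (q : ℝ) ^ 2)⁻¹) ^ (q ^ 3))
      ≤ (C : ℝ) * ((1 + C) * (q : ℝ) ^ 3) * (((q : ℝ) ^ 2)⁻¹ ^ 2 + Real.exp (-((q : ℝ) / 2))) := by
        refine le_trans (mul_le_mul_of_nonneg_left (add_le_add le_rfl e1) (by positivity)) ?_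
        exact mul_le_mul_of_nonneg_right (mul_le_mul_of_nonneg_left e2 hC) hb
    _ = (C : ℝ) * (1 + C) * ((q : ℝ))⁻¹ + (C : ℝ) * (1 + C) * (8 * (((q : ℝ) / 2) ^ 3 * Real.exp (-((q : ℝ) / 2)))) := by
        field_simp
        ring

/-- numbers of ROAD 801: `u = 1 / q²`, `K = q³` -/
theorem num {ε : ℝ≥0∞} (hε : ε ≠ 0) (C : ℕ) : ∃ q : ℕ, 2 ≤ q ∧
    (C : ℝ≥0∞) * ((q : ℝ≥0∞) ^ 3 + C) *
      (((q : ℝ≥0∞) ^ 2)⁻¹ ^ 2 + (1 - (2 * (q : ℝ≥0∞) ^ 2)⁻¹) ^ (q ^ 3)) ≤ ε := by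
  rcases eq_or_ne ε ⊤ with rfl | hT
  · exact ⟨2, le_rfl, le_top⟩
  obtain ⟨q, hq, h⟩ := num_real ε.toReal (ENNReal.toReal_pos hε hT) C
  refine ⟨q, hq, ?_⟩
  have hq0 : (0 : ℝ) < q := by exact_mod_cast (by omega : 0 < q)
  have hq0' : (2 : ℝ) ≤ q := by exact_mod_cast hq
  have h1 : ENNReal.ofReal ((C : ℝ) * ((q : ℝ) ^ 3 + C) * (((q : ℝ) ^ 2)⁻¹ ^ 2 + (1 - (2 * (q : ℝ) ^ 2)⁻¹) ^ (q ^ 3))) ≤ ε := by
    calc _ ≤ ENNReal.ofReal ε.toReal := ENNReal.ofReal_le_ofReal h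
      _ = ε := ENNReal.ofReal_toReal hT
  have hle : (2 * (q : ℝ) ^ 2)⁻¹ ≤ 1 := inv_le_one_of_one_le₀ (by nlinarith)
  have h0 : (0 : ℝ) ≤ 1 - (2 * (q : ℝ) ^ 2)⁻¹ := by linarith
  have eq2 : ENNReal.ofReal ((q : ℝ) ^ 2) = (q : ℝ≥0∞) ^ 2 := by
    rw [ENNReal.ofReal_pow hq0.le, ENNReal.ofReal_natCast]
  have e1 : ENNReal.ofReal (((q : ℝ) ^ 2)⁻¹ ^ 2) = ((q : ℝ≥0∞) ^ 2)⁻¹ ^ 2 := by
    rw [ENNReal.ofReal_pow (by positivity), ENNReal.ofReal_inv_of_pos (by positivity), eq2]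
  have e2 : ENNReal.ofReal ((1 - (2 * (q : ℝ) ^ 2)⁻¹) ^ (q ^ 3)) = (1 - (2 * (q : ℝ≥0∞) ^ 2)⁻¹) ^ (q ^ 3) := by
    rw [ENNReal.ofReal_pow h0, ENNReal.ofReal_sub _ (by positivity), ENNReal.ofReal_one,
      ENNReal.ofReal_inv_of_pos (by positivity), ENNReal.ofReal_mul (by norm_num), eq2]
    simp
  rw [ENNReal.ofReal_mul (by positivity), ENNReal.ofReal_mul (by positivity), ENNReal.ofReal_add (by positivity) (by positivity),
    ENNReal.ofReal_add (by positivity) (by positivity), e1, e2, ENNReal.ofReal_natCast,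
    ENNReal.ofReal_pow hq0.le, ENNReal.ofReal_natCast] at h1
  exact h1


end Crest.Agent.R154.AsmA789
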