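import Crest.Agent.R154.B5Abs_566

/-! Row 154, ROAD 801, boundary reduction (helper958): lists of height `n` extend to lists of
height `n + N` at the price `c`. -/

set_option autoImplicit false

namespace Crest.Agent.R154.Bd958

open Crest.Agent.R154.B5A
open scoped ENNReal

variable {B : Type*} (Λ : B → ℝ≥0∞) (ht : B → ℕ)

lemma HT_eq_zero (h1 : ∀ b, 1 ≤ ht b) {L : List B} (h : HT ht L = 0) : L = [] := by
  have := length_le_HT ht h1 L
  exact List.length_eq_zero_iff.1 (by omega)

/-- the cut of a list at a given height is unique -/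
lemma split_inj (h1 : ∀ b, 1 ≤ ht b) {L L' R R' : List B} (h : HT ht L = HT ht L')
    (e : L ++ R = L' ++ R') : L = L' ∧ R = R' := by
  rcases List.append_eq_append_iff.1 e with ⟨t, ht1, ht2⟩ | ⟨t, ht1, ht2⟩
  · have : HT ht t = 0 := by
      rw [ht1, HT_append] at h; omega
    have ht0 := HT_eq_zero ht h1 this
    subst ht0
    simp only [List.append_nil, List.nil_append] at ht1 ht2
    exact ⟨ht1.symm, ht2⟩
  · have : HT ht t = 0 := by
      rw [ht1, HT_append] at h; omega
    have ht0 := HT_eq_zero ht h1 this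
    subst ht0
    simp only [List.append_nil, List.nil_append] at ht1 ht2
    exact ⟨ht1, ht2.symm⟩

open Classical in
/-- one alphabet: appending a rest of height `N` -/
lemma ext_one (h1 : ∀ b, 1 ≤ ht b) (n N : ℕ) (F G : List B → ℝ≥0∞)
    (hFG : ∀ L R, HT ht L = n → HT ht R = N → F L ≤ G (L ++ R)) :
    U Λ ht N * ∑' L : List B, (if HT ht L = n then LW Λ L * F L else 0)
      ≤ ∑' L : List B, (if HT ht L = n + N then LW Λ L * G L else 0) := by
  rw [← ENNReal.tsum_mul_left]
  have e1 : ∀ L : List B, U Λ ht N * (if HT ht L = n then LW Λ L * F L else 0)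
      = ∑' R : List B, (if HT ht L = n ∧ HT ht R = N then LW Λ (L ++ R) * F L else 0) := by
    intro L
    by_cases hL : HT ht L = n
    · rw [if_pos hL, U, ← ENNReal.tsum_mul_right]
      refine tsum_congr fun R => ?_
      by_cases hR : HT ht R = N
      · rw [if_pos hR, if_pos ⟨hL, hR⟩, LW_append]; ring
      · rw [if_neg hR, if_neg (fun h => hR h.2), zero_mul]
    · simp [hL]
  simp_rw [e1]
  rw [← ENNReal.tsum_prod]
  let S : Set (List B × List B) := {p | HT ht p.1 = n ∧ HT ht p.2 = N}
  calc ∑' p : List B × List B,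
        (if HT ht p.1 = n ∧ HT ht p.2 = N then LW Λ (p.1 ++ p.2) * F p.1 else 0)
      = ∑' p : S, LW Λ (p.1.1 ++ p.1.2) * F p.1.1 := by
        rw [tsum_subtype S (fun p => LW Λ (p.1 ++ p.2) * F p.1)]
        refine tsum_congr fun p => ?_
        rw [Set.indicator_apply]
        rfl
    _ ≤ ∑' p : S, (fun L : List B => if HT ht L = n + N then LW Λ L * G L else 0)
          (p.1.1 ++ p.1.2) := by
        refine ENNReal.tsum_le_tsum fun p => ?_
        have hp := p.2
        simp only
        rw [if_pos (by rw [HT_append, hp.1, hp.2])]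
        gcongr
        exact hFG _ _ hp.1 hp.2
    _ ≤ _ := by
        refine ENNReal.tsum_comp_le_tsum_of_injective
          (f := fun p : S => p.1.1 ++ p.1.2) ?_ _
        intro p q h
        have := split_inj ht h1 (by rw [p.2.1, q.2.1]) h
        exact Subtype.ext (Prod.ext this.1 this.2)

/-- two alphabets: `c ^ 2 *` (weight at height `n`) `≤` (weight at height `n + N`). -/
theorem ext_two {BX BY : Type*} (ΛX : BX → ℝ≥0∞) (hX : BX → ℕ) (ΛY : BY → ℝ≥0∞) (hY : BY → ℕ)
    (h1X : ∀ b, 1 ≤ hX b) (h1Y : ∀ b, 1 ≤ hY b) (c : ℝ≥0∞) (n N : ℕ)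
    (hcX : c ≤ U ΛX hX N) (hcY : c ≤ U ΛY hY N)
    (E E' : List BX → List BY → Prop) [∀ L L', Decidable (E L L')] [∀ L L', Decidable (E' L L')]
    (hE : ∀ L R L' R', HT hX L = n → HT hX R = N → HT hY L' = n → HT hY R' = N → E L L' →
      E' (L ++ R) (L' ++ R')) :
    c * c * ∑' L : List BX, ∑' L' : List BY,
        (if HT hX L = n ∧ HT hY L' = n ∧ E L L' then LW ΛX L * LW ΛY L' else 0)
      ≤ ∑' L : List BX, ∑' L' : List BY,
        (if HT hX L = n + N ∧ HT hY L' = n + N ∧ E' L L' then LW ΛX L * LW ΛY L' else 0) := by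
  classical
  have r1 : ∀ (k : ℕ) (P : List BX → List BY → Prop) [∀ L L', Decidable (P L L')],
      ∑' L : List BX, ∑' L' : List BY,
        (if HT hX L = k ∧ HT hY L' = k ∧ P L L' then LW ΛX L * LW ΛY L' else 0)
      = ∑' L : List BX, (if HT hX L = k then LW ΛX L *
          ∑' L' : List BY, (if HT hY L' = k then LW ΛY L' * (if P L L' then 1 else 0) else 0)
          else 0) := by
    intro k P _
    refine tsum_congr fun L => ?_
    by_cases hL : HT hX L = k
    · rw [if_pos hL, ← ENNReal.tsum_mul_left]
      refine tsum_congr fun L' => ?_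
      by_cases hL' : HT hY L' = k
      · by_cases hP : P L L'
        · simp [hL, hL', hP]
        · simp [hL, hL', hP]
      · simp [hL']
    · simp [hL]
  rw [r1 n E, r1 (n + N) E']
  calc c * c * ∑' L : List BX, (if HT hX L = n then LW ΛX L *
          ∑' L' : List BY, (if HT hY L' = n then LW ΛY L' * (if E L L' then 1 else 0) else 0)
          else 0)
      ≤ U ΛX hX N * (U ΛY hY N * ∑' L : List BX, (if HT hX L = n then LW ΛX L *
          ∑' L' : List BY, (if HT hY L' = n then LW ΛY L' * (if E L L' then 1 else 0) else 0)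
          else 0)) := by
        rw [mul_assoc]
        gcongr
    _ = U ΛX hX N * ∑' L : List BX, (if HT hX L = n then LW ΛX L *
          (U ΛY hY N * ∑' L' : List BY,
            (if HT hY L' = n then LW ΛY L' * (if E L L' then 1 else 0) else 0)) else 0) := by
        congr 1
        rw [← ENNReal.tsum_mul_left]
        refine tsum_congr fun L => ?_
        by_cases hL : HT hX L = n
        · rw [if_pos hL, if_pos hL]; ring
        · simp [hL]
    _ ≤ _ := by
        refine ext_one ΛX hX h1X n N _ _ fun L R hL hR => ?_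
        refine ext_one ΛY hY h1Y n N _ _ fun L' R' hL' hR' => ?_
        by_cases hEE : E L L'
        · rw [if_pos hEE, if_pos (hE L R L' R' hL hR hL' hR' hEE)]
        · rw [if_neg hEE]; exact zero_le

end Crest.Agent.R154.Bd958
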