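import Crest.Agent.R154.FP_178
import Crest.Agent.R154.Dens_903
import Crest.Agent.R154.Bd_958
import Crest.Agent.R154.AsmA_789

/-! Row 154, ROAD 801, abstract assembly, part 1 (helper214): chains of first passage pieces. -/

set_option autoImplicit false

namespace Crest.Agent.R154.Asm214

open scoped ENNReal Classical
open Crest.Agent.R154.B5A
open Crest.Agent.R154.FP178

section one

variable {B : Type*} (Λ : B → ℝ≥0∞) (ht : B → ℕ)

/-- good piece: first passage of `T` with overshoot at most `i0` -/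
def gd (T i0 : ℕ) (A : List B) : Prop := fp ht T A ∧ HT ht A ≤ T + i0

/-- weight of a piece -/
noncomputable def PW (T i0 : ℕ) (A : List B) : ℝ≥0∞ := if gd ht T i0 A then LW Λ A else 0

/-- sum over the lists of height `n` -/
noncomputable def S (n : ℕ) (f : List B → ℝ≥0∞) : ℝ≥0∞ :=
  ∑' L, (if HT ht L = n then LW Λ L * f L else 0)

lemma S_mono (n : ℕ) {f g : List B → ℝ≥0∞} (h : ∀ L, HT ht L = n → f L ≤ g L) :
    S Λ ht n f ≤ S Λ ht n g := by
  refine ENNReal.tsum_le_tsum fun L => ?_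
  by_cases hL : HT ht L = n
  · simp only [hL, if_true]; exact mul_le_mul_right (h L hL) _
  · simp [hL]

lemma S_const (hU1 : ∀ n, U Λ ht n ≤ 1) (n : ℕ) (c : ℝ≥0∞) : S Λ ht n (fun _ => c) ≤ c := by
  have : S Λ ht n (fun _ => c) = U Λ ht n * c := by
    rw [S, U, ← ENNReal.tsum_mul_right]
    refine tsum_congr fun L => ?_
    by_cases hL : HT ht L = n <;> simp [hL]
  rw [this]
  calc U Λ ht n * c ≤ 1 * c := mul_le_mul_left (hU1 n) _
    _ = c := one_mul _

lemma S_le (hU1 : ∀ n, U Λ ht n ≤ 1) (n : ℕ) (c : ℝ≥0∞) {f : List B → ℝ≥0∞}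
    (hf : ∀ L, HT ht L = n → f L ≤ c) : S Λ ht n f ≤ c :=
  (S_mono Λ ht n hf).trans (S_const Λ ht hU1 n c)

lemma PW_le (T i0 : ℕ) (A : List B) : PW Λ ht T i0 A ≤ LW Λ A := by
  unfold PW; split_ifs
  · exact le_rfl
  · exact zero_le

lemma sum_PW (h1 : ∀ b, 1 ≤ ht b) (hΛ : ∑' b, Λ b ≤ 1) (T i0 : ℕ) :
    ∑' A, PW Λ ht T i0 A ≤ 1 := by
  refine le_trans (ENNReal.tsum_le_tsum fun A => ?_) (sum_FP Λ ht h1 hΛ T)
  unfold PW gd
  by_cases h : fp ht T A
  · simp only [h, true_and, if_true]; split_ifs <;> simp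
  · simp [h]

/-- one step of peeling -/
lemma peel_one (h1 : ∀ b, 1 ≤ ht b) (hU1 : ∀ n, U Λ ht n ≤ 1) (T i0 n : ℕ) (hn : T + i0 ≤ n)
    (e : ℝ≥0∞) (he : ∑' L, (if fp ht T L ∧ T + i0 < HT ht L then LW Λ L else 0) ≤ e)
    (f : List B → ℝ≥0∞) (hf : ∀ L, f L ≤ 1) :
    S Λ ht n f ≤ e + ∑' A, PW Λ ht T i0 A * S Λ ht (n - HT ht A) (fun R => f (A ++ R)) := by
  have h0 : S Λ ht n f = ∑' L, (if T ≤ HT ht L then LW Λ L * (if HT ht L = n then f L else 0)
      else 0) := by
    refine tsum_congr fun L => ?_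
    by_cases hL : HT ht L = n
    · rw [if_pos hL, if_pos (by omega), if_pos hL]
    · rw [if_neg hL]
      split_ifs <;> simp
  rw [h0, split Λ ht h1 T]
  refine le_trans ?_ (add_le_add he le_rfl)
  rw [← ENNReal.tsum_add]
  refine ENNReal.tsum_le_tsum fun A => ?_
  by_cases hA : fp ht T A
  · rw [if_pos hA]
    by_cases hg : HT ht A ≤ T + i0
    · refine le_add_left ?_
      have : PW Λ ht T i0 A = LW Λ A := by unfold PW gd; rw [if_pos ⟨hA, hg⟩]
      rw [this]
      refine mul_le_mul_right (le_of_eq ?_) _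
      rw [S]
      refine tsum_congr fun R => ?_
      by_cases hR : HT ht R = n - HT ht A
      · rw [if_pos hR, if_pos (by rw [HT_append]; omega)]
      · rw [if_neg hR, if_neg (by rw [HT_append]; omega), mul_zero]
    · refine le_add_right ?_
      rw [if_pos ⟨hA, by omega⟩]
      calc LW Λ A * ∑' R, LW Λ R * (if HT ht (A ++ R) = n then f (A ++ R) else 0)
          ≤ LW Λ A * 1 := by
            refine mul_le_mul_right ?_ _
            refine le_trans ?_ (hU1 (n - HT ht A))
            rw [U]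
            refine ENNReal.tsum_le_tsum fun R => ?_
            by_cases hR : HT ht (A ++ R) = n
            · rw [if_pos hR, if_pos (by rw [HT_append] at hR; omega)]
              calc LW Λ R * f (A ++ R) ≤ LW Λ R * 1 := mul_le_mul_right (hf _) _
                _ = LW Λ R := mul_one _
            · rw [if_neg hR, mul_zero]; exact zero_le
        _ = LW Λ A := mul_one _
  · rw [if_neg hA]; exact zero_le

/-- height of a chain -/
lemma HT_flatten_le (T i0 : ℕ) (P : List (List B)) (hP : ∀ A ∈ P, gd ht T i0 A) :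
    P.length * T ≤ HT ht P.flatten ∧ HT ht P.flatten ≤ P.length * (T + i0) := by
  induction P with
  | nil => simp [HT_nil]
  | cons A P ih =>
    have h1 := ih fun A' hA' => hP A' (List.mem_cons_of_mem _ hA')
    have h2 := hP A List.mem_cons_self
    have h3 := le_HT_of_fp ht h2.1
    have h4 := h2.2
    rw [List.flatten_cons, HT_append, List.length_cons, Nat.succ_mul, Nat.succ_mul]
    omega

lemma LW_PW_ne_zero (T i0 : ℕ) (P : List (List B)) (hP : LW (PW Λ ht T i0) P ≠ 0) :
    ∀ A ∈ P, gd ht T i0 A := by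
  induction P with
  | nil => intro A hA; simp at hA
  | cons A P ih =>
    rw [LW_cons] at hP
    intro A' hA'
    rcases List.mem_cons.1 hA' with rfl | h
    · by_contra hc
      apply hP
      unfold PW; rw [if_neg hc, zero_mul]
    · exact ih (fun h0 => hP (by rw [h0, mul_zero])) A' h

/-- monotonicity on good chains -/
lemma SLP_mono (T i0 j : ℕ) {F G : List (List B) → ℝ≥0∞}
    (h : ∀ P, P.length = j → (∀ A ∈ P, gd ht T i0 A) → F P ≤ G P) :
    SL (PW Λ ht T i0) j F ≤ SL (PW Λ ht T i0) j G := by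
  refine ENNReal.tsum_le_tsum fun P => ?_
  by_cases hP : P.length = j
  · rw [if_pos hP, if_pos hP]
    by_cases h0 : LW (PW Λ ht T i0) P = 0
    · rw [h0, zero_mul, zero_mul]
    · exact mul_le_mul_right (h P hP (LW_PW_ne_zero Λ ht T i0 P h0)) _
  · rw [if_neg hP, if_neg hP]

lemma SLP_const (h1 : ∀ b, 1 ≤ ht b) (hΛ : ∑' b, Λ b ≤ 1) (T i0 j : ℕ) (c : ℝ≥0∞) :
    SL (PW Λ ht T i0) j (fun _ => c) ≤ c := by
  have := SL_const_mul (PW Λ ht T i0) j c (fun _ => 1)
  rw [SL_pow] at this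
  simp only [mul_one] at this
  rw [this]
  calc c * (∑' A, PW Λ ht T i0 A) ^ j ≤ c * 1 :=
        mul_le_mul_right (pow_le_one' (sum_PW Λ ht h1 hΛ T i0) _) _
    _ = c := mul_one _

/-- **peeling of `j` pieces** -/
theorem peel (h1 : ∀ b, 1 ≤ ht b) (hΛ : ∑' b, Λ b ≤ 1) (hU1 : ∀ n, U Λ ht n ≤ 1) (T i0 : ℕ)
    (e : ℝ≥0∞) (he : ∑' L, (if fp ht T L ∧ T + i0 < HT ht L then LW Λ L else 0) ≤ e) (j : ℕ) :
    ∀ (n : ℕ) (_ : j * (T + i0) ≤ n) (f : List B → ℝ≥0∞) (_ : ∀ L, f L ≤ 1),
    S Λ ht n f ≤ j * e + SL (PW Λ ht T i0) j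
      (fun P => S Λ ht (n - HT ht P.flatten) (fun R => f (P.flatten ++ R))) := by
  induction j with
  | zero =>
    intro n _ f _
    rw [SL_zero]
    simp [HT_nil]
  | succ j ih =>
    intro n hn f hf
    rw [Nat.succ_mul] at hn
    refine (peel_one Λ ht h1 hU1 T i0 n (by omega) e he f hf).trans ?_
    have hb : ∀ A, PW Λ ht T i0 A * S Λ ht (n - HT ht A) (fun R => f (A ++ R))
        ≤ PW Λ ht T i0 A * (j * e) + PW Λ ht T i0 A * SL (PW Λ ht T i0) j
          (fun P => S Λ ht (n - HT ht (A :: P).flatten) (fun R => f ((A :: P).flatten ++ R))) := by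
      intro A
      by_cases hA : gd ht T i0 A
      · rw [← mul_add]
        refine mul_le_mul_right ?_ _
        have := ih (n - HT ht A) (by have := hA.2; omega) (fun R => f (A ++ R)) (fun _ => hf _)
        refine this.trans (add_le_add le_rfl (le_of_eq ?_))
        refine SL_congr _ j fun P _ => ?_
        rw [List.flatten_cons, HT_append, Nat.sub_sub]
        simp only [List.append_assoc]
      · unfold PW; rw [if_neg hA, zero_mul]; exact zero_le
    calc e + ∑' A, PW Λ ht T i0 A * S Λ ht (n - HT ht A) (fun R => f (A ++ R))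
        ≤ e + (∑' A, PW Λ ht T i0 A * (j * e) + ∑' A, PW Λ ht T i0 A * SL (PW Λ ht T i0) j
          (fun P => S Λ ht (n - HT ht (A :: P).flatten) (fun R => f ((A :: P).flatten ++ R)))) := by
          rw [← ENNReal.tsum_add]
          exact add_le_add le_rfl (ENNReal.tsum_le_tsum hb)
      _ ≤ e + (1 * (j * e) + SL (PW Λ ht T i0) (j + 1)
          (fun P => S Λ ht (n - HT ht P.flatten) (fun R => f (P.flatten ++ R)))) := by
          rw [ENNReal.tsum_mul_right, SL_succ]
          exact add_le_add le_rfl (add_le_add (mul_le_mul_left (sum_PW Λ ht h1 hΛ T i0) _) le_rfl)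
      _ = _ := by push_cast; ring

end one

end Crest.Agent.R154.Asm214
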