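import Crest.Agent.R154.B5Abs_566

/-! Row 154 (helper259), ROAD 801, assembly part 1: first passage cuts of lists of blocks,
overshoot bound, smooth density. -/

set_option autoImplicit false

namespace Crest.Agent.R154.Asm259

open Crest.Agent.R154.B5A
open scoped ENNReal Topology Classical

variable {B : Type*}

/-- `A` is a first passage prefix of height `T` -/
def FP (ht : B → ℕ) : ℕ → List B → Prop
  | T, [] => T = 0
  | T, b :: L => T ≠ 0 ∧ FP ht (T - ht b) L

/-- sum over first passage prefixes -/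
noncomputable def EF (Λ : B → ℝ≥0∞) (ht : B → ℕ) (T : ℕ) (F : List B → ℝ≥0∞) : ℝ≥0∞ :=
  ∑' A : List B, if FP ht T A then LW Λ A * F A else 0

/-- sum over lists of height `n` -/
noncomputable def SN (Λ : B → ℝ≥0∞) (ht : B → ℕ) (n : ℕ) (F : List B → ℝ≥0∞) : ℝ≥0∞ :=
  ∑' A : List B, if HT ht A = n then LW Λ A * F A else 0

variable (Λ : B → ℝ≥0∞) (ht : B → ℕ)

lemma EF_zero (F : List B → ℝ≥0∞) : EF Λ ht 0 F = F [] := by
  rw [EF, tsum_list]
  simp [FP, LW_nil]

lemma EF_pos {T : ℕ} (hT : T ≠ 0) (F : List B → ℝ≥0∞) :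
    EF Λ ht T F = ∑' b, Λ b * EF Λ ht (T - ht b) (fun A => F (b :: A)) := by
  rw [EF, tsum_list]
  simp only [FP, hT, if_false, zero_add, ne_eq, not_false_eq_true, true_and]
  refine tsum_congr fun b => ?_
  rw [EF, ← ENNReal.tsum_mul_left]
  refine tsum_congr fun A => ?_
  split_ifs
  · rw [LW_cons, mul_assoc]
  · simp

lemma EF_mono {T : ℕ} {F F' : List B → ℝ≥0∞} (h : ∀ A, FP ht T A → F A ≤ F' A) :
    EF Λ ht T F ≤ EF Λ ht T F' := by
  refine ENNReal.tsum_le_tsum fun A => ?_
  split_ifs with hA
  · exact mul_le_mul_right (h A hA) _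
  · exact le_rfl

lemma EF_congr {T : ℕ} {F F' : List B → ℝ≥0∞} (h : ∀ A, FP ht T A → F A = F' A) :
    EF Λ ht T F = EF Λ ht T F' :=
  le_antisymm (EF_mono Λ ht fun A hA => (h A hA).le) (EF_mono Λ ht fun A hA => (h A hA).ge)

lemma EF_add {T : ℕ} (F F' : List B → ℝ≥0∞) :
    EF Λ ht T (fun A => F A + F' A) = EF Λ ht T F + EF Λ ht T F' := by
  rw [EF, EF, EF, ← ENNReal.tsum_add]
  refine tsum_congr fun A => ?_
  split_ifs
  · rw [mul_add]
  · simp

lemma EF_mul {T : ℕ} (c : ℝ≥0∞) (F : List B → ℝ≥0∞) :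
    EF Λ ht T (fun A => F A * c) = EF Λ ht T F * c := by
  rw [EF, EF, ← ENNReal.tsum_mul_right]
  refine tsum_congr fun A => ?_
  split_ifs
  · rw [mul_assoc]
  · simp

lemma EF_one (h1 : ∀ b, 1 ≤ ht b) (hΛ : ∑' b, Λ b = 1) : ∀ T, EF Λ ht T (fun _ => 1) = 1 := by
  intro T
  induction T using Nat.strong_induction_on with
  | _ T ih =>
    by_cases hT : T = 0
    · subst hT; rw [EF_zero]
    · rw [EF_pos Λ ht hT]
      calc ∑' b, Λ b * EF Λ ht (T - ht b) (fun _ => 1) = ∑' b, Λ b * 1 := by
            refine tsum_congr fun b => ?_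
            rw [ih (T - ht b) (by have := h1 b; omega)]
        _ = 1 := by simp [hΛ]

lemma EF_const (h1 : ∀ b, 1 ≤ ht b) (hΛ : ∑' b, Λ b = 1) (T : ℕ) (c : ℝ≥0∞) :
    EF Λ ht T (fun _ => c) = c := by
  have := EF_mul Λ ht (T := T) c (fun _ => 1)
  simpa [EF_one Λ ht h1 hΛ T] using this

/-- first passage decomposition -/
lemma EF_split (h1 : ∀ b, 1 ≤ ht b) : ∀ (S T : ℕ), S ≤ T → ∀ F : List B → ℝ≥0∞,
    EF Λ ht T F = EF Λ ht S (fun Q => EF Λ ht (T - HT ht Q) (fun A => F (Q ++ A))) := by
  intro S
  induction S using Nat.strong_induction_on with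
  | _ S ih =>
    intro T hST F
    by_cases hS : S = 0
    · subst hS; rw [EF_zero]; simp [HT_nil]
    · rw [EF_pos Λ ht (T := T) (by omega), EF_pos Λ ht hS]
      refine tsum_congr fun b => ?_
      congr 1
      rw [ih (S - ht b) (by have := h1 b; omega) (T - ht b) (by omega)]
      refine EF_congr Λ ht fun Q _ => ?_
      rw [HT_cons, Nat.sub_sub]
      rfl

lemma SN_rec {n : ℕ} (hn : n ≠ 0) (F : List B → ℝ≥0∞) :
    SN Λ ht n F = ∑' b, Λ b * (if ht b ≤ n then SN Λ ht (n - ht b) (fun A => F (b :: A)) else 0) := by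
  rw [SN, tsum_list, HT_nil, if_neg (Ne.symm hn), zero_add]
  refine tsum_congr fun b => ?_
  split_ifs with hb
  · rw [SN, ← ENNReal.tsum_mul_left]
    refine tsum_congr fun A => ?_
    rw [HT_cons]
    by_cases h : ht b + HT ht A = n
    · rw [if_pos h, if_pos (by omega), LW_cons, mul_assoc]
    · rw [if_neg h, if_neg (by omega), mul_zero]
  · rw [mul_zero]
    refine ENNReal.tsum_eq_zero.2 fun A => ?_
    rw [HT_cons, if_neg (by omega)]

lemma SN_split (h1 : ∀ b, 1 ≤ ht b) : ∀ (S n : ℕ), S ≤ n → ∀ F : List B → ℝ≥0∞,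
    SN Λ ht n F = EF Λ ht S (fun Q => if HT ht Q ≤ n then
      SN Λ ht (n - HT ht Q) (fun A => F (Q ++ A)) else 0) := by
  intro S
  induction S using Nat.strong_induction_on with
  | _ S ih =>
    intro n hSn F
    by_cases hS : S = 0
    · subst hS; rw [EF_zero]; simp [HT_nil]
    · rw [SN_rec Λ ht (n := n) (by omega), EF_pos Λ ht hS]
      refine tsum_congr fun b => ?_
      congr 1
      split_ifs with hb
      · rw [ih (S - ht b) (by have := h1 b; omega) (n - ht b) (by omega)]
        refine EF_congr Λ ht fun Q _ => ?_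
        rw [HT_cons, Nat.sub_sub]
        by_cases hq : ht b + HT ht Q ≤ n
        · rw [if_pos hq, if_pos (by omega)]; rfl
        · rw [if_neg hq, if_neg (by omega)]
      · symm
        rw [EF]
        refine ENNReal.tsum_eq_zero.2 fun Q => ?_
        rw [HT_cons, if_neg (show ¬ (ht b + HT ht Q ≤ n) by omega)]
        simp

lemma SN_mono {n : ℕ} {F F' : List B → ℝ≥0∞} (h : ∀ A, HT ht A = n → F A ≤ F' A) :
    SN Λ ht n F ≤ SN Λ ht n F' := by
  refine ENNReal.tsum_le_tsum fun A => ?_
  split_ifs with hA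
  · exact mul_le_mul_right (h A hA) _
  · exact le_rfl

lemma SN_one_le (h1 : ∀ b, 1 ≤ ht b) (hΛ : ∑' b, Λ b = 1) (n : ℕ) : SN Λ ht n (fun _ => 1) ≤ 1 := by
  induction n using Nat.strong_induction_on with
  | _ n ih =>
    by_cases hn : n = 0
    · subst hn
      rw [SN]
      rw [tsum_eq_single []]
      · simp [HT_nil, LW_nil]
      · intro A hA
        rw [if_neg]
        intro h
        have := length_le_HT ht h1 A
        rw [h] at this
        exact hA (List.length_eq_zero_iff.1 (by omega))
    · rw [SN_rec Λ ht hn]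
      refine le_trans (ENNReal.tsum_le_tsum (g := Λ) fun b => ?_) hΛ.le
      split_ifs with hb
      · calc Λ b * SN Λ ht (n - ht b) (fun _ => 1) ≤ Λ b * 1 :=
              mul_le_mul_right (ih (n - ht b) (by have := h1 b; omega)) _
          _ = Λ b := mul_one _
      · simp

lemma SN_le_one (h1 : ∀ b, 1 ≤ ht b) (hΛ : ∑' b, Λ b = 1) (n : ℕ) {F : List B → ℝ≥0∞}
    (hF : ∀ A, F A ≤ 1) : SN Λ ht n F ≤ 1 :=
  (SN_mono Λ ht fun A _ => hF A).trans (SN_one_le Λ ht h1 hΛ n)

/-- overshoot bound -/
noncomputable def gap (i0 : ℕ) : ℝ≥0∞ := ∑' b, Λ b * ((ht b - i0 : ℕ) : ℝ≥0∞)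

/-- straddling sum -/
noncomputable def Rs (i0 T : ℕ) : ℝ≥0∞ := ∑' A : List B, ∑' b : B,
  if HT ht A < T ∧ T + i0 < HT ht A + ht b then LW Λ A * Λ b else 0

lemma over_le_Rs (h1 : ∀ b, 1 ≤ ht b) (i0 : ℕ) : ∀ T, EF Λ ht T (fun A => if T + i0 < HT ht A then 1 else 0)
    ≤ Rs Λ ht i0 T := by
  intro T
  induction T using Nat.strong_induction_on with
  | _ T ih =>
    by_cases hT : T = 0
    · subst hT; rw [EF_zero]; simp [HT_nil]
    · rw [EF_pos Λ ht hT, Rs, tsum_list]
      have e1 : ∀ b, Λ b * EF Λ ht (T - ht b) (fun A => if T + i0 < HT ht (b :: A) then 1 else 0)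
          ≤ (if HT ht ([] : List B) < T ∧ T + i0 < HT ht ([] : List B) + ht b
              then LW Λ [] * Λ b else 0) +
            ∑' A : List B, ∑' b' : B, (if HT ht (b :: A) < T ∧ T + i0 < HT ht (b :: A) + ht b'
              then LW Λ (b :: A) * Λ b' else 0) := by
        intro b
        by_cases hb : ht b < T
        · refine le_trans ?_ le_add_self
          have h2 : EF Λ ht (T - ht b) (fun A => if T + i0 < HT ht (b :: A) then (1:ℝ≥0∞) else 0)
              = EF Λ ht (T - ht b) (fun A => if (T - ht b) + i0 < HT ht A then 1 else 0) := by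
            refine EF_congr Λ ht fun A _ => ?_
            rw [HT_cons]
            by_cases h : T + i0 < ht b + HT ht A
            · rw [if_pos h, if_pos (by omega)]
            · rw [if_neg h, if_neg (by omega)]
          rw [h2]
          calc _ ≤ Λ b * Rs Λ ht i0 (T - ht b) :=
                mul_le_mul_right (ih _ (by have := h1 b; omega)) _
            _ ≤ _ := by
              rw [Rs, ← ENNReal.tsum_mul_left]
              refine ENNReal.tsum_le_tsum fun A => ?_
              rw [← ENNReal.tsum_mul_left]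
              refine ENNReal.tsum_le_tsum fun b' => ?_
              rw [HT_cons]
              by_cases h : HT ht A < T - ht b ∧ T - ht b + i0 < HT ht A + ht b'
              · rw [if_pos h, if_pos (by omega), LW_cons, mul_assoc]
              · rw [if_neg h]; simp
        · refine le_trans ?_ le_self_add
          rw [show T - ht b = 0 by omega, EF_zero, HT_cons, HT_nil, LW_nil, add_zero, zero_add,
            one_mul]
          by_cases h : T + i0 < ht b
          · rw [if_pos h, if_pos ⟨by omega, h⟩, mul_one]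
          · rw [if_neg h]; simp
      refine (ENNReal.tsum_le_tsum e1).trans ?_
      rw [ENNReal.tsum_add]

lemma Rs_le (h1 : ∀ b, 1 ≤ ht b) (hΛ : ∑' b, Λ b = 1) (i0 T : ℕ) : Rs Λ ht i0 T ≤ gap Λ ht i0 := by
  rw [Rs, ENNReal.tsum_comm, gap]
  refine ENNReal.tsum_le_tsum fun b => ?_
  have e : ∀ A : List B, (if HT ht A < T ∧ T + i0 < HT ht A + ht b then LW Λ A * Λ b else 0)
      = Λ b * ∑ j ∈ (Finset.range T).filter (fun j => T + i0 < j + ht b),
        (if HT ht A = j then LW Λ A * 1 else 0) := by
    intro A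
    rw [Finset.sum_ite_eq]
    by_cases h : HT ht A < T ∧ T + i0 < HT ht A + ht b
    · rw [if_pos h, if_pos (by rw [Finset.mem_filter, Finset.mem_range]; exact h), mul_one, mul_comm]
    · rw [if_neg h, if_neg (by rw [Finset.mem_filter, Finset.mem_range]; exact h), mul_zero]
  simp only [e]
  rw [ENNReal.tsum_mul_left, Summable.tsum_finsetSum (fun _ _ => ENNReal.summable)]
  refine mul_le_mul_right ?_ _
  calc ∑ j ∈ (Finset.range T).filter (fun j => T + i0 < j + ht b), SN Λ ht j (fun _ => 1)
      ≤ ∑ j ∈ (Finset.range T).filter (fun j => T + i0 < j + ht b), 1 :=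
        Finset.sum_le_sum fun j _ => SN_one_le Λ ht h1 hΛ j
    _ ≤ _ := by
      rw [Finset.sum_const, nsmul_eq_mul, mul_one]
      have hcard : ((Finset.range T).filter (fun j => T + i0 < j + ht b)).card ≤ ht b - i0 := by
        have hsub : (Finset.range T).filter (fun j => T + i0 < j + ht b)
            ⊆ Finset.Ico (T - (ht b - i0)) T := by
          intro j hj
          rw [Finset.mem_filter, Finset.mem_range] at hj
          rw [Finset.mem_Ico]
          omega
        refine (Finset.card_le_card hsub).trans ?_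
        rw [Nat.card_Ico]
        omega
      exact_mod_cast hcard

lemma over_le (h1 : ∀ b, 1 ≤ ht b) (hΛ : ∑' b, Λ b = 1) (i0 T : ℕ) :
    EF Λ ht T (fun A => if T + i0 < HT ht A then 1 else 0) ≤ gap Λ ht i0 :=
  (over_le_Rs Λ ht h1 i0 T).trans (Rs_le Λ ht h1 hΛ i0 T)

lemma FP_le {T : ℕ} : ∀ {A : List B}, FP ht T A → T ≤ HT ht A := by
  intro A
  induction A generalizing T with
  | nil => intro h; rw [FP] at h; rw [HT_nil]; omega
  | cons b A ih =>
    intro h
    have := ih h.2
    rw [HT_cons]
    omega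

/-! ### densities -/

variable {G : Type*} [AddCommGroup G] (dl : B → G)

/-- displacement of a list -/
def Dp (L : List B) : G := (L.map dl).sum

lemma Dp_append (L L' : List B) : Dp dl (L ++ L') = Dp dl L + Dp dl L' := by simp [Dp]

lemma Dp_nil : Dp dl [] = 0 := by simp [Dp]

lemma Dp_cons (b : B) (L : List B) : Dp dl (b :: L) = dl b + Dp dl L := by simp [Dp]

/-- density of the first passage position: overshoot `o`, displacement `z` -/
noncomputable def ph (T o : ℕ) (z : G) : ℝ≥0∞ :=
  EF Λ ht T (fun A => if HT ht A = T + o ∧ Dp dl A = z then 1 else 0)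

lemma EF_tsum {ι : Type*} (T : ℕ) (F : ι → List B → ℝ≥0∞) :
    ∑' i, EF Λ ht T (F i) = EF Λ ht T (fun A => ∑' i, F i A) := by
  unfold EF
  rw [ENNReal.tsum_comm]
  refine tsum_congr fun A => ?_
  split_ifs
  · rw [ENNReal.tsum_mul_left]
  · simp

/-- a sum over first passage prefixes which depends only on overshoot and displacement -/
lemma EF_fiber (T : ℕ) (g : ℕ → G → ℝ≥0∞) :
    EF Λ ht T (fun A => g (HT ht A - T) (Dp dl A)) = ∑' o, ∑' z, ph Λ ht dl T o z * g o z := by
  have e : ∀ o z, ph Λ ht dl T o z * g o z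
      = EF Λ ht T (fun A => (if HT ht A = T + o ∧ Dp dl A = z then 1 else 0) * g o z) := by
    intro o z
    rw [EF_mul, ph]
  simp only [e, EF_tsum]
  refine EF_congr Λ ht fun A hA => ?_
  have hle := FP_le ht hA
  rw [tsum_eq_single (HT ht A - T), tsum_eq_single (Dp dl A)]
  · rw [if_pos ⟨by omega, rfl⟩, one_mul]
  · intro z hz
    rw [if_neg (fun h => hz h.2.symm), zero_mul]
  · intro o ho
    refine ENNReal.tsum_eq_zero.2 fun z => ?_
    rw [if_neg (fun h => ho (by omega)), zero_mul]

lemma ph_sum (h1 : ∀ b, 1 ≤ ht b) (hΛ : ∑' b, Λ b = 1) (T : ℕ) :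
    ∑' o, ∑' z, ph Λ ht dl T o z = 1 := by
  have := EF_fiber Λ ht dl T (fun _ _ => 1)
  simp only [mul_one] at this
  rw [← this, EF_one Λ ht h1 hΛ]

lemma ph_over (h1 : ∀ b, 1 ≤ ht b) (hΛ : ∑' b, Λ b = 1) (i0 T : ℕ) :
    ∑' o, ∑' z, (if i0 < o then ph Λ ht dl T o z else 0) ≤ gap Λ ht i0 := by
  have e := EF_fiber Λ ht dl T (fun o _ => if i0 < o then 1 else 0)
  have e2 : ∀ o (z : G), (if i0 < o then ph Λ ht dl T o z else 0)
      = ph Λ ht dl T o z * (if i0 < o then 1 else 0) := by
    intro o z; split_ifs <;> simp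
  simp only [e2]
  rw [← e]
  refine le_trans (EF_mono Λ ht fun A hA => ?_) (over_le Λ ht h1 hΛ i0 T)
  have := FP_le ht hA
  by_cases h : i0 < HT ht A - T
  · rw [if_pos h, if_pos (by omega)]
  · rw [if_neg h]; exact zero_le

lemma EF_le_one (h1 : ∀ b, 1 ≤ ht b) (hΛ : ∑' b, Λ b = 1) (T : ℕ) {F : List B → ℝ≥0∞}
    (hF : ∀ A, F A ≤ 1) : EF Λ ht T F ≤ 1 :=
  (EF_mono Λ ht fun A _ => hF A).trans (EF_one Λ ht h1 hΛ T).le

/-- mass of a point indicator -/
lemma ind_mass (T : ℕ) (Q A : List B) : ∑' o : ℕ, ∑' z : G,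
    (if HT ht (Q ++ A) = T + o ∧ Dp dl (Q ++ A) = z then (1 : ℝ≥0∞) else 0) ≤ 1 := by
  by_cases h : T ≤ HT ht (Q ++ A)
  · rw [tsum_eq_single (HT ht (Q ++ A) - T), tsum_eq_single (Dp dl (Q ++ A))]
    · split_ifs <;> simp
    · intro z hz
      rw [if_neg (fun h => hz h.2.symm)]
    · intro o ho
      refine ENNReal.tsum_eq_zero.2 fun z => ?_
      rw [if_neg (fun h => ho (by omega))]
  · have : ∀ (o : ℕ) (z : G), (if HT ht (Q ++ A) = T + o ∧ Dp dl (Q ++ A) = z then (1 : ℝ≥0∞) else 0)
        = 0 := fun o z => if_neg (by omega)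
    simp [this]

/-- **smooth density** -/
theorem dens (h1 : ∀ b, 1 ≤ ht b) (hΛ : ∑' b, Λ b = 1) (S i0 : ℕ) (th q M : ℝ≥0∞)
    (hq : ∑' i, ∑' z', (if i ≤ i0 ∧ th < ph Λ ht dl S i z' then ph Λ ht dl S i z' else 0) ≤ q)
    (hq1 : q ≤ 1) (hM : (i0 + 1 : ℕ) * th + q * M ≤ M) :
    ∀ J T, J * (S + i0) ≤ T → ∃ b : ℕ → G → ℝ≥0∞,
      (∑' o, ∑' z, b o z ≤ q ^ J + J * gap Λ ht i0) ∧
      ∀ o z, ph Λ ht dl T o z ≤ M + b o z := by
  intro J
  induction J with
  | zero =>
    intro T _
    exact ⟨fun o z => ph Λ ht dl T o z, by simpa using (ph_sum Λ ht dl h1 hΛ T).le,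
      fun o z => le_add_self⟩
  | succ J ih =>
    intro T hT
    have hST : S + i0 ≤ T := by nlinarith
    have hrem : ∀ i, i ≤ i0 → J * (S + i0) ≤ T - S - i := by
      intro i hi
      have : J * (S + i0) + (S + i0) ≤ T := by nlinarith
      omega
    choose! b hb1 hb2 using fun i (hi : i ≤ i0) => ih (T - S - i) (hrem i hi)
    set ex : ℕ → G → ℝ≥0∞ := fun o z => EF Λ ht S (fun Q => if i0 < HT ht Q - S then
      EF Λ ht (T - HT ht Q) (fun A => if HT ht (Q ++ A) = T + o ∧ Dp dl (Q ++ A) = z then 1 else 0)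
      else 0) with hex
    have hsplit : ∀ o z, ph Λ ht dl T o z = ex o z +
        ∑' i, ∑' z', ph Λ ht dl S i z' * (if i ≤ i0 then ph Λ ht dl (T - S - i) o (z - z') else 0) := by
      intro o z
      rw [← EF_fiber Λ ht dl S (fun i z' => if i ≤ i0 then ph Λ ht dl (T - S - i) o (z - z') else 0),
        hex, ← EF_add, ph, EF_split Λ ht h1 S T (by omega)]
      refine EF_congr Λ ht fun Q hQ => ?_
      have hle := FP_le ht hQ
      by_cases hi : i0 < HT ht Q - S
      · rw [if_pos hi, if_neg (by omega), add_zero]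
      · rw [if_neg hi, if_pos (by omega), zero_add, ph]
        have e1 : T - S - (HT ht Q - S) = T - HT ht Q := by omega
        rw [e1]
        refine EF_congr Λ ht fun A _ => ?_
        rw [HT_append, Dp_append]
        by_cases h : HT ht Q + HT ht A = T + o ∧ Dp dl Q + Dp dl A = z
        · rw [if_pos h, if_pos ⟨by omega, by rw [← h.2]; abel⟩]
        · rw [if_neg h, if_neg]
          rintro ⟨h2, h3⟩
          exact h ⟨by omega, by rw [h3]; abel⟩
    have hexm : ∑' o, ∑' z, ex o z ≤ gap Λ ht i0 := by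
      simp only [hex, EF_tsum]
      refine le_trans (EF_mono Λ ht fun Q hQ => ?_) (over_le Λ ht h1 hΛ i0 S)
      have hle := FP_le ht hQ
      by_cases hi : i0 < HT ht Q - S
      · simp only [if_pos hi, EF_tsum]
        rw [if_pos (by omega)]
        refine EF_le_one Λ ht h1 hΛ _ fun A => ?_
        exact ind_mass ht dl T Q A
      · simp [if_neg hi]
    refine ⟨fun o z => ex o z +
      ∑' i, ∑' z', (if i ≤ i0 ∧ th < ph Λ ht dl S i z' then ph Λ ht dl S i z' * b i o (z - z') else 0),
      ?_, ?_⟩
    · simp_rw [ENNReal.tsum_add]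
      have e2 : ∑' o, ∑' z, ∑' i, ∑' z', (if i ≤ i0 ∧ th < ph Λ ht dl S i z' then
          ph Λ ht dl S i z' * b i o (z - z') else 0) ≤ q * (q ^ J + J * gap Λ ht i0) := by
        calc ∑' o, ∑' z, ∑' i, ∑' z', (if i ≤ i0 ∧ th < ph Λ ht dl S i z' then
                ph Λ ht dl S i z' * b i o (z - z') else 0)
            = ∑' i, ∑' z', ∑' o, ∑' z, (if i ≤ i0 ∧ th < ph Λ ht dl S i z' then
                ph Λ ht dl S i z' * b i o (z - z') else 0) := by
              have e : ∀ o, ∑' z, ∑' i, ∑' z', (if i ≤ i0 ∧ th < ph Λ ht dl S i z' then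
                ph Λ ht dl S i z' * b i o (z - z') else 0) = ∑' i, ∑' z', ∑' z, (if i ≤ i0 ∧ th < ph Λ ht dl S i z' then
                ph Λ ht dl S i z' * b i o (z - z') else 0) := by
                intro o
                rw [ENNReal.tsum_comm]
                exact tsum_congr fun i => ENNReal.tsum_comm
              simp_rw [e]
              rw [ENNReal.tsum_comm]
              exact tsum_congr fun i => ENNReal.tsum_comm
          _ ≤ ∑' i, ∑' z', (if i ≤ i0 ∧ th < ph Λ ht dl S i z' then ph Λ ht dl S i z' else 0)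
                * (q ^ J + J * gap Λ ht i0) := by
              refine ENNReal.tsum_le_tsum fun i => ENNReal.tsum_le_tsum fun z' => ?_
              split_ifs with h
              · simp_rw [ENNReal.tsum_mul_left]
                have : ∀ o, ∑' z, b i o (z - z') = ∑' z, b i o z :=
                  fun o => (Equiv.subRight z').tsum_eq fun z => b i o z
                simp_rw [this]
                exact mul_le_mul_right (hb1 i h.1) _
              · simp
          _ = (∑' i, ∑' z', (if i ≤ i0 ∧ th < ph Λ ht dl S i z' then ph Λ ht dl S i z' else 0))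
                * (q ^ J + J * gap Λ ht i0) := by
              simp_rw [ENNReal.tsum_mul_right]
          _ ≤ _ := mul_le_mul_left hq _
      calc _ ≤ gap Λ ht i0 + q * (q ^ J + J * gap Λ ht i0) := add_le_add hexm e2
        _ = q ^ (J + 1) + (gap Λ ht i0 + q * (J * gap Λ ht i0)) := by ring
        _ ≤ q ^ (J + 1) + (gap Λ ht i0 + 1 * (J * gap Λ ht i0)) := by gcongr
        _ = q ^ (J + 1) + ((J + 1 : ℕ) : ℝ≥0∞) * gap Λ ht i0 := by push_cast; ring
    · intro o z
      have hterm : ∀ i z', ph Λ ht dl S i z' * (if i ≤ i0 then ph Λ ht dl (T - S - i) o (z - z') else 0)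
          ≤ (if i ≤ i0 then th * ph Λ ht dl (T - S - i) o (z - z') else 0) +
          ((if i ≤ i0 ∧ th < ph Λ ht dl S i z' then ph Λ ht dl S i z' * b i o (z - z') else 0) +
            (if i ≤ i0 ∧ th < ph Λ ht dl S i z' then ph Λ ht dl S i z' else 0) * M) := by
        intro i z'
        by_cases hi : i ≤ i0
        · simp only [hi, if_true, true_and]
          by_cases hp : th < ph Λ ht dl S i z'
          · simp only [hp, if_true]
            calc _ ≤ ph Λ ht dl S i z' * (M + b i o (z - z')) := mul_le_mul_right (hb2 i hi _ _) _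
              _ = ph Λ ht dl S i z' * b i o (z - z') + ph Λ ht dl S i z' * M := by ring
              _ ≤ _ := le_add_self
          · simp only [hp, if_false, zero_mul, add_zero]
            exact mul_le_mul_left (not_lt.1 hp) _
        · simp [hi]
      rw [hsplit o z]
      calc ex o z + ∑' i, ∑' z', ph Λ ht dl S i z' *
              (if i ≤ i0 then ph Λ ht dl (T - S - i) o (z - z') else 0)
          ≤ ex o z + ∑' i, ∑' z', ((if i ≤ i0 then th * ph Λ ht dl (T - S - i) o (z - z') else 0) +
          ((if i ≤ i0 ∧ th < ph Λ ht dl S i z' then ph Λ ht dl S i z' * b i o (z - z') else 0) +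
            (if i ≤ i0 ∧ th < ph Λ ht dl S i z' then ph Λ ht dl S i z' else 0) * M)) := by
            gcongr with i z'
            exact hterm i z'
        _ = ex o z + ((∑' i, ∑' z', (if i ≤ i0 then th * ph Λ ht dl (T - S - i) o (z - z') else 0)) +
          ((∑' i, ∑' z', (if i ≤ i0 ∧ th < ph Λ ht dl S i z' then ph Λ ht dl S i z' * b i o (z - z') else 0)) +
            (∑' i, ∑' z', (if i ≤ i0 ∧ th < ph Λ ht dl S i z' then ph Λ ht dl S i z' else 0)) * M)) := by
            simp_rw [ENNReal.tsum_add, ENNReal.tsum_mul_right]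
        _ ≤ ex o z + (((i0 + 1 : ℕ) * th) +
          ((∑' i, ∑' z', (if i ≤ i0 ∧ th < ph Λ ht dl S i z' then ph Λ ht dl S i z' * b i o (z - z') else 0)) +
            q * M)) := by
            gcongr
            calc ∑' i, ∑' z', (if i ≤ i0 then th * ph Λ ht dl (T - S - i) o (z - z') else 0)
                ≤ ∑' i, (if i ≤ i0 then th else 0) := by
                  refine ENNReal.tsum_le_tsum fun i => ?_
                  split_ifs with h
                  · rw [ENNReal.tsum_mul_left]
                    have e3 : ∑' z', ph Λ ht dl (T - S - i) o (z - z')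
                        = ∑' z', ph Λ ht dl (T - S - i) o z' :=
                      (Equiv.subLeft z).tsum_eq fun z' => ph Λ ht dl (T - S - i) o z'
                    rw [e3]
                    calc th * ∑' z', ph Λ ht dl (T - S - i) o z' ≤ th * 1 := by
                          refine mul_le_mul_right ?_ _
                          exact (ENNReal.le_tsum o).trans (ph_sum Λ ht dl h1 hΛ (T - S - i)).le
                      _ = th := mul_one _
                  · simp
              _ = ∑ i ∈ Finset.range (i0 + 1), th := by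
                  rw [tsum_eq_sum (s := Finset.range (i0 + 1))]
                  · refine Finset.sum_congr rfl fun i hi => ?_
                    rw [if_pos (by have := Finset.mem_range.1 hi; omega)]
                  · intro i hi
                    rw [if_neg (by intro h; exact hi (Finset.mem_range.2 (by omega)))]
              _ = _ := by simp
        _ = ((i0 + 1 : ℕ) * th + q * M) + (ex o z +
            ∑' i, ∑' z', (if i ≤ i0 ∧ th < ph Λ ht dl S i z' then ph Λ ht dl S i z' * b i o (z - z') else 0)) := by ring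
        _ ≤ _ := by gcongr

/-- cut of a list of height `n` at heights `T` and `T + S` -/
lemma cut (h1 : ∀ b, 1 ≤ ht b) (hΛ : ∑' b, Λ b = 1) (n T S i0 : ℕ) (hn : T + i0 + S ≤ n)
    (F : List B → ℝ≥0∞) (hF : ∀ L, F L ≤ 1) (Φ : List B → List B → ℝ≥0∞)
    (hΦ : ∀ A P R, FP ht T A → FP ht S P → HT ht A ≤ T + i0 → HT ht P ≤ S + i0 →
      HT ht (A ++ (P ++ R)) = n → F (A ++ (P ++ R)) ≤ Φ A P) :
    SN Λ ht n F ≤ 2 * gap Λ ht i0 + EF Λ ht T (fun A => if HT ht A ≤ T + i0 then
      EF Λ ht S (fun P => if HT ht P ≤ S + i0 then Φ A P else 0) else 0) := by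
  rw [SN_split Λ ht h1 T n (by omega)]
  have step : ∀ A, FP ht T A → (if HT ht A ≤ n then
      SN Λ ht (n - HT ht A) (fun L => F (A ++ L)) else 0) ≤
      (if T + i0 < HT ht A then 1 else 0) + (gap Λ ht i0 + (if HT ht A ≤ T + i0 then
      EF Λ ht S (fun P => if HT ht P ≤ S + i0 then Φ A P else 0) else 0)) := by
    intro A hA
    by_cases hA2 : T + i0 < HT ht A
    · rw [if_pos hA2]
      refine le_trans ?_ le_self_add
      split_ifs
      · exact SN_le_one Λ ht h1 hΛ _ fun L => hF _
      · exact zero_le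
    · rw [if_neg hA2, zero_add, if_pos (by omega : HT ht A ≤ n), if_pos (by omega),
        SN_split Λ ht h1 S (n - HT ht A) (by omega)]
      calc _ ≤ EF Λ ht S (fun P => (if S + i0 < HT ht P then 1 else 0) +
              (if HT ht P ≤ S + i0 then Φ A P else 0)) := by
            refine EF_mono Λ ht fun P hP => ?_
            by_cases hP2 : S + i0 < HT ht P
            · rw [if_pos hP2]
              refine le_trans ?_ le_self_add
              split_ifs
              · exact SN_le_one Λ ht h1 hΛ _ fun L => hF _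
              · exact zero_le
            · rw [if_neg hP2, zero_add, if_pos (by omega : HT ht P ≤ S + i0)]
              split_ifs with h3
              · calc SN Λ ht (n - HT ht A - HT ht P) (fun R => F (A ++ (P ++ R)))
                    ≤ SN Λ ht (n - HT ht A - HT ht P) (fun _ => Φ A P) := by
                      refine SN_mono Λ ht fun R hR => hΦ A P R hA hP (by omega) (by omega) ?_
                      rw [HT_append, HT_append]; omega
                  _ ≤ Φ A P := by
                      have e : SN Λ ht (n - HT ht A - HT ht P) (fun _ => Φ A P)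
                          = SN Λ ht (n - HT ht A - HT ht P) (fun _ => 1) * Φ A P := by
                        rw [SN, SN, ← ENNReal.tsum_mul_right]
                        refine tsum_congr fun L => ?_
                        split_ifs <;> simp
                      rw [e]
                      calc _ ≤ 1 * Φ A P := mul_le_mul_left (SN_one_le Λ ht h1 hΛ _) _
                        _ = Φ A P := one_mul _
              · exact zero_le
        _ = EF Λ ht S (fun P => (if S + i0 < HT ht P then 1 else 0)) +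
              EF Λ ht S (fun P => (if HT ht P ≤ S + i0 then Φ A P else 0)) := EF_add Λ ht _ _
        _ ≤ _ := by
            gcongr
            exact over_le Λ ht h1 hΛ i0 S
  refine (EF_mono Λ ht step).trans ?_
  rw [EF_add, EF_add, EF_const Λ ht h1 hΛ, ← add_assoc, two_mul]
  gcongr
  exact over_le Λ ht h1 hΛ i0 T

end Crest.Agent.R154.Asm259
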