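import Crest.Agent.R154.B5Abs_566

/-! Row 154 (helper583), ROAD 801, leaf [A]: renewal gap bound in the letters of 566's `B5A`
(lists of blocks): the weight of the lists of total height `n` without a renewal in
`[a, a + i0]` is at most `∑ Λ b (ht b - i0)`, and this tends to `0`. -/

set_option autoImplicit false

namespace Crest.Agent.R154.Gap583

open Crest.Agent.R154.B5A
open scoped ENNReal Topology

variable {B : Type*}

lemma exists_straddle (ht : B → ℕ) (i0 : ℕ) (L : List B) : ∀ a : ℕ,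
    (∀ L1 L2, L = L1 ++ L2 → ¬ (a ≤ HT ht L1 ∧ HT ht L1 ≤ a + i0)) → a + i0 ≤ HT ht L →
    ∃ L1 b L2, L = L1 ++ b :: L2 ∧ HT ht L1 < a ∧ a + i0 < HT ht L1 + ht b := by
  induction L with
  | nil =>
    intro a h h1
    have h2 := h [] [] rfl
    rw [HT_nil] at h2 h1
    omega
  | cons b L ih =>
    intro a h h1
    have h0 := h [] (b :: L) rfl
    rw [HT_nil] at h0
    rw [HT_cons] at h1
    by_cases hb : a + i0 < ht b
    · exact ⟨[], b, L, rfl, by rw [HT_nil]; omega, by rw [HT_nil]; omega⟩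
    · have h2 := h [b] L rfl
      rw [HT_cons, HT_nil] at h2
      have hlt : ht b < a := by omega
      obtain ⟨L1, b', L2, hL, h3, h4⟩ := ih (a - ht b) (by
        intro L1 L2 hL hcon
        have h5 := h (b :: L1) L2 (by rw [hL]; rfl)
        rw [HT_cons] at h5
        omega) (by omega)
      refine ⟨b :: L1, b', L2, by rw [hL]; rfl, ?_, ?_⟩
      · rw [HT_cons]; omega
      · rw [HT_cons]; omega

open Classical in
/-- **gap bound** -/
theorem gap_le (Λ : B → ℝ≥0∞) (ht : B → ℕ) (hU1 : ∀ n, U Λ ht n ≤ 1) (a i0 n : ℕ)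
    (hn : a + i0 ≤ n) :
    ∑' L : List B, (if HT ht L = n ∧
        (∀ L1 L2, L = L1 ++ L2 → ¬ (a ≤ HT ht L1 ∧ HT ht L1 ≤ a + i0)) then LW Λ L else 0)
      ≤ ∑' b, Λ b * ((ht b - i0 : ℕ) : ℝ≥0∞) := by
  set S : Set (List B) := {L | HT ht L = n ∧
    (∀ L1 L2, L = L1 ++ L2 → ¬ (a ≤ HT ht L1 ∧ HT ht L1 ≤ a + i0))} with hS
  set G : B × List B × List B → ℝ≥0∞ := fun p =>
    if HT ht p.2.1 < a ∧ a + i0 < HT ht p.2.1 + ht p.1 ∧ HT ht p.2.1 + ht p.1 + HT ht p.2.2 = n
      then LW Λ p.2.1 * (Λ p.1 * LW Λ p.2.2) else 0 with hG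
  have hex : ∀ L : S, ∃ p : B × List B × List B, L.1 = p.2.1 ++ p.1 :: p.2.2 ∧
      HT ht p.2.1 < a ∧ a + i0 < HT ht p.2.1 + ht p.1 := by
    rintro ⟨L, hL1, hL2⟩
    obtain ⟨L1, b, L2, h1, h2, h3⟩ := exists_straddle ht i0 L a hL2 (by omega)
    exact ⟨(b, L1, L2), h1, h2, h3⟩
  choose f hf using hex
  have hinj : Function.Injective f := by
    intro L L' h
    apply Subtype.ext
    rw [(hf L).1, (hf L').1, h]
  have hfG : ∀ L : S, LW Λ L.1 = G (f L) := by
    intro L
    obtain ⟨h1, h2, h3⟩ := hf L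
    have h4 : HT ht L.1 = n := L.2.1
    rw [h1, HT_append, HT_cons] at h4
    simp only [hG]
    rw [if_pos ⟨h2, h3, by omega⟩, h1, LW_append, LW_cons]
  have step1 : ∑' L : List B, (if HT ht L = n ∧
        (∀ L1 L2, L = L1 ++ L2 → ¬ (a ≤ HT ht L1 ∧ HT ht L1 ≤ a + i0)) then LW Λ L else 0)
      ≤ ∑' p, G p := by
    calc _ = ∑' L : List B, S.indicator (LW Λ) L := by
          refine tsum_congr fun L => ?_
          simp only [Set.indicator, hS, Set.mem_setOf_eq]
      _ = ∑' L : S, LW Λ L.1 := (tsum_subtype S (LW Λ)).symm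
      _ = ∑' L : S, G (f L) := tsum_congr hfG
      _ ≤ _ := ENNReal.tsum_comp_le_tsum_of_injective hinj G
  refine step1.trans ?_
  rw [ENNReal.tsum_prod']
  refine ENNReal.tsum_le_tsum fun b => ?_
  rw [ENNReal.tsum_prod']
  -- sum over the last list
  have h2 : ∀ L1 : List B, ∑' L2 : List B, G (b, L1, L2)
      ≤ Λ b * ∑ j ∈ (Finset.range a).filter (fun j => a + i0 < j + ht b),
          (if HT ht L1 = j then LW Λ L1 else 0) := by
    intro L1
    by_cases hc : HT ht L1 < a ∧ a + i0 < HT ht L1 + ht b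
    · have hs : ∑ j ∈ (Finset.range a).filter (fun j => a + i0 < j + ht b),
          (if HT ht L1 = j then LW Λ L1 else 0) = LW Λ L1 := by
        rw [Finset.sum_ite_eq, if_pos]
        rw [Finset.mem_filter, Finset.mem_range]
        exact hc
      rw [hs]
      calc ∑' L2 : List B, G (b, L1, L2)
          ≤ ∑' L2 : List B, LW Λ L1 * Λ b *
              (if HT ht L2 = n - (HT ht L1 + ht b) then LW Λ L2 else 0) := by
            refine ENNReal.tsum_le_tsum fun L2 => ?_
            simp only [hG]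
            by_cases h3 : HT ht L1 + ht b + HT ht L2 = n
            · rw [if_pos ⟨hc.1, hc.2, h3⟩, if_pos (by omega), mul_assoc]
            · rw [if_neg (fun h => h3 h.2.2)]; exact zero_le
        _ = LW Λ L1 * Λ b * U Λ ht (n - (HT ht L1 + ht b)) := by
            rw [ENNReal.tsum_mul_left]; rfl
        _ ≤ LW Λ L1 * Λ b * 1 := mul_le_mul_right (hU1 _) _
        _ = Λ b * LW Λ L1 := by rw [mul_one, mul_comm]
    · have h0 : ∀ L2, G (b, L1, L2) = 0 := by
        intro L2
        simp only [hG]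
        rw [if_neg (fun h => hc ⟨h.1, h.2.1⟩)]
      simp only [h0, tsum_zero]
      exact zero_le
  calc ∑' L1 : List B, ∑' L2 : List B, G (b, L1, L2)
      ≤ ∑' L1 : List B, Λ b * ∑ j ∈ (Finset.range a).filter (fun j => a + i0 < j + ht b),
          (if HT ht L1 = j then LW Λ L1 else 0) := ENNReal.tsum_le_tsum h2
    _ = Λ b * ∑ j ∈ (Finset.range a).filter (fun j => a + i0 < j + ht b), U Λ ht j := by
        rw [ENNReal.tsum_mul_left, Summable.tsum_finsetSum (fun _ _ => ENNReal.summable)]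
        rfl
    _ ≤ Λ b * ∑ j ∈ (Finset.range a).filter (fun j => a + i0 < j + ht b), 1 :=
        mul_le_mul_right (Finset.sum_le_sum fun j _ => hU1 j) _
    _ ≤ Λ b * ((ht b - i0 : ℕ) : ℝ≥0∞) := by
        refine mul_le_mul_right ?_ _
        rw [Finset.sum_const, nsmul_eq_mul, mul_one]
        have hcard : ((Finset.range a).filter (fun j => a + i0 < j + ht b)).card
            ≤ ht b - i0 := by
          have hsub : (Finset.range a).filter (fun j => a + i0 < j + ht b)
              ⊆ Finset.Ico (a - (ht b - i0)) a := by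
            intro j hj
            rw [Finset.mem_filter, Finset.mem_range] at hj
            rw [Finset.mem_Ico]
            omega
          refine (Finset.card_le_card hsub).trans ?_
          rw [Nat.card_Ico]
          omega
        exact_mod_cast hcard

/-- the gap tail tends to zero -/
theorem gap_tendsto (Λ : B → ℝ≥0∞) (ht : B → ℕ) (h1 : ∀ b, 1 ≤ ht b) (c : ℝ≥0∞) (hc : c ≠ 0)
    (R : ℕ) (hU : ∀ n, R ≤ n → c ≤ U Λ ht n) (hU1 : ∀ n, U Λ ht n ≤ 1) :
    Filter.Tendsto (fun i0 : ℕ => ∑' b, Λ b * ((ht b - i0 : ℕ) : ℝ≥0∞)) Filter.atTop (𝓝 0) := by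
  have hcle : c ≤ 1 := (hU R le_rfl).trans (hU1 R)
  have hc' : c ≠ ⊤ := ne_top_of_le_ne_top ENNReal.one_ne_top hcle
  have hΛ : ∑' b, Λ b = 1 :=
    le_antisymm (mass_le_one Λ ht h1 hU1) (mass_ge_one Λ ht c hc R hU)
  have hE : ∑' b, Λ b * (ht b : ℝ≥0∞) ≠ ⊤ :=
    ne_top_of_le_ne_top (ENNReal.inv_ne_top.2 hc) (mean_le Λ ht h1 hΛ c hc hc' R hU)
  have key : ∀ i0 : ℕ, ∑' b, Λ b * ((ht b - i0 : ℕ) : ℝ≥0∞) ≤ ∑' k : ℕ, tail Λ ht (k + i0) := by
    intro i0
    simp only [tail]
    rw [ENNReal.tsum_comm]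
    refine ENNReal.tsum_le_tsum fun b => ?_
    calc Λ b * ((ht b - i0 : ℕ) : ℝ≥0∞)
        = ∑ k ∈ Finset.range (ht b - i0), Λ b := by
          rw [Finset.sum_const, Finset.card_range, nsmul_eq_mul, mul_comm]
      _ = ∑ k ∈ Finset.range (ht b - i0), (if k + i0 < ht b then Λ b else 0) := by
          refine Finset.sum_congr rfl fun k hk => ?_
          rw [Finset.mem_range] at hk
          rw [if_pos (by omega)]
      _ ≤ _ := ENNReal.sum_le_tsum _
  have hsum : ∑' k, tail Λ ht k ≠ ⊤ := by rw [← sum_tail Λ ht hΛ]; exact hE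
  have ht0 : Filter.Tendsto (fun i0 : ℕ => ∑' k : ℕ, tail Λ ht (k + i0)) Filter.atTop (𝓝 0) :=
    ENNReal.tendsto_sum_nat_add _ hsum
  exact tendsto_of_tendsto_of_tendsto_of_le_of_le tendsto_const_nhds ht0
    (fun _ => zero_le) key

end Crest.Agent.R154.Gap583
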