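import Crest.Agent.R154.Dens_903
import Crest.Agent.R154.Gap_583

set_option autoImplicit false

namespace Crest.Agent.R154.Asm395

open Crest.Agent.R154.B5A
open scoped ENNReal Topology
open Classical

/-! ### weighted sums over lists -/

section ws

variable {B : Type*} (Λ : B → ℝ≥0∞)

noncomputable def ind (p : Prop) : ℝ≥0∞ := if p then 1 else 0

lemma ind_le_one (p : Prop) : ind p ≤ 1 := by unfold ind; split_ifs <;> simp
lemma ind_true {p : Prop} (h : p) : ind p = 1 := by simp [ind, h]
lemma ind_false {p : Prop} (h : ¬ p) : ind p = 0 := by simp [ind, h]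
lemma ind_mono {p q : Prop} (h : p → q) : ind p ≤ ind q := by
  by_cases hp : p
  · rw [ind_true hp, ind_true (h hp)]
  · rw [ind_false hp]; exact bot_le

/-- weighted sum over the lists satisfying `S` -/
noncomputable def ws (S : List B → Prop) (F : List B → ℝ≥0∞) : ℝ≥0∞ :=
  ∑' L : List B, if S L then LW Λ L * F L else 0

variable {Λ}

lemma ws_mono {S : List B → Prop} {F F' : List B → ℝ≥0∞} (h : ∀ L, S L → F L ≤ F' L) :
    ws Λ S F ≤ ws Λ S F' := by
  refine ENNReal.tsum_le_tsum fun L => ?_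
  by_cases hL : S L
  · simp only [hL, if_true]; gcongr; exact h L hL
  · simp [hL]

lemma ws_mono_set {S S' : List B → Prop} {F : List B → ℝ≥0∞} (h : ∀ L, S L → S' L) :
    ws Λ S F ≤ ws Λ S' F := by
  refine ENNReal.tsum_le_tsum fun L => ?_
  by_cases hL : S L
  · simp only [hL, h L hL, if_true]; exact le_rfl
  · simp [hL]

lemma ws_add (S : List B → Prop) (F F' : List B → ℝ≥0∞) :
    ws Λ S (fun L => F L + F' L) = ws Λ S F + ws Λ S F' := by
  rw [ws, ws, ws, ← ENNReal.tsum_add]
  refine tsum_congr fun L => ?_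
  by_cases hL : S L
  · simp [hL, mul_add]
  · simp [hL]

lemma ws_mul (S : List B → Prop) (c : ℝ≥0∞) (F : List B → ℝ≥0∞) :
    ws Λ S (fun L => c * F L) = c * ws Λ S F := by
  rw [ws, ws, ← ENNReal.tsum_mul_left]
  refine tsum_congr fun L => ?_
  by_cases hL : S L
  · simp [hL, mul_left_comm]
  · simp [hL]

lemma ws_mul_right (S : List B → Prop) (c : ℝ≥0∞) (F : List B → ℝ≥0∞) :
    ws Λ S (fun L => F L * c) = ws Λ S F * c := by
  have := ws_mul (Λ := Λ) S c F
  simpa [mul_comm] using this

lemma ws_const (S : List B → Prop) (c : ℝ≥0∞) :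
    ws Λ S (fun _ => c) = c * ws Λ S (fun _ => 1) := by
  have := ws_mul (Λ := Λ) S c (fun _ => 1)
  simpa using this

lemma ws_ind (S T : List B → Prop) (F : List B → ℝ≥0∞) :
    ws Λ S (fun L => ind (T L) * F L) = ws Λ (fun L => S L ∧ T L) F := by
  rw [ws, ws]
  refine tsum_congr fun L => ?_
  by_cases hL : S L <;> by_cases hT : T L <;> simp [hL, hT, ind]

lemma ws_ind' (S T : List B → Prop) :
    ws Λ S (fun L => ind (T L)) = ws Λ (fun L => S L ∧ T L) (fun _ => 1) := by
  have := ws_ind (Λ := Λ) S T (fun _ => 1)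
  simpa using this

lemma ws_le_of_le {S : List B → Prop} {F : List B → ℝ≥0∞} {m c : ℝ≥0∞}
    (hm : ws Λ S (fun _ => 1) ≤ m) (h : ∀ L, S L → F L ≤ c) : ws Λ S F ≤ c * m := by
  refine (ws_mono h).trans ?_
  rw [ws_const]; gcongr

lemma ws_le_of_mass {S : List B → Prop} {F : List B → ℝ≥0∞} {c : ℝ≥0∞}
    (hm : ws Λ S (fun _ => 1) ≤ 1) (h : ∀ L, S L → F L ≤ c) : ws Λ S F ≤ c := by
  simpa using ws_le_of_le hm h

lemma ws_fin {ι : Type*} (I : Finset ι) {S : List B → Prop} (S' : ι → List B → Prop)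
    (F : List B → ℝ≥0∞) (h : ∀ L, S L → ∃ i ∈ I, S' i L) :
    ws Λ S F ≤ ∑ i ∈ I, ws Λ (S' i) F := by
  simp only [ws]
  rw [← Summable.tsum_finsetSum (fun i _ => ENNReal.summable)]
  refine ENNReal.tsum_le_tsum fun L => ?_
  by_cases hL : S L
  · obtain ⟨i, hi, hS⟩ := h L hL
    rw [if_pos hL]
    calc LW Λ L * F L = (if S' i L then LW Λ L * F L else 0) := by rw [if_pos hS]
      _ ≤ _ := Finset.single_le_sum (f := fun i => if S' i L then LW Λ L * F L else 0)
          (fun _ _ => bot_le) hi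
  · simp [hL]

lemma ws_comm {B' : Type*} {Λ' : B' → ℝ≥0∞} (S : List B → Prop) (S' : List B' → Prop)
    (F : List B → List B' → ℝ≥0∞) :
    ws Λ S (fun L => ws Λ' S' (fun L' => F L L'))
      = ws Λ' S' (fun L' => ws Λ S (fun L => F L L')) := by
  simp only [ws]
  have e1 : ∀ L : List B, (if S L then LW Λ L * ∑' L' : List B', (if S' L' then LW Λ' L' * F L L' else 0)
      else 0) = ∑' L' : List B', if S L ∧ S' L' then LW Λ L * (LW Λ' L' * F L L') else 0 := by
    intro L
    by_cases hL : S L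
    · simp only [hL, if_true, true_and]
      rw [← ENNReal.tsum_mul_left]
      exact tsum_congr fun L' => by by_cases h : S' L' <;> simp [h]
    · simp [hL]
  have e2 : ∀ L' : List B', (if S' L' then LW Λ' L' * ∑' L : List B, (if S L then LW Λ L * F L L' else 0)
      else 0) = ∑' L : List B, if S L ∧ S' L' then LW Λ L * (LW Λ' L' * F L L') else 0 := by
    intro L'
    by_cases hL : S' L'
    · simp only [hL, if_true, and_true]
      rw [← ENNReal.tsum_mul_left]
      refine tsum_congr fun L => ?_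
      by_cases h : S L
      · simp only [h, if_true]; ring
      · simp [h]
    · simp [hL]
  rw [tsum_congr e1, tsum_congr e2, ENNReal.tsum_comm]

/-- sum over pairs whose concatenation is weighed -/
lemma ws_pairs (S : List B → Prop) (T : List B → List B → Prop) (F : List B → ℝ≥0∞)
    (h : ∀ L, S L → ∃ A R, L = A ++ R ∧ T A R) :
    ws Λ S F ≤ ∑' A : List B, ∑' R : List B,
      if T A R then LW Λ A * (LW Λ R * F (A ++ R)) else 0 := by
  have e : (∑' A : List B, ∑' R : List B,
      if T A R then LW Λ A * (LW Λ R * F (A ++ R)) else 0)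
      = ∑' L : List B, ∑' p : List B × List B,
        if p.1 ++ p.2 = L ∧ T p.1 p.2 then LW Λ L * F L else 0 := by
    rw [← ENNReal.tsum_prod, ENNReal.tsum_comm]
    refine tsum_congr fun p => ?_
    rw [tsum_eq_single (p.1 ++ p.2)]
    · by_cases hT : T p.1 p.2
      · simp [hT, LW_append, mul_assoc]
      · simp [hT]
    · intro L hL
      rw [if_neg]
      rintro ⟨h1, -⟩
      exact hL h1.symm
  rw [e, ws]
  refine ENNReal.tsum_le_tsum fun L => ?_
  by_cases hL : S L
  · obtain ⟨A, R, hAR, hT⟩ := h L hL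
    rw [if_pos hL]
    calc LW Λ L * F L = (if (A, R).1 ++ (A, R).2 = L ∧ T (A, R).1 (A, R).2 then LW Λ L * F L else 0) := by
          rw [if_pos ⟨hAR.symm, hT⟩]
      _ ≤ _ := ENNReal.le_tsum (f := fun p : List B × List B =>
          if p.1 ++ p.2 = L ∧ T p.1 p.2 then LW Λ L * F L else 0) (A, R)
  · simp [hL]

lemma pairs_eq (S : List B → Prop) (T : List B → List B → Prop) (F : List B → List B → ℝ≥0∞) :
    (∑' A : List B, ∑' R : List B,
      if S A ∧ T A R then LW Λ A * (LW Λ R * F A R) else 0)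
      = ws Λ S (fun A => ws Λ (T A) (fun R => F A R)) := by
  simp only [ws]
  refine tsum_congr fun A => ?_
  by_cases hS : S A
  · simp only [hS, true_and, if_true]
    rw [← ENNReal.tsum_mul_left]
    exact tsum_congr fun R => by by_cases h : T A R <;> simp [h]
  · simp [hS]

end ws

end Crest.Agent.R154.Asm395
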