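import Crest.Agent.R154.FP_178
import Crest.Agent.R154.Dens_903

/-! Row 154, ROAD 801 (helper424): attempts as letters, extension lemma, density lemma. -/

set_option autoImplicit false
set_option linter.unusedVariables false

namespace Crest.Agent.R154.Asm424

open scoped ENNReal
open Crest.Agent.R154.B5A Crest.Agent.R154.FP178

section one

variable {B : Type*} (Λ : B → ℝ≥0∞) (ht : B → ℕ)

/-- attempts: first passages of `T` with overshoot `≤ i0` -/
def At (T i0 : ℕ) : Type _ := {A : List B // fp ht T A ∧ HT ht A ≤ T + i0}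

/-- weight of an attempt -/
noncomputable def wt (T i0 : ℕ) (A : At ht T i0) : ℝ≥0∞ := LW Λ A.1

variable {ht}

/-- the list of blocks of a list of attempts -/
def flat {T i0 : ℕ} (M : List (At ht T i0)) : List B := (M.map fun A => A.1).flatten

lemma flat_nil {T i0 : ℕ} : flat ([] : List (At ht T i0)) = [] := rfl

lemma flat_cons {T i0 : ℕ} (A : At ht T i0) (M : List (At ht T i0)) :
    flat (A :: M) = A.1 ++ flat M := by simp [flat]

lemma flat_append {T i0 : ℕ} (M N : List (At ht T i0)) : flat (M ++ N) = flat M ++ flat N := by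
  simp [flat]

variable (ht)

open Classical in
lemma tsum_At (T i0 : ℕ) (f : List B → ℝ≥0∞) :
    ∑' A : At ht T i0, f A.1 = ∑' L, (if fp ht T L ∧ HT ht L ≤ T + i0 then f L else 0) := by
  have := tsum_subtype {A : List B | fp ht T A ∧ HT ht A ≤ T + i0} f
  refine this.trans (tsum_congr fun L => ?_)
  simp [Set.indicator]

lemma sum_wt_le (h1 : ∀ b, 1 ≤ ht b) (hΛ : ∑' b, Λ b ≤ 1) (T i0 : ℕ) :
    ∑' A : At ht T i0, wt Λ ht T i0 A ≤ 1 := by
  classical
  unfold wt
  rw [tsum_At ht T i0 (fun L => LW Λ L)]
  refine le_trans (ENNReal.tsum_le_tsum fun L => ?_) (sum_FP Λ ht h1 hΛ T)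
  by_cases h : fp ht T L ∧ HT ht L ≤ T + i0
  · rw [if_pos h, if_pos h.1]
  · rw [if_neg h]; exact zero_le

/-- overshoot mass -/
noncomputable def ep (i0 : ℕ) : ℝ≥0∞ := ∑' k, tail Λ ht (i0 + k)

lemma SL_const_le {C : Type*} (w : C → ℝ≥0∞) (hw : ∑' c, w c ≤ 1) (j : ℕ) (a : ℝ≥0∞) :
    SL w j (fun _ => a) ≤ a := by
  have : SL w j (fun _ => a) = a * SL w j (fun _ => 1) := by
    rw [← SL_const_mul]; simp
  rw [this, SL_pow]
  calc a * (∑' c, w c) ^ j ≤ a * 1 := by
        gcongr; exact pow_le_one' hw j
    _ = a := mul_one a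

open Classical in
/-- **extension**: the sum over the lists of height `n` is at most the sum over `J` attempts -/
theorem ext1 (h1 : ∀ b, 1 ≤ ht b) (hU1 : ∀ n, U Λ ht n ≤ 1) (hΛ : ∑' b, Λ b ≤ 1) (T i0 : ℕ) :
    ∀ (J n : ℕ), J * (T + i0) ≤ n → ∀ (F : List B → ℝ≥0∞), (∀ L, F L ≤ 1) →
    ∀ (G : List (At ht T i0) → ℝ≥0∞),
    (∀ M R, M.length = J → F (flat M ++ R) ≤ G M) →
    ∑' L, (if HT ht L = n then LW Λ L * F L else 0) ≤ J * ep Λ ht i0 + SL (wt Λ ht T i0) J G := by
  intro J
  induction J with
  | zero =>
    intro n _ F hF G hG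
    rw [SL_zero]
    have h : ∀ L, F L ≤ G [] := fun L => by
      have := hG [] L rfl
      rwa [flat_nil, List.nil_append] at this
    calc ∑' L, (if HT ht L = n then LW Λ L * F L else 0)
        ≤ ∑' L, (if HT ht L = n then LW Λ L else 0) * G [] := by
          refine ENNReal.tsum_le_tsum fun L => ?_
          by_cases hL : HT ht L = n
          · rw [if_pos hL, if_pos hL]; gcongr; exact h L
          · rw [if_neg hL]; exact zero_le
      _ = U Λ ht n * G [] := by rw [ENNReal.tsum_mul_right, U]
      _ ≤ 1 * G [] := by gcongr; exact hU1 n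
      _ ≤ _ := by simp
  | succ J ih =>
    intro n hn F hF G hG
    have hTn : T + i0 ≤ n := by nlinarith
    set f : List B → ℝ≥0∞ := fun L => if HT ht L = n then F L else 0 with hf
    have e1 : ∑' L, (if HT ht L = n then LW Λ L * F L else 0)
        = ∑' L, (if T ≤ HT ht L then LW Λ L * f L else 0) := by
      refine tsum_congr fun L => ?_
      by_cases hL : HT ht L = n
      · rw [if_pos hL, if_pos (by omega)]; simp only [hf]; rw [if_pos hL]
      · rw [if_neg hL]; simp only [hf]; rw [if_neg hL]; simp
    rw [e1, split Λ ht h1 T f]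
    set S : List B → ℝ≥0∞ := fun L1 => ∑' L2, LW Λ L2 * f (L1 ++ L2) with hS
    have hS1 : ∀ L1, S L1 ≤ 1 := by
      intro L1
      by_cases hle : HT ht L1 ≤ n
      · refine le_trans (ENNReal.tsum_le_tsum fun L2 => ?_) (hU1 (n - HT ht L1))
        simp only [hf]
        by_cases h2 : HT ht L2 = n - HT ht L1
        · rw [if_pos h2, if_pos (by rw [HT_append]; omega)]
          calc LW Λ L2 * F (L1 ++ L2) ≤ LW Λ L2 * 1 := by gcongr; exact hF _
            _ = _ := mul_one _
        · rw [if_neg h2, if_neg (by rw [HT_append]; omega), mul_zero]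
      · refine le_trans (le_of_eq ?_) zero_le_one
        refine ENNReal.tsum_eq_zero.2 fun L2 => ?_
        simp only [hf]
        rw [if_neg (by rw [HT_append]; omega), mul_zero]
    have hSA : ∀ A : At ht T i0, S A.1 ≤ J * ep Λ ht i0
        + SL (wt Λ ht T i0) J (fun M => G (A :: M)) := by
      intro A
      have hA := A.2.2
      have e2 : S A.1 = ∑' L2, (if HT ht L2 = n - HT ht A.1 then LW Λ L2 * F (A.1 ++ L2) else 0) := by
        refine tsum_congr fun L2 => ?_
        simp only [hf]
        by_cases h2 : HT ht L2 = n - HT ht A.1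
        · rw [if_pos h2, if_pos (by rw [HT_append]; omega)]
        · rw [if_neg h2, if_neg (by rw [HT_append]; omega), mul_zero]
      rw [e2]
      refine ih (n - HT ht A.1) ?_ (fun L => F (A.1 ++ L)) (fun L => hF _)
        (fun M => G (A :: M)) ?_
      · have : (J + 1) * (T + i0) = J * (T + i0) + (T + i0) := by ring
        omega
      · intro M R hM
        have := hG (A :: M) R (by simp [hM])
        rwa [flat_cons, List.append_assoc] at this
    have e3 : ∑' L1, (if fp ht T L1 then LW Λ L1 * S L1 else 0)
        ≤ (∑' L1, (if fp ht T L1 ∧ T + i0 < HT ht L1 then LW Λ L1 else 0))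
          + ∑' A : At ht T i0, wt Λ ht T i0 A * S A.1 := by
      have : ∑' A : At ht T i0, wt Λ ht T i0 A * S A.1
          = ∑' L, (if fp ht T L ∧ HT ht L ≤ T + i0 then LW Λ L * S L else 0) :=
        tsum_At ht T i0 (fun L => LW Λ L * S L)
      rw [this, ← ENNReal.tsum_add]
      refine ENNReal.tsum_le_tsum fun L1 => ?_
      by_cases h : fp ht T L1
      · by_cases h' : HT ht L1 ≤ T + i0
        · rw [if_pos h, if_pos (⟨h, h'⟩ : fp ht T L1 ∧ HT ht L1 ≤ T + i0)]; exact le_add_self
        · rw [if_pos h, if_pos (⟨h, by omega⟩ : fp ht T L1 ∧ T + i0 < HT ht L1),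
            if_neg (fun hh : fp ht T L1 ∧ HT ht L1 ≤ T + i0 => h' hh.2), add_zero]
          calc LW Λ L1 * S L1 ≤ LW Λ L1 * 1 := by gcongr; exact hS1 _
            _ = _ := mul_one _
      · rw [if_neg h]; exact zero_le
    refine e3.trans ?_
    have e4 : ∑' A : At ht T i0, wt Λ ht T i0 A * S A.1
        ≤ J * ep Λ ht i0 + SL (wt Λ ht T i0) (J + 1) G := by
      calc ∑' A : At ht T i0, wt Λ ht T i0 A * S A.1
          ≤ ∑' A : At ht T i0, (wt Λ ht T i0 A * (J * ep Λ ht i0)
            + wt Λ ht T i0 A * SL (wt Λ ht T i0) J (fun M => G (A :: M))) := by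
            refine ENNReal.tsum_le_tsum fun A => ?_
            rw [← mul_add]; gcongr; exact hSA A
        _ = (∑' A : At ht T i0, wt Λ ht T i0 A) * (J * ep Λ ht i0)
            + SL (wt Λ ht T i0) (J + 1) G := by
            rw [ENNReal.tsum_add, ENNReal.tsum_mul_right, SL_succ]
        _ ≤ 1 * (J * ep Λ ht i0) + SL (wt Λ ht T i0) (J + 1) G := by
            gcongr; exact sum_wt_le Λ ht h1 hΛ T i0
        _ = _ := by rw [one_mul]
    calc _ ≤ ep Λ ht i0 + (J * ep Λ ht i0 + SL (wt Λ ht T i0) (J + 1) G) := by
          gcongr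
          exact overshoot Λ ht h1 hU1 i0 T
      _ = _ := by push_cast; ring

end one

/-! ### picking one letter -/

lemma SL_pick {C : Type*} (w : C → ℝ≥0∞) (hw : ∑' c, w c ≤ 1) (j J : ℕ) (hj : j < J)
    (F : List C → ℝ≥0∞) (g : List C → C → ℝ≥0∞)
    (h : ∀ M1 A M2, M1.length = j → F (M1 ++ A :: M2) ≤ g M1 A) :
    SL w J F ≤ SL w j (fun M1 => ∑' A, w A * g M1 A) := by
  obtain ⟨r, rfl⟩ : ∃ r, J = j + (r + 1) := ⟨J - j - 1, by omega⟩
  rw [SL_add]
  refine SL_mono w j fun M1 hM1 => ?_
  rw [SL_succ]
  refine ENNReal.tsum_le_tsum fun A => ?_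
  gcongr
  calc SL w r (fun L => F (M1 ++ A :: L)) ≤ SL w r (fun _ => g M1 A) :=
        SL_mono w r fun L _ => h M1 A L hM1
    _ ≤ g M1 A := SL_const_le w hw r _

/-- no letter in a set -/
lemma SL_none {C : Type*} (w : C → ℝ≥0∞) (s : C → Prop) [DecidablePred s] (q : ℝ≥0∞)
    (hq : ∑' c, (if s c then 0 else w c) ≤ q) (j : ℕ) :
    SL w j (fun M => if ∀ c ∈ M, ¬ s c then 1 else 0) ≤ q ^ j := by
  induction j with
  | zero => rw [SL_zero]; simp
  | succ j ih =>
    rw [SL_succ]
    calc ∑' b, w b * SL w j (fun L => if ∀ c ∈ b :: L, ¬ s c then 1 else 0)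
        ≤ ∑' b, (if s b then 0 else w b) * q ^ j := by
          refine ENNReal.tsum_le_tsum fun b => ?_
          by_cases hb : s b
          · rw [if_pos hb, zero_mul]
            have : SL w j (fun L => if ∀ c ∈ b :: L, ¬ s c then (1 : ℝ≥0∞) else 0)
                ≤ SL w j (fun _ => 0) := SL_mono w j fun L _ => by
              rw [if_neg (fun h => h b (by simp) hb)]
            have h0 : SL w j (fun _ : List C => (0 : ℝ≥0∞)) = 0 := by
              unfold SL; simp
            rw [h0] at this
            rw [le_antisymm this zero_le, mul_zero]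
          · rw [if_neg hb]
            gcongr
            refine (SL_mono w j fun L _ => ?_).trans ih
            by_cases hL : ∀ c ∈ b :: L, ¬ s c
            · rw [if_pos hL, if_pos (fun c hc => hL c (by simp [hc]))]
            · rw [if_neg hL]; exact zero_le
      _ = (∑' b, (if s b then 0 else w b)) * q ^ j := ENNReal.tsum_mul_right
      _ ≤ q * q ^ j := by gcongr
      _ = q ^ (j + 1) := by rw [pow_succ, mul_comm]

/-- **density**: letters with a label in a group-like set; a sum of labels with one letter of a
thin label has thin law -/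
theorem SL_dens {C Z : Type*} [AddCommMonoid Z] [IsCancelAdd Z] (w : C → ℝ≥0∞) (hw : ∑' c, w c ≤ 1)
    (lab : C → Z) (s : C → Prop) (th : ℝ≥0∞)
    (hth : ∀ z, (open Classical in ∑' c, (if lab c = z ∧ s c then w c else 0)) ≤ th) (j : ℕ) :
    ∀ y : Z, (open Classical in SL w j (fun M => if (∃ c ∈ M, s c) ∧ (M.map lab).sum = y
      then 1 else 0)) ≤ j * th := by
  classical
  induction j with
  | zero => intro y; rw [SL_zero]; simp
  | succ j ih =>
    intro y
    rw [SL_succ]
    have key : ∀ b, SL w j (fun L => if (∃ c ∈ b :: L, s c) ∧ ((b :: L).map lab).sum = y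
        then (1 : ℝ≥0∞) else 0)
        ≤ (if s b then SL w j (fun L => if lab b + (L.map lab).sum = y then 1 else 0) else 0)
          + j * th := by
      intro b
      by_cases hb : s b
      · rw [if_pos hb]
        refine le_trans (SL_mono w j fun L _ => ?_) le_self_add
        by_cases h : lab b + (L.map lab).sum = y
        · rw [if_pos h]; split_ifs <;> simp
        · rw [if_neg h, if_neg]
          rintro ⟨_, h2⟩
          exact h (by simpa using h2)
      · rw [if_neg hb, zero_add]
        by_cases hex : ∃ y', lab b + y' = y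
        · obtain ⟨y', hy'⟩ := hex
          refine le_trans (SL_mono w j fun L _ => ?_) (ih y')
          by_cases h : (∃ c ∈ b :: L, s c) ∧ ((b :: L).map lab).sum = y
          · rw [if_pos h, if_pos]
            obtain ⟨⟨c, hc, hsc⟩, h2⟩ := h
            refine ⟨⟨c, ?_, hsc⟩, ?_⟩
            · rcases List.mem_cons.1 hc with rfl | hc
              · exact absurd hsc hb
              · exact hc
            · rw [List.map_cons, List.sum_cons, ← hy'] at h2
              exact add_left_cancel h2
          · rw [if_neg h]; exact zero_le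
        · refine le_trans (SL_mono w j (F' := fun _ => 0) fun L _ => ?_) ?_
          · rw [if_neg]
            rintro ⟨_, h2⟩
            exact hex ⟨(L.map lab).sum, by simpa using h2⟩
          · unfold SL; simp
    calc ∑' b, w b * SL w j (fun L => if (∃ c ∈ b :: L, s c) ∧ ((b :: L).map lab).sum = y
        then (1 : ℝ≥0∞) else 0)
        ≤ ∑' b, (w b * (if s b then SL w j (fun L => if lab b + (L.map lab).sum = y then 1 else 0)
            else 0) + w b * (j * th)) := by
          refine ENNReal.tsum_le_tsum fun b => ?_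
          rw [← mul_add]; gcongr; exact key b
      _ = (∑' b, w b * (if s b then SL w j (fun L => if lab b + (L.map lab).sum = y then 1 else 0)
            else 0)) + (∑' b, w b) * (j * th) := by
          rw [ENNReal.tsum_add, ENNReal.tsum_mul_right]
      _ ≤ th + 1 * (j * th) := by
          gcongr
          -- exchange
          have e1 : ∀ b, w b * (if s b then SL w j (fun L => if lab b + (L.map lab).sum = y
              then (1 : ℝ≥0∞) else 0) else 0)
              = SL w j (fun L => if s b ∧ lab b + (L.map lab).sum = y then w b else 0) := by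
            intro b
            by_cases hb : s b
            · rw [if_pos hb, ← SL_const_mul]
              congr 1
              funext L
              by_cases h : lab b + (L.map lab).sum = y
              · simp [h, hb]
              · simp [h]
            · rw [if_neg hb, mul_zero]
              simp only [hb, false_and, if_false]
              unfold SL; simp
          rw [tsum_congr e1]
          have e2 : ∑' b, SL w j (fun L => if s b ∧ lab b + (L.map lab).sum = y then w b else 0)
              = SL w j (fun L => ∑' b, (if s b ∧ lab b + (L.map lab).sum = y then w b else 0)) := by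
            unfold SL
            rw [ENNReal.tsum_comm]
            refine tsum_congr fun L => ?_
            by_cases hL : L.length = j
            · simp only [hL, if_true]
              rw [ENNReal.tsum_mul_left]
            · simp [hL]
          rw [e2]
          refine le_trans (SL_mono w j fun L _ => ?_) (SL_const_le w hw j th)
          by_cases hex : ∃ z, z + (L.map lab).sum = y
          · obtain ⟨z, hz⟩ := hex
            refine le_trans (ENNReal.tsum_le_tsum fun b => ?_) (hth z)
            by_cases h : s b ∧ lab b + (L.map lab).sum = y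
            · rw [if_pos h, if_pos]
              exact ⟨add_right_cancel (h.2.trans hz.symm), h.1⟩
            · rw [if_neg h]; exact zero_le
          · refine le_trans (le_of_eq (ENNReal.tsum_eq_zero.2 fun b => ?_)) zero_le
            rw [if_neg]
            rintro ⟨_, h2⟩
            exact hex ⟨_, h2⟩
      _ = _ := by push_cast; ring

end Crest.Agent.R154.Asm424
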