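import Crest.Agent.R154.FluxDefs_132

/-! Row 154, FLUX block: levels, the flux identity `Σ_x P^x(..) ≤ P(max level = n+1)`. -/

set_option autoImplicit false

namespace Crest.Agent.R154.Flux132

open MeasureTheory ProbabilityTheory Crest.ProbabilityR.RandomEnvironment
open Crest.Agent.R154.Kal132
open Filter
open scoped ENNReal Topology

variable {d : ℕ}

/-! ### levels -/

lemma lev_add (u : Step d) (x y : Site d) : lev u (x + y) = lev u x + lev u y := by
  unfold lev; split_ifs <;> simp; ring

lemma lev_neg (u : Step d) (x : Site d) : lev u (-x) = - lev u x := by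
  unfold lev; split_ifs <;> simp

lemma lev_zero (u : Step d) : lev u (0 : Site d) = 0 := by
  unfold lev; split_ifs <;> simp

lemma lev_step_self (u : Step d) : lev u (stepVec u) = 1 := by
  unfold lev stepVec; split_ifs <;> simp_all

lemma lev_step_of_ne {u e : Step d} (h : e.1 ≠ u.1) : lev u (stepVec e) = 0 := by
  unfold lev stepVec
  rw [Pi.single_eq_of_ne (Ne.symm h)]
  simp

lemma stepVec_opp (u : Step d) : stepVec (opp u) = - stepVec u := by
  unfold stepVec opp
  rw [← Pi.single_neg]
  congr 1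
  cases u.2 <;> simp

lemma measurableSet_lev (u : Step d) (n : ℕ) (S : Set ℤ) :
    MeasurableSet {X : Path d | lev u (X n) ∈ S} :=
  measurable_coordSet n {x | lev u x ∈ S}

lemma measurableSet_dn (u : Step d) : MeasurableSet (Dn u) := by
  have : Dn u = ⋂ n, {X : Path d | lev u (X n) ≤ lev u (X 0)} := by
    ext X; simp [Dn]
  rw [this]
  refine MeasurableSet.iInter fun n => ?_
  have h1 : Measurable fun X : Path d => lev u (X n) :=
    (measurable_of_countable (lev u)).comp (measurable_pi_apply n)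
  have h2 : Measurable fun X : Path d => lev u (X 0) :=
    (measurable_of_countable (lev u)).comp (measurable_pi_apply 0)
  exact measurableSet_le h1 h2

/-- the natural down event uses only the rows at levels `≤` the starting level. -/
lemma locOn_dn (u : Step d) (y : Site d) (S : Set (Site d)) (hS : ∀ z, lev u z ≤ lev u y → z ∈ S) :
    Q561.LocOn S fun ω : Environment d => quenchedLaw ω y (Dn u) := by
  have h0 : ∀ ω : Environment d, quenchedLaw ω y (Dn u)
      = quenchedLaw ω y (Dn u ∩ {X : Path d | X 0 = y}) := by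
    intro ω
    refine measure_congr ?_
    filter_upwards [quenched_zero_eq ω y] with X hX
    apply propext
    exact ⟨fun h => ⟨h, hX⟩, fun h => h.1⟩
  simp only [h0]
  refine Q561.locOn_quenched y ((measurableSet_dn u).inter (measurable_coordSet 0 {y})) ?_
  refine Q561.dec_of_forall ?_
  rintro X ⟨h1, h2⟩ k
  have h2' : X 0 = y := h2
  exact hS _ (h2' ▸ h1 k)

/-! ### the first hit of level `0` at the origin -/

/-- first hit of level `0` at time `m`, at the origin -/
def Em (u : Step d) (m : ℕ) : Set (Path d) := {X | (∀ i, i < m → lev u (X i) < 0) ∧ X m = 0}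

/-- the first hit of level `0` is at the origin -/
def H0 (u : Step d) : Set (Path d) := ⋃ m, Em u m

lemma det_Em (u : Step d) (m : ℕ) : Det m (Em u m) := by
  intro X Y h
  simp only [Em, Set.mem_ofPred_eq]
  rw [h m le_rfl]
  refine and_congr_left fun _ => forall_congr' fun i => forall_congr' fun hi => ?_
  rw [h i hi.le]

lemma disjoint_Em (u : Step d) : Pairwise (Function.onFun Disjoint (Em (d := d) u)) := by
  intro m m' hne
  rw [Function.onFun, Set.disjoint_left]
  rintro X ⟨h1, h2⟩ ⟨h3, h4⟩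
  rcases lt_or_gt_of_ne hne with h | h
  · have := h3 m h
    rw [h2, lev_zero] at this
    exact lt_irrefl _ this
  · have := h1 m' h
    rw [h4, lev_zero] at this
    exact lt_irrefl _ this

lemma measurableSet_H0 (u : Step d) : MeasurableSet (H0 u) :=
  MeasurableSet.iUnion fun m => (det_Em u m).measurableSet

lemma mem_H0 (u : Step d) (X : Path d) :
    X ∈ H0 u ↔ ∃ m, (∀ i, i < m → lev u (X i) < 0) ∧ X m = 0 := by
  simp only [H0, Set.mem_iUnion, Em, Set.mem_ofPred_eq]

lemma dec_H0 (u : Step d) : Q561.Dec {x : Site d | lev u x < 0} (H0 u) := by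
  rw [Q561.dec_iff]
  intro X Y hXY hX
  rw [mem_H0] at hX ⊢
  obtain ⟨m, h1, h2⟩ := hX
  have hX' : ∀ i, i ≤ m → Q561.stopAt {x : Site d | lev u x < 0} X i = X i :=
    fun i hi => Q561.stopAt_eq_of_mem fun j hj => h1 j (lt_of_lt_of_le hj hi)
  have hY : ∀ j, j < m → Y j ∈ {x : Site d | lev u x < 0} := by
    intro j hj
    refine Q561.mem_of_stopAt_mem (k := j) ?_ j le_rfl
    rw [← hXY, hX' j hj.le]
    exact h1 j hj
  refine ⟨m, hY, ?_⟩
  have : Q561.stopAt {x : Site d | lev u x < 0} Y m = Y m := Q561.stopAt_eq_of_mem hY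
  rw [← this, ← hXY, hX' m le_rfl, h2]

lemma locOn_H0 (u : Step d) (x : Site d) :
    Q561.LocOn {x : Site d | lev u x < 0} fun ω : Environment d => quenchedLaw ω x (H0 u) :=
  Q561.locOn_quenched x (measurableSet_H0 u) (dec_H0 u)

/-! ### the excursion and the event `V` -/

/-- follow `ρ` up to time `K`, then natural down. -/
def Bex (u : Step d) (ρ : Path d) (K : ℕ) : Set (Path d) := cyl ρ K ∩ shift K ⁻¹' Dn u

lemma measurableSet_Bex (u : Step d) (ρ : Path d) (K : ℕ) : MeasurableSet (Bex u ρ K) :=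
  (measurableSet_cyl _ _).inter (measurable_shift K (measurableSet_dn u))

/-- first hit of level `0` at the origin, then the excursion, then natural down. -/
def V (u : Step d) (ρ : Path d) (K : ℕ) : Set (Path d) :=
  ⋃ m, (Em u m ∩ shift m ⁻¹' Bex u ρ K)

lemma measurableSet_V (u : Step d) (ρ : Path d) (K : ℕ) : MeasurableSet (V u ρ K) :=
  MeasurableSet.iUnion fun m => (det_Em u m).measurableSet.inter
    (measurable_shift m (measurableSet_Bex u ρ K))

lemma quenched_V (u : Step d) (ρ : Path d) (K : ℕ) (ω : Environment d) (x : Site d) :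
    quenchedLaw ω x (V u ρ K) = quenchedLaw ω x (H0 u) * quenchedLaw ω 0 (Bex u ρ K) := by
  have hdis : Pairwise (Function.onFun Disjoint
      fun m => (Em (d := d) u m ∩ shift m ⁻¹' Bex u ρ K)) := by
    intro m m' hne
    exact (disjoint_Em u hne).mono Set.inter_subset_left Set.inter_subset_left
  unfold V H0
  rw [measure_iUnion hdis fun m => (det_Em u m).measurableSet.inter
      (measurable_shift m (measurableSet_Bex u ρ K)),
    measure_iUnion (disjoint_Em u) fun m => (det_Em u m).measurableSet, ← ENNReal.tsum_mul_right]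
  refine tsum_congr fun m => ?_
  rw [markov_event ω x m (det_Em u m) (measurableSet_Bex u ρ K)]
  rw [setLIntegral_congr_fun (g := fun _ => quenchedLaw ω 0 (Bex u ρ K))
    (det_Em u m).measurableSet (fun X hX => by simp only [hX.2])]
  rw [setLIntegral_const, mul_comm]

lemma quenched_Bex (u : Step d) (ρ : Path d) (K : ℕ) (ω : Environment d) :
    quenchedLaw ω 0 (Bex u ρ K) = quenchedLaw ω 0 (cyl ρ K) * quenchedLaw ω (ρ K) (Dn u) :=
  quenched_cyl_shift ω 0 ρ K (measurableSet_dn u)

/-- maximal level equal to `k` -/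
def Mx (u : Step d) (k : ℤ) : Set (Path d) :=
  {X | (∃ m, lev u (X m) = k) ∧ ∀ m, lev u (X m) ≤ k}

lemma measurableSet_Mx (u : Step d) (k : ℤ) : MeasurableSet (Mx u k) := by
  have : Mx u k = (⋃ m, {X : Path d | lev u (X m) ∈ ({k} : Set ℤ)}) ∩
      ⋂ m, {X : Path d | lev u (X m) ∈ Set.Iic k} := by
    ext X; simp [Mx]
  rw [this]
  exact (MeasurableSet.iUnion fun m => measurableSet_lev u m _).inter
    (MeasurableSet.iInter fun m => measurableSet_lev u m _)

lemma disjoint_Mx (u : Step d) {k k' : ℤ} (h : k ≠ k') : Disjoint (Mx u k) (Mx u k') := by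
  rw [Set.disjoint_left]
  rintro X ⟨⟨m, hm⟩, h1⟩ ⟨⟨m', hm'⟩, h2⟩
  have h3 := h1 m'
  have h4 := h2 m
  omega

lemma tr_V_subset (u : Step d) (ρ : Path d) (K : ℕ) (h0 : ρ 0 = 0) (hK : 1 ≤ K)
    (hle : ∀ j, j ≤ K → lev u (ρ j) ≤ 1) (h1 : lev u (ρ 1) = 1)
    (n : ℤ) (hn : 0 ≤ n) (x : Site d) (hx : lev u x = -n) :
    Q561.tr x ⁻¹' V u ρ K ⊆ Mx u (n + 1) := by
  intro X hX
  simp only [V, Set.mem_preimage, Set.mem_iUnion, Set.mem_inter_iff, Em, Set.mem_ofPred_eq,
    Bex] at hX
  obtain ⟨m, ⟨hm1, hm2⟩, hc, hdn⟩ := hX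
  have key : ∀ i, lev u (X i) = lev u (Q561.tr x X i) + n := by
    intro i
    simp only [Q561.tr, lev_add, hx]; ring
  have hρ : ∀ j, j ≤ K → Q561.tr x X (m + j) = ρ j := fun j hj => hc j hj
  refine ⟨⟨m + 1, ?_⟩, fun i => ?_⟩
  · rw [key, hρ 1 hK, h1]; ring
  · rw [key]
    have : lev u (Q561.tr x X i) ≤ 1 := by
      rcases lt_or_ge i m with hi | hi
      · have := hm1 i hi; omega
      · rcases le_or_gt (i - m) K with hj | hj
        · have h2 := hρ (i - m) hj
          rw [Nat.add_sub_cancel' hi] at h2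
          rw [h2]; exact hle _ hj
        · have h3 := hdn (i - m - K)
          simp only [shift] at h3
          have h4 : m + (K + (i - m - K)) = i := by omega
          rw [h4, add_zero, hρ K le_rfl] at h3
          exact h3.trans (hle K le_rfl)
    omega

lemma tr_V_disjoint (u : Step d) (ρ : Path d) (K : ℕ) (n : ℤ) {x x' : Site d}
    (hx : lev u x = -n) (hx' : lev u x' = -n) (hne : x ≠ x') :
    Disjoint (Q561.tr x ⁻¹' V u ρ K) (Q561.tr x' ⁻¹' V u ρ K) := by
  rw [Set.disjoint_left]
  intro X hX hX'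
  simp only [V, Set.mem_preimage, Set.mem_iUnion, Set.mem_inter_iff, Em, Set.mem_ofPred_eq,
    Bex] at hX hX'
  obtain ⟨m, ⟨hm1, hm2⟩, -⟩ := hX
  obtain ⟨m', ⟨hm1', hm2'⟩, -⟩ := hX'
  have e1 : X m = -x := by
    have : X m + x = 0 := hm2
    exact eq_neg_of_add_eq_zero_left this
  have e2 : X m' = -x' := by
    have : X m' + x' = 0 := hm2'
    exact eq_neg_of_add_eq_zero_left this
  have l1 : lev u (X m) = n := by rw [e1, lev_neg, hx]; ring
  have l2 : lev u (X m') = n := by rw [e2, lev_neg, hx']; ring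
  rcases lt_trichotomy m m' with h | h | h
  · have := hm1' m h
    simp only [Q561.tr, lev_add, hx'] at this
    omega
  · subst h
    apply hne
    have := e1.symm.trans e2
    exact neg_injective this
  · have := hm1 m' h
    simp only [Q561.tr, lev_add, hx] at this
    omega

/-- **flux inequality**: `Σ_{x∈F} ∫ P_ω^x(H0) P_ω^0(exc., natural down) ≤ P(max level = n+1)`. -/
theorem flux_le {Q : Measure (Environment d)} [IsProbabilityMeasure Q]
    (hstat : ∀ z : Site d, MeasurePreserving (shiftEnv z) Q Q)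
    (u : Step d) (ρ : Path d) (K : ℕ) (h0 : ρ 0 = 0) (hK : 1 ≤ K)
    (hle : ∀ j, j ≤ K → lev u (ρ j) ≤ 1) (h1 : lev u (ρ 1) = 1)
    (n : ℕ) (F : Finset (Site d)) (hF : ∀ x ∈ F, lev u x = -(n : ℤ)) :
    ∫⁻ ω, (∑ x ∈ F, quenchedLaw ω x (H0 u)) * quenchedLaw ω 0 (Bex u ρ K) ∂Q
      ≤ annealed Q 0 (Mx u (n + 1)) := by
  have hm : ∀ x : Site d, Measurable fun ω : Environment d => quenchedLaw ω x (V u ρ K) :=
    fun x => measurable_quenched_apply x (measurableSet_V u ρ K)
  calc ∫⁻ ω, (∑ x ∈ F, quenchedLaw ω x (H0 u)) * quenchedLaw ω 0 (Bex u ρ K) ∂Q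
      = ∫⁻ ω, ∑ x ∈ F, quenchedLaw ω x (V u ρ K) ∂Q := by
        refine lintegral_congr fun ω => ?_
        rw [Finset.sum_mul]
        exact Finset.sum_congr rfl fun x _ => (quenched_V u ρ K ω x).symm
    _ = ∑ x ∈ F, annealedProb Q x (V u ρ K) := by
        rw [lintegral_finsetSum _ fun x _ => hm x]
        rfl
    _ = ∑ x ∈ F, annealed Q 0 (Q561.tr x ⁻¹' V u ρ K) := by
        refine Finset.sum_congr rfl fun x _ => ?_
        rw [Q561.annealed_eq_zero_shift hstat x (measurableSet_V u ρ K),
          annealed_apply Q 0 (Q561.measurable_tr x (measurableSet_V u ρ K))]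
    _ = annealed Q 0 (⋃ x ∈ F, Q561.tr x ⁻¹' V u ρ K) := by
        rw [measure_biUnion_finset]
        · intro x hx x' hx' hne
          exact tr_V_disjoint u ρ K n (hF x hx) (hF x' hx') hne
        · intro x _
          exact Q561.measurable_tr x (measurableSet_V u ρ K)
    _ ≤ _ := by
        refine measure_mono ?_
        simp only [Set.iUnion_subset_iff]
        intro x hx
        exact tr_V_subset u ρ K h0 hK hle h1 n (by positivity) x (hF x hx)

end Crest.Agent.R154.Flux132
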