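import Crest.Agent.R154.NBDefs_28
import Crest.Agent.R154.B5Rec_566
import Crest.Agent.R154.Flux1_132

/-! Row 154, ROAD 801 (helper12): the binder between the abstract single-walker list assembly
(helper540's letters `TX`, `TY`, `Dp`) and the words of `NBDefs_28`. -/

set_option autoImplicit false

namespace Crest.Agent.R154.Bind12

open MeasureTheory ProbabilityTheory Crest.ProbabilityR.RandomEnvironment Crest.Agent.R154
open Crest.Agent.R154.Flux132 (lev opp)
open Crest.Agent.R154.Flux566 (lw endp sitesL endp_append endp_eq_add)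
open Crest.Agent.R154.NB28
open Crest.Agent.R154.B5A (LW HT)
open scoped ENNReal

variable {d : ℕ}

/-! ### words -/

lemma sitesL_append (l l' : List (Step d)) (x : Site d) :
    sitesL x (l ++ l') = sitesL x l ++ sitesL (endp x l) l' := by
  induction l generalizing x with
  | nil => rfl
  | cons e l ih =>
    simp only [List.cons_append, sitesL, endp]
    rw [ih]

lemma sitesL_add (l : List (Step d)) (x z : Site d) :
    sitesL (x + z) l = (sitesL x l).map (fun y => y + z) := by
  induction l generalizing x with
  | nil => rfl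
  | cons e l ih =>
    simp only [sitesL, List.map_cons]
    rw [← ih, add_right_comm]

lemma mem_sitesL_shift (l : List (Step d)) (x z y : Site d) :
    y ∈ sitesL (x + z) l ↔ y - z ∈ sitesL x l := by
  rw [sitesL_add, List.mem_map]
  constructor
  · rintro ⟨a, ha, rfl⟩; simpa using ha
  · intro h; exact ⟨y - z, h, by simp⟩

lemma lev_add (u : Step d) (x y : Site d) : lev u (x + y) = lev u x + lev u y :=
  Flux132.lev_add u x y

lemma lev_neg (u : Step d) (x : Site d) : lev u (-x) = - lev u x := Flux132.lev_neg u x

lemma lev_sub (u : Step d) (x y : Site d) : lev u (x - y) = lev u x - lev u y := by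
  rw [sub_eq_add_neg, lev_add, lev_neg, sub_eq_add_neg]

lemma lev_zero (u : Step d) : lev u (0 : Site d) = 0 := Flux132.lev_zero u

lemma lev_opp (u : Step d) : lev u (stepVec (opp u) : Site d) = -1 := by
  rw [Flux132.stepVec_opp, lev_neg, Flux132.lev_step_self]

/-! ### 540's letters -/

/-- sites read by a list of blocks, with depth (540's `TX`) -/
def TT {B G : Type*} [Add G] (s : B → Set (G × ℕ)) (z : B → G) (h : B → ℕ) :
    List B → G → ℕ → Set (G × ℕ)
  | [], _, _ => ∅
  | b :: L, x, a => {p | ∃ q ∈ s b, p = (x + q.1, a + q.2)} ∪ TT s z h L (x + z b) (a + h b)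

/-- total displacement -/
def Dp {B G : Type*} [AddMonoid G] (z : B → G) (L : List B) : G := (L.map z).sum

section blocks

variable {B : Type*} (v : B → List (Step d))

/-- the up word of a list read from the top -/
def catX (L : List B) : List (Step d) := (L.reverse.map v).flatten

/-- the down word of a list read from the top -/
def catY (L : List B) : List (Step d) := (L.map v).flatten

lemma catX_nil : catX v [] = [] := rfl

lemma catX_cons (b : B) (L : List B) : catX v (b :: L) = catX v L ++ v b := by
  simp [catX]

lemma catY_nil : catY v [] = [] := rfl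

lemma catY_cons (b : B) (L : List B) : catY v (b :: L) = v b ++ catY v L := by
  simp [catY]

lemma Dp_catX (L : List B) : Dp (fun b => - endp 0 (v b)) L = - endp 0 (catX v L) := by
  induction L with
  | nil => simp [Dp, catX, endp]
  | cons b L ih =>
    rw [catX_cons, endp_append, endp_eq_add]
    simp only [Dp, List.map_cons, List.sum_cons] at ih ⊢
    rw [ih]
    abel

lemma Dp_catY (L : List B) : Dp (fun b => endp 0 (v b)) L = endp 0 (catY v L) := by
  induction L with
  | nil => simp [Dp, catY, endp]
  | cons b L ih =>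
    rw [catY_cons, endp_append, endp_eq_add]
    simp only [Dp, List.map_cons, List.sum_cons] at ih ⊢
    rw [ih]

variable (u : Step d) (h : B → ℕ)

/-- sites of an up block relative to its top -/
def sX (b : B) : Set (Site d × ℕ) := {p | p.1 ∈ sitesL (- endp 0 (v b)) (v b) ∧ lev u p.1 = -(p.2 : ℤ)}

/-- sites of a down block relative to its position -/
def sY (b : B) : Set (Site d × ℕ) := {p | p.1 ∈ sitesL (stepVec (opp u)) (v b) ∧ lev u p.1 = -(p.2 : ℤ)}

lemma mem_TX (hv : ∀ b, lev u (endp 0 (v b)) = h b)
    (hs : ∀ b, ∀ y ∈ sitesL (- endp 0 (v b)) (v b), lev u y ≤ 0)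
    (L : List B) (x : Site d) (a : ℕ) (y : Site d) (k : ℕ) :
    (y, k) ∈ TT (sX v u) (fun b => - endp 0 (v b)) h L x a ↔
      y ∈ sitesL (x - endp 0 (catX v L)) (catX v L) ∧ (k : ℤ) = a + lev u x - lev u y := by
  induction L generalizing x a with
  | nil => simp [TT, catX, sitesL]
  | cons b L ih =>
    simp only [TT]
    rw [Set.mem_union, ih, catX_cons, sitesL_append, List.mem_append]
    have e1 : endp (x - endp 0 (catX v L ++ v b)) (catX v L) = x - endp 0 (v b) := by
      rw [endp_eq_add, endp_append, endp_eq_add (v b)]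
      abel
    have e2 : x - endp 0 (catX v L ++ v b) = x + - endp 0 (v b) - endp 0 (catX v L) := by
      rw [endp_append, endp_eq_add (v b)]
      abel
    rw [e1, e2]
    have e3 : (y ∈ sitesL (x - endp 0 (v b)) (v b)) ↔ y - x ∈ sitesL (- endp 0 (v b)) (v b) := by
      rw [← mem_sitesL_shift]
      congr! 2
      abel
    have hlev : lev u (x + - endp 0 (v b)) = lev u x - h b := by
      rw [lev_add, lev_neg, hv b]; ring
    rw [e3, hlev]
    constructor
    · rintro (⟨q, hq, hp⟩ | ⟨h1, h2⟩)
      · obtain ⟨hp1, hp2⟩ := Prod.mk.inj hp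
        obtain ⟨hq1, hq2⟩ := hq
        refine ⟨Or.inr ?_, ?_⟩
        · rw [hp1]; simpa using hq1
        · rw [hp1, hp2, lev_add, hq2]; push_cast; ring
      · refine ⟨Or.inl h1, ?_⟩
        rw [h2]; push_cast; ring
    · rintro ⟨h1 | h1, h2⟩
      · refine Or.inr ⟨h1, ?_⟩
        rw [h2]; push_cast; ring
      · refine Or.inl ⟨(y - x, (- lev u (y - x)).toNat), ?_, ?_⟩
        · refine ⟨h1, ?_⟩
          have := hs b _ h1
          simp only
          omega
        · have h3 := hs b _ h1
          have h4 : lev u (y - x) = lev u y - lev u x := lev_sub u y x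
          refine Prod.ext (by simp) ?_
          simp only
          omega

lemma mem_TY (hv : ∀ b, lev u (endp 0 (v b)) = -(h b : ℤ))
    (hs : ∀ b, ∀ y ∈ sitesL (stepVec (opp u)) (v b), lev u y ≤ 0)
    (L : List B) (x : Site d) (a : ℕ) (y : Site d) (k : ℕ) :
    (y, k) ∈ TT (sY v u) (fun b => endp 0 (v b)) h L x a ↔
      y ∈ sitesL (x + stepVec (opp u)) (catY v L) ∧ (k : ℤ) = a + lev u x - lev u y := by
  induction L generalizing x a with
  | nil => simp [TT, catY, sitesL]
  | cons b L ih =>
    simp only [TT]
    rw [Set.mem_union, ih, catY_cons, sitesL_append, List.mem_append]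
    have e1 : endp (x + stepVec (opp u)) (v b) = x + endp 0 (v b) + stepVec (opp u) := by
      rw [endp_eq_add]
      abel
    rw [e1]
    have e3 : (y ∈ sitesL (x + stepVec (opp u)) (v b)) ↔ y - x ∈ sitesL (stepVec (opp u)) (v b) := by
      rw [← mem_sitesL_shift, add_comm x]
    have hlev : lev u (x + endp 0 (v b)) = lev u x - h b := by
      rw [lev_add, hv b]; ring
    rw [e3, hlev]
    constructor
    · rintro (⟨q, hq, hp⟩ | ⟨h1, h2⟩)
      · obtain ⟨hp1, hp2⟩ := Prod.mk.inj hp
        obtain ⟨hq1, hq2⟩ := hq
        refine ⟨Or.inl ?_, ?_⟩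
        · rw [hp1]; simpa using hq1
        · rw [hp1, hp2, lev_add, hq2]; push_cast; ring
      · refine ⟨Or.inr h1, ?_⟩
        rw [h2]; push_cast; ring
    · rintro ⟨h1 | h1, h2⟩
      · refine Or.inl ⟨(y - x, (- lev u (y - x)).toNat), ?_, ?_⟩
        · refine ⟨h1, ?_⟩
          have := hs b _ h1
          simp only
          omega
        · have h3 := hs b _ h1
          have h4 : lev u (y - x) = lev u y - lev u x := lev_sub u y x
          refine Prod.ext (by simp) ?_
          simp only
          omega
      · refine Or.inr ⟨h1, ?_⟩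
        rw [h2]; push_cast; ring

end blocks

end Crest.Agent.R154.Bind12
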