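import Crest.Agent.R154.FP_178
import Crest.Agent.R154.Dens_903
import Crest.Agent.R154.Bind801_12

/-! Row 154, ROAD 801, assembly, part 1 (helper458): attempts on single-walker block lists, density
of a smooth prefix. -/

set_option autoImplicit false
set_option linter.unusedSectionVars false

namespace Crest.Agent.R154.Asm458

open scoped ENNReal Classical
open Crest.Agent.R154.B5A Crest.Agent.R154.FP178
open Crest.Agent.R154.Bind12 (Dp)

section general

variable {B : Type*}

lemma tsum_split_le (f : List B → ℝ≥0∞) (Q : List B → List B → Prop)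
    (h : ∀ L, f L ≠ 0 → ∃ A R, L = A ++ R ∧ Q A R) :
    ∑' L, f L ≤ ∑' A, ∑' R, (if Q A R then f (A ++ R) else 0) := by
  rw [← ENNReal.tsum_prod (f := fun A R => if Q A R then f (A ++ R) else 0)]
  have h' : ∀ L : Function.support f, ∃ p : List B × List B, L.1 = p.1 ++ p.2 ∧ Q p.1 p.2 := by
    intro L
    obtain ⟨A, R, h1, h2⟩ := h L.1 L.2
    exact ⟨(A, R), h1, h2⟩
  choose φ hφ using h'
  have hinj : Function.Injective φ := by
    intro L L' e
    apply Subtype.ext
    rw [(hφ L).1, (hφ L').1, e]
  calc ∑' L, f L = ∑' L : Function.support f, f L.1 := (tsum_subtype_support f).symm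
    _ = ∑' L : Function.support f,
        (fun p : List B × List B => if Q p.1 p.2 then f (p.1 ++ p.2) else 0) (φ L) := by
        refine tsum_congr fun L => ?_
        simp only
        rw [if_pos (hφ L).2, ← (hφ L).1]
    _ ≤ _ := ENNReal.tsum_comp_le_tsum_of_injective hinj _

lemma tsum_prod_mul (P Q : List B → Prop) (f g : List B → ℝ≥0∞) :
    ∑' A, ∑' R, (if P A ∧ Q R then f A * g R else 0)
      = (∑' A, if P A then f A else 0) * ∑' R, if Q R then g R else 0 := by
  rw [← ENNReal.tsum_mul_right]
  refine tsum_congr fun A => ?_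
  rw [← ENNReal.tsum_mul_left]
  refine tsum_congr fun R => ?_
  by_cases h1 : P A <;> by_cases h2 : Q R <;> simp [h1, h2]

end general

section single

variable {B : Type*} {G : Type*} [AddCommGroup G] (Λ : B → ℝ≥0∞) (ht : B → ℕ) (z : B → G)
  (T i0 : ℕ)

lemma Dp_append (L L' : List B) : Dp z (L ++ L') = Dp z L + Dp z L' := by simp [Dp]

/-- good attempt -/
def ga (A : List B) : Prop := fp ht T A ∧ HT ht A ≤ T + i0

/-- concatenation of `j` good attempts -/
def att : ℕ → List B → Prop
  | 0, P => P = []
  | j + 1, P => ∃ A R, P = A ++ R ∧ ga ht T i0 A ∧ att j R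

/-- the list begins with `j` good attempts -/
def gd : ℕ → List B → Prop
  | 0, _ => True
  | j + 1, L => ∃ A R, L = A ++ R ∧ ga ht T i0 A ∧ gd j R

lemma att_HT (j : ℕ) : ∀ P, att ht T i0 j P → j * T ≤ HT ht P ∧ HT ht P ≤ j * (T + i0) := by
  induction j with
  | zero => rintro P rfl; simp [HT_nil]
  | succ j ih =>
    rintro P ⟨A, R, rfl, hA, hR⟩
    have h1 := ih R hR
    have h2 := le_HT_of_fp ht hA.1
    have h3 := hA.2
    rw [HT_append]
    constructor
    · rw [Nat.succ_mul]; omega
    · rw [Nat.succ_mul]; omega

lemma sum_FP_eq (h1 : ∀ b, 1 ≤ ht b) (hΛ : ∑' b, Λ b = 1) :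
    ∀ a, ∑' L, (if fp ht a L then LW Λ L else 0) = 1 := by
  intro a
  induction a using Nat.strong_induction_on with
  | _ a ih =>
    rcases Nat.eq_zero_or_pos a with rfl | ha
    · have : ∀ L : List B, (if fp ht 0 L then LW Λ L else 0) = if L = [] then 1 else 0 := by
        intro L
        by_cases h : L = []
        · subst h; simp [fp_nil, LW_nil]
        · rw [if_neg (by rw [fp_zero]; exact h), if_neg h]
      simp only [this]
      rw [tsum_ite_eq]
    · rw [tsum_list]
      have e0 : ¬ fp ht a ([] : List B) := by rw [fp_nil]; omega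
      rw [if_neg e0, zero_add, ← hΛ]
      refine tsum_congr fun b => ?_
      have e1 : ∀ L : List B, (if fp ht a (b :: L) then LW Λ (b :: L) else 0)
          = Λ b * (if fp ht (a - ht b) L then LW Λ L else 0) := by
        intro L
        by_cases h : fp ht (a - ht b) L
        · rw [if_pos h, if_pos ((fp_cons ht a b L).2 ⟨ha, h⟩), LW_cons]
        · rw [if_neg h, if_neg (fun h' => h ((fp_cons ht a b L).1 h').2), mul_zero]
      simp only [e1]
      rw [ENNReal.tsum_mul_left, ih (a - ht b) (by have := h1 b; omega), mul_one]

variable (h1 : ∀ b, 1 ≤ ht b) (hΛ : ∑' b, Λ b = 1)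

include h1 hΛ in
lemma ga_mass : ∑' A, (if ga ht T i0 A then LW Λ A else 0) ≤ 1 := by
  rw [← sum_FP_eq Λ ht h1 hΛ T]
  refine ENNReal.tsum_le_tsum fun A => ?_
  by_cases h : ga ht T i0 A
  · rw [if_pos h, if_pos h.1]
  · rw [if_neg h]; exact zero_le

include h1 hΛ in
lemma att_mass (j : ℕ) : ∑' P, (if att ht T i0 j P then LW Λ P else 0) ≤ 1 := by
  induction j with
  | zero =>
    have : ∀ L : List B, (if att ht T i0 0 L then LW Λ L else 0) = if L = [] then 1 else 0 := by
      intro L
      by_cases h : L = []
      · subst h; simp [att, LW_nil]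
      · rw [if_neg (by simpa [att] using h), if_neg h]
    simp only [this]
    rw [tsum_ite_eq]
  | succ j ih =>
    refine (tsum_split_le _ (fun A R => ga ht T i0 A ∧ att ht T i0 j R) ?_).trans ?_
    · intro L hL
      have : att ht T i0 (j + 1) L := by
        by_contra h; exact hL (if_neg h)
      obtain ⟨A, R, e, hA, hR⟩ := this
      exact ⟨A, R, e, hA, hR⟩
    · calc _ ≤ ∑' A, ∑' R, (if ga ht T i0 A ∧ att ht T i0 j R then LW Λ A * LW Λ R else 0) := by
            refine ENNReal.tsum_le_tsum fun A => ENNReal.tsum_le_tsum fun R => ?_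
            split_ifs
            · rw [LW_append]
            · exact zero_le
            · exact le_rfl
        _ = _ := tsum_prod_mul _ _ _ _
        _ ≤ 1 * 1 := mul_le_mul' (ga_mass Λ ht T i0 h1 hΛ) ih
        _ = 1 := one_mul 1

include h1 in
/-- bad overshoot -/
lemma bad_le (hU1 : ∀ n, U Λ ht n ≤ 1) (hΛ : ∑' b, Λ b = 1) (η : ℝ≥0∞)
    (hη : ∑' L, (if fp ht T L ∧ T + i0 < HT ht L then LW Λ L else 0) ≤ η) (J : ℕ) :
    ∀ n, J * (T + i0) ≤ n →
      ∑' L, (if HT ht L = n ∧ ¬ gd ht T i0 J L then LW Λ L else 0) ≤ J * η := by
  induction J with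
  | zero =>
    intro n _
    have : ∀ L : List B, (if HT ht L = n ∧ ¬ gd ht T i0 0 L then LW Λ L else 0) = 0 := by
      intro L; rw [if_neg]; simp [gd]
    simp only [this, tsum_zero]
    exact zero_le
  | succ J ih =>
    intro n hn
    have hn' : (J + 1) * (T + i0) = J * (T + i0) + (T + i0) := by ring
    refine (tsum_split_le _ (fun A R => fp ht T A) ?_).trans ?_
    · intro L hL
      have hh : HT ht L = n ∧ ¬ gd ht T i0 (J + 1) L := by
        by_contra h; exact hL (if_neg h)
      -- first passage of depth T
      have key : ∀ (a : ℕ) (L : List B), a ≤ HT ht L → ∃ A R, L = A ++ R ∧ fp ht a A := by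
        intro a L
        induction L generalizing a with
        | nil => intro h; rw [HT_nil] at h; exact ⟨[], [], rfl, by rw [fp_nil]; omega⟩
        | cons b L ihL =>
          intro h
          rcases Nat.eq_zero_or_pos a with rfl | ha
          · exact ⟨[], b :: L, rfl, by rw [fp_nil]⟩
          · obtain ⟨A, R, e, hA⟩ := ihL (a - ht b) (by rw [HT_cons] at h; omega)
            exact ⟨b :: A, R, by rw [e]; rfl, (fp_cons ht a b A).2 ⟨ha, hA⟩⟩
      exact key T L (by rw [hh.1]; omega)
    · calc _ ≤ ∑' A, ∑' R, ((if (fp ht T A ∧ T + i0 < HT ht A) ∧ HT ht R = n - HT ht A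
              then LW Λ A * LW Λ R else 0) + (if ga ht T i0 A then LW Λ A *
                (if HT ht R = n - HT ht A ∧ ¬ gd ht T i0 J R then LW Λ R else 0) else 0)) := by
            refine ENNReal.tsum_le_tsum fun A => ENNReal.tsum_le_tsum fun R => ?_
            by_cases hA : fp ht T A
            · rw [if_pos hA]
              by_cases hc : HT ht (A ++ R) = n ∧ ¬ gd ht T i0 (J + 1) (A ++ R)
              · rw [if_pos hc, LW_append]
                have hR : HT ht R = n - HT ht A := by
                  have := hc.1; rw [HT_append] at this; omega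
                by_cases ho : T + i0 < HT ht A
                · rw [if_pos ⟨⟨hA, ho⟩, hR⟩]; exact le_self_add
                · have hga : ga ht T i0 A := ⟨hA, not_lt.1 ho⟩
                  have hnR : ¬ gd ht T i0 J R := fun h => hc.2 ⟨A, R, rfl, hga, h⟩
                  rw [if_neg (fun h => ho h.1.2), zero_add, if_pos hga, if_pos ⟨hR, hnR⟩]
              · rw [if_neg hc]; exact zero_le
            · rw [if_neg hA]; exact zero_le
        _ = (∑' A, ∑' R, (if (fp ht T A ∧ T + i0 < HT ht A) ∧ HT ht R = n - HT ht A
              then LW Λ A * LW Λ R else 0)) + ∑' A, ∑' R, (if ga ht T i0 A then LW Λ A *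
                (if HT ht R = n - HT ht A ∧ ¬ gd ht T i0 J R then LW Λ R else 0) else 0) := by
            rw [← ENNReal.tsum_add]
            exact tsum_congr fun A => ENNReal.tsum_add
        _ ≤ η + J * η := by
            refine add_le_add ?_ ?_
            · refine le_trans ?_ hη
              refine ENNReal.tsum_le_tsum fun A => ?_
              by_cases hA : fp ht T A ∧ T + i0 < HT ht A
              · simp only [hA, true_and, if_true]
                calc _ = LW Λ A * U Λ ht (n - HT ht A) := by
                      rw [U, ← ENNReal.tsum_mul_left]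
                      refine tsum_congr fun R => ?_
                      split_ifs <;> simp
                  _ ≤ LW Λ A * 1 := mul_le_mul_right (hU1 _) _
                  _ = _ := mul_one _
              · simp [hA]
            · calc _ ≤ ∑' A, (if ga ht T i0 A then LW Λ A * (J * η) else 0) := by
                    refine ENNReal.tsum_le_tsum fun A => ?_
                    by_cases hA : ga ht T i0 A
                    · simp only [hA, if_true]
                      rw [ENNReal.tsum_mul_left]
                      refine mul_le_mul_right (ih _ ?_) _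
                      have := hA.2
                      omega
                    · simp [hA]
                _ = (∑' A, (if ga ht T i0 A then LW Λ A else 0)) * (J * η) := by
                    rw [← ENNReal.tsum_mul_right]
                    refine tsum_congr fun A => ?_
                    split_ifs <;> simp
                _ ≤ 1 * (J * η) := mul_le_mul_left (ga_mass Λ ht T i0 h1 hΛ) _
                _ = _ := one_mul _
        _ = _ := by push_cast; ring

/-- location of a depth in a good list -/
lemma loc (J : ℕ) : ∀ (L : List B) (a k : ℕ), gd ht T i0 J L → a < k → k ≤ a + J * T →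
    ∃ j, j < J ∧ ∃ P A R, L = P ++ (A ++ R) ∧ att ht T i0 j P ∧ ga ht T i0 A ∧
      a + HT ht P < k ∧ k ≤ a + HT ht P + HT ht A := by
  induction J with
  | zero => intro L a k _ h1 h2; omega
  | succ J ih =>
    rintro L a k ⟨A, R, rfl, hA, hR⟩ h1 h2
    by_cases hk : k ≤ a + HT ht A
    · exact ⟨0, by omega, [], A, R, rfl, rfl, hA, by simpa [HT_nil] using h1,
        by simpa [HT_nil] using hk⟩
    · have h3 := le_HT_of_fp ht hA.1
      obtain ⟨j, hj, P, A', R', e, h4, h5, h6, h7⟩ := ih R (a + HT ht A) k hR (by omega) (by
        rw [Nat.succ_mul] at h2; omega)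
      refine ⟨j + 1, by omega, A ++ P, A', R', by rw [e]; simp, ⟨A, P, rfl, hA, h4⟩, h5, ?_, ?_⟩
      · rw [HT_append]; omega
      · rw [HT_append]; omega

/-- law of an attempt -/
noncomputable def pl (x : ℕ × G) : ℝ≥0∞ :=
  ∑' A, (if fp ht T A ∧ HT ht A = x.1 ∧ Dp z A = x.2 then LW Λ A else 0)

lemma sum_pl (g : ℕ × G → ℝ≥0∞) :
    ∑' A, (if fp ht T A then LW Λ A * g (HT ht A, Dp z A) else 0) = ∑' x, g x * pl Λ ht z T x := by
  have e : ∀ x, g x * pl Λ ht z T x
      = ∑' A, (if fp ht T A ∧ HT ht A = x.1 ∧ Dp z A = x.2 then LW Λ A * g x else 0) := by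
    intro x
    rw [pl, ← ENNReal.tsum_mul_left]
    refine tsum_congr fun A => ?_
    split_ifs
    · exact mul_comm _ _
    · simp
  simp only [e]
  rw [ENNReal.tsum_comm]
  refine tsum_congr fun A => ?_
  rw [tsum_eq_single (HT ht A, Dp z A)]
  · simp
  · rintro ⟨a, b⟩ hne
    rw [if_neg]
    rintro ⟨-, h2, h3⟩
    exact hne (Prod.ext h2.symm h3.symm)

/-- smooth prefix -/
def sm (Sp : ℕ × G → Prop) : ℕ → List B → Prop
  | 0, _ => False
  | j + 1, P => ∃ A R, P = A ++ R ∧ ga ht T i0 A ∧ att ht T i0 j R ∧
      (Sp (HT ht A, Dp z A) ∨ sm Sp j R)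

lemma nonsmooth_le (Sp : ℕ × G → Prop) (q : ℝ≥0∞)
    (hq : ∑' A, (if ga ht T i0 A ∧ ¬ Sp (HT ht A, Dp z A) then LW Λ A else 0) ≤ q) (j : ℕ) :
    ∑' P, (if att ht T i0 j P ∧ ¬ sm ht z T i0 Sp j P then LW Λ P else 0) ≤ q ^ j := by
  induction j with
  | zero =>
    have : ∀ L : List B, (if att ht T i0 0 L ∧ ¬ sm ht z T i0 Sp 0 L then LW Λ L else 0)
        = if L = [] then 1 else 0 := by
      intro L
      by_cases h : L = []
      · subst h; simp [att, sm, LW_nil]
      · rw [if_neg (fun h' => h (by simpa [att] using h'.1)), if_neg h]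
    simp only [this]
    rw [tsum_ite_eq, pow_zero]
  | succ j ih =>
    refine (tsum_split_le _ (fun A R => (ga ht T i0 A ∧ ¬ Sp (HT ht A, Dp z A)) ∧
      (att ht T i0 j R ∧ ¬ sm ht z T i0 Sp j R)) ?_).trans ?_
    · intro L hL
      have hh : att ht T i0 (j + 1) L ∧ ¬ sm ht z T i0 Sp (j + 1) L := by
        by_contra h; exact hL (if_neg h)
      obtain ⟨A, R, e, hA, hR⟩ := hh.1
      refine ⟨A, R, e, ⟨hA, fun hS => hh.2 ⟨A, R, e, hA, hR, Or.inl hS⟩⟩, hR,
        fun hS => hh.2 ⟨A, R, e, hA, hR, Or.inr hS⟩⟩
    · calc _ ≤ ∑' A, ∑' R, (if (ga ht T i0 A ∧ ¬ Sp (HT ht A, Dp z A)) ∧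
            (att ht T i0 j R ∧ ¬ sm ht z T i0 Sp j R) then LW Λ A * LW Λ R else 0) := by
            refine ENNReal.tsum_le_tsum fun A => ENNReal.tsum_le_tsum fun R => ?_
            split_ifs
            · rw [LW_append]
            · exact zero_le
            · exact le_rfl
        _ = (∑' A, if ga ht T i0 A ∧ ¬ Sp (HT ht A, Dp z A) then LW Λ A else 0) *
            ∑' R, (if att ht T i0 j R ∧ ¬ sm ht z T i0 Sp j R then LW Λ R else 0) := by
            convert tsum_prod_mul (fun A => ga ht T i0 A ∧ ¬ Sp (HT ht A, Dp z A))
              (fun R => att ht T i0 j R ∧ ¬ sm ht z T i0 Sp j R) (LW Λ) (LW Λ)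
        _ ≤ q * q ^ j := mul_le_mul' hq ih
        _ = _ := by rw [pow_succ, mul_comm]

include h1 hΛ in
lemma smooth_dens (Sp : ℕ × G → Prop) (q th : ℝ≥0∞)
    (hq : ∑' A, (if ga ht T i0 A ∧ ¬ Sp (HT ht A, Dp z A) then LW Λ A else 0) ≤ q)
    (hth : ∀ x, Sp x → pl Λ ht z T x ≤ th) (j : ℕ) : ∀ (a : ℕ) (y : G),
    ∑' P, (if (att ht T i0 j P ∧ sm ht z T i0 Sp j P) ∧ HT ht P = a ∧ Dp z P = y
      then LW Λ P else 0) ≤ th * ∑ i ∈ Finset.range j, q ^ i := by
  induction j with
  | zero =>
    intro a y
    have : ∀ L : List B, (if (att ht T i0 0 L ∧ sm ht z T i0 Sp 0 L) ∧ HT ht L = a ∧ Dp z L = y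
        then LW Λ L else 0) = 0 := by
      intro L; rw [if_neg]; simp [sm]
    simp only [this, tsum_zero]
    exact zero_le
  | succ j ih =>
    intro a y
    refine (tsum_split_le _ (fun A R => ga ht T i0 A ∧ att ht T i0 j R ∧
      (Sp (HT ht A, Dp z A) ∨ (¬ Sp (HT ht A, Dp z A) ∧ sm ht z T i0 Sp j R))) ?_).trans ?_
    · intro L hL
      have hh : (att ht T i0 (j + 1) L ∧ sm ht z T i0 Sp (j + 1) L) ∧ HT ht L = a ∧ Dp z L = y := by
        by_contra h; exact hL (if_neg h)
      obtain ⟨A, R, e, hA, hR, hS⟩ := hh.1.2
      refine ⟨A, R, e, hA, hR, ?_⟩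
      by_cases hs : Sp (HT ht A, Dp z A)
      · exact Or.inl hs
      · exact Or.inr ⟨hs, hS.resolve_left hs⟩
    · calc _ ≤ ∑' A, ∑' R, ((if (att ht T i0 j R) ∧ (ga ht T i0 A ∧ Sp (HT ht A, Dp z A) ∧
              HT ht A = a - HT ht R ∧ Dp z A = y - Dp z R) then LW Λ A * LW Λ R else 0)
            + (if ga ht T i0 A ∧ ¬ Sp (HT ht A, Dp z A) then LW Λ A *
              (if (att ht T i0 j R ∧ sm ht z T i0 Sp j R) ∧ HT ht R = a - HT ht A ∧
                Dp z R = y - Dp z A then LW Λ R else 0) else 0)) := by
            refine ENNReal.tsum_le_tsum fun A => ENNReal.tsum_le_tsum fun R => ?_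
            by_cases c1 : ga ht T i0 A ∧ att ht T i0 j R ∧
              (Sp (HT ht A, Dp z A) ∨ (¬ Sp (HT ht A, Dp z A) ∧ sm ht z T i0 Sp j R))
            · rw [if_pos c1]
              by_cases c2 : (att ht T i0 (j + 1) (A ++ R) ∧ sm ht z T i0 Sp (j + 1) (A ++ R)) ∧
                HT ht (A ++ R) = a ∧ Dp z (A ++ R) = y
              · rw [if_pos c2, LW_append]
                obtain ⟨hA, hR, hS⟩ := c1
                obtain ⟨-, e1, e2⟩ := c2
                rw [HT_append] at e1
                rw [Dp_append] at e2
                have e3 : HT ht A = a - HT ht R := by omega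
                have e4 : HT ht R = a - HT ht A := by omega
                have e5 : Dp z A = y - Dp z R := by rw [← e2]; abel
                have e6 : Dp z R = y - Dp z A := by rw [← e2]; abel
                rcases hS with hS | ⟨hS, hS'⟩
                · rw [if_pos ⟨hR, hA, hS, e3, e5⟩]; exact le_self_add
                · rw [if_neg (fun h => hS h.2.2.1), zero_add, if_pos ⟨hA, hS⟩,
                    if_pos ⟨⟨hR, hS'⟩, e4, e6⟩]
              · rw [if_neg c2]; exact zero_le
            · rw [if_neg c1]; exact zero_le
        _ = (∑' A, ∑' R, (if (att ht T i0 j R) ∧ (ga ht T i0 A ∧ Sp (HT ht A, Dp z A) ∧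
              HT ht A = a - HT ht R ∧ Dp z A = y - Dp z R) then LW Λ A * LW Λ R else 0))
            + ∑' A, ∑' R, (if ga ht T i0 A ∧ ¬ Sp (HT ht A, Dp z A) then LW Λ A *
              (if (att ht T i0 j R ∧ sm ht z T i0 Sp j R) ∧ HT ht R = a - HT ht A ∧
                Dp z R = y - Dp z A then LW Λ R else 0) else 0) := by
            rw [← ENNReal.tsum_add]
            exact tsum_congr fun A => ENNReal.tsum_add
        _ ≤ th + q * (th * ∑ i ∈ Finset.range j, q ^ i) := by
            refine add_le_add ?_ ?_
            · rw [ENNReal.tsum_comm]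
              calc _ ≤ ∑' R, (if att ht T i0 j R then LW Λ R * th else 0) := by
                    refine ENNReal.tsum_le_tsum fun R => ?_
                    by_cases hR : att ht T i0 j R
                    · simp only [hR, true_and, if_true]
                      by_cases hS : Sp (a - HT ht R, y - Dp z R)
                      · calc _ ≤ ∑' A, LW Λ R * (if fp ht T A ∧ HT ht A = a - HT ht R ∧
                                Dp z A = y - Dp z R then LW Λ A else 0) := by
                              refine ENNReal.tsum_le_tsum fun A => ?_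
                              split_ifs with c1 c2
                              · rw [mul_comm]
                              · exact absurd ⟨c1.1.1, c1.2.2⟩ c2
                              · exact zero_le
                              · exact zero_le
                          _ = LW Λ R * pl Λ ht z T (a - HT ht R, y - Dp z R) := by
                              rw [ENNReal.tsum_mul_left]; rfl
                          _ ≤ _ := mul_le_mul_right (hth _ hS) _
                      · have : ∀ A : List B, (if ga ht T i0 A ∧ Sp (HT ht A, Dp z A) ∧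
                            HT ht A = a - HT ht R ∧ Dp z A = y - Dp z R
                            then LW Λ A * LW Λ R else 0) = 0 := by
                          intro A
                          rw [if_neg]
                          rintro ⟨-, h2, h3, h4⟩
                          rw [h3, h4] at h2
                          exact hS h2
                        simp only [this, tsum_zero]
                        exact zero_le
                    · simp [hR]
                _ = (∑' R, (if att ht T i0 j R then LW Λ R else 0)) * th := by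
                    rw [← ENNReal.tsum_mul_right]
                    refine tsum_congr fun R => ?_
                    split_ifs <;> simp
                _ ≤ 1 * th := mul_le_mul_left (att_mass Λ ht T i0 h1 hΛ j) _
                _ = _ := one_mul _
            · calc _ ≤ ∑' A, (if ga ht T i0 A ∧ ¬ Sp (HT ht A, Dp z A) then
                      LW Λ A * (th * ∑ i ∈ Finset.range j, q ^ i) else 0) := by
                    refine ENNReal.tsum_le_tsum fun A => ?_
                    by_cases hA : ga ht T i0 A ∧ ¬ Sp (HT ht A, Dp z A)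
                    · simp only [hA, if_true, not_false_eq_true, and_self]
                      rw [ENNReal.tsum_mul_left]
                      exact mul_le_mul_right (ih _ _) _
                    · simp [hA]
                _ = (∑' A, (if ga ht T i0 A ∧ ¬ Sp (HT ht A, Dp z A) then LW Λ A else 0)) *
                      (th * ∑ i ∈ Finset.range j, q ^ i) := by
                    rw [← ENNReal.tsum_mul_right]
                    refine tsum_congr fun A => ?_
                    split_ifs <;> simp
                _ ≤ _ := mul_le_mul_left hq _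
        _ = _ := by
            rw [Finset.sum_range_succ', mul_add, Finset.mul_sum, Finset.mul_sum, Finset.mul_sum]
            simp only [pow_succ, pow_zero, mul_one]
            rw [add_comm]
            congr 1
            refine Finset.sum_congr rfl fun i _ => ?_
            ring

end single

end Crest.Agent.R154.Asm458
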