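import Mathlib

/-! Row 154 (T0219, road 801), assembly: choice of the number of windows `K` and of the quantile `u`
(helper823).  `K u² ≤ ε` and `K (1 - u/2)^(K/q) ≤ ε`. -/

set_option autoImplicit false

namespace Crest.Agent.R154.KU823

open Filter Topology
open scoped ENNReal

lemma real_aux (q p : ℕ) (hq : 0 < q) (δ : ℝ) (hδ : 0 < δ) (K1 : ℕ) :
    ∃ N : ℕ, 1 ≤ N ∧ K1 ≤ N ∧ ∃ c : ℝ, 0 < c ∧ c ≤ 1 ∧
      (((N ^ 2 * q : ℕ) : ℝ) + p) * (c / N) ^ 2 ≤ δ ∧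
      (((N ^ 2 * q : ℕ) : ℝ) + p) * (1 - c / N / 2) ^ (N ^ 2) ≤ δ := by
  set c : ℝ := min 1 (δ / (q + p)) with hc
  have hqp : (0 : ℝ) < q + p := by
    have : (0 : ℝ) < q := by exact_mod_cast hq
    positivity
  have hc0 : 0 < c := lt_min one_pos (by positivity)
  have hc1 : c ≤ 1 := min_le_left _ _
  have hc2 : (q + p) * c ≤ δ := by
    have := min_le_right 1 (δ / (q + p))
    rw [← hc] at this
    calc (q + p : ℝ) * c ≤ (q + p) * (δ / (q + p)) := by gcongr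
      _ = δ := by field_simp
  have ht : Tendsto (fun x : ℝ => x ^ 2 * Real.exp (-(c / 2) * x)) atTop (𝓝 0) := by
    have := tendsto_rpow_mul_exp_neg_mul_atTop_nhds_zero 2 (c / 2) (by positivity)
    refine this.congr' ?_
    filter_upwards with x
    norm_num
  have ht2 : Tendsto (fun N : ℕ => ((q : ℝ) + p) * ((N : ℝ) ^ 2 * Real.exp (-(c / 2) * N)))
      atTop (𝓝 0) := by
    have := (ht.comp tendsto_natCast_atTop_atTop).const_mul ((q : ℝ) + p)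
    simpa using this
  obtain ⟨N, hN⟩ := ((ht2.eventually_le_const hδ).and
    (eventually_ge_atTop (max 1 K1))).exists
  have hN1 : 1 ≤ N := le_trans (le_max_left _ _) hN.2
  have hNr : (1 : ℝ) ≤ N := by exact_mod_cast hN1
  have hpN : (((N ^ 2 * q : ℕ) : ℝ) + p) ≤ (q + p) * (N : ℝ) ^ 2 := by
    push_cast
    have : (p : ℝ) ≤ p * (N : ℝ) ^ 2 := by
      have : (1 : ℝ) ≤ (N : ℝ) ^ 2 := one_le_pow₀ hNr
      have hp : (0 : ℝ) ≤ p := Nat.cast_nonneg _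
      nlinarith
    nlinarith
  refine ⟨N, hN1, le_trans (le_max_right _ _) hN.2, c, hc0, hc1, ?_, ?_⟩
  · calc (((N ^ 2 * q : ℕ) : ℝ) + p) * (c / N) ^ 2 ≤ ((q + p) * (N : ℝ) ^ 2) * (c / N) ^ 2 := by
          gcongr
      _ = (q + p) * c * c := by field_simp
      _ ≤ (q + p) * c * 1 := by gcongr
      _ ≤ δ := by rw [mul_one]; exact hc2
  · have hx0 : 0 ≤ 1 - c / N / 2 := by
      have : c / N ≤ 1 := by
        rw [div_le_one (by positivity)]; exact hc1.trans hNr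
      linarith
    have h1 : (1 - c / N / 2) ^ (N ^ 2) ≤ Real.exp (-(c / 2) * N) := by
      calc (1 - c / N / 2) ^ (N ^ 2) ≤ (Real.exp (-(c / N / 2))) ^ (N ^ 2) := by
            gcongr
            have := Real.add_one_le_exp (-(c / N / 2))
            linarith
        _ = Real.exp (-(c / 2) * N) := by
            rw [← Real.exp_nat_mul]
            congr 1
            push_cast
            field_simp
    calc (((N ^ 2 * q : ℕ) : ℝ) + p) * (1 - c / N / 2) ^ (N ^ 2)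
        ≤ ((q + p) * (N : ℝ) ^ 2) * Real.exp (-(c / 2) * N) := by gcongr
      _ = (q + p) * ((N : ℝ) ^ 2 * Real.exp (-(c / 2) * N)) := by ring
      _ ≤ δ := hN.1

/-- **Choice of `K`, `u`.**  (`K` is a multiple of `q`, as large as wanted.) -/
theorem exists_Ku (p q : ℕ) (hq : 0 < q) (ε : ℝ≥0∞) (hε : ε ≠ 0) (K1 : ℕ) :
    ∃ (K : ℕ) (u : ℝ≥0∞), K1 ≤ K ∧ 1 ≤ K ∧ q ∣ K ∧ u ≠ 0 ∧ u ≤ 1 ∧
      ((K : ℝ≥0∞) + p) * u ^ 2 ≤ ε ∧ ((K : ℝ≥0∞) + p) * (1 - u / 2) ^ (K / q) ≤ ε := by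
  obtain ⟨δ, hδ, hδε⟩ : ∃ δ : ℝ, 0 < δ ∧ ENNReal.ofReal δ ≤ ε := by
    rcases eq_or_ne ε ⊤ with h | h
    · exact ⟨1, one_pos, by simp [h]⟩
    · exact ⟨ε.toReal, ENNReal.toReal_pos hε h, by rw [ENNReal.ofReal_toReal h]⟩
  obtain ⟨N, hN1, hNK, c, hc0, hc1, h1, h2⟩ := real_aux q p hq δ hδ K1
  have hNr : (1 : ℝ) ≤ N := by exact_mod_cast hN1
  have hcN : c / N ≤ 1 := by rw [div_le_one (by positivity)]; exact hc1.trans hNr
  have hcN0 : 0 < c / N := by positivity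
  have hK : (((N ^ 2 * q : ℕ) : ℝ≥0∞) + p) = ENNReal.ofReal (((N ^ 2 * q : ℕ) : ℝ) + p) := by
    rw [ENNReal.ofReal_add (Nat.cast_nonneg _) (Nat.cast_nonneg _), ENNReal.ofReal_natCast,
      ENNReal.ofReal_natCast]
  refine ⟨N ^ 2 * q, ENNReal.ofReal (c / N), ?_, ?_, Dvd.intro_left _ rfl, ?_, ?_, ?_, ?_⟩
  · calc K1 ≤ N := hNK
      _ ≤ N ^ 2 * q := by nlinarith [Nat.pos_of_ne_zero (by omega : N ≠ 0)]
  · exact Nat.one_le_iff_ne_zero.2 (by positivity)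
  · simpa using hcN0
  · exact ENNReal.ofReal_le_one.2 hcN
  · rw [hK, ← ENNReal.ofReal_pow hcN0.le, ← ENNReal.ofReal_mul (by positivity)]
    exact (ENNReal.ofReal_le_ofReal h1).trans hδε
  · rw [Nat.mul_div_cancel _ hq, hK]
    have h3 : (1 : ℝ≥0∞) - ENNReal.ofReal (c / N) / 2 = ENNReal.ofReal (1 - c / N / 2) := by
      rw [ENNReal.ofReal_sub _ (by positivity), ENNReal.ofReal_one,
        ENNReal.ofReal_div_of_pos (by norm_num : (0 : ℝ) < 2)]
      norm_num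
    rw [h3, ← ENNReal.ofReal_pow (by linarith), ← ENNReal.ofReal_mul (by positivity)]
    exact (ENNReal.ofReal_le_ofReal h2).trans hδε

/-- a null sequence, a finite factor: the term is eventually small. -/
theorem exists_small (f : ℕ → ℝ≥0∞) (hf : Tendsto f atTop (𝓝 0)) (A : ℝ≥0∞) (hA : A ≠ ⊤)
    (ε : ℝ≥0∞) (hε : ε ≠ 0) (N1 : ℕ) : ∃ N, N1 ≤ N ∧ ∀ n, N ≤ n → A * f n ≤ ε := by
  have h : Tendsto (fun n => A * f n) atTop (𝓝 0) := by
    have := ENNReal.Tendsto.const_mul hf (Or.inr hA)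
    simpa using this
  have h2 := h.eventually_le_const (pos_iff_ne_zero.2 hε)
  obtain ⟨N, hN⟩ := eventually_atTop.1 h2
  exact ⟨max N N1, le_max_right _ _, fun n hn => hN n (le_trans (le_max_left _ _) hn)⟩

end Crest.Agent.R154.KU823
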