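import Crest.Agent.R154.FP_178
import Crest.Agent.R154.Dens_903
import Crest.Agent.R154.KU_823

/-! Row 154 (helper532), ROAD 801: abstract assembly, part 1: laws of (height, displacement) at a
first passage, density lemma for the first passage law. -/

set_option autoImplicit false

namespace Crest.Agent.R154.Asm532

open scoped ENNReal
open Crest.Agent.R154.B5A
open Crest.Agent.R154.FP178 (fp)
open Classical
open Finset (range)

lemma regroup {α β : Type*} (w : α → ℝ≥0∞) (κ : α → β) (φ : β → ℝ≥0∞) :
    ∑' a, w a * φ (κ a) = ∑' c, (∑' a, if κ a = c then w a else 0) * φ c := by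
  have h : ∀ c, (∑' a, if κ a = c then w a else 0) * φ c
      = ∑' a, (if κ a = c then w a * φ (κ a) else 0) := by
    intro c
    rw [← ENNReal.tsum_mul_right]
    refine tsum_congr fun a => ?_
    by_cases h : κ a = c
    · rw [if_pos h, if_pos h, h]
    · rw [if_neg h, if_neg h, zero_mul]
  rw [tsum_congr h, ENNReal.tsum_comm]
  refine tsum_congr fun a => ?_
  rw [tsum_eq_single (κ a)]
  · rw [if_pos rfl]
  · intro c hc; rw [if_neg (fun e => hc e.symm)]

variable {B G : Type*} [AddCommGroup G] (Λ : B → ℝ≥0∞) (ht : B → ℕ) (zz : B → G)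

/-- displacement of a list -/
def Dp (L : List B) : G := (L.map zz).sum

lemma Dp_append (L L' : List B) : Dp zz (L ++ L') = Dp zz L + Dp zz L' := by simp [Dp]

/-- height and displacement -/
def kp (L : List B) : ℕ × G := (HT ht L, Dp zz L)

/-- law of (height, displacement) at the first passage of `a` -/
noncomputable def FL (a : ℕ) (c : ℕ × G) : ℝ≥0∞ :=
  ∑' L : List B, if fp ht a L ∧ kp ht zz L = c then LW Λ L else 0

lemma FL_sum (a : ℕ) (φ : ℕ × G → ℝ≥0∞) :
    ∑' L : List B, (if fp ht a L then LW Λ L * φ (kp ht zz L) else 0)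
      = ∑' c, FL Λ ht zz a c * φ c := by
  have h := regroup (fun L : List B => if fp ht a L then LW Λ L else 0) (kp ht zz) φ
  have e1 : ∀ L : List B, (if fp ht a L then LW Λ L * φ (kp ht zz L) else 0)
      = (if fp ht a L then LW Λ L else 0) * φ (kp ht zz L) := by
    intro L; by_cases h : fp ht a L <;> simp [h]
  rw [tsum_congr e1, h]
  refine tsum_congr fun c => ?_
  congr 1
  refine tsum_congr fun L => ?_
  by_cases h1 : fp ht a L <;> by_cases h2 : kp ht zz L = c <;> simp [h1, h2]

lemma sum_FP_eq (h1 : ∀ b, 1 ≤ ht b) (hΛ : ∑' b, Λ b = 1) (a : ℕ) :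
    ∑' L, (if fp ht a L then LW Λ L else 0) = 1 := by
  induction a using Nat.strong_induction_on with
  | _ a ih =>
    rcases Nat.eq_zero_or_pos a with rfl | ha
    · have := FP178.sum_fp_zero Λ ht (fun _ => 1)
      simpa only [mul_one] using this
    · have := FP178.sum_fp_step Λ ht a ha (fun _ => 1)
      simp only [mul_one] at this
      rw [this]
      have e : ∀ b, Λ b * ∑' L, (if fp ht (a - ht b) L then LW Λ L else 0) = Λ b := by
        intro b
        rw [ih (a - ht b) (by have := h1 b; omega), mul_one]
      rw [tsum_congr e, hΛ]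

lemma FL_mass (h1 : ∀ b, 1 ≤ ht b) (hΛ : ∑' b, Λ b = 1) (a : ℕ) :
    ∑' c, FL Λ ht zz a c = 1 := by
  have h := FL_sum Λ ht zz a (fun _ => 1)
  simp only [mul_one] at h
  rw [← h, sum_FP_eq Λ ht h1 hΛ]

lemma FL_lt (a : ℕ) (c : ℕ × G) (hc : c.1 < a) : FL Λ ht zz a c = 0 := by
  rw [FL, ENNReal.tsum_eq_zero]
  intro L
  rw [if_neg]
  rintro ⟨h, h'⟩
  have := FP178.le_HT_of_fp ht h
  rw [← h'] at hc
  simp only [kp] at hc
  omega

/-- shift of a function on `ℕ × G` -/
noncomputable def sh (k : ℕ) (v : G) (f : ℕ × G → ℝ≥0∞) (c : ℕ × G) : ℝ≥0∞ :=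
  if k ≤ c.1 then f (c.1 - k, c.2 - v) else 0

lemma sh_sum (k : ℕ) (v : G) (f : ℕ × G → ℝ≥0∞) : ∑' c, sh k v f c = ∑' c, f c := by
  have hinj : Function.Injective (fun c : ℕ × G => (c.1 + k, c.2 + v)) := by
    rintro ⟨a, x⟩ ⟨b, y⟩ h
    simp only [Prod.mk.injEq, add_left_inj] at h
    exact Prod.ext h.1 h.2
  have hs : Function.support (sh k v f) ⊆ Set.range (fun c : ℕ × G => (c.1 + k, c.2 + v)) := by
    rintro ⟨a, x⟩ h
    have hk : k ≤ a := by
      by_contra hc
      apply h
      simp only [sh, if_neg hc]
    exact ⟨(a - k, x - v), by simp only [Prod.mk.injEq]; exact ⟨by omega, by abel⟩⟩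
  rw [← hinj.tsum_eq hs]
  refine tsum_congr fun c => ?_
  simp [sh]

lemma FL_rec (h1 : ∀ b, 1 ≤ ht b) (τ a : ℕ) (hτ : τ ≤ a) (c : ℕ × G) :
    FL Λ ht zz a c = ∑' c', FL Λ ht zz τ c' * sh c'.1 c'.2 (FL Λ ht zz (a - c'.1)) c := by
  have h := FP178.fp_split Λ ht h1 τ a hτ (fun L => if kp ht zz L = c then 1 else 0)
  have e0 : FL Λ ht zz a c
      = ∑' L, (if fp ht a L then LW Λ L * (if kp ht zz L = c then 1 else 0) else 0) := by
    rw [FL]
    refine tsum_congr fun L => ?_
    by_cases h1 : fp ht a L <;> by_cases h2 : kp ht zz L = c <;> simp [h1, h2]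
  rw [e0, h, ← FL_sum Λ ht zz τ (fun c' => sh c'.1 c'.2 (FL Λ ht zz (a - c'.1)) c)]
  refine tsum_congr fun A => ?_
  have hsh : sh (kp ht zz A).1 (kp ht zz A).2 (FL Λ ht zz (a - (kp ht zz A).1)) c
      = if HT ht A ≤ c.1 then FL Λ ht zz (a - HT ht A) (c.1 - HT ht A, c.2 - Dp zz A) else 0 := rfl
  by_cases hA : fp ht τ A
  · rw [if_pos hA, if_pos hA, hsh]
    congr 1
    by_cases hk : HT ht A ≤ c.1
    · rw [if_pos hk, FL]
      refine tsum_congr fun L => ?_
      by_cases hL : fp ht (a - HT ht A) L
      · rw [if_pos hL]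
        by_cases h2 : kp ht zz L = (c.1 - HT ht A, c.2 - Dp zz A)
        · have h3 : kp ht zz (A ++ L) = c := by
            unfold kp at h2 ⊢
            rw [Prod.mk.injEq] at h2
            rw [HT_append, Dp_append, h2.1, h2.2]
            exact Prod.ext (by simp only; omega) (by simp)
          rw [if_pos h3, if_pos ⟨hL, h2⟩, mul_one]
        · have h3 : ¬ kp ht zz (A ++ L) = c := by
            intro h3
            apply h2
            rw [← h3]
            unfold kp
            rw [HT_append, Dp_append, Prod.mk.injEq]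
            exact ⟨by omega, (add_sub_cancel_left _ _).symm⟩
          rw [if_neg h3, if_neg (fun hh => h2 hh.2), mul_zero]
      · rw [if_neg hL, if_neg (fun hh => hL hh.1)]
    · rw [if_neg hk, ENNReal.tsum_eq_zero]
      intro L
      by_cases hL : fp ht (a - HT ht A) L
      · have h3 : ¬ kp ht zz (A ++ L) = c := by
          intro h3
          apply hk
          rw [← h3]
          unfold kp
          rw [HT_append]
          simp only
          omega
        rw [if_pos hL, if_neg h3, mul_zero]
      · rw [if_neg hL]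
  · rw [if_neg hA, if_neg hA]

/-- **density lemma for the first passage law** -/
theorem dens (h1 : ∀ b, 1 ≤ ht b) (hΛ : ∑' b, Λ b = 1) (T i0 : ℕ) (th q ov : ℝ≥0∞)
    (hNG : ∑' c, (if th < FL Λ ht zz T c then FL Λ ht zz T c else 0) ≤ q)
    (hFar : ∑' c, (if T + i0 < c.1 then FL Λ ht zz T c else 0) ≤ ov) (J : ℕ) :
    ∀ a, J * (T + i0) ≤ a → ∃ Ag Bb : ℕ × G → ℝ≥0∞, (∀ c, FL Λ ht zz a c ≤ Ag c + Bb c) ∧
      (∀ c, Ag c ≤ (i0 + 1) * th * ∑ j ∈ range J, q ^ j) ∧
      ∑' c, Bb c ≤ q ^ J + ov * ∑ j ∈ range J, q ^ j := by
  induction J with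
  | zero =>
    intro a _
    refine ⟨fun _ => 0, FL Λ ht zz a, fun z => by simp, fun z => by simp, ?_⟩
    simpa using (FL_mass Λ ht zz h1 hΛ a).le
  | succ J ih =>
    intro a ha
    have hT : T ≤ a := by
      have : T ≤ (J + 1) * (T + i0) := by nlinarith [Nat.zero_le (J * (T + i0))]
      omega
    have hrest : ∀ k, k ≤ T + i0 → J * (T + i0) ≤ a - k := by
      intro k hk
      have : (J + 1) * (T + i0) = J * (T + i0) + (T + i0) := by ring
      omega
    have hch : ∀ k, ∃ Ag Bb : ℕ × G → ℝ≥0∞, k ≤ T + i0 →
        (∀ c, FL Λ ht zz (a - k) c ≤ Ag c + Bb c) ∧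
        (∀ c, Ag c ≤ (i0 + 1) * th * ∑ j ∈ range J, q ^ j) ∧
        ∑' c, Bb c ≤ q ^ J + ov * ∑ j ∈ range J, q ^ j := by
      intro k
      by_cases hk : k ≤ T + i0
      · obtain ⟨A, B, h⟩ := ih _ (hrest k hk)
        exact ⟨A, B, fun _ => h⟩
      · exact ⟨0, 0, fun h => absurd h hk⟩
    choose A Bd hAB using hch
    set p := FL Λ ht zz T with hp
    refine ⟨fun c => ∑' c', ((if c'.1 ≤ T + i0 ∧ ¬ th < p c' then
          p c' * sh c'.1 c'.2 (FL Λ ht zz (a - c'.1)) c else 0)
        + (if c'.1 ≤ T + i0 ∧ th < p c' then p c' * sh c'.1 c'.2 (A c'.1) c else 0)),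
      fun c => ∑' c', ((if T + i0 < c'.1 then
          p c' * sh c'.1 c'.2 (FL Λ ht zz (a - c'.1)) c else 0)
        + (if c'.1 ≤ T + i0 ∧ th < p c' then p c' * sh c'.1 c'.2 (Bd c'.1) c else 0)), ?_, ?_, ?_⟩
    · intro c
      rw [FL_rec Λ ht zz h1 T a hT c, ← ENNReal.tsum_add, ← hp]
      refine ENNReal.tsum_le_tsum fun c' => ?_
      by_cases hi : c'.1 ≤ T + i0
      · by_cases hth : th < p c'
        · simp only [hi, hth, not_true, and_false, and_self, if_true, if_false, zero_add,
            not_lt.2 hi]
          rw [← mul_add]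
          gcongr
          simp only [sh]
          split_ifs with hk
          · exact (hAB _ hi).1 _
          · exact zero_le
        · simp [hi, hth, not_lt.2 hi]
      · have hi' : T + i0 < c'.1 := not_le.1 hi
        simp [hi, hi']
    · intro c
      have hq : ∑ j ∈ range (J + 1), q ^ j = 1 + q * ∑ j ∈ range J, q ^ j := by
        rw [Finset.sum_range_succ', Finset.mul_sum, add_comm]
        simp [pow_succ, mul_comm]
      rw [hq, mul_add, mul_one]
      beta_reduce
      rw [ENNReal.tsum_add]
      refine add_le_add ?_ ?_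
      · rw [ENNReal.tsum_prod']
        calc _ ≤ ∑' H, (if H ∈ Finset.Icc T (T + i0) then th else 0) := by
              refine ENNReal.tsum_le_tsum fun H => ?_
              by_cases hH : H ∈ Finset.Icc T (T + i0)
              · rw [if_pos hH]
                calc _ ≤ ∑' z', th * sh H z' (FL Λ ht zz (a - H)) c := by
                      refine ENNReal.tsum_le_tsum fun z' => ?_
                      by_cases hth : th < p (H, z')
                      · simp [hth]
                      · simp only [(Finset.mem_Icc.1 hH).2, hth, not_false_eq_true, and_self,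
                          if_true]
                        gcongr
                        exact not_lt.1 hth
                  _ = th * ∑' z', sh H z' (FL Λ ht zz (a - H)) c := ENNReal.tsum_mul_left
                  _ ≤ th * 1 := by
                      gcongr
                      simp only [sh]
                      by_cases hk : H ≤ c.1
                      · simp only [hk, if_true]
                        rw [Dens903.tsum_sub (fun z => FL Λ ht zz (a - H) (c.1 - H, z)) c.2]
                        refine le_trans ?_ (FL_mass Λ ht zz h1 hΛ (a - H)).le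
                        refine ENNReal.tsum_comp_le_tsum_of_injective (f := fun z : G =>
                          (c.1 - H, z)) ?_ _
                        intro x y hxy
                        exact (Prod.mk.inj hxy).2
                      · simp [hk]
                  _ = th := mul_one _
              · rw [if_neg hH]
                refine le_of_eq (ENNReal.tsum_eq_zero.2 fun z' => ?_)
                by_cases hi : H ≤ T + i0
                · have hlt : H < T := by
                    rw [Finset.mem_Icc] at hH; omega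
                  have h0 : p (H, z') = 0 := FL_lt Λ ht zz T (H, z') hlt
                  simp [h0]
                · simp [hi]
          _ = ∑ H ∈ Finset.Icc T (T + i0), th := by
              rw [tsum_eq_sum (s := Finset.Icc T (T + i0)) (fun H hH => if_neg hH)]
              exact Finset.sum_congr rfl fun H hH => if_pos hH
          _ = (i0 + 1) * th := by
              rw [Finset.sum_const, Nat.card_Icc, nsmul_eq_mul]
              congr 1
              have : T + i0 + 1 - T = i0 + 1 := by omega
              rw [this]; push_cast; ring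
      · calc _ ≤ ∑' c', (if th < p c' then p c' else 0)
                * ((i0 + 1) * th * ∑ j ∈ range J, q ^ j) := by
              refine ENNReal.tsum_le_tsum fun c' => ?_
              by_cases hi : c'.1 ≤ T + i0 ∧ th < p c'
              · rw [if_pos hi, if_pos hi.2]
                gcongr
                simp only [sh]
                split_ifs
                · exact (hAB _ hi.1).2.1 _
                · exact zero_le
              · rw [if_neg hi]; exact zero_le
          _ = (∑' c', (if th < p c' then p c' else 0))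
                * ((i0 + 1) * th * ∑ j ∈ range J, q ^ j) := ENNReal.tsum_mul_right
          _ ≤ q * ((i0 + 1) * th * ∑ j ∈ range J, q ^ j) := by gcongr
          _ = _ := by ring
    · have hq : q ^ (J + 1) + ov * ∑ j ∈ range (J + 1), q ^ j
          = ov + q * (q ^ J + ov * ∑ j ∈ range J, q ^ j) := by
        have hq' : ∑ j ∈ range (J + 1), q ^ j = 1 + q * ∑ j ∈ range J, q ^ j := by
          rw [Finset.sum_range_succ', Finset.mul_sum, add_comm]
          simp [pow_succ, mul_comm]
        rw [hq']
        ring
      rw [hq, ENNReal.tsum_comm]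
      have e : ∀ c' : ℕ × G, ∑' c, ((if T + i0 < c'.1 then
          p c' * sh c'.1 c'.2 (FL Λ ht zz (a - c'.1)) c else 0)
          + (if c'.1 ≤ T + i0 ∧ th < p c' then p c' * sh c'.1 c'.2 (Bd c'.1) c else 0))
          ≤ (if T + i0 < c'.1 then p c' else 0)
          + (if th < p c' then p c' else 0) * (q ^ J + ov * ∑ j ∈ range J, q ^ j) := by
        intro c'
        rw [ENNReal.tsum_add]
        refine add_le_add ?_ ?_
        · by_cases hi : T + i0 < c'.1
          · simp only [hi, if_true]
            rw [ENNReal.tsum_mul_left, sh_sum, FL_mass Λ ht zz h1 hΛ, mul_one]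
          · simp [hi]
        · by_cases hi : c'.1 ≤ T + i0 ∧ th < p c'
          · simp only [hi, and_self, if_true]
            rw [ENNReal.tsum_mul_left, sh_sum]
            gcongr
            exact (hAB _ hi.1).2.2
          · simp [hi]
      refine (ENNReal.tsum_le_tsum e).trans ?_
      rw [ENNReal.tsum_add, ENNReal.tsum_mul_right]
      gcongr

end Crest.Agent.R154.Asm532
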