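import Crest.Agent.R154.B5Rec_566

/-! Row 154, ROAD 801 (helper564): the abstract assembly (lists of single-walker blocks read from the
tie down): first passage pieces, overshoot, smooth density, one window, sum over windows. -/

set_option autoImplicit false
set_option linter.unusedSectionVars false

namespace Crest.Agent.R154.Asm564

open scoped ENNReal
open Crest.Agent.R154.B5A (LW HT U tail LW_nil LW_cons LW_append HT_nil HT_cons HT_append tsum_list)

open Classical

/-! ### one walker -/

section one

variable {B G : Type*} [AddCommGroup G]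

/-- displacement -/
def Dp (z : B → G) (L : List B) : G := (L.map z).sum

lemma Dp_nil (z : B → G) : Dp z [] = 0 := rfl

lemma Dp_append (z : B → G) (L L' : List B) : Dp z (L ++ L') = Dp z L + Dp z L' := by
  simp [Dp]

/-- used (position, depth) -/
def TS (s : B → Set (G × ℕ)) (z : B → G) (h : B → ℕ) : List B → G → ℕ → Set (G × ℕ)
  | [], _, _ => ∅
  | b :: L, x, a => {q | ∃ p ∈ s b, q = (x + p.1, a + p.2)} ∪ TS s z h L (x + z b) (a + h b)

/-- minimal list of height at least `T` -/
def SP (h : B → ℕ) : ℕ → List B → Prop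
  | T, [] => T = 0
  | T, b :: L => 0 < T ∧ SP h (T - h b) L

variable (Λ : B → ℝ≥0∞) (h : B → ℕ) (z : B → G) (s : B → Set (G × ℕ))

lemma TS_append (L L' : List B) (x : G) (a : ℕ) :
    TS s z h (L ++ L') x a = TS s z h L x a ∪ TS s z h L' (x + Dp z L) (a + HT h L) := by
  induction L generalizing x a with
  | nil => simp [TS, Dp, HT]
  | cons b L ih =>
    simp only [List.cons_append, TS, ih, Set.union_assoc]
    congr 3
    · simp [Dp, add_assoc]
    · rw [HT_cons]; omega

lemma TS_depth (hs : ∀ b p, p ∈ s b → 1 ≤ p.2 ∧ p.2 ≤ h b) (L : List B) (x : G) (a : ℕ)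
    (q : G × ℕ) (hq : q ∈ TS s z h L x a) : a < q.2 ∧ q.2 ≤ a + HT h L := by
  induction L generalizing x a with
  | nil => simp [TS] at hq
  | cons b L ih =>
    rw [HT_cons]
    rcases hq with ⟨p, hp, rfl⟩ | hq
    · have := hs b p hp
      simp only
      omega
    · have := ih _ _ hq
      omega

lemma TS_shift (L : List B) (x y v : G) (a k : ℕ) :
    (v + y, k) ∈ TS s z h L (x + y) a ↔ (v, k) ∈ TS s z h L x a := by
  induction L generalizing x a with
  | nil => simp [TS]
  | cons b L ih =>
    simp only [TS, Set.mem_union, Set.mem_setOf_eq, Prod.mk.injEq]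
    rw [show x + y + z b = x + z b + y by abel, ih]
    refine or_congr ⟨?_, ?_⟩ Iff.rfl
    · rintro ⟨p, hp, h1, h2⟩
      refine ⟨p, hp, ?_, h2⟩
      have : v + y = x + p.1 + y := by rw [h1]; abel
      exact add_right_cancel this
    · rintro ⟨p, hp, h1, h2⟩
      exact ⟨p, hp, by rw [h1]; abel, h2⟩

lemma SP_le (L : List B) (T : ℕ) (hL : SP h T L) : T ≤ HT h L := by
  induction L generalizing T with
  | nil => simp only [SP] at hL; omega
  | cons b L ih =>
    have := ih _ hL.2
    rw [HT_cons]; omega

lemma tsum_split (h1 : ∀ b, 1 ≤ h b) : ∀ (T : ℕ) (F : List B → ℝ≥0∞),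
    (∀ L, HT h L < T → F L = 0) →
      ∑' L, F L = ∑' A, ∑' R, (if SP h T A then F (A ++ R) else 0) := by
  intro T
  induction T using Nat.strong_induction_on with
  | _ T ih =>
    intro F hF
    rcases Nat.eq_zero_or_pos T with rfl | hT
    · rw [tsum_list (F := fun A => ∑' R, (if SP h 0 A then F (A ++ R) else 0))]
      simp [SP]
    · rw [tsum_list F, tsum_list (F := fun A => ∑' R, (if SP h T A then F (A ++ R) else 0)),
        hF [] (by rw [HT_nil]; exact hT)]
      have e0 : ∑' R, (if SP h T ([] : List B) then F ([] ++ R) else 0) = 0 := by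
        have : ¬ SP h T ([] : List B) := by simp only [SP]; omega
        simp [this]
      rw [e0]
      congr 1
      refine tsum_congr fun b => ?_
      have hb := h1 b
      rw [ih (T - h b) (by omega) (fun L => F (b :: L)) (fun L hL => hF _ (by
        rw [HT_cons]; omega))]
      refine tsum_congr fun A => tsum_congr fun R => ?_
      simp only [SP, hT, true_and, List.cons_append]

lemma tsum_SP (h1 : ∀ b, 1 ≤ h b) (hΛ : ∑' b, Λ b = 1) : ∀ T : ℕ,
    ∑' A, (if SP h T A then LW Λ A else 0) = 1 := by
  intro T
  induction T using Nat.strong_induction_on with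
  | _ T ih =>
    rw [tsum_list]
    rcases Nat.eq_zero_or_pos T with rfl | hT
    · simp [SP, LW_nil]
    · have : ¬ SP h T ([] : List B) := by simp only [SP]; omega
      rw [if_neg this, zero_add, ← hΛ]
      refine tsum_congr fun b => ?_
      have hb := h1 b
      have := ih (T - h b) (by omega)
      simp only [SP, hT, true_and, LW_cons]
      calc ∑' A, (if SP h (T - h b) A then Λ b * LW Λ A else 0)
          = Λ b * ∑' A, (if SP h (T - h b) A then LW Λ A else 0) := by
            rw [← ENNReal.tsum_mul_left]
            exact tsum_congr fun A => by split_ifs <;> simp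
        _ = Λ b := by rw [this, mul_one]

lemma tsum_markov (h1 : ∀ b, 1 ≤ h b) : ∀ (S T : ℕ) (F : List B → ℝ≥0∞), S ≤ T →
    ∑' A, (if SP h T A then F A else 0)
      = ∑' P, ∑' A, (if SP h S P ∧ SP h (T - HT h P) A then F (P ++ A) else 0) := by
  intro S
  induction S using Nat.strong_induction_on with
  | _ S ih =>
    intro T F hST
    rcases Nat.eq_zero_or_pos S with rfl | hS
    · rw [tsum_list (F := fun P => ∑' A, (if SP h 0 P ∧ SP h (T - HT h P) A then F (P ++ A) else 0))]
      simp [SP, HT_nil]
    · rw [tsum_list (F := fun A => if SP h T A then F A else 0),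
        tsum_list (F := fun P => ∑' A, (if SP h S P ∧ SP h (T - HT h P) A then F (P ++ A) else 0))]
      have e0 : ¬ SP h T ([] : List B) := by simp only [SP]; omega
      have e1 : ¬ SP h S ([] : List B) := by simp only [SP]; omega
      rw [if_neg e0]
      simp only [e1, false_and, if_false, tsum_zero, zero_add]
      refine tsum_congr fun b => ?_
      have hb := h1 b
      have := ih (S - h b) (by omega) (T - h b) (fun L => F (b :: L)) (by omega)
      have hT : 0 < T := by omega
      simp only [SP, hT, hS, true_and, List.cons_append, HT_cons]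
      rw [this]
      refine tsum_congr fun P => tsum_congr fun A => ?_
      rw [Nat.sub_sub]

lemma tsum_snoc (F : List B → ℝ≥0∞) : ∑' L, F L = F [] + ∑' L, ∑' b, F (L ++ [b]) := by
  have e : ∑' L, F L = ∑' L : List B, F L.reverse :=
    (Equiv.tsum_eq (⟨List.reverse, List.reverse, List.reverse_reverse, List.reverse_reverse⟩ :
      List B ≃ List B) F).symm
  rw [e, tsum_list (F := fun L : List B => F L.reverse)]
  simp only [List.reverse_nil, List.reverse_cons]
  rw [ENNReal.tsum_comm]
  congr 1
  exact Equiv.tsum_eq (⟨List.reverse, List.reverse, List.reverse_reverse, List.reverse_reverse⟩ :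
      List B ≃ List B) (fun L => ∑' b, F (L ++ [b]))

lemma SP_snoc (h1 : ∀ b, 1 ≤ h b) (P : List B) (b : B) (T : ℕ) :
    SP h T (P ++ [b]) ↔ HT h P < T ∧ T ≤ HT h P + h b := by
  induction P generalizing T with
  | nil => simp only [List.nil_append, SP, HT_nil]; omega
  | cons c P ih =>
    simp only [List.cons_append, SP, ih, HT_cons]
    omega

/-- overshoot mass -/
noncomputable def ov (r : ℕ) : ℝ≥0∞ := ∑' k, tail Λ h (k + r)

lemma tsum_over (h1 : ∀ b, 1 ≤ h b) (hU : ∀ n, U Λ h n ≤ 1) (T r : ℕ) :
    ∑' A, (if SP h T A ∧ T + r < HT h A then LW Λ A else 0) ≤ ov Λ h r := by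
  rw [tsum_snoc]
  have e0 : ¬ (SP h T ([] : List B) ∧ T + r < HT h ([] : List B)) := by
    rw [HT_nil]; omega
  rw [if_neg e0, zero_add]
  calc ∑' P, ∑' b, (if SP h T (P ++ [b]) ∧ T + r < HT h (P ++ [b]) then LW Λ (P ++ [b]) else 0)
      ≤ ∑' P, ∑ k ∈ Finset.range T, (if HT h P = k then LW Λ P else 0) * tail Λ h (T + r - k) := by
        refine ENNReal.tsum_le_tsum fun P => ?_
        by_cases hP : HT h P < T
        · rw [Finset.sum_eq_single (HT h P)]
          · rw [if_pos rfl, tail, ← ENNReal.tsum_mul_left]
            refine ENNReal.tsum_le_tsum fun b => ?_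
            by_cases hb : T + r - HT h P < h b
            · rw [if_pos hb]
              split_ifs
              · rw [LW_append, LW_cons, LW_nil, mul_one]
              · exact zero_le
            · rw [if_neg, if_neg hb, mul_zero]
              rintro ⟨-, hc⟩
              rw [HT_append, HT_cons, HT_nil] at hc
              omega
          · intro k _ hk
            rw [if_neg (Ne.symm hk), zero_mul]
          · intro hk
            exact absurd (Finset.mem_range.2 hP) hk
        · have : ∀ b, ¬ (SP h T (P ++ [b]) ∧ T + r < HT h (P ++ [b])) := by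
            rintro b ⟨hc, -⟩
            rw [SP_snoc h h1] at hc
            omega
          simp [this]
    _ = ∑ k ∈ Finset.range T, U Λ h k * tail Λ h (T + r - k) := by
        rw [Summable.tsum_finsetSum (fun _ _ => ENNReal.summable)]
        refine Finset.sum_congr rfl fun k _ => ?_
        rw [ENNReal.tsum_mul_right, U]
    _ ≤ ∑ k ∈ Finset.range T, tail Λ h (T + r - k) :=
        Finset.sum_le_sum fun k _ => by
          calc U Λ h k * tail Λ h (T + r - k) ≤ 1 * tail Λ h (T + r - k) :=
                mul_le_mul_left (hU k) _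
            _ = _ := one_mul _
    _ ≤ ∑ k ∈ Finset.range T, tail Λ h (k + r) := by
        rw [← Finset.sum_range_reflect]
        refine Finset.sum_le_sum fun k hk => ?_
        have hk := Finset.mem_range.1 hk
        refine ENNReal.tsum_le_tsum fun b => ?_
        by_cases hb : T + r - (T - 1 - k) < h b
        · rw [if_pos hb, if_pos (by omega)]
        · rw [if_neg hb]; exact zero_le
    _ ≤ ov Λ h r := ENNReal.sum_le_tsum _

lemma ov_tendsto (hΛ : ∑' b, Λ b = 1) (hm : ∑' b, Λ b * (h b : ℝ≥0∞) ≠ ⊤) :
    Filter.Tendsto (ov Λ h) Filter.atTop (nhds 0) := by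
  rw [B5A.sum_tail Λ h hΛ] at hm
  exact ENNReal.tendsto_sum_nat_add _ hm

end one

end Crest.Agent.R154.Asm564
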