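import Crest.Agent.R154.FP_178
import Crest.Agent.R154.Dens_903

/-! Row 154, ROAD 801 (helper566): assembly, part 1 (letters, density in list form, one half of the window). -/

set_option autoImplicit false

namespace Crest.Agent.R154.Asm566

open scoped ENNReal Classical
open Finset
open Crest.Agent.R154.B5A
open Crest.Agent.R154.FP178

section letters

variable {B G : Type*} [AddCommGroup G]

/-- displacement of a list -/
def Dp (z : B → G) (L : List B) : G := (L.map z).sum

/-- sites (position, depth) of a list whose top is at position `x`, depth `a` -/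
def TX (h : B → ℕ) (z : B → G) (s : B → Set (G × ℕ)) : List B → G → ℕ → Set (G × ℕ)
  | [], _, _ => ∅
  | b :: L, x, a => {q | ∃ r ∈ s b, q = (x + r.1, a + r.2)} ∪ TX h z s L (x + z b) (a + h b)

lemma Dp_nil (z : B → G) : Dp z [] = 0 := by simp [Dp]

lemma Dp_cons (z : B → G) (b : B) (L : List B) : Dp z (b :: L) = z b + Dp z L := by simp [Dp]

lemma Dp_append (z : B → G) (L L' : List B) : Dp z (L ++ L') = Dp z L + Dp z L' := by simp [Dp]

lemma TX_append (h : B → ℕ) (z : B → G) (s : B → Set (G × ℕ)) (L L' : List B) (x : G) (a : ℕ) :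
    TX h z s (L ++ L') x a = TX h z s L x a ∪ TX h z s L' (x + Dp z L) (a + HT h L) := by
  induction L generalizing x a with
  | nil => simp [TX, Dp_nil, HT_nil]
  | cons b L ih =>
    simp only [List.cons_append, TX, Dp_cons, HT_cons]
    rw [ih, Set.union_assoc, add_assoc, add_assoc]

lemma TX_depth (h : B → ℕ) (z : B → G) (s : B → Set (G × ℕ))
    (hs : ∀ b, ∀ r ∈ s b, 1 ≤ r.2 ∧ r.2 ≤ h b) (L : List B) (x : G) (a : ℕ) (q : G × ℕ)
    (hq : q ∈ TX h z s L x a) : a + 1 ≤ q.2 ∧ q.2 ≤ a + HT h L := by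
  induction L generalizing x a with
  | nil => simp [TX] at hq
  | cons b L ih =>
    rw [HT_cons]
    rcases hq with ⟨r, hr, rfl⟩ | hq
    · have := hs b r hr
      simp only
      omega
    · have := ih _ _ hq
      omega

lemma TX_shift (h : B → ℕ) (z : B → G) (s : B → Set (G × ℕ)) (L : List B) (x y : G) (a : ℕ)
    (q : G × ℕ) : q ∈ TX h z s L (x + y) a ↔ (q.1 - y, q.2) ∈ TX h z s L x a := by
  induction L generalizing x a with
  | nil => simp [TX]
  | cons b L ih =>
    simp only [TX, Set.mem_union]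
    rw [show x + y + z b = (x + z b) + y by abel, ih]
    refine or_congr ?_ Iff.rfl
    constructor
    · rintro ⟨r, hr, rfl⟩
      exact ⟨r, hr, by simp only [Prod.mk.injEq, and_true]; abel⟩
    · rintro ⟨r, hr, he⟩
      refine ⟨r, hr, ?_⟩
      simp only [Prod.mk.injEq] at he
      obtain ⟨he1, he2⟩ := he
      refine Prod.ext ?_ he2
      simp only
      rw [sub_eq_iff_eq_add] at he1
      rw [he1]; abel

end letters

/-! ### density -/

section dens
variable {V : Type*} [AddCommGroup V]

lemma conv2 (g : ℕ → V → ℝ≥0∞) (F : ℕ → ℕ → V → ℝ≥0∞) (c : ℝ≥0∞)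
    (hc : ∀ i', (∑' z', g i' z') * (∑' i, ∑' z, F i' i z) ≤ (∑' z', g i' z') * c) :
    ∑' i, ∑' z, ∑' i', ∑' z', g i' z' * F i' i (z - z') ≤ (∑' i', ∑' z', g i' z') * c := by
  have e1 : ∀ i, ∑' z, ∑' i', ∑' z', g i' z' * F i' i (z - z')
      = ∑' i', (∑' z', g i' z') * ∑' z, F i' i z := by
    intro i
    rw [ENNReal.tsum_comm]
    refine tsum_congr fun i' => ?_
    exact Dens903.tsum_conv (g i') (F i' i)
  rw [tsum_congr e1, ENNReal.tsum_comm, ← ENNReal.tsum_mul_right]
  refine ENNReal.tsum_le_tsum fun i' => ?_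
  rw [ENNReal.tsum_mul_left]
  exact hc i'

theorem dens (W : ℕ → ℕ → V → ℝ≥0∞) (p : ℕ → V → ℝ≥0∞) (s i0 : ℕ) (th q ε : ℝ≥0∞)
    (hW : ∀ h, s + i0 ≤ h → ∃ Q : ℕ → ℕ → V → ℝ≥0∞,
      (∀ i z, W h i z ≤ ∑' i', ∑' z', p i' z' * Q i' i (z - z')) ∧
      (∀ i', ∑' i, ∑' z, Q i' i z ≤ 1) ∧ (∀ i', i' ≤ i0 → Q i' = W (h - s - i')))
    (hW1 : ∀ h, ∑' i, ∑' z, W h i z ≤ 1)
    (hNG : ∑' i, ∑' z, (if i ≤ i0 ∧ th < p i z then p i z else 0) ≤ q)
    (hFar : ∑' i, ∑' z, (if i0 < i then p i z else 0) ≤ ε) (J : ℕ) :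
    ∀ h, J * (s + i0) ≤ h → ∃ Ag Bb : ℕ → V → ℝ≥0∞, (∀ i z, W h i z ≤ Ag i z + Bb i z) ∧
      (∀ i z, Ag i z ≤ (i0 + 1) * th * ∑ j ∈ range J, q ^ j) ∧
      ∑' i, ∑' z, Bb i z ≤ q ^ J + ε * ∑ j ∈ range J, q ^ j := by
  induction J with
  | zero =>
    intro h _
    refine ⟨fun _ _ => 0, W h, fun i z => by simp, fun i z => by simp, ?_⟩
    simpa using hW1 h
  | succ J ih =>
    intro h hh
    have hexp : (J + 1) * (s + i0) = J * (s + i0) + (s + i0) := by ring
    have hs : s + i0 ≤ h := by rw [hexp] at hh; omega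
    have hrest : ∀ i, i ≤ i0 → J * (s + i0) ≤ h - s - i := by
      intro i hi; rw [hexp] at hh; omega
    obtain ⟨Q, hQ1, hQ2, hQ3⟩ := hW h hs
    have hch : ∀ i, ∃ Ag Bb : ℕ → V → ℝ≥0∞, i ≤ i0 →
        (∀ k z, W (h - s - i) k z ≤ Ag k z + Bb k z) ∧
        (∀ k z, Ag k z ≤ (i0 + 1) * th * ∑ j ∈ range J, q ^ j) ∧
        ∑' k, ∑' z, Bb k z ≤ q ^ J + ε * ∑ j ∈ range J, q ^ j := by
      intro i
      by_cases hi : i ≤ i0
      · obtain ⟨a, b, h1⟩ := ih _ (hrest i hi)
        exact ⟨a, b, fun _ => h1⟩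
      · exact ⟨0, 0, fun h => absurd h hi⟩
    choose A B hAB using hch
    have hq : ∑ j ∈ range (J + 1), q ^ j = 1 + q * ∑ j ∈ range J, q ^ j := by
      rw [Finset.sum_range_succ', Finset.mul_sum, add_comm]
      simp [pow_succ, mul_comm]
    refine ⟨fun k z => (∑' i, ∑' z', (if i ≤ i0 ∧ ¬ th < p i z' then p i z' else 0) * Q i k (z - z'))
        + ∑' i, ∑' z', (if i ≤ i0 ∧ th < p i z' then p i z' else 0) * A i k (z - z'),
      fun k z => (∑' i, ∑' z', (if i0 < i then p i z' else 0) * Q i k (z - z'))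
        + ∑' i, ∑' z', (if i ≤ i0 ∧ th < p i z' then p i z' else 0) * B i k (z - z'), ?_, ?_, ?_⟩
    · intro k z
      refine (hQ1 k z).trans ?_
      simp only
      rw [← ENNReal.tsum_add, ← ENNReal.tsum_add, ← ENNReal.tsum_add]
      refine ENNReal.tsum_le_tsum fun i => ?_
      rw [← ENNReal.tsum_add, ← ENNReal.tsum_add, ← ENNReal.tsum_add]
      refine ENNReal.tsum_le_tsum fun z' => ?_
      by_cases hi : i ≤ i0
      · by_cases ht : th < p i z'
        · have hle := (hAB i hi).1 k (z - z')
          rw [← hQ3 i hi] at hle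
          simp only [hi, ht, not_true, and_false, and_self, if_true, if_false, zero_mul, zero_add,
            not_lt.2 hi]
          rw [← mul_add]
          gcongr
        · simp [hi, ht, not_lt.2 hi]
      · have hi' : i0 < i := not_le.1 hi
        simp [hi, hi']
    · intro k z
      rw [hq, mul_add, mul_one]
      refine add_le_add ?_ ?_
      · calc _ ≤ ∑' i, (if i ≤ i0 then th else 0) := by
              refine ENNReal.tsum_le_tsum fun i => ?_
              by_cases hi : i ≤ i0
              · rw [if_pos hi]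
                calc _ ≤ ∑' z', th * Q i k (z - z') := by
                      refine ENNReal.tsum_le_tsum fun z' => ?_
                      by_cases ht : th < p i z'
                      · simp [ht]
                      · simp only [hi, ht, not_false_eq_true, and_self, if_true]
                        gcongr
                        exact not_lt.1 ht
                  _ = th * ∑' z', Q i k z' := by
                      rw [ENNReal.tsum_mul_left, Dens903.tsum_sub]
                  _ ≤ th * 1 := by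
                      gcongr
                      exact (ENNReal.le_tsum (f := fun k => ∑' z, Q i k z) k).trans (hQ2 i)
                  _ = th := mul_one _
              · simp [hi]
          _ = ∑ i ∈ range (i0 + 1), (if i ≤ i0 then th else 0) := by
              refine tsum_eq_sum fun i hi => ?_
              rw [Finset.mem_range, not_lt] at hi
              rw [if_neg (by omega)]
          _ = (i0 + 1) * th := by
              rw [Finset.sum_congr rfl fun i hi => if_pos (by
                have := Finset.mem_range.1 hi; omega)]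
              simp
      · calc _ ≤ ∑' i, ∑' z', (if i ≤ i0 ∧ th < p i z' then p i z' else 0)
                * ((i0 + 1) * th * ∑ j ∈ range J, q ^ j) := by
              refine ENNReal.tsum_le_tsum fun i => ENNReal.tsum_le_tsum fun z' => ?_
              by_cases hi : i ≤ i0 ∧ th < p i z'
              · rw [if_pos hi]
                gcongr
                exact (hAB i hi.1).2.1 _ _
              · simp [if_neg hi]
          _ = (∑' i, ∑' z', (if i ≤ i0 ∧ th < p i z' then p i z' else 0))
                * ((i0 + 1) * th * ∑ j ∈ range J, q ^ j) := by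
              rw [← ENNReal.tsum_mul_right]
              refine tsum_congr fun i => ?_
              rw [ENNReal.tsum_mul_right]
          _ ≤ q * ((i0 + 1) * th * ∑ j ∈ range J, q ^ j) := by gcongr
          _ = _ := by ring
    · have hfin : ∑' k, ∑' z, ((∑' i, ∑' z', (if i0 < i then p i z' else 0) * Q i k (z - z'))
          + ∑' i, ∑' z', (if i ≤ i0 ∧ th < p i z' then p i z' else 0) * B i k (z - z'))
          = (∑' k, ∑' z, ∑' i, ∑' z', (if i0 < i then p i z' else 0) * Q i k (z - z'))
          + ∑' k, ∑' z, ∑' i, ∑' z', (if i ≤ i0 ∧ th < p i z' then p i z' else 0)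
            * B i k (z - z') := by
        rw [← ENNReal.tsum_add]
        refine tsum_congr fun k => ?_
        rw [← ENNReal.tsum_add]
      rw [hfin]
      have e : q ^ (J + 1) + ε * ∑ j ∈ range (J + 1), q ^ j
          = ε + q * (q ^ J + ε * ∑ j ∈ range J, q ^ j) := by
        rw [hq]; ring
      rw [e]
      refine add_le_add ?_ ?_
      · refine (conv2 (fun i z' => if i0 < i then p i z' else 0) Q 1 fun i' => ?_).trans ?_
        · exact mul_le_mul_right (hQ2 i') _
        · rw [mul_one]; exact hFar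
      · refine (conv2 (fun i z' => if i ≤ i0 ∧ th < p i z' then p i z' else 0) B
          (q ^ J + ε * ∑ j ∈ range J, q ^ j) fun i' => ?_).trans ?_
        · by_cases hi : i' ≤ i0
          · exact mul_le_mul_right (hAB i' hi).2.2 _
          · simp [hi]
        · exact mul_le_mul_left hNG _

/-- one half of the window: smooth position of one walker -/
lemma half (W1 W2 : ℕ → V → ℝ≥0∞) (h1 : ∑' i, ∑' z, W1 i z ≤ 1) (h2 : ∑' i, ∑' z, W2 i z ≤ 1)
    (Ag Bb : ℕ → V → ℝ≥0∞) (hW : ∀ i z, W1 i z ≤ Ag i z + Bb i z) (D : ℝ≥0∞)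
    (hAg : ∀ i z, Ag i z ≤ D) (N : ℕ → ℕ → V → ℝ≥0∞) (hN1 : ∀ i i' x, N i i' x ≤ 1) (i0 : ℕ)
    (H : ℝ≥0∞) (hH : ∀ i i', i ≤ i0 → i' ≤ i0 → ∀ μ : V → ℝ≥0∞, ∑' x, μ x ≤ 1 → (∀ x, μ x ≤ D) →
      ∑' x, μ x * N i i' x ≤ H) (w : V) :
    ∑ i ∈ range (i0 + 1), ∑ i' ∈ range (i0 + 1), ∑' z, ∑' z', W1 i z * W2 i' z' * N i i' (w + z' - z)
      ≤ (i0 + 1) * ((i0 + 1) * H) + ∑' i, ∑' z, Bb i z := by
  set A' : ℕ → V → ℝ≥0∞ := fun i z => min (W1 i z) (Ag i z) with hA'
  have hWA : ∀ i z, W1 i z ≤ A' i z + Bb i z := by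
    intro i z
    rcases le_total (W1 i z) (Ag i z) with h | h
    · simp only [hA', min_eq_left h]; exact le_self_add
    · simp only [hA', min_eq_right h]; exact hW i z
  have hrow1 : ∀ i, ∑' z, W1 i z ≤ 1 := fun i =>
    (ENNReal.le_tsum (f := fun i => ∑' z, W1 i z) i).trans h1
  have hrow2 : ∀ i, ∑' z, W2 i z ≤ 1 := fun i =>
    (ENNReal.le_tsum (f := fun i => ∑' z, W2 i z) i).trans h2
  have hsm : ∀ i i', i ≤ i0 → i' ≤ i0 →
      ∑' z, ∑' z', A' i z * W2 i' z' * N i i' (w + z' - z) ≤ H := by
    intro i i' hi hi'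
    set μ : V → ℝ≥0∞ := fun x => ∑' z, A' i z * W2 i' (x + z - w) with hμ
    have e : ∑' z, ∑' z', A' i z * W2 i' z' * N i i' (w + z' - z) = ∑' x, μ x * N i i' x := by
      simp only [hμ]
      have e1 : ∀ z, ∑' z', A' i z * W2 i' z' * N i i' (w + z' - z)
          = ∑' x, A' i z * W2 i' (x + z - w) * N i i' x := by
        intro z
        rw [← (Equiv.addRight (z - w)).tsum_eq (fun z' => A' i z * W2 i' z' * N i i' (w + z' - z))]
        refine tsum_congr fun x => ?_
        simp only [Equiv.coe_addRight]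
        rw [show x + (z - w) = x + z - w by abel, show w + (x + z - w) - z = x by abel]
      rw [tsum_congr e1, ENNReal.tsum_comm]
      refine tsum_congr fun x => ?_
      rw [ENNReal.tsum_mul_right]
    rw [e]
    refine hH i i' hi hi' μ ?_ ?_
    · simp only [hμ]
      rw [ENNReal.tsum_comm]
      have e2 : ∀ z, ∑' x, A' i z * W2 i' (x + z - w) = A' i z * ∑' x, W2 i' x := by
        intro z
        rw [ENNReal.tsum_mul_left]
        congr 1
        rw [← (Equiv.addRight (z - w)).tsum_eq (fun z' => W2 i' z')]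
        refine tsum_congr fun x => ?_
        simp only [Equiv.coe_addRight]
        rw [show x + (z - w) = x + z - w by abel]
      rw [tsum_congr e2, ENNReal.tsum_mul_right]
      calc (∑' z, A' i z) * ∑' x, W2 i' x ≤ 1 * 1 := by
            refine mul_le_mul' ((ENNReal.tsum_le_tsum fun z => min_le_left _ _).trans (hrow1 i))
              (hrow2 i')
        _ = 1 := one_mul _
    · intro x
      simp only [hμ]
      calc ∑' z, A' i z * W2 i' (x + z - w) ≤ ∑' z, D * W2 i' (x + z - w) :=
            ENNReal.tsum_le_tsum fun z => mul_le_mul_left ((min_le_right _ _).trans (hAg i z)) _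
        _ = D * ∑' z, W2 i' z := by
            rw [ENNReal.tsum_mul_left]
            congr 1
            rw [← (Equiv.addRight (x - w)).tsum_eq (fun z' => W2 i' z')]
            refine tsum_congr fun z => ?_
            simp only [Equiv.coe_addRight]
            rw [show z + (x - w) = x + z - w by abel]
        _ ≤ D * 1 := mul_le_mul_right (hrow2 i') _
        _ = D := mul_one _
  have hpt : ∀ i i', ∑' z, ∑' z', W1 i z * W2 i' z' * N i i' (w + z' - z)
      ≤ (∑' z, ∑' z', A' i z * W2 i' z' * N i i' (w + z' - z))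
        + (∑' z, Bb i z) * ∑' z', W2 i' z' := by
    intro i i'
    calc _ ≤ ∑' z, ∑' z', (A' i z * W2 i' z' * N i i' (w + z' - z) + Bb i z * W2 i' z') := by
          refine ENNReal.tsum_le_tsum fun z => ENNReal.tsum_le_tsum fun z' => ?_
          calc W1 i z * W2 i' z' * N i i' (w + z' - z)
              ≤ (A' i z + Bb i z) * W2 i' z' * N i i' (w + z' - z) := by
                gcongr; exact hWA i z
            _ = A' i z * W2 i' z' * N i i' (w + z' - z)
                + Bb i z * W2 i' z' * N i i' (w + z' - z) := by ring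
            _ ≤ A' i z * W2 i' z' * N i i' (w + z' - z) + Bb i z * W2 i' z' * 1 := by
                gcongr; exact hN1 _ _ _
            _ = _ := by rw [mul_one]
      _ = _ := by
          rw [← ENNReal.tsum_mul_right, ← ENNReal.tsum_add]
          refine tsum_congr fun z => ?_
          rw [ENNReal.tsum_add, ENNReal.tsum_mul_left (a := Bb i z)]
  calc _ ≤ ∑ i ∈ range (i0 + 1), ∑ i' ∈ range (i0 + 1), (H + (∑' z, Bb i z) * ∑' z', W2 i' z') := by
        refine Finset.sum_le_sum fun i hi => Finset.sum_le_sum fun i' hi' => ?_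
        refine (hpt i i').trans (add_le_add (hsm i i' ?_ ?_) le_rfl)
        · have := Finset.mem_range.1 hi; omega
        · have := Finset.mem_range.1 hi'; omega
    _ = (i0 + 1) * ((i0 + 1) * H) + (∑ i ∈ range (i0 + 1), ∑' z, Bb i z)
          * ∑ i' ∈ range (i0 + 1), ∑' z', W2 i' z' := by
        simp only [Finset.sum_add_distrib, Finset.sum_const, Finset.card_range, nsmul_eq_mul]
        rw [Finset.sum_mul_sum]
        push_cast
        rfl
    _ ≤ (i0 + 1) * ((i0 + 1) * H) + (∑' i, ∑' z, Bb i z) * 1 := by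
        gcongr
        · exact ENNReal.sum_le_tsum _
        · exact (ENNReal.sum_le_tsum _).trans h2
    _ = _ := by rw [mul_one]

end dens

/-! ### the laws -/

section laws

variable {B G : Type*} [AddCommGroup G] (Λ : B → ℝ≥0∞) (ht : B → ℕ) (z : B → G)

/-- law of the first passage of `a`: overshoot `i`, displacement `x` -/
noncomputable def Wf (a i : ℕ) (x : G) : ℝ≥0∞ :=
  ∑' L : List B, if fp ht a L ∧ HT ht L = a + i ∧ Dp z L = x then LW Λ L else 0

lemma grp {α : Type*} (F : α → ℝ≥0∞) (φ : α → ℕ) (ψ : α → G) :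
    ∑' A, F A = ∑' i, ∑' x, ∑' A, (if φ A = i ∧ ψ A = x then F A else 0) := by
  have e : ∀ A, F A = ∑' i, ∑' x, (if φ A = i ∧ ψ A = x then F A else 0) := by
    intro A
    rw [tsum_eq_single (φ A)]
    · rw [tsum_eq_single (ψ A)]
      · simp
      · intro x hx; rw [if_neg (fun h => hx h.2.symm)]
    · intro i hi
      simp [hi.symm]
  calc ∑' A, F A = ∑' A, ∑' i, ∑' x, (if φ A = i ∧ ψ A = x then F A else 0) := tsum_congr e
    _ = ∑' i, ∑' A, ∑' x, (if φ A = i ∧ ψ A = x then F A else 0) := ENNReal.tsum_comm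
    _ = _ := tsum_congr fun i => ENNReal.tsum_comm

lemma Wf_sum (a : ℕ) : ∑' i, ∑' x, Wf Λ ht z a i x = ∑' L, (if fp ht a L then LW Λ L else 0) := by
  rw [grp (fun L => if fp ht a L then LW Λ L else 0) (fun L => HT ht L - a) (Dp z)]
  refine tsum_congr fun i => tsum_congr fun x => tsum_congr fun L => ?_
  by_cases h : fp ht a L
  · have hle := le_HT_of_fp ht h
    by_cases h2 : HT ht L = a + i ∧ Dp z L = x
    · rw [if_pos ⟨h, h2⟩, if_pos ⟨by omega, h2.2⟩, if_pos h]
    · rw [if_neg (fun h3 => h2 h3.2), if_neg (fun h3 => h2 ⟨by omega, h3.2⟩)]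
  · simp [h]

lemma Wf_rec (h1 : ∀ b, 1 ≤ ht b) (hΛ : ∑' b, Λ b ≤ 1) (s i0 h : ℕ) (hh : s + i0 ≤ h) :
    ∃ Q : ℕ → ℕ → G → ℝ≥0∞,
      (∀ i x, Wf Λ ht z h i x ≤ ∑' i', ∑' z', Wf Λ ht z s i' z' * Q i' i (x - z')) ∧
      (∀ i', ∑' i, ∑' x, Q i' i x ≤ 1) ∧ (∀ i', i' ≤ i0 → Q i' = Wf Λ ht z (h - s - i')) := by
  refine ⟨fun i' i y => ∑' L : List B, if fp ht (h - (s + i')) L ∧ s + i' + HT ht L = h + i ∧
    Dp z L = y then LW Λ L else 0, ?_, ?_, ?_⟩
  · intro i x
    have e0 : Wf Λ ht z h i x = ∑' L, (if fp ht h L then LW Λ L *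
        (if HT ht L = h + i ∧ Dp z L = x then 1 else 0) else 0) := by
      refine tsum_congr fun L => ?_
      by_cases ha : fp ht h L <;> by_cases hb : HT ht L = h + i ∧ Dp z L = x <;> simp [ha, hb]
    rw [e0, fp_split Λ ht h1 s h (by omega)]
    rw [grp (fun A => if fp ht s A then LW Λ A * ∑' L, (if fp ht (h - HT ht A) L then LW Λ L *
      (if HT ht (A ++ L) = h + i ∧ Dp z (A ++ L) = x then 1 else 0) else 0) else 0)
      (fun A => HT ht A - s) (Dp z)]
    refine ENNReal.tsum_le_tsum fun i' => ENNReal.tsum_le_tsum fun z' => ?_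
    rw [Wf, ← ENNReal.tsum_mul_right]
    refine ENNReal.tsum_le_tsum fun A => ?_
    by_cases ha : fp ht s A
    · have hle := le_HT_of_fp ht ha
      by_cases hb : HT ht A - s = i' ∧ Dp z A = z'
      · have hb1 : HT ht A = s + i' := by omega
        rw [if_pos hb, if_pos ha, if_pos ⟨ha, hb1, hb.2⟩]
        refine mul_le_mul_right (ENNReal.tsum_le_tsum fun L => ?_) _
        rw [hb1, HT_append, Dp_append, hb.2, hb1]
        by_cases hc : fp ht (h - (s + i')) L
        · rw [if_pos hc]
          by_cases hd : s + i' + HT ht L = h + i ∧ z' + Dp z L = x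
          · rw [if_pos hd, mul_one, if_pos ⟨hc, hd.1, by rw [← hd.2]; abel⟩]
          · rw [if_neg hd, mul_zero]; exact zero_le
        · rw [if_neg hc]; exact zero_le
      · rw [if_neg hb]; exact zero_le
    · simp [ha]
  · intro i'
    calc _ = ∑' L, ∑' i, ∑' x, (if fp ht (h - (s + i')) L ∧ s + i' + HT ht L = h + i ∧
          Dp z L = x then LW Λ L else 0) := by
          rw [show (∑' i, ∑' x, ∑' L : List B, (if fp ht (h - (s + i')) L ∧
            s + i' + HT ht L = h + i ∧ Dp z L = x then LW Λ L else 0))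
            = ∑' i, ∑' L : List B, ∑' x, (if fp ht (h - (s + i')) L ∧
            s + i' + HT ht L = h + i ∧ Dp z L = x then LW Λ L else 0) from
            tsum_congr fun i => ENNReal.tsum_comm]
          exact ENNReal.tsum_comm
      _ ≤ ∑' L, (if fp ht (h - (s + i')) L then LW Λ L else 0) := by
          refine ENNReal.tsum_le_tsum fun L => ?_
          by_cases hc : fp ht (h - (s + i')) L
          · rw [if_pos hc]
            rw [tsum_eq_single (s + i' + HT ht L - h)]
            · rw [tsum_eq_single (Dp z L)]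
              · split_ifs
                · exact le_rfl
                · exact zero_le
              · intro x hx; rw [if_neg (fun h => hx h.2.2.symm)]
            · intro i hi
              have : ∀ x, (if fp ht (h - (s + i')) L ∧ s + i' + HT ht L = h + i ∧
                  Dp z L = x then LW Λ L else 0) = 0 := by
                intro x
                rw [if_neg]
                rintro ⟨_, h3, _⟩
                omega
              simp [this]
          · simp [hc]
      _ ≤ 1 := sum_FP Λ ht h1 hΛ _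
  · intro i' hi'
    funext i x
    simp only [Wf]
    refine tsum_congr fun L => ?_
    rw [show h - (s + i') = h - s - i' by omega]
    congr 1
    apply propext
    constructor
    · rintro ⟨a, b, c⟩; exact ⟨a, by omega, c⟩
    · rintro ⟨a, b, c⟩; exact ⟨a, by omega, c⟩

end laws

end Crest.Agent.R154.Asm566
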