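import Crest.Agent.R154.B5Abs_566
import Crest.Agent.R154.Dens_903

/-! Row 154, ROAD 801: first passage lists, overshoot, smooth density (helper668). -/

set_option autoImplicit false

namespace Crest.Agent.R154.Asm668

open scoped ENNReal Classical
open Crest.Agent.R154.B5A (LW HT LW_nil LW_cons LW_append HT_nil HT_cons HT_append tsum_list U tail)

/-- indicator -/
noncomputable def I (p : Prop) : ℝ≥0∞ := if p then 1 else 0

lemma I_true {p : Prop} (h : p) : I p = 1 := by simp [I, h]
lemma I_false {p : Prop} (h : ¬ p) : I p = 0 := by simp [I, h]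
lemma I_le_one (p : Prop) : I p ≤ 1 := by unfold I; split_ifs <;> simp
lemma I_mono {p q : Prop} (h : p → q) : I p ≤ I q := by
  by_cases hp : p
  · simp [I, hp, h hp]
  · simp [I, hp]
lemma I_and (p q : Prop) : I (p ∧ q) = I p * I q := by
  by_cases hp : p <;> by_cases hq : q <;> simp [I, hp, hq]
lemma I_mul_le (p : Prop) (a : ℝ≥0∞) : I p * a ≤ a := by
  calc I p * a ≤ 1 * a := mul_le_mul_left (I_le_one p) a
    _ = a := one_mul a

section cover
variable {α β : Type*}

lemma tsum_cover (f : α → ℝ≥0∞) (g : β → ℝ≥0∞) (φ : β → α)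
    (h : ∀ a, f a ≠ 0 → ∃ b, φ b = a ∧ f a ≤ g b) : ∑' a, f a ≤ ∑' b, g b := by
  have h' : ∀ a : Function.support f, ∃ b, φ b = a.1 ∧ f a.1 ≤ g b := fun a => h a.1 a.2
  choose c hc1 hc2 using h'
  calc ∑' a, f a = ∑' a : Function.support f, f a := (tsum_subtype_support f).symm
    _ ≤ ∑' a : Function.support f, g (c a) := ENNReal.tsum_le_tsum hc2
    _ ≤ ∑' b, g b := by
      refine ENNReal.tsum_comp_le_tsum_of_injective (f := c) ?_ g
      intro a a' haa
      apply Subtype.ext
      rw [← hc1 a, ← hc1 a', haa]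

lemma push (f : α → β) (a : α → ℝ≥0∞) (G : β → ℝ≥0∞) :
    ∑' x, (∑' y, I (f y = x) * a y) * G x = ∑' y, a y * G (f y) := by
  simp_rw [← ENNReal.tsum_mul_right]
  rw [ENNReal.tsum_comm]
  refine tsum_congr fun y => ?_
  rw [tsum_eq_single (f y)]
  · rw [I_true rfl, one_mul]
  · intro x hx
    rw [I_false (fun h => hx h.symm), zero_mul, zero_mul]

end cover

section FP

variable {B : Type*} (Λ : B → ℝ≥0∞) (ht : B → ℕ)

/-- first passage of height `T` -/
def FP (T : ℕ) (L : List B) : Prop :=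
  T ≤ HT ht L ∧ ∀ L1 L2, L = L1 ++ L2 → L2 ≠ [] → HT ht L1 < T

lemma FP_zero (L : List B) : FP ht 0 L ↔ L = [] := by
  constructor
  · intro h
    by_contra hL
    exact absurd (h.2 [] L rfl hL) (by simp)
  · rintro rfl
    refine ⟨by simp, ?_⟩
    intro L1 L2 h h2
    simp at h
    exact absurd h.2 h2

lemma FP_cons (b : B) (L : List B) (T : ℕ) :
    FP ht (T + 1) (b :: L) ↔ FP ht (T + 1 - ht b) L := by
  constructor
  · rintro ⟨h, h'⟩
    rw [HT_cons] at h
    refine ⟨by omega, ?_⟩
    intro L1 L2 hL hL2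
    have := h' (b :: L1) L2 (by rw [hL]; rfl) hL2
    rw [HT_cons] at this
    omega
  · rintro ⟨h, h'⟩
    refine ⟨by rw [HT_cons]; omega, ?_⟩
    intro L1 L2 hL hL2
    cases L1 with
    | nil => rw [HT_nil]; omega
    | cons c L1 =>
      simp only [List.cons_append, List.cons.injEq] at hL
      have := h' L1 L2 hL.2 hL2
      rw [HT_cons, ← hL.1]
      omega

lemma FP_nil (T : ℕ) : ¬ FP ht (T + 1) ([] : List B) := by
  rintro ⟨h, -⟩
  rw [HT_nil] at h
  omega

lemma exists_FP (L : List B) : ∀ T, T ≤ HT ht L → ∃ A R, L = A ++ R ∧ FP ht T A := by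
  induction L with
  | nil =>
    intro T hT
    rw [HT_nil] at hT
    obtain rfl : T = 0 := by omega
    exact ⟨[], [], rfl, (FP_zero ht _).2 rfl⟩
  | cons b L ih =>
    intro T hT
    rcases T with _ | T
    · exact ⟨[], b :: L, rfl, (FP_zero ht _).2 rfl⟩
    · rw [HT_cons] at hT
      obtain ⟨A, R, h1, h2⟩ := ih (T + 1 - ht b) (by omega)
      exact ⟨b :: A, R, by rw [h1]; rfl, (FP_cons ht b A T).2 h2⟩

lemma FP_split (S T : ℕ) (hST : S ≤ T) (A : List B) (hA : FP ht T A) :
    ∃ P A1, A = P ++ A1 ∧ FP ht S P ∧ FP ht (T - HT ht P) A1 := by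
  obtain ⟨P, A1, h1, h2⟩ := exists_FP ht A S (hST.trans hA.1)
  refine ⟨P, A1, h1, h2, ?_, ?_⟩
  · have := hA.1
    rw [h1, HT_append] at this
    omega
  · intro L1 L2 hL hL2
    have := hA.2 (P ++ L1) L2 (by rw [h1, hL, List.append_assoc]) hL2
    rw [HT_append] at this
    omega

/-- sum over the first passage lists -/
noncomputable def ES (T : ℕ) (F : List B → ℝ≥0∞) : ℝ≥0∞ := ∑' L, I (FP ht T L) * LW Λ L * F L

lemma ES_zero (F : List B → ℝ≥0∞) : ES Λ ht 0 F = F [] := by
  rw [ES, tsum_eq_single []]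
  · rw [I_true ((FP_zero ht _).2 rfl), LW_nil, one_mul, one_mul]
  · intro L hL
    rw [I_false (fun h => hL ((FP_zero ht _).1 h)), zero_mul, zero_mul]

lemma ES_succ (T : ℕ) (F : List B → ℝ≥0∞) :
    ES Λ ht (T + 1) F = ∑' b, Λ b * ES Λ ht (T + 1 - ht b) (fun L => F (b :: L)) := by
  rw [ES, tsum_list, I_false (FP_nil ht T), zero_mul, zero_mul, zero_add]
  refine tsum_congr fun b => ?_
  rw [ES, ← ENNReal.tsum_mul_left]
  refine tsum_congr fun L => ?_
  rw [LW_cons]
  by_cases h : FP ht (T + 1 - ht b) L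
  · rw [I_true h, I_true ((FP_cons ht b L T).2 h)]; ring
  · rw [I_false h, I_false (fun h' => h ((FP_cons ht b L T).1 h'))]; ring

lemma ES_mono (T : ℕ) {F G : List B → ℝ≥0∞} (h : ∀ L, FP ht T L → F L ≤ G L) :
    ES Λ ht T F ≤ ES Λ ht T G := by
  refine ENNReal.tsum_le_tsum fun L => ?_
  by_cases hL : FP ht T L
  · exact mul_le_mul_right (h L hL) _
  · rw [I_false hL]; simp

lemma ES_one (hΛ : ∑' b, Λ b = 1) (h1 : ∀ b, 1 ≤ ht b) (T : ℕ) :
    ES Λ ht T (fun _ => 1) = 1 := by
  induction T using Nat.strong_induction_on with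
  | _ T ih =>
    rcases T with _ | T
    · rw [ES_zero]
    · rw [ES_succ]
      have : ∀ b, ES Λ ht (T + 1 - ht b) (fun _ => 1) = 1 := fun b => ih _ (by
        have := h1 b; omega)
      simp_rw [this, mul_one]
      exact hΛ

lemma ES_over (hΛ : ∑' b, Λ b = 1) (h1 : ∀ b, 1 ≤ ht b) (r : ℕ) (T : ℕ) :
    ES Λ ht T (fun L => I (T + r < HT ht L)) ≤ ∑ i ∈ Finset.range T, tail Λ ht (i + 1 + r) := by
  induction T using Nat.strong_induction_on with
  | _ T ih =>
    rcases T with _ | T
    · rw [ES_zero, HT_nil, I_false (by omega)]; exact zero_le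
    · rw [ES_succ, Finset.sum_range_succ]
      have key : ∀ b, ES Λ ht (T + 1 - ht b) (fun L => I (T + 1 + r < HT ht (b :: L)))
          ≤ ∑ i ∈ Finset.range T, tail Λ ht (i + 1 + r) + I (T + 1 + r < ht b) := by
        intro b
        have hb := h1 b
        by_cases hlt : ht b ≤ T + 1
        · refine le_trans (le_trans (ES_mono Λ ht _ ?_) (ih (T + 1 - ht b) (by omega))) ?_
          · intro L _
            refine I_mono ?_
            rw [HT_cons]
            omega
          · refine le_add_right ?_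
            exact Finset.sum_le_sum_of_subset (Finset.range_mono (by omega))
        · have e : T + 1 - ht b = 0 := by omega
          rw [e, ES_zero, HT_cons, HT_nil, add_zero]
          exact le_add_left le_rfl
      calc ∑' b, Λ b * ES Λ ht (T + 1 - ht b) (fun L => I (T + 1 + r < HT ht (b :: L)))
          ≤ ∑' b, (Λ b * ∑ i ∈ Finset.range T, tail Λ ht (i + 1 + r)
            + Λ b * I (T + 1 + r < ht b)) := by
            refine ENNReal.tsum_le_tsum fun b => ?_
            rw [← mul_add]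
            exact mul_le_mul_right (key b) _
        _ = _ := by
            rw [ENNReal.tsum_add, ENNReal.tsum_mul_right, hΛ, one_mul, tail]
            congr 1
            refine tsum_congr fun b => ?_
            unfold I
            split_ifs <;> simp

/-- bound of the overshoot -/
noncomputable def eo (r : ℕ) : ℝ≥0∞ := ∑' i, tail Λ ht (i + r)

lemma over_le (hΛ : ∑' b, Λ b = 1) (h1 : ∀ b, 1 ≤ ht b) (r : ℕ) (T : ℕ) :
    ES Λ ht T (fun L => I (T + r < HT ht L)) ≤ eo Λ ht r := by
  refine (ES_over Λ ht hΛ h1 r T).trans ?_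
  calc ∑ i ∈ Finset.range T, tail Λ ht (i + 1 + r)
      ≤ ∑' i, tail Λ ht (i + 1 + r) := ENNReal.sum_le_tsum _
    _ ≤ ∑' i, tail Λ ht (i + r) :=
      ENNReal.tsum_comp_le_tsum_of_injective (add_left_injective 1) (fun i => tail Λ ht (i + r))

lemma eo_tendsto (hΛ : ∑' b, Λ b = 1) (hm : ∑' b, Λ b * (ht b : ℝ≥0∞) ≠ ⊤) :
    Filter.Tendsto (eo Λ ht) Filter.atTop (nhds 0) := by
  rw [B5A.sum_tail Λ ht hΛ] at hm
  exact ENNReal.tendsto_sum_nat_add _ hm

lemma FP_of_HT (h1 : ∀ b, 1 ≤ ht b) (L : List B) : FP ht (HT ht L) L := by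
  refine ⟨le_rfl, ?_⟩
  intro L1 L2 h h2
  rw [h, HT_append]
  have := B5A.length_le_HT ht h1 L2
  have h3 : 0 < L2.length := List.length_pos_iff.2 h2
  omega

lemma U_le_one (hΛ : ∑' b, Λ b = 1) (h1 : ∀ b, 1 ≤ ht b) (n : ℕ) :
    ∑' L, I (HT ht L = n) * LW Λ L ≤ 1 := by
  rw [← ES_one Λ ht hΛ h1 n, ES]
  refine ENNReal.tsum_le_tsum fun L => ?_
  rw [mul_one]
  refine mul_le_mul_left (I_mono ?_) _
  rintro rfl
  exact FP_of_HT ht h1 L

end FP

/-! ### smooth density -/

section dens

variable {B V : Type*} [AddCommGroup V] (Λ : B → ℝ≥0∞) (ht : B → ℕ) (v : B → V)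

/-- displacement -/
def Dp (L : List B) : V := (L.map v).sum

lemma Dp_append (L L' : List B) : Dp v (L ++ L') = Dp v L + Dp v L' := by simp [Dp]

/-- law of the displacement at the first passage -/
noncomputable def FL (T : ℕ) (x : V) : ℝ≥0∞ := ∑' A, I (Dp v A = x) * (I (FP ht T A) * LW Λ A)

lemma FL_push (T : ℕ) (G : V → ℝ≥0∞) :
    ∑' x, FL Λ ht v T x * G x = ES Λ ht T (fun A => G (Dp v A)) := push _ _ _

lemma FL_sum (hΛ : ∑' b, Λ b = 1) (h1 : ∀ b, 1 ≤ ht b) (T : ℕ) : ∑' x, FL Λ ht v T x = 1 := by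
  have := FL_push Λ ht v T (fun _ => 1)
  simp only [mul_one] at this
  rw [this, ES_one Λ ht hΛ h1]

variable (hg : V → ℕ)

lemma FL_rec (hhg : ∀ L, hg (Dp v L) = HT ht L) (S T : ℕ) (hST : S ≤ T) (x : V) :
    FL Λ ht v T x ≤ ∑' y, FL Λ ht v S y * FL Λ ht v (T - hg y) (x - y) := by
  have e : ∑' y, FL Λ ht v S y * FL Λ ht v (T - hg y) (x - y)
      = ∑' P, I (FP ht S P) * LW Λ P * FL Λ ht v (T - HT ht P) (x - Dp v P) := by
    rw [FL_push Λ ht v S (fun y => FL Λ ht v (T - hg y) (x - y)), ES]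
    simp only [hhg]
  rw [e]
  simp_rw [FL, ← ENNReal.tsum_mul_left]
  rw [← ENNReal.tsum_prod]
  refine tsum_cover _ _ (fun p : List B × List B => p.1 ++ p.2) ?_
  intro A hA
  by_cases h1 : Dp v A = x
  · by_cases h2 : FP ht T A
    · obtain ⟨P, A1, h3, h4, h5⟩ := FP_split ht S T hST A h2
      refine ⟨(P, A1), h3.symm, ?_⟩
      rw [I_true h1, I_true h2, I_true h4, I_true h5, one_mul, one_mul, one_mul,
        I_true (by rw [← h1, h3, Dp_append, add_sub_cancel_left]), one_mul, one_mul, h3, LW_append]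
    · exact absurd (by rw [I_false h2]; simp) hA
  · exact absurd (by rw [I_false h1]; simp) hA

theorem dens (hΛ : ∑' b, Λ b = 1) (h1 : ∀ b, 1 ≤ ht b) (hhg : ∀ L, hg (Dp v L) = HT ht L)
    (S i0 : ℕ) (th q ε : ℝ≥0∞) (hq1 : q ≤ 1)
    (hq : ∑' x, I (th < FL Λ ht v S x) * FL Λ ht v S x ≤ q)
    (hε : eo Λ ht i0 ≤ ε) (J : ℕ) :
    ∀ T, J * (S + i0) ≤ T → ∃ g b : V → ℝ≥0∞, (∀ x, FL Λ ht v T x ≤ g x + b x) ∧
      (∀ x, g x ≤ J * ((i0 + 1 : ℕ) * th)) ∧ ∑' x, b x ≤ q ^ J + J * ε := by
  induction J with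
  | zero =>
    intro T _
    refine ⟨fun _ => 0, FL Λ ht v T, fun x => by simp, fun x => by simp, ?_⟩
    rw [FL_sum Λ ht v hΛ h1]; simp
  | succ J ih =>
    intro T hT
    have ih' : ∀ T : {T // J * (S + i0) ≤ T}, ∃ gb : (V → ℝ≥0∞) × (V → ℝ≥0∞),
        (∀ x, FL Λ ht v T x ≤ gb.1 x + gb.2 x) ∧
        (∀ x, gb.1 x ≤ J * ((i0 + 1 : ℕ) * th)) ∧ ∑' x, gb.2 x ≤ q ^ J + J * ε := by
      intro T
      obtain ⟨g, b, h⟩ := ih T.1 T.2
      exact ⟨(g, b), h⟩
    choose gb hgb1 hgb2 hgb3 using ih'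
    -- extended functions
    set g' : ℕ → V → ℝ≥0∞ := fun T x =>
      if h : J * (S + i0) ≤ T then (gb ⟨T, h⟩).1 x else 0 with hg'
    set b' : ℕ → V → ℝ≥0∞ := fun T x =>
      if h : J * (S + i0) ≤ T then (gb ⟨T, h⟩).2 x else 0 with hb'
    have G1 : ∀ T, J * (S + i0) ≤ T → ∀ x, FL Λ ht v T x ≤ g' T x + b' T x := by
      intro T h x
      simp only [hg', hb', dif_pos h]
      exact hgb1 ⟨T, h⟩ x
    have G2 : ∀ T x, g' T x ≤ J * ((i0 + 1 : ℕ) * th) := by
      intro T x
      by_cases h : J * (S + i0) ≤ T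
      · simp only [hg', dif_pos h]; exact hgb2 ⟨T, h⟩ x
      · simp only [hg', dif_neg h]; exact zero_le
    have G3 : ∀ T, ∑' x, b' T x ≤ q ^ J + J * ε := by
      intro T
      by_cases h : J * (S + i0) ≤ T
      · simp only [hb', dif_pos h]; exact hgb3 ⟨T, h⟩
      · simp only [hb', dif_neg h, tsum_zero]; exact zero_le
    have hexp : (J + 1) * (S + i0) = J * (S + i0) + (S + i0) := by ring
    rw [hexp] at hT
    set p := FL Λ ht v S with hp
    have hS : ∀ y, p y ≠ 0 → S ≤ hg y := by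
      intro y hy
      by_contra hlt
      apply hy
      rw [hp, FL, ENNReal.tsum_eq_zero]
      intro A
      by_cases hA : Dp v A = y
      · by_cases hF : FP ht S A
        · have := hF.1
          rw [← hhg A, hA] at this
          exact absurd this hlt
        · rw [I_false hF]; simp
      · rw [I_false hA]; simp
    refine ⟨fun x => ∑' y, I (th < p y) * p y * g' (T - hg y) (x - y)
        + ∑' y, I (S ≤ hg y ∧ hg y ≤ S + i0) * th * FL Λ ht v (T - hg y) (x - y),
      fun x => ∑' y, I (th < p y) * p y * b' (T - hg y) (x - y)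
        + ∑' y, p y * I (S + i0 < hg y) * FL Λ ht v (T - hg y) (x - y), ?_, ?_, ?_⟩
    · intro x
      refine (FL_rec Λ ht v hg hhg S T (by omega) x).trans ?_
      simp only [← ENNReal.tsum_add]
      refine ENNReal.tsum_le_tsum fun y => ?_
      change p y * FL Λ ht v (T - hg y) (x - y) ≤ _
      by_cases hy0 : p y = 0
      · rw [hy0, zero_mul]; exact zero_le
      have hSy := hS y hy0
      by_cases hi : S + i0 < hg y
      · rw [I_true hi, mul_one]
        exact le_add_left (le_add_left le_rfl)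
      · have hi' : hg y ≤ S + i0 := by omega
        by_cases hth : th < p y
        · rw [I_true hth, one_mul]
          calc p y * FL Λ ht v (T - hg y) (x - y)
              ≤ p y * (g' (T - hg y) (x - y) + b' (T - hg y) (x - y)) :=
                mul_le_mul_right (G1 _ (by omega) _) _
            _ = p y * g' (T - hg y) (x - y) + p y * b' (T - hg y) (x - y) := mul_add _ _ _
            _ ≤ _ := add_le_add (le_add_right le_rfl) (le_add_right le_rfl)
        · rw [I_true (⟨hSy, hi'⟩ : S ≤ hg y ∧ hg y ≤ S + i0), one_mul]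
          refine le_trans ?_ (le_add_right (le_add_left le_rfl))
          exact mul_le_mul_left (not_lt.1 hth) _
    · intro x
      have e1 : ∑' y, I (th < p y) * p y * g' (T - hg y) (x - y)
          ≤ J * ((i0 + 1 : ℕ) * th) := by
        calc ∑' y, I (th < p y) * p y * g' (T - hg y) (x - y)
            ≤ ∑' y, I (th < p y) * p y * (J * ((i0 + 1 : ℕ) * th)) :=
              ENNReal.tsum_le_tsum fun y => mul_le_mul_right (G2 _ _) _
          _ = (∑' y, I (th < p y) * p y) * (J * ((i0 + 1 : ℕ) * th)) := ENNReal.tsum_mul_right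
          _ ≤ 1 * (J * ((i0 + 1 : ℕ) * th)) := mul_le_mul_left (hq.trans hq1) _
          _ = _ := one_mul _
      have e2 : ∑' y, I (S ≤ hg y ∧ hg y ≤ S + i0) * th * FL Λ ht v (T - hg y) (x - y)
          ≤ (i0 + 1 : ℕ) * th := by
        calc ∑' y, I (S ≤ hg y ∧ hg y ≤ S + i0) * th * FL Λ ht v (T - hg y) (x - y)
            ≤ ∑' y, ∑ k ∈ Finset.range (i0 + 1), th * FL Λ ht v (T - (S + k)) (x - y) := by
              refine ENNReal.tsum_le_tsum fun y => ?_
              by_cases h : S ≤ hg y ∧ hg y ≤ S + i0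
              · rw [I_true h, one_mul]
                refine le_trans (le_of_eq ?_) (Finset.single_le_sum
                  (f := fun k => th * FL Λ ht v (T - (S + k)) (x - y))
                  (fun _ _ => zero_le) (Finset.mem_range.2 (show hg y - S < i0 + 1 by omega)))
                simp only [show S + (hg y - S) = hg y by omega]
              · rw [I_false h]; simp
          _ = ∑ k ∈ Finset.range (i0 + 1), th * ∑' y, FL Λ ht v (T - (S + k)) (x - y) := by
              rw [Summable.tsum_finsetSum (fun _ _ => ENNReal.summable)]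
              exact Finset.sum_congr rfl fun k _ => ENNReal.tsum_mul_left
          _ = ∑ k ∈ Finset.range (i0 + 1), th := by
              refine Finset.sum_congr rfl fun k _ => ?_
              have := (Equiv.subLeft x).tsum_eq (fun y => FL Λ ht v (T - (S + k)) y)
              simp only [Equiv.subLeft_apply] at this
              rw [this, FL_sum Λ ht v hΛ h1, mul_one]
          _ = _ := by simp
      calc _ ≤ (J : ℝ≥0∞) * ((i0 + 1 : ℕ) * th) + (i0 + 1 : ℕ) * th := add_le_add e1 e2
        _ = _ := by push_cast; ring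
    · have tr : ∀ (F : V → ℝ≥0∞) (y : V), ∑' x, F (x - y) = ∑' x, F x := by
        intro F y
        have := (Equiv.subRight y).tsum_eq F
        simpa only [Equiv.subRight_apply] using this
      rw [ENNReal.tsum_add]
      have e1 : ∑' x, ∑' y, I (th < p y) * p y * b' (T - hg y) (x - y)
          ≤ q * (q ^ J + J * ε) := by
        rw [ENNReal.tsum_comm]
        calc ∑' y, ∑' x, I (th < p y) * p y * b' (T - hg y) (x - y)
            = ∑' y, I (th < p y) * p y * ∑' x, b' (T - hg y) x := by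
              refine tsum_congr fun y => ?_
              rw [ENNReal.tsum_mul_left, tr]
          _ ≤ ∑' y, I (th < p y) * p y * (q ^ J + J * ε) :=
              ENNReal.tsum_le_tsum fun y => mul_le_mul_right (G3 _) _
          _ = (∑' y, I (th < p y) * p y) * (q ^ J + J * ε) := ENNReal.tsum_mul_right
          _ ≤ _ := mul_le_mul_left hq _
      have e2 : ∑' x, ∑' y, p y * I (S + i0 < hg y) * FL Λ ht v (T - hg y) (x - y) ≤ ε := by
        rw [ENNReal.tsum_comm]
        calc ∑' y, ∑' x, p y * I (S + i0 < hg y) * FL Λ ht v (T - hg y) (x - y)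
            = ∑' y, p y * I (S + i0 < hg y) := by
              refine tsum_congr fun y => ?_
              rw [ENNReal.tsum_mul_left, tr, FL_sum Λ ht v hΛ h1, mul_one]
          _ = ES Λ ht S (fun A => I (S + i0 < HT ht A)) := by
              rw [FL_push Λ ht v S (fun y => I (S + i0 < hg y))]
              simp only [hhg]
          _ ≤ _ := (over_le Λ ht hΛ h1 i0 S).trans hε
      calc _ ≤ q * (q ^ J + J * ε) + ε := add_le_add e1 e2
        _ = q ^ (J + 1) + q * (J * ε) + ε := by ring
        _ ≤ q ^ (J + 1) + 1 * (J * ε) + ε := by gcongr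
        _ = _ := by push_cast; ring

end dens

end Crest.Agent.R154.Asm668
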