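import Crest.Agent.R154.FP_178
import Crest.Agent.R154.Bind801_12

/-! Row 154, ROAD 801 (helper678): assembly, part 1: first passage sums, pieces, smooth density. -/

set_option autoImplicit false

namespace Crest.Agent.R154.Asm678

open scoped ENNReal
open Crest.Agent.R154.B5A Crest.Agent.R154.FP178
open Crest.Agent.R154.Bind12 (TT Dp)

section FS

variable {B : Type*} (Λ : B → ℝ≥0∞) (ht : B → ℕ)

open Classical in
/-- weight of a first passage list -/
noncomputable def fw (a : ℕ) (L : List B) : ℝ≥0∞ := if fp ht a L then LW Λ L else 0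

/-- sum over the first passage lists of depth `a` -/
noncomputable def FS (a : ℕ) (F : List B → ℝ≥0∞) : ℝ≥0∞ := ∑' L, fw Λ ht a L * F L

variable {Λ ht}

lemma FS_mono {a : ℕ} {F F' : List B → ℝ≥0∞} (h : ∀ L, fp ht a L → F L ≤ F' L) :
    FS Λ ht a F ≤ FS Λ ht a F' := by
  refine ENNReal.tsum_le_tsum fun L => ?_
  by_cases hL : fp ht a L
  · exact mul_le_mul_right (h L hL) _
  · simp [fw, hL]

lemma FS_add {a : ℕ} (F F' : List B → ℝ≥0∞) :
    FS Λ ht a (fun L => F L + F' L) = FS Λ ht a F + FS Λ ht a F' := by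
  simp only [FS, mul_add]
  exact ENNReal.tsum_add

lemma FS_mul {a : ℕ} (c : ℝ≥0∞) (F : List B → ℝ≥0∞) :
    FS Λ ht a (fun L => c * F L) = c * FS Λ ht a F := by
  simp only [FS, ← ENNReal.tsum_mul_left]
  refine tsum_congr fun L => ?_
  ring

lemma FS_one (h1 : ∀ b, 1 ≤ ht b) (hΛ : ∑' b, Λ b ≤ 1) (a : ℕ) : FS Λ ht a (fun _ => 1) ≤ 1 := by
  classical
  have := sum_FP Λ ht h1 hΛ a
  simpa [FS, fw] using this

lemma FS_const (h1 : ∀ b, 1 ≤ ht b) (hΛ : ∑' b, Λ b ≤ 1) (a : ℕ) (c : ℝ≥0∞) :
    FS Λ ht a (fun _ => c) ≤ c := by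
  have h := FS_mul (Λ := Λ) (ht := ht) (a := a) c (fun _ => 1)
  simp only [mul_one] at h
  rw [h]
  calc c * FS Λ ht a (fun _ => 1) ≤ c * 1 := mul_le_mul_right (FS_one h1 hΛ a) _
    _ = c := mul_one c

lemma FS_le (h1 : ∀ b, 1 ≤ ht b) (hΛ : ∑' b, Λ b ≤ 1) {a : ℕ} {F : List B → ℝ≥0∞} {c : ℝ≥0∞}
    (h : ∀ L, fp ht a L → F L ≤ c) : FS Λ ht a F ≤ c :=
  (FS_mono h).trans (FS_const h1 hΛ a c)

lemma FS_tsum {ι : Type*} {a : ℕ} (F : ι → List B → ℝ≥0∞) :
    FS Λ ht a (fun L => ∑' i, F i L) = ∑' i, FS Λ ht a (F i) := by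
  simp only [FS, ← ENNReal.tsum_mul_left]
  exact ENNReal.tsum_comm

lemma FS_sum {ι : Type*} {a : ℕ} (s : Finset ι) (F : ι → List B → ℝ≥0∞) :
    FS Λ ht a (fun L => ∑ i ∈ s, F i L) = ∑ i ∈ s, FS Λ ht a (F i) := by
  classical
  induction s using Finset.induction_on with
  | empty => simp [FS]
  | insert i s hi ih => simp only [Finset.sum_insert hi]; rw [FS_add, ih]

lemma FS_split (h1 : ∀ b, 1 ≤ ht b) (τ a : ℕ) (hτ : τ ≤ a) (F : List B → ℝ≥0∞) :
    FS Λ ht a F = FS Λ ht τ (fun A => FS Λ ht (a - HT ht A) (fun L => F (A ++ L))) := by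
  classical
  have h := fp_split Λ ht h1 τ a hτ F
  have e1 : FS Λ ht a F = ∑' L, (if fp ht a L then LW Λ L * F L else 0) := by
    refine tsum_congr fun L => ?_
    by_cases hL : fp ht a L <;> simp [fw, hL]
  rw [e1, h]
  refine tsum_congr fun A => ?_
  by_cases hA : fp ht τ A
  · rw [if_pos hA, fw, if_pos hA]
    congr 1
    refine tsum_congr fun L => ?_
    by_cases hL : fp ht (a - HT ht A) L <;> simp [fw, hL]
  · rw [if_neg hA, fw, if_neg hA, zero_mul]

lemma FS_swap {B' : Type*} {Λ' : B' → ℝ≥0∞} {ht' : B' → ℕ} (a a' : ℕ)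
    (f : List B → List B' → ℝ≥0∞) :
    FS Λ ht a (fun A => FS Λ' ht' a' (fun A' => f A A'))
      = FS Λ' ht' a' (fun A' => FS Λ ht a (fun A => f A A')) := by
  simp only [FS, ← ENNReal.tsum_mul_left]
  rw [ENNReal.tsum_comm]
  refine tsum_congr fun A' => tsum_congr fun A => ?_
  ring

end FS

section piece

variable {B : Type*} {Λ : B → ℝ≥0∞} {ht : B → ℕ}

open Classical in
/-- sum over the lists of height `n` -/
noncomputable def En (Λ : B → ℝ≥0∞) (ht : B → ℕ) (n : ℕ) (F : List B → ℝ≥0∞) : ℝ≥0∞ :=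
  ∑' L, (if HT ht L = n then LW Λ L else 0) * F L

lemma En_mono {n : ℕ} {F F' : List B → ℝ≥0∞} (h : ∀ L, HT ht L = n → F L ≤ F' L) :
    En Λ ht n F ≤ En Λ ht n F' := by
  refine ENNReal.tsum_le_tsum fun L => ?_
  by_cases hL : HT ht L = n
  · exact mul_le_mul_right (h L hL) _
  · simp [hL]

lemma En_le (hU1 : ∀ n, U Λ ht n ≤ 1) {n : ℕ} {F : List B → ℝ≥0∞} {c : ℝ≥0∞}
    (h : ∀ L, HT ht L = n → F L ≤ c) : En Λ ht n F ≤ c := by
  refine (En_mono h).trans ?_
  rw [En, ENNReal.tsum_mul_right]
  calc _ ≤ 1 * c := mul_le_mul_left (hU1 n) _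
    _ = c := one_mul c

open Classical in
lemma rest_le (hU1 : ∀ n, U Λ ht n ≤ 1) {c n : ℕ} {F : List B → ℝ≥0∞} {x : ℝ≥0∞}
    (h : ∀ R, F R ≤ x) :
    ∑' R, LW Λ R * ((if c + HT ht R = n then 1 else 0) * F R) ≤ x := by
  by_cases hc : c ≤ n
  · refine le_trans ?_ (En_le (Λ := Λ) (ht := ht) hU1 (n := n - c) (F := F) (c := x) fun L _ => h L)
    refine ENNReal.tsum_le_tsum fun R => ?_
    by_cases hR : c + HT ht R = n
    · rw [if_pos hR, if_pos (by omega), one_mul]
    · simp [hR]
  · have : ∀ R : List B, LW Λ R * ((if c + HT ht R = n then 1 else 0) * F R) = 0 := by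
      intro R
      rw [if_neg (by omega), zero_mul, mul_zero]
    rw [tsum_congr this, tsum_zero]
    exact zero_le

open Classical in
/-- a crossing is cut into top, piece and rest -/
theorem piece (h1 : ∀ b, 1 ≤ ht b) (hΛ : ∑' b, Λ b ≤ 1) (hU1 : ∀ n, U Λ ht n ≤ 1)
    (n α T i0 : ℕ) (hn : α + i0 + T ≤ n) (F : List B → ℝ≥0∞) (hF : ∀ L, F L ≤ 1)
    (Φ : List B → List B → ℝ≥0∞) (e : ℝ≥0∞)
    (he : ∀ a, FS Λ ht a (fun A => if a + i0 < HT ht A then 1 else 0) ≤ e)
    (hΦ : ∀ A P R, HT ht A ≤ α + i0 → HT ht P ≤ T + i0 → fp ht α A → fp ht T P →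
      F (A ++ (P ++ R)) ≤ Φ A P) :
    En Λ ht n F ≤ FS Λ ht α (fun A => FS Λ ht T (fun P => Φ A P)) + (e + e) := by
  have s1 : En Λ ht n F ≤ FS Λ ht α (fun A => ∑' L2, LW Λ L2 *
      ((if HT ht A + HT ht L2 = n then 1 else 0) * F (A ++ L2))) := by
    have h := split Λ ht h1 α (fun L => (if HT ht L = n then 1 else 0) * F L)
    have e1 : En Λ ht n F ≤ ∑' L, (if α ≤ HT ht L then
        LW Λ L * ((if HT ht L = n then 1 else 0) * F L) else 0) := by
      refine ENNReal.tsum_le_tsum fun L => ?_
      by_cases hL : HT ht L = n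
      · rw [if_pos hL, if_pos (by omega), if_pos hL, one_mul]
      · simp [hL]
    refine e1.trans (le_of_eq ?_)
    rw [h]
    refine tsum_congr fun A => ?_
    by_cases hA : fp ht α A
    · rw [if_pos hA, fw, if_pos hA]
      simp only [HT_append]
    · rw [if_neg hA, fw, if_neg hA, zero_mul]
  refine s1.trans ?_
  have s2 : ∀ A, fp ht α A → ∑' L2, LW Λ L2 *
      ((if HT ht A + HT ht L2 = n then 1 else 0) * F (A ++ L2))
      ≤ (FS Λ ht T (fun P => Φ A P) + e) + (if α + i0 < HT ht A then 1 else 0) := by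
    intro A hA
    by_cases hb : α + i0 < HT ht A
    · rw [if_pos hb]
      refine le_trans (rest_le hU1 fun R => hF _) (le_add_left le_rfl)
    · rw [if_neg hb, add_zero]
      have h := split Λ ht h1 T (fun L2 => (if HT ht A + HT ht L2 = n then 1 else 0) * F (A ++ L2))
      have e1 : ∑' L2, LW Λ L2 * ((if HT ht A + HT ht L2 = n then 1 else 0) * F (A ++ L2))
          ≤ ∑' L2, (if T ≤ HT ht L2 then
            LW Λ L2 * ((if HT ht A + HT ht L2 = n then 1 else 0) * F (A ++ L2)) else 0) := by
        refine ENNReal.tsum_le_tsum fun L2 => ?_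
        by_cases hL : HT ht A + HT ht L2 = n
        · rw [if_pos hL, if_pos (by omega)]
        · simp [hL]
      refine e1.trans ?_
      rw [h]
      have e2 : ∑' L1, (if fp ht T L1 then LW Λ L1 * ∑' L2, LW Λ L2 *
          ((if HT ht A + HT ht (L1 ++ L2) = n then 1 else 0) * F (A ++ (L1 ++ L2))) else 0)
          ≤ FS Λ ht T (fun P => Φ A P + (if T + i0 < HT ht P then 1 else 0)) := by
        refine ENNReal.tsum_le_tsum fun P => ?_
        by_cases hP : fp ht T P
        · rw [if_pos hP, fw, if_pos hP]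
          refine mul_le_mul_right ?_ _
          simp only [HT_append, ← add_assoc]
          refine rest_le hU1 fun R => ?_
          by_cases hb2 : T + i0 < HT ht P
          · rw [if_pos hb2]; exact (hF _).trans (le_add_left le_rfl)
          · rw [if_neg hb2, add_zero]
            exact hΦ A P R (by omega) (by omega) hA hP
        · rw [if_neg hP]; exact zero_le
      refine e2.trans ?_
      rw [FS_add]
      exact add_le_add le_rfl (he T)
  refine (FS_mono s2).trans ?_
  rw [FS_add, FS_add]
  refine (add_le_add (add_le_add le_rfl (FS_const h1 hΛ α e)) (he α)).trans ?_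
  rw [add_assoc]

end piece

section dens

variable {B G : Type*} [AddCommGroup G] {Λ : B → ℝ≥0∞} {ht : B → ℕ} (z : B → G)

/-- height and displacement -/
def D (ht : B → ℕ) (z : B → G) (L : List B) : ℤ × G := ((HT ht L : ℤ), Dp z L)

lemma D_append (L L' : List B) : D ht z (L ++ L') = D ht z L + D ht z L' := by
  simp [D, HT_append, Dp]

open Classical in
/-- law of a first passage list -/
noncomputable def m (Λ : B → ℝ≥0∞) (ht : B → ℕ) (z : B → G) (a : ℕ) (v : ℤ × G) : ℝ≥0∞ :=
  FS Λ ht a (fun L => if D ht z L = v then 1 else 0)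

open Classical in
lemma regroup (a : ℕ) (H : ℤ × G → ℝ≥0∞) :
    FS Λ ht a (fun L => H (D ht z L)) = ∑' v, m Λ ht z a v * H v := by
  have e : ∀ L : List B, H (D ht z L) = ∑' v, (if D ht z L = v then 1 else 0) * H v := by
    intro L
    rw [tsum_eq_single (D ht z L)]
    · simp
    · intro v hv; rw [if_neg hv.symm, zero_mul]
  calc FS Λ ht a (fun L => H (D ht z L))
      = FS Λ ht a (fun L => ∑' v, (if D ht z L = v then 1 else 0) * H v) := by
        congr 1; funext L; exact e L
    _ = ∑' v, FS Λ ht a (fun L => (if D ht z L = v then 1 else 0) * H v) := FS_tsum _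
    _ = _ := by
        refine tsum_congr fun v => ?_
        rw [m, mul_comm, ← FS_mul]
        congr 1; funext L; rw [mul_comm]

lemma sum_m (h1 : ∀ b, 1 ≤ ht b) (hΛ : ∑' b, Λ b ≤ 1) (a : ℕ) : ∑' v, m Λ ht z a v ≤ 1 := by
  have h := regroup (Λ := Λ) (ht := ht) z a (fun _ => 1)
  simp only [mul_one] at h
  rw [← h]
  exact FS_one h1 hΛ a

lemma sum_m_sub (h1 : ∀ b, 1 ≤ ht b) (hΛ : ∑' b, Λ b ≤ 1) (a : ℕ) (v : ℤ × G) :
    ∑' v', m Λ ht z a (v - v') ≤ 1 := by
  have := (Equiv.subLeft v).tsum_eq (m Λ ht z a)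
  simp only [Equiv.subLeft_apply] at this
  rw [this]
  exact sum_m z h1 hΛ a

open Classical in
/-- **smooth density** -/
theorem dens (h1 : ∀ b, 1 ≤ ht b) (hΛ : ∑' b, Λ b ≤ 1) (T i0 : ℕ) (th q e : ℝ≥0∞) (hq1 : q ≤ 1)
    (he : FS Λ ht T (fun A => if T + i0 < HT ht A then 1 else 0) ≤ e)
    (hq : FS Λ ht T (fun A => if th < m Λ ht z T (D ht z A) then 1 else 0) ≤ q) (J : ℕ) :
    ∀ a, J * (T + i0) ≤ a → ∃ b : ℤ × G → ℝ≥0∞,
      (∀ v, m Λ ht z a v ≤ (i0 + 1) * th * ∑ l ∈ Finset.range J, q ^ l + b v) ∧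
      ∑' v, b v ≤ q ^ J + J * e := by
  induction J with
  | zero =>
    intro a _
    refine ⟨m Λ ht z a, fun v => ?_, ?_⟩
    · simp
    · simpa using sum_m z h1 hΛ a
  | succ J ih =>
    intro a ha
    have hch : ∀ c, ∃ b : ℤ × G → ℝ≥0∞, c ≤ T + i0 →
        (∀ v, m Λ ht z (a - c) v ≤ (i0 + 1) * th * ∑ l ∈ Finset.range J, q ^ l + b v) ∧
        ∑' v, b v ≤ q ^ J + J * e := by
      intro c
      by_cases hc : c ≤ T + i0
      · obtain ⟨b, hb⟩ := ih (a - c) (by
          have : (J + 1) * (T + i0) = J * (T + i0) + (T + i0) := by ring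
          omega)
        exact ⟨b, fun _ => hb⟩
      · exact ⟨0, fun h => absurd h hc⟩
    choose b hb using hch
    set S := (i0 + 1 : ℝ≥0∞) * th * ∑ l ∈ Finset.range J, q ^ l with hS
    have hTa : T ≤ a := by
      have : (J + 1) * (T + i0) = J * (T + i0) + (T + i0) := by ring
      omega
    set bn : ℤ × G → ℝ≥0∞ := fun v => FS Λ ht T (fun A =>
      (if T + i0 < HT ht A then m Λ ht z (a - HT ht A) (v - D ht z A) else 0)
      + (if HT ht A ≤ T + i0 ∧ th < m Λ ht z T (D ht z A) then
          b (HT ht A) (v - D ht z A) else 0)) with hbn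
    refine ⟨bn, fun v => ?_, ?_⟩
    · have e1 : m Λ ht z a v = FS Λ ht T (fun A => m Λ ht z (a - HT ht A) (v - D ht z A)) := by
        rw [m, FS_split h1 T a hTa]
        congr 1
        funext A
        rw [m]
        congr 1
        funext L
        have : (D ht z (A ++ L) = v) = (D ht z L = v - D ht z A) := by
          rw [D_append]
          exact propext ⟨fun h => by rw [← h]; abel, fun h => by rw [h]; abel⟩
        simp only [this]
      have e2 : ∀ A, m Λ ht z (a - HT ht A) (v - D ht z A)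
          ≤ ((if HT ht A ≤ T + i0 ∧ m Λ ht z T (D ht z A) ≤ th then
                m Λ ht z (a - HT ht A) (v - D ht z A) else 0)
              + S * (if th < m Λ ht z T (D ht z A) then 1 else 0))
            + ((if T + i0 < HT ht A then m Λ ht z (a - HT ht A) (v - D ht z A) else 0)
              + (if HT ht A ≤ T + i0 ∧ th < m Λ ht z T (D ht z A) then
                  b (HT ht A) (v - D ht z A) else 0)) := by
        intro A
        by_cases hA : T + i0 < HT ht A
        · rw [if_pos hA]
          exact le_add_left (le_add_right le_rfl)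
        · have hA' : HT ht A ≤ T + i0 := by omega
          by_cases hp : th < m Λ ht z T (D ht z A)
          · simp only [hA, hA', hp, if_true, true_and, if_false, zero_add, mul_one,
              not_le.2 hp]
            exact (hb (HT ht A) hA').1 _
          · simp only [hA', not_lt.1 hp, true_and, if_true]
            exact le_add_right (le_add_right le_rfl)
      have e3 : FS Λ ht T (fun A => if HT ht A ≤ T + i0 ∧ m Λ ht z T (D ht z A) ≤ th then
                m Λ ht z (a - HT ht A) (v - D ht z A) else 0) ≤ (i0 + 1) * th := by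
        set H : ℤ × G → ℝ≥0∞ := fun v' => ∑ i ∈ Finset.range (i0 + 1),
          (if m Λ ht z T v' ≤ th then m Λ ht z (a - (T + i)) (v - v') else 0) with hH
        have f1 : FS Λ ht T (fun A => if HT ht A ≤ T + i0 ∧ m Λ ht z T (D ht z A) ≤ th then
                m Λ ht z (a - HT ht A) (v - D ht z A) else 0)
            ≤ FS Λ ht T (fun A => H (D ht z A)) := by
          refine FS_mono fun A hA => ?_
          have hTA := le_HT_of_fp ht hA
          by_cases hc : HT ht A ≤ T + i0 ∧ m Λ ht z T (D ht z A) ≤ th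
          · rw [if_pos hc]
            have hmem : HT ht A - T ∈ Finset.range (i0 + 1) := Finset.mem_range.2 (by omega)
            have hle := Finset.single_le_sum (f := fun i =>
              (if m Λ ht z T (D ht z A) ≤ th then m Λ ht z (a - (T + i)) (v - D ht z A) else 0))
              (fun _ _ => zero_le) hmem
            refine le_trans (le_of_eq ?_) hle
            simp only [if_pos hc.2]
            rw [show T + (HT ht A - T) = HT ht A by omega]
          · rw [if_neg hc]; exact zero_le
        refine f1.trans ?_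
        rw [regroup]
        calc ∑' v', m Λ ht z T v' * H v'
            = ∑' v', ∑ i ∈ Finset.range (i0 + 1), m Λ ht z T v' *
              (if m Λ ht z T v' ≤ th then m Λ ht z (a - (T + i)) (v - v') else 0) := by
              refine tsum_congr fun v' => ?_
              rw [hH, Finset.mul_sum]
          _ = ∑ i ∈ Finset.range (i0 + 1), ∑' v', m Λ ht z T v' *
              (if m Λ ht z T v' ≤ th then m Λ ht z (a - (T + i)) (v - v') else 0) :=
              Summable.tsum_finsetSum (fun _ _ => ENNReal.summable)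
          _ ≤ ∑ i ∈ Finset.range (i0 + 1), th := by
              refine Finset.sum_le_sum fun i _ => ?_
              calc _ ≤ ∑' v', th * m Λ ht z (a - (T + i)) (v - v') := by
                    refine ENNReal.tsum_le_tsum fun v' => ?_
                    by_cases hv : m Λ ht z T v' ≤ th
                    · rw [if_pos hv]; exact mul_le_mul_left hv _
                    · rw [if_neg hv, mul_zero]; exact zero_le
                _ = th * ∑' v', m Λ ht z (a - (T + i)) (v - v') := ENNReal.tsum_mul_left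
                _ ≤ th * 1 := mul_le_mul_right (sum_m_sub z h1 hΛ _ _) _
                _ = th := mul_one _
          _ = (i0 + 1) * th := by simp
      rw [e1]
      refine (FS_mono fun A _ => e2 A).trans ?_
      rw [FS_add, FS_add, FS_mul]
      refine add_le_add ?_ le_rfl
      refine (add_le_add e3 (mul_le_mul_right hq S)).trans (le_of_eq ?_)
      rw [Finset.sum_range_succ', hS, pow_zero, mul_add, mul_one]
      have : ∑ k ∈ Finset.range J, q ^ (k + 1) = q * ∑ l ∈ Finset.range J, q ^ l := by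
        rw [Finset.mul_sum]
        exact Finset.sum_congr rfl fun k _ => by rw [pow_succ, mul_comm]
      rw [this]
      ring
    · have e0 : ∑' v, bn v = FS Λ ht T (fun A => ∑' v,
          ((if T + i0 < HT ht A then m Λ ht z (a - HT ht A) (v - D ht z A) else 0)
          + (if HT ht A ≤ T + i0 ∧ th < m Λ ht z T (D ht z A) then
              b (HT ht A) (v - D ht z A) else 0))) := (FS_tsum _).symm
      rw [e0]
      have e1 : ∀ A, ∑' v,
          ((if T + i0 < HT ht A then m Λ ht z (a - HT ht A) (v - D ht z A) else 0)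
          + (if HT ht A ≤ T + i0 ∧ th < m Λ ht z T (D ht z A) then
              b (HT ht A) (v - D ht z A) else 0))
          ≤ (if T + i0 < HT ht A then 1 else 0)
            + (q ^ J + J * e) * (if th < m Λ ht z T (D ht z A) then 1 else 0) := by
        intro A
        have hshift : ∀ f : ℤ × G → ℝ≥0∞, ∑' v, f (v - D ht z A) = ∑' v, f v := fun f => by
          have := (Equiv.subRight (D ht z A)).tsum_eq f
          simpa [Equiv.subRight_apply] using this
        rw [ENNReal.tsum_add]
        refine add_le_add ?_ ?_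
        · by_cases hA : T + i0 < HT ht A
          · simp only [if_pos hA]
            rw [hshift]
            exact sum_m z h1 hΛ _
          · simp [hA]
        · by_cases hA : HT ht A ≤ T + i0 ∧ th < m Λ ht z T (D ht z A)
          · simp only [if_pos hA, if_pos hA.2, mul_one]
            rw [hshift]
            exact (hb _ hA.1).2
          · simp [if_neg hA]
      refine (FS_mono fun A _ => e1 A).trans ?_
      rw [FS_add, FS_mul]
      refine (add_le_add he (mul_le_mul_right hq _)).trans ?_
      have hJ : (J : ℝ≥0∞) * e * q ≤ J * e := by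
        calc (J : ℝ≥0∞) * e * q ≤ J * e * 1 := mul_le_mul_right hq1 _
          _ = _ := mul_one _
      calc e + (q ^ J + J * e) * q = q ^ (J + 1) + (e + J * e * q) := by ring
        _ ≤ q ^ (J + 1) + (e + J * e) := by gcongr
        _ = _ := by push_cast; ring

end dens

end Crest.Agent.R154.Asm678
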