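import Crest.Agent.R154.FP_178

/-! Row 154 (helper810), ROAD 801: assembly, part 1: traces of lists, three pieces, one window. -/

set_option autoImplicit false

namespace Crest.Agent.R154.Asm810

open scoped ENNReal
open Crest.Agent.R154.B5A Crest.Agent.R154.FP178

variable {B G : Type*} [AddCommGroup G]

/-- sites read by a list placed with its top at `(x, a)` -/
def TT (h : B → ℕ) (z : B → G) (s : B → Set (G × ℕ)) : List B → G → ℕ → Set (G × ℕ)
  | [], _, _ => ∅
  | b :: L, x, a => {p | ∃ q ∈ s b, p = (x + q.1, a + q.2)} ∪ TT h z s L (x + z b) (a + h b)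

/-- displacement of a list -/
def Dp (z : B → G) (L : List B) : G := (L.map z).sum

lemma Dp_nil (z : B → G) : Dp z [] = 0 := by simp [Dp]
lemma Dp_cons (z : B → G) (b : B) (L : List B) : Dp z (b :: L) = z b + Dp z L := by simp [Dp]
lemma Dp_append (z : B → G) (L L' : List B) : Dp z (L ++ L') = Dp z L + Dp z L' := by simp [Dp]

variable (h : B → ℕ) (z : B → G) (s : B → Set (G × ℕ))

lemma TT_append (L L' : List B) (x : G) (a : ℕ) :
    TT h z s (L ++ L') x a = TT h z s L x a ∪ TT h z s L' (x + Dp z L) (a + HT h L) := by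
  induction L generalizing x a with
  | nil => simp [TT, Dp_nil, HT_nil]
  | cons b L ih =>
    simp only [List.cons_append, TT, ih, Dp_cons, HT_cons]
    rw [Set.union_assoc, add_assoc, add_assoc]

lemma TT_depth (hs : ∀ b q, q ∈ s b → 1 ≤ q.2 ∧ q.2 ≤ h b) (L : List B) (x : G) (a : ℕ)
    (p : G × ℕ) (hp : p ∈ TT h z s L x a) : a < p.2 ∧ p.2 ≤ a + HT h L := by
  induction L generalizing x a with
  | nil => exact absurd hp (by simp [TT])
  | cons b L ih =>
    rw [HT_cons]
    rcases hp with ⟨q, hq, rfl⟩ | hp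
    · have := hs b q hq
      simp only
      omega
    · have := ih _ _ hp
      omega

lemma TT_shift (L : List B) (x g : G) (a : ℕ) (p : G × ℕ) :
    p ∈ TT h z s L x a ↔ (p.1 + g, p.2) ∈ TT h z s L (x + g) a := by
  induction L generalizing x a with
  | nil => simp [TT]
  | cons b L ih =>
    simp only [TT, Set.mem_union, Set.mem_ofPred_eq]
    rw [ih (x + z b) (a + h b), show x + z b + g = x + g + z b by abel]
    refine or_congr ?_ Iff.rfl
    constructor
    · rintro ⟨q, hq, rfl⟩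
      exact ⟨q, hq, by simp only [Prod.mk.injEq, and_true]; abel⟩
    · rintro ⟨q, hq, h1⟩
      refine ⟨q, hq, ?_⟩
      rw [Prod.mk.injEq] at h1
      refine Prod.ext ?_ h1.2
      have := h1.1
      simp only
      have h2 : p.1 + g = (x + q.1) + g := by rw [this]; abel
      exact add_right_cancel h2

/-! ### three pieces -/

variable (Λ : B → ℝ≥0∞)

open Classical in
/-- weight of the first passage pieces of depth `a` with overshoot `≤ i0` -/
noncomputable def wf (a i0 : ℕ) (L : List B) : ℝ≥0∞ := if fp h a L ∧ HT h L ≤ a + i0 then LW Λ L else 0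

open Classical in
/-- overshoot weight -/
noncomputable def ov (i0 : ℕ) : ℝ≥0∞ := ∑' k, tail Λ h (i0 + k)

open Classical in
lemma wf_sum_le (h1 : ∀ b, 1 ≤ h b) (hΛ : ∑' b, Λ b ≤ 1) (a i0 : ℕ) :
    ∑' L, wf h Λ a i0 L ≤ 1 := by
  refine le_trans (ENNReal.tsum_le_tsum fun L => ?_) (sum_FP Λ h h1 hΛ a)
  unfold wf
  by_cases hf : fp h a L
  · by_cases hh : HT h L ≤ a + i0 <;> simp [hf, hh]
  · simp [hf]

open Classical in
/-- one cut: sum over crossings of height `n` -/
lemma cut (h1 : ∀ b, 1 ≤ h b) (hU1 : ∀ n, U Λ h n ≤ 1) (a i0 n : ℕ) (han : a ≤ n)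
    (f : List B → ℝ≥0∞) (hf : ∀ L, f L ≤ 1) :
    ∑' L, (if HT h L = n then LW Λ L * f L else 0)
      ≤ ov h Λ i0 + ∑' P, wf h Λ a i0 P *
        ∑' L, (if HT h P + HT h L = n then LW Λ L * f (P ++ L) else 0) := by
  have e0 : ∑' L, (if HT h L = n then LW Λ L * f L else 0)
      = ∑' L, (if a ≤ HT h L then LW Λ L * (if HT h L = n then f L else 0) else 0) := by
    refine tsum_congr fun L => ?_
    by_cases hn : HT h L = n
    · rw [if_pos hn, if_pos (by omega), if_pos hn]
    · rw [if_neg hn, if_neg hn]; simp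
  rw [e0, split Λ h h1 a]
  have hin : ∀ P : List B, ∑' L2, LW Λ L2 * (if HT h (P ++ L2) = n then f (P ++ L2) else 0)
      = ∑' L, (if HT h P + HT h L = n then LW Λ L * f (P ++ L) else 0) := by
    intro P
    refine tsum_congr fun L => ?_
    rw [HT_append]
    by_cases hn : HT h P + HT h L = n
    · rw [if_pos hn, if_pos hn]
    · rw [if_neg hn, if_neg hn, mul_zero]
  have hin1 : ∀ P : List B, ∑' L, (if HT h P + HT h L = n then LW Λ L * f (P ++ L) else 0) ≤ 1 := by
    intro P
    refine le_trans (ENNReal.tsum_le_tsum fun L => ?_) (hU1 (n - HT h P))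
    by_cases hn : HT h P + HT h L = n
    · rw [if_pos hn, if_pos (by omega)]
      calc LW Λ L * f (P ++ L) ≤ LW Λ L * 1 := mul_le_mul_right (hf _) _
        _ = LW Λ L := mul_one _
    · rw [if_neg hn]; exact zero_le
  have hb : ∀ P : List B, (if fp h a P then LW Λ P *
      ∑' L2, LW Λ L2 * (if HT h (P ++ L2) = n then f (P ++ L2) else 0) else 0)
      ≤ (if fp h a P ∧ a + i0 < HT h P then LW Λ P else 0) + wf h Λ a i0 P *
        ∑' L, (if HT h P + HT h L = n then LW Λ L * f (P ++ L) else 0) := by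
    intro P
    rw [hin P]
    unfold wf
    by_cases hp : fp h a P
    · by_cases hh : HT h P ≤ a + i0
      · rw [if_pos hp, if_neg (by omega), if_pos ⟨hp, hh⟩, zero_add]
      · rw [if_pos hp, if_pos ⟨hp, by omega⟩, if_neg (by tauto), zero_mul, add_zero]
        calc _ ≤ LW Λ P * 1 := mul_le_mul_right (hin1 P) _
          _ = _ := mul_one _
    · rw [if_neg hp]; exact zero_le
  refine (ENNReal.tsum_le_tsum hb).trans ?_
  rw [ENNReal.tsum_add]
  exact add_le_add (overshoot Λ h h1 hU1 i0 a) le_rfl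

open Classical in
/-- two cuts -/
lemma cut2 (h1 : ∀ b, 1 ≤ h b) (hΛ : ∑' b, Λ b ≤ 1) (hU1 : ∀ n, U Λ h n ≤ 1) (a τ i0 n : ℕ)
    (hn : a + i0 + τ ≤ n) (f : List B → ℝ≥0∞) (hf : ∀ L, f L ≤ 1)
    (g : List B → List B → ℝ≥0∞)
    (hg : ∀ P1 P2 P3, fp h a P1 → HT h P1 ≤ a + i0 → fp h τ P2 → HT h P2 ≤ τ + i0 →
      f (P1 ++ (P2 ++ P3)) ≤ g P1 P2) :
    ∑' L, (if HT h L = n then LW Λ L * f L else 0)
      ≤ 2 * ov h Λ i0 + ∑' P1, wf h Λ a i0 P1 * ∑' P2, wf h Λ τ i0 P2 * g P1 P2 := by
  refine (cut h Λ h1 hU1 a i0 n (by omega) f hf).trans ?_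
  rw [two_mul, add_assoc]
  refine add_le_add le_rfl ?_
  have key : ∀ P1 : List B, wf h Λ a i0 P1 *
      ∑' L, (if HT h P1 + HT h L = n then LW Λ L * f (P1 ++ L) else 0)
      ≤ wf h Λ a i0 P1 * ov h Λ i0 + wf h Λ a i0 P1 * ∑' P2, wf h Λ τ i0 P2 * g P1 P2 := by
    intro P1
    by_cases hp : fp h a P1 ∧ HT h P1 ≤ a + i0
    · rw [← mul_add]
      refine mul_le_mul_right ?_ _
      have e1 : ∑' L, (if HT h P1 + HT h L = n then LW Λ L * f (P1 ++ L) else 0)
          = ∑' L, (if HT h L = n - HT h P1 then LW Λ L * f (P1 ++ L) else 0) := by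
        refine tsum_congr fun L => ?_
        by_cases hq : HT h P1 + HT h L = n
        · rw [if_pos hq, if_pos (by omega)]
        · rw [if_neg hq, if_neg (by omega)]
      rw [e1]
      refine (cut h Λ h1 hU1 τ i0 (n - HT h P1) (by omega) (fun L => f (P1 ++ L))
        (fun L => hf _)).trans ?_
      refine add_le_add le_rfl (ENNReal.tsum_le_tsum fun P2 => ?_)
      by_cases hp2 : fp h τ P2 ∧ HT h P2 ≤ τ + i0
      · refine mul_le_mul_right ?_ _
        calc ∑' L, (if HT h P2 + HT h L = n - HT h P1 then LW Λ L * f (P1 ++ (P2 ++ L)) else 0)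
            ≤ ∑' L, (if HT h L = n - HT h P1 - HT h P2 then LW Λ L else 0) * g P1 P2 := by
              refine ENNReal.tsum_le_tsum fun L => ?_
              by_cases hq : HT h P2 + HT h L = n - HT h P1
              · rw [if_pos hq, if_pos (by omega)]
                exact mul_le_mul_right (hg P1 P2 L hp.1 hp.2 hp2.1 hp2.2) _
              · rw [if_neg hq]; exact zero_le
          _ = U Λ h (n - HT h P1 - HT h P2) * g P1 P2 := by
              rw [ENNReal.tsum_mul_right]; rfl
          _ ≤ 1 * g P1 P2 := mul_le_mul_left (hU1 _) _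
          _ = _ := one_mul _
      · have : wf h Λ τ i0 P2 = 0 := by unfold wf; rw [if_neg hp2]
        rw [this, zero_mul, zero_mul]
    · have : wf h Λ a i0 P1 = 0 := by unfold wf; rw [if_neg hp]
      rw [this, zero_mul, zero_mul, zero_mul, add_zero]
  refine (ENNReal.tsum_le_tsum key).trans ?_
  rw [ENNReal.tsum_add, ENNReal.tsum_mul_right]
  refine add_le_add ?_ le_rfl
  calc _ ≤ 1 * ov h Λ i0 := mul_le_mul_left (wf_sum_le h Λ h1 hΛ a i0) _
    _ = _ := one_mul _

end Crest.Agent.R154.Asm810
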