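import Crest.Agent.R154.FP_178
import Crest.Agent.R154.Bd_958

/-! Row 154, ROAD 801, assembly (helper958), part 1: pieces, low density. -/

set_option autoImplicit false

namespace Crest.Agent.R154.Asm958

open Crest.Agent.R154.B5A Crest.Agent.R154.FP178
open scoped ENNReal

section one

variable {B : Type*} (Λ : B → ℝ≥0∞) (ht : B → ℕ)

open Classical in
/-- weight of a piece: first passage of `T` with overshoot at most `i0` -/
noncomputable def PW (T i0 : ℕ) (A : List B) : ℝ≥0∞ :=
  if fp ht T A ∧ HT ht A ≤ T + i0 then LW Λ A else 0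

lemma PW_le (T i0 : ℕ) (A : List B) : PW Λ ht T i0 A ≤ LW Λ A := by
  rw [PW]; split_ifs <;> simp

lemma sum_PW_le (h1 : ∀ b, 1 ≤ ht b) (hΛ : ∑' b, Λ b ≤ 1) (T i0 : ℕ) :
    ∑' A, PW Λ ht T i0 A ≤ 1 := by
  classical
  refine le_trans (ENNReal.tsum_le_tsum fun A => ?_) (sum_FP Λ ht h1 hΛ T)
  rw [PW]
  by_cases h : fp ht T A
  · rw [if_pos h]; split_ifs <;> simp
  · rw [if_neg (fun h' => h h'.1)]; exact zero_le

open Classical in
/-- decomposition of the lists of height `n` into `J` pieces and a rest -/
theorem pieces (h1 : ∀ b, 1 ≤ ht b) (hΛ : ∑' b, Λ b ≤ 1) (hU : ∀ n, U Λ ht n ≤ 1) (T i0 : ℕ)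
    (J : ℕ) : ∀ (n : ℕ) (f : List B → ℝ≥0∞) (g : List (List B) → ℝ≥0∞), (∀ L, f L ≤ 1) →
    (∀ As R, As.length = J → (∀ A ∈ As, fp ht T A ∧ HT ht A ≤ T + i0) →
      HT ht As.flatten + HT ht R = n → f (As.flatten ++ R) ≤ g As) →
    J * (T + i0) ≤ n →
    ∑' L : List B, (if HT ht L = n then LW Λ L * f L else 0)
      ≤ J * (∑' k, tail Λ ht (i0 + k)) + SL (PW Λ ht T i0) J g := by
  induction J with
  | zero =>
    intro n f g hf hg _
    rw [SL_zero, Nat.cast_zero, zero_mul, zero_add]
    calc ∑' L : List B, (if HT ht L = n then LW Λ L * f L else 0)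
        ≤ ∑' L : List B, (if HT ht L = n then LW Λ L else 0) * g [] := by
          refine ENNReal.tsum_le_tsum fun L => ?_
          by_cases h : HT ht L = n
          · rw [if_pos h, if_pos h]
            gcongr
            have := hg [] L rfl (by simp) (by simpa [HT] using h)
            simpa using this
          · simp [h]
      _ = U Λ ht n * g [] := by rw [ENNReal.tsum_mul_right]; rfl
      _ ≤ 1 * g [] := mul_le_mul_left (hU n) _
      _ = g [] := one_mul _
  | succ J ih =>
    intro n f g hf hg hn
    have hTn : T ≤ n := by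
      have : (J + 1) * (T + i0) = J * (T + i0) + (T + i0) := by ring
      omega
    have e0 : ∑' L : List B, (if HT ht L = n then LW Λ L * f L else 0)
        = ∑' L : List B, (if T ≤ HT ht L then
            LW Λ L * (if HT ht L = n then f L else 0) else 0) := by
      refine tsum_congr fun L => ?_
      by_cases h : HT ht L = n
      · rw [if_pos h, if_pos (by omega), if_pos h]
      · rw [if_neg h, if_neg h]; simp
    rw [e0, split Λ ht h1 T (fun L => if HT ht L = n then f L else 0)]
    set ε := ∑' k, tail Λ ht (i0 + k) with hε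
    have key : ∀ L1 : List B, (if fp ht T L1 then LW Λ L1 *
          ∑' L2, LW Λ L2 * (if HT ht (L1 ++ L2) = n then f (L1 ++ L2) else 0) else 0)
        ≤ (if fp ht T L1 ∧ T + i0 < HT ht L1 then LW Λ L1 else 0)
          + PW Λ ht T i0 L1 * (J * ε + SL (PW Λ ht T i0) J (fun As => g (L1 :: As))) := by
      intro L1
      by_cases hfp : fp ht T L1
      · rw [if_pos hfp]
        by_cases hov : T + i0 < HT ht L1
        · rw [if_pos ⟨hfp, hov⟩]
          refine le_trans ?_ le_self_add
          have : ∑' L2, LW Λ L2 * (if HT ht (L1 ++ L2) = n then f (L1 ++ L2) else 0) ≤ 1 := by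
            refine le_trans (ENNReal.tsum_le_tsum fun L2 => ?_) (hU (n - HT ht L1))
            by_cases h : HT ht (L1 ++ L2) = n
            · rw [if_pos h, if_pos (by rw [HT_append] at h; omega)]
              calc LW Λ L2 * f (L1 ++ L2) ≤ LW Λ L2 * 1 := by gcongr; exact hf _
                _ = LW Λ L2 := mul_one _
            · rw [if_neg h, mul_zero]; exact zero_le
          calc _ ≤ LW Λ L1 * 1 := by gcongr
            _ = _ := mul_one _
        · rw [if_neg (fun h => hov h.2), zero_add, PW, if_pos ⟨hfp, by omega⟩]
          gcongr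
          have hJ : J * (T + i0) ≤ n - HT ht L1 := by
            have : (J + 1) * (T + i0) = J * (T + i0) + (T + i0) := by ring
            omega
          refine le_trans ?_ (ih (n - HT ht L1) (fun L2 => f (L1 ++ L2))
            (fun As => g (L1 :: As)) (fun _ => hf _) ?_ hJ)
          · refine ENNReal.tsum_le_tsum fun L2 => ?_
            by_cases h : HT ht (L1 ++ L2) = n
            · rw [if_pos h, if_pos (by rw [HT_append] at h; omega)]
            · rw [if_neg h, mul_zero]; exact zero_le
          · intro As R hlen hall hH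
            have h1' : HT ht L1 ≤ T + i0 := by omega
            have hLn : HT ht L1 ≤ n := by
              have : (J + 1) * (T + i0) = J * (T + i0) + (T + i0) := by ring
              omega
            have := hg (L1 :: As) R (by simp [hlen]) (by
              intro A hA
              rcases List.mem_cons.1 hA with rfl | hA
              · exact ⟨hfp, h1'⟩
              · exact hall A hA) (by
                rw [List.flatten_cons, HT_append]; omega)
            simpa [List.append_assoc] using this
      · rw [if_neg hfp]; exact zero_le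
    calc _ ≤ ∑' L1 : List B, ((if fp ht T L1 ∧ T + i0 < HT ht L1 then LW Λ L1 else 0)
          + PW Λ ht T i0 L1 * (J * ε + SL (PW Λ ht T i0) J (fun As => g (L1 :: As)))) :=
        ENNReal.tsum_le_tsum key
      _ = (∑' L1 : List B, (if fp ht T L1 ∧ T + i0 < HT ht L1 then LW Λ L1 else 0))
          + ((∑' L1, PW Λ ht T i0 L1) * (J * ε) + SL (PW Λ ht T i0) (J + 1) g) := by
        rw [ENNReal.tsum_add, SL_succ]
        congr 1
        simp_rw [mul_add]
        rw [ENNReal.tsum_add, ENNReal.tsum_mul_right]
      _ ≤ ε + (1 * (J * ε) + SL (PW Λ ht T i0) (J + 1) g) := by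
        gcongr
        · exact overshoot Λ ht h1 hU i0 T
        · exact sum_PW_le Λ ht h1 hΛ T i0
      _ = _ := by push_cast; ring

end one

section SLs

variable {A : Type*} (q : A → ℝ≥0∞)

lemma SL_le_one (hq : ∑' a, q a ≤ 1) (j : ℕ) {F : List A → ℝ≥0∞} (hF : ∀ L, L.length = j → F L ≤ 1) :
    SL q j F ≤ 1 := by
  refine le_trans (SL_mono q j hF) ?_
  rw [SL_pow]
  exact pow_le_one₀ zero_le hq

lemma SL_le_const (hq : ∑' a, q a ≤ 1) (j : ℕ) {F : List A → ℝ≥0∞} (c : ℝ≥0∞)
    (hF : ∀ L, L.length = j → F L ≤ c) : SL q j F ≤ c := by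
  calc SL q j F ≤ SL q j (fun _ => c * 1) := SL_mono q j (fun L hL => by simpa using hF L hL)
    _ = c * SL q j (fun _ => 1) := SL_const_mul q j c _
    _ ≤ c * 1 := by gcongr; exact SL_le_one q hq j (fun _ _ => le_rfl)
    _ = c := mul_one c

lemma SL_tsum {I : Type*} (j : ℕ) (F : I → List A → ℝ≥0∞) :
    SL q j (fun L => ∑' i, F i L) = ∑' i, SL q j (F i) := by
  simp only [SL]
  rw [ENNReal.tsum_comm]
  refine tsum_congr fun L => ?_
  by_cases h : L.length = j
  · simp [h, ENNReal.tsum_mul_left]
  · simp [h]

lemma SL_comm {A' : Type*} (q' : A' → ℝ≥0∞) (j j' : ℕ) (F : List A → List A' → ℝ≥0∞) :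
    SL q j (fun L => SL q' j' (fun L' => F L L')) = SL q' j' (fun L' => SL q j (fun L => F L L')) := by
  have e : ∀ L : List A, SL q' j' (fun L' => F L L')
      = ∑' L' : List A', (if L'.length = j' then LW q' L' * F L L' else 0) := fun _ => rfl
  simp_rw [e]
  rw [SL_tsum]
  show _ = ∑' L' : List A', (if L'.length = j' then LW q' L' * SL q j (fun L => F L L') else 0)
  refine tsum_congr fun L' => ?_
  by_cases h : L'.length = j'
  · simp only [h, if_true]
    exact SL_const_mul q j _ _
  · simp only [h, if_false]
    simp [SL]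

/-- pick the piece number `j` -/
lemma pick (hq : ∑' a, q a ≤ 1) {j J : ℕ} (hj : j < J) (Φ : List A → ℝ≥0∞)
    (Ψ : List A → A → ℝ≥0∞)
    (h : ∀ P a S, P.length = j → (P ++ a :: S).length = J → Φ (P ++ a :: S) ≤ Ψ P a) :
    SL q J Φ ≤ SL q j (fun P => ∑' a, q a * Ψ P a) := by
  obtain ⟨r, rfl⟩ : ∃ r, J = j + (r + 1) := ⟨J - j - 1, by omega⟩
  rw [SL_add]
  refine SL_mono q j fun P hP => ?_
  rw [SL_succ]
  refine ENNReal.tsum_le_tsum fun a => ?_
  gcongr
  exact SL_le_const q hq r _ fun S hS => h P a S hP (by simp [hP, hS])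

lemma SL_all (j : ℕ) (N : A → Prop) [DecidablePred N] :
    SL q j (fun L => if ∀ a ∈ L, N a then 1 else 0) = (∑' a, if N a then q a else 0) ^ j := by
  classical
  induction j with
  | zero => simp [SL_zero]
  | succ j ih =>
    rw [SL_succ, pow_succ, ← ih, mul_comm, ← ENNReal.tsum_mul_right]
    refine tsum_congr fun a => ?_
    by_cases h : N a
    · rw [if_pos h]
      congr 1
      refine SL_congr q j fun L _ => ?_
      simp [h]
    · rw [if_neg h, zero_mul]
      have : SL q j (fun L => if ∀ a_1 ∈ a :: L, N a_1 then (1 : ℝ≥0∞) else 0) = 0 := by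
        rw [SL_congr q j (F' := fun _ => 0)]
        · simp [SL]
        · intro L _; simp [h]
      rw [this, mul_zero]

open Classical in
/-- mass function -/
noncomputable def pm {S : Type*} (v : A → S) (x : S) : ℝ≥0∞ := ∑' a, if v a = x then q a else 0

open Classical in
/-- **low density** (801 (1) by union bound): lists containing a low letter have density `≤ j θ`. -/
lemma low_density {S : Type*} [AddCommMonoid S] [IsLeftCancelAdd S] [IsRightCancelAdd S]
    (hq : ∑' a, q a ≤ 1) (v : A → S) (θ : ℝ≥0∞) (j : ℕ) :
    ∀ P : S → Prop, (∀ x y, P x → P y → x = y) →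
    SL q j (fun L => if (∃ a ∈ L, pm q v (v a) ≤ θ) ∧ P (L.map v).sum then 1 else 0)
      ≤ j * θ := by
  induction j with
  | zero => intro P _; simp [SL_zero]
  | succ j ih =>
    intro P hP
    rw [SL_succ]
    calc ∑' a, q a * SL q j (fun L => if (∃ a' ∈ a :: L, pm q v (v a') ≤ θ) ∧
            P ((a :: L).map v).sum then 1 else 0)
        ≤ ∑' a, (q a * SL q j (fun L => if pm q v (v a) ≤ θ ∧ P (v a + (L.map v).sum)
              then 1 else 0)
            + q a * (j * θ)) := by
          refine ENNReal.tsum_le_tsum fun a => ?_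
          rw [← mul_add]
          gcongr
          calc SL q j (fun L => if (∃ a' ∈ a :: L, pm q v (v a') ≤ θ) ∧
                P ((a :: L).map v).sum then 1 else 0)
              ≤ SL q j (fun L => (if pm q v (v a) ≤ θ ∧ P (v a + (L.map v).sum) then 1 else 0)
                + (if (∃ a' ∈ L, pm q v (v a') ≤ θ) ∧ P (v a + (L.map v).sum)
                  then 1 else 0)) := by
                refine SL_mono q j fun L _ => ?_
                simp only [List.map_cons, List.sum_cons]
                by_cases h1 : P (v a + (L.map v).sum)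
                · by_cases h2 : pm q v (v a) ≤ θ
                  · rw [if_pos ⟨⟨a, List.mem_cons_self, h2⟩, h1⟩, if_pos ⟨h2, h1⟩]
                    exact le_self_add
                  · by_cases h3 : ∃ a' ∈ L, pm q v (v a') ≤ θ
                    · have h3' := h3
                      obtain ⟨a', ha', hθ⟩ := h3
                      rw [if_pos ⟨⟨a', List.mem_cons_of_mem _ ha', hθ⟩, h1⟩,
                        if_pos (⟨h3', h1⟩ : (∃ a' ∈ L, pm q v (v a') ≤ θ) ∧ _)]
                      exact le_add_self
                    · rw [if_neg]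
                      · exact zero_le
                      · rintro ⟨⟨a', ha', hθ⟩, _⟩
                        rcases List.mem_cons.1 ha' with rfl | ha'
                        · exact h2 hθ
                        · exact h3 ⟨a', ha', hθ⟩
                · rw [if_neg (fun h => h1 h.2)]; exact zero_le
            _ = _ + SL q j (fun L => if (∃ a' ∈ L, pm q v (v a') ≤ θ) ∧
                P (v a + (L.map v).sum) then 1 else 0) := SL_add_fun q j _ _
            _ ≤ _ := by
                gcongr
                exact ih (fun y => P (v a + y)) (fun x y hx hy => add_left_cancel (hP _ _ hx hy))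
      _ = SL q j (fun L => ∑' a, q a * (if pm q v (v a) ≤ θ ∧ P (v a + (L.map v).sum)
              then 1 else 0)) + (∑' a, q a) * (j * θ) := by
          rw [ENNReal.tsum_add, ENNReal.tsum_mul_right, SL_tsum]
          congr 1
          exact tsum_congr fun a => (SL_const_mul q j (q a) _).symm
      _ ≤ θ + 1 * (j * θ) := by
          gcongr
          refine SL_le_const q hq j θ fun L _ => ?_
          by_cases hex : ∃ a, pm q v (v a) ≤ θ ∧ P (v a + (L.map v).sum)
          · obtain ⟨a0, ha0, hP0⟩ := hex
            refine le_trans ?_ ha0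
            rw [pm]
            refine ENNReal.tsum_le_tsum fun a => ?_
            by_cases h : pm q v (v a) ≤ θ ∧ P (v a + (L.map v).sum)
            · rw [if_pos h, mul_one, if_pos (add_right_cancel (hP _ _ h.2 hP0))]
            · rw [if_neg h, mul_zero]; exact zero_le
          · have : ∀ a, q a * (if pm q v (v a) ≤ θ ∧ P (v a + (L.map v).sum)
              then (1 : ℝ≥0∞) else 0) = 0 := fun a => by
                rw [if_neg (fun h => hex ⟨a, h⟩), mul_zero]
            simp [this]
      _ = _ := by push_cast; ring

end SLs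

end Crest.Agent.R154.Asm958
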