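import Crest.Agent.R154.B5Abs_566

/-! Row 154 (helper178), ROAD 801, leaf (R): single-walker renewal on lists of blocks.
`fp ht a L`: the list `L` is the first passage of depth `a`. -/

set_option autoImplicit false

namespace Crest.Agent.R154.FP178

open scoped ENNReal
open Crest.Agent.R154.B5A

variable {B : Type*} (Λ : B → ℝ≥0∞) (ht : B → ℕ)

/-- first passage of depth `a` -/
def fp : ℕ → List B → Prop
  | a, [] => a = 0
  | a, b :: L => 0 < a ∧ fp (a - ht b) L

lemma fp_nil (a : ℕ) : fp ht a [] ↔ a = 0 := Iff.rfl

lemma fp_cons (a : ℕ) (b : B) (L : List B) : fp ht a (b :: L) ↔ 0 < a ∧ fp ht (a - ht b) L := Iff.rfl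

lemma fp_zero (L : List B) : fp ht 0 L ↔ L = [] := by
  cases L with
  | nil => simp [fp]
  | cons b L => simp [fp]

lemma le_HT_of_fp {a : ℕ} {L : List B} (h : fp ht a L) : a ≤ HT ht L := by
  induction L generalizing a with
  | nil => rw [fp_nil] at h; omega
  | cons b L ih =>
    rw [fp_cons] at h
    have := ih h.2
    rw [HT_cons]; omega

/-- every prefix different from the list has height `< a` -/
lemma lt_of_fp {a : ℕ} {L L' : List B} (c : B) (h : fp ht a (L ++ c :: L')) : HT ht L < a := by
  induction L generalizing a with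
  | nil => rw [List.nil_append, fp_cons] at h; rw [HT_nil]; exact h.1
  | cons b L ih =>
    rw [List.cons_append, fp_cons] at h
    have := ih h.2
    rw [HT_cons]; omega

open Classical in
/-- (R1) decomposition at the first passage of depth `a`. -/
theorem split (h1 : ∀ b, 1 ≤ ht b) (a : ℕ) (f : List B → ℝ≥0∞) :
    ∑' L, (if a ≤ HT ht L then LW Λ L * f L else 0)
      = ∑' L1, (if fp ht a L1 then LW Λ L1 * ∑' L2, LW Λ L2 * f (L1 ++ L2) else 0) := by
  induction a using Nat.strong_induction_on generalizing f with
  | _ a ih =>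
    rcases Nat.eq_zero_or_pos a with rfl | ha
    · have hR : ∑' L1, (if fp ht 0 L1 then LW Λ L1 * ∑' L2, LW Λ L2 * f (L1 ++ L2) else 0)
          = ∑' L2, LW Λ L2 * f L2 := by
        rw [tsum_eq_single ([] : List B)]
        · rw [if_pos ((fp_nil ht 0).2 rfl), LW_nil, one_mul]
          rfl
        · intro L hL
          rw [if_neg (by rw [fp_zero]; exact hL)]
      rw [hR]
      refine tsum_congr fun L => ?_
      rw [if_pos (Nat.zero_le _)]
    · rw [tsum_list, tsum_list (fun L1 => if fp ht a L1 then
        LW Λ L1 * ∑' L2, LW Λ L2 * f (L1 ++ L2) else 0)]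
      rw [if_neg (by rw [HT_nil]; omega), if_neg (by rw [fp_nil]; omega)]
      congr 1
      refine tsum_congr fun b => ?_
      have e1 : ∀ L : List B, (if a ≤ HT ht (b :: L) then LW Λ (b :: L) * f (b :: L) else 0)
          = Λ b * (if a - ht b ≤ HT ht L then LW Λ L * f (b :: L) else 0) := by
        intro L
        by_cases h : a - ht b ≤ HT ht L
        · rw [if_pos h, if_pos (by rw [HT_cons]; omega), LW_cons, mul_assoc]
        · rw [if_neg h, if_neg (by rw [HT_cons]; omega), mul_zero]
      have e2 : ∀ L1 : List B, (if fp ht a (b :: L1) then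
          LW Λ (b :: L1) * ∑' L2, LW Λ L2 * f ((b :: L1) ++ L2) else 0)
          = Λ b * (if fp ht (a - ht b) L1 then
            LW Λ L1 * ∑' L2, LW Λ L2 * f (b :: (L1 ++ L2)) else 0) := by
        intro L1
        by_cases h : fp ht (a - ht b) L1
        · rw [if_pos h, if_pos ((fp_cons ht a b L1).2 ⟨ha, h⟩), LW_cons, mul_assoc]
          rfl
        · rw [if_neg h, if_neg (fun h' => h ((fp_cons ht a b L1).1 h').2), mul_zero]
      rw [tsum_congr e1, tsum_congr e2, ENNReal.tsum_mul_left, ENNReal.tsum_mul_left]
      congr 1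
      exact ih (a - ht b) (by have := h1 b; omega) (fun L => f (b :: L))

open Classical in
/-- one step of a first passage sum -/
lemma sum_fp_step (a : ℕ) (ha : 0 < a) (f : List B → ℝ≥0∞) :
    ∑' L, (if fp ht a L then LW Λ L * f L else 0)
      = ∑' b, Λ b * ∑' L, (if fp ht (a - ht b) L then LW Λ L * f (b :: L) else 0) := by
  rw [tsum_list]
  rw [if_neg (by rw [fp_nil]; omega), zero_add]
  refine tsum_congr fun b => ?_
  rw [← ENNReal.tsum_mul_left]
  refine tsum_congr fun L => ?_
  by_cases h : fp ht (a - ht b) L
  · rw [if_pos h, if_pos ((fp_cons ht a b L).2 ⟨ha, h⟩), LW_cons, mul_assoc]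
  · rw [if_neg h, if_neg (fun h' => h ((fp_cons ht a b L).1 h').2), mul_zero]

open Classical in
lemma sum_fp_zero (f : List B → ℝ≥0∞) :
    ∑' L, (if fp ht 0 L then LW Λ L * f L else 0) = f [] := by
  rw [tsum_eq_single ([] : List B)]
  · rw [if_pos ((fp_nil ht 0).2 rfl), LW_nil, one_mul]
  · intro L hL
    rw [if_neg (by rw [fp_zero]; exact hL)]

open Classical in
/-- (R2) -/
theorem sum_FP (h1 : ∀ b, 1 ≤ ht b) (hΛ : ∑' b, Λ b ≤ 1) (a : ℕ) :
    ∑' L, (if fp ht a L then LW Λ L else 0) ≤ 1 := by
  induction a using Nat.strong_induction_on with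
  | _ a ih =>
    rcases Nat.eq_zero_or_pos a with rfl | ha
    · have := sum_fp_zero Λ ht (fun _ => 1)
      simp only [mul_one] at this
      exact this.le
    · have := sum_fp_step Λ ht a ha (fun _ => 1)
      simp only [mul_one] at this
      rw [this]
      calc ∑' b, Λ b * ∑' L, (if fp ht (a - ht b) L then LW Λ L else 0)
          ≤ ∑' b, Λ b * 1 := by
            refine ENNReal.tsum_le_tsum fun b => mul_le_mul_right ?_ _
            exact ih (a - ht b) (by have := h1 b; omega)
        _ ≤ 1 := by simpa using hΛ

open Classical in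
/-- (R4') a first passage of `a` begins with a first passage of `τ ≤ a`. -/
theorem fp_split (h1 : ∀ b, 1 ≤ ht b) (τ a : ℕ) (hτ : τ ≤ a) (f : List B → ℝ≥0∞) :
    ∑' L, (if fp ht a L then LW Λ L * f L else 0)
      = ∑' A, (if fp ht τ A then LW Λ A *
          ∑' L, (if fp ht (a - HT ht A) L then LW Λ L * f (A ++ L) else 0) else 0) := by
  induction τ using Nat.strong_induction_on generalizing a f with
  | _ τ ih =>
    rcases Nat.eq_zero_or_pos τ with rfl | hτ0
    · rw [sum_fp_zero Λ ht (fun A => ∑' L, (if fp ht (a - HT ht A) L then LW Λ L * f (A ++ L)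
        else 0))]
      simp [HT_nil]
    · rw [sum_fp_step Λ ht a (by omega) f, sum_fp_step Λ ht τ hτ0 (fun A => ∑' L,
        (if fp ht (a - HT ht A) L then LW Λ L * f (A ++ L) else 0))]
      refine tsum_congr fun b => ?_
      congr 1
      rw [ih (τ - ht b) (by have := h1 b; omega) (a - ht b) (by omega) (fun L => f (b :: L))]
      refine tsum_congr fun A => ?_
      rw [HT_cons, Nat.sub_sub]
      rfl

open Classical in
/-- (R3) exact form of the overshoot. -/
lemma over_eq (h1 : ∀ b, 1 ≤ ht b) (i a : ℕ) :
    ∑' L, (if fp ht a L ∧ a + i < HT ht L then LW Λ L else 0)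
      = ∑' L, (if HT ht L < a then LW Λ L * tail Λ ht (a + i - HT ht L) else 0) := by
  induction a using Nat.strong_induction_on with
  | _ a ih =>
    rcases Nat.eq_zero_or_pos a with rfl | ha
    · have e1 : ∀ L : List B, (if fp ht 0 L ∧ 0 + i < HT ht L then LW Λ L else 0) = 0 := by
        intro L
        rw [if_neg]
        rintro ⟨h, h'⟩
        rw [fp_zero] at h
        subst h
        rw [HT_nil] at h'
        omega
      have e2 : ∀ L : List B, (if HT ht L < 0 then LW Λ L * tail Λ ht (0 + i - HT ht L) else 0)
          = 0 := by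
        intro L
        rw [if_neg (by omega)]
      rw [tsum_congr e1, tsum_congr e2]
    · have hL := sum_fp_step Λ ht a ha (fun L => if a + i < HT ht L then 1 else 0)
      have e1 : ∀ (a' c : ℕ) (L : List B),
          (if fp ht a' L ∧ c < HT ht L then LW Λ L else 0)
          = (if fp ht a' L then LW Λ L * (if c < HT ht L then 1 else 0) else 0) := by
        intro a' c L
        by_cases h : fp ht a' L <;> by_cases h' : c < HT ht L <;> simp [h, h']
      rw [tsum_congr (e1 a (a + i)), hL, tsum_list (fun L =>
        if HT ht L < a then LW Λ L * tail Λ ht (a + i - HT ht L) else 0)]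
      rw [if_pos (by rw [HT_nil]; omega), LW_nil, one_mul, HT_nil, Nat.sub_zero]
      have e2 : ∀ b : B, Λ b * ∑' L, (if fp ht (a - ht b) L then
            LW Λ L * (if a + i < HT ht (b :: L) then 1 else 0) else 0)
          = (if a + i < ht b then Λ b else 0) + ∑' L, (if HT ht (b :: L) < a then
            LW Λ (b :: L) * tail Λ ht (a + i - HT ht (b :: L)) else 0) := by
        intro b
        by_cases hb : ht b < a
        · rw [if_neg (by omega), zero_add]
          have e3 : ∀ L : List B, (if HT ht (b :: L) < a then
              LW Λ (b :: L) * tail Λ ht (a + i - HT ht (b :: L)) else 0)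
              = Λ b * (if HT ht L < a - ht b then
                LW Λ L * tail Λ ht (a - ht b + i - HT ht L) else 0) := by
            intro L
            rw [HT_cons, LW_cons]
            by_cases h : HT ht L < a - ht b
            · rw [if_pos h, if_pos (by omega), mul_assoc,
                show a + i - (ht b + HT ht L) = a - ht b + i - HT ht L by omega]
            · rw [if_neg h, if_neg (by omega), mul_zero]
          rw [tsum_congr e3, ENNReal.tsum_mul_left, ← ih (a - ht b) (by have := h1 b; omega)]
          congr 1
          refine tsum_congr fun L => ?_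
          rw [e1 (a - ht b) (a - ht b + i) L, HT_cons]
          by_cases h : a - ht b + i < HT ht L
          · have hh : a + i < ht b + HT ht L := by omega
            rw [if_pos h, if_pos hh]
          · have hh : ¬ (a + i < ht b + HT ht L) := by omega
            rw [if_neg h, if_neg hh]
        · have h0 : a - ht b = 0 := by omega
          rw [h0, sum_fp_zero Λ ht (fun L => if a + i < HT ht (b :: L) then 1 else 0)]
          have e3 : ∀ L : List B, (if HT ht (b :: L) < a then
              LW Λ (b :: L) * tail Λ ht (a + i - HT ht (b :: L)) else 0) = 0 := by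
            intro L
            rw [if_neg (by rw [HT_cons]; omega)]
          rw [tsum_congr e3, tsum_zero, add_zero, HT_cons, HT_nil, add_zero]
          by_cases h : a + i < ht b <;> simp [h]
      rw [tsum_congr e2, ENNReal.tsum_add]
      rfl

open Classical in
/-- (R3) the overshoot of a first passage. -/
theorem overshoot (h1 : ∀ b, 1 ≤ ht b) (hU1 : ∀ n, U Λ ht n ≤ 1) (i a : ℕ) :
    ∑' L, (if fp ht a L ∧ a + i < HT ht L then LW Λ L else 0) ≤ ∑' k, tail Λ ht (i + k) := by
  rw [over_eq Λ ht h1 i a]
  have e1 : ∑' L, (if HT ht L < a then LW Λ L * tail Λ ht (a + i - HT ht L) else 0)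
      = ∑ k ∈ Finset.range a, U Λ ht k * tail Λ ht (a + i - k) := by
    have : ∀ L : List B, (if HT ht L < a then LW Λ L * tail Λ ht (a + i - HT ht L) else 0)
        = ∑ k ∈ Finset.range a, (if HT ht L = k then LW Λ L else 0) * tail Λ ht (a + i - k) := by
      intro L
      by_cases h : HT ht L < a
      · rw [if_pos h, Finset.sum_eq_single (HT ht L)]
        · rw [if_pos rfl]
        · intro k _ hk; rw [if_neg hk.symm, zero_mul]
        · intro hn; exact absurd (Finset.mem_range.2 h) hn
      · rw [if_neg h, Finset.sum_eq_zero]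
        intro k hk
        have := Finset.mem_range.1 hk
        rw [if_neg (by omega), zero_mul]
    rw [tsum_congr this, Summable.tsum_finsetSum (fun _ _ => ENNReal.summable)]
    refine Finset.sum_congr rfl fun k _ => ?_
    rw [ENNReal.tsum_mul_right, U]
  rw [e1]
  calc ∑ k ∈ Finset.range a, U Λ ht k * tail Λ ht (a + i - k)
      ≤ ∑ k ∈ Finset.range a, tail Λ ht (a + i - k) := by
        refine Finset.sum_le_sum fun k _ => ?_
        calc U Λ ht k * tail Λ ht (a + i - k) ≤ 1 * tail Λ ht (a + i - k) :=
              mul_le_mul_left (hU1 k) _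
          _ = _ := one_mul _
    _ = ∑ k ∈ Finset.range a, tail Λ ht (i + (k + 1)) := by
        rw [← Finset.sum_range_reflect (fun k => tail Λ ht (a + i - k))]
        refine Finset.sum_congr rfl fun k hk => ?_
        have := Finset.mem_range.1 hk
        congr 1
        omega
    _ ≤ ∑' k, tail Λ ht (i + (k + 1)) := ENNReal.sum_le_tsum _
    _ ≤ ∑' k, tail Λ ht (i + k) :=
        ENNReal.tsum_comp_le_tsum_of_injective (add_left_injective 1) (fun k => tail Λ ht (i + k))

end Crest.Agent.R154.FP178
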