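import Crest.Agent.R154.B5Rec_566
import Crest.Agent.R154.FP_178
import Crest.Agent.R154.AsmA_789

/-! Row 154, ROAD 801: abstract assembly, part A (helper86): one walker. -/

set_option autoImplicit false

namespace Crest.Agent.R154.Asm86

open scoped ENNReal
open Crest.Agent.R154.B5A
open Crest.Agent.R154.FP178 (fp fp_nil fp_cons fp_zero)

section one

variable {B : Type*} (Λ : B → ℝ≥0∞) (ht : B → ℕ)

open Classical in
theorem sum_fp_eq (h1 : ∀ b, 1 ≤ ht b) (hΛ : ∑' b, Λ b = 1) (a : ℕ) :
    ∑' L, (if fp ht a L then LW Λ L else 0) = 1 := by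
  induction a using Nat.strong_induction_on with
  | _ a ih =>
    rcases Nat.eq_zero_or_pos a with rfl | ha
    · have := FP178.sum_fp_zero Λ ht (fun _ => 1)
      simpa using this
    · have := FP178.sum_fp_step Λ ht a ha (fun _ => 1)
      simp only [mul_one] at this
      rw [this]
      rw [← hΛ]
      refine tsum_congr fun b => ?_
      rw [ih (a - ht b) (by have := h1 b; omega), mul_one]

/-- chunks -/
abbrev Ck (T : ℕ) := {L : List B // fp ht T L}

/-- weight of a chunk -/
noncomputable def cw (T : ℕ) (c : Ck ht T) : ℝ≥0∞ := LW Λ c.1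

lemma sum_cw (h1 : ∀ b, 1 ≤ ht b) (hΛ : ∑' b, Λ b = 1) (T : ℕ) : ∑' c, cw Λ ht T c = 1 := by
  classical
  rw [← sum_fp_eq Λ ht h1 hΛ T]
  have := tsum_subtype {L : List B | fp ht T L} (LW Λ)
  refine Eq.trans this ?_
  refine tsum_congr fun L => ?_
  simp only [Set.indicator_apply, Set.mem_ofPred_eq]

/-- concatenation -/
def flat {T : ℕ} (cs : List (Ck ht T)) : List B := (cs.map Subtype.val).flatten

lemma LW_flat {T : ℕ} (cs : List (Ck ht T)) : LW Λ (flat ht cs) = LW (cw Λ ht T) cs := by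
  induction cs with
  | nil => simp [flat, LW]
  | cons c cs ih =>
    have : flat ht (c :: cs) = c.1 ++ flat ht cs := by simp [flat]
    rw [this, LW_append, ih, LW_cons]
    rfl

lemma HT_flat {T : ℕ} (cs : List (Ck ht T)) :
    HT ht (flat ht cs) = (cs.map fun c => HT ht c.1).sum := by
  induction cs with
  | nil => simp [flat, HT]
  | cons c cs ih =>
    have : flat ht (c :: cs) = c.1 ++ flat ht cs := by simp [flat]
    rw [this, HT_append, ih]
    simp

lemma ex_fp (a : ℕ) (L : List B) (h : a ≤ HT ht L) :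
    ∃ L1 L2, L = L1 ++ L2 ∧ fp ht a L1 := by
  induction L generalizing a with
  | nil =>
    rw [HT_nil] at h
    exact ⟨[], [], rfl, (fp_nil ht a).2 (by omega)⟩
  | cons b L ih =>
    rcases Nat.eq_zero_or_pos a with rfl | ha
    · exact ⟨[], b :: L, rfl, (fp_nil ht 0).2 rfl⟩
    · rw [HT_cons] at h
      obtain ⟨L1, L2, hL, hf⟩ := ih (a - ht b) (by omega)
      exact ⟨b :: L1, L2, by rw [hL]; rfl, (fp_cons ht a b L1).2 ⟨ha, hf⟩⟩

lemma len_fp (h1 : ∀ b, 1 ≤ ht b) (a : ℕ) (L : List B) (h : fp ht a L) : L.length ≤ a := by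
  induction L generalizing a with
  | nil => simp
  | cons b L ih =>
    have h2 := (fp_cons ht a b L).1 h
    have := ih _ h2.2
    have := h1 b
    rw [List.length_cons]; omega

lemma ex_dec (h1 : ∀ b, 1 ≤ ht b) (T j : ℕ) (L : List B) (hL : T * j ≤ L.length) :
    ∃ cs : List (Ck ht T), cs.length = j ∧ ∃ R, L = flat ht cs ++ R ∧ L.length ≤ R.length + T * j := by
  induction j generalizing L with
  | zero => exact ⟨[], rfl, L, by simp [flat], by simp⟩
  | succ j ih =>
    have hT : T ≤ HT ht L := by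
      have := length_le_HT ht h1 L
      have h2 : T ≤ T * (j + 1) := Nat.le_mul_of_pos_right T (by omega)
      omega
    obtain ⟨L1, L2, h, hf⟩ := ex_fp ht T L hT
    have hl1 := len_fp ht h1 T L1 hf
    have hlen : L.length = L1.length + L2.length := by rw [h, List.length_append]
    rw [Nat.mul_succ] at hL
    obtain ⟨cs, hcs, R, hR, hR2⟩ := ih L2 (by omega)
    refine ⟨⟨L1, hf⟩ :: cs, by simp [hcs], R, ?_, ?_⟩
    · have : flat ht ((⟨L1, hf⟩ : Ck ht T) :: cs) = L1 ++ flat ht cs := by simp [flat]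
      rw [this, List.append_assoc, ← hR, h]
    · rw [Nat.mul_succ]; omega

lemma ex_full (h1 : ∀ b, 1 ≤ ht b) (t0 T j : ℕ) (L : List B) (hL : t0 + T * j + T ≤ L.length) :
    ∃ (A : Ck ht t0) (cs : List (Ck ht T)) (P : Ck ht T) (R : List B), cs.length = j ∧
      L = A.1 ++ flat ht cs ++ P.1 ++ R := by
  have hT : t0 ≤ HT ht L := by
    have := length_le_HT ht h1 L
    omega
  obtain ⟨L1, L2, h, hf⟩ := ex_fp ht t0 L hT
  have hl1 := len_fp ht h1 t0 L1 hf
  have hlen : L.length = L1.length + L2.length := by rw [h, List.length_append]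
  obtain ⟨cs, hcs, R, hR, hR2⟩ := ex_dec ht h1 T j L2 (by omega)
  have hT2 : T ≤ HT ht R := by
    have := length_le_HT ht h1 R
    omega
  obtain ⟨P, R', hP, hPf⟩ := ex_fp ht T R hT2
  exact ⟨⟨L1, hf⟩, cs, ⟨P, hPf⟩, R', hcs, by rw [h, hR, hP]; simp⟩

open Classical in
lemma SL_prefix (hΛ : ∑' b, Λ b = 1) (N : ℕ) (T : List B) :
    SL Λ N (fun L => if T <+: L then 1 else 0) ≤ LW Λ T := by
  induction T generalizing N with
  | nil =>
    simp only [List.nil_prefix, if_true]
    rw [SL_one Λ hΛ, LW_nil]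
  | cons b T ih =>
    cases N with
    | zero =>
      rw [SL_zero, if_neg]
      · exact zero_le
      · intro h; simpa using h.length_le
    | succ N =>
      rw [SL_succ, LW_cons]
      rw [tsum_eq_single b]
      · refine mul_le_mul_right (le_trans (SL_mono Λ N fun L _ => ?_) (ih N)) _
        by_cases h : T <+: L
        · simp [h]
        · rw [if_neg, if_neg h]
          rw [List.cons_prefix_cons]
          exact fun h' => h h'.2
      · intro c hc
        have : SL Λ N (fun L => if b :: T <+: c :: L then (1 : ℝ≥0∞) else 0) = 0 := by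
          rw [SL]
          refine ENNReal.tsum_eq_zero.2 fun L => ?_
          rw [if_neg (show ¬ (b :: T <+: c :: L) by
            rw [List.cons_prefix_cons]; exact fun h' => hc h'.1.symm)]
          simp
        rw [this, mul_zero]

lemma SL_tsum {ι : Type*} (N : ℕ) (F : ι → List B → ℝ≥0∞) :
    SL Λ N (fun L => ∑' x, F x L) = ∑' x, SL Λ N (F x) := by
  simp only [SL]
  rw [ENNReal.tsum_comm]
  refine tsum_congr fun L => ?_
  by_cases hL : L.length = N
  · simp only [hL, if_true]; rw [ENNReal.tsum_mul_left]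
  · simp [hL]

end one

open Classical in
lemma SL_union {B B' ι κ : Type*} (Λ : B → ℝ≥0∞) (Λ' : B' → ℝ≥0∞) (hΛ : ∑' b, Λ b = 1)
    (hΛ' : ∑' b, Λ' b = 1) (N : ℕ) (f : ι → List B) (f' : κ → List B') (g : ι → κ → ℝ≥0∞)
    (F : List B → List B' → ℝ≥0∞)
    (hF : ∀ L L', L.length = N → L'.length = N →
      F L L' ≤ ∑' x, ∑' y, (if f x <+: L ∧ f' y <+: L' then g x y else 0)) :
    SL Λ N (fun L => SL Λ' N (fun L' => F L L'))
      ≤ ∑' x, ∑' y, LW Λ (f x) * LW Λ' (f' y) * g x y := by
  calc SL Λ N (fun L => SL Λ' N (fun L' => F L L'))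
      ≤ SL Λ N (fun L => SL Λ' N (fun L' =>
          ∑' x, ∑' y, (if f x <+: L ∧ f' y <+: L' then g x y else 0))) :=
        SL_mono Λ N fun L hL => SL_mono Λ' N fun L' hL' => hF L L' hL hL'
    _ = ∑' x, ∑' y, SL Λ N (fun L => SL Λ' N (fun L' =>
          (if f x <+: L ∧ f' y <+: L' then g x y else 0))) := by
        simp_rw [SL_tsum]
    _ ≤ _ := by
        refine ENNReal.tsum_le_tsum fun x => ENNReal.tsum_le_tsum fun y => ?_
        have e : ∀ (L : List B) (L' : List B'), (if f x <+: L ∧ f' y <+: L' then g x y else 0)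
            = (if f x <+: L then (1 : ℝ≥0∞) else 0) * (g x y * (if f' y <+: L' then 1 else 0)) := by
          intro L L'
          by_cases h1 : f x <+: L <;> by_cases h2 : f' y <+: L' <;> simp [h1, h2]
        simp_rw [e, SL_const_mul]
        have e2 : SL Λ N (fun L => (if f x <+: L then (1 : ℝ≥0∞) else 0)
            * (g x y * SL Λ' N fun L' => if f' y <+: L' then 1 else 0))
            = (g x y * SL Λ' N fun L' => if f' y <+: L' then 1 else 0)
              * SL Λ N (fun L => (if f x <+: L then (1 : ℝ≥0∞) else 0)) :=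
          (SL_congr Λ N fun L _ => mul_comm _ _).trans (SL_const_mul Λ N _ _)
        rw [e2]
        calc (g x y * SL Λ' N fun L' => if f' y <+: L' then 1 else 0)
              * SL Λ N (fun L => (if f x <+: L then (1 : ℝ≥0∞) else 0))
            ≤ (g x y * LW Λ' (f' y)) * LW Λ (f x) :=
              mul_le_mul' (mul_le_mul_right (SL_prefix Λ' hΛ' N _) _) (SL_prefix Λ hΛ N _)
          _ = _ := by ring

/-- pushing a weight forward -/
lemma push {ι G : Type*} (w : ι → ℝ≥0∞) (hw : ∑' i, w i ≤ 1) (X : ι → G) (S : ι → Prop)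
    [DecidablePred S] [DecidableEq G] (Φ : G → ℝ≥0∞) (M Bd : ℝ≥0∞)
    (hM : ∀ x, ∑' i, (if S i ∧ X i = x then w i else 0) ≤ M)
    (H : ∀ μ : G → ℝ≥0∞, ∑' x, μ x ≤ 1 → (∀ x, μ x ≤ M) → ∑' x, μ x * Φ x ≤ Bd) :
    ∑' i, (if S i then w i * Φ (X i) else 0) ≤ Bd := by
  have h := H (fun x => ∑' i, (if S i ∧ X i = x then w i else 0)) ?_ hM
  · refine le_trans (le_of_eq ?_) h
    simp_rw [← ENNReal.tsum_mul_right]
    rw [ENNReal.tsum_comm]
    refine tsum_congr fun i => ?_
    rw [tsum_eq_single (X i)]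
    · by_cases hS : S i <;> simp [hS]
    · intro x hx
      rw [if_neg (fun h => hx h.2.symm), zero_mul]
  · rw [ENNReal.tsum_comm]
    refine le_trans (ENNReal.tsum_le_tsum fun i => ?_) hw
    rw [tsum_eq_single (X i)]
    · by_cases hS : S i <;> simp [hS]
    · intro x hx
      rw [if_neg (fun h => hx h.2.symm)]

end Crest.Agent.R154.Asm86
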