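import Crest.Agent.R154.Asm2A_86

/-! Row 154, ROAD 801: abstract assembly, part B (helper86): one walker with displacement. -/

set_option autoImplicit false

namespace Crest.Agent.R154.Asm86

open scoped ENNReal
open Crest.Agent.R154.B5A
open Crest.Agent.R154.FP178 (fp fp_nil fp_cons fp_zero)

/-- sites read by a list of blocks, with depth -/
def TT {B G : Type*} [Add G] (s : B → Set (G × ℕ)) (z : B → G) (h : B → ℕ) :
    List B → G → ℕ → Set (G × ℕ)
  | [], _, _ => ∅
  | b :: L, x, a => {p | ∃ q ∈ s b, p = (x + q.1, a + q.2)} ∪ TT s z h L (x + z b) (a + h b)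

/-- total displacement -/
def Dp {B G : Type*} [AddMonoid G] (z : B → G) (L : List B) : G := (L.map z).sum

section one

variable {B G : Type*} [AddCommGroup G] (s : B → Set (G × ℕ)) (z : B → G) (h : B → ℕ)

lemma Dp_append (L L' : List B) : Dp z (L ++ L') = Dp z L + Dp z L' := by simp [Dp]

lemma TT_append (L L' : List B) (x : G) (a : ℕ) :
    TT s z h (L ++ L') x a = TT s z h L x a ∪ TT s z h L' (x + Dp z L) (a + HT h L) := by
  induction L generalizing x a with
  | nil => simp [TT, Dp, HT]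
  | cons b L ih =>
    have e1 : x + Dp z (b :: L) = x + z b + Dp z L := by simp [Dp, add_assoc]
    rw [List.cons_append, TT, ih, TT, Set.union_assoc, e1, HT_cons, add_assoc a]

lemma TT_depth (hs : ∀ b, ∀ q ∈ s b, 1 ≤ q.2 ∧ q.2 ≤ h b) (L : List B) (x : G) (a : ℕ)
    (p : G × ℕ) (hp : p ∈ TT s z h L x a) : a < p.2 ∧ p.2 ≤ a + HT h L := by
  induction L generalizing x a with
  | nil => simp [TT] at hp
  | cons b L ih =>
    rw [HT_cons]
    rcases hp with ⟨q, hq, rfl⟩ | hp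
    · have := hs b q hq
      simp only; omega
    · have := ih _ _ hp
      omega

lemma TT_shift (L : List B) (x y v : G) (a k : ℕ) :
    (v, k) ∈ TT s z h L (x + y) a ↔ (v - y, k) ∈ TT s z h L x a := by
  induction L generalizing x a with
  | nil => simp [TT]
  | cons b L ih =>
    rw [TT, TT, Set.mem_union, Set.mem_union, add_right_comm, ih]
    refine or_congr ?_ Iff.rfl
    simp only [Set.mem_ofPred_eq, Prod.mk.injEq]
    constructor
    · rintro ⟨q, hq, h1, h2⟩; exact ⟨q, hq, by rw [h1]; abel, h2⟩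
    · rintro ⟨q, hq, h1, h2⟩; exact ⟨q, hq, by rw [sub_eq_iff_eq_add.1 h1]; abel, h2⟩

variable (Λ : B → ℝ≥0∞) (t0 T j : ℕ)

/-- height and displacement of a chunk -/
def gc (T : ℕ) (c : Ck h T) : ℤ × G := ((HT h c.1 : ℤ), Dp z c.1)

lemma g_flat (cs : List (Ck h T)) :
    (cs.map (gc z h T)).sum = ((HT h (flat h cs) : ℤ), Dp z (flat h cs)) := by
  induction cs with
  | nil => simp [flat, HT, Dp]; rfl
  | cons c cs ih =>
    have : flat h (c :: cs) = c.1 ++ flat h cs := by simp [flat]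
    rw [this, List.map_cons, List.sum_cons, ih, HT_append, Dp_append]
    simp [gc]

/-- weight of `(A, cs)` -/
noncomputable def V (α : Ck h t0 × List (Ck h T)) : ℝ≥0∞ :=
  if α.2.length = j then cw Λ h t0 α.1 * LW (cw Λ h T) α.2 else 0

lemma sum_V_mul (F : Ck h t0 × List (Ck h T) → ℝ≥0∞) :
    ∑' α, V h Λ t0 T j α * F α
      = ∑' A, cw Λ h t0 A * SL (cw Λ h T) j (fun cs => F (A, cs)) := by
  rw [ENNReal.tsum_prod']
  refine tsum_congr fun A => ?_
  rw [SL, ← ENNReal.tsum_mul_left]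
  refine tsum_congr fun cs => ?_
  simp only [V]
  by_cases hl : cs.length = j
  · simp only [hl, if_true]; ring
  · simp [hl]

variable (h1 : ∀ b, 1 ≤ h b) (hΛ : ∑' b, Λ b = 1)
include h1 hΛ

lemma sum_V : ∑' α, V h Λ t0 T j α = 1 := by
  have := sum_V_mul h Λ t0 T j (fun _ => 1)
  simp only [mul_one] at this
  rw [this]
  simp_rw [SL_one (cw Λ h T) (sum_cw Λ h h1 hΛ T), mul_one]
  exact sum_cw Λ h h1 hΛ t0

open Classical in
lemma sum_VP_mul (F : Ck h T → ℝ≥0∞) :
    ∑' x : (Ck h t0 × List (Ck h T)) × Ck h T, V h Λ t0 T j x.1 * cw Λ h T x.2 * F x.2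
      = ∑' P, cw Λ h T P * F P := by
  rw [ENNReal.tsum_prod']
  simp_rw [mul_assoc, ENNReal.tsum_mul_left, ENNReal.tsum_mul_right]
  rw [sum_V h Λ t0 T j h1 hΛ, one_mul]

open Classical in
lemma sum_VA_mul (F : Ck h t0 × List (Ck h T) → ℝ≥0∞) :
    ∑' x : (Ck h t0 × List (Ck h T)) × Ck h T, V h Λ t0 T j x.1 * cw Λ h T x.2 * F x.1
      = ∑' α, V h Λ t0 T j α * F α := by
  rw [ENNReal.tsum_prod']
  refine tsum_congr fun α => ?_
  have : ∀ P, V h Λ t0 T j α * cw Λ h T P * F α = (V h Λ t0 T j α * F α) * cw Λ h T P :=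
    fun P => by ring
  simp_rw [this, ENNReal.tsum_mul_left, sum_cw Λ h h1 hΛ T, mul_one]

open Classical in
/-- overshoots -/
lemma over_le (i0 : ℕ) (τ : ℝ≥0∞)
    (hov : ∀ a, ∑' L, (if fp h a L ∧ a + i0 < HT h L then LW Λ L else 0) ≤ τ) :
    ∑' x : (Ck h t0 × List (Ck h T)) × Ck h T, V h Λ t0 T j x.1 * cw Λ h T x.2 *
      (if t0 + i0 < HT h x.1.1.1 ∨ (∃ c ∈ x.1.2, T + i0 < HT h c.1) ∨ T + i0 < HT h x.2.1
        then 1 else 0) ≤ (j + 2) * τ := by
  have hc : ∀ a, ∑' c : Ck h a, (if a + i0 < HT h c.1 then cw Λ h a c else 0) ≤ τ := by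
    intro a
    refine le_trans (le_of_eq ?_) (hov a)
    have := tsum_subtype {L : List B | fp h a L} (fun L => if a + i0 < HT h L then LW Λ L else 0)
    refine Eq.trans this ?_
    refine tsum_congr fun L => ?_
    simp only [Set.indicator_apply, Set.mem_ofPred_eq]
    by_cases h2 : fp h a L <;> by_cases h3 : a + i0 < HT h L <;> simp [h2, h3]
  have hs : ∀ x : (Ck h t0 × List (Ck h T)) × Ck h T, V h Λ t0 T j x.1 * cw Λ h T x.2 *
      (if t0 + i0 < HT h x.1.1.1 ∨ (∃ c ∈ x.1.2, T + i0 < HT h c.1) ∨ T + i0 < HT h x.2.1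
        then 1 else 0)
      ≤ V h Λ t0 T j x.1 * cw Λ h T x.2 *
          ((if t0 + i0 < HT h x.1.1.1 then 1 else 0)
            + (if ∃ c ∈ x.1.2, T + i0 < HT h c.1 then 1 else 0))
        + V h Λ t0 T j x.1 * cw Λ h T x.2 * (if T + i0 < HT h x.2.1 then 1 else 0) := by
    intro x
    rw [← mul_add]
    refine mul_le_mul_right ?_ _
    by_cases ha : t0 + i0 < HT h x.1.1.1 <;> by_cases hb : ∃ c ∈ x.1.2, T + i0 < HT h c.1 <;>
      by_cases hd : T + i0 < HT h x.2.1 <;> simp [ha, hb, hd]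
  refine (ENNReal.tsum_le_tsum hs).trans ?_
  rw [ENNReal.tsum_add,
    sum_VA_mul h Λ t0 T j h1 hΛ (fun α => (if t0 + i0 < HT h α.1.1 then 1 else 0)
            + (if ∃ c ∈ α.2, T + i0 < HT h c.1 then 1 else 0)),
    sum_VP_mul h Λ t0 T j h1 hΛ (fun P => if T + i0 < HT h P.1 then 1 else 0)]
  have e1 : ∑' P, cw Λ h T P * (if T + i0 < HT h P.1 then (1 : ℝ≥0∞) else 0) ≤ τ := by
    simpa using hc T
  have e2 : ∑' α, V h Λ t0 T j α * ((if t0 + i0 < HT h α.1.1 then (1 : ℝ≥0∞) else 0)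
            + (if ∃ c ∈ α.2, T + i0 < HT h c.1 then 1 else 0)) ≤ τ + j * τ := by
    simp_rw [mul_add]
    rw [ENNReal.tsum_add]
    refine add_le_add ?_ ?_
    · rw [sum_V_mul h Λ t0 T j (fun α => if t0 + i0 < HT h α.1.1 then 1 else 0)]
      have e3 : ∀ A : Ck h t0, SL (cw Λ h T) j (fun _ => if t0 + i0 < HT h A.1 then (1 : ℝ≥0∞) else 0)
          = if t0 + i0 < HT h A.1 then (1 : ℝ≥0∞) else 0 :=
        fun A => SL_const (cw Λ h T) (sum_cw Λ h h1 hΛ T) j _
      calc _ = ∑' A, cw Λ h t0 A * (if t0 + i0 < HT h A.1 then (1 : ℝ≥0∞) else 0) :=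
            tsum_congr fun A => congrArg _ (e3 A)
        _ ≤ τ := by simpa using hc t0
    · rw [sum_V_mul h Λ t0 T j (fun α => if ∃ c ∈ α.2, T + i0 < HT h c.1 then 1 else 0)]
      have h3 := AsmA789.overs (cw Λ h T) (sum_cw Λ h h1 hΛ T) (fun c => T + i0 < HT h c.1) j
      have h4 : SL (cw Λ h T) j (fun cs => if ∃ c ∈ cs, T + i0 < HT h c.1 then (1 : ℝ≥0∞) else 0)
          ≤ j * τ := by
        refine le_trans (le_of_eq ?_) (h3.trans (mul_le_mul_right (le_trans (le_of_eq ?_) (hc T)) _))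
        · exact SL_congr _ _ fun L _ => by congr
        · exact tsum_congr fun c => by congr
      calc _ ≤ ∑' A, cw Λ h t0 A * (j * τ) :=
            ENNReal.tsum_le_tsum fun A => mul_le_mul_right h4 _
        _ = _ := by rw [ENNReal.tsum_mul_right, sum_cw Λ h h1 hΛ t0, one_mul]
  calc _ ≤ (τ + j * τ) + τ := add_le_add e2 e1
    _ = _ := by ring

/-- law of height and displacement of a chunk -/
noncomputable def pc (q : ℤ × G) : ℝ≥0∞ :=
  open Classical in ∑' c : Ck h T, if gc z h T c = q then cw Λ h T c else 0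

omit h1 hΛ in
open Classical in
lemma pc_push (S : ℤ × G → Prop) :
    ∑' q, (if S q then pc z h Λ T q else 0)
      = ∑' c : Ck h T, (if S (gc z h T c) then cw Λ h T c else 0) := by
  have : ∀ q, (if S q then pc z h Λ T q else 0)
      = ∑' c : Ck h T, (if S q ∧ gc z h T c = q then cw Λ h T c else 0) := by
    intro q
    by_cases hS : S q
    · simp [hS, pc]
    · simp [hS]
  simp_rw [this]
  rw [ENNReal.tsum_comm]
  refine tsum_congr fun c => ?_
  rw [tsum_eq_single (gc z h T c)]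
  · simp
  · intro q hq
    rw [if_neg (fun h => hq h.2.symm)]

lemma sum_pc : ∑' q, pc z h Λ T q = 1 := by
  classical
  have := pc_push z h Λ T (fun _ => True)
  simp only [if_true] at this
  rw [this, sum_cw Λ h h1 hΛ T]

open Classical in
/-- no low attempt -/
lemma nolow_le (θ u : ℝ≥0∞)
    (hu : u ≤ ∑' q, (if pc z h Λ T q < θ then pc z h Λ T q else 0)) :
    ∑' α, V h Λ t0 T j α * (if ∃ c ∈ α.2, pc z h Λ T (gc z h T c) < θ then 0 else 1)
      ≤ (1 - u) ^ j := by
  rw [sum_V_mul h Λ t0 T j (fun α => if ∃ c ∈ α.2, pc z h Λ T (gc z h T c) < θ then 0 else 1)]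
  have e0 : ∀ A : Ck h t0, SL (cw Λ h T) j (fun cs => if ∃ c ∈ cs, pc z h Λ T (gc z h T c) < θ then
      (0 : ℝ≥0∞) else 1) = (∑' c, if pc z h Λ T (gc z h T c) < θ then 0 else cw Λ h T c) ^ j := by
    intro A
    have := AsmA789.nosmall (cw Λ h T) (fun c => pc z h Λ T (gc z h T c) < θ) j
    refine Eq.trans (SL_congr _ _ fun L _ => by congr) (this.trans ?_)
    congr 1
    exact tsum_congr fun c => by congr
  have e1 : ∑' A, cw Λ h t0 A * SL (cw Λ h T) j (fun cs => if ∃ c ∈ cs,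
      pc z h Λ T (gc z h T c) < θ then (0 : ℝ≥0∞) else 1)
      = (∑' c, if pc z h Λ T (gc z h T c) < θ then 0 else cw Λ h T c) ^ j := by
    rw [tsum_congr fun A => congrArg _ (e0 A), ENNReal.tsum_mul_right, sum_cw Λ h h1 hΛ t0, one_mul]
  refine (le_of_eq e1).trans ?_
  refine pow_le_pow_left₀ zero_le ?_ _
  have hp := pc_push z h Λ T (fun q => pc z h Λ T q < θ)
  replace hu : u ≤ ∑' c : Ck h T, (if pc z h Λ T (gc z h T c) < θ then cw Λ h T c else 0) := by
    refine hu.trans (le_of_eq ?_)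
    exact Eq.trans (tsum_congr fun q => by congr) (hp.trans (tsum_congr fun c => by congr))
  have hsum : (∑' c : Ck h T, (if pc z h Λ T (gc z h T c) < θ then 0 else cw Λ h T c))
      + ∑' c : Ck h T, (if pc z h Λ T (gc z h T c) < θ then cw Λ h T c else 0) = 1 := by
    rw [← ENNReal.tsum_add, ← sum_cw Λ h h1 hΛ T]
    refine tsum_congr fun c => ?_
    split_ifs <;> simp
  have hne : (∑' c : Ck h T, (if pc z h Λ T (gc z h T c) < θ then cw Λ h T c else 0)) ≠ ⊤ :=
    ne_top_of_le_ne_top ENNReal.one_ne_top (hsum ▸ le_add_self)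
  have hune : u ≠ ⊤ := ne_top_of_le_ne_top hne hu
  refine ENNReal.le_sub_of_add_le_right hune ?_
  calc _ ≤ _ := add_le_add le_rfl hu
    _ = 1 := hsum

open Classical in
/-- density -/
lemma dens_le (θ : ℝ≥0∞) (q : ℤ × G) :
    ∑' α : Ck h t0 × List (Ck h T), (if (∃ c ∈ α.2, pc z h Λ T (gc z h T c) < θ) ∧
      ((HT h α.1.1 : ℤ), Dp z α.1.1) + (α.2.map (gc z h T)).sum = q
        then V h Λ t0 T j α else 0) ≤ j * θ := by
  have hM : ∀ x, ∑' c : Ck h T, (if pc z h Λ T (gc z h T c) < θ ∧ gc z h T c = x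
      then cw Λ h T c else 0) ≤ θ := by
    intro x
    by_cases hx : pc z h Λ T x < θ
    · refine le_trans ?_ hx.le
      rw [pc]
      refine ENNReal.tsum_le_tsum fun c => ?_
      by_cases hc : gc z h T c = x
      · rw [if_pos hc]; split_ifs <;> simp
      · rw [if_neg (fun h => hc h.2)]; exact zero_le
    · refine le_trans (le_of_eq ?_) zero_le
      refine ENNReal.tsum_eq_zero.2 fun c => ?_
      rw [if_neg]
      rintro ⟨h2, rfl⟩
      exact hx h2
  have hd := AsmA789.dens (cw Λ h T) (sum_cw Λ h h1 hΛ T).le (gc z h T)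
    (fun c => pc z h Λ T (gc z h T c) < θ) θ
    (fun x => le_trans (le_of_eq (tsum_congr fun c => by congr)) (hM x)) j
  have e : ∀ α : Ck h t0 × List (Ck h T), (if (∃ c ∈ α.2, pc z h Λ T (gc z h T c) < θ) ∧
      ((HT h α.1.1 : ℤ), Dp z α.1.1) + (α.2.map (gc z h T)).sum = q
        then V h Λ t0 T j α else 0)
      = V h Λ t0 T j α * (if (∃ c ∈ α.2, pc z h Λ T (gc z h T c) < θ) ∧
        (α.2.map (gc z h T)).sum = q - ((HT h α.1.1 : ℤ), Dp z α.1.1) then 1 else 0) := by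
    intro α
    have : ((HT h α.1.1 : ℤ), Dp z α.1.1) + (α.2.map (gc z h T)).sum = q ↔
        (α.2.map (gc z h T)).sum = q - ((HT h α.1.1 : ℤ), Dp z α.1.1) := by
      rw [eq_sub_iff_add_eq, add_comm]
    simp only [this, mul_ite, mul_one, mul_zero]
  simp_rw [e]
  rw [sum_V_mul h Λ t0 T j (fun α => (if (∃ c ∈ α.2, pc z h Λ T (gc z h T c) < θ) ∧
        (α.2.map (gc z h T)).sum = q - ((HT h α.1.1 : ℤ), Dp z α.1.1) then 1 else 0))]
  calc _ ≤ ∑' A, cw Λ h t0 A * (j * θ) :=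
        ENNReal.tsum_le_tsum fun A => mul_le_mul_right
          (le_trans (le_of_eq (SL_congr _ _ fun L _ => by congr)) (hd _)) _
    _ = _ := by rw [ENNReal.tsum_mul_right, sum_cw Λ h h1 hΛ t0, one_mul]

end one

end Crest.Agent.R154.Asm86
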