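import Crest.Agent.R154.Asm2B_86

/-! Row 154, ROAD 801: abstract assembly, part C (helper86): one window. -/

set_option autoImplicit false

namespace Crest.Agent.R154.Asm86

open scoped ENNReal
open Crest.Agent.R154.B5A
open Crest.Agent.R154.FP178 (fp fp_nil fp_cons fp_zero)

variable {BX BY G : Type*} [AddCommGroup G]
  (ΛX : BX → ℝ≥0∞) (ΛY : BY → ℝ≥0∞) (hX : BX → ℕ) (hY : BY → ℕ) (zX : BX → G) (zY : BY → G)
  (sX : BX → Set (G × ℕ)) (sY : BY → Set (G × ℕ))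

open Classical in
/-- window lemma, `X` local -/
def H2 (C : ℝ≥0∞) (us : ℕ → ℝ≥0∞) : Prop :=
  ∀ (s h h' a a' lo : ℕ) (E : Finset G) (μ : G → ℝ≥0∞) (M lam : ℝ≥0∞),
    ∑' x, μ x ≤ 1 → (∀ x, μ x ≤ M) → lam ≠ 0 → lam ≠ ⊤ → a + s ≤ lo → a' + s ≤ lo → a ≤ a' →
    ∑' x, μ x * (∑' L : List BX, ∑' L' : List BY, if HT hX L = h ∧ Dp zX L ∈ E ∧ HT hY L' = h' ∧
        (∃ z k, (z, k) ∈ TT sX zX hX L 0 a ∧ (z, k) ∈ TT sY zY hY L' x a') ∧
        (∀ z k, (z, k) ∈ TT sX zX hX L 0 a → (z, k) ∈ TT sY zY hY L' x a' → lo ≤ k)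
        then LW ΛX L * LW ΛY L' else 0)
      ≤ C * (lam + M * E.card * us s / lam + us s)

open Classical in
/-- window lemma, `Y` local -/
def H3 (C : ℝ≥0∞) (us : ℕ → ℝ≥0∞) : Prop :=
  ∀ (s h h' a a' hi : ℕ) (E : Finset G) (μ : G → ℝ≥0∞) (M lam : ℝ≥0∞),
    ∑' x, μ x ≤ 1 → (∀ x, μ x ≤ M) → lam ≠ 0 → lam ≠ ⊤ → hi + s ≤ a + h → hi + s ≤ a' + h' →
    a + h ≤ a' + h' →
    ∑' x, μ x * (∑' L : List BX, ∑' L' : List BY, if HT hX L = h ∧ HT hY L' = h' ∧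
        Dp zY L' ∈ E ∧
        (∃ z k, (z, k) ∈ TT sX zX hX L 0 a ∧ (z, k) ∈ TT sY zY hY L' x a') ∧
        (∀ z k, (z, k) ∈ TT sX zX hX L 0 a → (z, k) ∈ TT sY zY hY L' x a' → k ≤ hi)
        then LW ΛX L * LW ΛY L' else 0)
      ≤ C * (lam + M * E.card * us s / lam + us s)

/-- contact condition of two pieces -/
def CC (lo hi : ℕ) (L : List BX) (a : ℕ) (L' : List BY) (x : G) (a' : ℕ) : Prop :=
  (∃ z k, (z, k) ∈ TT sX zX hX L 0 a ∧ (z, k) ∈ TT sY zY hY L' x a') ∧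
  (∀ z k, (z, k) ∈ TT sX zX hX L 0 a → (z, k) ∈ TT sY zY hY L' x a' → lo ≤ k ∧ k ≤ hi)

/-- height of a top part -/
def HA {B : Type*} {h : B → ℕ} {t0 T : ℕ} (α : Ck h t0 × List (Ck h T)) : ℕ :=
  HT h α.1.1 + HT h (flat h α.2)

/-- displacement of a top part -/
def DA {B : Type*} {h : B → ℕ} (z : B → G) {t0 T : ℕ} (α : Ck h t0 × List (Ck h T)) : G :=
  Dp z α.1.1 + Dp z (flat h α.2)

lemma gA {B : Type*} {h : B → ℕ} (z : B → G) {t0 T : ℕ} (α : Ck h t0 × List (Ck h T)) :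
    ((HT h α.1.1 : ℤ), Dp z α.1.1) + (α.2.map (gc z h T)).sum = ((HA α : ℤ), DA z α) := by
  rw [g_flat]
  simp [HA, DA]

open Classical in
/-- finite local set -/
lemma fin_loc {B : Type*} (Λ : B → ℝ≥0∞) (h : B → ℕ) (z : B → G) (T : ℕ) (h1 : ∀ b, 1 ≤ h b)
    (hΛ : ∑' b, Λ b = 1) (θ : ℝ≥0∞) (hθ : θ ≠ 0) (k : ℕ) :
    ∃ E : Finset G, (∀ y, y ∈ E ↔ θ ≤ pc z h Λ T ((k : ℤ), y)) ∧ (E.card : ℝ≥0∞) * θ ≤ 1 := by
  have hsum : ∑' y, pc z h Λ T ((k : ℤ), y) ≤ 1 := by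
    rw [← sum_pc z h Λ T h1 hΛ]
    exact ENNReal.tsum_comp_le_tsum_of_injective (f := fun y : G => ((k : ℤ), y))
      (fun a b hab => (Prod.mk.inj hab).2) (pc z h Λ T)
  obtain ⟨hf, hc⟩ := AsmA789.card_le (fun y : G => pc z h Λ T ((k : ℤ), y)) hsum hθ
  refine ⟨hf.toFinset, fun y => by rw [hf.mem_toFinset]; rfl, ?_⟩
  rw [Set.ncard_eq_toFinset_card _ hf] at hc
  exact hc

section sums

variable (t0X TX t0Y TY j : ℕ)

/-- weight of a configuration of the top parts -/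
noncomputable def VV (i : (Ck hX t0X × List (Ck hX TX)) × (Ck hY t0Y × List (Ck hY TY))) : ℝ≥0∞ :=
  V hX ΛX t0X TX j i.1 * V hY ΛY t0Y TY j i.2

variable (h1X : ∀ b, 1 ≤ hX b) (h1Y : ∀ b, 1 ≤ hY b) (hΛX : ∑' b, ΛX b = 1)
  (hΛY : ∑' b, ΛY b = 1)
include h1X h1Y hΛX hΛY

lemma sum_VV : ∑' i, VV ΛX ΛY hX hY t0X TX t0Y TY j i = 1 := by
  rw [ENNReal.tsum_prod']
  simp only [VV]
  simp_rw [ENNReal.tsum_mul_left, sum_V hY ΛY t0Y TY j h1Y hΛY, mul_one]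
  exact sum_V hX ΛX t0X TX j h1X hΛX

open Classical in
/-- fixed heights, `X` local -/
lemma fix2 {C : ℝ≥0∞} {us : ℕ → ℝ≥0∞} (hH : H2 ΛX ΛY hX hY zX zY sX sY C us)
    (s lo hi a a' h h' : ℕ) (lam θ : ℝ≥0∞) (hθ : θ ≠ 0) (hl0 : lam ≠ 0)
    (hl1 : lam ≠ ⊤) (ha : a + s ≤ lo) (ha' : a' + s ≤ lo) (haa : a ≤ a') (w : G) :
    ∑' i, VV ΛX ΛY hX hY t0X TX t0Y TY j i * (∑' P : Ck hX TX, ∑' P' : Ck hY TY,
      (if HA i.1 = a ∧ HA i.2 = a' ∧ (∃ c ∈ i.1.2, pc zX hX ΛX TX (gc zX hX TX c) < 2 * θ) ∧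
        HT hX P.1 = h ∧ HT hY P'.1 = h' ∧ θ ≤ pc zX hX ΛX TX (gc zX hX TX P) ∧
        CC hX hY zX zY sX sY lo hi P.1 a P'.1 (w + DA zY i.2 - DA zX i.1) a'
        then cw ΛX hX TX P * cw ΛY hY TY P' else 0))
      ≤ C * (lam + 2 * j * us s / lam + us s) := by
  obtain ⟨E, hE, hEc⟩ := fin_loc ΛX hX zX TX h1X hΛX θ hθ h
  set S : ((Ck hX t0X × List (Ck hX TX)) × (Ck hY t0Y × List (Ck hY TY))) → Prop := fun i =>
    HA i.1 = a ∧ HA i.2 = a' ∧ (∃ c ∈ i.1.2, pc zX hX ΛX TX (gc zX hX TX c) < 2 * θ) with hS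
  set Φ : G → ℝ≥0∞ := fun x => ∑' L : List BX, ∑' L' : List BY,
      if HT hX L = h ∧ Dp zX L ∈ E ∧ HT hY L' = h' ∧
        (∃ z k, (z, k) ∈ TT sX zX hX L 0 a ∧ (z, k) ∈ TT sY zY hY L' x a') ∧
        (∀ z k, (z, k) ∈ TT sX zX hX L 0 a → (z, k) ∈ TT sY zY hY L' x a' → lo ≤ k)
        then LW ΛX L * LW ΛY L' else 0 with hΦ
  have hp := push (VV ΛX ΛY hX hY t0X TX t0Y TY j)
    (sum_VV ΛX ΛY hX hY t0X TX t0Y TY j h1X h1Y hΛX hΛY).le
    (fun i => w + DA zY i.2 - DA zX i.1) S Φ (j * (2 * θ))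
    (C * (lam + 2 * j * us s / lam + us s)) ?_ ?_
  · refine le_trans (ENNReal.tsum_le_tsum fun i => ?_) hp
    by_cases hSi : S i
    · rw [if_pos hSi]
      refine mul_le_mul_right ?_ _
      have hsub : ∀ x : G, ∑' P : Ck hX TX, ∑' P' : Ck hY TY, (if HT hX P.1 = h ∧ Dp zX P.1 ∈ E ∧
          HT hY P'.1 = h' ∧
          (∃ z k, (z, k) ∈ TT sX zX hX P.1 0 a ∧ (z, k) ∈ TT sY zY hY P'.1 x a') ∧
          (∀ z k, (z, k) ∈ TT sX zX hX P.1 0 a → (z, k) ∈ TT sY zY hY P'.1 x a' → lo ≤ k)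
          then LW ΛX P.1 * LW ΛY P'.1 else 0) ≤ Φ x := by
        intro x
        rw [hΦ]
        simp only
        refine le_trans ?_ (ENNReal.tsum_comp_le_tsum_of_injective
          (f := (Subtype.val : Ck hX TX → List BX)) Subtype.val_injective _)
        refine ENNReal.tsum_le_tsum fun P => ?_
        exact ENNReal.tsum_comp_le_tsum_of_injective
          (f := (Subtype.val : Ck hY TY → List BY)) Subtype.val_injective
          (fun L' => if HT hX P.1 = h ∧ Dp zX P.1 ∈ E ∧ HT hY L' = h' ∧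
            (∃ z k, (z, k) ∈ TT sX zX hX P.1 0 a ∧ (z, k) ∈ TT sY zY hY L' x a') ∧
            (∀ z k, (z, k) ∈ TT sX zX hX P.1 0 a → (z, k) ∈ TT sY zY hY L' x a' → lo ≤ k)
            then LW ΛX P.1 * LW ΛY L' else 0)
      refine le_trans (ENNReal.tsum_le_tsum fun P => ENNReal.tsum_le_tsum fun P' => ?_) (hsub _)
      by_cases hc : HA i.1 = a ∧ HA i.2 = a' ∧
        (∃ c ∈ i.1.2, pc zX hX ΛX TX (gc zX hX TX c) < 2 * θ) ∧
        HT hX P.1 = h ∧ HT hY P'.1 = h' ∧ θ ≤ pc zX hX ΛX TX (gc zX hX TX P) ∧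
        CC hX hY zX zY sX sY lo hi P.1 a P'.1 (w + DA zY i.2 - DA zX i.1) a'
      · rw [if_pos hc, if_pos]
        · rfl
        · obtain ⟨-, -, -, c1, c2, c3, c4, c5⟩ := hc
          refine ⟨c1, (hE _).2 ?_, c2, c4, fun z k hz hz' => (c5 z k hz hz').1⟩
          have : gc zX hX TX P = ((h : ℤ), Dp zX P.1) := by simp [gc, c1]
          rw [← this]; exact c3
      · rw [if_neg hc]; exact zero_le
    · rw [if_neg hSi]
      refine le_of_eq ?_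
      rw [ENNReal.tsum_eq_zero.2, mul_zero]
      intro P
      refine ENNReal.tsum_eq_zero.2 fun P' => ?_
      rw [if_neg]
      rintro ⟨c1, c2, c3, -⟩
      exact hSi ⟨c1, c2, c3⟩
  · intro x
    rw [ENNReal.tsum_prod', ENNReal.tsum_comm]
    have hb : ∀ β : Ck hY t0Y × List (Ck hY TY), ∑' α : Ck hX t0X × List (Ck hX TX),
        (if S (α, β) ∧ w + DA zY β - DA zX α = x then VV ΛX ΛY hX hY t0X TX t0Y TY j (α, β) else 0)
        ≤ V hY ΛY t0Y TY j β * (j * (2 * θ)) := by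
      intro β
      have hd := dens_le zX hX ΛX t0X TX j h1X hΛX (2 * θ) ((a : ℤ), w + DA zY β - x)
      refine le_trans ?_ (mul_le_mul_right hd _)
      rw [← ENNReal.tsum_mul_left]
      refine ENNReal.tsum_le_tsum fun α => ?_
      by_cases hc : S (α, β) ∧ w + DA zY β - DA zX α = x
      · rw [if_pos hc, if_pos, VV, mul_comm]
        refine ⟨hc.1.2.2, ?_⟩
        rw [gA, Prod.mk.injEq]
        refine ⟨by exact_mod_cast hc.1.1, ?_⟩
        rw [← hc.2]; abel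
      · rw [if_neg hc]; exact zero_le
    refine (ENNReal.tsum_le_tsum hb).trans ?_
    rw [ENNReal.tsum_mul_right, sum_V hY ΛY t0Y TY j h1Y hΛY, one_mul]
  · intro μ hμ hμM
    refine (hH s h h' a a' lo E μ (j * (2 * θ)) lam hμ hμM hl0 hl1 ha ha' haa).trans ?_
    refine mul_le_mul_right ?_ _
    refine add_le_add (add_le_add le_rfl ?_) le_rfl
    refine ENNReal.div_le_div_right ?_ _
    calc (j : ℝ≥0∞) * (2 * θ) * E.card * us s = 2 * j * (E.card * θ) * us s := by ring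
      _ ≤ 2 * j * 1 * us s := mul_le_mul_left (mul_le_mul_right hEc _) _
      _ = _ := by ring

open Classical in
/-- fixed heights, `Y` local -/
lemma fix3 {C : ℝ≥0∞} {us : ℕ → ℝ≥0∞} (hH : H3 ΛX ΛY hX hY zX zY sX sY C us)
    (s lo hi a a' h h' : ℕ) (lam θ : ℝ≥0∞) (hθ : θ ≠ 0) (hl0 : lam ≠ 0)
    (hl1 : lam ≠ ⊤) (ha : hi + s ≤ a + h) (ha' : hi + s ≤ a' + h') (haa : a + h ≤ a' + h') (w : G) :
    ∑' i, VV ΛX ΛY hX hY t0X TX t0Y TY j i * (∑' P : Ck hX TX, ∑' P' : Ck hY TY,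
      (if HA i.1 = a ∧ HA i.2 = a' ∧ (∃ c ∈ i.2.2, pc zY hY ΛY TY (gc zY hY TY c) < 2 * θ) ∧
        HT hX P.1 = h ∧ HT hY P'.1 = h' ∧ θ ≤ pc zY hY ΛY TY (gc zY hY TY P') ∧
        CC hX hY zX zY sX sY lo hi P.1 a P'.1 (w + DA zY i.2 - DA zX i.1) a'
        then cw ΛX hX TX P * cw ΛY hY TY P' else 0))
      ≤ C * (lam + 2 * j * us s / lam + us s) := by
  obtain ⟨E, hE, hEc⟩ := fin_loc ΛY hY zY TY h1Y hΛY θ hθ h'
  set S : ((Ck hX t0X × List (Ck hX TX)) × (Ck hY t0Y × List (Ck hY TY))) → Prop := fun i =>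
    HA i.1 = a ∧ HA i.2 = a' ∧ (∃ c ∈ i.2.2, pc zY hY ΛY TY (gc zY hY TY c) < 2 * θ) with hS
  set Φ : G → ℝ≥0∞ := fun x => ∑' L : List BX, ∑' L' : List BY,
      if HT hX L = h ∧ HT hY L' = h' ∧ Dp zY L' ∈ E ∧
        (∃ z k, (z, k) ∈ TT sX zX hX L 0 a ∧ (z, k) ∈ TT sY zY hY L' x a') ∧
        (∀ z k, (z, k) ∈ TT sX zX hX L 0 a → (z, k) ∈ TT sY zY hY L' x a' → k ≤ hi)
        then LW ΛX L * LW ΛY L' else 0 with hΦ
  have hp := push (VV ΛX ΛY hX hY t0X TX t0Y TY j)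
    (sum_VV ΛX ΛY hX hY t0X TX t0Y TY j h1X h1Y hΛX hΛY).le
    (fun i => w + DA zY i.2 - DA zX i.1) S Φ (j * (2 * θ))
    (C * (lam + 2 * j * us s / lam + us s)) ?_ ?_
  · refine le_trans (ENNReal.tsum_le_tsum fun i => ?_) hp
    by_cases hSi : S i
    · rw [if_pos hSi]
      refine mul_le_mul_right ?_ _
      have hsub : ∀ x : G, ∑' P : Ck hX TX, ∑' P' : Ck hY TY, (if HT hX P.1 = h ∧ HT hY P'.1 = h' ∧
          Dp zY P'.1 ∈ E ∧
          (∃ z k, (z, k) ∈ TT sX zX hX P.1 0 a ∧ (z, k) ∈ TT sY zY hY P'.1 x a') ∧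
          (∀ z k, (z, k) ∈ TT sX zX hX P.1 0 a → (z, k) ∈ TT sY zY hY P'.1 x a' → k ≤ hi)
          then LW ΛX P.1 * LW ΛY P'.1 else 0) ≤ Φ x := by
        intro x
        rw [hΦ]
        simp only
        refine le_trans ?_ (ENNReal.tsum_comp_le_tsum_of_injective
          (f := (Subtype.val : Ck hX TX → List BX)) Subtype.val_injective _)
        refine ENNReal.tsum_le_tsum fun P => ?_
        exact ENNReal.tsum_comp_le_tsum_of_injective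
          (f := (Subtype.val : Ck hY TY → List BY)) Subtype.val_injective
          (fun L' => if HT hX P.1 = h ∧ HT hY L' = h' ∧ Dp zY L' ∈ E ∧
            (∃ z k, (z, k) ∈ TT sX zX hX P.1 0 a ∧ (z, k) ∈ TT sY zY hY L' x a') ∧
            (∀ z k, (z, k) ∈ TT sX zX hX P.1 0 a → (z, k) ∈ TT sY zY hY L' x a' → k ≤ hi)
            then LW ΛX P.1 * LW ΛY L' else 0)
      refine le_trans (ENNReal.tsum_le_tsum fun P => ENNReal.tsum_le_tsum fun P' => ?_) (hsub _)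
      by_cases hc : HA i.1 = a ∧ HA i.2 = a' ∧
        (∃ c ∈ i.2.2, pc zY hY ΛY TY (gc zY hY TY c) < 2 * θ) ∧
        HT hX P.1 = h ∧ HT hY P'.1 = h' ∧ θ ≤ pc zY hY ΛY TY (gc zY hY TY P') ∧
        CC hX hY zX zY sX sY lo hi P.1 a P'.1 (w + DA zY i.2 - DA zX i.1) a'
      · rw [if_pos hc, if_pos]
        · rfl
        · obtain ⟨-, -, -, c1, c2, c3, c4, c5⟩ := hc
          refine ⟨c1, c2, (hE _).2 ?_, c4, fun z k hz hz' => (c5 z k hz hz').2⟩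
          have : gc zY hY TY P' = ((h' : ℤ), Dp zY P'.1) := by simp [gc, c2]
          rw [← this]; exact c3
      · rw [if_neg hc]; exact zero_le
    · rw [if_neg hSi]
      refine le_of_eq ?_
      rw [ENNReal.tsum_eq_zero.2, mul_zero]
      intro P
      refine ENNReal.tsum_eq_zero.2 fun P' => ?_
      rw [if_neg]
      rintro ⟨c1, c2, c3, -⟩
      exact hSi ⟨c1, c2, c3⟩
  · intro x
    rw [ENNReal.tsum_prod']
    have hb : ∀ α : Ck hX t0X × List (Ck hX TX), ∑' β : Ck hY t0Y × List (Ck hY TY),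
        (if S (α, β) ∧ w + DA zY β - DA zX α = x then VV ΛX ΛY hX hY t0X TX t0Y TY j (α, β) else 0)
        ≤ V hX ΛX t0X TX j α * (j * (2 * θ)) := by
      intro α
      have hd := dens_le zY hY ΛY t0Y TY j h1Y hΛY (2 * θ) ((a' : ℤ), x + DA zX α - w)
      refine le_trans ?_ (mul_le_mul_right hd _)
      rw [← ENNReal.tsum_mul_left]
      refine ENNReal.tsum_le_tsum fun β => ?_
      by_cases hc : S (α, β) ∧ w + DA zY β - DA zX α = x
      · rw [if_pos hc, if_pos, VV]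
        refine ⟨hc.1.2.2, ?_⟩
        rw [gA, Prod.mk.injEq]
        refine ⟨by exact_mod_cast hc.1.2.1, ?_⟩
        rw [← hc.2]; abel
      · rw [if_neg hc]; exact zero_le
    refine (ENNReal.tsum_le_tsum hb).trans ?_
    rw [ENNReal.tsum_mul_right, sum_V hX ΛX t0X TX j h1X hΛX, one_mul]
  · intro μ hμ hμM
    refine (hH s h h' a a' hi E μ (j * (2 * θ)) lam hμ hμM hl0 hl1 ha ha' haa).trans ?_
    refine mul_le_mul_right ?_ _
    refine add_le_add (add_le_add le_rfl ?_) le_rfl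
    refine ENNReal.div_le_div_right ?_ _
    calc (j : ℝ≥0∞) * (2 * θ) * E.card * us s = 2 * j * (E.card * θ) * us s := by ring
      _ ≤ 2 * j * 1 * us s := mul_le_mul_left (mul_le_mul_right hEc _) _
      _ = _ := by ring

end sums

end Crest.Agent.R154.Asm86
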