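import Crest.Agent.R154.Asm2C_86

/-! Row 154, ROAD 801: abstract assembly, part D (helper86): the sum over one window. -/

set_option autoImplicit false

namespace Crest.Agent.R154.Asm86

open scoped ENNReal
open Crest.Agent.R154.B5A
open Crest.Agent.R154.FP178 (fp fp_nil fp_cons fp_zero)

lemma reorder {A P B Q : Type*} (v : A → ℝ≥0∞) (c : P → ℝ≥0∞) (v' : B → ℝ≥0∞) (c' : Q → ℝ≥0∞)
    (f : A → P → B → Q → ℝ≥0∞) :
    ∑' x : A × P, ∑' y : B × Q, (v x.1 * c x.2) * (v' y.1 * c' y.2) * f x.1 x.2 y.1 y.2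
      = ∑' i : A × B, (v i.1 * v' i.2) * ∑' p, ∑' q, c p * c' q * f i.1 p i.2 q := by
  rw [ENNReal.tsum_prod' (f := fun i : A × B => (v i.1 * v' i.2) * ∑' p, ∑' q, c p * c' q *
    f i.1 p i.2 q), ENNReal.tsum_prod']
  refine tsum_congr fun a => ?_
  simp_rw [ENNReal.tsum_prod']
  rw [ENNReal.tsum_comm]
  refine tsum_congr fun b => ?_
  simp_rw [← ENNReal.tsum_mul_left]
  refine tsum_congr fun p => tsum_congr fun q => ?_
  ring

variable {BX BY G : Type*} [AddCommGroup G]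
  (ΛX : BX → ℝ≥0∞) (ΛY : BY → ℝ≥0∞) (hX : BX → ℕ) (hY : BY → ℕ) (zX : BX → G) (zY : BY → G)
  (sX : BX → Set (G × ℕ)) (sY : BY → Set (G × ℕ))

/-- overshoot -/
def Ov {B : Type*} {h : B → ℕ} {t0 T : ℕ} (i0 : ℕ) (x : (Ck h t0 × List (Ck h T)) × Ck h T) : Prop :=
  t0 + i0 < HT h x.1.1.1 ∨ (∃ c ∈ x.1.2, T + i0 < HT h c.1) ∨ T + i0 < HT h x.2.1

lemma HA_ge {B : Type*} {h : B → ℕ} {t0 T : ℕ} (α : Ck h t0 × List (Ck h T)) :
    t0 + T * α.2.length ≤ HA α := by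
  obtain ⟨A, cs⟩ := α
  have h1 := FP178.le_HT_of_fp h A.2
  have h2 : T * cs.length ≤ HT h (flat h cs) := by
    induction cs with
    | nil => simp
    | cons c cs ih =>
      have e : flat h (c :: cs) = c.1 ++ flat h cs := by simp [flat]
      have h3 := FP178.le_HT_of_fp h c.2
      rw [e, HT_append, List.length_cons, Nat.mul_succ]
      omega
  simp only [HA]
  omega

lemma HA_le {B : Type*} {h : B → ℕ} {t0 T : ℕ} (i0 : ℕ) (α : Ck h t0 × List (Ck h T))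
    (h1 : HT h α.1.1 ≤ t0 + i0) (h2 : ∀ c ∈ α.2, HT h c.1 ≤ T + i0) :
    HA α ≤ t0 + T * α.2.length + (α.2.length + 1) * i0 := by
  obtain ⟨A, cs⟩ := α
  simp only at h1 h2 ⊢
  have h3 : HT h (flat h cs) ≤ T * cs.length + cs.length * i0 := by
    induction cs with
    | nil => simp [flat, HT]
    | cons c cs ih =>
      have e : flat h (c :: cs) = c.1 ++ flat h cs := by simp [flat]
      have h3 := h2 c (by simp)
      have h4 := ih (fun c' hc' => h2 c' (by simp [hc']))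
      rw [e, HT_append, List.length_cons, Nat.mul_succ, Nat.succ_mul]
      omega
  simp only [HA]
  rw [Nat.succ_mul]
  omega

section win

variable (t0X TX t0Y TY j : ℕ)
variable (h1X : ∀ b, 1 ≤ hX b) (h1Y : ∀ b, 1 ≤ hY b) (hΛX : ∑' b, ΛX b = 1)
  (hΛY : ∑' b, ΛY b = 1)
include h1X h1Y hΛX hΛY

/-- weight of a configuration -/
noncomputable def W {B : Type*} (Λ : B → ℝ≥0∞) (h : B → ℕ) (t0 T j : ℕ)
    (x : (Ck h t0 × List (Ck h T)) × Ck h T) : ℝ≥0∞ := V h Λ t0 T j x.1 * cw Λ h T x.2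

omit h1X h1Y hΛX hΛY in
lemma sum_W {B : Type*} (Λ : B → ℝ≥0∞) (h : B → ℕ) (t0 T j : ℕ) (h1 : ∀ b, 1 ≤ h b)
    (hΛ : ∑' b, Λ b = 1) : ∑' x, W Λ h t0 T j x = 1 := by
  have := sum_VP_mul h Λ t0 T j h1 hΛ (fun _ => 1)
  simp only [mul_one] at this
  exact this.trans (sum_cw Λ h h1 hΛ T)

open Classical in
/-- the local part, `X` -/
lemma main2 {C : ℝ≥0∞} {us : ℕ → ℝ≥0∞} (hH : H2 ΛX ΛY hX hY zX zY sX sY C us)
    (s lo hi i0 I : ℕ) (lam θ : ℝ≥0∞) (hθ : θ ≠ 0) (hl0 : lam ≠ 0) (hl1 : lam ≠ ⊤)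
    (hI : (j + 1) * i0 ≤ I) (g1 : t0X + TX * j + I ≤ t0Y + TY * j)
    (g3 : t0Y + TY * j + I + s ≤ lo) (w : G) :
    ∑' x, ∑' y, W ΛX hX t0X TX j x * W ΛY hY t0Y TY j y *
      (if (¬ Ov i0 x ∧ ¬ Ov i0 y) ∧ (∃ c ∈ x.1.2, pc zX hX ΛX TX (gc zX hX TX c) < 2 * θ) ∧
        θ ≤ pc zX hX ΛX TX (gc zX hX TX x.2) ∧
        CC hX hY zX zY sX sY lo hi x.2.1 (HA x.1) y.2.1 (w + DA zY y.1 - DA zX x.1) (HA y.1)
        then 1 else 0)
      ≤ (I + 1) ^ 4 * (C * (lam + 2 * j * us s / lam + us s)) := by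
  set F : Finset (ℕ × ℕ × ℕ × ℕ) := Finset.Icc (t0X + TX * j) (t0X + TX * j + I) ×ˢ
    Finset.Icc (t0Y + TY * j) (t0Y + TY * j + I) ×ˢ Finset.Icc TX (TX + I) ×ˢ
    Finset.Icc TY (TY + I) with hF
  have hcard : F.card = (I + 1) ^ 4 := by
    rw [hF, Finset.card_product, Finset.card_product, Finset.card_product]
    simp only [Nat.card_Icc]
    have e1 : t0X + TX * j + I + 1 - (t0X + TX * j) = I + 1 := by omega
    have e2 : t0Y + TY * j + I + 1 - (t0Y + TY * j) = I + 1 := by omega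
    have e3 : TX + I + 1 - TX = I + 1 := by omega
    have e4 : TY + I + 1 - TY = I + 1 := by omega
    rw [e1, e2, e3, e4]; ring
  have hpt : ∀ x y, W ΛX hX t0X TX j x * W ΛY hY t0Y TY j y *
      (if (¬ Ov i0 x ∧ ¬ Ov i0 y) ∧ (∃ c ∈ x.1.2, pc zX hX ΛX TX (gc zX hX TX c) < 2 * θ) ∧
        θ ≤ pc zX hX ΛX TX (gc zX hX TX x.2) ∧
        CC hX hY zX zY sX sY lo hi x.2.1 (HA x.1) y.2.1 (w + DA zY y.1 - DA zX x.1) (HA y.1)
        then (1 : ℝ≥0∞) else 0)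
      ≤ ∑ t ∈ F, W ΛX hX t0X TX j x * W ΛY hY t0Y TY j y *
        (if HA x.1 = t.1 ∧ HA y.1 = t.2.1 ∧
          (∃ c ∈ x.1.2, pc zX hX ΛX TX (gc zX hX TX c) < 2 * θ) ∧
          HT hX x.2.1 = t.2.2.1 ∧ HT hY y.2.1 = t.2.2.2 ∧ θ ≤ pc zX hX ΛX TX (gc zX hX TX x.2) ∧
          CC hX hY zX zY sX sY lo hi x.2.1 t.1 y.2.1 (w + DA zY y.1 - DA zX x.1) t.2.1
          then 1 else 0) := by
    intro x y
    by_cases hc : (¬ Ov i0 x ∧ ¬ Ov i0 y) ∧
        (∃ c ∈ x.1.2, pc zX hX ΛX TX (gc zX hX TX c) < 2 * θ) ∧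
        θ ≤ pc zX hX ΛX TX (gc zX hX TX x.2) ∧
        CC hX hY zX zY sX sY lo hi x.2.1 (HA x.1) y.2.1 (w + DA zY y.1 - DA zX x.1) (HA y.1)
    · by_cases hlx : x.1.2.length = j
      · by_cases hly : y.1.2.length = j
        · obtain ⟨⟨ox, oy⟩, c1, c2, c3⟩ := hc
          simp only [Ov, not_or, not_exists, not_and, not_lt] at ox oy
          have a1 := HA_ge x.1
          have a2 := HA_le i0 x.1 ox.1 ox.2.1
          have a3 := HA_ge y.1
          have a4 := HA_le i0 y.1 oy.1 oy.2.1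
          have a5 := FP178.le_HT_of_fp hX x.2.2
          have a6 := FP178.le_HT_of_fp hY y.2.2
          have i0I : i0 ≤ I := le_trans (by nlinarith) hI
          rw [hlx] at a1 a2
          rw [hly] at a3 a4
          have hmem : ((HA x.1, HA y.1, HT hX x.2.1, HT hY y.2.1) : ℕ × ℕ × ℕ × ℕ) ∈ F := by
            simp only [hF, Finset.mem_product, Finset.mem_Icc]
            refine ⟨⟨a1, by omega⟩, ⟨a3, by omega⟩, ⟨a5, ?_⟩, ⟨a6, ?_⟩⟩
            · have := ox.2.2; omega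
            · have := oy.2.2; omega
          refine le_trans (le_of_eq ?_) (Finset.single_le_sum (f := fun t : ℕ × ℕ × ℕ × ℕ =>
            W ΛX hX t0X TX j x * W ΛY hY t0Y TY j y *
            (if HA x.1 = t.1 ∧ HA y.1 = t.2.1 ∧
              (∃ c ∈ x.1.2, pc zX hX ΛX TX (gc zX hX TX c) < 2 * θ) ∧
              HT hX x.2.1 = t.2.2.1 ∧ HT hY y.2.1 = t.2.2.2 ∧
              θ ≤ pc zX hX ΛX TX (gc zX hX TX x.2) ∧
              CC hX hY zX zY sX sY lo hi x.2.1 t.1 y.2.1 (w + DA zY y.1 - DA zX x.1) t.2.1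
              then (1 : ℝ≥0∞) else 0)) (fun _ _ => zero_le) hmem)
          rw [if_pos, if_pos]
          · exact ⟨rfl, rfl, c1, rfl, rfl, c2, c3⟩
          · exact ⟨⟨by simp only [Ov, not_or, not_exists, not_and, not_lt]; exact ox,
              by simp only [Ov, not_or, not_exists, not_and, not_lt]; exact oy⟩, c1, c2, c3⟩
        · have : W ΛY hY t0Y TY j y = 0 := by simp [W, V, hly]
          rw [this]; simp
      · have : W ΛX hX t0X TX j x = 0 := by simp [W, V, hlx]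
        rw [this]; simp
    · rw [if_neg hc, mul_zero]; exact zero_le
  refine (ENNReal.tsum_le_tsum fun x => ENNReal.tsum_le_tsum fun y => hpt x y).trans ?_
  simp_rw [Summable.tsum_finsetSum (fun _ _ => ENNReal.summable)]
  have hterm : ∀ t ∈ F, ∑' x, ∑' y, W ΛX hX t0X TX j x * W ΛY hY t0Y TY j y *
        (if HA x.1 = t.1 ∧ HA y.1 = t.2.1 ∧
          (∃ c ∈ x.1.2, pc zX hX ΛX TX (gc zX hX TX c) < 2 * θ) ∧
          HT hX x.2.1 = t.2.2.1 ∧ HT hY y.2.1 = t.2.2.2 ∧ θ ≤ pc zX hX ΛX TX (gc zX hX TX x.2) ∧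
          CC hX hY zX zY sX sY lo hi x.2.1 t.1 y.2.1 (w + DA zY y.1 - DA zX x.1) t.2.1
          then (1 : ℝ≥0∞) else 0) ≤ C * (lam + 2 * j * us s / lam + us s) := by
    intro t ht
    simp only [hF, Finset.mem_product, Finset.mem_Icc] at ht
    obtain ⟨⟨t1, t2⟩, ⟨t3, t4⟩, ⟨t5, t6⟩, ⟨t7, t8⟩⟩ := ht
    have hr := reorder (V hX ΛX t0X TX j) (cw ΛX hX TX) (V hY ΛY t0Y TY j) (cw ΛY hY TY)
      (fun α P β P' => if HA α = t.1 ∧ HA β = t.2.1 ∧
          (∃ c ∈ α.2, pc zX hX ΛX TX (gc zX hX TX c) < 2 * θ) ∧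
          HT hX P.1 = t.2.2.1 ∧ HT hY P'.1 = t.2.2.2 ∧ θ ≤ pc zX hX ΛX TX (gc zX hX TX P) ∧
          CC hX hY zX zY sX sY lo hi P.1 t.1 P'.1 (w + DA zY β - DA zX α) t.2.1
          then (1 : ℝ≥0∞) else 0)
    refine (le_of_eq hr).trans ?_
    refine le_trans (le_of_eq ?_) (fix2 ΛX ΛY hX hY zX zY sX sY t0X TX t0Y TY j h1X h1Y hΛX hΛY hH
      s lo hi t.1 t.2.1 t.2.2.1 t.2.2.2 lam θ hθ hl0 hl1 (by omega) (by omega) (by omega) w)
    refine tsum_congr fun i => ?_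
    rw [VV]
    congr 1
    refine tsum_congr fun P => tsum_congr fun P' => ?_
    rw [mul_ite, mul_one, mul_zero]
  refine (Finset.sum_le_sum hterm).trans ?_
  rw [Finset.sum_const, hcard, nsmul_eq_mul]
  push_cast
  exact le_rfl

open Classical in
/-- the local part, `Y` -/
lemma main3 {C : ℝ≥0∞} {us : ℕ → ℝ≥0∞} (hH : H3 ΛX ΛY hX hY zX zY sX sY C us)
    (s lo hi i0 I : ℕ) (lam θ : ℝ≥0∞) (hθ : θ ≠ 0) (hl0 : lam ≠ 0) (hl1 : lam ≠ ⊤)
    (hI : (j + 1) * i0 ≤ I) (g2 : t0X + TX * j + TX + 2 * I ≤ t0Y + TY * j + TY)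
    (g4 : hi + s ≤ t0X + TX * j + TX) (w : G) :
    ∑' x, ∑' y, W ΛX hX t0X TX j x * W ΛY hY t0Y TY j y *
      (if (¬ Ov i0 x ∧ ¬ Ov i0 y) ∧ (∃ c ∈ y.1.2, pc zY hY ΛY TY (gc zY hY TY c) < 2 * θ) ∧
        θ ≤ pc zY hY ΛY TY (gc zY hY TY y.2) ∧
        CC hX hY zX zY sX sY lo hi x.2.1 (HA x.1) y.2.1 (w + DA zY y.1 - DA zX x.1) (HA y.1)
        then 1 else 0)
      ≤ (I + 1) ^ 4 * (C * (lam + 2 * j * us s / lam + us s)) := by
  set F : Finset (ℕ × ℕ × ℕ × ℕ) := Finset.Icc (t0X + TX * j) (t0X + TX * j + I) ×ˢ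
    Finset.Icc (t0Y + TY * j) (t0Y + TY * j + I) ×ˢ Finset.Icc TX (TX + I) ×ˢ
    Finset.Icc TY (TY + I) with hF
  have hcard : F.card = (I + 1) ^ 4 := by
    rw [hF, Finset.card_product, Finset.card_product, Finset.card_product]
    simp only [Nat.card_Icc]
    have e1 : t0X + TX * j + I + 1 - (t0X + TX * j) = I + 1 := by omega
    have e2 : t0Y + TY * j + I + 1 - (t0Y + TY * j) = I + 1 := by omega
    have e3 : TX + I + 1 - TX = I + 1 := by omega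
    have e4 : TY + I + 1 - TY = I + 1 := by omega
    rw [e1, e2, e3, e4]; ring
  have hpt : ∀ x y, W ΛX hX t0X TX j x * W ΛY hY t0Y TY j y *
      (if (¬ Ov i0 x ∧ ¬ Ov i0 y) ∧ (∃ c ∈ y.1.2, pc zY hY ΛY TY (gc zY hY TY c) < 2 * θ) ∧
        θ ≤ pc zY hY ΛY TY (gc zY hY TY y.2) ∧
        CC hX hY zX zY sX sY lo hi x.2.1 (HA x.1) y.2.1 (w + DA zY y.1 - DA zX x.1) (HA y.1)
        then (1 : ℝ≥0∞) else 0)
      ≤ ∑ t ∈ F, W ΛX hX t0X TX j x * W ΛY hY t0Y TY j y *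
        (if HA x.1 = t.1 ∧ HA y.1 = t.2.1 ∧
          (∃ c ∈ y.1.2, pc zY hY ΛY TY (gc zY hY TY c) < 2 * θ) ∧
          HT hX x.2.1 = t.2.2.1 ∧ HT hY y.2.1 = t.2.2.2 ∧ θ ≤ pc zY hY ΛY TY (gc zY hY TY y.2) ∧
          CC hX hY zX zY sX sY lo hi x.2.1 t.1 y.2.1 (w + DA zY y.1 - DA zX x.1) t.2.1
          then 1 else 0) := by
    intro x y
    by_cases hc : (¬ Ov i0 x ∧ ¬ Ov i0 y) ∧
        (∃ c ∈ y.1.2, pc zY hY ΛY TY (gc zY hY TY c) < 2 * θ) ∧
        θ ≤ pc zY hY ΛY TY (gc zY hY TY y.2) ∧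
        CC hX hY zX zY sX sY lo hi x.2.1 (HA x.1) y.2.1 (w + DA zY y.1 - DA zX x.1) (HA y.1)
    · by_cases hlx : x.1.2.length = j
      · by_cases hly : y.1.2.length = j
        · obtain ⟨⟨ox, oy⟩, c1, c2, c3⟩ := hc
          simp only [Ov, not_or, not_exists, not_and, not_lt] at ox oy
          have a1 := HA_ge x.1
          have a2 := HA_le i0 x.1 ox.1 ox.2.1
          have a3 := HA_ge y.1
          have a4 := HA_le i0 y.1 oy.1 oy.2.1
          have a5 := FP178.le_HT_of_fp hX x.2.2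
          have a6 := FP178.le_HT_of_fp hY y.2.2
          have i0I : i0 ≤ I := le_trans (by nlinarith) hI
          rw [hlx] at a1 a2
          rw [hly] at a3 a4
          have hmem : ((HA x.1, HA y.1, HT hX x.2.1, HT hY y.2.1) : ℕ × ℕ × ℕ × ℕ) ∈ F := by
            simp only [hF, Finset.mem_product, Finset.mem_Icc]
            refine ⟨⟨a1, by omega⟩, ⟨a3, by omega⟩, ⟨a5, ?_⟩, ⟨a6, ?_⟩⟩
            · have := ox.2.2; omega
            · have := oy.2.2; omega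
          refine le_trans (le_of_eq ?_) (Finset.single_le_sum (f := fun t : ℕ × ℕ × ℕ × ℕ =>
            W ΛX hX t0X TX j x * W ΛY hY t0Y TY j y *
            (if HA x.1 = t.1 ∧ HA y.1 = t.2.1 ∧
              (∃ c ∈ y.1.2, pc zY hY ΛY TY (gc zY hY TY c) < 2 * θ) ∧
              HT hX x.2.1 = t.2.2.1 ∧ HT hY y.2.1 = t.2.2.2 ∧
              θ ≤ pc zY hY ΛY TY (gc zY hY TY y.2) ∧
              CC hX hY zX zY sX sY lo hi x.2.1 t.1 y.2.1 (w + DA zY y.1 - DA zX x.1) t.2.1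
              then (1 : ℝ≥0∞) else 0)) (fun _ _ => zero_le) hmem)
          rw [if_pos, if_pos]
          · exact ⟨rfl, rfl, c1, rfl, rfl, c2, c3⟩
          · exact ⟨⟨by simp only [Ov, not_or, not_exists, not_and, not_lt]; exact ox,
              by simp only [Ov, not_or, not_exists, not_and, not_lt]; exact oy⟩, c1, c2, c3⟩
        · have : W ΛY hY t0Y TY j y = 0 := by simp [W, V, hly]
          rw [this]; simp
      · have : W ΛX hX t0X TX j x = 0 := by simp [W, V, hlx]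
        rw [this]; simp
    · rw [if_neg hc, mul_zero]; exact zero_le
  refine (ENNReal.tsum_le_tsum fun x => ENNReal.tsum_le_tsum fun y => hpt x y).trans ?_
  simp_rw [Summable.tsum_finsetSum (fun _ _ => ENNReal.summable)]
  have hterm : ∀ t ∈ F, ∑' x, ∑' y, W ΛX hX t0X TX j x * W ΛY hY t0Y TY j y *
        (if HA x.1 = t.1 ∧ HA y.1 = t.2.1 ∧
          (∃ c ∈ y.1.2, pc zY hY ΛY TY (gc zY hY TY c) < 2 * θ) ∧
          HT hX x.2.1 = t.2.2.1 ∧ HT hY y.2.1 = t.2.2.2 ∧ θ ≤ pc zY hY ΛY TY (gc zY hY TY y.2) ∧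
          CC hX hY zX zY sX sY lo hi x.2.1 t.1 y.2.1 (w + DA zY y.1 - DA zX x.1) t.2.1
          then (1 : ℝ≥0∞) else 0) ≤ C * (lam + 2 * j * us s / lam + us s) := by
    intro t ht
    simp only [hF, Finset.mem_product, Finset.mem_Icc] at ht
    obtain ⟨⟨t1, t2⟩, ⟨t3, t4⟩, ⟨t5, t6⟩, ⟨t7, t8⟩⟩ := ht
    have hr := reorder (V hX ΛX t0X TX j) (cw ΛX hX TX) (V hY ΛY t0Y TY j) (cw ΛY hY TY)
      (fun α P β P' => if HA α = t.1 ∧ HA β = t.2.1 ∧
          (∃ c ∈ β.2, pc zY hY ΛY TY (gc zY hY TY c) < 2 * θ) ∧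
          HT hX P.1 = t.2.2.1 ∧ HT hY P'.1 = t.2.2.2 ∧ θ ≤ pc zY hY ΛY TY (gc zY hY TY P') ∧
          CC hX hY zX zY sX sY lo hi P.1 t.1 P'.1 (w + DA zY β - DA zX α) t.2.1
          then (1 : ℝ≥0∞) else 0)
    refine (le_of_eq hr).trans ?_
    refine le_trans (le_of_eq ?_) (fix3 ΛX ΛY hX hY zX zY sX sY t0X TX t0Y TY j h1X h1Y hΛX hΛY hH
      s lo hi t.1 t.2.1 t.2.2.1 t.2.2.2 lam θ hθ hl0 hl1 (by omega) (by omega) (by omega) w)
    refine tsum_congr fun i => ?_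
    rw [VV]
    congr 1
    refine tsum_congr fun P => tsum_congr fun P' => ?_
    rw [mul_ite, mul_one, mul_zero]
  refine (Finset.sum_le_sum hterm).trans ?_
  rw [Finset.sum_const, hcard, nsmul_eq_mul]
  push_cast
  exact le_rfl

open Classical in
/-- **one window** -/
theorem window {C : ℝ≥0∞} {us : ℕ → ℝ≥0∞} (hH2 : H2 ΛX ΛY hX hY zX zY sX sY C us)
    (hH3 : H3 ΛX ΛY hX hY zX zY sX sY C us)
    (s lo hi i0 I : ℕ) (lam θX θY τ u : ℝ≥0∞) (hθX : θX ≠ 0) (hθY : θY ≠ 0) (hl0 : lam ≠ 0)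
    (hl1 : lam ≠ ⊤)
    (hI : (j + 1) * i0 ≤ I) (g1 : t0X + TX * j + I ≤ t0Y + TY * j)
    (g2 : t0X + TX * j + TX + 2 * I ≤ t0Y + TY * j + TY)
    (g3 : t0Y + TY * j + I + s ≤ lo) (g4 : hi + s ≤ t0X + TX * j + TX)
    (hovX : ∀ a, ∑' L, (if fp hX a L ∧ a + i0 < HT hX L then LW ΛX L else 0) ≤ τ)
    (hovY : ∀ a, ∑' L, (if fp hY a L ∧ a + i0 < HT hY L then LW ΛY L else 0) ≤ τ)
    (qX1 : ∑' q, (if pc zX hX ΛX TX q < θX then pc zX hX ΛX TX q else 0) ≤ u)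
    (qX2 : u ≤ ∑' q, (if pc zX hX ΛX TX q < 2 * θX then pc zX hX ΛX TX q else 0))
    (qY1 : ∑' q, (if pc zY hY ΛY TY q < θY then pc zY hY ΛY TY q else 0) ≤ u)
    (qY2 : u ≤ ∑' q, (if pc zY hY ΛY TY q < 2 * θY then pc zY hY ΛY TY q else 0)) (w : G) :
    ∑' x, ∑' y, W ΛX hX t0X TX j x * W ΛY hY t0Y TY j y *
      (if Ov i0 x ∨ Ov i0 y ∨
        CC hX hY zX zY sX sY lo hi x.2.1 (HA x.1) y.2.1 (w + DA zY y.1 - DA zX x.1) (HA y.1)
        then 1 else 0)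
      ≤ 2 * ((j + 2) * τ) + 2 * (1 - u) ^ j + u * u
        + 2 * ((I + 1) ^ 4 * (C * (lam + 2 * j * us s / lam + us s))) := by
  set w1 := W ΛX hX t0X TX j with hw1
  set w2 := W ΛY hY t0Y TY j with hw2
  set f1 : (Ck hX t0X × List (Ck hX TX)) × Ck hX TX → ℝ≥0∞ := fun x => if Ov i0 x then 1 else 0
    with hf1
  set f2 : (Ck hY t0Y × List (Ck hY TY)) × Ck hY TY → ℝ≥0∞ := fun y => if Ov i0 y then 1 else 0
    with hf2
  set n1 : (Ck hX t0X × List (Ck hX TX)) × Ck hX TX → ℝ≥0∞ := fun x =>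
    if ∃ c ∈ x.1.2, pc zX hX ΛX TX (gc zX hX TX c) < 2 * θX then 0 else 1 with hn1
  set n2 : (Ck hY t0Y × List (Ck hY TY)) × Ck hY TY → ℝ≥0∞ := fun y =>
    if ∃ c ∈ y.1.2, pc zY hY ΛY TY (gc zY hY TY c) < 2 * θY then 0 else 1 with hn2
  set l1 : (Ck hX t0X × List (Ck hX TX)) × Ck hX TX → ℝ≥0∞ := fun x =>
    if pc zX hX ΛX TX (gc zX hX TX x.2) < θX then 1 else 0 with hl1'
  set l2 : (Ck hY t0Y × List (Ck hY TY)) × Ck hY TY → ℝ≥0∞ := fun y =>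
    if pc zY hY ΛY TY (gc zY hY TY y.2) < θY then 1 else 0 with hl2'
  set M2 : _ → _ → ℝ≥0∞ := fun (x : (Ck hX t0X × List (Ck hX TX)) × Ck hX TX)
      (y : (Ck hY t0Y × List (Ck hY TY)) × Ck hY TY) =>
      (if (¬ Ov i0 x ∧ ¬ Ov i0 y) ∧ (∃ c ∈ x.1.2, pc zX hX ΛX TX (gc zX hX TX c) < 2 * θX) ∧
        θX ≤ pc zX hX ΛX TX (gc zX hX TX x.2) ∧
        CC hX hY zX zY sX sY lo hi x.2.1 (HA x.1) y.2.1 (w + DA zY y.1 - DA zX x.1) (HA y.1)
        then 1 else 0) with hM2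
  set M3 : _ → _ → ℝ≥0∞ := fun (x : (Ck hX t0X × List (Ck hX TX)) × Ck hX TX)
      (y : (Ck hY t0Y × List (Ck hY TY)) × Ck hY TY) =>
      (if (¬ Ov i0 x ∧ ¬ Ov i0 y) ∧ (∃ c ∈ y.1.2, pc zY hY ΛY TY (gc zY hY TY c) < 2 * θY) ∧
        θY ≤ pc zY hY ΛY TY (gc zY hY TY y.2) ∧
        CC hX hY zX zY sX sY lo hi x.2.1 (HA x.1) y.2.1 (w + DA zY y.1 - DA zX x.1) (HA y.1)
        then 1 else 0) with hM3
  have hS1 : ∑' x, w1 x = 1 := sum_W ΛX hX t0X TX j h1X hΛX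
  have hS2 : ∑' y, w2 y = 1 := sum_W ΛY hY t0Y TY j h1Y hΛY
  have hpt : ∀ x y, w1 x * w2 y *
      (if Ov i0 x ∨ Ov i0 y ∨
        CC hX hY zX zY sX sY lo hi x.2.1 (HA x.1) y.2.1 (w + DA zY y.1 - DA zX x.1) (HA y.1)
        then 1 else 0)
      ≤ (w1 x * f1 x) * w2 y + (w1 x) * (w2 y * f2 y) + (w1 x * n1 x) * w2 y
        + w1 x * (w2 y * n2 y) + (w1 x * l1 x) * (w2 y * l2 y)
        + w1 x * w2 y * M2 x y + w1 x * w2 y * M3 x y := by
    intro x y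
    have key : (if Ov i0 x ∨ Ov i0 y ∨
        CC hX hY zX zY sX sY lo hi x.2.1 (HA x.1) y.2.1 (w + DA zY y.1 - DA zX x.1) (HA y.1)
        then (1 : ℝ≥0∞) else 0)
        ≤ f1 x + f2 y + n1 x + n2 y + l1 x * l2 y + M2 x y + M3 x y := by
      by_cases hc : Ov i0 x ∨ Ov i0 y ∨
        CC hX hY zX zY sX sY lo hi x.2.1 (HA x.1) y.2.1 (w + DA zY y.1 - DA zX x.1) (HA y.1)
      · rw [if_pos hc]
        by_cases o1 : Ov i0 x
        · have : f1 x = 1 := by simp [hf1, o1]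
          rw [this]; simp only [add_assoc]; exact le_self_add
        by_cases o2 : Ov i0 y
        · have : f2 y = 1 := by simp [hf2, o2]
          rw [this]
          calc (1 : ℝ≥0∞) ≤ f1 x + 1 := le_add_self
            _ ≤ _ := by simp only [add_assoc]; exact add_le_add le_rfl le_self_add
        by_cases e1 : ∃ c ∈ x.1.2, pc zX hX ΛX TX (gc zX hX TX c) < 2 * θX
        swap
        · have : n1 x = 1 := by simp only [hn1]; rw [if_neg e1]
          rw [this]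
          calc (1 : ℝ≥0∞) ≤ f1 x + f2 y + 1 := le_add_self
            _ ≤ _ := by simp only [add_assoc]; gcongr; exact le_self_add
        by_cases e2 : ∃ c ∈ y.1.2, pc zY hY ΛY TY (gc zY hY TY c) < 2 * θY
        swap
        · have : n2 y = 1 := by simp only [hn2]; rw [if_neg e2]
          rw [this]
          calc (1 : ℝ≥0∞) ≤ f1 x + f2 y + n1 x + 1 := le_add_self
            _ ≤ _ := by simp only [add_assoc]; gcongr; exact le_self_add
        have hCC := (hc.resolve_left o1).resolve_left o2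
        by_cases e3 : θX ≤ pc zX hX ΛX TX (gc zX hX TX x.2)
        · have : M2 x y = 1 := by
            simp only [hM2]; exact if_pos ⟨⟨o1, o2⟩, e1, e3, hCC⟩
          rw [this]
          calc (1 : ℝ≥0∞) ≤ (f1 x + f2 y + n1 x + n2 y + l1 x * l2 y) + 1 := le_add_self
            _ ≤ _ := le_self_add
        by_cases e4 : θY ≤ pc zY hY ΛY TY (gc zY hY TY y.2)
        · have : M3 x y = 1 := by
            simp only [hM3]; exact if_pos ⟨⟨o1, o2⟩, e2, e4, hCC⟩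
          rw [this]
          exact le_add_self
        · have a1 : l1 x = 1 := by simp only [hl1']; exact if_pos (not_le.1 e3)
          have a2 : l2 y = 1 := by simp only [hl2']; exact if_pos (not_le.1 e4)
          rw [a1, a2, one_mul]
          calc (1 : ℝ≥0∞) ≤ (f1 x + f2 y + n1 x + n2 y) + 1 := le_add_self
            _ ≤ _ := by simp only [add_assoc]; gcongr; exact le_self_add
      · rw [if_neg hc]; exact zero_le
    refine (mul_le_mul_right key _).trans (le_of_eq ?_)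
    ring
  refine (ENNReal.tsum_le_tsum fun x => ENNReal.tsum_le_tsum fun y => hpt x y).trans ?_
  simp_rw [ENNReal.tsum_add, ENNReal.tsum_mul_left, ENNReal.tsum_mul_right]
  have b1 : ∑' x, w1 x * f1 x ≤ (j + 2) * τ := by
    refine le_trans (le_of_eq (tsum_congr fun x => ?_)) (over_le hX ΛX t0X TX j h1X hΛX i0 τ hovX)
    simp only [hf1, hw1, W, Ov]
    congr
  have b2 : ∑' y, w2 y * f2 y ≤ (j + 2) * τ := by
    refine le_trans (le_of_eq (tsum_congr fun x => ?_)) (over_le hY ΛY t0Y TY j h1Y hΛY i0 τ hovY)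
    simp only [hf2, hw2, W, Ov]
    congr
  have b3 : ∑' x, w1 x * n1 x ≤ (1 - u) ^ j := by
    refine le_trans (le_of_eq ?_) (nolow_le zX hX ΛX t0X TX j h1X hΛX (2 * θX) u qX2)
    exact sum_VA_mul hX ΛX t0X TX j h1X hΛX (fun α =>
      if ∃ c ∈ α.2, pc zX hX ΛX TX (gc zX hX TX c) < 2 * θX then 0 else 1)
  have b4 : ∑' y, w2 y * n2 y ≤ (1 - u) ^ j := by
    refine le_trans (le_of_eq ?_) (nolow_le zY hY ΛY t0Y TY j h1Y hΛY (2 * θY) u qY2)
    exact sum_VA_mul hY ΛY t0Y TY j h1Y hΛY (fun α =>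
      if ∃ c ∈ α.2, pc zY hY ΛY TY (gc zY hY TY c) < 2 * θY then 0 else 1)
  have b5 : ∑' x, w1 x * l1 x ≤ u := by
    have e := sum_VP_mul hX ΛX t0X TX j h1X hΛX (fun P =>
      if pc zX hX ΛX TX (gc zX hX TX P) < θX then (1 : ℝ≥0∞) else 0)
    refine (le_of_eq e).trans (le_trans (le_of_eq ?_) qX1)
    have e2 := pc_push zX hX ΛX TX (fun q => pc zX hX ΛX TX q < θX)
    refine Eq.trans (tsum_congr fun P => ?_) (e2.symm.trans (tsum_congr fun q => by congr))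
    by_cases hq : pc zX hX ΛX TX (gc zX hX TX P) < θX <;> simp [hq]
  have b6 : ∑' y, w2 y * l2 y ≤ u := by
    have e := sum_VP_mul hY ΛY t0Y TY j h1Y hΛY (fun P =>
      if pc zY hY ΛY TY (gc zY hY TY P) < θY then (1 : ℝ≥0∞) else 0)
    refine (le_of_eq e).trans (le_trans (le_of_eq ?_) qY1)
    have e2 := pc_push zY hY ΛY TY (fun q => pc zY hY ΛY TY q < θY)
    refine Eq.trans (tsum_congr fun P => ?_) (e2.symm.trans (tsum_congr fun q => by congr))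
    by_cases hq : pc zY hY ΛY TY (gc zY hY TY P) < θY <;> simp [hq]
  have b7 : ∑' x, ∑' y, w1 x * w2 y * M2 x y
      ≤ (I + 1) ^ 4 * (C * (lam + 2 * j * us s / lam + us s)) :=
    main2 ΛX ΛY hX hY zX zY sX sY t0X TX t0Y TY j h1X h1Y hΛX hΛY hH2 s lo hi i0 I lam θX hθX
      hl0 hl1 hI g1 g3 w
  have b8 : ∑' x, ∑' y, w1 x * w2 y * M3 x y
      ≤ (I + 1) ^ 4 * (C * (lam + 2 * j * us s / lam + us s)) :=
    main3 ΛX ΛY hX hY zX zY sX sY t0X TX t0Y TY j h1X h1Y hΛX hΛY hH3 s lo hi i0 I lam θY hθY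
      hl0 hl1 hI g2 g4 w
  rw [hS1, hS2]
  simp only [mul_one, one_mul]
  calc _ ≤ (j + 2) * τ + (j + 2) * τ + (1 - u) ^ j + (1 - u) ^ j + u * u
        + (I + 1) ^ 4 * (C * (lam + 2 * j * us s / lam + us s))
        + (I + 1) ^ 4 * (C * (lam + 2 * j * us s / lam + us s)) := by
        gcongr
    _ = _ := by ring

end win

end Crest.Agent.R154.Asm86
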