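import Crest.Agent.R154.Asm2D_86

/-! Row 154, ROAD 801: abstract assembly, part E (helper86): union over the windows. -/

set_option autoImplicit false

namespace Crest.Agent.R154.Asm86

open scoped ENNReal
open Crest.Agent.R154.B5A
open Crest.Agent.R154.FP178 (fp fp_nil fp_cons fp_zero)

open Classical in
lemma ext1 {B : Type*} (Λ : B → ℝ≥0∞) (h : B → ℕ) (h1 : ∀ b, 1 ≤ h b) (hΛ : ∑' b, Λ b = 1)
    (n N : ℕ) (hn : n ≤ N) (F : List B → ℝ≥0∞) (hF : ∀ L R, HT h L = n → F L ≤ F (L ++ R)) :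
    ∑' L, (if HT h L = n then LW Λ L * F L else 0) ≤ SL Λ N F := by
  induction n using Nat.strong_induction_on generalizing N F with
  | _ n ih =>
    rw [tsum_list]
    rcases Nat.eq_zero_or_pos n with rfl | hn0
    · rw [if_pos (HT_nil h), LW_nil, one_mul]
      have e : ∀ (b : B) (L : List B), (if HT h (b :: L) = 0 then LW Λ (b :: L) * F (b :: L) else 0)
          = 0 := by
        intro b L
        rw [if_neg (by rw [HT_cons]; have := h1 b; omega)]
      simp_rw [e]
      simp only [tsum_zero, add_zero]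
      calc F [] = SL Λ N (fun _ => F []) := (SL_const Λ hΛ N _).symm
        _ ≤ SL Λ N F := SL_mono Λ N fun L _ => by simpa using hF [] L (HT_nil h)
    · rw [if_neg (by rw [HT_nil]; omega), zero_add]
      obtain ⟨N, rfl⟩ : ∃ N', N = N' + 1 := ⟨N - 1, by omega⟩
      rw [SL_succ]
      refine ENNReal.tsum_le_tsum fun b => ?_
      have hb := h1 b
      by_cases hbn : h b ≤ n
      · have := ih (n - h b) (by omega) N (by omega) (fun L => F (b :: L)) (fun L R hL => by
          have := hF (b :: L) R (by rw [HT_cons]; omega)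
          simpa using this)
        refine le_trans (le_of_eq ?_) (mul_le_mul_right this _)
        rw [← ENNReal.tsum_mul_left]
        refine tsum_congr fun L => ?_
        by_cases hL : HT h L = n - h b
        · rw [if_pos (by rw [HT_cons]; omega), if_pos hL, LW_cons, mul_assoc]
        · rw [if_neg (by rw [HT_cons]; omega), if_neg hL, mul_zero]
      · have : ∀ L, (if HT h (b :: L) = n then LW Λ (b :: L) * F (b :: L) else 0) = 0 := by
          intro L
          rw [if_neg (by rw [HT_cons]; omega)]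
        simp_rw [this]
        simp

variable {BX BY G : Type*} [AddCommGroup G]
  (ΛX : BX → ℝ≥0∞) (ΛY : BY → ℝ≥0∞) (hX : BX → ℕ) (hY : BY → ℕ) (zX : BX → G) (zY : BY → G)
  (sX : BX → Set (G × ℕ)) (sY : BY → Set (G × ℕ))

/-- a common site at depth `k` -/
def Cs (L : List BX) (L' : List BY) (w : G) (k : ℕ) : Prop :=
  ∃ z, (z, k) ∈ TT sX zX hX L 0 0 ∧ (z, k) ∈ TT sY zY hY L' w 0

/-- the event left after the removal of the slabs -/
def Ev (n m K t s r : ℕ) (L : List BX) (L' : List BY) (w : G) : Prop :=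
  (∀ k, Cs hX hY zX zY sX sY L L' w k → k ≤ n → m < k ∧ ∀ i ∈ Finset.Icc K (2 * K),
    ¬ ((i + 2) * t - s ≤ k ∧ k < (i + 2) * t - s + r)) ∧
  (∃ k, Cs hX hY zX zY sX sY L L' w k ∧ m < k ∧ k ≤ 2 * m)

variable (h1X : ∀ b, 1 ≤ hX b) (h1Y : ∀ b, 1 ≤ hY b) (hΛX : ∑' b, ΛX b = 1)
  (hΛY : ∑' b, ΛY b = 1) (hsX : ∀ b, ∀ q ∈ sX b, 1 ≤ q.2 ∧ q.2 ≤ hX b)
  (hsY : ∀ b, ∀ q ∈ sY b, 1 ≤ q.2 ∧ q.2 ≤ hY b)

include hsX in
lemma Cs_extX (L R : List BX) (L' : List BY) (w : G) (k : ℕ) (hk : k ≤ HT hX L) :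
    Cs hX hY zX zY sX sY (L ++ R) L' w k ↔ Cs hX hY zX zY sX sY L L' w k := by
  constructor
  · rintro ⟨z, h1, h2⟩
    rw [TT_append] at h1
    rcases h1 with h1 | h1
    · exact ⟨z, h1, h2⟩
    · have := TT_depth sX zX hX hsX _ _ _ _ h1
      simp only at this
      omega
  · rintro ⟨z, h1, h2⟩
    exact ⟨z, by rw [TT_append]; exact Or.inl h1, h2⟩

include hsY in
lemma Cs_extY (L : List BX) (L' R : List BY) (w : G) (k : ℕ) (hk : k ≤ HT hY L') :
    Cs hX hY zX zY sX sY L (L' ++ R) w k ↔ Cs hX hY zX zY sX sY L L' w k := by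
  constructor
  · rintro ⟨z, h1, h2⟩
    rw [TT_append] at h2
    rcases h2 with h2 | h2
    · exact ⟨z, h1, h2⟩
    · have := TT_depth sY zY hY hsY _ _ _ _ h2
      simp only at this
      omega
  · rintro ⟨z, h1, h2⟩
    exact ⟨z, h1, by rw [TT_append]; exact Or.inl h2⟩

include hsX in
lemma Ev_extX (n m K t s r : ℕ) (hm : 2 * m ≤ n) (L R : List BX) (L' : List BY) (w : G)
    (hL : HT hX L = n) (h : Ev hX hY zX zY sX sY n m K t s r L L' w) :
    Ev hX hY zX zY sX sY n m K t s r (L ++ R) L' w := by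
  refine ⟨fun k hk hkn => h.1 k ((Cs_extX hX hY zX zY sX sY hsX L R L' w k (by omega)).1 hk) hkn, ?_⟩
  obtain ⟨k, hk, h2, h3⟩ := h.2
  exact ⟨k, (Cs_extX hX hY zX zY sX sY hsX L R L' w k (by omega)).2 hk, h2, h3⟩

include hsY in
lemma Ev_extY (n m K t s r : ℕ) (hm : 2 * m ≤ n) (L : List BX) (L' R : List BY) (w : G)
    (hL : HT hY L' = n) (h : Ev hX hY zX zY sX sY n m K t s r L L' w) :
    Ev hX hY zX zY sX sY n m K t s r L (L' ++ R) w := by
  refine ⟨fun k hk hkn => h.1 k ((Cs_extY hX hY zX zY sX sY hsY L L' R w k (by omega)).1 hk) hkn, ?_⟩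
  obtain ⟨k, hk, h2, h3⟩ := h.2
  exact ⟨k, (Cs_extY hX hY zX zY sX sY hsY L L' R w k (by omega)).2 hk, h2, h3⟩

open Classical in
include h1X h1Y hΛX hΛY hsX hsY in
lemma ext2 (n N m K t s r : ℕ) (hm : 2 * m ≤ n) (hn : n ≤ N) (w : G) :
    ∑' L, ∑' L', (if HT hX L = n ∧ HT hY L' = n ∧ Ev hX hY zX zY sX sY n m K t s r L L' w
      then LW ΛX L * LW ΛY L' else 0)
      ≤ SL ΛX N (fun L => SL ΛY N (fun L' =>
        if Ev hX hY zX zY sX sY n m K t s r L L' w then 1 else 0)) := by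
  have e : ∀ L, ∑' L', (if HT hX L = n ∧ HT hY L' = n ∧ Ev hX hY zX zY sX sY n m K t s r L L' w
      then LW ΛX L * LW ΛY L' else 0)
      = if HT hX L = n then LW ΛX L * ∑' L', (if HT hY L' = n then LW ΛY L' *
        (if Ev hX hY zX zY sX sY n m K t s r L L' w then 1 else 0) else 0) else 0 := by
    intro L
    by_cases hL : HT hX L = n
    · rw [if_pos hL, ← ENNReal.tsum_mul_left]
      refine tsum_congr fun L' => ?_
      by_cases h1 : HT hY L' = n <;> by_cases h2 : Ev hX hY zX zY sX sY n m K t s r L L' w <;>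
        simp [hL, h1, h2]
    · simp [hL]
  simp_rw [e]
  refine (ext1 ΛX hX h1X hΛX n N hn _ ?_).trans ?_
  · intro L R hL
    refine ENNReal.tsum_le_tsum fun L' => ?_
    by_cases h1 : HT hY L' = n
    · rw [if_pos h1, if_pos h1]
      refine mul_le_mul_right ?_ _
      by_cases h2 : Ev hX hY zX zY sX sY n m K t s r L L' w
      · rw [if_pos h2, if_pos (Ev_extX hX hY zX zY sX sY hsX n m K t s r hm L R L' w hL h2)]
      · rw [if_neg h2]; exact zero_le
    · rw [if_neg h1]; exact zero_le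
  · refine SL_mono ΛX N fun L _ => ?_
    refine ext1 ΛY hY h1Y hΛY n N hn _ ?_
    intro L' R hL'
    by_cases h2 : Ev hX hY zX zY sX sY n m K t s r L L' w
    · rw [if_pos h2, if_pos (Ev_extY hX hY zX zY sX sY hsY n m K t s r hm L L' R w hL' h2)]
    · rw [if_neg h2]; exact zero_le

/-- the initial list of a configuration -/
def pre {B : Type*} {h : B → ℕ} {t0 T : ℕ} (x : (Ck h t0 × List (Ck h T)) × Ck h T) : List B :=
  x.1.1.1 ++ flat h x.1.2 ++ x.2.1

lemma LW_pre {B : Type*} (Λ : B → ℝ≥0∞) {h : B → ℕ} {t0 T : ℕ} (j : ℕ)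
    (x : (Ck h t0 × List (Ck h T)) × Ck h T) (hx : x.1.2.length = j) :
    LW Λ (pre x) = W Λ h t0 T j x := by
  rw [pre, LW_append, LW_append, LW_flat, W, V, if_pos hx]
  rfl

set_option maxHeartbeats 4000000 in
include hsX hsY h1X h1Y in
/-- the combinatorial heart: on `Ev` some window has a configuration -/
lemma combi (n m K t s i0 I N : ℕ) (hK : 1 ≤ K) (hm1 : K * t ≤ m) (hm2 : 2 * m ≤ (2 * K + 1) * t)
    (hI : (2 * K + 1) * i0 ≤ I) (ht : (2 * K + 3) * I + s ≤ t) (hn : (2 * K + 2) * t + 2 * I ≤ n)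
    (hmn : 2 * m ≤ n)
    (hN : ∀ i ≤ 2 * K, 5 * t + I + (3 * t + I) * i + (3 * t + I) ≤ N)
    (w : G) (L : List BX) (L' : List BY) (hL : L.length = N) (hL' : L'.length = N)
    (hE : Ev hX hY zX zY sX sY n m K t s (s + 2 * I + 1) L L' w) :
    ∃ i ∈ Finset.Icc K (2 * K),
      ∃ (x : (Ck hX ((i - 1) % 3 * t) × List (Ck hX (3 * t))) × Ck hX (3 * t))
        (y : (Ck hY ((i - 1) % 3 * t + I) × List (Ck hY (3 * t + I))) × Ck hY (3 * t + I)),
        x.1.2.length = (i - 1) / 3 ∧ y.1.2.length = (i - 1) / 3 ∧ pre x <+: L ∧ pre y <+: L' ∧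
        (Ov i0 x ∨ Ov i0 y ∨ CC hX hY zX zY sX sY (i * t) ((i + 2) * t - s) x.2.1 (HA x.1) y.2.1
          (w + DA zY y.1 - DA zX x.1) (HA y.1)) := by
  classical
  obtain ⟨hE1, k0, hk0, hk0m, hk0m2⟩ := hE
  -- the smallest depth
  have hex : ∃ k, Cs hX hY zX zY sX sY L L' w k := ⟨k0, hk0⟩
  set k := Nat.find hex with hkdef
  have hk : Cs hX hY zX zY sX sY L L' w k := Nat.find_spec hex
  have hkmin : ∀ k', Cs hX hY zX zY sX sY L L' w k' → k ≤ k' := fun k' h' => Nat.find_min' hex h'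
  have hkk0 : k ≤ k0 := hkmin k0 hk0
  have hkm : m < k := (hE1 k hk (by omega)).1
  have htpos : 0 < t := by
    rcases Nat.eq_zero_or_pos t with rfl | h
    · omega
    · exact h
  set i := (k - 1) / t with hi
  have hi1 : i * t ≤ k - 1 := Nat.div_mul_le_self _ _
  have hi2 : k - 1 < (i + 1) * t := by
    have := Nat.lt_succ_iff.2 (le_refl ((k - 1) / t))
    rw [Nat.div_lt_iff_lt_mul htpos] at this
    simpa using this
  have hiK : K ≤ i := by
    rw [hi, Nat.le_div_iff_mul_le htpos]; omega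
  have hi2K : i ≤ 2 * K := by
    have : i < 2 * K + 1 := by
      rw [hi, Nat.div_lt_iff_lt_mul htpos]; omega
    omega
  have hij : i = (i - 1) % 3 + 3 * ((i - 1) / 3) + 1 := by omega
  set o := (i - 1) % 3 with ho
  set j := (i - 1) / 3 with hj
  have ho3 : o ≤ 2 := by omega
  have hj2 : j ≤ 2 * K := by omega
  refine ⟨i, Finset.mem_Icc.2 ⟨hiK, hi2K⟩, ?_⟩
  have hN' := hN j hj2
  have hot : o * t ≤ 2 * t := Nat.mul_le_mul_right t ho3
  have e1 : o * t + 3 * t * j + 3 * t ≤ L.length := by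
    rw [hL]
    have : (3 * t + I) * j = 3 * t * j + I * j := by ring
    omega
  have e2 : (o * t + I) + (3 * t + I) * j + (3 * t + I) ≤ L'.length := by
    rw [hL']; omega
  obtain ⟨A, cs, P, R, hcs, hLd⟩ := ex_full hX h1X (o * t) (3 * t) j L e1
  obtain ⟨A', cs', P', R', hcs', hLd'⟩ := ex_full hY h1Y (o * t + I) (3 * t + I) j L' e2
  refine ⟨((A, cs), P), ((A', cs'), P'), hcs, hcs', ⟨R, by simp only [pre]; exact hLd.symm⟩,
    ⟨R', by simp only [pre]; exact hLd'.symm⟩, ?_⟩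
  by_cases o1 : Ov i0 ((A, cs), P)
  · exact Or.inl o1
  by_cases o2 : Ov i0 ((A', cs'), P')
  · exact Or.inr (Or.inl o2)
  refine Or.inr (Or.inr ?_)
  simp only [Ov, not_or, not_exists, not_and, not_lt] at o1 o2
  have a1 := HA_ge (A, cs)
  have a2 := HA_le i0 (A, cs) o1.1 o1.2.1
  have a3 := HA_ge (A', cs')
  have a4 := HA_le i0 (A', cs') o2.1 o2.2.1
  have a5 := FP178.le_HT_of_fp hX P.2
  have a6 := FP178.le_HT_of_fp hY P'.2
  simp only [hcs, hcs'] at a1 a2 a3 a4
  have hbase : o * t + 3 * t * j = (i - 1) * t := by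
    have : i - 1 = o + 3 * j := by omega
    rw [this]; ring
  have hbase2 : (i - 1) * t + t = i * t := by
    have : i = (i - 1) + 1 := by omega
    conv_rhs => rw [this]
    ring
  have hji0 : (j + 1) * i0 ≤ I := le_trans (Nat.mul_le_mul_right i0 (by omega)) hI
  have hi0I : i0 ≤ I := le_trans (by nlinarith) hI
  have hjI : (j + 1) * I ≤ (2 * K + 1) * I := Nat.mul_le_mul_right I (by omega)
  have hy1 : (o * t + I) + (3 * t + I) * j = (i - 1) * t + (j + 1) * I := by
    rw [← hbase]; ring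
  have hdX : HA (A, cs) ≤ (i - 1) * t + I := by
    rw [hbase] at a2; omega
  have hdX2 : (i - 1) * t ≤ HA (A, cs) := by rw [← hbase]; exact a1
  have hdY : HA (A', cs') ≤ (i - 1) * t + (2 * K + 1) * I + I := by
    rw [hy1] at a4; omega
  have hdY2 : (i - 1) * t ≤ HA (A', cs') := by rw [hy1] at a3; omega
  have ht' : (2 * K + 1) * I + 2 * I + s ≤ t := by
    have : (2 * K + 3) * I = (2 * K + 1) * I + 2 * I := by ring
    omega
  have hi2t : (i + 2) * t = (i - 1) * t + 3 * t := by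
    have : i + 2 = (i - 1) + 3 := by omega
    rw [this]; ring
  have hi1t : (i + 1) * t = i * t + t := by ring
  have dHA : HT hX (A.1 ++ flat hX cs) = HA (A, cs) := by rw [HT_append]; rfl
  have dDA : Dp zX (A.1 ++ flat hX cs) = DA zX (A, cs) := by rw [Dp_append]; rfl
  have dHA' : HT hY (A'.1 ++ flat hY cs') = HA (A', cs') := by rw [HT_append]; rfl
  have dDA' : Dp zY (A'.1 ++ flat hY cs') = DA zY (A', cs') := by rw [Dp_append]; rfl
  -- traces of `L` near the window
  have hTX : ∀ z k', k' ≤ (i + 2) * t → HA (A, cs) < k' → ((z, k') ∈ TT sX zX hX L 0 0 →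
      (z - DA zX (A, cs), k') ∈ TT sX zX hX P.1 0 (HA (A, cs))) := by
    intro z k' h1 h2 h3
    rw [hLd, TT_append, TT_append] at h3
    rcases h3 with (h3 | h3) | h3
    · have := TT_depth sX zX hX hsX _ _ _ _ h3
      simp only [dHA] at this
      omega
    · rw [dDA, dHA] at h3
      rw [Nat.zero_add] at h3
      exact (TT_shift sX zX hX P.1 0 (DA zX (A, cs)) z _ k').1 h3
    · have := TT_depth sX zX hX hsX _ _ _ _ h3
      simp only [HT_append _ _ P.1, dHA] at this
      omega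
  have hTY : ∀ z k', k' ≤ (i + 2) * t → HA (A', cs') < k' → ((z, k') ∈ TT sY zY hY L' w 0 →
      (z - DA zX (A, cs), k') ∈ TT sY zY hY P'.1 (w + DA zY (A', cs') - DA zX (A, cs))
        (HA (A', cs'))) := by
    intro z k' h1 h2 h3
    rw [hLd', TT_append, TT_append] at h3
    rcases h3 with (h3 | h3) | h3
    · have := TT_depth sY zY hY hsY _ _ _ _ h3
      simp only [dHA'] at this
      omega
    · rw [dDA', dHA'] at h3
      rw [Nat.zero_add] at h3
      refine (TT_shift sY zY hY P'.1 _ (DA zX (A, cs)) z _ k').1 ?_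
      rw [sub_add_cancel]
      exact h3
    · have := TT_depth sY zY hY hsY _ _ _ _ h3
      simp only [HT_append _ _ P'.1, dHA'] at this
      omega
  -- converse
  have hTX' : ∀ z k', (z, k') ∈ TT sX zX hX P.1 0 (HA (A, cs)) →
      (z + DA zX (A, cs), k') ∈ TT sX zX hX L 0 0 := by
    intro z k' h3
    rw [hLd, TT_append, TT_append]
    refine Or.inl (Or.inr ?_)
    rw [dDA, dHA, Nat.zero_add, TT_shift, add_sub_cancel_right]
    exact h3
  have hTY' : ∀ z k', (z, k') ∈ TT sY zY hY P'.1 (w + DA zY (A', cs') - DA zX (A, cs))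
      (HA (A', cs')) → (z + DA zX (A, cs), k') ∈ TT sY zY hY L' w 0 := by
    intro z k' h3
    rw [hLd', TT_append, TT_append]
    refine Or.inl (Or.inr ?_)
    rw [dDA', dHA', Nat.zero_add]
    have := (TT_shift sY zY hY P'.1 (w + DA zY (A', cs') - DA zX (A, cs)) (DA zX (A, cs))
      (z + DA zX (A, cs)) (HA (A', cs')) k').2 (by rw [add_sub_cancel_right]; exact h3)
    rw [sub_add_cancel] at this
    exact this
  constructor
  · obtain ⟨z, hz1, hz2⟩ := hk
    exact ⟨z - DA zX (A, cs), k, hTX z k (by omega) (by omega) hz1,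
      hTY z k (by omega) (by omega) hz2⟩
  · intro z k' h1 h2
    have hc : Cs hX hY zX zY sX sY L L' w k' := ⟨_, hTX' z k' h1, hTY' z k' h2⟩
    have hmin := hkmin k' hc
    have hd := TT_depth sX zX hX hsX _ _ _ _ h1
    simp only at hd
    have hPle := o1.2.2
    have hk'le : k' ≤ (i + 2) * t + 2 * I := by omega
    have hin : (i + 2) * t ≤ (2 * K + 2) * t := Nat.mul_le_mul_right t (by omega)
    have := (hE1 k' hc (by omega)).2 i (Finset.mem_Icc.2 ⟨hiK, hi2K⟩)
    constructor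
    · omega
    · by_contra hcon
      push Not at hcon
      exact this ⟨by omega, by omega⟩

end Crest.Agent.R154.Asm86
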