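import Crest.Agent.R154.Asm2E_86

/-! Row 154, ROAD 801: abstract assembly, part F (helper86): KAPPA' for lists. -/

set_option autoImplicit false

namespace Crest.Agent.R154.Asm86

open scoped ENNReal
open Crest.Agent.R154.B5A
open Crest.Agent.R154.FP178 (fp fp_nil fp_cons fp_zero)

variable {BX BY G : Type*} [AddCommGroup G]
  (ΛX : BX → ℝ≥0∞) (ΛY : BY → ℝ≥0∞) (hX : BX → ℕ) (hY : BY → ℕ) (zX : BX → G) (zY : BY → G)
  (sX : BX → Set (G × ℕ)) (sY : BY → Set (G × ℕ))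

variable (h1X : ∀ b, 1 ≤ hX b) (h1Y : ∀ b, 1 ≤ hY b) (hΛX : ∑' b, ΛX b = 1)
  (hΛY : ∑' b, ΛY b = 1) (hsX : ∀ b, ∀ q ∈ sX b, 1 ≤ q.2 ∧ q.2 ≤ hX b)
  (hsY : ∀ b, ∀ q ∈ sY b, 1 ≤ q.2 ∧ q.2 ≤ hY b)

lemma SL_finsum {B : Type*} (Λ : B → ℝ≥0∞) (N : ℕ) (S : Finset ℕ) (f : ℕ → List B → ℝ≥0∞) :
    SL Λ N (fun L => ∑ i ∈ S, f i L) = ∑ i ∈ S, SL Λ N (f i) := by
  induction S using Finset.induction_on with
  | empty =>
    simp only [Finset.sum_empty]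
    simpa using SL_const_mul Λ N 0 (fun _ => 0)
  | insert a S ha ih =>
    simp only [Finset.sum_insert ha]
    rw [SL_add_fun, ih]

set_option maxHeartbeats 4000000 in
open Classical in
include h1X h1Y hΛX hΛY hsX hsY in
/-- the sum of the windows -/
lemma windows {C : ℝ≥0∞} {us : ℕ → ℝ≥0∞} (hH2 : H2 ΛX ΛY hX hY zX zY sX sY C us)
    (hH3 : H3 ΛX ΛY hX hY zX zY sX sY C us)
    (n m K t s i0 I : ℕ) (hK : 1 ≤ K) (hm1 : K * t ≤ m) (hm2 : 2 * m ≤ (2 * K + 1) * t)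
    (hI : (2 * K + 1) * i0 ≤ I) (ht : (2 * K + 3) * I + s ≤ t) (hn : (2 * K + 2) * t + 2 * I ≤ n)
    (hmn : 2 * m ≤ n) (lam τ u : ℝ≥0∞) (hl0 : lam ≠ 0) (hl1 : lam ≠ ⊤)
    (hu0 : u ≠ 0) (hu1 : u < 1)
    (hovX : ∀ a, ∑' L, (if fp hX a L ∧ a + i0 < HT hX L then LW ΛX L else 0) ≤ τ)
    (hovY : ∀ a, ∑' L, (if fp hY a L ∧ a + i0 < HT hY L then LW ΛY L else 0) ≤ τ) (w : G) :
    ∑' L, ∑' L', (if HT hX L = n ∧ HT hY L' = n ∧
        Ev hX hY zX zY sX sY n m K t s (s + 2 * I + 1) L L' w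
      then LW ΛX L * LW ΛY L' else 0)
      ≤ ∑ i ∈ Finset.Icc K (2 * K), (2 * (((((i - 1) / 3 : ℕ) : ℝ≥0∞) + 2) * τ)
          + 2 * (1 - u) ^ ((i - 1) / 3) + u * u
          + 2 * ((I + 1) ^ 4 * (C * (lam + 2 * (((i - 1) / 3 : ℕ) : ℝ≥0∞) * us s / lam + us s)))) := by
  set N := n + 5 * t + I + (3 * t + I) * (2 * K) + (3 * t + I) with hNdef
  refine (ext2 ΛX ΛY hX hY zX zY sX sY h1X h1Y hΛX hΛY hsX hsY n N m K t s (s + 2 * I + 1) hmn
    (by omega) w).trans ?_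
  -- bound of the indicator by the sum over the windows
  have hind : ∀ (L : List BX) (L' : List BY), L.length = N → L'.length = N →
      (if Ev hX hY zX zY sX sY n m K t s (s + 2 * I + 1) L L' w then (1 : ℝ≥0∞) else 0)
      ≤ ∑ i ∈ Finset.Icc K (2 * K),
        ∑' (x : (Ck hX ((i - 1) % 3 * t) × List (Ck hX (3 * t))) × Ck hX (3 * t)),
        ∑' (y : (Ck hY ((i - 1) % 3 * t + I) × List (Ck hY (3 * t + I))) × Ck hY (3 * t + I)),
        (if pre x <+: L ∧ pre y <+: L' then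
          (if x.1.2.length = (i - 1) / 3 ∧ y.1.2.length = (i - 1) / 3 ∧
            (Ov i0 x ∨ Ov i0 y ∨ CC hX hY zX zY sX sY (i * t) ((i + 2) * t - s) x.2.1 (HA x.1)
              y.2.1 (w + DA zY y.1 - DA zX x.1) (HA y.1)) then 1 else 0) else 0) := by
    intro L L' hL hL'
    by_cases hE : Ev hX hY zX zY sX sY n m K t s (s + 2 * I + 1) L L' w
    · rw [if_pos hE]
      obtain ⟨i, hi, x, y, hx, hy, hpx, hpy, hQ⟩ := combi hX hY zX zY sX sY h1X h1Y hsX hsY n m K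
        t s i0 I N hK hm1 hm2 hI ht hn hmn (fun i hi => by
          have : (3 * t + I) * i ≤ (3 * t + I) * (2 * K) := Nat.mul_le_mul_left _ hi
          omega) w L L' hL hL' hE
      refine le_trans ?_ (Finset.single_le_sum (fun _ _ => zero_le) hi)
      refine le_trans ?_ (ENNReal.le_tsum x)
      refine le_trans ?_ (ENNReal.le_tsum y)
      rw [if_pos ⟨hpx, hpy⟩, if_pos ⟨hx, hy, hQ⟩]
    · rw [if_neg hE]; exact zero_le
  have step1 : SL ΛX N (fun L => SL ΛY N (fun L' =>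
        if Ev hX hY zX zY sX sY n m K t s (s + 2 * I + 1) L L' w then 1 else 0))
      ≤ ∑ i ∈ Finset.Icc K (2 * K), SL ΛX N (fun L => SL ΛY N (fun L' =>
        ∑' (x : (Ck hX ((i - 1) % 3 * t) × List (Ck hX (3 * t))) × Ck hX (3 * t)),
        ∑' (y : (Ck hY ((i - 1) % 3 * t + I) × List (Ck hY (3 * t + I))) × Ck hY (3 * t + I)),
        (if pre x <+: L ∧ pre y <+: L' then
          (if x.1.2.length = (i - 1) / 3 ∧ y.1.2.length = (i - 1) / 3 ∧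
            (Ov i0 x ∨ Ov i0 y ∨ CC hX hY zX zY sX sY (i * t) ((i + 2) * t - s) x.2.1 (HA x.1)
              y.2.1 (w + DA zY y.1 - DA zX x.1) (HA y.1)) then 1 else 0) else 0))) := by
    refine (SL_mono ΛX N fun L hL => SL_mono ΛY N fun L' hL' => hind L L' hL hL').trans ?_
    simp_rw [SL_finsum]
    exact le_rfl
  refine step1.trans (Finset.sum_le_sum fun i hi => ?_)
  rw [Finset.mem_Icc] at hi
  refine (SL_union ΛX ΛY hΛX hΛY N
    (fun x : (Ck hX ((i - 1) % 3 * t) × List (Ck hX (3 * t))) × Ck hX (3 * t) => pre x)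
    (fun y : (Ck hY ((i - 1) % 3 * t + I) × List (Ck hY (3 * t + I))) × Ck hY (3 * t + I) => pre y)
    (fun x y => if x.1.2.length = (i - 1) / 3 ∧ y.1.2.length = (i - 1) / 3 ∧
            (Ov i0 x ∨ Ov i0 y ∨ CC hX hY zX zY sX sY (i * t) ((i + 2) * t - s) x.2.1 (HA x.1)
              y.2.1 (w + DA zY y.1 - DA zX x.1) (HA y.1)) then 1 else 0)
    _ (fun L L' _ _ => le_rfl)).trans ?_
  obtain ⟨θX, hθX, -, qX1, qX2⟩ := AsmA789.quant (pc zX hX ΛX (3 * t))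
    (sum_pc zX hX ΛX (3 * t) h1X hΛX) hu0 hu1
  obtain ⟨θY, hθY, -, qY1, qY2⟩ := AsmA789.quant (pc zY hY ΛY (3 * t + I))
    (sum_pc zY hY ΛY (3 * t + I) h1Y hΛY) hu0 hu1
  have hij : i = (i - 1) % 3 + 3 * ((i - 1) / 3) + 1 := by omega
  have ho3 : (i - 1) % 3 ≤ 2 := by omega
  have hj2 : (i - 1) / 3 ≤ 2 * K := by omega
  set o := (i - 1) % 3 with ho
  set j := (i - 1) / 3 with hj
  have hbase : o * t + 3 * t * j = (i - 1) * t := by
    have : i - 1 = o + 3 * j := by omega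
    rw [this]; ring
  have hbase2 : (i - 1) * t + t = i * t := by
    have : i = (i - 1) + 1 := by omega
    conv_rhs => rw [this]
    ring
  have hji0 : (j + 1) * i0 ≤ I := le_trans (Nat.mul_le_mul_right i0 (by omega)) hI
  have hjI : (j + 1) * I ≤ (2 * K + 1) * I := Nat.mul_le_mul_right I (by omega)
  have hy1 : (o * t + I) + (3 * t + I) * j = (i - 1) * t + (j + 1) * I := by
    rw [← hbase]; ring
  have hI1 : I ≤ (j + 1) * I := Nat.le_mul_of_pos_left I (by omega)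
  have ht' : (2 * K + 1) * I + 2 * I + s ≤ t := by
    have : (2 * K + 3) * I = (2 * K + 1) * I + 2 * I := by ring
    omega
  have hi2t : (i + 2) * t = (i - 1) * t + 3 * t := by
    have : i + 2 = (i - 1) + 3 := by omega
    rw [this]; ring
  have hwin := window ΛX ΛY hX hY zX zY sX sY (o * t) (3 * t) (o * t + I) (3 * t + I) j
    h1X h1Y hΛX hΛY hH2 hH3 s (i * t) ((i + 2) * t - s) i0 I lam θX θY τ u hθX hθY hl0 hl1 hji0
    (by rw [hy1, hbase]; omega) (by rw [hy1, hbase]; omega) (by rw [hy1]; omega)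
    (by rw [hbase]; omega) hovX hovY
    (le_trans (le_of_eq (tsum_congr fun q => by congr)) qX1)
    (le_trans qX2 (le_of_eq (tsum_congr fun q => by congr)))
    (le_trans (le_of_eq (tsum_congr fun q => by congr)) qY1)
    (le_trans qY2 (le_of_eq (tsum_congr fun q => by congr))) w
  refine le_trans (ENNReal.tsum_le_tsum fun x => ENNReal.tsum_le_tsum fun y => ?_) hwin
  by_cases hx : x.1.2.length = j
  · by_cases hy : y.1.2.length = j
    · rw [LW_pre ΛX j x hx, LW_pre ΛY j y hy]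
      refine mul_le_mul_right ?_ _
      by_cases hQ : (Ov i0 x ∨ Ov i0 y ∨ CC hX hY zX zY sX sY (i * t) ((i + 2) * t - s) x.2.1
        (HA x.1) y.2.1 (w + DA zY y.1 - DA zX x.1) (HA y.1))
      · rw [if_pos hQ]; split_ifs <;> simp
      · rw [if_neg (fun h => hQ h.2.2)]; exact zero_le
    · rw [if_neg (fun h => hy h.2.1), mul_zero]; exact zero_le
  · rw [if_neg (fun h => hx h.1), mul_zero]; exact zero_le

open Classical in
/-- thin slab -/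
def H5 : Prop :=
  ∀ s : ℕ, ∀ η : ℝ≥0∞, η ≠ 0 → ∃ T : ℕ, ∀ a, T ≤ a → ∀ n : ℕ, ∀ w : G,
    ∑' L : List BX, ∑' L' : List BY, (if HT hX L = n ∧ HT hY L' = n ∧
      (∃ z k, a ≤ k ∧ k < a + s ∧ (z, k) ∈ TT sX zX hX L 0 0 ∧ (z, k) ∈ TT sY zY hY L' w 0)
      then LW ΛX L * LW ΛY L' else 0) ≤ η

open Classical in
/-- weak first contact form -/
def KS : Prop :=
  ∀ ε : ℝ≥0∞, ε ≠ 0 → ∃ M : ℕ, ∀ m, M ≤ m → ∃ n0 : ℕ, ∀ n, n0 ≤ n → ∀ w : G,
    ∑' L : List BX, ∑' L' : List BY, (if HT hX L = n ∧ HT hY L' = n ∧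
      (∀ z k, (z, k) ∈ TT sX zX hX L 0 0 → (z, k) ∈ TT sY zY hY L' w 0 → m < k) ∧
      (∃ z k, (z, k) ∈ TT sX zX hX L 0 0 ∧ (z, k) ∈ TT sY zY hY L' w 0 ∧ k ≤ 2 * m)
      then LW ΛX L * LW ΛY L' else 0) ≤ ε

open Classical in
/-- splitting off the slabs -/
lemma slabs (n m K t s r : ℕ) (w : G) :
    ∑' L : List BX, ∑' L' : List BY, (if HT hX L = n ∧ HT hY L' = n ∧
      (∀ z k, (z, k) ∈ TT sX zX hX L 0 0 → (z, k) ∈ TT sY zY hY L' w 0 → m < k) ∧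
      (∃ z k, (z, k) ∈ TT sX zX hX L 0 0 ∧ (z, k) ∈ TT sY zY hY L' w 0 ∧ k ≤ 2 * m)
      then LW ΛX L * LW ΛY L' else 0)
    ≤ ∑' L, ∑' L', (if HT hX L = n ∧ HT hY L' = n ∧ Ev hX hY zX zY sX sY n m K t s r L L' w
        then LW ΛX L * LW ΛY L' else 0)
      + ∑ i ∈ Finset.Icc K (2 * K), ∑' L : List BX, ∑' L' : List BY,
        (if HT hX L = n ∧ HT hY L' = n ∧
      (∃ z k, (i + 2) * t - s ≤ k ∧ k < (i + 2) * t - s + r ∧ (z, k) ∈ TT sX zX hX L 0 0 ∧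
        (z, k) ∈ TT sY zY hY L' w 0)
      then LW ΛX L * LW ΛY L' else 0) := by
  simp_rw [← Summable.tsum_finsetSum (fun _ _ => ENNReal.summable), ← ENNReal.tsum_add]
  refine ENNReal.tsum_le_tsum fun L => ENNReal.tsum_le_tsum fun L' => ?_
  by_cases h : HT hX L = n ∧ HT hY L' = n ∧
      (∀ z k, (z, k) ∈ TT sX zX hX L 0 0 → (z, k) ∈ TT sY zY hY L' w 0 → m < k) ∧
      (∃ z k, (z, k) ∈ TT sX zX hX L 0 0 ∧ (z, k) ∈ TT sY zY hY L' w 0 ∧ k ≤ 2 * m)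
  · rw [if_pos h]
    by_cases hs : ∃ i ∈ Finset.Icc K (2 * K), ∃ z k, (i + 2) * t - s ≤ k ∧
        k < (i + 2) * t - s + r ∧ (z, k) ∈ TT sX zX hX L 0 0 ∧ (z, k) ∈ TT sY zY hY L' w 0
    · obtain ⟨i, hi, hz⟩ := hs
      refine le_add_left ?_
      refine le_trans ?_ (Finset.single_le_sum (fun _ _ => zero_le) hi)
      rw [if_pos ⟨h.1, h.2.1, hz⟩]
    · refine le_add_right ?_
      rw [if_pos]
      refine ⟨h.1, h.2.1, ?_, ?_⟩
      · rintro k ⟨z, hz1, hz2⟩ _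
        refine ⟨h.2.2.1 z k hz1 hz2, fun i hi hk => hs ⟨i, hi, z, k, hk.1, hk.2, hz1, hz2⟩⟩
      · obtain ⟨z, k, hz1, hz2, hk⟩ := h.2.2.2
        exact ⟨k, ⟨z, hz1, hz2⟩, h.2.2.1 z k hz1 hz2, hk⟩
  · rw [if_neg h]; exact zero_le


end Crest.Agent.R154.Asm86
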