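import Crest.Agent.R154.Asm2F_86

/-! Row 154, ROAD 801: abstract assembly, part G (helper86): the choice of the constants. -/

set_option autoImplicit false

namespace Crest.Agent.R154.Asm86

open scoped ENNReal
open Filter Topology
open Crest.Agent.R154.B5A
open Crest.Agent.R154.FP178 (fp fp_nil fp_cons fp_zero)

lemma small_of_tendsto {f : ℕ → ℝ≥0∞} (hf : Tendsto f atTop (𝓝 0)) (D ε : ℝ≥0∞) (hD : D ≠ ⊤)
    (hε : ε ≠ 0) : ∃ i, D * f i ≤ ε := by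
  have h := ENNReal.Tendsto.const_mul hf (Or.inr hD)
  rw [mul_zero] at h
  obtain ⟨i, hi⟩ := (h.eventually (gt_mem_nhds (pos_iff_ne_zero.2 hε))).exists
  exact ⟨i, hi.le⟩

lemma tail_small {B : Type*} (Λ : B → ℝ≥0∞) (h : B → ℕ) (hΛ : ∑' b, Λ b = 1)
    (hE : ∑' b, Λ b * (h b : ℝ≥0∞) ≠ ⊤) :
    Tendsto (fun i => ∑' k, tail Λ h (i + k)) atTop (𝓝 0) := by
  have h1 : ∑' k, tail Λ h k ≠ ⊤ := by rw [← sum_tail Λ h hΛ]; exact hE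
  have := ENNReal.tendsto_sum_nat_add (fun k => tail Λ h k) h1
  refine this.congr fun i => tsum_congr fun k => by rw [add_comm]

variable {BX BY G : Type*} [AddCommGroup G]
  (ΛX : BX → ℝ≥0∞) (ΛY : BY → ℝ≥0∞) (hX : BX → ℕ) (hY : BY → ℕ) (zX : BX → G) (zY : BY → G)
  (sX : BX → Set (G × ℕ)) (sY : BY → Set (G × ℕ))

set_option maxHeartbeats 4000000 in
/-- **KAPPA' for lists of single-walker blocks.** -/
theorem kapS (h1X : ∀ b, 1 ≤ hX b) (h1Y : ∀ b, 1 ≤ hY b) (hΛX : ∑' b, ΛX b = 1)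
    (hΛY : ∑' b, ΛY b = 1) (hsX : ∀ b, ∀ q ∈ sX b, 1 ≤ q.2 ∧ q.2 ≤ hX b)
    (hsY : ∀ b, ∀ q ∈ sY b, 1 ≤ q.2 ∧ q.2 ≤ hY b)
    (hUX : ∀ n, U ΛX hX n ≤ 1) (hUY : ∀ n, U ΛY hY n ≤ 1)
    (hEX : ∑' b, ΛX b * (hX b : ℝ≥0∞) ≠ ⊤) (hEY : ∑' b, ΛY b * (hY b : ℝ≥0∞) ≠ ⊤)
    {C : ℝ≥0∞} (hC : C ≠ ⊤) {us : ℕ → ℝ≥0∞} (hus : Tendsto us atTop (𝓝 0))
    (hH2 : H2 ΛX ΛY hX hY zX zY sX sY C us) (hH3 : H3 ΛX ΛY hX hY zX zY sX sY C us)
    (hH5 : H5 ΛX ΛY hX hY zX zY sX sY) : KS ΛX ΛY hX hY zX zY sX sY := by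
  classical
  intro ε hε
  rcases eq_or_ne ε ⊤ with rfl | hεT
  · exact ⟨0, fun _ _ => ⟨0, fun _ _ _ => le_top⟩⟩
  set e := ε / 6 with he
  have he0 : e ≠ 0 := by
    rw [he]; exact (ENNReal.div_ne_zero).2 ⟨hε, by norm_num⟩
  have heT : e ≠ ⊤ := ENNReal.div_ne_top hεT (by norm_num)
  obtain ⟨q, hq2, hq⟩ := AsmA789.num he0 6
  set K : ℕ := 3 * q ^ 3 + 1 with hK
  have hK1 : 1 ≤ K := by omega
  -- overshoot
  set D1 : ℝ≥0∞ := (K + 1 : ℕ) * (2 * (2 * K + 2 : ℕ)) with hD1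
  have hD1T : D1 ≠ ⊤ := ENNReal.mul_ne_top (ENNReal.natCast_ne_top _)
    (ENNReal.mul_ne_top (by norm_num) (ENNReal.natCast_ne_top _))
  obtain ⟨i0, hi0⟩ := small_of_tendsto (f := fun i => ∑' k, tail ΛX hX (i + k)
    + ∑' k, tail ΛY hY (i + k)) (by
      have := (tail_small ΛX hX hΛX hEX).add (tail_small ΛY hY hΛY hEY)
      rwa [add_zero] at this) D1 e hD1T he0
  set τ : ℝ≥0∞ := ∑' k, tail ΛX hX (i0 + k) + ∑' k, tail ΛY hY (i0 + k) with hτ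
  have hovX : ∀ a, ∑' L, (if fp hX a L ∧ a + i0 < HT hX L then LW ΛX L else 0) ≤ τ := by
    intro a
    refine le_trans (le_trans (le_of_eq (tsum_congr fun L => by congr))
      (FP178.overshoot ΛX hX h1X hUX i0 a)) le_self_add
  have hovY : ∀ a, ∑' L, (if fp hY a L ∧ a + i0 < HT hY L then LW ΛY L else 0) ≤ τ := by
    intro a
    refine le_trans (le_trans (le_of_eq (tsum_congr fun L => by congr))
      (FP178.overshoot ΛY hY h1Y hUY i0 a)) le_add_self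
  set I : ℕ := (2 * K + 1) * i0 with hI
  set D2 : ℝ≥0∞ := (K + 1 : ℕ) * (2 * (((I : ℝ≥0∞) + 1) ^ 4 * C)) with hD2
  have hD2T : D2 ≠ ⊤ := ENNReal.mul_ne_top (ENNReal.natCast_ne_top _)
    (ENNReal.mul_ne_top (by norm_num) (ENNReal.mul_ne_top
      (ENNReal.pow_ne_top (ENNReal.add_ne_top.2 ⟨ENNReal.natCast_ne_top _, by norm_num⟩)) hC))
  set lam : ℝ≥0∞ := e / (D2 + 1) with hlam
  have hl0 : lam ≠ 0 := ENNReal.div_ne_zero.2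
    ⟨he0, ENNReal.add_ne_top.2 ⟨hD2T, by norm_num⟩⟩
  have hl1 : lam ≠ ⊤ := ENNReal.div_ne_top heT (by simp)
  have hlamle : D2 * lam ≤ e := by
    calc D2 * lam ≤ (D2 + 1) * lam := mul_le_mul_left le_self_add _
      _ ≤ e := ENNReal.mul_div_le
  set D3 : ℝ≥0∞ := D2 * (2 * (2 * K : ℕ) / lam + 1) with hD3
  have hD3T : D3 ≠ ⊤ := ENNReal.mul_ne_top hD2T (ENNReal.add_ne_top.2
    ⟨ENNReal.div_ne_top (ENNReal.mul_ne_top (by norm_num) (ENNReal.natCast_ne_top _)) hl0,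
      by norm_num⟩)
  obtain ⟨s, hs⟩ := small_of_tendsto hus D3 e hD3T he0
  have hη : e / (K + 1 : ℕ) ≠ 0 := ENNReal.div_ne_zero.2 ⟨he0, ENNReal.natCast_ne_top _⟩
  obtain ⟨T5, hT5⟩ := hH5 (s + 2 * I + 1) (e / (K + 1 : ℕ)) hη
  set tm : ℕ := 2 * K + (2 * K + 3) * I + s + T5 + 1 with htm
  refine ⟨K * tm, fun m hm => ?_⟩
  set t := m / K with ht
  have htm' : tm ≤ t := by
    rw [ht, Nat.le_div_iff_mul_le (by omega)]
    rw [mul_comm]; exact hm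
  have hm1 : K * t ≤ m := Nat.mul_div_le m K
  have hm3 : m < K * (t + 1) := by
    have := Nat.lt_mul_div_succ m (show 0 < K by omega)
    simpa using this
  have hm2 : 2 * m ≤ (2 * K + 1) * t := by
    have e1 : K * (t + 1) = K * t + K := by ring
    have e2 : (2 * K + 1) * t = 2 * (K * t) + t := by ring
    rw [e1] at hm3
    rw [e2]
    omega
  refine ⟨2 * m + (2 * K + 2) * t + 2 * I, fun n hn w => ?_⟩
  refine (slabs ΛX ΛY hX hY zX zY sX sY n m K t s (s + 2 * I + 1) w).trans ?_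
  set u : ℝ≥0∞ := ((q : ℝ≥0∞) ^ 2)⁻¹ with hu
  have hq0 : (q : ℝ≥0∞) ≠ 0 := by
    have : q ≠ 0 := by omega
    exact_mod_cast this
  have hqT : (q : ℝ≥0∞) ≠ ⊤ := ENNReal.natCast_ne_top _
  have hu0 : u ≠ 0 := ENNReal.inv_ne_zero.2 (ENNReal.pow_ne_top hqT)
  have hu1 : u < 1 := by
    rw [hu, ENNReal.inv_lt_one]
    have : (1 : ℝ≥0∞) < (q : ℝ≥0∞) := by exact_mod_cast (by omega : 1 < q)
    exact one_lt_pow₀ this (by norm_num)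
  have hw := windows ΛX ΛY hX hY zX zY sX sY h1X h1Y hΛX hΛY hsX hsY hH2 hH3 n m K t s i0 I hK1
    hm1 hm2 le_rfl (by omega) (by omega) (by omega) lam τ u hl0 hl1 hu0 hu1 hovX hovY w
  -- each window
  have hcard : (Finset.Icc K (2 * K)).card = K + 1 := by rw [Nat.card_Icc]; omega
  have hb : ∀ i ∈ Finset.Icc K (2 * K), (2 * (((((i - 1) / 3 : ℕ) : ℝ≥0∞) + 2) * τ)
          + 2 * (1 - u) ^ ((i - 1) / 3) + u * u
          + 2 * (((I : ℝ≥0∞) + 1) ^ 4 * (C * (lam + 2 * (((i - 1) / 3 : ℕ) : ℝ≥0∞) * us s / lam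
            + us s))))
      ≤ 2 * ((2 * K + 2 : ℕ) * τ) + 2 * (1 - (2 * (q : ℝ≥0∞) ^ 2)⁻¹) ^ (q ^ 3) + u * u
          + 2 * (((I : ℝ≥0∞) + 1) ^ 4 * (C * (lam + 2 * (2 * K : ℕ) * us s / lam + us s))) := by
    intro i hi
    rw [Finset.mem_Icc] at hi
    have hj1 : q ^ 3 ≤ (i - 1) / 3 := by omega
    have hj2 : (i - 1) / 3 ≤ 2 * K := by omega
    have c1 : ((((i - 1) / 3 : ℕ) : ℝ≥0∞) + 2) ≤ ((2 * K + 2 : ℕ) : ℝ≥0∞) := by
      exact_mod_cast (by omega : (i - 1) / 3 + 2 ≤ 2 * K + 2)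
    have c2 : (((i - 1) / 3 : ℕ) : ℝ≥0∞) ≤ ((2 * K : ℕ) : ℝ≥0∞) := by exact_mod_cast hj2
    have c3 : (1 - u) ^ ((i - 1) / 3) ≤ (1 - (2 * (q : ℝ≥0∞) ^ 2)⁻¹) ^ (q ^ 3) := by
      calc (1 - u) ^ ((i - 1) / 3) ≤ (1 - u) ^ (q ^ 3) :=
            pow_le_pow_right_of_le_one' (by exact tsub_le_self) hj1
        _ ≤ _ := by
            refine pow_le_pow_left₀ zero_le ?_ _
            refine tsub_le_tsub_left ?_ _
            rw [hu]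
            refine ENNReal.inv_le_inv.2 ?_
            calc (q : ℝ≥0∞) ^ 2 = 1 * (q : ℝ≥0∞) ^ 2 := (one_mul _).symm
              _ ≤ 2 * (q : ℝ≥0∞) ^ 2 := mul_le_mul_left (by norm_num) _
    gcongr
  have hsum := Finset.sum_le_sum hb
  rw [Finset.sum_const, hcard, nsmul_eq_mul] at hsum
  have hslab : ∑ i ∈ Finset.Icc K (2 * K), ∑' L : List BX, ∑' L' : List BY,
        (if HT hX L = n ∧ HT hY L' = n ∧
      (∃ z k, (i + 2) * t - s ≤ k ∧ k < (i + 2) * t - s + (s + 2 * I + 1) ∧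
        (z, k) ∈ TT sX zX hX L 0 0 ∧ (z, k) ∈ TT sY zY hY L' w 0)
      then LW ΛX L * LW ΛY L' else 0) ≤ e := by
    calc _ ≤ ∑ i ∈ Finset.Icc K (2 * K), e / (K + 1 : ℕ) := by
          refine Finset.sum_le_sum fun i hi => hT5 _ ?_ n w
          have : 2 * t ≤ (i + 2) * t := Nat.mul_le_mul_right t (by omega)
          omega
      _ = (K + 1 : ℕ) * (e / (K + 1 : ℕ)) := by rw [Finset.sum_const, hcard, nsmul_eq_mul]
      _ ≤ e := ENNReal.mul_div_le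
  have hnum : ((K + 1 : ℕ) : ℝ≥0∞) * (2 * (1 - (2 * (q : ℝ≥0∞) ^ 2)⁻¹) ^ (q ^ 3) + u * u) ≤ e := by
    refine le_trans ?_ hq
    have d1 : ((K + 1 : ℕ) : ℝ≥0∞) * 2 ≤ (6 : ℕ) * ((q : ℝ≥0∞) ^ 3 + (6 : ℕ)) := by
      have : (K + 1) * 2 ≤ 6 * (q ^ 3 + 6) := by omega
      exact_mod_cast this
    calc ((K + 1 : ℕ) : ℝ≥0∞) * (2 * (1 - (2 * (q : ℝ≥0∞) ^ 2)⁻¹) ^ (q ^ 3) + u * u)
        ≤ ((K + 1 : ℕ) : ℝ≥0∞) * (2 * (1 - (2 * (q : ℝ≥0∞) ^ 2)⁻¹) ^ (q ^ 3) + 2 * (u ^ 2)) := by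
          refine mul_le_mul_right (add_le_add le_rfl ?_) _
          rw [sq]
          calc u * u = 1 * (u * u) := (one_mul _).symm
            _ ≤ 2 * (u * u) := mul_le_mul_left (by norm_num) _
      _ = (((K + 1 : ℕ) : ℝ≥0∞) * 2) * (u ^ 2 + (1 - (2 * (q : ℝ≥0∞) ^ 2)⁻¹) ^ (q ^ 3)) := by ring
      _ ≤ _ := mul_le_mul_left d1 _
  have hfin : ((K + 1 : ℕ) : ℝ≥0∞) * (2 * ((2 * K + 2 : ℕ) * τ)
          + 2 * (1 - (2 * (q : ℝ≥0∞) ^ 2)⁻¹) ^ (q ^ 3) + u * u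
          + 2 * (((I : ℝ≥0∞) + 1) ^ 4 * (C * (lam + 2 * (2 * K : ℕ) * us s / lam + us s))))
      ≤ e + e + (e + e) := by
    calc _ = D1 * τ + ((K + 1 : ℕ) : ℝ≥0∞) * (2 * (1 - (2 * (q : ℝ≥0∞) ^ 2)⁻¹) ^ (q ^ 3) + u * u)
          + (D2 * lam + D3 * us s) := by
          rw [hD3, hD1, hD2]
          simp only [div_eq_mul_inv]
          ring
      _ ≤ _ := add_le_add (add_le_add hi0 hnum) (add_le_add hlamle hs)
  calc _ ≤ (e + e + (e + e)) + e := add_le_add (hw.trans (hsum.trans hfin)) hslab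
    _ = 5 * e := by ring
    _ ≤ 6 * e := mul_le_mul_left (by norm_num) _
    _ ≤ ε := ENNReal.mul_div_le

end Crest.Agent.R154.Asm86
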