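import Crest.Agent.R154.Asm_157

/-! Row 154, ROAD 801, window step of the abstract assembly (helper157). -/

set_option autoImplicit false

namespace Crest.Agent.R154.Asm157

open scoped ENNReal
open Crest.Agent.R154.B5A

section Two

variable {B : Type*} {Λ : B → ℝ≥0∞} {ht : B → ℕ}
variable (h1 : ∀ b, 1 ≤ ht b) (hΛ : ∑' b, Λ b = 1)

include h1 in
lemma SH_comp {A n : ℕ} (hAn : A ≤ n) (Φ : List B → ℝ≥0∞) :
    SH Λ ht n Φ = SF Λ ht A (fun L0 => if HT ht L0 ≤ n then
      SH Λ ht (n - HT ht L0) (fun L1 => Φ (L0 ++ L1)) else 0) := by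
  induction A using Nat.strong_induction_on generalizing n Φ with
  | _ A ih =>
    rcases Nat.eq_zero_or_pos A with rfl | hA
    · rw [SF_zero]; simp [HT_nil]
    · rw [SF_pos Λ ht hA.ne', SH_pos (by omega : n ≠ 0)]
      refine tsum_congr fun b => ?_
      have := h1 b
      by_cases hb : ht b ≤ n
      · rw [if_pos hb, ih (A - ht b) (by omega) (n := n - ht b) (by omega)]
        congr 1
        refine SF_congr Λ ht fun L _ => ?_
        rw [HT_cons, Nat.sub_sub]
        by_cases hh : HT ht L ≤ n - ht b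
        · rw [if_pos hh, if_pos (by omega)]; rfl
        · rw [if_neg hh, if_neg (by omega)]
      · rw [if_neg hb]
        have : SF Λ ht (A - ht b) (fun L => if HT ht (b :: L) ≤ n then
            SH Λ ht (n - HT ht (b :: L)) (fun L1 => Φ (b :: L ++ L1)) else 0)
            = SF Λ ht (A - ht b) (fun _ => 0) := by
          refine SF_congr Λ ht fun L _ => ?_
          rw [HT_cons, if_neg (by omega)]
        rw [this]
        have := SF_mul Λ ht (A := A - ht b) 0 (fun _ => 1)
        simp only [zero_mul] at this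
        rw [this, mul_zero]

lemma SH_mono {n : ℕ} {Φ Ψ : List B → ℝ≥0∞} (h : ∀ L, HT ht L = n → Φ L ≤ Ψ L) :
    SH Λ ht n Φ ≤ SH Λ ht n Ψ := by
  refine ENNReal.tsum_le_tsum fun L => ?_
  by_cases hL : HT ht L = n
  · simp only [hL, if_true]; exact mul_le_mul_right (h L hL) _
  · simp [hL]

include h1 hΛ in
lemma SH_const_le (n : ℕ) (c : ℝ≥0∞) : SH Λ ht n (fun _ => c) ≤ c := by
  refine (SH_le_SF h1 hΛ le_rfl (Φ := fun _ => c) fun _ _ => le_rfl).trans ?_
  rw [SF_const h1 hΛ]

include h1 hΛ in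
/-- the piece decomposition with the overshoot paid -/
lemma SH_window {A T i0 n : ℕ} (hn : A + i0 + T ≤ n) {Φ : List B → ℝ≥0∞}
    {g : List B → List B → ℝ≥0∞} (hΦ : ∀ L, HT ht L = n → Φ L ≤ 1)
    (hg : ∀ L0 L1 L2, FP ht L0 A → FP ht L1 T → HT ht L0 ≤ A + i0 →
      HT ht (L0 ++ (L1 ++ L2)) = n → Φ (L0 ++ (L1 ++ L2)) ≤ g L0 L1) :
    SH Λ ht n Φ ≤ ov Λ ht i0 + SF Λ ht A (fun L0 => SF Λ ht T (fun L1 => g L0 L1)) := by
  classical
  rw [SH_comp h1 (by omega : A ≤ n)]
  refine le_trans ?_ (add_le_add (SF_far h1 hΛ A i0) le_rfl)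
  rw [← SF_add]
  refine SF_mono' Λ ht fun L0 h0 => ?_
  by_cases hf : A + i0 < HT ht L0
  · rw [if_pos hf]
    refine le_add_right ?_
    split_ifs with hh
    · refine le_trans (SH_mono fun L hL => hΦ _ ?_) (SH_const_le h1 hΛ _ 1)
      rw [HT_append]; omega
    · exact bot_le
  · rw [if_neg hf, zero_add, if_pos (by omega), SH_comp h1 (by omega : T ≤ n - HT ht L0)]
    refine SF_mono' Λ ht fun L1 hh1 => ?_
    split_ifs with hh
    · refine le_trans (SH_mono fun L hL => hg L0 L1 L h0 hh1 (by omega) ?_)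
        (SH_const_le h1 hΛ _ _)
      rw [HT_append, HT_append]; omega
    · exact bot_le

end Two

section Three

variable {BX BY G : Type*} [AddCommGroup G]
variable {ΛX : BX → ℝ≥0∞} {ΛY : BY → ℝ≥0∞} {hX : BX → ℕ} {hY : BY → ℕ}

lemma SF_comm (A A' : ℕ) (Φ : List BX → List BY → ℝ≥0∞) :
    SF ΛX hX A (fun L => SF ΛY hY A' (fun L' => Φ L L'))
      = SF ΛY hY A' (fun L' => SF ΛX hX A (fun L => Φ L L')) := by
  classical
  simp only [SF]
  have e1 : ∀ L, (if FP hX L A then LW ΛX L *
      ∑' L', (if FP hY L' A' then LW ΛY L' * Φ L L' else 0) else 0)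
      = ∑' L', (if FP hX L A ∧ FP hY L' A' then LW ΛX L * (LW ΛY L' * Φ L L') else 0) := by
    intro L
    by_cases h : FP hX L A
    · simp only [h, if_true, true_and]
      rw [← ENNReal.tsum_mul_left]
      refine tsum_congr fun L' => ?_
      by_cases h' : FP hY L' A' <;> simp [h']
    · simp [h]
  have e2 : ∀ L', (if FP hY L' A' then LW ΛY L' *
      ∑' L, (if FP hX L A then LW ΛX L * Φ L L' else 0) else 0)
      = ∑' L, (if FP hX L A ∧ FP hY L' A' then LW ΛX L * (LW ΛY L' * Φ L L') else 0) := by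
    intro L'
    by_cases h : FP hY L' A'
    · simp only [h, if_true, and_true]
      rw [← ENNReal.tsum_mul_left]
      refine tsum_congr fun L => ?_
      by_cases h' : FP hX L A
      · simp only [h', if_true]; ring
      · simp [h']
    · simp [h]
  simp_rw [e1, e2]
  exact ENNReal.tsum_comm

variable (h1X : ∀ b, 1 ≤ hX b) (hΛX : ∑' b, ΛX b = 1)
variable (h1Y : ∀ b, 1 ≤ hY b) (hΛY : ∑' b, ΛY b = 1)
variable (zX : BX → G) (zY : BY → G)

open Classical in
include h1X hΛX h1Y hΛY in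
/-- **the local part**: the first walker smoothed (density `M` off a bad part), then `κ`. -/
lemma core {A i0 : ℕ} (w : G) {Gd Bd : ℕ → G → ℝ≥0∞} {M β D : ℝ≥0∞}
    (hs : ∀ h z, Fl ΛX hX zX A h z = Gd h z + Bd h z) (hG : ∀ h z, Gd h z ≤ M)
    (hB : ∑' h, ∑' z, Bd h z ≤ β) (κ : ℕ → ℕ → G → ℝ≥0∞) (hκ1 : ∀ a a' x, κ a a' x ≤ 1)
    (hκ : ∀ a a', A ≤ a → a ≤ A + i0 → A ≤ a' → a' ≤ A + i0 → ∀ μ : G → ℝ≥0∞, ∑' x, μ x ≤ 1 →
      (∀ x, μ x ≤ M) → ∑' x, μ x * κ a a' x ≤ D) :
    SF ΛX hX A (fun L0 => SF ΛY hY A (fun L0' =>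
      if HT hX L0 ≤ A + i0 ∧ HT hY L0' ≤ A + i0 then
        κ (HT hX L0) (HT hY L0') (w + Dp zY L0' - Dp zX L0) else 0))
      ≤ β + (i0 + 1 : ℕ) * (i0 + 1 : ℕ) * D := by
  let ρ : ℕ → G → ℝ≥0∞ := fun a z => SF ΛY hY A (fun L0' =>
      if a ≤ A + i0 ∧ HT hY L0' ≤ A + i0 then κ a (HT hY L0') (w + Dp zY L0' - z) else 0)
  have hρ1 : ∀ a z, ρ a z ≤ 1 := by
    intro a z
    refine (SF_mono ΛY hY (Ψ := fun _ => 1) fun L => ?_).trans (SF_one h1Y hΛY A).le
    split_ifs
    · exact hκ1 _ _ _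
    · exact bot_le
  have e := law_sum ΛX hX zX A ρ
  refine (show _ = _ from e).trans_le ?_
  have hsplit : ∑' h, ∑' z, Fl ΛX hX zX A h z * ρ h z
      ≤ ∑' h, ∑' z, Bd h z + ∑' h, ∑' z, Gd h z * ρ h z := by
    rw [← ENNReal.tsum_add]
    refine ENNReal.tsum_le_tsum fun h => ?_
    rw [← ENNReal.tsum_add]
    refine ENNReal.tsum_le_tsum fun z => ?_
    rw [hs, add_mul, add_comm]
    exact add_le_add (mul_le_of_le_one_right' (hρ1 h z)) le_rfl
  refine hsplit.trans (add_le_add hB ?_)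
  have hG0 : ∀ h, h < A → ∀ z, Gd h z = 0 := by
    intro h hh z
    have := hs h z
    rw [Fl_zero_of_lt ΛX hX zX hh] at this
    exact (add_eq_zero.1 this.symm).1
  have hGs : ∀ h, ∑' z, Gd h z ≤ 1 := by
    intro h
    refine le_trans ?_ (Fl_sum_le h1X hΛX zX A h)
    refine ENNReal.tsum_le_tsum fun z => ?_
    rw [hs]; exact le_self_add
  have hone : ∀ a, A ≤ a → a ≤ A + i0 → ∑' z, Gd a z * ρ a z ≤ (i0 + 1 : ℕ) * D := by
    intro a ha ha'
    have e1 : ∀ z, ρ a z = ∑' a', ∑' z', Fl ΛY hY zY A a' z' *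
        (if a' ≤ A + i0 then κ a a' (w + z' - z) else 0) := by
      intro z
      have := law_sum ΛY hY zY A (fun a' z' => if a' ≤ A + i0 then κ a a' (w + z' - z) else 0)
      rw [← this]
      simp only [ρ, ha', true_and]
    simp_rw [e1]
    have e2 : ∀ z, Gd a z * ∑' a', ∑' z', Fl ΛY hY zY A a' z' *
        (if a' ≤ A + i0 then κ a a' (w + z' - z) else 0)
        = ∑' a', ∑' x, Gd a z * (Fl ΛY hY zY A a' (x - (w - z)) *
          (if a' ≤ A + i0 then κ a a' x else 0)) := by
      intro z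
      rw [← ENNReal.tsum_mul_left]
      refine tsum_congr fun a' => ?_
      rw [← ENNReal.tsum_mul_left]
      rw [← tsum_sub (w - z) (fun z' => Gd a z * (Fl ΛY hY zY A a' z' *
        (if a' ≤ A + i0 then κ a a' (w + z' - z) else 0)))]
      refine tsum_congr fun x => ?_
      have : w + (x - (w - z)) - z = x := by abel
      rw [this]
    simp_rw [e2]
    rw [ENNReal.tsum_comm]
    have hb : ∀ a', ∑' z, ∑' x, Gd a z * (Fl ΛY hY zY A a' (x - (w - z)) *
          (if a' ≤ A + i0 then κ a a' x else 0))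
        ≤ if a' ∈ Finset.Icc A (A + i0) then D else 0 := by
      intro a'
      by_cases hh : a' ∈ Finset.Icc A (A + i0)
      · rw [if_pos hh]
        rw [Finset.mem_Icc] at hh
        rw [ENNReal.tsum_comm]
        have e3 : ∀ x, ∑' z, Gd a z * (Fl ΛY hY zY A a' (x - (w - z)) *
            (if a' ≤ A + i0 then κ a a' x else 0))
            = (∑' z, Gd a z * Fl ΛY hY zY A a' (x - (w - z))) * κ a a' x := by
          intro x
          rw [← ENNReal.tsum_mul_right]
          refine tsum_congr fun z => ?_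
          rw [if_pos hh.2, mul_assoc]
        simp_rw [e3]
        refine hκ a a' ha ha' hh.1 hh.2 _ ?_ ?_
        · rw [ENNReal.tsum_comm]
          refine (ENNReal.tsum_le_tsum fun z => ?_).trans (hGs a)
          rw [ENNReal.tsum_mul_left, tsum_sub]
          exact mul_le_of_le_one_right' (Fl_sum_le h1Y hΛY zY A a')
        · intro x
          calc _ ≤ ∑' z, M * Fl ΛY hY zY A a' (x - (w - z)) :=
                ENNReal.tsum_le_tsum fun z => mul_le_mul_left (hG a z) _
            _ = M * ∑' z, Fl ΛY hY zY A a' (x - (w - z)) := ENNReal.tsum_mul_left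
            _ = M * ∑' z, Fl ΛY hY zY A a' z := by
                congr 1
                have : ∀ z, x - (w - z) = z - (w - x) := fun z => by abel
                simp_rw [this]
                exact tsum_sub (w - x) _
            _ ≤ M * 1 := mul_le_mul_right (Fl_sum_le h1Y hΛY zY A a') _
            _ = M := mul_one _
      · rw [if_neg hh]
        simp only [Finset.mem_Icc, not_and, not_le] at hh
        rw [nonpos_iff_eq_zero, ENNReal.tsum_eq_zero]
        intro z
        rw [ENNReal.tsum_eq_zero]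
        intro x
        by_cases hA : A ≤ a'
        · have := hh hA
          rw [if_neg (by omega), mul_zero, mul_zero]
        · rw [Fl_zero_of_lt ΛY hY zY (not_le.1 hA), zero_mul, mul_zero]
    refine (ENNReal.tsum_le_tsum hb).trans ?_
    rw [tsum_eq_sum (s := Finset.Icc A (A + i0)) (fun h' hh' => by rw [if_neg hh'])]
    rw [Finset.sum_congr rfl (fun h' hh' => if_pos hh'), Finset.sum_const, Nat.card_Icc,
      nsmul_eq_mul]
    have : A + i0 + 1 - A = i0 + 1 := by omega
    rw [this]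
  have hb : ∀ a, ∑' z, Gd a z * ρ a z
      ≤ if a ∈ Finset.Icc A (A + i0) then (i0 + 1 : ℕ) * D else 0 := by
    intro a
    by_cases hh : a ∈ Finset.Icc A (A + i0)
    · rw [if_pos hh]
      rw [Finset.mem_Icc] at hh
      exact hone a hh.1 hh.2
    · rw [if_neg hh]
      simp only [Finset.mem_Icc, not_and, not_le] at hh
      rw [nonpos_iff_eq_zero, ENNReal.tsum_eq_zero]
      intro z
      by_cases hA : A ≤ a
      · have hlt := hh hA
        have : ρ a z = 0 := by
          simp only [ρ]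
          have e0 : SF ΛY hY A (fun L0' => if a ≤ A + i0 ∧ HT hY L0' ≤ A + i0 then
              κ a (HT hY L0') (w + Dp zY L0' - z) else 0) = SF ΛY hY A (fun _ => 0) := by
            refine SF_congr ΛY hY fun L _ => ?_
            rw [if_neg (by omega)]
          rw [e0, SF_const h1Y hΛY]
        rw [this, mul_zero]
      · rw [hG0 a (not_le.1 hA), zero_mul]
  refine (ENNReal.tsum_le_tsum hb).trans ?_
  rw [tsum_eq_sum (s := Finset.Icc A (A + i0)) (fun h' hh' => by rw [if_neg hh'])]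
  rw [Finset.sum_congr rfl (fun h' hh' => if_pos hh'), Finset.sum_const, Nat.card_Icc,
    nsmul_eq_mul]
  have : A + i0 + 1 - A = i0 + 1 := by omega
  rw [this, mul_assoc]

end Three

end Crest.Agent.R154.Asm157
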