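import Crest.Agent.R154.Asm1_214

/-! Row 154, ROAD 801, abstract assembly, part 2 (helper214): smoothing along one chain. -/

set_option autoImplicit false

namespace Crest.Agent.R154.Asm214

open scoped ENNReal Classical
open Crest.Agent.R154.B5A
open Crest.Agent.R154.FP178

section two

variable {B G : Type*} [AddCommGroup G] (Λ : B → ℝ≥0∞) (ht : B → ℕ) (z : B → G)

/-- displacement of a list -/
def Dp (L : List B) : G := (L.map z).sum

lemma Dp_nil : Dp z ([] : List B) = 0 := by simp [Dp]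

lemma Dp_cons (b : B) (L : List B) : Dp z (b :: L) = z b + Dp z L := by simp [Dp]

lemma Dp_append (L L' : List B) : Dp z (L ++ L') = Dp z L + Dp z L' := by simp [Dp]

lemma SL_tsum {C ι : Type*} (Λ' : C → ℝ≥0∞) (j : ℕ) (F : ι → List C → ℝ≥0∞) :
    SL Λ' j (fun L => ∑' i, F i L) = ∑' i, SL Λ' j (F i) := by
  simp only [SL]
  rw [ENNReal.tsum_comm]
  refine tsum_congr fun L => ?_
  by_cases hL : L.length = j
  · simp only [hL, if_true]; rw [ENNReal.tsum_mul_left]
  · simp [hL]

lemma SL_sum {C ι : Type*} (Λ' : C → ℝ≥0∞) (j : ℕ) (s : Finset ι) (F : ι → List C → ℝ≥0∞) :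
    SL Λ' j (fun L => ∑ i ∈ s, F i L) = ∑ i ∈ s, SL Λ' j (F i) := by
  induction s using Finset.induction_on with
  | empty => simp [SL]
  | insert i s hi ih =>
    rw [Finset.sum_insert hi, ← ih, ← SL_add_fun]
    refine SL_congr Λ' j fun L _ => ?_
    rw [Finset.sum_insert hi]

lemma SL_mul_const {C : Type*} (Λ' : C → ℝ≥0∞) (j : ℕ) (F : List C → ℝ≥0∞) (c : ℝ≥0∞) :
    SL Λ' j (fun L => F L * c) = SL Λ' j F * c := by
  rw [mul_comm, ← SL_const_mul]
  refine SL_congr Λ' j fun L _ => mul_comm _ _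

lemma map_flatten (P : List (List B)) :
    ((P.map fun A => ((HT ht A : ℤ), Dp z A)).sum : ℤ × G)
      = ((HT ht P.flatten : ℤ), Dp z P.flatten) := by
  induction P with
  | nil => simp [HT_nil, Dp_nil]; rfl
  | cons A P ih =>
    rw [List.map_cons, List.sum_cons, ih, List.flatten_cons, HT_append, Dp_append]
    simp

/-- **smoothing along one chain** -/
theorem one_side (h1 : ∀ b, 1 ≤ ht b) (hΛ : ∑' b, Λ b ≤ 1) (T i0 j : ℕ) (low : List B → Prop)
    (q M : ℝ≥0∞) (hq : ∑' A, (if low A then 0 else PW Λ ht T i0 A) ≤ q)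
    (hM : ∀ h x, ∑' A, (if low A ∧ HT ht A = h ∧ Dp z A = x then PW Λ ht T i0 A else 0) ≤ M)
    (K : ℕ → G → ℝ≥0∞) (hK1 : ∀ a x, K a x ≤ 1) (Bd : ℝ≥0∞)
    (hK : ∀ a, j * T ≤ a → a ≤ j * (T + i0) → ∀ μ : G → ℝ≥0∞, ∑' x, μ x ≤ 1 →
      (∀ x, μ x ≤ j * M) → ∑' x, μ x * K a x ≤ Bd) :
    SL (PW Λ ht T i0) j (fun P => K (HT ht P.flatten) (Dp z P.flatten))
      ≤ q ^ j + (j * i0 + 1 : ℕ) * Bd := by
  set W := PW Λ ht T i0 with hW
  set mu : ℕ → G → ℝ≥0∞ := fun a x => SL W j (fun P =>
    if (∃ A ∈ P, low A) ∧ HT ht P.flatten = a ∧ Dp z P.flatten = x then 1 else 0) with hmu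
  have hdens : ∀ a x, mu a x ≤ j * M := by
    intro a x
    have h := AsmA789.dens (Λ := W) (G := ℤ × G) (sum_PW Λ ht h1 hΛ T i0)
      (fun A => ((HT ht A : ℤ), Dp z A)) low M ?_ j ((a : ℤ), x)
    · refine le_trans (le_of_eq ?_) h
      refine SL_congr W j fun P _ => ?_
      rw [map_flatten]
      by_cases hc : (∃ A ∈ P, low A) ∧ HT ht P.flatten = a ∧ Dp z P.flatten = x
      · rw [if_pos hc, if_pos ⟨hc.1, by rw [hc.2.1, hc.2.2]⟩]
      · rw [if_neg hc, if_neg]
        rintro ⟨h1', h2'⟩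
        rw [Prod.mk.injEq] at h2'
        exact hc ⟨h1', by exact_mod_cast h2'.1, h2'.2⟩
    · rintro ⟨y1, y2⟩
      rcases lt_or_ge y1 0 with hy | hy
      · refine (le_of_eq (ENNReal.tsum_eq_zero.2 fun A => ?_)).trans zero_le
        rw [if_neg]
        rintro ⟨-, h⟩
        rw [Prod.mk.injEq] at h
        omega
      · obtain ⟨k, rfl⟩ := Int.eq_ofNat_of_zero_le hy
        refine le_trans (le_of_eq ?_) (hM k y2)
        refine tsum_congr fun A => ?_
        by_cases hc : low A ∧ HT ht A = k ∧ Dp z A = y2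
        · rw [if_pos hc, if_pos ⟨hc.1, by rw [hc.2.1, hc.2.2]⟩]
        · rw [if_neg hc, if_neg]
          rintro ⟨h1', h2'⟩
          rw [Prod.mk.injEq] at h2'
          exact hc ⟨h1', by exact_mod_cast h2'.1, h2'.2⟩
  have hmass : ∀ a, ∑' x, mu a x ≤ 1 := by
    intro a
    rw [hmu]
    simp only
    rw [← SL_tsum]
    refine le_trans (SL_mono W j fun P _ => ?_) (SLP_const Λ ht h1 hΛ T i0 j 1)
    rw [tsum_eq_single (Dp z P.flatten)]
    · split_ifs <;> simp
    · intro x hx
      rw [if_neg]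
      rintro ⟨-, -, h⟩
      exact hx h.symm
  calc SL W j (fun P => K (HT ht P.flatten) (Dp z P.flatten))
      ≤ SL W j (fun P => (if ∃ A ∈ P, low A then 0 else 1)
          + ∑ i ∈ Finset.range (j * i0 + 1), ∑' x,
            (if (∃ A ∈ P, low A) ∧ HT ht P.flatten = j * T + i ∧ Dp z P.flatten = x then 1 else 0)
              * K (j * T + i) x) := by
        refine SLP_mono Λ ht T i0 j fun P hPj hP => ?_
        by_cases hl : ∃ A ∈ P, low A
        · have hb := HT_flatten_le ht T i0 P hP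
          rw [hPj] at hb
          refine le_add_left ?_
          have hi : HT ht P.flatten - j * T ∈ Finset.range (j * i0 + 1) := by
            rw [Finset.mem_range]
            have := hb.2
            rw [Nat.mul_add] at this
            omega
          refine le_trans ?_ (Finset.single_le_sum (fun i _ => zero_le) hi)
          have he : j * T + (HT ht P.flatten - j * T) = HT ht P.flatten := by omega
          simp only [he]
          refine le_trans ?_ (ENNReal.le_tsum (Dp z P.flatten))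
          rw [if_pos ⟨hl, trivial, rfl⟩, one_mul]
        · rw [if_neg hl]
          exact le_add_right (hK1 _ _)
    _ = SL W j (fun P => if ∃ A ∈ P, low A then 0 else 1)
          + ∑ i ∈ Finset.range (j * i0 + 1), ∑' x, mu (j * T + i) x * K (j * T + i) x := by
        rw [SL_add_fun, SL_sum]
        congr 1
        refine Finset.sum_congr rfl fun i _ => ?_
        rw [SL_tsum]
        refine tsum_congr fun x => ?_
        rw [SL_mul_const]
    _ ≤ q ^ j + ∑ i ∈ Finset.range (j * i0 + 1), Bd := by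
        refine add_le_add ?_ (Finset.sum_le_sum fun i hi => ?_)
        · rw [AsmA789.nosmall]
          exact pow_le_pow_left' hq j
        · have := Finset.mem_range.1 hi
          refine hK (j * T + i) (by omega) ?_ (mu (j * T + i)) (hmass _) (hdens _)
          rw [Nat.mul_add]; omega
    _ = _ := by rw [Finset.sum_const, Finset.card_range, nsmul_eq_mul]

/-! ### law of a piece -/

/-- law (height, displacement) of a first passage piece -/
noncomputable def pf (T : ℕ) (p : ℕ × G) : ℝ≥0∞ :=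
  ∑' A, (if fp ht T A ∧ HT ht A = p.1 ∧ Dp z A = p.2 then LW Λ A else 0)

lemma pf_fiber (T : ℕ) (φ : ℕ × G → ℝ≥0∞) :
    ∑' A, (if fp ht T A then LW Λ A * φ (HT ht A, Dp z A) else 0) = ∑' p, pf Λ ht z T p * φ p := by
  simp only [pf, ← ENNReal.tsum_mul_right]
  rw [ENNReal.tsum_comm]
  refine tsum_congr fun A => ?_
  rw [tsum_eq_single (HT ht A, Dp z A)]
  · by_cases h : fp ht T A <;> simp [h]
  · rintro ⟨h, x⟩ hne
    rw [if_neg, zero_mul]
    rintro ⟨-, h2, h3⟩
    exact hne (by rw [h2, h3])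

lemma sum_FP_one (h1 : ∀ b, 1 ≤ ht b) (hΛ : ∑' b, Λ b = 1) (a : ℕ) :
    ∑' L, (if fp ht a L then LW Λ L else 0) = 1 := by
  induction a using Nat.strong_induction_on with
  | _ a ih =>
    rcases Nat.eq_zero_or_pos a with rfl | ha
    · have := sum_fp_zero Λ ht (fun _ => 1)
      simp only [mul_one] at this
      exact this
    · have := sum_fp_step Λ ht a ha (fun _ => 1)
      simp only [mul_one] at this
      rw [this]
      have e : ∀ b, Λ b * ∑' L, (if fp ht (a - ht b) L then LW Λ L else 0) = Λ b := by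
        intro b
        rw [ih (a - ht b) (by have := h1 b; omega), mul_one]
      simp only [e]
      exact hΛ

lemma sum_pf (h1 : ∀ b, 1 ≤ ht b) (hΛ : ∑' b, Λ b = 1) (T : ℕ) : ∑' p, pf Λ ht z T p = 1 := by
  have := pf_fiber Λ ht z T (fun _ => 1)
  simp only [mul_one] at this
  rw [← this, sum_FP_one Λ ht h1 hΛ T]

/-- **quantile package of a piece law** -/
theorem pack (h1 : ∀ b, 1 ≤ ht b) (hΛ : ∑' b, Λ b = 1) (T i0 : ℕ) (u : ℝ≥0∞) (hu0 : u ≠ 0)
    (hu1 : u ≤ 1) : ∃ th : ℝ≥0∞, th ≠ 0 ∧ th ≤ 1 ∧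
      (∑' A, (if th ≤ pf Λ ht z T (HT ht A, Dp z A) then 0 else PW Λ ht T i0 A) ≤ u) ∧
      (∑' A, (if pf Λ ht z T (HT ht A, Dp z A) ≤ th then 0 else PW Λ ht T i0 A) ≤ 1 - u) ∧
      (∀ h x, ∑' A, (if pf Λ ht z T (HT ht A, Dp z A) ≤ th ∧ HT ht A = h ∧ Dp z A = x
        then PW Λ ht T i0 A else 0) ≤ th) ∧
      (∀ h, ∃ E : Finset G, (∀ x, th ≤ pf Λ ht z T (h, x) → x ∈ E) ∧ th * E.card ≤ 1) := by
  obtain ⟨th, h0, hle, hq1, hq2⟩ := Dens903.quantile (pf Λ ht z T) (sum_pf Λ ht z h1 hΛ T) hu0 hu1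
  have hPW : ∀ A, PW Λ ht T i0 A ≤ (if fp ht T A then LW Λ A else 0) := by
    intro A
    unfold PW gd
    by_cases h : fp ht T A
    · simp only [h, true_and, if_true]; split_ifs <;> simp
    · simp [h]
  refine ⟨th, h0, hle, ?_, ?_, ?_, ?_⟩
  · refine le_trans ?_ hq1
    have e := pf_fiber Λ ht z T (fun p => if pf Λ ht z T p < th then 1 else 0)
    have e2 : ∑' p, (if pf Λ ht z T p < th then pf Λ ht z T p else 0)
        = ∑' p, pf Λ ht z T p * (if pf Λ ht z T p < th then 1 else 0) := by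
      refine tsum_congr fun p => ?_
      split_ifs <;> simp
    rw [e2, ← e]
    refine ENNReal.tsum_le_tsum fun A => ?_
    by_cases hA : th ≤ pf Λ ht z T (HT ht A, Dp z A)
    · rw [if_pos hA]; exact zero_le
    · rw [if_neg hA, if_pos (not_le.1 hA), mul_one]
      exact hPW A
  · have e := pf_fiber Λ ht z T (fun p => if pf Λ ht z T p ≤ th then 0 else 1)
    have hle2 : ∑' A, (if pf Λ ht z T (HT ht A, Dp z A) ≤ th then 0 else PW Λ ht T i0 A)
        ≤ ∑' p, (if pf Λ ht z T p ≤ th then 0 else pf Λ ht z T p) := by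
      have e2 : ∑' p, (if pf Λ ht z T p ≤ th then 0 else pf Λ ht z T p)
          = ∑' p, pf Λ ht z T p * (if pf Λ ht z T p ≤ th then 0 else 1) := by
        refine tsum_congr fun p => ?_
        split_ifs <;> simp
      rw [e2, ← e]
      refine ENNReal.tsum_le_tsum fun A => ?_
      by_cases hA : pf Λ ht z T (HT ht A, Dp z A) ≤ th
      · rw [if_pos hA]; exact zero_le
      · rw [if_neg hA, if_neg hA, mul_one]
        exact hPW A
    refine hle2.trans ?_
    have hs : ∑' p, (if pf Λ ht z T p ≤ th then 0 else pf Λ ht z T p)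
        + ∑' p, (if pf Λ ht z T p ≤ th then pf Λ ht z T p else 0) = 1 := by
      rw [← ENNReal.tsum_add, ← sum_pf Λ ht z h1 hΛ T]
      refine tsum_congr fun p => ?_
      split_ifs <;> simp
    have hne : u ≠ ⊤ := ne_top_of_le_ne_top ENNReal.one_ne_top hu1
    refine ENNReal.le_sub_of_add_le_right hne ?_
    exact (add_le_add le_rfl hq2).trans hs.le
  · intro h x
    by_cases hc : pf Λ ht z T (h, x) ≤ th
    · refine le_trans ?_ hc
      rw [pf]
      refine ENNReal.tsum_le_tsum fun A => ?_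
      by_cases hA : pf Λ ht z T (HT ht A, Dp z A) ≤ th ∧ HT ht A = h ∧ Dp z A = x
      · rw [if_pos hA]
        refine (hPW A).trans (le_of_eq ?_)
        by_cases hf : fp ht T A
        · rw [if_pos hf, if_pos ⟨hf, hA.2⟩]
        · rw [if_neg hf, if_neg (fun h' => hf h'.1)]
      · rw [if_neg hA]; exact zero_le
    · have : ∀ A, (if pf Λ ht z T (HT ht A, Dp z A) ≤ th ∧ HT ht A = h ∧ Dp z A = x
          then PW Λ ht T i0 A else 0) = 0 := by
        intro A
        rw [if_neg]
        rintro ⟨h1', h2', h3'⟩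
        rw [h2', h3'] at h1'
        exact hc h1'
      simp only [this, tsum_zero]
      exact zero_le
  · intro h
    have hs : ∑' x, pf Λ ht z T (h, x) ≤ 1 := by
      rw [← sum_pf Λ ht z h1 hΛ T]
      exact ENNReal.tsum_comp_le_tsum_of_injective (fun x y hxy => by simpa using hxy)
        (pf Λ ht z T)
    have hfin : {x | th ≤ pf Λ ht z T (h, x)}.Finite :=
      ENNReal.finite_const_le_of_tsum_ne_top (ne_top_of_le_ne_top ENNReal.one_ne_top hs) h0
    refine ⟨hfin.toFinset, fun x hx => by simpa using hx, ?_⟩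
    calc th * (hfin.toFinset.card : ℝ≥0∞) = ∑ x ∈ hfin.toFinset, th := by
          rw [Finset.sum_const, nsmul_eq_mul, mul_comm]
      _ ≤ ∑ x ∈ hfin.toFinset, pf Λ ht z T (h, x) := by
          refine Finset.sum_le_sum fun x hx => ?_
          simpa using hx
      _ ≤ ∑' x, pf Λ ht z T (h, x) := ENNReal.sum_le_tsum _
      _ ≤ 1 := hs

end two

end Crest.Agent.R154.Asm214
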