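import Crest.Agent.R154.Asm_284
import Crest.Agent.R154.AsmD_540

/-! Row 154, ROAD 801 (helper284): the abstract assembly, one window and the sum over windows.
Literals `KS`, `H5`, `Cm`, `TR` of `AsmD_540`; `H2'`, `H3'` = 540's `H2`, `H3` with more
hypotheses (staggered pieces, all common sites in `[lo, hi]`). -/

set_option autoImplicit false

namespace Crest.Agent.R154.Asm284

open Crest.Agent.R154.B5A Crest.Agent.R154.Ren396
open Crest.Agent.R154.Asm540 (TR Dp Cm KS H5 TR_append TR_depth TR_shift)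
open scoped ENNReal

lemma swap4 {α β γ δ : Type*} (f : α → β → γ → δ → ℝ≥0∞) :
    ∑' a, ∑' b, ∑' c, ∑' d, f a b c d = ∑' c, ∑' d, ∑' a, ∑' b, f a b c d := by
  calc ∑' a, ∑' b, ∑' c, ∑' d, f a b c d = ∑' a, ∑' c, ∑' b, ∑' d, f a b c d :=
        tsum_congr fun a => ENNReal.tsum_comm
    _ = ∑' c, ∑' a, ∑' b, ∑' d, f a b c d := ENNReal.tsum_comm
    _ = ∑' c, ∑' a, ∑' d, ∑' b, f a b c d :=
        tsum_congr fun c => tsum_congr fun a => ENNReal.tsum_comm
    _ = ∑' c, ∑' d, ∑' a, ∑' b, f a b c d := tsum_congr fun c => ENNReal.tsum_comm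

section Loc

variable {B G : Type*} [AddCommGroup G] (Λ : B → ℝ≥0∞) (ht : B → ℕ) (z : B → G)

open Classical in
lemma group0 (τ : ℕ) (φ : ℕ × G → Prop) :
    ∑' P : List B, (if FR ht P τ ∧ φ (HT ht P, dp z P) then LW Λ P else 0)
      = ∑' q : ℕ × G, (if φ q then W Λ ht z τ q.1 q.2 else 0) := by
  symm
  calc _ = ∑' q : ℕ × G, ∑' P : List B, (if φ q then
        (if FR ht P τ then (if HT ht P = q.1 ∧ dp z P = q.2 then LW Λ P else 0) else 0) else 0) := by
        refine tsum_congr fun q => ?_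
        by_cases h : φ q
        · simp only [if_pos h]; rw [W]
        · simp [h]
    _ = ∑' P : List B, ∑' q : ℕ × G, (if φ q then
        (if FR ht P τ then (if HT ht P = q.1 ∧ dp z P = q.2 then LW Λ P else 0) else 0) else 0) :=
        ENNReal.tsum_comm
    _ = _ := by
        refine tsum_congr fun P => ?_
        rw [tsum_eq_single (HT ht P, dp z P)]
        · by_cases h : FR ht P τ
          · by_cases h2 : φ (HT ht P, dp z P) <;> simp [h, h2]
          · simp [h]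
        · rintro ⟨c, δ⟩ hne
          have : ¬ (HT ht P = c ∧ dp z P = δ) := fun hh => hne (by rw [hh.1, hh.2])
          simp [this]

open Classical in
theorem loc (hΛ : ∑' b, Λ b ≤ 1) (h1 : ∀ b, 1 ≤ ht b) (τ i0 J A : ℕ) (u e : ℝ≥0∞)
    (hu : u ≠ 0) (hu1 : u ≤ 1) (he : ∑' P : List B, (if FR ht P τ ∧ τ + i0 < HT ht P then LW Λ P
      else 0) ≤ e) (heu : e ≤ u) (hJ : J * (τ + i0) ≤ A) :
    ∃ (S : Set (ℕ × G)) (M : ℝ≥0∞) (Wg Wb : ℕ → G → ℝ≥0∞), S.Finite ∧
      (∑' P : List B, (if FR ht P τ ∧ (HT ht P, dp z P) ∉ S then LW Λ P else 0)) ≤ 2 * u ∧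
      (∀ c δ, W Λ ht z A c δ ≤ Wg c δ + Wb c δ) ∧ (∀ c δ, Wg c δ ≤ M) ∧
      ∑' c, ∑' δ, Wb c δ ≤ (1 - u) ^ J + J * e ∧ M * (S.ncard : ℝ≥0∞) ≤ 2 * (i0 + 1) / u := by
  have hut : u ≠ ⊤ := ne_top_of_le_ne_top ENNReal.one_ne_top hu1
  have hp : ∑' q : ℕ × G, W Λ ht z τ q.1 q.2 ≤ 1 := by
    rw [ENNReal.tsum_prod (f := fun c δ => W Λ ht z τ c δ), tsum_tsum_W]
    exact mass_FR Λ ht hΛ h1 τ
  obtain ⟨k, hk1, hk2, hk3, hk4⟩ := Sel300.dyq (fun q : ℕ × G => W Λ ht z τ q.1 q.2) hp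
    (u := 2 * u) (mul_ne_zero (by norm_num) hu)
  set θ : ℝ≥0∞ := (2 ^ k)⁻¹ with hθ
  obtain ⟨S, hSd⟩ : ∃ S : Set (ℕ × G), S = {q : ℕ × G | θ ≤ W Λ ht z τ q.1 q.2} := ⟨_, rfl⟩
  rw [← hSd] at hk3 hk4
  have hSn : ∀ q, q ∉ S ↔ W Λ ht z τ q.1 q.2 < θ := by
    intro q; rw [hSd, Set.mem_ofPred_eq, not_le]
  have hnl : (∑' P : List B, (if FR ht P τ ∧ (HT ht P, dp z P) ∉ S then LW Λ P else 0))
      ≤ 2 * u := by
    refine le_trans (le_of_eq ?_) hk1
    refine Eq.trans ?_ ((group0 Λ ht z τ (fun q => q ∉ S)).trans ?_)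
    · refine tsum_congr fun P => ?_
      by_cases h : FR ht P τ ∧ (HT ht P, dp z P) ∉ S
      · rw [if_pos h, if_pos h]
      · rw [if_neg h, if_neg h]
    · refine tsum_congr fun q => ?_
      by_cases h : q ∉ S
      · rw [if_pos h, if_pos ((hSn q).1 h)]
      · rw [if_neg h, if_neg (fun hh => h ((hSn q).2 hh))]
  by_cases hk0 : k = 0
  · refine ⟨S, 1, W Λ ht z A, fun _ _ => 0, hk3, hnl,
      fun c δ => by simp, fun c δ => ?_, by simp, ?_⟩
    · exact (ENNReal.le_tsum δ).trans (tsum_W_le Λ ht z hΛ h1 A c)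
    · have h5 : (S.ncard : ℝ≥0∞) ≤ 1 := by
        have := hk4
        rw [hk0, pow_zero] at this
        exact_mod_cast this
      calc 1 * (S.ncard : ℝ≥0∞) ≤ 1 * 1 := by gcongr
        _ = 1 := by simp
        _ ≤ _ := by
            rw [ENNReal.le_div_iff_mul_le (Or.inl hu) (Or.inl hut), one_mul]
            refine hu1.trans ?_
            calc (1 : ℝ≥0∞) ≤ 2 * (0 + 1) := by norm_num
              _ ≤ _ := by gcongr; exact zero_le
  · have hk2' := hk2.resolve_left hk0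
    have hlow : u ≤ ∑' a : List B, (if FR ht a τ ∧ HT ht a ≤ τ + i0 ∧
        W Λ ht z τ (HT ht a) (dp z a) ≤ 2 * θ then LW Λ a else 0) := by
      have h3 : u + u ≤ (∑' a : List B, (if FR ht a τ ∧ HT ht a ≤ τ + i0 ∧
        W Λ ht z τ (HT ht a) (dp z a) ≤ 2 * θ then LW Λ a else 0)) + u := by
        calc u + u = 2 * u := (two_mul u).symm
          _ ≤ _ := hk2'
          _ = ∑' P : List B, (if FR ht P τ ∧ W Λ ht z τ (HT ht P) (dp z P) ≤ 2 * θ
              then LW Λ P else 0) := by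
              refine Eq.trans ?_ ((group0 Λ ht z τ (fun q => W Λ ht z τ q.1 q.2 ≤ 2 * θ)).symm.trans
                ?_)
              · refine tsum_congr fun q => ?_
                by_cases h : W Λ ht z τ q.1 q.2 ≤ 2 * θ
                · rw [if_pos h, if_pos h]
                · rw [if_neg h, if_neg h]
              · refine tsum_congr fun P => ?_
                by_cases h : FR ht P τ ∧ W Λ ht z τ (HT ht P) (dp z P) ≤ 2 * θ
                · rw [if_pos h, if_pos h]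
                · rw [if_neg h, if_neg h]
          _ ≤ ∑' P : List B, ((if FR ht P τ ∧ HT ht P ≤ τ + i0 ∧
              W Λ ht z τ (HT ht P) (dp z P) ≤ 2 * θ then LW Λ P else 0)
              + (if FR ht P τ ∧ τ + i0 < HT ht P then LW Λ P else 0)) := by
              refine ENNReal.tsum_le_tsum fun P => ?_
              by_cases h : FR ht P τ ∧ W Λ ht z τ (HT ht P) (dp z P) ≤ 2 * θ
              · rw [if_pos h]
                by_cases h2 : HT ht P ≤ τ + i0
                · rw [if_pos ⟨h.1, h2, h.2⟩]; exact le_self_add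
                · rw [if_pos (⟨h.1, not_le.1 h2⟩ : FR ht P τ ∧ τ + i0 < HT ht P)]
                  exact le_add_self
              · rw [if_neg h]; exact zero_le
          _ ≤ _ := by
              rw [ENNReal.tsum_add]
              exact add_le_add le_rfl (he.trans heu)
      exact (ENNReal.add_le_add_iff_right hut).1 h3
    obtain ⟨Wg, Wb, hw1, hw2, hw3⟩ := dens Λ ht z hΛ h1 τ i0 (2 * θ) u e hu hlow he J A hJ
    refine ⟨S, (i0 + 1) * (2 * θ) / u, Wg, Wb, hk3, hnl,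
      hw1, hw2, hw3, ?_⟩
    have h5 : (S.ncard : ℝ≥0∞) ≤ 2 ^ k := by
      have := hk4
      exact_mod_cast this
    calc (i0 + 1) * (2 * θ) / u * (S.ncard : ℝ≥0∞)
        ≤ (i0 + 1) * (2 * θ) / u * 2 ^ k := by gcongr
      _ = 2 * (i0 + 1) / u * (θ * 2 ^ k) := by
          simp only [div_eq_mul_inv]; ring
      _ = _ := by
          rw [hθ, ENNReal.inv_mul_cancel (by simp) (ENNReal.pow_ne_top (by norm_num)), mul_one]

end Loc

section Win

variable {BX BY G : Type*} [AddCommGroup G]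
  (ΛX : BX → ℝ≥0∞) (ΛY : BY → ℝ≥0∞) (hX : BX → ℕ) (hY : BY → ℕ) (zX : BX → G) (zY : BY → G)
  (sX : BX → Set (G × ℕ)) (sY : BY → Set (G × ℕ))

/-- the common sites of the two lists exist and are at depths in `[lo, hi]` -/
def Gd (lo hi a a' : ℕ) (x : G) (L : List BX) (L' : List BY) : Prop :=
  (∃ g k, Cm hX hY zX zY sX sY L L' x a a' g k) ∧
    (∀ g k, Cm hX hY zX zY sX sY L L' x a a' g k → lo ≤ k ∧ k ≤ hi)

open Classical in
/-- `X` local window lemma (more hypotheses than 540's `H2`) -/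
def H2' (C : ℝ≥0∞) (us : ℕ → ℝ≥0∞) : Prop :=
  ∀ (s h h' a a' lo hi : ℕ) (E : Finset G) (μ : G → ℝ≥0∞) (M lam : ℝ≥0∞), ∑' x, μ x ≤ 1 →
    (∀ x, μ x ≤ M) → lam ≠ 0 → lam ≠ ⊤ → a ≤ a' → a + h ≤ a' + h' → a + s ≤ lo → a' + s ≤ lo →
    hi + s ≤ a + h → hi + s ≤ a' + h' →
    ∑' x, μ x * ∑' L : List BX, ∑' L' : List BY,
      (if HT hX L = h ∧ Dp zX L ∈ E ∧ HT hY L' = h' ∧ Gd hX hY zX zY sX sY lo hi a a' x L L'
        then LW ΛX L * LW ΛY L' else 0)
      ≤ C * (lam + M * E.card * us s / lam + us s)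

open Classical in
/-- `Y` local window lemma (more hypotheses than 540's `H3`) -/
def H3' (C : ℝ≥0∞) (us : ℕ → ℝ≥0∞) : Prop :=
  ∀ (s h h' a a' lo hi : ℕ) (E : Finset G) (μ : G → ℝ≥0∞) (M lam : ℝ≥0∞), ∑' x, μ x ≤ 1 →
    (∀ x, μ x ≤ M) → lam ≠ 0 → lam ≠ ⊤ → a ≤ a' → a + h ≤ a' + h' → a + s ≤ lo → a' + s ≤ lo →
    hi + s ≤ a + h → hi + s ≤ a' + h' →
    ∑' x, μ x * ∑' L : List BX, ∑' L' : List BY,
      (if HT hX L = h ∧ HT hY L' = h' ∧ Dp zY L' ∈ E ∧ Gd hX hY zX zY sX sY lo hi a a' x L L'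
        then LW ΛX L * LW ΛY L' else 0)
      ≤ C * (lam + M * E.card * us s / lam + us s)

end Win

end Crest.Agent.R154.Asm284
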