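import Crest.Agent.R154.Asm1_395

set_option autoImplicit false

namespace Crest.Agent.R154.Asm395

open Crest.Agent.R154.B5A
open scoped ENNReal Topology
open Classical

/-! ### single walker: first passage -/

section single

variable {B : Type*} (ht : B → ℕ)

/-- first passage list of level `a` -/
def FP (a : ℕ) (L : List B) : Prop :=
  a ≤ HT ht L ∧ ∀ L1 L2, L = L1 ++ L2 → L2 ≠ [] → HT ht L1 < a

/-- first passage list of level `a`, overshoot at most `i0` -/
def FPi (a i0 : ℕ) (L : List B) : Prop := FP ht a L ∧ HT ht L ≤ a + i0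

lemma FP_zero (L : List B) : FP ht 0 L ↔ L = [] := by
  constructor
  · rintro ⟨-, h⟩
    by_contra hL
    have := h [] L rfl hL
    omega
  · rintro rfl
    refine ⟨bot_le, fun L1 L2 h h2 => ?_⟩
    have := List.append_eq_nil_iff.1 h.symm
    exact absurd this.2 h2

lemma FP_cons (a : ℕ) (b : B) (L : List B) :
    FP ht a (b :: L) ↔ 1 ≤ a ∧ FP ht (a - ht b) L := by
  constructor
  · rintro ⟨h1, h2⟩
    have h0 := h2 [] (b :: L) rfl (by simp)
    rw [HT_nil] at h0
    refine ⟨h0, ?_, fun L1 L2 h hne => ?_⟩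
    · rw [HT_cons] at h1; omega
    · have := h2 (b :: L1) L2 (by rw [h]; rfl) hne
      rw [HT_cons] at this; omega
  · rintro ⟨h0, h1, h2⟩
    refine ⟨by rw [HT_cons]; omega, fun L1 L2 h hne => ?_⟩
    cases L1 with
    | nil => rw [HT_nil]; omega
    | cons c L1 =>
      simp only [List.cons_append, List.cons.injEq] at h
      obtain ⟨rfl, h⟩ := h
      have := h2 L1 L2 h hne
      rw [HT_cons]; omega

variable (Λ : B → ℝ≥0∞)

lemma mass_FP (h1 : ∀ b, 1 ≤ ht b) (hΛ : ∑' b, Λ b = 1) (a : ℕ) :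
    ws Λ (FP ht a) (fun _ => 1) = 1 := by
  induction a using Nat.strong_induction_on with
  | _ a ih =>
    rcases Nat.eq_zero_or_pos a with rfl | ha
    · rw [ws, tsum_eq_single []]
      · rw [if_pos ((FP_zero ht _).2 rfl), LW_nil, one_mul]
      · intro L hL; rw [if_neg (fun h => hL ((FP_zero ht _).1 h))]
    · rw [ws, tsum_list]
      have e0 : ¬ FP ht a ([] : List B) := by
        rintro ⟨h, -⟩; rw [HT_nil] at h; omega
      rw [if_neg e0, zero_add]
      have e1 : ∀ b, (∑' L : List B, if FP ht a (b :: L) then LW Λ (b :: L) * 1 else 0)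
          = Λ b * ws Λ (FP ht (a - ht b)) (fun _ => 1) := by
        intro b
        rw [ws, ← ENNReal.tsum_mul_left]
        refine tsum_congr fun L => ?_
        by_cases h : FP ht (a - ht b) L
        · rw [if_pos h, if_pos ((FP_cons ht a b L).2 ⟨ha, h⟩), LW_cons]; ring
        · rw [if_neg h, if_neg (fun h' => h ((FP_cons ht a b L).1 h').2), mul_zero]
      rw [tsum_congr e1]
      have e2 : ∀ b, Λ b * ws Λ (FP ht (a - ht b)) (fun _ => 1) = Λ b := by
        intro b
        rw [ih (a - ht b) (by have := h1 b; omega), mul_one]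
      rw [tsum_congr e2, hΛ]

lemma mass_FPi (h1 : ∀ b, 1 ≤ ht b) (hΛ : ∑' b, Λ b = 1) (a i0 : ℕ) :
    ws Λ (FPi ht a i0) (fun _ => 1) ≤ 1 :=
  (ws_mono_set fun _ h => h.1).trans (mass_FP ht Λ h1 hΛ a).le

/-- the first passage prefix -/
lemma exists_FP (L : List B) (a i0 : ℕ)
    (h : ∃ L1 L2, L = L1 ++ L2 ∧ a ≤ HT ht L1 ∧ HT ht L1 ≤ a + i0) :
    ∃ A R, L = A ++ R ∧ FPi ht a i0 A := by
  obtain ⟨L1, L2, rfl, h1, h2⟩ := h
  have hex : ∃ k, a ≤ HT ht (L1.take k) := ⟨L1.length, by rw [List.take_length]; exact h1⟩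
  set k := Nat.find hex with hk
  have hk1 : a ≤ HT ht (L1.take k) := Nat.find_spec hex
  refine ⟨L1.take k, L1.drop k ++ L2, by rw [← List.append_assoc, List.take_append_drop],
    ⟨hk1, ?_⟩, ?_⟩
  · intro M1 M2 hM hne
    by_contra hcon
    have hlt : M1.length < k := by
      have e := congrArg List.length hM
      rw [List.length_take, List.length_append] at e
      have : 0 < M2.length := List.length_pos_iff.2 hne
      omega
    refine Nat.find_min hex hlt ?_
    have e2 : L1.take M1.length = M1 := by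
      have : (L1.take k).take M1.length = M1 := by rw [hM]; simp
      rw [List.take_take, min_eq_left hlt.le] at this
      exact this
    rw [e2]; omega
  · have e := HT_append ht (L1.take k) (L1.drop k)
    rw [List.take_append_drop] at e
    omega

/-- mass of the lists of height `n` -/
lemma mass_HT (hU1 : ∀ n, U Λ ht n ≤ 1) (n : ℕ) :
    ws Λ (fun L => HT ht L = n) (fun _ => 1) ≤ 1 := by
  have := hU1 n
  rw [U] at this
  simpa [ws] using this

/-- the renewal gap -/
noncomputable def gp (i0 : ℕ) : ℝ≥0∞ := ∑' b, Λ b * ((ht b - i0 : ℕ) : ℝ≥0∞)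

theorem split (hU1 : ∀ n, U Λ ht n ≤ 1) (a i0 n : ℕ) (hn : a + i0 ≤ n)
    (F : List B → ℝ≥0∞) (hF : ∀ L, F L ≤ 1) :
    ws Λ (fun L => HT ht L = n) F ≤ gp ht Λ i0 +
      ws Λ (FPi ht a i0) (fun A => ws Λ (fun R => HT ht R = n - HT ht A)
        (fun R => F (A ++ R))) := by
  set Bad : List B → Prop := fun L =>
    ∀ L1 L2, L = L1 ++ L2 → ¬ (a ≤ HT ht L1 ∧ HT ht L1 ≤ a + i0) with hBad
  have e1 : ws Λ (fun L => HT ht L = n) F ≤
      ws Λ (fun L => HT ht L = n ∧ Bad L) F + ws Λ (fun L => HT ht L = n ∧ ¬ Bad L) F := by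
    rw [ws, ws, ws, ← ENNReal.tsum_add]
    refine ENNReal.tsum_le_tsum fun L => ?_
    by_cases hL : HT ht L = n <;> by_cases hB : Bad L <;> simp [hL, hB]
  refine e1.trans (add_le_add ?_ ?_)
  · have := Gap583.gap_le Λ ht hU1 a i0 n hn
    refine le_trans ?_ this
    rw [ws]
    refine ENNReal.tsum_le_tsum fun L => ?_
    by_cases hL : HT ht L = n ∧ Bad L
    · rw [if_pos hL, if_pos hL]
      calc LW Λ L * F L ≤ LW Λ L * 1 := by gcongr; exact hF L
        _ = _ := mul_one _
    · rw [if_neg hL]; exact bot_le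
  · have := ws_pairs (Λ := Λ) (fun L => HT ht L = n ∧ ¬ Bad L)
      (fun A R => FPi ht a i0 A ∧ HT ht R = n - HT ht A) F ?_
    · refine this.trans (le_of_eq ?_)
      convert pairs_eq (Λ := Λ) (FPi ht a i0) (fun A R => HT ht R = n - HT ht A)
        (fun A R => F (A ++ R))
    · rintro L ⟨hL, hB⟩
      rw [hBad] at hB
      push Not at hB
      obtain ⟨L1, L2, h, h2, h3⟩ := hB
      obtain ⟨A, R, hAR, hA⟩ := exists_FP ht L a i0 ⟨L1, L2, h, h2, h3⟩
      refine ⟨A, R, hAR, hA, ?_⟩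
      rw [hAR, HT_append] at hL
      omega

/-- double split -/
theorem split2 (h1 : ∀ b, 1 ≤ ht b) (hΛ : ∑' b, Λ b = 1) (hU1 : ∀ n, U Λ ht n ≤ 1)
    (a s i0 n : ℕ) (hn : a + i0 + (s + i0) ≤ n)
    (F : List B → ℝ≥0∞) (hF : ∀ L, F L ≤ 1) :
    ws Λ (fun L => HT ht L = n) F ≤ 2 * gp ht Λ i0 +
      ws Λ (FPi ht a i0) (fun A => ws Λ (FPi ht s i0) (fun P =>
        ws Λ (fun R => HT ht R = n - HT ht A - HT ht P) (fun R => F (A ++ (P ++ R))))) := by
  refine (split ht Λ hU1 a i0 n (by omega) F hF).trans ?_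
  have e1 : ws Λ (FPi ht a i0) (fun A => ws Λ (fun R => HT ht R = n - HT ht A)
        (fun R => F (A ++ R))) ≤ ws Λ (FPi ht a i0) (fun A => gp ht Λ i0 +
          ws Λ (FPi ht s i0) (fun P =>
        ws Λ (fun R => HT ht R = n - HT ht A - HT ht P) (fun R => F (A ++ (P ++ R))))) := by
    refine ws_mono fun A hA => ?_
    have hA2 := hA.2
    exact split ht Λ hU1 s i0 (n - HT ht A) (by omega) (fun R => F (A ++ R)) (fun R => hF _)
  refine (add_le_add le_rfl e1).trans ?_
  rw [ws_add, two_mul, add_assoc]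
  gcongr
  exact ws_le_of_mass (mass_FPi ht Λ h1 hΛ a i0) (fun _ _ => le_rfl)

end single

end Crest.Agent.R154.Asm395
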