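import Crest.Agent.R154.Asm1_424
import Crest.Agent.R154.Bind801_12

/-! Row 154, ROAD 801 (helper424): traces of lists, location of a contact, grouping. -/

set_option autoImplicit false
set_option linter.unusedVariables false

namespace Crest.Agent.R154.Asm424

open scoped ENNReal
open Crest.Agent.R154.B5A Crest.Agent.R154.FP178
open Crest.Agent.R154.Bind12 (TT Dp)

section TTl

variable {B G : Type*} [AddCommGroup G] (s : B → Set (G × ℕ)) (z : B → G) (h : B → ℕ)

lemma Dp_nil : Dp z ([] : List B) = 0 := rfl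

lemma Dp_cons (b : B) (L : List B) : Dp z (b :: L) = z b + Dp z L := by simp [Dp]

lemma Dp_append (L L' : List B) : Dp z (L ++ L') = Dp z L + Dp z L' := by simp [Dp]

lemma TT_append (L L' : List B) (x : G) (a : ℕ) :
    TT s z h (L ++ L') x a = TT s z h L x a ∪ TT s z h L' (x + Dp z L) (a + HT h L) := by
  induction L generalizing x a with
  | nil => simp [TT, Dp_nil, HT_nil]
  | cons b L ih =>
    rw [List.cons_append]
    simp only [TT]
    rw [ih, Set.union_assoc, Dp_cons, HT_cons, add_assoc x, add_assoc a]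

lemma TT_shift (L : List B) (x v y : G) (a k : ℕ) :
    (y, k) ∈ TT s z h L (x + v) a ↔ (y - v, k) ∈ TT s z h L x a := by
  induction L generalizing x a with
  | nil => simp [TT]
  | cons b L ih =>
    simp only [TT, Set.mem_union, Set.mem_setOf_eq, Prod.mk.injEq]
    rw [show x + v + z b = (x + z b) + v by abel, ih]
    refine or_congr ?_ Iff.rfl
    constructor
    · rintro ⟨q, hq, h1, h2⟩
      exact ⟨q, hq, by rw [h1]; abel, h2⟩
    · rintro ⟨q, hq, h1, h2⟩
      exact ⟨q, hq, by rw [eq_add_of_sub_eq h1]; abel, h2⟩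

variable {s h}

lemma TT_depth (hd : ∀ b, ∀ q ∈ s b, 1 ≤ q.2 ∧ q.2 ≤ h b) (L : List B) (x y : G) (a k : ℕ)
    (hm : (y, k) ∈ TT s z h L x a) : a < k ∧ k ≤ a + HT h L := by
  induction L generalizing x a with
  | nil => simp [TT] at hm
  | cons b L ih =>
    rw [HT_cons]
    rcases hm with ⟨q, hq, h1⟩ | hm
    · have := hd b q hq
      rw [Prod.mk.injEq] at h1
      omega
    · have := ih _ _ hm
      omega

lemma locate {T i0 : ℕ} (M : List (At h T i0)) (x y : G) (a k : ℕ)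
    (hm : (y, k) ∈ TT s z h (flat M) x a) :
    ∃ M1 A M2, M = M1 ++ A :: M2 ∧
      (y, k) ∈ TT s z h A.1 (x + Dp z (flat M1)) (a + HT h (flat M1)) := by
  induction M generalizing x a with
  | nil => simp [flat_nil, TT] at hm
  | cons A M ih =>
    rw [flat_cons, TT_append] at hm
    rcases hm with hm | hm
    · exact ⟨[], A, M, rfl, by simpa [flat_nil, Dp_nil, HT_nil] using hm⟩
    · obtain ⟨M1, A', M2, h1, h2⟩ := ih _ _ hm
      refine ⟨A :: M1, A', M2, by rw [h1]; rfl, ?_⟩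
      rw [flat_cons, Dp_append, HT_append, ← add_assoc, ← add_assoc]
      exact h2

lemma mem_of_piece {T i0 : ℕ} (M1 : List (At h T i0)) (A : At h T i0) (M2 : List (At h T i0))
    (x y : G) (a k : ℕ)
    (hm : (y, k) ∈ TT s z h A.1 (x + Dp z (flat M1)) (a + HT h (flat M1))) :
    (y, k) ∈ TT s z h (flat (M1 ++ A :: M2)) x a := by
  rw [flat_append, TT_append, flat_cons, TT_append]
  exact Or.inr (Or.inl hm)

lemma HT_flat {T i0 : ℕ} (M : List (At h T i0)) :
    M.length * T ≤ HT h (flat M) ∧ HT h (flat M) ≤ M.length * (T + i0) := by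
  induction M with
  | nil => simp [flat_nil, HT_nil]
  | cons A M ih =>
    rw [flat_cons, HT_append, List.length_cons]
    have h1 := le_HT_of_fp h A.2.1
    have h2 := A.2.2
    constructor
    · calc (M.length + 1) * T = T + M.length * T := by ring
        _ ≤ _ := by gcongr; exact ih.1
    · calc HT h A.1 + HT h (flat M) ≤ (T + i0) + M.length * (T + i0) := by gcongr; exact ih.2
        _ = _ := by ring

end TTl

/-! ### grouping -/

open Classical in
lemma group {P G : Type*} (W : P → ℝ≥0∞) (sm : P → Prop) (α α' : P → ℕ) (ξ : P → G)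
    (R : Finset ℕ) (hR : ∀ p, W p ≠ 0 → α p ∈ R ∧ α' p ∈ R) (Ψ : ℕ → ℕ → G → ℝ≥0∞) :
    ∑' p, (if sm p then W p * Ψ (α p) (α' p) (ξ p) else 0)
      ≤ ∑ a ∈ R, ∑ a' ∈ R, ∑' x, (∑' p, if sm p ∧ α p = a ∧ α' p = a' ∧ ξ p = x then W p else 0)
          * Ψ a a' x := by
  have e1 : ∀ a a', ∑' x, (∑' p, if sm p ∧ α p = a ∧ α' p = a' ∧ ξ p = x then W p else 0)
      * Ψ a a' x = ∑' p, ∑' x, (if sm p ∧ α p = a ∧ α' p = a' ∧ ξ p = x then W p else 0)
      * Ψ a a' x := by
    intro a a'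
    rw [ENNReal.tsum_comm]
    exact tsum_congr fun x => ENNReal.tsum_mul_right.symm
  simp_rw [e1]
  have e2 : ∑ a ∈ R, ∑ a' ∈ R, ∑' p, ∑' x, (if sm p ∧ α p = a ∧ α' p = a' ∧ ξ p = x then W p
      else 0) * Ψ a a' x = ∑' p, ∑ a ∈ R, ∑ a' ∈ R, ∑' x,
      (if sm p ∧ α p = a ∧ α' p = a' ∧ ξ p = x then W p else 0) * Ψ a a' x := by
    rw [Summable.tsum_finsetSum (fun _ _ => ENNReal.summable)]
    refine Finset.sum_congr rfl fun a _ => ?_
    rw [Summable.tsum_finsetSum (fun _ _ => ENNReal.summable)]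
  rw [e2]
  refine ENNReal.tsum_le_tsum fun p => ?_
  by_cases hs : sm p
  · rw [if_pos hs]
    by_cases hW : W p = 0
    · rw [hW, zero_mul]; exact zero_le
    · obtain ⟨h1, h2⟩ := hR p hW
      calc W p * Ψ (α p) (α' p) (ξ p)
          = (if sm p ∧ α p = α p ∧ α' p = α' p ∧ ξ p = ξ p then W p else 0)
            * Ψ (α p) (α' p) (ξ p) := by rw [if_pos ⟨hs, rfl, rfl, rfl⟩]
        _ ≤ ∑' x, (if sm p ∧ α p = α p ∧ α' p = α' p ∧ ξ p = x then W p else 0)
            * Ψ (α p) (α' p) x :=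
            ENNReal.le_tsum (f := fun x => (if sm p ∧ α p = α p ∧ α' p = α' p ∧ ξ p = x then W p
              else 0) * Ψ (α p) (α' p) x) (ξ p)
        _ ≤ ∑ a' ∈ R, ∑' x, (if sm p ∧ α p = α p ∧ α' p = a' ∧ ξ p = x then W p else 0)
            * Ψ (α p) a' x :=
            Finset.single_le_sum (f := fun a' => ∑' x, (if sm p ∧ α p = α p ∧ α' p = a' ∧ ξ p = x
              then W p else 0) * Ψ (α p) a' x) (fun _ _ => zero_le) h2
        _ ≤ _ :=
            Finset.single_le_sum (f := fun a => ∑ a' ∈ R, ∑' x, (if sm p ∧ α p = a ∧ α' p = a' ∧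
              ξ p = x then W p else 0) * Ψ a a' x) (fun _ _ => zero_le) h1
  · rw [if_neg hs]; exact zero_le

/-! ### the window statement -/

section win

variable {BX BY G : Type*} [AddCommGroup G] (ΛX : BX → ℝ≥0∞) (hX : BX → ℕ) (zX : BX → G)
  (sX : BX → Set (G × ℕ)) (ΛY : BY → ℝ≥0∞) (hY : BY → ℕ) (zY : BY → G) (sY : BY → Set (G × ℕ))

/-- some contact of the pieces, and all contacts have depth in `[lo, hi]` -/
def Hit (L : List BX) (L' : List BY) (x : G) (a a' lo hi : ℕ) : Prop :=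
  (∃ z k, (z, k) ∈ TT sX zX hX L 0 a ∧ (z, k) ∈ TT sY zY hY L' x a') ∧
  (∀ z k, (z, k) ∈ TT sX zX hX L 0 a → (z, k) ∈ TT sY zY hY L' x a' → lo ≤ k ∧ k ≤ hi)

open Classical in
/-- the window inequality with locality predicate `loc` -/
def Win (C : ℝ≥0∞) (us : ℕ → ℕ → ℝ≥0∞) (loc : Finset G → List BX → List BY → Prop) : Prop :=
  ∀ (D s h h' a a' lo hi : ℕ) (E : Finset G) (μ : G → ℝ≥0∞) (M lam : ℝ≥0∞),
    ∑' x, μ x ≤ 1 → (∀ x, μ x ≤ M) → lam ≠ 0 → lam ≠ ⊤ →
    a + s ≤ lo → a' + s ≤ lo → hi + s ≤ a + h → hi + s ≤ a' + h' →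
    a ≤ a' + D → a' ≤ a + D → a + h ≤ a' + h' + D → a' + h' ≤ a + h + D →
    ∑' x, μ x * ∑' L, ∑' L', (if HT hX L = h ∧ HT hY L' = h' ∧ loc E L L' ∧
        Hit hX zX sX hY zY sY L L' x a a' lo hi then LW ΛX L * LW ΛY L' else 0)
      ≤ C * (lam + M * E.card * us D s / lam + us D s)

variable {ΛX hX zX sX ΛY hY zY sY}

open Classical in
/-- **main term**: one window -/
theorem main_term {C : ℝ≥0∞} {us : ℕ → ℕ → ℝ≥0∞} {loc : Finset G → List BX → List BY → Prop}
    (hW : Win ΛX hX zX sX ΛY hY zY sY C us loc) {P : Type*} (W : P → ℝ≥0∞) (hW1 : ∑' p, W p ≤ 1)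
    (sm : P → Prop) (α α' : P → ℕ) (ξ : P → G) (T i0 j s : ℕ) (hsT : s ≤ T)
    (hα : ∀ p, W p ≠ 0 → (j * T ≤ α p ∧ α p ≤ j * (T + i0)) ∧ (j * T ≤ α' p ∧ α' p ≤ j * (T + i0)))
    (Mx : ℝ≥0∞)
    (hμ : ∀ a a' x, ∑' p, (if sm p ∧ α p = a ∧ α' p = a' ∧ ξ p = x then W p else 0) ≤ Mx)
    (E : ℕ → ℕ → Finset G) (hE : ∀ h h', Mx * (E h h').card ≤ j)
    (lam : ℝ≥0∞) (hl : lam ≠ 0) (hl' : lam ≠ ⊤) :
    ∑' p, (if sm p then W p * ∑' A : At hX T i0, wt ΛX hX T i0 A * ∑' A' : At hY T i0,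
        wt ΛY hY T i0 A' * (if loc (E (HT hX A.1) (HT hY A'.1)) A.1 A'.1 ∧
          Hit hX zX sX hY zY sY A.1 A'.1 (ξ p) (α p) (α' p) (max (α p) (α' p) + s)
            (min (α p + HT hX A.1) (α' p + HT hY A'.1) - s) then 1 else 0) else 0)
      ≤ ((j * i0 + 1 : ℕ) ^ 2 * (i0 + 1 : ℕ) ^ 2 : ℕ) *
          (C * (lam + j * us ((j + 1) * i0) s / lam + us ((j + 1) * i0) s)) := by
  set R : Finset ℕ := Finset.Icc (j * T) (j * (T + i0)) with hR
  set Q : Finset ℕ := Finset.Icc T (T + i0) with hQ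
  set Ψ : ℕ → ℕ → G → ℝ≥0∞ := fun a a' x => ∑' A : At hX T i0, wt ΛX hX T i0 A *
    ∑' A' : At hY T i0, wt ΛY hY T i0 A' * (if loc (E (HT hX A.1) (HT hY A'.1)) A.1 A'.1 ∧
      Hit hX zX sX hY zY sY A.1 A'.1 x a a' (max a a' + s)
        (min (a + HT hX A.1) (a' + HT hY A'.1) - s) then 1 else 0) with hΨ
  set Th : ℕ → ℕ → ℕ → ℕ → G → ℝ≥0∞ := fun h h' a a' x => ∑' L, ∑' L',
    (if HT hX L = h ∧ HT hY L' = h' ∧ loc (E h h') L L' ∧
      Hit hX zX sX hY zY sY L L' x a a' (max a a' + s) (min (a + h) (a' + h') - s)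
      then LW ΛX L * LW ΛY L' else 0) with hTh
  have hΨT : ∀ a a' x, Ψ a a' x ≤ ∑ h ∈ Q, ∑ h' ∈ Q, Th h h' a a' x := by
    intro a a' x
    have e0 : Ψ a a' x = ∑' L, (if fp hX T L ∧ HT hX L ≤ T + i0 then LW ΛX L *
        ∑' L', (if fp hY T L' ∧ HT hY L' ≤ T + i0 then LW ΛY L' *
          (if loc (E (HT hX L) (HT hY L')) L L' ∧ Hit hX zX sX hY zY sY L L' x a a'
            (max a a' + s) (min (a + HT hX L) (a' + HT hY L') - s) then 1 else 0) else 0) else 0) := by
      simp only [hΨ]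
      rw [← tsum_At hX T i0 (fun L => LW ΛX L *
        ∑' L', (if fp hY T L' ∧ HT hY L' ≤ T + i0 then LW ΛY L' *
          (if loc (E (HT hX L) (HT hY L')) L L' ∧ Hit hX zX sX hY zY sY L L' x a a'
            (max a a' + s) (min (a + HT hX L) (a' + HT hY L') - s) then 1 else 0) else 0))]
      refine tsum_congr fun A => ?_
      unfold wt
      congr 1
      exact tsum_At hY T i0 (fun L' => LW ΛY L' *
          (if loc (E (HT hX A.1) (HT hY L')) A.1 L' ∧ Hit hX zX sX hY zY sY A.1 L' x a a'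
            (max a a' + s) (min (a + HT hX A.1) (a' + HT hY L') - s) then 1 else 0))
    rw [e0]
    have e1 : ∑ h ∈ Q, ∑ h' ∈ Q, Th h h' a a' x = ∑' L, ∑' L', ∑ h ∈ Q, ∑ h' ∈ Q,
        (if HT hX L = h ∧ HT hY L' = h' ∧ loc (E h h') L L' ∧
        Hit hX zX sX hY zY sY L L' x a a' (max a a' + s) (min (a + h) (a' + h') - s)
        then LW ΛX L * LW ΛY L' else 0) := by
      simp only [hTh]
      have : ∀ L, ∑' L', ∑ h ∈ Q, ∑ h' ∈ Q, (if HT hX L = h ∧ HT hY L' = h' ∧ loc (E h h') L L' ∧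
          Hit hX zX sX hY zY sY L L' x a a' (max a a' + s) (min (a + h) (a' + h') - s)
          then LW ΛX L * LW ΛY L' else 0) = ∑ h ∈ Q, ∑ h' ∈ Q, ∑' L',
          (if HT hX L = h ∧ HT hY L' = h' ∧ loc (E h h') L L' ∧
          Hit hX zX sX hY zY sY L L' x a a' (max a a' + s) (min (a + h) (a' + h') - s)
          then LW ΛX L * LW ΛY L' else 0) := by
        intro L
        rw [Summable.tsum_finsetSum (fun _ _ => ENNReal.summable)]
        refine Finset.sum_congr rfl fun h _ => ?_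
        rw [Summable.tsum_finsetSum (fun _ _ => ENNReal.summable)]
      simp_rw [this]
      rw [Summable.tsum_finsetSum (fun _ _ => ENNReal.summable)]
      refine Finset.sum_congr rfl fun h _ => ?_
      rw [Summable.tsum_finsetSum (fun _ _ => ENNReal.summable)]
    rw [e1]
    refine ENNReal.tsum_le_tsum fun L => ?_
    by_cases hL : fp hX T L ∧ HT hX L ≤ T + i0
    · rw [if_pos hL, ← ENNReal.tsum_mul_left]
      refine ENNReal.tsum_le_tsum fun L' => ?_
      by_cases hL' : fp hY T L' ∧ HT hY L' ≤ T + i0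
      · rw [if_pos hL']
        by_cases hc : loc (E (HT hX L) (HT hY L')) L L' ∧ Hit hX zX sX hY zY sY L L' x a a'
            (max a a' + s) (min (a + HT hX L) (a' + HT hY L') - s)
        · rw [if_pos hc, mul_one]
          have hq : HT hX L ∈ Q := by
            rw [hQ, Finset.mem_Icc]; exact ⟨le_HT_of_fp hX hL.1, hL.2⟩
          have hq' : HT hY L' ∈ Q := by
            rw [hQ, Finset.mem_Icc]; exact ⟨le_HT_of_fp hY hL'.1, hL'.2⟩
          calc LW ΛX L * LW ΛY L'
              = (if HT hX L = HT hX L ∧ HT hY L' = HT hY L' ∧ loc (E (HT hX L) (HT hY L')) L L' ∧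
                Hit hX zX sX hY zY sY L L' x a a' (max a a' + s)
                  (min (a + HT hX L) (a' + HT hY L') - s)
                then LW ΛX L * LW ΛY L' else 0) := by rw [if_pos ⟨rfl, rfl, hc.1, hc.2⟩]
            _ ≤ ∑ h' ∈ Q, (if HT hX L = HT hX L ∧ HT hY L' = h' ∧ loc (E (HT hX L) h') L L' ∧
                Hit hX zX sX hY zY sY L L' x a a' (max a a' + s)
                  (min (a + HT hX L) (a' + h') - s) then LW ΛX L * LW ΛY L' else 0) :=
                Finset.single_le_sum (f := fun h' => (if HT hX L = HT hX L ∧ HT hY L' = h' ∧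
                loc (E (HT hX L) h') L L' ∧ Hit hX zX sX hY zY sY L L' x a a' (max a a' + s)
                  (min (a + HT hX L) (a' + h') - s) then LW ΛX L * LW ΛY L' else 0))
                  (fun _ _ => zero_le) hq'
            _ ≤ _ := Finset.single_le_sum (f := fun h => ∑ h' ∈ Q, (if HT hX L = h ∧
                HT hY L' = h' ∧ loc (E h h') L L' ∧ Hit hX zX sX hY zY sY L L' x a a'
                (max a a' + s) (min (a + h) (a' + h') - s) then LW ΛX L * LW ΛY L' else 0))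
                  (fun _ _ => zero_le) hq
        · rw [if_neg hc, mul_zero, mul_zero]; exact zero_le
      · rw [if_neg hL', mul_zero]; exact zero_le
    · rw [if_neg hL]; exact zero_le
  refine (group W sm α α' ξ R (fun p hp => ?_) Ψ).trans ?_
  · rw [hR, Finset.mem_Icc, Finset.mem_Icc]; exact hα p hp
  set bd : ℝ≥0∞ := C * (lam + j * us ((j + 1) * i0) s / lam + us ((j + 1) * i0) s) with hbd
  have hone : ∀ a ∈ R, ∀ a' ∈ R, ∑' x, (∑' p, if sm p ∧ α p = a ∧ α' p = a' ∧ ξ p = x then W p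
      else 0) * Ψ a a' x ≤ ((i0 + 1 : ℕ) ^ 2 : ℕ) * bd := by
    intro a ha a' ha'
    rw [hR, Finset.mem_Icc] at ha ha'
    set μ : G → ℝ≥0∞ := fun x => ∑' p, if sm p ∧ α p = a ∧ α' p = a' ∧ ξ p = x then W p else 0
      with hμd
    have hμ1 : ∑' x, μ x ≤ 1 := by
      simp only [hμd]
      rw [ENNReal.tsum_comm]
      refine le_trans (ENNReal.tsum_le_tsum fun p => ?_) hW1
      rw [tsum_eq_single (ξ p)]
      · split_ifs
        · exact le_rfl
        · exact zero_le
      · intro x hx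
        rw [if_neg]
        rintro ⟨_, _, _, h4⟩
        exact hx h4.symm
    have hone2 : ∀ h ∈ Q, ∀ h' ∈ Q, ∑' x, μ x * Th h h' a a' x ≤ bd := by
      intro h hh h' hh'
      rw [hQ, Finset.mem_Icc] at hh hh'
      have hjT : j * (T + i0) = j * T + j * i0 := by ring
      have hj1 : (j + 1) * i0 = j * i0 + i0 := by ring
      refine (hW ((j + 1) * i0) s h h' a a' (max a a' + s) (min (a + h) (a' + h') - s) (E h h') μ Mx
        lam hμ1 (fun x => hμ a a' x) hl hl' ?_ ?_ ?_ ?_ ?_ ?_ ?_ ?_).trans ?_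
      · omega
      · omega
      · omega
      · omega
      · omega
      · omega
      · omega
      · omega
      · rw [hbd]
        gcongr
        exact hE h h'
    calc ∑' x, μ x * Ψ a a' x ≤ ∑' x, μ x * ∑ h ∈ Q, ∑ h' ∈ Q, Th h h' a a' x := by
          refine ENNReal.tsum_le_tsum fun x => ?_
          gcongr; exact hΨT a a' x
      _ = ∑ h ∈ Q, ∑ h' ∈ Q, ∑' x, μ x * Th h h' a a' x := by
          simp_rw [Finset.mul_sum]
          rw [Summable.tsum_finsetSum (fun _ _ => ENNReal.summable)]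
          refine Finset.sum_congr rfl fun h _ => ?_
          rw [Summable.tsum_finsetSum (fun _ _ => ENNReal.summable)]
      _ ≤ ∑ h ∈ Q, ∑ h' ∈ Q, bd :=
          Finset.sum_le_sum fun h hh => Finset.sum_le_sum fun h' hh' => hone2 h hh h' hh'
      _ = _ := by
          rw [Finset.sum_const, Finset.sum_const, hQ, Nat.card_Icc]
          rw [nsmul_eq_mul, nsmul_eq_mul, ← mul_assoc]
          congr 1
          rw [show T + i0 + 1 - T = i0 + 1 by omega]
          push_cast; ring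
  calc _ ≤ ∑ a ∈ R, ∑ a' ∈ R, ((i0 + 1 : ℕ) ^ 2 : ℕ) * bd :=
        Finset.sum_le_sum fun a ha => Finset.sum_le_sum fun a' ha' => hone a ha a' ha'
    _ = _ := by
        rw [Finset.sum_const, Finset.sum_const, hR, Nat.card_Icc]
        rw [nsmul_eq_mul, nsmul_eq_mul, ← mul_assoc, ← mul_assoc]
        congr 1
        rw [show j * (T + i0) + 1 - j * T = j * i0 + 1 by
          rw [show j * (T + i0) = j * T + j * i0 by ring]; omega]
        push_cast; ring

end win

end Crest.Agent.R154.Asm424
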