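import Crest.Agent.R154.Asm_469

/-! Row 154, ROAD 801 (helper469): abstract assembly, part 2: two walkers, one window. -/

set_option autoImplicit false
set_option linter.unusedSectionVars false

namespace Crest.Agent.R154.Asm469

open scoped ENNReal
open Crest.Agent.R154.B5A Crest.Agent.R154.FP178

section W

variable {A A' : Type*} (L₀ : A → ℝ≥0∞) (M₀ : A' → ℝ≥0∞)

open Classical in
/-- weight of (prefix of X, piece of X, prefix of Y, piece of Y) -/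
noncomputable def wt (i : ℕ) (ω : (List A × A) × (List A' × A')) : ℝ≥0∞ :=
  ((if ω.1.1.length = i then LW L₀ ω.1.1 else 0) * L₀ ω.1.2) *
    ((if ω.2.1.length = i then LW M₀ ω.2.1 else 0) * M₀ ω.2.2)

/-- expectation -/
noncomputable def Wt (i : ℕ) (F : (List A × A) × (List A' × A') → ℝ≥0∞) : ℝ≥0∞ :=
  ∑' ω, wt L₀ M₀ i ω * F ω

lemma Wt_mono (i : ℕ) {F F' : (List A × A) × (List A' × A') → ℝ≥0∞}
    (h : ∀ ω, ω.1.1.length = i → ω.2.1.length = i → F ω ≤ F' ω) :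
    Wt L₀ M₀ i F ≤ Wt L₀ M₀ i F' := by
  refine ENNReal.tsum_le_tsum fun ω => ?_
  by_cases h1 : ω.1.1.length = i
  · by_cases h2 : ω.2.1.length = i
    · exact mul_le_mul_right (h ω h1 h2) _
    · simp [wt, h2]
  · simp [wt, h1]

lemma Wt_add (i : ℕ) (F F' : (List A × A) × (List A' × A') → ℝ≥0∞) :
    Wt L₀ M₀ i (fun ω => F ω + F' ω) = Wt L₀ M₀ i F + Wt L₀ M₀ i F' := by
  rw [Wt, Wt, Wt, ← ENNReal.tsum_add]
  exact tsum_congr fun ω => mul_add _ _ _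

lemma Wt_sum {ι : Type*} (i : ℕ) (S : Finset ι) (F : ι → (List A × A) × (List A' × A') → ℝ≥0∞) :
    Wt L₀ M₀ i (fun ω => ∑ t ∈ S, F t ω) = ∑ t ∈ S, Wt L₀ M₀ i (F t) := by
  classical
  induction S using Finset.induction_on with
  | empty => simp [Wt]
  | insert a S ha ih =>
    simp only [Finset.sum_insert ha]
    rw [Wt_add, ih]

open Classical in
lemma SL_eq (j : ℕ) (F : List A → ℝ≥0∞) :
    SL L₀ j F = ∑' X : List A, (if X.length = j then LW L₀ X else 0) * F X := by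
  rw [SL]
  refine tsum_congr fun X => ?_
  by_cases h : X.length = j <;> simp [h]

open Classical in
/-- nested form -/
lemma Wt_eq (i : ℕ) (F : (List A × A) × (List A' × A') → ℝ≥0∞) :
    Wt L₀ M₀ i F = SL L₀ i (fun X => ∑' P, L₀ P *
      SL M₀ i (fun Y => ∑' Q, M₀ Q * F ((X, P), (Y, Q)))) := by
  rw [Wt, ENNReal.tsum_prod', ENNReal.tsum_prod', SL_eq]
  refine tsum_congr fun X => ?_
  rw [← ENNReal.tsum_mul_left]
  refine tsum_congr fun P => ?_
  rw [ENNReal.tsum_prod', SL_eq, ← mul_assoc, ← ENNReal.tsum_mul_left]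
  refine tsum_congr fun Y => ?_
  rw [← ENNReal.tsum_mul_left, ← ENNReal.tsum_mul_left]
  refine tsum_congr fun Q => ?_
  simp only [wt]
  ring

open Classical in
/-- product form -/
lemma Wt_prod (i : ℕ) (f1 : List A → ℝ≥0∞) (f2 : A → ℝ≥0∞) (f3 : List A' → ℝ≥0∞)
    (f4 : A' → ℝ≥0∞) :
    Wt L₀ M₀ i (fun ω => (f1 ω.1.1 * f2 ω.1.2) * (f3 ω.2.1 * f4 ω.2.2))
      = (SL L₀ i f1 * ∑' P, L₀ P * f2 P) * (SL M₀ i f3 * ∑' Q, M₀ Q * f4 Q) := by
  rw [Wt_eq]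
  have e : ∀ X P, SL M₀ i (fun Y => ∑' Q, M₀ Q * ((f1 X * f2 P) * (f3 Y * f4 Q)))
      = (f1 X * f2 P) * (SL M₀ i f3 * ∑' Q, M₀ Q * f4 Q) := by
    intro X P
    rw [SL_eq, SL_eq, ← ENNReal.tsum_mul_right, ← ENNReal.tsum_mul_left]
    refine tsum_congr fun Y => ?_
    have : ∑' Q, M₀ Q * ((f1 X * f2 P) * (f3 Y * f4 Q))
        = (f1 X * f2 P) * f3 Y * ∑' Q, M₀ Q * f4 Q := by
      rw [← ENNReal.tsum_mul_left]
      refine tsum_congr fun Q => ?_
      ring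
    rw [this]; ring
  simp only [e]
  generalize (SL M₀ i f3 * ∑' Q, M₀ Q * f4 Q) = K
  rw [SL_eq, SL_eq, ← ENNReal.tsum_mul_right, ← ENNReal.tsum_mul_right]
  refine tsum_congr fun X => ?_
  have : ∑' P, L₀ P * ((f1 X * f2 P) * K) = f1 X * (∑' P, L₀ P * f2 P) * K := by
    rw [← ENNReal.tsum_mul_left, ← ENNReal.tsum_mul_right]
    refine tsum_congr fun P => ?_
    ring
  rw [this]; ring

/-- product form, prefixes times pieces -/
lemma Wt_prod2 (i : ℕ) (f : List A → List A' → ℝ≥0∞) (g : A → A' → ℝ≥0∞) :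
    Wt L₀ M₀ i (fun ω => f ω.1.1 ω.2.1 * g ω.1.2 ω.2.2)
      = SL L₀ i (fun X => SL M₀ i (fun Y => f X Y)) * ∑' P, ∑' Q, L₀ P * (M₀ Q * g P Q) := by
  rw [Wt_eq]
  have e : ∀ X P, SL M₀ i (fun Y => ∑' Q, M₀ Q * (f X Y * g P Q))
      = SL M₀ i (fun Y => f X Y) * ∑' Q, M₀ Q * g P Q := by
    intro X P
    rw [SL_eq, SL_eq, ← ENNReal.tsum_mul_right]
    refine tsum_congr fun Y => ?_
    have : ∑' Q, M₀ Q * (f X Y * g P Q) = f X Y * ∑' Q, M₀ Q * g P Q := by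
      rw [← ENNReal.tsum_mul_left]
      refine tsum_congr fun Q => ?_
      ring
    rw [this]; ring
  simp only [e]
  rw [SL_eq, SL_eq, ← ENNReal.tsum_mul_right]
  refine tsum_congr fun X => ?_
  have : ∑' P, L₀ P * (SL M₀ i (fun Y => f X Y) * ∑' Q, M₀ Q * g P Q)
      = SL M₀ i (fun Y => f X Y) * ∑' P, ∑' Q, L₀ P * (M₀ Q * g P Q) := by
    rw [← ENNReal.tsum_mul_left]
    refine tsum_congr fun P => ?_
    rw [ENNReal.tsum_mul_left]
    ring
  rw [this]; ring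

lemma SL_comm (i : ℕ) (f : List A → List A' → ℝ≥0∞) :
    SL L₀ i (fun X => SL M₀ i (fun Y => f X Y)) = SL M₀ i (fun Y => SL L₀ i (fun X => f X Y)) := by
  simp only [SL_eq]
  simp only [← ENNReal.tsum_mul_left]
  rw [ENNReal.tsum_comm]
  refine tsum_congr fun Y => tsum_congr fun X => ?_
  ring

lemma SL_tsum {ι : Type*} (i : ℕ) (f : ι → List A → ℝ≥0∞) :
    ∑' x, SL L₀ i (f x) = SL L₀ i (fun X => ∑' x, f x X) := by
  simp only [SL_eq]
  rw [ENNReal.tsum_comm]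
  refine tsum_congr fun Y => ?_
  rw [ENNReal.tsum_mul_left]

lemma Wt_tsum {ι : Type*} (i : ℕ) (f : ι → (List A × A) × (List A' × A') → ℝ≥0∞) :
    Wt L₀ M₀ i (fun ω => ∑' x, f x ω) = ∑' x, Wt L₀ M₀ i (f x) := by
  simp only [Wt]
  rw [ENNReal.tsum_comm]
  refine tsum_congr fun Y => ?_
  rw [ENNReal.tsum_mul_left]

/-- separation of the tie law -/
lemma term_le {G : Type*} [AddCommGroup G] (hL : ∑' a, L₀ a ≤ 1) (hM : ∑' a, M₀ a ≤ 1) (i : ℕ)
    (dX : List A → G) (dY : List A' → G) (w : G) (cond : List A → List A' → Prop)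
    (R : G → A → A' → Prop) (K : G → ℝ≥0∞)
    (hK : ∀ x, (∑' P, ∑' Q, L₀ P * (M₀ Q * (open Classical in if R x P Q then 1 else 0))) ≤ K x) :
    ∃ μ : G → ℝ≥0∞, (∑' x, μ x ≤ 1) ∧
      (∀ x, μ x = SL L₀ i (fun X => SL M₀ i (fun Y =>
        open Classical in if cond X Y ∧ w + dY Y - dX X = x then 1 else 0))) ∧
      Wt L₀ M₀ i (fun ω => open Classical in
        if cond ω.1.1 ω.2.1 ∧ R (w + dY ω.2.1 - dX ω.1.1) ω.1.2 ω.2.2 then 1 else 0)
        ≤ ∑' x, μ x * K x := by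
  classical
  refine ⟨_, ?_, fun x => rfl, ?_⟩
  · rw [SL_tsum]
    calc _ ≤ SL L₀ i (fun _ => 1) := by
          refine SL_mono L₀ i fun X _ => ?_
          rw [SL_tsum]
          refine le_trans (SL_mono M₀ i fun Y _ => ?_) (SL_one_le M₀ hM i)
          rw [tsum_eq_single (w + dY Y - dX X) (fun x hx => if_neg fun h => hx h.2.symm)]
          split_ifs <;> simp
      _ ≤ 1 := SL_one_le L₀ hL i
  · have e : (fun ω : (List A × A) × (List A' × A') =>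
        if cond ω.1.1 ω.2.1 ∧ R (w + dY ω.2.1 - dX ω.1.1) ω.1.2 ω.2.2 then (1 : ℝ≥0∞) else 0)
        = fun ω => ∑' x, (if cond ω.1.1 ω.2.1 ∧ w + dY ω.2.1 - dX ω.1.1 = x then 1 else 0) *
          (if R x ω.1.2 ω.2.2 then 1 else 0) := by
      funext ω
      rw [tsum_eq_single (w + dY ω.2.1 - dX ω.1.1)
        (fun x hx => by rw [if_neg fun h => hx h.2.symm, zero_mul])]
      by_cases h1 : cond ω.1.1 ω.2.1 <;>
        by_cases h2 : R (w + dY ω.2.1 - dX ω.1.1) ω.1.2 ω.2.2 <;> simp [h1, h2]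
    rw [e, Wt_tsum]
    refine ENNReal.tsum_le_tsum fun x => ?_
    rw [Wt_prod2 L₀ M₀ i (fun X Y => if cond X Y ∧ w + dY Y - dX X = x then 1 else 0)
      (fun P Q => if R x P Q then 1 else 0)]
    exact mul_le_mul_right (hK x) _

/-- reduction of the pair sums over `N` pieces to (prefix, piece) -/
lemma prefix2 (hL : ∑' a, L₀ a ≤ 1) (hM : ∑' a, M₀ a ≤ 1) (i N : ℕ) (hi : i < N)
    (F : List A → List A' → ℝ≥0∞) (F' : (List A × A) × (List A' × A') → ℝ≥0∞)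
    (hF : ∀ X P Z Y Q Z', X.length = i → Y.length = i →
      F (X ++ P :: Z) (Y ++ Q :: Z') ≤ F' ((X, P), (Y, Q))) :
    SL L₀ N (fun X => SL M₀ N (fun Y => F X Y)) ≤ Wt L₀ M₀ i F' := by
  rw [Wt_eq]
  refine SL_prefix L₀ hL i N hi _ _ fun X P Z hX => ?_
  exact SL_prefix M₀ hM i N hi _ _ fun Y Q Z' hY => hF X P Z Y Q Z' hX hY

end W

end Crest.Agent.R154.Asm469
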