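import Crest.Agent.R154.Asm1_532

/-! Row 154 (helper532), ROAD 801: abstract assembly, part 2: sites of a list, one-walker split. -/

set_option autoImplicit false

namespace Crest.Agent.R154.Asm532

open scoped ENNReal
open Crest.Agent.R154.B5A
open Crest.Agent.R154.FP178 (fp)
open Classical
open Finset (range)

variable {B G : Type*} [AddCommGroup G] (Λ : B → ℝ≥0∞) (ht : B → ℕ) (zz : B → G)
  (ss : B → Set (G × ℕ))

/-- sites (position, depth) of a list of blocks started at `x`, depth `a` -/
def TS : List B → G → ℕ → Set (G × ℕ)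
  | [], _, _ => ∅
  | b :: L, x, a => {p | ∃ q ∈ ss b, p = (x + q.1, a + q.2)} ∪ TS L (x + zz b) (a + ht b)

lemma TS_append (L L' : List B) (x : G) (a : ℕ) :
    TS ht zz ss (L ++ L') x a = TS ht zz ss L x a ∪ TS ht zz ss L' (x + Dp zz L) (a + HT ht L) := by
  induction L generalizing x a with
  | nil => simp [TS, Dp, HT]
  | cons b L ih =>
    simp only [List.cons_append, TS]
    rw [ih, Set.union_assoc]
    simp only [Dp, HT, List.map_cons, List.sum_cons, add_assoc]

lemma TS_depth (hs : ∀ b, ∀ q ∈ ss b, 1 ≤ q.2 ∧ q.2 ≤ ht b) (L : List B) (x : G) (a : ℕ)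
    (p : G × ℕ) (hp : p ∈ TS ht zz ss L x a) : a < p.2 ∧ p.2 ≤ a + HT ht L := by
  induction L generalizing x a with
  | nil => simp [TS] at hp
  | cons b L ih =>
    rw [HT_cons]
    rcases hp with ⟨q, hq, rfl⟩ | hp
    · have := hs b q hq
      simp only
      omega
    · have := ih _ _ hp
      omega

lemma TS_trans (L : List B) (x v : G) (a : ℕ) (y : G) (k : ℕ) :
    (y + v, k) ∈ TS ht zz ss L (x + v) a ↔ (y, k) ∈ TS ht zz ss L x a := by
  induction L generalizing x a with
  | nil => simp [TS]
  | cons b L ih =>
    simp only [TS, Set.mem_union, Set.mem_setOf_eq, Prod.mk.injEq]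
    rw [show x + v + zz b = x + zz b + v by abel, ih]
    refine or_congr ?_ Iff.rfl
    refine exists_congr fun q => and_congr_right fun _ => and_congr_left fun _ => ?_
    rw [show x + v + q.1 = x + q.1 + v by abel, add_left_inj]

/-- overshoot mass -/
noncomputable def ov (i0 : ℕ) : ℝ≥0∞ := ∑' k, tail Λ ht (i0 + k)

/-- **one walker**: first passage of `A`, then first passage of `T` from there. -/
theorem one (h1 : ∀ b, 1 ≤ ht b) (hU1 : ∀ n, U Λ ht n ≤ 1) (A T i0 n : ℕ)
    (hn : A + i0 + T ≤ n) (g : List B → ℝ≥0∞) (hg : ∀ L, g L ≤ 1) (φ : List B → List B → ℝ≥0∞)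
    (hgφ : ∀ L1 L2 L3, fp ht A L1 → HT ht L1 ≤ A + i0 → fp ht T L2 → HT ht L2 ≤ T + i0 →
      HT ht (L1 ++ (L2 ++ L3)) = n → g (L1 ++ (L2 ++ L3)) ≤ φ L1 L2) :
    ∑' L, (if HT ht L = n then LW Λ L * g L else 0)
      ≤ ov Λ ht i0 + ∑' L1, (if fp ht A L1 ∧ HT ht L1 ≤ A + i0 then LW Λ L1 *
          (ov Λ ht i0 + ∑' L2, (if fp ht T L2 ∧ HT ht L2 ≤ T + i0 then LW Λ L2 * φ L1 L2 else 0))
          else 0) := by
  have e1 : ∑' L, (if HT ht L = n then LW Λ L * g L else 0)
      = ∑' L, (if A ≤ HT ht L then LW Λ L * (if HT ht L = n then g L else 0) else 0) := by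
    refine tsum_congr fun L => ?_
    by_cases h : HT ht L = n
    · rw [if_pos h, if_pos (by omega), if_pos h]
    · rw [if_neg h, if_neg h, mul_zero, ite_self]
  rw [e1, FP178.split Λ ht h1 A]
  have hov := FP178.overshoot Λ ht h1 hU1 i0
  have step : ∀ L1 : List B, (if fp ht A L1 then LW Λ L1 *
      ∑' L', LW Λ L' * (if HT ht (L1 ++ L') = n then g (L1 ++ L') else 0) else 0)
      ≤ (if fp ht A L1 ∧ A + i0 < HT ht L1 then LW Λ L1 else 0)
        + (if fp ht A L1 ∧ HT ht L1 ≤ A + i0 then LW Λ L1 *
          (ov Λ ht i0 + ∑' L2, (if fp ht T L2 ∧ HT ht L2 ≤ T + i0 then LW Λ L2 * φ L1 L2 else 0))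
          else 0) := by
    intro L1
    by_cases hL1 : fp ht A L1
    · rw [if_pos hL1]
      by_cases ho : HT ht L1 ≤ A + i0
      · rw [if_neg (fun h => absurd h.2 (not_lt.2 ho)), zero_add, if_pos ⟨hL1, ho⟩]
        refine mul_le_mul_right ?_ _
        have e2 : ∑' L', LW Λ L' * (if HT ht (L1 ++ L') = n then g (L1 ++ L') else 0)
            = ∑' L', (if T ≤ HT ht L' then LW Λ L' *
              (if HT ht (L1 ++ L') = n then g (L1 ++ L') else 0) else 0) := by
          refine tsum_congr fun L' => ?_
          by_cases h : HT ht (L1 ++ L') = n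
          · have h' := h
            rw [HT_append] at h'
            rw [if_pos (by omega : T ≤ HT ht L')]
          · rw [if_neg h, mul_zero, ite_self]
        rw [e2, FP178.split Λ ht h1 T]
        have step2 : ∀ L2 : List B, (if fp ht T L2 then LW Λ L2 *
            ∑' L3, LW Λ L3 * (if HT ht (L1 ++ (L2 ++ L3)) = n then g (L1 ++ (L2 ++ L3)) else 0)
            else 0)
            ≤ (if fp ht T L2 ∧ T + i0 < HT ht L2 then LW Λ L2 else 0)
              + (if fp ht T L2 ∧ HT ht L2 ≤ T + i0 then LW Λ L2 * φ L1 L2 else 0) := by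
          intro L2
          have hU : ∑' L3, (if HT ht (L1 ++ (L2 ++ L3)) = n then LW Λ L3 else 0) ≤ 1 := by
            by_cases hn' : HT ht L1 + HT ht L2 ≤ n
            · refine le_trans (le_of_eq ?_) (hU1 (n - (HT ht L1 + HT ht L2)))
              rw [U]
              refine tsum_congr fun L3 => ?_
              rw [HT_append, HT_append]
              by_cases h : HT ht L3 = n - (HT ht L1 + HT ht L2)
              · rw [if_pos h, if_pos (by omega)]
              · rw [if_neg h, if_neg (by omega)]
            · have : ∀ L3, (if HT ht (L1 ++ (L2 ++ L3)) = n then LW Λ L3 else 0) = 0 := by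
                intro L3
                rw [HT_append, HT_append, if_neg (by omega)]
              rw [tsum_congr this]
              simp
          by_cases hL2 : fp ht T L2
          · rw [if_pos hL2]
            by_cases ho2 : HT ht L2 ≤ T + i0
            · rw [if_neg (fun h => absurd h.2 (not_lt.2 ho2)), zero_add, if_pos ⟨hL2, ho2⟩]
              refine mul_le_mul_right ?_ _
              calc _ ≤ ∑' L3, (if HT ht (L1 ++ (L2 ++ L3)) = n then LW Λ L3 else 0) * φ L1 L2 := by
                    refine ENNReal.tsum_le_tsum fun L3 => ?_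
                    by_cases h : HT ht (L1 ++ (L2 ++ L3)) = n
                    · rw [if_pos h, if_pos h]
                      exact mul_le_mul_right (hgφ L1 L2 L3 hL1 ho hL2 ho2 h) _
                    · rw [if_neg h, mul_zero]; exact zero_le
                _ ≤ 1 * φ L1 L2 := by
                    rw [ENNReal.tsum_mul_right]
                    exact mul_le_mul_left hU _
                _ = _ := one_mul _
            · rw [if_pos ⟨hL2, not_le.1 ho2⟩]
              refine le_trans ?_ le_self_add
              calc _ ≤ LW Λ L2 * 1 := by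
                    refine mul_le_mul_right (le_trans (ENNReal.tsum_le_tsum fun L3 => ?_) hU) _
                    by_cases h : HT ht (L1 ++ (L2 ++ L3)) = n
                    · rw [if_pos h, if_pos h]
                      exact mul_le_of_le_one_right' (hg _)
                    · rw [if_neg h, if_neg h, mul_zero]
                _ = _ := mul_one _
          · rw [if_neg hL2]; exact zero_le
        refine (ENNReal.tsum_le_tsum step2).trans ?_
        rw [ENNReal.tsum_add]
        exact add_le_add (hov T) le_rfl
      · rw [if_pos ⟨hL1, not_le.1 ho⟩]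
        refine le_trans ?_ le_self_add
        have hU : ∑' L3, (if HT ht (L1 ++ L3) = n then LW Λ L3 else 0) ≤ 1 := by
          by_cases hn' : HT ht L1 ≤ n
          · refine le_trans (le_of_eq ?_) (hU1 (n - (HT ht L1)))
            rw [U]
            refine tsum_congr fun L3 => ?_
            rw [HT_append]
            by_cases h : HT ht L3 = n - (HT ht L1)
            · rw [if_pos h, if_pos (by omega)]
            · rw [if_neg h, if_neg (by omega)]
          · have : ∀ L3, (if HT ht (L1 ++ L3) = n then LW Λ L3 else 0) = 0 := by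
              intro L3
              rw [HT_append, if_neg (by omega)]
            rw [tsum_congr this]
            simp
        calc _ ≤ LW Λ L1 * 1 := by
              refine mul_le_mul_right (le_trans (ENNReal.tsum_le_tsum fun L3 => ?_) hU) _
              by_cases h : HT ht (L1 ++ L3) = n
              · rw [if_pos h, if_pos h]
                exact mul_le_of_le_one_right' (hg _)
              · rw [if_neg h, if_neg h, mul_zero]
          _ = _ := mul_one _
    · rw [if_neg hL1]; exact zero_le
  refine (ENNReal.tsum_le_tsum step).trans ?_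
  rw [ENNReal.tsum_add]
  exact add_le_add (hov A) le_rfl

end Crest.Agent.R154.Asm532
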