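import Crest.Agent.R154.Asm1_564

/-! Row 154, ROAD 801 (helper564): law of the first passage piece, grouping, smooth density. -/

set_option autoImplicit false
set_option linter.unusedSectionVars false

namespace Crest.Agent.R154.Asm564

open scoped ENNReal
open Crest.Agent.R154.B5A (LW HT U tail LW_nil LW_cons LW_append HT_nil HT_cons HT_append tsum_list)

open Classical

section dens

variable {B G : Type*} [AddCommGroup G]
variable (Λ : B → ℝ≥0∞) (h : B → ℕ) (z : B → G)

/-- law of (overshoot, displacement) of the first renewal at height at least `T` -/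
noncomputable def la (T o : ℕ) (x : G) : ℝ≥0∞ :=
  ∑' A : List B, if SP h T A ∧ HT h A = T + o ∧ Dp z A = x then LW Λ A else 0

/-- grouping -/
lemma group (T : ℕ) (φ : ℕ → G → ℝ≥0∞) :
    ∑' A, (if SP h T A then LW Λ A * φ (HT h A - T) (Dp z A) else 0)
      = ∑' o, ∑' x, la Λ h z T o x * φ o x := by
  simp only [la, ← ENNReal.tsum_mul_right]
  have : ∀ o, ∑' x : G, ∑' A : List B,
      (if SP h T A ∧ HT h A = T + o ∧ Dp z A = x then LW Λ A else 0) * φ o x
      = ∑' A : List B, ∑' x : G,
      (if SP h T A ∧ HT h A = T + o ∧ Dp z A = x then LW Λ A else 0) * φ o x :=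
    fun o => ENNReal.tsum_comm
  simp_rw [this]
  rw [ENNReal.tsum_comm]
  refine tsum_congr fun A => ?_
  by_cases hA : SP h T A
  · have hle := SP_le h A T hA
    rw [if_pos hA, tsum_eq_single (HT h A - T), tsum_eq_single (Dp z A)]
    · rw [if_pos ⟨hA, by omega, rfl⟩]
    · intro x hx
      rw [if_neg (fun hc => hx hc.2.2.symm), zero_mul]
    · intro o ho
      refine ENNReal.tsum_eq_zero.2 fun x => ?_
      rw [if_neg (fun hc => ho (by have := hc.2.1; omega)), zero_mul]
  · simp [hA]

lemma la_sum (h1 : ∀ b, 1 ≤ h b) (hΛ : ∑' b, Λ b = 1) (T : ℕ) :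
    ∑' o, ∑' x, la Λ h z T o x = 1 := by
  have := group Λ h z T (fun _ _ => 1)
  simp only [mul_one] at this
  rw [← this, tsum_SP Λ h h1 hΛ]

lemma la_sum1 (h1 : ∀ b, 1 ≤ h b) (hΛ : ∑' b, Λ b = 1) (T o : ℕ) :
    ∑' x, la Λ h z T o x ≤ 1 := by
  rw [← la_sum Λ h z h1 hΛ T]
  exact ENNReal.le_tsum (f := fun o => ∑' x, la Λ h z T o x) o

lemma la_far (h1 : ∀ b, 1 ≤ h b) (hU : ∀ n, U Λ h n ≤ 1) (T r : ℕ) :
    ∑' o, ∑' x, (if r < o then la Λ h z T o x else 0) ≤ ov Λ h r := by
  have := group Λ h z T (fun o _ => if r < o then 1 else 0)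
  simp only [mul_ite, mul_one, mul_zero] at this
  rw [← this]
  refine le_trans (le_of_eq ?_) (tsum_over Λ h h1 hU T r)
  refine tsum_congr fun A => ?_
  by_cases hA : SP h T A
  · have hle := SP_le h A T hA
    rw [if_pos hA]
    by_cases hr : r < HT h A - T
    · rw [if_pos hr, if_pos ⟨hA, by omega⟩]
    · rw [if_neg hr, if_neg (by rintro ⟨-, hc⟩; omega)]
  · rw [if_neg hA, if_neg (fun hc => hA hc.1)]

/-- continuation after an attempt -/
noncomputable def cont (T S o i : ℕ) (x y : G) : ℝ≥0∞ :=
  ∑' A : List B, if SP h (T - (S + i)) A ∧ S + i + HT h A = T + o ∧ y + Dp z A = x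
    then LW Λ A else 0

lemma cont_sum (h1 : ∀ b, 1 ≤ h b) (hΛ : ∑' b, Λ b = 1) (T S i : ℕ) (y : G) :
    ∑' o, ∑' x, cont Λ h z T S o i x y ≤ 1 := by
  unfold cont
  have : ∀ o, ∑' x : G, ∑' A : List B,
      (if SP h (T - (S + i)) A ∧ S + i + HT h A = T + o ∧ y + Dp z A = x then LW Λ A else 0)
      = ∑' A : List B, ∑' x : G,
      (if SP h (T - (S + i)) A ∧ S + i + HT h A = T + o ∧ y + Dp z A = x then LW Λ A else 0) :=
    fun o => ENNReal.tsum_comm
  simp_rw [this]
  rw [ENNReal.tsum_comm, ← tsum_SP Λ h h1 hΛ (T - (S + i))]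
  refine ENNReal.tsum_le_tsum fun A => ?_
  by_cases hA : SP h (T - (S + i)) A
  · have hle := SP_le h A _ hA
    rw [if_pos hA, tsum_eq_single (S + i + HT h A - T), tsum_eq_single (y + Dp z A)]
    · split_ifs <;> simp
    · intro x hx
      rw [if_neg (fun hc => hx hc.2.2.symm)]
    · intro o ho
      refine ENNReal.tsum_eq_zero.2 fun x => ?_
      rw [if_neg (fun hc => ho (by have := hc.2.1; omega))]
  · simp [hA]

lemma cont_eq (T S o i : ℕ) (x y : G) (hT : S + i ≤ T) :
    cont Λ h z T S o i x y = la Λ h z (T - (S + i)) o (x - y) := by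
  unfold cont la
  refine tsum_congr fun A => ?_
  refine if_congr ?_ rfl rfl
  constructor
  · rintro ⟨ha, hb, hc⟩
    exact ⟨ha, by omega, by rw [← hc]; abel⟩
  · rintro ⟨ha, hb, hc⟩
    exact ⟨ha, by omega, by rw [hc]; abel⟩

lemma la_rec (h1 : ∀ b, 1 ≤ h b) (T S o : ℕ) (x : G) (hST : S ≤ T) :
    la Λ h z T o x = ∑' i, ∑' y, la Λ h z S i y * cont Λ h z T S o i x y := by
  rw [← group Λ h z S (fun i y => cont Λ h z T S o i x y)]
  have e := tsum_markov h h1 S T
    (fun A => if HT h A = T + o ∧ Dp z A = x then LW Λ A else 0) hST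
  have e2 : la Λ h z T o x = ∑' A, (if SP h T A then
      (if HT h A = T + o ∧ Dp z A = x then LW Λ A else 0) else 0) := by
    unfold la
    refine tsum_congr fun A => ?_
    by_cases hA : SP h T A <;> simp [hA]
  rw [e2, e]
  refine tsum_congr fun P => ?_
  by_cases hP : SP h S P
  · have hle := SP_le h P S hP
    rw [if_pos hP]
    unfold cont
    rw [← ENNReal.tsum_mul_left]
    refine tsum_congr fun A => ?_
    have e3 : S + (HT h P - S) = HT h P := by omega
    rw [e3]
    by_cases hA : SP h (T - HT h P) A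
    · rw [if_pos ⟨hP, hA⟩, HT_append, Dp_append, LW_append]
      by_cases hc : HT h P + HT h A = T + o ∧ Dp z P + Dp z A = x
      · rw [if_pos hc, if_pos ⟨hA, hc.1, hc.2⟩]
      · rw [if_neg hc, if_neg (fun h' => hc h'.2), mul_zero]
    · rw [if_neg (fun h' => hA h'.2), if_neg (fun h' => hA h'.1), mul_zero]
  · rw [if_neg hP]
    exact ENNReal.tsum_eq_zero.2 fun A => by rw [if_neg (fun h' => hP h'.1)]

/-- mass above a level -/
noncomputable def exc (T : ℕ) (Γ : ℝ≥0∞) : ℝ≥0∞ := ∑' o, ∑' x, (la Λ h z T o x - Γ)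

/-- **smooth density** -/
lemma exc_le (h1 : ∀ b, 1 ≤ h b) (hΛ : ∑' b, Λ b = 1) (hU : ∀ n, U Λ h n ≤ 1)
    (S i0 : ℕ) (th q : ℝ≥0∞)
    (hq : ∑' i, ∑' x, (if i ≤ i0 ∧ th < la Λ h z S i x then la Λ h z S i x else 0) ≤ q)
    (hq1 : q ≤ 1) (N : ℕ) : ∀ T, N * (S + i0) ≤ T →
      exc Λ h z T ((i0 + 1) * th * N) ≤ q ^ N + N * ov Λ h i0 := by
  induction N with
  | zero =>
    intro T _
    unfold exc
    refine le_trans (le_of_eq ?_) (le_self_add)
    rw [pow_zero, ← la_sum Λ h z h1 hΛ T]
    refine tsum_congr fun o => tsum_congr fun x => ?_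
    simp
  | succ N ih =>
    intro T hT
    have hT' : N * (S + i0) + (S + i0) ≤ T := by linarith [hT, Nat.succ_mul N (S + i0)]
    have hST : S ≤ T := by omega
    set Γ : ℝ≥0∞ := (i0 + 1) * th * N with hΓ
    set v : ℕ → G → ℝ≥0∞ := fun o x => ∑' i, ∑' y, (if i0 < i then la Λ h z S i y else 0)
      * cont Λ h z T S o i x y with hv
    set v2 : ℕ → G → ℝ≥0∞ := fun o x => ∑' i, ∑' y,
      (if i ≤ i0 ∧ th < la Λ h z S i y then la Λ h z S i y else 0)
      * (la Λ h z (T - (S + i)) o (x - y) - Γ) with hv2
    have hvs : ∑' o, ∑' x, v o x ≤ ov Λ h i0 := by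
      have e : ∑' o, ∑' x, v o x = ∑' i, ∑' y, (if i0 < i then la Λ h z S i y else 0)
          * ∑' o, ∑' x, cont Λ h z T S o i x y := by
        simp only [hv]
        have e1 : ∀ o, ∑' x : G, ∑' i : ℕ, ∑' y : G, (if i0 < i then la Λ h z S i y else 0)
            * cont Λ h z T S o i x y = ∑' i : ℕ, ∑' y : G, ∑' x : G,
            (if i0 < i then la Λ h z S i y else 0) * cont Λ h z T S o i x y := by
          intro o
          rw [ENNReal.tsum_comm]
          exact tsum_congr fun i => ENNReal.tsum_comm
        simp_rw [e1]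
        rw [ENNReal.tsum_comm]
        refine tsum_congr fun i => ?_
        rw [ENNReal.tsum_comm]
        refine tsum_congr fun y => ?_
        rw [← ENNReal.tsum_mul_left]
        exact tsum_congr fun o => ENNReal.tsum_mul_left
      rw [e]
      refine le_trans ?_ (la_far Λ h z h1 hU S i0)
      refine ENNReal.tsum_le_tsum fun i => ENNReal.tsum_le_tsum fun y => ?_
      calc _ ≤ (if i0 < i then la Λ h z S i y else 0) * 1 :=
            mul_le_mul_right (cont_sum Λ h z h1 hΛ T S i y) _
        _ = _ := mul_one _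
    have hv2s : ∑' o, ∑' x, v2 o x ≤ q * (q ^ N + N * ov Λ h i0) := by
      have e : ∑' o, ∑' x, v2 o x = ∑' i, ∑' y,
          (if i ≤ i0 ∧ th < la Λ h z S i y then la Λ h z S i y else 0)
          * ∑' o, ∑' x, (la Λ h z (T - (S + i)) o (x - y) - Γ) := by
        simp only [hv2]
        have e1 : ∀ o, ∑' x : G, ∑' i : ℕ, ∑' y : G,
            (if i ≤ i0 ∧ th < la Λ h z S i y then la Λ h z S i y else 0)
            * (la Λ h z (T - (S + i)) o (x - y) - Γ) = ∑' i : ℕ, ∑' y : G, ∑' x : G,
            (if i ≤ i0 ∧ th < la Λ h z S i y then la Λ h z S i y else 0)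
            * (la Λ h z (T - (S + i)) o (x - y) - Γ) := by
          intro o
          rw [ENNReal.tsum_comm]
          exact tsum_congr fun i => ENNReal.tsum_comm
        simp_rw [e1]
        rw [ENNReal.tsum_comm]
        refine tsum_congr fun i => ?_
        rw [ENNReal.tsum_comm]
        refine tsum_congr fun y => ?_
        rw [← ENNReal.tsum_mul_left]
        exact tsum_congr fun o => ENNReal.tsum_mul_left
      rw [e]
      calc _ ≤ ∑' i, ∑' y, (if i ≤ i0 ∧ th < la Λ h z S i y then la Λ h z S i y else 0)
            * (q ^ N + N * ov Λ h i0) := by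
            refine ENNReal.tsum_le_tsum fun i => ENNReal.tsum_le_tsum fun y => ?_
            by_cases hc : i ≤ i0 ∧ th < la Λ h z S i y
            · refine mul_le_mul_right ?_ _
              have e3 : ∑' o, ∑' x, (la Λ h z (T - (S + i)) o (x - y) - Γ)
                  = exc Λ h z (T - (S + i)) Γ := by
                unfold exc
                refine tsum_congr fun o => ?_
                exact (Equiv.subRight y).tsum_eq (fun x => la Λ h z (T - (S + i)) o x - Γ)
              rw [e3]
              exact ih _ (by have := hc.1; omega)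
            · rw [if_neg hc, zero_mul, zero_mul]
        _ = (∑' i, ∑' y, (if i ≤ i0 ∧ th < la Λ h z S i y then la Λ h z S i y else 0))
            * (q ^ N + N * ov Λ h i0) := by
            rw [← ENNReal.tsum_mul_right]
            exact tsum_congr fun i => ENNReal.tsum_mul_right
        _ ≤ _ := mul_le_mul_left hq _
    have hpt : ∀ o x, la Λ h z T o x - (i0 + 1) * th * (N + 1 : ℕ) ≤ v o x + v2 o x := by
      intro o x
      rw [tsub_le_iff_right, la_rec Λ h z h1 T S o x hST]
      have e4 : ((i0 : ℝ≥0∞) + 1) * th * ((N + 1 : ℕ) : ℝ≥0∞) = (i0 + 1) * th + Γ := by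
        rw [hΓ]; push_cast; ring
      rw [e4]
      have hterm : ∀ i y, la Λ h z S i y * cont Λ h z T S o i x y
          ≤ (if i0 < i then la Λ h z S i y else 0) * cont Λ h z T S o i x y
            + (if i ≤ i0 ∧ th < la Λ h z S i y then la Λ h z S i y else 0)
              * (la Λ h z (T - (S + i)) o (x - y) - Γ)
            + ((if i ≤ i0 then th * la Λ h z (T - (S + i)) o (x - y) else 0)
            + (if i ≤ i0 ∧ th < la Λ h z S i y then la Λ h z S i y else 0) * Γ) := by
        intro i y
        by_cases hi : i0 < i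
        · rw [if_pos hi]
          exact le_trans le_self_add le_self_add
        · have hi' : i ≤ i0 := by omega
          rw [cont_eq Λ h z T S o i x y (by omega)]
          by_cases hl : th < la Λ h z S i y
          · rw [if_neg hi, zero_mul, zero_add, if_pos ⟨hi', hl⟩, if_pos hi']
            calc la Λ h z S i y * la Λ h z (T - (S + i)) o (x - y)
                ≤ la Λ h z S i y * (la Λ h z (T - (S + i)) o (x - y) - Γ + Γ) :=
                  mul_le_mul_right le_tsub_add _
              _ = la Λ h z S i y * (la Λ h z (T - (S + i)) o (x - y) - Γ)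
                  + la Λ h z S i y * Γ := mul_add _ _ _
              _ ≤ _ := add_le_add le_rfl le_add_self
          · rw [if_neg hi, if_neg (fun hc => hl hc.2), if_pos hi']
            simp only [zero_mul, zero_add, add_zero]
            exact mul_le_mul_left (not_lt.1 hl) _
      calc ∑' i, ∑' y, la Λ h z S i y * cont Λ h z T S o i x y
          ≤ ∑' i, ∑' y, ((if i0 < i then la Λ h z S i y else 0) * cont Λ h z T S o i x y
            + (if i ≤ i0 ∧ th < la Λ h z S i y then la Λ h z S i y else 0)
              * (la Λ h z (T - (S + i)) o (x - y) - Γ)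
            + ((if i ≤ i0 then th * la Λ h z (T - (S + i)) o (x - y) else 0)
            + (if i ≤ i0 ∧ th < la Λ h z S i y then la Λ h z S i y else 0) * Γ)) :=
            ENNReal.tsum_le_tsum fun i => ENNReal.tsum_le_tsum fun y => hterm i y
        _ = v o x + v2 o x + (∑' i, ∑' y, (if i ≤ i0 then
              th * la Λ h z (T - (S + i)) o (x - y) else 0)
            + ∑' i, ∑' y, (if i ≤ i0 ∧ th < la Λ h z S i y then la Λ h z S i y else 0) * Γ) := by
            simp only [ENNReal.tsum_add, hv, hv2]
        _ ≤ v o x + v2 o x + ((i0 + 1) * th + Γ) := by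
            refine add_le_add le_rfl (add_le_add ?_ ?_)
            · rw [tsum_eq_sum (s := Finset.range (i0 + 1))]
              · calc ∑ i ∈ Finset.range (i0 + 1), ∑' y, (if i ≤ i0 then
                      th * la Λ h z (T - (S + i)) o (x - y) else 0)
                    ≤ ∑ i ∈ Finset.range (i0 + 1), th := by
                      refine Finset.sum_le_sum fun i hi => ?_
                      rw [show (fun y => if i ≤ i0 then
                        th * la Λ h z (T - (S + i)) o (x - y) else 0)
                        = fun y => th * la Λ h z (T - (S + i)) o (x - y) from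
                        funext fun y => if_pos (by have := Finset.mem_range.1 hi; omega)]
                      rw [ENNReal.tsum_mul_left]
                      have e5 : ∑' y, la Λ h z (T - (S + i)) o (x - y)
                          = ∑' y, la Λ h z (T - (S + i)) o y :=
                        (Equiv.subLeft x).tsum_eq (fun y => la Λ h z (T - (S + i)) o y)
                      rw [e5]
                      calc th * _ ≤ th * 1 := mul_le_mul_right (la_sum1 Λ h z h1 hΛ _ _) _
                        _ = th := mul_one _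
                  _ = (i0 + 1) * th := by
                      rw [Finset.sum_const, Finset.card_range, nsmul_eq_mul]; push_cast; rfl
              · intro i hi
                have : ¬ i ≤ i0 := by
                  intro hc; exact hi (Finset.mem_range.2 (by omega))
                simp [this]
            · calc ∑' i, ∑' y, (if i ≤ i0 ∧ th < la Λ h z S i y then la Λ h z S i y else 0) * Γ
                  = (∑' i, ∑' y, (if i ≤ i0 ∧ th < la Λ h z S i y then la Λ h z S i y else 0))
                    * Γ := by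
                    rw [← ENNReal.tsum_mul_right]
                    exact tsum_congr fun i => ENNReal.tsum_mul_right
                _ ≤ 1 * Γ := mul_le_mul_left (hq.trans hq1) _
                _ = Γ := one_mul _
    calc exc Λ h z T ((i0 + 1) * th * (N + 1 : ℕ))
        ≤ ∑' o, ∑' x, (v o x + v2 o x) :=
          ENNReal.tsum_le_tsum fun o => ENNReal.tsum_le_tsum fun x => hpt o x
      _ = ∑' o, ∑' x, v o x + ∑' o, ∑' x, v2 o x := by simp only [ENNReal.tsum_add]
      _ ≤ ov Λ h i0 + q * (q ^ N + N * ov Λ h i0) := add_le_add hvs hv2s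
      _ ≤ q ^ (N + 1) + (N + 1 : ℕ) * ov Λ h i0 := by
          rw [mul_add, pow_succ]
          have : q * (N * ov Λ h i0) ≤ N * ov Λ h i0 := by
            calc q * (N * ov Λ h i0) ≤ 1 * (N * ov Λ h i0) := mul_le_mul_left hq1 _
              _ = _ := one_mul _
          calc ov Λ h i0 + (q * q ^ N + q * (N * ov Λ h i0))
              ≤ ov Λ h i0 + (q * q ^ N + N * ov Λ h i0) := by gcongr
            _ = q ^ N * q + (N + 1 : ℕ) * ov Λ h i0 := by push_cast; ring

end dens

end Crest.Agent.R154.Asm564
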