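import Crest.Agent.R154.Asm1_566

/-! Row 154, ROAD 801 (helper566): assembly, part 2 (one window). -/

set_option autoImplicit false

namespace Crest.Agent.R154.Asm566

open scoped ENNReal Classical
open Finset
open Crest.Agent.R154.B5A
open Crest.Agent.R154.FP178

section one

variable {B G : Type*} [AddCommGroup G] (Λ : B → ℝ≥0∞) (ht : B → ℕ) (z : B → G)

/-- overshoot bound -/
noncomputable def eta (i0 : ℕ) : ℝ≥0∞ := ∑' k, tail Λ ht (i0 + k)

/-- weight of a first passage with small overshoot -/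
noncomputable def wa (A i0 : ℕ) (L : List B) : ℝ≥0∞ :=
  if fp ht A L ∧ HT ht L ≤ A + i0 then LW Λ L else 0

lemma wa_sum (h1 : ∀ b, 1 ≤ ht b) (hΛ : ∑' b, Λ b ≤ 1) (A i0 : ℕ) : ∑' L, wa Λ ht A i0 L ≤ 1 := by
  refine le_trans (ENNReal.tsum_le_tsum fun L => ?_) (sum_FP Λ ht h1 hΛ A)
  unfold wa
  by_cases h : fp ht A L ∧ HT ht L ≤ A + i0
  · rw [if_pos h, if_pos h.1]
  · rw [if_neg h]; exact zero_le

lemma Usum (hU1 : ∀ n, U Λ ht n ≤ 1) (k n : ℕ) (c : ℝ≥0∞) :
    ∑' R, LW Λ R * (if k + HT ht R = n then c else 0) ≤ c := by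
  by_cases hk : k ≤ n
  · have e : ∀ R : List B, LW Λ R * (if k + HT ht R = n then c else 0)
        = (if HT ht R = n - k then LW Λ R else 0) * c := by
      intro R
      by_cases h : HT ht R = n - k
      · rw [if_pos h, if_pos (by omega)]
      · rw [if_neg h, if_neg (by omega), mul_zero, zero_mul]
    rw [tsum_congr e, ENNReal.tsum_mul_right]
    calc _ ≤ 1 * c := mul_le_mul_left (hU1 (n - k)) _
      _ = c := one_mul _
  · have e : ∀ R : List B, LW Λ R * (if k + HT ht R = n then c else 0) = 0 := by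
      intro R; rw [if_neg (by omega), mul_zero]
    rw [tsum_congr e]; simp

lemma dec1 (h1 : ∀ b, 1 ≤ ht b) (hΛ : ∑' b, Λ b ≤ 1) (hU1 : ∀ n, U Λ ht n ≤ 1)
    (n A T i0 : ℕ) (hn : A + i0 + T ≤ n) (F : List B → ℝ≥0∞) (hF1 : ∀ L, F L ≤ 1)
    (F' : List B → List B → ℝ≥0∞)
    (hF : ∀ T1 P R, A ≤ HT ht T1 → HT ht T1 ≤ A + i0 → T ≤ HT ht P →
      F (T1 ++ (P ++ R)) ≤ F' T1 P) :
    ∑' L, (if HT ht L = n then LW Λ L * F L else 0) ≤ 2 * eta Λ ht i0
      + ∑' T1, wa Λ ht A i0 T1 * ∑' P, wa Λ ht T i0 P * F' T1 P := by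
  set f : List B → ℝ≥0∞ := fun L => if HT ht L = n then F L else 0 with hf
  have e0 : ∑' L, (if HT ht L = n then LW Λ L * F L else 0)
      = ∑' L, (if A ≤ HT ht L then LW Λ L * f L else 0) := by
    refine tsum_congr fun L => ?_
    by_cases h : HT ht L = n
    · rw [if_pos h, if_pos (by omega)]; simp [hf, h]
    · simp [hf, h]
  rw [e0, split Λ ht h1 A f]
  have hover : ∀ a, ∑' L, (if fp ht a L ∧ a + i0 < HT ht L then LW Λ L else 0) ≤ eta Λ ht i0 :=
    fun a => overshoot Λ ht h1 hU1 i0 a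
  -- inner sums
  have hin1 : ∀ T1 : List B, ∑' R, LW Λ R * f (T1 ++ R) ≤ 1 := by
    intro T1
    refine le_trans (ENNReal.tsum_le_tsum fun R => ?_) (Usum Λ ht hU1 (HT ht T1) n 1)
    refine mul_le_mul_right ?_ _
    simp only [hf, HT_append]
    split_ifs
    · exact hF1 _
    · exact le_rfl
  have hin2 : ∀ T1 : List B, fp ht A T1 → HT ht T1 ≤ A + i0 →
      ∑' R, LW Λ R * f (T1 ++ R) ≤ eta Λ ht i0 + ∑' P, wa Λ ht T i0 P * F' T1 P := by
    intro T1 hfp hle
    have hA := le_HT_of_fp ht hfp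
    have e1 : ∑' R, LW Λ R * f (T1 ++ R)
        = ∑' R, (if T ≤ HT ht R then LW Λ R * f (T1 ++ R) else 0) := by
      refine tsum_congr fun R => ?_
      by_cases h : T ≤ HT ht R
      · rw [if_pos h]
      · rw [if_neg h]
        simp only [hf, HT_append]
        rw [if_neg (by omega), mul_zero]
    rw [e1, split Λ ht h1 T (fun R => f (T1 ++ R))]
    calc _ ≤ ∑' P, ((if fp ht T P ∧ T + i0 < HT ht P then LW Λ P else 0)
          + wa Λ ht T i0 P * F' T1 P) := by
          refine ENNReal.tsum_le_tsum fun P => ?_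
          by_cases hP : fp ht T P
          · have hT := le_HT_of_fp ht hP
            rw [if_pos hP]
            by_cases hP2 : HT ht P ≤ T + i0
            · rw [if_neg (by omega), zero_add, wa, if_pos ⟨hP, hP2⟩]
              refine mul_le_mul_right ?_ _
              refine le_trans (ENNReal.tsum_le_tsum fun R => ?_)
                (Usum Λ ht hU1 (HT ht T1 + HT ht P) n (F' T1 P))
              refine mul_le_mul_right ?_ _
              simp only [hf, HT_append]
              by_cases h : HT ht T1 + (HT ht P + HT ht R) = n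
              · rw [if_pos h, if_pos (by omega)]
                exact hF T1 P R hA hle hT
              · rw [if_neg h]; exact zero_le
            · rw [if_pos ⟨hP, by omega⟩]
              refine le_trans ?_ le_self_add
              calc LW Λ P * ∑' R, LW Λ R * f (T1 ++ (P ++ R)) ≤ LW Λ P * 1 := by
                    refine mul_le_mul_right ?_ _
                    have := hin1 (T1 ++ P)
                    simp only [List.append_assoc] at this
                    exact this
                _ = LW Λ P := mul_one _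
          · rw [if_neg hP]; exact zero_le
      _ = (∑' P, (if fp ht T P ∧ T + i0 < HT ht P then LW Λ P else 0))
          + ∑' P, wa Λ ht T i0 P * F' T1 P := ENNReal.tsum_add
      _ ≤ _ := add_le_add (hover T) le_rfl
  calc _ ≤ ∑' T1, ((if fp ht A T1 ∧ A + i0 < HT ht T1 then LW Λ T1 else 0)
        + wa Λ ht A i0 T1 * (eta Λ ht i0 + ∑' P, wa Λ ht T i0 P * F' T1 P)) := by
        refine ENNReal.tsum_le_tsum fun T1 => ?_
        by_cases hT : fp ht A T1
        · rw [if_pos hT]
          by_cases hT2 : HT ht T1 ≤ A + i0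
          · rw [if_neg (by omega), zero_add, wa, if_pos ⟨hT, hT2⟩]
            exact mul_le_mul_right (hin2 T1 hT hT2) _
          · rw [if_pos ⟨hT, by omega⟩]
            refine le_trans ?_ le_self_add
            calc LW Λ T1 * ∑' R, LW Λ R * f (T1 ++ R) ≤ LW Λ T1 * 1 :=
                  mul_le_mul_right (hin1 T1) _
              _ = _ := mul_one _
        · rw [if_neg hT]; exact zero_le
    _ = (∑' T1, (if fp ht A T1 ∧ A + i0 < HT ht T1 then LW Λ T1 else 0))
        + ((∑' T1, wa Λ ht A i0 T1) * eta Λ ht i0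
        + ∑' T1, wa Λ ht A i0 T1 * ∑' P, wa Λ ht T i0 P * F' T1 P) := by
        rw [ENNReal.tsum_add]
        congr 1
        rw [← ENNReal.tsum_mul_right, ← ENNReal.tsum_add]
        exact tsum_congr fun T1 => mul_add _ _ _
    _ ≤ eta Λ ht i0 + (1 * eta Λ ht i0
        + ∑' T1, wa Λ ht A i0 T1 * ∑' P, wa Λ ht T i0 P * F' T1 P) := by
        gcongr
        · exact hover A
        · exact wa_sum Λ ht h1 hΛ A i0
    _ = _ := by rw [one_mul, two_mul, add_assoc]

lemma grp_wa (A i0 : ℕ) (φ : ℕ → G → ℝ≥0∞) :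
    ∑' L, wa Λ ht A i0 L * φ (HT ht L - A) (Dp z L)
      = ∑ i ∈ range (i0 + 1), ∑' x, Wf Λ ht z A i x * φ i x := by
  rw [grp (fun L => wa Λ ht A i0 L * φ (HT ht L - A) (Dp z L)) (fun L => HT ht L - A) (Dp z)]
  rw [tsum_eq_sum (s := range (i0 + 1))]
  · refine Finset.sum_congr rfl fun i hi => tsum_congr fun x => ?_
    have hi' : i ≤ i0 := by have := Finset.mem_range.1 hi; omega
    rw [Wf, ← ENNReal.tsum_mul_right]
    refine tsum_congr fun L => ?_
    by_cases hf : fp ht A L
    · have hle := le_HT_of_fp ht hf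
      by_cases h2 : HT ht L = A + i ∧ Dp z L = x
      · rw [if_pos (show HT ht L - A = i ∧ Dp z L = x from ⟨by omega, h2.2⟩), if_pos ⟨hf, h2⟩,
          wa, if_pos ⟨hf, by omega⟩, h2.2, show HT ht L - A = i by omega]
      · rw [if_neg (show ¬ (HT ht L - A = i ∧ Dp z L = x) from fun h3 => h2 ⟨by omega, h3.2⟩),
          if_neg (fun h3 => h2 h3.2), zero_mul]
    · rw [if_neg (show ¬ (fp ht A L ∧ HT ht L = A + i ∧ Dp z L = x) from fun h => hf h.1)]
      simp [wa, hf]
  · intro i hi
    rw [Finset.mem_range, not_lt] at hi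
    have : ∀ x, ∑' L, (if HT ht L - A = i ∧ Dp z L = x then
        wa Λ ht A i0 L * φ (HT ht L - A) (Dp z L) else 0) = 0 := by
      intro x
      rw [ENNReal.tsum_eq_zero]
      intro L
      by_cases h : HT ht L - A = i ∧ Dp z L = x
      · rw [if_pos h, wa, if_neg (by omega), zero_mul]
      · rw [if_neg h]
    simp [this]

/-- exact mass -/
lemma fp_sum_one (h1 : ∀ b, 1 ≤ ht b) (hΛ : ∑' b, Λ b = 1) (a : ℕ) :
    ∑' L, (if fp ht a L then LW Λ L else 0) = 1 := by
  induction a using Nat.strong_induction_on with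
  | _ a ih =>
    rcases Nat.eq_zero_or_pos a with rfl | ha
    · have := sum_fp_zero Λ ht (fun _ => 1)
      simpa only [mul_one] using this
    · have := sum_fp_step Λ ht a ha (fun _ => 1)
      simp only [mul_one] at this
      rw [this, ← hΛ]
      refine tsum_congr fun b => ?_
      rw [ih (a - ht b) (by have := h1 b; omega), mul_one]

/-- **quantile of the piece law, smooth / rough decomposition of the top part**: all that is used of
one walker. -/
lemma walker (h1 : ∀ b, 1 ≤ ht b) (hΛ : ∑' b, Λ b = 1) (hU1 : ∀ n, U Λ ht n ≤ 1) (T i0 J : ℕ)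
    (u : ℝ≥0∞) (hu0 : u ≠ 0) (hu1 : u ≤ 1) :
    ∃ th : ℝ≥0∞, th ≠ 0 ∧
      (∑' P, (if Wf Λ ht z T (HT ht P - T) (Dp z P) < th then wa Λ ht T i0 P else 0) ≤ u) ∧
      (∃ E : ℕ → Finset G, ∀ j, (∀ x, th ≤ Wf Λ ht z T j x → x ∈ E j) ∧
        th * (E j).card ≤ 1) ∧
      ∀ A, J * (T + i0) ≤ A → ∃ Ag Bb : ℕ → G → ℝ≥0∞,
        (∀ i x, Wf Λ ht z A i x ≤ Ag i x + Bb i x) ∧ (∀ i x, Ag i x ≤ (i0 + 1) * th * J) ∧
        ∑' i, ∑' x, Bb i x ≤ (1 - u) ^ J + J * eta Λ ht i0 := by
  have hsum : ∀ a, ∑' i, ∑' x, Wf Λ ht z a i x = 1 := fun a => by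
    rw [Wf_sum, fp_sum_one Λ ht h1 hΛ]
  set p : ℕ × G → ℝ≥0∞ := fun v => Wf Λ ht z T v.1 v.2 with hp
  have hp1 : ∑' v, p v = 1 := by
    rw [ENNReal.tsum_prod (f := fun i x => Wf Λ ht z T i x)]; exact hsum T
  obtain ⟨th, hth0, hth1, hlt, hle⟩ := Dens903.quantile p hp1 hu0 hu1
  refine ⟨th, hth0, ?_, ?_, ?_⟩
  · refine le_trans ?_ hlt
    rw [ENNReal.tsum_prod (f := fun i x => if Wf Λ ht z T i x < th then Wf Λ ht z T i x else 0)]
    have e := grp_wa Λ ht z T i0 (fun i x => if Wf Λ ht z T i x < th then 1 else 0)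
    have e2 : ∑' P, (if Wf Λ ht z T (HT ht P - T) (Dp z P) < th then wa Λ ht T i0 P else 0)
        = ∑' L, wa Λ ht T i0 L * (if Wf Λ ht z T (HT ht L - T) (Dp z L) < th then 1 else 0) := by
      refine tsum_congr fun P => ?_
      split_ifs <;> simp
    rw [e2, e]
    calc _ ≤ ∑' i, ∑' x, Wf Λ ht z T i x * (if Wf Λ ht z T i x < th then 1 else 0) :=
          ENNReal.sum_le_tsum _
      _ = _ := by
          refine tsum_congr fun i => tsum_congr fun x => ?_
          split_ifs <;> simp
  · have hfin : ∀ j, {x | th ≤ Wf Λ ht z T j x}.Finite := by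
      intro j
      refine ENNReal.finite_const_le_of_tsum_ne_top (a := fun x => Wf Λ ht z T j x) ?_ hth0
      exact ne_top_of_le_ne_top ENNReal.one_ne_top
        ((ENNReal.le_tsum (f := fun i => ∑' x, Wf Λ ht z T i x) j).trans (hsum T).le)
    refine ⟨fun j => (hfin j).toFinset, fun j => ⟨fun x hx => ?_, ?_⟩⟩
    · rw [Set.Finite.mem_toFinset]; exact hx
    · calc th * ((hfin j).toFinset.card : ℝ≥0∞) = ∑ x ∈ (hfin j).toFinset, th := by
            rw [Finset.sum_const, nsmul_eq_mul, mul_comm]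
        _ ≤ ∑ x ∈ (hfin j).toFinset, Wf Λ ht z T j x := by
            refine Finset.sum_le_sum fun x hx => ?_
            rw [Set.Finite.mem_toFinset] at hx
            exact hx
        _ ≤ ∑' x, Wf Λ ht z T j x := ENNReal.sum_le_tsum _
        _ ≤ 1 := (ENNReal.le_tsum (f := fun i => ∑' x, Wf Λ ht z T i x) j).trans (hsum T).le
  · intro A hA
    have hNG : ∑' i, ∑' x, (if i ≤ i0 ∧ th < Wf Λ ht z T i x then Wf Λ ht z T i x else 0)
        ≤ 1 - u := by
      refine ENNReal.le_sub_of_add_le_right (ne_top_of_le_ne_top ENNReal.one_ne_top hu1) ?_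
      calc _ ≤ (∑' v, (if th < p v then p v else 0)) + ∑' v, (if p v ≤ th then p v else 0) := by
            refine add_le_add ?_ hle
            rw [ENNReal.tsum_prod (f := fun i x => if th < Wf Λ ht z T i x then
              Wf Λ ht z T i x else 0)]
            refine ENNReal.tsum_le_tsum fun i => ENNReal.tsum_le_tsum fun x => ?_
            by_cases h : th < Wf Λ ht z T i x
            · by_cases h2 : i ≤ i0 <;> simp [h, h2]
            · simp [h]
        _ = 1 := by
            rw [← ENNReal.tsum_add, ← hp1]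
            refine tsum_congr fun v => ?_
            by_cases h : th < p v
            · simp [h, not_le.2 h]
            · simp [h, not_lt.1 h]
    have hFar : ∑' i, ∑' x, (if i0 < i then Wf Λ ht z T i x else 0) ≤ eta Λ ht i0 := by
      refine le_trans (le_of_eq ?_) (overshoot Λ ht h1 hU1 i0 T)
      rw [grp (fun L => if fp ht T L ∧ T + i0 < HT ht L then LW Λ L else 0)
        (fun L => HT ht L - T) (Dp z)]
      refine tsum_congr fun i => tsum_congr fun x => ?_
      by_cases hi : i0 < i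
      · rw [if_pos hi, Wf]
        refine tsum_congr fun L => ?_
        by_cases hf : fp ht T L
        · have hle := le_HT_of_fp ht hf
          by_cases h2 : HT ht L = T + i ∧ Dp z L = x
          · rw [if_pos ⟨hf, h2⟩, if_pos ⟨by omega, h2.2⟩, if_pos ⟨hf, by omega⟩]
          · rw [if_neg (fun h3 => h2 h3.2), if_neg (fun h3 => h2 ⟨by omega, h3.2⟩)]
        · simp [hf]
      · rw [if_neg hi]
        symm
        rw [ENNReal.tsum_eq_zero]
        intro L
        by_cases h : HT ht L - T = i ∧ Dp z L = x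
        · rw [if_pos h, if_neg (by omega)]
        · rw [if_neg h]
    obtain ⟨Ag, Bb, hab, hA2, hB⟩ := dens (fun a i x => Wf Λ ht z a i x)
      (fun i x => Wf Λ ht z T i x) T i0 th (1 - u) (eta Λ ht i0)
      (fun h hh => Wf_rec Λ ht z h1 hΛ.le T i0 h hh) (fun h => (hsum h).le) hNG hFar J A hA
    have hgeo : ∑ j ∈ range J, (1 - u) ^ j ≤ (J : ℝ≥0∞) := by
      calc _ ≤ ∑ j ∈ range J, (1 : ℝ≥0∞) := Finset.sum_le_sum fun j _ =>
            pow_le_one₀ zero_le tsub_le_self
        _ = J := by simp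
    refine ⟨Ag, Bb, hab, fun i x => (hA2 i x).trans (mul_le_mul_right hgeo _), hB.trans ?_⟩
    rw [mul_comm (eta Λ ht i0)]
    gcongr

end one

end Crest.Agent.R154.Asm566
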