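import Crest.Agent.R154.Asm_66

/-! Row 154 (helper66), ROAD 801: assembly, part 2 (relative position of the tops). -/

set_option autoImplicit false

namespace Crest.Agent.R154.Asm66

open scoped ENNReal
open Crest.Agent.R154.B5A Crest.Agent.R154.FP178

section geo
variable {B G : Type*} [AddCommGroup G] (ht : B → ℕ) (z : B → G) (st : B → Set (G × ℕ))

/-- displacement of a list -/
def Dp (L : List B) : G := (L.map z).sum

/-- (position, depth) pairs read by a list placed at `(x, a)` -/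
def TT : List B → G → ℕ → Set (G × ℕ)
  | [], _, _ => ∅
  | b :: L, x, a => {p | ∃ q ∈ st b, p = (x + q.1, a + q.2)} ∪ TT L (x + z b) (a + ht b)

lemma TT_append (L L' : List B) (x : G) (a : ℕ) :
    TT ht z st (L ++ L') x a = TT ht z st L x a ∪ TT ht z st L' (x + Dp z L) (a + HT ht L) := by
  induction L generalizing x a with
  | nil => simp [TT, Dp, HT_nil]
  | cons b L ih =>
    simp only [List.cons_append, TT]
    rw [ih, Set.union_assoc, HT_cons]
    simp only [Dp, List.map_cons, List.sum_cons, add_assoc]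

lemma TT_depth (hst : ∀ b q, q ∈ st b → 1 ≤ q.2 ∧ q.2 ≤ ht b) (L : List B) (x : G) (a : ℕ)
    (p : G × ℕ) (hp : p ∈ TT ht z st L x a) : a < p.2 ∧ p.2 ≤ a + HT ht L := by
  induction L generalizing x a with
  | nil => simp [TT] at hp
  | cons b L ih =>
    rw [HT_cons]
    rcases hp with ⟨q, hq, rfl⟩ | hp
    · have := hst b q hq
      simp only
      omega
    · have := ih _ _ hp
      omega

lemma TT_shift (L : List B) (x : G) (a : ℕ) (c : G) (p : G × ℕ) :
    (p.1 + c, p.2) ∈ TT ht z st L (x + c) a ↔ p ∈ TT ht z st L x a := by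
  induction L generalizing x a with
  | nil => simp [TT]
  | cons b L ih =>
    simp only [TT, Set.mem_union, Set.mem_ofPred_eq]
    refine or_congr ?_ ?_
    · refine exists_congr fun q => and_congr_right fun _ => ?_
      constructor
      · intro h
        rw [Prod.mk.injEq] at h
        refine Prod.ext ?_ h.2
        have := h.1
        simp only
        rw [add_right_comm] at this
        exact add_right_cancel this
      · intro h
        rw [h]
        simp only [Prod.mk.injEq, and_true]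
        abel
    · rw [show x + c + z b = x + z b + c by abel]
      exact ih _ _

/-- contact, all common points at depths in `[lo, hi]` -/
def Con (lo hi : ℕ) (S T : Set (G × ℕ)) : Prop :=
  (∃ p, p ∈ S ∧ p ∈ T) ∧ ∀ p, p ∈ S → p ∈ T → lo ≤ p.2 ∧ p.2 ≤ hi

end geo

section pair
variable {BX BY G : Type*} [AddCommGroup G]
  (ΛX : BX → ℝ≥0∞) (hX : BX → ℕ) (zX : BX → G) (sX : BX → Set (G × ℕ))
  (ΛY : BY → ℝ≥0∞) (hY : BY → ℕ) (zY : BY → G) (sY : BY → Set (G × ℕ))

lemma con_shift (lo hi : ℕ) (L : List BX) (M : List BY) (x y : G) (a a' : ℕ)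
    (h : Con lo hi (TT hX zX sX L x a) (TT hY zY sY M y a')) :
    Con lo hi (TT hX zX sX L 0 a) (TT hY zY sY M (y - x) a') := by
  have e1 : ∀ p : G × ℕ, p ∈ TT hX zX sX L 0 a ↔ (p.1 + x, p.2) ∈ TT hX zX sX L x a := by
    intro p
    have := TT_shift hX zX sX L 0 a x p
    rw [zero_add] at this
    exact this.symm
  have e2 : ∀ p : G × ℕ, p ∈ TT hY zY sY M (y - x) a' ↔ (p.1 + x, p.2) ∈ TT hY zY sY M y a' := by
    intro p
    have := TT_shift hY zY sY M (y - x) a' x p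
    rw [sub_add_cancel] at this
    exact this.symm
  obtain ⟨⟨p, h1, h2⟩, h3⟩ := h
  refine ⟨⟨(p.1 - x, p.2), ?_, ?_⟩, ?_⟩
  · rw [e1]; simpa using h1
  · rw [e2]; simpa using h2
  · intro q hq hq'
    rw [e1] at hq
    rw [e2] at hq'
    exact h3 (q.1 + x, q.2) hq hq'

open Classical in
/-- pieces with given heights and a contact -/
noncomputable def Phi (h h' lo hi α α' : ℕ) (PX : List BX → Prop) (PY : List BY → Prop)
    (x : G) : ℝ≥0∞ :=
  ∑' L, ∑' M, (if HT hX L = h ∧ PX L ∧ HT hY M = h' ∧ PY M ∧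
    Con lo hi (TT hX zX sX L 0 α) (TT hY zY sY M x α') then LW ΛX L * LW ΛY M else 0)

open Classical in
/-- law of the relative position of the tops -/
noncomputable def Mu (a a' α α' : ℕ) (SX : List BX → Prop) (SY : List BY → Prop) (w x : G) :
    ℝ≥0∞ :=
  ∑' L1, ∑' M1, (if (fp hX a L1 ∧ HT hX L1 = α ∧ SX L1) ∧ (fp hY a' M1 ∧ HT hY M1 = α' ∧ SY M1) ∧
    w + Dp zY M1 - Dp zX L1 = x then LW ΛX L1 * LW ΛY M1 else 0)

open Classical in
lemma mu_total (hUX : ∀ n, U ΛX hX n ≤ 1) (hUY : ∀ n, U ΛY hY n ≤ 1) (a a' α α' : ℕ)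
    (SX : List BX → Prop) (SY : List BY → Prop) (w : G) :
    ∑' x, Mu ΛX hX zX ΛY hY zY a a' α α' SX SY w x ≤ 1 := by
  have e : ∑' x, Mu ΛX hX zX ΛY hY zY a a' α α' SX SY w x
      = ∑' L1, ∑' M1, (if (fp hX a L1 ∧ HT hX L1 = α ∧ SX L1) ∧
        (fp hY a' M1 ∧ HT hY M1 = α' ∧ SY M1) then LW ΛX L1 * LW ΛY M1 else 0) := by
    simp only [Mu]
    rw [ENNReal.tsum_comm]
    refine tsum_congr fun L1 => ?_
    rw [ENNReal.tsum_comm]
    refine tsum_congr fun M1 => ?_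
    rw [tsum_eq_single (w + Dp zY M1 - Dp zX L1)]
    · simp
    · intro x hx
      rw [if_neg]
      rintro ⟨_, _, h⟩
      exact hx h.symm
  rw [e]
  calc _ ≤ ∑' L1, ∑' M1, (if HT hX L1 = α then LW ΛX L1 else 0) *
        (if HT hY M1 = α' then LW ΛY M1 else 0) := by
        refine ENNReal.tsum_le_tsum fun L1 => ENNReal.tsum_le_tsum fun M1 => ?_
        split_ifs with h1 h2 h3 h3
        · exact le_rfl
        · exact absurd h1.2.2.1 h3
        · exact absurd h1.1.2.1 h2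
        · exact absurd h1.1.2.1 h2
        all_goals exact zero_le
    _ = (∑' L1, (if HT hX L1 = α then LW ΛX L1 else 0)) *
        ∑' M1, (if HT hY M1 = α' then LW ΛY M1 else 0) := by
        rw [← ENNReal.tsum_mul_right]
        exact tsum_congr fun L1 => ENNReal.tsum_mul_left
    _ ≤ 1 * 1 := mul_le_mul' (hUX α) (hUY α')
    _ = 1 := one_mul _

open Classical in
lemma mu_leX (hUY : ∀ n, U ΛY hY n ≤ 1) (a a' α α' : ℕ)
    (SX : List BX → Prop) (SY : List BY → Prop) (w : G) (MM : ℝ≥0∞)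
    (hM : ∀ y, ∑' L1, (if fp hX a L1 ∧ HT hX L1 = α ∧ Dp zX L1 = y ∧ SX L1 then LW ΛX L1 else 0)
      ≤ MM) (x : G) : Mu ΛX hX zX ΛY hY zY a a' α α' SX SY w x ≤ MM := by
  simp only [Mu]
  rw [ENNReal.tsum_comm]
  calc _ ≤ ∑' M1, (if HT hY M1 = α' then LW ΛY M1 else 0) * MM := by
        refine ENNReal.tsum_le_tsum fun M1 => ?_
        by_cases h : HT hY M1 = α'
        · rw [if_pos h]
          calc _ ≤ ∑' L1, LW ΛY M1 * (if fp hX a L1 ∧ HT hX L1 = α ∧
                Dp zX L1 = w + Dp zY M1 - x ∧ SX L1 then LW ΛX L1 else 0) := by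
                refine ENNReal.tsum_le_tsum fun L1 => ?_
                split_ifs with h1 h2
                · exact (mul_comm _ _).le
                · exact absurd ⟨h1.1.1, h1.1.2.1, by rw [← h1.2.2]; abel, h1.1.2.2⟩ h2
                · exact zero_le
                · exact zero_le
            _ = LW ΛY M1 * ∑' L1, (if fp hX a L1 ∧ HT hX L1 = α ∧
                Dp zX L1 = w + Dp zY M1 - x ∧ SX L1 then LW ΛX L1 else 0) :=
                ENNReal.tsum_mul_left
            _ ≤ _ := mul_le_mul_right (hM _) _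
        · rw [if_neg h, zero_mul]
          refine le_of_eq ?_
          refine ENNReal.tsum_eq_zero.2 fun L1 => ?_
          rw [if_neg]
          rintro ⟨_, h2, _⟩
          exact h h2.2.1
    _ = (∑' M1, (if HT hY M1 = α' then LW ΛY M1 else 0)) * MM := ENNReal.tsum_mul_right
    _ ≤ 1 * MM := mul_le_mul_left (hUY α') _
    _ = MM := one_mul _

open Classical in
lemma mu_leY (hUX : ∀ n, U ΛX hX n ≤ 1) (a a' α α' : ℕ)
    (SX : List BX → Prop) (SY : List BY → Prop) (w : G) (MM : ℝ≥0∞)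
    (hM : ∀ y, ∑' M1, (if fp hY a' M1 ∧ HT hY M1 = α' ∧ Dp zY M1 = y ∧ SY M1 then LW ΛY M1 else 0)
      ≤ MM) (x : G) : Mu ΛX hX zX ΛY hY zY a a' α α' SX SY w x ≤ MM := by
  simp only [Mu]
  calc _ ≤ ∑' L1, (if HT hX L1 = α then LW ΛX L1 else 0) * MM := by
        refine ENNReal.tsum_le_tsum fun L1 => ?_
        by_cases h : HT hX L1 = α
        · rw [if_pos h]
          calc _ ≤ ∑' M1, LW ΛX L1 * (if fp hY a' M1 ∧ HT hY M1 = α' ∧
                Dp zY M1 = x - w + Dp zX L1 ∧ SY M1 then LW ΛY M1 else 0) := by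
                refine ENNReal.tsum_le_tsum fun M1 => ?_
                split_ifs with h1 h2
                · exact le_rfl
                · exact absurd ⟨h1.2.1.1, h1.2.1.2.1, by rw [← h1.2.2]; abel, h1.2.1.2.2⟩ h2
                · exact zero_le
                · exact zero_le
            _ = LW ΛX L1 * ∑' M1, (if fp hY a' M1 ∧ HT hY M1 = α' ∧
                Dp zY M1 = x - w + Dp zX L1 ∧ SY M1 then LW ΛY M1 else 0) :=
                ENNReal.tsum_mul_left
            _ ≤ _ := mul_le_mul_right (hM _) _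
        · rw [if_neg h, zero_mul]
          refine le_of_eq ?_
          refine ENNReal.tsum_eq_zero.2 fun M1 => ?_
          rw [if_neg]
          rintro ⟨h2, _⟩
          exact h h2.2.1
    _ = (∑' L1, (if HT hX L1 = α then LW ΛX L1 else 0)) * MM := ENNReal.tsum_mul_right
    _ ≤ 1 * MM := mul_le_mul_left (hUX α) _
    _ = MM := one_mul _

open Classical in
/-- one value of the four heights -/
theorem cell (i0 a b a' b' lo hi α α' h h' : ℕ)
    (SX : List BX → Prop) (SY : List BY → Prop) (PX : List BX → Prop) (PY : List BY → Prop) (w : G) :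
    ∑' L1, ∑' L2, w2 ΛX hX a i0 b L1 L2 * ∑' M1, ∑' M2, w2 ΛY hY a' i0 b' M1 M2 *
      (if (HT hX L1 = α ∧ SX L1) ∧ (HT hX L2 = h ∧ PX L2) ∧ (HT hY M1 = α' ∧ SY M1) ∧
        (HT hY M2 = h' ∧ PY M2) ∧ Con lo hi (TT hX zX sX L2 (Dp zX L1) (HT hX L1))
          (TT hY zY sY M2 (w + Dp zY M1) (HT hY M1)) then 1 else 0)
      ≤ ∑' x, Mu ΛX hX zX ΛY hY zY a a' α α' SX SY w x *
        Phi ΛX hX zX sX ΛY hY zY sY h h' lo hi α α' PX PY x := by
  have e : ∑' x, Mu ΛX hX zX ΛY hY zY a a' α α' SX SY w x *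
        Phi ΛX hX zX sX ΛY hY zY sY h h' lo hi α α' PX PY x
      = ∑' L1, ∑' M1, (if (fp hX a L1 ∧ HT hX L1 = α ∧ SX L1) ∧
        (fp hY a' M1 ∧ HT hY M1 = α' ∧ SY M1) then LW ΛX L1 * LW ΛY M1 else 0) *
        Phi ΛX hX zX sX ΛY hY zY sY h h' lo hi α α' PX PY (w + Dp zY M1 - Dp zX L1) := by
    simp only [Mu]
    simp_rw [← ENNReal.tsum_mul_right]
    rw [ENNReal.tsum_comm]
    refine tsum_congr fun L1 => ?_
    rw [ENNReal.tsum_comm]
    refine tsum_congr fun M1 => ?_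
    rw [tsum_eq_single (w + Dp zY M1 - Dp zX L1)]
    · simp
    · intro x hx
      rw [if_neg, zero_mul]
      rintro ⟨_, _, h⟩
      exact hx h.symm
  rw [e]
  refine ENNReal.tsum_le_tsum fun L1 => ?_
  have e3 : ∑' L2, w2 ΛX hX a i0 b L1 L2 * ∑' M1, ∑' M2, w2 ΛY hY a' i0 b' M1 M2 *
      (if (HT hX L1 = α ∧ SX L1) ∧ (HT hX L2 = h ∧ PX L2) ∧ (HT hY M1 = α' ∧ SY M1) ∧
        (HT hY M2 = h' ∧ PY M2) ∧ Con lo hi (TT hX zX sX L2 (Dp zX L1) (HT hX L1))
          (TT hY zY sY M2 (w + Dp zY M1) (HT hY M1)) then 1 else 0)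
      = ∑' M1, ∑' L2, w2 ΛX hX a i0 b L1 L2 * ∑' M2, w2 ΛY hY a' i0 b' M1 M2 *
      (if (HT hX L1 = α ∧ SX L1) ∧ (HT hX L2 = h ∧ PX L2) ∧ (HT hY M1 = α' ∧ SY M1) ∧
        (HT hY M2 = h' ∧ PY M2) ∧ Con lo hi (TT hX zX sX L2 (Dp zX L1) (HT hX L1))
          (TT hY zY sY M2 (w + Dp zY M1) (HT hY M1)) then 1 else 0) := by
    rw [ENNReal.tsum_comm]
    exact tsum_congr fun L2 => ENNReal.tsum_mul_left.symm
  rw [e3]
  refine ENNReal.tsum_le_tsum fun M1 => ?_
  rw [Phi, ← ENNReal.tsum_mul_left]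
  refine ENNReal.tsum_le_tsum fun L2 => ?_
  rw [← ENNReal.tsum_mul_left, ← ENNReal.tsum_mul_left]
  refine ENNReal.tsum_le_tsum fun M2 => ?_
  by_cases hc : (HT hX L1 = α ∧ SX L1) ∧ (HT hX L2 = h ∧ PX L2) ∧ (HT hY M1 = α' ∧ SY M1) ∧
        (HT hY M2 = h' ∧ PY M2) ∧ Con lo hi (TT hX zX sX L2 (Dp zX L1) (HT hX L1))
          (TT hY zY sY M2 (w + Dp zY M1) (HT hY M1))
  swap
  · rw [if_neg hc]; simp
  rw [if_pos hc, mul_one]
  obtain ⟨⟨hc1, hc2⟩, ⟨hc3, hc4⟩, ⟨hc5, hc6⟩, ⟨hc7, hc8⟩, hc9⟩ := hc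
  rw [w2, w2]
  by_cases hw : (fp hX a L1 ∧ HT hX L1 ≤ a + i0) ∧ fp hX b L2
  swap
  · rw [if_neg hw, zero_mul]; exact zero_le
  by_cases hw' : (fp hY a' M1 ∧ HT hY M1 ≤ a' + i0) ∧ fp hY b' M2
  swap
  · rw [if_neg hw', mul_zero]; exact zero_le
  rw [if_pos hw, if_pos hw', if_pos ⟨⟨hw.1.1, hc1, hc2⟩, hw'.1.1, hc5, hc6⟩, if_pos]
  · exact (by ring : LW ΛX L1 * LW ΛX L2 * (LW ΛY M1 * LW ΛY M2)
      = LW ΛX L1 * LW ΛY M1 * (LW ΛX L2 * LW ΛY M2)).le
  · refine ⟨hc3, hc4, hc7, hc8, ?_⟩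
    rw [hc1, hc5] at hc9
    exact con_shift hX zX sX hY zY sY lo hi L2 M2 _ _ α α' hc9

end pair

end Crest.Agent.R154.Asm66
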