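import Crest.Agent.R154.Asm1_668

/-! Row 154, ROAD 801: one window of the abstract assembly (helper668). -/

set_option autoImplicit false

namespace Crest.Agent.R154.Asm668

open scoped ENNReal Classical
open Crest.Agent.R154.B5A (LW HT LW_nil LW_cons LW_append HT_nil HT_cons HT_append tsum_list U tail)

section TX

variable {B G : Type*} [AddCommGroup G] (ht : B → ℕ) (z : B → G) (st : B → Set (G × ℕ))

/-- sites (position, depth) of a list placed at `(x, a)` -/
def TX : List B → G → ℕ → Set (G × ℕ)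
  | [], _, _ => ∅
  | b :: L, x, a => {p | ∃ q ∈ st b, p = (x + q.1, a + q.2)} ∪ TX L (x + z b) (a + ht b)

lemma TX_append (L L' : List B) (x : G) (a : ℕ) :
    TX ht z st (L ++ L') x a = TX ht z st L x a ∪ TX ht z st L' (x + Dp z L) (a + HT ht L) := by
  induction L generalizing x a with
  | nil => simp [TX, Dp, HT]
  | cons b L ih =>
    simp only [List.cons_append, TX, ih, HT_cons]
    rw [Set.union_assoc, add_assoc, add_assoc]
    congr 3

lemma TX_shift (L : List B) (x y w : G) (a k : ℕ) :
    (w, k) ∈ TX ht z st L (x + y) a ↔ (w - y, k) ∈ TX ht z st L x a := by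
  induction L generalizing x a with
  | nil => simp [TX]
  | cons b L ih =>
    simp only [TX, Set.mem_union, Set.mem_setOf_eq]
    rw [show x + y + z b = x + z b + y by abel, ih]
    refine or_congr ?_ Iff.rfl
    refine exists_congr fun q => and_congr_right fun _ => ?_
    simp only [Prod.mk.injEq]
    refine and_congr ?_ Iff.rfl
    constructor
    · rintro rfl; abel
    · intro h
      rw [sub_eq_iff_eq_add] at h
      rw [h]; abel

lemma TX_range (hs : ∀ b, ∀ q ∈ st b, 1 ≤ q.2 ∧ q.2 ≤ ht b) (L : List B) (x w : G) (a k : ℕ)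
    (h : (w, k) ∈ TX ht z st L x a) : a < k ∧ k ≤ a + HT ht L := by
  induction L generalizing x a with
  | nil => simp [TX] at h
  | cons b L ih =>
    rw [HT_cons]
    rcases h with ⟨q, hq, h⟩ | h
    · have := hs b q hq
      simp only [Prod.mk.injEq] at h
      omega
    · have := ih _ _ h
      omega

end TX

/-- one-window split of a list -/
structure Spl {B : Type*} (ht : B → ℕ) (T S i0 : ℕ) (L A P R : List B) : Prop where
  eq : L = A ++ (P ++ R)
  fa : FP ht T A
  fp : FP ht S P
  ha : HT ht A ≤ T + i0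
  hp : HT ht P ≤ S + i0

section single

variable {B : Type*} (Λ : B → ℝ≥0∞) (ht : B → ℕ)

/-- overshoot in a window -/
lemma over_win (hΛ : ∑' b, Λ b = 1) (h1 : ∀ b, 1 ≤ ht b) (T S i0 n : ℕ) (hn : T + i0 + S ≤ n) :
    ∑' L, I (HT ht L = n ∧ ¬ ∃ A P R, Spl ht T S i0 L A P R) * LW Λ L ≤ 2 * eo Λ ht i0 := by
  have key : ∀ L, I (HT ht L = n ∧ ¬ ∃ A P R, Spl ht T S i0 L A P R) * LW Λ L ≤
      I (HT ht L = n ∧ ∃ A R, L = A ++ R ∧ FP ht T A ∧ T + i0 < HT ht A) * LW Λ L
      + I (HT ht L = n ∧ ∃ A P R, L = A ++ (P ++ R) ∧ FP ht T A ∧ FP ht S P ∧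
        S + i0 < HT ht P) * LW Λ L := by
    intro L
    by_cases hQ : HT ht L = n ∧ ¬ ∃ A P R, Spl ht T S i0 L A P R
    · obtain ⟨hL, hQ⟩ := hQ
      obtain ⟨A, R', h2, h3⟩ := exists_FP ht L T (by omega)
      by_cases h4 : T + i0 < HT ht A
      · rw [I_true (p := HT ht L = n ∧ ∃ A R, L = A ++ R ∧ FP ht T A ∧ T + i0 < HT ht A)
          ⟨hL, A, R', h2, h3, h4⟩]
        refine le_add_right ?_
        exact mul_le_mul_left (I_le_one _) _
      · have h5 : S ≤ HT ht R' := by
          rw [h2, HT_append] at hL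
          omega
        obtain ⟨P, R, h6, h7⟩ := exists_FP ht R' S h5
        by_cases h8 : S + i0 < HT ht P
        · rw [I_true (p := HT ht L = n ∧ ∃ A P R, L = A ++ (P ++ R) ∧ FP ht T A ∧ FP ht S P ∧
            S + i0 < HT ht P) ⟨hL, A, P, R, by rw [h2, h6], h3, h7, h8⟩]
          refine le_add_left ?_
          exact mul_le_mul_left (I_le_one _) _
        · exact absurd ⟨A, P, R, ⟨by rw [h2, h6], h3, h7, by omega, by omega⟩⟩ hQ
    · rw [I_false hQ, zero_mul]; exact zero_le
  calc _ ≤ ∑' L, (I (HT ht L = n ∧ ∃ A R, L = A ++ R ∧ FP ht T A ∧ T + i0 < HT ht A) * LW Λ L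
      + I (HT ht L = n ∧ ∃ A P R, L = A ++ (P ++ R) ∧ FP ht T A ∧ FP ht S P ∧
        S + i0 < HT ht P) * LW Λ L) := ENNReal.tsum_le_tsum key
    _ ≤ eo Λ ht i0 + eo Λ ht i0 := by
      rw [ENNReal.tsum_add]
      refine add_le_add ?_ ?_
      · calc _ ≤ ∑' p : List B × List B, (I (FP ht T p.1) * LW Λ p.1 * I (T + i0 < HT ht p.1))
              * (I (HT ht p.2 = n - HT ht p.1) * LW Λ p.2) := by
              refine tsum_cover _ _ (fun p : List B × List B => p.1 ++ p.2) ?_
              intro L hL
              by_cases hQ : HT ht L = n ∧ ∃ A R, L = A ++ R ∧ FP ht T A ∧ T + i0 < HT ht A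
              · obtain ⟨h2, A, R, h3, h4, h5⟩ := hQ
                refine ⟨(A, R), h3.symm, ?_⟩
                rw [I_true h4, I_true h5, I_true (show HT ht R = n - HT ht A by
                  rw [h3, HT_append] at h2; omega)]
                refine (I_mul_le _ _).trans (le_of_eq ?_)
                rw [h3, LW_append]; ring
              · exact absurd (by rw [I_false hQ, zero_mul]) hL
          _ = ∑' A, (I (FP ht T A) * LW Λ A * I (T + i0 < HT ht A)) *
              ∑' R, I (HT ht R = n - HT ht A) * LW Λ R := by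
              rw [ENNReal.tsum_prod']
              dsimp only
              exact tsum_congr fun A => ENNReal.tsum_mul_left
          _ ≤ ∑' A, (I (FP ht T A) * LW Λ A * I (T + i0 < HT ht A)) * 1 :=
              ENNReal.tsum_le_tsum fun A => mul_le_mul_right (U_le_one Λ ht hΛ h1 _) _
          _ ≤ _ := by simp only [mul_one]; exact over_le Λ ht hΛ h1 i0 T
      · calc _ ≤ ∑' p : List B × (List B × List B), (I (FP ht T p.1) * LW Λ p.1 * 1) *
              ((I (FP ht S p.2.1) * LW Λ p.2.1 * I (S + i0 < HT ht p.2.1))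
              * (I (HT ht p.2.2 = n - HT ht p.1 - HT ht p.2.1) * LW Λ p.2.2)) := by
              refine tsum_cover _ _ (fun p : List B × (List B × List B) => p.1 ++ (p.2.1 ++ p.2.2)) ?_
              intro L hL
              by_cases hQ : HT ht L = n ∧ ∃ A P R, L = A ++ (P ++ R) ∧ FP ht T A ∧ FP ht S P ∧
                  S + i0 < HT ht P
              · obtain ⟨h2, A, P, R, h3, h4, h5, h6⟩ := hQ
                refine ⟨(A, P, R), h3.symm, ?_⟩
                simp only
                rw [I_true h4, I_true h5, I_true h6, I_true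
                  (show HT ht R = n - HT ht A - HT ht P by
                  rw [h3, HT_append, HT_append] at h2; omega)]
                refine (I_mul_le _ _).trans (le_of_eq ?_)
                rw [h3, LW_append, LW_append]; ring
              · exact absurd (by rw [I_false hQ, zero_mul]) hL
          _ = ∑' A, (I (FP ht T A) * LW Λ A * 1) * ∑' P,
              (I (FP ht S P) * LW Λ P * I (S + i0 < HT ht P)) *
              ∑' R, I (HT ht R = n - HT ht A - HT ht P) * LW Λ R := by
              rw [ENNReal.tsum_prod']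
              refine tsum_congr fun A => ?_
              dsimp only
              rw [ENNReal.tsum_mul_left, ENNReal.tsum_prod']
              dsimp only
              congr 1
              exact tsum_congr fun P => ENNReal.tsum_mul_left
          _ ≤ ∑' A, (I (FP ht T A) * LW Λ A * 1) * eo Λ ht i0 := by
              refine ENNReal.tsum_le_tsum fun A => mul_le_mul_right ?_ _
              calc _ ≤ ∑' P, (I (FP ht S P) * LW Λ P * I (S + i0 < HT ht P)) * 1 :=
                  ENNReal.tsum_le_tsum fun P => mul_le_mul_right (U_le_one Λ ht hΛ h1 _) _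
                _ ≤ _ := by simp only [mul_one]; exact over_le Λ ht hΛ h1 i0 S
          _ = eo Λ ht i0 := by
              rw [ENNReal.tsum_mul_right]
              have := ES_one Λ ht hΛ h1 T
              rw [ES] at this
              rw [this, one_mul]
    _ = _ := by ring

/-- a property of the piece -/
lemma piece_win (hΛ : ∑' b, Λ b = 1) (h1 : ∀ b, 1 ≤ ht b) (T S n : ℕ) (N : List B → Prop)
    (u : ℝ≥0∞) (hu : ES Λ ht S (fun P => I (N P)) ≤ u) :
    ∑' L, I (HT ht L = n ∧ ∃ A P R, L = A ++ (P ++ R) ∧ FP ht T A ∧ FP ht S P ∧ N P) * LW Λ L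
      ≤ u := by
  calc _ ≤ ∑' p : List B × (List B × List B), (I (FP ht T p.1) * LW Λ p.1 * 1) *
          ((I (FP ht S p.2.1) * LW Λ p.2.1 * I (N p.2.1))
          * (I (HT ht p.2.2 = n - HT ht p.1 - HT ht p.2.1) * LW Λ p.2.2)) := by
          refine tsum_cover _ _ (fun p : List B × (List B × List B) => p.1 ++ (p.2.1 ++ p.2.2)) ?_
          intro L hL
          by_cases hQ : HT ht L = n ∧ ∃ A P R, L = A ++ (P ++ R) ∧ FP ht T A ∧ FP ht S P ∧ N P
          · obtain ⟨h2, A, P, R, h3, h4, h5, h6⟩ := hQ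
            refine ⟨(A, P, R), h3.symm, ?_⟩
            simp only
            rw [I_true h4, I_true h5, I_true h6, I_true
              (show HT ht R = n - HT ht A - HT ht P by
              rw [h3, HT_append, HT_append] at h2; omega)]
            refine (I_mul_le _ _).trans (le_of_eq ?_)
            rw [h3, LW_append, LW_append]; ring
          · exact absurd (by rw [I_false hQ, zero_mul]) hL
      _ = ∑' A, (I (FP ht T A) * LW Λ A * 1) * ∑' P,
          (I (FP ht S P) * LW Λ P * I (N P)) *
          ∑' R, I (HT ht R = n - HT ht A - HT ht P) * LW Λ R := by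
          rw [ENNReal.tsum_prod']
          refine tsum_congr fun A => ?_
          dsimp only
          rw [ENNReal.tsum_mul_left, ENNReal.tsum_prod']
          dsimp only
          congr 1
          exact tsum_congr fun P => ENNReal.tsum_mul_left
      _ ≤ ∑' A, (I (FP ht T A) * LW Λ A * 1) * u := by
          refine ENNReal.tsum_le_tsum fun A => mul_le_mul_right ?_ _
          calc _ ≤ ∑' P, (I (FP ht S P) * LW Λ P * I (N P)) * 1 :=
              ENNReal.tsum_le_tsum fun P => mul_le_mul_right (U_le_one Λ ht hΛ h1 _) _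
            _ ≤ _ := by simp only [mul_one]; exact hu
      _ = u := by
          rw [ENNReal.tsum_mul_right]
          have := ES_one Λ ht hΛ h1 T
          rw [ES] at this
          rw [this, one_mul]

end single

/-! ### the pair: system 1 is local and smooth -/

section pair

variable {B1 B2 G : Type*} [AddCommGroup G]
  (Λ1 : B1 → ℝ≥0∞) (h1 : B1 → ℕ) (z1 : B1 → G) (s1 : B1 → Set (G × ℕ))
  (Λ2 : B2 → ℝ≥0∞) (h2 : B2 → ℕ) (z2 : B2 → G) (s2 : B2 → Set (G × ℕ))

/-- contact at depth `k` -/
def Ct (P : List B1) (x : G) (a : ℕ) (P' : List B2) (x' : G) (a' k : ℕ) : Prop :=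
  ∃ y, (y, k) ∈ TX h1 z1 s1 P x a ∧ (y, k) ∈ TX h2 z2 s2 P' x' a'

lemma Ct_shift (P : List B1) (x y : G) (a : ℕ) (P' : List B2) (x' : G) (a' k : ℕ) :
    Ct h1 z1 s1 h2 z2 s2 P (x + y) a P' (x' + y) a' k ↔
      Ct h1 z1 s1 h2 z2 s2 P x a P' x' a' k := by
  unfold Ct
  simp only [TX_shift]
  constructor
  · rintro ⟨w, h⟩; exact ⟨w - y, h⟩
  · rintro ⟨w, h⟩; exact ⟨w + y, by simpa using h⟩

lemma Ct_symm (P : List B1) (x : G) (a : ℕ) (P' : List B2) (x' : G) (a' k : ℕ) :
    Ct h1 z1 s1 h2 z2 s2 P x a P' x' a' k ↔ Ct h2 z2 s2 h1 z1 s1 P' x' a' P x a k := by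
  unfold Ct
  exact exists_congr fun _ => and_comm

/-- the displacement with the height -/
def vv {B : Type*} (ht : B → ℕ) (z : B → G) (b : B) : ℤ × G := ((ht b : ℤ), z b)

lemma Dp_vv {B : Type*} (ht : B → ℕ) (z : B → G) (L : List B) :
    Dp (vv ht z) L = ((HT ht L : ℤ), Dp z L) := by
  induction L with
  | nil => simp [Dp, HT]; rfl
  | cons b L ih =>
    have : Dp (vv ht z) (b :: L) = vv ht z b + Dp (vv ht z) L := by simp [Dp]
    rw [this, ih, HT_cons]
    simp [vv, Dp]

/-- the window contact event of the pieces `P` (at `(0,a)`) and `P'` (at `(x,a')`) -/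
def Wv (cond : ℕ → Prop) (P : List B1) (a : ℕ) (P' : List B2) (x : G) (a' : ℕ) : Prop :=
  (∃ k, Ct h1 z1 s1 h2 z2 s2 P 0 a P' x a' k) ∧ ∀ k, Ct h1 z1 s1 h2 z2 s2 P 0 a P' x a' k → cond k

theorem loc_win (hΛ1 : ∑' b, Λ1 b = 1) (h11 : ∀ b, 1 ≤ h1 b) (hΛ2 : ∑' b, Λ2 b = 1)
    (h21 : ∀ b, 1 ≤ h2 b) (T S i0 J n : ℕ) (th q ε : ℝ≥0∞) (hth : th ≠ 0) (hq1 : q ≤ 1)
    (hq : ∑' x, I (th < FL Λ1 h1 (vv h1 z1) S x) * FL Λ1 h1 (vv h1 z1) S x ≤ q)
    (hε : eo Λ1 h1 i0 ≤ ε) (hJ : J * (S + i0) ≤ T) (cond : ℕ → Prop) (η : ℝ≥0∞)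
    (hLoc : ∀ a a' h h' : ℕ, T ≤ a → a ≤ T + i0 → T ≤ a' → a' ≤ T + i0 → S ≤ h → h ≤ S + i0 →
      S ≤ h' → h' ≤ S + i0 → ∀ (E : Finset G) (μ : G → ℝ≥0∞) (M : ℝ≥0∞), ∑' x, μ x ≤ 1 →
      (∀ x, μ x ≤ M) → M * E.card ≤ J * (i0 + 1 : ℕ) →
      ∑' x, μ x * ∑' L : List B1, ∑' L' : List B2,
        I (HT h1 L = h ∧ Dp z1 L ∈ E ∧ HT h2 L' = h' ∧ Wv h1 z1 s1 h2 z2 s2 cond L a L' x a') *
          (LW Λ1 L * LW Λ2 L') ≤ η) (w : G) :
    ∑' L1 : List B1, ∑' L2 : List B2,
      I (HT h1 L1 = n ∧ HT h2 L2 = n ∧ ∃ A P R A' P' R', Spl h1 T S i0 L1 A P R ∧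
        Spl h2 T S i0 L2 A' P' R' ∧ th ≤ FL Λ1 h1 (vv h1 z1) S (Dp (vv h1 z1) P) ∧
        Wv h1 z1 s1 h2 z2 s2 cond P (HT h1 A) P' (w + Dp z2 A' - Dp z1 A) (HT h2 A')) *
        (LW Λ1 L1 * LW Λ2 L2) ≤ (q ^ J + J * ε) + ((i0 + 1 : ℕ) : ℝ≥0∞) ^ 4 * η := by
  set p := FL Λ1 h1 (vv h1 z1) S with hp
  set hg : ℤ × G → ℕ := fun x => x.1.toNat with hhg
  have hhg' : ∀ L, hg (Dp (vv h1 z1) L) = HT h1 L := by
    intro L; rw [Dp_vv]; simp [hhg]
  obtain ⟨g, b, hgb, hgM, hbs⟩ := dens Λ1 h1 (vv h1 z1) hg hΛ1 h11 hhg' S i0 th q ε hq1 hq hε J T hJ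
  set F := FL Λ1 h1 (vv h1 z1) T with hF
  set g' : ℤ × G → ℝ≥0∞ := fun x => min (g x) (F x) with hg'
  have hFg : ∀ x, F x ≤ g' x + b x := by
    intro x
    simp only [hg']
    rcases le_total (g x) (F x) with h | h
    · rw [min_eq_left h]; exact hgb x
    · rw [min_eq_right h]; exact le_add_right le_rfl
  have hg'1 : ∑' x, g' x ≤ 1 := by
    rw [← FL_sum Λ1 h1 (vv h1 z1) hΛ1 h11 T]
    exact ENNReal.tsum_le_tsum fun x => min_le_right _ _
  have hES1 : ∀ T, ∑' A, I (FP h1 T A) * LW Λ1 A = 1 := fun T => by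
    have := ES_one Λ1 h1 hΛ1 h11 T
    rw [ES] at this; simpa using this
  have hES2 : ∀ T, ∑' A, I (FP h2 T A) * LW Λ2 A = 1 := fun T => by
    have := ES_one Λ2 h2 hΛ2 h21 T
    rw [ES] at this; simpa using this
  -- the weight of the pieces
  set Ψ : List B2 → ℤ × G → ℝ≥0∞ := fun A' y => ∑' P : List B1, ∑' P' : List B2,
    I (FP h1 S P ∧ HT h1 P ≤ S + i0 ∧ FP h2 S P' ∧ HT h2 P' ≤ S + i0 ∧
      th ≤ p (Dp (vv h1 z1) P) ∧
      Wv h1 z1 s1 h2 z2 s2 cond P (hg y) P' (w + Dp z2 A' - y.2) (HT h2 A')) *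
      (LW Λ1 P * LW Λ2 P') with hΨ
  have hΨ1 : ∀ A' y, Ψ A' y ≤ 1 := by
    intro A' y
    calc Ψ A' y ≤ ∑' P : List B1, ∑' P' : List B2,
          (I (FP h1 S P) * LW Λ1 P) * (I (FP h2 S P') * LW Λ2 P') := by
          refine ENNReal.tsum_le_tsum fun P => ENNReal.tsum_le_tsum fun P' => ?_
          rw [show (I (FP h1 S P) * LW Λ1 P) * (I (FP h2 S P') * LW Λ2 P') =
            I (FP h1 S P ∧ FP h2 S P') * (LW Λ1 P * LW Λ2 P') by rw [I_and]; ring]
          exact mul_le_mul_left (I_mono fun h => ⟨h.1, h.2.2.1⟩) _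
      _ = 1 := by
          simp_rw [ENNReal.tsum_mul_left, hES2, mul_one, hES1]
  -- step 1: cover by pieces
  have step1 : ∑' L1 : List B1, ∑' L2 : List B2,
      I (HT h1 L1 = n ∧ HT h2 L2 = n ∧ ∃ A P R A' P' R', Spl h1 T S i0 L1 A P R ∧
        Spl h2 T S i0 L2 A' P' R' ∧ th ≤ p (Dp (vv h1 z1) P) ∧
        Wv h1 z1 s1 h2 z2 s2 cond P (HT h1 A) P' (w + Dp z2 A' - Dp z1 A) (HT h2 A')) *
        (LW Λ1 L1 * LW Λ2 L2) ≤
      ∑' A' : List B2, (I (FP h2 T A' ∧ HT h2 A' ≤ T + i0) * LW Λ2 A') *
        ∑' A : List B1, (I (FP h1 T A) * LW Λ1 A) * (I (HT h1 A ≤ T + i0) *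
          Ψ A' (Dp (vv h1 z1) A)) := by
    rw [← ENNReal.tsum_prod (f := fun (L1 : List B1) (L2 : List B2) =>
      I (HT h1 L1 = n ∧ HT h2 L2 = n ∧ ∃ A P R A' P' R', Spl h1 T S i0 L1 A P R ∧
        Spl h2 T S i0 L2 A' P' R' ∧ th ≤ p (Dp (vv h1 z1) P) ∧
        Wv h1 z1 s1 h2 z2 s2 cond P (HT h1 A) P' (w + Dp z2 A' - Dp z1 A) (HT h2 A')) *
        (LW Λ1 L1 * LW Λ2 L2))]
    calc _ ≤ ∑' t : (List B2 × List B1) × ((List B1 × List B2) × (List B1 × List B2)),
          (I (FP h2 T t.1.1 ∧ HT h2 t.1.1 ≤ T + i0) * LW Λ2 t.1.1) *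
          ((I (FP h1 T t.1.2) * LW Λ1 t.1.2) * (I (HT h1 t.1.2 ≤ T + i0) *
          ((I (FP h1 S t.2.1.1 ∧ HT h1 t.2.1.1 ≤ S + i0 ∧ FP h2 S t.2.1.2 ∧
            HT h2 t.2.1.2 ≤ S + i0 ∧ th ≤ p (Dp (vv h1 z1) t.2.1.1) ∧
            Wv h1 z1 s1 h2 z2 s2 cond t.2.1.1 (hg (Dp (vv h1 z1) t.1.2)) t.2.1.2
              (w + Dp z2 t.1.1 - (Dp (vv h1 z1) t.1.2).2) (HT h2 t.1.1)) *
            (LW Λ1 t.2.1.1 * LW Λ2 t.2.1.2)) *
          ((I (HT h1 t.2.2.1 = n - HT h1 t.1.2 - HT h1 t.2.1.1) * LW Λ1 t.2.2.1) *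
           (I (HT h2 t.2.2.2 = n - HT h2 t.1.1 - HT h2 t.2.1.2) * LW Λ2 t.2.2.2))))) := by
          refine tsum_cover _ _ (fun t : (List B2 × List B1) ×
            ((List B1 × List B2) × (List B1 × List B2)) =>
            (t.1.2 ++ (t.2.1.1 ++ t.2.2.1), t.1.1 ++ (t.2.1.2 ++ t.2.2.2))) ?_
          rintro ⟨L1, L2⟩ hL
          by_cases hQ : HT h1 L1 = n ∧ HT h2 L2 = n ∧ ∃ A P R A' P' R',
              Spl h1 T S i0 L1 A P R ∧
              Spl h2 T S i0 L2 A' P' R' ∧ th ≤ p (Dp (vv h1 z1) P) ∧
              Wv h1 z1 s1 h2 z2 s2 cond P (HT h1 A) P' (w + Dp z2 A' - Dp z1 A) (HT h2 A')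
          · obtain ⟨e1, e2, A, P, R, A', P', R', q1, q2, q3, q4⟩ := hQ
            refine ⟨((A', A), ((P, P'), (R, R'))), ?_, ?_⟩
            · simp only; rw [q1.eq, q2.eq]
            · simp only
              rw [I_true (⟨q2.fa, q2.ha⟩ : FP h2 T A' ∧ HT h2 A' ≤ T + i0), I_true q1.fa,
                I_true q1.ha, I_true (show HT h1 R = n - HT h1 A - HT h1 P by
                  have := q1.eq; rw [this, HT_append, HT_append] at e1; omega),
                I_true (show HT h2 R' = n - HT h2 A' - HT h2 P' by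
                  have := q2.eq; rw [this, HT_append, HT_append] at e2; omega),
                I_true (p := FP h1 S P ∧ HT h1 P ≤ S + i0 ∧ FP h2 S P' ∧
                  HT h2 P' ≤ S + i0 ∧ th ≤ p (Dp (vv h1 z1) P) ∧
                  Wv h1 z1 s1 h2 z2 s2 cond P (hg (Dp (vv h1 z1) A)) P'
                  (w + Dp z2 A' - (Dp (vv h1 z1) A).2) (HT h2 A'))
                  ⟨q1.fp, q1.hp, q2.fp, q2.hp, q3, by rw [hhg', Dp_vv]; exact q4⟩]
              refine (I_mul_le _ _).trans (le_of_eq ?_)
              rw [q1.eq, q2.eq, LW_append, LW_append, LW_append, LW_append]; ring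
          · exact absurd (by simp only; rw [I_false hQ, zero_mul]) hL
      _ ≤ _ := by
          rw [ENNReal.tsum_prod', ENNReal.tsum_prod']
          refine ENNReal.tsum_le_tsum fun A' => ?_
          rw [← ENNReal.tsum_mul_left]
          refine ENNReal.tsum_le_tsum fun A => ?_
          simp only
          rw [ENNReal.tsum_mul_left]
          refine mul_le_mul_right ?_ _
          rw [ENNReal.tsum_mul_left]
          refine mul_le_mul_right ?_ _
          rw [ENNReal.tsum_mul_left]
          refine mul_le_mul_right ?_ _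
          rw [ENNReal.tsum_prod', hΨ, ENNReal.tsum_prod']
          refine ENNReal.tsum_le_tsum fun P => ENNReal.tsum_le_tsum fun P' => ?_
          dsimp only
          rw [ENNReal.tsum_mul_left, ENNReal.tsum_prod']
          dsimp only
          refine le_trans (mul_le_mul_right (c := 1) ?_ _) (mul_one _).le
          simp_rw [ENNReal.tsum_mul_left]
          rw [ENNReal.tsum_mul_right]
          exact (mul_le_mul' (U_le_one Λ1 h1 hΛ1 h11 _) (U_le_one Λ2 h2 hΛ2 h21 _)).trans
            (mul_one _).le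
  refine step1.trans ?_
  -- step 2: the law of the first passage point
  have step2 : ∀ A' : List B2, ∑' A : List B1, (I (FP h1 T A) * LW Λ1 A) *
      (I (HT h1 A ≤ T + i0) * Ψ A' (Dp (vv h1 z1) A)) ≤
      ∑' y, b y + ∑' y, g' y * (I (hg y ≤ T + i0) * Ψ A' y) := by
    intro A'
    have e := FL_push Λ1 h1 (vv h1 z1) T (fun y => I (hg y ≤ T + i0) * Ψ A' y)
    simp only [hhg', ES] at e
    rw [← e, ← ENNReal.tsum_add]
    refine ENNReal.tsum_le_tsum fun y => ?_
    calc F y * (I (hg y ≤ T + i0) * Ψ A' y)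
        ≤ (g' y + b y) * (I (hg y ≤ T + i0) * Ψ A' y) := mul_le_mul_left (hFg y) _
      _ = b y * (I (hg y ≤ T + i0) * Ψ A' y) + g' y * (I (hg y ≤ T + i0) * Ψ A' y) := by ring
      _ ≤ b y * 1 + g' y * (I (hg y ≤ T + i0) * Ψ A' y) := by
          refine add_le_add (mul_le_mul_right ?_ _) le_rfl
          exact (I_mul_le _ _).trans (hΨ1 _ _)
      _ = _ := by rw [mul_one]
  calc ∑' A' : List B2, (I (FP h2 T A' ∧ HT h2 A' ≤ T + i0) * LW Λ2 A') *
        ∑' A : List B1, (I (FP h1 T A) * LW Λ1 A) * (I (HT h1 A ≤ T + i0) *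
          Ψ A' (Dp (vv h1 z1) A))
      ≤ ∑' A' : List B2, (I (FP h2 T A' ∧ HT h2 A' ≤ T + i0) * LW Λ2 A') *
        (∑' y, b y + ∑' y, g' y * (I (hg y ≤ T + i0) * Ψ A' y)) :=
        ENNReal.tsum_le_tsum fun A' => mul_le_mul_right (step2 A') _
    _ = (∑' A' : List B2, (I (FP h2 T A' ∧ HT h2 A' ≤ T + i0) * LW Λ2 A')) * ∑' y, b y
        + ∑' A' : List B2, (I (FP h2 T A' ∧ HT h2 A' ≤ T + i0) * LW Λ2 A') *
          ∑' y, g' y * (I (hg y ≤ T + i0) * Ψ A' y) := by
        simp_rw [mul_add]
        rw [ENNReal.tsum_add, ENNReal.tsum_mul_right]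
    _ ≤ (q ^ J + J * ε) + ((i0 + 1 : ℕ) : ℝ≥0∞) ^ 4 * η := by
        refine add_le_add ?_ ?_
        · calc _ ≤ 1 * (q ^ J + J * ε) := by
                refine mul_le_mul' ?_ hbs
                rw [← hES2 T]
                exact ENNReal.tsum_le_tsum fun A' => mul_le_mul_left (I_mono fun h => h.1) _
            _ = _ := one_mul _
        · -- the finite sets
          have hfin : ∀ h : ℕ, {ζ : G | th ≤ p ((h : ℤ), ζ)}.Finite := by
            intro h
            have h3 : {y : ℤ × G | th ≤ p y}.Finite := by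
              refine Dens903.finite_level p ?_ hth
              rw [hp, FL_sum Λ1 h1 (vv h1 z1) hΛ1 h11]; exact ENNReal.one_ne_top
            refine (h3.image Prod.snd).subset ?_
            intro ζ hζ
            exact ⟨((h : ℤ), ζ), hζ, rfl⟩
          set E : ℕ → Finset G := fun h => (hfin h).toFinset with hE
          have hEc : ∀ h, (E h).card * th ≤ 1 := by
            intro h
            calc ((E h).card : ℝ≥0∞) * th = ∑ ζ ∈ E h, th := by simp
              _ ≤ ∑ ζ ∈ E h, p ((h : ℤ), ζ) := by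
                refine Finset.sum_le_sum fun ζ hζ => ?_
                simpa [hE] using hζ
              _ ≤ ∑' ζ, p ((h : ℤ), ζ) := ENNReal.sum_le_tsum _
              _ ≤ ∑' y, p y := ENNReal.tsum_comp_le_tsum_of_injective
                  (f := fun ζ : G => (((h : ℤ), ζ) : ℤ × G))
                  (fun a b hab => (Prod.mk.inj hab).2) p
              _ = 1 := by rw [hp, FL_sum Λ1 h1 (vv h1 z1) hΛ1 h11]
          set M : ℝ≥0∞ := J * ((i0 + 1 : ℕ) * th) with hM
          have hME : ∀ h, M * (E h).card ≤ J * (i0 + 1 : ℕ) := by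
            intro h
            calc M * (E h).card = (J * (i0 + 1 : ℕ)) * ((E h).card * th) := by rw [hM]; ring
              _ ≤ (J * (i0 + 1 : ℕ)) * 1 := mul_le_mul_right (hEc h) _
              _ = _ := mul_one _
          -- the inner kernel
          set Φ : ℕ → ℕ → ℕ → ℕ → G → ℝ≥0∞ := fun a a' h h' x =>
            ∑' L : List B1, ∑' L' : List B2,
              I (HT h1 L = h ∧ Dp z1 L ∈ E h ∧ HT h2 L' = h' ∧
                Wv h1 z1 s1 h2 z2 s2 cond L a L' x a') * (LW Λ1 L * LW Λ2 L') with hΦ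
          have hR : ∀ (c : ℕ) (k : ℕ), c ≤ k → k ≤ c + i0 → ∃ i ∈ Finset.range (i0 + 1),
              c + i = k := by
            intro c k h3 h4
            exact ⟨k - c, Finset.mem_range.2 (by omega), by omega⟩
          have hΨΦ : ∀ A' y, Ψ A' y ≤ ∑ j ∈ Finset.range (i0 + 1), ∑ j' ∈ Finset.range (i0 + 1),
              Φ (hg y) (HT h2 A') (S + j) (S + j') (w + Dp z2 A' - y.2) := by
            intro A' y
            simp only [hΨ, hΦ]
            simp_rw [← Summable.tsum_finsetSum (fun _ _ => ENNReal.summable)]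
            refine ENNReal.tsum_le_tsum fun P => ENNReal.tsum_le_tsum fun P' => ?_
            by_cases hQ : FP h1 S P ∧ HT h1 P ≤ S + i0 ∧ FP h2 S P' ∧ HT h2 P' ≤ S + i0 ∧
                th ≤ p (Dp (vv h1 z1) P) ∧
                Wv h1 z1 s1 h2 z2 s2 cond P (hg y) P' (w + Dp z2 A' - y.2) (HT h2 A')
            · obtain ⟨q1, q2, q3, q4, q5, q6⟩ := hQ
              obtain ⟨j, hj, hj'⟩ := hR S (HT h1 P) q1.1 q2
              obtain ⟨i, hi, hi'⟩ := hR S (HT h2 P') q3.1 q4
              refine le_trans ?_ (Finset.single_le_sum (f := fun j =>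
                ∑ j' ∈ Finset.range (i0 + 1), I (HT h1 P = S + j ∧ Dp z1 P ∈ E (S + j) ∧
                  HT h2 P' = S + j' ∧ Wv h1 z1 s1 h2 z2 s2 cond P (hg y) P'
                  (w + Dp z2 A' - y.2) (HT h2 A')) * (LW Λ1 P * LW Λ2 P'))
                (fun _ _ => zero_le) hj)
              refine le_trans ?_ (Finset.single_le_sum (f := fun j' =>
                I (HT h1 P = S + j ∧ Dp z1 P ∈ E (S + j) ∧
                  HT h2 P' = S + j' ∧ Wv h1 z1 s1 h2 z2 s2 cond P (hg y) P'
                  (w + Dp z2 A' - y.2) (HT h2 A')) * (LW Λ1 P * LW Λ2 P'))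
                (fun _ _ => zero_le) hi)
              refine mul_le_mul_left (I_mono fun _ => ⟨hj'.symm, ?_, hi'.symm, q6⟩) _
              simp only [hE, Set.Finite.mem_toFinset, Set.mem_setOf_eq]
              rw [Dp_vv, ← hj'] at q5
              exact_mod_cast q5
            · rw [I_false hQ, zero_mul]; exact zero_le
          have hg'T : ∀ y, g' y ≠ 0 → T ≤ hg y ∧ y.1 = (hg y : ℤ) := by
            intro y hy
            have hFy : F y ≠ 0 := fun h0 => hy (by simp only [hg']; rw [h0]; simp)
            rw [hF, FL] at hFy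
            obtain ⟨A, hA⟩ := ENNReal.tsum_eq_zero.not.1 hFy |> not_forall.1
            have hD : Dp (vv h1 z1) A = y := by
              by_contra h; exact hA (by rw [I_false h, zero_mul])
            have hFA : FP h1 T A := by
              by_contra h; exact hA (by rw [I_false h]; simp)
            rw [← hD, hhg', Dp_vv]
            exact ⟨hFA.1, rfl⟩
          -- reduction to the kernels
          have step3 : ∀ a a' h h' : ℕ, T ≤ a → a ≤ T + i0 → T ≤ a' → a' ≤ T + i0 → S ≤ h →
              h ≤ S + i0 → S ≤ h' → h' ≤ S + i0 →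
              ∑' A' : List B2, (I (FP h2 T A' ∧ HT h2 A' = a') * LW Λ2 A') *
                ∑' ζ : G, g' ((a : ℤ), ζ) * Φ a a' h h' (w + Dp z2 A' - ζ) ≤ η := by
            intro a a' h h' c1 c2 c3 c4 c5 c6 c7 c8
            set μ : G → ℝ≥0∞ := fun x => ∑' A' : List B2,
              (I (FP h2 T A' ∧ HT h2 A' = a') * LW Λ2 A') * g' ((a : ℤ), w + Dp z2 A' - x) with hμ
            have hsub : ∀ A' : List B2, ∑' x, g' ((a : ℤ), w + Dp z2 A' - x)
                = ∑' ζ, g' ((a : ℤ), ζ) := fun A' =>
              (Equiv.subLeft (w + Dp z2 A')).tsum_eq (fun ζ => g' ((a : ℤ), ζ))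
            have hga : ∑' ζ, g' ((a : ℤ), ζ) ≤ 1 := le_trans
              (ENNReal.tsum_comp_le_tsum_of_injective (f := fun ζ : G => (((a : ℤ), ζ) : ℤ × G))
              (fun _ _ hab => (Prod.mk.inj hab).2) g') hg'1
            have hIle : ∀ A' : List B2, I (FP h2 T A' ∧ HT h2 A' = a') * LW Λ2 A'
                ≤ I (FP h2 T A') * LW Λ2 A' := fun A' =>
              mul_le_mul_left (I_mono fun h => h.1) _
            have hμ1 : ∑' x, μ x ≤ 1 := by
              simp only [hμ]
              rw [ENNReal.tsum_comm]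
              calc _ = ∑' A' : List B2, (I (FP h2 T A' ∧ HT h2 A' = a') * LW Λ2 A') *
                    ∑' ζ, g' ((a : ℤ), ζ) :=
                    tsum_congr fun A' => by rw [ENNReal.tsum_mul_left, hsub]
                _ ≤ ∑' A' : List B2, (I (FP h2 T A') * LW Λ2 A') * 1 :=
                    ENNReal.tsum_le_tsum fun A' => mul_le_mul' (hIle A') hga
                _ = 1 := by simp only [mul_one]; exact hES2 T
            have hμM : ∀ x, μ x ≤ M := by
              intro x
              calc μ x ≤ ∑' A' : List B2, (I (FP h2 T A') * LW Λ2 A') * M :=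
                    ENNReal.tsum_le_tsum fun A' => mul_le_mul' (hIle A')
                      ((min_le_left _ _).trans (hgM _))
                _ = M := by rw [ENNReal.tsum_mul_right, hES2, one_mul]
            have e3 : ∑' A' : List B2, (I (FP h2 T A' ∧ HT h2 A' = a') * LW Λ2 A') *
                ∑' ζ : G, g' ((a : ℤ), ζ) * Φ a a' h h' (w + Dp z2 A' - ζ)
                = ∑' x, μ x * Φ a a' h h' x := by
              simp only [hμ]
              simp_rw [← ENNReal.tsum_mul_right]
              rw [ENNReal.tsum_comm]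
              refine tsum_congr fun A' => ?_
              rw [← (Equiv.subLeft (w + Dp z2 A')).tsum_eq (fun ζ => g' ((a : ℤ), ζ) *
                Φ a a' h h' (w + Dp z2 A' - ζ)), ← ENNReal.tsum_mul_left]
              refine tsum_congr fun x => ?_
              simp only [Equiv.subLeft_apply, sub_sub_cancel]
              ring
            rw [e3]
            exact hLoc a a' h h' c1 c2 c3 c4 c5 c6 c7 c8 (E h) μ M hμ1 hμM (hME h)
          -- sum over the four heights
          calc ∑' A' : List B2, (I (FP h2 T A' ∧ HT h2 A' ≤ T + i0) * LW Λ2 A') *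
                ∑' y, g' y * (I (hg y ≤ T + i0) * Ψ A' y)
              ≤ ∑' A' : List B2, ∑ i ∈ Finset.range (i0 + 1), ∑ i' ∈ Finset.range (i0 + 1),
                ∑ j ∈ Finset.range (i0 + 1), ∑ j' ∈ Finset.range (i0 + 1),
                (I (FP h2 T A' ∧ HT h2 A' = T + i') * LW Λ2 A') *
                ∑' ζ : G, g' (((T + i : ℕ) : ℤ), ζ) *
                  Φ (T + i) (T + i') (S + j) (S + j') (w + Dp z2 A' - ζ) := by
                refine ENNReal.tsum_le_tsum fun A' => ?_
                by_cases hA : FP h2 T A' ∧ HT h2 A' ≤ T + i0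
                · obtain ⟨i', hi', ei'⟩ := hR T (HT h2 A') hA.1.1 hA.2
                  rw [I_true hA, one_mul]
                  have : ∑' y, g' y * (I (hg y ≤ T + i0) * Ψ A' y) ≤
                      ∑ i ∈ Finset.range (i0 + 1), ∑ j ∈ Finset.range (i0 + 1),
                      ∑ j' ∈ Finset.range (i0 + 1), ∑' ζ : G, g' (((T + i : ℕ) : ℤ), ζ) *
                        Φ (T + i) (T + i') (S + j) (S + j') (w + Dp z2 A' - ζ) := by
                    calc ∑' y, g' y * (I (hg y ≤ T + i0) * Ψ A' y)
                        ≤ ∑' y, ∑ i ∈ Finset.range (i0 + 1),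
                          I (y.1 = ((T + i : ℕ) : ℤ)) * (g' y * Ψ A' y) := by
                          refine ENNReal.tsum_le_tsum fun y => ?_
                          by_cases hy : g' y = 0
                          · rw [hy, zero_mul]; exact zero_le
                          · obtain ⟨hy1, hy2⟩ := hg'T y hy
                            by_cases hy3 : hg y ≤ T + i0
                            · obtain ⟨i, hi, ei⟩ := hR T (hg y) hy1 hy3
                              refine le_trans ?_ (Finset.single_le_sum (f := fun i : ℕ =>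
                                I (y.1 = ((T + i : ℕ) : ℤ)) * (g' y * Ψ A' y))
                                (fun _ _ => zero_le) hi)
                              rw [I_true hy3, one_mul, I_true (by rw [hy2, ei]), one_mul]
                            · rw [I_false hy3]; simp
                      _ = ∑ i ∈ Finset.range (i0 + 1), ∑' y : ℤ × G,
                          I (y.1 = ((T + i : ℕ) : ℤ)) * (g' y * Ψ A' y) :=
                          Summable.tsum_finsetSum (fun _ _ => ENNReal.summable)
                      _ ≤ _ := by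
                          refine Finset.sum_le_sum fun i _ => ?_
                          simp_rw [← Summable.tsum_finsetSum (fun _ _ => ENNReal.summable)]
                          refine tsum_cover _ _ (fun ζ : G => ((((T + i : ℕ) : ℤ), ζ) : ℤ × G)) ?_
                          rintro ⟨k, ζ⟩ hy
                          by_cases hk : k = ((T + i : ℕ) : ℤ)
                          · subst hk
                            refine ⟨ζ, rfl, ?_⟩
                            rw [I_true rfl, one_mul]
                            have h5 := hΨΦ A' ((((T + i : ℕ) : ℤ), ζ) : ℤ × G)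
                            have h6 : hg ((((T + i : ℕ) : ℤ), ζ) : ℤ × G) = T + i := by
                              simp [hhg]
                              omega
                            rw [h6, ← ei'] at h5
                            refine (mul_le_mul_right h5 _).trans (le_of_eq ?_)
                            simp_rw [Finset.mul_sum]
                          · exact absurd (by rw [I_false hk, zero_mul]) hy
                  calc LW Λ2 A' * ∑' y, g' y * (I (hg y ≤ T + i0) * Ψ A' y)
                      ≤ LW Λ2 A' * ∑ i ∈ Finset.range (i0 + 1), ∑ j ∈ Finset.range (i0 + 1),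
                        ∑ j' ∈ Finset.range (i0 + 1), ∑' ζ : G, g' (((T + i : ℕ) : ℤ), ζ) *
                        Φ (T + i) (T + i') (S + j) (S + j') (w + Dp z2 A' - ζ) :=
                        mul_le_mul_right this _
                    _ = ∑ i ∈ Finset.range (i0 + 1), ∑ j ∈ Finset.range (i0 + 1),
                        ∑ j' ∈ Finset.range (i0 + 1),
                        (I (FP h2 T A' ∧ HT h2 A' = T + i') * LW Λ2 A') *
                        ∑' ζ : G, g' (((T + i : ℕ) : ℤ), ζ) *
                        Φ (T + i) (T + i') (S + j) (S + j') (w + Dp z2 A' - ζ) := by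
                        rw [I_true (⟨hA.1, ei'.symm⟩ : FP h2 T A' ∧ HT h2 A' = T + i'), one_mul]
                        simp_rw [Finset.mul_sum]
                    _ ≤ _ := by
                        refine Finset.sum_le_sum fun i _ => ?_
                        exact Finset.single_le_sum (f := fun i' => ∑ j ∈ Finset.range (i0 + 1),
                          ∑ j' ∈ Finset.range (i0 + 1),
                          (I (FP h2 T A' ∧ HT h2 A' = T + i') * LW Λ2 A') *
                          ∑' ζ : G, g' (((T + i : ℕ) : ℤ), ζ) *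
                          Φ (T + i) (T + i') (S + j) (S + j') (w + Dp z2 A' - ζ))
                          (fun _ _ => zero_le) hi'
                · rw [I_false hA, zero_mul, zero_mul]; exact zero_le
            _ = ∑ i ∈ Finset.range (i0 + 1), ∑ i' ∈ Finset.range (i0 + 1),
                ∑ j ∈ Finset.range (i0 + 1), ∑ j' ∈ Finset.range (i0 + 1),
                ∑' A' : List B2, (I (FP h2 T A' ∧ HT h2 A' = T + i') * LW Λ2 A') *
                ∑' ζ : G, g' (((T + i : ℕ) : ℤ), ζ) *
                  Φ (T + i) (T + i') (S + j) (S + j') (w + Dp z2 A' - ζ) := by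
                rw [Summable.tsum_finsetSum (fun _ _ => ENNReal.summable)]
                refine Finset.sum_congr rfl fun i _ => ?_
                rw [Summable.tsum_finsetSum (fun _ _ => ENNReal.summable)]
                refine Finset.sum_congr rfl fun i' _ => ?_
                rw [Summable.tsum_finsetSum (fun _ _ => ENNReal.summable)]
                refine Finset.sum_congr rfl fun j _ => ?_
                rw [Summable.tsum_finsetSum (fun _ _ => ENNReal.summable)]
            _ ≤ ∑ i ∈ Finset.range (i0 + 1), ∑ i' ∈ Finset.range (i0 + 1),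
                ∑ j ∈ Finset.range (i0 + 1), ∑ j' ∈ Finset.range (i0 + 1), η := by
                refine Finset.sum_le_sum fun i hi => Finset.sum_le_sum fun i' hi' =>
                  Finset.sum_le_sum fun j hj => Finset.sum_le_sum fun j' hj' => ?_
                rw [Finset.mem_range] at hi hi' hj hj'
                exact step3 (T + i) (T + i') (S + j) (S + j') (by omega) (by omega) (by omega)
                  (by omega) (by omega) (by omega) (by omega) (by omega)
            _ = _ := by
                simp only [Finset.sum_const, Finset.card_range, nsmul_eq_mul]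
                ring

end pair

end Crest.Agent.R154.Asm668
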