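import Crest.Agent.R154.Asm1_678

/-! Row 154, ROAD 801 (helper678): assembly, part 2: the term of a local piece. -/

set_option autoImplicit false

namespace Crest.Agent.R154.Asm678

open scoped ENNReal
open Crest.Agent.R154.B5A Crest.Agent.R154.FP178
open Crest.Agent.R154.Bind12 (TT Dp)

lemma tsum_range_v {G : Type*} (α i0 : ℕ) (f : ℤ × G → ℝ≥0∞)
    (hf : ∀ v, f v ≠ 0 → ∃ i ≤ i0, v.1 = ((α + i : ℕ) : ℤ)) :
    ∑' v, f v ≤ ∑ i ∈ Finset.range (i0 + 1), ∑' x, f (((α + i : ℕ) : ℤ), x) := by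
  classical
  have e1 : ∀ v, f v ≤ ∑ i ∈ Finset.range (i0 + 1), (if v.1 = ((α + i : ℕ) : ℤ) then f v else 0) := by
    intro v
    by_cases h0 : f v = 0
    · rw [h0]; exact zero_le
    · obtain ⟨i, hi, hv⟩ := hf v h0
      refine le_trans ?_ (Finset.single_le_sum (f := fun i =>
        (if v.1 = ((α + i : ℕ) : ℤ) then f v else 0)) (fun _ _ => zero_le)
        (Finset.mem_range.2 (by omega : i < i0 + 1)))
      simp only [if_pos hv]
      exact le_rfl
  refine (ENNReal.tsum_le_tsum e1).trans ?_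
  rw [Summable.tsum_finsetSum (fun _ _ => ENNReal.summable)]
  refine Finset.sum_le_sum fun i _ => ?_
  rw [ENNReal.tsum_prod (f := fun c x => if c = ((α + i : ℕ) : ℤ) then f (c, x) else 0)]
  rw [tsum_eq_single ((α + i : ℕ) : ℤ)]
  · simp
  · intro c hc
    exact ENNReal.tsum_eq_zero.2 fun x => if_neg hc

section LT

variable {B1 B2 G : Type*} [AddCommGroup G]
  {Λ1 : B1 → ℝ≥0∞} {h1 : B1 → ℕ} (z1 : B1 → G)
  {Λ2 : B2 → ℝ≥0∞} {h2 : B2 → ℕ} (z2 : B2 → G)
  (Q : G → ℕ → List B1 → ℕ → List B2 → Prop)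

open Classical in
theorem LT (hh1 : ∀ b, 1 ≤ h1 b) (hΛ1 : ∑' b, Λ1 b ≤ 1) (hh2 : ∀ b, 1 ≤ h2 b)
    (hΛ2 : ∑' b, Λ2 b ≤ 1) (α1 α2 T i0 : ℕ) (G0 : ℝ≥0∞) (b : ℤ × G → ℝ≥0∞)
    (β bound : ℝ≥0∞) (hm : ∀ v, m Λ1 h1 z1 α1 v ≤ G0 + b v) (hb : ∑' v, b v ≤ β)
    (E : ℕ → Finset G)
    (hbound : ∀ a h a' h' (μ : G → ℝ≥0∞), α1 ≤ a → a ≤ α1 + i0 → T ≤ h → h ≤ T + i0 →
      α2 ≤ a' → a' ≤ α2 + i0 → T ≤ h' → h' ≤ T + i0 → ∑' x, μ x ≤ 1 → (∀ x, μ x ≤ G0) →
      ∑' x, μ x * ∑' P, ∑' P', (if HT h1 P = h ∧ Dp z1 P ∈ E h ∧ HT h2 P' = h' ∧ Q x a P a' P'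
        then LW Λ1 P * LW Λ2 P' else 0) ≤ bound) (w : G) :
    FS Λ2 h2 α2 (fun A' => FS Λ2 h2 T (fun P' => FS Λ1 h1 α1 (fun A => FS Λ1 h1 T (fun P =>
      if HT h1 A ≤ α1 + i0 ∧ HT h1 P ≤ T + i0 ∧ HT h2 A' ≤ α2 + i0 ∧ HT h2 P' ≤ T + i0 ∧
        Dp z1 P ∈ E (HT h1 P) ∧ Q (w + Dp z2 A' - Dp z1 A) (HT h1 A) P (HT h2 A') P'
      then 1 else 0))))
    ≤ β + (i0 + 1) ^ 3 * bound := by
  refine FS_le hh2 hΛ2 fun A' hA' => ?_
  set x' := w + Dp z2 A' with hx'
  set a' := HT h2 A' with ha'd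
  by_cases ha' : a' ≤ α2 + i0
  swap
  · refine le_trans (FS_le hh2 hΛ2 (c := 0) fun P' _ => FS_le hh1 hΛ1 fun A _ =>
      FS_le hh1 hΛ1 fun P _ => ?_) zero_le
    rw [if_neg]
    tauto
  set Kf : List B2 → ℤ × G → ℝ≥0∞ := fun P' v => FS Λ1 h1 T (fun P =>
    if v.1 ≤ ((α1 + i0 : ℕ) : ℤ) ∧ HT h1 P ≤ T + i0 ∧ HT h2 P' ≤ T + i0 ∧
      Dp z1 P ∈ E (HT h1 P) ∧ Q (x' - v.2) v.1.toNat P a' P' then 1 else 0) with hKf
  have hKf1 : ∀ P' v, Kf P' v ≤ 1 := fun P' v => FS_le hh1 hΛ1 fun P _ => by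
    split_ifs <;> simp
  set μt : ℤ × G → ℝ≥0∞ := fun v => min (m Λ1 h1 z1 α1 v) G0 with hμt
  -- step 1, 2
  have s12 : ∀ P', FS Λ1 h1 α1 (fun A => FS Λ1 h1 T (fun P =>
      if HT h1 A ≤ α1 + i0 ∧ HT h1 P ≤ T + i0 ∧ a' ≤ α2 + i0 ∧ HT h2 P' ≤ T + i0 ∧
        Dp z1 P ∈ E (HT h1 P) ∧ Q (x' - Dp z1 A) (HT h1 A) P a' P'
      then 1 else 0)) ≤ ∑' v, μt v * Kf P' v + β := by
    intro P'
    have e1 : FS Λ1 h1 α1 (fun A => FS Λ1 h1 T (fun P =>
      if HT h1 A ≤ α1 + i0 ∧ HT h1 P ≤ T + i0 ∧ a' ≤ α2 + i0 ∧ HT h2 P' ≤ T + i0 ∧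
        Dp z1 P ∈ E (HT h1 P) ∧ Q (x' - Dp z1 A) (HT h1 A) P a' P'
      then 1 else 0)) ≤ FS Λ1 h1 α1 (fun A => Kf P' (D h1 z1 A)) := by
      refine FS_mono fun A _ => FS_mono fun P _ => ?_
      by_cases hc : HT h1 A ≤ α1 + i0 ∧ HT h1 P ≤ T + i0 ∧ a' ≤ α2 + i0 ∧ HT h2 P' ≤ T + i0 ∧
        Dp z1 P ∈ E (HT h1 P) ∧ Q (x' - Dp z1 A) (HT h1 A) P a' P'
      · rw [if_pos hc, if_pos]
        refine ⟨?_, hc.2.1, hc.2.2.2.1, hc.2.2.2.2.1, ?_⟩
        · simp only [D]; exact_mod_cast hc.1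
        · simp only [D, Int.toNat_natCast]; exact hc.2.2.2.2.2
      · rw [if_neg hc]; exact zero_le
    refine e1.trans ?_
    rw [regroup z1 α1 (Kf P')]
    calc ∑' v, m Λ1 h1 z1 α1 v * Kf P' v ≤ ∑' v, (μt v * Kf P' v + b v) := by
          refine ENNReal.tsum_le_tsum fun v => ?_
          have h3 : m Λ1 h1 z1 α1 v ≤ μt v + b v := by
            rcases le_total (m Λ1 h1 z1 α1 v) G0 with h | h
            · simp only [hμt, min_eq_left h]; exact le_self_add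
            · simp only [hμt, min_eq_right h]; exact hm v
          calc m Λ1 h1 z1 α1 v * Kf P' v ≤ (μt v + b v) * Kf P' v := mul_le_mul_left h3 _
            _ = μt v * Kf P' v + b v * Kf P' v := add_mul _ _ _
            _ ≤ μt v * Kf P' v + b v * 1 := by gcongr; exact hKf1 P' v
            _ = _ := by rw [mul_one]
      _ = ∑' v, μt v * Kf P' v + ∑' v, b v := ENNReal.tsum_add
      _ ≤ _ := by gcongr
  refine (FS_mono fun P' _ => s12 P').trans ?_
  rw [FS_add, add_comm]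
  refine add_le_add (FS_const hh2 hΛ2 T β) ?_
  -- step 3 : pointwise bound
  set S : ℕ → ℕ → List B2 → ℝ≥0∞ := fun i j P' => ∑' x, μt (((α1 + i : ℕ) : ℤ), x) * ∑' P,
    (if HT h1 P = T + j ∧ Dp z1 P ∈ E (T + j) ∧ Q (x' - x) (α1 + i) P a' P' then LW Λ1 P else 0)
    with hS
  have s3 : ∀ P', ∑' v, μt v * Kf P' v ≤ ∑ i ∈ Finset.range (i0 + 1),
      ∑ j ∈ Finset.range (i0 + 1), S i j P' := by
    intro P'
    refine (tsum_range_v α1 i0 _ ?_).trans ?_
    · intro v hv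
      have hv1 : μt v ≠ 0 := fun h => hv (by rw [h, zero_mul])
      have hv2 : Kf P' v ≠ 0 := fun h => hv (by rw [h, mul_zero])
      have hle : v.1 ≤ ((α1 + i0 : ℕ) : ℤ) := by
        by_contra hn
        apply hv2
        refine le_antisymm (FS_le hh1 hΛ1 (c := 0) fun P _ => ?_) zero_le
        rw [if_neg (fun h => hn h.1)]
      have hm0 : m Λ1 h1 z1 α1 v ≠ 0 := fun h => hv1 (by simp [hμt, h])
      have hex : ∃ A, fp h1 α1 A ∧ D h1 z1 A = v := by
        by_contra hn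
        push Not at hn
        apply hm0
        refine le_antisymm (FS_le hh1 hΛ1 (c := 0) fun A hA => ?_) zero_le
        rw [if_neg (hn A hA)]
      obtain ⟨A, hA, rfl⟩ := hex
      have := le_HT_of_fp h1 hA
      simp only [D] at hle ⊢
      refine ⟨HT h1 A - α1, ?_, ?_⟩
      · have : HT h1 A ≤ α1 + i0 := by exact_mod_cast hle
        omega
      · congr 1; omega
    · refine Finset.sum_le_sum fun i _ => ?_
      have e1 : ∀ x, μt (((α1 + i : ℕ) : ℤ), x) * Kf P' (((α1 + i : ℕ) : ℤ), x)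
          ≤ ∑ j ∈ Finset.range (i0 + 1), μt (((α1 + i : ℕ) : ℤ), x) * ∑' P,
    (if HT h1 P = T + j ∧ Dp z1 P ∈ E (T + j) ∧ Q (x' - x) (α1 + i) P a' P' then LW Λ1 P else 0) := by
        intro x
        rw [← Finset.mul_sum]
        refine mul_le_mul_right ?_ _
        rw [← Summable.tsum_finsetSum (fun _ _ => ENNReal.summable)]
        refine ENNReal.tsum_le_tsum fun P => ?_
        beta_reduce
        by_cases hP : fp h1 T P
        · by_cases hc : (((α1 + i : ℕ) : ℤ), x).1 ≤ ((α1 + i0 : ℕ) : ℤ) ∧ HT h1 P ≤ T + i0 ∧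
            HT h2 P' ≤ T + i0 ∧ Dp z1 P ∈ E (HT h1 P) ∧
            Q (x' - (((α1 + i : ℕ) : ℤ), x).2) (((α1 + i : ℕ) : ℤ), x).1.toNat P a' P'
          · rw [if_pos hc, fw, if_pos hP, mul_one]
            have hTP := le_HT_of_fp h1 hP
            have hmem : HT h1 P - T ∈ Finset.range (i0 + 1) := Finset.mem_range.2 (by omega)
            refine le_trans ?_ (Finset.single_le_sum (f := fun j => (if HT h1 P = T + j ∧
              Dp z1 P ∈ E (T + j) ∧ Q (x' - x) (α1 + i) P a' P' then LW Λ1 P else 0))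
              (fun _ _ => zero_le) hmem)
            have hh : HT h1 P = T + (HT h1 P - T) := by omega
            rw [if_pos]
            refine ⟨hh, ?_, ?_⟩
            · rw [← hh]; exact hc.2.2.2.1
            · have h9 := hc.2.2.2.2
              simp only [Int.toNat_natCast] at h9
              exact h9
          · rw [if_neg hc, mul_zero]; exact zero_le
        · rw [fw, if_neg hP, zero_mul]; exact zero_le
      refine (ENNReal.tsum_le_tsum e1).trans (le_of_eq ?_)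
      rw [Summable.tsum_finsetSum (fun _ _ => ENNReal.summable)]
  have s3' : ∀ P', ¬ HT h2 P' ≤ T + i0 → ∑' v, μt v * Kf P' v = 0 := by
    intro P' hP'
    have : ∀ v, Kf P' v = 0 := fun v => by
      refine le_antisymm (FS_le hh1 hΛ1 (c := 0) fun P _ => ?_) zero_le
      rw [if_neg (fun h => hP' h.2.2.1)]
    simp [this]
  have s4 : FS Λ2 h2 T (fun P' => ∑' v, μt v * Kf P' v) ≤ ∑' P', ∑ j' ∈ Finset.range (i0 + 1),
      ∑ i ∈ Finset.range (i0 + 1), ∑ j ∈ Finset.range (i0 + 1),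
        (if HT h2 P' = T + j' then LW Λ2 P' * S i j P' else 0) := by
    refine ENNReal.tsum_le_tsum fun P' => ?_
    beta_reduce
    by_cases hP : fp h2 T P'
    · by_cases hc : HT h2 P' ≤ T + i0
      · have hTP := le_HT_of_fp h2 hP
        have hmem : HT h2 P' - T ∈ Finset.range (i0 + 1) := Finset.mem_range.2 (by omega)
        refine le_trans ?_ (Finset.single_le_sum (f := fun j' => ∑ i ∈ Finset.range (i0 + 1),
          ∑ j ∈ Finset.range (i0 + 1), (if HT h2 P' = T + j' then LW Λ2 P' * S i j P' else 0))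
              (fun _ _ => zero_le) hmem)
        have hh : HT h2 P' = T + (HT h2 P' - T) := by omega
        rw [fw, if_pos hP]
        simp only [if_pos hh]
        simp only [← Finset.mul_sum]
        exact mul_le_mul_right (s3 P') _
      · rw [s3' P' hc, mul_zero]; exact zero_le
    · rw [fw, if_neg hP, zero_mul]; exact zero_le
  refine s4.trans ?_
  rw [Summable.tsum_finsetSum (fun _ _ => ENNReal.summable)]
  have s5 : ∀ j' ∈ Finset.range (i0 + 1), ∑' P', ∑ i ∈ Finset.range (i0 + 1),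
      ∑ j ∈ Finset.range (i0 + 1), (if HT h2 P' = T + j' then LW Λ2 P' * S i j P' else 0)
      ≤ ∑ i ∈ Finset.range (i0 + 1), ∑ j ∈ Finset.range (i0 + 1), bound := by
    intro j' hj'
    rw [Summable.tsum_finsetSum (fun _ _ => ENNReal.summable)]
    refine Finset.sum_le_sum fun i hi => ?_
    rw [Summable.tsum_finsetSum (fun _ _ => ENNReal.summable)]
    refine Finset.sum_le_sum fun j hj => ?_
    have hj'2 := Finset.mem_range.1 hj'
    have hi2 := Finset.mem_range.1 hi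
    have hj2 := Finset.mem_range.1 hj
    have hfin := hbound (α1 + i) (T + j) a' (T + j') (fun x => μt (((α1 + i : ℕ) : ℤ), x' - x))
      (by omega) (by omega) (by omega) (by omega) (le_HT_of_fp h2 hA') ha' (by omega) (by omega)
      (by
        have e := (Equiv.subLeft x').tsum_eq (fun x => μt (((α1 + i : ℕ) : ℤ), x))
        simp only [Equiv.subLeft_apply] at e
        rw [e]
        calc ∑' x, μt (((α1 + i : ℕ) : ℤ), x) ≤ ∑' x, m Λ1 h1 z1 α1 (((α1 + i : ℕ) : ℤ), x) :=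
              ENNReal.tsum_le_tsum fun x => min_le_left _ _
          _ ≤ ∑' v, m Λ1 h1 z1 α1 v := ENNReal.tsum_comp_le_tsum_of_injective
              (fun x y h => (Prod.mk.inj h).2) (m Λ1 h1 z1 α1)
          _ ≤ 1 := sum_m z1 hh1 hΛ1 α1)
      (fun x => min_le_right _ _)
    refine le_trans (le_of_eq ?_) hfin
    -- rearrangement
    have r1 : ∀ P', (if HT h2 P' = T + j' then LW Λ2 P' * S i j P' else 0)
        = ∑' x, μt (((α1 + i : ℕ) : ℤ), x' - x) * ∑' P, (if HT h1 P = T + j ∧ Dp z1 P ∈ E (T + j) ∧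
          HT h2 P' = T + j' ∧ Q x (α1 + i) P a' P' then LW Λ1 P * LW Λ2 P' else 0) := by
      intro P'
      have e := (Equiv.subLeft x').tsum_eq (fun x => μt (((α1 + i : ℕ) : ℤ), x' - x) * ∑' P,
        (if HT h1 P = T + j ∧ Dp z1 P ∈ E (T + j) ∧
          HT h2 P' = T + j' ∧ Q x (α1 + i) P a' P' then LW Λ1 P * LW Λ2 P' else 0))
      rw [← e]
      simp only [Equiv.subLeft_apply, sub_sub_cancel]
      by_cases hc : HT h2 P' = T + j'
      · rw [if_pos hc, hS, ← ENNReal.tsum_mul_left]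
        refine tsum_congr fun x => ?_
        rw [mul_left_comm, ← ENNReal.tsum_mul_left]
        congr 1
        refine tsum_congr fun P => ?_
        by_cases h4 : HT h1 P = T + j ∧ Dp z1 P ∈ E (T + j) ∧ Q (x' - x) (α1 + i) P a' P'
        · rw [if_pos h4, if_pos ⟨h4.1, h4.2.1, hc, h4.2.2⟩, mul_comm]
        · rw [if_neg h4, if_neg (by tauto), mul_zero]
      · rw [if_neg hc]
        simp [hc]
    rw [tsum_congr r1, ENNReal.tsum_comm]
    refine tsum_congr fun x => ?_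
    rw [ENNReal.tsum_mul_left, ENNReal.tsum_comm]
  refine (Finset.sum_le_sum s5).trans (le_of_eq ?_)
  simp only [Finset.sum_const, Finset.card_range, nsmul_eq_mul]
  push_cast
  ring

end LT

end Crest.Agent.R154.Asm678
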