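import Crest.Agent.R154.Asm1_810

/-! Row 154 (helper810), ROAD 801: assembly, part 2: the tie (smooth density) and one window. -/

set_option autoImplicit false

namespace Crest.Agent.R154.Asm810

open scoped ENNReal
open Crest.Agent.R154.B5A Crest.Agent.R154.FP178

/-! ### the tie -/

open Classical in
lemma smooth_use {ι G : Type*} (α : ι → ℝ≥0∞) (H : ι → ℕ) (D : ι → G) (A i0 : ℕ)
    (hH : ∀ P, α P ≠ 0 → H P ∈ Finset.Icc A (A + i0)) (g b : G → ℝ≥0∞)
    (hm : ∀ z, (∑' P, if D P = z then α P else 0) ≤ g z + b z)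
    (φ : ℕ → G → ℝ≥0∞) (hφ : ∀ a z, φ a z ≤ 1) :
    ∑' P, α P * φ (H P) (D P) ≤ (∑' z, b z) + ∑ a ∈ Finset.Icc A (A + i0), ∑' z, g z * φ a z := by
  set ψ : G → ℝ≥0∞ := fun z => min 1 (∑ a ∈ Finset.Icc A (A + i0), φ a z) with hψ
  have h1 : ∀ P, α P * φ (H P) (D P) ≤ α P * ψ (D P) := by
    intro P
    by_cases h0 : α P = 0
    · rw [h0, zero_mul, zero_mul]
    · refine mul_le_mul_right (le_min (hφ _ _) ?_) _
      exact Finset.single_le_sum (f := fun a => φ a (D P)) (fun _ _ => zero_le) (hH P h0)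
  have h2 : ∑' P, α P * ψ (D P) = ∑' z, (∑' P, if D P = z then α P else 0) * ψ z := by
    simp_rw [← ENNReal.tsum_mul_right]
    rw [ENNReal.tsum_comm]
    refine tsum_congr fun P => ?_
    rw [tsum_eq_single (D P)]
    · rw [if_pos rfl]
    · intro z hz
      rw [if_neg (fun h => hz h.symm), zero_mul]
  calc ∑' P, α P * φ (H P) (D P) ≤ ∑' P, α P * ψ (D P) := ENNReal.tsum_le_tsum h1
    _ = ∑' z, (∑' P, if D P = z then α P else 0) * ψ z := h2
    _ ≤ ∑' z, (b z + ∑ a ∈ Finset.Icc A (A + i0), g z * φ a z) := by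
        refine ENNReal.tsum_le_tsum fun z => ?_
        calc (∑' P, if D P = z then α P else 0) * ψ z ≤ (g z + b z) * ψ z := mul_le_mul_left (hm z) _
          _ = b z * ψ z + g z * ψ z := by rw [add_mul, add_comm]
          _ ≤ b z * 1 + g z * ∑ a ∈ Finset.Icc A (A + i0), φ a z :=
              add_le_add (mul_le_mul_right (min_le_left _ _) _)
                (mul_le_mul_right (min_le_right _ _) _)
          _ = _ := by rw [mul_one, Finset.mul_sum]
    _ = _ := by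
        rw [ENNReal.tsum_add, Summable.tsum_finsetSum (fun _ _ => ENNReal.summable)]

open Classical in
/-- the tie, smooth side `X` -/
lemma tieX {ι ι' G : Type*} [AddCommGroup G] (α : ι → ℝ≥0∞) (H : ι → ℕ) (D : ι → G)
    (α' : ι' → ℝ≥0∞) (H' : ι' → ℕ) (D' : ι' → G) (A i0 : ℕ)
    (hH : ∀ P, α P ≠ 0 → H P ∈ Finset.Icc A (A + i0))
    (hH' : ∀ P, α' P ≠ 0 → H' P ∈ Finset.Icc A (A + i0))
    (hα' : ∑' P, α' P ≤ 1)
    (g b : G → ℝ≥0∞) (M β : ℝ≥0∞)
    (hm : ∀ z, (∑' P, if D P = z then α P else 0) ≤ g z + b z)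
    (hg1 : ∑' z, g z ≤ 1) (hgM : ∀ z, g z ≤ M) (hb : ∑' z, b z ≤ β)
    (w : G) (Ψ : ℕ → ℕ → G → ℝ≥0∞) (hΨ : ∀ a a' x, Ψ a a' x ≤ 1) (Bd : ℝ≥0∞)
    (hB : ∀ a ∈ Finset.Icc A (A + i0), ∀ a' ∈ Finset.Icc A (A + i0), ∀ μ : G → ℝ≥0∞,
      ∑' x, μ x ≤ 1 → (∀ x, μ x ≤ M) → ∑' x, μ x * Ψ a a' x ≤ Bd) :
    ∑' P, α P * ∑' Q, α' Q * Ψ (H P) (H' Q) (w + D' Q - D P)
      ≤ β + (i0 + 1) ^ 2 * Bd := by
  have hφ1 : ∀ (a : ℕ) (z : G), ∑' Q, α' Q * Ψ a (H' Q) (w + D' Q - z) ≤ 1 := by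
    intro a z
    refine le_trans (ENNReal.tsum_le_tsum fun Q => ?_) hα'
    calc α' Q * Ψ a (H' Q) (w + D' Q - z) ≤ α' Q * 1 := mul_le_mul_right (hΨ _ _ _) _
      _ = _ := mul_one _
  have h1 := smooth_use α H D A i0 hH g b hm
    (fun a z => ∑' Q, α' Q * Ψ a (H' Q) (w + D' Q - z)) hφ1
  refine h1.trans (add_le_add hb ?_)
  have hcard : (Finset.Icc A (A + i0)).card = i0 + 1 := by simp; omega
  have h2 : ∀ a ∈ Finset.Icc A (A + i0),
      ∑' z, g z * ∑' Q, α' Q * Ψ a (H' Q) (w + D' Q - z) ≤ (i0 + 1) * Bd := by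
    intro a ha
    calc ∑' z, g z * ∑' Q, α' Q * Ψ a (H' Q) (w + D' Q - z)
        = ∑' Q, ∑' z, α' Q * (g z * Ψ a (H' Q) (w + D' Q - z)) := by
          rw [ENNReal.tsum_comm]
          refine tsum_congr fun z => ?_
          rw [← ENNReal.tsum_mul_left]
          refine tsum_congr fun Q => ?_
          ring
      _ ≤ ∑' Q, ∑ a' ∈ Finset.Icc A (A + i0), ∑' z, α' Q * (g z * Ψ a a' (w + D' Q - z)) := by
          refine ENNReal.tsum_le_tsum fun Q => ?_
          by_cases h0 : α' Q = 0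
          · simp [h0]
          · exact Finset.single_le_sum (f := fun a' => ∑' z, α' Q * (g z * Ψ a a' (w + D' Q - z)))
              (fun _ _ => zero_le) (hH' Q h0)
      _ = ∑ a' ∈ Finset.Icc A (A + i0), ∑' Q, ∑' z, α' Q * (g z * Ψ a a' (w + D' Q - z)) := by
          rw [Summable.tsum_finsetSum (fun _ _ => ENNReal.summable)]
      _ ≤ ∑ a' ∈ Finset.Icc A (A + i0), Bd := by
          refine Finset.sum_le_sum fun a' ha' => ?_
          have h3 : ∑' Q, ∑' z, α' Q * (g z * Ψ a a' (w + D' Q - z))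
              = ∑' x, (∑' Q, α' Q * g (w + D' Q - x)) * Ψ a a' x := by
            have h4 : ∀ Q, ∑' z, α' Q * (g z * Ψ a a' (w + D' Q - z))
                = ∑' x, α' Q * g (w + D' Q - x) * Ψ a a' x := by
              intro Q
              rw [← (Equiv.subLeft (w + D' Q)).tsum_eq
                (fun z => α' Q * (g z * Ψ a a' (w + D' Q - z)))]
              refine tsum_congr fun x => ?_
              simp only [Equiv.subLeft_apply, sub_sub_cancel]
              ring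
            simp_rw [h4]
            rw [ENNReal.tsum_comm]
            refine tsum_congr fun x => ?_
            rw [ENNReal.tsum_mul_right]
          rw [h3]
          refine hB a ha a' ha' _ ?_ ?_
          · rw [ENNReal.tsum_comm]
            calc ∑' Q, ∑' x, α' Q * g (w + D' Q - x) = ∑' Q, α' Q * ∑' z, g z := by
                  refine tsum_congr fun Q => ?_
                  rw [ENNReal.tsum_mul_left]
                  congr 1
                  exact (Equiv.subLeft (w + D' Q)).tsum_eq g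
              _ ≤ ∑' Q, α' Q * 1 := ENNReal.tsum_le_tsum fun Q => mul_le_mul_right hg1 _
              _ ≤ 1 := by simpa using hα'
          · intro x
            calc ∑' Q, α' Q * g (w + D' Q - x) ≤ ∑' Q, α' Q * M :=
                  ENNReal.tsum_le_tsum fun Q => mul_le_mul_right (hgM _) _
              _ = (∑' Q, α' Q) * M := ENNReal.tsum_mul_right
              _ ≤ 1 * M := mul_le_mul_left hα' _
              _ = M := one_mul _
      _ = (i0 + 1) * Bd := by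
          rw [Finset.sum_const, hcard, nsmul_eq_mul]; push_cast; rfl
  calc _ ≤ ∑ a ∈ Finset.Icc A (A + i0), (i0 + 1) * Bd := Finset.sum_le_sum h2
    _ = _ := by
        rw [Finset.sum_const, hcard, nsmul_eq_mul]; push_cast; ring

open Classical in
/-- the tie, smooth side `Y` -/
lemma tieY {ι ι' G : Type*} [AddCommGroup G] (α : ι → ℝ≥0∞) (H : ι → ℕ) (D : ι → G)
    (α' : ι' → ℝ≥0∞) (H' : ι' → ℕ) (D' : ι' → G) (A i0 : ℕ)
    (hH : ∀ P, α P ≠ 0 → H P ∈ Finset.Icc A (A + i0))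
    (hH' : ∀ P, α' P ≠ 0 → H' P ∈ Finset.Icc A (A + i0))
    (hα : ∑' P, α P ≤ 1)
    (g b : G → ℝ≥0∞) (M β : ℝ≥0∞)
    (hm : ∀ z, (∑' P, if D' P = z then α' P else 0) ≤ g z + b z)
    (hg1 : ∑' z, g z ≤ 1) (hgM : ∀ z, g z ≤ M) (hb : ∑' z, b z ≤ β)
    (w : G) (Ψ : ℕ → ℕ → G → ℝ≥0∞) (hΨ : ∀ a a' x, Ψ a a' x ≤ 1) (Bd : ℝ≥0∞)
    (hB : ∀ a ∈ Finset.Icc A (A + i0), ∀ a' ∈ Finset.Icc A (A + i0), ∀ μ : G → ℝ≥0∞,
      ∑' x, μ x ≤ 1 → (∀ x, μ x ≤ M) → ∑' x, μ x * Ψ a a' x ≤ Bd) :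
    ∑' P, α P * ∑' Q, α' Q * Ψ (H P) (H' Q) (w + D' Q - D P)
      ≤ β + (i0 + 1) ^ 2 * Bd := by
  have h := tieX α' H' D' α H D A i0 hH' hH hα g b M β hm hg1 hgM hb (-w)
    (fun a' a x => Ψ a a' (-x)) (fun _ _ _ => hΨ _ _ _) Bd (by
      intro a' ha' a ha μ h1 h2
      have e : ∑' x, μ x * Ψ a a' (-x) = ∑' x, μ (-x) * Ψ a a' x := by
        rw [← (Equiv.neg G).tsum_eq (fun x => μ (-x) * Ψ a a' x)]
        refine tsum_congr fun x => ?_
        simp
      rw [e]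
      refine hB a ha a' ha' (fun x => μ (-x)) ?_ (fun x => h2 _)
      exact ((Equiv.neg G).tsum_eq μ).trans_le h1)
  refine le_trans (le_of_eq ?_) h
  simp_rw [← ENNReal.tsum_mul_left]
  rw [ENNReal.tsum_comm]
  refine tsum_congr fun Q => tsum_congr fun P => ?_
  rw [show -(-w + D P - D' Q) = w + D' Q - D P by abel]
  ring

end Crest.Agent.R154.Asm810
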