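import Crest.Agent.R154.FP_178
import Crest.Agent.R154.Dens_903

/-! Row 154, ROAD 801 (helper840, second to 540): abstract assembly of KAPPA' for two independent
single-walker block lists, from the window inequalities `H2`, `H3` and `POINT`. -/

set_option autoImplicit false

namespace Crest.Agent.R154.Asm840

open scoped ENNReal Classical
open Crest.Agent.R154.B5A Crest.Agent.R154.FP178

section basics

variable {B G : Type*} [AddCommGroup G]

/-- (position, depth) pairs read by a list whose top is at `(x, a)` -/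
def TT (h : B → ℕ) (z : B → G) (s : B → Set (G × ℕ)) : List B → G → ℕ → Set (G × ℕ)
  | [], _, _ => ∅
  | b :: L, x, a => {q | ∃ y k, (y, k) ∈ s b ∧ q = (x + y, a + k)} ∪ TT h z s L (x + z b) (a + h b)

/-- total displacement -/
def Dp (z : B → G) (L : List B) : G := (L.map z).sum

variable (h : B → ℕ) (z : B → G) (s : B → Set (G × ℕ))

lemma Dp_nil : Dp z [] = 0 := by simp [Dp]

lemma Dp_cons (b : B) (L : List B) : Dp z (b :: L) = z b + Dp z L := by simp [Dp]

lemma Dp_append (L L' : List B) : Dp z (L ++ L') = Dp z L + Dp z L' := by simp [Dp]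

lemma TT_append (L L' : List B) (x : G) (a : ℕ) :
    TT h z s (L ++ L') x a = TT h z s L x a ∪ TT h z s L' (x + Dp z L) (a + HT h L) := by
  induction L generalizing x a with
  | nil => simp [TT, Dp_nil, HT_nil]
  | cons b L ih =>
    rw [List.cons_append, TT, TT, ih, Dp_cons, HT_cons, Set.union_assoc]
    simp only [add_assoc]

lemma TT_depth (hs : ∀ b y k, (y, k) ∈ s b → 1 ≤ k ∧ k ≤ h b) (L : List B) (x : G) (a : ℕ)
    (y : G) (k : ℕ) (hk : (y, k) ∈ TT h z s L x a) : a < k ∧ k ≤ a + HT h L := by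
  induction L generalizing x a with
  | nil => simp [TT] at hk
  | cons b L ih =>
    rw [HT_cons]
    rcases hk with ⟨y', k', hk', he⟩ | hk
    · rw [Prod.mk.injEq] at he
      have := hs b y' k' hk'
      omega
    · have := ih _ _ hk
      omega

lemma TT_shift (L : List B) (x c : G) (a : ℕ) (y : G) (k : ℕ) :
    (c + y, k) ∈ TT h z s L (c + x) a ↔ (y, k) ∈ TT h z s L x a := by
  induction L generalizing x a with
  | nil => simp [TT]
  | cons b L ih =>
    simp only [TT, Set.mem_union, Set.mem_ofPred_eq, Prod.mk.injEq]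
    rw [add_assoc c x (z b), ih]
    constructor
    · rintro (⟨y', k', h1, h2, h3⟩ | h1)
      · left
        exact ⟨y', k', h1, by rw [add_assoc] at h2; exact add_left_cancel h2, h3⟩
      · right; exact h1
    · rintro (⟨y', k', h1, h2, h3⟩ | h1)
      · left
        exact ⟨y', k', h1, by rw [h2, add_assoc], h3⟩
      · right; exact h1

end basics

section pieces

variable {B G : Type*} [AddCommGroup G] (Λ : B → ℝ≥0∞) (ht : B → ℕ) (z : B → G)

/-- good piece -/
def gp (T i0 : ℕ) (P : List B) : Prop := fp ht T P ∧ HT ht P ≤ T + i0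

/-- weight of a good piece -/
noncomputable def Lg (T i0 : ℕ) (P : List B) : ℝ≥0∞ := if gp ht T i0 P then LW Λ P else 0

lemma sum_Lg (h1 : ∀ b, 1 ≤ ht b) (hΛ : ∑' b, Λ b ≤ 1) (T i0 : ℕ) :
    ∑' P, Lg Λ ht T i0 P ≤ 1 := by
  refine le_trans (ENNReal.tsum_le_tsum fun P => ?_) (sum_FP Λ ht h1 hΛ T)
  rw [Lg]
  by_cases h : gp ht T i0 P
  · rw [if_pos h, if_pos h.1]
  · rw [if_neg h]; exact zero_le

lemma tsum_HT_le (hU1 : ∀ n, U Λ ht n ≤ 1) (N a : ℕ) (f : List B → ℝ≥0∞) (hf : ∀ L, f L ≤ 1) :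
    ∑' R, (if a + HT ht R = N then LW Λ R * f R else 0) ≤ 1 := by
  by_cases ha : a ≤ N
  · refine le_trans (ENNReal.tsum_le_tsum fun R => ?_) (hU1 (N - a))
    by_cases h : a + HT ht R = N
    · rw [if_pos h, if_pos (by omega)]
      calc LW Λ R * f R ≤ LW Λ R * 1 := by gcongr; exact hf R
        _ = _ := mul_one _
    · rw [if_neg h]; exact zero_le
  · have : ∀ R, (if a + HT ht R = N then LW Λ R * f R else 0) = 0 := fun R => if_neg (by omega)
    simp [this]

/-- **decomposition into `j` good pieces and a rest.** -/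
lemma dec (h1 : ∀ b, 1 ≤ ht b) (hΛ : ∑' b, Λ b ≤ 1) (hU1 : ∀ n, U Λ ht n ≤ 1) (T i0 : ℕ)
    (e : ℝ≥0∞) (he : ∑' L, (if fp ht T L ∧ T + i0 < HT ht L then LW Λ L else 0) ≤ e) (j : ℕ) :
    ∀ (N : ℕ) (_ : j * (T + i0) ≤ N) (F : List B → ℝ≥0∞) (_ : ∀ L, F L ≤ 1),
    ∑' L, (if HT ht L = N then LW Λ L * F L else 0)
      ≤ SL (Lg Λ ht T i0) j (fun Q => ∑' R, (if HT ht Q.flatten + HT ht R = N
          then LW Λ R * F (Q.flatten ++ R) else 0)) + j * e := by
  induction j with
  | zero =>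
    intro N _ F _
    rw [SL_zero]
    simp [HT_nil]
  | succ j ih =>
    intro N hN F hF
    have hTN : T + i0 ≤ N := le_trans (by nlinarith [Nat.zero_le (j * (T + i0))]) hN
    have e1 : ∑' L, (if HT ht L = N then LW Λ L * F L else 0)
        = ∑' L, (if T ≤ HT ht L then LW Λ L * (if HT ht L = N then F L else 0) else 0) := by
      refine tsum_congr fun L => ?_
      by_cases h : HT ht L = N
      · rw [if_pos h, if_pos (by omega), if_pos h]
      · rw [if_neg h, if_neg h, mul_zero, ite_self]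
    rw [e1, split Λ ht h1 T]
    have e2 : ∀ P : List B, (if fp ht T P then LW Λ P * ∑' R, LW Λ R *
          (if HT ht (P ++ R) = N then F (P ++ R) else 0) else 0)
        ≤ (if fp ht T P ∧ T + i0 < HT ht P then LW Λ P else 0)
          + Lg Λ ht T i0 P * (SL (Lg Λ ht T i0) j (fun Q => ∑' R,
            (if HT ht (P ++ Q.flatten) + HT ht R = N
              then LW Λ R * F (P ++ Q.flatten ++ R) else 0)) + j * e) := by
      intro P
      by_cases hP : fp ht T P
      · rw [if_pos hP]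
        have e3 : ∑' R, LW Λ R * (if HT ht (P ++ R) = N then F (P ++ R) else 0)
            = ∑' R, (if HT ht P + HT ht R = N then LW Λ R * F (P ++ R) else 0) := by
          refine tsum_congr fun R => ?_
          rw [HT_append]
          by_cases h : HT ht P + HT ht R = N
          · rw [if_pos h, if_pos h]
          · rw [if_neg h, if_neg h, mul_zero]
        rw [e3]
        by_cases hg : HT ht P ≤ T + i0
        · have hLg : Lg Λ ht T i0 P = LW Λ P := if_pos ⟨hP, hg⟩
          rw [hLg]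
          refine le_add_left ?_
          refine mul_le_mul_right ?_ _
          have hN' : j * (T + i0) ≤ N - HT ht P := by
            have : (j + 1) * (T + i0) = j * (T + i0) + (T + i0) := by ring
            omega
          have h4 := ih (N - HT ht P) hN' (fun R => F (P ++ R)) (fun R => hF _)
          have e5 : ∑' R, (if HT ht P + HT ht R = N then LW Λ R * F (P ++ R) else 0)
              = ∑' R, (if HT ht R = N - HT ht P then LW Λ R * F (P ++ R) else 0) := by
            refine tsum_congr fun R => ?_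
            by_cases h : HT ht P + HT ht R = N
            · rw [if_pos h, if_pos (by omega)]
            · rw [if_neg h, if_neg (by omega)]
          rw [e5]
          refine h4.trans (add_le_add_left (SL_mono _ _ fun Q _ => ?_) _)
          refine ENNReal.tsum_le_tsum fun R => ?_
          rw [HT_append]
          by_cases h : HT ht Q.flatten + HT ht R = N - HT ht P
          · rw [if_pos h, if_pos (by omega), List.append_assoc]
          · rw [if_neg h]; exact zero_le
        · rw [if_pos ⟨hP, not_le.1 hg⟩]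
          refine le_add_right ?_
          calc LW Λ P * _ ≤ LW Λ P * 1 := by
                gcongr
                exact tsum_HT_le Λ ht hU1 N (HT ht P) (fun R => F (P ++ R)) (fun R => hF _)
            _ = _ := mul_one _
      · rw [if_neg hP]; exact zero_le
    refine (ENNReal.tsum_le_tsum e2).trans ?_
    rw [ENNReal.tsum_add, SL_succ]
    calc _ ≤ e + (∑' P, Lg Λ ht T i0 P * SL (Lg Λ ht T i0) j (fun Q => ∑' R,
            (if HT ht (P ++ Q.flatten) + HT ht R = N
              then LW Λ R * F (P ++ Q.flatten ++ R) else 0)) + j * e) := by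
          refine add_le_add he ?_
          simp_rw [mul_add]
          rw [ENNReal.tsum_add]
          refine add_le_add_right ?_ _
          rw [ENNReal.tsum_mul_right]
          calc _ ≤ 1 * (j * e) := by gcongr; exact sum_Lg Λ ht h1 hΛ T i0
            _ = _ := one_mul _
      _ = _ := by
          push_cast
          simp only [List.flatten_cons]
          ring

/-! ### sums over sequences of pieces -/

variable {P' : Type*} (q : P' → ℝ≥0∞)

lemma SL_tsum {ι : Type*} (j : ℕ) (F : ι → List P' → ℝ≥0∞) :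
    SL q j (fun L => ∑' i, F i L) = ∑' i, SL q j (F i) := by
  simp only [SL]
  rw [ENNReal.tsum_comm]
  refine tsum_congr fun L => ?_
  by_cases h : L.length = j
  · simp only [if_pos h, ENNReal.tsum_mul_left]
  · simp [h]

/-- density of the sequences having a low piece -/
lemma dens_low (hq : ∑' P, q P ≤ 1) {V : Type*} [AddCommGroup V] (hh : P' → ℕ) (zz : P' → V)
    (low : P' → Prop) (th : ℝ≥0∞)
    (hlow : ∀ a y, ∑' P, (if low P ∧ hh P = a ∧ zz P = y then q P else 0) ≤ th) (j : ℕ) :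
    ∀ (a : ℕ) (y : V), SL q j (fun Q => if (∃ P ∈ Q, low P) ∧ (Q.map hh).sum = a ∧
      (Q.map zz).sum = y then 1 else 0) ≤ j * th := by
  induction j with
  | zero => intro a y; rw [SL_zero]; simp
  | succ j ih =>
    intro a y
    rw [SL_succ]
    have e1 : ∀ P, q P * SL q j (fun Q => if (∃ P1 ∈ P :: Q, low P1) ∧ ((P :: Q).map hh).sum = a ∧
        ((P :: Q).map zz).sum = y then 1 else 0)
        ≤ SL q j (fun Q => if low P ∧ hh P = a - (Q.map hh).sum ∧ zz P = y - (Q.map zz).sum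
            then q P else 0)
          + q P * SL q j (fun Q => if (∃ P1 ∈ Q, low P1) ∧ (Q.map hh).sum = a - hh P ∧
            (Q.map zz).sum = y - zz P then 1 else 0) := by
      intro P
      rw [← SL_const_mul, ← SL_const_mul, ← SL_add_fun]
      refine SL_mono _ _ fun Q _ => ?_
      by_cases hc : (∃ P1 ∈ P :: Q, low P1) ∧ ((P :: Q).map hh).sum = a ∧
        ((P :: Q).map zz).sum = y
      · rw [if_pos hc, mul_one]
        obtain ⟨⟨P1, hP1, hl⟩, h2, h3⟩ := hc
        simp only [List.map_cons, List.sum_cons] at h2 h3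
        rcases List.mem_cons.1 hP1 with rfl | hP1
        · rw [if_pos ⟨hl, by omega, by rw [← h3]; abel⟩]
          exact le_self_add
        · rw [if_pos (⟨⟨P1, hP1, hl⟩, by omega, by rw [← h3]; abel⟩ :
            (∃ P1 ∈ Q, low P1) ∧ (Q.map hh).sum = a - hh P ∧ (Q.map zz).sum = y - zz P), mul_one]
          exact le_add_self
      · rw [if_neg hc, mul_zero]; exact zero_le
    refine (ENNReal.tsum_le_tsum e1).trans ?_
    rw [ENNReal.tsum_add, ← SL_tsum]
    calc _ ≤ SL q j (fun _ => th) + ∑' P, q P * (j * th) := by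
          refine add_le_add (SL_mono _ _ fun Q _ => hlow _ _) ?_
          exact ENNReal.tsum_le_tsum fun P => mul_le_mul_right (ih _ _) _
      _ ≤ th + j * th := by
          refine add_le_add ?_ ?_
          · have := SL_const_mul q j th (fun _ => 1)
            rw [SL_pow] at this
            simp only [mul_one] at this
            rw [this]
            calc _ ≤ th * 1 := by gcongr; exact pow_le_one₀ zero_le hq
              _ = th := mul_one _
          · rw [ENNReal.tsum_mul_right]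
            calc _ ≤ 1 * (j * th) := by gcongr
              _ = _ := one_mul _
      _ = _ := by push_cast; ring

/-- no low piece -/
lemma no_low (low : P' → Prop) (r : ℝ≥0∞)
    (hr : ∑' P, (if low P then 0 else q P) ≤ r) (j : ℕ) :
    SL q j (fun Q => if ∃ P ∈ Q, low P then 0 else 1) ≤ r ^ j := by
  induction j with
  | zero => rw [SL_zero]; simp
  | succ j ih =>
    rw [SL_succ]
    calc _ ≤ ∑' P, (if low P then 0 else q P) * r ^ j := by
          refine ENNReal.tsum_le_tsum fun P => ?_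
          by_cases h : low P
          · rw [if_pos h, zero_mul]
            have : SL q j (fun Q => if ∃ P1 ∈ P :: Q, low P1 then (0:ℝ≥0∞) else 1)
                = SL q j (fun _ => 0) := by
              refine SL_congr _ _ fun Q _ => ?_
              rw [if_pos ⟨P, List.mem_cons_self, h⟩]
            rw [this]
            have h0 := SL_const_mul q j 0 (fun _ => 1)
            simp only [zero_mul] at h0
            rw [h0, mul_zero]
          · rw [if_neg h]
            refine mul_le_mul_right ((SL_mono _ _ fun Q _ => ?_).trans ih) _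
            by_cases h2 : ∃ P1 ∈ Q, low P1
            · obtain ⟨P1, h3, h4⟩ := h2
              rw [if_pos ⟨P1, List.mem_cons_of_mem _ h3, h4⟩]
              exact zero_le
            · rw [if_neg h2]
              split_ifs <;> simp
      _ ≤ r * r ^ j := by rw [ENNReal.tsum_mul_right]; gcongr
      _ = _ := by rw [pow_succ, mul_comm]

/-- forget the pieces after the `j`-th -/
lemma marg (hq : ∑' P, q P ≤ 1) [Inhabited P'] (j J : ℕ) (hj : j < J) (F : List P' → P' → ℝ≥0∞) :
    SL q J (fun Q => F (Q.take j) (Q.getD j default))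
      ≤ SL q j (fun Q => ∑' P, q P * F Q P) := by
  obtain ⟨k, rfl⟩ : ∃ k, J = j + (k + 1) := ⟨J - j - 1, by omega⟩
  rw [SL_add]
  refine SL_mono _ _ fun Q hQ => ?_
  rw [SL_succ]
  refine ENNReal.tsum_le_tsum fun P => mul_le_mul_right ?_ _
  have : SL q k (fun L => F ((Q ++ P :: L).take j) ((Q ++ P :: L).getD j default))
      = SL q k (fun _ => F Q P) := by
    refine SL_congr _ _ fun L _ => ?_
    subst hQ
    simp
  rw [this]
  have h0 := SL_const_mul q k (F Q P) (fun _ => 1)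
  rw [SL_pow] at h0
  simp only [mul_one] at h0
  rw [h0]
  calc _ ≤ F Q P * 1 := by gcongr; exact pow_le_one₀ zero_le hq
    _ = _ := mul_one _

end pieces

section push

/-- image sums -/
lemma push {α V : Type*} (W : α → ℝ≥0∞) (φ : α → V) (g : V → ℝ≥0∞) :
    ∑' P, W P * g (φ P) = ∑' v, (∑' P, (if φ P = v then W P else 0)) * g v := by
  simp_rw [← ENNReal.tsum_mul_right]
  rw [ENNReal.tsum_comm]
  refine tsum_congr fun P => ?_
  rw [tsum_eq_single (φ P)]
  · rw [if_pos rfl]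
  · intro v hv; rw [if_neg hv.symm, zero_mul]

lemma push2 {α β V : Type*} (W : α → β → ℝ≥0∞) (φ : α → β → V) (g : V → ℝ≥0∞) :
    ∑' P, ∑' P', W P P' * g (φ P P')
      = ∑' v, (∑' P, ∑' P', (if φ P P' = v then W P P' else 0)) * g v := by
  have h1 : ∀ P, ∑' P', W P P' * g (φ P P')
      = ∑' v, (∑' P', (if φ P P' = v then W P P' else 0)) * g v := fun P => push _ _ _
  simp_rw [h1]
  rw [ENNReal.tsum_comm]
  refine tsum_congr fun v => ?_
  rw [ENNReal.tsum_mul_right]

/-- sum over a window: the walker `α` has a low part (density `≤ M`) or is bad. -/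
lemma local_bound {α β G : Type*} (wX : α → ℝ≥0∞) (wY : β → ℝ≥0∞) (aX : α → ℕ) (aY : β → ℕ)
    (φ : α → β → G) (hwY : ∑' Q, wY Q ≤ 1) (hwX : ∑' Q, wX Q ≤ 1)
    (low : α → Prop) (bad M : ℝ≥0∞) (hbad : ∑' Q, (if low Q then 0 else wX Q) ≤ bad)
    (hM : ∀ a Q' x, ∑' Q, (if low Q ∧ aX Q = a ∧ φ Q Q' = x then wX Q else 0) ≤ M)
    (S S' : Finset ℕ) (hSX : ∀ Q, wX Q ≠ 0 → aX Q ∈ S) (hSY : ∀ Q, wY Q ≠ 0 → aY Q ∈ S')
    (K : ℕ → ℕ → G → ℝ≥0∞) (hK1 : ∀ a a' x, K a a' x ≤ 1) (κ : ℝ≥0∞)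
    (hK : ∀ a ∈ S, ∀ a' ∈ S', ∀ μ : G → ℝ≥0∞, ∑' x, μ x ≤ 1 → (∀ x, μ x ≤ M) →
      ∑' x, μ x * K a a' x ≤ κ) :
    ∑' Q, ∑' Q', wX Q * wY Q' * K (aX Q) (aY Q') (φ Q Q')
      ≤ bad + S.card * (S'.card * κ) := by
  have h1 : ∀ Q Q', wX Q * wY Q' * K (aX Q) (aY Q') (φ Q Q')
      ≤ (if low Q then 0 else wX Q) * wY Q' + ∑ a ∈ S, ∑ a' ∈ S',
        ((if low Q ∧ aX Q = a then wX Q else 0) * (if aY Q' = a' then wY Q' else 0))
          * K a a' (φ Q Q') := by
    intro Q Q'
    by_cases hX : wX Q = 0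
    · simp [hX]
    by_cases hY : wY Q' = 0
    · simp [hY]
    by_cases hl : low Q
    · refine le_add_left ?_
      refine le_trans ?_ (Finset.single_le_sum (f := fun a => ∑ a' ∈ S',
        ((if low Q ∧ aX Q = a then wX Q else 0) * (if aY Q' = a' then wY Q' else 0))
          * K a a' (φ Q Q')) (fun _ _ => zero_le) (hSX Q hX))
      refine le_trans ?_ (Finset.single_le_sum (f := fun a' =>
        ((if low Q ∧ aX Q = aX Q then wX Q else 0) * (if aY Q' = a' then wY Q' else 0))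
          * K (aX Q) a' (φ Q Q')) (fun _ _ => zero_le) (hSY Q' hY))
      simp [hl]
    · refine le_add_right ?_
      rw [if_neg hl]
      calc _ ≤ wX Q * wY Q' * 1 := by gcongr; exact hK1 _ _ _
        _ = _ := mul_one _
  refine (ENNReal.tsum_le_tsum fun Q => ENNReal.tsum_le_tsum fun Q' => h1 Q Q').trans ?_
  have h2 : ∑' Q, ∑' Q', ((if low Q then 0 else wX Q) * wY Q' + ∑ a ∈ S, ∑ a' ∈ S',
        ((if low Q ∧ aX Q = a then wX Q else 0) * (if aY Q' = a' then wY Q' else 0))
          * K a a' (φ Q Q'))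
      = ∑' Q, ∑' Q', (if low Q then 0 else wX Q) * wY Q' + ∑ a ∈ S, ∑ a' ∈ S', ∑' Q, ∑' Q',
        ((if low Q ∧ aX Q = a then wX Q else 0) * (if aY Q' = a' then wY Q' else 0))
          * K a a' (φ Q Q') := by
    simp_rw [ENNReal.tsum_add]
    congr 1
    have e1 : ∀ Q, ∑' Q', ∑ a ∈ S, ∑ a' ∈ S',
        ((if low Q ∧ aX Q = a then wX Q else 0) * (if aY Q' = a' then wY Q' else 0))
          * K a a' (φ Q Q')
        = ∑ a ∈ S, ∑ a' ∈ S', ∑' Q',
        ((if low Q ∧ aX Q = a then wX Q else 0) * (if aY Q' = a' then wY Q' else 0))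
          * K a a' (φ Q Q') := by
      intro Q
      rw [Summable.tsum_finsetSum (fun _ _ => ENNReal.summable)]
      refine Finset.sum_congr rfl fun a _ => ?_
      rw [Summable.tsum_finsetSum (fun _ _ => ENNReal.summable)]
    simp_rw [e1]
    rw [Summable.tsum_finsetSum (fun _ _ => ENNReal.summable)]
    refine Finset.sum_congr rfl fun a _ => ?_
    rw [Summable.tsum_finsetSum (fun _ _ => ENNReal.summable)]
  rw [h2]
  refine add_le_add ?_ ?_
  · simp_rw [ENNReal.tsum_mul_left]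
    rw [ENNReal.tsum_mul_right]
    calc _ ≤ bad * 1 := by gcongr
      _ = _ := mul_one _
  · calc _ ≤ ∑ a ∈ S, ∑ a' ∈ S', κ := by
          refine Finset.sum_le_sum fun a ha => Finset.sum_le_sum fun a' ha' => ?_
          rw [push2 (fun Q Q' => (if low Q ∧ aX Q = a then wX Q else 0) *
            (if aY Q' = a' then wY Q' else 0)) φ (K a a')]
          refine hK a ha a' ha' _ ?_ ?_
          · have e := push2 (fun Q Q' => (if low Q ∧ aX Q = a then wX Q else 0) *
              (if aY Q' = a' then wY Q' else 0)) φ (fun _ => 1)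
            simp only [mul_one] at e
            rw [← e]
            simp_rw [ENNReal.tsum_mul_left]
            rw [ENNReal.tsum_mul_right]
            calc _ ≤ (∑' Q, wX Q) * (∑' Q', wY Q') := by
                  refine mul_le_mul' ?_ ?_
                  · exact ENNReal.tsum_le_tsum fun Q => by split_ifs <;> simp
                  · exact ENNReal.tsum_le_tsum fun Q => by split_ifs <;> simp
              _ ≤ 1 * 1 := mul_le_mul' hwX hwY
              _ = 1 := one_mul _
          · intro x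
            rw [ENNReal.tsum_comm]
            calc _ ≤ ∑' Q', wY Q' * M := by
                  refine ENNReal.tsum_le_tsum fun Q' => ?_
                  refine le_trans ?_ (mul_le_mul_right (hM a Q' x) _)
                  rw [← ENNReal.tsum_mul_left]
                  refine ENNReal.tsum_le_tsum fun Q => ?_
                  by_cases hc : φ Q Q' = x
                  · rw [if_pos hc]
                    by_cases hl : low Q ∧ aX Q = a
                    · have hl' : low Q ∧ aX Q = a ∧ φ Q Q' = x := ⟨hl.1, hl.2, hc⟩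
                      simp only [if_pos hl, if_pos hl']
                      rw [mul_comm (wY Q')]
                      refine mul_le_mul' le_rfl ?_
                      split_ifs <;> simp
                    · rw [if_neg hl, zero_mul]; exact zero_le
                  · rw [if_neg hc]; exact zero_le
              _ ≤ 1 * M := by rw [ENNReal.tsum_mul_right]; gcongr
              _ = M := one_mul _
      _ = _ := by simp

end push

section pieces2

variable {B G : Type*} [AddCommGroup G] (Λ : B → ℝ≥0∞) (ht : B → ℕ) (z : B → G)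

lemma sum_FP_eq (h1 : ∀ b, 1 ≤ ht b) (hΛ : ∑' b, Λ b = 1) (a : ℕ) :
    ∑' L, (if fp ht a L then LW Λ L else 0) = 1 := by
  induction a using Nat.strong_induction_on with
  | _ a ih =>
    rcases Nat.eq_zero_or_pos a with rfl | ha
    · have := sum_fp_zero Λ ht (fun _ => 1)
      simp only [mul_one] at this
      exact this
    · have := sum_fp_step Λ ht a ha (fun _ => 1)
      simp only [mul_one] at this
      rw [this]
      have : ∀ b, Λ b * ∑' L, (if fp ht (a - ht b) L then LW Λ L else 0) = Λ b := by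
        intro b
        rw [ih (a - ht b) (by have := h1 b; omega), mul_one]
      simp_rw [this]
      exact hΛ

/-- law of the first passage of depth `T` -/
noncomputable def pl (T : ℕ) (v : ℕ × G) : ℝ≥0∞ :=
  ∑' P, (if fp ht T P ∧ (HT ht P, Dp z P) = v then LW Λ P else 0)

lemma pl_push (T : ℕ) (g : ℕ × G → ℝ≥0∞) :
    ∑' P, (if fp ht T P then LW Λ P else 0) * g (HT ht P, Dp z P) = ∑' v, pl Λ ht z T v * g v := by
  rw [push (fun P => if fp ht T P then LW Λ P else 0) (fun P => (HT ht P, Dp z P)) g]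
  refine tsum_congr fun v => ?_
  congr 1
  refine tsum_congr fun P => ?_
  by_cases h : (HT ht P, Dp z P) = v
  · by_cases h' : fp ht T P <;> simp [h, h']
  · simp [h]

lemma sum_pl (h1 : ∀ b, 1 ≤ ht b) (hΛ : ∑' b, Λ b = 1) (T : ℕ) : ∑' v, pl Λ ht z T v = 1 := by
  have := pl_push Λ ht z T (fun _ => 1)
  simp only [mul_one] at this
  rw [← this]
  exact sum_FP_eq Λ ht h1 hΛ T

/-- the threshold and its three consequences for good pieces -/
lemma thr (h1 : ∀ b, 1 ≤ ht b) (hΛ : ∑' b, Λ b = 1) (T i0 : ℕ) {u : ℝ≥0∞} (hu0 : u ≠ 0)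
    (hu1 : u ≤ 1) : ∃ th : ℝ≥0∞, th ≠ 0 ∧ th ≤ 1 ∧
      ∑' P, (if th ≤ pl Λ ht z T (HT ht P, Dp z P) then 0 else Lg Λ ht T i0 P) ≤ u ∧
      ∑' P, (if pl Λ ht z T (HT ht P, Dp z P) ≤ th then 0 else Lg Λ ht T i0 P) ≤ 1 - u ∧
      (∀ a y, ∑' P, (if pl Λ ht z T (HT ht P, Dp z P) ≤ th ∧ HT ht P = a ∧ Dp z P = y
        then Lg Λ ht T i0 P else 0) ≤ th) ∧
      ∀ h : ℕ, ∃ E : Finset G, (∀ y, th ≤ pl Λ ht z T (h, y) → y ∈ E) ∧ th * (E.card : ℝ≥0∞) ≤ 1 := by
  obtain ⟨th, h0, h2, h3, h4⟩ := Dens903.quantile (pl Λ ht z T) (sum_pl Λ ht z h1 hΛ T) hu0 hu1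
  have hLg : ∀ P, Lg Λ ht T i0 P ≤ (if fp ht T P then LW Λ P else 0) := by
    intro P
    rw [Lg]
    by_cases h : gp ht T i0 P
    · rw [if_pos h, if_pos h.1]
    · rw [if_neg h]; exact zero_le
  refine ⟨th, h0, h2, ?_, ?_, ?_, ?_⟩
  · refine le_trans ?_ h3
    have e := pl_push Λ ht z T (fun v => if th ≤ pl Λ ht z T v then 0 else 1)
    calc _ ≤ ∑' P, (if fp ht T P then LW Λ P else 0) *
          (if th ≤ pl Λ ht z T (HT ht P, Dp z P) then 0 else 1) := by
          refine ENNReal.tsum_le_tsum fun P => ?_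
          by_cases h : th ≤ pl Λ ht z T (HT ht P, Dp z P)
          · simp [h]
          · simp only [if_neg h, mul_one]; exact hLg P
      _ = _ := e
      _ ≤ _ := by
          refine ENNReal.tsum_le_tsum fun v => ?_
          by_cases h : th ≤ pl Λ ht z T v
          · simp [h]
          · simp only [if_neg h, mul_one, if_pos (not_le.1 h)]; exact le_rfl
  · have e := pl_push Λ ht z T (fun v => if pl Λ ht z T v ≤ th then 0 else 1)
    have h5 : ∑' v, pl Λ ht z T v * (if pl Λ ht z T v ≤ th then 0 else 1) + u ≤ 1 := by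
      calc _ ≤ ∑' v, pl Λ ht z T v * (if pl Λ ht z T v ≤ th then 0 else 1)
            + ∑' v, (if pl Λ ht z T v ≤ th then pl Λ ht z T v else 0) := add_le_add le_rfl h4
        _ = ∑' v, pl Λ ht z T v := by
            rw [← ENNReal.tsum_add]
            refine tsum_congr fun v => ?_
            by_cases h : pl Λ ht z T v ≤ th <;> simp [h]
        _ = 1 := sum_pl Λ ht z h1 hΛ T
        _ ≤ 1 := le_rfl
    refine le_trans ?_ (ENNReal.le_sub_of_add_le_right
      (ne_top_of_le_ne_top ENNReal.one_ne_top hu1) h5)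
    rw [← e]
    refine ENNReal.tsum_le_tsum fun P => ?_
    by_cases h : pl Λ ht z T (HT ht P, Dp z P) ≤ th
    · simp [h]
    · simp only [if_neg h, mul_one]; exact hLg P
  · intro a y
    by_cases hc : pl Λ ht z T (a, y) ≤ th
    · refine le_trans (ENNReal.tsum_le_tsum fun P => ?_) hc
      by_cases h : pl Λ ht z T (HT ht P, Dp z P) ≤ th ∧ HT ht P = a ∧ Dp z P = y
      · rw [if_pos h]
        refine (hLg P).trans ?_
        have : (HT ht P, Dp z P) = (a, y) := by rw [h.2.1, h.2.2]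
        by_cases h' : fp ht T P
        · rw [if_pos h', if_pos ⟨h', this⟩]
        · rw [if_neg h']; exact zero_le
      · rw [if_neg h]; exact zero_le
    · have : ∀ P, (if pl Λ ht z T (HT ht P, Dp z P) ≤ th ∧ HT ht P = a ∧ Dp z P = y
        then Lg Λ ht T i0 P else 0) = 0 := by
        intro P
        refine if_neg ?_
        rintro ⟨h6, h7, h8⟩
        rw [h7, h8] at h6
        exact hc h6
      simp [this]
  · intro h
    have hfin : {y : G | th ≤ pl Λ ht z T (h, y)}.Finite := by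
      have := Dens903.finite_level (pl Λ ht z T) (by rw [sum_pl Λ ht z h1 hΛ T]; exact
        ENNReal.one_ne_top) h0
      refine this.preimage (f := fun y : G => (h, y)) ?_
      intro a _ b _ hab
      simpa using hab
    refine ⟨hfin.toFinset, fun y hy => by simpa using hy, ?_⟩
    have h6 : ∑ y ∈ hfin.toFinset, th ≤ 1 := by
      calc _ ≤ ∑ y ∈ hfin.toFinset, pl Λ ht z T (h, y) :=
            Finset.sum_le_sum fun y hy => by simpa using hy
        _ ≤ ∑' y, pl Λ ht z T (h, y) := ENNReal.sum_le_tsum _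
        _ ≤ ∑' v, pl Λ ht z T v := ENNReal.tsum_comp_le_tsum_of_injective
            (f := fun y : G => (h, y)) (fun a b hab => by simpa using hab) _
        _ = 1 := sum_pl Λ ht z h1 hΛ T
    simpa [mul_comm] using h6

/-- the same with opaque predicates -/
lemma thr' (h1 : ∀ b, 1 ≤ ht b) (hΛ : ∑' b, Λ b = 1) (T i0 : ℕ) {u : ℝ≥0∞} (hu0 : u ≠ 0)
    (hu1 : u ≤ 1) : ∃ (loc low : List B → Prop) (th : ℝ≥0∞),
      ∑' P, (if loc P then 0 else Lg Λ ht T i0 P) ≤ u ∧
      ∑' P, (if low P then 0 else Lg Λ ht T i0 P) ≤ 1 - u ∧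
      (∀ a y, ∑' P, (if low P ∧ HT ht P = a ∧ Dp z P = y then Lg Λ ht T i0 P else 0) ≤ th) ∧
      ∀ h : ℕ, ∃ E : Finset G, (∀ P, loc P → HT ht P = h → Dp z P ∈ E) ∧
        th * (E.card : ℝ≥0∞) ≤ 1 := by
  obtain ⟨th, _, _, h3, h4, h5, h6⟩ := thr Λ ht z h1 hΛ T i0 hu0 hu1
  refine ⟨fun P => th ≤ pl Λ ht z T (HT ht P, Dp z P), fun P => pl Λ ht z T (HT ht P, Dp z P) ≤ th,
    th, ?_, ?_, ?_, ?_⟩
  · refine le_trans (le_of_eq (tsum_congr fun P => ?_)) h3
    split_ifs <;> rfl
  · refine le_trans (le_of_eq (tsum_congr fun P => ?_)) h4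
    split_ifs <;> rfl
  · intro a y
    refine le_trans (le_of_eq (tsum_congr fun P => ?_)) (h5 a y)
    split_ifs <;> rfl
  · intro h
    obtain ⟨E, hE, hE2⟩ := h6 h
    exact ⟨E, fun P hP hh => hE _ (by rw [← hh]; exact hP), hE2⟩

end pieces2

section det

variable {B G : Type*} [AddCommGroup G] (ht : B → ℕ) (z : B → G) (s : B → Set (G × ℕ))

lemma split_at (Q : List (List B)) (j : ℕ) (hj : j < Q.length) (R : List B) :
    Q.flatten ++ R = (Q.take j).flatten ++ (Q.getD j [] ++ ((Q.drop (j + 1)).flatten ++ R)) := by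
  have h : Q.flatten = (Q.take j ++ Q[j] :: Q.drop (j + 1)).flatten := by
    rw [← List.drop_eq_getElem_cons hj, List.take_append_drop]
  rw [h]
  simp only [List.flatten_append, List.flatten_cons, List.append_assoc,
    List.getD_eq_getElem _ _ hj]

lemma mem_piece (hs : ∀ b y k, (y, k) ∈ s b → 1 ≤ k ∧ k ≤ ht b) (Q : List (List B)) (j : ℕ)
    (hj : j < Q.length) (R : List B) (x : G) (a0 k : ℕ) (hk1 : a0 + HT ht (Q.take j).flatten < k)
    (hk2 : k ≤ a0 + HT ht (Q.take j).flatten + HT ht (Q.getD j [])) (y : G) :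
    (y, k) ∈ TT ht z s (Q.flatten ++ R) x a0 ↔
      (y, k) ∈ TT ht z s (Q.getD j []) (x + Dp z (Q.take j).flatten)
        (a0 + HT ht (Q.take j).flatten) := by
  rw [split_at Q j hj R, TT_append, TT_append]
  constructor
  · rintro (h | h | h)
    · have := TT_depth ht z s hs _ _ _ _ _ h
      omega
    · exact h
    · have := TT_depth ht z s hs _ _ _ _ _ h
      omega
  · intro h; exact Or.inr (Or.inl h)

lemma HT_good (T i0 : ℕ) (Q : List (List B)) (hQ : ∀ P ∈ Q, gp ht T i0 P) :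
    Q.length * T ≤ HT ht Q.flatten ∧ HT ht Q.flatten ≤ Q.length * T + Q.length * i0 := by
  induction Q with
  | nil => simp [HT_nil]
  | cons P Q ih =>
    have h1 := hQ P List.mem_cons_self
    have h2 := ih fun P' hP' => hQ P' (List.mem_cons_of_mem _ hP')
    have h3 := le_HT_of_fp ht h1.1
    have h4 := h1.2
    rw [List.flatten_cons, HT_append, List.length_cons]
    constructor
    · nlinarith [h2.1]
    · nlinarith [h2.2]

lemma good_of_LW {Λ : B → ℝ≥0∞} {T i0 : ℕ} {Q : List (List B)}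
    (h : LW (Lg Λ ht T i0) Q ≠ 0) : ∀ P ∈ Q, gp ht T i0 P := by
  induction Q with
  | nil => intro P hP; simp at hP
  | cons P Q ih =>
    rw [LW_cons] at h
    have h1 := left_ne_zero_of_mul h
    have h2 := right_ne_zero_of_mul h
    intro P' hP'
    rcases List.mem_cons.1 hP' with rfl | hP'
    · by_contra hc
      exact h1 (if_neg hc)
    · exact ih h2 P' hP'

lemma HT_flatten (Q : List (List B)) : HT ht Q.flatten = (Q.map (HT ht)).sum := by
  induction Q with
  | nil => simp [HT_nil]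
  | cons P Q ih => rw [List.flatten_cons, HT_append, ih]; simp

lemma Dp_flatten (Q : List (List B)) : Dp z Q.flatten = (Q.map (Dp z)).sum := by
  induction Q with
  | nil => simp [Dp_nil]
  | cons P Q ih => rw [List.flatten_cons, Dp_append, ih]; simp

end det

section win

variable {BX BY G : Type*} [AddCommGroup G]
  (hX : BX → ℕ) (hY : BY → ℕ) (zX : BX → G) (zY : BY → G) (sX : BX → Set (G × ℕ))
  (sY : BY → Set (G × ℕ))

/-- all common sites of the two pieces have depth in `[lo, hi]`, and there is one -/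
def Win (lo hi : ℕ) (L : List BX) (L' : List BY) (a a' : ℕ) (x : G) : Prop :=
  (∃ y k, (y, k) ∈ TT hX zX sX L 0 a ∧ (y, k) ∈ TT hY zY sY L' x a') ∧
    ∀ y k, (y, k) ∈ TT hX zX sX L 0 a → (y, k) ∈ TT hY zY sY L' x a' → lo ≤ k ∧ k ≤ hi

/-- common site at depth `k` -/
def Ct (L : List BX) (L' : List BY) (w : G) (k : ℕ) : Prop :=
  ∃ y, (y, k) ∈ TT hX zX sX L 0 0 ∧ (y, k) ∈ TT hY zY sY L' w 0

lemma det (hsX : ∀ b y k, (y, k) ∈ sX b → 1 ≤ k ∧ k ≤ hX b)
    (hsY : ∀ b y k, (y, k) ∈ sY b → 1 ≤ k ∧ k ≤ hY b) (T i0 s J j0 m D : ℕ) (hs : 1 ≤ s)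
    (hD : D = 2 * (J * i0) + i0)
    (hJ : J * T + D ≤ 2 * m) (hm : j0 * T ≤ m) (Q : List (List BX)) (Q' : List (List BY))
    (hQ : Q.length = J) (hQ' : Q'.length = J) (hg : ∀ P ∈ Q, gp hX T i0 P)
    (hg' : ∀ P ∈ Q', gp hY T i0 P) (A0 : List BY) (hA0 : J * i0 ≤ HT hY A0)
    (hA0' : HT hY A0 ≤ J * i0 + i0) (R : List BX) (R' : List BY) (w : G) (k : ℕ) (hk : m < k)
    (hk2 : k ≤ 2 * m) (hC : Ct hX hY zX zY sX sY (Q.flatten ++ R) (A0 ++ (Q'.flatten ++ R')) w k)
    (hslab : ∀ k', j0 * T ≤ k' → k' ≤ 2 * m →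
      Ct hX hY zX zY sX sY (Q.flatten ++ R) (A0 ++ (Q'.flatten ++ R')) w k' →
      ∃ j < J, j * T + D + s ≤ k' ∧ k' + s ≤ (j + 1) * T) :
    ∃ j, j0 ≤ j ∧ j < J ∧ Win hX hY zX zY sX sY (j * T + D + s) ((j + 1) * T - s)
      (Q.getD j []) (Q'.getD j []) (HT hX (Q.take j).flatten)
      (HT hY A0 + HT hY (Q'.take j).flatten)
      (w + (Dp zY A0 + Dp zY (Q'.take j).flatten) - Dp zX (Q.take j).flatten) := by
  obtain ⟨j, hjJ, hj1, hj2⟩ := hslab k (by omega) hk2 hC
  have hj0 : j0 ≤ j := by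
    by_contra hc
    have : j + 1 ≤ j0 := by omega
    have := Nat.mul_le_mul_right T this
    omega
  -- heights
  have hgt : ∀ P ∈ Q.take j, gp hX T i0 P := fun P hP => hg P (List.mem_of_mem_take hP)
  have hgt' : ∀ P ∈ Q'.take j, gp hY T i0 P := fun P hP => hg' P (List.mem_of_mem_take hP)
  have hA := HT_good hX T i0 _ hgt
  have hA' := HT_good hY T i0 _ hgt'
  rw [List.length_take, hQ, min_eq_left hjJ.le] at hA
  rw [List.length_take, hQ', min_eq_left hjJ.le] at hA'
  have hP : gp hX T i0 (Q.getD j []) := by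
    rw [List.getD_eq_getElem _ _ (by omega)]
    exact hg _ (List.getElem_mem _)
  have hP' : gp hY T i0 (Q'.getD j []) := by
    rw [List.getD_eq_getElem _ _ (by omega)]
    exact hg' _ (List.getElem_mem _)
  have hPT := le_HT_of_fp hX hP.1
  have hPT' := le_HT_of_fp hY hP'.1
  have hPi := hP.2
  have hPi' := hP'.2
  have hji : j * i0 ≤ J * i0 := Nat.mul_le_mul_right _ hjJ.le
  have hji2 : (j + 1) * i0 ≤ J * i0 := Nat.mul_le_mul_right _ hjJ
  have e1 : (j + 1) * T = j * T + T := by ring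
  have e2 : (j + 1) * i0 = j * i0 + i0 := by ring
  have e4 : (j + 1) * T ≤ J * T := Nat.mul_le_mul_right _ hjJ
  have tr : ∀ (y : G) (k' : ℕ), (y, k') ∈ TT hX zX sX (Q.getD j []) 0 (HT hX (Q.take j).flatten) ↔
      (Dp zX (Q.take j).flatten + y, k') ∈ TT hX zX sX (Q.getD j [])
        (0 + Dp zX (Q.take j).flatten) (0 + HT hX (Q.take j).flatten) := by
    intro y k'
    rw [← TT_shift hX zX sX (Q.getD j []) 0 (Dp zX (Q.take j).flatten), add_zero, zero_add,
      zero_add]
  have tr' : ∀ (y : G) (k' : ℕ), (y, k') ∈ TT hY zY sY (Q'.getD j [])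
      (w + (Dp zY A0 + Dp zY (Q'.take j).flatten) - Dp zX (Q.take j).flatten)
        (HT hY A0 + HT hY (Q'.take j).flatten) ↔
      (Dp zX (Q.take j).flatten + y, k') ∈ TT hY zY sY (Q'.getD j [])
        (w + Dp zY A0 + Dp zY (Q'.take j).flatten) (HT hY A0 + HT hY (Q'.take j).flatten) := by
    intro y k'
    rw [← TT_shift hY zY sY (Q'.getD j []) (w + (Dp zY A0 + Dp zY (Q'.take j).flatten) -
      Dp zX (Q.take j).flatten) (Dp zX (Q.take j).flatten), add_sub_cancel, add_assoc w]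
  have yy : ∀ (y : G) (k' : ℕ), HT hY A0 < k' → ((y, k') ∈ TT hY zY sY
      (A0 ++ (Q'.flatten ++ R')) w 0 ↔ (y, k') ∈ TT hY zY sY (Q'.flatten ++ R')
        (w + Dp zY A0) (HT hY A0)) := by
    intro y k' hk'
    rw [TT_append, zero_add]
    constructor
    · rintro (h | h)
      · have := TT_depth hY zY sY hsY _ _ _ _ _ h
        omega
      · exact h
    · intro h; exact Or.inr h
  refine ⟨j, hj0, hjJ, ?_, ?_⟩
  · obtain ⟨y, h1, h2⟩ := hC
    rw [mem_piece hX zX sX hsX Q j (by omega) R 0 0 k (by omega) (by omega)] at h1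
    rw [yy y k (by omega),
      mem_piece hY zY sY hsY Q' j (by omega) R' _ (HT hY A0) k (by omega) (by omega)] at h2
    refine ⟨y - Dp zX (Q.take j).flatten, k, ?_, ?_⟩
    · rw [tr, add_sub_cancel]; exact h1
    · rw [tr', add_sub_cancel]; exact h2
  · intro y k' h1 h2
    have d1 := TT_depth hX zX sX hsX _ _ _ _ _ h1
    have d2 := TT_depth hY zY sY hsY _ _ _ _ _ h2
    rw [tr] at h1
    rw [tr'] at h2
    rw [← mem_piece hX zX sX hsX Q j (by omega) R 0 0 k' (by omega) (by omega)] at h1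
    rw [← mem_piece hY zY sY hsY Q' j (by omega) R' _ (HT hY A0) k' (by omega) (by omega),
      ← yy _ k' (by omega)] at h2
    have hj0T : j0 * T ≤ j * T := Nat.mul_le_mul_right _ hj0
    obtain ⟨j', hj'J, h3, h4⟩ := hslab k' (by omega) (by omega) ⟨_, h1, h2⟩
    have hj' : j' = j := by
      have e5 : (j' + 1) * T = j' * T + T := by ring
      rcases Nat.lt_trichotomy j' j with hlt | heq | hgt'
      · have := Nat.mul_le_mul_right T (show j' + 1 ≤ j by omega)
        omega
      · exact heq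
      · have := Nat.mul_le_mul_right T (show j + 1 ≤ j' by omega)
        omega
    subst hj'
    omega

end win

section wd

variable {BX BY G : Type*} [AddCommGroup G] (ΛX : BX → ℝ≥0∞) (ΛY : BY → ℝ≥0∞)
  (hX : BX → ℕ) (hY : BY → ℕ) (zX : BX → G) (zY : BY → G) (sX : BX → Set (G × ℕ))
  (sY : BY → Set (G × ℕ))

/-- window inequality, `X` local (weakest form: all side conditions available) -/
def H2L (C : ℝ≥0∞) (us : ℕ → ℝ≥0∞) : Prop :=
  ∀ (s h h' a a' lo hi : ℕ) (E : Finset G) (μ : G → ℝ≥0∞) (M lam : ℝ≥0∞), ∑' x, μ x ≤ 1 →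
    (∀ x, μ x ≤ M) → lam ≠ 0 → lam ≠ ⊤ → a ≤ a' → a + h ≤ a' + h' → a + s ≤ lo → a' + s ≤ lo →
    hi + s ≤ a + h → hi + s ≤ a' + h' →
    ∑' x, μ x * ∑' L : List BX, ∑' L' : List BY,
      (if HT hX L = h ∧ Dp zX L ∈ E ∧ HT hY L' = h' ∧ Win hX hY zX zY sX sY lo hi L L' a a' x
        then LW ΛX L * LW ΛY L' else 0)
      ≤ C * (lam + M * E.card * us s / lam + us s)

/-- window inequality, `Y` local -/
def H3L (C : ℝ≥0∞) (us : ℕ → ℝ≥0∞) : Prop :=
  ∀ (s h h' a a' lo hi : ℕ) (E : Finset G) (μ : G → ℝ≥0∞) (M lam : ℝ≥0∞), ∑' x, μ x ≤ 1 →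
    (∀ x, μ x ≤ M) → lam ≠ 0 → lam ≠ ⊤ → a ≤ a' → a + h ≤ a' + h' → a + s ≤ lo → a' + s ≤ lo →
    hi + s ≤ a + h → hi + s ≤ a' + h' →
    ∑' x, μ x * ∑' L : List BX, ∑' L' : List BY,
      (if HT hX L = h ∧ HT hY L' = h' ∧ Dp zY L' ∈ E ∧ Win hX hY zX zY sX sY lo hi L L' a a' x
        then LW ΛX L * LW ΛY L' else 0)
      ≤ C * (lam + M * E.card * us s / lam + us s)

/-- pair sums over pieces with fixed heights -/
lemma grid (T i0 : ℕ) (Φ : List BX → List BY → Prop) :
    ∑' P, ∑' P', (if Φ P P' then Lg ΛX hX T i0 P * Lg ΛY hY T i0 P' else 0)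
      ≤ ∑ h ∈ Finset.Icc T (T + i0), ∑ h' ∈ Finset.Icc T (T + i0),
        ∑' L, ∑' L', (if HT hX L = h ∧ HT hY L' = h' ∧ Φ L L' then LW ΛX L * LW ΛY L' else 0) := by
  have e1 : ∀ P P', (if Φ P P' then Lg ΛX hX T i0 P * Lg ΛY hY T i0 P' else 0)
      ≤ ∑ h ∈ Finset.Icc T (T + i0), ∑ h' ∈ Finset.Icc T (T + i0),
        (if HT hX P = h ∧ HT hY P' = h' ∧ Φ P P' then LW ΛX P * LW ΛY P' else 0) := by
    intro P P'
    by_cases hΦ : Φ P P'
    · by_cases hP : gp hX T i0 P
      · by_cases hP' : gp hY T i0 P'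
        · have h1 : HT hX P ∈ Finset.Icc T (T + i0) :=
            Finset.mem_Icc.2 ⟨le_HT_of_fp hX hP.1, hP.2⟩
          have h2 : HT hY P' ∈ Finset.Icc T (T + i0) :=
            Finset.mem_Icc.2 ⟨le_HT_of_fp hY hP'.1, hP'.2⟩
          refine le_trans ?_ (Finset.single_le_sum (f := fun h => ∑ h' ∈ Finset.Icc T (T + i0),
            (if HT hX P = h ∧ HT hY P' = h' ∧ Φ P P' then LW ΛX P * LW ΛY P' else 0))
            (fun _ _ => zero_le) h1)
          refine le_trans ?_ (Finset.single_le_sum (f := fun h' =>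
            (if HT hX P = HT hX P ∧ HT hY P' = h' ∧ Φ P P' then LW ΛX P * LW ΛY P' else 0))
            (fun _ _ => zero_le) h2)
          simp [hΦ, Lg, hP, hP']
        · simp [Lg, hP']
      · simp [Lg, hP]
    · simp [hΦ]
  refine (ENNReal.tsum_le_tsum fun P => ENNReal.tsum_le_tsum fun P' => e1 P P').trans (le_of_eq ?_)
  have e2 : ∀ P : List BX, ∑' P', ∑ h ∈ Finset.Icc T (T + i0), ∑ h' ∈ Finset.Icc T (T + i0),
        (if HT hX P = h ∧ HT hY P' = h' ∧ Φ P P' then LW ΛX P * LW ΛY P' else 0)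
      = ∑ h ∈ Finset.Icc T (T + i0), ∑ h' ∈ Finset.Icc T (T + i0), ∑' P',
        (if HT hX P = h ∧ HT hY P' = h' ∧ Φ P P' then LW ΛX P * LW ΛY P' else 0) := by
    intro P
    rw [Summable.tsum_finsetSum (fun _ _ => ENNReal.summable)]
    refine Finset.sum_congr rfl fun a _ => ?_
    rw [Summable.tsum_finsetSum (fun _ _ => ENNReal.summable)]
  simp_rw [e2]
  rw [Summable.tsum_finsetSum (fun _ _ => ENNReal.summable)]
  refine Finset.sum_congr rfl fun a _ => ?_
  rw [Summable.tsum_finsetSum (fun _ _ => ENNReal.summable)]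

/-- from a bound for fixed heights to a bound for the pieces -/
lemma grid_mu (T i0 : ℕ) (Φ : G → List BX → List BY → Prop) (μ : G → ℝ≥0∞) (κ : ℝ≥0∞)
    (hκ : ∀ h ∈ Finset.Icc T (T + i0), ∀ h' ∈ Finset.Icc T (T + i0),
      ∑' x, μ x * ∑' L, ∑' L', (if HT hX L = h ∧ HT hY L' = h' ∧ Φ x L L'
        then LW ΛX L * LW ΛY L' else 0) ≤ κ) :
    ∑' x, μ x * ∑' P, ∑' P', (if Φ x P P' then Lg ΛX hX T i0 P * Lg ΛY hY T i0 P' else 0)
      ≤ (i0 + 1 : ℕ) * ((i0 + 1 : ℕ) * κ) := by
  calc _ ≤ ∑' x, ∑ h ∈ Finset.Icc T (T + i0), ∑ h' ∈ Finset.Icc T (T + i0), μ x *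
        ∑' L, ∑' L', (if HT hX L = h ∧ HT hY L' = h' ∧ Φ x L L' then LW ΛX L * LW ΛY L' else 0) := by
        refine ENNReal.tsum_le_tsum fun x => ?_
        refine (mul_le_mul_right (grid ΛX ΛY hX hY T i0 (Φ x)) (μ x)).trans (le_of_eq ?_)
        rw [Finset.mul_sum]
        refine Finset.sum_congr rfl fun a _ => ?_
        rw [Finset.mul_sum]
    _ = ∑ h ∈ Finset.Icc T (T + i0), ∑ h' ∈ Finset.Icc T (T + i0), ∑' x, μ x *
        ∑' L, ∑' L', (if HT hX L = h ∧ HT hY L' = h' ∧ Φ x L L' then LW ΛX L * LW ΛY L' else 0) := by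
        rw [Summable.tsum_finsetSum (fun _ _ => ENNReal.summable)]
        refine Finset.sum_congr rfl fun a _ => ?_
        rw [Summable.tsum_finsetSum (fun _ _ => ENNReal.summable)]
    _ ≤ ∑ h ∈ Finset.Icc T (T + i0), ∑ h' ∈ Finset.Icc T (T + i0), κ :=
        Finset.sum_le_sum fun h hh => Finset.sum_le_sum fun h' hh' => hκ h hh h' hh'
    _ = _ := by
        simp [show T + i0 + 1 - T = i0 + 1 by omega]

/-- the window event has small weight (Lists of pieces, first piece of `Y` from depth `r0`) -/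
theorem window (h1X : ∀ b, 1 ≤ hX b) (h1Y : ∀ b, 1 ≤ hY b) (hΛX : ∑' b, ΛX b = 1)
    (hΛY : ∑' b, ΛY b = 1) (C : ℝ≥0∞) (us : ℕ → ℝ≥0∞)
    (H2 : H2L ΛX ΛY hX hY zX zY sX sY C us) (H3 : H3L ΛX ΛY hX hY zX zY sX sY C us)
    (T i0 J j s D : ℕ) (hj : j < J) (hD : D = 2 * (J * i0) + i0) (hT : D + 2 * s ≤ T)
    (u lam : ℝ≥0∞) (hu0 : u ≠ 0) (hu1 : u ≤ 1) (hl0 : lam ≠ 0) (hlt : lam ≠ ⊤) (w : G) :
    SL (Lg ΛX hX T i0) j (fun Q => ∑' P, Lg ΛX hX T i0 P * ∑' A0, Lg ΛY hY (J * i0) i0 A0 *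
      SL (Lg ΛY hY T i0) j (fun Q' => ∑' P', Lg ΛY hY T i0 P' *
        (if Win hX hY zX zY sX sY (j * T + D + s) ((j + 1) * T - s) P P' (HT hX Q.flatten)
          (HT hY A0 + HT hY Q'.flatten)
          (w + (Dp zY A0 + Dp zY Q'.flatten) - Dp zX Q.flatten) then 1 else 0)))
      ≤ 2 * ((1 - u) ^ j + ((D + 1 : ℕ) * ((D + 1 : ℕ) * ((i0 + 1 : ℕ) * ((i0 + 1 : ℕ) *
        (C * (lam + J * us s / lam + us s))))))) + u * u := by
  obtain ⟨locX, lowX, thX, nlX, hiX, loX, EX⟩ := thr' ΛX hX zX h1X hΛX T i0 hu0 hu1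
  obtain ⟨locY, lowY, thY, nlY, hiY, loY, EY⟩ := thr' ΛY hY zY h1Y hΛY T i0 hu0 hu1
  have sqX := sum_Lg ΛX hX h1X hΛX.le T i0
  have sqY := sum_Lg ΛY hY h1Y hΛY.le T i0
  have sq0 := sum_Lg ΛY hY h1Y hΛY.le (J * i0) i0
  set qX := Lg ΛX hX T i0 with hqX
  set qY := Lg ΛY hY T i0 with hqY
  set q0 := Lg ΛY hY (J * i0) i0 with hq0
  set lo := j * T + D + s with hlo
  set hi := (j + 1) * T - s with hhi
  set κ0 := C * (lam + J * us s / lam + us s) with hκ0
  -- weights
  let wX : List (List BX) → ℝ≥0∞ := fun Q => if Q.length = j then LW qX Q else 0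
  let wY : List (List BY) → ℝ≥0∞ := fun Q => if Q.length = j then LW qY Q else 0
  let wB : List BY × List (List BY) → ℝ≥0∞ := fun b => q0 b.1 * wY b.2
  have SLX : ∀ F : List (List BX) → ℝ≥0∞, SL qX j F = ∑' Q, wX Q * F Q := by
    intro F
    refine tsum_congr fun Q => ?_
    by_cases h : Q.length = j <;> simp [wX, h]
  have SLY : ∀ F : List (List BY) → ℝ≥0∞, SL qY j F = ∑' Q, wY Q * F Q := by
    intro F
    refine tsum_congr fun Q => ?_
    by_cases h : Q.length = j <;> simp [wY, h]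
  let K : ℕ → ℕ → G → ℝ≥0∞ := fun a a' x => ∑' P, ∑' P',
    (if Win hX hY zX zY sX sY lo hi P P' a a' x then qX P * qY P' else 0)
  let K2 : ℕ → ℕ → G → ℝ≥0∞ := fun a a' x => ∑' P, ∑' P',
    (if locX P ∧ Win hX hY zX zY sX sY lo hi P P' a a' x then qX P * qY P' else 0)
  let K3 : ℕ → ℕ → G → ℝ≥0∞ := fun a a' x => ∑' P, ∑' P',
    (if locY P' ∧ Win hX hY zX zY sX sY lo hi P P' a a' x then qX P * qY P' else 0)
  let φ : List (List BX) → List BY × List (List BY) → G := fun Q b =>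
    w + (Dp zY b.1 + Dp zY b.2.flatten) - Dp zX Q.flatten
  have sum1 : ∀ Φ : List BX → List BY → Prop,
      ∑' P, ∑' P', (if Φ P P' then qX P * qY P' else 0) ≤ 1 := by
    intro Φ
    calc _ ≤ ∑' P, ∑' P', qX P * qY P' := by
          refine ENNReal.tsum_le_tsum fun P => ENNReal.tsum_le_tsum fun P' => ?_
          split_ifs <;> simp
      _ = (∑' P, qX P) * ∑' P', qY P' := by
          simp_rw [ENNReal.tsum_mul_left]
          rw [ENNReal.tsum_mul_right]
      _ ≤ 1 * 1 := mul_le_mul' sqX sqY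
      _ = 1 := one_mul _
  have K2_1 : ∀ a a' x, K2 a a' x ≤ 1 := by
    intro a a' x
    refine le_trans (le_of_eq ?_) (sum1 (fun P P' => locX P ∧
      Win hX hY zX zY sX sY lo hi P P' a a' x))
    refine tsum_congr fun P => tsum_congr fun P' => ?_
    split_ifs <;> rfl
  have K3_1 : ∀ a a' x, K3 a a' x ≤ 1 := by
    intro a a' x
    refine le_trans (le_of_eq ?_) (sum1 (fun P P' => locY P' ∧
      Win hX hY zX zY sX sY lo hi P P' a a' x))
    refine tsum_congr fun P => tsum_congr fun P' => ?_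
    split_ifs <;> rfl
  have hwX : ∑' Q, wX Q ≤ 1 := by
    have := SLX (fun _ => 1)
    simp only [mul_one] at this
    rw [← this, SL_pow]
    exact pow_le_one₀ zero_le sqX
  have hwY : ∑' Q, wY Q ≤ 1 := by
    have := SLY (fun _ => 1)
    simp only [mul_one] at this
    rw [← this, SL_pow]
    exact pow_le_one₀ zero_le sqY
  have hwB : ∑' b, wB b ≤ 1 := by
    calc ∑' b, wB b = ∑' A0, ∑' Q', q0 A0 * wY Q' := ENNReal.tsum_prod' (f := wB)
      _ = (∑' A0, q0 A0) * ∑' Q', wY Q' := by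
          simp_rw [ENNReal.tsum_mul_left]
          rw [ENNReal.tsum_mul_right]
      _ ≤ 1 * 1 := mul_le_mul' sq0 hwY
      _ = 1 := one_mul _
  -- rewriting
  have main : SL qX j (fun Q => ∑' P, qX P * ∑' A0, q0 A0 *
      SL qY j (fun Q' => ∑' P', qY P' *
        (if Win hX hY zX zY sX sY lo hi P P' (HT hX Q.flatten)
          (HT hY A0 + HT hY Q'.flatten)
          (w + (Dp zY A0 + Dp zY Q'.flatten) - Dp zX Q.flatten) then 1 else 0)))
      = ∑' Q, ∑' b : List BY × List (List BY), wX Q * wB b *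
        K (HT hX Q.flatten) (HT hY b.1 + HT hY b.2.flatten) (φ Q b) := by
    rw [SLX]
    refine tsum_congr fun Q => ?_
    have e1 : ∀ P, ∑' A0, q0 A0 * SL qY j (fun Q' => ∑' P', qY P' *
        (if Win hX hY zX zY sX sY lo hi P P' (HT hX Q.flatten)
          (HT hY A0 + HT hY Q'.flatten)
          (w + (Dp zY A0 + Dp zY Q'.flatten) - Dp zX Q.flatten) then 1 else 0))
        = ∑' b : List BY × List (List BY), wB b * ∑' P', qY P' *
        (if Win hX hY zX zY sX sY lo hi P P' (HT hX Q.flatten)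
          (HT hY b.1 + HT hY b.2.flatten) (φ Q b) then 1 else 0) := by
      intro P
      rw [ENNReal.tsum_prod']
      refine tsum_congr fun A0 => ?_
      rw [SLY, ← ENNReal.tsum_mul_left]
      refine tsum_congr fun Q' => ?_
      rw [← mul_assoc]
    simp_rw [e1]
    calc _ = wX Q * ∑' P, ∑' b : List BY × List (List BY), qX P * (wB b * ∑' P', qY P' *
        (if Win hX hY zX zY sX sY lo hi P P' (HT hX Q.flatten)
          (HT hY b.1 + HT hY b.2.flatten) (φ Q b) then 1 else 0)) := by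
          simp_rw [ENNReal.tsum_mul_left]
      _ = wX Q * ∑' b : List BY × List (List BY), ∑' P, qX P * (wB b * ∑' P', qY P' *
        (if Win hX hY zX zY sX sY lo hi P P' (HT hX Q.flatten)
          (HT hY b.1 + HT hY b.2.flatten) (φ Q b) then 1 else 0)) := by
          rw [ENNReal.tsum_comm]
      _ = _ := by
          rw [← ENNReal.tsum_mul_left]
          refine tsum_congr fun b => ?_
          rw [mul_assoc]
          congr 1
          simp only [K]
          rw [← ENNReal.tsum_mul_left]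
          refine tsum_congr fun P => ?_
          have : ∑' P', (if Win hX hY zX zY sX sY lo hi P P' (HT hX Q.flatten)
              (HT hY b.1 + HT hY b.2.flatten) (φ Q b) then qX P * qY P' else 0)
              = qX P * ∑' P', qY P' * (if Win hX hY zX zY sX sY lo hi P P' (HT hX Q.flatten)
              (HT hY b.1 + HT hY b.2.flatten) (φ Q b) then 1 else 0) := by
            rw [← ENNReal.tsum_mul_left]
            refine tsum_congr fun P' => ?_
            by_cases h : Win hX hY zX zY sX sY lo hi P P' (HT hX Q.flatten)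
              (HT hY b.1 + HT hY b.2.flatten) (φ Q b) <;> simp [h]
          rw [this]
          ring
  rw [main]
  -- splitting of the kernel
  have hK : ∀ a a' x, K a a' x ≤ K2 a a' x + K3 a a' x + u * u := by
    intro a a' x
    calc K a a' x ≤ ∑' P, ∑' P', ((if locX P ∧ Win hX hY zX zY sX sY lo hi P P' a a' x
            then qX P * qY P' else 0) + (if locY P' ∧ Win hX hY zX zY sX sY lo hi P P' a a' x
            then qX P * qY P' else 0)
            + (if locX P then 0 else qX P) * (if locY P' then 0 else qY P')) := by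
          refine ENNReal.tsum_le_tsum fun P => ENNReal.tsum_le_tsum fun P' => ?_
          by_cases h : Win hX hY zX zY sX sY lo hi P P' a a' x
          · by_cases h2 : locX P
            · simp only [h, h2, and_self, if_true]
              rw [add_assoc]
              exact le_self_add
            · by_cases h3 : locY P'
              · simp [h, h2, h3]
              · simp [h, h2, h3]
          · simp [h]
      _ = K2 a a' x + K3 a a' x + (∑' P, (if locX P then 0 else qX P)) *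
            ∑' P', (if locY P' then 0 else qY P') := by
          simp_rw [ENNReal.tsum_add, ENNReal.tsum_mul_left]
          rw [ENNReal.tsum_mul_right]
      _ ≤ _ := by gcongr
  have fin : ∑' Q, ∑' b : List BY × List (List BY), wX Q * wB b *
        K (HT hX Q.flatten) (HT hY b.1 + HT hY b.2.flatten) (φ Q b)
      ≤ ∑' Q, ∑' b : List BY × List (List BY), wX Q * wB b *
        K2 (HT hX Q.flatten) (HT hY b.1 + HT hY b.2.flatten) (φ Q b)
        + ∑' b : List BY × List (List BY), ∑' Q, wB b * wX Q *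
        K3 (HT hX Q.flatten) (HT hY b.1 + HT hY b.2.flatten) (φ Q b) + u * u := by
    calc _ ≤ ∑' Q, ∑' b : List BY × List (List BY), (wX Q * wB b *
        K2 (HT hX Q.flatten) (HT hY b.1 + HT hY b.2.flatten) (φ Q b) + wB b * wX Q *
        K3 (HT hX Q.flatten) (HT hY b.1 + HT hY b.2.flatten) (φ Q b)
        + wX Q * wB b * (u * u)) := by
          refine ENNReal.tsum_le_tsum fun Q => ENNReal.tsum_le_tsum fun b => ?_
          calc _ ≤ wX Q * wB b * (K2 (HT hX Q.flatten) (HT hY b.1 + HT hY b.2.flatten) (φ Q b)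
              + K3 (HT hX Q.flatten) (HT hY b.1 + HT hY b.2.flatten) (φ Q b) + u * u) :=
                mul_le_mul_right (hK _ _ _) _
            _ = _ := by ring
      _ = ∑' Q, ∑' b : List BY × List (List BY), wX Q * wB b *
        K2 (HT hX Q.flatten) (HT hY b.1 + HT hY b.2.flatten) (φ Q b)
        + ∑' Q, ∑' b : List BY × List (List BY), wB b * wX Q *
        K3 (HT hX Q.flatten) (HT hY b.1 + HT hY b.2.flatten) (φ Q b)
        + ∑' Q, ∑' b : List BY × List (List BY), wX Q * wB b * (u * u) := by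
          simp_rw [ENNReal.tsum_add]
      _ ≤ _ := by
          refine add_le_add (add_le_add le_rfl ?_) ?_
          · rw [ENNReal.tsum_comm]
          · simp_rw [ENNReal.tsum_mul_right, ENNReal.tsum_mul_left]
            rw [ENNReal.tsum_mul_right]
            calc _ ≤ 1 * 1 * (u * u) := by gcongr
              _ = _ := by rw [one_mul, one_mul]
  refine fin.trans ?_
  rw [two_mul]
  -- supports
  have supX : ∀ Q, wX Q ≠ 0 → HT hX Q.flatten ∈ Finset.Icc (j * T) (j * T + j * i0) := by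
    intro Q hQ
    by_cases h : Q.length = j
    · simp only [wX, if_pos h] at hQ
      have := HT_good hX T i0 Q (good_of_LW hX hQ)
      rw [h] at this
      exact Finset.mem_Icc.2 this
    · simp [wX, h] at hQ
  have supB : ∀ b, wB b ≠ 0 → HT hY b.1 + HT hY b.2.flatten ∈
      Finset.Icc (j * T + J * i0) (j * T + D) := by
    intro b hb
    have h1 := left_ne_zero_of_mul hb
    have h2 := right_ne_zero_of_mul hb
    by_cases h : b.2.length = j
    · simp only [wY, if_pos h] at h2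
      have h3 := HT_good hY T i0 b.2 (good_of_LW hY h2)
      rw [h] at h3
      have h4 : gp hY (J * i0) i0 b.1 := by
        by_contra hc
        exact h1 (if_neg hc)
      have h5 := le_HT_of_fp hY h4.1
      have h6 := h4.2
      have h7 : j * i0 ≤ J * i0 := Nat.mul_le_mul_right _ hj.le
      refine Finset.mem_Icc.2 ⟨by omega, by omega⟩
    · simp [wY, h] at h2
  have hJi : (j + 1) * i0 ≤ J * i0 := Nat.mul_le_mul_right _ hj
  have e1 : (j + 1) * i0 = j * i0 + i0 := by ring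
  have e2 : (j + 1) * T = j * T + T := by ring
  have cardS : ((Finset.Icc (j * T) (j * T + j * i0)).card : ℝ≥0∞) ≤ (D + 1 : ℕ) := by
    rw [Nat.card_Icc]
    have : j * T + j * i0 + 1 - j * T ≤ D + 1 := by omega
    exact_mod_cast this
  have cardS' : ((Finset.Icc (j * T + J * i0) (j * T + D)).card : ℝ≥0∞) ≤ (D + 1 : ℕ) := by
    rw [Nat.card_Icc]
    have : j * T + D + 1 - (j * T + J * i0) ≤ D + 1 := by omega
    exact_mod_cast this
  have hcard : ∀ (th : ℝ≥0∞) (n : ℕ), th * (n : ℝ≥0∞) ≤ 1 → j * th * n ≤ J := by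
    intro th n hn
    calc (j : ℝ≥0∞) * th * n = j * (th * n) := mul_assoc _ _ _
      _ ≤ j * 1 := mul_le_mul_right hn _
      _ ≤ J := by rw [mul_one]; exact_mod_cast hj.le
  refine add_le_add (add_le_add ?_ ?_) le_rfl
  · have lb := local_bound wX wB (fun Q => HT hX Q.flatten)
      (fun b => HT hY b.1 + HT hY b.2.flatten) φ hwB hwX (fun Q => ∃ P ∈ Q, lowX P) ((1 - u) ^ j)
      (j * thX) ?_ ?_ (Finset.Icc (j * T) (j * T + j * i0))
      (Finset.Icc (j * T + J * i0) (j * T + D)) supX supB K2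
      K2_1
      ((i0 + 1 : ℕ) * ((i0 + 1 : ℕ) * κ0)) ?_
    · refine lb.trans (add_le_add le_rfl ?_)
      gcongr
    · have := no_low qX lowX (1 - u) hiX j
      rw [SLX] at this
      refine le_trans (ENNReal.tsum_le_tsum fun Q => ?_) this
      by_cases h : ∃ P ∈ Q, lowX P
      · simp only [if_pos h]; exact zero_le
      · simp only [if_neg h, mul_one]; exact le_rfl
    · intro a b x
      have := dens_low qX sqX (HT hX) (Dp zX) lowX thX loX j a
        (w + (Dp zY b.1 + Dp zY b.2.flatten) - x)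
      rw [SLX] at this
      refine le_trans (ENNReal.tsum_le_tsum fun Q => ?_) this
      by_cases h : (∃ P ∈ Q, lowX P) ∧ HT hX Q.flatten = a ∧ φ Q b = x
      · have h' : (∃ P ∈ Q, lowX P) ∧ (Q.map (HT hX)).sum = a ∧
            (Q.map (Dp zX)).sum = w + (Dp zY b.1 + Dp zY b.2.flatten) - x := by
          refine ⟨h.1, by rw [← HT_flatten]; exact h.2.1, ?_⟩
          rw [← Dp_flatten, ← h.2.2]
          simp only [φ]
          abel
        rw [if_pos h, if_pos h', mul_one]
      · rw [if_neg h]; exact zero_le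
    · intro a ha a' ha' μ hμ1 hμM
      rw [Finset.mem_Icc] at ha ha'
      refine le_trans (le_of_eq ?_) (grid_mu ΛX ΛY hX hY T i0 (fun x P P' => locX P ∧
        Win hX hY zX zY sX sY lo hi P P' a a' x) μ κ0 ?_)
      · refine tsum_congr fun x => ?_
        congr 1
        refine tsum_congr fun P => tsum_congr fun P' => ?_
        split_ifs <;> rfl
      intro h hh h' hh'
      rw [Finset.mem_Icc] at hh hh'
      obtain ⟨E, hE1, hE2⟩ := EX h
      have := H2 s h h' a a' lo hi E μ (j * thX) lam hμ1 hμM hl0 hlt (by omega) (by omega)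
        (by omega) (by omega) (by omega) (by omega)
      refine le_trans ?_ (this.trans ?_)
      · refine ENNReal.tsum_le_tsum fun x => mul_le_mul_right ?_ _
        refine ENNReal.tsum_le_tsum fun L => ENNReal.tsum_le_tsum fun L' => ?_
        by_cases hc : HT hX L = h ∧ HT hY L' = h' ∧ locX L ∧
          Win hX hY zX zY sX sY lo hi L L' a a' x
        · obtain ⟨c1, c2, c3, c4⟩ := hc
          rw [if_pos ⟨c1, c2, c3, c4⟩, if_pos ⟨c1, hE1 _ c3 c1, c2, c4⟩]
        · rw [if_neg hc]; exact zero_le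
      · rw [hκ0]
        gcongr
        exact hcard thX E.card hE2
  · have lb := local_bound wB wX (fun b => HT hY b.1 + HT hY b.2.flatten)
      (fun Q => HT hX Q.flatten) (fun b Q => φ Q b) hwX hwB (fun b => ∃ P ∈ b.2, lowY P)
      ((1 - u) ^ j) (j * thY) ?_ ?_ (Finset.Icc (j * T + J * i0) (j * T + D))
      (Finset.Icc (j * T) (j * T + j * i0)) supB supX (fun a' a x => K3 a a' x)
      (fun a' a x => K3_1 a a' x)
      ((i0 + 1 : ℕ) * ((i0 + 1 : ℕ) * κ0)) ?_
    · refine lb.trans (add_le_add le_rfl ?_)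
      gcongr
    · have h5 := no_low qY lowY (1 - u) hiY j
      rw [SLY] at h5
      calc _ = ∑' b : List BY × List (List BY), (if ∃ P ∈ b.2, lowY P then 0 else wB b) :=
            tsum_congr fun b => by split_ifs <;> rfl
        _ = ∑' A0, ∑' Q', (if ∃ P ∈ Q', lowY P then 0 else q0 A0 * wY Q') := ENNReal.tsum_prod'
        _ ≤ ∑' A0, q0 A0 * (1 - u) ^ j := by
            refine ENNReal.tsum_le_tsum fun A0 => ?_
            refine le_trans ?_ (mul_le_mul_right h5 _)
            rw [← ENNReal.tsum_mul_left]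
            refine ENNReal.tsum_le_tsum fun Q => ?_
            by_cases h : ∃ P ∈ Q, lowY P
            · simp only [if_pos h]; exact zero_le
            · simp only [if_neg h, mul_one]; exact le_rfl
        _ ≤ 1 * (1 - u) ^ j := by rw [ENNReal.tsum_mul_right]; gcongr
        _ = _ := one_mul _
    · intro a Q x
      calc _ = ∑' b : List BY × List (List BY), (if (∃ P ∈ b.2, lowY P) ∧
            HT hY b.1 + HT hY b.2.flatten = a ∧ φ Q b = x then wB b else 0) :=
            tsum_congr fun b => by split_ifs <;> rfl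
        _ = ∑' A0, ∑' Q', (if (∃ P ∈ Q', lowY P) ∧ HT hY A0 + HT hY Q'.flatten = a ∧
            φ Q (A0, Q') = x then q0 A0 * wY Q' else 0) := ENNReal.tsum_prod'
        _ ≤ ∑' A0, q0 A0 * (j * thY) := by
            refine ENNReal.tsum_le_tsum fun A0 => ?_
            have h5 := dens_low qY sqY (HT hY) (Dp zY) lowY thY loY j (a - HT hY A0)
              (x + Dp zX Q.flatten - w - Dp zY A0)
            rw [SLY] at h5
            refine le_trans ?_ (mul_le_mul_right h5 _)
            rw [← ENNReal.tsum_mul_left]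
            refine ENNReal.tsum_le_tsum fun Q' => ?_
            by_cases h : (∃ P ∈ Q', lowY P) ∧ HT hY A0 + HT hY Q'.flatten = a ∧
              φ Q (A0, Q') = x
            · have h' : (∃ P ∈ Q', lowY P) ∧ (Q'.map (HT hY)).sum = a - HT hY A0 ∧
                  (Q'.map (Dp zY)).sum = x + Dp zX Q.flatten - w - Dp zY A0 := by
                refine ⟨h.1, by rw [← HT_flatten]; omega, ?_⟩
                rw [← Dp_flatten, ← h.2.2]
                simp only [φ]
                abel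
              rw [if_pos h, if_pos h', mul_one]
            · rw [if_neg h]; exact zero_le
        _ ≤ 1 * (j * thY) := by rw [ENNReal.tsum_mul_right]; gcongr
        _ = _ := one_mul _
    · intro a' ha' a ha μ hμ1 hμM
      rw [Finset.mem_Icc] at ha ha'
      refine le_trans (le_of_eq ?_) (grid_mu ΛX ΛY hX hY T i0 (fun x P P' => locY P' ∧
        Win hX hY zX zY sX sY lo hi P P' a a' x) μ κ0 ?_)
      · refine tsum_congr fun x => ?_
        congr 1
        refine tsum_congr fun P => tsum_congr fun P' => ?_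
        split_ifs <;> rfl
      intro h hh h' hh'
      rw [Finset.mem_Icc] at hh hh'
      obtain ⟨E, hE1, hE2⟩ := EY h'
      have := H3 s h h' a a' lo hi E μ (j * thY) lam hμ1 hμM hl0 hlt (by omega) (by omega)
        (by omega) (by omega) (by omega) (by omega)
      refine le_trans ?_ (this.trans ?_)
      · refine ENNReal.tsum_le_tsum fun x => mul_le_mul_right ?_ _
        refine ENNReal.tsum_le_tsum fun L => ENNReal.tsum_le_tsum fun L' => ?_
        by_cases hc : HT hX L = h ∧ HT hY L' = h' ∧ locY L' ∧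
          Win hX hY zX zY sX sY lo hi L L' a a' x
        · obtain ⟨c1, c2, c3, c4⟩ := hc
          rw [if_pos ⟨c1, c2, c3, c4⟩, if_pos ⟨c1, c2, hE1 _ c3 c2, c4⟩]
        · rw [if_neg hc]; exact zero_le
      · rw [hκ0]
        gcongr
        exact hcard thY E.card hE2

end wd

section tot

variable {BX BY G : Type*} [AddCommGroup G] (ΛX : BX → ℝ≥0∞) (ΛY : BY → ℝ≥0∞)
  (hX : BX → ℕ) (hY : BY → ℕ) (zX : BX → G) (zY : BY → G) (sX : BX → Set (G × ℕ))
  (sY : BY → Set (G × ℕ))

lemma SL_le_const {P' : Type*} (q : P' → ℝ≥0∞) (hq : ∑' P, q P ≤ 1) (j : ℕ) (c : ℝ≥0∞) :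
    SL q j (fun _ => c) ≤ c := by
  have h0 := SL_const_mul q j c (fun _ => 1)
  rw [SL_pow] at h0
  simp only [mul_one] at h0
  rw [h0]
  calc _ ≤ c * 1 := by gcongr; exact pow_le_one₀ zero_le hq
    _ = _ := mul_one _

lemma SL_mono' {P' : Type*} (q : P' → ℝ≥0∞) (j : ℕ) {F F' : List P' → ℝ≥0∞}
    (h : ∀ L, L.length = j → LW q L ≠ 0 → F L ≤ F' L) : SL q j F ≤ SL q j F' := by
  refine ENNReal.tsum_le_tsum fun L => ?_
  by_cases hL : L.length = j
  · rw [if_pos hL, if_pos hL]
    by_cases h0 : LW q L = 0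
    · simp [h0]
    · exact mul_le_mul_right (h L hL h0) _
  · rw [if_neg hL]; exact zero_le

lemma SL_sum {P' ι : Type*} (q : P' → ℝ≥0∞) (j : ℕ) (t : Finset ι) (F : ι → List P' → ℝ≥0∞) :
    SL q j (fun L => ∑ i ∈ t, F i L) = ∑ i ∈ t, SL q j (F i) := by
  induction t using Finset.induction_on with
  | empty =>
    simp only [Finset.sum_empty]
    have h0 := SL_const_mul q j 0 (fun _ => 1)
    simpa using h0
  | insert a t ha ih =>
    simp only [Finset.sum_insert ha]
    rw [SL_add_fun, ih]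

lemma rest_le {B : Type*} (Λ : B → ℝ≥0∞) (ht : B → ℕ) (hU1 : ∀ n, U Λ ht n ≤ 1) (N a : ℕ)
    (f : List B → ℝ≥0∞) (c : ℝ≥0∞) (hf : ∀ L, f L ≤ c) :
    ∑' R, (if a + HT ht R = N then LW Λ R * f R else 0) ≤ c := by
  calc _ ≤ ∑' R, (if a + HT ht R = N then LW Λ R * 1 else 0) * c := by
        refine ENNReal.tsum_le_tsum fun R => ?_
        by_cases h : a + HT ht R = N
        · rw [if_pos h, if_pos h, mul_one]
          exact mul_le_mul_right (hf R) _
        · rw [if_neg h]; exact zero_le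
    _ ≤ 1 * c := by
        rw [ENNReal.tsum_mul_right]
        gcongr
        exact tsum_HT_le Λ ht hU1 N a (fun _ => 1) (fun _ => le_rfl)
    _ = c := one_mul _

/-- the event of window `j` -/
noncomputable def wnd (w : G) (T D s j : ℕ) (Q : List (List BX)) (P : List BX) (A0 : List BY)
    (Q' : List (List BY)) (P' : List BY) : ℝ≥0∞ :=
  if Win hX hY zX zY sX sY (j * T + D + s) ((j + 1) * T - s) P P' (HT hX Q.flatten)
          (HT hY A0 + HT hY Q'.flatten)
          (w + (Dp zY A0 + Dp zY Q'.flatten) - Dp zX Q.flatten) then 1 else 0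

theorem total (h1X : ∀ b, 1 ≤ hX b) (h1Y : ∀ b, 1 ≤ hY b) (hΛX : ∑' b, ΛX b = 1)
    (hΛY : ∑' b, ΛY b = 1) (hUX : ∀ n, U ΛX hX n ≤ 1) (hUY : ∀ n, U ΛY hY n ≤ 1)
    (hsX : ∀ b y k, (y, k) ∈ sX b → 1 ≤ k ∧ k ≤ hX b)
    (hsY : ∀ b y k, (y, k) ∈ sY b → 1 ≤ k ∧ k ≤ hY b)
    (T i0 J s D j0 m n : ℕ) (hD : D = 2 * (J * i0) + i0) (hs : 1 ≤ s)
    (hJ : J * T + D ≤ 2 * m) (hm : j0 * T ≤ m) (hn : 2 * m ≤ n) (w : G) (eX eY : ℝ≥0∞)
    (heX : ∀ a, ∑' L, (if fp hX a L ∧ a + i0 < HT hX L then LW ΛX L else 0) ≤ eX)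
    (heY : ∀ a, ∑' L, (if fp hY a L ∧ a + i0 < HT hY L then LW ΛY L else 0) ≤ eY) :
    ∑' L, ∑' L', (if HT hX L = n ∧ HT hY L' = n ∧
        (∃ k, m < k ∧ k ≤ 2 * m ∧ Ct hX hY zX zY sX sY L L' w k) ∧
        (∀ k', j0 * T ≤ k' → k' ≤ 2 * m → Ct hX hY zX zY sX sY L L' w k' →
          ∃ j < J, j * T + D + s ≤ k' ∧ k' + s ≤ (j + 1) * T) then LW ΛX L * LW ΛY L' else 0)
      ≤ (J * eX + (J * eY + eY)) + ∑ j ∈ Finset.Ico j0 J,
        SL (Lg ΛX hX T i0) j (fun Q => ∑' P, Lg ΛX hX T i0 P * ∑' A0, Lg ΛY hY (J * i0) i0 A0 *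
          SL (Lg ΛY hY T i0) j (fun Q' => ∑' P', Lg ΛY hY T i0 P' *
            wnd hX hY zX zY sX sY w T D s j Q P A0 Q' P')) := by
  have sqX := sum_Lg ΛX hX h1X hΛX.le T i0
  have sqY := sum_Lg ΛY hY h1Y hΛY.le T i0
  have sq0 := sum_Lg ΛY hY h1Y hΛY.le (J * i0) i0
  have eJ : J * (T + i0) = J * T + J * i0 := by ring
  set E : List BX → List BY → Prop := fun L L' =>
    (∃ k, m < k ∧ k ≤ 2 * m ∧ Ct hX hY zX zY sX sY L L' w k) ∧
        (∀ k', j0 * T ≤ k' → k' ≤ 2 * m → Ct hX hY zX zY sX sY L L' w k' →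
          ∃ j < J, j * T + D + s ≤ k' ∧ k' + s ≤ (j + 1) * T) with hE
  let f : List BX → List BY → ℝ≥0∞ := fun L L' => if E L L' then 1 else 0
  have hf1 : ∀ L L', f L L' ≤ 1 := fun L L' => by simp only [f]; split_ifs <;> simp
  let F : List BX → ℝ≥0∞ := fun L => ∑' L', (if HT hY L' = n then LW ΛY L' * f L L' else 0)
  have hF1 : ∀ L, F L ≤ 1 := by
    intro L
    have := tsum_HT_le ΛY hY hUY n 0 (f L) (hf1 L)
    simpa only [zero_add] using this
  have e0 : ∑' L, ∑' L', (if HT hX L = n ∧ HT hY L' = n ∧ E L L' then LW ΛX L * LW ΛY L' else 0)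
      = ∑' L, (if HT hX L = n then LW ΛX L * F L else 0) := by
    refine tsum_congr fun L => ?_
    by_cases h : HT hX L = n
    · rw [if_pos h, ← ENNReal.tsum_mul_left]
      refine tsum_congr fun L' => ?_
      by_cases h2 : HT hY L' = n
      · by_cases h3 : E L L'
        · rw [if_pos ⟨h, h2, h3⟩, if_pos h2]
          simp only [f, if_pos h3, mul_one]
        · rw [if_neg (fun hc => h3 hc.2.2), if_pos h2]
          simp only [f, if_neg h3, mul_zero]
      · rw [if_neg (fun hc => h2 hc.2.1), if_neg h2, mul_zero]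
    · rw [if_neg h]
      have : ∀ L', (if HT hX L = n ∧ HT hY L' = n ∧ E L L' then LW ΛX L * LW ΛY L' else 0)
          = (0 : ℝ≥0∞) := fun L' => if_neg (fun hc => h hc.1)
      simp [this]
  have e0' : ∑' L, ∑' L', (if HT hX L = n ∧ HT hY L' = n ∧
        (∃ k, m < k ∧ k ≤ 2 * m ∧ Ct hX hY zX zY sX sY L L' w k) ∧
        (∀ k', j0 * T ≤ k' → k' ≤ 2 * m → Ct hX hY zX zY sX sY L L' w k' →
          ∃ j < J, j * T + D + s ≤ k' ∧ k' + s ≤ (j + 1) * T) then LW ΛX L * LW ΛY L' else 0)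
      = ∑' L, ∑' L', (if HT hX L = n ∧ HT hY L' = n ∧ E L L' then LW ΛX L * LW ΛY L' else 0) :=
    tsum_congr fun L => tsum_congr fun L' => by split_ifs <;> first | rfl | (exfalso; tauto)
  rw [e0', e0]
  have dX := dec ΛX hX h1X hΛX.le hUX T i0 eX (heX T) J n (by omega) F hF1
  refine dX.trans ?_
  -- the Y side
  let ind : List (List BX) → List BY → List (List BY) → ℝ≥0∞ := fun Q A0 Q' =>
    ∑ j ∈ Finset.Ico j0 J, wnd hX hY zX zY sX sY w T D s j (Q.take j) (Q.getD j []) A0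
      (Q'.take j) (Q'.getD j [])
  let Z : List (List BX) → ℝ≥0∞ := fun Q => ∑' A0, Lg ΛY hY (J * i0) i0 A0 *
    SL (Lg ΛY hY T i0) J (fun Q' => ind Q A0 Q')
  have hY1 : ∀ (Q : List (List BX)) (R : List BX), Q.length = J →
      (∀ P ∈ Q, gp hX T i0 P) → F (Q.flatten ++ R) ≤ Z Q + (J * eY + eY) := by
    intro Q R hQ hQg
    have d0 := dec ΛY hY h1Y hΛY.le hUY (J * i0) i0 eY (heY _) 1 n (by omega)
      (f (Q.flatten ++ R)) (hf1 _)
    refine d0.trans ?_
    rw [show (1 : ℕ) = 0 + 1 from rfl, SL_succ]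
    have e1 : ∀ A0 : List BY, Lg ΛY hY (J * i0) i0 A0 * SL (Lg ΛY hY (J * i0) i0) 0 (fun L =>
          ∑' R', (if HT hY (A0 :: L).flatten + HT hY R' = n then LW ΛY R' *
            f (Q.flatten ++ R) ((A0 :: L).flatten ++ R') else 0))
        ≤ Lg ΛY hY (J * i0) i0 A0 * SL (Lg ΛY hY T i0) J (fun Q' => ind Q A0 Q')
          + Lg ΛY hY (J * i0) i0 A0 * (J * eY) := by
      intro A0
      rw [SL_zero, ← mul_add]
      by_cases hA : gp hY (J * i0) i0 A0
      · refine mul_le_mul_right ?_ _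
        have hA1 := le_HT_of_fp hY hA.1
        have hA2 := hA.2
        have d1 := dec ΛY hY h1Y hΛY.le hUY T i0 eY (heY T) J (n - HT hY A0) (by omega)
          (fun R' => f (Q.flatten ++ R) (A0 ++ R')) (fun _ => hf1 _ _)
        have e2 : ∑' R', (if HT hY ([A0] : List (List BY)).flatten + HT hY R' = n then LW ΛY R' *
            f (Q.flatten ++ R) (([A0] : List (List BY)).flatten ++ R') else 0)
            = ∑' R', (if HT hY R' = n - HT hY A0 then LW ΛY R' *
            f (Q.flatten ++ R) (A0 ++ R') else 0) := by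
          refine tsum_congr fun R' => ?_
          have e3 : ([A0] : List (List BY)).flatten = A0 := by simp
          rw [e3]
          by_cases h : HT hY A0 + HT hY R' = n
          · rw [if_pos h, if_pos (by omega)]
          · rw [if_neg h, if_neg (by omega)]
        rw [e2]
        refine d1.trans (add_le_add ?_ le_rfl)
        refine SL_mono' _ _ fun Q' hQ' hQ'0 => ?_
        refine rest_le ΛY hY hUY _ _ _ _ fun R' => ?_
        by_cases hE2 : E (Q.flatten ++ R) (A0 ++ (Q'.flatten ++ R'))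
        · simp only [f, if_pos hE2]
          obtain ⟨⟨k, hk1, hk2, hk3⟩, hsl⟩ := hE2
          obtain ⟨j, hj1, hj2, hW⟩ := det hX hY zX zY sX sY hsX hsY T i0 s J j0 m D hs hD hJ hm
            Q Q' hQ hQ' hQg (good_of_LW hY hQ'0) A0 hA1 hA2 R R' w k hk1 hk2 hk3 hsl
          refine le_trans ?_ (Finset.single_le_sum (f := fun j => wnd hX hY zX zY sX sY w T D s j
            (Q.take j) (Q.getD j []) A0 (Q'.take j) (Q'.getD j [])) (fun _ _ => zero_le)
            (Finset.mem_Ico.2 ⟨hj1, hj2⟩))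
          simp only [wnd, if_pos hW]
          exact le_rfl
        · simp only [f, if_neg hE2]
          exact zero_le
      · simp [Lg, hA]
    refine (add_le_add (ENNReal.tsum_le_tsum e1) le_rfl).trans ?_
    rw [ENNReal.tsum_add, ENNReal.tsum_mul_right]
    calc _ ≤ Z Q + 1 * (J * eY) + ((0 + 1 : ℕ) : ℝ≥0∞) * eY := by gcongr
      _ = _ := by simp only [zero_add, Nat.cast_one, one_mul]; ring
  have hX1 : SL (Lg ΛX hX T i0) J (fun Q => ∑' R, (if HT hX Q.flatten + HT hX R = n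
          then LW ΛX R * F (Q.flatten ++ R) else 0))
      ≤ SL (Lg ΛX hX T i0) J Z + (J * eY + eY) := by
    calc _ ≤ SL (Lg ΛX hX T i0) J (fun Q => Z Q + (J * eY + eY)) := by
          refine SL_mono' _ _ fun Q hQ hQ0 => ?_
          exact rest_le ΛX hX hUX _ _ _ _ fun R => hY1 Q R hQ (good_of_LW hX hQ0)
      _ ≤ _ := by
          rw [SL_add_fun]
          exact add_le_add le_rfl (SL_le_const _ sqX _ _)
  have hZ : SL (Lg ΛX hX T i0) J Z ≤ ∑ j ∈ Finset.Ico j0 J,
        SL (Lg ΛX hX T i0) j (fun Q => ∑' P, Lg ΛX hX T i0 P * ∑' A0, Lg ΛY hY (J * i0) i0 A0 *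
          SL (Lg ΛY hY T i0) j (fun Q' => ∑' P', Lg ΛY hY T i0 P' *
            wnd hX hY zX zY sX sY w T D s j Q P A0 Q' P')) := by
    have e1 : ∀ Q, Z Q = ∑ j ∈ Finset.Ico j0 J, ∑' A0, Lg ΛY hY (J * i0) i0 A0 *
        SL (Lg ΛY hY T i0) J (fun Q' => wnd hX hY zX zY sX sY w T D s j (Q.take j) (Q.getD j [])
          A0 (Q'.take j) (Q'.getD j [])) := by
      intro Q
      simp only [Z, ind]
      rw [← Summable.tsum_finsetSum (fun _ _ => ENNReal.summable)]
      refine tsum_congr fun A0 => ?_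
      rw [SL_sum, Finset.mul_sum]
    rw [show Z = fun Q => ∑ j ∈ Finset.Ico j0 J, ∑' A0, Lg ΛY hY (J * i0) i0 A0 *
        SL (Lg ΛY hY T i0) J (fun Q' => wnd hX hY zX zY sX sY w T D s j (Q.take j) (Q.getD j [])
          A0 (Q'.take j) (Q'.getD j [])) from funext e1, SL_sum]
    refine Finset.sum_le_sum fun j hj => ?_
    have hjJ : j < J := (Finset.mem_Ico.1 hj).2
    calc _ ≤ SL (Lg ΛX hX T i0) J (fun Q => ∑' A0, Lg ΛY hY (J * i0) i0 A0 *
          SL (Lg ΛY hY T i0) j (fun Q' => ∑' P', Lg ΛY hY T i0 P' *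
            wnd hX hY zX zY sX sY w T D s j (Q.take j) (Q.getD j default) A0 Q' P')) := by
          refine SL_mono _ _ fun Q _ => ENNReal.tsum_le_tsum fun A0 => mul_le_mul_right ?_ _
          exact marg (Lg ΛY hY T i0) sqY j J hjJ (fun Q' P' =>
            wnd hX hY zX zY sX sY w T D s j (Q.take j) (Q.getD j []) A0 Q' P')
      _ ≤ _ := marg (Lg ΛX hX T i0) sqX j J hjJ (fun Q P => ∑' A0, Lg ΛY hY (J * i0) i0 A0 *
          SL (Lg ΛY hY T i0) j (fun Q' => ∑' P', Lg ΛY hY T i0 P' *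
            wnd hX hY zX zY sX sY w T D s j Q P A0 Q' P'))
  calc _ ≤ (SL (Lg ΛX hX T i0) J Z + (J * eY + eY)) + J * eX := add_le_add hX1 le_rfl
    _ ≤ (_ + (J * eY + eY)) + J * eX := add_le_add (add_le_add hZ le_rfl) le_rfl
    _ = _ := by ring

end tot

section numbers

/-- levels which are in no window -/
lemma slab_card (T J s D j0 m : ℕ) (hT0 : 0 < T) (hm2 : 2 * m < J * T + J + D) :
    ((Finset.Icc (j0 * T) (2 * m)).filter (fun k => ¬ ∃ j < J, j * T + D + s ≤ k ∧
      k + s ≤ (j + 1) * T)).card ≤ (J + 1) * (D + 2 * s + J + 1) := by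
  have hsub : (Finset.Icc (j0 * T) (2 * m)).filter (fun k => ¬ ∃ j < J, j * T + D + s ≤ k ∧
      k + s ≤ (j + 1) * T) ⊆ (Finset.range (J + 1) ×ˢ Finset.range (D + 2 * s + J + 1)).image
        (fun p => p.1 * T + p.2 - s) := by
    intro k hk
    rw [Finset.mem_filter, Finset.mem_Icc] at hk
    obtain ⟨⟨_, hk2⟩, hk3⟩ := hk
    rw [Finset.mem_image]
    have e1 : k / T * T + k % T = k := by
      have := Nat.div_add_mod k T
      rw [mul_comm] at this
      exact this
    have e2 : k % T < T := Nat.mod_lt _ hT0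
    have e3 : (k / T + 1) * T = k / T * T + T := by ring
    by_cases hj : k / T < J
    · by_cases h1 : k / T * T + D + s ≤ k
      · have h2 : ¬ (k + s ≤ (k / T + 1) * T) := fun h => hk3 ⟨k / T, hj, h1, h⟩
        refine ⟨(k / T + 1, k + s - (k / T + 1) * T), ?_, ?_⟩
        · rw [Finset.mem_product, Finset.mem_range, Finset.mem_range]
          constructor <;> simp only <;> omega
        · simp only
          omega
      · refine ⟨(k / T, k + s - k / T * T), ?_, ?_⟩
        · rw [Finset.mem_product, Finset.mem_range, Finset.mem_range]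
          constructor <;> simp only <;> omega
        · simp only
          omega
    · have h4 : J * T ≤ k / T * T := Nat.mul_le_mul_right _ (not_lt.1 hj)
      refine ⟨(J, k + s - J * T), ?_, ?_⟩
      · rw [Finset.mem_product, Finset.mem_range, Finset.mem_range]
        constructor <;> simp only <;> omega
      · simp only
        omega
  refine (Finset.card_le_card hsub).trans (Finset.card_image_le.trans ?_)
  rw [Finset.card_product, Finset.card_range, Finset.card_range]

open Filter Topology in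
/-- choice of the number of windows -/
lemma choose_J (δ : ℝ) (hδ : 0 < δ) : ∃ L : ℕ, 1 ≤ L ∧
    (2 * (L : ℝ) ^ 3) * (2 * (1 - 1 / (L : ℝ) ^ 2) ^ (L ^ 3) + (1 / (L : ℝ) ^ 2) * (1 / (L : ℝ) ^ 2))
      ≤ δ := by
  have h1 : Tendsto (fun L : ℕ => 4 * ((L : ℝ) ^ 3 * Real.exp (-(L : ℝ))) + 2 / (L : ℝ)) atTop
      (𝓝 (4 * 0 + 0)) := by
    refine Tendsto.add ?_ ?_
    · exact ((Real.tendsto_pow_mul_exp_neg_atTop_nhds_zero 3).comp
        tendsto_natCast_atTop_atTop).const_mul 4
    · exact tendsto_const_div_atTop_nhds_zero_nat 2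
  rw [mul_zero, add_zero] at h1
  obtain ⟨L, hL, hL1⟩ := ((h1.eventually (gt_mem_nhds hδ)).and (eventually_ge_atTop 1)).exists
  refine ⟨L, hL1, le_trans ?_ hL.le⟩
  have hLr : (1 : ℝ) ≤ L := by exact_mod_cast hL1
  have hL0 : (0 : ℝ) < L := by linarith
  have hx : (1 - 1 / (L : ℝ) ^ 2) ^ (L ^ 3) ≤ Real.exp (-(L : ℝ)) := by
    have h2 : 1 - 1 / (L : ℝ) ^ 2 ≤ Real.exp (-(1 / (L : ℝ) ^ 2)) := by
      have := Real.add_one_le_exp (-(1 / (L : ℝ) ^ 2))
      linarith
    have h3 : 0 ≤ 1 - 1 / (L : ℝ) ^ 2 := by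
      have : 1 / (L : ℝ) ^ 2 ≤ 1 := by
        rw [div_le_one (by positivity)]
        exact one_le_pow₀ hLr
      linarith
    calc _ ≤ Real.exp (-(1 / (L : ℝ) ^ 2)) ^ (L ^ 3) := pow_le_pow_left₀ h3 h2 _
      _ = Real.exp (((L ^ 3 : ℕ) : ℝ) * (-(1 / (L : ℝ) ^ 2))) := by rw [← Real.exp_nat_mul]
      _ = _ := by
          congr 1
          push_cast
          field_simp
  calc _ ≤ (2 * (L : ℝ) ^ 3) * (2 * Real.exp (-(L : ℝ))
        + (1 / (L : ℝ) ^ 2) * (1 / (L : ℝ) ^ 2)) := by gcongr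
    _ = _ := by
        field_simp
        ring

/-- the same in `ℝ≥0∞` -/
lemma choose_J' (δ : ℝ≥0∞) (hδ : δ ≠ 0) : ∃ (J j0 : ℕ) (u : ℝ≥0∞), 1 ≤ j0 ∧ J = 2 * j0 ∧ u ≠ 0 ∧
    u ≤ 1 ∧ (J : ℝ≥0∞) * (2 * (1 - u) ^ j0 + u * u) ≤ δ := by
  obtain ⟨δ', h0, hle⟩ : ∃ δ' : ℝ, 0 < δ' ∧ ENNReal.ofReal δ' ≤ δ := by
    rcases eq_or_ne δ ⊤ with rfl | ht
    · exact ⟨1, one_pos, le_top⟩
    · exact ⟨δ.toReal, ENNReal.toReal_pos hδ ht, by rw [ENNReal.ofReal_toReal ht]⟩
  obtain ⟨L, hL1, hL⟩ := choose_J δ' h0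
  have hLr : (1 : ℝ) ≤ L := by exact_mod_cast hL1
  have hu : 1 / (L : ℝ) ^ 2 ≤ 1 := by
    rw [div_le_one (by positivity)]
    exact one_le_pow₀ hLr
  have hup : 0 < 1 / (L : ℝ) ^ 2 := by positivity
  refine ⟨2 * L ^ 3, L ^ 3, ENNReal.ofReal (1 / (L : ℝ) ^ 2), Nat.one_le_pow _ _ hL1, rfl, ?_, ?_,
    ?_⟩
  · exact (ENNReal.ofReal_pos.2 hup).ne'
  · rw [← ENNReal.ofReal_one]; exact ENNReal.ofReal_le_ofReal hu
  · refine le_trans (le_of_eq ?_) ((ENNReal.ofReal_le_ofReal hL).trans hle)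
    have h1u : (1 : ℝ≥0∞) - ENNReal.ofReal (1 / (L : ℝ) ^ 2)
        = ENNReal.ofReal (1 - 1 / (L : ℝ) ^ 2) := by
      rw [ENNReal.ofReal_sub _ hup.le, ENNReal.ofReal_one]
    have h3 : 0 ≤ 1 - 1 / (L : ℝ) ^ 2 := by linarith
    have h4 : (0 : ℝ) ≤ 2 * (1 - 1 / (L : ℝ) ^ 2) ^ (L ^ 3) :=
      mul_nonneg (by norm_num) (pow_nonneg h3 _)
    rw [h1u, ENNReal.ofReal_mul (p := 2 * (L : ℝ) ^ 3) (by positivity),
      ENNReal.ofReal_add h4 (by positivity),
      ENNReal.ofReal_mul (q := (1 - 1 / (L : ℝ) ^ 2) ^ (L ^ 3)) (by norm_num : (0 : ℝ) ≤ 2),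
      ENNReal.ofReal_pow h3, ENNReal.ofReal_mul hup.le]
    have h5 : ENNReal.ofReal (2 * (L : ℝ) ^ 3) = ((2 * L ^ 3 : ℕ) : ℝ≥0∞) := by
      rw [← ENNReal.ofReal_natCast]
      push_cast
      rfl
    rw [h5]
    simp

end numbers

section final

variable {BX BY G : Type*} [AddCommGroup G] (ΛX : BX → ℝ≥0∞) (ΛY : BY → ℝ≥0∞)
  (hX : BX → ℕ) (hY : BY → ℕ) (zX : BX → G) (zY : BY → G) (sX : BX → Set (G × ℕ))
  (sY : BY → Set (G × ℕ))

/-- `POINT`: the crossing pairs with a common site at depth `k` -/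
def PtL : Prop := ∀ e : ℝ≥0∞, e ≠ 0 → ∃ k0 : ℕ, ∀ k, k0 ≤ k → ∀ n, k ≤ n → ∀ w : G,
  ∑' L : List BX, ∑' L' : List BY, (if HT hX L = n ∧ HT hY L' = n ∧
    Ct hX hY zX zY sX sY L L' w k then LW ΛX L * LW ΛY L' else 0) ≤ e

open Filter Topology in
/-- **KAPPA' for two independent lists of single-walker blocks.** -/
theorem kapS (h1X : ∀ b, 1 ≤ hX b) (h1Y : ∀ b, 1 ≤ hY b) (hΛX : ∑' b, ΛX b = 1)
    (hΛY : ∑' b, ΛY b = 1) (hUX : ∀ n, U ΛX hX n ≤ 1) (hUY : ∀ n, U ΛY hY n ≤ 1)
    (hEX : ∑' b, ΛX b * (hX b : ℝ≥0∞) ≠ ⊤) (hEY : ∑' b, ΛY b * (hY b : ℝ≥0∞) ≠ ⊤)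
    (hsX : ∀ b y k, (y, k) ∈ sX b → 1 ≤ k ∧ k ≤ hX b)
    (hsY : ∀ b y k, (y, k) ∈ sY b → 1 ≤ k ∧ k ≤ hY b)
    (C : ℝ≥0∞) (hC : C ≠ ⊤) (us : ℕ → ℝ≥0∞) (hus : Tendsto us atTop (𝓝 0))
    (H2 : H2L ΛX ΛY hX hY zX zY sX sY C us) (H3 : H3L ΛX ΛY hX hY zX zY sX sY C us)
    (hPt : PtL ΛX ΛY hX hY zX zY sX sY) :
    ∀ ε : ℝ≥0∞, ε ≠ 0 → ∃ M : ℕ, ∀ m, M ≤ m → ∀ n, 2 * m ≤ n → ∀ w : G,
      ∑' L, ∑' L', (if HT hX L = n ∧ HT hY L' = n ∧
        (∃ k, m < k ∧ k ≤ 2 * m ∧ Ct hX hY zX zY sX sY L L' w k)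
          then LW ΛX L * LW ΛY L' else 0) ≤ ε := by
  intro ε hε
  -- a finite `δ` with `8 δ ≤ ε`
  obtain ⟨δ, hδ0, hδt, hδε⟩ : ∃ δ : ℝ≥0∞, δ ≠ 0 ∧ δ ≠ ⊤ ∧ 8 * δ ≤ ε := by
    refine ⟨min ε 1 / 8, ?_, ?_, ?_⟩
    · rw [Ne, ENNReal.div_eq_zero_iff, not_or]
      refine ⟨?_, by norm_num⟩
      rcases min_choice ε 1 with h | h <;> rw [h]
      · exact hε
      · exact one_ne_zero
    · refine (ENNReal.div_lt_top (ne_top_of_le_ne_top ENNReal.one_ne_top (min_le_right _ _))
        (by norm_num)).ne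
    · rw [ENNReal.mul_div_cancel (by norm_num) (by norm_num)]
      exact min_le_left _ _
  obtain ⟨J, j0, u, hj0, hJj, hu0, hu1, hJu⟩ := choose_J' δ hδ0
  -- overshoots
  have tl : ∀ {B : Type _} (Λ : B → ℝ≥0∞) (ht : B → ℕ), ∑' b, Λ b = 1 →
      ∑' b, Λ b * (ht b : ℝ≥0∞) ≠ ⊤ → Tendsto (fun i => ∑' k, tail Λ ht (i + k)) atTop (𝓝 0) := by
    intro B Λ ht hΛ hE
    rw [sum_tail Λ ht hΛ] at hE
    have := ENNReal.tendsto_sum_nat_add (tail Λ ht) hE
    simpa only [add_comm] using this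
  have hX0 := tl ΛX hX hΛX hEX
  have tlY : Tendsto (fun i => ∑' k, tail ΛY hY (i + k)) atTop (𝓝 0) := by
    have hE := hEY
    rw [sum_tail ΛY hY hΛY] at hE
    have := ENNReal.tendsto_sum_nat_add (tail ΛY hY) hE
    simpa only [add_comm] using this
  have hη : δ / (J + 1) ≠ 0 := by
    rw [Ne, ENNReal.div_eq_zero_iff, not_or]
    exact ⟨hδ0, by exact_mod_cast ENNReal.natCast_ne_top (J + 1)⟩
  obtain ⟨i0, hiX, hiY⟩ := ((hX0.eventually (ge_mem_nhds (pos_iff_ne_zero.2 hη))).and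
    (tlY.eventually (ge_mem_nhds (pos_iff_ne_zero.2 hη)))).exists
  set D := 2 * (J * i0) + i0 with hD
  have hJη : (J + 1 : ℝ≥0∞) * (δ / (J + 1)) ≤ δ := ENNReal.mul_div_le
  -- the window constant
  set B : ℝ≥0∞ := J * (2 * ((D + 1 : ℕ) * ((D + 1 : ℕ) * ((i0 + 1 : ℕ) * ((i0 + 1 : ℕ) * C))))) with hB
  have hBt : B ≠ ⊤ := by
    rw [hB]
    refine ENNReal.mul_ne_top (ENNReal.natCast_ne_top _) (ENNReal.mul_ne_top (by norm_num)
      (ENNReal.mul_ne_top (ENNReal.natCast_ne_top _) (ENNReal.mul_ne_top (ENNReal.natCast_ne_top _)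
      (ENNReal.mul_ne_top (ENNReal.natCast_ne_top _) (ENNReal.mul_ne_top (ENNReal.natCast_ne_top _)
      hC)))))
  set lam : ℝ≥0∞ := δ / (B + 1) with hlam
  have hB1 : B + 1 ≠ ⊤ := ENNReal.add_ne_top.2 ⟨hBt, ENNReal.one_ne_top⟩
  have hl0 : lam ≠ 0 := by
    rw [hlam, Ne, ENNReal.div_eq_zero_iff, not_or]; exact ⟨hδ0, hB1⟩
  have hlt : lam ≠ ⊤ := (ENNReal.div_lt_top hδt (by simp)).ne
  have hBl : B * lam ≤ δ := by
    calc B * lam ≤ (B + 1) * lam := by gcongr; exact le_self_add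
      _ ≤ δ := ENNReal.mul_div_le
  -- choice of `s`
  have ts1 : Tendsto (fun s => B * (J * us s / lam)) atTop (𝓝 0) := by
    have h1 : Tendsto (fun s => (B * J / lam) * us s) atTop (𝓝 ((B * J / lam) * 0)) :=
      ENNReal.Tendsto.const_mul hus (Or.inr (ENNReal.div_lt_top (ENNReal.mul_ne_top hBt
        (ENNReal.natCast_ne_top _)) hl0).ne)
    rw [mul_zero] at h1
    refine h1.congr fun s => ?_
    rw [div_eq_mul_inv, div_eq_mul_inv]
    ring
  have ts2 : Tendsto (fun s => B * us s) atTop (𝓝 0) := by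
    have h1 : Tendsto (fun s => B * us s) atTop (𝓝 (B * 0)) :=
      ENNReal.Tendsto.const_mul hus (Or.inr hBt)
    rwa [mul_zero] at h1
  obtain ⟨s, ⟨hs1, hs2⟩, hs⟩ := (((ts1.eventually (ge_mem_nhds (pos_iff_ne_zero.2 hδ0))).and
    (ts2.eventually (ge_mem_nhds (pos_iff_ne_zero.2 hδ0)))).and (eventually_ge_atTop 1)).exists
  -- choice of the slab error
  set N : ℕ := (J + 1) * (D + 2 * s + J + 1) with hN
  have hη2 : δ / (N + 1) ≠ 0 := by
    rw [Ne, ENNReal.div_eq_zero_iff, not_or]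
    exact ⟨hδ0, by exact_mod_cast ENNReal.natCast_ne_top (N + 1)⟩
  obtain ⟨k0, hk0⟩ := hPt (δ / (N + 1)) hη2
  have hJ0 : 0 < J := by omega
  refine ⟨J * (D + 2 * s + k0 + 1) + D, fun m hm n hn w => ?_⟩
  set T := (2 * m - D) / J with hTdef
  have hT1 : J * T ≤ 2 * m - D := Nat.mul_div_le _ _
  have hT2 : 2 * m - D < J * T + J := by
    have := Nat.lt_mul_div_succ (2 * m - D) hJ0
    rw [Nat.mul_add, mul_one] at this
    exact this
  have hT3 : D + 2 * s + k0 + 1 ≤ T := by
    rw [hTdef, Nat.le_div_iff_mul_le hJ0, mul_comm]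
    omega
  have hJT : J * T + D ≤ 2 * m := by
    have : D ≤ 2 * m := by omega
    omega
  have hjT : j0 * T ≤ m := by
    have : J * T = 2 * (j0 * T) := by rw [hJj]; ring
    omega
  have hkT : k0 ≤ j0 * T := by
    calc k0 ≤ T := by omega
      _ = 1 * T := (one_mul _).symm
      _ ≤ j0 * T := Nat.mul_le_mul_right _ hj0
  set Sl := (Finset.Icc (j0 * T) (2 * m)).filter (fun k => ¬ ∃ j < J, j * T + D + s ≤ k ∧
      k + s ≤ (j + 1) * T) with hSl
  have hcard : Sl.card ≤ N := slab_card T J s D j0 m (by omega) (by omega)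
  -- splitting
  have hsplit : ∀ L L', (if HT hX L = n ∧ HT hY L' = n ∧
        (∃ k, m < k ∧ k ≤ 2 * m ∧ Ct hX hY zX zY sX sY L L' w k)
          then LW ΛX L * LW ΛY L' else 0)
      ≤ ∑ k ∈ Sl, (if HT hX L = n ∧ HT hY L' = n ∧
          Ct hX hY zX zY sX sY L L' w k then LW ΛX L * LW ΛY L' else 0)
        + (if HT hX L = n ∧ HT hY L' = n ∧
        (∃ k, m < k ∧ k ≤ 2 * m ∧ Ct hX hY zX zY sX sY L L' w k) ∧
        (∀ k', j0 * T ≤ k' → k' ≤ 2 * m → Ct hX hY zX zY sX sY L L' w k' →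
          ∃ j < J, j * T + D + s ≤ k' ∧ k' + s ≤ (j + 1) * T) then LW ΛX L * LW ΛY L' else 0) := by
    intro L L'
    by_cases h : HT hX L = n ∧ HT hY L' = n ∧
        (∃ k, m < k ∧ k ≤ 2 * m ∧ Ct hX hY zX zY sX sY L L' w k)
    · rw [if_pos h]
      by_cases h2 : ∀ k', j0 * T ≤ k' → k' ≤ 2 * m → Ct hX hY zX zY sX sY L L' w k' →
          ∃ j < J, j * T + D + s ≤ k' ∧ k' + s ≤ (j + 1) * T
      · rw [if_pos ⟨h.1, h.2.1, h.2.2, h2⟩]
        exact le_add_self
      · push Not at h2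
        obtain ⟨k', h3, h4, h5, h6⟩ := h2
        refine le_add_right ?_
        have hk' : k' ∈ Sl := by
          rw [hSl, Finset.mem_filter, Finset.mem_Icc]
          refine ⟨⟨h3, h4⟩, ?_⟩
          rintro ⟨j, hj, h7, h8⟩
          exact absurd h8 (not_le.2 (h6 j hj h7))
        refine le_trans ?_ (Finset.single_le_sum (f := fun k => if HT hX L = n ∧ HT hY L' = n ∧
          Ct hX hY zX zY sX sY L L' w k then LW ΛX L * LW ΛY L' else 0)
          (fun _ _ => zero_le) hk')
        simp only [if_pos (⟨h.1, h.2.1, h5⟩ : HT hX L = n ∧ HT hY L' = n ∧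
          Ct hX hY zX zY sX sY L L' w k')]
        exact le_rfl
    · rw [if_neg h]; exact zero_le
  refine (ENNReal.tsum_le_tsum fun L => ENNReal.tsum_le_tsum fun L' => hsplit L L').trans ?_
  simp_rw [ENNReal.tsum_add]
  have hslab : ∑' L, ∑' L', ∑ k ∈ Sl, (if HT hX L = n ∧ HT hY L' = n ∧
          Ct hX hY zX zY sX sY L L' w k then LW ΛX L * LW ΛY L' else 0) ≤ δ := by
    have e1 : ∀ L : List BX, ∑' L', ∑ k ∈ Sl, (if HT hX L = n ∧ HT hY L' = n ∧
          Ct hX hY zX zY sX sY L L' w k then LW ΛX L * LW ΛY L' else 0)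
        = ∑ k ∈ Sl, ∑' L', (if HT hX L = n ∧ HT hY L' = n ∧
          Ct hX hY zX zY sX sY L L' w k then LW ΛX L * LW ΛY L' else 0) :=
      fun L => Summable.tsum_finsetSum (fun _ _ => ENNReal.summable)
    simp_rw [e1]
    rw [Summable.tsum_finsetSum (fun _ _ => ENNReal.summable)]
    calc _ ≤ ∑ k ∈ Sl, δ / (N + 1) := by
          refine Finset.sum_le_sum fun k hk => ?_
          rw [hSl, Finset.mem_filter, Finset.mem_Icc] at hk
          exact hk0 k (hkT.trans hk.1.1) n (hk.1.2.trans hn) w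
      _ = Sl.card * (δ / (N + 1)) := by rw [Finset.sum_const, nsmul_eq_mul]
      _ ≤ (N + 1) * (δ / (N + 1)) := by
          gcongr
          have : (Sl.card : ℝ≥0∞) ≤ N := by exact_mod_cast hcard
          exact this.trans le_self_add
      _ ≤ δ := ENNReal.mul_div_le
  have htot := total ΛX ΛY hX hY zX zY sX sY h1X h1Y hΛX hΛY hUX hUY hsX hsY T i0 J s D j0 m n hD hs
    hJT hjT hn w (δ / (J + 1)) (δ / (J + 1))
    (fun a => (overshoot ΛX hX h1X hUX i0 a).trans hiX)
    (fun a => (overshoot ΛY hY h1Y hUY i0 a).trans hiY)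
  have hwin : ∑ j ∈ Finset.Ico j0 J,
        SL (Lg ΛX hX T i0) j (fun Q => ∑' P, Lg ΛX hX T i0 P * ∑' A0, Lg ΛY hY (J * i0) i0 A0 *
          SL (Lg ΛY hY T i0) j (fun Q' => ∑' P', Lg ΛY hY T i0 P' *
            wnd hX hY zX zY sX sY w T D s j Q P A0 Q' P')) ≤ 4 * δ := by
    calc _ ≤ ∑ j ∈ Finset.Ico j0 J, (2 * ((1 - u) ^ j0 + ((D + 1 : ℕ) * ((D + 1 : ℕ) *
          ((i0 + 1 : ℕ) * ((i0 + 1 : ℕ) * (C * (lam + J * us s / lam + us s))))))) + u * u) := by
          refine Finset.sum_le_sum fun j hj => ?_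
          rw [Finset.mem_Ico] at hj
          refine (window ΛX ΛY hX hY zX zY sX sY h1X h1Y hΛX hΛY C us H2 H3 T i0 J j s D hj.2 hD
            (by omega) u lam hu0 hu1 hl0 hlt w).trans ?_
          gcongr 2 * (?_ + _) + _
          exact pow_le_pow_of_le_one zero_le tsub_le_self hj.1
      _ = ((Finset.Ico j0 J).card : ℝ≥0∞) * (2 * ((1 - u) ^ j0 + ((D + 1 : ℕ) * ((D + 1 : ℕ) *
          ((i0 + 1 : ℕ) * ((i0 + 1 : ℕ) * (C * (lam + J * us s / lam + us s))))))) + u * u) := by
          rw [Finset.sum_const, nsmul_eq_mul]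
      _ ≤ (J : ℝ≥0∞) * (2 * ((1 - u) ^ j0 + ((D + 1 : ℕ) * ((D + 1 : ℕ) *
          ((i0 + 1 : ℕ) * ((i0 + 1 : ℕ) * (C * (lam + J * us s / lam + us s))))))) + u * u) := by
          gcongr
          rw [Nat.card_Ico]
          omega
      _ = (J : ℝ≥0∞) * (2 * (1 - u) ^ j0 + u * u) + (B * lam + B * (J * us s / lam) + B * us s) := by
          rw [hB]; ring
      _ ≤ δ + (δ + δ + δ) := by gcongr
      _ = 4 * δ := by ring
  calc _ ≤ δ + ((J * (δ / (J + 1)) + (J * (δ / (J + 1)) + δ / (J + 1))) + 4 * δ) := by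
        refine add_le_add hslab (htot.trans (add_le_add le_rfl hwin))
    _ ≤ δ + ((δ + δ) + 4 * δ) := by
        gcongr
        · refine le_trans ?_ hJη
          gcongr
          exact le_self_add
        · refine le_trans (le_of_eq ?_) hJη
          ring
    _ ≤ 8 * δ := by
        have : δ + ((δ + δ) + 4 * δ) = 7 * δ := by ring
        rw [this]
        gcongr
        norm_num
    _ ≤ ε := hδε

end final

end Crest.Agent.R154.Asm840
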