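import Crest.Agent.R154.Asm_855

/-! Row 154 (helper855): ROAD 801, assembly, window part. -/

set_option autoImplicit false
set_option linter.unusedVariables false
set_option linter.unusedSectionVars false

namespace Crest.Agent.R154.Asm855

open scoped ENNReal
open B5A

section Tr

variable {B G : Type*} [AddCommGroup G]

/-- trace of a list of blocks: (position, depth) -/
def Tr (ht : B → ℕ) (z : B → G) (s : B → Set (G × ℕ)) : List B → G → ℕ → Set (G × ℕ)
  | [], _, _ => ∅
  | b :: L, x, a => (fun p => (x + p.1, a + p.2)) '' s b ∪ Tr ht z s L (x + z b) (a + ht b)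

variable (ht : B → ℕ) (z : B → G) (s : B → Set (G × ℕ))

lemma Tr_append (A P : List B) (x : G) (a : ℕ) :
    Tr ht z s (A ++ P) x a = Tr ht z s A x a ∪ Tr ht z s P (x + Dp z A) (a + HT ht A) := by
  induction A generalizing x a with
  | nil => simp [Tr, Dp, HT_nil]
  | cons b A ih =>
    simp only [List.cons_append, Tr]
    rw [ih, Set.union_assoc]
    have e1 : Dp z (b :: A) = z b + Dp z A := by simp [Dp]
    rw [e1, HT_cons, add_assoc, add_assoc]

lemma Tr_depth (hs : ∀ b y k, (y, k) ∈ s b → 1 ≤ k ∧ k ≤ ht b) (L : List B) (x y : G) (a k : ℕ)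
    (h : (y, k) ∈ Tr ht z s L x a) : a < k ∧ k ≤ a + HT ht L := by
  induction L generalizing x a with
  | nil => simp [Tr] at h
  | cons b L ih =>
    rw [HT_cons]
    rcases h with ⟨p, hp, he⟩ | h
    · have := hs b p.1 p.2 hp
      have e2 : a + p.2 = k := congrArg Prod.snd he
      omega
    · have := ih _ _ h; omega

lemma Tr_shift (L : List B) (x y v : G) (a k : ℕ) :
    (y, k) ∈ Tr ht z s L x a ↔ (y + v, k) ∈ Tr ht z s L (x + v) a := by
  induction L generalizing x a with
  | nil => simp [Tr]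
  | cons b L ih =>
    simp only [Tr, Set.mem_union, Set.mem_image, Prod.mk.injEq]
    rw [ih, show x + v + z b = x + z b + v by abel]
    refine or_congr ?_ Iff.rfl
    constructor
    · rintro ⟨p, hp, h1, h2⟩
      exact ⟨p, hp, by rw [← h1]; abel, h2⟩
    · rintro ⟨p, hp, h1, h2⟩
      refine ⟨p, hp, ?_, h2⟩
      have : x + p.1 + v = y + v := by rw [← h1]; abel
      exact add_right_cancel this

end Tr

section Comm

variable {B B' : Type*} (Λ : B → ℝ≥0∞) (ht : B → ℕ) (Λ' : B' → ℝ≥0∞) (ht' : B' → ℕ)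

open Classical in
lemma E_comm (a a' : ℕ) (F : List B → List B' → ℝ≥0∞) :
    E Λ ht a (fun A => E Λ' ht' a' (fun A' => F A A'))
      = E Λ' ht' a' (fun A' => E Λ ht a (fun A => F A A')) := by
  simp only [E]
  have e : ∀ A : List B, (if att ht A a then LW Λ A * ∑' L : List B',
      (if att ht' L a' then LW Λ' L * F A L else 0) else 0)
      = ∑' L : List B', if att ht A a then (if att ht' L a' then LW Λ A * (LW Λ' L * F A L) else 0) else 0 := by
    intro A
    split_ifs
    · rw [← ENNReal.tsum_mul_left]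
      exact tsum_congr fun L => by split_ifs <;> simp
    · simp
  simp only [e]
  rw [ENNReal.tsum_comm]
  refine tsum_congr fun L => ?_
  split_ifs with h
  · rw [← ENNReal.tsum_mul_left]
    refine tsum_congr fun A => ?_
    split_ifs
    · ring
    · simp
  · simp

lemma E_finsum {ι : Type*} (s : Finset ι) (a : ℕ) (F : ι → List B → ℝ≥0∞) :
    E Λ ht a (fun L => ∑ i ∈ s, F i L) = ∑ i ∈ s, E Λ ht a (F i) := by
  classical
  induction s using Finset.induction_on with
  | empty => simp [E]
  | insert i s hi ih =>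
    simp only [Finset.sum_insert hi]
    rw [E_add, ih]

lemma E_zero_fun (a : ℕ) : E Λ ht a (fun _ => 0) = 0 := by simp [E]

open Classical in
lemma E_le_tsum (a : ℕ) (F : List B → ℝ≥0∞) : E Λ ht a F ≤ ∑' L, LW Λ L * F L := by
  refine ENNReal.tsum_le_tsum fun L => ?_
  split_ifs
  · exact le_rfl
  · exact zero_le

/-- conditioning at the first passage of `a`, then one attempt of `T` -/
lemma two_step (h1 : ∀ b, 1 ≤ ht b) (hΛ : ∑' b, Λ b = 1) (a T i0 c : ℕ)
    (hc : a + i0 + T ≤ c) (e1 : ℝ≥0∞) (he1 : ∑' j, tail Λ ht (j + i0) ≤ e1)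
    (f : List B → ℝ≥0∞) (hf : ∀ L, f L ≤ 1) (g : List B → List B → ℝ≥0∞)
    (hg : ∀ A P Q, att ht A a → att ht P T → HT ht A ≤ a + i0 → f (A ++ (P ++ Q)) ≤ g A P) :
    E Λ ht c f ≤ e1 + E Λ ht a (fun A => E Λ ht T (fun P => g A P)) := by
  rw [E_markov Λ ht h1 a c (by omega)]
  have hstep : ∀ A, att ht A a → E Λ ht (c - HT ht A) (fun P => f (A ++ P))
      ≤ ind (a + i0 < HT ht A) + E Λ ht T (fun P => g A P) := by
    intro A hA
    by_cases h : a + i0 < HT ht A
    · rw [ind_true h]
      exact (E_le_const Λ ht h1 hΛ _ 1 _ (fun _ _ => hf _)).trans le_self_add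
    · refine le_add_left ?_
      rw [E_markov Λ ht h1 T (c - HT ht A) (by omega)]
      refine E_mono Λ ht T fun P hP => ?_
      exact E_le_const Λ ht h1 hΛ _ _ _ fun Q _ => hg A P Q hA hP (by omega)
  refine (E_mono Λ ht a hstep).trans ?_
  rw [E_add]
  exact add_le_add_left ((oshoot Λ ht h1 hΛ i0 a).trans he1) _

end Comm

end Crest.Agent.R154.Asm855
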