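import Crest.Agent.R154.Asm1_958

/-! Row 154, ROAD 801, assembly (helper958), part 2: one window. -/

set_option autoImplicit false

namespace Crest.Agent.R154.Asm958

open Crest.Agent.R154.B5A Crest.Agent.R154.FP178
open scoped ENNReal

/-- displacement of a list -/
def Dp {B G : Type*} [AddCommGroup G] (z : B → G) (L : List B) : G := (L.map z).sum

/-- trace of a list (top at position `x`, depth `a`) -/
def TX {B G : Type*} [AddCommGroup G] (h : B → ℕ) (z : B → G) (s : B → Set (G × ℕ)) :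
    List B → G → ℕ → Set (G × ℕ)
  | [], _, _ => ∅
  | b :: L, x, a => {p | ∃ q ∈ s b, p = (x + q.1, a + q.2)} ∪ TX h z s L (x + z b) (a + h b)

/-- contact event, all contacts at depth in `[lo, hi]` -/
def ev {G : Type*} (S S' : Set (G × ℕ)) (lo hi : ℕ) : Prop :=
  (∃ z k, (z, k) ∈ S ∧ (z, k) ∈ S') ∧ (∀ z k, (z, k) ∈ S → (z, k) ∈ S' → lo ≤ k ∧ k ≤ hi)

lemma disint {P P' G : Type*} (w1 : P → ℝ≥0∞) (w2 : P' → ℝ≥0∞) (c1 : P → ℕ) (c2 : P' → ℕ)
    (xx : P → P' → G) (C : Finset ℕ) (hC1 : ∀ p, w1 p ≠ 0 → c1 p ∈ C)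
    (hC2 : ∀ p, w2 p ≠ 0 → c2 p ∈ C) (Φ : ℕ → ℕ → G → ℝ≥0∞) (Bd : ℝ≥0∞)
    [∀ p p' c c' x, Decidable (c1 p = c ∧ c2 p' = c' ∧ xx p p' = x)]
    (h : ∀ c ∈ C, ∀ c' ∈ C, ∑' x, (∑' p, ∑' p', if c1 p = c ∧ c2 p' = c' ∧ xx p p' = x
      then w1 p * w2 p' else 0) * Φ c c' x ≤ Bd) :
    ∑' p, ∑' p', w1 p * w2 p' * Φ (c1 p) (c2 p') (xx p p') ≤ C.card * (C.card * Bd) := by
  classical
  calc ∑' p, ∑' p', w1 p * w2 p' * Φ (c1 p) (c2 p') (xx p p')
      ≤ ∑' p, ∑' p', ∑ c ∈ C, ∑ c' ∈ C, ∑' x, (if c1 p = c ∧ c2 p' = c' ∧ xx p p' = x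
          then w1 p * w2 p' else 0) * Φ c c' x := by
        refine ENNReal.tsum_le_tsum fun p => ENNReal.tsum_le_tsum fun p' => ?_
        by_cases h1 : w1 p = 0
        · simp [h1]
        by_cases h2 : w2 p' = 0
        · simp [h2]
        calc w1 p * w2 p' * Φ (c1 p) (c2 p') (xx p p')
            = (if c1 p = c1 p ∧ c2 p' = c2 p' ∧ xx p p' = xx p p' then w1 p * w2 p' else 0)
              * Φ (c1 p) (c2 p') (xx p p') := by rw [if_pos ⟨rfl, rfl, rfl⟩]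
          _ ≤ ∑' x, (if c1 p = c1 p ∧ c2 p' = c2 p' ∧ xx p p' = x then w1 p * w2 p' else 0)
              * Φ (c1 p) (c2 p') x := ENNReal.le_tsum (xx p p')
          _ ≤ ∑ c' ∈ C, ∑' x, (if c1 p = c1 p ∧ c2 p' = c' ∧ xx p p' = x
              then w1 p * w2 p' else 0) * Φ (c1 p) c' x :=
            Finset.single_le_sum (f := fun c' => ∑' x, (if c1 p = c1 p ∧ c2 p' = c' ∧
              xx p p' = x then w1 p * w2 p' else 0) * Φ (c1 p) c' x)
              (fun _ _ => zero_le) (hC2 p' h2)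
          _ ≤ _ :=
            Finset.single_le_sum (f := fun c => ∑ c' ∈ C, ∑' x, (if c1 p = c ∧ c2 p' = c' ∧
              xx p p' = x then w1 p * w2 p' else 0) * Φ c c' x)
              (fun _ _ => zero_le) (hC1 p h1)
    _ = ∑ c ∈ C, ∑ c' ∈ C, ∑' x, (∑' p, ∑' p', if c1 p = c ∧ c2 p' = c' ∧ xx p p' = x
          then w1 p * w2 p' else 0) * Φ c c' x := by
        simp_rw [Summable.tsum_finsetSum (fun _ _ => ENNReal.summable)]
        refine Finset.sum_congr rfl fun c _ => Finset.sum_congr rfl fun c' _ => ?_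
        simp_rw [← ENNReal.tsum_mul_right]
        calc ∑' p, ∑' p', ∑' x, (if c1 p = c ∧ c2 p' = c' ∧ xx p p' = x
              then w1 p * w2 p' else 0) * Φ c c' x
            = ∑' p, ∑' x, ∑' p', (if c1 p = c ∧ c2 p' = c' ∧ xx p p' = x
              then w1 p * w2 p' else 0) * Φ c c' x := tsum_congr fun p => ENNReal.tsum_comm
          _ = _ := ENNReal.tsum_comm
    _ ≤ ∑ c ∈ C, ∑ c' ∈ C, Bd := Finset.sum_le_sum fun c hc => Finset.sum_le_sum fun c' hc' =>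
        h c hc c' hc'
    _ = _ := by simp [Finset.sum_const, nsmul_eq_mul]

section win

variable {BX BY G : Type*} [AddCommGroup G]
variable (ΛX : BX → ℝ≥0∞) (hX : BX → ℕ) (zX : BX → G) (sX : BX → Set (G × ℕ))
variable (ΛY : BY → ℝ≥0∞) (hY : BY → ℕ) (zY : BY → G) (sY : BY → Set (G × ℕ))

open Classical in
/-- window lemma, X local -/
def H2 (C : ℝ≥0∞) (us : ℕ → ℝ≥0∞) : Prop :=
  ∀ (s h h' a a' lo hi : ℕ) (E : Finset G) (μ : G → ℝ≥0∞) (M lam : ℝ≥0∞),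
    ∑' x, μ x ≤ 1 → (∀ x, μ x ≤ M) → lam ≠ 0 → lam ≠ ⊤ → a + s ≤ lo → a' + s ≤ lo →
    hi + s ≤ a + h → hi + s ≤ a' + h' →
    ∑' x, μ x * ∑' L : List BX, ∑' L' : List BY,
      (if HT hX L = h ∧ Dp zX L ∈ E ∧ HT hY L' = h' ∧
        ev (TX hX zX sX L 0 a) (TX hY zY sY L' x a') lo hi then LW ΛX L * LW ΛY L' else 0)
      ≤ C * (lam + M * E.card * us s / lam + us s)

open Classical in
/-- window lemma, Y local -/
def H3 (C : ℝ≥0∞) (us : ℕ → ℝ≥0∞) : Prop :=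
  ∀ (s h h' a a' lo hi : ℕ) (E : Finset G) (μ : G → ℝ≥0∞) (M lam : ℝ≥0∞),
    ∑' x, μ x ≤ 1 → (∀ x, μ x ≤ M) → lam ≠ 0 → lam ≠ ⊤ → a + s ≤ lo → a' + s ≤ lo →
    hi + s ≤ a + h → hi + s ≤ a' + h' →
    ∑' x, μ x * ∑' L : List BX, ∑' L' : List BY,
      (if HT hX L = h ∧ HT hY L' = h' ∧ Dp zY L' ∈ E ∧
        ev (TX hX zX sX L 0 a) (TX hY zY sY L' x a') lo hi then LW ΛX L * LW ΛY L' else 0)
      ≤ C * (lam + M * E.card * us s / lam + us s)

/-- value of a piece -/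
def vv {B : Type*} (h : B → ℕ) (z : B → G) (A : List B) : ℕ × G := (HT h A, Dp z A)

/-- length-`j` weight -/
noncomputable def wl {A : Type*} (q : A → ℝ≥0∞) (j : ℕ) (P : List A) : ℝ≥0∞ :=
  if P.length = j then LW q P else 0

lemma SL_eq_wl {A : Type*} (q : A → ℝ≥0∞) (j : ℕ) (F : List A → ℝ≥0∞) :
    SL q j F = ∑' P, wl q j P * F P := by
  refine tsum_congr fun P => ?_
  rw [wl]
  split_ifs <;> simp

lemma wl_ne_zero {A : Type*} {q : A → ℝ≥0∞} {j : ℕ} {P : List A} (h : wl q j P ≠ 0) :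
    P.length = j ∧ ∀ a ∈ P, q a ≠ 0 := by
  rw [wl] at h
  by_cases hl : P.length = j
  · rw [if_pos hl] at h
    refine ⟨hl, fun a ha h0 => h ?_⟩
    rw [LW]
    exact List.prod_eq_zero (List.mem_map.2 ⟨a, ha, h0⟩)
  · rw [if_neg hl] at h; exact absurd rfl h

lemma PW_ne_zero {B : Type*} {Λ : B → ℝ≥0∞} {ht : B → ℕ} {T i0 : ℕ} {A : List B}
    (h : PW Λ ht T i0 A ≠ 0) : fp ht T A ∧ HT ht A ≤ T + i0 := by
  classical
  by_contra hc
  exact h (by rw [PW, if_neg hc])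

lemma val_range {B : Type*} {Λ : B → ℝ≥0∞} {ht : B → ℕ} {z : B → G} {T i0 : ℕ} :
    ∀ (j : ℕ) (P : List (List B)), wl (PW Λ ht T i0) j P ≠ 0 →
      ((P.map (vv ht z)).sum).1 ∈ Finset.Icc (j * T) (j * T + j * i0) := by
  intro j P hP
  obtain ⟨hl, hall⟩ := wl_ne_zero hP
  subst hl
  clear hP
  induction P with
  | nil => simp
  | cons A P ih =>
    have h1 := PW_ne_zero (hall A List.mem_cons_self)
    have h2 := le_HT_of_fp ht h1.1
    have h3 := ih (fun a ha => hall a (List.mem_cons_of_mem _ ha))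
    rw [Finset.mem_Icc] at h3 ⊢
    simp only [List.map_cons, List.sum_cons, Prod.fst_add, List.length_cons, vv]
    have e1 : (P.length + 1) * T = P.length * T + T := by ring
    have e2 : (P.length + 1) * i0 = P.length * i0 + i0 := by ring
    have h4 := h1.2
    have h3' : P.length * T ≤ (List.map (vv ht z) P).sum.1 ∧
      (List.map (vv ht z) P).sum.1 ≤ P.length * T + P.length * i0 := h3
    have h5 : (List.map (vv ht z) P).sum.1
      = (List.map (fun A => ((HT ht A, Dp z A) : ℕ × G)) P).sum.1 := rfl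
    omega

end win

end Crest.Agent.R154.Asm958
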