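import Crest.Agent.R154.Asm2_157
import Crest.Agent.R154.AsmD_540

/-! Row 154, ROAD 801, one window (helper157), in the literals of helper540. -/

set_option autoImplicit false

namespace Crest.Agent.R154.Asm157

open scoped ENNReal
open Crest.Agent.R154.B5A
open Crest.Agent.R154.Asm540 (TR Cm H2 H3 H5 KS TR_append TR_depth TR_shift)

section Loc

variable {BX BY G : Type*} [AddCommGroup G]
variable {ΛX : BX → ℝ≥0∞} {ΛY : BY → ℝ≥0∞} {hX : BX → ℕ} {hY : BY → ℕ}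

lemma card_le {B : Type*} {Λ : B → ℝ≥0∞} {ht : B → ℕ} (h1 : ∀ b, 1 ≤ ht b)
    (hΛ : ∑' b, Λ b = 1) (zz : B → G) (T h : ℕ) {th : ℝ≥0∞} (h0 : th ≠ 0) :
    ∃ E : Finset G, (∀ z, th ≤ Fl Λ ht zz T h z → z ∈ E) ∧ th * E.card ≤ 1 := by
  have hne : ∑' z, Fl Λ ht zz T h z ≠ ∞ :=
    ne_top_of_le_ne_top ENNReal.one_ne_top (Fl_sum_le h1 hΛ zz T h)
  have hf := ENNReal.finite_const_le_of_tsum_ne_top hne h0
  refine ⟨hf.toFinset, fun z hz => by simpa using hz, ?_⟩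
  calc th * (hf.toFinset.card : ℝ≥0∞) = ∑ z ∈ hf.toFinset, th := by
        rw [Finset.sum_const, nsmul_eq_mul, mul_comm]
    _ ≤ ∑ z ∈ hf.toFinset, Fl Λ ht zz T h z := Finset.sum_le_sum fun z hz => by simpa using hz
    _ ≤ ∑' z, Fl Λ ht zz T h z := ENNReal.sum_le_tsum _
    _ ≤ 1 := Fl_sum_le h1 hΛ zz T h

lemma swap4 {a b c d : Type*} (F : a → b → c → d → ℝ≥0∞) :
    ∑' h, ∑' h', ∑' L, ∑' L', F h h' L L' = ∑' L, ∑' L', ∑' h, ∑' h', F h h' L L' := by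
  calc _ = ∑' p : a × b, ∑' q : c × d, F p.1 p.2 q.1 q.2 := by
        rw [ENNReal.tsum_prod (f := fun h h' => ∑' q : c × d, F h h' q.1 q.2)]
        refine tsum_congr fun h => tsum_congr fun h' => ?_
        rw [ENNReal.tsum_prod]
    _ = ∑' q : c × d, ∑' p : a × b, F p.1 p.2 q.1 q.2 := ENNReal.tsum_comm
    _ = _ := by
        rw [ENNReal.tsum_prod (f := fun L L' => ∑' p : a × b, F p.1 p.2 L L')]
        refine tsum_congr fun h => tsum_congr fun h' => ?_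
        rw [ENNReal.tsum_prod (f := fun h1 h2 => F h1 h2 h h')]

open Classical in
/-- four-fold kernel bounded by height classes -/
lemma kap_le {T i0 : ℕ} (R : List BX → List BY → Prop) :
    SF ΛX hX T (fun L1 => SF ΛY hY T (fun L1' =>
      if HT hX L1 ≤ T + i0 ∧ HT hY L1' ≤ T + i0 ∧ R L1 L1' then 1 else 0))
    ≤ ∑' h, ∑' h', (if h ∈ Finset.Icc T (T + i0) ∧ h' ∈ Finset.Icc T (T + i0) then
        ∑' L, ∑' L', (if HT hX L = h ∧ HT hY L' = h' ∧ R L L' then LW ΛX L * LW ΛY L' else 0)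
        else 0) := by
  have e : ∀ h h', (if h ∈ Finset.Icc T (T + i0) ∧ h' ∈ Finset.Icc T (T + i0) then
        ∑' L, ∑' L', (if HT hX L = h ∧ HT hY L' = h' ∧ R L L' then LW ΛX L * LW ΛY L' else 0)
        else 0) = ∑' L, ∑' L', (if (h ∈ Finset.Icc T (T + i0) ∧ h' ∈ Finset.Icc T (T + i0)) ∧
          HT hX L = h ∧ HT hY L' = h' ∧ R L L' then LW ΛX L * LW ΛY L' else 0) := by
    intro h h'
    by_cases hh : h ∈ Finset.Icc T (T + i0) ∧ h' ∈ Finset.Icc T (T + i0)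
    · rw [if_pos hh]; simp only [hh, true_and, and_self]
    · rw [if_neg hh]; simp only [hh, false_and, if_false, tsum_zero]
  simp_rw [e]
  have e2 : ∑' h, ∑' h', ∑' L, ∑' L', (if (h ∈ Finset.Icc T (T + i0) ∧
        h' ∈ Finset.Icc T (T + i0)) ∧ HT hX L = h ∧ HT hY L' = h' ∧ R L L'
        then LW ΛX L * LW ΛY L' else 0)
      = ∑' L, ∑' L', ∑' h, ∑' h', (if (h ∈ Finset.Icc T (T + i0) ∧
        h' ∈ Finset.Icc T (T + i0)) ∧ HT hX L = h ∧ HT hY L' = h' ∧ R L L'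
        then LW ΛX L * LW ΛY L' else 0) := by
    exact swap4 _
  rw [e2]
  simp only [SF]
  refine ENNReal.tsum_le_tsum fun L => ?_
  by_cases hL : FP hX L T
  · rw [if_pos hL, ← ENNReal.tsum_mul_left]
    refine ENNReal.tsum_le_tsum fun L' => ?_
    by_cases hL' : FP hY L' T ∧ (HT hX L ≤ T + i0 ∧ HT hY L' ≤ T + i0 ∧ R L L')
    · obtain ⟨a, b, c, e⟩ := hL'
      rw [if_pos a, if_pos ⟨b, c, e⟩, mul_one]
      refine le_trans ?_ (ENNReal.le_tsum (HT hX L))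
      refine le_trans ?_ (ENNReal.le_tsum (HT hY L'))
      have h1 := FP_le hL
      have h2 := FP_le a
      rw [if_pos ⟨⟨Finset.mem_Icc.2 ⟨h1, b⟩, Finset.mem_Icc.2 ⟨h2, c⟩⟩, rfl, rfl, e⟩]
    · have : LW ΛX L * (if FP hY L' T then LW ΛY L' *
          (if HT hX L ≤ T + i0 ∧ HT hY L' ≤ T + i0 ∧ R L L' then (1 : ℝ≥0∞) else 0) else 0) = 0 := by
        by_cases a : FP hY L' T
        · rw [if_pos a, if_neg (fun h => hL' ⟨a, h⟩), mul_zero, mul_zero]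
        · rw [if_neg a, mul_zero]
      rw [this]; exact bot_le
  · rw [if_neg hL]; exact bot_le

open Classical in
lemma sum_classes {T i0 : ℕ} (μ : G → ℝ≥0∞) (Jf : ℕ → ℕ → G → ℝ≥0∞) (D0 : ℝ≥0∞)
    (κ : G → ℝ≥0∞) (hκ : ∀ x, κ x ≤ ∑' h, ∑' h',
      (if h ∈ Finset.Icc T (T + i0) ∧ h' ∈ Finset.Icc T (T + i0) then Jf h h' x else 0))
    (hJ : ∀ h h', T ≤ h → T ≤ h' → ∑' x, μ x * Jf h h' x ≤ D0) :
    ∑' x, μ x * κ x ≤ (i0 + 1 : ℕ) * (i0 + 1 : ℕ) * D0 := by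
  calc ∑' x, μ x * κ x ≤ ∑' x, μ x * ∑' h, ∑' h',
        (if h ∈ Finset.Icc T (T + i0) ∧ h' ∈ Finset.Icc T (T + i0) then Jf h h' x else 0) :=
        ENNReal.tsum_le_tsum fun x => mul_le_mul_right (hκ x) _
    _ = ∑' h, ∑' h', ∑' x, μ x *
        (if h ∈ Finset.Icc T (T + i0) ∧ h' ∈ Finset.Icc T (T + i0) then Jf h h' x else 0) := by
        simp_rw [← ENNReal.tsum_mul_left]
        rw [ENNReal.tsum_comm]
        refine tsum_congr fun h => ?_
        rw [ENNReal.tsum_comm]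
    _ ≤ ∑' h, ∑' h', (if h ∈ Finset.Icc T (T + i0) then
          (if h' ∈ Finset.Icc T (T + i0) then D0 else 0) else 0) := by
        refine ENNReal.tsum_le_tsum fun h => ENNReal.tsum_le_tsum fun h' => ?_
        by_cases a : h ∈ Finset.Icc T (T + i0)
        · by_cases b : h' ∈ Finset.Icc T (T + i0)
          · simp only [a, b, and_self, if_true]
            exact hJ h h' (Finset.mem_Icc.1 a).1 (Finset.mem_Icc.1 b).1
          · simp [a, b]
        · simp [a]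
    _ = _ := by
        have hc : T + i0 + 1 - T = i0 + 1 := by omega
        have e1 : ∀ c : ℝ≥0∞, ∑' h', (if h' ∈ Finset.Icc T (T + i0) then c else 0)
            = (i0 + 1 : ℕ) * c := by
          intro c
          rw [tsum_eq_sum (s := Finset.Icc T (T + i0)) (fun h' hh' => by rw [if_neg hh'])]
          rw [Finset.sum_congr rfl (fun h' hh' => if_pos hh'), Finset.sum_const, Nat.card_Icc,
            nsmul_eq_mul, hc]
        have e2 : ∀ h, ∑' h', (if h ∈ Finset.Icc T (T + i0) then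
            (if h' ∈ Finset.Icc T (T + i0) then D0 else 0) else 0)
            = (if h ∈ Finset.Icc T (T + i0) then (i0 + 1 : ℕ) * D0 else 0) := by
          intro h
          by_cases a : h ∈ Finset.Icc T (T + i0)
          · simp only [a, if_true]; exact e1 D0
          · simp [a]
        simp_rw [e2]
        rw [e1, mul_assoc]

end Loc

section Win

variable {BX BY G : Type*} [AddCommGroup G]
variable {ΛX : BX → ℝ≥0∞} {ΛY : BY → ℝ≥0∞} {hX : BX → ℕ} {hY : BY → ℕ}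
variable {zX : BX → G} {zY : BY → G} {sX : BX → Set (G × ℕ)} {sY : BY → Set (G × ℕ)}
variable (h1X : ∀ b, 1 ≤ hX b) (hΛX : ∑' b, ΛX b = 1)
variable (h1Y : ∀ b, 1 ≤ hY b) (hΛY : ∑' b, ΛY b = 1)
variable (dX : ∀ b, ∀ p ∈ sX b, 1 ≤ p.2 ∧ p.2 ≤ hX b)
variable (dY : ∀ b, ∀ p ∈ sY b, 1 ≤ p.2 ∧ p.2 ≤ hY b)

/-- contact of two pieces, all common sites in `[lo, hi]` -/
def P0 (hX : BX → ℕ) (hY : BY → ℕ) (zX : BX → G) (zY : BY → G) (sX : BX → Set (G × ℕ))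
    (sY : BY → Set (G × ℕ)) (lo hi : ℕ) (L : List BX) (L' : List BY) (a a' : ℕ) (x : G) : Prop :=
  (∃ g k, Cm hX hY zX zY sX sY L L' x a a' g k) ∧
    ∀ g k, Cm hX hY zX zY sX sY L L' x a a' g k → lo ≤ k ∧ k ≤ hi

/-- opaque conjunction (one `Decidable` instance) -/
def LocP (p q : Prop) : Prop := p ∧ q

open Classical in
include h1X hΛX h1Y hΛY in
/-- local part of `X` -/
lemma locX {C : ℝ≥0∞} {us : ℕ → ℝ≥0∞} (h2 : H2 ΛX ΛY hX hY zX zY sX sY C us)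
    {A T i0 s lo hi J : ℕ} (hlo : A + i0 + s ≤ lo) (hJ : J * (T + i0) ≤ A)
    {u th lam : ℝ≥0∞} (hu0 : u ≠ 0) (hu1 : u ≤ 1) (ht0 : th ≠ 0)
    (ht2 : u ≤ SF ΛX hX T (fun L => if Fl ΛX hX zX T (HT hX L) (Dp zX L) < 2 * th then 1 else 0))
    (hl0 : lam ≠ 0) (hl1 : lam ≠ ∞) (w : G) :
    SF ΛX hX A (fun L0 => SF ΛY hY A (fun L0' =>
      if HT hX L0 ≤ A + i0 ∧ HT hY L0' ≤ A + i0 then
        SF ΛX hX T (fun L1 => SF ΛY hY T (fun L1' =>
          if HT hX L1 ≤ T + i0 ∧ HT hY L1' ≤ T + i0 ∧ LocP (th ≤ Fl ΛX hX zX T (HT hX L1) (Dp zX L1))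
            (P0 hX hY zX zY sX sY lo hi L1 L1' (HT hX L0) (HT hY L0') (w + Dp zY L0' - Dp zX L0))
          then 1 else 0)) else 0))
      ≤ ((1 - u) ^ J + J * ov ΛX hX i0) + (i0 + 1 : ℕ) * (i0 + 1 : ℕ) *
        ((i0 + 1 : ℕ) * (i0 + 1 : ℕ) *
          (C * (lam + (2 * (i0 + 1 : ℕ) * u⁻¹) * us s / lam + us s))) := by
  have hutop : u ≠ ∞ := ne_top_of_le_ne_top ENNReal.one_ne_top hu1
  have hq : SF ΛX hX T (fun L => if Fl ΛX hX zX T (HT hX L) (Dp zX L) < 2 * th then 0 else 1)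
      ≤ 1 - u := by
    have hs : SF ΛX hX T (fun L => if Fl ΛX hX zX T (HT hX L) (Dp zX L) < 2 * th then 1 else 0)
        + SF ΛX hX T (fun L => if Fl ΛX hX zX T (HT hX L) (Dp zX L) < 2 * th then 0 else 1)
        = 1 := by
      rw [← SF_add]
      refine (SF_congr ΛX hX fun L _ => ?_).trans (SF_one h1X hΛX T)
      split_ifs <;> simp
    refine ENNReal.le_sub_of_add_le_right hutop ?_
    rw [add_comm]
    exact (add_le_add ht2 le_rfl).trans hs.le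
  have hS : 1 + (1 - u) * u⁻¹ ≤ u⁻¹ := by
    have e : (1 : ℝ≥0∞) = u * u⁻¹ := (ENNReal.mul_inv_cancel hu0 hutop).symm
    calc 1 + (1 - u) * u⁻¹ = u * u⁻¹ + (1 - u) * u⁻¹ := by rw [← e]
      _ = (u + (1 - u)) * u⁻¹ := by ring
      _ = u⁻¹ := by rw [add_tsub_cancel_of_le hu1, one_mul]
      _ ≤ _ := le_rfl
  obtain ⟨Gd, Bd, hsp, hG, hB⟩ := dens h1X hΛX zX T i0 (2 * th) (1 - u) (ov ΛX hX i0) u⁻¹
    tsub_le_self hS hq (SF_far h1X hΛX T i0) J A hJ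
  refine core h1X hΛX h1Y hΛY zX zY w hsp hG hB
    (fun a a' x => SF ΛX hX T (fun L1 => SF ΛY hY T (fun L1' =>
          if HT hX L1 ≤ T + i0 ∧ HT hY L1' ≤ T + i0 ∧ LocP (th ≤ Fl ΛX hX zX T (HT hX L1) (Dp zX L1))
            (P0 hX hY zX zY sX sY lo hi L1 L1' a a' x) then 1 else 0))) ?_ ?_
  · intro a a' x
    refine (SF_mono ΛX hX (Ψ := fun _ => 1) fun L => ?_).trans (SF_one h1X hΛX T).le
    refine (SF_mono ΛY hY (Ψ := fun _ => 1) fun L => ?_).trans (SF_one h1Y hΛY T).le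
    split_ifs <;> simp
  · intro a a' ha ha' hb hb' μ hμ1 hμM
    choose E hE1 hE2 using fun h => card_le h1X hΛX zX T h ht0
    refine sum_classes μ (fun h h' x => ∑' L, ∑' L', (if HT hX L = h ∧ HT hY L' = h' ∧
      LocP (th ≤ Fl ΛX hX zX T (HT hX L) (Dp zX L)) (P0 hX hY zX zY sX sY lo hi L L' a a' x)
        then LW ΛX L * LW ΛY L' else 0)) _ _ (fun x => kap_le _) ?_
    intro h h' hh hh'
    have := h2 s h h' a a' lo (E h) μ ((i0 + 1 : ℕ) * (2 * th) * u⁻¹) lam hμ1 hμM hl0 hl1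
      (by omega) (by omega)
    refine le_trans (ENNReal.tsum_le_tsum fun x => mul_le_mul_right (ENNReal.tsum_le_tsum fun L =>
      ENNReal.tsum_le_tsum fun L' => ?_) _) (this.trans ?_)
    · by_cases hc : HT hX L = h ∧ HT hY L' = h' ∧
        LocP (th ≤ Fl ΛX hX zX T (HT hX L) (Dp zX L)) (P0 hX hY zX zY sX sY lo hi L L' a a' x)
      · rw [if_pos hc, if_pos]
        obtain ⟨r1, r2, r3, r4, r5⟩ := hc
        refine ⟨r1, hE1 h _ ?_, r2, r4, fun g k hgk => (r5 g k hgk).1⟩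
        rw [← r1]; exact r3
      · rw [if_neg hc]; exact bot_le
    · refine mul_le_mul_right (add_le_add (add_le_add le_rfl ?_) le_rfl) _
      refine ENNReal.div_le_div_right (mul_le_mul_left ?_ _) _
      calc (i0 + 1 : ℕ) * (2 * th) * u⁻¹ * ((E h).card : ℝ≥0∞)
          = (2 * (i0 + 1 : ℕ) * u⁻¹) * (th * (E h).card) := by ring
        _ ≤ (2 * (i0 + 1 : ℕ) * u⁻¹) * 1 := mul_le_mul_right (hE2 h) _
        _ = _ := mul_one _

open Classical in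
include h1X hΛX h1Y hΛY in
/-- local part of `Y` -/
lemma locY {C : ℝ≥0∞} {us : ℕ → ℝ≥0∞} (h3 : H3 ΛX ΛY hX hY zX zY sX sY C us)
    {A T i0 s lo hi J : ℕ} (hhi : hi + s ≤ A + T) (hJ : J * (T + i0) ≤ A)
    {u th lam : ℝ≥0∞} (hu0 : u ≠ 0) (hu1 : u ≤ 1) (ht0 : th ≠ 0)
    (ht2 : u ≤ SF ΛY hY T (fun L => if Fl ΛY hY zY T (HT hY L) (Dp zY L) < 2 * th then 1 else 0))
    (hl0 : lam ≠ 0) (hl1 : lam ≠ ∞) (w : G) :
    SF ΛX hX A (fun L0 => SF ΛY hY A (fun L0' =>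
      if HT hX L0 ≤ A + i0 ∧ HT hY L0' ≤ A + i0 then
        SF ΛX hX T (fun L1 => SF ΛY hY T (fun L1' =>
          if HT hX L1 ≤ T + i0 ∧ HT hY L1' ≤ T + i0 ∧ LocP (th ≤ Fl ΛY hY zY T (HT hY L1') (Dp zY L1'))
            (P0 hX hY zX zY sX sY lo hi L1 L1' (HT hX L0) (HT hY L0') (w + Dp zY L0' - Dp zX L0))
          then 1 else 0)) else 0))
      ≤ ((1 - u) ^ J + J * ov ΛY hY i0) + (i0 + 1 : ℕ) * (i0 + 1 : ℕ) *
        ((i0 + 1 : ℕ) * (i0 + 1 : ℕ) *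
          (C * (lam + (2 * (i0 + 1 : ℕ) * u⁻¹) * us s / lam + us s))) := by
  have hutop : u ≠ ∞ := ne_top_of_le_ne_top ENNReal.one_ne_top hu1
  have hq : SF ΛY hY T (fun L => if Fl ΛY hY zY T (HT hY L) (Dp zY L) < 2 * th then 0 else 1)
      ≤ 1 - u := by
    have hs : SF ΛY hY T (fun L => if Fl ΛY hY zY T (HT hY L) (Dp zY L) < 2 * th then 1 else 0)
        + SF ΛY hY T (fun L => if Fl ΛY hY zY T (HT hY L) (Dp zY L) < 2 * th then 0 else 1)
        = 1 := by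
      rw [← SF_add]
      refine (SF_congr ΛY hY fun L _ => ?_).trans (SF_one h1Y hΛY T)
      split_ifs <;> simp
    refine ENNReal.le_sub_of_add_le_right hutop ?_
    rw [add_comm]
    exact (add_le_add ht2 le_rfl).trans hs.le
  have hS : 1 + (1 - u) * u⁻¹ ≤ u⁻¹ := by
    have e : (1 : ℝ≥0∞) = u * u⁻¹ := (ENNReal.mul_inv_cancel hu0 hutop).symm
    calc 1 + (1 - u) * u⁻¹ = u * u⁻¹ + (1 - u) * u⁻¹ := by rw [← e]
      _ = (u + (1 - u)) * u⁻¹ := by ring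
      _ = u⁻¹ := by rw [add_tsub_cancel_of_le hu1, one_mul]
      _ ≤ _ := le_rfl
  obtain ⟨Gd, Bd, hsp, hG, hB⟩ := dens h1Y hΛY zY T i0 (2 * th) (1 - u) (ov ΛY hY i0) u⁻¹
    tsub_le_self hS hq (SF_far h1Y hΛY T i0) J A hJ
  rw [SF_comm]
  refine le_trans (le_of_eq ?_) (core h1Y hΛY h1X hΛX zY zX (-w) hsp hG hB
    (fun a' a x => SF ΛX hX T (fun L1 => SF ΛY hY T (fun L1' =>
          if HT hX L1 ≤ T + i0 ∧ HT hY L1' ≤ T + i0 ∧ LocP (th ≤ Fl ΛY hY zY T (HT hY L1') (Dp zY L1'))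
            (P0 hX hY zX zY sX sY lo hi L1 L1' a a' (-x)) then 1 else 0)))
    (D := (i0 + 1 : ℕ) * (i0 + 1 : ℕ) *
          (C * (lam + (2 * (i0 + 1 : ℕ) * u⁻¹) * us s / lam + us s))) ?_ ?_)
  · refine SF_congr ΛY hY fun L0' _ => SF_congr ΛX hX fun L0 _ => ?_
    by_cases hc : HT hX L0 ≤ A + i0 ∧ HT hY L0' ≤ A + i0
    · rw [if_pos hc, if_pos hc.symm]
      have : -(-w + Dp zX L0 - Dp zY L0') = w + Dp zY L0' - Dp zX L0 := by abel
      rw [this]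
    · rw [if_neg hc, if_neg (fun h => hc h.symm)]
  · intro a a' x
    refine (SF_mono ΛX hX (Ψ := fun _ => 1) fun L => ?_).trans (SF_one h1X hΛX T).le
    refine (SF_mono ΛY hY (Ψ := fun _ => 1) fun L => ?_).trans (SF_one h1Y hΛY T).le
    split_ifs <;> simp
  · intro a' a ha' hb' ha hb μ hμ1 hμM
    choose E hE1 hE2 using fun h => card_le h1Y hΛY zY T h ht0
    refine sum_classes μ (fun h h' x => ∑' L, ∑' L', (if HT hX L = h ∧ HT hY L' = h' ∧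
      LocP (th ≤ Fl ΛY hY zY T (HT hY L') (Dp zY L')) (P0 hX hY zX zY sX sY lo hi L L' a a' (-x))
        then LW ΛX L * LW ΛY L' else 0)) _ _ (fun x => kap_le _) ?_
    intro h h' hh hh'
    have hneg : ∀ f : G → ℝ≥0∞, ∑' x, f (-x) = ∑' x, f x := fun f => (Equiv.neg G).tsum_eq f
    have := h3 s h h' a a' hi (E h') (fun x => μ (-x)) ((i0 + 1 : ℕ) * (2 * th) * u⁻¹) lam
      (by rw [hneg]; exact hμ1) (fun x => hμM _) hl0 hl1 (by omega) (by omega)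
    rw [← hneg] at this
    simp only [neg_neg] at this
    refine le_trans (ENNReal.tsum_le_tsum fun x => mul_le_mul_right (ENNReal.tsum_le_tsum fun L =>
      ENNReal.tsum_le_tsum fun L' => ?_) _) (this.trans ?_)
    · by_cases hc : HT hX L = h ∧ HT hY L' = h' ∧
        LocP (th ≤ Fl ΛY hY zY T (HT hY L') (Dp zY L')) (P0 hX hY zX zY sX sY lo hi L L' a a' (-x))
      · rw [if_pos hc, if_pos]
        obtain ⟨r1, r2, r3, r4, r5⟩ := hc
        refine ⟨r1, r2, hE1 h' _ ?_, r4, fun g k hgk => (r5 g k hgk).2⟩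
        rw [← r2]; exact r3
      · rw [if_neg hc]; exact bot_le
    · refine mul_le_mul_right (add_le_add (add_le_add le_rfl ?_) le_rfl) _
      refine ENNReal.div_le_div_right (mul_le_mul_left ?_ _) _
      calc (i0 + 1 : ℕ) * (2 * th) * u⁻¹ * ((E h').card : ℝ≥0∞)
          = (2 * (i0 + 1 : ℕ) * u⁻¹) * (th * (E h').card) := by ring
        _ ≤ (2 * (i0 + 1 : ℕ) * u⁻¹) * 1 := mul_le_mul_right (hE2 h') _
        _ = _ := mul_one _

end Win

end Crest.Agent.R154.Asm157
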