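import Crest.Agent.R154.NBDefs_28
import Crest.Agent.R154.B5Rec_566

/-! Row 154 (S0219, ROAD 801), helper419: the binder between lists of single-walker blocks and words. -/

set_option autoImplicit false

namespace Crest.Agent.R154.KWB419

open MeasureTheory ProbabilityTheory Crest.ProbabilityR.RandomEnvironment Crest.Agent.R154
open Crest.Agent.R154.Flux132 (lev opp)
open Crest.Agent.R154.Flux566 (lw endp sitesL endp_append endp_eq_add)
open Crest.Agent.R154.NB28
open Crest.Agent.R154.B5A (LW HT)
open scoped ENNReal

variable {d : ℕ}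

lemma levA (u : Step d) (x y : Site d) : lev u (x + y) = lev u x + lev u y := by
  unfold lev; split_ifs <;> simp [Pi.add_apply]; ring

lemma levN (u : Step d) (x : Site d) : lev u (-x) = - lev u x := by
  unfold lev; split_ifs <;> simp

lemma levS (u : Step d) (x y : Site d) : lev u (x - y) = lev u x - lev u y := by
  rw [sub_eq_add_neg, levA, levN]; ring

lemma levZ (u : Step d) : lev u (0 : Site d) = 0 := by unfold lev; simp

lemma levU (u : Step d) : lev u (stepVec u) = 1 := by
  unfold lev stepVec
  rcases u with ⟨i, b⟩
  cases b <;> simp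

lemma levM (u : Step d) (k : ℕ) (x : Site d) : lev u (k • x) = k * lev u x := by
  unfold lev; split_ifs <;> simp

lemma oppV (u : Step d) : stepVec (opp u) = - stepVec u := by
  rcases u with ⟨i, b⟩
  unfold stepVec opp
  cases b <;> simp [← Pi.single_neg]

lemma sitesA (l l' : List (Step d)) (x : Site d) :
    sitesL x (l ++ l') = sitesL x l ++ sitesL (endp x l) l' := by
  induction l generalizing x with
  | nil => rfl
  | cons e l ih => simp only [List.cons_append, sitesL, endp, ih]

lemma sitesT (l : List (Step d)) (x z : Site d) :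
    sitesL (x + z) l = (sitesL x l).map (· + z) := by
  induction l generalizing x with
  | nil => rfl
  | cons e l ih =>
    simp only [sitesL, List.map_cons]
    rw [show x + z + stepVec e = (x + stepVec e) + z by abel, ih]

lemma mem_sitesT (l : List (Step d)) (x z y : Site d) :
    y ∈ sitesL (x + z) l ↔ y - z ∈ sitesL x l := by
  rw [sitesT, List.mem_map]
  constructor
  · rintro ⟨a, ha, rfl⟩; simpa using ha
  · intro h; exact ⟨_, h, by simp⟩

section Blocks

variable {BX : Type*} (vX : BX → List (Step d)) (hX : BX → ℕ) (u : Step d)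

/-- trace of a list of blocks (helper540's letters) -/
def TT {B G : Type*} [AddCommGroup G] (s : B → Set (G × ℕ)) (h : B → ℕ) (z : B → G) :
    List B → G → ℕ → Set (G × ℕ)
  | [], _, _ => ∅
  | b :: L, x, a => {p | ∃ q ∈ s b, p = (x + q.1, a + q.2)} ∪ TT s h z L (x + z b) (a + h b)

/-- word of a list of up blocks (top block first) -/
def catU : List BX → List (Step d)
  | [] => []
  | b :: L => catU L ++ vX b

/-- word of a list of down blocks (top block first) -/
def catD : List BX → List (Step d)
  | [] => []
  | b :: L => vX b ++ catD L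

/-- trace of an up block hung with its end at `0` -/
def sU (b : BX) : Set (Site d × ℕ) :=
  {p | ∃ y ∈ sitesL (-endp 0 (vX b)) (vX b), lev u y = -(p.2 : ℤ) ∧ p.1 = y + p.2 • stepVec u}

/-- displacement of an up block, from top to bottom -/
def zU (b : BX) : Site d := -endp 0 (vX b) + hX b • stepVec u

/-- trace of a down block started at `-u` -/
def sD (b : BX) : Set (Site d × ℕ) :=
  {p | ∃ y ∈ sitesL (stepVec (opp u)) (vX b), lev u y = -(p.2 : ℤ) ∧ p.1 = y + p.2 • stepVec u}

/-- displacement of a down block -/
def zD (b : BX) : Site d := endp 0 (vX b) + hX b • stepVec u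

lemma IsUp_start_sites {n : ℕ} {l : List (Step d)} (h : IsUp u n l) {y : Site d}
    (hy : y ∈ sitesL (-endp 0 l) l) : 1 ≤ - lev u y ∧ - lev u y ≤ n := by
  have h0 : y + endp 0 l ∈ sitesL 0 l := by
    have := (mem_sitesT l 0 (-endp 0 l) y).1 (by simpa using hy)
    simpa using this
  obtain ⟨h1, h2⟩ := h.1 _ h0
  have h3 := h.2
  rw [levA, h3] at h1 h2
  omega

lemma IsDn_start_sites {n : ℕ} {l : List (Step d)} (h : IsDn u n l) {y : Site d}
    (hy : y ∈ sitesL (stepVec (opp u)) l) : 1 ≤ - lev u y ∧ - lev u y ≤ n := by
  have h0 : y - stepVec (opp u) ∈ sitesL 0 l := by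
    exact (mem_sitesT l 0 (stepVec (opp u)) y).1 (by simpa using hy)
  obtain ⟨h1, h2⟩ := h.1 _ h0
  rw [levS, oppV, levN, levU] at h1 h2
  omega

variable (hUp : ∀ b, IsUp u (hX b) (vX b))

include hUp in
lemma lev_zU (b : BX) : lev u (zU vX hX u b) = 0 := by
  unfold zU
  rw [levA, levN, levM, levU, (hUp b).2]
  ring

include hUp in
lemma mem_TU (L : List BX) (x : Site d) (a : ℕ) (z : Site d) (k : ℕ) :
    (z, k) ∈ TT (sU vX u) hX (zU vX hX u) L x a ↔
      z - k • stepVec u ∈ sitesL (x - a • stepVec u - endp 0 (catU vX L)) (catU vX L) ∧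
        lev u z = lev u x := by
  induction L generalizing x a with
  | nil => simp [TT, catU, sitesL]
  | cons b L ih =>
    simp only [TT, catU, Set.mem_union]
    rw [ih, sitesA, List.mem_append, endp_append,
      endp_eq_add (vX b) (endp 0 (catU vX L)),
      endp_eq_add (catU vX L) (x - a • stepVec u - (endp 0 (catU vX L) + endp 0 (vX b)))]
    have e1 : x + zU vX hX u b - (a + hX b) • stepVec u - endp 0 (catU vX L)
        = x - a • stepVec u - (endp 0 (catU vX L) + endp 0 (vX b)) := by
      unfold zU
      rw [add_smul]
      abel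
    have e2 : x - a • stepVec u - (endp 0 (catU vX L) + endp 0 (vX b)) + endp 0 (catU vX L)
        = -endp 0 (vX b) + (x - a • stepVec u) := by abel
    rw [e1, e2, levA u x (zU vX hX u b), lev_zU vX hX u hUp b, add_zero, mem_sitesT]
    have key : (z, k) ∈ {p : Site d × ℕ | ∃ q ∈ sU vX u b, p = (x + q.1, a + q.2)} ↔
        z - k • stepVec u - (x - a • stepVec u) ∈ sitesL (-endp 0 (vX b)) (vX b) ∧
          lev u z = lev u x := by
      constructor
      · rintro ⟨⟨z', k'⟩, ⟨y, hy, hly, hz'⟩, hp⟩
        simp only at hly hz'
        obtain ⟨rfl, rfl⟩ := Prod.mk.inj hp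
        refine ⟨?_, ?_⟩
        · have : x + z' - (a + k') • stepVec u - (x - a • stepVec u) = y := by
            rw [hz', add_smul]; abel
          rw [this]; exact hy
        · rw [levA, hz', levA, levM, levU, hly]; ring
      · rintro ⟨hy, hz⟩
        have hb := IsUp_start_sites u (hUp b) hy
        have hl : lev u (z - k • stepVec u - (x - a • stepVec u)) = a - k := by
          rw [levS, levS, levS, levM, levM, levU, hz]; ring
        rw [hl] at hb
        refine ⟨(z - x, k - a), ⟨_, hy, ?_, ?_⟩, ?_⟩
        · rw [hl]; simp only; omega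
        · simp only
          have : k = (k - a) + a := by omega
          conv_rhs => rw [show k • stepVec u = (k - a) • stepVec u + a • stepVec u by
            rw [← add_smul, ← this]]
          abel
        · refine Prod.ext ?_ ?_
          · simp
          · simp only; omega
    rw [key]
    tauto

variable (hDn : ∀ b, IsDn u (hX b) (vX b))

include hDn in
lemma lev_zD (b : BX) : lev u (zD vX hX u b) = 0 := by
  unfold zD
  rw [levA, levM, levU, (hDn b).2]
  ring

include hDn in
lemma mem_TD (L : List BX) (x : Site d) (a : ℕ) (z : Site d) (k : ℕ) :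
    (z, k) ∈ TT (sD vX u) hX (zD vX hX u) L x a ↔
      z - k • stepVec u ∈ sitesL (x - (a + 1) • stepVec u) (catD vX L) ∧
        lev u z = lev u x := by
  induction L generalizing x a with
  | nil => simp [TT, catD, sitesL]
  | cons b L ih =>
    simp only [TT, catD, Set.mem_union]
    rw [ih, sitesA, List.mem_append, endp_eq_add (vX b) (x - (a + 1) • stepVec u)]
    have e1 : x + zD vX hX u b - (a + hX b + 1) • stepVec u
        = x - (a + 1) • stepVec u + endp 0 (vX b) := by
      unfold zD
      rw [add_smul, add_smul, add_smul]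
      abel
    have e2 : x - (a + 1) • stepVec u = stepVec (opp u) + (x - a • stepVec u) := by
      rw [oppV, add_smul, one_smul]; abel
    rw [e1, levA u x (zD vX hX u b), lev_zD vX hX u hDn b, add_zero]
    have key : (z, k) ∈ {p : Site d × ℕ | ∃ q ∈ sD vX u b, p = (x + q.1, a + q.2)} ↔
        z - k • stepVec u ∈ sitesL (x - (a + 1) • stepVec u) (vX b) ∧
          lev u z = lev u x := by
      rw [e2, mem_sitesT]
      constructor
      · rintro ⟨⟨z', k'⟩, ⟨y, hy, hly, hz'⟩, hp⟩
        simp only at hly hz'
        obtain ⟨rfl, rfl⟩ := Prod.mk.inj hp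
        refine ⟨?_, ?_⟩
        · have : x + z' - (a + k') • stepVec u - (x - a • stepVec u) = y := by
            rw [hz', add_smul]; abel
          rw [this]; exact hy
        · rw [levA, hz', levA, levM, levU, hly]; ring
      · rintro ⟨hy, hz⟩
        have hb := IsDn_start_sites u (hDn b) hy
        have hl : lev u (z - k • stepVec u - (x - a • stepVec u)) = a - k := by
          rw [levS, levS, levS, levM, levM, levU, hz]; ring
        rw [hl] at hb
        refine ⟨(z - x, k - a), ⟨_, hy, ?_, ?_⟩, ?_⟩
        · rw [hl]; simp only; omega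
        · simp only
          have : k = (k - a) + a := by omega
          conv_rhs => rw [show k • stepVec u = (k - a) • stepVec u + a • stepVec u by
            rw [← add_smul, ← this]]
          abel
        · refine Prod.ext ?_ ?_
          · simp
          · simp only; omega
    rw [key]
    tauto

end Blocks

end Crest.Agent.R154.KWB419
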