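import Crest.Agent.R154.Asm2_214
import Crest.Agent.R154.KWBind_419

/-! Row 154, ROAD 801, abstract assembly, part 3 (helper214): one window. -/

set_option autoImplicit false

namespace Crest.Agent.R154.Asm214

open scoped ENNReal Classical
open Crest.Agent.R154.B5A
open Crest.Agent.R154.FP178
open Crest.Agent.R154.KWB419 (TT)

section tt

variable {B G : Type*} [AddCommGroup G] (s : B → Set (G × ℕ)) (ht : B → ℕ) (z : B → G)

lemma TT_append (L L' : List B) (x : G) (a : ℕ) :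
    TT s ht z (L ++ L') x a = TT s ht z L x a ∪ TT s ht z L' (x + Dp z L) (a + HT ht L) := by
  induction L generalizing x a with
  | nil => simp [TT, Dp_nil, HT_nil]
  | cons b L ih =>
    rw [List.cons_append, TT, TT, ih, Set.union_assoc, Dp_cons, HT_cons, add_assoc, add_assoc]

lemma TT_depth (hs : ∀ b q, q ∈ s b → 1 ≤ q.2 ∧ q.2 ≤ ht b) (L : List B) (x y : G) (a k : ℕ)
    (h : (y, k) ∈ TT s ht z L x a) : a < k ∧ k ≤ a + HT ht L := by
  induction L generalizing x a with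
  | nil => simp [TT] at h
  | cons b L ih =>
    rw [TT] at h
    rw [HT_cons]
    rcases h with ⟨q, hq, he⟩ | h
    · rw [Prod.mk.injEq] at he
      have := hs b q hq
      omega
    · have := ih _ _ h
      omega

lemma TT_shift (L : List B) (x c y : G) (a k : ℕ) :
    (y, k) ∈ TT s ht z L (x + c) a ↔ (y - c, k) ∈ TT s ht z L x a := by
  induction L generalizing x a with
  | nil => simp [TT]
  | cons b L ih =>
    rw [TT, TT]
    simp only [Set.mem_union, Set.mem_setOf_eq, Prod.mk.injEq]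
    rw [show x + c + z b = x + z b + c by abel, ih]
    refine or_congr_left ?_
    constructor
    · rintro ⟨q, hq, h1, h2⟩
      exact ⟨q, hq, by rw [h1]; abel, h2⟩
    · rintro ⟨q, hq, h1, h2⟩
      exact ⟨q, hq, by rw [sub_eq_iff_eq_add] at h1; rw [h1]; abel, h2⟩

end tt

section three

variable {BX BY G : Type*} [AddCommGroup G]
  (ΛX : BX → ℝ≥0∞) (hX : BX → ℕ) (zX : BX → G) (sX : BX → Set (G × ℕ))
  (ΛY : BY → ℝ≥0∞) (hY : BY → ℕ) (zY : BY → G) (sY : BY → Set (G × ℕ))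

/-- some common site, and every common site has depth in `[lo, hi]` -/
def Ev (lo hi : ℕ) (A : List BX) (A' : List BY) (x : G) (a : ℕ) (y : G) (a' : ℕ) : Prop :=
  (∃ v k, (v, k) ∈ TT sX hX zX A x a ∧ (v, k) ∈ TT sY hY zY A' y a') ∧
  ∀ v k, (v, k) ∈ TT sX hX zX A x a → (v, k) ∈ TT sY hY zY A' y a' → lo ≤ k ∧ k ≤ hi

lemma Ev_shift (lo hi : ℕ) (A : List BX) (A' : List BY) (x : G) (a : ℕ) (y : G) (a' : ℕ) :
    Ev hX zX sX hY zY sY lo hi A A' x a y a' ↔ Ev hX zX sX hY zY sY lo hi A A' 0 a (y - x) a' := by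
  have e1 : ∀ v k, (v, k) ∈ TT sX hX zX A x a ↔ (v - x, k) ∈ TT sX hX zX A 0 a := by
    intro v k
    have := TT_shift sX hX zX A 0 x v a k
    rwa [zero_add] at this
  have e2 : ∀ v k, (v, k) ∈ TT sY hY zY A' y a' ↔ (v - x, k) ∈ TT sY hY zY A' (y - x) a' := by
    intro v k
    have := TT_shift sY hY zY A' (y - x) x v a' k
    rwa [sub_add_cancel] at this
  unfold Ev
  constructor
  · rintro ⟨⟨v, k, h1, h2⟩, h3⟩
    refine ⟨⟨v - x, k, (e1 v k).1 h1, (e2 v k).1 h2⟩, fun v' k' h1' h2' => ?_⟩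
    refine h3 (v' + x) k' ((e1 _ _).2 ?_) ((e2 _ _).2 ?_) <;> rwa [add_sub_cancel_right]
  · rintro ⟨⟨v, k, h1, h2⟩, h3⟩
    refine ⟨⟨v + x, k, (e1 _ _).2 ?_, (e2 _ _).2 ?_⟩, fun v' k' h1' h2' => ?_⟩
    · rwa [add_sub_cancel_right]
    · rwa [add_sub_cancel_right]
    · exact h3 (v' - x) k' ((e1 _ _).1 h1') ((e2 _ _).1 h2')

/-- window event of two long lists: a common site with depth in `[lo, hi]`, and every common site
of depth in `(b1, b2]` has depth in `[lo, hi]` -/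
def Fj (w : G) (lo hi b1 b2 : ℕ) (L : List BX) (L' : List BY) : Prop :=
  (∃ v k, lo ≤ k ∧ k ≤ hi ∧ (v, k) ∈ TT sX hX zX L 0 0 ∧ (v, k) ∈ TT sY hY zY L' w 0) ∧
  ∀ v k, (v, k) ∈ TT sX hX zX L 0 0 → (v, k) ∈ TT sY hY zY L' w 0 → b1 < k → k ≤ b2 →
    lo ≤ k ∧ k ≤ hi

lemma Fj_to_Ev (hsX : ∀ b q, q ∈ sX b → 1 ≤ q.2 ∧ q.2 ≤ hX b)
    (hsY : ∀ b q, q ∈ sY b → 1 ≤ q.2 ∧ q.2 ≤ hY b) (w : G) (lo hi b1 b2 : ℕ)
    (P A R : List BX) (Q A' R' : List BY)
    (p1 : b1 ≤ HT hX P) (p2 : HT hX P < lo) (p3 : hi ≤ HT hX P + HT hX A)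
    (p4 : HT hX P + HT hX A ≤ b2)
    (q2 : HT hY Q < lo) (q3 : hi ≤ HT hY Q + HT hY A')
    (h : Fj hX zX sX hY zY sY w lo hi b1 b2 (P ++ (A ++ R)) (Q ++ (A' ++ R'))) :
    Ev hX zX sX hY zY sY lo hi A A' (Dp zX P) (HT hX P) (w + Dp zY Q) (HT hY Q) := by
  obtain ⟨⟨v, k, h1, h2, h3, h4⟩, h5⟩ := h
  have mX : ∀ v k, (v, k) ∈ TT sX hX zX A (Dp zX P) (HT hX P) →
      (v, k) ∈ TT sX hX zX (P ++ (A ++ R)) 0 0 := by
    intro v k hv
    rw [TT_append, TT_append, zero_add, zero_add]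
    exact Or.inr (Or.inl hv)
  have mY : ∀ v k, (v, k) ∈ TT sY hY zY A' (w + Dp zY Q) (HT hY Q) →
      (v, k) ∈ TT sY hY zY (Q ++ (A' ++ R')) w 0 := by
    intro v k hv
    rw [TT_append, TT_append, zero_add]
    exact Or.inr (Or.inl hv)
  refine ⟨⟨v, k, ?_, ?_⟩, ?_⟩
  · rw [TT_append, TT_append, zero_add, zero_add] at h3
    rcases h3 with h3 | h3 | h3
    · have := TT_depth sX hX zX hsX _ _ _ _ _ h3; omega
    · exact h3
    · have := TT_depth sX hX zX hsX _ _ _ _ _ h3; omega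
  · rw [TT_append, TT_append, zero_add] at h4
    rcases h4 with h4 | h4 | h4
    · have := TT_depth sY hY zY hsY _ _ _ _ _ h4; omega
    · exact h4
    · have := TT_depth sY hY zY hsY _ _ _ _ _ h4; omega
  · intro v' k' h1' h2'
    have hk := TT_depth sX hX zX hsX _ _ _ _ _ h1'
    exact h5 v' k' (mX _ _ h1') (mY _ _ h2') (by omega) (by omega)

/-- indicator -/
noncomputable def ind (p : Prop) : ℝ≥0∞ := if p then 1 else 0

lemma ind_le_one (p : Prop) : ind p ≤ 1 := by unfold ind; split_ifs <;> simp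

lemma ind_mono {p q : Prop} (h : p → q) : ind p ≤ ind q := by
  unfold ind
  by_cases hp : p
  · rw [if_pos hp, if_pos (h hp)]
  · rw [if_neg hp]; exact zero_le

lemma SL_succ_last {C : Type*} (Λ' : C → ℝ≥0∞) (j : ℕ) (F : List C → ℝ≥0∞) :
    SL Λ' (j + 1) F = SL Λ' j (fun P => ∑' A, Λ' A * F (P ++ [A])) := by
  rw [SL_add]
  refine SL_congr Λ' j fun P _ => ?_
  rw [show (1 : ℕ) = 0 + 1 from rfl, SL_succ]
  refine tsum_congr fun A => ?_
  rw [SL_zero]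

/-- **reduction of a window of long lists to a pair of pieces** -/
theorem red (h1X : ∀ b, 1 ≤ hX b) (h1Y : ∀ b, 1 ≤ hY b) (hΛX : ∑' b, ΛX b ≤ 1)
    (hΛY : ∑' b, ΛY b ≤ 1) (hUX : ∀ n, U ΛX hX n ≤ 1) (hUY : ∀ n, U ΛY hY n ≤ 1)
    (hsX : ∀ b q, q ∈ sX b → 1 ≤ q.2 ∧ q.2 ≤ hX b)
    (hsY : ∀ b q, q ∈ sY b → 1 ≤ q.2 ∧ q.2 ≤ hY b) (w : G) (T i0 j D s lo hi n : ℕ) (e : ℝ≥0∞)
    (heX : ∑' L, (if fp hX T L ∧ T + i0 < HT hX L then LW ΛX L else 0) ≤ e)
    (heY : ∑' L, (if fp hY T L ∧ T + i0 < HT hY L then LW ΛY L else 0) ≤ e)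
    (hn : (j + 1) * (T + i0) ≤ n) (hD : (j + 1) * i0 ≤ D) (hlo : j * T + D + s < lo)
    (hhi : hi + s ≤ (j + 1) * T) :
    S ΛX hX n (fun L => S ΛY hY n (fun L' =>
      ind (Fj hX zX sX hY zY sY w lo hi (j * T) ((j + 1) * T + D) L L')))
    ≤ (j + 1 : ℕ) * e + (j + 1 : ℕ) * e +
      SL (PW ΛX hX T i0) j (fun P => SL (PW ΛY hY T i0) j (fun Q =>
        ∑' A, PW ΛX hX T i0 A * ∑' A', PW ΛY hY T i0 A' *
          ind (Ev hX zX sX hY zY sY lo hi A A' (Dp zX P.flatten) (HT hX P.flatten)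
            (w + Dp zY Q.flatten) (HT hY Q.flatten)))) := by
  set WX := PW ΛX hX T i0 with hWX
  set WY := PW ΛY hY T i0 with hWY
  set F : List BX → List BY → Prop := Fj hX zX sX hY zY sY w lo hi (j * T) ((j + 1) * T + D)
    with hF
  set Φ : List (List BX) → List (List BY) → ℝ≥0∞ := fun PP QQ =>
    ind (∃ R R', F (PP.flatten ++ R) (QQ.flatten ++ R')) with hΦ
  have s1 : S ΛX hX n (fun L => S ΛY hY n (fun L' => ind (F L L')))
      ≤ (j + 1 : ℕ) * e + SL WX (j + 1) (fun PP => S ΛX hX (n - HT hX PP.flatten)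
        (fun R => S ΛY hY n (fun L' => ind (F (PP.flatten ++ R) L')))) :=
    peel ΛX hX h1X hΛX hUX T i0 e heX (j + 1) n hn _
      (fun L => S_le ΛY hY hUY n 1 fun L' _ => ind_le_one _)
  have s2 : ∀ PP : List (List BX), ∀ R, S ΛY hY n (fun L' => ind (F (PP.flatten ++ R) L'))
      ≤ (j + 1 : ℕ) * e + SL WY (j + 1) (fun QQ => Φ PP QQ) := by
    intro PP R
    refine (peel ΛY hY h1Y hΛY hUY T i0 e heY (j + 1) n hn _ (fun L' => ind_le_one _)).trans ?_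
    refine add_le_add le_rfl (SL_mono _ _ fun QQ _ => ?_)
    refine S_le ΛY hY hUY _ _ fun R' _ => ?_
    exact ind_mono fun h => ⟨R, R', h⟩
  have s3 : SL WX (j + 1) (fun PP => S ΛX hX (n - HT hX PP.flatten)
        (fun R => S ΛY hY n (fun L' => ind (F (PP.flatten ++ R) L'))))
      ≤ (j + 1 : ℕ) * e + SL WX (j + 1) (fun PP => SL WY (j + 1) (fun QQ => Φ PP QQ)) := by
    calc _ ≤ SL WX (j + 1) (fun PP => (j + 1 : ℕ) * e + SL WY (j + 1) (fun QQ => Φ PP QQ)) :=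
          SL_mono _ _ fun PP _ => S_le ΛX hX hUX _ _ fun R _ => s2 PP R
      _ ≤ _ := by
          rw [SL_add_fun]
          exact add_le_add (SLP_const ΛX hX h1X hΛX T i0 (j + 1) _) le_rfl
  refine s1.trans ?_
  rw [add_assoc]
  refine add_le_add le_rfl (s3.trans (add_le_add le_rfl ?_))
  -- last pieces
  rw [SL_succ_last]
  refine SLP_mono ΛX hX T i0 j fun P hPj hP => ?_
  have c1 : ∀ PP, SL WY (j + 1) (fun QQ => Φ PP QQ)
      = SL WY j (fun Q => ∑' A', WY A' * Φ PP (Q ++ [A'])) := fun PP => SL_succ_last _ _ _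
  have c2 : ∑' A, WX A * SL WY (j + 1) (fun QQ => Φ (P ++ [A]) QQ)
      = SL WY j (fun Q => ∑' A, WX A * ∑' A', WY A' * Φ (P ++ [A]) (Q ++ [A'])) := by
    rw [SL_tsum]
    refine tsum_congr fun A => ?_
    rw [c1, SL_const_mul]
  rw [c2]
  refine SLP_mono ΛY hY T i0 j fun Q hQj hQ => ?_
  refine ENNReal.tsum_le_tsum fun A => ?_
  by_cases hA : gd hX T i0 A
  swap
  · rw [hWX, PW, if_neg hA, zero_mul, zero_mul]
  refine mul_le_mul_right (ENNReal.tsum_le_tsum fun A' => ?_) _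
  by_cases hA' : gd hY T i0 A'
  swap
  · rw [hWY, PW, if_neg hA', zero_mul, zero_mul]
  refine mul_le_mul_right (ind_mono ?_) _
  rintro ⟨R, R', h⟩
  have b1 := HT_flatten_le hX T i0 P hP
  have b2 := HT_flatten_le hY T i0 Q hQ
  rw [hPj] at b1
  rw [hQj] at b2
  have b3 := le_HT_of_fp hX hA.1
  have b4 := le_HT_of_fp hY hA'.1
  have b5 := hA.2
  have b6 := hA'.2
  have e1 : (P ++ [A]).flatten ++ R = P.flatten ++ (A ++ R) := by simp
  have e2 : (Q ++ [A']).flatten ++ R' = Q.flatten ++ (A' ++ R') := by simp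
  rw [e1, e2] at h
  have m1 : (j + 1) * T = j * T + T := by ring
  have m2 : j * (T + i0) = j * T + j * i0 := by ring
  have m3 : (j + 1) * i0 = j * i0 + i0 := by ring
  refine Fj_to_Ev hX zX sX hY zY sY hsX hsY w lo hi (j * T) ((j + 1) * T + D) _ _ R _ _ R'
    ?_ ?_ ?_ ?_ ?_ ?_ h <;> omega

end three

end Crest.Agent.R154.Asm214
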