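import Crest.Agent.R154.Asm2_284

/-! Row 154, ROAD 801 (helper284): the four-fold sum and one window. -/

set_option autoImplicit false

namespace Crest.Agent.R154.Asm284

open Crest.Agent.R154.B5A Crest.Agent.R154.Ren396
open Crest.Agent.R154.Asm540 (TR Dp Cm KS H5 TR_append TR_depth TR_shift)
open scoped ENNReal

variable {BX BY G : Type*} [AddCommGroup G]
  (ΛX : BX → ℝ≥0∞) (ΛY : BY → ℝ≥0∞) (hX : BX → ℕ) (hY : BY → ℕ) (zX : BX → G) (zY : BY → G)

open Classical in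
theorem quad (hΛX : ∑' b, ΛX b ≤ 1) (h1X : ∀ b, 1 ≤ hX b) (hΛY : ∑' b, ΛY b ≤ 1)
    (h1Y : ∀ b, 1 ≤ hY b) (A τ A' τ' i0 : ℕ) (w : G)
    (GP : ℕ → ℕ → G → List BX → List BY → Prop) (S S' : Set (ℕ × G)) (M M' β v : ℝ≥0∞)
    (Wg Wb Wg' Wb' : ℕ → G → ℝ≥0∞)
    (hW : ∀ c δ, W ΛX hX zX A c δ ≤ Wg c δ + Wb c δ) (hg : ∀ c δ, Wg c δ ≤ M)
    (hW' : ∀ c δ, W ΛY hY zY A' c δ ≤ Wg' c δ + Wb' c δ) (hg' : ∀ c δ, Wg' c δ ≤ M')
    (hS : ∑' P, (if FR hX P τ ∧ (HT hX P, dp zX P) ∉ S then LW ΛX P else 0) ≤ v)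
    (hS' : ∑' P, (if FR hY P τ' ∧ (HT hY P, dp zY P) ∉ S' then LW ΛY P else 0) ≤ v)
    (hH2 : ∀ a a' h h', A ≤ a → a ≤ A + i0 → A' ≤ a' → a' ≤ A' + i0 → τ ≤ h → h ≤ τ + i0 →
      τ' ≤ h' → h' ≤ τ' + i0 → ∀ (μ : G → ℝ≥0∞), ∑' x, μ x ≤ 1 → (∀ x, μ x ≤ M) →
      ∑' x, μ x * ∑' L, ∑' L', (if HT hX L = h ∧ (h, dp zX L) ∈ S ∧ HT hY L' = h' ∧
        GP a a' x L L' then LW ΛX L * LW ΛY L' else 0) ≤ β)
    (hH3 : ∀ a a' h h', A ≤ a → a ≤ A + i0 → A' ≤ a' → a' ≤ A' + i0 → τ ≤ h → h ≤ τ + i0 →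
      τ' ≤ h' → h' ≤ τ' + i0 → ∀ (μ : G → ℝ≥0∞), ∑' x, μ x ≤ 1 → (∀ x, μ x ≤ M') →
      ∑' x, μ x * ∑' L, ∑' L', (if HT hX L = h ∧ HT hY L' = h' ∧ (h', dp zY L') ∈ S' ∧
        GP a a' x L L' then LW ΛX L * LW ΛY L' else 0) ≤ β) :
    ∑' L1, ∑' P, ∑' L1', ∑' P', (if (FR hX L1 A ∧ HT hX L1 ≤ A + i0) ∧
        (FR hX P τ ∧ HT hX P ≤ τ + i0) ∧ (FR hY L1' A' ∧ HT hY L1' ≤ A' + i0) ∧
        (FR hY P' τ' ∧ HT hY P' ≤ τ' + i0) ∧
        GP (HT hX L1) (HT hY L1') (w + dp zY L1' - dp zX L1) P P'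
        then LW ΛX L1 * (LW ΛX P * (LW ΛY L1' * LW ΛY P')) else 0)
      ≤ ((∑' c, ∑' δ, Wb c δ) + (i0 + 1) ^ 3 * β) +
        (((∑' c, ∑' δ, Wb' c δ) + (i0 + 1) ^ 3 * β) + v * v) := by
  set t1 : List BX → List BX → List BY → List BY → ℝ≥0∞ := fun L1 P L1' P' =>
    (if (FR hX L1 A ∧ HT hX L1 ≤ A + i0) ∧
        (FR hX P τ ∧ HT hX P ≤ τ + i0) ∧ (HT hX P, dp zX P) ∈ S ∧
        (FR hY L1' A' ∧ HT hY L1' ≤ A' + i0) ∧ (FR hY P' τ' ∧ HT hY P' ≤ τ' + i0) ∧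
        GP (HT hX L1) (HT hY L1') (w + dp zY L1' - dp zX L1) P P'
        then LW ΛX L1 * (LW ΛX P * (LW ΛY L1' * LW ΛY P')) else 0) with ht1
  set t2 : List BX → List BX → List BY → List BY → ℝ≥0∞ := fun L1 P L1' P' =>
    (if (FR hY L1' A' ∧ HT hY L1' ≤ A' + i0) ∧
        (FR hY P' τ' ∧ HT hY P' ≤ τ' + i0) ∧ (HT hY P', dp zY P') ∈ S' ∧
        (FR hX L1 A ∧ HT hX L1 ≤ A + i0) ∧ (FR hX P τ ∧ HT hX P ≤ τ + i0) ∧
        GP (HT hX L1) (HT hY L1') (-(-w + dp zX L1 - dp zY L1')) P P'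
        then LW ΛY L1' * (LW ΛY P' * (LW ΛX L1 * LW ΛX P)) else 0) with ht2
  set t3 : List BX → List BX → List BY → List BY → ℝ≥0∞ := fun L1 P L1' P' =>
    (if FR hX L1 A then LW ΛX L1 else 0) *
      ((if FR hX P τ ∧ (HT hX P, dp zX P) ∉ S then LW ΛX P else 0) *
      ((if FR hY L1' A' then LW ΛY L1' else 0) *
        (if FR hY P' τ' ∧ (HT hY P', dp zY P') ∉ S' then LW ΛY P' else 0))) with ht3
  have b1 : ∑' L1, ∑' P, ∑' L1', ∑' P', t1 L1 P L1' P'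
      ≤ (∑' c, ∑' δ, Wb c δ) + (i0 + 1) ^ 3 * β :=
    half ΛX hX zX ΛY hY zY hΛX h1X hΛY h1Y A τ A' τ' i0 w GP S M β Wg Wb hW hg hH2
  have b2 : ∑' L1, ∑' P, ∑' L1', ∑' P', t2 L1 P L1' P'
      ≤ (∑' c, ∑' δ, Wb' c δ) + (i0 + 1) ^ 3 * β := by
    rw [swap4]
    refine half ΛY hY zY ΛX hX zX hΛY h1Y hΛX h1X A' τ' A τ i0 (-w)
      (fun a' a x P' P => GP a a' (-x) P P') S' M' β Wg' Wb' hW' hg' ?_
    intro a' a h' h ha1' ha2' ha1 ha2 hh1' hh2' hh1 hh2 μ hμ hM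
    refine le_trans (le_of_eq ?_) (hH3 a a' h h' ha1 ha2 ha1' ha2' hh1 hh2 hh1' hh2'
      (fun x => μ (-x)) ?_ (fun x => hM _))
    · rw [← (Equiv.neg G).tsum_eq]
      refine tsum_congr fun x => ?_
      simp only [Equiv.neg_apply, neg_neg]
      congr 1
      rw [ENNReal.tsum_comm]
      refine tsum_congr fun L => tsum_congr fun L' => ?_
      by_cases hc : HT hX L = h ∧ HT hY L' = h' ∧ (h', dp zY L') ∈ S' ∧ GP a a' x L L'
      · rw [if_pos hc, if_pos ⟨hc.2.1, hc.2.2.1, hc.1, hc.2.2.2⟩, mul_comm]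
      · rw [if_neg hc, if_neg]
        rintro ⟨q1, q2, q3, q4⟩
        exact hc ⟨q3, q1, q2, q4⟩
    · have e6 := (Equiv.neg G).tsum_eq μ
      simp only [Equiv.neg_apply] at e6
      rw [e6]
      exact hμ
  have b3 : ∑' L1, ∑' P, ∑' L1', ∑' P', t3 L1 P L1' P' ≤ v * v := by
    rw [ht3]
    simp_rw [ENNReal.tsum_mul_left, ENNReal.tsum_mul_right]
    calc _ ≤ 1 * (v * (1 * v)) := by
          gcongr
          · exact mass_FR ΛX hX hΛX h1X A
          · exact mass_FR ΛY hY hΛY h1Y A'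
      _ = v * v := by simp
  calc _ ≤ ∑' L1, ∑' P, ∑' L1', ∑' P', (t1 L1 P L1' P' + (t2 L1 P L1' P' + t3 L1 P L1' P')) := by
        refine ENNReal.tsum_le_tsum fun L1 => ENNReal.tsum_le_tsum fun P =>
          ENNReal.tsum_le_tsum fun L1' => ENNReal.tsum_le_tsum fun P' => ?_
        by_cases hc : (FR hX L1 A ∧ HT hX L1 ≤ A + i0) ∧
          (FR hX P τ ∧ HT hX P ≤ τ + i0) ∧ (FR hY L1' A' ∧ HT hY L1' ≤ A' + i0) ∧
          (FR hY P' τ' ∧ HT hY P' ≤ τ' + i0) ∧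
          GP (HT hX L1) (HT hY L1') (w + dp zY L1' - dp zX L1) P P'
        · obtain ⟨c1, c2, c3, c4, c5⟩ := hc
          rw [if_pos ⟨c1, c2, c3, c4, c5⟩]
          by_cases hs : (HT hX P, dp zX P) ∈ S
          · refine le_trans (le_of_eq ?_) le_self_add
            rw [ht1]
            simp only
            rw [if_pos ⟨c1, c2, hs, c3, c4, c5⟩]
          · refine le_trans ?_ le_add_self
            by_cases hs' : (HT hY P', dp zY P') ∈ S'
            · refine le_trans (le_of_eq ?_) le_self_add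
              rw [ht2]
              simp only
              have e5 : -(-w + dp zX L1 - dp zY L1') = w + dp zY L1' - dp zX L1 := by abel
              rw [e5, if_pos ⟨c3, c4, hs', c1, c2, c5⟩]
              ring
            · refine le_trans (le_of_eq ?_) le_add_self
              rw [ht3]
              simp only
              rw [if_pos c1.1, if_pos ⟨c2.1, hs⟩, if_pos c3.1, if_pos ⟨c4.1, hs'⟩]
        · rw [if_neg hc]; exact zero_le
    _ = (∑' L1, ∑' P, ∑' L1', ∑' P', t1 L1 P L1' P') + ((∑' L1, ∑' P, ∑' L1', ∑' P', t2 L1 P L1' P')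
        + ∑' L1, ∑' P, ∑' L1', ∑' P', t3 L1 P L1' P') := by
        simp only [ENNReal.tsum_add]
    _ ≤ _ := add_le_add b1 (add_le_add b2 b3)

section Win

variable (sX : BX → Set (G × ℕ)) (sY : BY → Set (G × ℕ))

open Classical in
/-- one window `(D, D + T]` -/
theorem window (hΛX : ∑' b, ΛX b ≤ 1) (h1X : ∀ b, 1 ≤ hX b) (hΛY : ∑' b, ΛY b ≤ 1)
    (h1Y : ∀ b, 1 ≤ hY b) (hUX : ∀ n, U ΛX hX n ≤ 1) (hUY : ∀ n, U ΛY hY n ≤ 1)
    (hsX : ∀ b, ∀ p ∈ sX b, 1 ≤ p.2 ∧ p.2 ≤ hX b) (hsY : ∀ b, ∀ p ∈ sY b, 1 ≤ p.2 ∧ p.2 ≤ hY b)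
    (C : ℝ≥0∞) (us : ℕ → ℝ≥0∞)
    (H2 : H2' ΛX ΛY hX hY zX zY sX sY C us) (H3 : H3' ΛX ΛY hX hY zX zY sX sY C us)
    (D T s i0 J n : ℕ) (u e lam : ℝ≥0∞) (hu : u ≠ 0) (hu1 : u ≤ 1)
    (heX : TS ΛX hX (i0 + 1) ≤ e) (heY : TS ΛY hY (i0 + 1) ≤ e) (heu : e ≤ u)
    (hlam : lam ≠ 0) (hlamt : lam ≠ ⊤)
    (hD : 2 * i0 + s ≤ D) (hn : D + T + s + 3 * i0 ≤ n)
    (hJ : J * (T + 4 * i0 + 2 * s) ≤ D - (2 * i0 + s)) (w : G) :
    KS ΛX ΛY hX hY zX zY sX sY n w (Set.Ioc D (D + T)) ≤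
      (KS ΛX ΛY hX hY zX zY sX sY n w (Set.Ico (D - (2 * i0 + s)) (D - (2 * i0 + s) + (2 * i0 + s)))
      + KS ΛX ΛY hX hY zX zY sX sY n w (Set.Ico (D + T + 1) (D + T + 1 + (2 * i0 + s)))) +
      (4 * e + (2 * (((1 - u) ^ J + J * e) + (i0 + 1) ^ 3 *
        (C * (lam + 2 * (i0 + 1) / u * us s / lam + us s))) + (2 * u) * (2 * u))) := by
  set A := D - (2 * i0 + s) with hA
  set τ := T + 2 * i0 + 2 * s with hτ
  set A' := A + i0 with hA'
  set τ' := τ + i0 with hτ'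
  set β : ℝ≥0∞ := C * (lam + 2 * (i0 + 1) / u * us s / lam + us s) with hβ
  have hJX : J * (τ + i0) ≤ A := by
    refine le_trans (Nat.mul_le_mul_left J ?_) hJ
    omega
  have hJY : J * (τ' + i0) ≤ A' := by
    refine le_trans (Nat.mul_le_mul_left J ?_) (hJ.trans (by omega))
    omega
  obtain ⟨S, M, Wg, Wb, hSf, hSv, hW1, hW2, hW3, hW4⟩ := loc ΛX hX zX hΛX h1X τ i0 J A u e hu hu1
    ((over_le ΛX hX hUX τ i0).trans heX) heu hJX
  obtain ⟨S', M', Wg', Wb', hSf', hSv', hW1', hW2', hW3', hW4'⟩ := loc ΛY hY zY hΛY h1Y τ' i0 J A'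
    u e hu hu1 ((over_le ΛY hY hUY τ' i0).trans heY) heu hJY
  -- the window lemmas
  have hmono : ∀ (M0 : ℝ≥0∞) (c : ℝ≥0∞), M0 * c ≤ 2 * (i0 + 1) / u →
      C * (lam + M0 * c * us s / lam + us s) ≤ β := by
    intro M0 c h
    rw [hβ]
    gcongr
  have hH2 : ∀ a a' h h', A ≤ a → a ≤ A + i0 → A' ≤ a' → a' ≤ A' + i0 → τ ≤ h → h ≤ τ + i0 →
      τ' ≤ h' → h' ≤ τ' + i0 → ∀ (μ : G → ℝ≥0∞), ∑' x, μ x ≤ 1 → (∀ x, μ x ≤ M) →
      ∑' x, μ x * ∑' L, ∑' L', (if HT hX L = h ∧ (h, dp zX L) ∈ S ∧ HT hY L' = h' ∧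
        Gd hX hY zX zY sX sY D (D + T) a a' x L L' then LW ΛX L * LW ΛY L' else 0) ≤ β := by
    intro a a' h h' p1 p2 p3 p4 p5 p6 p7 p8 μ hμ hM
    refine le_trans ?_ ((H2 s h h' a a' D (D + T) (hSf.toFinset.image Prod.snd) μ M lam hμ hM hlam
      hlamt (by omega) (by omega) (by omega) (by omega) (by omega) (by omega)).trans ?_)
    · refine ENNReal.tsum_le_tsum fun x => mul_le_mul_right (ENNReal.tsum_le_tsum fun L =>
        ENNReal.tsum_le_tsum fun L' => ?_) _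
      by_cases hc : HT hX L = h ∧ (h, dp zX L) ∈ S ∧ HT hY L' = h' ∧
        Gd hX hY zX zY sX sY D (D + T) a a' x L L'
      · rw [if_pos hc, if_pos ⟨hc.1, Finset.mem_image.2 ⟨(h, dp zX L), hSf.mem_toFinset.2 hc.2.1,
          rfl⟩, hc.2.2.1, hc.2.2.2⟩]
      · rw [if_neg hc]; exact zero_le
    · refine hmono M _ (le_trans (mul_le_mul_right ?_ _) hW4)
      rw [Set.ncard_eq_toFinset_card S hSf]
      exact_mod_cast Finset.card_image_le
  have hH3 : ∀ a a' h h', A ≤ a → a ≤ A + i0 → A' ≤ a' → a' ≤ A' + i0 → τ ≤ h → h ≤ τ + i0 →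
      τ' ≤ h' → h' ≤ τ' + i0 → ∀ (μ : G → ℝ≥0∞), ∑' x, μ x ≤ 1 → (∀ x, μ x ≤ M') →
      ∑' x, μ x * ∑' L, ∑' L', (if HT hX L = h ∧ HT hY L' = h' ∧ (h', dp zY L') ∈ S' ∧
        Gd hX hY zX zY sX sY D (D + T) a a' x L L' then LW ΛX L * LW ΛY L' else 0) ≤ β := by
    intro a a' h h' p1 p2 p3 p4 p5 p6 p7 p8 μ hμ hM
    refine le_trans ?_ ((H3 s h h' a a' D (D + T) (hSf'.toFinset.image Prod.snd) μ M' lam hμ hM hlam
      hlamt (by omega) (by omega) (by omega) (by omega) (by omega) (by omega)).trans ?_)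
    · refine ENNReal.tsum_le_tsum fun x => mul_le_mul_right (ENNReal.tsum_le_tsum fun L =>
        ENNReal.tsum_le_tsum fun L' => ?_) _
      by_cases hc : HT hX L = h ∧ HT hY L' = h' ∧ (h', dp zY L') ∈ S' ∧
        Gd hX hY zX zY sX sY D (D + T) a a' x L L'
      · rw [if_pos hc, if_pos ⟨hc.1, hc.2.1, Finset.mem_image.2 ⟨(h', dp zY L'),
          hSf'.mem_toFinset.2 hc.2.2.1, rfl⟩, hc.2.2.2⟩]
      · rw [if_neg hc]; exact zero_le
    · refine hmono M' _ (le_trans (mul_le_mul_right ?_ _) hW4')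
      rw [Set.ncard_eq_toFinset_card S' hSf']
      exact_mod_cast Finset.card_image_le
  have hquad := quad ΛX ΛY hX hY zX zY hΛX h1X hΛY h1Y A τ A' τ' i0 w
    (Gd hX hY zX zY sX sY D (D + T)) S S' M M' β (2 * u) Wg Wb Wg' Wb' hW1 hW2 hW1' hW2' hSv hSv'
    hH2 hH3
  -- the events
  set sl : ℕ → Prop := fun k => (A ≤ k ∧ k < D) ∨ (D + T + 1 ≤ k ∧ k < D + T + 1 + (2 * i0 + s))
    with hsl
  set Ev : List BX → List BY → Prop := fun L L' =>
    (∃ g k, (D < k ∧ k ≤ D + T) ∧ Cm hX hY zX zY sX sY L L' w 0 0 g k) ∧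
    (∀ g k, Cm hX hY zX zY sX sY L L' w 0 0 g k → ¬ sl k) with hEv
  set E1 : List BX → List BX → List BY → Prop := fun L1 P L' =>
    (∃ g k, (D < k ∧ k ≤ D + T) ∧ (g, k) ∈ TR sX zX hX P (dp zX L1) (HT hX L1) ∧
      (g, k) ∈ TR sY zY hY L' w 0) ∧
    (∀ g k, (g, k) ∈ TR sX zX hX P (dp zX L1) (HT hX L1) → (g, k) ∈ TR sY zY hY L' w 0 → ¬ sl k)
    with hE1
  set E2 : List BX → List BX → List BY → List BY → Prop := fun L1 P L1' P' =>
    (∃ g k, (D < k ∧ k ≤ D + T) ∧ (g, k) ∈ TR sX zX hX P (dp zX L1) (HT hX L1) ∧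
      (g, k) ∈ TR sY zY hY P' (w + dp zY L1') (HT hY L1')) ∧
    (∀ g k, (g, k) ∈ TR sX zX hX P (dp zX L1) (HT hX L1) →
      (g, k) ∈ TR sY zY hY P' (w + dp zY L1') (HT hY L1') → ¬ sl k) with hE2
  -- step 1 : slabs
  have s1 : KS ΛX ΛY hX hY zX zY sX sY n w (Set.Ioc D (D + T)) ≤
      (KS ΛX ΛY hX hY zX zY sX sY n w (Set.Ico A (A + (2 * i0 + s)))
      + KS ΛX ΛY hX hY zX zY sX sY n w (Set.Ico (D + T + 1) (D + T + 1 + (2 * i0 + s)))) +
      ∑' L : List BX, (if HT hX L = n then LW ΛX L *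
        (∑' L' : List BY, if HT hY L' = n then LW ΛY L' * (if Ev L L' then 1 else 0) else 0) else 0) := by
    simp only [KS]
    rw [← ENNReal.tsum_add, ← ENNReal.tsum_add]
    refine ENNReal.tsum_le_tsum fun L => ?_
    by_cases hL : HT hX L = n
    · rw [if_pos hL, ← ENNReal.tsum_mul_left, ← ENNReal.tsum_add, ← ENNReal.tsum_add]
      refine ENNReal.tsum_le_tsum fun L' => ?_
      by_cases hc : HT hX L = n ∧ HT hY L' = n ∧ ∃ g k, k ∈ Set.Ioc D (D + T) ∧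
        Cm hX hY zX zY sX sY L L' w 0 0 g k
      · rw [if_pos hc]
        obtain ⟨q1, q2, g, k, q3, q4⟩ := hc
        by_cases hev : Ev L L'
        · refine le_trans (le_of_eq ?_) le_add_self
          rw [if_pos q2, if_pos hev, mul_one]
        · refine le_trans ?_ le_self_add
          have : ∃ g k, Cm hX hY zX zY sX sY L L' w 0 0 g k ∧ sl k := by
            by_contra hno
            push Not at hno
            exact hev ⟨⟨g, k, ⟨q3.1, q3.2⟩, q4⟩, hno⟩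
          obtain ⟨g', k', r1, r2⟩ := this
          rcases r2 with r2 | r2
          · refine le_trans (le_of_eq ?_) le_self_add
            rw [if_pos ⟨q1, q2, g', k', ⟨r2.1, by omega⟩, r1⟩]
          · refine le_trans (le_of_eq ?_) le_add_self
            rw [if_pos ⟨q1, q2, g', k', ⟨r2.1, r2.2⟩, r1⟩]
      · rw [if_neg hc]; exact zero_le
    · refine le_trans (le_of_eq ?_) zero_le
      refine ENNReal.tsum_eq_zero.2 fun L' => ?_
      rw [if_neg (fun hh => hL hh.1)]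
  -- step 2 : decomposition of `X`
  have s2 : ∑' L : List BX, (if HT hX L = n then LW ΛX L *
        (∑' L' : List BY, if HT hY L' = n then LW ΛY L' * (if Ev L L' then 1 else 0) else 0) else 0)
      ≤ 2 * TS ΛX hX (i0 + 1) + ∑' L1, ∑' P, (if FR hX L1 A ∧ HT hX L1 ≤ A + i0 ∧ FR hX P τ ∧
          HT hX P ≤ τ + i0 then LW ΛX L1 * LW ΛX P *
          (∑' L' : List BY, if HT hY L' = n then LW ΛY L' * (if E1 L1 P L' then 1 else 0) else 0)
          else 0) := by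
    refine dec_le ΛX hX hΛX h1X hUX A τ i0 n (by omega) _ (fun L => ?_) _ ?_
    · refine le_trans (ENNReal.tsum_le_tsum fun L' => ?_) (hUY n)
      split_ifs <;> simp
    · intro L1 P R hh r1 r2 r3 r4
      refine ENNReal.tsum_le_tsum fun L' => ?_
      by_cases hL' : HT hY L' = n
      · rw [if_pos hL', if_pos hL']
        refine mul_le_mul_right ?_ _
        by_cases hev : Ev (L1 ++ (P ++ R)) L'
        · rw [if_pos hev, if_pos]
          obtain ⟨⟨g, k, hk, hcm⟩, hall⟩ := hev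
          have hsub : ∀ g k, (g, k) ∈ TR sX zX hX P (dp zX L1) (HT hX L1) →
              (g, k) ∈ TR sX zX hX (L1 ++ (P ++ R)) 0 0 := by
            intro g k h
            rw [TR_append, TR_append]
            refine Or.inr (Or.inl ?_)
            rw [zero_add, zero_add]
            exact h
          refine ⟨⟨g, k, hk, ?_, hcm.2⟩, fun g k h1 h2 => hall g k ⟨hsub g k h1, h2⟩⟩
          have h7 := hcm.1
          rw [TR_append, TR_append] at h7
          rcases h7 with h7 | h7 | h7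
          · exfalso
            have := TR_depth hX zX sX hsX _ _ _ _ h7
            simp only at this
            omega
          · rw [zero_add, zero_add] at h7
            exact h7
          · exfalso
            have h8 := TR_depth hX zX sX hsX _ _ _ _ h7
            have h9 := FR_le hX r1
            have h10 := FR_le hX r3
            simp only at h8
            omega
        · rw [if_neg hev]; exact zero_le
      · rw [if_neg hL']; exact zero_le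
  -- step 3 : decomposition of `Y`
  have s3 : ∀ L1 P, HT hX L1 ≤ A + i0 → FR hX L1 A → FR hX P τ → HT hX P ≤ τ + i0 →
      (∑' L' : List BY, if HT hY L' = n then LW ΛY L' * (if E1 L1 P L' then 1 else 0) else 0)
      ≤ 2 * TS ΛY hY (i0 + 1) + ∑' L1', ∑' P', (if FR hY L1' A' ∧ HT hY L1' ≤ A' + i0 ∧
          FR hY P' τ' ∧ HT hY P' ≤ τ' + i0 then LW ΛY L1' * LW ΛY P' *
          (if E2 L1 P L1' P' then 1 else 0) else 0) := by
    intro L1 P q1 q1' q2 q3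
    refine dec_le ΛY hY hΛY h1Y hUY A' τ' i0 n (by omega) _ (fun L => ?_) _ ?_
    · split_ifs <;> simp
    · intro L1' P' R hh r1 r2 r3 r4
      by_cases hev : E1 L1 P (L1' ++ (P' ++ R))
      · rw [if_pos hev, if_pos]
        obtain ⟨⟨g, k, hk, hcm, hcm2⟩, hall⟩ := hev
        have hsub : ∀ g k, (g, k) ∈ TR sY zY hY P' (w + dp zY L1') (HT hY L1') →
            (g, k) ∈ TR sY zY hY (L1' ++ (P' ++ R)) w 0 := by
          intro g k h
          rw [TR_append, TR_append]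
          refine Or.inr (Or.inl ?_)
          rw [zero_add]
          exact h
        refine ⟨⟨g, k, hk, hcm, ?_⟩, fun g k h1 h2 => hall g k h1 (hsub g k h2)⟩
        have h7 := hcm2
        rw [TR_append, TR_append] at h7
        rcases h7 with h7 | h7 | h7
        · exfalso
          have := TR_depth hY zY sY hsY _ _ _ _ h7
          simp only at this
          omega
        · rw [zero_add] at h7
          exact h7
        · exfalso
          have h8 := TR_depth hY zY sY hsY _ _ _ _ h7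
          have h9 := FR_le hY r1
          have h10 := FR_le hY r3
          simp only at h8
          omega
      · rw [if_neg hev]; exact zero_le
  -- step 4 : the event of the two pieces
  have s4 : ∀ L1 P L1' P', FR hX L1 A → HT hX L1 ≤ A + i0 → HT hX P ≤ τ + i0 → FR hY L1' A' →
      E2 L1 P L1' P' → Gd hX hY zX zY sX sY D (D + T) (HT hX L1) (HT hY L1')
        (w + dp zY L1' - dp zX L1) P P' := by
    intro L1 P L1' P' q1 q2 q3 q4 hev
    have hsh1 : ∀ g k, (g, k) ∈ TR sX zX hX P (dp zX L1) (HT hX L1) ↔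
        (g - dp zX L1, k) ∈ TR sX zX hX P 0 (HT hX L1) := by
      intro g k
      have := TR_shift hX zX sX P 0 (dp zX L1) (HT hX L1) g k
      rwa [zero_add] at this
    have hsh2 : ∀ g k, (g, k) ∈ TR sY zY hY P' (w + dp zY L1') (HT hY L1') ↔
        (g - dp zX L1, k) ∈ TR sY zY hY P' (w + dp zY L1' - dp zX L1) (HT hY L1') := by
      intro g k
      have := TR_shift hY zY sY P' (w + dp zY L1' - dp zX L1) (dp zX L1) (HT hY L1') g k
      rwa [sub_add_cancel] at this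
    obtain ⟨⟨g, k, hk, h1, h2⟩, hall⟩ := hev
    refine ⟨⟨g - dp zX L1, k, (hsh1 g k).1 h1, (hsh2 g k).1 h2⟩, fun g k hcm => ?_⟩
    have h1' : (g + dp zX L1, k) ∈ TR sX zX hX P (dp zX L1) (HT hX L1) := by
      rw [hsh1, add_sub_cancel_right]; exact hcm.1
    have h2' : (g + dp zX L1, k) ∈ TR sY zY hY P' (w + dp zY L1') (HT hY L1') := by
      rw [hsh2, add_sub_cancel_right]; exact hcm.2
    have h3 := hall _ _ h1' h2'
    have h4 := TR_depth hX zX sX hsX _ _ _ _ h1'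
    have h5 := TR_depth hY zY sY hsY _ _ _ _ h2'
    have h6 := FR_le hY q4
    simp only [hsl, not_or, not_and, not_lt] at h3
    simp only at h4 h5
    obtain ⟨h7, h8⟩ := h3
    refine ⟨h7 (by omega), ?_⟩
    by_contra hcon
    have := h8 (by omega)
    omega
  -- conclusion
  refine s1.trans (add_le_add le_rfl (s2.trans ?_))
  have s5 : ∑' L1, ∑' P, (if FR hX L1 A ∧ HT hX L1 ≤ A + i0 ∧ FR hX P τ ∧
          HT hX P ≤ τ + i0 then LW ΛX L1 * LW ΛX P *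
          (∑' L' : List BY, if HT hY L' = n then LW ΛY L' * (if E1 L1 P L' then 1 else 0) else 0)
          else 0)
      ≤ 2 * TS ΛY hY (i0 + 1) + ∑' L1, ∑' P, ∑' L1', ∑' P', (if (FR hX L1 A ∧ HT hX L1 ≤ A + i0) ∧
        (FR hX P τ ∧ HT hX P ≤ τ + i0) ∧ (FR hY L1' A' ∧ HT hY L1' ≤ A' + i0) ∧
        (FR hY P' τ' ∧ HT hY P' ≤ τ' + i0) ∧
        Gd hX hY zX zY sX sY D (D + T) (HT hX L1) (HT hY L1') (w + dp zY L1' - dp zX L1) P P'
        then LW ΛX L1 * (LW ΛX P * (LW ΛY L1' * LW ΛY P')) else 0) := by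
    calc _ ≤ ∑' L1, ∑' P, ((if FR hX L1 A then LW ΛX L1 else 0) *
          ((if FR hX P τ then LW ΛX P else 0) * (2 * TS ΛY hY (i0 + 1))) +
          ∑' L1', ∑' P', (if (FR hX L1 A ∧ HT hX L1 ≤ A + i0) ∧
          (FR hX P τ ∧ HT hX P ≤ τ + i0) ∧ (FR hY L1' A' ∧ HT hY L1' ≤ A' + i0) ∧
          (FR hY P' τ' ∧ HT hY P' ≤ τ' + i0) ∧
          Gd hX hY zX zY sX sY D (D + T) (HT hX L1) (HT hY L1') (w + dp zY L1' - dp zX L1) P P'
          then LW ΛX L1 * (LW ΛX P * (LW ΛY L1' * LW ΛY P')) else 0)) := by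
          refine ENNReal.tsum_le_tsum fun L1 => ENNReal.tsum_le_tsum fun P => ?_
          by_cases hc : FR hX L1 A ∧ HT hX L1 ≤ A + i0 ∧ FR hX P τ ∧ HT hX P ≤ τ + i0
          · obtain ⟨c1, c2, c3, c4⟩ := hc
            rw [if_pos ⟨c1, c2, c3, c4⟩, if_pos c1, if_pos c3]
            refine (mul_le_mul_right (s3 L1 P c2 c1 c3 c4) _).trans ?_
            rw [mul_add]
            refine add_le_add (le_of_eq (by ring)) ?_
            rw [← ENNReal.tsum_mul_left]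
            refine ENNReal.tsum_le_tsum fun L1' => ?_
            rw [← ENNReal.tsum_mul_left]
            refine ENNReal.tsum_le_tsum fun P' => ?_
            by_cases hd : (FR hY L1' A' ∧ HT hY L1' ≤ A' + i0 ∧
              FR hY P' τ' ∧ HT hY P' ≤ τ' + i0) ∧ E2 L1 P L1' P'
            · obtain ⟨⟨d1, d2, d3, d4⟩, d5⟩ := hd
              rw [if_pos ⟨d1, d2, d3, d4⟩, if_pos d5, if_pos ⟨⟨c1, c2⟩, ⟨c3, c4⟩, ⟨d1, d2⟩, ⟨d3, d4⟩,
                s4 L1 P L1' P' c1 c2 c4 d1 d5⟩]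
              refine le_of_eq ?_
              ring
            · refine le_trans (le_of_eq ?_) zero_le
              by_cases hd1 : FR hY L1' A' ∧ HT hY L1' ≤ A' + i0 ∧
                FR hY P' τ' ∧ HT hY P' ≤ τ' + i0
              · rw [if_pos hd1, if_neg (fun h => hd ⟨hd1, h⟩)]; simp
              · rw [if_neg hd1]; simp
          · rw [if_neg hc]; exact zero_le
      _ = (∑' L1, (if FR hX L1 A then LW ΛX L1 else 0)) *
          ((∑' P, (if FR hX P τ then LW ΛX P else 0)) * (2 * TS ΛY hY (i0 + 1))) + _ := by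
          simp only [ENNReal.tsum_add]
          congr 1
          simp_rw [ENNReal.tsum_mul_left, ENNReal.tsum_mul_right]
      _ ≤ 1 * (1 * (2 * TS ΛY hY (i0 + 1))) + _ := by
          gcongr
          · exact mass_FR ΛX hX hΛX h1X A
          · exact mass_FR ΛX hX hΛX h1X τ
      _ = _ := by rw [one_mul, one_mul]
  calc _ ≤ 2 * e + (2 * e + (((∑' c, ∑' δ, Wb c δ) + (i0 + 1) ^ 3 * β) +
        (((∑' c, ∑' δ, Wb' c δ) + (i0 + 1) ^ 3 * β) + 2 * u * (2 * u)))) :=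
        add_le_add (mul_le_mul_right heX 2) (s5.trans (add_le_add (mul_le_mul_right heY 2) hquad))
    _ ≤ 2 * e + (2 * e + ((((1 - u) ^ J + J * e) + (i0 + 1) ^ 3 * β) +
        ((((1 - u) ^ J + J * e) + (i0 + 1) ^ 3 * β) + 2 * u * (2 * u)))) := by
        gcongr
    _ = _ := by ring

end Win

end Crest.Agent.R154.Asm284
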