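import Crest.Agent.R154.Asm2_395

set_option autoImplicit false

namespace Crest.Agent.R154.Asm395

open Crest.Agent.R154.B5A
open scoped ENNReal Topology
open Classical

section dens

variable {B G : Type*} [AddCommGroup G] (ht : B → ℕ) (Λ : B → ℝ≥0∞) (z : B → G)

def Dp (L : List B) : G := (L.map z).sum

lemma Dp_append (L L' : List B) : Dp z (L ++ L') = Dp z L + Dp z L' := by simp [Dp]

/-- law of the first attempt -/
noncomputable def pr (s : ℕ) (q : ℕ × G) : ℝ≥0∞ :=
  ws Λ (fun P => FP ht s P ∧ HT ht P = q.1 ∧ Dp z P = q.2) (fun _ => 1)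

lemma ws_pr (s : ℕ) (g : ℕ × G → ℝ≥0∞) :
    ws Λ (FP ht s) (fun P => g (HT ht P, Dp z P)) = ∑' q, pr ht Λ z s q * g q := by
  simp only [pr, ws, ← ENNReal.tsum_mul_right]
  rw [ENNReal.tsum_comm]
  refine tsum_congr fun P => ?_
  rw [tsum_eq_single (HT ht P, Dp z P)]
  · by_cases h : FP ht s P <;> simp [h]
  · rintro ⟨q1, q2⟩ hq
    rw [if_neg, zero_mul]
    rintro ⟨-, h1, h2⟩
    exact hq (by simp only at h1 h2; rw [h1, h2])

lemma tsum_pr (h1 : ∀ b, 1 ≤ ht b) (hΛ : ∑' b, Λ b = 1) (s : ℕ) :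
    ∑' q, pr ht Λ z s q = 1 := by
  have := ws_pr ht Λ z s (fun _ => 1)
  simp only [mul_one] at this
  rw [← this]
  exact mass_FP ht Λ h1 hΛ s

/-- small attempt -/
def Sm (s : ℕ) (θ : ℝ≥0∞) (P : List B) : Prop := pr ht Λ z s (HT ht P, Dp z P) ≤ θ
/-- local attempt -/
def Lo (s : ℕ) (θ : ℝ≥0∞) (P : List B) : Prop := θ ≤ pr ht Λ z s (HT ht P, Dp z P)

lemma exists_theta (h1 : ∀ b, 1 ≤ ht b) (hΛ : ∑' b, Λ b = 1) (s : ℕ) {u : ℝ≥0∞}
    (hu0 : u ≠ 0) (hu1 : u ≤ 1) :
    ∃ θ : ℝ≥0∞, θ ≠ 0 ∧ θ ≤ 1 ∧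
      ws Λ (fun P => FP ht s P ∧ ¬ Lo ht Λ z s θ P) (fun _ => 1) ≤ u ∧
      ws Λ (fun P => FP ht s P ∧ ¬ Sm ht Λ z s θ P) (fun _ => 1) ≤ 1 - u := by
  obtain ⟨θ, h0, hle, hlt, hge⟩ := Dens903.quantile (pr ht Λ z s)
    (tsum_pr ht Λ z h1 hΛ s) hu0 hu1
  refine ⟨θ, h0, hle, ?_, ?_⟩
  · have e := ws_pr ht Λ z s (fun q => ind (pr ht Λ z s q < θ))
    have e2 := ws_ind' (Λ := Λ) (FP ht s) (fun P => pr ht Λ z s (HT ht P, Dp z P) < θ)
    have e3 : ws Λ (fun P => FP ht s P ∧ ¬ Lo ht Λ z s θ P) (fun _ => 1)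
        ≤ ws Λ (fun P => FP ht s P ∧ pr ht Λ z s (HT ht P, Dp z P) < θ) (fun _ => 1) :=
      ws_mono_set fun P h => ⟨h.1, not_le.1 h.2⟩
    refine e3.trans ?_
    rw [← e2, e]
    refine le_trans (le_of_eq (tsum_congr fun q => ?_)) hlt
    by_cases h : pr ht Λ z s q < θ <;> simp [h, ind]
  · have e := ws_pr ht Λ z s (fun q => ind (pr ht Λ z s q ≤ θ))
    have e2 := ws_ind' (Λ := Λ) (FP ht s) (fun P => pr ht Λ z s (HT ht P, Dp z P) ≤ θ)
    have e3 : u ≤ ws Λ (fun P => FP ht s P ∧ Sm ht Λ z s θ P) (fun _ => 1) := by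
      change u ≤ ws Λ (fun P => FP ht s P ∧ pr ht Λ z s (HT ht P, Dp z P) ≤ θ) (fun _ => 1)
      rw [← e2, e]
      refine hge.trans (le_of_eq (tsum_congr fun q => ?_))
      by_cases h : pr ht Λ z s q ≤ θ <;> simp [h, ind]
    have e4 : ws Λ (fun P => FP ht s P ∧ ¬ Sm ht Λ z s θ P) (fun _ => 1)
        + ws Λ (fun P => FP ht s P ∧ Sm ht Λ z s θ P) (fun _ => 1) = 1 := by
      refine Eq.trans ?_ (mass_FP ht Λ h1 hΛ s)
      rw [ws, ws, ws, ← ENNReal.tsum_add]
      refine tsum_congr fun L => ?_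
      by_cases hL : FP ht s L <;> by_cases hB : Sm ht Λ z s θ L <;> simp [hL, hB]
    have hu : u ≠ ⊤ := ne_top_of_le_ne_top ENNReal.one_ne_top hu1
    refine ENNReal.le_sub_of_add_le_right hu ?_
    calc _ ≤ ws Λ (fun P => FP ht s P ∧ ¬ Sm ht Λ z s θ P) (fun _ => 1)
        + ws Λ (fun P => FP ht s P ∧ Sm ht Λ z s θ P) (fun _ => 1) := by gcongr
      _ = 1 := e4

/-- one of the first `J` attempts is small -/
def Gd (s i0 : ℕ) (θ : ℝ≥0∞) : ℕ → List B → Prop
  | 0, _ => False
  | J + 1, L => ∃ P R, L = P ++ R ∧ FPi ht s i0 P ∧ (Sm ht Λ z s θ P ∨ Gd s i0 θ J R)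

theorem bad_le (hU1 : ∀ n, U Λ ht n ≤ 1) (s i0 : ℕ) (θ v : ℝ≥0∞)
    (hv1 : v ≤ 1)
    (hv : ws Λ (fun P => FP ht s P ∧ ¬ Sm ht Λ z s θ P) (fun _ => 1) ≤ v) (J : ℕ) :
    ∀ n, J * (s + i0) ≤ n →
    ws Λ (fun L => HT ht L = n ∧ ¬ Gd ht Λ z s i0 θ J L) (fun _ => 1)
      ≤ v ^ J + J * gp ht Λ i0 := by
  induction J with
  | zero =>
    intro n _
    simp only [pow_zero, Nat.cast_zero, zero_mul, add_zero]
    exact (ws_mono_set fun _ h => h.1).trans (mass_HT ht Λ hU1 n)
  | succ J ih =>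
    intro n hn
    have hn' : J * (s + i0) + (s + i0) ≤ n := by rw [Nat.succ_mul] at hn; exact hn
    rw [← ws_ind']
    refine (split ht Λ hU1 s i0 n (by omega) _ (fun L => ind_le_one _)).trans ?_
    have e1 : ws Λ (FPi ht s i0) (fun A => ws Λ (fun R => HT ht R = n - HT ht A)
        (fun R => ind (¬ Gd ht Λ z s i0 θ (J + 1) (A ++ R))))
        ≤ ws Λ (FPi ht s i0) (fun A => ind (¬ Sm ht Λ z s θ A) * (v ^ J + J * gp ht Λ i0)) := by
      refine ws_mono fun A hA => ?_
      by_cases hS : Sm ht Λ z s θ A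
      · rw [ind_false (not_not.2 hS), zero_mul]
        refine le_of_eq ?_
        rw [ws]
        simp only [ENNReal.tsum_eq_zero]
        intro R
        rw [ind_false (not_not.2 ⟨A, R, rfl, hA, Or.inl hS⟩), mul_zero, ite_self]
      · rw [ind_true hS, one_mul]
        have hA2 := hA.2
        refine le_trans ?_ (ih (n - HT ht A) (by omega))
        rw [← ws_ind']
        refine ws_mono fun R _ => ind_mono fun h hG => h ⟨A, R, rfl, hA, Or.inr hG⟩
    refine (add_le_add le_rfl e1).trans ?_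
    rw [ws_mul_right, ws_ind']
    have e2 : ws Λ (fun L => FPi ht s i0 L ∧ ¬ Sm ht Λ z s θ L) (fun _ => 1) ≤ v :=
      (ws_mono_set fun _ h => ⟨h.1.1, h.2⟩).trans hv
    calc _ ≤ gp ht Λ i0 + v * (v ^ J + J * gp ht Λ i0) := by gcongr
      _ = v ^ (J + 1) + (gp ht Λ i0 + v * (J * gp ht Λ i0)) := by ring
      _ ≤ v ^ (J + 1) + (gp ht Λ i0 + 1 * (J * gp ht Λ i0)) := by gcongr
      _ = _ := by push_cast; ring

theorem dens_le (h1 : ∀ b, 1 ≤ ht b) (hΛ : ∑' b, Λ b = 1) (hU1 : ∀ n, U Λ ht n ≤ 1)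
    (s i0 : ℕ) (θ : ℝ≥0∞) (J : ℕ) :
    ∀ (α : ℕ) (x : G), ws Λ (fun A => HT ht A = α ∧ Gd ht Λ z s i0 θ J A ∧ Dp z A = x) (fun _ => 1)
      ≤ J * ((i0 + 1) * θ) := by
  induction J with
  | zero =>
    intro α x
    refine le_of_eq ?_
    simp only [ws, Gd, false_and, and_false, if_false, tsum_zero, Nat.cast_zero, zero_mul]
  | succ J ih =>
    intro α x
    have key : ws Λ (fun A => HT ht A = α ∧ Gd ht Λ z s i0 θ (J + 1) A ∧ Dp z A = x) (fun _ => 1)
        ≤ ∑' R : List B, ∑' P : List B, (if (HT ht P + HT ht R = α ∧ FPi ht s i0 P ∧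
            Sm ht Λ z s θ P ∧ Dp z P + Dp z R = x) then LW Λ P * (LW Λ R * 1) else 0)
          + ∑' P : List B, ∑' R : List B, (if FPi ht s i0 P ∧ (HT ht R = α - HT ht P ∧
            Gd ht Λ z s i0 θ J R ∧ Dp z R = x - Dp z P) then LW Λ P * (LW Λ R * 1) else 0) := by
      rw [ENNReal.tsum_comm, ← ENNReal.tsum_add]
      simp_rw [← ENNReal.tsum_add]
      refine (ws_pairs (Λ := Λ) _ (fun P R => HT ht P + HT ht R = α ∧ Dp z P + Dp z R = x ∧
        FPi ht s i0 P ∧ (Sm ht Λ z s θ P ∨ Gd ht Λ z s i0 θ J R)) _ ?_).trans ?_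
      · rintro L ⟨hL, ⟨P, R, rfl, hP, h⟩, hx⟩
        rw [HT_append] at hL
        rw [Dp_append] at hx
        exact ⟨P, R, rfl, hL, hx, hP, h⟩
      · refine ENNReal.tsum_le_tsum fun P => ENNReal.tsum_le_tsum fun R => ?_
        by_cases h : HT ht P + HT ht R = α ∧ Dp z P + Dp z R = x ∧
          FPi ht s i0 P ∧ (Sm ht Λ z s θ P ∨ Gd ht Λ z s i0 θ J R)
        · rw [if_pos h]
          obtain ⟨ha, hx, hP, hS | hG⟩ := h
          · rw [if_pos ⟨ha, hP, hS, hx⟩]; exact le_self_add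
          · rw [if_pos (c := FPi ht s i0 P ∧ (HT ht R = α - HT ht P ∧
              Gd ht Λ z s i0 θ J R ∧ Dp z R = x - Dp z P)) ⟨hP, by omega, hG, by
                rw [← hx]; abel⟩]
            exact le_add_self
        · rw [if_neg h]; exact bot_le
    refine key.trans ?_
    have hI : ∑' R : List B, ∑' P : List B, (if (HT ht P + HT ht R = α ∧ FPi ht s i0 P ∧
            Sm ht Λ z s θ P ∧ Dp z P + Dp z R = x) then LW Λ P * (LW Λ R * 1) else 0)
        ≤ (i0 + 1) * θ := by
      have e1 : ∀ R : List B, ∑' P : List B, (if (HT ht P + HT ht R = α ∧ FPi ht s i0 P ∧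
            Sm ht Λ z s θ P ∧ Dp z P + Dp z R = x) then LW Λ P * (LW Λ R * 1) else 0)
          ≤ if (∃ i ∈ Finset.range (i0 + 1), HT ht R + (s + i) = α) then LW Λ R * θ else 0 := by
        intro R
        by_cases hR : ∃ i ∈ Finset.range (i0 + 1), HT ht R + (s + i) = α
        · rw [if_pos hR]
          by_cases hS : pr ht Λ z s (α - HT ht R, x - Dp z R) ≤ θ
          · calc _ ≤ ∑' P : List B, LW Λ R * (if (FP ht s P ∧ HT ht P = (α - HT ht R, x - Dp z R).1 ∧
                  Dp z P = (α - HT ht R, x - Dp z R).2) then LW Λ P * 1 else 0) := by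
                  refine ENNReal.tsum_le_tsum fun P => ?_
                  by_cases h : (HT ht P + HT ht R = α ∧ FPi ht s i0 P ∧
                    Sm ht Λ z s θ P ∧ Dp z P + Dp z R = x)
                  · rw [if_pos h, if_pos ⟨h.2.1.1, by simp only; omega, by
                      simp only; rw [← h.2.2.2]; abel⟩]
                    exact le_of_eq (by ring)
                  · rw [if_neg h]; exact bot_le
              _ = LW Λ R * pr ht Λ z s (α - HT ht R, x - Dp z R) := by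
                  rw [ENNReal.tsum_mul_left, pr, ws]
                  congr 1
                  refine tsum_congr fun P => ?_
                  congr
              _ ≤ _ := by gcongr
          · refine le_of_eq_of_le ?_ bot_le
            simp only [ENNReal.bot_eq_zero, ENNReal.tsum_eq_zero]
            intro P
            rw [if_neg]
            rintro ⟨h1', -, h3, h4⟩
            apply hS
            have : (α - HT ht R, x - Dp z R) = (HT ht P, Dp z P) := by
              rw [Prod.mk.injEq]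
              exact ⟨by omega, by rw [← h4]; abel⟩
            rw [this]; exact h3
        · rw [if_neg hR]
          refine le_of_eq ?_
          simp only [ENNReal.tsum_eq_zero]
          intro P
          rw [if_neg]
          rintro ⟨h1', h2, -, -⟩
          apply hR
          have ha := h2.1.1
          have hb := h2.2
          exact ⟨HT ht P - s, Finset.mem_range.2 (by omega), by omega⟩
      refine (ENNReal.tsum_le_tsum e1).trans ?_
      have e2 := ws_fin (Λ := Λ) (Finset.range (i0 + 1))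
        (S := fun R => ∃ i ∈ Finset.range (i0 + 1), HT ht R + (s + i) = α)
        (fun i R => HT ht R + (s + i) = α) (fun _ => θ) (fun L h => h)
      refine le_trans (le_of_eq ?_) (e2.trans ?_)
      · rw [ws]
        refine tsum_congr fun R => ?_
        congr
      · refine (Finset.sum_le_card_nsmul _ _ θ fun i hi => ?_).trans ?_
        · refine ws_le_of_mass ?_ (fun _ _ => le_rfl)
          refine (ws_mono_set fun L h => ?_).trans (mass_HT ht Λ hU1 (α - (s + i)))
          omega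
        · simp
    have hII : ∑' P : List B, ∑' R : List B, (if FPi ht s i0 P ∧ (HT ht R = α - HT ht P ∧
            Gd ht Λ z s i0 θ J R ∧ Dp z R = x - Dp z P) then LW Λ P * (LW Λ R * 1) else 0)
        ≤ J * ((i0 + 1) * θ) := by
      have := pairs_eq (Λ := Λ) (FPi ht s i0) (fun P R => (HT ht R = α - HT ht P ∧
            Gd ht Λ z s i0 θ J R ∧ Dp z R = x - Dp z P)) (fun _ _ => 1)
      refine le_trans (le_of_eq ?_) (ws_le_of_mass (mass_FPi ht Λ h1 hΛ s i0)
        (F := fun A => ws Λ (fun R => (HT ht R = α - HT ht A ∧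
            Gd ht Λ z s i0 θ J R ∧ Dp z R = x - Dp z A)) (fun _ => 1)) (c := J * ((i0 + 1) * θ))
        (fun A _ => ih _ _))
      rw [← this]
      refine tsum_congr fun P => tsum_congr fun R => ?_
      congr
    calc _ ≤ (i0 + 1) * θ + J * ((i0 + 1) * θ) := add_le_add hI hII
      _ = _ := by push_cast; ring

lemma Gd_prefix (h1 : ∀ b, 1 ≤ ht b) (s i0 : ℕ) (θ : ℝ≥0∞) (J : ℕ) :
    ∀ A R : List B, Gd ht Λ z s i0 θ J (A ++ R) → J * (s + i0) ≤ HT ht A →
      Gd ht Λ z s i0 θ J A := by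
  induction J with
  | zero => intro A R h _; exact h
  | succ J ih =>
    rintro A R ⟨P, Q, hPQ, hP, h⟩ hA
    rw [Nat.succ_mul] at hA
    have hP2 := hP.2
    rcases List.append_eq_append_iff.1 hPQ with ⟨T, hT1, hT2⟩ | ⟨T, hT1, hT2⟩
    · -- P = A ++ T
      have hT : T = [] := by
        by_contra hne
        have : 1 ≤ HT ht T := by
          have h3 := length_le_HT ht h1 T
          have : 0 < T.length := List.length_pos_iff.2 hne
          omega
        rw [hT1, HT_append] at hP2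
        omega
      subst hT
      rw [List.append_nil] at hT1
      subst hT1
      rcases h with h | h
      · exact ⟨P, [], by simp, hP, Or.inl h⟩
      · cases J with
        | zero => exact absurd h (by simp [Gd])
        | succ J =>
          refine ⟨P, [], by simp, hP, Or.inr ?_⟩
          refine ih [] Q h ?_
          rw [HT_nil]
          rw [Nat.succ_mul] at hA
          have : s + i0 = 0 := by omega
          simp [this]
    · -- A = P ++ T
      subst hT1
      refine ⟨P, T, rfl, hP, ?_⟩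
      rcases h with h | h
      · exact Or.inl h
      · right
        rw [hT2] at h
        refine ih T R h ?_
        rw [HT_append] at hA
        omega

end dens

end Crest.Agent.R154.Asm395
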