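import Crest.Agent.R154.B5Rec_566

/-! Row 154, ROAD 801 (helper944): extension of block lists below (heights `n ↦ n + r`). -/

set_option autoImplicit false

namespace Crest.Agent.R154.Ext944

open scoped ENNReal
open Crest.Agent.R154.B5A

lemma append_inj_of_HT {B : Type*} (ht : B → ℕ) (h1 : ∀ b, 1 ≤ ht b) :
    ∀ (L1 L2 L1' L2' : List B), HT ht L1 = HT ht L2 → L1 ++ L1' = L2 ++ L2' →
      L1 = L2 ∧ L1' = L2' := by
  intro L1
  induction L1 with
  | nil =>
    intro L2 L1' L2' h e
    cases L2 with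
    | nil => exact ⟨rfl, by simpa using e⟩
    | cons b L2 =>
      rw [HT_nil, HT_cons] at h
      have := h1 b
      omega
  | cons b L1 ih =>
    intro L2 L1' L2' h e
    cases L2 with
    | nil =>
      rw [HT_nil, HT_cons] at h
      have := h1 b
      omega
    | cons b2 L2 =>
      simp only [List.cons_append, List.cons.injEq] at e
      obtain ⟨hb, e⟩ := e
      subst hb
      rw [HT_cons, HT_cons] at h
      obtain ⟨h3, h4⟩ := ih L2 L1' L2' (by omega) e
      exact ⟨by rw [h3], h4⟩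

variable {B : Type*} (Λ : B → ℝ≥0∞) (ht : B → ℕ)

open Classical in
/-- **single extension** -/
theorem ext_le (h1 : ∀ b, 1 ≤ ht b) (c : ℝ≥0∞) (hc0 : c ≠ 0) (hc : c ≠ ⊤) (n r : ℕ)
    (hU : c ≤ U Λ ht r) (F G : List B → ℝ≥0∞)
    (hFG : ∀ L L', HT ht L = n → HT ht L' = r → F L ≤ G (L ++ L')) :
    ∑' L, (if HT ht L = n then LW Λ L * F L else 0)
      ≤ c⁻¹ * ∑' L, (if HT ht L = n + r then LW Λ L * G L else 0) := by
  set g : List B → ℝ≥0∞ := fun L => if HT ht L = n + r then LW Λ L * G L else 0 with hg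
  -- the double sum over the pairs
  have hinj : Function.Injective
      (fun p : {p : List B × List B // HT ht p.1 = n} => p.1.1 ++ p.1.2) := by
    rintro ⟨⟨a, a'⟩, ha⟩ ⟨⟨b, b'⟩, hb⟩ h
    simp only at ha hb h
    obtain ⟨h3, h4⟩ := append_inj_of_HT ht h1 a b a' b' (by rw [ha, hb]) h
    subst h3 h4
    rfl
  have h2 : ∑' p : {p : List B × List B // HT ht p.1 = n}, g (p.1.1 ++ p.1.2) ≤ ∑' L, g L :=
    ENNReal.tsum_comp_le_tsum_of_injective hinj g
  have h3 : ∑' p : {p : List B × List B // HT ht p.1 = n}, g (p.1.1 ++ p.1.2)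
      = ∑' L, ∑' L', (if HT ht L = n then g (L ++ L') else 0) := by
    rw [← ENNReal.tsum_prod (f := fun L L' => if HT ht L = n then g (L ++ L') else 0)]
    rw [← tsum_subtype_eq_of_support_subset (s := {p : List B × List B | HT ht p.1 = n})]
    · refine tsum_congr fun p => ?_
      have : HT ht p.1.1 = n := p.2
      simp [this]
    · intro p hp
      simp only [Function.mem_support, ne_eq, ite_eq_right_iff, Classical.not_imp] at hp
      exact hp.1
  have h4 : c * ∑' L, (if HT ht L = n then LW Λ L * F L else 0)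
      ≤ ∑' L, ∑' L', (if HT ht L = n then g (L ++ L') else 0) := by
    rw [← ENNReal.tsum_mul_left]
    refine ENNReal.tsum_le_tsum fun L => ?_
    by_cases hL : HT ht L = n
    · simp only [if_pos hL]
      calc c * (LW Λ L * F L) ≤ U Λ ht r * (LW Λ L * F L) := mul_le_mul_left hU _
        _ = ∑' L', (if HT ht L' = r then LW Λ L' else 0) * (LW Λ L * F L) := by
            rw [U, ENNReal.tsum_mul_right]
        _ ≤ ∑' L', g (L ++ L') := by
            refine ENNReal.tsum_le_tsum fun L' => ?_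
            by_cases hL' : HT ht L' = r
            · rw [if_pos hL']
              simp only [hg]
              rw [if_pos (by rw [HT_append, hL, hL']), LW_append]
              calc LW Λ L' * (LW Λ L * F L) = LW Λ L * LW Λ L' * F L := by ring
                _ ≤ _ := mul_le_mul_right (hFG L L' hL hL') _
            · rw [if_neg hL', zero_mul]
              exact zero_le
    · simp [if_neg hL]
  have h5 : c * ∑' L, (if HT ht L = n then LW Λ L * F L else 0) ≤ ∑' L, g L :=
    h4.trans (h3 ▸ h2)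
  calc ∑' L, (if HT ht L = n then LW Λ L * F L else 0)
      = c⁻¹ * (c * ∑' L, (if HT ht L = n then LW Λ L * F L else 0)) := by
        rw [← mul_assoc, ENNReal.inv_mul_cancel hc0 hc, one_mul]
    _ ≤ _ := mul_le_mul_right h5 _

open Classical in
/-- **double extension** (X-lists and Y-lists). -/
theorem ext2_le {BX BY : Type*} (ΛX : BX → ℝ≥0∞) (hX : BX → ℕ) (ΛY : BY → ℝ≥0∞) (hY : BY → ℕ)
    (h1X : ∀ b, 1 ≤ hX b) (h1Y : ∀ b, 1 ≤ hY b)
    (c c' : ℝ≥0∞) (hc0 : c ≠ 0) (hc : c ≠ ⊤) (hc0' : c' ≠ 0) (hc' : c' ≠ ⊤) (n r : ℕ)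
    (hUX : c ≤ U ΛX hX r) (hUY : c' ≤ U ΛY hY r) (P P' : List BX → List BY → Prop)
    (hP : ∀ LX LX' LY LY', HT hX LX = n → HT hX LX' = r → HT hY LY = n → HT hY LY' = r →
      P LX LY → P' (LX ++ LX') (LY ++ LY')) :
    ∑' LX, ∑' LY, (if HT hX LX = n ∧ HT hY LY = n ∧ P LX LY then LW ΛX LX * LW ΛY LY else 0)
      ≤ c⁻¹ * c'⁻¹ * ∑' LX, ∑' LY, (if HT hX LX = n + r ∧ HT hY LY = n + r ∧ P' LX LY
          then LW ΛX LX * LW ΛY LY else 0) := by
  -- write the inner sums with the outer condition in front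
  have e1 : ∀ (k : ℕ) (R : List BX → List BY → Prop),
      ∑' LX, ∑' LY, (if HT hX LX = k ∧ HT hY LY = k ∧ R LX LY then LW ΛX LX * LW ΛY LY else 0)
      = ∑' LX, (if HT hX LX = k then LW ΛX LX *
          ∑' LY, (if HT hY LY = k then LW ΛY LY * (if R LX LY then 1 else 0) else 0) else 0) := by
    intro k R
    refine tsum_congr fun LX => ?_
    by_cases h : HT hX LX = k
    · rw [if_pos h, ← ENNReal.tsum_mul_left]
      refine tsum_congr fun LY => ?_
      by_cases h' : HT hY LY = k
      · by_cases hR : R LX LY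
        · simp [h, h', hR]
        · simp [h, h', hR]
      · simp [h, h']
    · simp [h]
  rw [e1, e1, mul_assoc]
  refine (ext_le ΛX hX h1X c hc0 hc n r hUX _ (fun L => c'⁻¹ * ∑' LY, (if HT hY LY = n + r then
    LW ΛY LY * (if P' L LY then 1 else 0) else 0)) ?_).trans ?_
  · intro L L' hL hL'
    refine ext_le ΛY hY h1Y c' hc0' hc' n r hUY _ _ ?_
    intro M M' hM hM'
    by_cases hp : P L M
    · rw [if_pos hp, if_pos (hP L L' M M' hL hL' hM hM' hp)]
    · rw [if_neg hp]; exact zero_le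
  · refine mul_le_mul_right ?_ _
    rw [← ENNReal.tsum_mul_left]
    refine ENNReal.tsum_le_tsum fun L => ?_
    by_cases h : HT hX L = n + r
    · rw [if_pos h, if_pos h]
      exact le_of_eq (by ring)
    · rw [if_neg h, if_neg h, mul_zero]

end Crest.Agent.R154.Ext944
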