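import Mathlib

/-! Row 154 (helper658): numeric choices for the assembly of ROAD 801 (Mathlib only). -/

set_option autoImplicit false

namespace Crest.Agent.R154.NumK658

open Filter Topology
open scoped ENNReal

/-- real form -/
lemma chooseR (q : ℕ) (hq : 0 < q) (δ : ℝ) (h0 : 0 < δ) (h1 : δ ≤ 1) (N0 : ℕ) :
    ∃ r : ℕ, N0 ≤ r ∧ 1 ≤ r ∧ ((r : ℝ) ^ 2 + 1) * (δ / (2 * r)) ^ 2 ≤ δ ∧
      ((r : ℝ) ^ 2 + 1) * (1 - δ / (4 * r)) ^ (r ^ 2 / q - 1) ≤ δ := by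
  have hq' : (0 : ℝ) < q := by exact_mod_cast hq
  set b : ℝ := δ / (4 * q) with hb
  have hb0 : 0 < b := by positivity
  have hT : Tendsto (fun r : ℕ => 2 * Real.exp 1 / b ^ 2 * ((b * r) ^ 2 * Real.exp (-(b * r))))
      atTop (𝓝 0) := by
    have h2 := (Real.tendsto_pow_mul_exp_neg_atTop_nhds_zero 2).comp
      ((tendsto_natCast_atTop_atTop (R := ℝ)).const_mul_atTop hb0)
    have h3 := h2.const_mul (2 * Real.exp 1 / b ^ 2)
    simpa [Function.comp_def] using h3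
  have hev := (hT.eventually (gt_mem_nhds h0)).and (eventually_ge_atTop (max N0 1))
  obtain ⟨r, hr, hrN⟩ := hev.exists
  have hr1 : 1 ≤ r := le_trans (le_max_right _ _) hrN
  have hr1' : (1 : ℝ) ≤ r := by exact_mod_cast hr1
  have hr0 : (0 : ℝ) < r := by linarith
  refine ⟨r, le_trans (le_max_left _ _) hrN, hr1, ?_, ?_⟩
  · have e1 : ((r : ℝ) ^ 2 + 1) ≤ 2 * r ^ 2 := by nlinarith
    calc ((r : ℝ) ^ 2 + 1) * (δ / (2 * r)) ^ 2 ≤ (2 * r ^ 2) * (δ / (2 * r)) ^ 2 := by gcongr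
      _ = δ ^ 2 / 2 := by field_simp
      _ ≤ δ := by nlinarith
  · set N : ℕ := r ^ 2 / q - 1 with hN
    have hNr : (r : ℝ) ^ 2 / q - 2 ≤ (N : ℝ) := by
      have h4 : r ^ 2 < q * (r ^ 2 / q + 1) := by
        have := Nat.lt_mul_div_succ (r ^ 2) hq
        simpa using this
      have h5 : r ^ 2 / q ≤ N + 1 := by omega
      have h6 : (r : ℝ) ^ 2 < q * ((N : ℝ) + 2) := by
        calc (r : ℝ) ^ 2 < q * (((r ^ 2 / q : ℕ) : ℝ) + 1) := by exact_mod_cast h4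
          _ ≤ q * ((N : ℝ) + 1 + 1) := by
            have : ((r ^ 2 / q : ℕ) : ℝ) ≤ (N : ℝ) + 1 := by exact_mod_cast h5
            gcongr
          _ = _ := by ring
      rw [sub_le_iff_le_add, div_le_iff₀ hq']
      nlinarith
    have hx0 : 0 ≤ 1 - δ / (4 * r) := by
      rw [sub_nonneg, div_le_one (by positivity)]
      nlinarith
    have hx1 : (1 - δ / (4 * r)) ≤ Real.exp (-(δ / (4 * r))) := by
      have := Real.add_one_le_exp (-(δ / (4 * r)))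
      linarith
    have hx2 : (1 - δ / (4 * r)) ^ N ≤ Real.exp (1 - b * r) := by
      calc (1 - δ / (4 * r)) ^ N ≤ (Real.exp (-(δ / (4 * r)))) ^ N := pow_le_pow_left₀ hx0 hx1 N
        _ = Real.exp (N * (-(δ / (4 * r)))) := by rw [← Real.exp_nat_mul]
        _ ≤ Real.exp (1 - b * r) := by
          apply Real.exp_le_exp.2
          have h7 : ((r : ℝ) ^ 2 / q - 2) * (δ / (4 * r)) ≤ N * (δ / (4 * r)) := by
            gcongr
          have h8 : ((r : ℝ) ^ 2 / q - 2) * (δ / (4 * r)) = b * r - δ / (2 * r) := by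
            rw [hb]; field_simp; ring
          have h9 : δ / (2 * r) ≤ 1 := by
            rw [div_le_one (by positivity)]; nlinarith
          linarith
    have e1 : ((r : ℝ) ^ 2 + 1) ≤ 2 * r ^ 2 := by nlinarith
    calc ((r : ℝ) ^ 2 + 1) * (1 - δ / (4 * r)) ^ N
        ≤ (2 * r ^ 2) * Real.exp (1 - b * r) := by gcongr
      _ = 2 * Real.exp 1 / b ^ 2 * ((b * r) ^ 2 * Real.exp (-(b * r))) := by
          rw [sub_eq_add_neg, Real.exp_add]; field_simp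
      _ ≤ δ := le_of_lt hr

/-- **numeric choice of the number of windows and of the quantile** -/
theorem chooseK (q : ℕ) (hq : 0 < q) (ε : ℝ≥0∞) (hε : ε ≠ 0) (N0 : ℕ) :
    ∃ (K : ℕ) (u : ℝ≥0∞), N0 ≤ K ∧ 1 ≤ K ∧ u ≠ 0 ∧ u ≤ 1 ∧ (K + 1) * u ^ 2 ≤ ε ∧
      (K + 1) * (1 - u / 2) ^ (K / q - 1) ≤ ε := by
  obtain ⟨δ, hδ0, hδε⟩ : ∃ δ : ℝ, 0 < δ ∧ ENNReal.ofReal δ ≤ ε := by
    by_cases ht : ε = ⊤
    · exact ⟨1, one_pos, by rw [ht]; exact le_top⟩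
    · exact ⟨ε.toReal, ENNReal.toReal_pos hε ht, by rw [ENNReal.ofReal_toReal ht]⟩
  set δ' := min δ 1 with hδ'
  have h0 : 0 < δ' := lt_min hδ0 one_pos
  have h1 : δ' ≤ 1 := min_le_right _ _
  have h2 : ENNReal.ofReal δ' ≤ ε := (ENNReal.ofReal_le_ofReal (min_le_left _ _)).trans hδε
  obtain ⟨r, hrN, hr1, hA, hB⟩ := chooseR q hq δ' h0 h1 N0
  have hr1' : (1 : ℝ) ≤ r := by exact_mod_cast hr1
  have hr0 : (0 : ℝ) < r := by linarith
  have hK : ((r ^ 2 : ℕ) : ℝ≥0∞) + 1 = ENNReal.ofReal ((r : ℝ) ^ 2 + 1) := by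
    rw [ENNReal.ofReal_add (by positivity) zero_le_one, ENNReal.ofReal_one,
      ← Nat.cast_pow, ENNReal.ofReal_natCast]
  refine ⟨r ^ 2, ENNReal.ofReal (δ' / (2 * r)), ?_, ?_, ?_, ?_, ?_, ?_⟩
  · exact hrN.trans (Nat.le_self_pow two_ne_zero r)
  · exact Nat.one_le_pow _ _ hr1
  · exact (ENNReal.ofReal_pos.2 (by positivity)).ne'
  · rw [ENNReal.ofReal_le_one, div_le_one (by positivity)]; nlinarith
  · rw [hK, ← ENNReal.ofReal_pow (by positivity), ← ENNReal.ofReal_mul (by positivity)]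
    exact (ENNReal.ofReal_le_ofReal hA).trans h2
  · have h3 : (1 : ℝ≥0∞) - ENNReal.ofReal (δ' / (2 * r)) / 2
        = ENNReal.ofReal (1 - δ' / (4 * r)) := by
      rw [ENNReal.ofReal_sub _ (by positivity), ENNReal.ofReal_one,
        show (2 : ℝ≥0∞) = ENNReal.ofReal 2 by norm_num,
        ← ENNReal.ofReal_div_of_pos (by norm_num)]
      congr 2
      field_simp
      ring
    have hx0 : 0 ≤ 1 - δ' / (4 * r) := by
      rw [sub_nonneg, div_le_one (by positivity)]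
      nlinarith
    rw [h3, hK, ← ENNReal.ofReal_pow hx0, ← ENNReal.ofReal_mul (by positivity)]
    exact (ENNReal.ofReal_le_ofReal hB).trans h2

/-- eventually `c * f j ≤ ε` -/
theorem chooseNat (f : ℕ → ℝ≥0∞) (hf : Tendsto f atTop (𝓝 0)) (c : ℝ≥0∞) (hc : c ≠ ⊤)
    (ε : ℝ≥0∞) (hε : ε ≠ 0) : ∃ i : ℕ, ∀ j, i ≤ j → c * f j ≤ ε := by
  have h : Tendsto (fun j => c * f j) atTop (𝓝 0) := by
    simpa using ENNReal.Tendsto.const_mul hf (Or.inr hc)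
  obtain ⟨i, hi⟩ := eventually_atTop.1 (h.eventually (gt_mem_nhds (pos_iff_ne_zero.2 hε)))
  exact ⟨i, fun j hj => (hi j hj).le⟩

/-- a small nonzero finite `lam` -/
theorem chooseLam (c : ℝ≥0∞) (hc : c ≠ ⊤) (ε : ℝ≥0∞) (hε : ε ≠ 0) :
    ∃ lam : ℝ≥0∞, lam ≠ 0 ∧ lam ≠ ⊤ ∧ lam ≤ 1 ∧ c * lam ≤ ε := by
  refine ⟨min 1 (ε / (c + 1)), ?_, ?_, min_le_left _ _, ?_⟩
  · have : ε / (c + 1) ≠ 0 := by
      rw [Ne, ENNReal.div_eq_zero_iff, not_or]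
      exact ⟨hε, ENNReal.add_ne_top.2 ⟨hc, ENNReal.one_ne_top⟩⟩
    simp [this]
  · exact ne_top_of_le_ne_top ENNReal.one_ne_top (min_le_left _ _)
  · calc c * min 1 (ε / (c + 1)) ≤ (c + 1) * (ε / (c + 1)) :=
        mul_le_mul' le_self_add (min_le_right _ _)
      _ ≤ ε := ENNReal.mul_div_le

/-- a large enough divisor: `c * η ≤ ε` with `η ≠ 0` -/
theorem chooseEta (c : ℝ≥0∞) (hc : c ≠ ⊤) (ε : ℝ≥0∞) (hε : ε ≠ 0) :
    ∃ η : ℝ≥0∞, η ≠ 0 ∧ c * η ≤ ε := by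
  obtain ⟨l, h0, _, _, h⟩ := chooseLam c hc ε hε
  exact ⟨l, h0, h⟩

/-- **numeric choice, form for pieces with equal indices** (`K` pieces above, `(1-u)^K`) -/
theorem chooseK1 (c : ℝ≥0∞) (hc : c ≠ ⊤) (ε : ℝ≥0∞) (hε : ε ≠ 0) (N0 : ℕ) :
    ∃ (K : ℕ) (u : ℝ≥0∞), N0 ≤ K ∧ 1 ≤ K ∧ u ≠ 0 ∧ u ≤ 1 ∧ c * ((K + 1) * u ^ 2) ≤ ε ∧
      c * ((K + 1) * (1 - u) ^ K) ≤ ε := by
  obtain ⟨η, hη, hcη⟩ := chooseEta c hc ε hε
  obtain ⟨K, u, h1, h2, h3, h4, h5, h6⟩ := chooseK 1 one_pos η hη N0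
  refine ⟨K, u, h1, h2, h3, h4, (mul_le_mul_right h5 c).trans hcη, ?_⟩
  refine (mul_le_mul_right (le_trans ?_ h6) c).trans hcη
  refine mul_le_mul_right ?_ _
  have e1 : (1 : ℝ≥0∞) - u ≤ 1 - u / 2 := tsub_le_tsub_left ENNReal.half_le_self _
  calc (1 - u) ^ K ≤ (1 - u / 2) ^ K := pow_le_pow_left' e1 K
    _ ≤ (1 - u / 2) ^ (K / 1 - 1) := by
        rw [Nat.div_one]
        exact pow_le_pow_right_of_le_one' tsub_le_self (Nat.sub_le _ _)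

end Crest.Agent.R154.NumK658
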