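import Crest.Agent.R154.Asm2_424
import Crest.Agent.R154.NumK_658
import Crest.Agent.R154.Gap_583
import Crest.Agent.R154.Ext_944

/-! Row 154, ROAD 801 (helper424): the assembly `kapS` from the two window inequalities and POINT. -/

set_option autoImplicit false
set_option linter.unusedVariables false

namespace Crest.Agent.R154.Asm424

open scoped ENNReal Topology
open Crest.Agent.R154.B5A Crest.Agent.R154.FP178
open Crest.Agent.R154.Bind12 (TT Dp)

/-! ### pairs of lists -/

section EE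

variable {CX CY : Type*} (wX : CX → ℝ≥0∞) (wY : CY → ℝ≥0∞)

/-- sum over a prefix and the next letter, for both walkers -/
noncomputable def EE (j : ℕ) (f : List CX → CX → List CY → CY → ℝ≥0∞) : ℝ≥0∞ :=
  SL wX j (fun M1 => ∑' A, wX A * SL wY j (fun N1 => ∑' A', wY A' * f M1 A N1 A'))

lemma EE_mono (j : ℕ) {f g : List CX → CX → List CY → CY → ℝ≥0∞}
    (h : ∀ M1 A N1 A', M1.length = j → N1.length = j → f M1 A N1 A' ≤ g M1 A N1 A') :
    EE wX wY j f ≤ EE wX wY j g := by
  refine SL_mono wX j fun M1 hM => ENNReal.tsum_le_tsum fun A => ?_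
  gcongr
  refine SL_mono wY j fun N1 hN => ENNReal.tsum_le_tsum fun A' => ?_
  gcongr
  exact h M1 A N1 A' hM hN

lemma EE_add (j : ℕ) (f g : List CX → CX → List CY → CY → ℝ≥0∞) :
    EE wX wY j (fun M1 A N1 A' => f M1 A N1 A' + g M1 A N1 A') = EE wX wY j f + EE wX wY j g := by
  unfold EE
  rw [← SL_add_fun]
  refine SL_congr wX j fun M1 _ => ?_
  rw [← ENNReal.tsum_add]
  refine tsum_congr fun A => ?_
  rw [← mul_add, ← SL_add_fun]
  congr 1
  refine SL_congr wY j fun N1 _ => ?_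
  rw [← ENNReal.tsum_add]
  exact tsum_congr fun A' => by rw [← mul_add]

variable {wX wY}

/-- product bound -/
lemma EE_prod (hX : ∑' c, wX c ≤ 1) (hY : ∑' c, wY c ≤ 1) (j : ℕ) (f : CX → ℝ≥0∞) (g : CY → ℝ≥0∞)
    (u v : ℝ≥0∞) (hf : ∑' A, wX A * f A ≤ u) (hg : ∑' A, wY A * g A ≤ v) :
    EE wX wY j (fun _ A _ A' => f A * g A') ≤ u * v := by
  have h1 : ∀ A, SL wY j (fun _ : List CY => ∑' A', wY A' * (f A * g A')) ≤ f A * v := by
    intro A
    refine (SL_const_le wY hY j _).trans ?_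
    calc ∑' A', wY A' * (f A * g A') = f A * ∑' A', wY A' * g A' := by
          rw [← ENNReal.tsum_mul_left]; exact tsum_congr fun A' => by ring
      _ ≤ f A * v := by gcongr
  refine (SL_mono wX j (F' := fun _ => u * v) fun M1 _ => ?_).trans (SL_const_le wX hX j _)
  calc ∑' A, wX A * SL wY j (fun _ => ∑' A', wY A' * (f A * g A')) ≤ ∑' A, wX A * (f A * v) := by
        refine ENNReal.tsum_le_tsum fun A => ?_
        gcongr; exact h1 A
    _ = (∑' A, wX A * f A) * v := by
        rw [← ENNReal.tsum_mul_right]; exact tsum_congr fun A => by ring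
    _ ≤ u * v := by gcongr

lemma EE_left (hX : ∑' c, wX c ≤ 1) (hY : ∑' c, wY c ≤ 1) (j : ℕ) (f : List CX → ℝ≥0∞) :
    EE wX wY j (fun M1 _ _ _ => f M1) ≤ SL wX j f := by
  refine SL_mono wX j fun M1 _ => ?_
  calc ∑' A, wX A * SL wY j (fun _ => ∑' A', wY A' * f M1) ≤ ∑' A, wX A * f M1 := by
        refine ENNReal.tsum_le_tsum fun A => ?_
        gcongr
        refine (SL_const_le wY hY j _).trans ?_
        rw [ENNReal.tsum_mul_right]
        calc _ ≤ 1 * f M1 := by gcongr
          _ = _ := one_mul _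
    _ = (∑' A, wX A) * f M1 := ENNReal.tsum_mul_right
    _ ≤ 1 * f M1 := by gcongr
    _ = _ := one_mul _

lemma EE_right (hX : ∑' c, wX c ≤ 1) (hY : ∑' c, wY c ≤ 1) (j : ℕ) (f : List CY → ℝ≥0∞) :
    EE wX wY j (fun _ _ N1 _ => f N1) ≤ SL wY j f := by
  refine (SL_mono wX j (F' := fun _ => SL wY j f) fun M1 _ => ?_).trans (SL_const_le wX hX j _)
  calc ∑' A, wX A * SL wY j (fun N1 => ∑' A', wY A' * f N1) ≤ ∑' A, wX A * SL wY j f := by
        refine ENNReal.tsum_le_tsum fun A => ?_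
        gcongr
        refine SL_mono wY j fun N1 _ => ?_
        rw [ENNReal.tsum_mul_right]
        calc _ ≤ 1 * f N1 := by gcongr
          _ = _ := one_mul _
    _ = (∑' A, wX A) * SL wY j f := ENNReal.tsum_mul_right
    _ ≤ 1 * SL wY j f := by gcongr
    _ = _ := one_mul _

/-- the weight of a pair of prefixes -/
noncomputable def WW (wX : CX → ℝ≥0∞) (wY : CY → ℝ≥0∞) (j : ℕ) (p : List CX × List CY) : ℝ≥0∞ :=
  (if p.1.length = j then LW wX p.1 else 0) * (if p.2.length = j then LW wY p.2 else 0)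

lemma tsum_WW (j : ℕ) (f : List CX → List CY → ℝ≥0∞) :
    ∑' p : List CX × List CY, WW wX wY j p * f p.1 p.2
      = SL wX j (fun M => SL wY j (fun N => f M N)) := by
  rw [ENNReal.tsum_prod']
  unfold SL WW
  refine tsum_congr fun M => ?_
  by_cases hM : M.length = j
  · simp only [hM, if_true]
    rw [← ENNReal.tsum_mul_left]
    refine tsum_congr fun N => ?_
    by_cases hN : N.length = j
    · simp [hN, mul_assoc]
    · simp [hN]
  · simp [hM]

lemma WW_le (hX : ∑' c, wX c ≤ 1) (hY : ∑' c, wY c ≤ 1) (j : ℕ) :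
    ∑' p : List CX × List CY, WW wX wY j p ≤ 1 := by
  have := tsum_WW (wX := wX) (wY := wY) j (fun _ _ => 1)
  simp only [mul_one] at this
  rw [this]
  exact (SL_mono wX j fun M _ => SL_const_le wY hY j 1).trans (SL_const_le wX hX j 1)

lemma WW_ne (j : ℕ) (p : List CX × List CY) (h : WW wX wY j p ≠ 0) :
    p.1.length = j ∧ p.2.length = j := by
  unfold WW at h
  constructor
  · by_contra hc; simp [hc] at h
  · by_contra hc; simp [hc] at h

open Classical in
lemma EE_pair (j : ℕ) (sm : List CX × List CY → Prop)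
    (g : List CX × List CY → CX → CY → ℝ≥0∞) :
    EE wX wY j (fun M1 A N1 A' => if sm (M1, N1) then g (M1, N1) A A' else 0)
      = ∑' p, (if sm p then WW wX wY j p * ∑' A, wX A * ∑' A', wY A' * g p A A' else 0) := by
  have e1 : ∀ M1 : List CX, ∑' A, wX A * SL wY j (fun N1 => ∑' A', wY A' *
      (if sm (M1, N1) then g (M1, N1) A A' else 0))
      = SL wY j (fun N1 => if sm (M1, N1) then ∑' A, wX A * ∑' A', wY A' * g (M1, N1) A A'
        else 0) := by
    intro M1
    unfold SL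
    simp_rw [← ENNReal.tsum_mul_left]
    rw [ENNReal.tsum_comm]
    refine tsum_congr fun N1 => ?_
    by_cases hN : N1.length = j
    · simp only [hN, if_true]
      by_cases hs : sm (M1, N1)
      · simp only [hs, if_true]
        rw [← ENNReal.tsum_mul_left]
        refine tsum_congr fun A => ?_
        rw [← ENNReal.tsum_mul_left, ← ENNReal.tsum_mul_left]
        refine tsum_congr fun A' => ?_
        ring
      · simp [hs]
    · simp [hN]
  unfold EE
  simp_rw [e1]
  rw [← tsum_WW (wX := wX) (wY := wY) j (fun M1 N1 => if sm (M1, N1) then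
    ∑' A, wX A * ∑' A', wY A' * g (M1, N1) A A' else 0)]
  refine tsum_congr fun p => ?_
  by_cases hs : sm p
  · rw [if_pos hs, if_pos (show sm (p.1, p.2) from hs)]
  · rw [if_neg hs, if_neg (show ¬ sm (p.1, p.2) from hs), mul_zero]

open Classical in
lemma pick2 (hX : ∑' c, wX c ≤ 1) (hY : ∑' c, wY c ≤ 1) (j J : ℕ) (hj : j < J)
    (H : List CX → CX → List CY → CY → Prop) :
    SL wX J (fun M => SL wY J (fun N => if ∃ M1 A M2 N1 A' N2, M = M1 ++ A :: M2 ∧
      N = N1 ++ A' :: N2 ∧ M1.length = j ∧ N1.length = j ∧ H M1 A N1 A' then (1 : ℝ≥0∞) else 0))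
      ≤ EE wX wY j (fun M1 A N1 A' => if H M1 A N1 A' then 1 else 0) := by
  refine SL_pick wX hX j J hj _ _ fun M1 A M2 hM => ?_
  refine SL_pick wY hY j J hj _ _ fun N1 A' N2 hN => ?_
  show _ ≤ (if H M1 A N1 A' then (1 : ℝ≥0∞) else 0)
  by_cases h : H M1 A N1 A'
  · rw [if_pos h]; split_ifs <;> simp
  · rw [if_neg h, if_neg]
    rintro ⟨M1', B, M2', N1', B', N2', e1, e2, l1, l2, hH⟩
    obtain ⟨a1, a2⟩ := List.append_inj e1 (by omega)
    obtain ⟨b1, b2⟩ := List.append_inj e2 (by omega)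
    rw [List.cons.injEq] at a2 b2
    rw [← a1, ← a2.1, ← b1, ← b2.1] at hH
    exact h hH

end EE

section pair

variable {BX BY : Type*} (ΛX : BX → ℝ≥0∞) (hX : BX → ℕ) (ΛY : BY → ℝ≥0∞) (hY : BY → ℕ)

open Classical in
lemma ext_pair (h1X : ∀ b, 1 ≤ hX b) (h1Y : ∀ b, 1 ≤ hY b) (hUX1 : ∀ n, U ΛX hX n ≤ 1)
    (hUY1 : ∀ n, U ΛY hY n ≤ 1) (hΛX : ∑' b, ΛX b ≤ 1) (hΛY : ∑' b, ΛY b ≤ 1) (T i0 J n : ℕ)
    (hn : J * (T + i0) ≤ n) (P : List BX → List BY → Prop)
    (G : List (At hX T i0) → List (At hY T i0) → ℝ≥0∞)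
    (hG : ∀ M N R R', M.length = J → N.length = J → P (flat M ++ R) (flat N ++ R') → 1 ≤ G M N) :
    ∑' LX, ∑' LY, (if HT hX LX = n ∧ HT hY LY = n ∧ P LX LY then LW ΛX LX * LW ΛY LY else 0)
      ≤ J * ep ΛX hX i0 + (J * ep ΛY hY i0
        + SL (wt ΛX hX T i0) J (fun M => SL (wt ΛY hY T i0) J (fun N => G M N))) := by
  set F : List BX → ℝ≥0∞ := fun LX => ∑' LY, (if HT hY LY = n then LW ΛY LY *
    (if P LX LY then 1 else 0) else 0) with hF
  have hF1 : ∀ L, F L ≤ 1 := fun L => by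
    refine le_trans (ENNReal.tsum_le_tsum fun LY => ?_) (hUY1 n)
    by_cases h : HT hY LY = n
    · rw [if_pos h, if_pos h]
      split_ifs <;> simp
    · rw [if_neg h]; exact zero_le
  have e1 : ∑' LX, ∑' LY, (if HT hX LX = n ∧ HT hY LY = n ∧ P LX LY then LW ΛX LX * LW ΛY LY
      else 0) = ∑' LX, (if HT hX LX = n then LW ΛX LX * F LX else 0) := by
    refine tsum_congr fun LX => ?_
    by_cases h : HT hX LX = n
    · rw [if_pos h]
      simp only [hF]
      rw [← ENNReal.tsum_mul_left]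
      refine tsum_congr fun LY => ?_
      by_cases h' : HT hY LY = n
      · by_cases hP : P LX LY <;> simp [h, h', hP]
      · simp [h']
    · simp [h]
  rw [e1]
  refine (ext1 ΛX hX h1X hUX1 hΛX T i0 J n hn F hF1
    (fun M => J * ep ΛY hY i0 + SL (wt ΛY hY T i0) J (fun N => G M N)) ?_).trans ?_
  · intro M R hM
    refine ext1 ΛY hY h1Y hUY1 hΛY T i0 J n hn (fun LY => if P (flat M ++ R) LY then 1 else 0)
      (fun L => by split_ifs <;> simp) (fun N => G M N) ?_
    intro N R' hN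
    by_cases hP : P (flat M ++ R) (flat N ++ R')
    · rw [if_pos hP]; exact hG M N R R' hM hN hP
    · rw [if_neg hP]; exact zero_le
  · rw [SL_add_fun]
    gcongr
    exact SL_const_le _ (sum_wt_le ΛX hX h1X hΛX T i0) J _

end pair

/-! ### the law of an attempt -/

section law

variable {B G : Type*} [AddCommGroup G] (Λ : B → ℝ≥0∞) (ht : B → ℕ) (z : B → G)

open Classical in
/-- law of (height, displacement) of the first passage of `T` -/
noncomputable def pp (T : ℕ) (q : ℕ × G) : ℝ≥0∞ :=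
  ∑' L, if fp ht T L ∧ HT ht L = q.1 ∧ Dp z L = q.2 then LW Λ L else 0

open Classical in
lemma sum_FP_one (h1 : ∀ b, 1 ≤ ht b) (hΛ : ∑' b, Λ b = 1) (a : ℕ) :
    ∑' L, (if fp ht a L then LW Λ L else 0) = 1 := by
  induction a using Nat.strong_induction_on with
  | _ a ih =>
    rcases Nat.eq_zero_or_pos a with rfl | ha
    · have := sum_fp_zero Λ ht (fun _ => 1)
      simp only [mul_one] at this
      exact this
    · have := sum_fp_step Λ ht a ha (fun _ => 1)
      simp only [mul_one] at this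
      rw [this]
      calc ∑' b, Λ b * ∑' L, (if fp ht (a - ht b) L then LW Λ L else 0)
          = ∑' b, Λ b * 1 := by
            refine tsum_congr fun b => ?_
            rw [ih (a - ht b) (by have := h1 b; omega)]
        _ = 1 := by simpa using hΛ

open Classical in
lemma sum_pp (h1 : ∀ b, 1 ≤ ht b) (hΛ : ∑' b, Λ b = 1) (T : ℕ) : ∑' q, pp Λ ht z T q = 1 := by
  unfold pp
  rw [ENNReal.tsum_comm, ← sum_FP_one Λ ht h1 hΛ T]
  refine tsum_congr fun L => ?_
  rw [tsum_eq_single (HT ht L, Dp z L)]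
  · by_cases h : fp ht T L <;> simp [h]
  · rintro ⟨a, b⟩ hq
    rw [if_neg]
    rintro ⟨_, h2, h3⟩
    exact hq (Prod.ext h2.symm h3.symm)

open Classical in
/-- the sum over attempts of a function of the label is at most the sum over labels -/
lemma sum_At_le (T i0 : ℕ) (f : ℕ × G → Prop) :
    ∑' A : At ht T i0, (if f (HT ht A.1, Dp z A.1) then wt Λ ht T i0 A else 0)
      ≤ ∑' q, (if f q then pp Λ ht z T q else 0) := by
  unfold wt
  rw [tsum_At ht T i0 (fun L => if f (HT ht L, Dp z L) then LW Λ L else 0)]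
  have : ∑' q, (if f q then pp Λ ht z T q else 0)
      = ∑' L, ∑' q : ℕ × G, (if f q ∧ fp ht T L ∧ HT ht L = q.1 ∧ Dp z L = q.2 then LW Λ L
        else 0) := by
    rw [ENNReal.tsum_comm]
    refine tsum_congr fun q => ?_
    unfold pp
    by_cases h : f q
    · simp [h]
    · simp [h]
  rw [this]
  refine ENNReal.tsum_le_tsum fun L => ?_
  by_cases hL : fp ht T L ∧ HT ht L ≤ T + i0
  · rw [if_pos hL]
    by_cases hf : f (HT ht L, Dp z L)
    · rw [if_pos hf]
      refine le_trans (le_of_eq ?_) (ENNReal.le_tsum (HT ht L, Dp z L))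
      rw [if_pos ⟨hf, hL.1, rfl, rfl⟩]
    · rw [if_neg hf]; exact zero_le
  · rw [if_neg hL]; exact zero_le

end law

end Crest.Agent.R154.Asm424
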