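import Crest.Agent.R154.Asm2_469

/-! Row 154, ROAD 801 (helper469): abstract assembly, part 3: window estimates. -/

set_option autoImplicit false
set_option linter.unusedSectionVars false

namespace Crest.Agent.R154.Asm469

open scoped ENNReal
open Crest.Agent.R154.B5A Crest.Agent.R154.FP178

section gen

variable {A A' : Type*} (L₀ : A → ℝ≥0∞) (M₀ : A' → ℝ≥0∞)

open Classical in
/-- generic window estimate -/
lemma win_gen {G : Type*} [AddCommGroup G] (hL : ∑' a, L₀ a ≤ 1) (hM : ∑' a, M₀ a ≤ 1) (i : ℕ)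
    (dX : List A → G) (dY : List A' → G) (cX : List A → ℕ) (cY : List A' → ℕ) (w : G)
    (good : List A → List A' → Prop) (ev : (List A × A) × (List A' × A') → Prop)
    {τ : Type*} (Fs : Finset τ) (tX tY : τ → ℕ) (R : τ → G → A → A' → Prop)
    (K : τ → G → ℝ≥0∞) (M β : ℝ≥0∞)
    (hcov : ∀ ω : (List A × A) × (List A' × A'), ω.1.1.length = i → ω.2.1.length = i → ev ω →
      good ω.1.1 ω.2.1 → ∃ t ∈ Fs, cX ω.1.1 = tX t ∧ cY ω.2.1 = tY t ∧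
        R t (w + dY ω.2.1 - dX ω.1.1) ω.1.2 ω.2.2)
    (hK : ∀ t ∈ Fs, ∀ x, (∑' P, ∑' Q, L₀ P * (M₀ Q * (if R t x P Q then 1 else 0))) ≤ K t x)
    (hμ : ∀ t ∈ Fs, ∀ x, SL L₀ i (fun X => SL M₀ i (fun Y =>
        if (good X Y ∧ cX X = tX t ∧ cY Y = tY t) ∧ w + dY Y - dX X = x then 1 else 0)) ≤ M)
    (hb : ∀ t ∈ Fs, ∀ μ : G → ℝ≥0∞, ∑' x, μ x ≤ 1 → (∀ x, μ x ≤ M) → ∑' x, μ x * K t x ≤ β) :
    Wt L₀ M₀ i (fun ω => if ev ω then 1 else 0)
      ≤ Wt L₀ M₀ i (fun ω => if good ω.1.1 ω.2.1 then 0 else 1) + Fs.card * β := by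
  have h1 : Wt L₀ M₀ i (fun ω => if ev ω then 1 else 0)
      ≤ Wt L₀ M₀ i (fun ω => (if good ω.1.1 ω.2.1 then 0 else 1) + ∑ t ∈ Fs,
        (if (good ω.1.1 ω.2.1 ∧ cX ω.1.1 = tX t ∧ cY ω.2.1 = tY t) ∧
          R t (w + dY ω.2.1 - dX ω.1.1) ω.1.2 ω.2.2 then 1 else 0)) := by
    refine Wt_mono L₀ M₀ i fun ω h1 h2 => ?_
    by_cases he : ev ω
    · by_cases hg : good ω.1.1 ω.2.1
      · obtain ⟨t, ht, h3, h4, h5⟩ := hcov ω h1 h2 he hg
        rw [if_pos he, if_pos hg, zero_add]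
        refine le_trans (le_of_eq ?_) (Finset.single_le_sum (f := fun t =>
          (if (good ω.1.1 ω.2.1 ∧ cX ω.1.1 = tX t ∧ cY ω.2.1 = tY t) ∧
          R t (w + dY ω.2.1 - dX ω.1.1) ω.1.2 ω.2.2 then (1 : ℝ≥0∞) else 0))
          (fun _ _ => zero_le) ht)
        rw [if_pos ⟨⟨hg, h3, h4⟩, h5⟩]
      · rw [if_pos he, if_neg hg]; exact le_self_add
    · rw [if_neg he]; exact zero_le
  refine h1.trans ?_
  rw [Wt_add, Wt_sum]
  refine add_le_add le_rfl ?_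
  rw [← nsmul_eq_mul]
  refine Finset.sum_le_card_nsmul _ _ _ fun t ht => ?_
  obtain ⟨μ, hμ1, hμ2, hμ3⟩ := term_le L₀ M₀ hL hM i dX dY w
    (fun X Y => good X Y ∧ cX X = tX t ∧ cY Y = tY t) (R t) (K t) (hK t ht)
  refine le_trans (le_of_eq ?_) (hμ3.trans (hb t ht μ hμ1 fun x => ?_))
  · congr!
  · rw [hμ2 x]
    refine le_trans (le_of_eq ?_) (hμ t ht x)
    congr!

open Classical in
/-- law of a statistic of the letter -/
noncomputable def pl {ι : Type*} (g : A → ι) (x : ι) : ℝ≥0∞ := ∑' P, if g P = x then L₀ P else 0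

lemma law {ι : Type*} (g : A → ι) (φ : ι → ℝ≥0∞) :
    ∑' P, L₀ P * φ (g P) = ∑' x, pl L₀ g x * φ x := by
  classical
  simp only [pl, ← ENNReal.tsum_mul_right]
  rw [ENNReal.tsum_comm]
  refine tsum_congr fun P => ?_
  rw [tsum_eq_single (g P) (fun x hx => by rw [if_neg (fun h => hx h.symm), zero_mul]), if_pos rfl]

lemma pl_sum {ι : Type*} (g : A → ι) : ∑' x, pl L₀ g x = ∑' P, L₀ P := by
  have := law L₀ g (fun _ => 1)
  simpa using this.symm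

open Classical in
/-- thresholds -/
lemma quantA {ι : Type*} (g : A → ι) (hL : ∑' a, L₀ a ≤ 1) {u : ℝ≥0∞} (hu : u ≠ 0) (hu' : u ≠ ⊤)
    (hu1 : u ≤ ∑' a, L₀ a) : ∃ θ : ℝ≥0∞, θ ≠ 0 ∧ θ ≠ ⊤ ∧
      (∑' P, (if pl L₀ g (g P) < θ then L₀ P else 0) ≤ u) ∧
      (∑' P, (if pl L₀ g (g P) < 2 * θ then 0 else L₀ P) ≤ 1 - u) ∧
      ({x | θ ≤ pl L₀ g x}.Finite ∧ (({x | θ ≤ pl L₀ g x}.ncard : ℕ) : ℝ≥0∞) * θ ≤ 1) ∧
      (∀ x, ∑' P, (if pl L₀ g (g P) < 2 * θ ∧ g P = x then L₀ P else 0) ≤ 2 * θ) := by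
  have hp : ∑' x, pl L₀ g x ≤ 1 := by rw [pl_sum]; exact hL
  have hp' : u ≤ ∑' x, pl L₀ g x := by rw [pl_sum]; exact hu1
  have hex := AsmA789.exists_small (pl L₀ g) hp hu
  set Pr : ℕ → Prop := fun q => (∑' i, if pl L₀ g i < (2 : ℝ≥0∞)⁻¹ ^ q then pl L₀ g i else 0) ≤ u
    with hPr
  have hex' : ∃ q, Pr q := hex
  have hq := Nat.find_spec hex'
  set θ := (2 : ℝ≥0∞)⁻¹ ^ Nat.find hex' with hθ
  have hθ0 : θ ≠ 0 := pow_ne_zero _ (by simp)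
  have hθ1 : θ ≤ 1 := pow_le_one' (by simp) _
  have hbig : u ≤ ∑' i, (if pl L₀ g i < 2 * θ then pl L₀ g i else 0) := by
    rcases Nat.eq_zero_or_pos (Nat.find hex') with h0 | hpos
    · rw [hθ, h0, pow_zero, mul_one]
      have : ∀ i, pl L₀ g i < 2 := by
        intro i
        calc pl L₀ g i ≤ ∑' i, pl L₀ g i := ENNReal.le_tsum i
          _ ≤ 1 := hp
          _ < 2 := by norm_num
      simp only [this, if_true]
      exact hp'
    · obtain ⟨r, hr⟩ := Nat.exists_eq_succ_of_ne_zero hpos.ne'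
      have hnot : ¬ Pr r := Nat.find_min hex' (by omega)
      have e : 2 * (2 : ℝ≥0∞)⁻¹ ^ Nat.find hex' = (2 : ℝ≥0∞)⁻¹ ^ r := by
        rw [hr, Nat.succ_eq_add_one, pow_succ, mul_comm ((2 : ℝ≥0∞)⁻¹ ^ r), ← mul_assoc,
          ENNReal.mul_inv_cancel (by norm_num) (by norm_num), one_mul]
      rw [hθ, e]
      exact (not_le.1 hnot).le
  refine ⟨θ, hθ0, ne_top_of_le_ne_top ENNReal.one_ne_top hθ1, ?_, ?_, AsmA789.card_le _ hp hθ0, ?_⟩
  · have := law L₀ g (fun x => if pl L₀ g x < θ then 1 else 0)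
    simp only [mul_ite, mul_one, mul_zero] at this
    rw [this]; exact hq
  · have h2 := law L₀ g (fun x => if pl L₀ g x < 2 * θ then 1 else 0)
    simp only [mul_ite, mul_one, mul_zero] at h2
    rw [← h2] at hbig
    have h3 : ∑' P, (if pl L₀ g (g P) < 2 * θ then 0 else L₀ P)
        + ∑' P, (if pl L₀ g (g P) < 2 * θ then L₀ P else 0) ≤ 1 := by
      rw [← ENNReal.tsum_add]
      refine le_trans (ENNReal.tsum_le_tsum fun P => ?_) hL
      split_ifs <;> simp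
    have h4 : ∑' P, (if pl L₀ g (g P) < 2 * θ then 0 else L₀ P) + u ≤ 1 :=
      (add_le_add le_rfl hbig).trans h3
    exact ENNReal.le_sub_of_add_le_right hu' h4
  · intro x
    by_cases hx : pl L₀ g x < 2 * θ
    · refine le_trans (ENNReal.tsum_le_tsum fun P => ?_) (show pl L₀ g x ≤ 2 * θ from hx.le)
      by_cases h : g P = x
      · rw [if_pos h]; split_ifs <;> simp
      · rw [if_neg h, if_neg (fun h' => h h'.2)]
    · refine le_trans (le_of_eq ?_) (zero_le (a := 2 * θ))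
      rw [ENNReal.tsum_eq_zero]
      intro P
      rw [if_neg]
      rintro ⟨h1, rfl⟩
      exact hx h1

end gen

section Win

variable {BX BY G : Type*} [AddCommGroup G]
  (ΛX : BX → ℝ≥0∞) (ΛY : BY → ℝ≥0∞) (hX : BX → ℕ) (hY : BY → ℕ) (zX : BX → G) (zY : BY → G)
  (sX : BX → Set (G × ℕ)) (sY : BY → Set (G × ℕ))

/-- two placed lists meet, all common sites in `[lo, hi]` -/
def WinR (lo hi a a' : ℕ) (x : G) (L : List BX) (L' : List BY) : Prop :=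
  (∃ z k, (z, k) ∈ TT sX zX hX L 0 a ∧ (z, k) ∈ TT sY zY hY L' x a') ∧
  (∀ z k, (z, k) ∈ TT sX zX hX L 0 a → (z, k) ∈ TT sY zY hY L' x a' → lo ≤ k ∧ k ≤ hi)

open Classical in
/-- window lemma (2), X local -/
def H2 (C : ℝ≥0∞) (us : ℕ → ℝ≥0∞) : Prop :=
  ∀ (s h h' a a' lo hi : ℕ) (E : Finset G) (μ : G → ℝ≥0∞) (M lam : ℝ≥0∞),
    ∑' x, μ x ≤ 1 → (∀ x, μ x ≤ M) → lam ≠ 0 → lam ≠ ⊤ → a + s ≤ lo → a' + s ≤ lo →
    hi + s ≤ a + h → hi + s ≤ a' + h' → a ≤ a' → a + h ≤ a' + h' →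
    ∑' x, μ x * ∑' L, ∑' L', (if HT hX L = h ∧ Dp zX L ∈ E ∧ HT hY L' = h' ∧
      WinR hX hY zX zY sX sY lo hi a a' x L L' then LW ΛX L * LW ΛY L' else 0)
      ≤ C * (lam + M * E.card * us s / lam + us s)

open Classical in
/-- window lemma (3), Y local -/
def H3 (C : ℝ≥0∞) (us : ℕ → ℝ≥0∞) : Prop :=
  ∀ (s h h' a a' lo hi : ℕ) (E : Finset G) (μ : G → ℝ≥0∞) (M lam : ℝ≥0∞),
    ∑' x, μ x ≤ 1 → (∀ x, μ x ≤ M) → lam ≠ 0 → lam ≠ ⊤ → a + s ≤ lo → a' + s ≤ lo →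
    hi + s ≤ a + h → hi + s ≤ a' + h' → a ≤ a' → a + h ≤ a' + h' →
    ∑' x, μ x * ∑' L, ∑' L', (if HT hX L = h ∧ HT hY L' = h' ∧ Dp zY L' ∈ E ∧
      WinR hX hY zX zY sX sY lo hi a a' x L L' then LW ΛX L * LW ΛY L' else 0)
      ≤ C * (lam + M * E.card * us s / lam + us s)

open Classical in
/-- thin slab -/
def H5 : Prop :=
  ∀ s : ℕ, ∀ η : ℝ≥0∞, η ≠ 0 → ∃ T : ℕ, ∀ a, T ≤ a → ∀ n : ℕ, ∀ w : G,
    ∑' LX, ∑' LY, (if HT hX LX = n ∧ HT hY LY = n ∧ ∃ z k, a ≤ k ∧ k < a + s ∧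
      (z, k) ∈ TT sX zX hX LX 0 0 ∧ (z, k) ∈ TT sY zY hY LY w 0 then LW ΛX LX * LW ΛY LY else 0) ≤ η

open Classical in
/-- output -/
def kapS : Prop :=
  ∀ ε : ℝ≥0∞, ε ≠ 0 → ∃ M : ℕ, ∀ m, M ≤ m → ∃ n0 : ℕ, ∀ n, n0 ≤ n → ∀ w : G,
    ∑' LX, ∑' LY, (if HT hX LX = n ∧ HT hY LY = n ∧ ∃ z k, m < k ∧ k ≤ 2 * m ∧
      (z, k) ∈ TT sX zX hX LX 0 0 ∧ (z, k) ∈ TT sY zY hY LY w 0 then LW ΛX LX * LW ΛY LY else 0) ≤ ε

/-! ### the windows -/

variable (T i0 i : ℕ) (w : G) (e0 lo hi : ℕ)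

/-- height and displacement of a piece -/
def gP {B : Type*} (h : B → ℕ) (z : B → G) (T i0 : ℕ) (P : Pc h T i0) : ℕ × G := (HT h P.1, Dp z P.1)

/-- window event: piece number `i` of X and of Y (Y starts at depth `e0`) -/
def Win (ω : (List (Pc hX T i0) × Pc hX T i0) × (List (Pc hY T i0) × Pc hY T i0)) : Prop :=
  (∃ z k, (z, k) ∈ TT sX zX hX ω.1.2.1 (Dp zX (flat hX ω.1.1)) (HT hX (flat hX ω.1.1)) ∧
    (z, k) ∈ TT sY zY hY ω.2.2.1 (w + Dp zY (flat hY ω.2.1)) (e0 + HT hY (flat hY ω.2.1))) ∧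
  (∀ z k, (z, k) ∈ TT sX zX hX ω.1.2.1 (Dp zX (flat hX ω.1.1)) (HT hX (flat hX ω.1.1)) →
    (z, k) ∈ TT sY zY hY ω.2.2.1 (w + Dp zY (flat hY ω.2.1)) (e0 + HT hY (flat hY ω.2.1)) →
    lo ≤ k ∧ k ≤ hi)

lemma Win_iff (ω : (List (Pc hX T i0) × Pc hX T i0) × (List (Pc hY T i0) × Pc hY T i0)) :
    Win hX hY zX zY sX sY T i0 w e0 lo hi ω →
      WinR hX hY zX zY sX sY lo hi (HT hX (flat hX ω.1.1)) (e0 + HT hY (flat hY ω.2.1))
        (w + Dp zY (flat hY ω.2.1) - Dp zX (flat hX ω.1.1)) ω.1.2.1 ω.2.2.1 := by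
  rintro ⟨⟨z, k, h1, h2⟩, h3⟩
  have eX : ∀ v k, (v, k) ∈ TT sX zX hX ω.1.2.1 (Dp zX (flat hX ω.1.1)) (HT hX (flat hX ω.1.1)) ↔
      (v - Dp zX (flat hX ω.1.1), k) ∈ TT sX zX hX ω.1.2.1 0 (HT hX (flat hX ω.1.1)) := by
    intro v k
    have := TT_shift sX zX hX ω.1.2.1 0 (Dp zX (flat hX ω.1.1)) (HT hX (flat hX ω.1.1)) v k
    rw [zero_add] at this
    exact this
  have eY : ∀ v k, (v, k) ∈ TT sY zY hY ω.2.2.1 (w + Dp zY (flat hY ω.2.1))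
        (e0 + HT hY (flat hY ω.2.1)) ↔
      (v - Dp zX (flat hX ω.1.1), k) ∈ TT sY zY hY ω.2.2.1
        (w + Dp zY (flat hY ω.2.1) - Dp zX (flat hX ω.1.1)) (e0 + HT hY (flat hY ω.2.1)) := by
    intro v k
    have := TT_shift sY zY hY ω.2.2.1 (w + Dp zY (flat hY ω.2.1) - Dp zX (flat hX ω.1.1))
      (Dp zX (flat hX ω.1.1)) (e0 + HT hY (flat hY ω.2.1)) v k
    rw [sub_add_cancel] at this
    exact this
  refine ⟨⟨z - Dp zX (flat hX ω.1.1), k, (eX z k).1 h1, (eY z k).1 h2⟩, fun v k' h4 h5 => ?_⟩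
  refine h3 (v + Dp zX (flat hX ω.1.1)) k' ((eX _ k').2 ?_) ((eY _ k').2 ?_)
  · rw [add_sub_cancel_right]; exact h4
  · rw [add_sub_cancel_right]; exact h5

open Classical in
/-- pieces are lists -/
lemma pc_le (c : List BX → List BY → Prop) :
    (∑' P, ∑' Q, ΛP ΛX hX T i0 P * (ΛP ΛY hY T i0 Q * (if c P.1 Q.1 then 1 else 0)))
      ≤ ∑' L, ∑' L', (if c L L' then LW ΛX L * LW ΛY L' else 0) := by
  have h1 : ∀ P : Pc hX T i0, (∑' Q, ΛP ΛX hX T i0 P * (ΛP ΛY hY T i0 Q *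
        (if c P.1 Q.1 then 1 else 0)))
      ≤ ∑' L', (if c P.1 L' then LW ΛX P.1 * LW ΛY L' else 0) := by
    intro P
    refine le_trans (ENNReal.tsum_le_tsum fun Q => ?_)
      (ENNReal.tsum_comp_le_tsum_of_injective Subtype.val_injective
        (fun L' : List BY => (if c P.1 L' then LW ΛX P.1 * LW ΛY L' else 0)))
    by_cases h : c P.1 Q.1
    · rw [if_pos h, if_pos h, mul_one]; rfl
    · rw [if_neg h, mul_zero, mul_zero]; exact zero_le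
  refine (ENNReal.tsum_le_tsum h1).trans ?_
  exact ENNReal.tsum_comp_le_tsum_of_injective Subtype.val_injective
    (fun L : List BX => ∑' L', (if c L L' then LW ΛX L * LW ΛY L' else 0))

lemma map_sum {B : Type*} (h : B → ℕ) (z : B → G) (X : List (Pc h T i0)) :
    (X.map fun P => (((HT h P.1 : ℕ) : ℤ), Dp z P.1)).sum
      = (((HT h (flat h X) : ℕ) : ℤ), Dp z (flat h X)) := by
  induction X with
  | nil => simp only [flat_nil, HT_nil, Dp, List.map_nil, List.sum_nil]; rfl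
  | cons P X ih =>
    rw [List.map_cons, List.sum_cons, ih, flat_cons, HT_append, Dp_append]
    simp

open Classical in
/-- density of the tie law given that the prefix has a smooth piece -/
lemma dens_pc {B : Type*} (Λ : B → ℝ≥0∞) (h : B → ℕ) (z : B → G) (h1 : ∀ b, 1 ≤ h b)
    (hΛ : ∑' b, Λ b ≤ 1) (θ : ℝ≥0∞)
    (h4 : ∀ x, ∑' P, (if pl (ΛP Λ h T i0) (gP h z T i0) (gP h z T i0 P) < 2 * θ ∧
      gP h z T i0 P = x then ΛP Λ h T i0 P else 0) ≤ 2 * θ) (a : ℕ) (D : G) :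
    SL (ΛP Λ h T i0) i (fun X => if (∃ P ∈ X, pl (ΛP Λ h T i0) (gP h z T i0) (gP h z T i0 P)
      < 2 * θ) ∧ HT h (flat h X) = a ∧ Dp z (flat h X) = D then 1 else 0) ≤ i * (2 * θ) := by
  have hd := AsmA789.dens (ΛP Λ h T i0) (sum_Pc_le Λ h h1 hΛ T i0)
    (fun P => (((HT h P.1 : ℕ) : ℤ), Dp z P.1))
    (fun P => pl (ΛP Λ h T i0) (gP h z T i0) (gP h z T i0 P) < 2 * θ) (2 * θ) (by
      rintro ⟨c, D'⟩
      by_cases hc : 0 ≤ c
      · obtain ⟨c', rfl⟩ := Int.eq_ofNat_of_zero_le hc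
        refine le_trans (ENNReal.tsum_le_tsum fun P => ?_) (h4 (c', D'))
        by_cases hh : pl (ΛP Λ h T i0) (gP h z T i0) (gP h z T i0 P) < 2 * θ ∧
          ((((HT h P.1 : ℕ) : ℤ), Dp z P.1) : ℤ × G) = ((c' : ℤ), D')
        · have e1 : ((HT h P.1 : ℕ) : ℤ) = (c' : ℤ) := congrArg Prod.fst hh.2
          have e2 : Dp z P.1 = D' := congrArg Prod.snd hh.2
          have e3 : gP h z T i0 P = (c', D') := Prod.ext (by exact_mod_cast e1) e2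
          rw [if_pos hh, if_pos ⟨hh.1, e3⟩]
        · rw [if_neg hh]; exact zero_le
      · refine le_trans (le_of_eq ?_) (zero_le (a := 2 * θ))
        rw [ENNReal.tsum_eq_zero]
        intro P
        rw [if_neg]
        rintro ⟨_, h3⟩
        have e1 : ((HT h P.1 : ℕ) : ℤ) = c := congrArg Prod.fst h3
        omega) i ((a : ℤ), D)
  refine le_trans (SL_mono _ i fun X _ => ?_) hd
  by_cases hh : (∃ P ∈ X, pl (ΛP Λ h T i0) (gP h z T i0) (gP h z T i0 P) < 2 * θ) ∧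
    HT h (flat h X) = a ∧ Dp z (flat h X) = D
  · have e3 : (X.map fun P => (((HT h P.1 : ℕ) : ℤ), Dp z P.1)).sum = ((a : ℤ), D) := by
      rw [map_sum, hh.2.1, hh.2.2]
    rw [if_pos hh, if_pos ⟨hh.1, e3⟩]
  · rw [if_neg hh]; exact zero_le

open Classical in
/-- X local -/
lemma winX (h1X : ∀ b, 1 ≤ hX b) (h1Y : ∀ b, 1 ≤ hY b) (hΛX : ∑' b, ΛX b ≤ 1)
    (hΛY : ∑' b, ΛY b ≤ 1) (C : ℝ≥0∞) (us : ℕ → ℝ≥0∞)
    (hH2 : H2 ΛX ΛY hX hY zX zY sX sY C us) (s wd : ℕ) (lam θ u : ℝ≥0∞) (hl : lam ≠ 0)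
    (hl' : lam ≠ ⊤) (hθ' : θ ≠ ⊤)
    (q2 : ∑' P, (if pl (ΛP ΛX hX T i0) (gP hX zX T i0) (gP hX zX T i0 P) < 2 * θ then 0
      else ΛP ΛX hX T i0 P) ≤ 1 - u)
    (q3 : {x | θ ≤ pl (ΛP ΛX hX T i0) (gP hX zX T i0) x}.Finite ∧
      (({x | θ ≤ pl (ΛP ΛX hX T i0) (gP hX zX T i0) x}.ncard : ℕ) : ℝ≥0∞) * θ ≤ 1)
    (q4 : ∀ x, ∑' P, (if pl (ΛP ΛX hX T i0) (gP hX zX T i0) (gP hX zX T i0 P) < 2 * θ ∧
      gP hX zX T i0 P = x then ΛP ΛX hX T i0 P else 0) ≤ 2 * θ)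
    (he0 : i * i0 ≤ e0) (he1 : e0 + (i + 1) * i0 ≤ wd) (he2 : (i + 1) * i0 ≤ e0)
    (hlo : i * T + wd + s ≤ lo) (hhi : hi + s ≤ (i + 1) * T) :
    Wt (ΛP ΛX hX T i0) (ΛP ΛY hY T i0) i (fun ω => if
        Win hX hY zX zY sX sY T i0 w e0 lo hi ω ∧
          θ ≤ pl (ΛP ΛX hX T i0) (gP hX zX T i0) (gP hX zX T i0 ω.1.2) then 1 else 0)
      ≤ (1 - u) ^ i + (((i * i0 + 1) * (wd + 1) * (i0 + 1) * (i0 + 1) : ℕ) : ℝ≥0∞) *
          (C * (lam + 2 * i * us s / lam + us s)) := by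
  set LA := ΛP ΛX hX T i0 with hLA
  set LB := ΛP ΛY hY T i0 with hLB
  have hA : ∑' P, LA P ≤ 1 := sum_Pc_le ΛX hX h1X hΛX T i0
  have hB : ∑' P, LB P ≤ 1 := sum_Pc_le ΛY hY h1Y hΛY T i0
  set p := pl LA (gP hX zX T i0) with hp
  -- local sets
  set E : ℕ → Finset G := fun h => (q3.1.toFinset.filter (fun x => x.1 = h)).image Prod.snd with hE
  have hEcard : ∀ h, ((E h).card : ℝ≥0∞) * θ ≤ 1 := by
    intro h
    refine le_trans (mul_le_mul_left ?_ _) q3.2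
    have : (E h).card ≤ {x | θ ≤ p x}.ncard := by
      rw [Set.ncard_eq_toFinset_card _ q3.1]
      exact Finset.card_image_le.trans (Finset.card_filter_le _ _)
    exact_mod_cast this
  have hEmem : ∀ P : Pc hX T i0, θ ≤ p (gP hX zX T i0 P) → Dp zX P.1 ∈ E (HT hX P.1) := by
    intro P hP
    rw [hE, Finset.mem_image]
    exact ⟨gP hX zX T i0 P, Finset.mem_filter.2 ⟨q3.1.mem_toFinset.2 hP, rfl⟩, rfl⟩
  set Fs : Finset (ℕ × ℕ × ℕ × ℕ) := (Finset.Icc (i * T) (i * T + i * i0)) ×ˢ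
    (Finset.Icc (i * T + e0) (i * T + wd)) ×ˢ (Finset.Icc T (T + i0)) ×ˢ (Finset.Icc T (T + i0))
    with hFs
  have hcard : Fs.card ≤ (i * i0 + 1) * (wd + 1) * (i0 + 1) * (i0 + 1) := by
    rw [hFs, Finset.card_product, Finset.card_product, Finset.card_product, Nat.card_Icc,
      Nat.card_Icc, Nat.card_Icc]
    have e1 : i * T + i * i0 + 1 - i * T = i * i0 + 1 := by omega
    have e2 : i * T + wd + 1 - (i * T + e0) ≤ wd + 1 := by omega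
    have e3 : T + i0 + 1 - T = i0 + 1 := by omega
    rw [e1, e3]
    calc _ ≤ (i * i0 + 1) * ((wd + 1) * ((i0 + 1) * (i0 + 1))) :=
          Nat.mul_le_mul le_rfl (Nat.mul_le_mul e2 le_rfl)
      _ = _ := by ring
  have hgen := win_gen LA LB hA hB i (fun X => Dp zX (flat hX X)) (fun Y => Dp zY (flat hY Y))
    (fun X => HT hX (flat hX X)) (fun Y => e0 + HT hY (flat hY Y)) w
    (fun X _ => ∃ P ∈ X, p (gP hX zX T i0 P) < 2 * θ)
    (fun ω => Win hX hY zX zY sX sY T i0 w e0 lo hi ω ∧ θ ≤ p (gP hX zX T i0 ω.1.2))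
    Fs (fun t => t.1) (fun t => t.2.1)
    (fun t x P Q => HT hX P.1 = t.2.2.1 ∧ Dp zX P.1 ∈ E t.2.2.1 ∧ HT hY Q.1 = t.2.2.2 ∧
      WinR hX hY zX zY sX sY lo hi t.1 t.2.1 x P.1 Q.1)
    (fun t x => ∑' L, ∑' L', (if HT hX L = t.2.2.1 ∧ Dp zX L ∈ E t.2.2.1 ∧ HT hY L' = t.2.2.2 ∧
      WinR hX hY zX zY sX sY lo hi t.1 t.2.1 x L L' then LW ΛX L * LW ΛY L' else 0))
    (i * (2 * θ)) (C * (lam + 2 * i * us s / lam + us s)) ?_ ?_ ?_ ?_
  · refine le_trans (le_of_eq ?_) (hgen.trans (add_le_add ?_ ?_))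
    · congr!
    · have e := Wt_prod LA LB i (fun X => if ∃ P ∈ X, p (gP hX zX T i0 P) < 2 * θ then 0 else 1)
        (fun _ => 1) (fun _ => 1) (fun _ => 1)
      simp only [mul_one] at e
      refine le_trans (le_of_eq ?_) (e.le.trans ?_)
      · congr!
      calc _ ≤ ((1 - u) ^ i * 1) * (1 * 1) := by
            refine mul_le_mul' (mul_le_mul' ?_ hA) (mul_le_mul' (SL_one_le LB hB i) hB)
            have e2 := AsmA789.nosmall LA (fun P => p (gP hX zX T i0 P) < 2 * θ) i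
            refine le_trans (le_of_eq ?_) (e2.le.trans (pow_le_pow_left' ?_ i))
            · congr!
            · refine le_trans (le_of_eq ?_) q2
              congr!
        _ = _ := by ring
    · refine mul_le_mul_left ?_ _
      exact_mod_cast hcard
  · intro ω hω1 hω2 hev _
    have a1 := HT_flat hX ω.1.1
    have a2 := HT_flat hY ω.2.1
    rw [hω1, mul_add] at a1
    rw [hω2, mul_add] at a2
    have a3 := le_HT_of_fp hX ω.1.2.2.1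
    have a4 := ω.1.2.2.2
    have a5 := le_HT_of_fp hY ω.2.2.2.1
    have a6 := ω.2.2.2.2
    have a7 : (i + 1) * i0 = i * i0 + i0 := by ring
    refine ⟨(HT hX (flat hX ω.1.1), e0 + HT hY (flat hY ω.2.1), HT hX ω.1.2.1, HT hY ω.2.2.1), ?_,
      rfl, rfl, rfl, hEmem _ hev.2, rfl, Win_iff hX hY zX zY sX sY T i0 w e0 lo hi ω hev.1⟩
    rw [hFs, Finset.mem_product, Finset.mem_product, Finset.mem_product, Finset.mem_Icc,
      Finset.mem_Icc, Finset.mem_Icc, Finset.mem_Icc]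
    refine ⟨⟨?_, ?_⟩, ⟨?_, ?_⟩, ⟨a3, a4⟩, ⟨a5, a6⟩⟩ <;> simp only <;> omega
  · intro t _ x
    refine le_trans (pc_le ΛX ΛY hX hY T i0 (fun L L' => HT hX L = t.2.2.1 ∧ Dp zX L ∈ E t.2.2.1 ∧
      HT hY L' = t.2.2.2 ∧ WinR hX hY zX zY sX sY lo hi t.1 t.2.1 x L L')) (le_of_eq ?_)
    congr!
  · intro t _ x
    rw [SL_comm]
    calc _ ≤ SL LB i (fun _ => (i * (2 * θ)) * 1) := by
          refine SL_mono _ i fun Y _ => ?_
          rw [mul_one]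
          refine le_trans (SL_mono _ i fun X _ => ?_) (dens_pc T i0 i ΛX hX zX h1X hΛX θ q4 t.1
            (w + Dp zY (flat hY Y) - x))
          by_cases hh : ((∃ P ∈ X, p (gP hX zX T i0 P) < 2 * θ) ∧ HT hX (flat hX X) = t.1 ∧
            e0 + HT hY (flat hY Y) = t.2.1) ∧ w + Dp zY (flat hY Y) - Dp zX (flat hX X) = x
          · rw [if_pos hh, if_pos ⟨hh.1.1, hh.1.2.1, by rw [← hh.2]; abel⟩]
          · rw [if_neg hh]; exact zero_le
      _ = (i * (2 * θ)) * SL LB i (fun _ => 1) := SL_const_mul LB i _ _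
      _ ≤ (i * (2 * θ)) * 1 := mul_le_mul_right (SL_one_le LB hB i) _
      _ = _ := mul_one _
  · intro t ht μ hμ1 hμ2
    rw [hFs, Finset.mem_product, Finset.mem_product, Finset.mem_product, Finset.mem_Icc,
      Finset.mem_Icc, Finset.mem_Icc, Finset.mem_Icc] at ht
    obtain ⟨⟨t1, t2⟩, ⟨t3, t4⟩, ⟨t5, t6⟩, ⟨t7, t8⟩⟩ := ht
    have a7 : (i + 1) * i0 = i * i0 + i0 := by ring
    have a8 : (i + 1) * T = i * T + T := by ring
    refine (hH2 s t.2.2.1 t.2.2.2 t.1 t.2.1 lo hi (E t.2.2.1) μ (i * (2 * θ)) lam hμ1 hμ2 hl hl'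
      (by omega) (by omega) (by omega) (by omega) (by omega) (by omega)).trans ?_
    refine mul_le_mul_right ?_ _
    refine add_le_add (add_le_add le_rfl ?_) le_rfl
    refine ENNReal.div_le_div_right ?_ _
    calc (i : ℝ≥0∞) * (2 * θ) * (E t.2.2.1).card * us s
        = 2 * i * (((E t.2.2.1).card : ℝ≥0∞) * θ) * us s := by ring
      _ ≤ 2 * i * 1 * us s := by gcongr; exact hEcard _
      _ = _ := by ring

open Classical in
/-- Y local -/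
lemma winY (h1X : ∀ b, 1 ≤ hX b) (h1Y : ∀ b, 1 ≤ hY b) (hΛX : ∑' b, ΛX b ≤ 1)
    (hΛY : ∑' b, ΛY b ≤ 1) (C : ℝ≥0∞) (us : ℕ → ℝ≥0∞)
    (hH3 : H3 ΛX ΛY hX hY zX zY sX sY C us) (s wd : ℕ) (lam θ u : ℝ≥0∞) (hl : lam ≠ 0)
    (hl' : lam ≠ ⊤) (hθ' : θ ≠ ⊤)
    (q2 : ∑' P, (if pl (ΛP ΛY hY T i0) (gP hY zY T i0) (gP hY zY T i0 P) < 2 * θ then 0
      else ΛP ΛY hY T i0 P) ≤ 1 - u)
    (q3 : {x | θ ≤ pl (ΛP ΛY hY T i0) (gP hY zY T i0) x}.Finite ∧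
      (({x | θ ≤ pl (ΛP ΛY hY T i0) (gP hY zY T i0) x}.ncard : ℕ) : ℝ≥0∞) * θ ≤ 1)
    (q4 : ∀ x, ∑' P, (if pl (ΛP ΛY hY T i0) (gP hY zY T i0) (gP hY zY T i0 P) < 2 * θ ∧
      gP hY zY T i0 P = x then ΛP ΛY hY T i0 P else 0) ≤ 2 * θ)
    (he0 : i * i0 ≤ e0) (he1 : e0 + (i + 1) * i0 ≤ wd) (he2 : (i + 1) * i0 ≤ e0)
    (hlo : i * T + wd + s ≤ lo) (hhi : hi + s ≤ (i + 1) * T) :
    Wt (ΛP ΛX hX T i0) (ΛP ΛY hY T i0) i (fun ω => if
        Win hX hY zX zY sX sY T i0 w e0 lo hi ω ∧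
          θ ≤ pl (ΛP ΛY hY T i0) (gP hY zY T i0) (gP hY zY T i0 ω.2.2) then 1 else 0)
      ≤ (1 - u) ^ i + (((i * i0 + 1) * (wd + 1) * (i0 + 1) * (i0 + 1) : ℕ) : ℝ≥0∞) *
          (C * (lam + 2 * i * us s / lam + us s)) := by
  set LA := ΛP ΛX hX T i0 with hLA
  set LB := ΛP ΛY hY T i0 with hLB
  have hA : ∑' P, LA P ≤ 1 := sum_Pc_le ΛX hX h1X hΛX T i0
  have hB : ∑' P, LB P ≤ 1 := sum_Pc_le ΛY hY h1Y hΛY T i0
  set p := pl LB (gP hY zY T i0) with hp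
  -- local sets
  set E : ℕ → Finset G := fun h => (q3.1.toFinset.filter (fun x => x.1 = h)).image Prod.snd with hE
  have hEcard : ∀ h, ((E h).card : ℝ≥0∞) * θ ≤ 1 := by
    intro h
    refine le_trans (mul_le_mul_left ?_ _) q3.2
    have : (E h).card ≤ {x | θ ≤ p x}.ncard := by
      rw [Set.ncard_eq_toFinset_card _ q3.1]
      exact Finset.card_image_le.trans (Finset.card_filter_le _ _)
    exact_mod_cast this
  have hEmem : ∀ P : Pc hY T i0, θ ≤ p (gP hY zY T i0 P) → Dp zY P.1 ∈ E (HT hY P.1) := by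
    intro P hP
    rw [hE, Finset.mem_image]
    exact ⟨gP hY zY T i0 P, Finset.mem_filter.2 ⟨q3.1.mem_toFinset.2 hP, rfl⟩, rfl⟩
  set Fs : Finset (ℕ × ℕ × ℕ × ℕ) := (Finset.Icc (i * T) (i * T + i * i0)) ×ˢ
    (Finset.Icc (i * T + e0) (i * T + wd)) ×ˢ (Finset.Icc T (T + i0)) ×ˢ (Finset.Icc T (T + i0))
    with hFs
  have hcard : Fs.card ≤ (i * i0 + 1) * (wd + 1) * (i0 + 1) * (i0 + 1) := by
    rw [hFs, Finset.card_product, Finset.card_product, Finset.card_product, Nat.card_Icc,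
      Nat.card_Icc, Nat.card_Icc]
    have e1 : i * T + i * i0 + 1 - i * T = i * i0 + 1 := by omega
    have e2 : i * T + wd + 1 - (i * T + e0) ≤ wd + 1 := by omega
    have e3 : T + i0 + 1 - T = i0 + 1 := by omega
    rw [e1, e3]
    calc _ ≤ (i * i0 + 1) * ((wd + 1) * ((i0 + 1) * (i0 + 1))) :=
          Nat.mul_le_mul le_rfl (Nat.mul_le_mul e2 le_rfl)
      _ = _ := by ring
  have hgen := win_gen LA LB hA hB i (fun X => Dp zX (flat hX X)) (fun Y => Dp zY (flat hY Y))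
    (fun X => HT hX (flat hX X)) (fun Y => e0 + HT hY (flat hY Y)) w
    (fun _ Y => ∃ P ∈ Y, p (gP hY zY T i0 P) < 2 * θ)
    (fun ω => Win hX hY zX zY sX sY T i0 w e0 lo hi ω ∧ θ ≤ p (gP hY zY T i0 ω.2.2))
    Fs (fun t => t.1) (fun t => t.2.1)
    (fun t x P Q => HT hX P.1 = t.2.2.1 ∧ HT hY Q.1 = t.2.2.2 ∧ Dp zY Q.1 ∈ E t.2.2.2 ∧
      WinR hX hY zX zY sX sY lo hi t.1 t.2.1 x P.1 Q.1)
    (fun t x => ∑' L, ∑' L', (if HT hX L = t.2.2.1 ∧ HT hY L' = t.2.2.2 ∧ Dp zY L' ∈ E t.2.2.2 ∧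
      WinR hX hY zX zY sX sY lo hi t.1 t.2.1 x L L' then LW ΛX L * LW ΛY L' else 0))
    (i * (2 * θ)) (C * (lam + 2 * i * us s / lam + us s)) ?_ ?_ ?_ ?_
  · refine le_trans (le_of_eq ?_) (hgen.trans (add_le_add ?_ ?_))
    · congr!
    · have e := Wt_prod LA LB i (fun _ => 1) (fun _ => 1)
        (fun Y => if ∃ P ∈ Y, p (gP hY zY T i0 P) < 2 * θ then 0 else 1) (fun _ => 1)
      simp only [mul_one, one_mul] at e
      refine le_trans (le_of_eq ?_) (e.le.trans ?_)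
      · congr!
      calc _ ≤ (1 * 1) * ((1 - u) ^ i * 1) := by
            refine mul_le_mul' (mul_le_mul' (SL_one_le LA hA i) hA) (mul_le_mul' ?_ hB)
            have e2 := AsmA789.nosmall LB (fun P => p (gP hY zY T i0 P) < 2 * θ) i
            refine le_trans (le_of_eq ?_) (e2.le.trans (pow_le_pow_left' ?_ i))
            · congr!
            · refine le_trans (le_of_eq ?_) q2
              congr!
        _ = _ := by ring
    · refine mul_le_mul_left ?_ _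
      exact_mod_cast hcard
  · intro ω hω1 hω2 hev _
    have a1 := HT_flat hX ω.1.1
    have a2 := HT_flat hY ω.2.1
    rw [hω1, mul_add] at a1
    rw [hω2, mul_add] at a2
    have a3 := le_HT_of_fp hX ω.1.2.2.1
    have a4 := ω.1.2.2.2
    have a5 := le_HT_of_fp hY ω.2.2.2.1
    have a6 := ω.2.2.2.2
    have a7 : (i + 1) * i0 = i * i0 + i0 := by ring
    refine ⟨(HT hX (flat hX ω.1.1), e0 + HT hY (flat hY ω.2.1), HT hX ω.1.2.1, HT hY ω.2.2.1), ?_,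
      rfl, rfl, rfl, rfl, hEmem _ hev.2, Win_iff hX hY zX zY sX sY T i0 w e0 lo hi ω hev.1⟩
    rw [hFs, Finset.mem_product, Finset.mem_product, Finset.mem_product, Finset.mem_Icc,
      Finset.mem_Icc, Finset.mem_Icc, Finset.mem_Icc]
    refine ⟨⟨?_, ?_⟩, ⟨?_, ?_⟩, ⟨a3, a4⟩, ⟨a5, a6⟩⟩ <;> simp only <;> omega
  · intro t _ x
    refine le_trans (pc_le ΛX ΛY hX hY T i0 (fun L L' => HT hX L = t.2.2.1 ∧ HT hY L' = t.2.2.2 ∧
      Dp zY L' ∈ E t.2.2.2 ∧ WinR hX hY zX zY sX sY lo hi t.1 t.2.1 x L L')) (le_of_eq ?_)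
    congr!
  · intro t _ x
    calc _ ≤ SL LA i (fun _ => (i * (2 * θ)) * 1) := by
          refine SL_mono _ i fun X _ => ?_
          rw [mul_one]
          refine le_trans (SL_mono _ i fun Y _ => ?_) (dens_pc T i0 i ΛY hY zY h1Y hΛY θ q4
            (t.2.1 - e0) (x - w + Dp zX (flat hX X)))
          by_cases hh : ((∃ P ∈ Y, p (gP hY zY T i0 P) < 2 * θ) ∧ HT hX (flat hX X) = t.1 ∧
            e0 + HT hY (flat hY Y) = t.2.1) ∧ w + Dp zY (flat hY Y) - Dp zX (flat hX X) = x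
          · have hh2 := hh.1.2.2
            rw [if_pos hh, if_pos ⟨hh.1.1, by omega, by rw [← hh.2]; abel⟩]
          · rw [if_neg hh]; exact zero_le
      _ = (i * (2 * θ)) * SL LA i (fun _ => 1) := SL_const_mul LA i _ _
      _ ≤ (i * (2 * θ)) * 1 := mul_le_mul_right (SL_one_le LA hA i) _
      _ = _ := mul_one _
  · intro t ht μ hμ1 hμ2
    rw [hFs, Finset.mem_product, Finset.mem_product, Finset.mem_product, Finset.mem_Icc,
      Finset.mem_Icc, Finset.mem_Icc, Finset.mem_Icc] at ht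
    obtain ⟨⟨t1, t2⟩, ⟨t3, t4⟩, ⟨t5, t6⟩, ⟨t7, t8⟩⟩ := ht
    have a7 : (i + 1) * i0 = i * i0 + i0 := by ring
    have a8 : (i + 1) * T = i * T + T := by ring
    refine (hH3 s t.2.2.1 t.2.2.2 t.1 t.2.1 lo hi (E t.2.2.2) μ (i * (2 * θ)) lam hμ1 hμ2 hl hl'
      (by omega) (by omega) (by omega) (by omega) (by omega) (by omega)).trans ?_
    refine mul_le_mul_right ?_ _
    refine add_le_add (add_le_add le_rfl ?_) le_rfl
    refine ENNReal.div_le_div_right ?_ _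
    calc (i : ℝ≥0∞) * (2 * θ) * (E t.2.2.2).card * us s
        = 2 * i * (((E t.2.2.2).card : ℝ≥0∞) * θ) * us s := by ring
      _ ≤ 2 * i * 1 * us s := by gcongr; exact hEcard _
      _ = _ := by ring

end Win

end Crest.Agent.R154.Asm469
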