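import Crest.Agent.R154.Asm2_532

/-! Row 154 (helper532), ROAD 801: abstract assembly, part 3: two walkers, one window. -/

set_option autoImplicit false

namespace Crest.Agent.R154.Asm532

open scoped ENNReal
open Crest.Agent.R154.B5A
open Crest.Agent.R154.FP178 (fp)
open Classical
open Finset (range)

section onew

variable {B G : Type*} [AddCommGroup G] (Λ : B → ℝ≥0∞) (ht : B → ℕ) (zz : B → G)

/-- first passage weight with bounded overshoot -/
noncomputable def wF (i0 A : ℕ) (L : List B) : ℝ≥0∞ :=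
  if fp ht A L ∧ HT ht L ≤ A + i0 then LW Λ L else 0

lemma wF_mass (h1 : ∀ b, 1 ≤ ht b) (hΛ : ∑' b, Λ b = 1) (i0 A : ℕ) :
    ∑' L, wF Λ ht i0 A L ≤ 1 := by
  rw [← sum_FP_eq Λ ht h1 hΛ A]
  refine ENNReal.tsum_le_tsum fun L => ?_
  rw [wF]
  by_cases h : fp ht A L ∧ HT ht L ≤ A + i0
  · rw [if_pos h, if_pos h.1]
  · rw [if_neg h]; exact zero_le

theorem one' (h1 : ∀ b, 1 ≤ ht b) (hΛ : ∑' b, Λ b = 1) (hU1 : ∀ n, U Λ ht n ≤ 1) (A T i0 n : ℕ)
    (hn : A + i0 + T ≤ n) (g : List B → ℝ≥0∞) (hg : ∀ L, g L ≤ 1) (φ : List B → List B → ℝ≥0∞)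
    (hgφ : ∀ L1 L2 L3, fp ht A L1 → HT ht L1 ≤ A + i0 → fp ht T L2 → HT ht L2 ≤ T + i0 →
      HT ht (L1 ++ (L2 ++ L3)) = n → g (L1 ++ (L2 ++ L3)) ≤ φ L1 L2) :
    ∑' L, (if HT ht L = n then LW Λ L * g L else 0)
      ≤ 2 * ov Λ ht i0 + ∑' L1, wF Λ ht i0 A L1 * ∑' L2, wF Λ ht i0 T L2 * φ L1 L2 := by
  refine (one Λ ht h1 hU1 A T i0 n hn g hg φ hgφ).trans ?_
  have e : ∀ L1 : List B, (if fp ht A L1 ∧ HT ht L1 ≤ A + i0 then LW Λ L1 *
          (ov Λ ht i0 + ∑' L2, (if fp ht T L2 ∧ HT ht L2 ≤ T + i0 then LW Λ L2 * φ L1 L2 else 0))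
          else 0) = wF Λ ht i0 A L1 * ov Λ ht i0
            + wF Λ ht i0 A L1 * ∑' L2, wF Λ ht i0 T L2 * φ L1 L2 := by
    intro L1
    have e2 : ∑' L2, (if fp ht T L2 ∧ HT ht L2 ≤ T + i0 then LW Λ L2 * φ L1 L2 else 0)
        = ∑' L2, wF Λ ht i0 T L2 * φ L1 L2 := by
      refine tsum_congr fun L2 => ?_
      rw [wF]
      by_cases h : fp ht T L2 ∧ HT ht L2 ≤ T + i0
      · rw [if_pos h, if_pos h]
      · rw [if_neg h, if_neg h, zero_mul]
    rw [e2, ← mul_add, wF]
    by_cases h : fp ht A L1 ∧ HT ht L1 ≤ A + i0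
    · rw [if_pos h, if_pos h]
    · rw [if_neg h, if_neg h, zero_mul]
  rw [tsum_congr e, ENNReal.tsum_add, ENNReal.tsum_mul_right, two_mul, add_assoc]
  gcongr
  calc _ ≤ 1 * ov Λ ht i0 := mul_le_mul_left (wF_mass Λ ht h1 hΛ i0 A) _
    _ = _ := one_mul _

/-- law restricted to small overshoot -/
noncomputable def F1 (i0 A : ℕ) (c : ℕ × G) : ℝ≥0∞ :=
  if c.1 ≤ A + i0 then FL Λ ht zz A c else 0

lemma wF_sum (i0 A : ℕ) (φ : ℕ × G → ℝ≥0∞) :
    ∑' L : List B, wF Λ ht i0 A L * φ (kp ht zz L) = ∑' c, F1 Λ ht zz i0 A c * φ c := by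
  have h := FL_sum Λ ht zz A (fun c => (if c.1 ≤ A + i0 then 1 else 0) * φ c)
  have e1 : ∀ L : List B, wF Λ ht i0 A L * φ (kp ht zz L)
      = (if fp ht A L then LW Λ L * ((if (kp ht zz L).1 ≤ A + i0 then 1 else 0)
        * φ (kp ht zz L)) else 0) := by
    intro L
    have : (kp ht zz L).1 = HT ht L := rfl
    rw [wF, this]
    by_cases h1 : fp ht A L <;> by_cases h2 : HT ht L ≤ A + i0 <;> simp [h1, h2]
  rw [tsum_congr e1, h]
  refine tsum_congr fun c => ?_
  rw [F1]
  by_cases h2 : c.1 ≤ A + i0 <;> simp [h2]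

lemma F1_le (i0 A : ℕ) (c : ℕ × G) : F1 Λ ht zz i0 A c ≤ FL Λ ht zz A c := by
  rw [F1]; split_ifs
  · exact le_rfl
  · exact zero_le

end onew

section localpart

variable {G : Type*} [AddCommGroup G]

/-- **local part**: the first law is smooth up to a bad part of mass `β`. -/
theorem localpart (F F' : ℕ × G → ℝ≥0∞) (A A' i0 : ℕ) (g b : ℕ × G → ℝ≥0∞) (M β D : ℝ≥0∞)
    (hF : ∀ c, F c ≤ g c + b c) (hgM : ∀ c, g c ≤ M) (hβ : ∑' c, b c ≤ β)
    (hF1 : ∑' c, F c ≤ 1) (hF'1 : ∑' c, F' c ≤ 1)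
    (hsupp : ∀ c, c.1 ∉ Finset.Icc A (A + i0) → F c = 0)
    (hsupp' : ∀ c, c.1 ∉ Finset.Icc A' (A' + i0) → F' c = 0)
    (Ψ : ℕ → ℕ → G → ℝ≥0∞) (hΨ : ∀ a a' x, Ψ a a' x ≤ 1) (e : G → G ≃ G)
    (hD : ∀ a ∈ Finset.Icc A (A + i0), ∀ a' ∈ Finset.Icc A' (A' + i0), ∀ μ : G → ℝ≥0∞,
      ∑' x, μ x ≤ 1 → (∀ x, μ x ≤ M) → ∑' x, μ x * Ψ a a' x ≤ D) :
    ∑' c, F c * ∑' c', F' c' * Ψ c.1 c'.1 (e c'.2 c.2) ≤ β + (i0 + 1) * ((i0 + 1) * D) := by
  set G1 : ℕ × G → ℝ≥0∞ := fun c => min (g c) (F c) with hG1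
  have hle : ∀ c, F c ≤ G1 c + b c := by
    intro c
    rw [hG1]
    beta_reduce
    rw [min_add]
    exact le_min (hF c) le_self_add
  have hG1M : ∀ c, G1 c ≤ M := fun c => (min_le_left _ _).trans (hgM c)
  have hG1F : ∀ c, G1 c ≤ F c := fun c => min_le_right _ _
  have hin : ∀ c : ℕ × G, ∑' c', F' c' * Ψ c.1 c'.1 (e c'.2 c.2) ≤ 1 := by
    intro c
    refine le_trans (ENNReal.tsum_le_tsum fun c' => ?_) hF'1
    exact mul_le_of_le_one_right' (hΨ _ _ _)
  calc ∑' c, F c * ∑' c', F' c' * Ψ c.1 c'.1 (e c'.2 c.2)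
      ≤ ∑' c, (b c * 1 + G1 c * ∑' c', F' c' * Ψ c.1 c'.1 (e c'.2 c.2)) := by
        refine ENNReal.tsum_le_tsum fun c => ?_
        refine (mul_le_mul_left (hle c) _).trans ?_
        rw [add_mul, add_comm]
        exact add_le_add (mul_le_mul_right (hin c) _) le_rfl
    _ = ∑' c, b c + ∑' c, G1 c * ∑' c', F' c' * Ψ c.1 c'.1 (e c'.2 c.2) := by
        rw [ENNReal.tsum_add]; simp
    _ ≤ β + (i0 + 1) * ((i0 + 1) * D) := by
        refine add_le_add hβ ?_
        -- sum over heights
        have e1 : ∑' c, G1 c * ∑' c', F' c' * Ψ c.1 c'.1 (e c'.2 c.2)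
            = ∑' H, ∑' H', ∑' z, ∑' z', G1 (H, z) * (F' (H', z') * Ψ H H' (e z' z)) := by
          rw [ENNReal.tsum_prod']
          refine tsum_congr fun H => ?_
          rw [ENNReal.tsum_comm]
          refine tsum_congr fun z => ?_
          rw [ENNReal.tsum_prod', ← ENNReal.tsum_mul_left]
          refine tsum_congr fun H' => ?_
          rw [← ENNReal.tsum_mul_left]
        rw [e1]
        have e2 : ∀ H H' : ℕ, ∑' z, ∑' z', G1 (H, z) * (F' (H', z') * Ψ H H' (e z' z))
            ≤ if H ∈ Finset.Icc A (A + i0) ∧ H' ∈ Finset.Icc A' (A' + i0) then D else 0 := by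
          intro H H'
          by_cases hH : H ∈ Finset.Icc A (A + i0)
          · by_cases hH' : H' ∈ Finset.Icc A' (A' + i0)
            · rw [if_pos ⟨hH, hH'⟩]
              set μ : G → ℝ≥0∞ := fun x => ∑' z', F' (H', z') * G1 (H, (e z').symm x) with hμ
              have hF'z : ∑' z', F' (H', z') ≤ 1 := by
                refine le_trans ?_ hF'1
                refine ENNReal.tsum_comp_le_tsum_of_injective (f := fun z : G => (H', z)) ?_ F'
                intro x y hxy
                exact (Prod.mk.inj hxy).2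
              have hFz : ∑' z, G1 (H, z) ≤ 1 := by
                refine le_trans (ENNReal.tsum_le_tsum fun z => hG1F _) (le_trans ?_ hF1)
                refine ENNReal.tsum_comp_le_tsum_of_injective (f := fun z : G => (H, z)) ?_ F
                intro x y hxy
                exact (Prod.mk.inj hxy).2
              have hμ1 : ∑' x, μ x ≤ 1 := by
                rw [hμ, ENNReal.tsum_comm]
                calc _ = ∑' z', F' (H', z') * ∑' z, G1 (H, z) := by
                      refine tsum_congr fun z' => ?_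
                      rw [ENNReal.tsum_mul_left]
                      congr 1
                      exact (e z').symm.tsum_eq (fun z => G1 (H, z))
                  _ ≤ ∑' z', F' (H', z') * 1 :=
                      ENNReal.tsum_le_tsum fun z' => mul_le_mul_right hFz _
                  _ ≤ 1 := by simpa using hF'z
              have hμM : ∀ x, μ x ≤ M := by
                intro x
                calc μ x ≤ ∑' z', F' (H', z') * M :=
                      ENNReal.tsum_le_tsum fun z' => mul_le_mul_right (hG1M _) _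
                  _ = (∑' z', F' (H', z')) * M := ENNReal.tsum_mul_right
                  _ ≤ 1 * M := mul_le_mul_left hF'z _
                  _ = M := one_mul _
              refine le_trans (le_of_eq ?_) (hD H hH H' hH' μ hμ1 hμM)
              rw [ENNReal.tsum_comm]
              calc _ = ∑' z', ∑' x, F' (H', z') * G1 (H, (e z').symm x) * Ψ H H' x := by
                    refine tsum_congr fun z' => ?_
                    rw [← (e z').symm.tsum_eq]
                    refine tsum_congr fun x => ?_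
                    rw [Equiv.apply_symm_apply]
                    ring
                _ = _ := by
                    rw [ENNReal.tsum_comm]
                    refine tsum_congr fun x => ?_
                    rw [hμ, ENNReal.tsum_mul_right]
            · rw [if_neg (fun h => hH' h.2)]
              refine le_of_eq (ENNReal.tsum_eq_zero.2 fun z => ENNReal.tsum_eq_zero.2 fun z' => ?_)
              rw [hsupp' (H', z') hH', zero_mul, mul_zero]
          · rw [if_neg (fun h => hH h.1)]
            refine le_of_eq (ENNReal.tsum_eq_zero.2 fun z => ENNReal.tsum_eq_zero.2 fun z' => ?_)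
            have : G1 (H, z) = 0 := le_antisymm ((hG1F _).trans (hsupp (H, z) hH).le) zero_le
            rw [this, zero_mul]
        have hcard : ∀ (A : ℕ) (X : ℝ≥0∞), ∑' H : ℕ, (if H ∈ Finset.Icc A (A + i0) then X else 0)
            = (i0 + 1) * X := by
          intro A X
          rw [tsum_eq_sum (s := Finset.Icc A (A + i0)) (fun H hH => if_neg hH),
            Finset.sum_congr rfl (fun H hH => if_pos hH), Finset.sum_const, Nat.card_Icc,
            nsmul_eq_mul]
          congr 1
          have : A + i0 + 1 - A = i0 + 1 := by omega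
          rw [this]; push_cast; ring
        calc _ ≤ ∑' H, ∑' H', (if H ∈ Finset.Icc A (A + i0) ∧ H' ∈ Finset.Icc A' (A' + i0)
                then D else 0) :=
              ENNReal.tsum_le_tsum fun H => ENNReal.tsum_le_tsum fun H' => e2 H H'
          _ = ∑' H, (if H ∈ Finset.Icc A (A + i0) then (i0 + 1) * D else 0) := by
              refine tsum_congr fun H => ?_
              by_cases hH : H ∈ Finset.Icc A (A + i0)
              · simp only [hH, true_and, if_true]
                exact hcard A' D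
              · simp [hH]
          _ = _ := hcard A _

end localpart

end Crest.Agent.R154.Asm532
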