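import Crest.Agent.R154.Asm2_564
import Crest.Agent.R154.AsmD_540

/-! Row 154, ROAD 801 (helper564): splitting of one walker in pieces, the local part. -/

set_option autoImplicit false
set_option linter.unusedSectionVars false

namespace Crest.Agent.R154.Asm564

open scoped ENNReal
open Crest.Agent.R154.B5A (LW HT U tail LW_nil LW_cons LW_append HT_nil HT_cons HT_append tsum_list)

open Classical

section one

variable {B G : Type*} [AddCommGroup G]
variable (Λ : B → ℝ≥0∞) (h : B → ℕ) (z : B → G)

/-- weight of the good first passage pieces -/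
noncomputable def wt (T i0 : ℕ) (A : List B) : ℝ≥0∞ :=
  if SP h T A ∧ HT h A ≤ T + i0 then LW Λ A else 0

lemma wt_sum (h1 : ∀ b, 1 ≤ h b) (hΛ : ∑' b, Λ b = 1) (T i0 : ℕ) : ∑' A, wt Λ h T i0 A ≤ 1 := by
  rw [← tsum_SP Λ h h1 hΛ T]
  refine ENNReal.tsum_le_tsum fun A => ?_
  unfold wt
  by_cases hA : SP h T A
  · rw [if_pos hA]; split_ifs <;> simp
  · rw [if_neg (fun hc => hA hc.1)]; exact zero_le

lemma split1 (h1 : ∀ b, 1 ≤ h b) (hU : ∀ n, U Λ h n ≤ 1) (T i0 n : ℕ) (hn : T + i0 ≤ n)
    (F F' : List B → ℝ≥0∞) (hF : ∀ L, F L ≤ 1)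
    (H : ∀ A, SP h T A → HT h A ≤ T + i0 →
      ∑' R, (if HT h R = n - HT h A then LW Λ R * F (A ++ R) else 0) ≤ F' A) :
    ∑' L, (if HT h L = n then LW Λ L * F L else 0)
      ≤ ov Λ h i0 + ∑' A, wt Λ h T i0 A * F' A := by
  rw [tsum_split h h1 T _ (fun L hL => by rw [if_neg (by omega)])]
  refine le_trans (ENNReal.tsum_le_tsum (g := fun A => (if SP h T A ∧ T + i0 < HT h A then
    LW Λ A else 0) + wt Λ h T i0 A * F' A) fun A => ?_) ?_
  · by_cases hA : SP h T A
    · by_cases hA2 : HT h A ≤ T + i0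
      · refine le_trans ?_ le_add_self
        rw [wt, if_pos ⟨hA, hA2⟩]
        refine le_trans (le_of_eq ?_) (mul_le_mul_right (H A hA hA2) _)
        rw [← ENNReal.tsum_mul_left]
        refine tsum_congr fun R => ?_
        rw [if_pos hA]
        by_cases hR : HT h (A ++ R) = n
        · rw [if_pos hR, if_pos (by rw [HT_append] at hR; omega), LW_append, mul_assoc]
        · rw [if_neg hR, if_neg (by rw [HT_append] at hR; omega), mul_zero]
      · refine le_trans ?_ le_self_add
        rw [if_pos ⟨hA, by omega⟩]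
        calc ∑' R, (if SP h T A then (if HT h (A ++ R) = n then LW Λ (A ++ R) * F (A ++ R)
                else 0) else 0)
            ≤ ∑' R, LW Λ A * (if HT h R = n - HT h A then LW Λ R else 0) := by
              refine ENNReal.tsum_le_tsum fun R => ?_
              rw [if_pos hA]
              by_cases hR : HT h (A ++ R) = n
              · rw [if_pos hR, if_pos (by rw [HT_append] at hR; omega), LW_append]
                exact (mul_le_mul_right (hF _) _).trans (mul_one _).le
              · rw [if_neg hR]; exact zero_le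
          _ = LW Λ A * U Λ h (n - HT h A) := by rw [ENNReal.tsum_mul_left, U]
          _ ≤ LW Λ A * 1 := mul_le_mul_right (hU _) _
          _ = LW Λ A := mul_one _
    · simp [hA]
  · rw [ENNReal.tsum_add]
    exact add_le_add (tsum_over Λ h h1 hU T i0) le_rfl

lemma split2 (h1 : ∀ b, 1 ≤ h b) (hΛ : ∑' b, Λ b = 1) (hU : ∀ n, U Λ h n ≤ 1) (T S i0 n : ℕ)
    (hn : T + i0 + (S + i0) ≤ n) (F : List B → ℝ≥0∞) (F' : List B → List B → ℝ≥0∞)
    (hF : ∀ L, F L ≤ 1)
    (H : ∀ A P R, SP h T A → HT h A ≤ T + i0 → SP h S P → HT h P ≤ S + i0 →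
      HT h (A ++ (P ++ R)) = n → F (A ++ (P ++ R)) ≤ F' A P) :
    ∑' L, (if HT h L = n then LW Λ L * F L else 0)
      ≤ 2 * ov Λ h i0 + ∑' A, wt Λ h T i0 A * ∑' P, wt Λ h S i0 P * F' A P := by
  refine (split1 Λ h h1 hU T i0 n (by omega) F
    (fun A => ov Λ h i0 + ∑' P, wt Λ h S i0 P * F' A P) hF ?_).trans ?_
  · intro A hA hA2
    refine split1 Λ h h1 hU S i0 (n - HT h A) (by omega) (fun R => F (A ++ R))
      (fun P => F' A P) (fun L => hF _) ?_
    intro P hP hP2
    calc ∑' R, (if HT h R = n - HT h A - HT h P then LW Λ R * F (A ++ (P ++ R)) else 0)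
        ≤ ∑' R, (if HT h R = n - HT h A - HT h P then LW Λ R else 0) * F' A P := by
          refine ENNReal.tsum_le_tsum fun R => ?_
          by_cases hR : HT h R = n - HT h A - HT h P
          · rw [if_pos hR, if_pos hR]
            exact mul_le_mul_right (H A P R hA hA2 hP hP2 (by
              rw [HT_append, HT_append]; omega)) _
          · rw [if_neg hR]; exact zero_le
      _ = U Λ h (n - HT h A - HT h P) * F' A P := by rw [ENNReal.tsum_mul_right, U]
      _ ≤ 1 * F' A P := mul_le_mul_left (hU _) _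
      _ = F' A P := one_mul _
  · simp only [mul_add, ENNReal.tsum_add]
    rw [two_mul, add_assoc]
    refine add_le_add le_rfl (add_le_add ?_ le_rfl)
    rw [ENNReal.tsum_mul_right]
    exact (mul_le_mul_left (wt_sum Λ h h1 hΛ T i0) _).trans (one_mul _).le

lemma loc (T i0 : ℕ) (Γ : ℝ≥0∞) (hs1 : ∀ o, ∑' x, la Λ h z T o x ≤ 1)
    (D : ℕ → G → ℝ≥0∞) (hD : ∀ o x, D o x ≤ 1) (bd : ℝ≥0∞)
    (hbd : ∀ o, o ≤ i0 → ∀ μ : G → ℝ≥0∞, ∑' x, μ x ≤ 1 → (∀ x, μ x ≤ Γ) →
      ∑' x, μ x * D o x ≤ bd) :
    ∑' A, wt Λ h T i0 A * D (HT h A - T) (Dp z A) ≤ exc Λ h z T Γ + (i0 + 1) * bd := by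
  have e1 : ∑' A, wt Λ h T i0 A * D (HT h A - T) (Dp z A)
      = ∑' A, (if SP h T A then LW Λ A *
        (fun o x => if o ≤ i0 then D o x else 0) (HT h A - T) (Dp z A) else 0) := by
    refine tsum_congr fun A => ?_
    unfold wt
    by_cases hA : SP h T A
    · have := SP_le h A T hA
      by_cases hA2 : HT h A ≤ T + i0
      · rw [if_pos ⟨hA, hA2⟩, if_pos hA]
        simp only
        rw [if_pos (by omega)]
      · rw [if_neg (fun hc => hA2 hc.2), if_pos hA]
        simp only
        rw [if_neg (by omega), zero_mul, mul_zero]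
    · rw [if_neg (fun hc => hA hc.1), if_neg hA, zero_mul]
  rw [e1, group Λ h z T (fun o x => if o ≤ i0 then D o x else 0)]
  calc ∑' o, ∑' x, la Λ h z T o x * (if o ≤ i0 then D o x else 0)
      ≤ ∑' o, ∑' x, ((la Λ h z T o x - Γ)
          + min (la Λ h z T o x) Γ * (if o ≤ i0 then D o x else 0)) := by
        refine ENNReal.tsum_le_tsum fun o => ENNReal.tsum_le_tsum fun x => ?_
        have hd : (if o ≤ i0 then D o x else 0) ≤ (1 : ℝ≥0∞) := by
          split_ifs
          · exact hD o x
          · exact zero_le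
        calc la Λ h z T o x * (if o ≤ i0 then D o x else 0)
            = (la Λ h z T o x - Γ + min (la Λ h z T o x) Γ) * (if o ≤ i0 then D o x else 0) := by
              rw [tsub_add_min]
          _ = (la Λ h z T o x - Γ) * (if o ≤ i0 then D o x else 0)
              + min (la Λ h z T o x) Γ * (if o ≤ i0 then D o x else 0) := add_mul _ _ _
          _ ≤ (la Λ h z T o x - Γ) * 1
              + min (la Λ h z T o x) Γ * (if o ≤ i0 then D o x else 0) :=
              add_le_add (mul_le_mul_right hd _) le_rfl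
          _ = _ := by rw [mul_one]
    _ = exc Λ h z T Γ + ∑' o, ∑' x, min (la Λ h z T o x) Γ * (if o ≤ i0 then D o x else 0) := by
        simp only [ENNReal.tsum_add, exc]
    _ ≤ exc Λ h z T Γ + (i0 + 1) * bd := by
        refine add_le_add le_rfl ?_
        rw [tsum_eq_sum (s := Finset.range (i0 + 1))]
        · calc ∑ o ∈ Finset.range (i0 + 1), ∑' x, min (la Λ h z T o x) Γ
                * (if o ≤ i0 then D o x else 0)
              ≤ ∑ o ∈ Finset.range (i0 + 1), bd := by
                refine Finset.sum_le_sum fun o ho => ?_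
                have ho' : o ≤ i0 := by have := Finset.mem_range.1 ho; omega
                simp only [if_pos ho']
                refine hbd o ho' (fun x => min (la Λ h z T o x) Γ) ?_ (fun x => min_le_right _ _)
                exact (ENNReal.tsum_le_tsum fun x => min_le_left _ _).trans (hs1 o)
            _ = (i0 + 1) * bd := by
                rw [Finset.sum_const, Finset.card_range, nsmul_eq_mul]; push_cast; rfl
        · intro o ho
          have : ¬ o ≤ i0 := fun hc => ho (Finset.mem_range.2 (by omega))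
          simp [this]

/-- non local mass -/
lemma nl_le (S i0 : ℕ) (th u : ℝ≥0∞)
    (hNL : ∑' i, ∑' x, (if la Λ h z S i x < th then la Λ h z S i x else 0) ≤ u) :
    ∑' P, wt Λ h S i0 P * (if la Λ h z S (HT h P - S) (Dp z P) < th then 1 else 0) ≤ u := by
  refine le_trans ?_ hNL
  have := group Λ h z S (fun i x => if la Λ h z S i x < th then 1 else 0)
  simp only [mul_ite, mul_one, mul_zero] at this
  rw [← this]
  refine ENNReal.tsum_le_tsum fun P => ?_
  unfold wt
  by_cases hP : SP h S P
  · rw [if_pos hP]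
    by_cases hc : la Λ h z S (HT h P - S) (Dp z P) < th
    · rw [if_pos hc, if_pos hc, mul_one]; split_ifs <;> simp
    · rw [if_neg hc, mul_zero]; exact zero_le
  · rw [if_neg (fun hc => hP hc.1), zero_mul]; exact zero_le

end one

end Crest.Agent.R154.Asm564
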