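import Crest.Agent.R154.Asm2_566

/-! Row 154, ROAD 801 (helper566): assembly, part 3 (one window; `S4` after 540's AsmC). -/

set_option autoImplicit false

namespace Crest.Agent.R154.Asm566

open scoped ENNReal Classical
open Finset
open Crest.Agent.R154.B5A
open Crest.Agent.R154.FP178

/-- indicator -/
noncomputable def ind (p : Prop) : ℝ≥0∞ := if p then 1 else 0

lemma ind_pos {p : Prop} (h : p) : ind p = 1 := if_pos h

lemma ind_neg {p : Prop} (h : ¬ p) : ind p = 0 := if_neg h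

lemma ind_le (p : Prop) : ind p ≤ 1 := by unfold ind; split_ifs <;> simp

lemma ind_mul (p : Prop) [Decidable p] (c : ℝ≥0∞) : ind p * c = if p then c else 0 := by
  by_cases h : p
  · rw [ind_pos h, if_pos h, one_mul]
  · rw [ind_neg h, if_neg h, zero_mul]

section four
variable {α1 α2 α3 α4 : Type*}

/-- four-fold weighted sum (540) -/
noncomputable def S4 (a : α1 → ℝ≥0∞) (b : α2 → ℝ≥0∞) (c : α3 → ℝ≥0∞) (e : α4 → ℝ≥0∞)
    (f : α1 → α2 → α3 → α4 → ℝ≥0∞) : ℝ≥0∞ :=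
  ∑' A, a A * ∑' P, b P * ∑' A', c A' * ∑' P', e P' * f A P A' P'

variable (a : α1 → ℝ≥0∞) (b : α2 → ℝ≥0∞) (c : α3 → ℝ≥0∞) (e : α4 → ℝ≥0∞)

lemma S4_add (f g : α1 → α2 → α3 → α4 → ℝ≥0∞) :
    S4 a b c e (fun A P A' P' => f A P A' P' + g A P A' P') = S4 a b c e f + S4 a b c e g := by
  simp only [S4, mul_add, ENNReal.tsum_add]

lemma S4_mono {f g : α1 → α2 → α3 → α4 → ℝ≥0∞}
    (h : ∀ A P A' P', a A ≠ 0 → b P ≠ 0 → c A' ≠ 0 → e P' ≠ 0 → f A P A' P' ≤ g A P A' P') :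
    S4 a b c e f ≤ S4 a b c e g := by
  refine ENNReal.tsum_le_tsum fun A => ?_
  by_cases h1 : a A = 0
  · simp [h1]
  refine mul_le_mul_right (ENNReal.tsum_le_tsum fun P => ?_) _
  by_cases h2 : b P = 0
  · simp [h2]
  refine mul_le_mul_right (ENNReal.tsum_le_tsum fun A' => ?_) _
  by_cases h3 : c A' = 0
  · simp [h3]
  refine mul_le_mul_right (ENNReal.tsum_le_tsum fun P' => ?_) _
  by_cases h4 : e P' = 0
  · simp [h4]
  exact mul_le_mul_right (h A P A' P' h1 h2 h3 h4) _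

lemma swap2 {α β : Type*} (b : α → ℝ≥0∞) (c : β → ℝ≥0∞) (g : α → β → ℝ≥0∞) :
    ∑' P, b P * ∑' A', c A' * g P A' = ∑' A', c A' * ∑' P, b P * g P A' := by
  simp_rw [← ENNReal.tsum_mul_left]
  rw [ENNReal.tsum_comm]
  exact tsum_congr fun A' => tsum_congr fun P => by ring

/-- the indicator that depends on `P` and `P'` only -/
lemma S4_bd (u1 u2 : ℝ≥0∞) (ha : ∑' A, a A ≤ 1) (hc : ∑' A, c A ≤ 1) (p : α2 → Prop) (q : α4 → Prop)
    (h1 : ∑' P, b P * ind (p P) ≤ u1) (h2 : ∑' P, e P * ind (q P) ≤ u2) :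
    S4 a b c e (fun _ P _ P' => ind (p P) * ind (q P')) ≤ u1 * u2 := by
  have e4 : ∀ P : α2, ∑' P', e P' * (ind (p P) * ind (q P')) ≤ ind (p P) * u2 := by
    intro P
    calc _ = ind (p P) * ∑' P', e P' * ind (q P') := by
          rw [← ENNReal.tsum_mul_left]
          exact tsum_congr fun P' => by ring
      _ ≤ _ := mul_le_mul_right h2 _
  calc _ ≤ ∑' A, a A * ∑' P, b P * ∑' A', c A' * (ind (p P) * u2) := by
        refine ENNReal.tsum_le_tsum fun A => mul_le_mul_right (ENNReal.tsum_le_tsum fun P =>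
          mul_le_mul_right (ENNReal.tsum_le_tsum fun A' => mul_le_mul_right (e4 P) _) _) _
    _ ≤ ∑' A, a A * ∑' P, b P * (ind (p P) * u2) := by
        refine ENNReal.tsum_le_tsum fun A => mul_le_mul_right (ENNReal.tsum_le_tsum fun P =>
          mul_le_mul_right ?_ _) _
        rw [ENNReal.tsum_mul_right]
        calc _ ≤ 1 * (ind (p P) * u2) := mul_le_mul_left hc _
          _ = _ := one_mul _
    _ = ∑' A, a A * ((∑' P, b P * ind (p P)) * u2) := by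
        refine tsum_congr fun A => ?_
        congr 1
        rw [← ENNReal.tsum_mul_right]
        exact tsum_congr fun P => by ring
    _ ≤ ∑' A, a A * (u1 * u2) := by
        refine ENNReal.tsum_le_tsum fun A => mul_le_mul_right (mul_le_mul_left h1 _) _
    _ ≤ 1 * (u1 * u2) := by rw [ENNReal.tsum_mul_right]; exact mul_le_mul_left ha _
    _ = _ := one_mul _

end four

lemma sw {α ι : Type*} (s : Finset ι) (f : α → ι → ℝ≥0∞) :
    ∑' a, ∑ i ∈ s, f a i = ∑ i ∈ s, ∑' a, f a i :=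
  Summable.tsum_finsetSum (fun _ _ => ENNReal.summable)

section side

variable {B1 B2 G : Type*} [AddCommGroup G] (Λ1 : B1 → ℝ≥0∞) (h1 : B1 → ℕ) (z1 : B1 → G)
  (Λ2 : B2 → ℝ≥0∞) (h2 : B2 → ℕ) (z2 : B2 → G)

lemma two (A1 A2 i0 : ℕ) (N : ℕ → ℕ → G → ℝ≥0∞) (w : G) :
    ∑' L1, wa Λ1 h1 A1 i0 L1 * ∑' L2, wa Λ2 h2 A2 i0 L2 *
        N (HT h1 L1 - A1) (HT h2 L2 - A2) (w + Dp z2 L2 - Dp z1 L1)
      = ∑ i ∈ range (i0 + 1), ∑ i' ∈ range (i0 + 1), ∑' x, ∑' x',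
        Wf Λ1 h1 z1 A1 i x * Wf Λ2 h2 z2 A2 i' x' * N i i' (w + x' - x) := by
  rw [grp_wa Λ1 h1 z1 A1 i0 (fun i x => ∑' L2, wa Λ2 h2 A2 i0 L2 *
        N i (HT h2 L2 - A2) (w + Dp z2 L2 - x))]
  refine Finset.sum_congr rfl fun i _ => ?_
  rw [← sw]
  refine tsum_congr fun x => ?_
  rw [grp_wa Λ2 h2 z2 A2 i0 (fun i' x' => N i i' (w + x' - x)), Finset.mul_sum]
  refine Finset.sum_congr rfl fun i' _ => ?_
  rw [← ENNReal.tsum_mul_left]
  exact tsum_congr fun x' => by ring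

end side

section window

variable {BX BY G : Type*} [AddCommGroup G]
  (ΛX : BX → ℝ≥0∞) (ΛY : BY → ℝ≥0∞) (hX : BX → ℕ) (hY : BY → ℕ) (zX : BX → G) (zY : BY → G)
  (sX : BX → Set (G × ℕ)) (sY : BY → Set (G × ℕ))

/-- `X` local window lemma -/
def H2 (C : ℝ≥0∞) (us : ℕ → ℝ≥0∞) : Prop :=
  ∀ (s h h' a a' lo : ℕ) (E : Finset G) (μ : G → ℝ≥0∞) (M lam : ℝ≥0∞), ∑' x, μ x ≤ 1 →
    (∀ x, μ x ≤ M) → lam ≠ 0 → lam ≠ ⊤ → a ≤ a' → a + s ≤ lo → a' + s ≤ lo →
    ∑' x, μ x * ∑' L : List BX, ∑' L' : List BY,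
      (if HT hX L = h ∧ Dp zX L ∈ E ∧ HT hY L' = h' ∧
          (∃ q, q ∈ TX hX zX sX L 0 a ∧ q ∈ TX hY zY sY L' x a') ∧
          (∀ q, q ∈ TX hX zX sX L 0 a → q ∈ TX hY zY sY L' x a' → lo ≤ q.2)
        then LW ΛX L * LW ΛY L' else 0)
      ≤ C * (lam + M * E.card * us s / lam + us s)

/-- `Y` local window lemma -/
def H3 (C : ℝ≥0∞) (us : ℕ → ℝ≥0∞) : Prop :=
  ∀ (s h h' a a' hi : ℕ) (E : Finset G) (μ : G → ℝ≥0∞) (M lam : ℝ≥0∞), ∑' x, μ x ≤ 1 →
    (∀ x, μ x ≤ M) → lam ≠ 0 → lam ≠ ⊤ → a + h ≤ a' + h' → hi + s ≤ a + h → hi + s ≤ a' + h' →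
    ∑' x, μ x * ∑' L : List BX, ∑' L' : List BY,
      (if HT hX L = h ∧ HT hY L' = h' ∧ Dp zY L' ∈ E ∧
          (∃ q, q ∈ TX hX zX sX L 0 a ∧ q ∈ TX hY zY sY L' x a') ∧
          (∀ q, q ∈ TX hX zX sX L 0 a → q ∈ TX hY zY sY L' x a' → q.2 ≤ hi)
        then LW ΛX L * LW ΛY L' else 0)
      ≤ C * (lam + M * E.card * us s / lam + us s)

/-- crossing pairs of height `n` having a common site with depth in `S` -/
noncomputable def KS (n : ℕ) (w : G) (S : Set ℕ) : ℝ≥0∞ :=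
  ∑' L : List BX, ∑' L' : List BY,
    (if HT hX L = n ∧ HT hY L' = n ∧ ∃ q, q.2 ∈ S ∧ q ∈ TX hX zX sX L 0 0 ∧
      q ∈ TX hY zY sY L' w 0 then LW ΛX L * LW ΛY L' else 0)

/-- thin slab -/
def H5 : Prop := ∀ (s : ℕ) (η : ℝ≥0∞), η ≠ 0 → ∃ T, ∀ a, T ≤ a → ∀ n w,
  KS ΛX ΛY hX hY zX zY sX sY n w (Set.Ico a (a + s)) ≤ η

/-- contact condition of two pieces -/
def Ct (lo hi : ℕ) (x : G) (a a' : ℕ) (P : List BX) (P' : List BY) : Prop :=
  (∃ q, q ∈ TX hX zX sX P 0 a ∧ q ∈ TX hY zY sY P' x a') ∧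
    ∀ q, q ∈ TX hX zX sX P 0 a → q ∈ TX hY zY sY P' x a' → lo ≤ q.2 ∧ q.2 ≤ hi

/-- `X` local part -/
noncomputable def NX (T T' i0 lo hi A A' : ℕ) (p : List BX → Prop) (i i' : ℕ) (x : G) : ℝ≥0∞ :=
  ∑' P, wa ΛX hX T i0 P * ∑' P', wa ΛY hY T' i0 P' *
    ind (p P ∧ Ct hX hY zX zY sX sY lo hi x (A + i) (A' + i') P P')

/-- `Y` local part -/
noncomputable def NY (T T' i0 lo hi A A' : ℕ) (p : List BY → Prop) (i i' : ℕ) (x : G) : ℝ≥0∞ :=
  ∑' P, wa ΛX hX T i0 P * ∑' P', wa ΛY hY T' i0 P' *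
    ind (p P' ∧ Ct hX hY zX zY sX sY lo hi x (A + i) (A' + i') P P')

variable (h1X : ∀ b, 1 ≤ hX b) (h1Y : ∀ b, 1 ≤ hY b) (hΛX : ∑' b, ΛX b = 1) (hΛY : ∑' b, ΛY b = 1)

include h1X h1Y hΛX hΛY in
lemma wa2_le_one (T T' i0 : ℕ) (f : List BX → List BY → ℝ≥0∞) (hf : ∀ P P', f P P' ≤ 1) :
    ∑' P, wa ΛX hX T i0 P * ∑' P', wa ΛY hY T' i0 P' * f P P' ≤ 1 := by
  calc _ ≤ ∑' P, wa ΛX hX T i0 P * ∑' P', wa ΛY hY T' i0 P' * 1 := by
        refine ENNReal.tsum_le_tsum fun P => mul_le_mul_right (ENNReal.tsum_le_tsum fun P' =>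
          mul_le_mul_right (hf P P') _) _
    _ ≤ ∑' P, wa ΛX hX T i0 P * 1 := by
        refine ENNReal.tsum_le_tsum fun P => mul_le_mul_right ?_ _
        simpa using wa_sum ΛY hY h1Y hΛY.le T' i0
    _ ≤ 1 := by simpa using wa_sum ΛX hX h1X hΛX.le T i0

include h1X h1Y hΛX hΛY in
lemma NX_le_one (T T' i0 lo hi A A' : ℕ) (p : List BX → Prop) (i i' : ℕ) (x : G) :
    NX ΛX ΛY hX hY zX zY sX sY T T' i0 lo hi A A' p i i' x ≤ 1 :=
  wa2_le_one ΛX ΛY hX hY h1X h1Y hΛX hΛY T T' i0 _ fun P P' => ind_le _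

include h1X h1Y hΛX hΛY in
lemma NY_le_one (T T' i0 lo hi A A' : ℕ) (p : List BY → Prop) (i i' : ℕ) (x : G) :
    NY ΛX ΛY hX hY zX zY sX sY T T' i0 lo hi A A' p i i' x ≤ 1 :=
  wa2_le_one ΛX ΛY hX hY h1X h1Y hΛX hΛY T T' i0 _ fun P P' => ind_le _

/-- sum over the heights of the pieces -/
lemma heights (T T' i0 : ℕ) (cond : List BX → List BY → Prop)
    (R : ℕ → ℕ → List BX → List BY → Prop)
    (hR : ∀ P P', cond P P' → T ≤ HT hX P → HT hX P ≤ T + i0 → T' ≤ HT hY P' →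
      HT hY P' ≤ T' + i0 → R (HT hX P - T) (HT hY P' - T') P P') :
    ∑' P, wa ΛX hX T i0 P * ∑' P', wa ΛY hY T' i0 P' * ind (cond P P')
      ≤ ∑ j ∈ range (i0 + 1), ∑ j' ∈ range (i0 + 1), ∑' P, ∑' P',
        ind (R j j' P P') * (LW ΛX P * LW ΛY P') := by
  calc _ ≤ ∑' P, ∑' P', ∑ j ∈ range (i0 + 1), ∑ j' ∈ range (i0 + 1),
          ind (R j j' P P') * (LW ΛX P * LW ΛY P') := by
        refine ENNReal.tsum_le_tsum fun P => ?_
        rw [← ENNReal.tsum_mul_left]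
        refine ENNReal.tsum_le_tsum fun P' => ?_
        by_cases hc : cond P P'
        · rw [ind_pos hc, mul_one]
          by_cases hP : fp hX T P ∧ HT hX P ≤ T + i0
          · by_cases hP' : fp hY T' P' ∧ HT hY P' ≤ T' + i0
            · have k1 := le_HT_of_fp hX hP.1
              have k2 := le_HT_of_fp hY hP'.1
              rw [wa, if_pos hP, wa, if_pos hP']
              have hr := hR P P' hc k1 hP.2 k2 hP'.2
              calc LW ΛX P * LW ΛY P'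
                  = ind (R (HT hX P - T) (HT hY P' - T') P P') * (LW ΛX P * LW ΛY P') := by
                    rw [ind_pos hr, one_mul]
                _ ≤ ∑ j' ∈ range (i0 + 1), ind (R (HT hX P - T) j' P P') *
                      (LW ΛX P * LW ΛY P') :=
                    Finset.single_le_sum (f := fun j' => ind (R (HT hX P - T) j' P P') *
                      (LW ΛX P * LW ΛY P')) (fun _ _ => zero_le)
                      (Finset.mem_range.2 (by omega))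
                _ ≤ _ := Finset.single_le_sum (f := fun j => ∑ j' ∈ range (i0 + 1),
                      ind (R j j' P P') * (LW ΛX P * LW ΛY P')) (fun _ _ => zero_le)
                      (Finset.mem_range.2 (by omega))
            · simp [wa, hP']
          · simp [wa, hP]
        · rw [ind_neg hc, mul_zero, mul_zero]; exact zero_le
    _ = _ := by
        simp_rw [sw]

lemma mu_heights (μ : G → ℝ≥0∞) (i0 : ℕ) (g : ℕ → ℕ → G → ℝ≥0∞) (N : G → ℝ≥0∞)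
    (hN : ∀ x, N x ≤ ∑ j ∈ range (i0 + 1), ∑ j' ∈ range (i0 + 1), g j j' x) (K : ℝ≥0∞)
    (hg : ∀ j j', j ≤ i0 → j' ≤ i0 → ∑' x, μ x * g j j' x ≤ K) :
    ∑' x, μ x * N x ≤ (i0 + 1) * ((i0 + 1) * K) := by
  calc _ ≤ ∑' x, ∑ j ∈ range (i0 + 1), ∑ j' ∈ range (i0 + 1), μ x * g j j' x := by
        refine ENNReal.tsum_le_tsum fun x => ?_
        calc μ x * N x ≤ μ x * ∑ j ∈ range (i0 + 1), ∑ j' ∈ range (i0 + 1), g j j' x :=
              mul_le_mul_right (hN x) _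
          _ = _ := by
              rw [Finset.mul_sum]
              exact Finset.sum_congr rfl fun j _ => Finset.mul_sum _ _ _
    _ = ∑ j ∈ range (i0 + 1), ∑ j' ∈ range (i0 + 1), ∑' x, μ x * g j j' x := by
        simp_rw [sw]
    _ ≤ ∑ j ∈ range (i0 + 1), ∑ j' ∈ range (i0 + 1), K := by
        refine Finset.sum_le_sum fun j hj => Finset.sum_le_sum fun j' hj' => hg j j' ?_ ?_
        · have := Finset.mem_range.1 hj; omega
        · have := Finset.mem_range.1 hj'; omega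
    _ = _ := by
        simp only [Finset.sum_const, Finset.card_range, nsmul_eq_mul]
        push_cast
        rfl

/-- the final form of the bound of `H2` / `H3` -/
noncomputable def KK (C lam : ℝ≥0∞) (us : ℕ → ℝ≥0∞) (s i0 J : ℕ) : ℝ≥0∞ :=
  C * (lam + (i0 + 1) * J * us s / lam + us s)

lemma card_bd {G : Type*} (E : Finset G) (th : ℝ≥0∞) (hE : th * (E.card : ℝ≥0∞) ≤ 1)
    (C lam : ℝ≥0∞) (us : ℕ → ℝ≥0∞) (s i0 J : ℕ) :
    C * (lam + ((i0 + 1) * th * J) * E.card * us s / lam + us s) ≤ KK C lam us s i0 J := by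
  unfold KK
  gcongr C * (lam + ?_ / lam + us s)
  calc ((i0 + 1) * th * J) * E.card * us s = (i0 + 1) * J * (th * E.card) * us s := by ring
    _ ≤ (i0 + 1) * J * 1 * us s := by gcongr
    _ = _ := by rw [mul_one]

include h1X h1Y hΛX hΛY in
/-- **the main part of one window** -/
theorem main_part (hUX : ∀ n, U ΛX hX n ≤ 1) (hUY : ∀ n, U ΛY hY n ≤ 1)
    {C : ℝ≥0∞} {us : ℕ → ℝ≥0∞} (h2 : H2 ΛX ΛY hX hY zX zY sX sY C us)
    (h3 : H3 ΛX ΛY hX hY zX zY sX sY C us)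
    (u lam : ℝ≥0∞) (hu0 : u ≠ 0) (hu1 : u ≤ 1) (hl0 : lam ≠ 0) (hl1 : lam ≠ ⊤)
    (t i0 s J A : ℕ) (hs : s ≤ 3 * t) (hA : J * (3 * t + 2 * i0) ≤ A) (w : G) :
    S4 (wa ΛX hX A i0) (wa ΛX hX (3 * t) i0) (wa ΛY hY (A + i0) i0) (wa ΛY hY (3 * t + i0) i0)
      (fun T1 P T1' P' => ind (Ct hX hY zX zY sX sY (A + 2 * i0 + s) (A + 3 * t - s)
        (w + Dp zY T1' - Dp zX T1) (HT hX T1) (HT hY T1') P P'))
      ≤ u * u + 2 * ((i0 + 1) * ((i0 + 1) * ((i0 + 1) * ((i0 + 1) * KK C lam us s i0 J))))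
        + (((1 - u) ^ J + J * eta ΛX hX i0) + ((1 - u) ^ J + J * eta ΛY hY i0)) := by
  set T := 3 * t with hT
  set T' := 3 * t + i0 with hT'
  set A' := A + i0 with hA'
  set lo := A + 2 * i0 + s with hlo
  set hi := A + T - s with hhi
  obtain ⟨thX, hthX, hqX, ⟨EX, hEX⟩, hsmX⟩ := walker ΛX hX zX h1X hΛX hUX T i0 J u hu0 hu1
  obtain ⟨thY, hthY, hqY, ⟨EY, hEY⟩, hsmY⟩ := walker ΛY hY zY h1Y hΛY hUY T' i0 J u hu0 hu1
  have hAX : J * (T + i0) ≤ A := le_trans (Nat.mul_le_mul_left _ (by omega)) hA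
  have hAY : J * (T' + i0) ≤ A' := by
    have : T' + i0 = T + 2 * i0 := by omega
    rw [this]; omega
  obtain ⟨AgX, BbX, hWX, hAgX, hBbX⟩ := hsmX A hAX
  obtain ⟨AgY, BbY, hWY, hAgY, hBbY⟩ := hsmY A' hAY
  set lX : List BX → Prop := fun P => thX ≤ Wf ΛX hX zX T (HT hX P - T) (Dp zX P) with hlX
  set lY : List BY → Prop := fun P => thY ≤ Wf ΛY hY zY T' (HT hY P - T') (Dp zY P) with hlY
  set mX : List BX → Prop := fun P => ¬ lX P with hmX
  set mY : List BY → Prop := fun P => ¬ lY P with hmY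
  have hsumX : ∀ a, ∑' i, ∑' x, Wf ΛX hX zX a i x ≤ 1 := fun a => by
    rw [Wf_sum, fp_sum_one ΛX hX h1X hΛX]
  have hsumY : ∀ a, ∑' i, ∑' x, Wf ΛY hY zY a i x ≤ 1 := fun a => by
    rw [Wf_sum, fp_sum_one ΛY hY h1Y hΛY]
  -- pointwise split
  have hpt : S4 (wa ΛX hX A i0) (wa ΛX hX T i0) (wa ΛY hY A' i0) (wa ΛY hY T' i0)
      (fun T1 P T1' P' => ind (Ct hX hY zX zY sX sY lo hi
        (w + Dp zY T1' - Dp zX T1) (HT hX T1) (HT hY T1') P P'))
      ≤ S4 (wa ΛX hX A i0) (wa ΛX hX T i0) (wa ΛY hY A' i0) (wa ΛY hY T' i0)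
        (fun T1 P T1' P' => ind (mX P) * ind (mY P')
          + (ind (lX P ∧ Ct hX hY zX zY sX sY lo hi (w + Dp zY T1' - Dp zX T1)
              (A + (HT hX T1 - A)) (A' + (HT hY T1' - A')) P P')
            + ind (lY P' ∧ Ct hX hY zX zY sX sY lo hi (w + Dp zY T1' - Dp zX T1)
              (A + (HT hX T1 - A)) (A' + (HT hY T1' - A')) P P'))) := by
    refine S4_mono _ _ _ _ fun T1 P T1' P' k1 k2 k3 k4 => ?_
    have e1 : A + (HT hX T1 - A) = HT hX T1 := by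
      have : fp hX A T1 ∧ HT hX T1 ≤ A + i0 := by
        by_contra hc; exact k1 (by rw [wa, if_neg hc])
      have := le_HT_of_fp hX this.1
      omega
    have e2 : A' + (HT hY T1' - A') = HT hY T1' := by
      have : fp hY A' T1' ∧ HT hY T1' ≤ A' + i0 := by
        by_contra hc; exact k3 (by rw [wa, if_neg hc])
      have := le_HT_of_fp hY this.1
      omega
    rw [e1, e2]
    by_cases hC : Ct hX hY zX zY sX sY lo hi (w + Dp zY T1' - Dp zX T1) (HT hX T1) (HT hY T1') P P'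
    · rw [ind_pos hC]
      by_cases hx : lX P
      · rw [ind_pos (show lX P ∧ _ from ⟨hx, hC⟩)]
        exact le_trans le_self_add le_add_self
      · by_cases hy : lY P'
        · rw [ind_pos (show lY P' ∧ _ from ⟨hy, hC⟩)]
          exact le_trans le_add_self le_add_self
        · rw [ind_pos (show mX P from hx), ind_pos (show mY P' from hy), one_mul]
          exact le_self_add
    · rw [ind_neg hC]; exact zero_le
  refine hpt.trans ?_
  rw [S4_add, S4_add]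
  -- both non local
  have p0 : S4 (wa ΛX hX A i0) (wa ΛX hX T i0) (wa ΛY hY A' i0) (wa ΛY hY T' i0)
      (fun _ P _ P' => ind (mX P) * ind (mY P')) ≤ u * u := by
    refine S4_bd _ _ _ _ u u (wa_sum ΛX hX h1X hΛX.le A i0) (wa_sum ΛY hY h1Y hΛY.le A' i0)
      mX mY ?_ ?_
    · refine le_trans (le_of_eq (tsum_congr fun P => ?_)) hqX
      by_cases h : Wf ΛX hX zX T (HT hX P - T) (Dp zX P) < thX
      · rw [ind_pos (show mX P from not_le.2 h), if_pos h, mul_one]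
      · rw [ind_neg (show ¬ mX P from fun h' => h (not_le.1 h')), if_neg h, mul_zero]
    · refine le_trans (le_of_eq (tsum_congr fun P => ?_)) hqY
      by_cases h : Wf ΛY hY zY T' (HT hY P - T') (Dp zY P) < thY
      · rw [ind_pos (show mY P from not_le.2 h), if_pos h, mul_one]
      · rw [ind_neg (show ¬ mY P from fun h' => h (not_le.1 h')), if_neg h, mul_zero]
  -- X local
  have p1 : S4 (wa ΛX hX A i0) (wa ΛX hX T i0) (wa ΛY hY A' i0) (wa ΛY hY T' i0)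
      (fun T1 P T1' P' => ind (lX P ∧ Ct hX hY zX zY sX sY lo hi (w + Dp zY T1' - Dp zX T1)
              (A + (HT hX T1 - A)) (A' + (HT hY T1' - A')) P P'))
      ≤ (i0 + 1) * ((i0 + 1) * ((i0 + 1) * ((i0 + 1) * KK C lam us s i0 J)))
        + ((1 - u) ^ J + J * eta ΛX hX i0) := by
    have e : S4 (wa ΛX hX A i0) (wa ΛX hX T i0) (wa ΛY hY A' i0) (wa ΛY hY T' i0)
        (fun T1 P T1' P' => ind (lX P ∧ Ct hX hY zX zY sX sY lo hi (w + Dp zY T1' - Dp zX T1)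
              (A + (HT hX T1 - A)) (A' + (HT hY T1' - A')) P P'))
        = ∑' T1, wa ΛX hX A i0 T1 * ∑' T1', wa ΛY hY A' i0 T1' *
          NX ΛX ΛY hX hY zX zY sX sY T T' i0 lo hi A A' lX (HT hX T1 - A) (HT hY T1' - A')
            (w + Dp zY T1' - Dp zX T1) := by
      unfold S4 NX
      refine tsum_congr fun T1 => ?_
      congr 1
      exact swap2 (wa ΛX hX T i0) (wa ΛY hY A' i0) (fun P T1' => ∑' P', wa ΛY hY T' i0 P' *
        ind (lX P ∧ Ct hX hY zX zY sX sY lo hi (w + Dp zY T1' - Dp zX T1)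
              (A + (HT hX T1 - A)) (A' + (HT hY T1' - A')) P P'))
    rw [e, two ΛX hX zX ΛY hY zY A A' i0
      (NX ΛX ΛY hX hY zX zY sX sY T T' i0 lo hi A A' lX) w]
    refine (half (fun i x => Wf ΛX hX zX A i x) (fun i x => Wf ΛY hY zY A' i x) (hsumX A)
      (hsumY A') AgX BbX hWX ((i0 + 1) * thX * J) hAgX
      (NX ΛX ΛY hX hY zX zY sX sY T T' i0 lo hi A A' lX)
      (fun i i' x => NX_le_one ΛX ΛY hX hY zX zY sX sY h1X h1Y hΛX hΛY T T' i0 lo hi A A' lX i i' x)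
      i0 ((i0 + 1) * ((i0 + 1) * KK C lam us s i0 J)) ?_ w).trans (add_le_add le_rfl hBbX)
    intro i i' hi1 hi2 μ hμ1 hμ2
    refine mu_heights μ i0 (fun j j' x => ∑' L : List BX, ∑' L' : List BY,
      ind (HT hX L = T + j ∧ Dp zX L ∈ EX j ∧ HT hY L' = T' + j' ∧
          (∃ q, q ∈ TX hX zX sX L 0 (A + i) ∧ q ∈ TX hY zY sY L' x (A' + i')) ∧
          (∀ q, q ∈ TX hX zX sX L 0 (A + i) → q ∈ TX hY zY sY L' x (A' + i') → lo ≤ q.2))
        * (LW ΛX L * LW ΛY L')) _ (fun x => ?_) _ fun j j' hj hj' => ?_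
    · rw [NX]
      refine heights ΛX ΛY hX hY T T' i0 (fun P P' => lX P ∧ Ct hX hY zX zY sX sY lo hi x
        (A + i) (A' + i') P P') (fun j j' L L' => HT hX L = T + j ∧ Dp zX L ∈ EX j ∧
          HT hY L' = T' + j' ∧
          (∃ q, q ∈ TX hX zX sX L 0 (A + i) ∧ q ∈ TX hY zY sY L' x (A' + i')) ∧
          (∀ q, q ∈ TX hX zX sX L 0 (A + i) → q ∈ TX hY zY sY L' x (A' + i') → lo ≤ q.2))
        fun P P' hc k1 k2 k3 k4 => ?_
      refine ⟨by omega, (hEX _).1 _ hc.1, by omega, hc.2.1, fun q hq hq' => (hc.2.2 q hq hq').1⟩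
    · simp only [ind_mul]
      refine (h2 s (T + j) (T' + j') (A + i) (A' + i') lo (EX j) μ ((i0 + 1) * thX * J) lam
        hμ1 hμ2 hl0 hl1 (by omega) (by omega) (by omega)).trans ?_
      exact card_bd (EX j) thX (hEX j).2 C lam us s i0 J
  -- Y local
  have p2 : S4 (wa ΛX hX A i0) (wa ΛX hX T i0) (wa ΛY hY A' i0) (wa ΛY hY T' i0)
      (fun T1 P T1' P' => ind (lY P' ∧ Ct hX hY zX zY sX sY lo hi (w + Dp zY T1' - Dp zX T1)
              (A + (HT hX T1 - A)) (A' + (HT hY T1' - A')) P P'))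
      ≤ (i0 + 1) * ((i0 + 1) * ((i0 + 1) * ((i0 + 1) * KK C lam us s i0 J)))
        + ((1 - u) ^ J + J * eta ΛY hY i0) := by
    have e : S4 (wa ΛX hX A i0) (wa ΛX hX T i0) (wa ΛY hY A' i0) (wa ΛY hY T' i0)
        (fun T1 P T1' P' => ind (lY P' ∧ Ct hX hY zX zY sX sY lo hi (w + Dp zY T1' - Dp zX T1)
              (A + (HT hX T1 - A)) (A' + (HT hY T1' - A')) P P'))
        = ∑' T1', wa ΛY hY A' i0 T1' * ∑' T1, wa ΛX hX A i0 T1 *
          (fun i i' x => NY ΛX ΛY hX hY zX zY sX sY T T' i0 lo hi A A' lY i' i (-x))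
            (HT hY T1' - A') (HT hX T1 - A) (-w + Dp zX T1 - Dp zY T1') := by
      set g : List BX → List BX → List BY → ℝ≥0∞ := fun T1 P T1' => ∑' P', wa ΛY hY T' i0 P' *
        ind (lY P' ∧ Ct hX hY zX zY sX sY lo hi (w + Dp zY T1' - Dp zX T1)
              (A + (HT hX T1 - A)) (A' + (HT hY T1' - A')) P P') with hg
      calc _ = ∑' T1, wa ΛX hX A i0 T1 * ∑' P, wa ΛX hX T i0 P * ∑' T1', wa ΛY hY A' i0 T1' *
            g T1 P T1' := rfl
        _ = ∑' T1, wa ΛX hX A i0 T1 * ∑' T1', wa ΛY hY A' i0 T1' * ∑' P, wa ΛX hX T i0 P *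
            g T1 P T1' := by
            refine tsum_congr fun T1 => ?_
            rw [swap2 (wa ΛX hX T i0) (wa ΛY hY A' i0) (g T1)]
        _ = ∑' T1', wa ΛY hY A' i0 T1' * ∑' T1, wa ΛX hX A i0 T1 * ∑' P, wa ΛX hX T i0 P *
            g T1 P T1' := swap2 (wa ΛX hX A i0) (wa ΛY hY A' i0) (fun T1 T1' =>
              ∑' P, wa ΛX hX T i0 P * g T1 P T1')
        _ = _ := by
            refine tsum_congr fun T1' => ?_
            congr 1
            refine tsum_congr fun T1 => ?_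
            congr 1
            have hneg : -(-w + Dp zX T1 - Dp zY T1') = w + Dp zY T1' - Dp zX T1 := by abel
            simp only [hg, NY, hneg]
    rw [e, two ΛY hY zY ΛX hX zX A' A i0
      (fun i i' x => NY ΛX ΛY hX hY zX zY sX sY T T' i0 lo hi A A' lY i' i (-x)) (-w)]
    refine (half (fun i x => Wf ΛY hY zY A' i x) (fun i x => Wf ΛX hX zX A i x) (hsumY A')
      (hsumX A) AgY BbY hWY ((i0 + 1) * thY * J) hAgY
      (fun i i' x => NY ΛX ΛY hX hY zX zY sX sY T T' i0 lo hi A A' lY i' i (-x))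
      (fun i i' x => NY_le_one ΛX ΛY hX hY zX zY sX sY h1X h1Y hΛX hΛY T T' i0 lo hi A A' lY _ _ _)
      i0 ((i0 + 1) * ((i0 + 1) * KK C lam us s i0 J)) ?_ (-w)).trans (add_le_add le_rfl hBbY)
    intro i i' hi1 hi2 μ hμ1 hμ2
    rw [← (Equiv.neg G).tsum_eq (fun x => μ x * (fun i i' x =>
      NY ΛX ΛY hX hY zX zY sX sY T T' i0 lo hi A A' lY i' i (-x)) i i' x)]
    simp only [Equiv.neg_apply, neg_neg]
    refine mu_heights (fun x => μ (-x)) i0 (fun j j' x => ∑' L : List BX, ∑' L' : List BY,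
      ind (HT hX L = T + j ∧ HT hY L' = T' + j' ∧ Dp zY L' ∈ EY j' ∧
          (∃ q, q ∈ TX hX zX sX L 0 (A + i') ∧ q ∈ TX hY zY sY L' x (A' + i)) ∧
          (∀ q, q ∈ TX hX zX sX L 0 (A + i') → q ∈ TX hY zY sY L' x (A' + i) → q.2 ≤ hi))
        * (LW ΛX L * LW ΛY L')) _ (fun x => ?_) _ fun j j' hj hj' => ?_
    · rw [NY]
      refine heights ΛX ΛY hX hY T T' i0 (fun P P' => lY P' ∧ Ct hX hY zX zY sX sY lo hi x
        (A + i') (A' + i) P P') (fun j j' L L' => HT hX L = T + j ∧ HT hY L' = T' + j' ∧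
          Dp zY L' ∈ EY j' ∧
          (∃ q, q ∈ TX hX zX sX L 0 (A + i') ∧ q ∈ TX hY zY sY L' x (A' + i)) ∧
          (∀ q, q ∈ TX hX zX sX L 0 (A + i') → q ∈ TX hY zY sY L' x (A' + i) → q.2 ≤ hi))
        fun P P' hc k1 k2 k3 k4 => ?_
      refine ⟨by omega, by omega, (hEY _).1 _ hc.1, hc.2.1, fun q hq hq' => (hc.2.2 q hq hq').2⟩
    · simp only [ind_mul]
      refine (h3 s (T + j) (T' + j') (A + i') (A' + i) hi (EY j') (fun x => μ (-x))
        ((i0 + 1) * thY * J) lam ?_ (fun x => hμ2 _) hl0 hl1 (by omega) (by omega)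
        (by omega)).trans ?_
      · have hh := (Equiv.neg G).tsum_eq (fun x => μ x)
        simp only [Equiv.neg_apply] at hh
        rw [hh]; exact hμ1
      · exact card_bd (EY j') thY (hEY j').2 C lam us s i0 J
  calc _ ≤ u * u + (((i0 + 1) * ((i0 + 1) * ((i0 + 1) * ((i0 + 1) * KK C lam us s i0 J)))
        + ((1 - u) ^ J + J * eta ΛX hX i0))
        + ((i0 + 1) * ((i0 + 1) * ((i0 + 1) * ((i0 + 1) * KK C lam us s i0 J)))
        + ((1 - u) ^ J + J * eta ΛY hY i0))) := add_le_add p0 (add_le_add p1 p2)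
    _ = _ := by ring

end window

end Crest.Agent.R154.Asm566
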