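import Mathlib

/-! Row 154, KAPPA' (801 #38888), (W2): the smooth density lemma, pure sums (helper616). -/

set_option autoImplicit false

namespace Crest.Agent.R154.Dens616

open scoped ENNReal

variable {Z : Type*} [AddCommGroup Z]

/-- **density lemma**: `f r z` = weight of the part above the window (`r` levels to go, displacement
`z`), `p i z` = law of one attempt (`T + i` levels, displacement `z`). -/
theorem dens (p f : ℕ → Z → ℝ≥0∞) (T i0 : ℕ) (th q ε G : ℝ≥0∞)
    (hrec : ∀ r, T ≤ r → ∀ z, f r z ≤
      ∑' i, ∑' z', if T + i ≤ r then p i z' * f (r - T - i) (z - z') else 0)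
    (hf : ∀ r, ∑' z, f r z ≤ 1)
    (hε : ∑' i, ∑' z', (if i0 < i then p i z' else 0) ≤ ε)
    (hq : ∑' i, ∑' z', (if i ≤ i0 ∧ th < p i z' then p i z' else 0) ≤ q) (hq1 : q ≤ 1)
    (hG : (i0 + 1 : ℕ) * th + q * G ≤ G) :
    ∀ J r, J * (T + i0) ≤ r → ∃ b : Z → ℝ≥0∞, (∑' z, b z ≤ q ^ J + J * ε) ∧
      ∀ z, f r z ≤ G + b z := by
  intro J
  induction J with
  | zero =>
    intro r _
    exact ⟨f r, by simpa using hf r, fun z => le_add_self⟩
  | succ J ih =>
    intro r hr
    have hTr : T ≤ r := by nlinarith
    -- remaining levels after an attempt with overshoot `i ≤ i0`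
    have hrem : ∀ i, i ≤ i0 → J * (T + i0) ≤ r - T - i := by
      intro i hi
      have : J * (T + i0) + (T + i0) ≤ r := by nlinarith
      omega
    choose! b hb1 hb2 using fun i (hi : i ≤ i0) => ih (r - T - i) (hrem i hi)
    refine ⟨fun z => (∑' i, ∑' z', if i0 < i then p i z' * f (r - T - i) (z - z') else 0) +
      ∑' i, ∑' z', if i ≤ i0 ∧ th < p i z' then p i z' * b i (z - z') else 0, ?_, ?_⟩
    · -- total mass of the bad part
      rw [ENNReal.tsum_add]
      have e1 : ∑' z, ∑' i, ∑' z', (if i0 < i then p i z' * f (r - T - i) (z - z') else 0) ≤ ε := by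
        calc ∑' z, ∑' i, ∑' z', (if i0 < i then p i z' * f (r - T - i) (z - z') else 0)
            = ∑' i, ∑' z', ∑' z, (if i0 < i then p i z' * f (r - T - i) (z - z') else 0) := by
              rw [ENNReal.tsum_comm]
              refine tsum_congr fun i => ?_
              rw [ENNReal.tsum_comm]
          _ ≤ ∑' i, ∑' z', (if i0 < i then p i z' else 0) := by
              refine ENNReal.tsum_le_tsum fun i => ENNReal.tsum_le_tsum fun z' => ?_
              split_ifs with h
              · rw [ENNReal.tsum_mul_left]
                have : ∑' z, f (r - T - i) (z - z') = ∑' z, f (r - T - i) z :=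
                  (Equiv.subRight z').tsum_eq fun z => f (r - T - i) z
                rw [this]
                calc p i z' * ∑' z, f (r - T - i) z ≤ p i z' * 1 := by gcongr; exact hf _
                  _ = p i z' := mul_one _
              · simp
          _ ≤ ε := hε
      have e2 : ∑' z, ∑' i, ∑' z', (if i ≤ i0 ∧ th < p i z' then p i z' * b i (z - z') else 0)
          ≤ q * (q ^ J + J * ε) := by
        calc ∑' z, ∑' i, ∑' z', (if i ≤ i0 ∧ th < p i z' then p i z' * b i (z - z') else 0)
            = ∑' i, ∑' z', ∑' z, (if i ≤ i0 ∧ th < p i z' then p i z' * b i (z - z') else 0) := by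
              rw [ENNReal.tsum_comm]
              refine tsum_congr fun i => ?_
              rw [ENNReal.tsum_comm]
          _ ≤ ∑' i, ∑' z', (if i ≤ i0 ∧ th < p i z' then p i z' else 0) * (q ^ J + J * ε) := by
              refine ENNReal.tsum_le_tsum fun i => ENNReal.tsum_le_tsum fun z' => ?_
              split_ifs with h
              · rw [ENNReal.tsum_mul_left]
                have : ∑' z, b i (z - z') = ∑' z, b i z :=
                  (Equiv.subRight z').tsum_eq fun z => b i z
                rw [this]
                gcongr
                exact hb1 i h.1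
              · simp
          _ = (∑' i, ∑' z', (if i ≤ i0 ∧ th < p i z' then p i z' else 0)) * (q ^ J + J * ε) := by
              simp_rw [ENNReal.tsum_mul_right]
          _ ≤ _ := by gcongr
      calc _ ≤ ε + q * (q ^ J + J * ε) := add_le_add e1 e2
        _ = q ^ (J + 1) + (ε + q * (J * ε)) := by ring
        _ ≤ q ^ (J + 1) + (ε + 1 * (J * ε)) := by gcongr
        _ = q ^ (J + 1) + ((J + 1 : ℕ) : ℝ≥0∞) * ε := by push_cast; ring
    · intro z
      -- pointwise splitting
      have hterm : ∀ i z', (if T + i ≤ r then p i z' * f (r - T - i) (z - z') else 0) ≤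
          ((if i0 < i then p i z' * f (r - T - i) (z - z') else 0) +
            (if i ≤ i0 then th * f (r - T - i) (z - z') else 0)) +
          ((if i ≤ i0 ∧ th < p i z' then p i z' * b i (z - z') else 0) +
            (if i ≤ i0 ∧ th < p i z' then p i z' else 0) * G) := by
        intro i z'
        by_cases hi : i ≤ i0
        · have hi' : ¬ i0 < i := by omega
          simp only [hi, hi', if_false, if_true, true_and, zero_add]
          by_cases hp : th < p i z'
          · simp only [hp, if_true]
            have h1 : (if T + i ≤ r then p i z' * f (r - T - i) (z - z') else 0) ≤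
                p i z' * f (r - T - i) (z - z') := by split_ifs <;> simp
            calc _ ≤ p i z' * f (r - T - i) (z - z') := h1
              _ ≤ p i z' * (G + b i (z - z')) := by gcongr; exact hb2 i hi _
              _ = p i z' * b i (z - z') + p i z' * G := by ring
              _ ≤ _ := le_add_self
          · simp only [hp, if_false, zero_mul, add_zero]
            have h1 : (if T + i ≤ r then p i z' * f (r - T - i) (z - z') else 0) ≤
                p i z' * f (r - T - i) (z - z') := by split_ifs <;> simp
            refine h1.trans ?_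
            gcongr
            exact not_lt.1 hp
        · have hi' : i0 < i := by omega
          simp only [hi, hi', if_false, if_true, false_and, zero_mul, add_zero]
          split_ifs <;> simp
      calc f r z ≤ ∑' i, ∑' z', (if T + i ≤ r then p i z' * f (r - T - i) (z - z') else 0) :=
            hrec r hTr z
        _ ≤ ∑' i, ∑' z', (((if i0 < i then p i z' * f (r - T - i) (z - z') else 0) +
            (if i ≤ i0 then th * f (r - T - i) (z - z') else 0)) +
          ((if i ≤ i0 ∧ th < p i z' then p i z' * b i (z - z') else 0) +
            (if i ≤ i0 ∧ th < p i z' then p i z' else 0) * G)) :=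
            ENNReal.tsum_le_tsum fun i => ENNReal.tsum_le_tsum fun z' => hterm i z'
        _ = ((∑' i, ∑' z', (if i0 < i then p i z' * f (r - T - i) (z - z') else 0)) +
            (∑' i, ∑' z', (if i ≤ i0 then th * f (r - T - i) (z - z') else 0))) +
          ((∑' i, ∑' z', (if i ≤ i0 ∧ th < p i z' then p i z' * b i (z - z') else 0)) +
            (∑' i, ∑' z', (if i ≤ i0 ∧ th < p i z' then p i z' else 0)) * G) := by
            simp_rw [ENNReal.tsum_add, ENNReal.tsum_mul_right]
        _ ≤ ((∑' i, ∑' z', (if i0 < i then p i z' * f (r - T - i) (z - z') else 0)) +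
            ((i0 + 1 : ℕ) * th)) +
          ((∑' i, ∑' z', (if i ≤ i0 ∧ th < p i z' then p i z' * b i (z - z') else 0)) + q * G) := by
            gcongr
            calc ∑' i, ∑' z', (if i ≤ i0 then th * f (r - T - i) (z - z') else 0)
                ≤ ∑' i, (if i ≤ i0 then th else 0) := by
                  refine ENNReal.tsum_le_tsum fun i => ?_
                  split_ifs with h
                  · rw [ENNReal.tsum_mul_left]
                    have : ∑' z', f (r - T - i) (z - z') = ∑' z', f (r - T - i) z' :=
                      (Equiv.subLeft z).tsum_eq fun z' => f (r - T - i) z'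
                    rw [this]
                    calc th * ∑' z', f (r - T - i) z' ≤ th * 1 := by gcongr; exact hf _
                      _ = th := mul_one _
                  · simp
              _ = ∑ i ∈ Finset.range (i0 + 1), th := by
                  rw [tsum_eq_sum (s := Finset.range (i0 + 1))]
                  · refine Finset.sum_congr rfl fun i hi => ?_
                    rw [if_pos (by have := Finset.mem_range.1 hi; omega)]
                  · intro i hi
                    rw [if_neg (by intro h; exact hi (Finset.mem_range.2 (by omega)))]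
              _ = _ := by simp
        _ = ((i0 + 1 : ℕ) * th + q * G) +
            ((∑' i, ∑' z', (if i0 < i then p i z' * f (r - T - i) (z - z') else 0)) +
            ∑' i, ∑' z', (if i ≤ i0 ∧ th < p i z' then p i z' * b i (z - z') else 0)) := by ring
        _ ≤ _ := by gcongr

/-- the local set is finite: `card * th ≤ total` -/
theorem card_mul_le {ι : Type*} (p : ι → ℝ≥0∞) (th : ℝ≥0∞) (s : Finset ι)
    (hs : ∀ x ∈ s, th ≤ p x) : (s.card : ℝ≥0∞) * th ≤ ∑' x, p x := by
  calc (s.card : ℝ≥0∞) * th = ∑ _x ∈ s, th := by simp
    _ ≤ ∑ x ∈ s, p x := Finset.sum_le_sum hs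
    _ ≤ ∑' x, p x := ENNReal.sum_le_tsum s

theorem finite_local {ι : Type*} (p : ι → ℝ≥0∞) (hp : ∑' x, p x ≠ ⊤) {th : ℝ≥0∞} (hth : th ≠ 0) :
    {x | th ≤ p x}.Finite := ENNReal.finite_const_le_of_tsum_ne_top hp hth

/-- **quantile**: the threshold -/
theorem quantile {ι : Type*} (p : ι → ℝ≥0∞) (h1 : ∑' x, p x = 1) {u : ℝ≥0∞} (hu0 : u ≠ 0)
    (hu1 : u < 1) : ∃ th : ℝ≥0∞, th ≠ 0 ∧ th ≤ 1 ∧
      (∑' x, if p x < th then p x else 0) ≤ u ∧ u ≤ ∑' x, if p x ≤ th then p x else 0 := by
  classical
  set A : Set ℝ≥0∞ := {x | (∑' y, if p y < x then p y else 0) ≤ u} with hA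
  have h0 : (0 : ℝ≥0∞) ∈ A := by simp [hA]
  set th := sSup A with hth
  have hmem : (∑' y, if p y < th then p y else 0) ≤ u := by
    rw [ENNReal.tsum_eq_iSup_sum]
    refine iSup_le fun s => ?_
    -- choose x ∈ A above all `p y < th`, `y ∈ s`
    have : ∃ x ∈ A, ∀ y ∈ s, p y < th → p y < x := by
      induction s using Finset.induction_on with
      | empty => exact ⟨0, h0, by simp⟩
      | insert a s ha ih =>
        obtain ⟨x, hx, hxs⟩ := ih
        by_cases h : p a < th
        · obtain ⟨x', hx', hlt⟩ := lt_sSup_iff.1 h
          rcases le_total x x' with hle | hle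
          · refine ⟨x', hx', fun y hy hyt => ?_⟩
            rcases Finset.mem_insert.1 hy with rfl | hy
            · exact hlt
            · exact (hxs y hy hyt).trans_le hle
          · refine ⟨x, hx, fun y hy hyt => ?_⟩
            rcases Finset.mem_insert.1 hy with rfl | hy
            · exact hlt.trans_le hle
            · exact hxs y hy hyt
        · refine ⟨x, hx, fun y hy hyt => ?_⟩
          rcases Finset.mem_insert.1 hy with rfl | hy
          · exact absurd hyt h
          · exact hxs y hy hyt
    obtain ⟨x, hx, hxs⟩ := this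
    calc ∑ y ∈ s, (if p y < th then p y else 0) ≤ ∑ y ∈ s, (if p y < x then p y else 0) := by
          refine Finset.sum_le_sum fun y hy => ?_
          split_ifs with h1 h2 h2
          · exact le_rfl
          · exact absurd (hxs y hy h1) h2
          · exact zero_le
          · exact le_rfl
      _ ≤ ∑' y, (if p y < x then p y else 0) := ENNReal.sum_le_tsum s
      _ ≤ u := hx
  have hbig : ∀ x, th < x → u < ∑' y, (if p y < x then p y else 0) := by
    intro x hx
    by_contra hcon
    exact absurd (le_sSup (show x ∈ A from not_lt.1 hcon)) (not_le.2 hx)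
  have hple : ∀ y, p y ≤ 1 := fun y => (ENNReal.le_tsum y).trans_eq h1
  have hth1 : th ≤ 1 := by
    by_contra hcon
    rw [not_le] at hcon
    have : ∑' y, (if p y < th then p y else 0) = 1 := by
      rw [← h1]
      exact tsum_congr fun y => if_pos ((hple y).trans_lt hcon)
    rw [this] at hmem
    exact absurd hmem (not_le.2 hu1)
  have hth0 : th ≠ 0 := by
    intro h
    -- a finite set carrying more than `1 - u`
    have h2 : 1 - u < ∑' x, p x := by
      rw [h1]
      exact ENNReal.sub_lt_self ENNReal.one_ne_top one_ne_zero hu0
    rw [ENNReal.tsum_eq_iSup_sum, lt_iSup_iff] at h2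
    obtain ⟨s, hs⟩ := h2
    -- x below all positive `p y`, `y ∈ s`
    have : ∃ x, 0 < x ∧ ∀ y ∈ s, p y ≠ 0 → x ≤ p y := by
      clear hs
      induction s using Finset.induction_on with
      | empty => exact ⟨1, one_pos, by simp⟩
      | insert a s ha ih =>
        obtain ⟨x, hx, hxs⟩ := ih
        by_cases h : p a = 0
        · refine ⟨x, hx, fun y hy hy0 => ?_⟩
          rcases Finset.mem_insert.1 hy with rfl | hy
          · exact absurd h hy0
          · exact hxs y hy hy0
        · refine ⟨min x (p a), lt_min hx (pos_iff_ne_zero.2 h), fun y hy hy0 => ?_⟩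
          rcases Finset.mem_insert.1 hy with rfl | hy
          · exact min_le_right _ _
          · exact (min_le_left _ _).trans (hxs y hy hy0)
    obtain ⟨x, hx, hxs⟩ := this
    have h3 := hbig x (by rw [h]; exact hx)
    have h4 : (∑' y, if p y < x then p y else 0) + ∑ y ∈ s, p y ≤ 1 := by
      rw [← h1]
      have : ∑ y ∈ s, p y = ∑' y, (if y ∈ s then p y else 0) := by
        rw [tsum_eq_sum (s := s)]
        · exact Finset.sum_congr rfl fun y hy => (if_pos hy).symm
        · intro y hy; exact if_neg hy
      rw [this, ← ENNReal.tsum_add]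
      refine ENNReal.tsum_le_tsum fun y => ?_
      by_cases hy : y ∈ s
      · by_cases hy0 : p y = 0
        · simp [hy0]
        · have := hxs y hy hy0
          rw [if_neg (not_lt.2 this), if_pos hy, zero_add]
      · rw [if_neg hy, add_zero]
        split_ifs <;> simp
    have h5 : u + (1 - u) < 1 := lt_of_lt_of_le (ENNReal.add_lt_add h3 hs) h4
    rw [add_tsub_cancel_of_le hu1.le] at h5
    exact lt_irrefl _ h5
  refine ⟨th, hth0, hth1, hmem, ?_⟩
  -- `{p > th}` is finite: nothing between `th` and the next value
  have hfin : {y | th < p y}.Finite :=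
    (ENNReal.finite_const_le_of_tsum_ne_top (by rw [h1]; exact ENNReal.one_ne_top) hth0).subset
      fun y hy => le_of_lt (show th < p y from hy)
  have : ∃ x, th < x ∧ ∀ y, th < p y → x ≤ p y := by
    have key : ∀ s : Finset ι, ∃ x, th < x ∧ ∀ y ∈ s, th < p y → x ≤ p y := by
      intro s
      induction s using Finset.induction_on with
      | empty => exact ⟨⊤, lt_of_le_of_lt hth1 ENNReal.one_lt_top, by simp⟩
      | insert a s ha ih =>
        obtain ⟨x, hx, hxs⟩ := ih
        by_cases h : th < p a
        · refine ⟨min x (p a), lt_min hx h, fun y hy hyt => ?_⟩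
          rcases Finset.mem_insert.1 hy with rfl | hy
          · exact min_le_right _ _
          · exact (min_le_left _ _).trans (hxs y hy hyt)
        · refine ⟨x, hx, fun y hy hyt => ?_⟩
          rcases Finset.mem_insert.1 hy with rfl | hy
          · exact absurd hyt h
          · exact hxs y hy hyt
    obtain ⟨x, hx, hxs⟩ := key hfin.toFinset
    exact ⟨x, hx, fun y hy => hxs y (hfin.mem_toFinset.2 hy) hy⟩
  obtain ⟨x, hx, hxs⟩ := this
  refine (hbig x hx).le.trans (ENNReal.tsum_le_tsum fun y => ?_)
  by_cases h : p y ≤ th
  · rw [if_pos h]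
    split_ifs <;> simp
  · rw [if_neg h, if_neg (not_lt.2 (hxs y (not_le.1 h)))]

end Crest.Agent.R154.Dens616
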