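import Crest.Agent.R154.B5Abs_566

/-! Row 154, T0219, road 801 (helper460): first passages and the smooth density on block lists.

Letters of `B5Abs_566` (`Λ : B → ℝ≥0∞`, `ht : B → ℕ`, `LW`, `HT`, `U`, `tail`), any block type;
`dz : B → G` = displacement of a block.

* `FP ht a L`   : `L` is the first passage list of depth `a`;
* `fp_split`, `fp_two`, `fp_mass` : decompositions;
* `overshoot`   : `≤ ∑' j, tail (i0 + 1 + j)`, which tends to `0` (`eps1_tendsto`);
* `dens`, `nonsmooth` : 801 (1). -/

set_option autoImplicit false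

namespace Crest.Agent.R154.LD460

open scoped ENNReal Topology
open Filter
open Crest.Agent.R154.B5A

variable {B : Type*} (Λ : B → ℝ≥0∞) (ht : B → ℕ)

/-- first passage lists of depth `a` -/
def FP : ℕ → List B → Prop
  | a, [] => a = 0
  | a, b :: L => 0 < a ∧ FP (a - ht b) L

/-- first passage part -/
def tp : ℕ → List B → List B
  | _, [] => []
  | a, b :: L => if a = 0 then [] else b :: tp (a - ht b) L

/-- the rest -/
def rs : ℕ → List B → List B
  | _, [] => []
  | a, b :: L => if a = 0 then b :: L else rs (a - ht b) L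

variable {ht}

lemma tp_rs (a : ℕ) (L : List B) : tp ht a L ++ rs ht a L = L := by
  induction L generalizing a with
  | nil => rfl
  | cons b L ih =>
    by_cases h : a = 0
    · simp [tp, rs, h]
    · simp [tp, rs, h, ih]

lemma fp_tp (a : ℕ) (L : List B) : FP ht a (tp ht a L) ↔ a ≤ HT ht L := by
  induction L generalizing a with
  | nil => simp [tp, FP, HT_nil]
  | cons b L ih =>
    rw [HT_cons]
    by_cases h : a = 0
    · simp [tp, FP, h]
    · simp only [tp, h, if_false, FP, ih]
      constructor
      · rintro ⟨_, h2⟩; omega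
      · intro h2; exact ⟨Nat.pos_of_ne_zero h, by omega⟩

lemma tp_of_fp {a : ℕ} {L1 : List B} (h : FP ht a L1) (L2 : List B) :
    tp ht a (L1 ++ L2) = L1 ∧ rs ht a (L1 ++ L2) = L2 := by
  induction L1 generalizing a with
  | nil =>
    have h0 : a = 0 := h
    subst h0
    cases L2 with
    | nil => simp [tp, rs]
    | cons b L => simp [tp, rs]
  | cons b L1 ih =>
    obtain ⟨h1, h2⟩ := h
    have h0 : a ≠ 0 := by omega
    have := ih h2
    simp only [List.cons_append, tp, rs, h0, if_false, this.1, this.2, and_self]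

lemma fp_le {a : ℕ} {L : List B} (h : FP ht a L) : a ≤ HT ht L := by
  induction L generalizing a with
  | nil => have : a = 0 := h; simp [this]
  | cons b L ih =>
    obtain ⟨h1, h2⟩ := h
    have := ih h2
    rw [HT_cons]; omega

lemma fp_zero {L : List B} : FP ht 0 L ↔ L = [] := by
  cases L with
  | nil => simp [FP]
  | cons b L => simp [FP]

lemma fp_append {T a : ℕ} {A R : List B} (hA : FP ht T A) (hT : T ≤ a) :
    FP ht a (A ++ R) ↔ FP ht (a - HT ht A) R := by
  induction A generalizing T a with
  | nil => simp [HT_nil]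
  | cons b A ih =>
    obtain ⟨h1, h2⟩ := hA
    rw [List.cons_append, FP, HT_cons, ih h2 (by omega), Nat.sub_sub]
    exact ⟨fun h => h.2, fun h => ⟨by omega, h⟩⟩

/-- prefix characterisation -/
lemma fp_iff (a : ℕ) (L : List B) :
    FP ht a L ↔ a ≤ HT ht L ∧ ∀ L1 L2, L = L1 ++ L2 → L2 ≠ [] → HT ht L1 < a := by
  induction L generalizing a with
  | nil =>
    simp only [FP, HT_nil]
    constructor
    · rintro rfl
      refine ⟨le_rfl, fun L1 L2 h h2 => ?_⟩
      exact absurd (List.append_eq_nil_iff.1 h.symm).2 h2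
    · rintro ⟨h, _⟩; omega
  | cons b L ih =>
    rw [FP, HT_cons, ih]
    constructor
    · rintro ⟨h1, h2, h3⟩
      refine ⟨by omega, fun L1 L2 h h4 => ?_⟩
      cases L1 with
      | nil => rw [HT_nil]; exact h1
      | cons b' L1 =>
        simp only [List.cons_append, List.cons.injEq] at h
        obtain ⟨rfl, rfl⟩ := h
        have := h3 L1 L2 rfl h4
        rw [HT_cons]; omega
    · rintro ⟨h1, h2⟩
      have h0 := h2 [] (b :: L) rfl (by simp)
      rw [HT_nil] at h0
      refine ⟨h0, by omega, fun L1 L2 h h4 => ?_⟩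
      have := h2 (b :: L1) L2 (by rw [h]; rfl) h4
      rw [HT_cons] at this; omega

open Classical in
/-- **first passage decomposition** -/
lemma fp_split (a : ℕ) (f : List B → ℝ≥0∞) :
    ∑' L, (if a ≤ HT ht L then f L else 0) =
      ∑' L1, if FP ht a L1 then ∑' L2, f (L1 ++ L2) else 0 := by
  have e1 : ∀ L1, (if FP ht a L1 then ∑' L2, f (L1 ++ L2) else 0) =
      ∑' L2, if FP ht a L1 then f (L1 ++ L2) else 0 := by
    intro L1
    by_cases h : FP ht a L1 <;> simp [h]
  simp_rw [e1]
  rw [← ENNReal.tsum_prod (f := fun L1 L2 => if FP ht a L1 then f (L1 ++ L2) else 0)]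
  set g : List B → List B × List B := fun L => (tp ht a L, rs ht a L) with hg
  have hinj : Function.Injective g := by
    intro L L' h
    simp only [hg, Prod.mk.injEq] at h
    rw [← tp_rs (ht := ht) a L, ← tp_rs (ht := ht) a L', h.1, h.2]
  have hs : Function.support (fun p : List B × List B => if FP ht a p.1 then f (p.1 ++ p.2) else 0)
      ⊆ Set.range g := by
    intro p hp
    have h1 : FP ht a p.1 := by
      by_contra hcon
      exact hp (by simp [hcon])
    obtain ⟨h2, h3⟩ := tp_of_fp h1 p.2
    exact ⟨p.1 ++ p.2, by simp [hg, h2, h3]⟩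
  rw [← hinj.tsum_eq hs]
  refine tsum_congr fun L => ?_
  simp only [hg, tp_rs, fp_tp]

open Classical in
/-- first passage of `a` through the first passage of `T ≤ a` -/
lemma fp_two {T a : ℕ} (hT : T ≤ a) (f : List B → ℝ≥0∞) :
    ∑' L, (if FP ht a L then f L else 0) =
      ∑' A, if FP ht T A then ∑' R, (if FP ht (a - HT ht A) R then f (A ++ R) else 0) else 0 := by
  have h1 : ∀ L, (if FP ht a L then f L else 0) =
      if T ≤ HT ht L then (if FP ht a L then f L else 0) else 0 := by
    intro L
    by_cases h : FP ht a L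
    · rw [if_pos (hT.trans (fp_le h))]
    · simp [h]
  rw [tsum_congr h1, fp_split]
  refine tsum_congr fun A => ?_
  by_cases h : FP ht T A
  · rw [if_pos h, if_pos h]
    refine tsum_congr fun R => ?_
    simp only [fp_append h hT]
  · rw [if_neg h, if_neg h]

open Classical in
lemma fp_cons (a : ℕ) (ha : 0 < a) (F : List B → ℝ≥0∞) :
    ∑' L, (if FP ht a L then LW Λ L * F L else 0) =
      ∑' b, Λ b * ∑' L, (if FP ht (a - ht b) L then LW Λ L * F (b :: L) else 0) := by
  rw [tsum_list]
  have h0 : ¬ FP ht a ([] : List B) := by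
    intro h; have : a = 0 := h; omega
  rw [if_neg h0, zero_add]
  refine tsum_congr fun b => ?_
  rw [← ENNReal.tsum_mul_left]
  refine tsum_congr fun L => ?_
  by_cases h : FP ht (a - ht b) L
  · have : FP ht a (b :: L) := ⟨ha, h⟩
    rw [if_pos this, if_pos h, LW_cons, mul_assoc]
  · have : ¬ FP ht a (b :: L) := fun h' => h h'.2
    rw [if_neg this, if_neg h, mul_zero]

variable (ht) in
open Classical in
/-- total mass of the first passages -/
lemma fp_mass (h1 : ∀ b, 1 ≤ ht b) (hΛ : ∑' b, Λ b ≤ 1) (a : ℕ) :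
    ∑' L, (if FP ht a L then LW Λ L else 0) ≤ 1 := by
  induction a using Nat.strong_induction_on with
  | _ a ih =>
    rcases Nat.eq_zero_or_pos a with h | h
    · subst h
      rw [tsum_eq_single []]
      · simp [FP, LW_nil]
      · intro L hL
        rw [if_neg (fun h' => hL (fp_zero.1 h'))]
    · have e := fp_cons Λ (ht := ht) a h (fun _ => 1)
      simp only [mul_one] at e
      rw [e]
      calc ∑' b, Λ b * ∑' L, (if FP ht (a - ht b) L then LW Λ L else 0)
          ≤ ∑' b, Λ b * 1 := ENNReal.tsum_le_tsum fun b => by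
            have := h1 b
            exact mul_le_mul_right (ih _ (by omega)) _
        _ ≤ 1 := by simpa using hΛ

/-! ### overshoot -/

variable (ht) in
open Classical in
/-- auxiliary sum -/
noncomputable def OR (i0 a : ℕ) : ℝ≥0∞ :=
  ∑' L, if HT ht L < a then LW Λ L * tail Λ ht (a - HT ht L + i0) else 0

variable (ht) in
open Classical in
lemma over_le_OR (h1 : ∀ b, 1 ≤ ht b) (i0 a : ℕ) :
    ∑' L, (if FP ht a L ∧ a + i0 < HT ht L then LW Λ L else 0) ≤ OR Λ ht i0 a := by
  induction a using Nat.strong_induction_on with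
  | _ a ih =>
    rcases Nat.eq_zero_or_pos a with h | h
    · subst h
      have : ∀ L, (if FP ht 0 L ∧ 0 + i0 < HT ht L then LW Λ L else 0) = 0 := by
        intro L
        rw [if_neg]
        rintro ⟨h2, h3⟩
        rw [fp_zero.1 h2, HT_nil] at h3
        omega
      rw [tsum_congr this, tsum_zero]
      exact zero_le
    · have e0 : ∀ L, (if FP ht a L ∧ a + i0 < HT ht L then LW Λ L else 0) =
          if FP ht a L then LW Λ L * (if a + i0 < HT ht L then 1 else 0) else 0 := by
        intro L
        by_cases h2 : FP ht a L <;> by_cases h3 : a + i0 < HT ht L <;> simp [h2, h3]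
      rw [tsum_congr e0, fp_cons Λ a h]
      have e2 : OR Λ ht i0 a = tail Λ ht (a + i0) +
          ∑' b, Λ b * (if ht b < a then OR Λ ht i0 (a - ht b) else 0) := by
        rw [OR, tsum_list]
        congr 1
        · rw [HT_nil, if_pos h, LW_nil, one_mul, Nat.sub_zero]
        · refine tsum_congr fun b => ?_
          by_cases hb : ht b < a
          · rw [if_pos hb, OR, ← ENNReal.tsum_mul_left]
            refine tsum_congr fun L => ?_
            rw [HT_cons]
            by_cases h3 : ht b + HT ht L < a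
            · rw [if_pos h3, if_pos (by omega), LW_cons, mul_assoc,
                show a - (ht b + HT ht L) = a - ht b - HT ht L by omega]
            · rw [if_neg h3, if_neg (by omega), mul_zero]
          · rw [if_neg hb, mul_zero, ENNReal.tsum_eq_zero]
            intro L
            rw [HT_cons, if_neg (by omega)]
      rw [e2, tail, ← ENNReal.tsum_add]
      refine ENNReal.tsum_le_tsum fun b => ?_
      by_cases hb : ht b < a
      · rw [if_pos hb]
        refine le_add_left (mul_le_mul_right ?_ _)
        refine le_trans (le_of_eq ?_) (ih (a - ht b) (by have := h1 b; omega))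
        refine tsum_congr fun L => ?_
        rw [HT_cons]
        by_cases h2 : FP ht (a - ht b) L
        · by_cases h3 : a + i0 < ht b + HT ht L
          · rw [if_pos h2, if_pos h3, if_pos ⟨h2, by omega⟩, mul_one]
          · rw [if_pos h2, if_neg h3, if_neg (by rintro ⟨_, h4⟩; omega), mul_zero]
        · simp [h2]
      · rw [if_neg hb, mul_zero, add_zero]
        have hz : a - ht b = 0 := by omega
        rw [hz, tsum_eq_single []]
        · rw [HT_cons, HT_nil, add_zero, LW_nil, one_mul, if_pos (show FP ht 0 ([] : List B) from rfl)]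
          by_cases h3 : a + i0 < ht b <;> simp [h3]
        · intro L hL
          rw [if_neg (fun h' => hL (fp_zero.1 h'))]

variable (ht) in
/-- bound of the overshoot -/
noncomputable def eps1 (i0 : ℕ) : ℝ≥0∞ := ∑' j, tail Λ ht (j + (i0 + 1))

variable (ht) in
open Classical in
lemma OR_le (hU1 : ∀ n, U Λ ht n ≤ 1) (i0 a : ℕ) : OR Λ ht i0 a ≤ eps1 Λ ht i0 := by
  have e : OR Λ ht i0 a = ∑ h ∈ Finset.range a, U Λ ht h * tail Λ ht (a - h + i0) := by
    simp only [U]
    simp_rw [← ENNReal.tsum_mul_right]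
    rw [← Summable.tsum_finsetSum (fun _ _ => ENNReal.summable), OR]
    refine tsum_congr fun L => ?_
    by_cases h : HT ht L < a
    · rw [if_pos h, Finset.sum_eq_single (HT ht L)]
      · simp
      · intro k _ hk
        rw [if_neg (fun h' => hk h'.symm), zero_mul]
      · intro h'; exact absurd (Finset.mem_range.2 h) h'
    · rw [if_neg h]
      symm
      refine Finset.sum_eq_zero fun k hk => ?_
      have := Finset.mem_range.1 hk
      rw [if_neg (by omega), zero_mul]
  rw [e, eps1]
  calc ∑ h ∈ Finset.range a, U Λ ht h * tail Λ ht (a - h + i0)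
      ≤ ∑ h ∈ Finset.range a, tail Λ ht (a - h + i0) :=
        Finset.sum_le_sum fun h _ => by
          simpa using mul_le_mul_left (hU1 h) (tail Λ ht (a - h + i0))
    _ = ∑ j ∈ Finset.range a, tail Λ ht (j + (i0 + 1)) := by
        rw [← Finset.sum_range_reflect]
        refine Finset.sum_congr rfl fun j hj => ?_
        have := Finset.mem_range.1 hj
        congr 1; omega
    _ ≤ _ := ENNReal.sum_le_tsum _

variable (ht) in
open Classical in
/-- **overshoot of a first passage** -/
theorem overshoot (h1 : ∀ b, 1 ≤ ht b) (hU1 : ∀ n, U Λ ht n ≤ 1) (i0 a : ℕ) :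
    ∑' L, (if FP ht a L ∧ a + i0 < HT ht L then LW Λ L else 0) ≤ eps1 Λ ht i0 :=
  (over_le_OR Λ ht h1 i0 a).trans (OR_le Λ ht hU1 i0 a)

variable (ht) in
theorem eps1_tendsto (h1 : ∀ b, 1 ≤ ht b) (c : ℝ≥0∞) (hc : c ≠ 0) (R : ℕ)
    (hU : ∀ n, R ≤ n → c ≤ U Λ ht n) (hU1 : ∀ n, U Λ ht n ≤ 1) :
    Tendsto (eps1 Λ ht) atTop (𝓝 0) := by
  have hcle : c ≤ 1 := (hU R le_rfl).trans (hU1 R)
  have hc' : c ≠ ⊤ := ne_top_of_le_ne_top ENNReal.one_ne_top hcle
  have hΛ : ∑' b, Λ b = 1 :=
    le_antisymm (mass_le_one Λ ht h1 hU1) (mass_ge_one Λ ht c hc R hU)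
  have hE : ∑' k, tail Λ ht k ≠ ⊤ := by
    rw [← sum_tail Λ ht hΛ]
    exact ne_top_of_le_ne_top (ENNReal.inv_ne_top.2 hc) (mean_le Λ ht h1 hΛ c hc hc' R hU)
  have h2 := ENNReal.tendsto_sum_nat_add (tail Λ ht) hE
  exact h2.comp (tendsto_add_atTop_nat 1)

/-! ### density -/

section Dens

variable {G : Type*} [AddCommGroup G] (dz : B → G)

/-- displacement of a list -/
def DZ (L : List B) : G := (L.map dz).sum

lemma DZ_append (L L' : List B) : DZ dz (L ++ L') = DZ dz L + DZ dz L' := by simp [DZ]

variable (ht) (T i0 : ℕ) (th : ℝ≥0∞)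

open Classical in
/-- law of one attempt of length `T` -/
noncomputable def pA (h : ℕ) (z : G) : ℝ≥0∞ :=
  ∑' L, if FP ht T L ∧ HT ht L = h ∧ DZ dz L = z then LW Λ L else 0

/-- special attempts -/
def Sp (A : List B) : Prop :=
  FP ht T A ∧ HT ht A ≤ T + i0 ∧ pA Λ ht dz T (HT ht A) (DZ dz A) ≤ th

/-- one of the first `J` attempts (of a first passage list of depth `a`) is special -/
def Sm : ℕ → ℕ → List B → Prop
  | 0, _, _ => False
  | J + 1, a, L => T ≤ a ∧
      (Sp Λ ht dz T i0 th (tp ht T L) ∨ Sm J (a - HT ht (tp ht T L)) (rs ht T L))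

lemma sm_append {A : List B} (hA : FP ht T A) (J a : ℕ) (R : List B) (hT : T ≤ a) :
    Sm Λ ht dz T i0 th (J + 1) a (A ++ R) ↔
      (Sp Λ ht dz T i0 th A ∨ Sm Λ ht dz T i0 th J (a - HT ht A) R) := by
  obtain ⟨h1, h2⟩ := tp_of_fp hA R
  rw [Sm, h1, h2]
  exact ⟨fun h => h.2, fun h => ⟨hT, h⟩⟩

open Classical in
/-- special part: grouped by height and displacement -/
lemma special_le (h1 : ∀ b, 1 ≤ ht b) (hΛ : ∑' b, Λ b ≤ 1) (a h : ℕ) (z : G) :
    ∑' A, (if Sp Λ ht dz T i0 th A then LW Λ A *
      ∑' R, (if FP ht (a - HT ht A) R ∧ HT ht A + HT ht R = h ∧ DZ dz A + DZ dz R = z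
        then LW Λ R else 0) else 0) ≤ (i0 + 1 : ℕ) * th := by
  set r : ℕ → G → ℝ≥0∞ := fun h' z' =>
    ∑' R, (if FP ht (a - h') R ∧ h' + HT ht R = h ∧ z' + DZ dz R = z then LW Λ R else 0) with hr
  have e1 : ∀ A, (if Sp Λ ht dz T i0 th A then LW Λ A * r (HT ht A) (DZ dz A) else 0) =
      ∑ h' ∈ Finset.Icc T (T + i0), ∑' z' : G,
        (if Sp Λ ht dz T i0 th A ∧ HT ht A = h' ∧ DZ dz A = z' then LW Λ A else 0) * r h' z' := by
    intro A
    by_cases hA : Sp Λ ht dz T i0 th A
    · rw [if_pos hA, Finset.sum_eq_single (HT ht A)]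
      · rw [tsum_eq_single (DZ dz A)]
        · simp [hA]
        · intro z' hz'
          rw [if_neg (fun h' => hz' h'.2.2.symm), zero_mul]
      · intro h' _ hne
        rw [ENNReal.tsum_eq_zero]
        intro z'
        rw [if_neg (fun h'' => hne h''.2.1.symm), zero_mul]
      · intro hcon
        exact absurd (Finset.mem_Icc.2 ⟨fp_le hA.1, hA.2.1⟩) hcon
    · simp [hA]
  calc ∑' A, (if Sp Λ ht dz T i0 th A then LW Λ A * r (HT ht A) (DZ dz A) else 0)
      = ∑ h' ∈ Finset.Icc T (T + i0), ∑' z' : G,
          (∑' A, if Sp Λ ht dz T i0 th A ∧ HT ht A = h' ∧ DZ dz A = z' then LW Λ A else 0) *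
            r h' z' := by
        rw [tsum_congr e1, Summable.tsum_finsetSum (fun _ _ => ENNReal.summable)]
        refine Finset.sum_congr rfl fun h' _ => ?_
        rw [ENNReal.tsum_comm]
        refine tsum_congr fun z' => ?_
        rw [ENNReal.tsum_mul_right]
    _ ≤ ∑ h' ∈ Finset.Icc T (T + i0), th := by
        refine Finset.sum_le_sum fun h' _ => ?_
        have hb : ∀ z' : G, (∑' A, if Sp Λ ht dz T i0 th A ∧ HT ht A = h' ∧ DZ dz A = z'
            then LW Λ A else 0) ≤ th := by
          intro z'
          by_cases hex : ∃ A, Sp Λ ht dz T i0 th A ∧ HT ht A = h' ∧ DZ dz A = z'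
          · obtain ⟨A, hA, hA1, hA2⟩ := hex
            refine le_trans (ENNReal.tsum_le_tsum fun A' => ?_) (hA1 ▸ hA2 ▸ hA.2.2)
            by_cases h3 : Sp Λ ht dz T i0 th A' ∧ HT ht A' = h' ∧ DZ dz A' = z'
            · rw [if_pos h3, if_pos ⟨h3.1.1, h3.2.1, h3.2.2⟩]
            · rw [if_neg h3]; exact zero_le
          · have : ∀ A, (if Sp Λ ht dz T i0 th A ∧ HT ht A = h' ∧ DZ dz A = z'
                then LW Λ A else 0) = 0 := fun A => if_neg fun h3 => hex ⟨A, h3⟩
            rw [tsum_congr this, tsum_zero]; exact zero_le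
        calc ∑' z' : G, (∑' A, if Sp Λ ht dz T i0 th A ∧ HT ht A = h' ∧ DZ dz A = z'
              then LW Λ A else 0) * r h' z' ≤ ∑' z' : G, th * r h' z' :=
              ENNReal.tsum_le_tsum fun z' => mul_le_mul_left (hb z') _
          _ = th * ∑' z' : G, r h' z' := ENNReal.tsum_mul_left
          _ ≤ th * 1 := by
              refine mul_le_mul_right ?_ _
              rw [hr]
              simp only
              rw [ENNReal.tsum_comm]
              refine le_trans (ENNReal.tsum_le_tsum fun R => ?_) (fp_mass Λ ht h1 hΛ (a - h'))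
              rw [tsum_eq_single (z - DZ dz R)]
              · by_cases h3 : FP ht (a - h') R
                · rw [if_pos h3]
                  split_ifs
                  · exact le_rfl
                  · exact zero_le
                · simp [h3]
              · intro z' hz'
                rw [if_neg]
                rintro ⟨_, _, h4⟩
                exact hz' (by rw [← h4]; abel)
          _ = th := mul_one th
    _ = (i0 + 1 : ℕ) * th := by
        rw [Finset.sum_const, Nat.card_Icc, nsmul_eq_mul]
        congr 2; omega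

open Classical in
/-- mass of the non special attempts -/
lemma nonspecial_le (h1 : ∀ b, 1 ≤ ht b) (hΛ : ∑' b, Λ b ≤ 1) {s : ℝ≥0∞} (hs1 : s ≤ 1)
    (hs : s ≤ ∑' A, if Sp Λ ht dz T i0 th A then LW Λ A else 0) :
    ∑' A, (if FP ht T A ∧ ¬ Sp Λ ht dz T i0 th A then LW Λ A else 0) ≤ 1 - s := by
  refine ENNReal.le_sub_of_add_le_right (ne_top_of_le_ne_top ENNReal.one_ne_top hs1) ?_
  refine (add_le_add le_rfl hs).trans ?_
  rw [← ENNReal.tsum_add]
  refine le_trans (ENNReal.tsum_le_tsum fun A => ?_) (fp_mass Λ ht h1 hΛ T)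
  by_cases h2 : FP ht T A
  · by_cases h3 : Sp Λ ht dz T i0 th A
    · simp [h2, h3]
    · simp [h2, h3]
  · have h3 : ¬ Sp Λ ht dz T i0 th A := fun h => h2 h.1
    simp [h2, h3]

open Classical in
/-- **smooth density** (801 (1)): uniform in the passage depth `a`, the height `h`, `z`, `J`. -/
theorem dens (h1 : ∀ b, 1 ≤ ht b) (hΛ : ∑' b, Λ b ≤ 1) {s : ℝ≥0∞} (hs0 : s ≠ 0) (hs1 : s ≤ 1)
    (hs : s ≤ ∑' A, if Sp Λ ht dz T i0 th A then LW Λ A else 0) (J a h : ℕ) (z : G) :
    ∑' L, (if FP ht a L ∧ HT ht L = h ∧ DZ dz L = z ∧ Sm Λ ht dz T i0 th J a L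
      then LW Λ L else 0) ≤ (i0 + 1 : ℕ) * th / s := by
  set C : ℝ≥0∞ := (i0 + 1 : ℕ) * th / s with hC
  have hst : s ≠ ⊤ := ne_top_of_le_ne_top ENNReal.one_ne_top hs1
  have hCs : (i0 + 1 : ℕ) * th + (1 - s) * C = C := by
    have h2 : (i0 + 1 : ℕ) * th = s * C := by rw [hC, ENNReal.mul_div_cancel hs0 hst]
    rw [h2, ← add_mul, add_tsub_cancel_of_le hs1, one_mul]
  induction J generalizing a h z with
  | zero =>
    have : ∀ L, (if FP ht a L ∧ HT ht L = h ∧ DZ dz L = z ∧ Sm Λ ht dz T i0 th 0 a L
      then LW Λ L else 0) = 0 := fun L => if_neg fun h' => h'.2.2.2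
    rw [tsum_congr this, tsum_zero]; exact zero_le
  | succ J ih =>
    by_cases hT : T ≤ a
    · have e1 : ∀ L, (if FP ht a L ∧ HT ht L = h ∧ DZ dz L = z ∧
          Sm Λ ht dz T i0 th (J + 1) a L then LW Λ L else 0) =
          if FP ht a L then (if HT ht L = h ∧ DZ dz L = z ∧
          Sm Λ ht dz T i0 th (J + 1) a L then LW Λ L else 0) else 0 := by
        intro L
        by_cases h2 : FP ht a L <;> simp [h2]
      rw [tsum_congr e1, fp_two hT]
      refine le_trans (ENNReal.tsum_le_tsum (g := fun A =>
        (if Sp Λ ht dz T i0 th A then LW Λ A *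
          ∑' R, (if FP ht (a - HT ht A) R ∧ HT ht A + HT ht R = h ∧ DZ dz A + DZ dz R = z
            then LW Λ R else 0) else 0) +
        (if FP ht T A ∧ ¬ Sp Λ ht dz T i0 th A then LW Λ A else 0) * C) fun A => ?_) ?_
      · by_cases hA : FP ht T A
        · rw [if_pos hA]
          by_cases hS : Sp Λ ht dz T i0 th A
          · rw [if_pos hS]
            refine le_add_right ?_
            rw [← ENNReal.tsum_mul_left]
            refine ENNReal.tsum_le_tsum fun R => ?_
            rw [HT_append, DZ_append, LW_append]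
            by_cases h3 : FP ht (a - HT ht A) R
            · by_cases h4 : HT ht A + HT ht R = h ∧ DZ dz A + DZ dz R = z
              · have h5 : FP ht (a - HT ht A) R ∧ HT ht A + HT ht R = h ∧
                    DZ dz A + DZ dz R = z := ⟨h3, h4⟩
                rw [if_pos h3, if_pos h5]
                split_ifs
                · exact le_rfl
                · exact zero_le
              · rw [if_pos h3, if_neg (fun h5 => h4 ⟨h5.1, h5.2.1⟩)]; exact zero_le
            · rw [if_neg h3]; exact zero_le
          · rw [if_neg hS, zero_add, if_pos ⟨hA, hS⟩]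
            refine le_trans ?_ (mul_le_mul_right (ih (a - HT ht A) (h - HT ht A)
              (z - DZ dz A)) (LW Λ A))
            rw [← ENNReal.tsum_mul_left]
            refine ENNReal.tsum_le_tsum fun R => ?_
            rw [HT_append, DZ_append, LW_append, sm_append Λ ht dz T i0 th hA J a R hT]
            by_cases h3 : FP ht (a - HT ht A) R
            · rw [if_pos h3]
              by_cases h4 : HT ht A + HT ht R = h ∧ DZ dz A + DZ dz R = z ∧
                  (Sp Λ ht dz T i0 th A ∨ Sm Λ ht dz T i0 th J (a - HT ht A) R)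
              · rw [if_pos h4, if_pos ⟨h3, by omega, by rw [← h4.2.1]; abel,
                  h4.2.2.resolve_left hS⟩]
              · rw [if_neg h4]; exact zero_le
            · rw [if_neg h3]; exact zero_le
        · rw [if_neg hA]; exact zero_le
      · rw [ENNReal.tsum_add, ENNReal.tsum_mul_right]
        refine le_trans (add_le_add (special_le Λ ht dz T i0 th h1 hΛ a h z)
          (mul_le_mul_left (nonspecial_le Λ ht dz T i0 th h1 hΛ hs1 hs) C)) (le_of_eq hCs)
    · have : ∀ L, (if FP ht a L ∧ HT ht L = h ∧ DZ dz L = z ∧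
          Sm Λ ht dz T i0 th (J + 1) a L then LW Λ L else 0) = 0 :=
        fun L => if_neg fun h' => hT h'.2.2.2.1
      rw [tsum_congr this, tsum_zero]; exact zero_le

open Classical in
/-- **no special attempt** among the first `J` -/
theorem nonsmooth (h1 : ∀ b, 1 ≤ ht b) (hU1 : ∀ n, U Λ ht n ≤ 1) {s : ℝ≥0∞} (hs1 : s ≤ 1)
    (hs : s ≤ ∑' A, if Sp Λ ht dz T i0 th A then LW Λ A else 0) (J a : ℕ)
    (ha : J * (T + i0) ≤ a) :
    ∑' L, (if FP ht a L ∧ ¬ Sm Λ ht dz T i0 th J a L then LW Λ L else 0) ≤
      (1 - s) ^ J + J * eps1 Λ ht i0 := by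
  have hΛ : ∑' b, Λ b ≤ 1 := mass_le_one Λ ht h1 hU1
  induction J generalizing a with
  | zero =>
    simp only [pow_zero, Nat.cast_zero, zero_mul, add_zero]
    refine le_trans (ENNReal.tsum_le_tsum fun L => ?_) (fp_mass Λ ht h1 hΛ a)
    by_cases h2 : FP ht a L
    · rw [if_pos h2]; split_ifs
      · exact le_rfl
      · exact zero_le
    · simp [h2]
  | succ J ih =>
    have hT : T ≤ a := by
      have : T + i0 ≤ (J + 1) * (T + i0) := Nat.le_mul_of_pos_left _ (Nat.succ_pos J)
      omega
    set D : ℝ≥0∞ := (1 - s) ^ J + J * eps1 Λ ht i0 with hD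
    have e1 : ∀ L, (if FP ht a L ∧ ¬ Sm Λ ht dz T i0 th (J + 1) a L then LW Λ L else 0) =
        if FP ht a L then (if ¬ Sm Λ ht dz T i0 th (J + 1) a L then LW Λ L else 0) else 0 := by
      intro L
      by_cases h2 : FP ht a L <;> simp [h2]
    rw [tsum_congr e1, fp_two hT]
    refine le_trans (ENNReal.tsum_le_tsum (g := fun A =>
      (if FP ht T A ∧ ¬ Sp Λ ht dz T i0 th A then LW Λ A else 0) * D +
      (if FP ht T A ∧ T + i0 < HT ht A then LW Λ A else 0)) fun A => ?_) ?_
    · by_cases hA : FP ht T A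
      · rw [if_pos hA]
        by_cases hS : Sp Λ ht dz T i0 th A
        · have : ∀ R, (if FP ht (a - HT ht A) R then
              (if ¬ Sm Λ ht dz T i0 th (J + 1) a (A ++ R) then LW Λ (A ++ R) else 0) else 0)
              = 0 := by
            intro R
            have : Sm Λ ht dz T i0 th (J + 1) a (A ++ R) :=
              (sm_append Λ ht dz T i0 th hA J a R hT).2 (Or.inl hS)
            simp [this]
          rw [tsum_congr this, tsum_zero]; exact zero_le
        · have e2 : ∀ R, (if FP ht (a - HT ht A) R then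
              (if ¬ Sm Λ ht dz T i0 th (J + 1) a (A ++ R) then LW Λ (A ++ R) else 0) else 0)
              = LW Λ A * (if FP ht (a - HT ht A) R ∧
                ¬ Sm Λ ht dz T i0 th J (a - HT ht A) R then LW Λ R else 0) := by
            intro R
            rw [sm_append Λ ht dz T i0 th hA J a R hT, LW_append]
            by_cases h3 : FP ht (a - HT ht A) R <;>
              by_cases h4 : Sm Λ ht dz T i0 th J (a - HT ht A) R <;> simp [h3, h4, hS]
          rw [tsum_congr e2, ENNReal.tsum_mul_left, if_pos ⟨hA, hS⟩]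
          by_cases h5 : T + i0 < HT ht A
          · rw [if_pos ⟨hA, h5⟩]
            refine le_add_left ?_
            calc LW Λ A * ∑' R, (if FP ht (a - HT ht A) R ∧
                  ¬ Sm Λ ht dz T i0 th J (a - HT ht A) R then LW Λ R else 0)
                ≤ LW Λ A * 1 := by
                  refine mul_le_mul_right (le_trans (ENNReal.tsum_le_tsum fun R => ?_)
                    (fp_mass Λ ht h1 hΛ (a - HT ht A))) _
                  by_cases h2 : FP ht (a - HT ht A) R
                  · rw [if_pos h2]; split_ifs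
                    · exact le_rfl
                    · exact zero_le
                  · simp [h2]
              _ = LW Λ A := mul_one _
          · refine le_add_right (mul_le_mul_right (ih (a - HT ht A) ?_) _)
            have h6 : (J + 1) * (T + i0) = J * (T + i0) + (T + i0) := by ring
            omega
      · rw [if_neg hA]; exact zero_le
    · rw [ENNReal.tsum_add, ENNReal.tsum_mul_right]
      refine le_trans (add_le_add (mul_le_mul_left
        (nonspecial_le Λ ht dz T i0 th h1 hΛ hs1 hs) D)
        (overshoot Λ ht h1 hU1 i0 T)) ?_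
      calc (1 - s) * D + eps1 Λ ht i0
          = (1 - s) ^ (J + 1) + (1 - s) * (J * eps1 Λ ht i0) + eps1 Λ ht i0 := by
            rw [hD, mul_add, pow_succ']
        _ ≤ (1 - s) ^ (J + 1) + 1 * (J * eps1 Λ ht i0) + eps1 Λ ht i0 := by
            gcongr
            exact tsub_le_self
        _ = (1 - s) ^ (J + 1) + ((J + 1 : ℕ) : ℝ≥0∞) * eps1 Λ ht i0 := by
            push_cast; ring

end Dens

end Crest.Agent.R154.LD460
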