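import Crest.Agent.R154.Asm2_66
import Crest.Agent.R154.ListDens_460
import Crest.Agent.R154.Dens_616

/-! Row 154 (helper66), ROAD 801: assembly, part 3 (density package; one window). -/

set_option autoImplicit false

namespace Crest.Agent.R154.Asm66

open scoped ENNReal
open Crest.Agent.R154.B5A Crest.Agent.R154.FP178

section pack
variable {B G : Type*} [AddCommGroup G] (Λ : B → ℝ≥0∞) (ht : B → ℕ) (z : B → G)

lemma FP_iff_fp (a : ℕ) (L : List B) : LD460.FP ht a L ↔ fp ht a L := by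
  induction L generalizing a with
  | nil => exact Iff.rfl
  | cons b L ih =>
    rw [fp_cons, LD460.FP, ih]

open Classical in
theorem fp_mass_eq (h1 : ∀ b, 1 ≤ ht b) (hΛ : ∑' b, Λ b = 1) (a : ℕ) :
    ∑' L, (if fp ht a L then LW Λ L else 0) = 1 := by
  induction a using Nat.strong_induction_on with
  | _ a ih =>
    rcases Nat.eq_zero_or_pos a with rfl | ha
    · have := sum_fp_zero Λ ht (fun _ => 1)
      simp only [mul_one] at this
      exact this
    · have := sum_fp_step Λ ht a ha (fun _ => 1)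
      simp only [mul_one] at this
      rw [this]
      calc ∑' b, Λ b * ∑' L, (if fp ht (a - ht b) L then LW Λ L else 0)
          = ∑' b, Λ b := by
            refine tsum_congr fun b => ?_
            rw [ih (a - ht b) (by have := h1 b; omega), mul_one]
        _ = 1 := hΛ

open Classical in
lemma sum_pA (T : ℕ) (Q : ℕ → G → Prop) :
    ∑' x : ℕ × G, (if Q x.1 x.2 then LD460.pA Λ ht z T x.1 x.2 else 0)
      = ∑' L, (if fp ht T L ∧ Q (HT ht L) (Dp z L) then LW Λ L else 0) := by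
  have e : ∀ x : ℕ × G, (if Q x.1 x.2 then LD460.pA Λ ht z T x.1 x.2 else 0)
      = ∑' L, (if (fp ht T L ∧ Q (HT ht L) (Dp z L)) ∧ x = (HT ht L, Dp z L) then LW Λ L else 0) := by
    intro x
    by_cases hQ : Q x.1 x.2
    · rw [if_pos hQ, LD460.pA]
      refine tsum_congr fun L => ?_
      by_cases h : LD460.FP ht T L ∧ HT ht L = x.1 ∧ LD460.DZ z L = x.2
      · rw [if_pos h, if_pos]
        obtain ⟨h1, h2, h3⟩ := h
        have h3' : Dp z L = x.2 := h3
        refine ⟨⟨(FP_iff_fp ht T L).1 h1, ?_⟩, Prod.ext h2.symm h3'.symm⟩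
        rw [h2, h3']; exact hQ
      · rw [if_neg h, if_neg]
        rintro ⟨⟨h1, _⟩, h3⟩
        refine h ⟨(FP_iff_fp ht T L).2 h1, ?_, ?_⟩
        · rw [h3]
        · rw [h3]; rfl
    · rw [if_neg hQ]
      refine (ENNReal.tsum_eq_zero.2 fun L => ?_).symm
      rw [if_neg]
      rintro ⟨⟨_, h2⟩, h3⟩
      rw [h3] at hQ
      exact hQ h2
  rw [tsum_congr e, ENNReal.tsum_comm]
  refine tsum_congr fun L => ?_
  rw [tsum_eq_single (HT ht L, Dp z L)]
  · simp
  · intro x hx
    rw [if_neg]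
    rintro ⟨_, h⟩
    exact hx h

open Classical in
/-- density package (460's `dens`, `nonsmooth`; 616's `quantile`) -/
theorem densP (h1 : ∀ b, 1 ≤ ht b) (hΛ : ∑' b, Λ b = 1) (hU1 : ∀ n, U Λ ht n ≤ 1)
    (u : ℝ≥0∞) (hu0 : u ≠ 0) (hu1 : u < 1) (i0 : ℕ) (hi0 : LD460.eps1 Λ ht i0 ≤ u / 2) (T : ℕ) :
    ∃ (th : ℝ≥0∞) (E : ℕ → Finset G), th ≠ 0 ∧ th ≤ 1 ∧ (∀ h, ((E h).card : ℝ≥0∞) * th ≤ 1) ∧
      (∑' L, (if fp ht T L ∧ HT ht L ≤ T + i0 ∧ Dp z L ∉ E (HT ht L) then LW Λ L else 0)) ≤ u ∧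
      ∀ J a, J * (T + i0) ≤ a → ∃ SS : List B → Prop,
        (∑' L, (if fp ht a L ∧ ¬ SS L then LW Λ L else 0)) ≤
          (1 - u / 2) ^ J + J * LD460.eps1 Λ ht i0 ∧
        ∀ h g, ∑' L, (if fp ht a L ∧ HT ht L = h ∧ Dp z L = g ∧ SS L then LW Λ L else 0)
          ≤ (i0 + 1 : ℕ) * th / (u / 2) := by
  set p : ℕ × G → ℝ≥0∞ := fun x => LD460.pA Λ ht z T x.1 x.2 with hp
  have hp1 : ∑' x, p x = 1 := by
    have := sum_pA Λ ht z T (fun _ _ => True)
    simp only [if_true, and_true] at this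
    rw [hp]
    simp only
    rw [this]
    exact fp_mass_eq Λ ht h1 hΛ T
  obtain ⟨th, hth0, hth1, hq1, hq2⟩ := Dens616.quantile p hp1 hu0 hu1
  have hrow : ∀ h, ∑' g, LD460.pA Λ ht z T h g ≤ 1 := by
    intro h
    rw [← hp1, hp, ENNReal.tsum_prod']
    exact ENNReal.le_tsum (f := fun h => ∑' g, LD460.pA Λ ht z T h g) h
  have hfin : ∀ h, {g | th ≤ LD460.pA Λ ht z T h g}.Finite := fun h =>
    Dens616.finite_local _ (ne_top_of_le_ne_top ENNReal.one_ne_top (hrow h)) hth0
  have hu2 : u / 2 ≠ 0 := by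
    rw [Ne, ENNReal.div_eq_zero_iff, not_or]
    exact ⟨hu0, by norm_num⟩
  have hu2' : u / 2 ≤ 1 := (ENNReal.half_le_self).trans hu1.le
  have hSp : u / 2 ≤ ∑' A, (if LD460.Sp Λ ht z T i0 th A then LW Λ A else 0) := by
    have h3 : u ≤ (∑' A, (if LD460.Sp Λ ht z T i0 th A then LW Λ A else 0)) + u / 2 := by
      have key : (∑' x, if p x ≤ th then p x else 0)
          = ∑' L, (if fp ht T L ∧ LD460.pA Λ ht z T (HT ht L) (Dp z L) ≤ th then LW Λ L else 0) := by
        refine ((tsum_congr fun x => ?_).trans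
          (sum_pA Λ ht z T (fun h g => LD460.pA Λ ht z T h g ≤ th))).trans
          (tsum_congr fun L => ?_)
        · by_cases h : LD460.pA Λ ht z T x.1 x.2 ≤ th
          · rw [if_pos (show p x ≤ th from h), if_pos h]
          · rw [if_neg (show ¬ p x ≤ th from h), if_neg h]
        · by_cases h : fp ht T L ∧ LD460.pA Λ ht z T (HT ht L) (Dp z L) ≤ th
          · rw [if_pos h, if_pos h]
          · rw [if_neg h, if_neg h]
      refine hq2.trans ?_
      rw [key]
      refine le_trans ?_ (add_le_add le_rfl ((LD460.overshoot Λ ht h1 hU1 i0 T).trans hi0))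
      rw [← ENNReal.tsum_add]
      refine ENNReal.tsum_le_tsum fun L => ?_
      by_cases hc : fp ht T L ∧ LD460.pA Λ ht z T (HT ht L) (Dp z L) ≤ th
      swap
      · rw [if_neg hc]; exact zero_le
      rw [if_pos hc]
      by_cases hh : HT ht L ≤ T + i0
      · rw [if_pos (show LD460.Sp Λ ht z T i0 th L from
          ⟨(FP_iff_fp ht T L).2 hc.1, hh, hc.2⟩)]
        exact le_self_add
      · rw [if_pos (show LD460.FP ht T L ∧ T + i0 < HT ht L from
          ⟨(FP_iff_fp ht T L).2 hc.1, by omega⟩)]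
        exact le_add_self
    have hne : u / 2 ≠ ⊤ := ne_top_of_le_ne_top ENNReal.one_ne_top hu2'
    have h4 : u / 2 + u / 2 ≤ (∑' A, (if LD460.Sp Λ ht z T i0 th A then LW Λ A else 0)) + u / 2 := by
      rw [ENNReal.add_halves]; exact h3
    exact (ENNReal.add_le_add_iff_right hne).1 h4
  refine ⟨th, fun h => (hfin h).toFinset, hth0, hth1, ?_, ?_, ?_⟩
  · intro h
    refine (Dens616.card_mul_le (fun g => LD460.pA Λ ht z T h g) th _ ?_).trans (hrow h)
    intro x hx
    exact (Set.Finite.mem_toFinset (hfin h)).1 hx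
  · have key : (∑' x, if p x < th then p x else 0)
          = ∑' L, (if fp ht T L ∧ LD460.pA Λ ht z T (HT ht L) (Dp z L) < th then LW Λ L else 0) := by
        refine ((tsum_congr fun x => ?_).trans
          (sum_pA Λ ht z T (fun h g => LD460.pA Λ ht z T h g < th))).trans
          (tsum_congr fun L => ?_)
        · by_cases h : LD460.pA Λ ht z T x.1 x.2 < th
          · rw [if_pos (show p x < th from h), if_pos h]
          · rw [if_neg (show ¬ p x < th from h), if_neg h]
        · by_cases h : fp ht T L ∧ LD460.pA Λ ht z T (HT ht L) (Dp z L) < th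
          · rw [if_pos h, if_pos h]
          · rw [if_neg h, if_neg h]
    refine le_trans ?_ hq1
    rw [key]
    refine ENNReal.tsum_le_tsum fun L => ?_
    by_cases hc : fp ht T L ∧ HT ht L ≤ T + i0 ∧ Dp z L ∉ (hfin (HT ht L)).toFinset
    · rw [if_pos hc, if_pos]
      refine ⟨hc.1, ?_⟩
      have := hc.2.2
      rw [Set.Finite.mem_toFinset] at this
      exact not_le.1 this
    · rw [if_neg hc]; exact zero_le
  · intro J a ha
    refine ⟨LD460.Sm Λ ht z T i0 th J a, ?_, ?_⟩
    · refine le_trans (le_of_eq ?_) (LD460.nonsmooth Λ ht z T i0 th h1 hU1 hu2' hSp J a ha)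
      refine tsum_congr fun L => ?_
      simp only [FP_iff_fp]
    · intro h g
      refine le_trans (le_of_eq ?_) (LD460.dens Λ ht z T i0 th h1 hΛ.le hu2 hu2' hSp J a h g)
      refine tsum_congr fun L => ?_
      simp only [FP_iff_fp]
      rfl

end pack

end Crest.Agent.R154.Asm66
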