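import Crest.Agent.R154.Asm2_678
import Crest.Agent.R154.Dens_903

/-! Row 154, ROAD 801 (helper678): assembly, part 3: quantile of the piece law, one window. -/

set_option autoImplicit false

namespace Crest.Agent.R154.Asm678

open scoped ENNReal
open Crest.Agent.R154.B5A Crest.Agent.R154.FP178
open Crest.Agent.R154.Bind12 (TT Dp)

section quant

variable {B G : Type*} [AddCommGroup G] {Λ : B → ℝ≥0∞} {ht : B → ℕ} (z : B → G)

lemma FS_one_eq (h1 : ∀ b, 1 ≤ ht b) (hΛ : ∑' b, Λ b = 1) (a : ℕ) :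
    FS Λ ht a (fun _ => 1) = 1 := by
  classical
  have e0 : ∀ a, FS Λ ht a (fun _ => 1) = ∑' L, (if fp ht a L then LW Λ L * 1 else 0) := by
    intro a
    refine tsum_congr fun L => ?_
    by_cases hL : fp ht a L <;> simp [fw, hL]
  rw [e0]
  induction a using Nat.strong_induction_on with
  | _ a ih =>
    rcases Nat.eq_zero_or_pos a with rfl | ha
    · exact sum_fp_zero Λ ht (fun _ => 1)
    · rw [sum_fp_step Λ ht a ha (fun _ => 1)]
      rw [tsum_congr fun b => by rw [ih (a - ht b) (by have := h1 b; omega)]]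
      simpa using hΛ

lemma sum_m_eq (h1 : ∀ b, 1 ≤ ht b) (hΛ : ∑' b, Λ b = 1) (a : ℕ) : ∑' v, m Λ ht z a v = 1 := by
  have h := regroup (Λ := Λ) (ht := ht) z a (fun _ => 1)
  simp only [mul_one] at h
  rw [← h]
  exact FS_one_eq h1 hΛ a

open Classical in
/-- quantile, local set, smoothness constants of one walker -/
theorem quant (h1 : ∀ b, 1 ≤ ht b) (hΛ : ∑' b, Λ b = 1) (T : ℕ) (u : ℝ≥0∞) (hu0 : u ≠ 0)
    (hu1 : u ≤ 1) : ∃ (th : ℝ≥0∞) (E : ℕ → Finset G), th ≤ 1 ∧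
      FS Λ ht T (fun P => if Dp z P ∈ E (HT ht P) then 0 else 1) ≤ u ∧
      FS Λ ht T (fun P => if th < m Λ ht z T (D ht z P) then 1 else 0) ≤ 1 - u ∧
      ∀ h, th * (E h).card ≤ 1 := by
  obtain ⟨th, hth0, hth1, hlow, hhigh⟩ := Dens903.quantile (m Λ ht z T) (sum_m_eq z h1 hΛ T) hu0 hu1
  have hfin : ∀ h : ℕ, {x : G | th ≤ m Λ ht z T ((h : ℤ), x)}.Finite := by
    intro h
    have hf := Dens903.finite_level (m Λ ht z T) (by rw [sum_m_eq z h1 hΛ T]; exact ENNReal.one_ne_top) hth0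
    refine Set.Finite.of_finite_image (f := fun x : G => (((h : ℤ), x) : ℤ × G)) (hf.subset ?_)
      (fun x _ y _ hxy => (Prod.mk.inj hxy).2)
    rintro _ ⟨x, hx, rfl⟩
    exact hx
  refine ⟨th, fun h => (hfin h).toFinset, hth1, ?_, ?_, ?_⟩
  · refine le_trans ?_ hlow
    have e := regroup (Λ := Λ) (ht := ht) z T (fun v => if m Λ ht z T v < th then 1 else 0)
    refine le_trans (le_of_eq ?_) (le_of_eq (e.trans ?_))
    · congr 1
      funext P
      have : Dp z P ∈ (hfin (HT ht P)).toFinset ↔ ¬ (m Λ ht z T (D ht z P) < th) := by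
        rw [Set.Finite.mem_toFinset, not_lt]
        exact Iff.rfl
      by_cases hc : m Λ ht z T (D ht z P) < th
      · rw [if_pos hc, if_neg (by rw [this]; exact fun h => h hc)]
      · rw [if_neg hc, if_pos (this.2 hc)]
    · refine tsum_congr fun v => ?_
      split_ifs <;> simp
  · have e := regroup (Λ := Λ) (ht := ht) z T (fun v => if th < m Λ ht z T v then 1 else 0)
    rw [e]
    have e2 : ∑' v, (if th < m Λ ht z T v then m Λ ht z T v else 0)
        + ∑' v, (if m Λ ht z T v ≤ th then m Λ ht z T v else 0) = 1 := by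
      rw [← ENNReal.tsum_add, ← sum_m_eq z h1 hΛ T]
      refine tsum_congr fun v => ?_
      by_cases hc : th < m Λ ht z T v
      · rw [if_pos hc, if_neg (not_le.2 hc), add_zero]
      · rw [if_neg hc, if_pos (not_lt.1 hc), zero_add]
    have e3 : ∑' v, (if th < m Λ ht z T v then m Λ ht z T v else 0) + u ≤ 1 := by
      rw [← e2]; exact add_le_add le_rfl hhigh
    refine le_trans (le_of_eq ?_) (ENNReal.le_sub_of_add_le_right
      (ne_top_of_le_ne_top ENNReal.one_ne_top hu1) e3)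
    refine tsum_congr fun v => ?_
    split_ifs <;> simp
  · intro h
    have e : th * ((hfin h).toFinset.card : ℝ≥0∞) ≤ ∑ x ∈ (hfin h).toFinset, m Λ ht z T ((h : ℤ), x) := by
      rw [mul_comm, ← nsmul_eq_mul, ← Finset.sum_const]
      refine Finset.sum_le_sum fun x hx => ?_
      rw [Set.Finite.mem_toFinset] at hx
      exact hx
    refine e.trans ?_
    calc ∑ x ∈ (hfin h).toFinset, m Λ ht z T ((h : ℤ), x) ≤ ∑' x, m Λ ht z T ((h : ℤ), x) :=
          ENNReal.sum_le_tsum _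
      _ ≤ ∑' v, m Λ ht z T v := ENNReal.tsum_comp_le_tsum_of_injective
              (fun x y h => (Prod.mk.inj h).2) (m Λ ht z T)
      _ = 1 := sum_m_eq z h1 hΛ T

end quant

section trace

variable {B G : Type*} [AddCommGroup G] (s : B → Set (G × ℕ)) (z : B → G) (h : B → ℕ)

lemma Dp_nil : Dp z ([] : List B) = 0 := rfl

lemma Dp_cons (b : B) (L : List B) : Dp z (b :: L) = z b + Dp z L := by simp [Dp]

lemma TT_append (L L' : List B) (x : G) (a : ℕ) :
    TT s z h (L ++ L') x a = TT s z h L x a ∪ TT s z h L' (x + Dp z L) (a + HT h L) := by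
  induction L generalizing x a with
  | nil => simp [TT, Dp, HT]
  | cons b L ih =>
    simp only [List.cons_append, TT]
    rw [ih, Dp_cons, HT_cons, Set.union_assoc, add_assoc, add_assoc]

lemma TT_depth (hs : ∀ b p, p ∈ s b → 1 ≤ p.2 ∧ p.2 ≤ h b) (L : List B) (x : G) (a : ℕ)
    (y : G) (k : ℕ) (hk : (y, k) ∈ TT s z h L x a) : a < k ∧ k ≤ a + HT h L := by
  induction L generalizing x a with
  | nil => exact absurd hk (by simp [TT])
  | cons b L ih =>
    rw [HT_cons]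
    rcases hk with ⟨q, hq, hqe⟩ | hk
    · have := hs b q hq
      have h2 : k = a + q.2 := (Prod.mk.inj hqe).2
      omega
    · have := ih _ _ hk
      omega

lemma TT_shift (L : List B) (x w : G) (a : ℕ) (y : G) (k : ℕ) :
    (y + w, k) ∈ TT s z h L (x + w) a ↔ (y, k) ∈ TT s z h L x a := by
  induction L generalizing x a with
  | nil => simp [TT]
  | cons b L ih =>
    have e : x + w + z b = x + z b + w := by abel
    simp only [TT, Set.mem_union, Set.mem_setOf_eq]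
    rw [e, ih]
    refine or_congr ?_ Iff.rfl
    constructor
    · rintro ⟨q, hq, hqe⟩
      refine ⟨q, hq, ?_⟩
      have h1 := (Prod.mk.inj hqe).1
      have h2 := (Prod.mk.inj hqe).2
      rw [Prod.mk.injEq]
      refine ⟨?_, h2⟩
      have : y + w = (x + q.1) + w := by rw [h1]; abel
      exact add_right_cancel this
    · rintro ⟨q, hq, hqe⟩
      refine ⟨q, hq, ?_⟩
      have h1 := (Prod.mk.inj hqe).1
      have h2 := (Prod.mk.inj hqe).2
      rw [Prod.mk.injEq]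
      refine ⟨?_, h2⟩
      rw [h1]; abel

end trace

section window

variable {BX BY G : Type*} [AddCommGroup G] (ΛX : BX → ℝ≥0∞) (ΛY : BY → ℝ≥0∞)
  (hX : BX → ℕ) (hY : BY → ℕ) (zX : BX → G) (zY : BY → G)
  (sX : BX → Set (G × ℕ)) (sY : BY → Set (G × ℕ))

/-- contact of two pieces, all contacts at depth in `[lo, hi]` -/
def Cont (lo hi : ℕ) (x : G) (a : ℕ) (P : List BX) (a' : ℕ) (P' : List BY) : Prop :=
  (∃ y k, (y, k) ∈ TT sX zX hX P 0 a ∧ (y, k) ∈ TT sY zY hY P' x a') ∧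
  (∀ y k, (y, k) ∈ TT sX zX hX P 0 a → (y, k) ∈ TT sY zY hY P' x a' → lo ≤ k ∧ k ≤ hi)

open Classical in
/-- window lemma, `X` local -/
def H2 (C : ℝ≥0∞) (us : ℕ → ℝ≥0∞) : Prop :=
  ∀ (s h h' a a' lo hi : ℕ) (E : Finset G) (μ : G → ℝ≥0∞) (M lam : ℝ≥0∞),
    ∑' x, μ x ≤ 1 → (∀ x, μ x ≤ M) → M ≠ ⊤ → lam ≠ 0 → lam ≠ ⊤ → a ≤ a' → a + h ≤ a' + h' →
    a' + s ≤ lo → a + s ≤ lo → hi + s ≤ a + h → hi + s ≤ a' + h' →
    ∑' x, μ x * ∑' L, ∑' L', (if HT hX L = h ∧ Dp zX L ∈ E ∧ HT hY L' = h' ∧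
      (∃ y k, (y, k) ∈ TT sX zX hX L 0 a ∧ (y, k) ∈ TT sY zY hY L' x a') ∧
      (∀ y k, (y, k) ∈ TT sX zX hX L 0 a → (y, k) ∈ TT sY zY hY L' x a' → lo ≤ k ∧ k ≤ hi)
      then LW ΛX L * LW ΛY L' else 0) ≤ C * (lam + M * E.card * us s / lam + us s)

open Classical in
/-- window lemma, `Y` local -/
def H3 (C : ℝ≥0∞) (us : ℕ → ℝ≥0∞) : Prop :=
  ∀ (s h h' a a' lo hi : ℕ) (E : Finset G) (μ : G → ℝ≥0∞) (M lam : ℝ≥0∞),
    ∑' x, μ x ≤ 1 → (∀ x, μ x ≤ M) → M ≠ ⊤ → lam ≠ 0 → lam ≠ ⊤ → a ≤ a' → a + h ≤ a' + h' →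
    a' + s ≤ lo → a + s ≤ lo → hi + s ≤ a + h → hi + s ≤ a' + h' →
    ∑' x, μ x * ∑' L, ∑' L', (if HT hX L = h ∧ Dp zY L' ∈ E ∧ HT hY L' = h' ∧
      (∃ y k, (y, k) ∈ TT sX zX hX L 0 a ∧ (y, k) ∈ TT sY zY hY L' x a') ∧
      (∀ y k, (y, k) ∈ TT sX zX hX L 0 a → (y, k) ∈ TT sY zY hY L' x a' → lo ≤ k ∧ k ≤ hi)
      then LW ΛX L * LW ΛY L' else 0) ≤ C * (lam + M * E.card * us s / lam + us s)

variable {ΛX ΛY hX hY zX zY sX sY}

open Classical in
/-- **one window**: first contact in `[lo, mid]`, no contact in `(hi, hi + S]` -/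
theorem window (h1X : ∀ b, 1 ≤ hX b) (h1Y : ∀ b, 1 ≤ hY b) (hΛX : ∑' b, ΛX b = 1)
    (hΛY : ∑' b, ΛY b = 1) (hUX : ∀ n, U ΛX hX n ≤ 1) (hUY : ∀ n, U ΛY hY n ≤ 1)
    (dX : ∀ b p, p ∈ sX b → 1 ≤ p.2 ∧ p.2 ≤ hX b) (dY : ∀ b p, p ∈ sY b → 1 ≤ p.2 ∧ p.2 ≤ hY b)
    (C : ℝ≥0∞) (us : ℕ → ℝ≥0∞) (H2' : H2 ΛX ΛY hX hY zX zY sX sY C us)
    (H3' : H3 ΛX ΛY hX hY zX zY sX sY C us)
    (e : ℝ≥0∞) (i0 : ℕ)
    (heX : ∀ a, FS ΛX hX a (fun A => if a + i0 < HT hX A then 1 else 0) ≤ e)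
    (heY : ∀ a, FS ΛY hY a (fun A => if a + i0 < HT hY A then 1 else 0) ≤ e)
    (u : ℝ≥0∞) (hu0 : u ≠ 0) (hu1 : u ≤ 1) (lam : ℝ≥0∞) (hlam0 : lam ≠ 0) (hlam1 : lam ≠ ⊤)
    (α T J s lo mid hi S n : ℕ) (hJ : J * (T + i0) ≤ α) (hlo : α + 3 * i0 + s + 1 ≤ lo)
    (hmid : mid ≤ α + T) (hhi : hi + s ≤ α + T) (hS : α + T + 2 * i0 ≤ hi + S)
    (hn : α + 3 * i0 + T ≤ n) (w : G) :
    ∑' LX, ∑' LY, (if HT hX LX = n ∧ HT hY LY = n ∧
      ((∀ y k, (y, k) ∈ TT sX zX hX LX 0 0 → (y, k) ∈ TT sY zY hY LY w 0 → lo ≤ k) ∧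
       (∃ y k, (y, k) ∈ TT sX zX hX LX 0 0 ∧ (y, k) ∈ TT sY zY hY LY w 0 ∧ k ≤ mid) ∧
       (∀ y k, (y, k) ∈ TT sX zX hX LX 0 0 → (y, k) ∈ TT sY zY hY LY w 0 →
          ¬ (hi < k ∧ k ≤ hi + S)))
      then LW ΛX LX * LW ΛY LY else 0)
    ≤ 4 * e + u * u + 2 * (((1 - u) ^ J + J * e) + (i0 + 1) ^ 3 *
        (C * (lam + ((i0 + 1) * J) * us s / lam + us s))) := by
  obtain ⟨thX, EX, hthX1, hNX, hqX, hEX⟩ := quant zX h1X hΛX T u hu0 hu1
  obtain ⟨thY, EY, hthY1, hNY, hqY, hEY⟩ := quant zY h1Y hΛY T u hu0 hu1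
  set F : List BX → List BY → ℝ≥0∞ := fun LX LY => if
    ((∀ y k, (y, k) ∈ TT sX zX hX LX 0 0 → (y, k) ∈ TT sY zY hY LY w 0 → lo ≤ k) ∧
       (∃ y k, (y, k) ∈ TT sX zX hX LX 0 0 ∧ (y, k) ∈ TT sY zY hY LY w 0 ∧ k ≤ mid) ∧
       (∀ y k, (y, k) ∈ TT sX zX hX LX 0 0 → (y, k) ∈ TT sY zY hY LY w 0 →
          ¬ (hi < k ∧ k ≤ hi + S))) then 1 else 0 with hF
  have hF1 : ∀ LX LY, F LX LY ≤ 1 := fun LX LY => by rw [hF]; beta_reduce; split_ifs <;> simp
  have s1 : ∑' LX, ∑' LY, (if HT hX LX = n ∧ HT hY LY = n ∧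
      ((∀ y k, (y, k) ∈ TT sX zX hX LX 0 0 → (y, k) ∈ TT sY zY hY LY w 0 → lo ≤ k) ∧
       (∃ y k, (y, k) ∈ TT sX zX hX LX 0 0 ∧ (y, k) ∈ TT sY zY hY LY w 0 ∧ k ≤ mid) ∧
       (∀ y k, (y, k) ∈ TT sX zX hX LX 0 0 → (y, k) ∈ TT sY zY hY LY w 0 →
          ¬ (hi < k ∧ k ≤ hi + S)))
      then LW ΛX LX * LW ΛY LY else 0) = En ΛY hY n (fun LY => En ΛX hX n (fun LX => F LX LY)) := by
    rw [ENNReal.tsum_comm]
    refine tsum_congr fun LY => ?_
    show _ = (if HT hY LY = n then LW ΛY LY else 0) *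
      ∑' LX, (if HT hX LX = n then LW ΛX LX else 0) * F LX LY
    rw [← ENNReal.tsum_mul_left]
    refine tsum_congr fun LX => ?_
    by_cases hx : HT hX LX = n <;> by_cases hy : HT hY LY = n <;> simp only [hF, hx, hy, true_and,
      false_and, if_true, if_false, zero_mul, mul_zero]
    split_ifs <;> simp [mul_comm]
  rw [s1]
  -- the pieces
  set Φ : List BX → List BX → List BY → List BY → ℝ≥0∞ := fun A P A' P' =>
    if HT hX A ≤ α + i0 ∧ HT hX P ≤ T + i0 ∧ HT hY A' ≤ (α + 2 * i0) + i0 ∧ HT hY P' ≤ T + i0 ∧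
      Cont hX hY zX zY sX sY lo hi (w + Dp zY A' - Dp zX A) (HT hX A) P (HT hY A') P'
    then 1 else 0 with hΦ
  have key : ∀ A P R A' P' R', HT hX A ≤ α + i0 → HT hX P ≤ T + i0 → fp hX α A → fp hX T P →
      HT hY A' ≤ (α + 2 * i0) + i0 → HT hY P' ≤ T + i0 → fp hY (α + 2 * i0) A' → fp hY T P' →
      F (A ++ (P ++ R)) (A' ++ (P' ++ R')) ≤ Φ A P A' P' := by
    intro A P R A' P' R' hA hP fA fP hA' hP' fA' fP'
    by_cases hc : Cont hX hY zX zY sX sY lo hi (w + Dp zY A' - Dp zX A) (HT hX A) P (HT hY A') P'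
    · rw [hΦ]; beta_reduce
      rw [if_pos ⟨hA, hP, hA', hP', hc⟩]
      exact hF1 _ _
    · rw [hF]; beta_reduce
      rw [if_neg]
      · exact zero_le
      rintro ⟨c1, ⟨y, k, hy1, hy2, hk⟩, c3⟩
      apply hc
      have lA := le_HT_of_fp hX fA
      have lP := le_HT_of_fp hX fP
      have lA' := le_HT_of_fp hY fA'
      have lP' := le_HT_of_fp hY fP'
      have tX : ∀ y k, (y, k) ∈ TT sX zX hX P 0 (HT hX A) ↔
          (y + Dp zX A, k) ∈ TT sX zX hX P (0 + Dp zX A) (0 + HT hX A) := fun y k => by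
        rw [TT_shift, zero_add]
      have tY : ∀ y k, (y, k) ∈ TT sY zY hY P' (w + Dp zY A' - Dp zX A) (HT hY A') ↔
          (y + Dp zX A, k) ∈ TT sY zY hY P' (w + Dp zY A') (0 + HT hY A') := fun y k => by
        rw [← TT_shift sY zY hY P' (w + Dp zY A' - Dp zX A) (Dp zX A), zero_add, sub_add_cancel]
      refine ⟨?_, ?_⟩
      · have hlow := c1 y k hy1 hy2
        refine ⟨y - Dp zX A, k, ?_, ?_⟩
        · rw [tX, sub_add_cancel]
          rw [TT_append, TT_append] at hy1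
          rcases hy1 with h | h | h
          · have := TT_depth sX zX hX dX _ _ _ _ _ h; omega
          · exact h
          · have := TT_depth sX zX hX dX _ _ _ _ _ h; omega
        · rw [tY, sub_add_cancel]
          rw [TT_append, TT_append] at hy2
          rcases hy2 with h | h | h
          · have := TT_depth sY zY hY dY _ _ _ _ _ h; omega
          · exact h
          · have := TT_depth sY zY hY dY _ _ _ _ _ h; omega
      · intro y k hk1 hk2
        rw [tX] at hk1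
        rw [tY] at hk2
        have g1 : (y + Dp zX A, k) ∈ TT sX zX hX (A ++ (P ++ R)) 0 0 := by
          rw [TT_append, TT_append]; exact Or.inr (Or.inl hk1)
        have g2 : (y + Dp zX A, k) ∈ TT sY zY hY (A' ++ (P' ++ R')) w 0 := by
          rw [TT_append, TT_append]; exact Or.inr (Or.inl hk2)
        have g3 := c1 _ _ g1 g2
        have g4 := c3 _ _ g1 g2
        have g5 := TT_depth sX zX hX dX _ _ _ _ _ hk1
        omega
  have s2 : En ΛY hY n (fun LY => En ΛX hX n (fun LX => F LX LY))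
      ≤ FS ΛY hY (α + 2 * i0) (fun A' => FS ΛY hY T (fun P' =>
          FS ΛX hX α (fun A => FS ΛX hX T (fun P => Φ A P A' P')) + (e + e))) + (e + e) := by
    refine piece h1Y hΛY.le hUY n (α + 2 * i0) T i0 (by omega) _
      (fun LY => En_le hUX fun LX _ => hF1 LX LY) _ e heY ?_
    intro A' P' R' hA' hP' fA' fP'
    exact piece h1X hΛX.le hUX n α T i0 (by omega) _ (fun LX => hF1 LX _)
      (fun A P => Φ A P A' P') e heX
      (fun A P R hA hP fA fP => key A P R A' P' R' hA hP fA fP hA' hP' fA' fP')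
  refine s2.trans ?_
  have s3 : FS ΛY hY (α + 2 * i0) (fun A' => FS ΛY hY T (fun P' =>
          FS ΛX hX α (fun A => FS ΛX hX T (fun P => Φ A P A' P')) + (e + e)))
      ≤ FS ΛY hY (α + 2 * i0) (fun A' => FS ΛY hY T (fun P' =>
          FS ΛX hX α (fun A => FS ΛX hX T (fun P => Φ A P A' P')))) + (e + e) := by
    refine (FS_mono fun A' _ => (FS_add _ _).le).trans ?_
    rw [FS_add]
    refine add_le_add le_rfl ?_
    exact FS_le h1Y hΛY.le fun A' _ => FS_const h1Y hΛY.le T (e + e)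
  -- split local / non local
  set ΦX : List BX → List BX → List BY → List BY → ℝ≥0∞ := fun A P A' P' =>
    if HT hX A ≤ α + i0 ∧ HT hX P ≤ T + i0 ∧ HT hY A' ≤ (α + 2 * i0) + i0 ∧ HT hY P' ≤ T + i0 ∧
      Dp zX P ∈ EX (HT hX P) ∧
      Cont hX hY zX zY sX sY lo hi (w + Dp zY A' - Dp zX A) (HT hX A) P (HT hY A') P'
    then 1 else 0 with hΦX
  set ΦY : List BX → List BX → List BY → List BY → ℝ≥0∞ := fun A P A' P' =>
    if HT hY A' ≤ (α + 2 * i0) + i0 ∧ HT hY P' ≤ T + i0 ∧ HT hX A ≤ α + i0 ∧ HT hX P ≤ T + i0 ∧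
      Dp zY P' ∈ EY (HT hY P') ∧
      Cont hX hY zX zY sX sY lo hi (-(-w + Dp zX A - Dp zY A')) (HT hX A) P (HT hY A') P'
    then 1 else 0 with hΦY
  have s4 : ∀ A P A' P', Φ A P A' P' ≤ (if Dp zX P ∈ EX (HT hX P) then 0 else 1) *
      (if Dp zY P' ∈ EY (HT hY P') then 0 else 1) + (ΦX A P A' P' + ΦY A P A' P') := by
    intro A P A' P'
    by_cases hc : HT hX A ≤ α + i0 ∧ HT hX P ≤ T + i0 ∧ HT hY A' ≤ (α + 2 * i0) + i0 ∧
      HT hY P' ≤ T + i0 ∧
      Cont hX hY zX zY sX sY lo hi (w + Dp zY A' - Dp zX A) (HT hX A) P (HT hY A') P'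
    · rw [hΦ]; beta_reduce
      rw [if_pos hc]
      by_cases hx : Dp zX P ∈ EX (HT hX P)
      · refine le_trans ?_ (le_add_left (le_add_right (le_refl (ΦX A P A' P'))))
        rw [hΦX]; beta_reduce
        rw [if_pos ⟨hc.1, hc.2.1, hc.2.2.1, hc.2.2.2.1, hx, hc.2.2.2.2⟩]
      · by_cases hy : Dp zY P' ∈ EY (HT hY P')
        · refine le_trans ?_ (le_add_left (le_add_left (le_refl (ΦY A P A' P'))))
          rw [hΦY]; beta_reduce
          have hw : -(-w + Dp zX A - Dp zY A') = w + Dp zY A' - Dp zX A := by abel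
          rw [hw, if_pos ⟨hc.2.2.1, hc.2.2.2.1, hc.1, hc.2.1, hy, hc.2.2.2.2⟩]
        · rw [if_neg hx, if_neg hy, one_mul]
          exact le_self_add
    · rw [hΦ]; beta_reduce
      rw [if_neg hc]; exact zero_le
  have s5 : FS ΛY hY (α + 2 * i0) (fun A' => FS ΛY hY T (fun P' =>
          FS ΛX hX α (fun A => FS ΛX hX T (fun P => Φ A P A' P'))))
      ≤ FS ΛY hY (α + 2 * i0) (fun A' => FS ΛY hY T (fun P' =>
          FS ΛX hX α (fun A => FS ΛX hX T (fun P => (if Dp zX P ∈ EX (HT hX P) then 0 else 1) *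
      (if Dp zY P' ∈ EY (HT hY P') then 0 else 1)))))
        + (FS ΛY hY (α + 2 * i0) (fun A' => FS ΛY hY T (fun P' =>
          FS ΛX hX α (fun A => FS ΛX hX T (fun P => ΦX A P A' P'))))
        + FS ΛY hY (α + 2 * i0) (fun A' => FS ΛY hY T (fun P' =>
          FS ΛX hX α (fun A => FS ΛX hX T (fun P => ΦY A P A' P'))))) := by
    rw [← FS_add, ← FS_add]
    refine FS_mono fun A' _ => ?_
    rw [← FS_add, ← FS_add]
    refine FS_mono fun P' _ => ?_
    rw [← FS_add, ← FS_add]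
    refine FS_mono fun A _ => ?_
    rw [← FS_add, ← FS_add]
    exact FS_mono fun P _ => s4 A P A' P'
  -- non local
  have s6 : FS ΛY hY (α + 2 * i0) (fun A' => FS ΛY hY T (fun P' =>
          FS ΛX hX α (fun A => FS ΛX hX T (fun P => (if Dp zX P ∈ EX (HT hX P) then 0 else 1) *
      (if Dp zY P' ∈ EY (HT hY P') then 0 else 1))))) ≤ u * u := by
    refine FS_le h1Y hΛY.le fun A' _ => ?_
    have e1 : ∀ P', FS ΛX hX α (fun A => FS ΛX hX T (fun P =>
        (if Dp zX P ∈ EX (HT hX P) then 0 else 1) *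
        (if Dp zY P' ∈ EY (HT hY P') then 0 else 1)))
        ≤ u * (if Dp zY P' ∈ EY (HT hY P') then 0 else 1) := by
      intro P'
      refine FS_le h1X hΛX.le fun A _ => ?_
      have : (fun P => (if Dp zX P ∈ EX (HT hX P) then (0 : ℝ≥0∞) else 1) *
        (if Dp zY P' ∈ EY (HT hY P') then 0 else 1)) = fun P =>
        (if Dp zY P' ∈ EY (HT hY P') then (0 : ℝ≥0∞) else 1) *
        (if Dp zX P ∈ EX (HT hX P) then 0 else 1) := by
        funext P; rw [mul_comm]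
      rw [this, FS_mul, mul_comm]
      exact mul_le_mul_left hNX _
    refine (FS_mono fun P' _ => e1 P').trans ?_
    rw [FS_mul]
    exact mul_le_mul_right hNY _
  have hq1 : 1 - u ≤ 1 := tsub_le_self
  have hMfin : ∀ th : ℝ≥0∞, th ≤ 1 → ((i0 : ℝ≥0∞) + 1) * th * ∑ l ∈ Finset.range J, (1 - u) ^ l
      ≤ ((i0 : ℝ≥0∞) + 1) * th * J := by
    intro th _
    refine mul_le_mul_right ?_ _
    calc ∑ l ∈ Finset.range J, (1 - u) ^ l ≤ ∑ l ∈ Finset.range J, (1 : ℝ≥0∞) :=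
          Finset.sum_le_sum fun l _ => pow_le_one₀ zero_le hq1
      _ = J := by simp
  have hMtop : ∀ th : ℝ≥0∞, th ≤ 1 → ((i0 : ℝ≥0∞) + 1) * th * J ≠ ⊤ := by
    intro th hth
    refine ENNReal.mul_ne_top (ENNReal.mul_ne_top ?_ (ne_top_of_le_ne_top ENNReal.one_ne_top hth))
      (ENNReal.natCast_ne_top J)
    exact ENNReal.add_ne_top.2 ⟨ENNReal.natCast_ne_top i0, ENNReal.one_ne_top⟩
  have hcard : ∀ (th : ℝ≥0∞) (k : ℕ), th * k ≤ 1 →
      C * (lam + ((i0 : ℝ≥0∞) + 1) * th * J * k * us s / lam + us s)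
        ≤ C * (lam + ((i0 + 1) * J) * us s / lam + us s) := by
    intro th k hk
    have : ((i0 : ℝ≥0∞) + 1) * th * J * k ≤ (i0 + 1) * J := by
      calc ((i0 : ℝ≥0∞) + 1) * th * J * k = (i0 + 1) * J * (th * k) := by ring
        _ ≤ (i0 + 1) * J * 1 := mul_le_mul_right hk _
        _ = _ := mul_one _
    gcongr
  -- X local
  have s7 : FS ΛY hY (α + 2 * i0) (fun A' => FS ΛY hY T (fun P' =>
          FS ΛX hX α (fun A => FS ΛX hX T (fun P => ΦX A P A' P'))))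
      ≤ ((1 - u) ^ J + J * e) + (i0 + 1) ^ 3 *
        (C * (lam + ((i0 + 1) * J) * us s / lam + us s)) := by
    obtain ⟨b, hb1, hb2⟩ := dens zX h1X hΛX.le T i0 thX (1 - u) e hq1 (heX T) hqX J α hJ
    refine LT zX zY (Cont hX hY zX zY sX sY lo hi) h1X hΛX.le h1Y hΛY.le α (α + 2 * i0) T i0
      (((i0 : ℝ≥0∞) + 1) * thX * J) b _ _
      (fun v => (hb1 v).trans (add_le_add (hMfin thX hthX1) le_rfl)) hb2 EX ?_ w
    intro a h a' h' μ ha1 ha2 hh1 hh2 ha1' ha2' hh1' hh2' hμ1 hμ2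
    refine le_trans ?_ (hcard thX _ (hEX h))
    refine le_trans (le_of_eq ?_) (H2' s h h' a a' lo hi (EX h) μ _ lam hμ1 hμ2
      (hMtop thX hthX1) hlam0 hlam1
      (by omega) (by omega) (by omega) (by omega) (by omega) (by omega))
    refine tsum_congr fun x => ?_
    congr 1
    exact tsum_congr fun L => tsum_congr fun L' => if_congr Iff.rfl rfl rfl
  -- Y local
  have s8 : FS ΛY hY (α + 2 * i0) (fun A' => FS ΛY hY T (fun P' =>
          FS ΛX hX α (fun A => FS ΛX hX T (fun P => ΦY A P A' P'))))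
      ≤ ((1 - u) ^ J + J * e) + (i0 + 1) ^ 3 *
        (C * (lam + ((i0 + 1) * J) * us s / lam + us s)) := by
    have sw : FS ΛY hY (α + 2 * i0) (fun A' => FS ΛY hY T (fun P' =>
          FS ΛX hX α (fun A => FS ΛX hX T (fun P => ΦY A P A' P'))))
        = FS ΛX hX α (fun A => FS ΛX hX T (fun P => FS ΛY hY (α + 2 * i0) (fun A' =>
          FS ΛY hY T (fun P' => ΦY A P A' P')))) := by
      calc _ = FS ΛY hY (α + 2 * i0) (fun A' => FS ΛX hX α (fun A => FS ΛX hX T (fun P =>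
            FS ΛY hY T (fun P' => ΦY A P A' P')))) := by
            congr 1; funext A'
            rw [FS_swap]
            congr 1; funext A
            rw [FS_swap]
        _ = _ := by
            rw [FS_swap]
            congr 1; funext A
            rw [FS_swap]
    rw [sw]
    obtain ⟨b, hb1, hb2⟩ := dens zY h1Y hΛY.le T i0 thY (1 - u) e hq1 (heY T) hqY J (α + 2 * i0)
      (by omega)
    refine LT zY zX (fun x a P a' P' => Cont hX hY zX zY sX sY lo hi (-x) a' P' a P)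
      h1Y hΛY.le h1X hΛX.le (α + 2 * i0) α T i0
      (((i0 : ℝ≥0∞) + 1) * thY * J) b _ _
      (fun v => (hb1 v).trans (add_le_add (hMfin thY hthY1) le_rfl)) hb2 EY ?_ (-w)
    intro a h a' h' μ ha1 ha2 hh1 hh2 ha1' ha2' hh1' hh2' hμ1 hμ2
    refine le_trans ?_ (hcard thY _ (hEY h))
    have hsum : ∑' x, μ (-x) ≤ 1 := by
      have e9 := (Equiv.neg G).tsum_eq μ
      simp only [Equiv.neg_apply] at e9
      rw [e9]; exact hμ1
    refine le_trans (le_of_eq ?_) (H3' s h' h a' a lo hi (EY h) (fun x => μ (-x)) _ lam hsum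
      (fun x => hμ2 _) (hMtop thY hthY1) hlam0 hlam1
      (by omega) (by omega) (by omega) (by omega) (by omega) (by omega))
    rw [← (Equiv.neg G).tsum_eq (fun x => μ x * ∑' P : List BY, ∑' P' : List BX,
      (if HT hY P = h ∧ Dp zY P ∈ EY h ∧ HT hX P' = h' ∧
        Cont hX hY zX zY sX sY lo hi (-x) a' P' a P then LW ΛY P * LW ΛX P' else 0))]
    refine tsum_congr fun x => ?_
    simp only [Equiv.neg_apply, neg_neg]
    congr 1
    rw [ENNReal.tsum_comm]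
    refine tsum_congr fun L => tsum_congr fun L' => ?_
    by_cases hc : HT hY L' = h ∧ Dp zY L' ∈ EY h ∧ HT hX L = h' ∧
        Cont hX hY zX zY sX sY lo hi x a' L a L'
    · rw [if_pos hc, if_pos ⟨hc.2.2.1, hc.2.1, hc.1, hc.2.2.2⟩, mul_comm]
    · rw [if_neg hc, if_neg]
      rintro ⟨c1, c2, c3, c4⟩
      exact hc ⟨c3, c2, c1, c4⟩
  refine (add_le_add (s3.trans (add_le_add (s5.trans (add_le_add s6 (add_le_add s7 s8))) le_rfl))
    le_rfl).trans (le_of_eq ?_)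
  ring

end window

end Crest.Agent.R154.Asm678
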