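import Crest.Agent.R154.Asm2_810

/-! Row 154 (helper810), ROAD 801: assembly, part 3: one window. -/

set_option autoImplicit false

namespace Crest.Agent.R154.Asm810

open scoped ENNReal
open Crest.Agent.R154.B5A Crest.Agent.R154.FP178

variable {BX BY G : Type*} [AddCommGroup G]
  (hX : BX → ℕ) (zX : BX → G) (sX : BX → Set (G × ℕ)) (ΛX : BX → ℝ≥0∞)
  (hY : BY → ℕ) (zY : BY → G) (sY : BY → Set (G × ℕ)) (ΛY : BY → ℝ≥0∞)

/-- the two placed lists meet, and only at depths in `[lo, hi]` -/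
def Ev (lo hi : ℕ) (L : List BX) (L' : List BY) (x : G) (a a' : ℕ) : Prop :=
  (∃ p, p ∈ TT hX zX sX L 0 a ∧ p ∈ TT hY zY sY L' x a') ∧
  ∀ p, p ∈ TT hX zX sX L 0 a → p ∈ TT hY zY sY L' x a' → lo ≤ p.2 ∧ p.2 ≤ hi

/-- full event of the window `(A + t, A + 2 t]` -/
def EvW (A t i0 s : ℕ) (w : G) (L : List BX) (L' : List BY) : Prop :=
  (∃ p, p ∈ TT hX zX sX L 0 0 ∧ p ∈ TT hY zY sY L' w 0 ∧ p.2 ≤ A + 2 * t) ∧
  ∀ p, p ∈ TT hX zX sX L 0 0 → p ∈ TT hY zY sY L' w 0 →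
    A + t < p.2 ∧ (p.2 + s < A + 3 * t ∨ A + 3 * t + 2 * i0 < p.2)

lemma ev_of_evW (hsX : ∀ b q, q ∈ sX b → 1 ≤ q.2 ∧ q.2 ≤ hX b)
    (hsY : ∀ b q, q ∈ sY b → 1 ≤ q.2 ∧ q.2 ≤ hY b) (A t i0 s : ℕ) (hti : i0 ≤ t) (w : G)
    (P1 P2 P3 : List BX) (Q1 Q2 Q3 : List BY)
    (hP1 : A ≤ HT hX P1) (hP1' : HT hX P1 ≤ A + i0) (hP2 : 3 * t ≤ HT hX P2)
    (hP2' : HT hX P2 ≤ 3 * t + i0)
    (hQ1 : A ≤ HT hY Q1) (hQ1' : HT hY Q1 ≤ A + i0) (hQ2 : 3 * t ≤ HT hY Q2)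
    (hE : EvW hX zX sX hY zY sY A t i0 s w (P1 ++ (P2 ++ P3)) (Q1 ++ (Q2 ++ Q3))) :
    Ev hX zX sX hY zY sY (A + t + 1) (A + 3 * t - s - 1) P2 Q2 (w + Dp zY Q1 - Dp zX P1)
      (HT hX P1) (HT hY Q1) := by
  obtain ⟨⟨p, hpX, hpY, hp2⟩, hall⟩ := hE
  have hp1 := (hall p hpX hpY).1
  have mX : ∀ q : G × ℕ, q ∈ TT hX zX sX P2 0 (HT hX P1) ↔
      (q.1 + Dp zX P1, q.2) ∈ TT hX zX sX P2 (0 + Dp zX P1) (0 + HT hX P1) := by
    intro q
    rw [TT_shift hX zX sX P2 0 (Dp zX P1) (HT hX P1) q, zero_add (HT hX P1)]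
  have mY : ∀ q : G × ℕ, q ∈ TT hY zY sY Q2 (w + Dp zY Q1 - Dp zX P1) (HT hY Q1) ↔
      (q.1 + Dp zX P1, q.2) ∈ TT hY zY sY Q2 (w + Dp zY Q1) (0 + HT hY Q1) := by
    intro q
    rw [TT_shift hY zY sY Q2 (w + Dp zY Q1 - Dp zX P1) (Dp zX P1) (HT hY Q1) q, sub_add_cancel,
      zero_add]
  have inX : ∀ q : G × ℕ, q ∈ TT hX zX sX P2 (0 + Dp zX P1) (0 + HT hX P1) →
      q ∈ TT hX zX sX (P1 ++ (P2 ++ P3)) 0 0 := by
    intro q hq
    rw [TT_append, TT_append]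
    exact Or.inr (Or.inl hq)
  have inY : ∀ q : G × ℕ, q ∈ TT hY zY sY Q2 (w + Dp zY Q1) (0 + HT hY Q1) →
      q ∈ TT hY zY sY (Q1 ++ (Q2 ++ Q3)) w 0 := by
    intro q hq
    rw [TT_append, TT_append]
    exact Or.inr (Or.inl hq)
  constructor
  · refine ⟨(p.1 - Dp zX P1, p.2), ?_, ?_⟩
    · rw [mX]
      simp only [sub_add_cancel, Prod.mk.eta]
      rw [TT_append, TT_append] at hpX
      rcases hpX with h | h | h
      · have := TT_depth hX zX sX hsX _ _ _ _ h; omega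
      · exact h
      · have := TT_depth hX zX sX hsX _ _ _ _ h; omega
    · rw [mY]
      simp only [sub_add_cancel, Prod.mk.eta]
      rw [TT_append, TT_append] at hpY
      rcases hpY with h | h | h
      · have := TT_depth hY zY sY hsY _ _ _ _ h; omega
      · exact h
      · have := TT_depth hY zY sY hsY _ _ _ _ h; omega
  · intro q hqX hqY
    have h1 := TT_depth hX zX sX hsX _ _ _ _ hqX
    have h2 := hall _ (inX _ ((mX q).1 hqX)) (inY _ ((mY q).1 hqY))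
    simp only at h2
    omega

open Classical in
/-- the sum of `H2` -/
noncomputable def PhX (E : Finset G) (lo hi a a' k k' : ℕ) (x : G) : ℝ≥0∞ :=
  ∑' L : List BX, ∑' L' : List BY, (if HT hX L = k ∧ Dp zX L ∈ E ∧ HT hY L' = k' ∧
    Ev hX zX sX hY zY sY lo hi L L' x a a' then LW ΛX L * LW ΛY L' else 0)

open Classical in
/-- the sum of `H3` -/
noncomputable def PhY (E : Finset G) (lo hi a a' k k' : ℕ) (x : G) : ℝ≥0∞ :=
  ∑' L : List BX, ∑' L' : List BY, (if HT hX L = k ∧ HT hY L' = k' ∧ Dp zY L' ∈ E ∧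
    Ev hX zX sX hY zY sY lo hi L L' x a a' then LW ΛX L * LW ΛY L' else 0)

open Classical in
/-- local part / non local part of the pieces -/
noncomputable def wl {B : Type*} (h : B → ℕ) (z : B → G) (Λ : B → ℝ≥0∞) (E : ℕ → Finset G)
    (τ i0 : ℕ) (L : List B) : ℝ≥0∞ := if Dp z L ∈ E (HT h L) then wf h Λ τ i0 L else 0

open Classical in
noncomputable def wn {B : Type*} (h : B → ℕ) (z : B → G) (Λ : B → ℝ≥0∞) (E : ℕ → Finset G)
    (τ i0 : ℕ) (L : List B) : ℝ≥0∞ := if Dp z L ∈ E (HT h L) then 0 else wf h Λ τ i0 L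

lemma wl_add_wn {B : Type*} (h : B → ℕ) (z : B → G) (Λ : B → ℝ≥0∞) (E : ℕ → Finset G)
    (τ i0 : ℕ) (L : List B) : wf h Λ τ i0 L = wl h z Λ E τ i0 L + wn h z Λ E τ i0 L := by
  unfold wl wn
  split_ifs <;> simp

lemma wl_le {B : Type*} (h : B → ℕ) (z : B → G) (Λ : B → ℝ≥0∞) (E : ℕ → Finset G)
    (τ i0 : ℕ) (L : List B) : wl h z Λ E τ i0 L ≤ wf h Λ τ i0 L := by
  rw [wl_add_wn h z Λ E τ i0 L]; exact le_self_add

open Classical in
lemma icc_of_wf {B : Type*} (h : B → ℕ) (Λ : B → ℝ≥0∞) (τ i0 : ℕ) (L : List B)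
    (h0 : wf h Λ τ i0 L ≠ 0) : HT h L ∈ Finset.Icc τ (τ + i0) := by
  unfold wf at h0
  split_ifs at h0 with hh
  · exact Finset.mem_Icc.2 ⟨le_HT_of_fp h hh.1, hh.2⟩
  · exact absurd rfl h0

open Classical in
lemma wf_le_LW {B : Type*} (h : B → ℕ) (Λ : B → ℝ≥0∞) (τ i0 : ℕ) (L : List B) :
    wf h Λ τ i0 L ≤ LW Λ L := by
  unfold wf; split_ifs
  · exact le_rfl
  · exact zero_le

open Classical in
/-- indicator -/
noncomputable def Gam (lo hi : ℕ) (L : List BX) (L' : List BY) (a a' : ℕ) (x : G) : ℝ≥0∞ :=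
  if Ev hX zX sX hY zY sY lo hi L L' x a a' then 1 else 0

lemma Gam_le (lo hi : ℕ) (L : List BX) (L' : List BY) (a a' : ℕ) (x : G) :
    Gam hX zX sX hY zY sY lo hi L L' a a' x ≤ 1 := by
  unfold Gam; split_ifs
  · exact le_rfl
  · exact zero_le

lemma swap1 {α : Type*} (s : Finset ℕ) (F : ℕ → ℕ → α → ℝ≥0∞) :
    ∑' Q, ∑ k ∈ s, ∑ k' ∈ s, F k k' Q = ∑ k ∈ s, ∑ k' ∈ s, ∑' Q, F k k' Q := by
  rw [Summable.tsum_finsetSum (fun _ _ => ENNReal.summable)]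
  refine Finset.sum_congr rfl fun k _ => ?_
  rw [Summable.tsum_finsetSum (fun _ _ => ENNReal.summable)]

lemma swap2 {α β : Type*} (s : Finset ℕ) (F : ℕ → ℕ → α → β → ℝ≥0∞) :
    ∑' P, ∑' Q, ∑ k ∈ s, ∑ k' ∈ s, F k k' P Q = ∑ k ∈ s, ∑ k' ∈ s, ∑' P, ∑' Q, F k k' P Q := by
  rw [← swap1]
  exact tsum_congr fun P => swap1 s fun k k' Q => F k k' P Q

open Classical in
lemma psiX_le (E : ℕ → Finset G) (lo hi τ i0 a a' : ℕ) (x : G) :
    ∑' P, wl hX zX ΛX E τ i0 P * ∑' Q, wf hY ΛY τ i0 Q *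
        Gam hX zX sX hY zY sY lo hi P Q a a' x
      ≤ ∑ k ∈ Finset.Icc τ (τ + i0), ∑ k' ∈ Finset.Icc τ (τ + i0),
        PhX hX zX sX ΛX hY zY sY ΛY (E k) lo hi a a' k k' x := by
  have e : ∑ k ∈ Finset.Icc τ (τ + i0), ∑ k' ∈ Finset.Icc τ (τ + i0),
        PhX hX zX sX ΛX hY zY sY ΛY (E k) lo hi a a' k k' x
      = ∑' P, ∑' Q, ∑ k ∈ Finset.Icc τ (τ + i0), ∑ k' ∈ Finset.Icc τ (τ + i0),
        (if HT hX P = k ∧ Dp zX P ∈ E k ∧ HT hY Q = k' ∧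
          Ev hX zX sX hY zY sY lo hi P Q x a a' then LW ΛX P * LW ΛY Q else 0) := by
    simp only [PhX]
    rw [swap2]
  rw [e]
  refine ENNReal.tsum_le_tsum fun P => ?_
  rw [← ENNReal.tsum_mul_left]
  refine ENNReal.tsum_le_tsum fun Q => ?_
  by_cases hP : wl hX zX ΛX E τ i0 P = 0
  · rw [hP, zero_mul]; exact zero_le
  by_cases hQ : wf hY ΛY τ i0 Q = 0
  · rw [hQ, zero_mul, mul_zero]; exact zero_le
  by_cases hE : Ev hX zX sX hY zY sY lo hi P Q x a a'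
  swap
  · have : Gam hX zX sX hY zY sY lo hi P Q a a' x = 0 := by unfold Gam; rw [if_neg hE]
    rw [this, mul_zero, mul_zero]; exact zero_le
  have hPE : Dp zX P ∈ E (HT hX P) := by
    by_contra hc
    exact hP (by unfold wl; rw [if_neg hc])
  have hP0 : wf hX ΛX τ i0 P ≠ 0 := fun h0 => hP (le_antisymm (by
    rw [← h0]; exact wl_le hX zX ΛX E τ i0 P) zero_le)
  refine le_trans ?_ (Finset.single_le_sum (f := fun k => ∑ k' ∈ Finset.Icc τ (τ + i0),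
    (if HT hX P = k ∧ Dp zX P ∈ E k ∧ HT hY Q = k' ∧
      Ev hX zX sX hY zY sY lo hi P Q x a a' then LW ΛX P * LW ΛY Q else 0))
    (fun _ _ => zero_le) (icc_of_wf hX ΛX τ i0 P hP0))
  refine le_trans ?_ (Finset.single_le_sum (f := fun k' =>
    (if HT hX P = HT hX P ∧ Dp zX P ∈ E (HT hX P) ∧ HT hY Q = k' ∧
      Ev hX zX sX hY zY sY lo hi P Q x a a' then LW ΛX P * LW ΛY Q else 0))
    (fun _ _ => zero_le) (icc_of_wf hY ΛY τ i0 Q hQ))
  rw [if_pos ⟨rfl, hPE, rfl, hE⟩]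
  calc _ ≤ LW ΛX P * (LW ΛY Q * 1) :=
        mul_le_mul' ((wl_le hX zX ΛX E τ i0 P).trans (wf_le_LW hX ΛX τ i0 P))
          (mul_le_mul' (wf_le_LW hY ΛY τ i0 Q) (Gam_le hX zX sX hY zY sY lo hi P Q a a' x))
    _ = _ := by rw [mul_one]

open Classical in
lemma psiY_le (E : ℕ → Finset G) (lo hi τ i0 a a' : ℕ) (x : G) :
    ∑' P, wf hX ΛX τ i0 P * ∑' Q, wl hY zY ΛY E τ i0 Q *
        Gam hX zX sX hY zY sY lo hi P Q a a' x
      ≤ ∑ k ∈ Finset.Icc τ (τ + i0), ∑ k' ∈ Finset.Icc τ (τ + i0),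
        PhY hX zX sX ΛX hY zY sY ΛY (E k') lo hi a a' k k' x := by
  have e : ∑ k ∈ Finset.Icc τ (τ + i0), ∑ k' ∈ Finset.Icc τ (τ + i0),
        PhY hX zX sX ΛX hY zY sY ΛY (E k') lo hi a a' k k' x
      = ∑' P, ∑' Q, ∑ k ∈ Finset.Icc τ (τ + i0), ∑ k' ∈ Finset.Icc τ (τ + i0),
        (if HT hX P = k ∧ HT hY Q = k' ∧ Dp zY Q ∈ E k' ∧
          Ev hX zX sX hY zY sY lo hi P Q x a a' then LW ΛX P * LW ΛY Q else 0) := by
    simp only [PhY]
    rw [swap2]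
  rw [e]
  refine ENNReal.tsum_le_tsum fun P => ?_
  rw [← ENNReal.tsum_mul_left]
  refine ENNReal.tsum_le_tsum fun Q => ?_
  by_cases hP : wf hX ΛX τ i0 P = 0
  · rw [hP, zero_mul]; exact zero_le
  by_cases hQ : wl hY zY ΛY E τ i0 Q = 0
  · rw [hQ, zero_mul, mul_zero]; exact zero_le
  by_cases hE : Ev hX zX sX hY zY sY lo hi P Q x a a'
  swap
  · have : Gam hX zX sX hY zY sY lo hi P Q a a' x = 0 := by unfold Gam; rw [if_neg hE]
    rw [this, mul_zero, mul_zero]; exact zero_le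
  have hQE : Dp zY Q ∈ E (HT hY Q) := by
    by_contra hc
    exact hQ (by unfold wl; rw [if_neg hc])
  have hQ0 : wf hY ΛY τ i0 Q ≠ 0 := fun h0 => hQ (le_antisymm (by
    rw [← h0]; exact wl_le hY zY ΛY E τ i0 Q) zero_le)
  refine le_trans ?_ (Finset.single_le_sum (f := fun k => ∑ k' ∈ Finset.Icc τ (τ + i0),
    (if HT hX P = k ∧ HT hY Q = k' ∧ Dp zY Q ∈ E k' ∧
      Ev hX zX sX hY zY sY lo hi P Q x a a' then LW ΛX P * LW ΛY Q else 0))
    (fun _ _ => zero_le) (icc_of_wf hX ΛX τ i0 P hP))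
  refine le_trans ?_ (Finset.single_le_sum (f := fun k' =>
    (if HT hX P = HT hX P ∧ HT hY Q = k' ∧ Dp zY Q ∈ E k' ∧
      Ev hX zX sX hY zY sY lo hi P Q x a a' then LW ΛX P * LW ΛY Q else 0))
    (fun _ _ => zero_le) (icc_of_wf hY ΛY τ i0 Q hQ0))
  rw [if_pos ⟨rfl, rfl, hQE, hE⟩]
  calc _ ≤ LW ΛX P * (LW ΛY Q * 1) :=
        mul_le_mul' (wf_le_LW hX ΛX τ i0 P)
          (mul_le_mul' ((wl_le hY zY ΛY E τ i0 Q).trans (wf_le_LW hY ΛY τ i0 Q))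
            (Gam_le hX zX sX hY zY sY lo hi P Q a a' x))
    _ = _ := by rw [mul_one]

open Classical in
theorem window (hsX : ∀ b q, q ∈ sX b → 1 ≤ q.2 ∧ q.2 ≤ hX b)
    (hsY : ∀ b q, q ∈ sY b → 1 ≤ q.2 ∧ q.2 ≤ hY b)
    (h1X : ∀ b, 1 ≤ hX b) (h1Y : ∀ b, 1 ≤ hY b) (hΛX : ∑' b, ΛX b ≤ 1) (hΛY : ∑' b, ΛY b ≤ 1)
    (hUX : ∀ n, U ΛX hX n ≤ 1) (hUY : ∀ n, U ΛY hY n ≤ 1)
    (A t i0 s n : ℕ) (w : G) (hti : i0 ≤ t) (hn : A + i0 + 3 * t ≤ n)
    (EX EY : ℕ → Finset G) (gX bX gY bY : G → ℝ≥0∞) (MX MY βX βY uX uY B2 B3 : ℝ≥0∞)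
    (hmX : ∀ z, (∑' P, if Dp zX P = z then wf hX ΛX A i0 P else 0) ≤ gX z + bX z)
    (hgX : ∑' z, gX z ≤ 1) (hgXM : ∀ z, gX z ≤ MX) (hbX : ∑' z, bX z ≤ βX)
    (hmY : ∀ z, (∑' P, if Dp zY P = z then wf hY ΛY A i0 P else 0) ≤ gY z + bY z)
    (hgY : ∑' z, gY z ≤ 1) (hgYM : ∀ z, gY z ≤ MY) (hbY : ∑' z, bY z ≤ βY)
    (hNX : ∑' P, wn hX zX ΛX EX (3 * t) i0 P ≤ uX)
    (hNY : ∑' P, wn hY zY ΛY EY (3 * t) i0 P ≤ uY)
    (hB2 : ∀ a ∈ Finset.Icc A (A + i0), ∀ a' ∈ Finset.Icc A (A + i0),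
      ∀ k ∈ Finset.Icc (3 * t) (3 * t + i0), ∀ k' ∈ Finset.Icc (3 * t) (3 * t + i0),
      ∀ μ : G → ℝ≥0∞, ∑' x, μ x ≤ 1 → (∀ x, μ x ≤ MX) → ∑' x, μ x *
        PhX hX zX sX ΛX hY zY sY ΛY (EX k) (A + t + 1) (A + 3 * t - s - 1) a a' k k' x ≤ B2)
    (hB3 : ∀ a ∈ Finset.Icc A (A + i0), ∀ a' ∈ Finset.Icc A (A + i0),
      ∀ k ∈ Finset.Icc (3 * t) (3 * t + i0), ∀ k' ∈ Finset.Icc (3 * t) (3 * t + i0),
      ∀ μ : G → ℝ≥0∞, ∑' x, μ x ≤ 1 → (∀ x, μ x ≤ MY) → ∑' x, μ x *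
        PhY hX zX sX ΛX hY zY sY ΛY (EY k') (A + t + 1) (A + 3 * t - s - 1) a a' k k' x ≤ B3) :
    ∑' LX, ∑' LY, (if HT hX LX = n ∧ HT hY LY = n ∧ EvW hX zX sX hY zY sY A t i0 s w LX LY
      then LW ΛX LX * LW ΛY LY else 0)
      ≤ 2 * ov hX ΛX i0 + 2 * ov hY ΛY i0 + (uX * uY + (βX + (i0 + 1) ^ 4 * B2)
        + (βY + (i0 + 1) ^ 4 * B3)) := by
  set lo := A + t + 1 with hlo
  set hi := A + 3 * t - s - 1 with hhi
  set e : List BX → List BY → ℝ≥0∞ := fun L L' =>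
    if EvW hX zX sX hY zY sY A t i0 s w L L' then 1 else 0 with he
  have he1 : ∀ L L', e L L' ≤ 1 := fun L L' => by
    simp only [he]; split_ifs
    · exact le_rfl
    · exact zero_le
  set f : List BX → ℝ≥0∞ := fun L => ∑' L', (if HT hY L' = n then LW ΛY L' * e L L' else 0) with hf
  have hf1 : ∀ L, f L ≤ 1 := by
    intro L
    refine le_trans (ENNReal.tsum_le_tsum fun L' => ?_) (hUY n)
    by_cases hh : HT hY L' = n
    · rw [if_pos hh, if_pos hh]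
      calc _ ≤ LW ΛY L' * 1 := mul_le_mul_right (he1 _ _) _
        _ = _ := mul_one _
    · rw [if_neg hh]; exact zero_le
  have e0 : ∑' LX, ∑' LY, (if HT hX LX = n ∧ HT hY LY = n ∧ EvW hX zX sX hY zY sY A t i0 s w LX LY
      then LW ΛX LX * LW ΛY LY else 0) = ∑' LX, (if HT hX LX = n then LW ΛX LX * f LX else 0) := by
    refine tsum_congr fun L => ?_
    by_cases hh : HT hX L = n
    · rw [if_pos hh, hf, ← ENNReal.tsum_mul_left]
      refine tsum_congr fun L' => ?_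
      by_cases hh' : HT hY L' = n
      · by_cases hE : EvW hX zX sX hY zY sY A t i0 s w L L'
        · simp [hh, hh', hE, he]
        · simp [hh', hE, he]
      · simp [hh']
    · simp [hh]
  rw [e0]
  have c1 := cut2 hX ΛX h1X hΛX hUX A (3 * t) i0 n hn f hf1
    (fun P1 P2 => 2 * ov hY ΛY i0 + ∑' Q1, wf hY ΛY A i0 Q1 * ∑' Q2, wf hY ΛY (3 * t) i0 Q2 *
      Gam hX zX sX hY zY sY lo hi P2 Q2 (HT hX P1) (HT hY Q1) (w + Dp zY Q1 - Dp zX P1)) (by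
    intro P1 P2 P3 hP1 hP1' hP2 hP2'
    refine cut2 hY ΛY h1Y hΛY hUY A (3 * t) i0 n hn (e (P1 ++ (P2 ++ P3))) (he1 _) _ ?_
    intro Q1 Q2 Q3 hQ1 hQ1' hQ2 hQ2'
    simp only [he]
    by_cases hE : EvW hX zX sX hY zY sY A t i0 s w (P1 ++ (P2 ++ P3)) (Q1 ++ (Q2 ++ Q3))
    · rw [if_pos hE]
      unfold Gam
      rw [if_pos (ev_of_evW hX zX sX hY zY sY hsX hsY A t i0 s hti w P1 P2 P3 Q1 Q2 Q3
        (le_HT_of_fp hX hP1) hP1' (le_HT_of_fp hX hP2) hP2' (le_HT_of_fp hY hQ1) hQ1'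
        (le_HT_of_fp hY hQ2) hE)]
    · rw [if_neg hE]; exact zero_le)
  refine c1.trans ?_
  rw [add_assoc (2 * ov hX ΛX i0)]
  refine add_le_add le_rfl ?_
  -- separate the overshoot of `Y`
  have c2 : ∑' P1, wf hX ΛX A i0 P1 * ∑' P2, wf hX ΛX (3 * t) i0 P2 * (2 * ov hY ΛY i0 +
      ∑' Q1, wf hY ΛY A i0 Q1 * ∑' Q2, wf hY ΛY (3 * t) i0 Q2 *
      Gam hX zX sX hY zY sY lo hi P2 Q2 (HT hX P1) (HT hY Q1) (w + Dp zY Q1 - Dp zX P1))
      ≤ 2 * ov hY ΛY i0 + ∑' P1, wf hX ΛX A i0 P1 * ∑' Q1, wf hY ΛY A i0 Q1 *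
        ∑' P2, wf hX ΛX (3 * t) i0 P2 * ∑' Q2, wf hY ΛY (3 * t) i0 Q2 *
      Gam hX zX sX hY zY sY lo hi P2 Q2 (HT hX P1) (HT hY Q1) (w + Dp zY Q1 - Dp zX P1) := by
    have k1 : ∀ P1 : List BX, wf hX ΛX A i0 P1 * ∑' P2, wf hX ΛX (3 * t) i0 P2 * (2 * ov hY ΛY i0 +
      ∑' Q1, wf hY ΛY A i0 Q1 * ∑' Q2, wf hY ΛY (3 * t) i0 Q2 *
      Gam hX zX sX hY zY sY lo hi P2 Q2 (HT hX P1) (HT hY Q1) (w + Dp zY Q1 - Dp zX P1))
      ≤ wf hX ΛX A i0 P1 * (2 * ov hY ΛY i0) + wf hX ΛX A i0 P1 * ∑' Q1, wf hY ΛY A i0 Q1 *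
        ∑' P2, wf hX ΛX (3 * t) i0 P2 * ∑' Q2, wf hY ΛY (3 * t) i0 Q2 *
      Gam hX zX sX hY zY sY lo hi P2 Q2 (HT hX P1) (HT hY Q1) (w + Dp zY Q1 - Dp zX P1) := by
      intro P1
      rw [← mul_add]
      refine mul_le_mul_right ?_ _
      simp_rw [mul_add]
      rw [ENNReal.tsum_add, ENNReal.tsum_mul_right]
      refine add_le_add ?_ (le_of_eq ?_)
      · calc _ ≤ 1 * (2 * ov hY ΛY i0) := mul_le_mul_left (wf_sum_le hX ΛX h1X hΛX _ _) _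
          _ = _ := one_mul _
      · simp_rw [← ENNReal.tsum_mul_left]
        rw [ENNReal.tsum_comm]
        refine tsum_congr fun Q1 => tsum_congr fun P2 => tsum_congr fun Q2 => ?_
        ring
    refine (ENNReal.tsum_le_tsum k1).trans ?_
    rw [ENNReal.tsum_add, ENNReal.tsum_mul_right]
    refine add_le_add ?_ le_rfl
    calc _ ≤ 1 * (2 * ov hY ΛY i0) := mul_le_mul_left (wf_sum_le hX ΛX h1X hΛX _ _) _
      _ = _ := one_mul _
  refine c2.trans (add_le_add le_rfl ?_)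
  -- local / non local
  set ΨX : ℕ → ℕ → G → ℝ≥0∞ := fun a a' x => ∑' P, wl hX zX ΛX EX (3 * t) i0 P *
    ∑' Q, wf hY ΛY (3 * t) i0 Q * Gam hX zX sX hY zY sY lo hi P Q a a' x with hΨX
  set ΨY : ℕ → ℕ → G → ℝ≥0∞ := fun a a' x => ∑' P, wf hX ΛX (3 * t) i0 P *
    ∑' Q, wl hY zY ΛY EY (3 * t) i0 Q * Gam hX zX sX hY zY sY lo hi P Q a a' x with hΨY
  have c3 : ∀ (a a' : ℕ) (x : G), ∑' P, wf hX ΛX (3 * t) i0 P * ∑' Q, wf hY ΛY (3 * t) i0 Q *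
      Gam hX zX sX hY zY sY lo hi P Q a a' x ≤ uX * uY + ΨX a a' x + ΨY a a' x := by
    intro a a' x
    have k2 : ∀ (P : List BX) (Q : List BY), wf hX ΛX (3 * t) i0 P * (wf hY ΛY (3 * t) i0 Q *
        Gam hX zX sX hY zY sY lo hi P Q a a' x)
        ≤ wn hX zX ΛX EX (3 * t) i0 P * wn hY zY ΛY EY (3 * t) i0 Q
          + wl hX zX ΛX EX (3 * t) i0 P * (wf hY ΛY (3 * t) i0 Q *
            Gam hX zX sX hY zY sY lo hi P Q a a' x)
          + wf hX ΛX (3 * t) i0 P * (wl hY zY ΛY EY (3 * t) i0 Q *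
            Gam hX zX sX hY zY sY lo hi P Q a a' x) := by
      intro P Q
      have hG := Gam_le hX zX sX hY zY sY lo hi P Q a a' x
      set γ := Gam hX zX sX hY zY sY lo hi P Q a a' x
      rw [wl_add_wn hX zX ΛX EX (3 * t) i0 P, wl_add_wn hY zY ΛY EY (3 * t) i0 Q]
      set p1 := wl hX zX ΛX EX (3 * t) i0 P
      set p2 := wn hX zX ΛX EX (3 * t) i0 P
      set q1 := wl hY zY ΛY EY (3 * t) i0 Q
      set q2 := wn hY zY ΛY EY (3 * t) i0 Q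
      calc (p1 + p2) * ((q1 + q2) * γ) = p2 * (q2 * γ) + p1 * ((q1 + q2) * γ) + p2 * (q1 * γ) := by
            ring
        _ ≤ p2 * (q2 * 1) + p1 * ((q1 + q2) * γ) + (p1 + p2) * (q1 * γ) := by
            gcongr
            exact le_add_self
        _ = _ := by rw [mul_one]
    calc _ = ∑' P, ∑' Q, wf hX ΛX (3 * t) i0 P * (wf hY ΛY (3 * t) i0 Q *
        Gam hX zX sX hY zY sY lo hi P Q a a' x) := by simp_rw [← ENNReal.tsum_mul_left]
      _ ≤ _ := ENNReal.tsum_le_tsum fun P => ENNReal.tsum_le_tsum fun Q => k2 P Q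
      _ = ((∑' P, wn hX zX ΛX EX (3 * t) i0 P) * ∑' Q, wn hY zY ΛY EY (3 * t) i0 Q)
          + ΨX a a' x + ΨY a a' x := by
          simp_rw [ENNReal.tsum_add]
          simp_rw [ENNReal.tsum_mul_left]
          rw [ENNReal.tsum_mul_right]
      _ ≤ _ := by gcongr
  have c4 : ∑' P1, wf hX ΛX A i0 P1 * ∑' Q1, wf hY ΛY A i0 Q1 *
        ∑' P2, wf hX ΛX (3 * t) i0 P2 * ∑' Q2, wf hY ΛY (3 * t) i0 Q2 *
      Gam hX zX sX hY zY sY lo hi P2 Q2 (HT hX P1) (HT hY Q1) (w + Dp zY Q1 - Dp zX P1)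
      ≤ uX * uY + (∑' P1, wf hX ΛX A i0 P1 * ∑' Q1, wf hY ΛY A i0 Q1 *
          ΨX (HT hX P1) (HT hY Q1) (w + Dp zY Q1 - Dp zX P1))
        + (∑' P1, wf hX ΛX A i0 P1 * ∑' Q1, wf hY ΛY A i0 Q1 *
          ΨY (HT hX P1) (HT hY Q1) (w + Dp zY Q1 - Dp zX P1)) := by
    calc _ ≤ ∑' P1, ∑' Q1, (wf hX ΛX A i0 P1 * wf hY ΛY A i0 Q1) *
          (uX * uY + ΨX (HT hX P1) (HT hY Q1) (w + Dp zY Q1 - Dp zX P1)
            + ΨY (HT hX P1) (HT hY Q1) (w + Dp zY Q1 - Dp zX P1)) := by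
          refine ENNReal.tsum_le_tsum fun P1 => ?_
          rw [← ENNReal.tsum_mul_left]
          refine ENNReal.tsum_le_tsum fun Q1 => ?_
          rw [← mul_assoc]
          exact mul_le_mul_right (c3 _ _ _) _
      _ = (∑' P1, wf hX ΛX A i0 P1) * (∑' Q1, wf hY ΛY A i0 Q1) * (uX * uY)
          + (∑' P1, wf hX ΛX A i0 P1 * ∑' Q1, wf hY ΛY A i0 Q1 *
            ΨX (HT hX P1) (HT hY Q1) (w + Dp zY Q1 - Dp zX P1))
          + (∑' P1, wf hX ΛX A i0 P1 * ∑' Q1, wf hY ΛY A i0 Q1 *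
            ΨY (HT hX P1) (HT hY Q1) (w + Dp zY Q1 - Dp zX P1)) := by
          simp_rw [mul_add, ENNReal.tsum_add]
          congr 1
          · congr 1
            · rw [mul_assoc, ← ENNReal.tsum_mul_right]
              refine tsum_congr fun P1 => ?_
              rw [← ENNReal.tsum_mul_right, ← ENNReal.tsum_mul_left]
              refine tsum_congr fun Q1 => ?_
              ring
            · refine tsum_congr fun P1 => ?_
              rw [← ENNReal.tsum_mul_left]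
              refine tsum_congr fun Q1 => ?_
              ring
          · refine tsum_congr fun P1 => ?_
            rw [← ENNReal.tsum_mul_left]
            refine tsum_congr fun Q1 => ?_
            ring
      _ ≤ 1 * 1 * (uX * uY) + _ + _ := by
          gcongr
          · exact wf_sum_le hX ΛX h1X hΛX _ _
          · exact wf_sum_le hY ΛY h1Y hΛY _ _
      _ = _ := by rw [one_mul, one_mul]
  refine c4.trans ?_
  rw [add_assoc, add_assoc]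
  refine add_le_add le_rfl (add_le_add ?_ ?_)
  · have hcard : (Finset.Icc (3 * t) (3 * t + i0)).card = i0 + 1 := by simp; omega
    have := tieX (wf hX ΛX A i0) (HT hX) (Dp zX) (wf hY ΛY A i0) (HT hY) (Dp zY) A i0
      (icc_of_wf hX ΛX A i0) (icc_of_wf hY ΛY A i0) (wf_sum_le hY ΛY h1Y hΛY _ _)
      gX bX MX βX hmX hgX hgXM hbX w ΨX (by
        intro a a' x
        calc ΨX a a' x ≤ ∑' P, wf hX ΛX (3 * t) i0 P * ∑' Q, wf hY ΛY (3 * t) i0 Q * 1 := by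
              refine ENNReal.tsum_le_tsum fun P => mul_le_mul' (wl_le _ _ _ _ _ _ _) ?_
              exact ENNReal.tsum_le_tsum fun Q => mul_le_mul_right (Gam_le _ _ _ _ _ _ _ _ _ _ _ _ _) _
          _ ≤ ∑' P, wf hX ΛX (3 * t) i0 P * 1 := by
              refine ENNReal.tsum_le_tsum fun P => mul_le_mul_right ?_ _
              simp only [mul_one]
              exact wf_sum_le hY ΛY h1Y hΛY _ _
          _ ≤ 1 := by simp only [mul_one]; exact wf_sum_le hX ΛX h1X hΛX _ _)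
      ((i0 + 1) ^ 2 * B2) (by
        intro a ha a' ha' μ hμ1 hμM
        calc ∑' x, μ x * ΨX a a' x
            ≤ ∑' x, ∑ k ∈ Finset.Icc (3 * t) (3 * t + i0), ∑ k' ∈ Finset.Icc (3 * t) (3 * t + i0),
              μ x * PhX hX zX sX ΛX hY zY sY ΛY (EX k) lo hi a a' k k' x := by
              refine ENNReal.tsum_le_tsum fun x => ?_
              simp_rw [← Finset.mul_sum]
              exact mul_le_mul_right (psiX_le hX zX sX ΛX hY zY sY ΛY EX lo hi (3 * t) i0 a a' x) _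
          _ = ∑ k ∈ Finset.Icc (3 * t) (3 * t + i0), ∑ k' ∈ Finset.Icc (3 * t) (3 * t + i0),
              ∑' x, μ x * PhX hX zX sX ΛX hY zY sY ΛY (EX k) lo hi a a' k k' x := by
              rw [swap1]
          _ ≤ ∑ k ∈ Finset.Icc (3 * t) (3 * t + i0), ∑ k' ∈ Finset.Icc (3 * t) (3 * t + i0), B2 :=
              Finset.sum_le_sum fun k hk => Finset.sum_le_sum fun k' hk' =>
                hB2 a ha a' ha' k hk k' hk' μ hμ1 hμM
          _ = (i0 + 1) ^ 2 * B2 := by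
              rw [Finset.sum_const, Finset.sum_const, hcard, nsmul_eq_mul, nsmul_eq_mul]
              push_cast; ring)
    refine this.trans (le_of_eq ?_)
    ring
  · have hcard : (Finset.Icc (3 * t) (3 * t + i0)).card = i0 + 1 := by simp; omega
    have := tieY (wf hX ΛX A i0) (HT hX) (Dp zX) (wf hY ΛY A i0) (HT hY) (Dp zY) A i0
      (icc_of_wf hX ΛX A i0) (icc_of_wf hY ΛY A i0) (wf_sum_le hX ΛX h1X hΛX _ _)
      gY bY MY βY hmY hgY hgYM hbY w ΨY (by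
        intro a a' x
        calc ΨY a a' x ≤ ∑' P, wf hX ΛX (3 * t) i0 P * ∑' Q, wf hY ΛY (3 * t) i0 Q * 1 := by
              refine ENNReal.tsum_le_tsum fun P => mul_le_mul_right ?_ _
              exact ENNReal.tsum_le_tsum fun Q => mul_le_mul' (wl_le _ _ _ _ _ _ _)
                (Gam_le _ _ _ _ _ _ _ _ _ _ _ _ _)
          _ ≤ ∑' P, wf hX ΛX (3 * t) i0 P * 1 := by
              refine ENNReal.tsum_le_tsum fun P => mul_le_mul_right ?_ _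
              simp only [mul_one]
              exact wf_sum_le hY ΛY h1Y hΛY _ _
          _ ≤ 1 := by simp only [mul_one]; exact wf_sum_le hX ΛX h1X hΛX _ _)
      ((i0 + 1) ^ 2 * B3) (by
        intro a ha a' ha' μ hμ1 hμM
        calc ∑' x, μ x * ΨY a a' x
            ≤ ∑' x, ∑ k ∈ Finset.Icc (3 * t) (3 * t + i0), ∑ k' ∈ Finset.Icc (3 * t) (3 * t + i0),
              μ x * PhY hX zX sX ΛX hY zY sY ΛY (EY k') lo hi a a' k k' x := by
              refine ENNReal.tsum_le_tsum fun x => ?_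
              simp_rw [← Finset.mul_sum]
              exact mul_le_mul_right (psiY_le hX zX sX ΛX hY zY sY ΛY EY lo hi (3 * t) i0 a a' x) _
          _ = ∑ k ∈ Finset.Icc (3 * t) (3 * t + i0), ∑ k' ∈ Finset.Icc (3 * t) (3 * t + i0),
              ∑' x, μ x * PhY hX zX sX ΛX hY zY sY ΛY (EY k') lo hi a a' k k' x := by
              rw [swap1]
          _ ≤ ∑ k ∈ Finset.Icc (3 * t) (3 * t + i0), ∑ k' ∈ Finset.Icc (3 * t) (3 * t + i0), B3 :=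
              Finset.sum_le_sum fun k hk => Finset.sum_le_sum fun k' hk' =>
                hB3 a ha a' ha' k hk k' hk' μ hμ1 hμM
          _ = (i0 + 1) ^ 2 * B3 := by
              rw [Finset.sum_const, Finset.sum_const, hcard, nsmul_eq_mul, nsmul_eq_mul]
              push_cast; ring)
    refine this.trans (le_of_eq ?_)
    ring

end Crest.Agent.R154.Asm810
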