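import Crest.Agent.R154.Asm2_855

/-! Row 154 (helper855): ROAD 801, assembly: the tie law and one window. -/

set_option autoImplicit false
set_option linter.unusedVariables false
set_option linter.unusedSectionVars false

namespace Crest.Agent.R154.Asm855

open scoped ENNReal
open B5A

variable {BX BY G : Type*} [AddCommGroup G]
  (ΛX : BX → ℝ≥0∞) (ΛY : BY → ℝ≥0∞) (hX : BX → ℕ) (hY : BY → ℕ) (zX : BX → G) (zY : BY → G)
  (sX : BX → Set (G × ℕ)) (sY : BY → Set (G × ℕ))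

/-- common site -/
def Ct (L : List BX) (L' : List BY) (x y : G) (a a' : ℕ) (g : G) (k : ℕ) : Prop :=
  (g, k) ∈ Tr hX zX sX L x a ∧ (g, k) ∈ Tr hY zY sY L' y a'

/-- contact of two pieces, all contacts in `[lo, hi]` -/
def Ph (lo hi : ℕ) (L : List BX) (L' : List BY) (x y : G) (a a' : ℕ) : Prop :=
  (∃ g k, Ct hX hY zX zY sX sY L L' x y a a' g k) ∧
    ∀ g k, Ct hX hY zX zY sX sY L L' x y a a' g k → lo ≤ k ∧ k ≤ hi

lemma Ph_shift (lo hi : ℕ) (L : List BX) (L' : List BY) (x y v : G) (a a' : ℕ) :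
    Ph hX hY zX zY sX sY lo hi L L' x y a a' ↔
      Ph hX hY zX zY sX sY lo hi L L' (x + v) (y + v) a a' := by
  have key : ∀ g k, Ct hX hY zX zY sX sY L L' x y a a' g k ↔
      Ct hX hY zX zY sX sY L L' (x + v) (y + v) a a' (g + v) k := fun g k => by
    unfold Ct
    rw [Tr_shift hX zX sX L x g v a k, Tr_shift hY zY sY L' y g v a' k]
  constructor
  · rintro ⟨⟨g, k, h⟩, h2⟩
    refine ⟨⟨g + v, k, (key g k).1 h⟩, fun g' k' h' => h2 (g' - v) k' ((key _ _).2 ?_)⟩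
    rwa [sub_add_cancel]
  · rintro ⟨⟨g, k, h⟩, h2⟩
    refine ⟨⟨g - v, k, (key _ _).2 (by rwa [sub_add_cancel])⟩, fun g' k' h' => h2 _ k' ((key _ _).1 h')⟩

/-- contact mass of two free pieces at relative position `x` -/
noncomputable def Gd (lo hi : ℕ) (PX : List BX → Prop) (PY : List BY → Prop) (α α' : ℕ) (x : G) :
    ℝ≥0∞ :=
  ∑' L : List BX, LW ΛX L * ∑' L' : List BY, LW ΛY L' *
    ind (PX L ∧ PY L' ∧ Ph hX hY zX zY sX sY lo hi L L' 0 x α α')

lemma quad (a a' T T' lo hi α α' : ℕ) (w : G) (fA : List BX → Prop) (fA' : List BY → Prop)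
    (hα : ∀ A, fA A → HT hX A = α) (hα' : ∀ A, fA' A → HT hY A = α')
    (PX : List BX → Prop) (PY : List BY → Prop) :
    E ΛX hX a (fun A => E ΛY hY a' (fun A' => E ΛX hX T (fun P => E ΛY hY T' (fun P' =>
      ind (fA A ∧ fA' A' ∧ PX P ∧ PY P' ∧
        Ph hX hY zX zY sX sY lo hi P P' (Dp zX A) (w + Dp zY A') (HT hX A) (HT hY A'))))))
    ≤ ∑' x, E ΛX hX a (fun A => E ΛY hY a' (fun A' =>
        ind (fA A ∧ fA' A' ∧ w + Dp zY A' - Dp zX A = x)))
        * Gd ΛX ΛY hX hY zX zY sX sY lo hi PX PY α α' x := by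
  have e1 : ∀ A A', E ΛX hX T (fun P => E ΛY hY T' (fun P' =>
      ind (fA A ∧ fA' A' ∧ PX P ∧ PY P' ∧
        Ph hX hY zX zY sX sY lo hi P P' (Dp zX A) (w + Dp zY A') (HT hX A) (HT hY A'))))
      ≤ ∑' x, ind (fA A ∧ fA' A' ∧ w + Dp zY A' - Dp zX A = x)
        * Gd ΛX ΛY hX hY zX zY sX sY lo hi PX PY α α' x := by
    intro A A'
    by_cases h : fA A ∧ fA' A'
    · refine le_trans ?_ (ENNReal.le_tsum (w + Dp zY A' - Dp zX A))
      rw [ind_true ⟨h.1, h.2, rfl⟩, one_mul]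
      refine (E_le_tsum _ _ _ _).trans ?_
      refine ENNReal.tsum_le_tsum fun P => mul_le_mul_right ?_ _
      refine (E_le_tsum _ _ _ _).trans ?_
      refine ENNReal.tsum_le_tsum fun P' => mul_le_mul_right (ind_mono ?_) _
      rintro ⟨-, -, h1, h2, h3⟩
      refine ⟨h1, h2, ?_⟩
      rw [hα A h.1, hα' A' h.2] at h3
      have := (Ph_shift hX hY zX zY sX sY lo hi P P' (Dp zX A) (w + Dp zY A') (-Dp zX A) α α').1 h3
      rwa [add_neg_cancel, ← sub_eq_add_neg] at this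
    · have : ∀ P P', ind (fA A ∧ fA' A' ∧ PX P ∧ PY P' ∧
        Ph hX hY zX zY sX sY lo hi P P' (Dp zX A) (w + Dp zY A') (HT hX A) (HT hY A')) = 0 :=
        fun P P' => ind_false (fun h' => h ⟨h'.1, h'.2.1⟩)
      simp only [this, E_zero_fun]
      exact zero_le
  calc _ ≤ E ΛX hX a (fun A => E ΛY hY a' (fun A' => ∑' x,
          ind (fA A ∧ fA' A' ∧ w + Dp zY A' - Dp zX A = x)
          * Gd ΛX ΛY hX hY zX zY sX sY lo hi PX PY α α' x)) :=
        E_mono _ _ _ fun A _ => E_mono _ _ _ fun A' _ => e1 A A'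
    _ = _ := by
        simp only [E_tsum, E_smul']

variable (h1X : ∀ b, 1 ≤ hX b) (h1Y : ∀ b, 1 ≤ hY b) (hΛX : ∑' b, ΛX b = 1) (hΛY : ∑' b, ΛY b = 1)
include h1X h1Y hΛX hΛY

lemma mu_sum (a a' : ℕ) (w : G) (fA : List BX → Prop) (fA' : List BY → Prop) :
    ∑' x, E ΛX hX a (fun A => E ΛY hY a' (fun A' =>
        ind (fA A ∧ fA' A' ∧ w + Dp zY A' - Dp zX A = x))) ≤ 1 := by
  rw [← E_tsum]
  refine E_le_const ΛX hX h1X hΛX a 1 _ fun A _ => ?_
  rw [← E_tsum]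
  refine E_le_const ΛY hY h1Y hΛY a' 1 _ fun A' _ => ?_
  rw [tsum_eq_single (w + Dp zY A' - Dp zX A)]
  · exact ind_le_one _
  · intro x hx; exact ind_false (fun h => hx h.2.2.symm)

/-- sup bound from a density bound for `X` -/
lemma mu_leX (a a' : ℕ) (w : G) (fA : List BX → Prop) (fA' : List BY → Prop) (κ : ℝ≥0∞)
    (S : List BX → Prop) (hS : ∀ A, fA A → S A)
    (hκ : ∀ f : G → ℝ≥0∞, E ΛX hX a (fun A => ind (S A) * f (Dp zX A)) ≤ κ * ∑' x, f x) (x : G) :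
    E ΛX hX a (fun A => E ΛY hY a' (fun A' =>
        ind (fA A ∧ fA' A' ∧ w + Dp zY A' - Dp zX A = x))) ≤ κ := by
  rw [E_comm]
  refine E_le_const ΛY hY h1Y hΛY a' κ _ fun A' _ => ?_
  refine (E_mono _ _ _ fun A _ => ?_).trans ((hκ (fun y => ind (y = w + Dp zY A' - x))).trans ?_)
  · by_cases h : fA A ∧ fA' A' ∧ w + Dp zY A' - Dp zX A = x
    · rw [ind_true h, ind_true (hS A h.1), one_mul, ind_true]
      rw [← h.2.2]; abel
    · rw [ind_false h]; exact zero_le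
  · rw [tsum_eq_single (w + Dp zY A' - x)]
    · calc κ * _ ≤ κ * 1 := mul_le_mul_right (ind_le_one _) _
        _ = κ := mul_one _
    · intro y hy; exact ind_false hy

lemma mu_leY (a a' : ℕ) (w : G) (fA : List BX → Prop) (fA' : List BY → Prop) (κ : ℝ≥0∞)
    (S : List BY → Prop) (hS : ∀ A, fA' A → S A)
    (hκ : ∀ f : G → ℝ≥0∞, E ΛY hY a' (fun A => ind (S A) * f (Dp zY A)) ≤ κ * ∑' x, f x) (x : G) :
    E ΛX hX a (fun A => E ΛY hY a' (fun A' =>
        ind (fA A ∧ fA' A' ∧ w + Dp zY A' - Dp zX A = x))) ≤ κ := by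
  refine E_le_const ΛX hX h1X hΛX a κ _ fun A _ => ?_
  refine (E_mono _ _ _ fun A' _ => ?_).trans ((hκ (fun y => ind (y = x + Dp zX A - w))).trans ?_)
  · by_cases h : fA A ∧ fA' A' ∧ w + Dp zY A' - Dp zX A = x
    · rw [ind_true h, ind_true (hS A' h.2.1), one_mul, ind_true]
      rw [← h.2.2]; abel
    · rw [ind_false h]; exact zero_le
  · rw [tsum_eq_single (x + Dp zX A - w)]
    · calc κ * _ ≤ κ * 1 := mul_le_mul_right (ind_le_one _) _
        _ = κ := mul_one _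
    · intro y hy; exact ind_false hy

end Crest.Agent.R154.Asm855
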