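import Crest.Agent.R154.Asm2_958

/-! Row 154, ROAD 801, assembly (helper958), part 3: the local terms of one window. -/

set_option autoImplicit false

namespace Crest.Agent.R154.Asm958

open Crest.Agent.R154.B5A Crest.Agent.R154.FP178
open scoped ENNReal

lemma mu_le_left {P P' G : Type*} (w1 : P → ℝ≥0∞) (w2 : P' → ℝ≥0∞) (c1 : P → ℕ) (c2 : P' → ℕ)
    (xx : P → P' → G) [∀ p p' c c' x, Decidable (c1 p = c ∧ c2 p' = c' ∧ xx p p' = x)]
    [∀ p p' c x, Decidable (c1 p = c ∧ xx p p' = x)]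
    (Mb : ℝ≥0∞) (h : ∀ p' c x, ∑' p, (if c1 p = c ∧ xx p p' = x then w1 p else 0) ≤ Mb)
    (hw2 : ∑' p, w2 p ≤ 1) (c c' : ℕ) (x : G) :
    ∑' p, ∑' p', (if c1 p = c ∧ c2 p' = c' ∧ xx p p' = x then w1 p * w2 p' else 0) ≤ Mb := by
  rw [ENNReal.tsum_comm]
  calc _ ≤ ∑' p', w2 p' * ∑' p, (if c1 p = c ∧ xx p p' = x then w1 p else 0) := by
        refine ENNReal.tsum_le_tsum fun p' => ?_
        rw [← ENNReal.tsum_mul_left]
        refine ENNReal.tsum_le_tsum fun p => ?_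
        by_cases h : c1 p = c ∧ c2 p' = c' ∧ xx p p' = x
        · rw [if_pos h, if_pos ⟨h.1, h.2.2⟩, mul_comm]
        · rw [if_neg h]; exact zero_le
    _ ≤ ∑' p', w2 p' * Mb := ENNReal.tsum_le_tsum fun p' => mul_le_mul_right (h p' c x) _
    _ = (∑' p', w2 p') * Mb := ENNReal.tsum_mul_right
    _ ≤ 1 * Mb := mul_le_mul_left hw2 _
    _ = Mb := one_mul _

lemma mu_le_right {P P' G : Type*} (w1 : P → ℝ≥0∞) (w2 : P' → ℝ≥0∞) (c1 : P → ℕ) (c2 : P' → ℕ)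
    (xx : P → P' → G) [∀ p p' c c' x, Decidable (c1 p = c ∧ c2 p' = c' ∧ xx p p' = x)]
    [∀ p p' c x, Decidable (c2 p' = c ∧ xx p p' = x)]
    (Mb : ℝ≥0∞) (h : ∀ p c x, ∑' p', (if c2 p' = c ∧ xx p p' = x then w2 p' else 0) ≤ Mb)
    (hw1 : ∑' p, w1 p ≤ 1) (c c' : ℕ) (x : G) :
    ∑' p, ∑' p', (if c1 p = c ∧ c2 p' = c' ∧ xx p p' = x then w1 p * w2 p' else 0) ≤ Mb := by
  calc _ ≤ ∑' p, w1 p * ∑' p', (if c2 p' = c' ∧ xx p p' = x then w2 p' else 0) := by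
        refine ENNReal.tsum_le_tsum fun p => ?_
        rw [← ENNReal.tsum_mul_left]
        refine ENNReal.tsum_le_tsum fun p' => ?_
        by_cases h : c1 p = c ∧ c2 p' = c' ∧ xx p p' = x
        · rw [if_pos h, if_pos ⟨h.2.1, h.2.2⟩]
        · rw [if_neg h]; exact zero_le
    _ ≤ ∑' p, w1 p * Mb := ENNReal.tsum_le_tsum fun p => mul_le_mul_right (h p c' x) _
    _ = (∑' p, w1 p) * Mb := ENNReal.tsum_mul_right
    _ ≤ 1 * Mb := mul_le_mul_left hw1 _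
    _ = Mb := one_mul _

lemma mu_sum {P P' G : Type*} (w1 : P → ℝ≥0∞) (w2 : P' → ℝ≥0∞) (c1 : P → ℕ) (c2 : P' → ℕ)
    (xx : P → P' → G) [∀ p p' c c' x, Decidable (c1 p = c ∧ c2 p' = c' ∧ xx p p' = x)]
    (hw1 : ∑' p, w1 p ≤ 1) (hw2 : ∑' p, w2 p ≤ 1) (c c' : ℕ) :
    ∑' x, ∑' p, ∑' p', (if c1 p = c ∧ c2 p' = c' ∧ xx p p' = x then w1 p * w2 p' else 0) ≤ 1 := by
  rw [ENNReal.tsum_comm]
  calc _ = ∑' p, ∑' p', ∑' x, (if c1 p = c ∧ c2 p' = c' ∧ xx p p' = x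
          then w1 p * w2 p' else 0) := tsum_congr fun p => ENNReal.tsum_comm
    _ ≤ ∑' p, ∑' p', w1 p * w2 p' := by
        refine ENNReal.tsum_le_tsum fun p => ENNReal.tsum_le_tsum fun p' => ?_
        rw [tsum_eq_single (xx p p')]
        · split_ifs <;> simp
        · intro x hx
          rw [if_neg (fun h => hx h.2.2.symm)]
    _ = (∑' p, w1 p) * (∑' p', w2 p') := by
        simp_rw [ENNReal.tsum_mul_left]
        rw [ENNReal.tsum_mul_right]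
    _ ≤ 1 * 1 := mul_le_mul' hw1 hw2
    _ = 1 := one_mul 1

section loc

variable {A G : Type*} (q : A → ℝ≥0∞) (v : A → ℕ × G)

lemma fin_E (hq : ∑' a, q a ≤ 1) (θ : ℝ≥0∞) (hθ : θ ≠ 0) (hθ' : θ ≠ ⊤) :
    ∃ E : ℕ → Finset G, (∀ h z, z ∈ E h ↔ θ ≤ pm q v (h, z)) ∧
      ∀ h, ((E h).card : ℝ≥0∞) * θ ≤ 1 := by
  classical
  have key : ∀ h : ℕ, ∑' z, pm q v (h, z) ≤ 1 := by
    intro h
    refine le_trans ?_ hq
    simp only [pm]
    rw [ENNReal.tsum_comm]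
    refine ENNReal.tsum_le_tsum fun a => ?_
    rw [tsum_eq_single (v a).2]
    · split_ifs <;> simp
    · intro z hz
      rw [if_neg]
      intro he
      exact hz (by rw [he])
  have hh : ∀ h : ℕ, ∃ hf : {z | θ ≤ pm q v (h, z)}.Finite,
      (hf.toFinset.card : ℝ≥0∞) ≤ 1 / θ := fun h =>
    ENNReal.finset_card_const_le_le_of_tsum_le ENNReal.one_ne_top (key h) hθ
  choose hf hc using hh
  refine ⟨fun h => (hf h).toFinset, fun h z => by simp, fun h => ?_⟩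
  have := hc h
  rwa [ENNReal.le_div_iff_mul_le (Or.inl hθ) (Or.inl hθ')] at this

end loc

section win

variable {BX BY G : Type*} [AddCommGroup G]
variable (ΛX : BX → ℝ≥0∞) (hX : BX → ℕ) (zX : BX → G) (sX : BX → Set (G × ℕ))
variable (ΛY : BY → ℝ≥0∞) (hY : BY → ℕ) (zY : BY → G) (sY : BY → Set (G × ℕ))

open Classical in
/-- low indicator -/
noncomputable def lowI {B : Type*} (Λ : B → ℝ≥0∞) (h : B → ℕ) (z : B → G) (T i0 : ℕ)
    (θ : ℝ≥0∞) (P : List (List B)) : ℝ≥0∞ :=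
  if ∃ a ∈ P, pm (PW Λ h T i0) (vv h z) (vv h z a) ≤ 2 * θ then 1 else 0

open Classical in
/-- local indicator -/
noncomputable def locI {B : Type*} (Λ : B → ℝ≥0∞) (h : B → ℕ) (z : B → G) (T i0 : ℕ)
    (θ : ℝ≥0∞) (a : List B) : ℝ≥0∞ :=
  if θ ≤ pm (PW Λ h T i0) (vv h z) (vv h z a) then 1 else 0

open Classical in
/-- contact indicator -/
noncomputable def II (lo hi c c' : ℕ) (x : G) (a : List BX) (a' : List BY) : ℝ≥0∞ :=
  if ev (TX hX zX sX a 0 c) (TX hY zY sY a' x c') lo hi then 1 else 0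

lemma low_sum {B : Type*} (Λ : B → ℝ≥0∞) (h : B → ℕ) (z : B → G) (T i0 : ℕ) (θ : ℝ≥0∞)
    (hq : ∑' a, PW Λ h T i0 a ≤ 1) (j : ℕ) (Pr : ℕ × G → Prop) [DecidablePred Pr]
    (hPr : ∀ x y, Pr x → Pr y → x = y) :
    ∑' P, (if Pr (P.map (vv h z)).sum then wl (PW Λ h T i0) j P * lowI Λ h z T i0 θ P else 0)
      ≤ j * (2 * θ) := by
  classical
  have := low_density (PW Λ h T i0) hq (vv h z) (2 * θ) j Pr hPr
  rw [SL_eq_wl] at this
  refine le_trans (ENNReal.tsum_le_tsum fun P => ?_) this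
  rw [lowI]
  by_cases h1 : Pr (P.map (vv h z)).sum
  · by_cases h2 : ∃ a ∈ P, pm (PW Λ h T i0) (vv h z) (vv h z a) ≤ 2 * θ
    · rw [if_pos h1, if_pos h2, if_pos ⟨h2, h1⟩]
    · rw [if_pos h1, if_neg h2, mul_zero]; exact zero_le
  · rw [if_neg h1]; exact zero_le

lemma sum_wl_le {A : Type*} (q : A → ℝ≥0∞) (hq : ∑' a, q a ≤ 1) (j : ℕ) :
    ∑' P, wl q j P ≤ 1 := by
  have := SL_le_one q hq j (F := fun _ => 1) (fun _ _ => le_rfl)
  rw [SL_eq_wl] at this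
  simpa using this

lemma lowI_le {B : Type*} (Λ : B → ℝ≥0∞) (h : B → ℕ) (z : B → G) (T i0 : ℕ)
    (θ : ℝ≥0∞) (P : List (List B)) : lowI Λ h z T i0 θ P ≤ 1 := by
  rw [lowI]; split_ifs <;> simp

lemma const_bd (j : ℕ) (θ us lam C0 : ℝ≥0∞) (k : ℝ≥0∞) (hk : k * θ ≤ 1) :
    C0 * (lam + j * (2 * θ) * k * us / lam + us)
      ≤ C0 * (lam + 2 * j * us / lam + us) := by
  have h : (j : ℝ≥0∞) * (2 * θ) * k ≤ 2 * j :=
    calc (j : ℝ≥0∞) * (2 * θ) * k = 2 * j * (k * θ) := by ring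
      _ ≤ 2 * j * 1 := mul_le_mul_right hk _
      _ = 2 * j := mul_one _
  have h' : (j : ℝ≥0∞) * (2 * θ) * k * us / lam ≤ 2 * j * us / lam :=
    ENNReal.div_le_div_right (mul_le_mul_left h us) lam
  exact mul_le_mul_right (add_le_add (add_le_add le_rfl h') le_rfl) _

/-- the local bound per window -/
noncomputable def LB (C0 : ℝ≥0∞) (us : ℕ → ℝ≥0∞) (lam : ℝ≥0∞) (s j i0 : ℕ) : ℝ≥0∞ :=
  ((j * i0 + 1 : ℕ) : ℝ≥0∞) * (((j * i0 + 1 : ℕ) : ℝ≥0∞) * (((i0 + 1 : ℕ) : ℝ≥0∞) *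
    (((i0 + 1 : ℕ) : ℝ≥0∞) * (C0 * (lam + 2 * j * us s / lam + us s)))))

theorem local_X (T i0 : ℕ) (hqX : ∑' a, PW ΛX hX T i0 a ≤ 1) (hqY : ∑' a, PW ΛY hY T i0 a ≤ 1)
    (C0 : ℝ≥0∞) (us : ℕ → ℝ≥0∞) (h2 : H2 ΛX hX zX sX ΛY hY zY sY C0 us)
    (θ : ℝ≥0∞) (hθ : θ ≠ 0) (hθ' : θ ≠ ⊤) (lam : ℝ≥0∞) (hl : lam ≠ 0) (hl' : lam ≠ ⊤)
    (s j lo hi : ℕ) (hlo : j * T + j * i0 + s ≤ lo) (hhi : hi + s ≤ j * T + T) (w : G) :
    ∑' P, ∑' P', (wl (PW ΛX hX T i0) j P * lowI ΛX hX zX T i0 θ P) * wl (PW ΛY hY T i0) j P' *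
      (∑' a, ∑' a', PW ΛX hX T i0 a * PW ΛY hY T i0 a' * (locI ΛX hX zX T i0 θ a *
        II hX zX sX hY zY sY lo hi (P.map (vv hX zX)).sum.1 (P'.map (vv hY zY)).sum.1
          (w + (P'.map (vv hY zY)).sum.2 - (P.map (vv hX zX)).sum.2) a a'))
      ≤ LB C0 us lam s j i0 := by
  classical
  obtain ⟨E, hE, hEc⟩ := fin_E (PW ΛX hX T i0) (vv hX zX) hqX θ hθ hθ'
  set C : Finset ℕ := Finset.Icc (j * T) (j * T + j * i0) with hC
  have hCcard : C.card = j * i0 + 1 := by rw [hC, Nat.card_Icc]; omega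
  have hw2 : ∑' P', wl (PW ΛY hY T i0) j P' ≤ 1 := sum_wl_le _ hqY j
  have hw1 : ∑' P, wl (PW ΛX hX T i0) j P * lowI ΛX hX zX T i0 θ P ≤ 1 := by
    refine le_trans (ENNReal.tsum_le_tsum fun P => ?_) (sum_wl_le _ hqX j)
    calc _ ≤ wl (PW ΛX hX T i0) j P * 1 := by gcongr; exact lowI_le _ _ _ _ _ _ _
      _ = _ := mul_one _
  refine le_trans (disint (fun P => wl (PW ΛX hX T i0) j P * lowI ΛX hX zX T i0 θ P)
    (fun P' => wl (PW ΛY hY T i0) j P') (fun P => (P.map (vv hX zX)).sum.1)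
    (fun P' => (P'.map (vv hY zY)).sum.1)
    (fun P P' => w + (P'.map (vv hY zY)).sum.2 - (P.map (vv hX zX)).sum.2) C
    (fun P hP => val_range j P (left_ne_zero_of_mul hP)) (fun P' hP' => val_range j P' hP')
    (fun c c' x => ∑' a, ∑' a', PW ΛX hX T i0 a * PW ΛY hY T i0 a' *
      (locI ΛX hX zX T i0 θ a * II hX zX sX hY zY sY lo hi c c' x a a'))
    (((i0 + 1 : ℕ) : ℝ≥0∞) *
    (((i0 + 1 : ℕ) : ℝ≥0∞) * (C0 * (lam + 2 * j * us s / lam + us s)))) ?_)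
    (by rw [hCcard, LB])
  intro c hc c' hc'
  rw [hC, Finset.mem_Icc] at hc hc'
  set μ : G → ℝ≥0∞ := fun x => ∑' P, ∑' P', (if (List.map (vv hX zX) P).sum.1 = c ∧
    (List.map (vv hY zY) P').sum.1 = c' ∧
    w + (List.map (vv hY zY) P').sum.2 - (List.map (vv hX zX) P).sum.2 = x
    then (wl (PW ΛX hX T i0) j P * lowI ΛX hX zX T i0 θ P) * wl (PW ΛY hY T i0) j P' else 0)
    with hμ
  have hμ1 : ∑' x, μ x ≤ 1 := mu_sum _ _ _ _ _ hw1 hw2 c c'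
  have hμM : ∀ x, μ x ≤ j * (2 * θ) := by
    intro x
    refine mu_le_left (fun P => wl (PW ΛX hX T i0) j P * lowI ΛX hX zX T i0 θ P) _
      (fun P => (List.map (vv hX zX) P).sum.1) (fun P' => (List.map (vv hY zY) P').sum.1)
      (fun P P' => w + (List.map (vv hY zY) P').sum.2 - (List.map (vv hX zX) P).sum.2) _ ?_
      hw2 c c' x
    intro P' c x
    exact low_sum ΛX hX zX T i0 θ hqX j
      (fun y => y.1 = c ∧ w + (List.map (vv hY zY) P').sum.2 - y.2 = x) (by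
        rintro ⟨x1, x2⟩ ⟨y1, y2⟩ ⟨h1, h2⟩ ⟨h3, h4⟩
        simp only at h1 h2 h3 h4
        refine Prod.ext (h1.trans h3.symm) ?_
        simpa using h2.trans h4.symm)
  have hpt : ∀ x, ∑' a, ∑' a', PW ΛX hX T i0 a * PW ΛY hY T i0 a' *
      (locI ΛX hX zX T i0 θ a * II hX zX sX hY zY sY lo hi c c' x a a')
      ≤ ∑ h ∈ Finset.Icc T (T + i0), ∑ h' ∈ Finset.Icc T (T + i0),
        ∑' L : List BX, ∑' L' : List BY, (if HT hX L = h ∧ Dp zX L ∈ E h ∧ HT hY L' = h' ∧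
          ev (TX hX zX sX L 0 c) (TX hY zY sY L' x c') lo hi then LW ΛX L * LW ΛY L' else 0) := by
    intro x
    simp_rw [← Summable.tsum_finsetSum (fun _ _ => ENNReal.summable)]
    refine ENNReal.tsum_le_tsum fun a => ENNReal.tsum_le_tsum fun a' => ?_
    by_cases ha : PW ΛX hX T i0 a = 0
    · simp [ha]
    by_cases ha' : PW ΛY hY T i0 a' = 0
    · simp [ha']
    rw [locI, II]
    by_cases h1 : θ ≤ pm (PW ΛX hX T i0) (vv hX zX) (vv hX zX a)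
    swap
    · rw [if_neg h1]; simp
    by_cases h3 : ev (TX hX zX sX a 0 c) (TX hY zY sY a' x c') lo hi
    swap
    · rw [if_neg h3]; simp
    rw [if_pos h1, if_pos h3, one_mul, mul_one]
    have ra := PW_ne_zero ha
    have ra' := PW_ne_zero ha'
    have ma : HT hX a ∈ Finset.Icc T (T + i0) :=
      Finset.mem_Icc.2 ⟨le_HT_of_fp hX ra.1, ra.2⟩
    have ma' : HT hY a' ∈ Finset.Icc T (T + i0) :=
      Finset.mem_Icc.2 ⟨le_HT_of_fp hY ra'.1, ra'.2⟩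
    calc PW ΛX hX T i0 a * PW ΛY hY T i0 a' ≤ LW ΛX a * LW ΛY a' :=
          mul_le_mul' (PW_le _ _ _ _ _) (PW_le _ _ _ _ _)
      _ = (if HT hX a = HT hX a ∧ Dp zX a ∈ E (HT hX a) ∧ HT hY a' = HT hY a' ∧
          ev (TX hX zX sX a 0 c) (TX hY zY sY a' x c') lo hi then LW ΛX a * LW ΛY a' else 0) := by
          rw [if_pos ⟨rfl, (hE _ _).2 h1, rfl, h3⟩]
      _ ≤ ∑ h' ∈ Finset.Icc T (T + i0), (if HT hX a = HT hX a ∧ Dp zX a ∈ E (HT hX a) ∧
          HT hY a' = h' ∧ ev (TX hX zX sX a 0 c) (TX hY zY sY a' x c') lo hi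
            then LW ΛX a * LW ΛY a' else 0) :=
          Finset.single_le_sum (f := fun h' => (if HT hX a = HT hX a ∧ Dp zX a ∈ E (HT hX a) ∧
          HT hY a' = h' ∧ ev (TX hX zX sX a 0 c) (TX hY zY sY a' x c') lo hi
            then LW ΛX a * LW ΛY a' else 0)) (fun _ _ => zero_le) ma'
      _ ≤ _ :=
          Finset.single_le_sum (f := fun h => ∑ h' ∈ Finset.Icc T (T + i0),
            (if HT hX a = h ∧ Dp zX a ∈ E h ∧
          HT hY a' = h' ∧ ev (TX hX zX sX a 0 c) (TX hY zY sY a' x c') lo hi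
            then LW ΛX a * LW ΛY a' else 0)) (fun _ _ => zero_le) ma
  calc ∑' x, μ x * ∑' a, ∑' a', PW ΛX hX T i0 a * PW ΛY hY T i0 a' *
      (locI ΛX hX zX T i0 θ a * II hX zX sX hY zY sY lo hi c c' x a a')
      ≤ ∑' x, ∑ h ∈ Finset.Icc T (T + i0), ∑ h' ∈ Finset.Icc T (T + i0), μ x *
        ∑' L : List BX, ∑' L' : List BY, (if HT hX L = h ∧ Dp zX L ∈ E h ∧ HT hY L' = h' ∧
          ev (TX hX zX sX L 0 c) (TX hY zY sY L' x c') lo hi
            then LW ΛX L * LW ΛY L' else 0) := by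
        refine ENNReal.tsum_le_tsum fun x => ?_
        calc _ ≤ _ := mul_le_mul_right (hpt x) _
          _ = _ := by simp_rw [Finset.mul_sum]
    _ = ∑ h ∈ Finset.Icc T (T + i0), ∑ h' ∈ Finset.Icc T (T + i0), ∑' x, μ x *
        ∑' L : List BX, ∑' L' : List BY, (if HT hX L = h ∧ Dp zX L ∈ E h ∧ HT hY L' = h' ∧
          ev (TX hX zX sX L 0 c) (TX hY zY sY L' x c') lo hi
            then LW ΛX L * LW ΛY L' else 0) := by
        simp_rw [Summable.tsum_finsetSum (fun _ _ => ENNReal.summable)]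
    _ ≤ ∑ h ∈ Finset.Icc T (T + i0), ∑ h' ∈ Finset.Icc T (T + i0),
          (C0 * (lam + 2 * j * us s / lam + us s)) := by
        refine Finset.sum_le_sum fun h hh => Finset.sum_le_sum fun h' hh' => ?_
        rw [Finset.mem_Icc] at hh hh'
        refine le_trans (h2 s h h' c c' lo hi (E h) μ (j * (2 * θ)) lam hμ1 hμM hl hl'
          (by omega) (by omega) (by omega) (by omega)) ?_
        exact const_bd j θ (us s) lam C0 _ (hEc h)
    _ = _ := by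
        rw [Finset.sum_const, Finset.sum_const, Nat.card_Icc]
        simp only [nsmul_eq_mul]
        rw [show T + i0 + 1 - T = i0 + 1 by omega]

theorem local_Y (T i0 : ℕ) (hqX : ∑' a, PW ΛX hX T i0 a ≤ 1) (hqY : ∑' a, PW ΛY hY T i0 a ≤ 1)
    (C0 : ℝ≥0∞) (us : ℕ → ℝ≥0∞) (h3 : H3 ΛX hX zX sX ΛY hY zY sY C0 us)
    (θ : ℝ≥0∞) (hθ : θ ≠ 0) (hθ' : θ ≠ ⊤) (lam : ℝ≥0∞) (hl : lam ≠ 0) (hl' : lam ≠ ⊤)
    (s j lo hi : ℕ) (hlo : j * T + j * i0 + s ≤ lo) (hhi : hi + s ≤ j * T + T) (w : G) :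
    ∑' P, ∑' P', wl (PW ΛX hX T i0) j P * (wl (PW ΛY hY T i0) j P' * lowI ΛY hY zY T i0 θ P') *
      (∑' a, ∑' a', PW ΛX hX T i0 a * PW ΛY hY T i0 a' * (locI ΛY hY zY T i0 θ a' *
        II hX zX sX hY zY sY lo hi (P.map (vv hX zX)).sum.1 (P'.map (vv hY zY)).sum.1
          (w + (P'.map (vv hY zY)).sum.2 - (P.map (vv hX zX)).sum.2) a a'))
      ≤ LB C0 us lam s j i0 := by
  classical
  obtain ⟨E, hE, hEc⟩ := fin_E (PW ΛY hY T i0) (vv hY zY) hqY θ hθ hθ'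
  set C : Finset ℕ := Finset.Icc (j * T) (j * T + j * i0) with hC
  have hCcard : C.card = j * i0 + 1 := by rw [hC, Nat.card_Icc]; omega
  have hw1 : ∑' P, wl (PW ΛX hX T i0) j P ≤ 1 := sum_wl_le _ hqX j
  have hw2 : ∑' P, wl (PW ΛY hY T i0) j P * lowI ΛY hY zY T i0 θ P ≤ 1 := by
    refine le_trans (ENNReal.tsum_le_tsum fun P => ?_) (sum_wl_le _ hqY j)
    calc _ ≤ wl (PW ΛY hY T i0) j P * 1 := by gcongr; exact lowI_le _ _ _ _ _ _ _
      _ = _ := mul_one _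
  refine le_trans (disint (fun P => wl (PW ΛX hX T i0) j P)
    (fun P' => wl (PW ΛY hY T i0) j P' * lowI ΛY hY zY T i0 θ P')
    (fun P => (P.map (vv hX zX)).sum.1)
    (fun P' => (P'.map (vv hY zY)).sum.1)
    (fun P P' => w + (P'.map (vv hY zY)).sum.2 - (P.map (vv hX zX)).sum.2) C
    (fun P hP => val_range j P hP) (fun P' hP' => val_range j P' (left_ne_zero_of_mul hP'))
    (fun c c' x => ∑' a, ∑' a', PW ΛX hX T i0 a * PW ΛY hY T i0 a' *
      (locI ΛY hY zY T i0 θ a' * II hX zX sX hY zY sY lo hi c c' x a a'))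
    (((i0 + 1 : ℕ) : ℝ≥0∞) *
    (((i0 + 1 : ℕ) : ℝ≥0∞) * (C0 * (lam + 2 * j * us s / lam + us s)))) ?_)
    (by rw [hCcard, LB])
  intro c hc c' hc'
  rw [hC, Finset.mem_Icc] at hc hc'
  set μ : G → ℝ≥0∞ := fun x => ∑' P, ∑' P', (if (List.map (vv hX zX) P).sum.1 = c ∧
    (List.map (vv hY zY) P').sum.1 = c' ∧
    w + (List.map (vv hY zY) P').sum.2 - (List.map (vv hX zX) P).sum.2 = x
    then wl (PW ΛX hX T i0) j P * (wl (PW ΛY hY T i0) j P' * lowI ΛY hY zY T i0 θ P') else 0)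
    with hμ
  have hμ1 : ∑' x, μ x ≤ 1 := mu_sum _ _ _ _ _ hw1 hw2 c c'
  have hμM : ∀ x, μ x ≤ j * (2 * θ) := by
    intro x
    refine mu_le_right _ (fun P' => wl (PW ΛY hY T i0) j P' * lowI ΛY hY zY T i0 θ P')
      (fun P => (List.map (vv hX zX) P).sum.1) (fun P' => (List.map (vv hY zY) P').sum.1)
      (fun P P' => w + (List.map (vv hY zY) P').sum.2 - (List.map (vv hX zX) P).sum.2) _ ?_
      hw1 c c' x
    intro P c x
    exact low_sum ΛY hY zY T i0 θ hqY j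
      (fun y => y.1 = c ∧ w + y.2 - (List.map (vv hX zX) P).sum.2 = x) (by
        rintro ⟨x1, x2⟩ ⟨y1, y2⟩ ⟨h1, h2⟩ ⟨h3, h4⟩
        simp only at h1 h2 h3 h4
        refine Prod.ext (h1.trans h3.symm) ?_
        simpa using h2.trans h4.symm)
  have hpt : ∀ x, ∑' a, ∑' a', PW ΛX hX T i0 a * PW ΛY hY T i0 a' *
      (locI ΛY hY zY T i0 θ a' * II hX zX sX hY zY sY lo hi c c' x a a')
      ≤ ∑ h ∈ Finset.Icc T (T + i0), ∑ h' ∈ Finset.Icc T (T + i0),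
        ∑' L : List BX, ∑' L' : List BY, (if HT hX L = h ∧ HT hY L' = h' ∧ Dp zY L' ∈ E h' ∧
          ev (TX hX zX sX L 0 c) (TX hY zY sY L' x c') lo hi then LW ΛX L * LW ΛY L' else 0) := by
    intro x
    simp_rw [← Summable.tsum_finsetSum (fun _ _ => ENNReal.summable)]
    refine ENNReal.tsum_le_tsum fun a => ENNReal.tsum_le_tsum fun a' => ?_
    by_cases ha : PW ΛX hX T i0 a = 0
    · simp [ha]
    by_cases ha' : PW ΛY hY T i0 a' = 0
    · simp [ha']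
    rw [locI, II]
    by_cases h1 : θ ≤ pm (PW ΛY hY T i0) (vv hY zY) (vv hY zY a')
    swap
    · rw [if_neg h1]; simp
    by_cases h3 : ev (TX hX zX sX a 0 c) (TX hY zY sY a' x c') lo hi
    swap
    · rw [if_neg h3]; simp
    rw [if_pos h1, if_pos h3, one_mul, mul_one]
    have ra := PW_ne_zero ha
    have ra' := PW_ne_zero ha'
    have ma : HT hX a ∈ Finset.Icc T (T + i0) :=
      Finset.mem_Icc.2 ⟨le_HT_of_fp hX ra.1, ra.2⟩
    have ma' : HT hY a' ∈ Finset.Icc T (T + i0) :=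
      Finset.mem_Icc.2 ⟨le_HT_of_fp hY ra'.1, ra'.2⟩
    calc PW ΛX hX T i0 a * PW ΛY hY T i0 a' ≤ LW ΛX a * LW ΛY a' :=
          mul_le_mul' (PW_le _ _ _ _ _) (PW_le _ _ _ _ _)
      _ = (if HT hX a = HT hX a ∧ HT hY a' = HT hY a' ∧ Dp zY a' ∈ E (HT hY a') ∧
          ev (TX hX zX sX a 0 c) (TX hY zY sY a' x c') lo hi then LW ΛX a * LW ΛY a' else 0) := by
          rw [if_pos ⟨rfl, rfl, (hE _ _).2 h1, h3⟩]
      _ ≤ ∑ h' ∈ Finset.Icc T (T + i0), (if HT hX a = HT hX a ∧ HT hY a' = h' ∧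
          Dp zY a' ∈ E h' ∧ ev (TX hX zX sX a 0 c) (TX hY zY sY a' x c') lo hi
            then LW ΛX a * LW ΛY a' else 0) :=
          Finset.single_le_sum (f := fun h' => (if HT hX a = HT hX a ∧ HT hY a' = h' ∧
          Dp zY a' ∈ E h' ∧ ev (TX hX zX sX a 0 c) (TX hY zY sY a' x c') lo hi
            then LW ΛX a * LW ΛY a' else 0)) (fun _ _ => zero_le) ma'
      _ ≤ _ :=
          Finset.single_le_sum (f := fun h => ∑ h' ∈ Finset.Icc T (T + i0),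
            (if HT hX a = h ∧ HT hY a' = h' ∧
          Dp zY a' ∈ E h' ∧ ev (TX hX zX sX a 0 c) (TX hY zY sY a' x c') lo hi
            then LW ΛX a * LW ΛY a' else 0)) (fun _ _ => zero_le) ma
  calc ∑' x, μ x * ∑' a, ∑' a', PW ΛX hX T i0 a * PW ΛY hY T i0 a' *
      (locI ΛY hY zY T i0 θ a' * II hX zX sX hY zY sY lo hi c c' x a a')
      ≤ ∑' x, ∑ h ∈ Finset.Icc T (T + i0), ∑ h' ∈ Finset.Icc T (T + i0), μ x *
        ∑' L : List BX, ∑' L' : List BY, (if HT hX L = h ∧ HT hY L' = h' ∧ Dp zY L' ∈ E h' ∧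
          ev (TX hX zX sX L 0 c) (TX hY zY sY L' x c') lo hi
            then LW ΛX L * LW ΛY L' else 0) := by
        refine ENNReal.tsum_le_tsum fun x => ?_
        calc _ ≤ _ := mul_le_mul_right (hpt x) _
          _ = _ := by simp_rw [Finset.mul_sum]
    _ = ∑ h ∈ Finset.Icc T (T + i0), ∑ h' ∈ Finset.Icc T (T + i0), ∑' x, μ x *
        ∑' L : List BX, ∑' L' : List BY, (if HT hX L = h ∧ HT hY L' = h' ∧ Dp zY L' ∈ E h' ∧
          ev (TX hX zX sX L 0 c) (TX hY zY sY L' x c') lo hi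
            then LW ΛX L * LW ΛY L' else 0) := by
        simp_rw [Summable.tsum_finsetSum (fun _ _ => ENNReal.summable)]
    _ ≤ ∑ h ∈ Finset.Icc T (T + i0), ∑ h' ∈ Finset.Icc T (T + i0),
          (C0 * (lam + 2 * j * us s / lam + us s)) := by
        refine Finset.sum_le_sum fun h hh => Finset.sum_le_sum fun h' hh' => ?_
        rw [Finset.mem_Icc] at hh hh'
        refine le_trans (h3 s h h' c c' lo hi (E h') μ (j * (2 * θ)) lam hμ1 hμM hl hl'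
          (by omega) (by omega) (by omega) (by omega)) ?_
        exact const_bd j θ (us s) lam C0 _ (hEc h')
    _ = _ := by
        rw [Finset.sum_const, Finset.sum_const, Nat.card_Icc]
        simp only [nsmul_eq_mul]
        rw [show T + i0 + 1 - T = i0 + 1 by omega]

end win

end Crest.Agent.R154.Asm958
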