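import Crest.Agent.R154.Asm3_157

/-! Row 154, ROAD 801, one window and the sum over windows (helper157). -/

set_option autoImplicit false

namespace Crest.Agent.R154.Asm157

open scoped ENNReal
open Crest.Agent.R154.B5A
open Crest.Agent.R154.Asm540 (TR Cm H2 H3 H5 KS TR_append TR_depth TR_shift)

section Win

variable {BX BY G : Type*} [AddCommGroup G]
variable {ΛX : BX → ℝ≥0∞} {ΛY : BY → ℝ≥0∞} {hX : BX → ℕ} {hY : BY → ℕ}
variable {zX : BX → G} {zY : BY → G} {sX : BX → Set (G × ℕ)} {sY : BY → Set (G × ℕ)}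
variable (h1X : ∀ b, 1 ≤ hX b) (hΛX : ∑' b, ΛX b = 1)
variable (h1Y : ∀ b, 1 ≤ hY b) (hΛY : ∑' b, ΛY b = 1)
variable (dX : ∀ b, ∀ p ∈ sX b, 1 ≤ p.2 ∧ p.2 ≤ hX b)
variable (dY : ∀ b, ∀ p ∈ sY b, 1 ≤ p.2 ∧ p.2 ≤ hY b)

/-- window event -/
def Q (hX : BX → ℕ) (hY : BY → ℕ) (zX : BX → G) (zY : BY → G) (sX : BX → Set (G × ℕ))
    (sY : BY → Set (G × ℕ)) (w : G) (lo hi b1 b2 : ℕ) (L : List BX) (L' : List BY) : Prop :=
  (∃ g k, Cm hX hY zX zY sX sY L L' w 0 0 g k ∧ lo ≤ k ∧ k ≤ hi) ∧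
    ∀ g k, Cm hX hY zX zY sX sY L L' w 0 0 g k → b1 < k → k ≤ b2 → lo ≤ k ∧ k ≤ hi

lemma TR_mid {B : Type*} {s : B → Set (G × ℕ)} {z : B → G} {ht : B → ℕ}
    (hs : ∀ b, ∀ p ∈ s b, 1 ≤ p.2 ∧ p.2 ≤ ht b) (L0 L1 L2 : List B) (x : G) (g : G) (k : ℕ)
    (h0 : HT ht L0 < k) (h2 : k ≤ HT ht L0 + HT ht L1)
    (h : (g, k) ∈ TR s z ht (L0 ++ (L1 ++ L2)) x 0) :
    (g, k) ∈ TR s z ht L1 (x + Dp z L0) (HT ht L0) := by
  rw [TR_append, TR_append] at h
  rcases h with h | h | h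
  · have := TR_depth (s := s) (z := z) (ht := ht) hs _ _ _ _ h
    simp only at this; omega
  · simpa [Asm540.Dp, Dp] using h
  · have := TR_depth (s := s) (z := z) (ht := ht) hs _ _ _ _ h
    simp only at this; omega

lemma TR_mid' {B : Type*} {s : B → Set (G × ℕ)} {z : B → G} {ht : B → ℕ}
    (L0 L1 L2 : List B) (x : G) (g : G) (k : ℕ)
    (h : (g, k) ∈ TR s z ht L1 (x + Dp z L0) (HT ht L0)) :
    (g, k) ∈ TR s z ht (L0 ++ (L1 ++ L2)) x 0 := by
  rw [TR_append, TR_append]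
  right; left
  simpa [Asm540.Dp, Dp] using h

include dX dY in
lemma Q_P0 {w : G} {A T i0 lo hi : ℕ} (hlo : A + i0 < lo) (hhi : hi ≤ A + T)
    {L0 L1 L2 : List BX} {L0' L1' L2' : List BY} (f0 : FP hX L0 A) (f1 : FP hX L1 T)
    (f0' : FP hY L0' A) (f1' : FP hY L1' T) (o0 : HT hX L0 ≤ A + i0) (o0' : HT hY L0' ≤ A + i0)
    (o1 : HT hX L1 ≤ T + i0) (o1' : HT hY L1' ≤ T + i0)
    (h : Q hX hY zX zY sX sY w lo hi A (A + T + 2 * i0) (L0 ++ (L1 ++ L2)) (L0' ++ (L1' ++ L2'))) :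
    P0 hX hY zX zY sX sY lo hi L1 L1' (HT hX L0) (HT hY L0') (w + Dp zY L0' - Dp zX L0) := by
  have a0 := FP_le f0
  have a1 := FP_le f1
  have a0' := FP_le f0'
  have a1' := FP_le f1'
  obtain ⟨⟨g, k, ⟨hgx, hgy⟩, hk1, hk2⟩, hall⟩ := h
  have hsh : ∀ (g : G) (k : ℕ), ((g, k) ∈ TR sX zX hX L1 (0 + Dp zX L0) (HT hX L0) ∧
      (g, k) ∈ TR sY zY hY L1' (w + Dp zY L0') (HT hY L0')) ↔
      Cm hX hY zX zY sX sY L1 L1' (w + Dp zY L0' - Dp zX L0) (HT hX L0) (HT hY L0')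
        (g - Dp zX L0) k := by
    intro g k
    rw [Cm, TR_shift (s := sX) (z := zX) (ht := hX) L1 0 (Dp zX L0)]
    have : w + Dp zY L0' = (w + Dp zY L0' - Dp zX L0) + Dp zX L0 := by abel
    conv_lhs => rw [this]
    rw [TR_shift (s := sY) (z := zY) (ht := hY) L1' _ (Dp zX L0)]
  refine ⟨⟨g - Dp zX L0, k, (hsh g k).1 ⟨?_, ?_⟩⟩, ?_⟩
  · exact TR_mid dX L0 L1 L2 0 g k (by omega) (by omega) hgx
  · exact TR_mid dY L0' L1' L2' w g k (by omega) (by omega) hgy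
  · intro g' k' hc
    have hc' : Cm hX hY zX zY sX sY L1 L1' (w + Dp zY L0' - Dp zX L0) (HT hX L0) (HT hY L0')
        ((g' + Dp zX L0) - Dp zX L0) k' := by rwa [add_sub_cancel_right]
    obtain ⟨p1, p2⟩ := (hsh _ _).2 hc'
    have hd := TR_depth (s := sX) (z := zX) (ht := hX) dX _ _ _ _ p1
    simp only at hd
    exact hall _ k' ⟨TR_mid' L0 L1 L2 0 _ _ p1, TR_mid' L0' L1' L2' w _ _ p2⟩ (by omega) (by omega)

open Classical in
include h1X hΛX h1Y hΛY dX dY in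
lemma window1 {C : ℝ≥0∞} {us : ℕ → ℝ≥0∞} (h2 : H2 ΛX ΛY hX hY zX zY sX sY C us)
    (h3 : H3 ΛX ΛY hX hY zX zY sX sY C us)
    {A T i0 s lo hi J n : ℕ} (hlo : A + i0 + s ≤ lo) (hlo' : A + i0 < lo) (hhi : hi + s ≤ A + T)
    (hJ : J * (T + i0) ≤ A) (hn : A + i0 + T ≤ n)
    {u lam : ℝ≥0∞} (hu0 : u ≠ 0) (hu1 : u ≤ 1) (hl0 : lam ≠ 0) (hl1 : lam ≠ ∞) (w : G) :
    ∑' L : List BX, ∑' L' : List BY, (if HT hX L = n ∧ HT hY L' = n ∧
        Q hX hY zX zY sX sY w lo hi A (A + T + 2 * i0) L L' then LW ΛX L * LW ΛY L' else 0)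
      ≤ u * u + 2 * (1 - u) ^ J + (J + 2 : ℕ) * (ov ΛX hX i0 + ov ΛY hY i0)
        + 2 * ((i0 + 1 : ℕ) * (i0 + 1 : ℕ) * ((i0 + 1 : ℕ) * (i0 + 1 : ℕ) *
          (C * (lam + (2 * (i0 + 1 : ℕ) * u⁻¹) * us s / lam + us s)))) := by
  obtain ⟨thX, tX0, -, tX1, tX2⟩ := quant h1X hΛX zX T hu0 hu1
  obtain ⟨thY, tY0, -, tY1, tY2⟩ := quant h1Y hΛY zY T hu0 hu1
  have hLX := locX h1X hΛX h1Y hΛY h2 (lo := lo) (hi := hi) hlo hJ hu0 hu1 tX0 tX2 hl0 hl1 w
  have hLY := locY h1X hΛX h1Y hΛY h3 (lo := lo) (hi := hi) hhi hJ hu0 hu1 tY0 tY2 hl0 hl1 w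
  set D := (i0 + 1 : ℕ) * (i0 + 1 : ℕ) * ((i0 + 1 : ℕ) * (i0 + 1 : ℕ) *
          (C * (lam + (2 * (i0 + 1 : ℕ) * u⁻¹) * us s / lam + us s))) with hD
  let ψ : List BX → List BX → List BY → List BY → ℝ≥0∞ := fun L0 L1 L0' L1' =>
    if (HT hX L0 ≤ A + i0 ∧ HT hY L0' ≤ A + i0) ∧ (HT hX L1 ≤ T + i0 → HT hY L1' ≤ T + i0 →
      P0 hX hY zX zY sX sY lo hi L1 L1' (HT hX L0) (HT hY L0') (w + Dp zY L0' - Dp zX L0))
    then 1 else 0
  have e0 : ∑' L : List BX, ∑' L' : List BY, (if HT hX L = n ∧ HT hY L' = n ∧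
        Q hX hY zX zY sX sY w lo hi A (A + T + 2 * i0) L L' then LW ΛX L * LW ΛY L' else 0)
      = SH ΛX hX n (fun L => SH ΛY hY n (fun L' =>
        if Q hX hY zX zY sX sY w lo hi A (A + T + 2 * i0) L L' then 1 else 0)) := by
    simp only [SH]
    refine tsum_congr fun L => ?_
    by_cases hL : HT hX L = n
    · rw [if_pos hL, ← ENNReal.tsum_mul_left]
      refine tsum_congr fun L' => ?_
      by_cases hL' : HT hY L' = n
      · by_cases hq : Q hX hY zX zY sX sY w lo hi A (A + T + 2 * i0) L L'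
        · rw [if_pos ⟨hL, hL', hq⟩, if_pos hL', if_pos hq, mul_one]
        · rw [if_neg (fun h => hq h.2.2), if_pos hL', if_neg hq, mul_zero, mul_zero]
      · rw [if_neg (fun h => hL' h.2.1), if_neg hL', mul_zero]
    · rw [if_neg hL, ENNReal.tsum_eq_zero]
      intro L'; rw [if_neg (fun h => hL h.1)]
  rw [e0]
  have e1 : SH ΛX hX n (fun L => SH ΛY hY n (fun L' =>
        if Q hX hY zX zY sX sY w lo hi A (A + T + 2 * i0) L L' then 1 else 0))
      ≤ ov ΛX hX i0 + SF ΛX hX A (fun L0 => SF ΛX hX T (fun L1 =>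
        (ov ΛY hY i0 + SF ΛY hY A (fun L0' => SF ΛY hY T (fun L1' => ψ L0 L1 L0' L1'))))) := by
    refine SH_window h1X hΛX hn (fun L _ => ?_) (fun L0 L1 L2 f0 f1 o0 hh => ?_)
    · refine (SH_mono (Ψ := fun _ => 1) fun L' _ => ?_).trans (SH_const_le h1Y hΛY n 1)
      split_ifs <;> simp
    · refine SH_window h1Y hΛY hn (fun L _ => ?_) (fun L0' L1' L2' f0' f1' o0' hh' => ?_)
      · split_ifs <;> simp
      · by_cases hq : Q hX hY zX zY sX sY w lo hi A (A + T + 2 * i0) (L0 ++ (L1 ++ L2))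
            (L0' ++ (L1' ++ L2'))
        · rw [if_pos hq]
          simp only [ψ]
          rw [if_pos ⟨⟨o0, o0'⟩, fun o1 o1' => Q_P0 dX dY hlo' (by omega) f0 f1 f0' f1' o0 o0'
            o1 o1' hq⟩]
        · rw [if_neg hq]; exact bot_le
  refine e1.trans ?_
  have e2 : SF ΛX hX A (fun L0 => SF ΛX hX T (fun L1 =>
        (ov ΛY hY i0 + SF ΛY hY A (fun L0' => SF ΛY hY T (fun L1' => ψ L0 L1 L0' L1')))))
      = ov ΛY hY i0 + SF ΛX hX A (fun L0 => SF ΛY hY A (fun L0' => SF ΛX hX T (fun L1 =>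
        SF ΛY hY T (fun L1' => ψ L0 L1 L0' L1')))) := by
    have a : ∀ L0, SF ΛX hX T (fun L1 =>
        (ov ΛY hY i0 + SF ΛY hY A (fun L0' => SF ΛY hY T (fun L1' => ψ L0 L1 L0' L1'))))
        = ov ΛY hY i0 + SF ΛY hY A (fun L0' => SF ΛX hX T (fun L1 =>
        SF ΛY hY T (fun L1' => ψ L0 L1 L0' L1'))) := by
      intro L0
      rw [SF_add, SF_const h1X hΛX, SF_comm]
    simp_rw [a]
    rw [SF_add, SF_const h1X hΛX]
  rw [e2]
  let fX : List BX → ℝ≥0∞ := fun L1 => if T + i0 < HT hX L1 then 1 else 0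
  let fY : List BY → ℝ≥0∞ := fun L1 => if T + i0 < HT hY L1 then 1 else 0
  let nX : List BX → ℝ≥0∞ := fun L => if Fl ΛX hX zX T (HT hX L) (Dp zX L) < thX then 1 else 0
  let nY : List BY → ℝ≥0∞ := fun L => if Fl ΛY hY zY T (HT hY L) (Dp zY L) < thY then 1 else 0
  let ψX : List BX → List BY → List BX → List BY → ℝ≥0∞ := fun L0 L0' L1 L1' =>
    if HT hX L0 ≤ A + i0 ∧ HT hY L0' ≤ A + i0 then
      (if HT hX L1 ≤ T + i0 ∧ HT hY L1' ≤ T + i0 ∧ LocP (thX ≤ Fl ΛX hX zX T (HT hX L1) (Dp zX L1))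
            (P0 hX hY zX zY sX sY lo hi L1 L1' (HT hX L0) (HT hY L0') (w + Dp zY L0' - Dp zX L0))
          then 1 else 0) else 0
  let ψY : List BX → List BY → List BX → List BY → ℝ≥0∞ := fun L0 L0' L1 L1' =>
    if HT hX L0 ≤ A + i0 ∧ HT hY L0' ≤ A + i0 then
      (if HT hX L1 ≤ T + i0 ∧ HT hY L1' ≤ T + i0 ∧
          LocP (thY ≤ Fl ΛY hY zY T (HT hY L1') (Dp zY L1'))
            (P0 hX hY zX zY sX sY lo hi L1 L1' (HT hX L0) (HT hY L0') (w + Dp zY L0' - Dp zX L0))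
          then 1 else 0) else 0
  have hpt : ∀ L0 L0' L1 L1', ψ L0 L1 L0' L1'
      ≤ (fX L1 + fY L1') + (nX L1 * nY L1') + (ψX L0 L0' L1 L1' + ψY L0 L0' L1 L1') := by
    intro L0 L0' L1 L1'
    by_cases hc : (HT hX L0 ≤ A + i0 ∧ HT hY L0' ≤ A + i0) ∧
      (HT hX L1 ≤ T + i0 → HT hY L1' ≤ T + i0 →
      P0 hX hY zX zY sX sY lo hi L1 L1' (HT hX L0) (HT hY L0') (w + Dp zY L0' - Dp zX L0))
    · have e : ψ L0 L1 L0' L1' = 1 := if_pos hc
      rw [e]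
      by_cases c1 : T + i0 < HT hX L1
      · have : fX L1 = 1 := if_pos c1
        rw [this]
        exact le_trans (le_trans le_self_add le_self_add) le_self_add
      by_cases c2 : T + i0 < HT hY L1'
      · have : fY L1' = 1 := if_pos c2
        rw [this]
        exact le_trans (le_trans le_add_self le_self_add) le_self_add
      have hP := hc.2 (not_lt.1 c1) (not_lt.1 c2)
      by_cases c3 : thX ≤ Fl ΛX hX zX T (HT hX L1) (Dp zX L1)
      · have : ψX L0 L0' L1 L1' = 1 := by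
          simp only [ψX]
          rw [if_pos hc.1, if_pos ⟨not_lt.1 c1, not_lt.1 c2, c3, hP⟩]
        rw [this]
        exact le_trans le_self_add le_add_self
      by_cases c4 : thY ≤ Fl ΛY hY zY T (HT hY L1') (Dp zY L1')
      · have : ψY L0 L0' L1 L1' = 1 := by
          simp only [ψY]
          rw [if_pos hc.1, if_pos ⟨not_lt.1 c1, not_lt.1 c2, c4, hP⟩]
        rw [this]
        exact le_trans le_add_self le_add_self
      · have a : nX L1 = 1 := if_pos (not_le.1 c3)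
        have b : nY L1' = 1 := if_pos (not_le.1 c4)
        rw [a, b, mul_one]
        exact le_trans le_add_self le_self_add
    · have e : ψ L0 L1 L0' L1' = 0 := if_neg hc
      rw [e]; exact bot_le
  have e3 : SF ΛX hX A (fun L0 => SF ΛY hY A (fun L0' => SF ΛX hX T (fun L1 =>
        SF ΛY hY T (fun L1' => ψ L0 L1 L0' L1'))))
      ≤ (ov ΛX hX i0 + ov ΛY hY i0) + u * u
        + ((((1 - u) ^ J + J * ov ΛX hX i0) + D) + (((1 - u) ^ J + J * ov ΛY hY i0) + D)) := by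
    refine (SF_mono ΛX hX fun L0 => SF_mono ΛY hY fun L0' => SF_mono ΛX hX fun L1 =>
      SF_mono ΛY hY fun L1' => hpt L0 L0' L1 L1').trans ?_
    simp only [SF_add]
    have hLX' : SF ΛX hX A (fun L => SF ΛY hY A (fun L_1 => SF ΛX hX T (fun L_2 =>
        SF ΛY hY T (ψX L L_1 L_2)))) ≤ (1 - u) ^ J + J * ov ΛX hX i0 + D := by
      refine le_trans (le_of_eq ?_) hLX
      refine SF_congr ΛX hX fun L0 _ => SF_congr ΛY hY fun L0' _ => ?_
      by_cases hc : HT hX L0 ≤ A + i0 ∧ HT hY L0' ≤ A + i0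
      · rw [if_pos hc]
        refine SF_congr ΛX hX fun L1 _ => SF_congr ΛY hY fun L1' _ => ?_
        simp only [ψX]
        rw [if_pos hc]
      · rw [if_neg hc]
        have : SF ΛX hX T (fun L_2 => SF ΛY hY T (ψX L0 L0' L_2)) = SF ΛX hX T (fun _ =>
            SF ΛY hY T (fun _ => 0)) := by
          refine SF_congr ΛX hX fun L1 _ => SF_congr ΛY hY fun L1' _ => ?_
          simp only [ψX]
          rw [if_neg hc]
        rw [this, SF_const h1Y hΛY, SF_const h1X hΛX]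
    have hLY' : SF ΛX hX A (fun L => SF ΛY hY A (fun L_1 => SF ΛX hX T (fun L_2 =>
        SF ΛY hY T (ψY L L_1 L_2)))) ≤ (1 - u) ^ J + J * ov ΛY hY i0 + D := by
      refine le_trans (le_of_eq ?_) hLY
      refine SF_congr ΛX hX fun L0 _ => SF_congr ΛY hY fun L0' _ => ?_
      by_cases hc : HT hX L0 ≤ A + i0 ∧ HT hY L0' ≤ A + i0
      · rw [if_pos hc]
        refine SF_congr ΛX hX fun L1 _ => SF_congr ΛY hY fun L1' _ => ?_
        simp only [ψY]
        rw [if_pos hc]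
      · rw [if_neg hc]
        have : SF ΛX hX T (fun L_2 => SF ΛY hY T (ψY L0 L0' L_2)) = SF ΛX hX T (fun _ =>
            SF ΛY hY T (fun _ => 0)) := by
          refine SF_congr ΛX hX fun L1 _ => SF_congr ΛY hY fun L1' _ => ?_
          simp only [ψY]
          rw [if_neg hc]
        rw [this, SF_const h1Y hΛY, SF_const h1X hΛX]
    refine add_le_add (add_le_add (add_le_add ?_ ?_) ?_) (add_le_add hLX' hLY')
    · simp only [SF_const h1Y hΛY, SF_const h1X hΛX]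
      exact SF_far h1X hΛX T i0
    · have : SF ΛY hY T (fun L1' => fY L1') ≤ ov ΛY hY i0 := SF_far h1Y hΛY T i0
      calc _ ≤ SF ΛX hX A (fun _ => SF ΛY hY A (fun _ => SF ΛX hX T (fun _ => ov ΛY hY i0))) :=
            SF_mono ΛX hX fun _ => SF_mono ΛY hY fun _ => SF_mono ΛX hX fun _ => this
        _ = _ := by simp only [SF_const h1Y hΛY, SF_const h1X hΛX]
    · have b : SF ΛX hX T (fun L1 => SF ΛY hY T (fun L1' => nX L1 * nY L1')) ≤ u * u := by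
        calc _ = SF ΛX hX T (fun L1 => nX L1 * SF ΛY hY T nY) := by
              refine SF_congr ΛX hX fun L1 _ => ?_
              exact SF_mul ΛY hY _ _
          _ ≤ SF ΛX hX T (fun L1 => u * nX L1) := by
              refine SF_mono ΛX hX fun L1 => ?_
              rw [mul_comm]
              exact mul_le_mul_left tY1 _
          _ = u * SF ΛX hX T nX := SF_mul ΛX hX _ _
          _ ≤ _ := mul_le_mul_right tX1 _
      calc _ ≤ SF ΛX hX A (fun _ => SF ΛY hY A (fun _ => u * u)) :=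
            SF_mono ΛX hX fun _ => SF_mono ΛY hY fun _ => b
        _ = _ := by simp only [SF_const h1Y hΛY, SF_const h1X hΛX]
  calc _ ≤ ov ΛX hX i0 + (ov ΛY hY i0 + ((ov ΛX hX i0 + ov ΛY hY i0) + u * u
        + ((((1 - u) ^ J + J * ov ΛX hX i0) + D) + (((1 - u) ^ J + J * ov ΛY hY i0) + D)))) :=
        add_le_add le_rfl (add_le_add le_rfl e3)
    _ = _ := by push_cast; ring

end Win

end Crest.Agent.R154.Asm157
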