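import Crest.Agent.R154.Asm3_214

/-! Row 154, ROAD 801, abstract assembly, part 4 (helper214): bound of one window. -/

set_option autoImplicit false

namespace Crest.Agent.R154.Asm214

open scoped ENNReal Classical
open Crest.Agent.R154.B5A
open Crest.Agent.R154.FP178
open Crest.Agent.R154.KWB419 (TT)

section four

variable {BX BY G : Type*} [AddCommGroup G]
  (ΛX : BX → ℝ≥0∞) (hX : BX → ℕ) (zX : BX → G) (sX : BX → Set (G × ℕ))
  (ΛY : BY → ℝ≥0∞) (hY : BY → ℕ) (zY : BY → G) (sY : BY → Set (G × ℕ))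

/-- **X-local window lemma** (weakest form: all geometric side conditions are available). -/
def H2 (C : ℝ≥0∞) (us : ℕ → ℕ → ℝ≥0∞) : Prop :=
  ∀ (D s h h' a a' lo hi : ℕ) (E : Finset G) (μ : G → ℝ≥0∞) (M lam : ℝ≥0∞), ∑' x, μ x ≤ 1 →
    (∀ x, μ x ≤ M) → lam ≠ 0 → lam ≠ ⊤ → a + s ≤ lo → a' + s ≤ lo → hi + s ≤ a + h →
    hi + s ≤ a' + h' → a ≤ a' + D → a' ≤ a + D → a + h ≤ a' + h' + D → a' + h' ≤ a + h + D →
    ∑' x, μ x * ∑' L : List BX, ∑' L' : List BY,
      (if HT hX L = h ∧ Dp zX L ∈ E ∧ HT hY L' = h' ∧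
          (∃ v k, (v, k) ∈ TT sX hX zX L 0 a ∧ (v, k) ∈ TT sY hY zY L' x a') ∧
          (∀ v k, (v, k) ∈ TT sX hX zX L 0 a → (v, k) ∈ TT sY hY zY L' x a' → lo ≤ k ∧ k ≤ hi)
        then LW ΛX L * LW ΛY L' else 0)
      ≤ C * (lam + M * E.card * us D s / lam + us D s)

/-- **Y-local window lemma** (weakest form). -/
def H3 (C : ℝ≥0∞) (us : ℕ → ℕ → ℝ≥0∞) : Prop :=
  ∀ (D s h h' a a' lo hi : ℕ) (E : Finset G) (μ : G → ℝ≥0∞) (M lam : ℝ≥0∞), ∑' x, μ x ≤ 1 →
    (∀ x, μ x ≤ M) → lam ≠ 0 → lam ≠ ⊤ → a + s ≤ lo → a' + s ≤ lo → hi + s ≤ a + h →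
    hi + s ≤ a' + h' → a ≤ a' + D → a' ≤ a + D → a + h ≤ a' + h' + D → a' + h' ≤ a + h + D →
    ∑' x, μ x * ∑' L : List BX, ∑' L' : List BY,
      (if HT hX L = h ∧ HT hY L' = h' ∧ Dp zY L' ∈ E ∧
          (∃ v k, (v, k) ∈ TT sX hX zX L 0 a ∧ (v, k) ∈ TT sY hY zY L' x a') ∧
          (∀ v k, (v, k) ∈ TT sX hX zX L 0 a → (v, k) ∈ TT sY hY zY L' x a' → lo ≤ k ∧ k ≤ hi)
        then LW ΛX L * LW ΛY L' else 0)
      ≤ C * (lam + M * E.card * us D s / lam + us D s)

lemma SL_comm {C D : Type*} (Λ : C → ℝ≥0∞) (Λ' : D → ℝ≥0∞) (i j : ℕ)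
    (F : List C → List D → ℝ≥0∞) :
    SL Λ i (fun P => SL Λ' j (fun Q => F P Q)) = SL Λ' j (fun Q => SL Λ i (fun P => F P Q)) := by
  conv_lhs => rw [SL]
  have e : ∀ P : List C, (if P.length = i then LW Λ P * SL Λ' j (fun Q => F P Q) else 0)
      = SL Λ' j (fun Q => if P.length = i then LW Λ P * F P Q else 0) := by
    intro P
    by_cases hP : P.length = i
    · simp only [hP, if_true]; rw [SL_const_mul]
    · simp [hP, SL]
  simp only [e]
  rw [← SL_tsum]
  rfl

/-- pointwise bound for a local pair of pieces, `X` side -/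
lemma pieceX (T i0 : ℕ) (th : ℝ≥0∞) (E : ℕ → Finset G)
    (hE : ∀ i x, th ≤ pf ΛX hX zX T (T + i, x) → x ∈ E i)
    (a a' lo hi : ℕ) (x y : G) (A : List BX) (A' : List BY) :
    (if th ≤ pf ΛX hX zX T (HT hX A, Dp zX A) then 1 else 0) *
      (PW ΛX hX T i0 A * (PW ΛY hY T i0 A' * ind (Ev hX zX sX hY zY sY lo hi A A' x a y a')))
    ≤ ∑ i ∈ Finset.range (i0 + 1), ∑ i' ∈ Finset.range (i0 + 1),
      (if HT hX A = T + i ∧ Dp zX A ∈ E i ∧ HT hY A' = T + i' ∧
          (∃ v k, (v, k) ∈ TT sX hX zX A 0 a ∧ (v, k) ∈ TT sY hY zY A' (y - x) a') ∧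
          (∀ v k, (v, k) ∈ TT sX hX zX A 0 a → (v, k) ∈ TT sY hY zY A' (y - x) a' →
            lo ≤ k ∧ k ≤ hi)
        then LW ΛX A * LW ΛY A' else 0) := by
  by_cases hA : gd hX T i0 A
  swap
  · rw [PW, if_neg hA, zero_mul, mul_zero]; exact zero_le
  by_cases hA' : gd hY T i0 A'
  swap
  · rw [PW, PW, if_neg hA', zero_mul, mul_zero, mul_zero]; exact zero_le
  by_cases hl : th ≤ pf ΛX hX zX T (HT hX A, Dp zX A)
  swap
  · rw [if_neg hl, zero_mul]; exact zero_le
  by_cases hev : Ev hX zX sX hY zY sY lo hi A A' x a y a'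
  swap
  · rw [ind, if_neg hev, mul_zero, mul_zero, mul_zero]; exact zero_le
  have hev' := (Ev_shift hX zX sX hY zY sY lo hi A A' x a y a').1 hev
  have b1 := le_HT_of_fp hX hA.1
  have b2 := le_HT_of_fp hY hA'.1
  have b3 := hA.2
  have b4 := hA'.2
  have m1 : HT hX A - T ∈ Finset.range (i0 + 1) := by rw [Finset.mem_range]; omega
  have m2 : HT hY A' - T ∈ Finset.range (i0 + 1) := by rw [Finset.mem_range]; omega
  refine le_trans ?_ (Finset.single_le_sum (fun i _ => zero_le) m1)
  refine le_trans ?_ (Finset.single_le_sum (fun i _ => zero_le) m2)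
  have h1' : HT hX A = T + (HT hX A - T) := by omega
  have h2' : HT hY A' = T + (HT hY A' - T) := by omega
  rw [if_pos hl, PW, if_pos hA, PW, if_pos hA', ind, if_pos hev, mul_one, one_mul,
    if_pos ⟨h1', hE _ _ (by rw [← h1']; exact hl), h2', hev'⟩]

/-- pointwise bound for a local pair of pieces, `Y` side -/
lemma pieceY (T i0 : ℕ) (th : ℝ≥0∞) (E : ℕ → Finset G)
    (hE : ∀ i x, th ≤ pf ΛY hY zY T (T + i, x) → x ∈ E i)
    (a a' lo hi : ℕ) (x y : G) (A : List BX) (A' : List BY) :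
    (if th ≤ pf ΛY hY zY T (HT hY A', Dp zY A') then 1 else 0) *
      (PW ΛX hX T i0 A * (PW ΛY hY T i0 A' * ind (Ev hX zX sX hY zY sY lo hi A A' x a y a')))
    ≤ ∑ i ∈ Finset.range (i0 + 1), ∑ i' ∈ Finset.range (i0 + 1),
      (if HT hX A = T + i ∧ HT hY A' = T + i' ∧ Dp zY A' ∈ E i' ∧
          (∃ v k, (v, k) ∈ TT sX hX zX A 0 a ∧ (v, k) ∈ TT sY hY zY A' (y - x) a') ∧
          (∀ v k, (v, k) ∈ TT sX hX zX A 0 a → (v, k) ∈ TT sY hY zY A' (y - x) a' →
            lo ≤ k ∧ k ≤ hi)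
        then LW ΛX A * LW ΛY A' else 0) := by
  by_cases hA : gd hX T i0 A
  swap
  · rw [PW, if_neg hA, zero_mul, mul_zero]; exact zero_le
  by_cases hA' : gd hY T i0 A'
  swap
  · rw [PW, PW, if_neg hA', zero_mul, mul_zero, mul_zero]; exact zero_le
  by_cases hl : th ≤ pf ΛY hY zY T (HT hY A', Dp zY A')
  swap
  · rw [if_neg hl, zero_mul]; exact zero_le
  by_cases hev : Ev hX zX sX hY zY sY lo hi A A' x a y a'
  swap
  · rw [ind, if_neg hev, mul_zero, mul_zero, mul_zero]; exact zero_le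
  have hev' := (Ev_shift hX zX sX hY zY sY lo hi A A' x a y a').1 hev
  have b1 := le_HT_of_fp hX hA.1
  have b2 := le_HT_of_fp hY hA'.1
  have b3 := hA.2
  have b4 := hA'.2
  have m1 : HT hX A - T ∈ Finset.range (i0 + 1) := by rw [Finset.mem_range]; omega
  have m2 : HT hY A' - T ∈ Finset.range (i0 + 1) := by rw [Finset.mem_range]; omega
  refine le_trans ?_ (Finset.single_le_sum (fun i _ => zero_le) m1)
  refine le_trans ?_ (Finset.single_le_sum (fun i _ => zero_le) m2)
  have h1' : HT hX A = T + (HT hX A - T) := by omega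
  have h2' : HT hY A' = T + (HT hY A' - T) := by omega
  rw [if_pos hl, PW, if_pos hA, PW, if_pos hA', ind, if_pos hev, mul_one, one_mul,
    if_pos ⟨h1', h2', hE _ _ (by rw [← h2']; exact hl), hev'⟩]

/-- numeric form of the right-hand side -/
lemma rhs_le (C lam usv th : ℝ≥0∞) (j c : ℕ) (hc : th * c ≤ 1) :
    C * (lam + (j * th) * c * usv / lam + usv) ≤ C * (lam + j * usv / lam + usv) := by
  gcongr
  calc (j : ℝ≥0∞) * th * c = j * (th * c) := by ring
    _ ≤ j * 1 := mul_le_mul_right hc _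
    _ = j := mul_one _

lemma ind_split (p q r : Prop) [Decidable p] [Decidable q] :
    ind r ≤ (if p then 0 else 1) * (if q then 0 else 1) + (if p then 1 else 0) * ind r
      + (if q then 1 else 0) * ind r := by
  by_cases hp : p
  · simp only [hp, if_true]
    refine le_add_right (le_add_left ?_)
    rw [one_mul]
  · by_cases hq : q
    · simp only [hq, if_true]
      refine le_add_left ?_
      rw [one_mul]
    · simp only [hp, hq, if_false]
      refine le_add_right (le_add_right ?_)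
      rw [one_mul]
      exact ind_le_one r

/-- **bound of one window of pieces** -/
theorem pairs (h1X : ∀ b, 1 ≤ hX b) (h1Y : ∀ b, 1 ≤ hY b) (hΛX : ∑' b, ΛX b = 1)
    (hΛY : ∑' b, ΛY b = 1) (C : ℝ≥0∞) (us : ℕ → ℕ → ℝ≥0∞)
    (hH2 : H2 ΛX hX zX sX ΛY hY zY sY C us) (hH3 : H3 ΛX hX zX sX ΛY hY zY sY C us)
    (w : G) (T i0 j D s lo hi : ℕ) (u lam : ℝ≥0∞) (hu0 : u ≠ 0) (hu1 : u ≤ 1)
    (hl0 : lam ≠ 0) (hlt : lam ≠ ⊤) (hD : (j + 1) * i0 ≤ D) (hlo : j * T + D + s < lo)
    (hhi : hi + s ≤ (j + 1) * T) :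
    SL (PW ΛX hX T i0) j (fun P => SL (PW ΛY hY T i0) j (fun Q =>
        ∑' A, PW ΛX hX T i0 A * ∑' A', PW ΛY hY T i0 A' *
          ind (Ev hX zX sX hY zY sY lo hi A A' (Dp zX P.flatten) (HT hX P.flatten)
            (w + Dp zY Q.flatten) (HT hY Q.flatten))))
    ≤ u * u + 2 * ((1 - u) ^ j + (j * i0 + 1 : ℕ) *
      (((i0 + 1 : ℕ) * (i0 + 1 : ℕ)) * (C * (lam + j * us D s / lam + us D s)))) := by
  obtain ⟨thX, tX0, tX1, nlX, lowX, dnX, EX⟩ := pack ΛX hX zX h1X hΛX T i0 u hu0 hu1
  obtain ⟨thY, tY0, tY1, nlY, lowY, dnY, EY⟩ := pack ΛY hY zY h1Y hΛY T i0 u hu0 hu1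
  set WX := PW ΛX hX T i0 with hWX
  set WY := PW ΛY hY T i0 with hWY
  set R : ℝ≥0∞ := C * (lam + j * us D s / lam + us D s) with hR
  set locX : List BX → Prop := fun A => thX ≤ pf ΛX hX zX T (HT hX A, Dp zX A) with hlocX
  set locY : List BY → Prop := fun A => thY ≤ pf ΛY hY zY T (HT hY A, Dp zY A) with hlocY
  set ev : List (List BX) → List (List BY) → List BX → List BY → ℝ≥0∞ := fun P Q A A' =>
    ind (Ev hX zX sX hY zY sY lo hi A A' (Dp zX P.flatten) (HT hX P.flatten)
            (w + Dp zY Q.flatten) (HT hY Q.flatten)) with hev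
  choose FX hFX1 hFX2 using fun i => EX (T + i)
  choose FY hFY1 hFY2 using fun i => EY (T + i)
  -- split
  have split1 : ∀ P Q, ∑' A, WX A * ∑' A', WY A' * ev P Q A A'
      ≤ (∑' A, (if locX A then 0 else WX A)) * (∑' A', (if locY A' then 0 else WY A'))
        + ∑' A, ∑' A', (if locX A then 1 else 0) * (WX A * (WY A' * ev P Q A A'))
        + ∑' A, ∑' A', (if locY A' then 1 else 0) * (WX A * (WY A' * ev P Q A A')) := by
    intro P Q
    rw [← ENNReal.tsum_mul_right, ← ENNReal.tsum_add, ← ENNReal.tsum_add]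
    refine ENNReal.tsum_le_tsum fun A => ?_
    rw [← ENNReal.tsum_mul_left, ← ENNReal.tsum_mul_left, ← ENNReal.tsum_add, ← ENNReal.tsum_add]
    refine ENNReal.tsum_le_tsum fun A' => ?_
    have h := ind_split (locX A) (locY A') (Ev hX zX sX hY zY sY lo hi A A' (Dp zX P.flatten)
      (HT hX P.flatten) (w + Dp zY Q.flatten) (HT hY Q.flatten))
    calc WX A * (WY A' * ev P Q A A')
        ≤ WX A * (WY A' * ((if locX A then 0 else 1) * (if locY A' then 0 else 1)
          + (if locX A then 1 else 0) * ev P Q A A' + (if locY A' then 1 else 0) * ev P Q A A')) := by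
          gcongr
      _ = ((WX A * (if locX A then 0 else 1)) * (WY A' * (if locY A' then 0 else 1)))
          + (if locX A then 1 else 0) * (WX A * (WY A' * ev P Q A A'))
          + (if locY A' then 1 else 0) * (WX A * (WY A' * ev P Q A A')) := by ring
      _ = _ := by
          congr 3
          · split_ifs <;> simp
          · split_ifs <;> simp
  have hsWX : ∑' A, WX A ≤ 1 := sum_PW ΛX hX h1X hΛX.le T i0
  have hsWY : ∑' A, WY A ≤ 1 := sum_PW ΛY hY h1Y hΛY.le T i0
  -- one-sided bounds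
  have le1 : ∀ (f : List BX → List BY → ℝ≥0∞), (∀ A A', f A A' ≤ 1) →
      ∑' A, ∑' A', (WX A * (WY A' * f A A')) ≤ 1 := by
    intro f hf
    calc ∑' A, ∑' A', (WX A * (WY A' * f A A')) ≤ ∑' A, ∑' A', (WX A * (WY A' * 1)) := by
          refine ENNReal.tsum_le_tsum fun A => ENNReal.tsum_le_tsum fun A' => ?_
          gcongr
          exact hf A A'
      _ = (∑' A, WX A) * ∑' A', WY A' := by
          rw [← ENNReal.tsum_mul_right]
          refine tsum_congr fun A => ?_
          rw [ENNReal.tsum_mul_left]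
          simp
      _ ≤ 1 := mul_le_one' hsWX hsWY
  have mulh : ∀ (p : Prop) [Decidable p] (c d : ℝ≥0∞), d ≤ 1 → (if p then (1 : ℝ≥0∞) else 0) * d ≤ 1 := by
    intro p _ c d hd
    split_ifs
    · rwa [one_mul]
    · rw [zero_mul]; exact zero_le
  have partX : ∀ Q : List (List BY), Q.length = j → (∀ A ∈ Q, gd hY T i0 A) →
      SL WX j (fun P => ∑' A, ∑' A', (if locX A then 1 else 0) * (WX A * (WY A' * ev P Q A A')))
      ≤ (1 - u) ^ j + (j * i0 + 1 : ℕ) * (((i0 + 1 : ℕ) * (i0 + 1 : ℕ)) * R) := by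
    intro Q hQj hQ
    have bQ := HT_flatten_le hY T i0 Q hQ
    rw [hQj] at bQ
    refine one_side ΛX hX zX h1X hΛX.le T i0 j
      (fun A => pf ΛX hX zX T (HT hX A, Dp zX A) ≤ thX) (1 - u) thX (by convert lowX)
      (fun h x => by convert dnX h x)
      (fun a x => ∑' A, ∑' A', (if locX A then 1 else 0) * (WX A * (WY A' *
        ind (Ev hX zX sX hY zY sY lo hi A A' x a (w + Dp zY Q.flatten) (HT hY Q.flatten)))))
      ?_ _ ?_
    · intro a x
      refine le_trans (le_of_eq ?_) (le1 (fun A A' => (if locX A then 1 else 0) *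
        ind (Ev hX zX sX hY zY sY lo hi A A' x a (w + Dp zY Q.flatten) (HT hY Q.flatten))) ?_)
      · refine tsum_congr fun A => tsum_congr fun A' => ?_
        ring
      · intro A A'
        exact mulh _ 1 _ (ind_le_one _)
    · intro a ha1 ha2 μ hμ1 hμ2
      set y := w + Dp zY Q.flatten with hy
      set a' := HT hY Q.flatten with ha'
      have hb : ∀ x, ∑' A, ∑' A', (if locX A then 1 else 0) * (WX A * (WY A' *
          ind (Ev hX zX sX hY zY sY lo hi A A' x a y a')))
          ≤ ∑ i ∈ Finset.range (i0 + 1), ∑ i' ∈ Finset.range (i0 + 1), ∑' A, ∑' A',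
            (if HT hX A = T + i ∧ Dp zX A ∈ FX i ∧ HT hY A' = T + i' ∧
          (∃ v k, (v, k) ∈ TT sX hX zX A 0 a ∧ (v, k) ∈ TT sY hY zY A' (y - x) a') ∧
          (∀ v k, (v, k) ∈ TT sX hX zX A 0 a → (v, k) ∈ TT sY hY zY A' (y - x) a' →
            lo ≤ k ∧ k ≤ hi)
            then LW ΛX A * LW ΛY A' else 0) := by
        intro x
        have e1 : ∀ (g : ℕ → ℕ → List BX → List BY → ℝ≥0∞),
            ∑ i ∈ Finset.range (i0 + 1), ∑ i' ∈ Finset.range (i0 + 1), ∑' A, ∑' A', g i i' A A'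
            = ∑' A, ∑' A', ∑ i ∈ Finset.range (i0 + 1), ∑ i' ∈ Finset.range (i0 + 1),
              g i i' A A' := by
          intro g
          simp only [← (Summable.tsum_finsetSum (fun _ _ => ENNReal.summable))]
        rw [e1]
        refine ENNReal.tsum_le_tsum fun A => ENNReal.tsum_le_tsum fun A' => ?_
        exact pieceX ΛX hX zX sX ΛY hY zY sY T i0 thX FX hFX1 a a' lo hi x y A A'
      calc ∑' x, μ x * ∑' A, ∑' A', (if locX A then 1 else 0) * (WX A * (WY A' *
          ind (Ev hX zX sX hY zY sY lo hi A A' x a y a')))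
          ≤ ∑' x, μ x * ∑ i ∈ Finset.range (i0 + 1), ∑ i' ∈ Finset.range (i0 + 1), ∑' A, ∑' A',
            (if HT hX A = T + i ∧ Dp zX A ∈ FX i ∧ HT hY A' = T + i' ∧
          (∃ v k, (v, k) ∈ TT sX hX zX A 0 a ∧ (v, k) ∈ TT sY hY zY A' (y - x) a') ∧
          (∀ v k, (v, k) ∈ TT sX hX zX A 0 a → (v, k) ∈ TT sY hY zY A' (y - x) a' →
            lo ≤ k ∧ k ≤ hi)
            then LW ΛX A * LW ΛY A' else 0) :=
            ENNReal.tsum_le_tsum fun x => mul_le_mul_right (hb x) _
        _ = ∑ i ∈ Finset.range (i0 + 1), ∑ i' ∈ Finset.range (i0 + 1), ∑' x, μ x * ∑' A, ∑' A',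
            (if HT hX A = T + i ∧ Dp zX A ∈ FX i ∧ HT hY A' = T + i' ∧
          (∃ v k, (v, k) ∈ TT sX hX zX A 0 a ∧ (v, k) ∈ TT sY hY zY A' (y - x) a') ∧
          (∀ v k, (v, k) ∈ TT sX hX zX A 0 a → (v, k) ∈ TT sY hY zY A' (y - x) a' →
            lo ≤ k ∧ k ≤ hi)
            then LW ΛX A * LW ΛY A' else 0) := by
            simp only [Finset.mul_sum]
            rw [Summable.tsum_finsetSum (fun _ _ => ENNReal.summable)]
            refine Finset.sum_congr rfl fun i _ => ?_
            rw [Summable.tsum_finsetSum (fun _ _ => ENNReal.summable)]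
        _ ≤ ∑ i ∈ Finset.range (i0 + 1), ∑ i' ∈ Finset.range (i0 + 1), R := by
            refine Finset.sum_le_sum fun i hi' => Finset.sum_le_sum fun i' hi'' => ?_
            rw [Finset.mem_range] at hi' hi''
            rw [← (Equiv.subLeft y).tsum_eq]
            simp only [Equiv.subLeft_apply, sub_sub_cancel]
            have m1 : (j + 1) * T = j * T + T := by ring
            have m2 : j * (T + i0) = j * T + j * i0 := by ring
            have m3 : (j + 1) * i0 = j * i0 + i0 := by ring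
            refine (hH2 D s (T + i) (T + i') a a' lo hi (FX i) (fun x => μ (y - x)) (j * thX) lam
              ?_ (fun x => hμ2 _) hl0 hlt ?_ ?_ ?_ ?_ ?_ ?_ ?_ ?_).trans ?_
            · exact (le_of_eq ((Equiv.subLeft y).tsum_eq μ)).trans hμ1
            · omega
            · omega
            · omega
            · omega
            · omega
            · omega
            · omega
            · omega
            · exact rhs_le C lam (us D s) thX j (FX i).card (hFX2 i)
        _ = _ := by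
            rw [Finset.sum_const, Finset.sum_const, Finset.card_range, nsmul_eq_mul, nsmul_eq_mul,
              mul_assoc]
  have partY : ∀ P : List (List BX), P.length = j → (∀ A ∈ P, gd hX T i0 A) →
      SL WY j (fun Q => ∑' A, ∑' A', (if locY A' then 1 else 0) * (WX A * (WY A' * ev P Q A A')))
      ≤ (1 - u) ^ j + (j * i0 + 1 : ℕ) * (((i0 + 1 : ℕ) * (i0 + 1 : ℕ)) * R) := by
    intro P hPj hP
    have bP := HT_flatten_le hX T i0 P hP
    rw [hPj] at bP
    refine one_side ΛY hY zY h1Y hΛY.le T i0 j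
      (fun A => pf ΛY hY zY T (HT hY A, Dp zY A) ≤ thY) (1 - u) thY (by convert lowY)
      (fun h x => by convert dnY h x)
      (fun a' y => ∑' A, ∑' A', (if locY A' then 1 else 0) * (WX A * (WY A' *
        ind (Ev hX zX sX hY zY sY lo hi A A' (Dp zX P.flatten) (HT hX P.flatten) (w + y) a'))))
      ?_ _ ?_
    · intro a' y
      refine le_trans (le_of_eq ?_) (le1 (fun A A' => (if locY A' then 1 else 0) *
        ind (Ev hX zX sX hY zY sY lo hi A A' (Dp zX P.flatten) (HT hX P.flatten) (w + y) a')) ?_)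
      · refine tsum_congr fun A => tsum_congr fun A' => ?_
        ring
      · intro A A'
        exact mulh _ 1 _ (ind_le_one _)
    · intro a' ha1 ha2 μ hμ1 hμ2
      set x := Dp zX P.flatten with hx
      set a := HT hX P.flatten with ha
      have hb : ∀ y, ∑' A, ∑' A', (if locY A' then 1 else 0) * (WX A * (WY A' *
          ind (Ev hX zX sX hY zY sY lo hi A A' x a (w + y) a')))
          ≤ ∑ i ∈ Finset.range (i0 + 1), ∑ i' ∈ Finset.range (i0 + 1), ∑' A, ∑' A',
            (if HT hX A = T + i ∧ HT hY A' = T + i' ∧ Dp zY A' ∈ FY i' ∧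
          (∃ v k, (v, k) ∈ TT sX hX zX A 0 a ∧ (v, k) ∈ TT sY hY zY A' (w + y - x) a') ∧
          (∀ v k, (v, k) ∈ TT sX hX zX A 0 a → (v, k) ∈ TT sY hY zY A' (w + y - x) a' →
            lo ≤ k ∧ k ≤ hi)
            then LW ΛX A * LW ΛY A' else 0) := by
        intro y
        have e1 : ∀ (g : ℕ → ℕ → List BX → List BY → ℝ≥0∞),
            ∑ i ∈ Finset.range (i0 + 1), ∑ i' ∈ Finset.range (i0 + 1), ∑' A, ∑' A', g i i' A A'
            = ∑' A, ∑' A', ∑ i ∈ Finset.range (i0 + 1), ∑ i' ∈ Finset.range (i0 + 1),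
              g i i' A A' := by
          intro g
          simp only [← (Summable.tsum_finsetSum (fun _ _ => ENNReal.summable))]
        rw [e1]
        refine ENNReal.tsum_le_tsum fun A => ENNReal.tsum_le_tsum fun A' => ?_
        exact pieceY ΛX hX zX sX ΛY hY zY sY T i0 thY FY hFY1 a a' lo hi x (w + y) A A'
      calc ∑' y, μ y * ∑' A, ∑' A', (if locY A' then 1 else 0) * (WX A * (WY A' *
          ind (Ev hX zX sX hY zY sY lo hi A A' x a (w + y) a')))
          ≤ ∑' y, μ y * ∑ i ∈ Finset.range (i0 + 1), ∑ i' ∈ Finset.range (i0 + 1), ∑' A, ∑' A',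
            (if HT hX A = T + i ∧ HT hY A' = T + i' ∧ Dp zY A' ∈ FY i' ∧
          (∃ v k, (v, k) ∈ TT sX hX zX A 0 a ∧ (v, k) ∈ TT sY hY zY A' (w + y - x) a') ∧
          (∀ v k, (v, k) ∈ TT sX hX zX A 0 a → (v, k) ∈ TT sY hY zY A' (w + y - x) a' →
            lo ≤ k ∧ k ≤ hi)
            then LW ΛX A * LW ΛY A' else 0) :=
            ENNReal.tsum_le_tsum fun y => mul_le_mul_right (hb y) _
        _ = ∑ i ∈ Finset.range (i0 + 1), ∑ i' ∈ Finset.range (i0 + 1), ∑' y, μ y * ∑' A, ∑' A',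
            (if HT hX A = T + i ∧ HT hY A' = T + i' ∧ Dp zY A' ∈ FY i' ∧
          (∃ v k, (v, k) ∈ TT sX hX zX A 0 a ∧ (v, k) ∈ TT sY hY zY A' (w + y - x) a') ∧
          (∀ v k, (v, k) ∈ TT sX hX zX A 0 a → (v, k) ∈ TT sY hY zY A' (w + y - x) a' →
            lo ≤ k ∧ k ≤ hi)
            then LW ΛX A * LW ΛY A' else 0) := by
            simp only [Finset.mul_sum]
            rw [Summable.tsum_finsetSum (fun _ _ => ENNReal.summable)]
            refine Finset.sum_congr rfl fun i _ => ?_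
            rw [Summable.tsum_finsetSum (fun _ _ => ENNReal.summable)]
        _ ≤ ∑ i ∈ Finset.range (i0 + 1), ∑ i' ∈ Finset.range (i0 + 1), R := by
            refine Finset.sum_le_sum fun i hi' => Finset.sum_le_sum fun i' hi'' => ?_
            rw [Finset.mem_range] at hi' hi''
            rw [← (Equiv.subRight (w - x)).tsum_eq]
            have e2 : ∀ g : G, w + (Equiv.subRight (w - x)) g - x = g := by
              intro g; simp only [Equiv.subRight_apply]; abel
            simp only [e2]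
            have m1 : (j + 1) * T = j * T + T := by ring
            have m2 : j * (T + i0) = j * T + j * i0 := by ring
            have m3 : (j + 1) * i0 = j * i0 + i0 := by ring
            refine (hH3 D s (T + i) (T + i') a a' lo hi (FY i')
              (fun y => μ ((Equiv.subRight (w - x)) y)) (j * thY) lam
              ?_ (fun y => hμ2 _) hl0 hlt ?_ ?_ ?_ ?_ ?_ ?_ ?_ ?_).trans ?_
            · exact (le_of_eq ((Equiv.subRight (w - x)).tsum_eq μ)).trans hμ1
            · omega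
            · omega
            · omega
            · omega
            · omega
            · omega
            · omega
            · omega
            · exact rhs_le C lam (us D s) thY j (FY i').card (hFY2 i')
        _ = _ := by
            rw [Finset.sum_const, Finset.sum_const, Finset.card_range, nsmul_eq_mul, nsmul_eq_mul,
              mul_assoc]
  -- conclusion
  set Z : ℝ≥0∞ := (1 - u) ^ j + (j * i0 + 1 : ℕ) * (((i0 + 1 : ℕ) * (i0 + 1 : ℕ)) * R) with hZ
  calc SL WX j (fun P => SL WY j (fun Q => ∑' A, WX A * ∑' A', WY A' * ev P Q A A'))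
      ≤ SL WX j (fun P => SL WY j (fun Q => u * u
        + ∑' A, ∑' A', (if locX A then 1 else 0) * (WX A * (WY A' * ev P Q A A'))
        + ∑' A, ∑' A', (if locY A' then 1 else 0) * (WX A * (WY A' * ev P Q A A')))) := by
        refine SL_mono _ _ fun P _ => SL_mono _ _ fun Q _ => (split1 P Q).trans ?_
        gcongr
    _ = SL WX j (fun P => SL WY j (fun _ => u * u))
        + SL WY j (fun Q => SL WX j (fun P =>
          ∑' A, ∑' A', (if locX A then 1 else 0) * (WX A * (WY A' * ev P Q A A'))))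
        + SL WX j (fun P => SL WY j (fun Q =>
          ∑' A, ∑' A', (if locY A' then 1 else 0) * (WX A * (WY A' * ev P Q A A')))) := by
        have q1 : ∀ P, SL WY j (fun Q => u * u
            + ∑' A, ∑' A', (if locX A then 1 else 0) * (WX A * (WY A' * ev P Q A A'))
            + ∑' A, ∑' A', (if locY A' then 1 else 0) * (WX A * (WY A' * ev P Q A A')))
            = SL WY j (fun _ => u * u) + SL WY j (fun Q =>
              ∑' A, ∑' A', (if locX A then 1 else 0) * (WX A * (WY A' * ev P Q A A')))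
              + SL WY j (fun Q =>
              ∑' A, ∑' A', (if locY A' then 1 else 0) * (WX A * (WY A' * ev P Q A A'))) := by
          intro P
          rw [SL_add_fun, SL_add_fun]
        rw [SL_congr WX j (fun P _ => q1 P), SL_add_fun, SL_add_fun]
        congr 2
        exact SL_comm WX WY j j (fun P Q =>
          ∑' A, ∑' A', (if locX A then 1 else 0) * (WX A * (WY A' * ev P Q A A')))
    _ ≤ u * u + Z + Z := by
        refine add_le_add (add_le_add ?_ ?_) ?_
        · refine le_trans (SL_mono _ _ fun P _ => SLP_const ΛY hY h1Y hΛY.le T i0 j (u * u)) ?_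
          exact SLP_const ΛX hX h1X hΛX.le T i0 j (u * u)
        · refine le_trans (SLP_mono ΛY hY T i0 j fun Q hQj hQ => partX Q hQj hQ) ?_
          exact SLP_const ΛY hY h1Y hΛY.le T i0 j Z
        · refine le_trans (SLP_mono ΛX hX T i0 j fun P hPj hP => partY P hPj hP) ?_
          exact SLP_const ΛX hX h1X hΛX.le T i0 j Z
    _ = _ := by rw [add_assoc, ← two_mul]

end four

end Crest.Agent.R154.Asm214
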