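import Crest.Agent.R154.Asm3_395

set_option autoImplicit false

namespace Crest.Agent.R154.Asm395

open Crest.Agent.R154.B5A
open scoped ENNReal Topology
open Classical

/-! ### traces -/

section trace

variable {B G : Type*} [AddCommGroup G] (ht : B → ℕ) (z : B → G) (sB : B → Set (G × ℕ))

/-- sites read by a list placed at `x`, depth `a` -/
def TS : List B → G → ℕ → Set (G × ℕ)
  | [], _, _ => ∅
  | b :: L, x, a => {p | ∃ q ∈ sB b, p = (x + q.1, a + q.2)} ∪ TS L (x + z b) (a + ht b)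

lemma TS_append (L L' : List B) (x : G) (a : ℕ) :
    TS ht z sB (L ++ L') x a = TS ht z sB L x a ∪ TS ht z sB L' (x + Dp z L) (a + HT ht L) := by
  induction L generalizing x a with
  | nil => simp [TS, Dp, HT]
  | cons b L ih =>
    rw [List.cons_append, TS, TS, ih, Set.union_assoc]
    simp only [Dp, List.map_cons, List.sum_cons, HT_cons, add_assoc]

lemma TS_shift (L : List B) (x c : G) (a : ℕ) (y : G) (k : ℕ) :
    (y, k) ∈ TS ht z sB L x a ↔ (y + c, k) ∈ TS ht z sB L (x + c) a := by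
  induction L generalizing x a with
  | nil => simp [TS]
  | cons b L ih =>
    simp only [TS, Set.mem_union, Set.mem_setOf_eq, Prod.mk.injEq]
    rw [ih, show x + z b + c = x + c + z b by abel]
    constructor
    · rintro (⟨q, hq, h1, h2⟩ | h)
      · exact Or.inl ⟨q, hq, by rw [h1]; abel, h2⟩
      · exact Or.inr h
    · rintro (⟨q, hq, h1, h2⟩ | h)
      · refine Or.inl ⟨q, hq, ?_, h2⟩
        have : y + c = (x + q.1) + c := by rw [h1]; abel
        exact add_right_cancel this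
      · exact Or.inr h

lemma TS_depth (hs : ∀ b, ∀ q ∈ sB b, 1 ≤ q.2 ∧ q.2 ≤ ht b) (L : List B) (x : G) (a : ℕ)
    (y : G) (k : ℕ) (h : (y, k) ∈ TS ht z sB L x a) : a < k ∧ k ≤ a + HT ht L := by
  induction L generalizing x a with
  | nil => simp [TS] at h
  | cons b L ih =>
    rw [HT_cons]
    rcases h with ⟨q, hq, h⟩ | h
    · rw [Prod.mk.injEq] at h
      have := hs b q hq
      omega
    · have := ih _ _ h
      omega

end trace

section two

variable {BX BY G : Type*} [AddCommGroup G]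
  (hX : BX → ℕ) (ΛX : BX → ℝ≥0∞) (zX : BX → G) (sX : BX → Set (G × ℕ))
  (hY : BY → ℕ) (ΛY : BY → ℝ≥0∞) (zY : BY → G) (sY : BY → Set (G × ℕ))

lemma ws_sum {B ι : Type*} {Λ : B → ℝ≥0∞} (I : Finset ι) (S : List B → Prop)
    (F : ι → List B → ℝ≥0∞) :
    ws Λ S (fun L => ∑ i ∈ I, F i L) = ∑ i ∈ I, ws Λ S (F i) := by
  simp only [ws]
  rw [← Summable.tsum_finsetSum (fun i _ => ENNReal.summable)]
  refine tsum_congr fun L => ?_
  by_cases hL : S L
  · simp only [hL, if_true]; rw [Finset.mul_sum]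
  · simp [hL]

variable {ΛX ΛY}

lemma ws_fiber (S : List BX → Prop) (S' : List BY → Prop) (f : List BX → List BY → G)
    (K : G → ℝ≥0∞) :
    ws ΛX S (fun A => ws ΛY S' (fun A' => K (f A A')))
      = ∑' x, ws ΛX S (fun A => ws ΛY S' (fun A' => ind (f A A' = x))) * K x := by
  have e : ∀ x, ws ΛX S (fun A => ws ΛY S' (fun A' => ind (f A A' = x))) * K x
      = ws ΛX S (fun A => ws ΛY S' (fun A' => ind (f A A' = x) * K x)) := by
    intro x
    rw [← ws_mul_right]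
    simp only [← ws_mul_right]
  rw [tsum_congr e]
  simp only [ws]
  rw [ENNReal.tsum_comm]
  refine tsum_congr fun A => ?_
  by_cases hA : S A
  · simp only [hA, if_true]
    rw [ENNReal.tsum_mul_left, ENNReal.tsum_comm]
    congr 1
    refine tsum_congr fun A' => ?_
    by_cases hA' : S' A'
    · simp only [hA', if_true]
      rw [ENNReal.tsum_mul_left]
      congr 1
      rw [tsum_eq_single (f A A')]
      · rw [ind_true rfl, one_mul]
      · intro x hx; rw [ind_false (fun h => hx h.symm), zero_mul]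
    · simp [hA']
  · simp [hA]

variable (ΛX ΛY)

/-- contact event of two pieces -/
def Cc (a a' lo hi : ℕ) (x : G) (L : List BX) (L' : List BY) : Prop :=
  (∃ z k, (z, k) ∈ TS hX zX sX L 0 a ∧ (z, k) ∈ TS hY zY sY L' x a') ∧
  (∀ z k, (z, k) ∈ TS hX zX sX L 0 a → (z, k) ∈ TS hY zY sY L' x a' → lo ≤ k ∧ k ≤ hi)

/-- total weight of the pairs of pieces in contact -/
noncomputable def KK (QX : List BX → Prop) (QY : List BY → Prop) (h h' a a' lo hi : ℕ) (x : G) :
    ℝ≥0∞ :=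
  ∑' L : List BX, ∑' L' : List BY,
    if (HT hX L = h ∧ QX L) ∧ (HT hY L' = h' ∧ QY L') ∧ Cc hX zX sX hY zY sY a a' lo hi x L L'
    then LW ΛX L * LW ΛY L' else 0

lemma KK_eq (QX : List BX → Prop) (QY : List BY → Prop) (h h' a a' lo hi : ℕ) (x : G) :
    KK hX ΛX zX sX hY ΛY zY sY QX QY h h' a a' lo hi x
      = ws ΛX (fun P => HT hX P = h ∧ QX P) (fun P => ws ΛY (fun P' => HT hY P' = h' ∧ QY P')
          (fun P' => ind (Cc hX zX sX hY zY sY a a' lo hi x P P'))) := by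
  simp only [KK, ws]
  refine tsum_congr fun L => ?_
  by_cases hL : HT hX L = h ∧ QX L
  · simp only [hL.1, hL.2, and_self, true_and, if_true]
    rw [← ENNReal.tsum_mul_left]
    refine tsum_congr fun L' => ?_
    by_cases hL' : HT hY L' = h' ∧ QY L' <;>
    by_cases hc : Cc hX zX sX hY zY sY a a' lo hi x L L' <;> simp [hL', hc, ind]
  · rw [if_neg hL]
    simp only [ENNReal.tsum_eq_zero]
    intro L'
    rw [if_neg (fun h => hL h.1)]

lemma quad (GA : List BX → Prop) (GA' : List BY → Prop) (QX : List BX → Prop)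
    (QY : List BY → Prop) (a aY σ σY i0 lo hi : ℕ) (w : G) (bnd : ℝ≥0∞)
    (H : ∀ α, a ≤ α → α ≤ a + i0 → ∀ β, aY ≤ β → β ≤ aY + i0 → ∀ h, σ ≤ h → h ≤ σ + i0 →
      ∀ h', σY ≤ h' → h' ≤ σY + i0 →
      ws ΛX (fun A => HT hX A = α ∧ GA A) (fun A => ws ΛY (fun A' => HT hY A' = β ∧ GA' A')
        (fun A' => KK hX ΛX zX sX hY ΛY zY sY QX QY h h' α β lo hi (w + Dp zY A' - Dp zX A)))
        ≤ bnd) :
    ws ΛX (fun A => FPi hX a i0 A ∧ GA A) (fun A => ws ΛY (fun A' => FPi hY aY i0 A' ∧ GA' A')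
      (fun A' => ws ΛX (fun P => FPi hX σ i0 P ∧ QX P) (fun P => ws ΛY
        (fun P' => FPi hY σY i0 P' ∧ QY P')
        (fun P' => ind (Cc hX zX sX hY zY sY (HT hX A) (HT hY A') lo hi
          (w + Dp zY A' - Dp zX A) P P')))))
      ≤ (i0 + 1) ^ 4 * bnd := by
  -- inner two
  have hin : ∀ (α β : ℕ) (x : G), ws ΛX (fun P => FPi hX σ i0 P ∧ QX P) (fun P => ws ΛY
        (fun P' => FPi hY σY i0 P' ∧ QY P')
        (fun P' => ind (Cc hX zX sX hY zY sY α β lo hi x P P')))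
      ≤ ∑ h ∈ Finset.Icc σ (σ + i0), ∑ h' ∈ Finset.Icc σY (σY + i0),
        KK hX ΛX zX sX hY ΛY zY sY QX QY h h' α β lo hi x := by
    intro α β x
    have e1 : ∀ P : List BX, ws ΛY (fun P' => FPi hY σY i0 P' ∧ QY P')
        (fun P' => ind (Cc hX zX sX hY zY sY α β lo hi x P P'))
        ≤ ∑ h' ∈ Finset.Icc σY (σY + i0), ws ΛY (fun P' => HT hY P' = h' ∧ QY P')
          (fun P' => ind (Cc hX zX sX hY zY sY α β lo hi x P P')) := by
      intro P
      refine ws_fin _ (fun h' P' => HT hY P' = h' ∧ QY P') _ ?_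
      rintro P' ⟨⟨hP, hP2⟩, hQ⟩
      exact ⟨_, Finset.mem_Icc.2 ⟨hP.1, hP2⟩, rfl, hQ⟩
    refine (ws_mono fun P _ => e1 P).trans ?_
    refine (ws_fin (Finset.Icc σ (σ + i0)) (fun h P => HT hX P = h ∧ QX P) _ ?_).trans ?_
    · rintro P ⟨⟨hP, hP2⟩, hQ⟩
      exact ⟨_, Finset.mem_Icc.2 ⟨hP.1, hP2⟩, rfl, hQ⟩
    · refine Finset.sum_le_sum fun h _ => ?_
      rw [ws_sum]
      refine Finset.sum_le_sum fun h' _ => ?_
      rw [KK_eq]
  -- A' level
  have hmid : ∀ A : List BX, ws ΛY (fun A' => FPi hY aY i0 A' ∧ GA' A')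
      (fun A' => ws ΛX (fun P => FPi hX σ i0 P ∧ QX P) (fun P => ws ΛY
        (fun P' => FPi hY σY i0 P' ∧ QY P')
        (fun P' => ind (Cc hX zX sX hY zY sY (HT hX A) (HT hY A') lo hi
          (w + Dp zY A' - Dp zX A) P P'))))
      ≤ ∑ β ∈ Finset.Icc aY (aY + i0), ∑ h ∈ Finset.Icc σ (σ + i0),
        ∑ h' ∈ Finset.Icc σY (σY + i0), ws ΛY (fun A' => HT hY A' = β ∧ GA' A')
        (fun A' => KK hX ΛX zX sX hY ΛY zY sY QX QY h h' (HT hX A) β lo hi
          (w + Dp zY A' - Dp zX A)) := by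
    intro A
    refine (ws_mono fun A' _ => hin _ _ _).trans ?_
    refine (ws_fin (Finset.Icc aY (aY + i0)) (fun β A' => HT hY A' = β ∧ GA' A') _ ?_).trans ?_
    · rintro P ⟨⟨hP, hP2⟩, hQ⟩
      exact ⟨_, Finset.mem_Icc.2 ⟨hP.1, hP2⟩, rfl, hQ⟩
    · refine Finset.sum_le_sum fun β _ => ?_
      rw [ws_sum]
      refine Finset.sum_le_sum fun h _ => ?_
      rw [ws_sum]
      refine Finset.sum_le_sum fun h' _ => ?_
      refine ws_mono fun A' hA' => ?_
      rw [hA'.1]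
  refine (ws_mono fun A _ => hmid A).trans ?_
  refine (ws_fin (Finset.Icc a (a + i0)) (fun α A => HT hX A = α ∧ GA A) _ ?_).trans ?_
  · rintro P ⟨⟨hP, hP2⟩, hQ⟩
    exact ⟨_, Finset.mem_Icc.2 ⟨hP.1, hP2⟩, rfl, hQ⟩
  have hcard : ∀ c : ℕ, ((Finset.Icc c (c + i0)).card : ℝ≥0∞) = i0 + 1 := by
    intro c; rw [Nat.card_Icc]; push_cast [show c + i0 + 1 - c = i0 + 1 by omega]; rfl
  have hS : ∀ (c : ℕ) (F : ℕ → ℝ≥0∞) (m : ℝ≥0∞), (∀ i ∈ Finset.Icc c (c + i0), F i ≤ m) →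
      ∑ i ∈ Finset.Icc c (c + i0), F i ≤ (i0 + 1) * m := by
    intro c F m h
    refine (Finset.sum_le_card_nsmul _ _ m h).trans ?_
    rw [nsmul_eq_mul, hcard]
  calc _ ≤ (i0 + 1) * ((i0 + 1) * ((i0 + 1) * ((i0 + 1) * bnd))) := by
        refine hS _ _ _ fun α hα => ?_
        rw [ws_sum]
        refine hS _ _ _ fun β hβ => ?_
        rw [ws_sum]
        refine hS _ _ _ fun h hh => ?_
        rw [ws_sum]
        refine hS _ _ _ fun h' hh' => ?_
        rw [Finset.mem_Icc] at hα hβ hh hh'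
        refine le_trans (ws_mono fun A hA => ?_) (H α hα.1 hα.2 β hβ.1 hβ.2 h hh.1 hh.2 h' hh'.1 hh'.2)
        rw [hA.1]
    _ = _ := by ring

end two

end Crest.Agent.R154.Asm395
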