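import Crest.Agent.R154.Asm3_424

/-! Row 154, ROAD 801 (helper424): the assembly `kapS`. -/

set_option autoImplicit false
set_option linter.unusedVariables false

namespace Crest.Agent.R154.Asm424

open Filter
open scoped ENNReal Topology
open Crest.Agent.R154.B5A Crest.Agent.R154.FP178
open Crest.Agent.R154.Bind12 (TT Dp)

/-! ### the slabs -/

/-- depths near a boundary of pieces -/
def Slab (K T J i0 s k : ℕ) : Prop :=
  ∃ r, K ≤ r ∧ r ≤ 2 * K + 3 ∧ r * T ≤ k + s ∧ k ≤ r * T + J * i0 + s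

section cover

variable {BX BY G : Type*} [AddCommGroup G] {hX : BX → ℕ} {zX : BX → G}
  {sX : BX → Set (G × ℕ)} {hY : BY → ℕ} {zY : BY → G} {sY : BY → Set (G × ℕ)}

lemma cover (hdX : ∀ b, ∀ q ∈ sX b, 1 ≤ q.2 ∧ q.2 ≤ hX b)
    (hdY : ∀ b, ∀ q ∈ sY b, 1 ≤ q.2 ∧ q.2 ≤ hY b) {T i0 J K m s : ℕ} (hJ : J = 2 * K + 4)
    (hT1 : (K + 1) * T ≤ m) (hT2 : m < (K + 1) * (T + 1)) (hTb : J * i0 + s + 2 * K + 4 ≤ T)
    (w : G) (M : List (At hX T i0)) (N : List (At hY T i0)) (hM : M.length = J)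
    (hN : N.length = J) (y : G) (k : ℕ) (hk1 : m < k) (hk2 : k ≤ 2 * m)
    (hy : (y, k) ∈ TT sX zX hX (flat M) 0 0) (hy' : (y, k) ∈ TT sY zY hY (flat N) w 0)
    (hS : ∀ z k, Slab K T J i0 s k → (z, k) ∈ TT sX zX hX (flat M) 0 0 →
      (z, k) ∈ TT sY zY hY (flat N) w 0 → False) :
    ∃ j, K ≤ j ∧ j ≤ 2 * K + 2 ∧ ∃ M1 A M2 N1 A' N2, M = M1 ++ A :: M2 ∧ N = N1 ++ A' :: N2 ∧
      M1.length = j ∧ N1.length = j ∧
      Hit hX zX sX hY zY sY A.1 A'.1 (w + Dp zY (flat N1) - Dp zX (flat M1)) (HT hX (flat M1))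
        (HT hY (flat N1)) (max (HT hX (flat M1)) (HT hY (flat N1)) + s)
        (min (HT hX (flat M1) + HT hX A.1) (HT hY (flat N1) + HT hY A'.1) - s) := by
  obtain ⟨M1, A, M2, eM, hA⟩ := locate zX M 0 y 0 k hy
  obtain ⟨N1, A', N2, eN, hA'⟩ := locate zY N w y 0 k hy'
  have dA := TT_depth zX hdX A.1 _ y _ k hA
  have dA' := TT_depth zY hdY A'.1 _ y _ k hA'
  have lM : M1.length < J := by rw [← hM, eM]; simp
  have lN : N1.length < J := by rw [← hN, eN]; simp
  have bM := HT_flat (h := hX) M1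
  have bN := HT_flat (h := hY) N1
  have bA := le_HT_of_fp hX A.2.1
  have bA2 := A.2.2
  have bA' := le_HT_of_fp hY A'.2.1
  have bA2' := A'.2.2
  rw [Nat.zero_add] at dA dA'
  -- products
  have exp1 : ∀ j, j * (T + i0) = j * T + j * i0 := fun j => by ring
  rw [exp1] at bM bN
  have hji : ∀ j, j < J → j * i0 + i0 ≤ J * i0 := by
    intro j hj
    calc j * i0 + i0 = (j + 1) * i0 := by ring
      _ ≤ J * i0 := Nat.mul_le_mul_right _ hj
  have h1 := hji _ lM
  have h2 := hji _ lN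
  have hK1T : (K + 1) * T = K * T + T := by ring
  have hK2T : (K + 1) * (T + 1) = K * T + T + K + 1 := by ring
  -- bounds on an index
  have low : ∀ j, k ≤ j * T + T + J * i0 → K ≤ j := by
    intro j hj
    by_contra hc
    have : j + 1 ≤ K := by omega
    have h3 : (j + 1) * T ≤ K * T := Nat.mul_le_mul_right _ this
    have h4 : (j + 1) * T = j * T + T := by ring
    omega
  have up : ∀ j, j * T < k → j ≤ 2 * K + 2 := by
    intro j hj
    by_contra hc
    have h3 : (2 * K + 3) * T ≤ j * T := Nat.mul_le_mul_right _ (by omega)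
    have h4 : (2 * K + 3) * T = 2 * (K * T) + 3 * T := by ring
    omega
  have jl : K ≤ M1.length := low _ (by omega)
  have jl' : K ≤ N1.length := low _ (by omega)
  have ju : M1.length ≤ 2 * K + 2 := up _ (by omega)
  have ju' : N1.length ≤ 2 * K + 2 := up _ (by omega)
  have hmul : ∀ a b : ℕ, a + 2 ≤ b → a * T + 2 * T ≤ b * T := by
    intro a b hab
    calc a * T + 2 * T = (a + 2) * T := by ring
      _ ≤ b * T := Nat.mul_le_mul_right _ hab
  have hsucc : ∀ a : ℕ, (a + 1) * T = a * T + T := fun a => by ring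
  have hjj : M1.length = N1.length := by
    rcases lt_trichotomy M1.length N1.length with h | h | h
    · exfalso
      rcases Nat.lt_or_ge (M1.length + 1) N1.length with h' | h'
      · have := hmul _ _ h'
        omega
      · have e : N1.length = M1.length + 1 := by omega
        have e2 := hsucc M1.length
        rw [← e] at e2
        refine hS y k ⟨N1.length, by omega, by omega, by omega, by omega⟩ hy hy'
    · exact h
    · exfalso
      rcases Nat.lt_or_ge (N1.length + 1) M1.length with h' | h'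
      · have := hmul _ _ h'
        omega
      · have e : M1.length = N1.length + 1 := by omega
        have e2 := hsucc N1.length
        rw [← e] at e2
        refine hS y k ⟨M1.length, by omega, by omega, by omega, by omega⟩ hy hy'
  refine ⟨M1.length, jl, ju, M1, A, M2, N1, A', N2, eM, eN, rfl, hjj.symm, ?_, ?_⟩
  · refine ⟨y - Dp zX (flat M1), k, ?_, ?_⟩
    · have := (TT_shift sX zX hX A.1 0 (Dp zX (flat M1)) y (0 + HT hX (flat M1)) k).1 hA
      rwa [Nat.zero_add] at this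
    · rw [Nat.zero_add] at hA'
      refine (TT_shift sY zY hY A'.1 (w + Dp zY (flat N1) - Dp zX (flat M1)) (Dp zX (flat M1)) y
        (HT hY (flat N1)) k).1 ?_
      rwa [sub_add_cancel]
  · intro z' k' hz hz'
    have g1 : (z' + Dp zX (flat M1), k') ∈ TT sX zX hX A.1 (0 + Dp zX (flat M1))
        (0 + HT hX (flat M1)) := by
      refine (TT_shift sX zX hX A.1 0 (Dp zX (flat M1)) _ _ k').2 ?_
      rwa [add_sub_cancel_right, Nat.zero_add]
    have g2 : (z' + Dp zX (flat M1), k') ∈ TT sY zY hY A'.1 (w + Dp zY (flat N1))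
        (0 + HT hY (flat N1)) := by
      have := (TT_shift sY zY hY A'.1 (w + Dp zY (flat N1) - Dp zX (flat M1)) (Dp zX (flat M1))
        (z' + Dp zX (flat M1)) (HT hY (flat N1)) k').2 (by rwa [add_sub_cancel_right])
      rwa [sub_add_cancel, ← Nat.zero_add (HT hY (flat N1))] at this
    have f1 := mem_of_piece zX M1 A M2 0 _ 0 k' g1
    have f2 := mem_of_piece zY N1 A' N2 w _ 0 k' g2
    rw [← eM] at f1
    rw [← eN] at f2
    have d1 := TT_depth zX hdX A.1 _ _ _ k' g1
    have d2 := TT_depth zY hdY A'.1 _ _ _ k' g2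
    rw [Nat.zero_add] at d1 d2
    have e2 := hsucc M1.length
    rw [hjj] at e2 bM h1 jl ju
    constructor
    · by_contra hc
      exact hS _ k' ⟨N1.length, by omega, by omega, by omega, by omega⟩ f1 f2
    · by_contra hc
      exact hS _ k' ⟨N1.length + 1, by omega, by omega, by omega, by omega⟩ f1 f2

end cover

/-! ### labels -/

section labels

variable {B G : Type*} [AddCommGroup G] {ht : B → ℕ} (z : B → G)

/-- label of an attempt -/
def lb {T i0 : ℕ} (A : At ht T i0) : ℕ × G := (HT ht A.1, Dp z A.1)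

lemma sum_lb {T i0 : ℕ} (M : List (At ht T i0)) :
    (M.map (lb z)).sum = (HT ht (flat M), Dp z (flat M)) := by
  induction M with
  | nil => rfl
  | cons A M ih =>
    rw [List.map_cons, List.sum_cons, ih, flat_cons, HT_append, Dp_append]
    rfl

variable (Λ : B → ℝ≥0∞) (ht)

open Classical in
/-- the data of the quantile -/
structure Qu (T : ℕ) (u th : ℝ≥0∞) : Prop where
  ne : th ≠ 0
  le : th ≤ 1
  nl : ∑' q, (if pp Λ ht z T q < th then pp Λ ht z T q else 0) ≤ u
  sm : ∑' q, (if ¬ pp Λ ht z T q ≤ th then pp Λ ht z T q else 0) ≤ 1 - u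
  one : ∑' q, pp Λ ht z T q = 1

lemma exists_qu (h1 : ∀ b, 1 ≤ ht b) (hΛ : ∑' b, Λ b = 1) (T : ℕ) {u : ℝ≥0∞} (hu0 : u ≠ 0)
    (hu1 : u ≤ 1) : ∃ th, Qu ht z Λ T u th := by
  classical
  have h := sum_pp Λ ht z h1 hΛ T
  obtain ⟨th, a, b, c, d⟩ := Dens903.quantile (pp Λ ht z T) h hu0 hu1
  refine ⟨th, a, b, ?_, ?_, h⟩
  · convert c
  · have e : ∑' q, (if pp Λ ht z T q ≤ th then pp Λ ht z T q else 0)
        + ∑' q, (if ¬ pp Λ ht z T q ≤ th then pp Λ ht z T q else 0) = 1 := by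
      rw [← ENNReal.tsum_add, ← h]
      refine tsum_congr fun q => ?_
      by_cases hq : pp Λ ht z T q ≤ th <;> simp [hq]
    have hu : u ≠ ⊤ := ne_top_of_le_ne_top ENNReal.one_ne_top hu1
    refine ENNReal.le_sub_of_add_le_left hu ?_
    rw [← e]
    gcongr

variable {ht Λ} {T : ℕ} {u th : ℝ≥0∞} (Q : Qu ht z Λ T u th)

/-- the local set -/
noncomputable def Es (h : ℕ) : Finset G :=
  (show {x | th ≤ pp Λ ht z T (h, x)}.Finite from
    ((Dens903.finite_level (pp Λ ht z T) (by rw [Q.one]; exact ENNReal.one_ne_top) Q.ne).preimage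
      (f := fun x : G => ((h, x) : ℕ × G)) (fun _ _ _ _ e => (Prod.mk.inj e).2))).toFinset

lemma mem_Es (h : ℕ) (x : G) : x ∈ Es z Q h ↔ th ≤ pp Λ ht z T (h, x) := by
  simp [Es]

lemma card_Es (h j : ℕ) : (j * th) * (Es z Q h).card ≤ j := by
  classical
  have h1 : ((Es z Q h).card : ℝ≥0∞) * th ≤ 1 := by
    calc ((Es z Q h).card : ℝ≥0∞) * th = ∑ x ∈ Es z Q h, th := by
          rw [Finset.sum_const, nsmul_eq_mul]
      _ ≤ ∑ x ∈ Es z Q h, pp Λ ht z T (h, x) :=
          Finset.sum_le_sum fun x hx => (mem_Es z Q h x).1 hx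
      _ ≤ ∑' x, pp Λ ht z T (h, x) := ENNReal.sum_le_tsum _
      _ ≤ ∑' q, pp Λ ht z T q :=
          ENNReal.tsum_comp_le_tsum_of_injective (f := fun x : G => ((h, x) : ℕ × G))
            (fun _ _ e => (Prod.mk.inj e).2) _
      _ = 1 := Q.one
  calc (j * th) * ((Es z Q h).card : ℝ≥0∞) = j * (((Es z Q h).card : ℝ≥0∞) * th) := by ring
    _ ≤ j * 1 := by gcongr
    _ = j := mul_one _

open Classical in
lemma nl_le (i0 : ℕ) (Q : Qu ht z Λ T u th) :
    ∑' A : At ht T i0, wt Λ ht T i0 A * (if pp Λ ht z T (lb z A) < th then 1 else 0) ≤ u := by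
  refine le_trans (le_of_eq ?_) ((sum_At_le Λ ht z T i0 (fun q => pp Λ ht z T q < th)).trans ?_)
  · refine tsum_congr fun A => ?_
    by_cases h : pp Λ ht z T (lb z A) < th
    · rw [if_pos h, if_pos (show pp Λ ht z T (HT ht A.1, Dp z A.1) < th from h), mul_one]
    · rw [if_neg h, if_neg (show ¬ pp Λ ht z T (HT ht A.1, Dp z A.1) < th from h), mul_zero]
  · refine le_trans (le_of_eq (tsum_congr fun q => ?_)) Q.nl
    by_cases h : pp Λ ht z T q < th <;> simp [h]

open Classical in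
lemma none_le (i0 : ℕ) (Q : Qu ht z Λ T u th) (j : ℕ) :
    SL (wt Λ ht T i0) j (fun M => if ∀ A ∈ M, ¬ pp Λ ht z T (lb z A) ≤ th then 1 else 0)
      ≤ (1 - u) ^ j := by
  refine SL_none (wt Λ ht T i0) (fun A => pp Λ ht z T (lb z A) ≤ th) (1 - u) ?_ j
  refine le_trans (le_of_eq ?_) ((sum_At_le Λ ht z T i0 (fun q => ¬ pp Λ ht z T q ≤ th)).trans ?_)
  · refine tsum_congr fun A => ?_
    by_cases h : pp Λ ht z T (lb z A) ≤ th
    · rw [if_pos h, if_neg (not_not.2 (show pp Λ ht z T (HT ht A.1, Dp z A.1) ≤ th from h))]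
    · rw [if_neg h, if_pos (show ¬ pp Λ ht z T (HT ht A.1, Dp z A.1) ≤ th from h)]
  · refine le_trans (le_of_eq (tsum_congr fun q => ?_)) Q.sm
    by_cases h : pp Λ ht z T q ≤ th <;> simp [h]

open Classical in
lemma dens_le (i0 : ℕ) (Q : Qu ht z Λ T u th) (h1 : ∀ b, 1 ≤ ht b) (hΛ : ∑' b, Λ b ≤ 1) (j : ℕ)
    (y : ℕ × G) :
    SL (wt Λ ht T i0) j (fun M => if (∃ A ∈ M, pp Λ ht z T (lb z A) ≤ th) ∧ (M.map (lb z)).sum = y
      then 1 else 0) ≤ j * th := by
  have hth : ∀ q, ∑' A : At ht T i0, (if lb z A = q ∧ pp Λ ht z T (lb z A) ≤ th then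
      wt Λ ht T i0 A else 0) ≤ th := by
    intro q
    by_cases hq : pp Λ ht z T q ≤ th
    · refine le_trans ?_ hq
      refine le_trans ?_ (le_trans (sum_At_le Λ ht z T i0 (fun q' => q' = q)) ?_)
      · refine ENNReal.tsum_le_tsum fun A => ?_
        by_cases h : lb z A = q ∧ pp Λ ht z T (lb z A) ≤ th
        · rw [if_pos h, if_pos (show (HT ht A.1, Dp z A.1) = q from h.1)]
        · rw [if_neg h]; exact zero_le
      · rw [tsum_eq_single q]
        · simp
        · intro q' h'; rw [if_neg h']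
    · refine le_trans (le_of_eq (ENNReal.tsum_eq_zero.2 fun A => ?_)) zero_le
      rw [if_neg]
      rintro ⟨rfl, h⟩
      exact hq h
  have key := SL_dens (wt Λ ht T i0) (sum_wt_le Λ ht h1 hΛ T i0) (lb z)
    (fun A => pp Λ ht z T (lb z A) ≤ th) th (fun q => by convert hth q) j y
  convert key

end labels

end Crest.Agent.R154.Asm424
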