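import Crest.Agent.R154.Asm3_532

/-! Row 154 (helper532), ROAD 801: abstract assembly, part 4: one window. -/

set_option autoImplicit false

namespace Crest.Agent.R154.Asm532

open scoped ENNReal
open Crest.Agent.R154.B5A
open Crest.Agent.R154.FP178 (fp)
open Classical
open Finset (range)

lemma swapw {α β : Type*} (w : α → ℝ≥0∞) (w' : β → ℝ≥0∞) (R : α → β → ℝ≥0∞) :
    ∑' a, w a * ∑' b, w' b * R a b = ∑' b, w' b * ∑' a, w a * R a b := by
  simp_rw [← ENNReal.tsum_mul_left]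
  rw [ENNReal.tsum_comm]
  refine tsum_congr fun b => tsum_congr fun a => ?_
  ring

variable {BX BY G : Type*} [AddCommGroup G] (ΛX : BX → ℝ≥0∞) (ΛY : BY → ℝ≥0∞)
  (hX : BX → ℕ) (hY : BY → ℕ) (zX : BX → G) (zY : BY → G)
  (sX : BX → Set (G × ℕ)) (sY : BY → Set (G × ℕ))

/-- contact depths of two placed lists -/
def CT (L : List BX) (M : List BY) (x y : G) (a a' : ℕ) : Set ℕ :=
  {k | ∃ z, (z, k) ∈ TS hX zX sX L x a ∧ (z, k) ∈ TS hY zY sY M y a'}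

lemma CT_trans (L : List BX) (M : List BY) (x y v : G) (a a' : ℕ) :
    CT hX hY zX zY sX sY L M (x + v) (y + v) a a' = CT hX hY zX zY sX sY L M x y a a' := by
  ext k
  constructor
  · rintro ⟨z, h1, h2⟩
    refine ⟨z - v, ?_, ?_⟩
    · rw [← TS_trans hX zX sX L x v a, sub_add_cancel]; exact h1
    · rw [← TS_trans hY zY sY M y v a', sub_add_cancel]; exact h2
  · rintro ⟨z, h1, h2⟩
    exact ⟨z + v, (TS_trans hX zX sX L x v a z k).2 h1, (TS_trans hY zY sY M y v a' z k).2 h2⟩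

/-- full event of a window -/
def evF (A T i0 lo hi : ℕ) (w : G) (L : List BX) (M : List BY) : Prop :=
  (∃ k ∈ CT hX hY zX zY sX sY L M 0 w 0 0, lo < k ∧ k ≤ hi) ∧
    ∀ k ∈ CT hX hY zX zY sX sY L M 0 w 0 0, A < k → k ≤ A + T + 2 * i0 → lo < k ∧ k ≤ hi

/-- event of two placed pieces -/
def evP (lo hi a a' : ℕ) (x : G) (L : List BX) (M : List BY) : Prop :=
  (∃ k, k ∈ CT hX hY zX zY sX sY L M 0 x a a') ∧
    ∀ k ∈ CT hX hY zX zY sX sY L M 0 x a a', lo < k ∧ k ≤ hi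

lemma ev_imp (hs : ∀ b, ∀ q ∈ sX b, 1 ≤ q.2 ∧ q.2 ≤ hX b)
    (hs' : ∀ b, ∀ q ∈ sY b, 1 ≤ q.2 ∧ q.2 ≤ hY b) {A T A' T' i0 lo hi : ℕ} (hlo : A + i0 ≤ lo)
    (hhi : hi ≤ A + T) (hlo' : A' + i0 ≤ lo) (hhi' : hi ≤ A' + T') (w : G) (L1 L2 L3 : List BX) (M1 M2 M3 : List BY)
    (h1 : fp hX A L1) (h1' : HT hX L1 ≤ A + i0) (h2 : fp hX T L2) (h2' : HT hX L2 ≤ T + i0)
    (g1 : fp hY A' M1) (g1' : HT hY M1 ≤ A' + i0) (g2 : fp hY T' M2)
    (h : evF hX hY zX zY sX sY A T i0 lo hi w (L1 ++ (L2 ++ L3)) (M1 ++ (M2 ++ M3))) :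
    evP hX hY zX zY sX sY lo hi (HT hX L1) (HT hY M1) (w + Dp zY M1 - Dp zX L1) L2 M2 := by
  have a1 := FP178.le_HT_of_fp hX h1
  have a2 := FP178.le_HT_of_fp hX h2
  have b1 := FP178.le_HT_of_fp hY g1
  have b2 := FP178.le_HT_of_fp hY g2
  have key : CT hX hY zX zY sX sY L2 M2 0 (w + Dp zY M1 - Dp zX L1) (HT hX L1) (HT hY M1)
      = CT hX hY zX zY sX sY L2 M2 (0 + Dp zX L1) (w + Dp zY M1) (0 + HT hX L1)
        (0 + HT hY M1) := by
    rw [← CT_trans hX hY zX zY sX sY L2 M2 0 (w + Dp zY M1 - Dp zX L1) (Dp zX L1),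
      sub_add_cancel, zero_add, zero_add, zero_add]
  obtain ⟨⟨k, ⟨z, hz1, hz2⟩, hk1, hk2⟩, hall⟩ := h
  refine ⟨⟨k, ?_⟩, ?_⟩
  · rw [key]
    rw [TS_append, TS_append] at hz1 hz2
    refine ⟨z, ?_, ?_⟩
    · rcases hz1 with hz | hz | hz
      · have := TS_depth hX zX sX hs _ _ _ _ hz; simp only at this; omega
      · exact hz
      · have := TS_depth hX zX sX hs _ _ _ _ hz; simp only at this; omega
    · rcases hz2 with hz | hz | hz
      · have := TS_depth hY zY sY hs' _ _ _ _ hz; simp only at this; omega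
      · exact hz
      · have := TS_depth hY zY sY hs' _ _ _ _ hz; simp only at this; omega
  · rw [key]
    rintro k' ⟨z', hz1', hz2'⟩
    have := TS_depth hX zX sX hs _ _ _ _ hz1'
    simp only at this
    refine hall k' ⟨z', ?_, ?_⟩ (by omega) (by omega)
    · rw [TS_append, TS_append]; exact Or.inr (Or.inl hz1')
    · rw [TS_append, TS_append]; exact Or.inr (Or.inl hz2')

/-- window, both walkers cut at first passages -/
theorem window_split (hX1 : ∀ b, 1 ≤ hX b) (hY1 : ∀ b, 1 ≤ hY b) (hΛX : ∑' b, ΛX b = 1)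
    (hΛY : ∑' b, ΛY b = 1) (hUX : ∀ n, U ΛX hX n ≤ 1) (hUY : ∀ n, U ΛY hY n ≤ 1)
    (hs : ∀ b, ∀ q ∈ sX b, 1 ≤ q.2 ∧ q.2 ≤ hX b)
    (hs' : ∀ b, ∀ q ∈ sY b, 1 ≤ q.2 ∧ q.2 ≤ hY b) (A T A' T' i0 lo hi n : ℕ)
    (hlo : A + i0 ≤ lo) (hhi : hi ≤ A + T) (hn : A + i0 + T ≤ n)
    (hlo' : A' + i0 ≤ lo) (hhi' : hi ≤ A' + T') (hn' : A' + i0 + T' ≤ n) (w : G) :
    ∑' L, ∑' M, (if HT hX L = n ∧ HT hY M = n ∧ evF hX hY zX zY sX sY A T i0 lo hi w L M
        then LW ΛX L * LW ΛY M else 0)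
      ≤ 2 * ov ΛX hX i0 + (2 * ov ΛY hY i0 + ∑' L1, wF ΛX hX i0 A L1 * ∑' L2, wF ΛX hX i0 T L2 *
        ∑' M1, wF ΛY hY i0 A' M1 * ∑' M2, wF ΛY hY i0 T' M2 *
        (if evP hX hY zX zY sX sY lo hi (HT hX L1) (HT hY M1) (w + Dp zY M1 - Dp zX L1) L2 M2
          then 1 else 0)) := by
  have e1 : ∀ L : List BX, ∑' M, (if HT hX L = n ∧ HT hY M = n ∧
      evF hX hY zX zY sX sY A T i0 lo hi w L M then LW ΛX L * LW ΛY M else 0)
      = (if HT hX L = n then LW ΛX L * ∑' M, (if HT hY M = n then LW ΛY M *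
        (if evF hX hY zX zY sX sY A T i0 lo hi w L M then 1 else 0) else 0) else 0) := by
    intro L
    by_cases hL : HT hX L = n
    · rw [if_pos hL, ← ENNReal.tsum_mul_left]
      refine tsum_congr fun M => ?_
      by_cases h1 : HT hY M = n <;>
        by_cases h2 : evF hX hY zX zY sX sY A T i0 lo hi w L M <;> simp [hL, h1, h2]
    · simp [hL]
  rw [tsum_congr e1]
  refine (one' ΛX hX hX1 hΛX hUX A T i0 n hn _ (fun L => ?_) (fun L1 L2 => 2 * ov ΛY hY i0 +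
    ∑' M1, wF ΛY hY i0 A' M1 * ∑' M2, wF ΛY hY i0 T' M2 *
        (if evP hX hY zX zY sX sY lo hi (HT hX L1) (HT hY M1) (w + Dp zY M1 - Dp zX L1) L2 M2
          then 1 else 0)) ?_).trans ?_
  · refine le_trans (ENNReal.tsum_le_tsum fun M => ?_) (hUY n)
    by_cases h1 : HT hY M = n
    · rw [if_pos h1, if_pos h1]
      refine mul_le_of_le_one_right' ?_
      split_ifs
      · exact le_rfl
      · exact zero_le
    · rw [if_neg h1, if_neg h1]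
  · intro L1 L2 L3 h1 h1' h2 h2' _
    refine one' ΛY hY hY1 hΛY hUY A' T' i0 n hn' _ (fun M => ?_) (fun M1 M2 =>
      (if evP hX hY zX zY sX sY lo hi (HT hX L1) (HT hY M1) (w + Dp zY M1 - Dp zX L1) L2 M2
          then 1 else 0)) ?_
    · split_ifs
      · exact le_rfl
      · exact zero_le
    · intro M1 M2 M3 g1 g1' g2 _ _
      by_cases he : evF hX hY zX zY sX sY A T i0 lo hi w (L1 ++ (L2 ++ L3)) (M1 ++ (M2 ++ M3))
      · rw [if_pos he, if_pos (ev_imp hX hY zX zY sX sY hs hs' hlo hhi hlo' hhi' w L1 L2 L3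
          M1 M2 M3 h1 h1' h2 h2' g1 g1' g2 he)]
      · rw [if_neg he]; exact zero_le
  · refine add_le_add le_rfl ?_
    simp_rw [mul_add]
    rw [show (∑' L1, wF ΛX hX i0 A L1 * ∑' L2, (wF ΛX hX i0 T L2 * (2 * ov ΛY hY i0) +
        wF ΛX hX i0 T L2 * ∑' M1, wF ΛY hY i0 A' M1 * ∑' M2, wF ΛY hY i0 T' M2 *
        (if evP hX hY zX zY sX sY lo hi (HT hX L1) (HT hY M1) (w + Dp zY M1 - Dp zX L1) L2 M2
          then (1 : ℝ≥0∞) else 0))) = ∑' L1, (wF ΛX hX i0 A L1 *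
            ((∑' L2, wF ΛX hX i0 T L2) * (2 * ov ΛY hY i0)) + wF ΛX hX i0 A L1 *
            ∑' L2, wF ΛX hX i0 T L2 * ∑' M1, wF ΛY hY i0 A' M1 * ∑' M2, wF ΛY hY i0 T' M2 *
        (if evP hX hY zX zY sX sY lo hi (HT hX L1) (HT hY M1) (w + Dp zY M1 - Dp zX L1) L2 M2
          then (1 : ℝ≥0∞) else 0)) from tsum_congr fun L1 => by
        rw [ENNReal.tsum_add, mul_add, ENNReal.tsum_mul_right]]
    rw [ENNReal.tsum_add]
    refine add_le_add ?_ le_rfl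
    rw [ENNReal.tsum_mul_right]
    calc _ ≤ 1 * (1 * (2 * ov ΛY hY i0)) :=
          mul_le_mul' (wF_mass ΛX hX hX1 hΛX i0 A)
            (mul_le_mul' (wF_mass ΛX hX hX1 hΛX i0 T) le_rfl)
      _ = _ := by rw [one_mul, one_mul]

end Crest.Agent.R154.Asm532
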