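import Crest.Agent.R154.Asm3_564

/-! Row 154, ROAD 801 (helper564): one window. -/

set_option autoImplicit false
set_option linter.unusedSectionVars false

namespace Crest.Agent.R154.Asm564

open scoped ENNReal
open Crest.Agent.R154.B5A (LW HT U tail LW_nil LW_cons LW_append HT_nil HT_cons HT_append tsum_list)
open Crest.Agent.R154.Asm540 (TR Cm H2 H3 H5 KS TR_append TR_depth TR_shift)

open Classical

variable {BX BY G : Type*} [AddCommGroup G]
  (ΛX : BX → ℝ≥0∞) (ΛY : BY → ℝ≥0∞) (hX : BX → ℕ) (hY : BY → ℕ) (zX : BX → G) (zY : BY → G)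
  (sX : BX → Set (G × ℕ)) (sY : BY → Set (G × ℕ))

/-- event of the two pieces -/
def Qp (lo hi α α' : ℕ) (δ : G) (P : List BX) (P' : List BY) : Prop :=
  (∃ g k, Cm hX hY zX zY sX sY P P' δ α α' g k) ∧
    (∀ g k, Cm hX hY zX zY sX sY P P' δ α α' g k → lo ≤ k ∧ k ≤ hi)

/-- event of the `X`-pieces and the whole `Y`-list -/
def I1 (W1 W2 lo hi : ℕ) (w : G) (A P : List BX) (L' : List BY) : Prop :=
  (∃ g k, W1 < k ∧ k ≤ W2 ∧ (g, k) ∈ TR sX zX hX P (Dp zX A) (HT hX A) ∧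
      (g, k) ∈ TR sY zY hY L' w 0) ∧
    (∀ g k, (g, k) ∈ TR sX zX hX P (Dp zX A) (HT hX A) → (g, k) ∈ TR sY zY hY L' w 0 →
      lo ≤ k ∧ k ≤ hi)

/-- event of the whole lists -/
def I0 (W1 W2 T lo hi hi2 : ℕ) (w : G) (L : List BX) (L' : List BY) : Prop :=
  (∃ g k, W1 < k ∧ k ≤ W2 ∧ Cm hX hY zX zY sX sY L L' w 0 0 g k) ∧
    (∀ g k, Cm hX hY zX zY sX sY L L' w 0 0 g k → ¬ (T ≤ k ∧ k < lo) ∧ ¬ (hi < k ∧ k < hi2))

lemma I0_I1 (hsX : ∀ b, ∀ p ∈ sX b, 1 ≤ p.2 ∧ p.2 ≤ hX b) (W1 W2 T S i0 lo hi hi2 : ℕ) (w : G)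
    (h1 : T + i0 ≤ W1) (h2 : W2 ≤ T + S) (h3 : T + i0 + (S + i0) < hi2)
    (A P R : List BX) (L' : List BY) (hA : T ≤ HT hX A) (hA2 : HT hX A ≤ T + i0)
    (hP : S ≤ HT hX P) (hP2 : HT hX P ≤ S + i0)
    (h : I0 hX hY zX zY sX sY W1 W2 T lo hi hi2 w (A ++ (P ++ R)) L') :
    I1 hX hY zX zY sX sY W1 W2 lo hi w A P L' := by
  have hmem : ∀ g k, (g, k) ∈ TR sX zX hX (A ++ (P ++ R)) 0 0 ↔
      (g, k) ∈ TR sX zX hX A 0 0 ∨ (g, k) ∈ TR sX zX hX P (Dp zX A) (HT hX A) ∨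
        (g, k) ∈ TR sX zX hX R (Dp zX A + Dp zX P) (HT hX A + HT hX P) := by
    intro g k
    rw [TR_append, TR_append, zero_add, zero_add]
    rfl
  obtain ⟨⟨g, k, hk1, hk2, hc1, hc2⟩, hall⟩ := h
  refine ⟨⟨g, k, hk1, hk2, ?_, hc2⟩, ?_⟩
  · rcases (hmem g k).1 hc1 with h | h | h
    · have := TR_depth hX zX sX hsX _ _ _ _ h
      simp only at this
      omega
    · exact h
    · have := TR_depth hX zX sX hsX _ _ _ _ h
      simp only at this
      omega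
  · intro g k hg1 hg2
    have hd := TR_depth hX zX sX hsX _ _ _ _ hg1
    simp only at hd
    have := hall g k ⟨(hmem g k).2 (Or.inr (Or.inl hg1)), hg2⟩
    omega

lemma I1_Qp (hsY : ∀ b, ∀ p ∈ sY b, 1 ≤ p.2 ∧ p.2 ≤ hY b) (W1 W2 T S i0 lo hi : ℕ) (w : G)
    (h1 : T + i0 ≤ W1) (h2 : W2 ≤ T + S)
    (A P : List BX) (A' P' R' : List BY) (hA : T ≤ HT hY A') (hA2 : HT hY A' ≤ T + i0)
    (hP : S ≤ HT hY P')
    (h : I1 hX hY zX zY sX sY W1 W2 lo hi w A P (A' ++ (P' ++ R'))) :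
    Qp hX hY zX zY sX sY lo hi (HT hX A) (HT hY A') (w + Dp zY A' - Dp zX A) P P' := by
  have hmem : ∀ g k, (g, k) ∈ TR sY zY hY (A' ++ (P' ++ R')) w 0 ↔
      (g, k) ∈ TR sY zY hY A' w 0 ∨ (g, k) ∈ TR sY zY hY P' (w + Dp zY A') (HT hY A') ∨
        (g, k) ∈ TR sY zY hY R' (w + Dp zY A' + Dp zY P') (HT hY A' + HT hY P') := by
    intro g k
    rw [TR_append, TR_append, zero_add]
    rfl
  have hsh : ∀ g k, (g, k) ∈ TR sX zX hX P (Dp zX A) (HT hX A) ↔
      (g - Dp zX A, k) ∈ TR sX zX hX P 0 (HT hX A) := by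
    intro g k
    have := TR_shift hX zX sX P 0 (Dp zX A) (HT hX A) g k
    rwa [zero_add] at this
  have hsh' : ∀ g k, (g, k) ∈ TR sY zY hY P' (w + Dp zY A') (HT hY A') ↔
      (g - Dp zX A, k) ∈ TR sY zY hY P' (w + Dp zY A' - Dp zX A) (HT hY A') := by
    intro g k
    have := TR_shift hY zY sY P' (w + Dp zY A' - Dp zX A) (Dp zX A) (HT hY A') g k
    rwa [sub_add_cancel] at this
  obtain ⟨⟨g, k, hk1, hk2, hc1, hc2⟩, hall⟩ := h
  refine ⟨⟨g - Dp zX A, k, (hsh g k).1 hc1, ?_⟩, ?_⟩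
  · rcases (hmem g k).1 hc2 with h | h | h
    · have := TR_depth hY zY sY hsY _ _ _ _ h
      simp only at this
      omega
    · exact (hsh' g k).1 h
    · have := TR_depth hY zY sY hsY _ _ _ _ h
      simp only at this
      omega
  · rintro g k ⟨hg1, hg2⟩
    refine hall (g + Dp zX A) k ((hsh _ _).2 (by rwa [add_sub_cancel_right])) ?_
    exact (hmem _ _).2 (Or.inr (Or.inl ((hsh' _ _).2 (by rwa [add_sub_cancel_right]))))

/-- pair of pieces, kernel -/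
noncomputable def DD (S i0 lo hi : ℕ) (PX : List BX → Prop) (PY : List BY → Prop) (α α' : ℕ)
    (δ : G) : ℝ≥0∞ :=
  ∑' P, wt ΛX hX S i0 P * ∑' P', wt ΛY hY S i0 P' *
    (if PX P ∧ PY P' ∧ Qp hX hY zX zY sX sY lo hi α α' δ P P' then 1 else 0)

lemma DD_le_one (h1X : ∀ b, 1 ≤ hX b) (h1Y : ∀ b, 1 ≤ hY b) (hΛX : ∑' b, ΛX b = 1)
    (hΛY : ∑' b, ΛY b = 1) (S i0 lo hi : ℕ) (PX : List BX → Prop) (PY : List BY → Prop)
    (α α' : ℕ) (δ : G) :
    DD ΛX ΛY hX hY zX zY sX sY S i0 lo hi PX PY α α' δ ≤ 1 := by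
  unfold DD
  calc _ ≤ ∑' P, wt ΛX hX S i0 P * 1 := by
        refine ENNReal.tsum_le_tsum fun P => mul_le_mul_right ?_ _
        refine le_trans ?_ (wt_sum ΛY hY h1Y hΛY S i0)
        refine ENNReal.tsum_le_tsum fun P' => ?_
        split_ifs <;> simp
    _ ≤ 1 := by
        simp only [mul_one]
        exact wt_sum ΛX hX h1X hΛX S i0

/-- the kernel is bounded by sums over the exact heights -/
lemma swap4 (f : ℕ → ℕ → List BX → List BY → ℝ≥0∞) (s : Finset ℕ) :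
    ∑' P, ∑' P', ∑ i ∈ s, ∑ i' ∈ s, f i i' P P'
      = ∑ i ∈ s, ∑ i' ∈ s, ∑' P, ∑' P', f i i' P P' := by
  have e : ∀ P, ∑' P', ∑ i ∈ s, ∑ i' ∈ s, f i i' P P'
      = ∑ i ∈ s, ∑ i' ∈ s, ∑' P', f i i' P P' := by
    intro P
    rw [Summable.tsum_finsetSum (fun _ _ => ENNReal.summable)]
    exact Finset.sum_congr rfl fun i _ =>
      Summable.tsum_finsetSum (fun _ _ => ENNReal.summable)
  simp_rw [e]
  rw [Summable.tsum_finsetSum (fun _ _ => ENNReal.summable)]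
  exact Finset.sum_congr rfl fun i _ => Summable.tsum_finsetSum (fun _ _ => ENNReal.summable)

lemma DD_gen (S i0 lo hi : ℕ) (PX : List BX → Prop) (PY : List BY → Prop) (α α' : ℕ)
    (f : ℕ → ℕ → G → List BX → List BY → ℝ≥0∞) (bd : ℝ≥0∞)
    (hf : ∀ δ P P', SP hX S P → HT hX P ≤ S + i0 → SP hY S P' → HT hY P' ≤ S + i0 →
      PX P → PY P' → Qp hX hY zX zY sX sY lo hi α α' δ P P' →
      LW ΛX P * LW ΛY P' ≤ f (HT hX P - S) (HT hY P' - S) δ P P')
    (μ : G → ℝ≥0∞)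
    (hbd : ∀ i i', i ≤ i0 → i' ≤ i0 → ∑' δ, μ δ * ∑' P, ∑' P', f i i' δ P P' ≤ bd) :
    ∑' δ, μ δ * DD ΛX ΛY hX hY zX zY sX sY S i0 lo hi PX PY α α' δ
      ≤ (i0 + 1) * ((i0 + 1) * bd) := by
  have hpt : ∀ δ, DD ΛX ΛY hX hY zX zY sX sY S i0 lo hi PX PY α α' δ
      ≤ ∑ i ∈ Finset.range (i0 + 1), ∑ i' ∈ Finset.range (i0 + 1),
        ∑' P : List BX, ∑' P' : List BY, f i i' δ P P' := by
    intro δ
    rw [← swap4 (fun i i' P P' => f i i' δ P P')]
    unfold DD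
    simp only [← ENNReal.tsum_mul_left]
    refine ENNReal.tsum_le_tsum fun P => ENNReal.tsum_le_tsum fun P' => ?_
    by_cases hc : PX P ∧ PY P' ∧ Qp hX hY zX zY sX sY lo hi α α' δ P P'
    · rw [if_pos hc, mul_one]
      unfold wt
      by_cases hP : SP hX S P ∧ HT hX P ≤ S + i0
      · by_cases hP' : SP hY S P' ∧ HT hY P' ≤ S + i0
        · rw [if_pos hP, if_pos hP']
          refine (hf δ P P' hP.1 hP.2 hP'.1 hP'.2 hc.1 hc.2.1 hc.2.2).trans ?_
          refine le_trans ?_ (Finset.single_le_sum (f := fun i => ∑ i' ∈ Finset.range (i0 + 1),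
            f i i' δ P P') (fun _ _ => zero_le)
            (Finset.mem_range.2 (show HT hX P - S < i0 + 1 by omega)))
          exact Finset.single_le_sum (f := fun i' => f (HT hX P - S) i' δ P P')
            (fun _ _ => zero_le) (Finset.mem_range.2 (show HT hY P' - S < i0 + 1 by omega))
        · rw [if_neg hP', mul_zero]; exact zero_le
      · rw [if_neg hP, zero_mul]; exact zero_le
    · rw [if_neg hc, mul_zero, mul_zero]; exact zero_le
  calc ∑' δ, μ δ * DD ΛX ΛY hX hY zX zY sX sY S i0 lo hi PX PY α α' δ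
      ≤ ∑' δ, μ δ * ∑ i ∈ Finset.range (i0 + 1), ∑ i' ∈ Finset.range (i0 + 1),
        ∑' P : List BX, ∑' P' : List BY, f i i' δ P P' :=
        ENNReal.tsum_le_tsum fun δ => mul_le_mul_right (hpt δ) _
    _ = ∑ i ∈ Finset.range (i0 + 1), ∑ i' ∈ Finset.range (i0 + 1),
        ∑' δ, μ δ * ∑' P : List BX, ∑' P' : List BY, f i i' δ P P' := by
        simp only [Finset.mul_sum]
        rw [Summable.tsum_finsetSum (fun _ _ => ENNReal.summable)]
        exact Finset.sum_congr rfl fun i _ =>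
          Summable.tsum_finsetSum (fun _ _ => ENNReal.summable)
    _ ≤ ∑ i ∈ Finset.range (i0 + 1), ∑ i' ∈ Finset.range (i0 + 1), bd :=
        Finset.sum_le_sum fun i hi => Finset.sum_le_sum fun i' hi' =>
          hbd i i' (by have := Finset.mem_range.1 hi; omega)
            (by have := Finset.mem_range.1 hi'; omega)
    _ = (i0 + 1) * ((i0 + 1) * bd) := by
        simp only [Finset.sum_const, Finset.card_range, nsmul_eq_mul]; push_cast; rfl

lemma DD_X (S i0 lo hi s : ℕ) (th C lam Γ Mc : ℝ≥0∞) (us : ℕ → ℝ≥0∞)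
    (hH2 : H2 ΛX ΛY hX hY zX zY sX sY C us) (hlam : lam ≠ 0) (hlam' : lam ≠ ⊤)
    (E : ℕ → Finset G) (hE : ∀ i x, th ≤ la ΛX hX zX S i x → x ∈ E i)
    (hEc : ∀ i, Γ * (E i).card ≤ Mc)
    (α α' : ℕ) (hα : α + s ≤ lo) (hα' : α' + s ≤ lo) (μ : G → ℝ≥0∞) (hμ1 : ∑' x, μ x ≤ 1)
    (hμ : ∀ x, μ x ≤ Γ) :
    ∑' δ, μ δ * DD ΛX ΛY hX hY zX zY sX sY S i0 lo hi
        (fun P => ¬ la ΛX hX zX S (HT hX P - S) (Dp zX P) < th) (fun _ => True) α α' δ
      ≤ (i0 + 1) * ((i0 + 1) * (C * (lam + Mc * us s / lam + us s))) := by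
  refine DD_gen ΛX ΛY hX hY zX zY sX sY S i0 lo hi _ _ α α'
    (fun i i' δ L L' => if HT hX L = S + i ∧ Asm540.Dp zX L ∈ E i ∧ HT hY L' = S + i' ∧
          (∃ g k, Cm hX hY zX zY sX sY L L' δ α α' g k) ∧
          (∀ g k, Cm hX hY zX zY sX sY L L' δ α α' g k → lo ≤ k) then LW ΛX L * LW ΛY L'
          else 0) _ ?_ μ ?_
  · intro δ P P' hP _ hP' _ hl _ hQ
    have h1 := SP_le hX P S hP
    have h2 := SP_le hY P' S hP'
    rw [if_pos]
    exact ⟨by omega, hE _ _ (not_lt.1 hl), by omega, hQ.1, fun g k hk => (hQ.2 g k hk).1⟩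
  · intro i i' _ _
    refine (hH2 s (S + i) (S + i') α α' lo (E i) μ Γ lam hμ1 hμ hlam hlam' hα hα').trans ?_
    have : Γ * (E i).card * us s / lam ≤ Mc * us s / lam := by
      have := hEc i
      gcongr
    gcongr

lemma DD_Y (S i0 lo hi s : ℕ) (th C lam Γ Mc : ℝ≥0∞) (us : ℕ → ℝ≥0∞)
    (hH3 : H3 ΛX ΛY hX hY zX zY sX sY C us) (hlam : lam ≠ 0) (hlam' : lam ≠ ⊤)
    (E : ℕ → Finset G) (hE : ∀ i x, th ≤ la ΛY hY zY S i x → x ∈ E i)
    (hEc : ∀ i, Γ * (E i).card ≤ Mc)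
    (α α' : ℕ) (hα : hi + s ≤ α + S) (hα' : hi + s ≤ α' + S) (μ : G → ℝ≥0∞)
    (hμ1 : ∑' x, μ x ≤ 1) (hμ : ∀ x, μ x ≤ Γ) :
    ∑' δ, μ δ * DD ΛX ΛY hX hY zX zY sX sY S i0 lo hi
        (fun _ => True) (fun P => ¬ la ΛY hY zY S (HT hY P - S) (Dp zY P) < th) α α' δ
      ≤ (i0 + 1) * ((i0 + 1) * (C * (lam + Mc * us s / lam + us s))) := by
  refine DD_gen ΛX ΛY hX hY zX zY sX sY S i0 lo hi _ _ α α'
    (fun i i' δ L L' => if HT hX L = S + i ∧ HT hY L' = S + i' ∧ Asm540.Dp zY L' ∈ E i' ∧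
          (∃ g k, Cm hX hY zX zY sX sY L L' δ α α' g k) ∧
          (∀ g k, Cm hX hY zX zY sX sY L L' δ α α' g k → k ≤ hi) then LW ΛX L * LW ΛY L'
          else 0) _ ?_ μ ?_
  · intro δ P P' hP _ hP' _ _ hl hQ
    have h1 := SP_le hX P S hP
    have h2 := SP_le hY P' S hP'
    rw [if_pos]
    exact ⟨by omega, by omega, hE _ _ (not_lt.1 hl), hQ.1, fun g k hk => (hQ.2 g k hk).2⟩
  · intro i i' _ _
    refine (hH3 s (S + i) (S + i') α α' hi (E i') μ Γ lam hμ1 hμ hlam hlam' (by omega)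
      (by omega)).trans ?_
    have : Γ * (E i').card * us s / lam ≤ Mc * us s / lam := by
      have := hEc i'
      gcongr
    gcongr

lemma wt_mul_le {B : Type*} (Λ : B → ℝ≥0∞) (h : B → ℕ) (T i0 : ℕ) (A : List B) (c c' : ℝ≥0∞)
    (hc : SP h T A → HT h A ≤ T + i0 → c ≤ c') : wt Λ h T i0 A * c ≤ wt Λ h T i0 A * c' := by
  unfold wt
  by_cases hA : SP h T A ∧ HT h A ≤ T + i0
  · exact mul_le_mul_right (hc hA.1 hA.2) _
  · rw [if_neg hA, zero_mul, zero_mul]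

lemma wt_mul_const {B : Type*} (Λ : B → ℝ≥0∞) (h : B → ℕ) (h1 : ∀ b, 1 ≤ h b)
    (hΛ : ∑' b, Λ b = 1) (T i0 : ℕ) (c : ℝ≥0∞) (f : List B → ℝ≥0∞)
    (hf : ∀ A, SP h T A → HT h A ≤ T + i0 → f A ≤ c) : ∑' A, wt Λ h T i0 A * f A ≤ c := by
  calc _ ≤ ∑' A, wt Λ h T i0 A * c :=
        ENNReal.tsum_le_tsum fun A => wt_mul_le Λ h T i0 A _ _ (hf A)
    _ = (∑' A, wt Λ h T i0 A) * c := ENNReal.tsum_mul_right
    _ ≤ 1 * c := mul_le_mul_left (wt_sum Λ h h1 hΛ T i0) _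
    _ = c := one_mul _

/-- **one window** -/
theorem window (h1X : ∀ b, 1 ≤ hX b) (h1Y : ∀ b, 1 ≤ hY b) (hΛX : ∑' b, ΛX b = 1)
    (hΛY : ∑' b, ΛY b = 1) (hUX : ∀ n, U ΛX hX n ≤ 1) (hUY : ∀ n, U ΛY hY n ≤ 1)
    (hsX : ∀ b, ∀ p ∈ sX b, 1 ≤ p.2 ∧ p.2 ≤ hX b) (hsY : ∀ b, ∀ p ∈ sY b, 1 ≤ p.2 ∧ p.2 ≤ hY b)
    (C : ℝ≥0∞) (us : ℕ → ℝ≥0∞)
    (hH2 : H2 ΛX ΛY hX hY zX zY sX sY C us) (hH3 : H3 ΛX ΛY hX hY zX zY sX sY C us)
    (T S i0 s W1 W2 n : ℕ) (w : G) (hn : T + i0 + (S + i0) ≤ n) (hW1 : T + i0 ≤ W1)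
    (hW2 : W2 ≤ T + S) (hsS : s ≤ S)
    (lam u ΓX ΓY thX thY Mc : ℝ≥0∞) (hlam : lam ≠ 0) (hlam' : lam ≠ ⊤)
    (hNX : ∑' i, ∑' x, (if la ΛX hX zX S i x < thX then la ΛX hX zX S i x else 0) ≤ u)
    (hNY : ∑' i, ∑' x, (if la ΛY hY zY S i x < thY then la ΛY hY zY S i x else 0) ≤ u)
    (EX : ℕ → Finset G) (hEX : ∀ i x, thX ≤ la ΛX hX zX S i x → x ∈ EX i)
    (hEXc : ∀ i, ΓX * (EX i).card ≤ Mc)
    (EY : ℕ → Finset G) (hEY : ∀ i x, thY ≤ la ΛY hY zY S i x → x ∈ EY i)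
    (hEYc : ∀ i, ΓY * (EY i).card ≤ Mc) :
    KS ΛX ΛY hX hY zX zY sX sY n w (Set.Ioc W1 W2)
      ≤ KS ΛX ΛY hX hY zX zY sX sY n w (Set.Ico T (T + (i0 + s)))
        + KS ΛX ΛY hX hY zX zY sX sY n w (Set.Ico (T + S - s + 1) (T + S - s + 1 + (s + 2 * i0)))
        + (2 * ov ΛX hX i0 + (2 * ov ΛY hY i0 + (u * u
          + (exc ΛX hX zX T ΓX + (i0 + 1) *
              ((i0 + 1) * ((i0 + 1) * (C * (lam + Mc * us s / lam + us s)))))
          + (exc ΛY hY zY T ΓY + (i0 + 1) *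
              ((i0 + 1) * ((i0 + 1) * (C * (lam + Mc * us s / lam + us s)))))))) := by
  set lo := T + (i0 + s) with hlo
  set hi := T + S - s with hhi
  set hi2 := hi + 1 + (s + 2 * i0) with hhi2
  set bd : ℝ≥0∞ := (i0 + 1) * ((i0 + 1) * (C * (lam + Mc * us s / lam + us s))) with hbd
  -- step 1: slabs
  have step1 : KS ΛX ΛY hX hY zX zY sX sY n w (Set.Ioc W1 W2)
      ≤ KS ΛX ΛY hX hY zX zY sX sY n w (Set.Ico T lo)
        + KS ΛX ΛY hX hY zX zY sX sY n w (Set.Ico (hi + 1) hi2)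
        + ∑' L : List BX, (if HT hX L = n then LW ΛX L * ∑' L' : List BY,
            (if HT hY L' = n then LW ΛY L' *
              (if I0 hX hY zX zY sX sY W1 W2 T lo hi hi2 w L L' then 1 else 0) else 0) else 0) := by
    unfold KS
    rw [← ENNReal.tsum_add, ← ENNReal.tsum_add]
    refine ENNReal.tsum_le_tsum fun L => ?_
    by_cases hL : HT hX L = n
    · rw [if_pos hL, ← ENNReal.tsum_mul_left, ← ENNReal.tsum_add, ← ENNReal.tsum_add]
      refine ENNReal.tsum_le_tsum fun L' => ?_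
      by_cases hL' : HT hY L' = n
      · by_cases hc : ∃ g k, k ∈ Set.Ioc W1 W2 ∧ Cm hX hY zX zY sX sY L L' w 0 0 g k
        · rw [if_pos ⟨hL, hL', hc⟩]
          by_cases hs1 : ∃ g k, k ∈ Set.Ico T lo ∧ Cm hX hY zX zY sX sY L L' w 0 0 g k
          · rw [if_pos ⟨hL, hL', hs1⟩]
            exact le_trans le_self_add le_self_add
          · by_cases hs2 : ∃ g k, k ∈ Set.Ico (hi + 1) hi2 ∧
              Cm hX hY zX zY sX sY L L' w 0 0 g k
            · rw [if_pos (c := HT hX L = n ∧ HT hY L' = n ∧ ∃ g k, k ∈ Set.Ico (hi + 1) hi2 ∧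
                Cm hX hY zX zY sX sY L L' w 0 0 g k) ⟨hL, hL', hs2⟩]
              exact le_trans le_add_self le_self_add
            · refine le_trans ?_ le_add_self
              rw [if_pos hL', if_pos, mul_one]
              obtain ⟨g, k, hk, hcm⟩ := hc
              refine ⟨⟨g, k, hk.1, hk.2, hcm⟩, ?_⟩
              intro g' k' hc'
              refine ⟨fun h => hs1 ⟨g', k', ⟨h.1, h.2⟩, hc'⟩,
                fun h => hs2 ⟨g', k', ⟨by omega, h.2⟩, hc'⟩⟩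
        · rw [if_neg (fun h => hc h.2.2)]; exact zero_le
      · rw [if_neg (fun h => hL' h.2.1)]; exact zero_le
    · have : ∀ L' : List BY, ¬ (HT hX L = n ∧ HT hY L' = n ∧
        ∃ g k, k ∈ Set.Ioc W1 W2 ∧ Cm hX hY zX zY sX sY L L' w 0 0 g k) := fun L' h => hL h.1
      simp only [this, if_false, tsum_zero]
      exact zero_le
  refine step1.trans (add_le_add le_rfl ?_)
  -- step 2: split X
  refine (split2 ΛX hX h1X hΛX hUX T S i0 n hn _ (fun A P => ∑' L' : List BY,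
      (if HT hY L' = n then LW ΛY L' *
        (if I1 hX hY zX zY sX sY W1 W2 lo hi w A P L' then 1 else 0) else 0)) ?_ ?_).trans ?_
  · intro L
    refine le_trans ?_ (hUY n)
    unfold U
    refine ENNReal.tsum_le_tsum fun L' => ?_
    split_ifs <;> simp
  · intro A P R hA hA2 hP hP2 _
    refine ENNReal.tsum_le_tsum fun L' => ?_
    by_cases hL' : HT hY L' = n
    · rw [if_pos hL', if_pos hL']
      refine mul_le_mul_right ?_ _
      by_cases hI : I0 hX hY zX zY sX sY W1 W2 T lo hi hi2 w (A ++ (P ++ R)) L'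
      · rw [if_pos hI, if_pos]
        exact I0_I1 hX hY zX zY sX sY hsX W1 W2 T S i0 lo hi hi2 w hW1 hW2 (by omega) A P R L'
          (SP_le hX A T hA) hA2 (SP_le hX P S hP) hP2 hI
      · rw [if_neg hI]; exact zero_le
    · rw [if_neg hL']; exact zero_le
  refine add_le_add le_rfl ?_
  -- step 3: split Y
  have step3 : ∀ A P, ∑' L' : List BY, (if HT hY L' = n then LW ΛY L' *
        (if I1 hX hY zX zY sX sY W1 W2 lo hi w A P L' then 1 else 0) else 0)
      ≤ 2 * ov ΛY hY i0 + ∑' A', wt ΛY hY T i0 A' * ∑' P', wt ΛY hY S i0 P' *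
        (if Qp hX hY zX zY sX sY lo hi (HT hX A) (HT hY A') (w + Dp zY A' - Dp zX A) P P'
          then 1 else 0) := by
    intro A P
    refine split2 ΛY hY h1Y hΛY hUY T S i0 n hn _ (fun A' P' =>
      (if Qp hX hY zX zY sX sY lo hi (HT hX A) (HT hY A') (w + Dp zY A' - Dp zX A) P P'
          then 1 else 0)) ?_ ?_
    · intro L'; split_ifs <;> simp
    · intro A' P' R' hA hA2 hP hP2 _
      by_cases hI : I1 hX hY zX zY sX sY W1 W2 lo hi w A P (A' ++ (P' ++ R'))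
      · rw [if_pos hI, if_pos]
        exact I1_Qp hX hY zX zY sX sY hsY W1 W2 T S i0 lo hi w hW1 hW2 A P A' P' R'
          (SP_le hY A' T hA) hA2 (SP_le hY P' S hP) hI
      · rw [if_neg hI]; exact zero_le
  -- step 4: decomposition
  set nX : List BX → Prop := fun P => la ΛX hX zX S (HT hX P - S) (Dp zX P) < thX with hnX
  set nY : List BY → Prop := fun P => la ΛY hY zY S (HT hY P - S) (Dp zY P) < thY with hnY
  have step4 : ∀ A P, ∑' A', wt ΛY hY T i0 A' * ∑' P', wt ΛY hY S i0 P' *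
        (if Qp hX hY zX zY sX sY lo hi (HT hX A) (HT hY A') (w + Dp zY A' - Dp zX A) P P'
          then 1 else 0)
      ≤ (if nX P then 1 else 0) * u
        + ∑' A', wt ΛY hY T i0 A' * ∑' P', wt ΛY hY S i0 P' *
          (if ¬ nX P ∧ True ∧ Qp hX hY zX zY sX sY lo hi (HT hX A) (HT hY A')
            (w + Dp zY A' - Dp zX A) P P' then 1 else 0)
        + ∑' A', wt ΛY hY T i0 A' * ∑' P', wt ΛY hY S i0 P' *
          (if True ∧ ¬ nY P' ∧ Qp hX hY zX zY sX sY lo hi (HT hX A) (HT hY A')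
            (w + Dp zY A' - Dp zX A) P P' then 1 else 0) := by
    intro A P
    calc _ ≤ ∑' A', wt ΛY hY T i0 A' * ∑' P', (wt ΛY hY S i0 P' *
            ((if nX P then 1 else 0) * (if nY P' then 1 else 0))
          + wt ΛY hY S i0 P' *
          (if ¬ nX P ∧ True ∧ Qp hX hY zX zY sX sY lo hi (HT hX A) (HT hY A')
            (w + Dp zY A' - Dp zX A) P P' then 1 else 0)
          + wt ΛY hY S i0 P' *
          (if True ∧ ¬ nY P' ∧ Qp hX hY zX zY sX sY lo hi (HT hX A) (HT hY A')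
            (w + Dp zY A' - Dp zX A) P P' then 1 else 0)) := by
          refine ENNReal.tsum_le_tsum fun A' => mul_le_mul_right
            (ENNReal.tsum_le_tsum fun P' => ?_) _
          rw [← mul_add, ← mul_add]
          refine mul_le_mul_right ?_ _
          by_cases hq : Qp hX hY zX zY sX sY lo hi (HT hX A) (HT hY A')
            (w + Dp zY A' - Dp zX A) P P'
          · by_cases h1 : nX P <;> by_cases h2 : nY P' <;> simp [h1, h2, hq]
          · rw [if_neg hq]; exact zero_le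
      _ ≤ _ := by
          simp only [ENNReal.tsum_add, mul_add]
          refine add_le_add (add_le_add ?_ le_rfl) le_rfl
          refine wt_mul_const ΛY hY h1Y hΛY T i0 _ _ fun A' _ _ => ?_
          calc ∑' P', wt ΛY hY S i0 P' * ((if nX P then 1 else 0) * (if nY P' then 1 else 0))
              = (if nX P then 1 else 0) * ∑' P', wt ΛY hY S i0 P' * (if nY P' then 1 else 0) := by
                rw [← ENNReal.tsum_mul_left]
                exact tsum_congr fun P' => by ring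
            _ ≤ _ := mul_le_mul_right (nl_le ΛY hY zY S i0 thY u hNY) _
  -- assemble
  have step5 : ∑' A, wt ΛX hX T i0 A * ∑' P, wt ΛX hX S i0 P * (2 * ov ΛY hY i0
      + ((if nX P then 1 else 0) * u
        + ∑' A', wt ΛY hY T i0 A' * ∑' P', wt ΛY hY S i0 P' *
          (if ¬ nX P ∧ True ∧ Qp hX hY zX zY sX sY lo hi (HT hX A) (HT hY A')
            (w + Dp zY A' - Dp zX A) P P' then 1 else 0)
        + ∑' A', wt ΛY hY T i0 A' * ∑' P', wt ΛY hY S i0 P' *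
          (if True ∧ ¬ nY P' ∧ Qp hX hY zX zY sX sY lo hi (HT hX A) (HT hY A')
            (w + Dp zY A' - Dp zX A) P P' then 1 else 0)))
      ≤ 2 * ov ΛY hY i0 + (u * u
        + ∑' A, wt ΛX hX T i0 A * ∑' P, wt ΛX hX S i0 P *
          ∑' A', wt ΛY hY T i0 A' * ∑' P', wt ΛY hY S i0 P' *
          (if ¬ nX P ∧ True ∧ Qp hX hY zX zY sX sY lo hi (HT hX A) (HT hY A')
            (w + Dp zY A' - Dp zX A) P P' then 1 else 0)
        + ∑' A, wt ΛX hX T i0 A * ∑' P, wt ΛX hX S i0 P *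
          ∑' A', wt ΛY hY T i0 A' * ∑' P', wt ΛY hY S i0 P' *
          (if True ∧ ¬ nY P' ∧ Qp hX hY zX zY sX sY lo hi (HT hX A) (HT hY A')
            (w + Dp zY A' - Dp zX A) P P' then 1 else 0)) := by
    simp only [ENNReal.tsum_add, mul_add]
    refine add_le_add ?_ (add_le_add (add_le_add ?_ le_rfl) le_rfl)
    · exact wt_mul_const ΛX hX h1X hΛX T i0 _ _ fun A _ _ =>
        wt_mul_const ΛX hX h1X hΛX S i0 _ _ fun P _ _ => le_rfl
    · refine wt_mul_const ΛX hX h1X hΛX T i0 _ _ fun A _ _ => ?_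
      calc ∑' P, wt ΛX hX S i0 P * ((if nX P then 1 else 0) * u)
          = (∑' P, wt ΛX hX S i0 P * (if nX P then 1 else 0)) * u := by
            rw [← ENNReal.tsum_mul_right]
            exact tsum_congr fun P => by ring
        _ ≤ u * u := mul_le_mul_left (nl_le ΛX hX zX S i0 thX u hNX) _
  refine (ENNReal.tsum_le_tsum fun A => mul_le_mul_right (ENNReal.tsum_le_tsum fun P =>
    mul_le_mul_right ((step3 A P).trans (add_le_add le_rfl (step4 A P))) _) _).trans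
    (step5.trans ?_)
  refine add_le_add le_rfl (add_le_add (add_le_add le_rfl ?_) ?_)
  · -- X local
    have e : ∑' A, wt ΛX hX T i0 A * ∑' P, wt ΛX hX S i0 P *
          ∑' A', wt ΛY hY T i0 A' * ∑' P', wt ΛY hY S i0 P' *
          (if ¬ nX P ∧ True ∧ Qp hX hY zX zY sX sY lo hi (HT hX A) (HT hY A')
            (w + Dp zY A' - Dp zX A) P P' then 1 else 0)
        = ∑' A', wt ΛY hY T i0 A' * ∑' A, wt ΛX hX T i0 A *
          DD ΛX ΛY hX hY zX zY sX sY S i0 lo hi (fun P => ¬ nX P) (fun _ => True)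
            (HT hX A) (HT hY A') (w + Dp zY A' - Dp zX A) := by
      unfold DD
      simp only [← ENNReal.tsum_mul_left]
      have e1 : ∀ A : List BX, ∑' P : List BX, ∑' A' : List BY, ∑' P' : List BY,
          wt ΛX hX T i0 A * (wt ΛX hX S i0 P * (wt ΛY hY T i0 A' * (wt ΛY hY S i0 P' *
          (if ¬ nX P ∧ True ∧ Qp hX hY zX zY sX sY lo hi (HT hX A) (HT hY A')
            (w + Dp zY A' - Dp zX A) P P' then 1 else 0))))
          = ∑' A' : List BY, ∑' P : List BX, ∑' P' : List BY,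
          wt ΛX hX T i0 A * (wt ΛX hX S i0 P * (wt ΛY hY T i0 A' * (wt ΛY hY S i0 P' *
          (if ¬ nX P ∧ True ∧ Qp hX hY zX zY sX sY lo hi (HT hX A) (HT hY A')
            (w + Dp zY A' - Dp zX A) P P' then 1 else 0)))) := fun A => ENNReal.tsum_comm
      simp_rw [e1]
      rw [ENNReal.tsum_comm]
      refine tsum_congr fun A' => tsum_congr fun A => tsum_congr fun P => tsum_congr fun P' => ?_
      ring
    rw [e]
    refine wt_mul_const ΛY hY h1Y hΛY T i0 _ _ fun A' hA' hA2' => ?_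
    refine le_trans ?_ (loc ΛX hX zX T i0 ΓX (fun o => la_sum1 ΛX hX zX h1X hΛX T o)
      (fun o x => DD ΛX ΛY hX hY zX zY sX sY S i0 lo hi (fun P => ¬ nX P) (fun _ => True)
        (T + o) (HT hY A') (w + Dp zY A' - x))
      (fun o x => DD_le_one ΛX ΛY hX hY zX zY sX sY h1X h1Y hΛX hΛY _ _ _ _ _ _ _ _ _) bd ?_)
    · refine ENNReal.tsum_le_tsum fun A => wt_mul_le ΛX hX T i0 A _ _ fun hA _ => ?_
      have := SP_le hX A T hA
      rw [show T + (HT hX A - T) = HT hX A by omega]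
    · intro o ho μ hμ1 hμ
      have e2 := (Equiv.subLeft (w + Dp zY A')).tsum_eq (fun δ => μ (w + Dp zY A' - δ) *
        DD ΛX ΛY hX hY zX zY sX sY S i0 lo hi (fun P => ¬ nX P) (fun _ => True)
        (T + o) (HT hY A') δ)
      simp only [Equiv.subLeft_apply, sub_sub_cancel] at e2
      rw [e2]
      refine DD_X ΛX ΛY hX hY zX zY sX sY S i0 lo hi s thX C lam ΓX Mc us hH2 hlam hlam' EX hEX
        hEXc (T + o) (HT hY A') (by omega) (by omega) _ ?_ (fun x => hμ _)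
      exact ((Equiv.subLeft (w + Dp zY A')).tsum_eq μ).le.trans hμ1
  · -- Y local
    have e : ∑' A, wt ΛX hX T i0 A * ∑' P, wt ΛX hX S i0 P *
          ∑' A', wt ΛY hY T i0 A' * ∑' P', wt ΛY hY S i0 P' *
          (if True ∧ ¬ nY P' ∧ Qp hX hY zX zY sX sY lo hi (HT hX A) (HT hY A')
            (w + Dp zY A' - Dp zX A) P P' then 1 else 0)
        = ∑' A, wt ΛX hX T i0 A * ∑' A', wt ΛY hY T i0 A' *
          DD ΛX ΛY hX hY zX zY sX sY S i0 lo hi (fun _ => True) (fun P => ¬ nY P)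
            (HT hX A) (HT hY A') (w + Dp zY A' - Dp zX A) := by
      unfold DD
      simp only [← ENNReal.tsum_mul_left]
      refine tsum_congr fun A => ?_
      rw [ENNReal.tsum_comm]
      refine tsum_congr fun A' => tsum_congr fun P => tsum_congr fun P' => ?_
      ring
    rw [e]
    refine wt_mul_const ΛX hX h1X hΛX T i0 _ _ fun A hA hA2 => ?_
    refine le_trans ?_ (loc ΛY hY zY T i0 ΓY (fun o => la_sum1 ΛY hY zY h1Y hΛY T o)
      (fun o x => DD ΛX ΛY hX hY zX zY sX sY S i0 lo hi (fun _ => True) (fun P => ¬ nY P)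
        (HT hX A) (T + o) (w + x - Dp zX A))
      (fun o x => DD_le_one ΛX ΛY hX hY zX zY sX sY h1X h1Y hΛX hΛY _ _ _ _ _ _ _ _ _) bd ?_)
    · refine ENNReal.tsum_le_tsum fun A' => wt_mul_le ΛY hY T i0 A' _ _ fun hA' _ => ?_
      have := SP_le hY A' T hA'
      rw [show T + (HT hY A' - T) = HT hY A' by omega]
    · intro o ho μ hμ1 hμ
      have hA1 := SP_le hX A T hA
      have e2 := (Equiv.addRight (w - Dp zX A)).tsum_eq (fun δ => μ (δ - (w - Dp zX A)) *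
        DD ΛX ΛY hX hY zX zY sX sY S i0 lo hi (fun _ => True) (fun P => ¬ nY P)
        (HT hX A) (T + o) δ)
      simp only [Equiv.coe_addRight, add_sub_cancel_right] at e2
      have e3 : ∀ x, w + x - Dp zX A = x + (w - Dp zX A) := fun x => by abel
      simp only [e3]
      rw [e2]
      refine DD_Y ΛX ΛY hX hY zX zY sX sY S i0 lo hi s thY C lam ΓY Mc us hH3 hlam hlam' EY hEY
        hEYc (HT hX A) (T + o) (by omega) (by omega) _ ?_ (fun x => hμ _)
      exact ((Equiv.subRight (w - Dp zX A)).tsum_eq μ).le.trans hμ1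

end Crest.Agent.R154.Asm564
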