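import Crest.Agent.R154.Asm3_66

/-! Row 154 (helper66), ROAD 801: assembly, part 4 (one window). -/

set_option autoImplicit false

namespace Crest.Agent.R154.Asm66

open scoped ENNReal
open Crest.Agent.R154.B5A Crest.Agent.R154.FP178

section func
variable {BX BY : Type*} (ΛX : BX → ℝ≥0∞) (hX : BX → ℕ) (ΛY : BY → ℝ≥0∞) (hY : BY → ℕ)

/-- the four-fold sum -/
noncomputable def II (i0 a b a' b' : ℕ)
    (F : List BX → List BX → List BY → List BY → ℝ≥0∞) : ℝ≥0∞ :=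
  ∑' L1, ∑' L2, w2 ΛX hX a i0 b L1 L2 * ∑' M1, ∑' M2, w2 ΛY hY a' i0 b' M1 M2 * F L1 L2 M1 M2

lemma II_mono (i0 a b a' b' : ℕ) (F F' : List BX → List BX → List BY → List BY → ℝ≥0∞)
    (h : ∀ L1 L2 M1 M2, fp hX a L1 → HT hX L1 ≤ a + i0 → fp hX b L2 → fp hY a' M1 →
      HT hY M1 ≤ a' + i0 → fp hY b' M2 → F L1 L2 M1 M2 ≤ F' L1 L2 M1 M2) :
    II ΛX hX ΛY hY i0 a b a' b' F ≤ II ΛX hX ΛY hY i0 a b a' b' F' := by
  refine ENNReal.tsum_le_tsum fun L1 => ENNReal.tsum_le_tsum fun L2 => ?_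
  by_cases hw : (fp hX a L1 ∧ HT hX L1 ≤ a + i0) ∧ fp hX b L2
  swap
  · rw [w2, if_neg hw, zero_mul]; exact zero_le
  refine mul_le_mul_right (ENNReal.tsum_le_tsum fun M1 => ENNReal.tsum_le_tsum fun M2 => ?_) _
  by_cases hw' : (fp hY a' M1 ∧ HT hY M1 ≤ a' + i0) ∧ fp hY b' M2
  swap
  · rw [w2, if_neg hw', zero_mul]; exact zero_le
  exact mul_le_mul_right (h L1 L2 M1 M2 hw.1.1 hw.1.2 hw.2 hw'.1.1 hw'.1.2 hw'.2) _

lemma II_add (i0 a b a' b' : ℕ) (F F' : List BX → List BX → List BY → List BY → ℝ≥0∞) :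
    II ΛX hX ΛY hY i0 a b a' b' (fun L1 L2 M1 M2 => F L1 L2 M1 M2 + F' L1 L2 M1 M2)
      = II ΛX hX ΛY hY i0 a b a' b' F + II ΛX hX ΛY hY i0 a b a' b' F' := by
  simp only [II]
  rw [← ENNReal.tsum_add]
  refine tsum_congr fun L1 => ?_
  rw [← ENNReal.tsum_add]
  refine tsum_congr fun L2 => ?_
  rw [← mul_add, ← ENNReal.tsum_add]
  congr 1
  refine tsum_congr fun M1 => ?_
  rw [← ENNReal.tsum_add]
  refine tsum_congr fun M2 => ?_
  rw [mul_add]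

lemma II_zero (i0 a b a' b' : ℕ) :
    II ΛX hX ΛY hY i0 a b a' b' (fun _ _ _ _ => 0) = 0 := by simp [II]

lemma II_sum {ι : Type*} (s : Finset ι) (i0 a b a' b' : ℕ)
    (F : ι → List BX → List BX → List BY → List BY → ℝ≥0∞) :
    II ΛX hX ΛY hY i0 a b a' b' (fun L1 L2 M1 M2 => ∑ q ∈ s, F q L1 L2 M1 M2)
      = ∑ q ∈ s, II ΛX hX ΛY hY i0 a b a' b' (F q) := by
  classical
  induction s using Finset.induction_on with
  | empty => simp [II]
  | insert q s hq ih =>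
    rw [Finset.sum_insert hq, ← ih, ← II_add]
    congr 1
    funext L1 L2 M1 M2
    rw [Finset.sum_insert hq]

open Classical in
lemma II_prod (h1X : ∀ b, 1 ≤ hX b) (h1Y : ∀ b, 1 ≤ hY b)
    (hΛX : ∑' b, ΛX b ≤ 1) (hΛY : ∑' b, ΛY b ≤ 1) (i0 a b a' b' : ℕ)
    (f1 f2 : List BX → ℝ≥0∞) (g1 g2 : List BY → ℝ≥0∞) :
    II ΛX hX ΛY hY i0 a b a' b' (fun L1 L2 M1 M2 => (f1 L1 * f2 L2) * (g1 M1 * g2 M2))
      ≤ ((∑' L1, (if fp hX a L1 then LW ΛX L1 * f1 L1 else 0))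
        * ∑' L2, (if fp hX b L2 then LW ΛX L2 * f2 L2 else 0))
        * ((∑' L1, (if fp hY a' L1 then LW ΛY L1 * g1 L1 else 0))
        * ∑' L2, (if fp hY b' L2 then LW ΛY L2 * g2 L2 else 0)) := by
  calc _ = ∑' L1, ∑' L2, (w2 ΛX hX a i0 b L1 L2 * (f1 L1 * f2 L2)) *
        (∑' M1, ∑' M2, w2 ΛY hY a' i0 b' M1 M2 * (g1 M1 * g2 M2)) := by
        simp only [II]
        refine tsum_congr fun L1 => tsum_congr fun L2 => ?_
        rw [mul_assoc]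
        congr 1
        have e : ∀ M1, ∑' M2, w2 ΛY hY a' i0 b' M1 M2 * (f1 L1 * f2 L2 * (g1 M1 * g2 M2))
            = (f1 L1 * f2 L2) * ∑' M2, w2 ΛY hY a' i0 b' M1 M2 * (g1 M1 * g2 M2) := by
          intro M1
          rw [← ENNReal.tsum_mul_left]
          refine tsum_congr fun M2 => ?_
          ring
        rw [tsum_congr e, ENNReal.tsum_mul_left]
    _ = (∑' L1, ∑' L2, w2 ΛX hX a i0 b L1 L2 * (f1 L1 * f2 L2)) *
        (∑' M1, ∑' M2, w2 ΛY hY a' i0 b' M1 M2 * (g1 M1 * g2 M2)) := by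
        simp_rw [ENNReal.tsum_mul_right]
    _ ≤ _ := mul_le_mul' (sum_w2 ΛX hX h1X hΛX a i0 b f1 f2) (sum_w2 ΛY hY h1Y hΛY a' i0 b' g1 g2)

open Classical in
lemma fpm_le_one (h1X : ∀ b, 1 ≤ hX b) (hΛX : ∑' b, ΛX b ≤ 1) (a : ℕ) :
    (∑' L1, (if fp hX a L1 then LW ΛX L1 * 1 else 0)) ≤ 1 := by
  simp only [mul_one]
  exact sum_FP ΛX hX h1X hΛX a

end func

section win
variable {BX BY G : Type*} [AddCommGroup G]
  (ΛX : BX → ℝ≥0∞) (hX : BX → ℕ) (zX : BX → G) (sX : BX → Set (G × ℕ))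
  (ΛY : BY → ℝ≥0∞) (hY : BY → ℕ) (zY : BY → G) (sY : BY → Set (G × ℕ))

/-- window input, X local (weakest form: all side conditions) -/
def H2 (C : ℝ≥0∞) (us : ℕ → ℝ≥0∞) : Prop :=
  ∀ (s h h' a a' lo hi : ℕ) (E : Finset G) (μ : G → ℝ≥0∞) (M lam : ℝ≥0∞),
    ∑' x, μ x ≤ 1 → (∀ x, μ x ≤ M) → lam ≠ 0 → lam ≠ ⊤ → a ≤ a' → a + s ≤ lo → a' + s ≤ lo →
    hi + s ≤ a + h → hi + s ≤ a' + h' → a + h ≤ a' + h' →
    ∑' x, μ x * Phi ΛX hX zX sX ΛY hY zY sY h h' lo hi a a' (fun L => Dp zX L ∈ E)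
      (fun _ => True) x ≤ C * (lam + M * E.card * us s / lam + us s)

/-- window input, Y local -/
def H3 (C : ℝ≥0∞) (us : ℕ → ℝ≥0∞) : Prop :=
  ∀ (s h h' a a' lo hi : ℕ) (E : Finset G) (μ : G → ℝ≥0∞) (M lam : ℝ≥0∞),
    ∑' x, μ x ≤ 1 → (∀ x, μ x ≤ M) → lam ≠ 0 → lam ≠ ⊤ → a ≤ a' → a + s ≤ lo → a' + s ≤ lo →
    hi + s ≤ a + h → hi + s ≤ a' + h' → a + h ≤ a' + h' →
    ∑' x, μ x * Phi ΛX hX zX sX ΛY hY zY sY h h' lo hi a a' (fun _ => True)
      (fun L => Dp zY L ∈ E) x ≤ C * (lam + M * E.card * us s / lam + us s)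

open Classical in
/-- indicator of one cell -/
noncomputable def cc (SX : List BX → Prop) (SY : List BY → Prop) (PX : List BX → Prop)
    (PY : List BY → Prop) (w : G) (lo hi α α' h h' : ℕ) :
    List BX → List BX → List BY → List BY → ℝ≥0∞ := fun L1 L2 M1 M2 =>
  if (HT hX L1 = α ∧ SX L1) ∧ (HT hX L2 = h ∧ PX L2) ∧ (HT hY M1 = α' ∧ SY M1) ∧
        (HT hY M2 = h' ∧ PY M2) ∧ Con lo hi (TT hX zX sX L2 (Dp zX L1) (HT hX L1))
          (TT hY zY sY M2 (w + Dp zY M1) (HT hY M1)) then 1 else 0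

lemma cc_one (SX : List BX → Prop) (SY : List BY → Prop) (PX : List BX → Prop)
    (PY : List BY → Prop) (w : G) (lo hi α α' h h' : ℕ) (L1 L2 : List BX) (M1 M2 : List BY)
    (hc : (HT hX L1 = α ∧ SX L1) ∧ (HT hX L2 = h ∧ PX L2) ∧ (HT hY M1 = α' ∧ SY M1) ∧
        (HT hY M2 = h' ∧ PY M2) ∧ Con lo hi (TT hX zX sX L2 (Dp zX L1) (HT hX L1))
          (TT hY zY sY M2 (w + Dp zY M1) (HT hY M1))) :
    (1 : ℝ≥0∞) ≤ cc hX zX sX hY zY sY SX SY PX PY w lo hi α α' h h' L1 L2 M1 M2 := by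
  rw [cc, if_pos hc]

theorem cell' (i0 a b a' b' lo hi α α' h h' : ℕ)
    (SX : List BX → Prop) (SY : List BY → Prop) (PX : List BX → Prop) (PY : List BY → Prop) (w : G) :
    II ΛX hX ΛY hY i0 a b a' b' (cc hX zX sX hY zY sY SX SY PX PY w lo hi α α' h h')
      ≤ ∑' x, Mu ΛX hX zX ΛY hY zY a a' α α' SX SY w x *
        Phi ΛX hX zX sX ΛY hY zY sY h h' lo hi α α' PX PY x :=
  cell ΛX hX zX sX ΛY hY zY sY i0 a b a' b' lo hi α α' h h' SX SY PX PY w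

open Classical in
/-- bound of the four-fold sum of one window -/
theorem win_bound (h1X : ∀ b, 1 ≤ hX b) (h1Y : ∀ b, 1 ≤ hY b)
    (hΛX : ∑' b, ΛX b ≤ 1) (hΛY : ∑' b, ΛY b ≤ 1)
    (hUX : ∀ n, U ΛX hX n ≤ 1) (hUY : ∀ n, U ΛY hY n ≤ 1)
    (C : ℝ≥0∞) (us : ℕ → ℝ≥0∞)
    (hH2 : H2 ΛX hX zX sX ΛY hY zY sY C us) (hH3 : H3 ΛX hX zX sX ΛY hY zY sY C us)
    (w : G) (s i0 a b a' b' lo hi : ℕ) (lam u : ℝ≥0∞) (hl0 : lam ≠ 0) (hl1 : lam ≠ ⊤)
    (ha' : a' = a + i0) (hb' : b' = b + i0) (hlo : a + 2 * i0 + s ≤ lo) (hhi : hi + s ≤ a + b)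
    (EX EY : ℕ → Finset G) (SX : List BX → Prop) (SY : List BY → Prop) (MX MY KX KY : ℝ≥0∞)
    (hKX : ∀ h, MX * (EX h).card ≤ KX) (hKY : ∀ h, MY * (EY h).card ≤ KY)
    (hNX : ∑' L, (if fp hX b L ∧ HT hX L ≤ b + i0 ∧ Dp zX L ∉ EX (HT hX L) then LW ΛX L else 0)
      ≤ u)
    (hNY : ∑' L, (if fp hY b' L ∧ HT hY L ≤ b' + i0 ∧ Dp zY L ∉ EY (HT hY L) then LW ΛY L else 0)
      ≤ u)
    (hDX : ∀ h g, ∑' L, (if fp hX a L ∧ HT hX L = h ∧ Dp zX L = g ∧ SX L then LW ΛX L else 0) ≤ MX)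
    (hDY : ∀ h g, ∑' L, (if fp hY a' L ∧ HT hY L = h ∧ Dp zY L = g ∧ SY L then LW ΛY L else 0)
      ≤ MY) (nX nY : ℝ≥0∞)
    (hSX : ∑' L, (if fp hX a L ∧ ¬ SX L then LW ΛX L else 0) ≤ nX)
    (hSY : ∑' L, (if fp hY a' L ∧ ¬ SY L then LW ΛY L else 0) ≤ nY) :
    II ΛX hX ΛY hY i0 a b a' b' (fun L1 L2 M1 M2 =>
        if Con lo hi (TT hX zX sX L2 (Dp zX L1) (HT hX L1))
          (TT hY zY sY M2 (w + Dp zY M1) (HT hY M1)) then 1 else 0)
      ≤ ovm ΛX hX b i0 + ovm ΛY hY b' i0 + nX + nY + u * u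
        + ((i0 + 1) ^ 4 : ℕ) * (C * (lam + KX * us s / lam + us s))
        + ((i0 + 1) ^ 4 : ℕ) * (C * (lam + KY * us s / lam + us s)) := by
  set QQ : Finset (ℕ × ℕ × ℕ × ℕ) := Finset.range (i0 + 1) ×ˢ Finset.range (i0 + 1) ×ˢ
    Finset.range (i0 + 1) ×ˢ Finset.range (i0 + 1) with hQQ
  have hcard : QQ.card = (i0 + 1) ^ 4 := by
    rw [hQQ]; simp only [Finset.card_product, Finset.card_range]; ring
  set c2 : (ℕ × ℕ × ℕ × ℕ) → List BX → List BX → List BY → List BY → ℝ≥0∞ :=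
    fun q => cc hX zX sX hY zY sY SX (fun _ => True) (fun L => Dp zX L ∈ EX (b + q.2.1))
      (fun _ => True) w lo hi (a + q.1) (a' + q.2.2.1) (b + q.2.1) (b' + q.2.2.2) with hc2
  set c3 : (ℕ × ℕ × ℕ × ℕ) → List BX → List BX → List BY → List BY → ℝ≥0∞ :=
    fun q => cc hX zX sX hY zY sY (fun _ => True) SY (fun _ => True)
      (fun L => Dp zY L ∈ EY (b' + q.2.2.2)) w lo hi (a + q.1) (a' + q.2.2.1) (b + q.2.1)
      (b' + q.2.2.2) with hc3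
  have h2 : ∀ q ∈ QQ, II ΛX hX ΛY hY i0 a b a' b' (c2 q)
      ≤ C * (lam + KX * us s / lam + us s) := by
    intro q hq
    simp only [hQQ, Finset.mem_product, Finset.mem_range] at hq
    obtain ⟨hq1, hq2, hq3, hq4⟩ := hq
    refine (cell' ΛX hX zX sX ΛY hY zY sY i0 a b a' b' lo hi (a + q.1) (a' + q.2.2.1)
      (b + q.2.1) (b' + q.2.2.2) SX (fun _ => True) (fun L => Dp zX L ∈ EX (b + q.2.1))
      (fun _ => True) w).trans ?_
    refine (hH2 s (b + q.2.1) (b' + q.2.2.2) (a + q.1) (a' + q.2.2.1) lo hi (EX (b + q.2.1)) _ MX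
      lam (mu_total ΛX hX zX ΛY hY zY hUX hUY _ _ _ _ _ _ _)
      (mu_leX ΛX hX zX ΛY hY zY hUY _ _ _ _ _ _ _ MX (fun y => hDX _ y)) hl0 hl1
      (by omega) (by omega) (by omega) (by omega) (by omega) (by omega)).trans ?_
    gcongr
    exact hKX _
  have h3 : ∀ q ∈ QQ, II ΛX hX ΛY hY i0 a b a' b' (c3 q)
      ≤ C * (lam + KY * us s / lam + us s) := by
    intro q hq
    simp only [hQQ, Finset.mem_product, Finset.mem_range] at hq
    obtain ⟨hq1, hq2, hq3, hq4⟩ := hq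
    refine (cell' ΛX hX zX sX ΛY hY zY sY i0 a b a' b' lo hi (a + q.1) (a' + q.2.2.1)
      (b + q.2.1) (b' + q.2.2.2) (fun _ => True) SY (fun _ => True)
      (fun L => Dp zY L ∈ EY (b' + q.2.2.2)) w).trans ?_
    refine (hH3 s (b + q.2.1) (b' + q.2.2.2) (a + q.1) (a' + q.2.2.1) lo hi (EY (b' + q.2.2.2)) _ MY
      lam (mu_total ΛX hX zX ΛY hY zY hUX hUY _ _ _ _ _ _ _)
      (mu_leY ΛX hX zX ΛY hY zY hUX _ _ _ _ _ _ _ MY (fun y => hDY _ y)) hl0 hl1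
      (by omega) (by omega) (by omega) (by omega) (by omega) (by omega)).trans ?_
    gcongr
    exact hKY _
  -- single walker events
  have oneX : ∀ c : ℕ, (∑' L1, (if fp hX c L1 then LW ΛX L1 * (fun _ => 1) L1 else 0)) ≤ 1 :=
    fun c => fpm_le_one ΛX hX h1X hΛX c
  have oneY : ∀ c : ℕ, (∑' L1, (if fp hY c L1 then LW ΛY L1 * (fun _ => 1) L1 else 0)) ≤ 1 :=
    fun c => fpm_le_one ΛY hY h1Y hΛY c
  have e1 : II ΛX hX ΛY hY i0 a b a' b' (fun _ L2 _ _ =>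
      (1 * (if b + i0 < HT hX L2 then 1 else 0)) * (1 * 1)) ≤ ovm ΛX hX b i0 := by
    refine (II_prod ΛX hX ΛY hY h1X h1Y hΛX hΛY i0 a b a' b' (fun _ => 1)
      (fun L2 => if b + i0 < HT hX L2 then 1 else 0) (fun _ => 1) (fun _ => 1)).trans ?_
    have : (∑' L2, (if fp hX b L2 then LW ΛX L2 * (if b + i0 < HT hX L2 then 1 else 0) else 0))
        = ovm ΛX hX b i0 := by
      refine tsum_congr fun L => ?_
      by_cases h1 : fp hX b L <;> by_cases h2 : b + i0 < HT hX L <;> simp [h1, h2]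
    rw [this]
    calc _ ≤ (1 * ovm ΛX hX b i0) * (1 * 1) :=
          mul_le_mul' (mul_le_mul' (oneX a) le_rfl) (mul_le_mul' (oneY a') (oneY b'))
      _ = _ := by ring
  have e2 : II ΛX hX ΛY hY i0 a b a' b' (fun _ _ _ M2 =>
      (1 * 1) * (1 * (if b' + i0 < HT hY M2 then 1 else 0))) ≤ ovm ΛY hY b' i0 := by
    refine (II_prod ΛX hX ΛY hY h1X h1Y hΛX hΛY i0 a b a' b' (fun _ => 1)
      (fun _ => 1) (fun _ => 1) (fun M2 => if b' + i0 < HT hY M2 then 1 else 0)).trans ?_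
    have : (∑' L2, (if fp hY b' L2 then LW ΛY L2 * (if b' + i0 < HT hY L2 then 1 else 0) else 0))
        = ovm ΛY hY b' i0 := by
      refine tsum_congr fun L => ?_
      by_cases h1 : fp hY b' L <;> by_cases h2 : b' + i0 < HT hY L <;> simp [h1, h2]
    rw [this]
    calc _ ≤ (1 * 1) * (1 * ovm ΛY hY b' i0) :=
          mul_le_mul' (mul_le_mul' (oneX a) (oneX b)) (mul_le_mul' (oneY a') le_rfl)
      _ = _ := by ring
  have e3 : II ΛX hX ΛY hY i0 a b a' b' (fun L1 _ _ _ =>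
      ((if ¬ SX L1 then 1 else 0) * 1) * (1 * 1)) ≤ nX := by
    refine (II_prod ΛX hX ΛY hY h1X h1Y hΛX hΛY i0 a b a' b' (fun L1 => if ¬ SX L1 then 1 else 0)
      (fun _ => 1) (fun _ => 1) (fun _ => 1)).trans ?_
    have : (∑' L2, (if fp hX a L2 then LW ΛX L2 * (if ¬ SX L2 then 1 else 0) else 0))
        = ∑' L, (if fp hX a L ∧ ¬ SX L then LW ΛX L else 0) := by
      refine tsum_congr fun L => ?_
      by_cases h1 : fp hX a L <;> by_cases h2 : SX L <;> simp [h1, h2]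
    rw [this]
    calc _ ≤ (nX * 1) * (1 * 1) :=
          mul_le_mul' (mul_le_mul' hSX (oneX b)) (mul_le_mul' (oneY a') (oneY b'))
      _ = _ := by ring
  have e4 : II ΛX hX ΛY hY i0 a b a' b' (fun _ _ M1 _ =>
      (1 * 1) * ((if ¬ SY M1 then 1 else 0) * 1)) ≤ nY := by
    refine (II_prod ΛX hX ΛY hY h1X h1Y hΛX hΛY i0 a b a' b' (fun _ => 1)
      (fun _ => 1) (fun M1 => if ¬ SY M1 then 1 else 0) (fun _ => 1)).trans ?_
    have : (∑' L2, (if fp hY a' L2 then LW ΛY L2 * (if ¬ SY L2 then 1 else 0) else 0))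
        = ∑' L, (if fp hY a' L ∧ ¬ SY L then LW ΛY L else 0) := by
      refine tsum_congr fun L => ?_
      by_cases h1 : fp hY a' L <;> by_cases h2 : SY L <;> simp [h1, h2]
    rw [this]
    calc _ ≤ (1 * 1) * (nY * 1) :=
          mul_le_mul' (mul_le_mul' (oneX a) (oneX b)) (mul_le_mul' hSY (oneY b'))
      _ = _ := by ring
  have e5 : II ΛX hX ΛY hY i0 a b a' b' (fun _ L2 _ M2 =>
      (1 * (if HT hX L2 ≤ b + i0 ∧ Dp zX L2 ∉ EX (HT hX L2) then 1 else 0)) *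
      (1 * (if HT hY M2 ≤ b' + i0 ∧ Dp zY M2 ∉ EY (HT hY M2) then 1 else 0))) ≤ u * u := by
    refine (II_prod ΛX hX ΛY hY h1X h1Y hΛX hΛY i0 a b a' b' (fun _ => 1)
      (fun L2 => if HT hX L2 ≤ b + i0 ∧ Dp zX L2 ∉ EX (HT hX L2) then 1 else 0) (fun _ => 1)
      (fun M2 => if HT hY M2 ≤ b' + i0 ∧ Dp zY M2 ∉ EY (HT hY M2) then 1 else 0)).trans ?_
    have tX : (∑' L2, (if fp hX b L2 then LW ΛX L2 * (if HT hX L2 ≤ b + i0 ∧
        Dp zX L2 ∉ EX (HT hX L2) then 1 else 0) else 0)) ≤ u := by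
      refine le_trans (le_of_eq ?_) hNX
      refine tsum_congr fun L => ?_
      by_cases h1 : fp hX b L <;>
        by_cases h2 : HT hX L ≤ b + i0 ∧ Dp zX L ∉ EX (HT hX L) <;> simp [h1, h2]
    have tY : (∑' L2, (if fp hY b' L2 then LW ΛY L2 * (if HT hY L2 ≤ b' + i0 ∧
        Dp zY L2 ∉ EY (HT hY L2) then 1 else 0) else 0)) ≤ u := by
      refine le_trans (le_of_eq ?_) hNY
      refine tsum_congr fun L => ?_
      by_cases h1 : fp hY b' L <;>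
        by_cases h2 : HT hY L ≤ b' + i0 ∧ Dp zY L ∉ EY (HT hY L) <;> simp [h1, h2]
    calc _ ≤ (1 * u) * (1 * u) :=
          mul_le_mul' (mul_le_mul' (oneX a) tX) (mul_le_mul' (oneY a') tY)
      _ = _ := by ring
  -- pointwise
  have key : II ΛX hX ΛY hY i0 a b a' b' (fun L1 L2 M1 M2 =>
        if Con lo hi (TT hX zX sX L2 (Dp zX L1) (HT hX L1))
          (TT hY zY sY M2 (w + Dp zY M1) (HT hY M1)) then 1 else 0)
      ≤ II ΛX hX ΛY hY i0 a b a' b' (fun L1 L2 M1 M2 =>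
        (((((((1 * (if b + i0 < HT hX L2 then 1 else 0)) * (1 * 1)
        + (1 * 1) * (1 * (if b' + i0 < HT hY M2 then 1 else 0)))
        + ((if ¬ SX L1 then 1 else 0) * 1) * (1 * 1))
        + (1 * 1) * ((if ¬ SY M1 then 1 else 0) * 1))
        + (1 * (if HT hX L2 ≤ b + i0 ∧ Dp zX L2 ∉ EX (HT hX L2) then 1 else 0)) *
      (1 * (if HT hY M2 ≤ b' + i0 ∧ Dp zY M2 ∉ EY (HT hY M2) then 1 else 0)))
        + ∑ q ∈ QQ, c2 q L1 L2 M1 M2) + ∑ q ∈ QQ, c3 q L1 L2 M1 M2)) := by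
    refine II_mono ΛX hX ΛY hY i0 a b a' b' _ _ ?_
    intro L1 L2 M1 M2 f1 l1 f2 f3 l3 f4
    by_cases hC : Con lo hi (TT hX zX sX L2 (Dp zX L1) (HT hX L1))
          (TT hY zY sY M2 (w + Dp zY M1) (HT hY M1))
    swap
    · rw [if_neg hC]; exact zero_le
    rw [if_pos hC]
    have g1 := le_HT_of_fp hX f1
    have g2 := le_HT_of_fp hX f2
    have g3 := le_HT_of_fp hY f3
    have g4 := le_HT_of_fp hY f4
    by_cases k1 : b + i0 < HT hX L2
    · rw [if_pos k1]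
      simp only [mul_one, one_mul]
      rw [add_assoc, add_assoc, add_assoc, add_assoc, add_assoc]
      exact le_self_add
    by_cases k2 : b' + i0 < HT hY M2
    · rw [if_pos k2]
      simp only [mul_one, one_mul]
      rw [add_comm (if b + i0 < HT hX L2 then (1 : ℝ≥0∞) else 0) 1]
      rw [add_assoc, add_assoc, add_assoc, add_assoc, add_assoc]
      exact le_self_add
    by_cases k3 : SX L1
    swap
    · rw [if_pos k3]
      simp only [mul_one, one_mul]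
      rw [add_comm _ (1 : ℝ≥0∞), add_assoc, add_assoc, add_assoc, add_assoc]
      exact le_self_add
    by_cases k4 : SY M1
    swap
    · rw [if_pos k4]
      simp only [mul_one, one_mul]
      rw [add_comm _ (1 : ℝ≥0∞), add_assoc, add_assoc, add_assoc]
      exact le_self_add
    have hq : (HT hX L1 - a, HT hX L2 - b, HT hY M1 - a', HT hY M2 - b') ∈ QQ := by
      simp only [hQQ, Finset.mem_product, Finset.mem_range]
      refine ⟨by omega, by omega, by omega, by omega⟩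
    have r1 : a + (HT hX L1 - a) = HT hX L1 := by omega
    have r2 : b + (HT hX L2 - b) = HT hX L2 := by omega
    have r3 : a' + (HT hY M1 - a') = HT hY M1 := by omega
    have r4 : b' + (HT hY M2 - b') = HT hY M2 := by omega
    by_cases k5 : Dp zX L2 ∈ EX (HT hX L2)
    · refine le_trans ?_ (le_add_right (le_add_left
        (Finset.single_le_sum (f := fun q => c2 q L1 L2 M1 M2) (fun _ _ => zero_le) hq)))
      exact cc_one hX zX sX hY zY sY _ _ _ _ w lo hi _ _ _ _ L1 L2 M1 M2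
        ⟨⟨r1.symm, k3⟩, ⟨r2.symm, by
          show Dp zX L2 ∈ EX (b + (HT hX L2 - b))
          rw [r2]; exact k5⟩, ⟨r3.symm, trivial⟩, ⟨r4.symm, trivial⟩, hC⟩
    by_cases k6 : Dp zY M2 ∈ EY (HT hY M2)
    · refine le_trans ?_ (le_add_left
        (Finset.single_le_sum (f := fun q => c3 q L1 L2 M1 M2) (fun _ _ => zero_le) hq))
      exact cc_one hX zX sX hY zY sY _ _ _ _ w lo hi _ _ _ _ L1 L2 M1 M2
        ⟨⟨r1.symm, trivial⟩, ⟨r2.symm, trivial⟩, ⟨r3.symm, k4⟩, ⟨r4.symm, by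
          show Dp zY M2 ∈ EY (b' + (HT hY M2 - b'))
          rw [r4]; exact k6⟩, hC⟩
    have j1 : HT hX L2 ≤ b + i0 ∧ Dp zX L2 ∉ EX (HT hX L2) := ⟨by omega, k5⟩
    have j2 : HT hY M2 ≤ b' + i0 ∧ Dp zY M2 ∉ EY (HT hY M2) := ⟨by omega, k6⟩
    rw [if_pos j1, if_pos j2]
    simp only [mul_one, one_mul]
    rw [add_comm _ (1 : ℝ≥0∞), add_assoc, add_assoc]
    exact le_self_add
  refine key.trans ?_
  rw [II_add, II_add, II_add, II_add, II_add, II_add, II_sum, II_sum]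
  refine add_le_add (add_le_add (add_le_add (add_le_add (add_le_add (add_le_add e1 e2) e3) e4) e5)
    ?_) ?_
  · refine (Finset.sum_le_card_nsmul QQ _ _ h2).trans ?_
    rw [hcard, nsmul_eq_mul]
  · refine (Finset.sum_le_card_nsmul QQ _ _ h3).trans ?_
    rw [hcard, nsmul_eq_mul]

end win

end Crest.Agent.R154.Asm66
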