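import Crest.Agent.R154.Asm3_678
import Crest.Agent.R154.KU_823

/-! Row 154, ROAD 801 (helper678): assembly, part 4: sum over the windows, order of the constants. -/

set_option autoImplicit false

namespace Crest.Agent.R154.Asm678

open scoped ENNReal Topology
open Filter
open Crest.Agent.R154.B5A Crest.Agent.R154.FP178
open Crest.Agent.R154.Bind12 (TT Dp)

lemma exists_mul_le (A : ℝ≥0∞) (hA : A ≠ ⊤) (ε : ℝ≥0∞) (hε : ε ≠ 0) :
    ∃ x : ℝ≥0∞, x ≠ 0 ∧ x ≠ ⊤ ∧ A * x ≤ ε := by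
  by_cases h0 : A = 0
  · exact ⟨1, one_ne_zero, ENNReal.one_ne_top, by simp [h0]⟩
  · refine ⟨min 1 (ε / A), ?_, ?_, ?_⟩
    · have h1 : ε / A ≠ 0 := by
        rw [Ne, ENNReal.div_eq_zero_iff, not_or]
        exact ⟨hε, hA⟩
      exact (lt_min one_pos (pos_iff_ne_zero.2 h1)).ne'
    · exact ne_top_of_le_ne_top ENNReal.one_ne_top (min_le_left _ _)
    · calc A * min 1 (ε / A) ≤ A * (ε / A) := mul_le_mul_right (min_le_right _ _) _
        _ ≤ ε := ENNReal.mul_div_le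

lemma over_FS {B : Type*} {Λ : B → ℝ≥0∞} {ht : B → ℕ} (h1 : ∀ b, 1 ≤ ht b)
    (hU1 : ∀ n, U Λ ht n ≤ 1) (i a : ℕ) :
    FS Λ ht a (fun A => if a + i < HT ht A then 1 else 0) ≤ ∑' k, tail Λ ht (k + i) := by
  classical
  have h := overshoot Λ ht h1 hU1 i a
  have e : ∑' k, tail Λ ht (i + k) = ∑' k, tail Λ ht (k + i) := tsum_congr fun k => by rw [add_comm]
  rw [← e]
  refine le_trans (le_of_eq ?_) h
  refine tsum_congr fun L => ?_
  by_cases hf : fp ht a L <;> by_cases hg : a + i < HT ht L <;> simp [fw, hf, hg]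

lemma tail_tendsto {B : Type*} {Λ : B → ℝ≥0∞} {ht : B → ℕ} (hΛ : ∑' b, Λ b = 1)
    (hE : ∑' b, Λ b * (ht b : ℝ≥0∞) ≠ ⊤) :
    Tendsto (fun i => ∑' k, tail Λ ht (k + i)) atTop (𝓝 0) :=
  ENNReal.tendsto_sum_nat_add _ (by rw [← sum_tail Λ ht hΛ]; exact hE)

section final

variable {BX BY G : Type*} [AddCommGroup G] {ΛX : BX → ℝ≥0∞} {ΛY : BY → ℝ≥0∞}
  {hX : BX → ℕ} {hY : BY → ℕ} {zX : BX → G} {zY : BY → G}
  {sX : BX → Set (G × ℕ)} {sY : BY → Set (G × ℕ)}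

open Classical in
/-- the windows cover `(m, 2m]` -/
lemma cover (m t K s i0 n : ℕ) (w : G) (ht0 : 1 ≤ t) (hKt : K ≤ t) (htm : t = m / K) (hK : 1 ≤ K) :
    ∑' LX, ∑' LY, (if HT hX LX = n ∧ HT hY LY = n ∧
      (∀ y k, (y, k) ∈ TT sX zX hX LX 0 0 → (y, k) ∈ TT sY zY hY LY w 0 → m < k) ∧
      (∃ y k, (y, k) ∈ TT sX zX hX LX 0 0 ∧ (y, k) ∈ TT sY zY hY LY w 0 ∧ k ≤ 2 * m)
      then LW ΛX LX * LW ΛY LY else 0)
    ≤ ∑ j ∈ Finset.range (K + 1),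
      (∑' LX, ∑' LY, (if HT hX LX = n ∧ HT hY LY = n ∧
      ((∀ y k, (y, k) ∈ TT sX zX hX LX 0 0 → (y, k) ∈ TT sY zY hY LY w 0 → m + j * t + 1 ≤ k) ∧
       (∃ y k, (y, k) ∈ TT sX zX hX LX 0 0 ∧ (y, k) ∈ TT sY zY hY LY w 0 ∧
          k ≤ m + (j + 1) * t) ∧
       (∀ y k, (y, k) ∈ TT sX zX hX LX 0 0 → (y, k) ∈ TT sY zY hY LY w 0 →
          ¬ (m + j * t + 2 * t - s < k ∧ k ≤ m + j * t + 2 * t - s + (s + 2 * i0))))
      then LW ΛX LX * LW ΛY LY else 0)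
      + ∑' LX, ∑' LY, (if HT hX LX = n ∧ HT hY LY = n ∧
        (∃ y k, (m + j * t + 2 * t - s + 1) ≤ k ∧
          k < (m + j * t + 2 * t - s + 1) + (s + 2 * i0) ∧
          (y, k) ∈ TT sX zX hX LX 0 0 ∧ (y, k) ∈ TT sY zY hY LY w 0)
      then LW ΛX LX * LW ΛY LY else 0)) := by
  simp only [← ENNReal.tsum_add]
  rw [← Summable.tsum_finsetSum (fun _ _ => ENNReal.summable)]
  refine ENNReal.tsum_le_tsum fun LX => ?_
  rw [← Summable.tsum_finsetSum (fun _ _ => ENNReal.summable)]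
  refine ENNReal.tsum_le_tsum fun LY => ?_
  by_cases hc : HT hX LX = n ∧ HT hY LY = n ∧
      (∀ y k, (y, k) ∈ TT sX zX hX LX 0 0 → (y, k) ∈ TT sY zY hY LY w 0 → m < k) ∧
      (∃ y k, (y, k) ∈ TT sX zX hX LX 0 0 ∧ (y, k) ∈ TT sY zY hY LY w 0 ∧ k ≤ 2 * m)
  swap
  · rw [if_neg hc]; exact zero_le
  rw [if_pos hc]
  obtain ⟨c1, c2, c3, y1, k1, d1, d2, d3⟩ := hc
  have hP : ∃ k, ∃ y, (y, k) ∈ TT sX zX hX LX 0 0 ∧ (y, k) ∈ TT sY zY hY LY w 0 := ⟨k1, y1, d1, d2⟩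
  obtain ⟨y0, f1, f2⟩ := Nat.find_spec hP
  have hmin : ∀ y k, (y, k) ∈ TT sX zX hX LX 0 0 → (y, k) ∈ TT sY zY hY LY w 0 →
      Nat.find hP ≤ k := fun y k g1 g2 => Nat.find_min' hP ⟨y, g1, g2⟩
  set k0 := Nat.find hP with hk0
  have hk0m : m < k0 := c3 y0 k0 f1 f2
  have hk02 : k0 ≤ 2 * m := (hmin y1 k1 d1 d2).trans d3
  set j := (k0 - m - 1) / t with hj
  have hmK : m < (K + 1) * t := by
    have h1 := Nat.div_add_mod m K
    have h2 := Nat.mod_lt m (by omega : 0 < K)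
    rw [← htm] at h1
    have : (K + 1) * t = K * t + t := by ring
    omega
  have hjK : j < K + 1 := by
    rw [hj, Nat.div_lt_iff_lt_mul (by omega)]
    omega
  have hj1 : j * t ≤ k0 - m - 1 := Nat.div_mul_le_self _ _
  have hj2 : k0 - m - 1 < (j + 1) * t := by
    have := Nat.lt_div_mul_add (a := k0 - m - 1) (by omega : 0 < t)
    rw [← hj] at this
    have e : (j + 1) * t = j * t + t := by ring
    omega
  refine le_trans ?_ (Finset.single_le_sum (f := fun j =>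
    ((if HT hX LX = n ∧ HT hY LY = n ∧
      ((∀ y k, (y, k) ∈ TT sX zX hX LX 0 0 → (y, k) ∈ TT sY zY hY LY w 0 → m + j * t + 1 ≤ k) ∧
       (∃ y k, (y, k) ∈ TT sX zX hX LX 0 0 ∧ (y, k) ∈ TT sY zY hY LY w 0 ∧
          k ≤ m + (j + 1) * t) ∧
       (∀ y k, (y, k) ∈ TT sX zX hX LX 0 0 → (y, k) ∈ TT sY zY hY LY w 0 →
          ¬ (m + j * t + 2 * t - s < k ∧ k ≤ m + j * t + 2 * t - s + (s + 2 * i0))))
      then LW ΛX LX * LW ΛY LY else 0)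
      + (if HT hX LX = n ∧ HT hY LY = n ∧
        (∃ y k, (m + j * t + 2 * t - s + 1) ≤ k ∧
          k < (m + j * t + 2 * t - s + 1) + (s + 2 * i0) ∧
          (y, k) ∈ TT sX zX hX LX 0 0 ∧ (y, k) ∈ TT sY zY hY LY w 0)
      then LW ΛX LX * LW ΛY LY else 0))) (fun _ _ => zero_le) (Finset.mem_range.2 hjK))
  by_cases hs : ∃ y k, (m + j * t + 2 * t - s + 1) ≤ k ∧
          k < (m + j * t + 2 * t - s + 1) + (s + 2 * i0) ∧
          (y, k) ∈ TT sX zX hX LX 0 0 ∧ (y, k) ∈ TT sY zY hY LY w 0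
  · refine le_trans ?_ le_add_self
    rw [if_pos ⟨c1, c2, hs⟩]
  · refine le_trans ?_ le_self_add
    rw [if_pos]
    refine ⟨c1, c2, ?_, ⟨y0, k0, f1, f2, by omega⟩, ?_⟩
    · intro y k g1 g2
      have := hmin y k g1 g2
      omega
    · rintro y k g1 g2 ⟨g3, g4⟩
      exact hs ⟨y, k, by omega, by omega, g1, g2⟩

open Classical in
/-- **KAPPA' for two independent lists of blocks.** -/
theorem kapS (h1X : ∀ b, 1 ≤ hX b) (h1Y : ∀ b, 1 ≤ hY b) (hΛX : ∑' b, ΛX b = 1)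
    (hΛY : ∑' b, ΛY b = 1) (hEX : ∑' b, ΛX b * (hX b : ℝ≥0∞) ≠ ⊤)
    (hEY : ∑' b, ΛY b * (hY b : ℝ≥0∞) ≠ ⊤)
    (hUX : ∀ n, U ΛX hX n ≤ 1) (hUY : ∀ n, U ΛY hY n ≤ 1)
    (dX : ∀ b p, p ∈ sX b → 1 ≤ p.2 ∧ p.2 ≤ hX b) (dY : ∀ b p, p ∈ sY b → 1 ≤ p.2 ∧ p.2 ≤ hY b)
    (C : ℝ≥0∞) (hC : C ≠ ⊤) (us : ℕ → ℝ≥0∞) (hus : Tendsto us atTop (𝓝 0))
    (H2' : H2 ΛX ΛY hX hY zX zY sX sY C us) (H3' : H3 ΛX ΛY hX hY zX zY sX sY C us)
    (H5 : ∀ s : ℕ, ∀ η : ℝ≥0∞, η ≠ 0 → ∃ A : ℕ, ∀ a, A ≤ a → ∀ n, a + s ≤ n → ∀ w : G,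
      ∑' LX, ∑' LY, (if HT hX LX = n ∧ HT hY LY = n ∧
        (∃ y k, a ≤ k ∧ k < a + s ∧
          (y, k) ∈ TT sX zX hX LX 0 0 ∧ (y, k) ∈ TT sY zY hY LY w 0)
      then LW ΛX LX * LW ΛY LY else 0) ≤ η) :
    ∀ ε : ℝ≥0∞, ε ≠ 0 → ∃ M : ℕ, ∀ m, M ≤ m → ∃ n0 : ℕ, ∀ n, n0 ≤ n → ∀ w : G,
      ∑' LX, ∑' LY, (if HT hX LX = n ∧ HT hY LY = n ∧
      (∀ y k, (y, k) ∈ TT sX zX hX LX 0 0 → (y, k) ∈ TT sY zY hY LY w 0 → m < k) ∧
      (∃ y k, (y, k) ∈ TT sX zX hX LX 0 0 ∧ (y, k) ∈ TT sY zY hY LY w 0 ∧ k ≤ 2 * m)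
      then LW ΛX LX * LW ΛY LY else 0) ≤ ε := by
  intro ε hε
  set δ := ε / 12 with hδ
  have hδ0 : δ ≠ 0 := by
    rw [hδ, Ne, ENNReal.div_eq_zero_iff, not_or]
    exact ⟨hε, by norm_num⟩
  obtain ⟨K', u, -, hK'1, h4, hu0, hu1, hA, hB⟩ := KU823.exists_Ku 2 4 (by norm_num) δ hδ0 1
  set J := K' / 4 with hJd
  set K := K' + 1 with hKd
  set N : ℝ≥0∞ := (K' : ℝ≥0∞) + 2 with hN
  have hNtop : N ≠ ⊤ := ENNReal.add_ne_top.2 ⟨ENNReal.natCast_ne_top _, by norm_num⟩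
  have hB' : N * (1 - u) ^ J ≤ δ := by
    refine le_trans (mul_le_mul_right (pow_le_pow_left₀ zero_le ?_ J) N) hB
    exact tsub_le_tsub_left (by
      calc u / 2 ≤ u / 1 := ENNReal.div_le_div_left (by norm_num) u
        _ = u := by simp) 1
  -- i0
  set ef : ℕ → ℝ≥0∞ := fun i => ∑' k, tail ΛX hX (k + i) + ∑' k, tail ΛY hY (k + i) with hef
  have heft : Tendsto ef atTop (𝓝 0) := by
    have := (tail_tendsto hΛX hEX).add (tail_tendsto hΛY hEY)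
    rwa [add_zero] at this
  have hA1 : N * (4 + 2 * J) ≠ ⊤ := ENNReal.mul_ne_top hNtop (ENNReal.add_ne_top.2
    ⟨by norm_num, ENNReal.mul_ne_top (by norm_num) (ENNReal.natCast_ne_top _)⟩)
  obtain ⟨i0, -, hi0⟩ := KU823.exists_small ef heft _ hA1 δ hδ0 0
  have he := hi0 i0 le_rfl
  set e := ef i0 with hedef
  have heX : ∀ a, FS ΛX hX a (fun A => if a + i0 < HT hX A then 1 else 0) ≤ e := fun a =>
    (over_FS h1X hUX i0 a).trans le_self_add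
  have heY : ∀ a, FS ΛY hY a (fun A => if a + i0 < HT hY A then 1 else 0) ≤ e := fun a =>
    (over_FS h1Y hUY i0 a).trans le_add_self
  -- lam
  set A2 : ℝ≥0∞ := N * (2 * (i0 + 1) ^ 3 * C) with hA2
  have hA2top : A2 ≠ ⊤ := ENNReal.mul_ne_top hNtop (ENNReal.mul_ne_top (ENNReal.mul_ne_top
    (by norm_num) (ENNReal.pow_ne_top (ENNReal.add_ne_top.2 ⟨ENNReal.natCast_ne_top _,
      ENNReal.one_ne_top⟩))) hC)
  obtain ⟨lam, hlam0, hlam1, hlam⟩ := exists_mul_le A2 hA2top δ hδ0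
  -- s
  have hA3 : A2 * ((i0 + 1) * J * lam⁻¹ + 1) ≠ ⊤ := ENNReal.mul_ne_top hA2top
    (ENNReal.add_ne_top.2 ⟨ENNReal.mul_ne_top (ENNReal.mul_ne_top (ENNReal.add_ne_top.2
      ⟨ENNReal.natCast_ne_top _, ENNReal.one_ne_top⟩) (ENNReal.natCast_ne_top _))
      (ENNReal.inv_ne_top.2 hlam0), ENNReal.one_ne_top⟩)
  obtain ⟨s, -, hs⟩ := KU823.exists_small us hus _ hA3 δ hδ0 0
  have hs1 := hs s le_rfl
  -- slab
  obtain ⟨η, hη0, -, hη⟩ := exists_mul_le N hNtop δ hδ0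
  obtain ⟨A, hAA⟩ := H5 (s + 2 * i0) η hη0
  refine ⟨K * (K + 3 * i0 + s + A + 1), fun m hm => ⟨20 * m + 20, fun n hn w => ?_⟩⟩
  set t := m / K with htd
  have hK1 : 1 ≤ K := by omega
  have ht : K + 3 * i0 + s + A + 1 ≤ t := by
    rw [htd, Nat.le_div_iff_mul_le (by omega), mul_comm]; exact hm
  have htm : K * t ≤ m := Nat.mul_div_le m K
  have htm2 : t ≤ m := Nat.div_le_self m K
  refine (cover (ΛX := ΛX) (ΛY := ΛY) (sX := sX) (sY := sY) (zX := zX) (zY := zY) m t K s i0 n w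
    (by omega) (by omega) htd hK1).trans ?_
  have hbound : ∀ j ∈ Finset.range (K + 1),
      (∑' LX, ∑' LY, (if HT hX LX = n ∧ HT hY LY = n ∧
      ((∀ y k, (y, k) ∈ TT sX zX hX LX 0 0 → (y, k) ∈ TT sY zY hY LY w 0 → m + j * t + 1 ≤ k) ∧
       (∃ y k, (y, k) ∈ TT sX zX hX LX 0 0 ∧ (y, k) ∈ TT sY zY hY LY w 0 ∧
          k ≤ m + (j + 1) * t) ∧
       (∀ y k, (y, k) ∈ TT sX zX hX LX 0 0 → (y, k) ∈ TT sY zY hY LY w 0 →
          ¬ (m + j * t + 2 * t - s < k ∧ k ≤ m + j * t + 2 * t - s + (s + 2 * i0))))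
      then LW ΛX LX * LW ΛY LY else 0)
      + ∑' LX, ∑' LY, (if HT hX LX = n ∧ HT hY LY = n ∧
        (∃ y k, (m + j * t + 2 * t - s + 1) ≤ k ∧
          k < (m + j * t + 2 * t - s + 1) + (s + 2 * i0) ∧
          (y, k) ∈ TT sX zX hX LX 0 0 ∧ (y, k) ∈ TT sY zY hY LY w 0)
      then LW ΛX LX * LW ΛY LY else 0))
      ≤ (4 * e + u * u + 2 * (((1 - u) ^ J + J * e) + (i0 + 1) ^ 3 *
        (C * (lam + ((i0 + 1) * J) * us s / lam + us s)))) + η := by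
    intro j hj
    have hj' := Finset.mem_range.1 hj
    have hjt : j * t ≤ m := by
      calc j * t ≤ K * t := Nat.mul_le_mul_right t (by omega)
        _ ≤ m := htm
    have hj1t : (j + 1) * t = j * t + t := by ring
    have hJ4 : J * (3 * t + i0) ≤ m + j * t - t := by
      have h1 : J * (3 * t + i0) ≤ J * (4 * t) := Nat.mul_le_mul_left J (by omega)
      have h2 : J * (4 * t) = (J * 4) * t := by ring
      have h3 : J * 4 ≤ K' := Nat.div_mul_le_self K' 4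
      have h4 : (J * 4) * t ≤ K' * t := Nat.mul_le_mul_right t h3
      have h5 : K * t = K' * t + t := by rw [hKd]; ring
      omega
    refine add_le_add ?_ ?_
    · exact window h1X h1Y hΛX hΛY hUX hUY dX dY C us H2' H3' e i0 heX heY u hu0 hu1 lam hlam0
        hlam1 (m + j * t - t) (3 * t) J s (m + j * t + 1) (m + (j + 1) * t)
        (m + j * t + 2 * t - s) (s + 2 * i0) n hJ4 (by omega) (by omega) (by omega) (by omega)
        (by omega) w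
    · exact hAA _ (by omega) n (by omega) w
  refine (Finset.sum_le_sum hbound).trans ?_
  rw [Finset.sum_const, Finset.card_range, nsmul_eq_mul]
  have hcast : ((K + 1 : ℕ) : ℝ≥0∞) = N := by rw [hN, hKd]; push_cast; ring
  rw [hcast]
  have hfinal : N * ((4 * e + u * u + 2 * (((1 - u) ^ J + J * e) + (i0 + 1) ^ 3 *
        (C * (lam + ((i0 + 1) * J) * us s / lam + us s)))) + η)
      = N * u ^ 2 + 2 * (N * (1 - u) ^ J) + N * (4 + 2 * J) * e + A2 * lam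
        + A2 * ((i0 + 1) * J * lam⁻¹ + 1) * us s + N * η := by
    rw [hA2, div_eq_mul_inv]
    ring
  rw [hfinal]
  have hA' : N * u ^ 2 ≤ δ := by
    refine le_trans (le_of_eq ?_) hA
    rw [hN]; norm_num
  calc _ ≤ δ + 2 * δ + δ + δ + δ + δ :=
        add_le_add (add_le_add (add_le_add (add_le_add (add_le_add hA' (mul_le_mul_right hB' 2))
          he) hlam) hs1) hη
    _ = 7 * δ := by ring
    _ ≤ 12 * δ := by gcongr; norm_num
    _ ≤ ε := ENNReal.mul_div_le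

end final

end Crest.Agent.R154.Asm678
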