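import Crest.Agent.R154.Asm3_855

/-! Row 154 (helper855): ROAD 801, assembly: one window. -/

set_option autoImplicit false
set_option linter.unusedVariables false
set_option linter.unusedSectionVars false

namespace Crest.Agent.R154.Asm855

open scoped ENNReal
open B5A

lemma E_compl {B : Type*} (Λ : B → ℝ≥0∞) (ht : B → ℕ) (h1 : ∀ b, 1 ≤ ht b) (hΛ : ∑' b, Λ b = 1)
    (T : ℕ) (p : List B → Prop) (u : ℝ≥0∞) (hu : u ≤ E Λ ht T (fun P => ind (p P))) :
    E Λ ht T (fun P => ind (¬ p P)) ≤ 1 - u := by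
  have h : E Λ ht T (fun P => ind (p P)) + E Λ ht T (fun P => ind (¬ p P)) = 1 := by
    rw [← E_add, ← E_one Λ ht h1 hΛ T]
    refine E_congr _ _ _ fun P _ => ?_
    by_cases hp : p P
    · rw [ind_true hp, ind_false (not_not.2 hp), add_zero]
    · rw [ind_false hp, ind_true hp, zero_add]
  refine ENNReal.le_sub_of_add_le_left (ne_top_of_le_ne_top ENNReal.one_ne_top
    (hu.trans (by rw [← h]; exact le_self_add))) ?_
  rw [← h]
  exact add_le_add_left hu _

variable {BX BY G : Type*} [AddCommGroup G]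
  (ΛX : BX → ℝ≥0∞) (ΛY : BY → ℝ≥0∞) (hX : BX → ℕ) (hY : BY → ℕ) (zX : BX → G) (zY : BY → G)
  (sX : BX → Set (G × ℕ)) (sY : BY → Set (G × ℕ))

/-- the window event -/
def Ev (klo khi a0 lo hi top : ℕ) (w : G) (L : List BX) (L' : List BY) : Prop :=
  (∃ g k, klo < k ∧ k ≤ khi ∧ Ct hX hY zX zY sX sY L L' 0 w 0 0 g k) ∧
    ∀ g k, Ct hX hY zX zY sX sY L L' 0 w 0 0 g k → ¬ (a0 ≤ k ∧ k < lo) ∧ ¬ (hi < k ∧ k ≤ top)

variable (h1X : ∀ b, 1 ≤ hX b) (h1Y : ∀ b, 1 ≤ hY b) (hΛX : ∑' b, ΛX b = 1) (hΛY : ∑' b, ΛY b = 1)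
  (dX : ∀ b y k, (y, k) ∈ sX b → 1 ≤ k ∧ k ≤ hX b)
  (dY : ∀ b y k, (y, k) ∈ sY b → 1 ≤ k ∧ k ≤ hY b)
include h1X h1Y hΛX hΛY dX dY

open Classical in
/-- reduction of one window to the four pieces -/
lemma win_pieces (a a' T T' i0 lo hi n : ℕ) (w : G) (e : ℝ≥0∞)
    (heX : ∑' j, tail ΛX hX (j + i0) ≤ e) (heY : ∑' j, tail ΛY hY (j + i0) ≤ e)
    (haa : a + i0 ≤ a') (hTT : a + T ≤ a' + T') (hnX : a + i0 + T ≤ n) (hnY : a' + i0 + T' ≤ n) :
    ∑' L : List BX, (if HT hX L = n then LW ΛX L * ∑' L' : List BY,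
      (if HT hY L' = n then LW ΛY L' *
        ind (Ev hX hY zX zY sX sY (a' + i0) (a + T) a' lo hi (a + T + 2 * i0) w L L') else 0) else 0)
    ≤ 2 * e + E ΛX hX a (fun A => E ΛY hY a' (fun A' => E ΛX hX T (fun P => E ΛY hY T' (fun P' =>
        ind (((∃ g k, Ct hX hY zX zY sX sY P P' (Dp zX A) (w + Dp zY A') (HT hX A) (HT hY A') g k) ∧
          ∀ g k, Ct hX hY zX zY sX sY P P' (Dp zX A) (w + Dp zY A') (HT hX A) (HT hY A') g k →
            ¬ (a' ≤ k ∧ k < lo) ∧ ¬ (hi < k ∧ k ≤ a + T + 2 * i0)) ∧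
          HT hX A ≤ a + i0 ∧ HT hY A' ≤ a' + i0))))) := by
  set V := Ev hX hY zX zY sX sY (a' + i0) (a + T) a' lo hi (a + T + 2 * i0) w with hV
  -- truncation of the lists
  have tX : ∀ (A R : List BX) (L' : List BY), att hX A (a + i0 + T) → V (A ++ R) L' → V A L' := by
    rintro A R L' hA ⟨⟨g, k, h1, h2, h3, h4⟩, h5⟩
    have hAh := att_le hX A _ hA
    refine ⟨⟨g, k, h1, h2, ?_, h4⟩, fun g' k' h' => h5 g' k' ⟨?_, h'.2⟩⟩
    · rw [Tr_append] at h3
      rcases h3 with h3 | h3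
      · exact h3
      · have := Tr_depth hX zX sX dX R _ g _ k h3; omega
    · rw [Tr_append]; exact Or.inl h'.1
  have tY : ∀ (L : List BX) (A' R' : List BY), att hY A' (a' + i0 + T') → V L (A' ++ R') →
      V L A' := by
    rintro L A' R' hA ⟨⟨g, k, h1, h2, h3, h4⟩, h5⟩
    have hAh := att_le hY A' _ hA
    refine ⟨⟨g, k, h1, h2, h3, ?_⟩, fun g' k' h' => h5 g' k' ⟨h'.1, ?_⟩⟩
    · rw [Tr_append] at h4
      rcases h4 with h4 | h4
      · exact h4
      · have := Tr_depth hY zY sY dY R' _ g _ k h4; omega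
    · rw [Tr_append]; exact Or.inl h'.2
  have s1 : ∑' L : List BX, (if HT hX L = n then LW ΛX L * ∑' L' : List BY,
      (if HT hY L' = n then LW ΛY L' * ind (V L L') else 0) else 0)
      ≤ E ΛX hX (a + i0 + T) (fun L => E ΛY hY (a' + i0 + T') (fun L' => ind (V L L'))) := by
    refine (ENNReal.tsum_le_tsum (g := fun L => if HT hX L = n then LW ΛX L *
      E ΛY hY (a' + i0 + T') (fun L' => ind (V L L')) else 0) fun L => ?_).trans ?_
    · by_cases h : HT hX L = n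
      · rw [if_pos h, if_pos h]
        refine mul_le_mul_right ?_ _
        exact HT_le_E ΛY hY h1Y hΛY _ n hnY (fun L' => ind (V L L')) (fun L' => ind (V L L'))
          fun A R hA => ind_mono (tY L A R hA)
      · rw [if_neg h, if_neg h]
    · refine HT_le_E ΛX hX h1X hΛX _ n hnX (fun L => E ΛY hY (a' + i0 + T')
        (fun L' => ind (V L L'))) _ fun A R hA => ?_
      exact E_mono _ _ _ fun L' _ => ind_mono (tX A R L' hA)
  refine s1.trans ?_
  -- X in two steps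
  set V1 : List BX → List BX → List BY → Prop := fun A P L' =>
    ((∃ g k, a' + i0 < k ∧ k ≤ a + T ∧ (g, k) ∈ Tr hX zX sX P (Dp zX A) (HT hX A) ∧
        (g, k) ∈ Tr hY zY sY L' w 0) ∧
      ∀ g k, (g, k) ∈ Tr hX zX sX P (Dp zX A) (HT hX A) → (g, k) ∈ Tr hY zY sY L' w 0 →
        ¬ (a' ≤ k ∧ k < lo) ∧ ¬ (hi < k ∧ k ≤ a + T + 2 * i0)) ∧ HT hX A ≤ a + i0 with hV1
  have s2 := two_step ΛX hX h1X hΛX a T i0 (a + i0 + T) le_rfl e heX
    (fun L => E ΛY hY (a' + i0 + T') (fun L' => ind (V L L')))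
    (fun L => E_le_const ΛY hY h1Y hΛY _ 1 _ fun _ _ => ind_le_one _)
    (fun A P => E ΛY hY (a' + i0 + T') (fun L' => ind (V1 A P L'))) (by
      intro A P Q hA hP hAi
      refine E_mono _ _ _ fun L' _ => ind_mono ?_
      have hTP := att_le hX P _ hP
      have hAh := att_le hX A _ hA
      rintro ⟨⟨g, k, h1, h2, h3, h4⟩, h5⟩
      refine ⟨⟨⟨g, k, h1, h2, ?_, h4⟩, fun g' k' h' h'' => h5 g' k' ⟨?_, h''⟩⟩, hAi⟩
      · rw [Tr_append, Tr_append, zero_add, zero_add] at h3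
        rcases h3 with h3 | h3 | h3
        · have := Tr_depth hX zX sX dX A _ g _ k h3; omega
        · exact h3
        · have := Tr_depth hX zX sX dX Q _ g _ k h3; omega
      · rw [Tr_append, Tr_append, zero_add, zero_add]; exact Or.inr (Or.inl h'))
  refine s2.trans ?_
  -- Y in two steps
  set V2 : List BX → List BX → List BY → List BY → Prop := fun A P A' P' =>
    ((∃ g k, Ct hX hY zX zY sX sY P P' (Dp zX A) (w + Dp zY A') (HT hX A) (HT hY A') g k) ∧
      ∀ g k, Ct hX hY zX zY sX sY P P' (Dp zX A) (w + Dp zY A') (HT hX A) (HT hY A') g k →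
        ¬ (a' ≤ k ∧ k < lo) ∧ ¬ (hi < k ∧ k ≤ a + T + 2 * i0)) ∧
      HT hX A ≤ a + i0 ∧ HT hY A' ≤ a' + i0 with hV2
  have s3 : ∀ A P, E ΛY hY (a' + i0 + T') (fun L' => ind (V1 A P L'))
      ≤ e + E ΛY hY a' (fun A' => E ΛY hY T' (fun P' => ind (V2 A P A' P'))) := by
    intro A P
    refine two_step ΛY hY h1Y hΛY a' T' i0 (a' + i0 + T') le_rfl e heY
      (fun L' => ind (V1 A P L')) (fun _ => ind_le_one _) (fun A' P' => ind (V2 A P A' P')) ?_
    intro A' P' Q hA hP hAi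
    refine ind_mono ?_
    have hTP := att_le hY P' _ hP
    have hAh := att_le hY A' _ hA
    rintro ⟨⟨⟨g, k, h1, h2, h3, h4⟩, h5⟩, h6⟩
    refine ⟨⟨⟨g, k, h3, ?_⟩, fun g' k' h' => h5 g' k' h'.1 ?_⟩, h6, hAi⟩
    · rw [Tr_append, Tr_append, zero_add] at h4
      rcases h4 with h4 | h4 | h4
      · have := Tr_depth hY zY sY dY A' _ g _ k h4; omega
      · exact h4
      · have := Tr_depth hY zY sY dY Q _ g _ k h4; omega
    · rw [Tr_append, Tr_append, zero_add]; exact Or.inr (Or.inl h'.2)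
  have s4 : E ΛX hX a (fun A => E ΛX hX T (fun P =>
      E ΛY hY (a' + i0 + T') (fun L' => ind (V1 A P L'))))
      ≤ e + E ΛX hX a (fun A => E ΛY hY a' (fun A' => E ΛX hX T (fun P => E ΛY hY T'
        (fun P' => ind (V2 A P A' P'))))) := by
    calc _ ≤ E ΛX hX a (fun A => E ΛX hX T (fun P => e + E ΛY hY a' (fun A' =>
          E ΛY hY T' (fun P' => ind (V2 A P A' P'))))) :=
          E_mono _ _ _ fun A _ => E_mono _ _ _ fun P _ => s3 A P
      _ = _ := by
          simp only [E_add, E_const ΛX hX h1X hΛX]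
          congr 1
          refine E_congr _ _ _ fun A _ => ?_
          exact E_comm ΛX hX ΛY hY T a' (fun P A' => E ΛY hY T' (fun P' => ind (V2 A P A' P')))
  calc _ ≤ e + (e + _) := add_le_add_right s4 _
    _ = _ := by rw [← add_assoc, two_mul]

end Crest.Agent.R154.Asm855
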