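import Crest.Agent.R154.Asm3_958

/-! Row 154, ROAD 801, assembly (helper958), part 4: quantile, one window. -/

set_option autoImplicit false

namespace Crest.Agent.R154.Asm958

open Crest.Agent.R154.B5A Crest.Agent.R154.FP178
open scoped ENNReal

lemma le_pm {A S : Type*} (q : A → ℝ≥0∞) (v : A → S) (a : A) : q a ≤ pm q v (v a) := by
  classical
  rw [pm]
  calc q a = (if v a = v a then q a else 0) := by rw [if_pos rfl]
    _ ≤ _ := ENNReal.le_tsum (f := fun a' => if v a' = v a then q a' else 0) a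

lemma pm_le_one {A S : Type*} (q : A → ℝ≥0∞) (hq : ∑' a, q a ≤ 1) (v : A → S) (x : S) :
    pm q v x ≤ 1 := by
  classical
  refine le_trans (ENNReal.tsum_le_tsum fun a => ?_) hq
  split_ifs <;> simp

open Classical in
/-- quantile of the density -/
lemma quantile {A S : Type*} (q : A → ℝ≥0∞) (hq : ∑' a, q a ≤ 1) (v : A → S) (u : ℝ≥0∞)
    (hu : u ≠ 0) :
    ∃ θ : ℝ≥0∞, θ ≠ 0 ∧ θ ≠ ⊤ ∧ ∑' a, (if pm q v (v a) < θ then q a else 0) ≤ u ∧
      ∑' a, (if ¬ pm q v (v a) ≤ 2 * θ then q a else 0) ≤ 1 - u := by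
  set F : ℕ → ℝ≥0∞ := fun i => ∑' a, (if pm q v (v a) < 2⁻¹ ^ i then q a else 0) with hF
  have hQ : ∑' a, q a ≠ ⊤ := ne_top_of_le_ne_top ENNReal.one_ne_top hq
  have hex : ∃ i, F i ≤ u := by
    by_cases hQu : ∑' a, q a ≤ u
    · refine ⟨0, le_trans (ENNReal.tsum_le_tsum fun a => ?_) hQu⟩
      split_ifs <;> simp
    · rw [not_le] at hQu
      have h1 : ∑' a, q a - u < ∑' a, q a :=
        ENNReal.sub_lt_self hQ (ne_of_gt (lt_of_le_of_lt zero_le hQu)) hu
      rw [ENNReal.tsum_eq_iSup_sum (f := q)] at h1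
      obtain ⟨S, hS⟩ := lt_iSup_iff.1 h1
      rw [← ENNReal.tsum_eq_iSup_sum (f := q)] at hS
      have hi : ∀ a, ∃ i : ℕ, q a ≠ 0 → (2⁻¹ : ℝ≥0∞) ^ i ≤ q a := by
        intro a
        by_cases h : q a = 0
        · exact ⟨0, fun h' => absurd h h'⟩
        · obtain ⟨i, hi⟩ := ENNReal.exists_inv_two_pow_lt h
          exact ⟨i, fun _ => hi.le⟩
      choose ia hia using hi
      refine ⟨S.sup ia, ?_⟩
      have hmono : ∀ a ∈ S, (2⁻¹ : ℝ≥0∞) ^ (S.sup ia) ≤ 2⁻¹ ^ (ia a) := by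
        intro a ha
        exact pow_le_pow_of_le_one zero_le (by simp) (Finset.le_sup ha)
      have hsum : F (S.sup ia) + ∑ a ∈ S, q a ≤ ∑' a, q a := by
        have e : ∑ a ∈ S, q a = ∑' a, (if a ∈ S then q a else 0) := by
          rw [tsum_eq_sum (s := S) (fun a ha => if_neg ha)]
          exact Finset.sum_congr rfl fun a ha => (if_pos ha).symm
        rw [e, hF]
        simp only
        rw [← ENNReal.tsum_add]
        refine ENNReal.tsum_le_tsum fun a => ?_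
        by_cases ha : a ∈ S
        · by_cases h0 : q a = 0
          · simp [h0]
          · rw [if_neg, zero_add, if_pos ha]
            rw [not_lt]
            exact (hmono a ha).trans ((hia a h0).trans (le_pm q v a))
        · rw [if_neg ha, add_zero]
          split_ifs <;> simp
      have hSt : ∑ a ∈ S, q a ≠ ⊤ :=
        ne_top_of_le_ne_top hQ (ENNReal.sum_le_tsum S)
      have h2 : ∑' a, q a ≤ u + ∑ a ∈ S, q a := by
        have := tsub_le_iff_left.1 hS.le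
        exact this
      exact (ENNReal.add_le_add_iff_right hSt).1 (hsum.trans h2)
  set i := Nat.find hex with hi
  have hi1 : F i ≤ u := Nat.find_spec hex
  refine ⟨2⁻¹ ^ i, by simp, ENNReal.pow_ne_top (by simp), hi1, ?_⟩
  rcases Nat.eq_zero_or_pos i with h0 | hpos
  · have : ∀ a, (if ¬ pm q v (v a) ≤ 2 * 2⁻¹ ^ i then q a else 0) = 0 := by
      intro a
      rw [if_neg]
      rw [not_not, h0, pow_zero, mul_one]
      exact (pm_le_one q hq v _).trans (by norm_num)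
    rw [tsum_congr this, tsum_zero]
    exact zero_le
  · obtain ⟨k, hk⟩ : ∃ k, i = k + 1 := ⟨i - 1, by omega⟩
    have hFk : u < F k := by
      by_contra hcon
      rw [not_lt] at hcon
      have := Nat.find_min hex (m := k) (by omega)
      exact this hcon
    have e2 : (2 : ℝ≥0∞) * 2⁻¹ ^ i = 2⁻¹ ^ k := by
      rw [hk, pow_succ, mul_comm (2⁻¹ ^ k) 2⁻¹, ← mul_assoc,
        ENNReal.mul_inv_cancel (by norm_num) (by norm_num), one_mul]
    rw [e2]
    have hs : ∑' a, (if ¬ pm q v (v a) ≤ 2⁻¹ ^ k then q a else 0) + F k ≤ 1 := by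
      rw [hF]
      simp only
      rw [← ENNReal.tsum_add]
      refine le_trans (ENNReal.tsum_le_tsum fun a => ?_) hq
      by_cases h : pm q v (v a) ≤ 2⁻¹ ^ k
      · rw [if_neg (not_not.2 h), zero_add]
        split_ifs <;> simp
      · rw [if_pos h, if_neg (fun h' => h h'.le), add_zero]
    have hut : u ≠ ⊤ := ne_top_of_lt hFk
    exact ENNReal.le_sub_of_add_le_right hut (le_trans (by gcongr) hs)

lemma five (x1 x2 x3 x4 x5 : ℝ≥0∞) : x1 ≤ x1 + x2 + x3 + x4 + x5 ∧ x2 ≤ x1 + x2 + x3 + x4 + x5 ∧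
    x3 ≤ x1 + x2 + x3 + x4 + x5 ∧ x4 ≤ x1 + x2 + x3 + x4 + x5 ∧ x5 ≤ x1 + x2 + x3 + x4 + x5 := by
  have a2 : x1 + x2 ≤ x1 + x2 + x3 + x4 + x5 :=
    le_trans (le_trans (le_self_add (a := x1 + x2) (b := x3)) le_self_add) le_self_add
  have a3 : x1 + x2 + x3 ≤ x1 + x2 + x3 + x4 + x5 := le_trans le_self_add le_self_add
  have a4 : x1 + x2 + x3 + x4 ≤ x1 + x2 + x3 + x4 + x5 := le_self_add
  exact ⟨le_trans le_self_add a2, le_trans le_add_self a2, le_trans le_add_self a3,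
    le_trans le_add_self a4, le_add_self⟩

section win

variable {BX BY G : Type*} [AddCommGroup G]
variable (ΛX : BX → ℝ≥0∞) (hX : BX → ℕ) (zX : BX → G) (sX : BX → Set (G × ℕ))
variable (ΛY : BY → ℝ≥0∞) (hY : BY → ℕ) (zY : BY → G) (sY : BY → Set (G × ℕ))

/-- four-fold sum -/
noncomputable def Q4 (T i0 j : ℕ) (F : List (List BX) → List BX → List (List BY) → List BY → ℝ≥0∞) :
    ℝ≥0∞ :=
  ∑' P, ∑' a, ∑' P', ∑' a', (wl (PW ΛX hX T i0) j P * PW ΛX hX T i0 a) *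
    (wl (PW ΛY hY T i0) j P' * PW ΛY hY T i0 a') * F P a P' a'

lemma Q4_mono (T i0 j : ℕ) {F F' : List (List BX) → List BX → List (List BY) → List BY → ℝ≥0∞}
    (h : ∀ P a P' a', F P a P' a' ≤ F' P a P' a') :
    Q4 ΛX hX ΛY hY T i0 j F ≤ Q4 ΛX hX ΛY hY T i0 j F' :=
  ENNReal.tsum_le_tsum fun _ => ENNReal.tsum_le_tsum fun _ => ENNReal.tsum_le_tsum fun _ =>
    ENNReal.tsum_le_tsum fun _ => mul_le_mul_right (h _ _ _ _) _

lemma Q4_add (T i0 j : ℕ) (F F' : List (List BX) → List BX → List (List BY) → List BY → ℝ≥0∞) :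
    Q4 ΛX hX ΛY hY T i0 j (fun P a P' a' => F P a P' a' + F' P a P' a')
      = Q4 ΛX hX ΛY hY T i0 j F + Q4 ΛX hX ΛY hY T i0 j F' := by
  simp only [Q4, mul_add, ENNReal.tsum_add]

lemma Q4_prod (T i0 j : ℕ) (f1 : List (List BX) → ℝ≥0∞) (f2 : List BX → ℝ≥0∞)
    (f3 : List (List BY) → ℝ≥0∞) (f4 : List BY → ℝ≥0∞) :
    Q4 ΛX hX ΛY hY T i0 j (fun P a P' a' => f1 P * f2 a * (f3 P' * f4 a'))
      = (∑' P, wl (PW ΛX hX T i0) j P * f1 P) * (∑' a, PW ΛX hX T i0 a * f2 a) *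
        ((∑' P, wl (PW ΛY hY T i0) j P * f3 P) * (∑' a, PW ΛY hY T i0 a * f4 a)) := by
  simp only [Q4]
  have e : ∀ P a P' a', (wl (PW ΛX hX T i0) j P * PW ΛX hX T i0 a) *
    (wl (PW ΛY hY T i0) j P' * PW ΛY hY T i0 a') * (f1 P * f2 a * (f3 P' * f4 a'))
      = (wl (PW ΛX hX T i0) j P * f1 P) * (PW ΛX hX T i0 a * f2 a) *
        ((wl (PW ΛY hY T i0) j P' * f3 P') * (PW ΛY hY T i0 a' * f4 a')) := by
    intro P a P' a'; ring
  simp_rw [e, ENNReal.tsum_mul_left, ENNReal.tsum_mul_right, ENNReal.tsum_mul_left]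
  simp_rw [ENNReal.tsum_mul_right]

open Classical in
theorem window (T i0 : ℕ) (hqX : ∑' a, PW ΛX hX T i0 a ≤ 1) (hqY : ∑' a, PW ΛY hY T i0 a ≤ 1)
    (C0 : ℝ≥0∞) (us : ℕ → ℝ≥0∞) (h2 : H2 ΛX hX zX sX ΛY hY zY sY C0 us)
    (h3 : H3 ΛX hX zX sX ΛY hY zY sY C0 us) (u : ℝ≥0∞) (hu : u ≠ 0)
    (lam : ℝ≥0∞) (hl : lam ≠ 0) (hl' : lam ≠ ⊤)
    (s j lo hi : ℕ) (hlo : j * T + j * i0 + s ≤ lo) (hhi : hi + s ≤ j * T + T) (w : G) :
    Q4 ΛX hX ΛY hY T i0 j (fun P a P' a' =>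
        II hX zX sX hY zY sY lo hi (P.map (vv hX zX)).sum.1 (P'.map (vv hY zY)).sum.1
          (w + (P'.map (vv hY zY)).sum.2 - (P.map (vv hX zX)).sum.2) a a')
      ≤ u * u + (1 - u) ^ j + (1 - u) ^ j + LB C0 us lam s j i0 + LB C0 us lam s j i0 := by
  obtain ⟨θ, hθ, hθ', hX1, hX2⟩ := quantile (PW ΛX hX T i0) hqX (vv hX zX) u hu
  obtain ⟨φ, hφ, hφ', hY1, hY2⟩ := quantile (PW ΛY hY T i0) hqY (vv hY zY) u hu
  set nX : List BX → ℝ≥0∞ := fun a =>
    if pm (PW ΛX hX T i0) (vv hX zX) (vv hX zX a) < θ then 1 else 0 with hnX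
  set nY : List BY → ℝ≥0∞ := fun a =>
    if pm (PW ΛY hY T i0) (vv hY zY) (vv hY zY a) < φ then 1 else 0 with hnY
  set NLX : List (List BX) → ℝ≥0∞ := fun P =>
    if ∀ a ∈ P, ¬ pm (PW ΛX hX T i0) (vv hX zX) (vv hX zX a) ≤ 2 * θ then 1 else 0 with hNLX
  set NLY : List (List BY) → ℝ≥0∞ := fun P =>
    if ∀ a ∈ P, ¬ pm (PW ΛY hY T i0) (vv hY zY) (vv hY zY a) ≤ 2 * φ then 1 else 0 with hNLY
  set I : List (List BX) → List BX → List (List BY) → List BY → ℝ≥0∞ := fun P a P' a' =>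
    II hX zX sX hY zY sY lo hi (P.map (vv hX zX)).sum.1 (P'.map (vv hY zY)).sum.1
          (w + (P'.map (vv hY zY)).sum.2 - (P.map (vv hX zX)).sum.2) a a' with hI
  have hI1 : ∀ P a P' a', I P a P' a' ≤ 1 := by
    intro P a P' a'
    rw [hI]
    simp only [II]
    split_ifs <;> simp
  have key : ∀ P a P' a', I P a P' a' ≤
      1 * nX a * (1 * nY a') + NLX P * 1 * (1 * 1) + 1 * 1 * (NLY P' * 1)
      + lowI ΛX hX zX T i0 θ P * (locI ΛX hX zX T i0 θ a * I P a P' a')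
      + lowI ΛY hY zY T i0 φ P' * (locI ΛY hY zY T i0 φ a' * I P a P' a') := by
    intro P a P' a'
    obtain ⟨f1, f2, f3, f4, f5⟩ := five (1 * nX a * (1 * nY a')) (NLX P * 1 * (1 * 1))
      (1 * 1 * (NLY P' * 1)) (lowI ΛX hX zX T i0 θ P * (locI ΛX hX zX T i0 θ a * I P a P' a'))
      (lowI ΛY hY zY T i0 φ P' * (locI ΛY hY zY T i0 φ a' * I P a P' a'))
    by_cases ha : pm (PW ΛX hX T i0) (vv hX zX) (vv hX zX a) < θ
    · by_cases ha' : pm (PW ΛY hY T i0) (vv hY zY) (vv hY zY a') < φ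
      · refine le_trans ?_ f1
        have : (1 : ℝ≥0∞) * nX a * (1 * nY a') = 1 := by
          rw [hnX, hnY]; simp only [if_pos ha, if_pos ha', mul_one]
        rw [this]
        exact hI1 P a P' a'
      · have hloc : locI ΛY hY zY T i0 φ a' = 1 := by rw [locI, if_pos (not_lt.1 ha')]
        by_cases hlow : ∃ a ∈ P', pm (PW ΛY hY T i0) (vv hY zY) (vv hY zY a) ≤ 2 * φ
        · refine le_trans ?_ f5
          have : lowI ΛY hY zY T i0 φ P' = 1 := by rw [lowI, if_pos hlow]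
          rw [this, hloc, one_mul, one_mul]
        · refine le_trans ?_ f3
          have : NLY P' = 1 := by
            rw [hNLY]
            simp only
            rw [if_pos]
            intro b hb hb'
            exact hlow ⟨b, hb, hb'⟩
          rw [this]
          simpa using hI1 P a P' a'
    · have hloc : locI ΛX hX zX T i0 θ a = 1 := by rw [locI, if_pos (not_lt.1 ha)]
      by_cases hlow : ∃ a ∈ P, pm (PW ΛX hX T i0) (vv hX zX) (vv hX zX a) ≤ 2 * θ
      · refine le_trans ?_ f4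
        have : lowI ΛX hX zX T i0 θ P = 1 := by rw [lowI, if_pos hlow]
        rw [this, hloc, one_mul, one_mul]
      · refine le_trans ?_ f2
        have : NLX P = 1 := by
          rw [hNLX]
          simp only
          rw [if_pos]
          intro b hb hb'
          exact hlow ⟨b, hb, hb'⟩
        rw [this]
        simpa using hI1 P a P' a'
  refine le_trans (Q4_mono ΛX hX ΛY hY T i0 j key) ?_
  rw [Q4_add, Q4_add, Q4_add, Q4_add]
  have one1 : ∑' P, wl (PW ΛX hX T i0) j P * 1 ≤ 1 := by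
    simpa using sum_wl_le (PW ΛX hX T i0) hqX j
  have one2 : ∑' P, wl (PW ΛY hY T i0) j P * 1 ≤ 1 := by
    simpa using sum_wl_le (PW ΛY hY T i0) hqY j
  have one3 : ∑' a, PW ΛX hX T i0 a * 1 ≤ 1 := by simpa using hqX
  have one4 : ∑' a, PW ΛY hY T i0 a * 1 ≤ 1 := by simpa using hqY
  refine add_le_add (add_le_add (add_le_add (add_le_add ?_ ?_) ?_) ?_) ?_
  · rw [Q4_prod ΛX hX ΛY hY T i0 j (fun _ => 1) nX (fun _ => 1) nY]
    have hx : ∑' a, PW ΛX hX T i0 a * nX a ≤ u := by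
      refine le_trans (le_of_eq (tsum_congr fun a => ?_)) hX1
      rw [hnX]; simp only; split_ifs <;> simp
    have hy : ∑' a, PW ΛY hY T i0 a * nY a ≤ u := by
      refine le_trans (le_of_eq (tsum_congr fun a => ?_)) hY1
      rw [hnY]; simp only; split_ifs <;> simp
    calc _ ≤ 1 * u * (1 * u) := mul_le_mul' (mul_le_mul' one1 hx) (mul_le_mul' one2 hy)
      _ = u * u := by rw [one_mul]
  · rw [Q4_prod ΛX hX ΛY hY T i0 j NLX (fun _ => 1) (fun _ => 1) (fun _ => 1)]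
    have hx : ∑' P, wl (PW ΛX hX T i0) j P * NLX P ≤ (1 - u) ^ j := by
      rw [← SL_eq_wl, hNLX, SL_all]
      exact pow_le_pow_left₀ zero_le hX2 j
    calc _ ≤ (1 - u) ^ j * 1 * (1 * 1) := mul_le_mul' (mul_le_mul' hx one3) (mul_le_mul' one2 one4)
      _ = _ := by simp
  · rw [Q4_prod ΛX hX ΛY hY T i0 j (fun _ => 1) (fun _ => 1) NLY (fun _ => 1)]
    have hy : ∑' P, wl (PW ΛY hY T i0) j P * NLY P ≤ (1 - u) ^ j := by
      rw [← SL_eq_wl, hNLY, SL_all]
      exact pow_le_pow_left₀ zero_le hY2 j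
    calc _ ≤ 1 * 1 * ((1 - u) ^ j * 1) := mul_le_mul' (mul_le_mul' one1 one3) (mul_le_mul' hy one4)
      _ = _ := by simp
  · refine le_trans (le_of_eq ?_) (local_X ΛX hX zX sX ΛY hY zY sY T i0 hqX hqY C0 us h2 θ hθ hθ'
      lam hl hl' s j lo hi hlo hhi w)
    rw [Q4]
    refine tsum_congr fun P => ?_
    rw [ENNReal.tsum_comm]
    refine tsum_congr fun P' => ?_
    simp_rw [← ENNReal.tsum_mul_left]
    refine tsum_congr fun a => tsum_congr fun a' => ?_
    ring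
  · refine le_trans (le_of_eq ?_) (local_Y ΛX hX zX sX ΛY hY zY sY T i0 hqX hqY C0 us h3 φ hφ hφ'
      lam hl hl' s j lo hi hlo hhi w)
    rw [Q4]
    refine tsum_congr fun P => ?_
    rw [ENNReal.tsum_comm]
    refine tsum_congr fun P' => ?_
    simp_rw [← ENNReal.tsum_mul_left]
    refine tsum_congr fun a => tsum_congr fun a' => ?_
    ring

end win

end Crest.Agent.R154.Asm958
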