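import Crest.Agent.R154.Asm4_214

/-! Row 154, ROAD 801, abstract assembly, part 5 (helper214): sum over the windows, constants. -/

set_option autoImplicit false

namespace Crest.Agent.R154.Asm214

open scoped ENNReal Classical Topology
open Crest.Agent.R154.B5A
open Crest.Agent.R154.FP178
open Crest.Agent.R154.KWB419 (TT)

lemma small (K η : ℝ≥0∞) (hK : K ≠ ⊤) (hη : η ≠ 0) : ∃ δ : ℝ≥0∞, δ ≠ 0 ∧ δ ≠ ⊤ ∧
    ∀ x ≤ δ, K * x ≤ η := by
  refine ⟨min (η / (K + 1)) 1, ?_, ?_, fun x hx => ?_⟩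
  · have h1 : η / (K + 1) ≠ 0 := by
      rw [Ne, ENNReal.div_eq_zero_iff]
      push Not
      exact ⟨hη, ENNReal.add_ne_top.2 ⟨hK, ENNReal.one_ne_top⟩⟩
    have : 0 < min (η / (K + 1)) 1 := lt_min (pos_iff_ne_zero.2 h1) one_pos
    exact this.ne'
  · exact ne_top_of_le_ne_top ENNReal.one_ne_top (min_le_right _ _)
  · have h2 : x ≤ η / (K + 1) := hx.trans (min_le_left _ _)
    calc K * x ≤ (K + 1) * (η / (K + 1)) := mul_le_mul' le_self_add h2
      _ = η := ENNReal.mul_div_cancel (by simp) (ENNReal.add_ne_top.2 ⟨hK, ENNReal.one_ne_top⟩)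

section five

variable {BX BY G : Type*} [AddCommGroup G]
  (ΛX : BX → ℝ≥0∞) (hX : BX → ℕ) (zX : BX → G) (sX : BX → Set (G × ℕ))
  (ΛY : BY → ℝ≥0∞) (hY : BY → ℕ) (zY : BY → G) (sY : BY → Set (G × ℕ))

lemma S_add {B : Type*} (Λ : B → ℝ≥0∞) (ht : B → ℕ) (n : ℕ) (f g : List B → ℝ≥0∞) :
    S Λ ht n (fun L => f L + g L) = S Λ ht n f + S Λ ht n g := by
  rw [S, S, S, ← ENNReal.tsum_add]
  refine tsum_congr fun L => ?_
  by_cases hL : HT ht L = n <;> simp [hL, mul_add]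

lemma S_zero {B : Type*} (Λ : B → ℝ≥0∞) (ht : B → ℕ) (n : ℕ) :
    S Λ ht n (fun _ => 0) = 0 := by simp [S]

lemma S_sum {B ι : Type*} (Λ : B → ℝ≥0∞) (ht : B → ℕ) (n : ℕ) (s : Finset ι)
    (f : ι → List B → ℝ≥0∞) :
    S Λ ht n (fun L => ∑ i ∈ s, f i L) = ∑ i ∈ s, S Λ ht n (f i) := by
  induction s using Finset.induction_on with
  | empty => simp [S]
  | insert i s hi ih =>
    rw [Finset.sum_insert hi, ← ih, ← S_add]
    congr 1
    funext L
    rw [Finset.sum_insert hi]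

/-- double sum -/
noncomputable def S2 (n : ℕ) (F : List BX → List BY → ℝ≥0∞) : ℝ≥0∞ :=
  S ΛX hX n (fun L => S ΛY hY n (fun L' => F L L'))

lemma S2_mono (n : ℕ) {F F' : List BX → List BY → ℝ≥0∞}
    (h : ∀ L L', HT hX L = n → HT hY L' = n → F L L' ≤ F' L L') :
    S2 ΛX hX ΛY hY n F ≤ S2 ΛX hX ΛY hY n F' :=
  S_mono _ _ n fun L hL => S_mono _ _ n fun L' hL' => h L L' hL hL'

lemma S2_add (n : ℕ) (F F' : List BX → List BY → ℝ≥0∞) :
    S2 ΛX hX ΛY hY n (fun L L' => F L L' + F' L L')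
      = S2 ΛX hX ΛY hY n F + S2 ΛX hX ΛY hY n F' := by
  unfold S2
  simp only [S_add]

lemma S2_sum {ι : Type*} (n : ℕ) (s : Finset ι) (F : ι → List BX → List BY → ℝ≥0∞) :
    S2 ΛX hX ΛY hY n (fun L L' => ∑ i ∈ s, F i L L') = ∑ i ∈ s, S2 ΛX hX ΛY hY n (F i) := by
  unfold S2
  simp only [S_sum]

lemma S2_ind (n : ℕ) (P : List BX → List BY → Prop) :
    ∑' L : List BX, ∑' L' : List BY, (if HT hX L = n ∧ HT hY L' = n ∧ P L L'
        then LW ΛX L * LW ΛY L' else 0) = S2 ΛX hX ΛY hY n (fun L L' => ind (P L L')) := by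
  unfold S2 S
  refine tsum_congr fun L => ?_
  by_cases hL : HT hX L = n
  · rw [if_pos hL, ← ENNReal.tsum_mul_left]
    refine tsum_congr fun L' => ?_
    beta_reduce
    by_cases hL' : HT hY L' = n
    · by_cases hP : P L L'
      · rw [if_pos ⟨hL, hL', hP⟩, if_pos hL', ind, if_pos hP, mul_one]
      · rw [if_neg (fun h => hP h.2.2), if_pos hL', ind, if_neg hP, mul_zero, mul_zero]
    · rw [if_neg (fun h => hL' h.2.1), if_neg hL', mul_zero]
  · rw [if_neg hL]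
    refine ENNReal.tsum_eq_zero.2 fun L' => ?_
    rw [if_neg (fun h => hL h.1)]

/-- contact at depth `k` -/
def Ct (w : G) (k : ℕ) (L : List BX) (L' : List BY) : Prop :=
  ∃ v, (v, k) ∈ TT sX hX zX L 0 0 ∧ (v, k) ∈ TT sY hY zY L' w 0

/-- pointwise decomposition of the contact event -/
lemma decomp (w : G) (T j0 D s m : ℕ) (hj0 : 1 ≤ j0) (h1 : j0 * T ≤ m) (h2 : 2 * m ≤ 3 * j0 * T)
    (hs : s ≤ T) (L : List BX) (L' : List BY) :
    ind (∃ k, m < k ∧ k ≤ 2 * m ∧ Ct hX zX sX hY zY sY w k L L')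
    ≤ ∑ j ∈ Finset.Icc j0 (3 * j0), ∑ r ∈ Finset.range (D + 2 * s + 1),
        ind (Ct hX zX sX hY zY sY w (j * T - s + r) L L')
      + ∑ j ∈ Finset.Ico j0 (3 * j0), ind (Fj hX zX sX hY zY sY w (j * T + D + s + 1)
        ((j + 1) * T - s) (j * T) ((j + 1) * T + D) L L') := by
  by_cases hE : ∃ k, m < k ∧ k ≤ 2 * m ∧ Ct hX zX sX hY zY sY w k L L'
  swap
  · rw [ind, if_neg hE]; exact zero_le
  refine (ind_le_one _).trans ?_
  by_cases hsl : ∃ j ∈ Finset.Icc j0 (3 * j0), ∃ k, j * T ≤ k + s ∧ k ≤ j * T + D + s ∧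
      Ct hX zX sX hY zY sY w k L L'
  · refine le_add_right ?_
    obtain ⟨j, hj, k, hk1, hk2, hk3⟩ := hsl
    refine le_trans ?_ (Finset.single_le_sum (fun i _ => zero_le) hj)
    have hjT : T ≤ j * T := by
      rw [Finset.mem_Icc] at hj
      exact Nat.le_mul_of_pos_left T (by omega)
    have hr : k - (j * T - s) ∈ Finset.range (D + 2 * s + 1) := by
      rw [Finset.mem_range]; omega
    refine le_trans ?_ (Finset.single_le_sum (fun i _ => zero_le) hr)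
    have e : j * T - s + (k - (j * T - s)) = k := by omega
    rw [e, ind, if_pos hk3]
  · refine le_add_left ?_
    obtain ⟨k, hk1, hk2, v, hk3, hk4⟩ := hE
    have hT : 0 < T := by
      rcases Nat.eq_zero_or_pos T with rfl | h
      · omega
      · exact h
    set j := (k - 1) / T with hj
    have e1 : j * T ≤ k - 1 := Nat.div_mul_le_self _ _
    have e2 : k - 1 < (j + 1) * T := by
      have := Nat.lt_div_mul_add hT (a := k - 1)
      rw [add_mul, one_mul]; exact this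
    have hjlo : j0 ≤ j := by
      by_contra hc
      have : (j + 1) * T ≤ j0 * T := Nat.mul_le_mul_right _ (by omega)
      omega
    have hjhi : j < 3 * j0 := by
      by_contra hc
      have : 3 * j0 * T ≤ j * T := Nat.mul_le_mul_right _ (by omega)
      omega
    have hjm : j ∈ Finset.Ico j0 (3 * j0) := Finset.mem_Ico.2 ⟨hjlo, hjhi⟩
    refine le_trans ?_ (Finset.single_le_sum (fun i _ => zero_le) hjm)
    have n1 : ∀ k', j * T ≤ k' + s → k' ≤ j * T + D + s →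
        ¬ Ct hX zX sX hY zY sY w k' L L' := by
      intro k' a1 a2 a3
      exact hsl ⟨j, Finset.mem_Icc.2 ⟨hjlo, by omega⟩, k', a1, a2, a3⟩
    have n2 : ∀ k', (j + 1) * T ≤ k' + s → k' ≤ (j + 1) * T + D + s →
        ¬ Ct hX zX sX hY zY sY w k' L L' := by
      intro k' a1 a2 a3
      exact hsl ⟨j + 1, Finset.mem_Icc.2 ⟨by omega, by omega⟩, k', a1, a2, a3⟩
    have key : ∀ v' k', (v', k') ∈ TT sX hX zX L 0 0 → (v', k') ∈ TT sY hY zY L' w 0 → j * T < k' →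
        k' ≤ (j + 1) * T + D → j * T + D + s + 1 ≤ k' ∧ k' ≤ (j + 1) * T - s := by
      intro v' k' c1 c2 c3 c4
      constructor
      · by_contra hc
        exact n1 k' (by omega) (by omega) ⟨v', c1, c2⟩
      · by_contra hc
        exact n2 k' (by omega) (by omega) ⟨v', c1, c2⟩
    have hk := key v k hk3 hk4 (by omega) (by omega)
    have hF : Fj hX zX sX hY zY sY w (j * T + D + s + 1)
        ((j + 1) * T - s) (j * T) ((j + 1) * T + D) L L' :=
      ⟨⟨v, k, hk.1, hk.2, hk3, hk4⟩, key⟩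
    rw [ind, if_pos hF]

/-- **all windows at a height `n` with enough room** -/
theorem windows (h1X : ∀ b, 1 ≤ hX b) (h1Y : ∀ b, 1 ≤ hY b) (hΛX : ∑' b, ΛX b = 1)
    (hΛY : ∑' b, ΛY b = 1) (hUX : ∀ n, U ΛX hX n ≤ 1) (hUY : ∀ n, U ΛY hY n ≤ 1)
    (hsX : ∀ b q, q ∈ sX b → 1 ≤ q.2 ∧ q.2 ≤ hX b)
    (hsY : ∀ b q, q ∈ sY b → 1 ≤ q.2 ∧ q.2 ≤ hY b)
    (C : ℝ≥0∞) (us : ℕ → ℕ → ℝ≥0∞)
    (hH2 : H2 ΛX hX zX sX ΛY hY zY sY C us) (hH3 : H3 ΛX hX zX sX ΛY hY zY sY C us)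
    (w : G) (T i0 j0 s m n : ℕ) (hj0 : 1 ≤ j0) (h1 : j0 * T ≤ m) (h2 : 2 * m ≤ 3 * j0 * T)
    (hs : s ≤ T) (hn : 3 * j0 * (T + i0) + s ≤ n) (u lam e ε' : ℝ≥0∞) (hu0 : u ≠ 0)
    (hu1 : u ≤ 1) (hl0 : lam ≠ 0) (hlt : lam ≠ ⊤)
    (heX : ∑' L, (if fp hX T L ∧ T + i0 < HT hX L then LW ΛX L else 0) ≤ e)
    (heY : ∑' L, (if fp hY T L ∧ T + i0 < HT hY L then LW ΛY L else 0) ≤ e)
    (hPt : ∀ k, j0 * T ≤ k + s → k ≤ n →
      S2 ΛX hX ΛY hY n (fun L L' => ind (Ct hX zX sX hY zY sY w k L L')) ≤ ε') :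
    S2 ΛX hX ΛY hY n (fun L L' =>
        ind (∃ k, m < k ∧ k ≤ 2 * m ∧ Ct hX zX sX hY zY sY w k L L'))
    ≤ ((2 * j0 + 1 : ℕ) * (3 * j0 * i0 + 2 * s + 1 : ℕ)) * ε' +
      (3 * j0 : ℕ) * (2 * ((3 * j0 : ℕ) * e) + u * u + 2 * ((1 - u) ^ j0 +
        (3 * j0 * i0 + 1 : ℕ) * (((i0 + 1 : ℕ) * (i0 + 1 : ℕ)) *
          (C * (lam + (3 * j0 : ℕ) * us (3 * j0 * i0) s / lam + us (3 * j0 * i0) s))))) := by
  set D := 3 * j0 * i0 with hDdef
  refine (S2_mono ΛX hX ΛY hY n fun L L' _ _ =>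
    decomp hX zX sX hY zY sY w T j0 D s m hj0 h1 h2 hs L L').trans ?_
  rw [S2_add, S2_sum, S2_sum]
  refine add_le_add ?_ ?_
  · calc ∑ j ∈ Finset.Icc j0 (3 * j0), S2 ΛX hX ΛY hY n (fun L L' =>
          ∑ r ∈ Finset.range (D + 2 * s + 1), ind (Ct hX zX sX hY zY sY w (j * T - s + r) L L'))
        ≤ ∑ j ∈ Finset.Icc j0 (3 * j0), ∑ r ∈ Finset.range (D + 2 * s + 1), ε' := by
          refine Finset.sum_le_sum fun j hj => ?_
          rw [S2_sum]
          refine Finset.sum_le_sum fun r hr => ?_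
          rw [Finset.mem_Icc] at hj
          rw [Finset.mem_range] at hr
          have a1 : j0 * T ≤ j * T := Nat.mul_le_mul_right _ hj.1
          have a2 : j * T ≤ 3 * j0 * T := Nat.mul_le_mul_right _ hj.2
          have a3 : 3 * j0 * (T + i0) = 3 * j0 * T + 3 * j0 * i0 := by ring
          have a4 : T ≤ j0 * T := Nat.le_mul_of_pos_left T (by omega)
          exact hPt _ (by omega) (by omega)
      _ = _ := by
          rw [Finset.sum_const, Finset.sum_const, Nat.card_Icc, Finset.card_range, nsmul_eq_mul,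
            nsmul_eq_mul, ← mul_assoc]
          congr 3
          omega
  · set Z : ℝ≥0∞ := 2 * ((3 * j0 : ℕ) * e) + u * u + 2 * ((1 - u) ^ j0 +
        (D + 1 : ℕ) * (((i0 + 1 : ℕ) * (i0 + 1 : ℕ)) *
          (C * (lam + (3 * j0 : ℕ) * us D s / lam + us D s)))) with hZ
    calc ∑ j ∈ Finset.Ico j0 (3 * j0), S2 ΛX hX ΛY hY n (fun L L' =>
          ind (Fj hX zX sX hY zY sY w (j * T + D + s + 1) ((j + 1) * T - s) (j * T)
            ((j + 1) * T + D) L L'))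
        ≤ ∑ j ∈ Finset.Ico j0 (3 * j0), Z := by
          refine Finset.sum_le_sum fun j hj => ?_
          rw [Finset.mem_Ico] at hj
          have a1 : (j + 1) * (T + i0) ≤ 3 * j0 * (T + i0) := Nat.mul_le_mul_right _ (by omega)
          have a2 : (j + 1) * i0 ≤ 3 * j0 * i0 := Nat.mul_le_mul_right _ (by omega)
          have a3 : T ≤ (j + 1) * T := Nat.le_mul_of_pos_left T (by omega)
          have r1 := red ΛX hX zX sX ΛY hY zY sY h1X h1Y hΛX.le hΛY.le hUX hUY hsX hsY w T i0 j D s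
            (j * T + D + s + 1) ((j + 1) * T - s) n e heX heY (by omega) (by omega) (by omega)
            (by omega)
          have r2 := pairs ΛX hX zX sX ΛY hY zY sY h1X h1Y hΛX hΛY C us hH2 hH3 w T i0 j D s
            (j * T + D + s + 1) ((j + 1) * T - s) u lam hu0 hu1 hl0 hlt (by omega) (by omega)
            (by omega)
          refine (r1.trans (add_le_add le_rfl r2)).trans ?_
          have c1 : ((j + 1 : ℕ) : ℝ≥0∞) ≤ ((3 * j0 : ℕ) : ℝ≥0∞) := by exact_mod_cast (by omega)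
          have c2 : ((j : ℕ) : ℝ≥0∞) ≤ ((3 * j0 : ℕ) : ℝ≥0∞) := by exact_mod_cast (by omega)
          have c3 : (((j * i0 + 1 : ℕ)) : ℝ≥0∞) ≤ ((D + 1 : ℕ) : ℝ≥0∞) := by
            have : j * i0 ≤ 3 * j0 * i0 := Nat.mul_le_mul_right _ (by omega)
            exact_mod_cast (by omega)
          have c4 : (1 - u) ^ j ≤ (1 - u) ^ j0 :=
            pow_le_pow_right_of_le_one' tsub_le_self hj.1
          rw [hZ, ← two_mul]
          calc 2 * (((j + 1 : ℕ) : ℝ≥0∞) * e) + (u * u + 2 * ((1 - u) ^ j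
                + (j * i0 + 1 : ℕ) * (((i0 + 1 : ℕ) * (i0 + 1 : ℕ)) *
                  (C * (lam + j * us D s / lam + us D s)))))
              ≤ 2 * ((3 * j0 : ℕ) * e) + (u * u + 2 * ((1 - u) ^ j0 +
                (D + 1 : ℕ) * (((i0 + 1 : ℕ) * (i0 + 1 : ℕ)) *
                (C * (lam + (3 * j0 : ℕ) * us D s / lam + us D s))))) := by
                gcongr
            _ = _ := by rw [← add_assoc]
      _ = ((3 * j0 - j0 : ℕ) : ℝ≥0∞) * Z := by
          rw [Finset.sum_const, Nat.card_Ico, nsmul_eq_mul]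
      _ ≤ _ := by
          gcongr
          exact_mod_cast (by omega)

end five

end Crest.Agent.R154.Asm214
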