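import Crest.Agent.R154.Asm4_395

set_option autoImplicit false

namespace Crest.Agent.R154.Asm395

open Crest.Agent.R154.B5A
open scoped ENNReal Topology
open Classical

section window

variable {BX BY G : Type*} [AddCommGroup G]
  (hX : BX → ℕ) (ΛX : BX → ℝ≥0∞) (zX : BX → G) (sX : BX → Set (G × ℕ))
  (hY : BY → ℕ) (ΛY : BY → ℝ≥0∞) (zY : BY → G) (sY : BY → Set (G × ℕ))

/-- window lemma, X local -/
def H2 (C : ℕ → ℝ≥0∞) (us : ℕ → ℕ → ℝ≥0∞) : Prop :=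
  ∀ (i0 s h h' a a' lo hi : ℕ) (E : Finset G) (μ : G → ℝ≥0∞) (M lam : ℝ≥0∞),
    ∑' x, μ x ≤ 1 → (∀ x, μ x ≤ M) → lam ≠ 0 → lam ≠ ⊤ →
    a ≤ a' → a' ≤ a + 4 * i0 → a + h ≤ a' + h' → a' + h' ≤ a + h + 4 * i0 →
    a' + s ≤ lo → hi + s ≤ a + h →
    ∑' x, μ x * (∑' L : List BX, ∑' L' : List BY,
      if HT hX L = h ∧ Dp zX L ∈ E ∧ HT hY L' = h' ∧
        (∃ z k, (z, k) ∈ TS hX zX sX L 0 a ∧ (z, k) ∈ TS hY zY sY L' x a') ∧
        (∀ z k, (z, k) ∈ TS hX zX sX L 0 a → (z, k) ∈ TS hY zY sY L' x a' → lo ≤ k ∧ k ≤ hi)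
      then LW ΛX L * LW ΛY L' else 0)
    ≤ C i0 * (lam + M * E.card * us i0 s / lam + us i0 s)

/-- window lemma, Y local -/
def H3 (C : ℕ → ℝ≥0∞) (us : ℕ → ℕ → ℝ≥0∞) : Prop :=
  ∀ (i0 s h h' a a' lo hi : ℕ) (E : Finset G) (μ : G → ℝ≥0∞) (M lam : ℝ≥0∞),
    ∑' x, μ x ≤ 1 → (∀ x, μ x ≤ M) → lam ≠ 0 → lam ≠ ⊤ →
    a ≤ a' → a' ≤ a + 4 * i0 → a + h ≤ a' + h' → a' + h' ≤ a + h + 4 * i0 →
    a' + s ≤ lo → hi + s ≤ a + h →
    ∑' x, μ x * (∑' L : List BX, ∑' L' : List BY,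
      if HT hX L = h ∧ HT hY L' = h' ∧ Dp zY L' ∈ E ∧
        (∃ z k, (z, k) ∈ TS hX zX sX L 0 a ∧ (z, k) ∈ TS hY zY sY L' x a') ∧
        (∀ z k, (z, k) ∈ TS hX zX sX L 0 a → (z, k) ∈ TS hY zY sY L' x a' → lo ≤ k ∧ k ≤ hi)
      then LW ΛX L * LW ΛY L' else 0)
    ≤ C i0 * (lam + M * E.card * us i0 s / lam + us i0 s)

/-- first contact at depth `> b`, some contact at depth `≤ b'` -/
def Ph (b b' : ℕ) (w : G) (LX : List BX) (LY : List BY) : Prop :=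
  (∀ z k, (z, k) ∈ TS hX zX sX LX 0 0 → (z, k) ∈ TS hY zY sY LY w 0 → b < k) ∧
  ∃ z k, (z, k) ∈ TS hX zX sX LX 0 0 ∧ (z, k) ∈ TS hY zY sY LY w 0 ∧ k ≤ b'

variable (h1X : ∀ b, 1 ≤ hX b) (hΛX : ∑' b, ΛX b = 1) (hUX : ∀ n, U ΛX hX n ≤ 1)
  (h1Y : ∀ b, 1 ≤ hY b) (hΛY : ∑' b, ΛY b = 1) (hUY : ∀ n, U ΛY hY n ≤ 1)
  (hsX : ∀ b, ∀ q ∈ sX b, 1 ≤ q.2 ∧ q.2 ≤ hX b)
  (hsY : ∀ b, ∀ q ∈ sY b, 1 ≤ q.2 ∧ q.2 ≤ hY b)

/-- level set of the attempt law -/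
lemma exists_E {B : Type*} (ht : B → ℕ) (Λ : B → ℝ≥0∞) (z : B → G) (h1 : ∀ b, 1 ≤ ht b)
    (hΛ : ∑' b, Λ b = 1) (s : ℕ) (θ : ℝ≥0∞) (hθ : θ ≠ 0) (h : ℕ) :
    ∃ E : Finset G, (∀ x, x ∈ E ↔ θ ≤ pr ht Λ z s (h, x)) ∧ θ * E.card ≤ 1 := by
  have hs : ∑' x, pr ht Λ z s (h, x) ≤ 1 := by
    rw [← tsum_pr ht Λ z h1 hΛ s]
    exact ENNReal.tsum_comp_le_tsum_of_injective (f := fun x : G => (h, x))
      (fun x y hxy => (Prod.mk.inj hxy).2) _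
  have hfin : {x | θ ≤ pr ht Λ z s (h, x)}.Finite :=
    ENNReal.finite_const_le_of_tsum_ne_top (ne_top_of_le_ne_top ENNReal.one_ne_top hs) hθ
  refine ⟨hfin.toFinset, fun x => by simp, ?_⟩
  refine le_trans ?_ hs
  refine le_trans ?_ (ENNReal.sum_le_tsum hfin.toFinset)
  calc θ * (hfin.toFinset.card : ℝ≥0∞) = hfin.toFinset.card • θ := by
        rw [nsmul_eq_mul, mul_comm]
    _ ≤ _ := Finset.card_nsmul_le_sum _ _ _ fun x hx => by simpa using hx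

include h1X hΛX hUX h1Y hΛY hUY in
theorem piece2 (C : ℕ → ℝ≥0∞) (us : ℕ → ℕ → ℝ≥0∞)
    (H : H2 hX ΛX zX sX hY ΛY zY sY C us) (σ i0 s J : ℕ) (θ lam : ℝ≥0∞) (hθ : θ ≠ 0)
    (hl0 : lam ≠ 0) (hlt : lam ≠ ⊤) (α β h h' lo hi : ℕ) (w : G)
    (g1 : α ≤ β) (g2 : β ≤ α + 4 * i0) (g3 : α + h ≤ β + h') (g4 : β + h' ≤ α + h + 4 * i0)
    (g5 : β + s ≤ lo) (g6 : hi + s ≤ α + h) :
    ws ΛX (fun A => HT hX A = α ∧ Gd hX ΛX zX σ i0 θ J A) (fun A =>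
      ws ΛY (fun A' => HT hY A' = β ∧ True)
        (fun A' => KK hX ΛX zX sX hY ΛY zY sY (Lo hX ΛX zX σ θ) (fun _ => True)
          h h' α β lo hi (w + Dp zY A' - Dp zX A)))
      ≤ C i0 * (lam + J * (i0 + 1) * us i0 s / lam + us i0 s) := by
  obtain ⟨E, hE, hEc⟩ := exists_E hX ΛX zX h1X hΛX σ θ hθ h
  rw [ws_fiber (f := fun A A' => w + Dp zY A' - Dp zX A)
    (K := fun x => KK hX ΛX zX sX hY ΛY zY sY (Lo hX ΛX zX σ θ) (fun _ => True)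
          h h' α β lo hi x)]
  set μ : G → ℝ≥0∞ := fun x => ws ΛX (fun A => HT hX A = α ∧ Gd hX ΛX zX σ i0 θ J A) (fun A =>
      ws ΛY (fun A' => HT hY A' = β ∧ True) (fun A' => ind (w + Dp zY A' - Dp zX A = x))) with hμ
  have hmX : ws ΛX (fun A => HT hX A = α ∧ Gd hX ΛX zX σ i0 θ J A) (fun _ => 1) ≤ 1 :=
    (ws_mono_set fun _ h => h.1).trans (mass_HT hX ΛX hUX α)
  have hmY : ws ΛY (fun A' => HT hY A' = β ∧ True) (fun _ => 1) ≤ 1 :=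
    (ws_mono_set fun _ h => h.1).trans (mass_HT hY ΛY hUY β)
  have hμ1 : ∑' x, μ x ≤ 1 := by
    have e := ws_fiber (ΛX := ΛX) (ΛY := ΛY) (fun A => HT hX A = α ∧ Gd hX ΛX zX σ i0 θ J A)
      (fun A' => HT hY A' = β ∧ True) (fun A A' => w + Dp zY A' - Dp zX A) (fun _ => 1)
    simp only [mul_one] at e
    rw [hμ, ← e]
    exact ws_le_of_mass hmX fun _ _ => hmY
  have hμM : ∀ x, μ x ≤ J * ((i0 + 1) * θ) := by
    intro x
    rw [hμ]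
    simp only
    rw [ws_comm]
    refine ws_le_of_mass hmY fun A' _ => ?_
    rw [ws_ind']
    refine (ws_mono_set fun A hA => ?_).trans
      (dens_le hX ΛX zX h1X hΛX hUX σ i0 θ J α (w + Dp zY A' - x))
    refine ⟨hA.1.1, hA.1.2, ?_⟩
    rw [← hA.2]; abel
  have hH := H i0 s h h' α β lo hi E μ (J * ((i0 + 1) * θ)) lam hμ1 hμM hl0 hlt g1 g2 g3 g4 g5 g6
  refine le_trans (ENNReal.tsum_le_tsum fun x => ?_) (hH.trans ?_)
  · refine mul_le_mul_right ?_ _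
    rw [KK]
    refine ENNReal.tsum_le_tsum fun L => ENNReal.tsum_le_tsum fun L' => ?_
    by_cases hc : (HT hX L = h ∧ Lo hX ΛX zX σ θ L) ∧ (HT hY L' = h' ∧ True) ∧
        Cc hX zX sX hY zY sY α β lo hi x L L'
    · rw [if_pos hc, if_pos]
      refine ⟨hc.1.1, (hE _).2 ?_, hc.2.1.1, hc.2.2.1, hc.2.2.2⟩
      have := hc.1.2
      rw [Lo, hc.1.1] at this
      exact this
    · rw [if_neg hc]; exact bot_le
  · have hME : (J * ((i0 + 1) * θ) * E.card : ℝ≥0∞) ≤ J * (i0 + 1) := by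
      calc (J * ((i0 + 1) * θ) * E.card : ℝ≥0∞) = J * (i0 + 1) * (θ * E.card) := by ring
        _ ≤ J * (i0 + 1) * 1 := by gcongr
        _ = _ := mul_one _
    exact mul_le_mul_right (add_le_add (add_le_add le_rfl
      (ENNReal.div_le_div_right (mul_le_mul_left hME _) _)) le_rfl) _

include h1X hΛX hUX h1Y hΛY hUY in
theorem piece3 (C : ℕ → ℝ≥0∞) (us : ℕ → ℕ → ℝ≥0∞)
    (H : H3 hX ΛX zX sX hY ΛY zY sY C us) (σ i0 s J : ℕ) (θ lam : ℝ≥0∞) (hθ : θ ≠ 0)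
    (hl0 : lam ≠ 0) (hlt : lam ≠ ⊤) (α β h h' lo hi : ℕ) (w : G)
    (g1 : α ≤ β) (g2 : β ≤ α + 4 * i0) (g3 : α + h ≤ β + h') (g4 : β + h' ≤ α + h + 4 * i0)
    (g5 : β + s ≤ lo) (g6 : hi + s ≤ α + h) :
    ws ΛX (fun A => HT hX A = α ∧ True) (fun A =>
      ws ΛY (fun A' => HT hY A' = β ∧ Gd hY ΛY zY σ i0 θ J A')
        (fun A' => KK hX ΛX zX sX hY ΛY zY sY (fun _ => True) (Lo hY ΛY zY σ θ)
          h h' α β lo hi (w + Dp zY A' - Dp zX A)))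
      ≤ C i0 * (lam + J * (i0 + 1) * us i0 s / lam + us i0 s) := by
  obtain ⟨E, hE, hEc⟩ := exists_E hY ΛY zY h1Y hΛY σ θ hθ h'
  rw [ws_fiber (f := fun A A' => w + Dp zY A' - Dp zX A)
    (K := fun x => KK hX ΛX zX sX hY ΛY zY sY (fun _ => True) (Lo hY ΛY zY σ θ)
          h h' α β lo hi x)]
  set μ : G → ℝ≥0∞ := fun x => ws ΛX (fun A => HT hX A = α ∧ True) (fun A =>
      ws ΛY (fun A' => HT hY A' = β ∧ Gd hY ΛY zY σ i0 θ J A')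
        (fun A' => ind (w + Dp zY A' - Dp zX A = x))) with hμ
  have hmX : ws ΛX (fun A => HT hX A = α ∧ True) (fun _ => 1) ≤ 1 :=
    (ws_mono_set fun _ h => h.1).trans (mass_HT hX ΛX hUX α)
  have hmY : ws ΛY (fun A' => HT hY A' = β ∧ Gd hY ΛY zY σ i0 θ J A') (fun _ => 1) ≤ 1 :=
    (ws_mono_set fun _ h => h.1).trans (mass_HT hY ΛY hUY β)
  have hμ1 : ∑' x, μ x ≤ 1 := by
    have e := ws_fiber (ΛX := ΛX) (ΛY := ΛY) (fun A => HT hX A = α ∧ True)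
      (fun A' => HT hY A' = β ∧ Gd hY ΛY zY σ i0 θ J A')
      (fun A A' => w + Dp zY A' - Dp zX A) (fun _ => 1)
    simp only [mul_one] at e
    rw [hμ, ← e]
    exact ws_le_of_mass hmX fun _ _ => hmY
  have hμM : ∀ x, μ x ≤ J * ((i0 + 1) * θ) := by
    intro x
    rw [hμ]
    simp only
    refine ws_le_of_mass hmX fun A _ => ?_
    rw [ws_ind']
    refine (ws_mono_set fun A' hA => ?_).trans
      (dens_le hY ΛY zY h1Y hΛY hUY σ i0 θ J β (x - w + Dp zX A))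
    refine ⟨hA.1.1, hA.1.2, ?_⟩
    rw [← hA.2]; abel
  have hH := H i0 s h h' α β lo hi E μ (J * ((i0 + 1) * θ)) lam hμ1 hμM hl0 hlt g1 g2 g3 g4 g5 g6
  refine le_trans (ENNReal.tsum_le_tsum fun x => ?_) (hH.trans ?_)
  · refine mul_le_mul_right ?_ _
    rw [KK]
    refine ENNReal.tsum_le_tsum fun L => ENNReal.tsum_le_tsum fun L' => ?_
    by_cases hc : (HT hX L = h ∧ True) ∧ (HT hY L' = h' ∧ Lo hY ΛY zY σ θ L') ∧
        Cc hX zX sX hY zY sY α β lo hi x L L'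
    · rw [if_pos hc, if_pos]
      refine ⟨hc.1.1, hc.2.1.1, (hE _).2 ?_, hc.2.2.1, hc.2.2.2⟩
      have := hc.2.1.2
      rw [Lo, hc.2.1.1] at this
      exact this
    · rw [if_neg hc]; exact bot_le
  · have hME : (J * ((i0 + 1) * θ) * E.card : ℝ≥0∞) ≤ J * (i0 + 1) := by
      calc (J * ((i0 + 1) * θ) * E.card : ℝ≥0∞) = J * (i0 + 1) * (θ * E.card) := by ring
        _ ≤ J * (i0 + 1) * 1 := by gcongr
        _ = _ := mul_one _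
    exact mul_le_mul_right (add_le_add (add_le_add le_rfl
      (ENNReal.div_le_div_right (mul_le_mul_left hME _) _)) le_rfl) _

end window

end Crest.Agent.R154.Asm395
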