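import Crest.Agent.R154.Asm4_424

/-! Row 154, ROAD 801 (helper424): the assembly `kapS`. -/

set_option autoImplicit false
set_option linter.unusedVariables false

namespace Crest.Agent.R154.Asm424

open Filter
open scoped ENNReal Topology
open Crest.Agent.R154.B5A Crest.Agent.R154.FP178
open Crest.Agent.R154.Bind12 (TT Dp)

lemma SL_swap {CX CY : Type*} (wX : CX → ℝ≥0∞) (wY : CY → ℝ≥0∞) (j : ℕ)
    (f : List CX → List CY → ℝ≥0∞) :
    SL wX j (fun M => SL wY j (fun N => f M N)) = SL wY j (fun N => SL wX j (fun M => f M N)) := by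
  unfold SL
  have e1 : ∀ M : List CX, (if M.length = j then LW wX M * ∑' N : List CY,
      (if N.length = j then LW wY N * f M N else 0) else 0) = ∑' N : List CY,
      (if M.length = j ∧ N.length = j then LW wX M * LW wY N * f M N else 0) := by
    intro M
    by_cases hM : M.length = j
    · rw [if_pos hM, ← ENNReal.tsum_mul_left]
      refine tsum_congr fun N => ?_
      by_cases hN : N.length = j
      · simp [hM, hN, mul_assoc]
      · simp [hN]
    · simp [hM]
  have e2 : ∀ N : List CY, (if N.length = j then LW wY N * ∑' M : List CX,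
      (if M.length = j then LW wX M * f M N else 0) else 0) = ∑' M : List CX,
      (if M.length = j ∧ N.length = j then LW wX M * LW wY N * f M N else 0) := by
    intro N
    by_cases hN : N.length = j
    · rw [if_pos hN, ← ENNReal.tsum_mul_left]
      refine tsum_congr fun M => ?_
      by_cases hM : M.length = j
      · rw [if_pos hM, if_pos ⟨hM, hN⟩]; ring
      · simp [hM]
    · simp [hN]
  rw [tsum_congr e1, tsum_congr e2, ENNReal.tsum_comm]

section final

variable {BX BY G : Type*} [AddCommGroup G] {ΛX : BX → ℝ≥0∞} {hX : BX → ℕ} {zX : BX → G}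
  {sX : BX → Set (G × ℕ)} {ΛY : BY → ℝ≥0∞} {hY : BY → ℕ} {zY : BY → G} {sY : BY → Set (G × ℕ)}

open Classical in
/-- one window: all cases -/
lemma window {C : ℝ≥0∞} {us : ℕ → ℕ → ℝ≥0∞}
    (h1X : ∀ b, 1 ≤ hX b) (h1Y : ∀ b, 1 ≤ hY b)
    (hΛX : ∑' b, ΛX b ≤ 1) (hΛY : ∑' b, ΛY b ≤ 1)
    (H2 : Win ΛX hX zX sX ΛY hY zY sY C us (fun E L _ => Dp zX L ∈ E))
    (H3 : Win ΛX hX zX sX ΛY hY zY sY C us (fun E _ L' => Dp zY L' ∈ E))
    (T i0 s j : ℕ) (hsT : s ≤ T) (w : G) {u thX thY : ℝ≥0∞} (QX : Qu hX zX ΛX T u thX)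
    (QY : Qu hY zY ΛY T u thY) (lam : ℝ≥0∞) (hl : lam ≠ 0) (hl' : lam ≠ ⊤) :
    EE (wt ΛX hX T i0) (wt ΛY hY T i0) j (fun M1 A N1 A' =>
      if Hit hX zX sX hY zY sY A.1 A'.1 (w + Dp zY (flat N1) - Dp zX (flat M1)) (HT hX (flat M1))
        (HT hY (flat N1)) (max (HT hX (flat M1)) (HT hY (flat N1)) + s)
        (min (HT hX (flat M1) + HT hX A.1) (HT hY (flat N1) + HT hY A'.1) - s) then 1 else 0)
      ≤ (u * u + ((1 - u) ^ j + (1 - u) ^ j)) +
        (2 * (((j * i0 + 1 : ℕ) ^ 2 * (i0 + 1 : ℕ) ^ 2 : ℕ) *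
          (C * (lam + j * us ((j + 1) * i0) s / lam + us ((j + 1) * i0) s)))) := by
  set wX := wt ΛX hX T i0 with hwX
  set wY := wt ΛY hY T i0 with hwY
  have sX1 := sum_wt_le ΛX hX h1X hΛX T i0
  have sY1 := sum_wt_le ΛY hY h1Y hΛY T i0
  set pX := pp ΛX hX zX T with hpX
  set pY := pp ΛY hY zY T with hpY
  set HH : List (At hX T i0) × List (At hY T i0) → At hX T i0 → At hY T i0 → Prop :=
    fun p A A' => Hit hX zX sX hY zY sY A.1 A'.1 (w + Dp zY (flat p.2) - Dp zX (flat p.1))
      (HT hX (flat p.1)) (HT hY (flat p.2)) (max (HT hX (flat p.1)) (HT hY (flat p.2)) + s)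
        (min (HT hX (flat p.1) + HT hX A.1) (HT hY (flat p.2) + HT hY A'.1) - s) with hHH
  obtain ⟨smX, hsmX⟩ : ∃ f : List (At hX T i0) × List (At hY T i0) → Prop,
      ∀ p, f p ↔ ∃ A ∈ p.1, pX (lb zX A) ≤ thX := ⟨_, fun _ => Iff.rfl⟩
  obtain ⟨smY, hsmY⟩ : ∃ f : List (At hX T i0) × List (At hY T i0) → Prop,
      ∀ p, f p ↔ ∃ A ∈ p.2, pY (lb zY A) ≤ thY := ⟨_, fun _ => Iff.rfl⟩
  obtain ⟨lX, hlX⟩ : ∃ f : Finset G → List BX → List BY → Prop,
      f = fun E L _ => Dp zX L ∈ E := ⟨_, rfl⟩
  obtain ⟨lY, hlY⟩ : ∃ f : Finset G → List BX → List BY → Prop,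
      f = fun E _ L' => Dp zY L' ∈ E := ⟨_, rfl⟩
  rw [← hlX] at H2
  rw [← hlY] at H3
  set gX : List (At hX T i0) × List (At hY T i0) → At hX T i0 → At hY T i0 → ℝ≥0∞ :=
    fun p A A' => if lX (Es zX QX (HT hX A.1)) A.1 A'.1 ∧ HH p A A' then 1 else 0 with hgX
  set gY : List (At hX T i0) × List (At hY T i0) → At hX T i0 → At hY T i0 → ℝ≥0∞ :=
    fun p A A' => if lY (Es zY QY (HT hY A'.1)) A.1 A'.1 ∧ HH p A A' then 1 else 0 with hgY
  -- the five terms
  have split5 : ∀ (M1 : List (At hX T i0)) (A : At hX T i0) (N1 : List (At hY T i0))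
      (A' : At hY T i0), (if HH (M1, N1) A A' then (1 : ℝ≥0∞) else 0)
      ≤ ((if pX (lb zX A) < thX then 1 else 0) * (if pY (lb zY A') < thY then 1 else 0)
        + ((if ∀ A ∈ M1, ¬ pX (lb zX A) ≤ thX then 1 else 0)
          + (if ∀ A ∈ N1, ¬ pY (lb zY A) ≤ thY then 1 else 0)))
        + ((if smX (M1, N1) then gX (M1, N1) A A' else 0)
          + (if smY (M1, N1) then gY (M1, N1) A A' else 0)) := by
    intro M1 A N1 A'
    by_cases hh : HH (M1, N1) A A'
    · rw [if_pos hh]
      by_cases ha : smX (M1, N1)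
      · by_cases hb : smY (M1, N1)
        · by_cases hc : pX (lb zX A) < thX
          · by_cases hd : pY (lb zY A') < thY
            · rw [if_pos hc, if_pos hd, mul_one]
              exact le_trans le_self_add le_self_add
            · have : Dp zY A'.1 ∈ Es zY QY (HT hY A'.1) := (mem_Es zY QY _ _).2 (not_lt.1 hd)
              have this' : lY (Es zY QY (HT hY A'.1)) A.1 A'.1 := by rw [hlY]; exact this
              rw [if_pos hb]
              simp only [hgY]
              rw [if_pos (⟨this', hh⟩ : lY (Es zY QY (HT hY A'.1)) A.1 A'.1 ∧ HH (M1, N1) A A')]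
              exact le_trans le_add_self le_add_self
          · have : Dp zX A.1 ∈ Es zX QX (HT hX A.1) := (mem_Es zX QX _ _).2 (not_lt.1 hc)
            have this' : lX (Es zX QX (HT hX A.1)) A.1 A'.1 := by rw [hlX]; exact this
            rw [if_pos ha]
            simp only [hgX]
            rw [if_pos (⟨this', hh⟩ : lX (Es zX QX (HT hX A.1)) A.1 A'.1 ∧ HH (M1, N1) A A')]
            exact le_trans le_self_add le_add_self
        · have : ∀ A ∈ N1, ¬ pY (lb zY A) ≤ thY := by
            intro A hA hle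
            exact hb ((hsmY _).2 ⟨A, hA, hle⟩)
          rw [if_pos this]
          exact le_trans (le_trans le_add_self le_add_self) le_self_add
      · have : ∀ A ∈ M1, ¬ pX (lb zX A) ≤ thX := by
          intro A hA hle
          exact ha ((hsmX _).2 ⟨A, hA, hle⟩)
        rw [if_pos this]
        exact le_trans (le_trans le_self_add le_add_self) le_self_add
    · rw [if_neg hh]; exact zero_le
  refine (EE_mono wX wY j (fun M1 A N1 A' _ _ => split5 M1 A N1 A')).trans ?_
  rw [EE_add, EE_add, EE_add, EE_add, two_mul]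
  refine add_le_add (add_le_add ?_ (add_le_add ?_ ?_)) (add_le_add ?_ ?_)
  · exact EE_prod sX1 sY1 j (fun A => if pX (lb zX A) < thX then 1 else 0)
      (fun A' => if pY (lb zY A') < thY then 1 else 0) u u (nl_le zX i0 QX) (nl_le zY i0 QY)
  · exact (EE_left sX1 sY1 j (fun M1 => if ∀ A ∈ M1, ¬ pX (lb zX A) ≤ thX then 1 else 0)).trans
      (none_le zX i0 QX j)
  · exact (EE_right sX1 sY1 j (fun N1 => if ∀ A ∈ N1, ¬ pY (lb zY A) ≤ thY then 1 else 0)).trans
      (none_le zY i0 QY j)
  · rw [EE_pair j smX gX]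
    refine main_term H2 (WW wX wY j) (WW_le sX1 sY1 j) smX (fun p => HT hX (flat p.1))
      (fun p => HT hY (flat p.2)) (fun p => w + Dp zY (flat p.2) - Dp zX (flat p.1)) T i0 j s hsT
      ?_ (j * thX) ?_ (fun h _ => Es zX QX h) (fun h _ => card_Es zX QX h j) lam hl hl'
    · intro p hp
      obtain ⟨l1, l2⟩ := WW_ne j p hp
      have b1 := HT_flat (h := hX) p.1
      have b2 := HT_flat (h := hY) p.2
      rw [l1] at b1
      rw [l2] at b2
      exact ⟨b1, b2⟩
    · intro a a' x
      calc ∑' p, (if smX p ∧ HT hX (flat p.1) = a ∧ HT hY (flat p.2) = a' ∧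
            w + Dp zY (flat p.2) - Dp zX (flat p.1) = x then WW wX wY j p else 0)
          ≤ ∑' p : List (At hX T i0) × List (At hY T i0), WW wX wY j p *
            (if (∃ A ∈ p.1, pX (lb zX A) ≤ thX) ∧
              (p.1.map (lb zX)).sum = (a, w + Dp zY (flat p.2) - x) then 1 else 0) := by
            refine ENNReal.tsum_le_tsum fun p => ?_
            by_cases h : smX p ∧ HT hX (flat p.1) = a ∧ HT hY (flat p.2) = a' ∧
                w + Dp zY (flat p.2) - Dp zX (flat p.1) = x
            · rw [if_pos h, if_pos, mul_one]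
              refine ⟨(hsmX p).1 h.1, ?_⟩
              rw [sum_lb, ← h.2.2.2, h.2.1]
              refine Prod.ext rfl ?_
              simp
            · rw [if_neg h]; exact zero_le
        _ = ∑' p : List (At hX T i0) × List (At hY T i0), WW wX wY j p *
            (fun (M : List (At hX T i0)) (N : List (At hY T i0)) =>
              (if (∃ A ∈ M, pX (lb zX A) ≤ thX) ∧
              (M.map (lb zX)).sum = (a, w + Dp zY (flat N) - x) then (1 : ℝ≥0∞) else 0)) p.1 p.2 :=
            rfl
        _ = SL wX j (fun M => SL wY j (fun N => (if (∃ A ∈ M, pX (lb zX A) ≤ thX) ∧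
              (M.map (lb zX)).sum = (a, w + Dp zY (flat N) - x) then (1 : ℝ≥0∞) else 0))) :=
            tsum_WW (wX := wX) (wY := wY) j
            (fun (M : List (At hX T i0)) (N : List (At hY T i0)) =>
              (if (∃ A ∈ M, pX (lb zX A) ≤ thX) ∧
              (M.map (lb zX)).sum = (a, w + Dp zY (flat N) - x) then (1 : ℝ≥0∞) else 0))
        _ = SL wY j (fun N => SL wX j (fun M => (if (∃ A ∈ M, pX (lb zX A) ≤ thX) ∧
              (M.map (lb zX)).sum = (a, w + Dp zY (flat N) - x) then (1 : ℝ≥0∞) else 0))) :=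
            SL_swap wX wY j _
        _ ≤ SL wY j (fun _ => j * thX) :=
            SL_mono wY j fun N _ => dens_le zX i0 QX h1X hΛX j _
        _ ≤ j * thX := SL_const_le wY sY1 j _
  · rw [EE_pair j smY gY]
    refine main_term H3 (WW wX wY j) (WW_le sX1 sY1 j) smY (fun p => HT hX (flat p.1))
      (fun p => HT hY (flat p.2)) (fun p => w + Dp zY (flat p.2) - Dp zX (flat p.1)) T i0 j s hsT
      ?_ (j * thY) ?_ (fun _ h' => Es zY QY h') (fun _ h' => card_Es zY QY h' j) lam hl hl'
    · intro p hp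
      obtain ⟨l1, l2⟩ := WW_ne j p hp
      have b1 := HT_flat (h := hX) p.1
      have b2 := HT_flat (h := hY) p.2
      rw [l1] at b1
      rw [l2] at b2
      exact ⟨b1, b2⟩
    · intro a a' x
      calc ∑' p, (if smY p ∧ HT hX (flat p.1) = a ∧ HT hY (flat p.2) = a' ∧
            w + Dp zY (flat p.2) - Dp zX (flat p.1) = x then WW wX wY j p else 0)
          ≤ ∑' p : List (At hX T i0) × List (At hY T i0), WW wX wY j p *
            (if (∃ A ∈ p.2, pY (lb zY A) ≤ thY) ∧
              (p.2.map (lb zY)).sum = (a', x + Dp zX (flat p.1) - w) then 1 else 0) := by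
            refine ENNReal.tsum_le_tsum fun p => ?_
            by_cases h : smY p ∧ HT hX (flat p.1) = a ∧ HT hY (flat p.2) = a' ∧
                w + Dp zY (flat p.2) - Dp zX (flat p.1) = x
            · rw [if_pos h, if_pos, mul_one]
              refine ⟨(hsmY p).1 h.1, ?_⟩
              rw [sum_lb, ← h.2.2.2, h.2.2.1]
              refine Prod.ext rfl ?_
              simp
            · rw [if_neg h]; exact zero_le
        _ = ∑' p : List (At hX T i0) × List (At hY T i0), WW wX wY j p *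
            (fun (M : List (At hX T i0)) (N : List (At hY T i0)) =>
              (if (∃ A ∈ N, pY (lb zY A) ≤ thY) ∧
              (N.map (lb zY)).sum = (a', x + Dp zX (flat M) - w) then (1 : ℝ≥0∞) else 0)) p.1 p.2 :=
            rfl
        _ = SL wX j (fun M => SL wY j (fun N => (if (∃ A ∈ N, pY (lb zY A) ≤ thY) ∧
              (N.map (lb zY)).sum = (a', x + Dp zX (flat M) - w) then (1 : ℝ≥0∞) else 0))) :=
            tsum_WW (wX := wX) (wY := wY) j
            (fun (M : List (At hX T i0)) (N : List (At hY T i0)) =>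
              (if (∃ A ∈ N, pY (lb zY A) ≤ thY) ∧
              (N.map (lb zY)).sum = (a', x + Dp zX (flat M) - w) then (1 : ℝ≥0∞) else 0))
        _ ≤ SL wX j (fun _ => j * thY) :=
            SL_mono wX j fun M _ => dens_le zY i0 QY h1Y hΛY j _
        _ ≤ j * thY := SL_const_le wX sX1 j _

end final

end Crest.Agent.R154.Asm424
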