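import Crest.Agent.R154.Asm4_532

/-! Row 154 (helper532), ROAD 801: abstract assembly, part 5: the bound of one window. -/

set_option autoImplicit false

namespace Crest.Agent.R154.Asm532

open scoped ENNReal
open Crest.Agent.R154.B5A
open Crest.Agent.R154.FP178 (fp)
open Classical
open Finset (range)

section onew

variable {B G : Type*} [AddCommGroup G] (Λ : B → ℝ≥0∞) (ht : B → ℕ) (zz : B → G)

lemma F1_mass (h1 : ∀ b, 1 ≤ ht b) (hΛ : ∑' b, Λ b = 1) (i0 A : ℕ) :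
    ∑' c, F1 Λ ht zz i0 A c ≤ 1 :=
  (ENNReal.tsum_le_tsum fun c => F1_le Λ ht zz i0 A c).trans (FL_mass Λ ht zz h1 hΛ A).le

lemma F1_supp (i0 A : ℕ) (c : ℕ × G) (hc : c.1 ∉ Finset.Icc A (A + i0)) :
    F1 Λ ht zz i0 A c = 0 := by
  rw [F1]
  by_cases h : c.1 ≤ A + i0
  · rw [if_pos h]
    refine FL_lt Λ ht zz A c ?_
    rw [Finset.mem_Icc] at hc; omega
  · rw [if_neg h]

/-- nonlocal weight -/
lemma nonloc (T i0 : ℕ) (th u : ℝ≥0∞)
    (hu : ∑' c, (if FL Λ ht zz T c < th then FL Λ ht zz T c else 0) ≤ u) :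
    ∑' L, wF Λ ht i0 T L * (if FL Λ ht zz T (kp ht zz L) < th then 1 else 0) ≤ u := by
  rw [wF_sum Λ ht zz i0 T (fun c => if FL Λ ht zz T c < th then 1 else 0)]
  refine le_trans (ENNReal.tsum_le_tsum fun c => ?_) hu
  by_cases h : FL Λ ht zz T c < th
  · rw [if_pos h, if_pos h, mul_one]; exact F1_le Λ ht zz i0 T c
  · rw [if_neg h, if_neg h, mul_zero]

end onew

variable {BX BY G : Type*} [AddCommGroup G] (ΛX : BX → ℝ≥0∞) (ΛY : BY → ℝ≥0∞)
  (hX : BX → ℕ) (hY : BY → ℕ) (zX : BX → G) (zY : BY → G)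
  (sX : BX → Set (G × ℕ)) (sY : BY → Set (G × ℕ))

/-- the fixed height window quantity, a predicate on both lists -/
noncomputable def Q2 (h h' lo hi a a' : ℕ) (P : List BX → List BY → Prop) (x : G) : ℝ≥0∞ :=
  ∑' L : List BX, ∑' M : List BY, (if HT hX L = h ∧ HT hY M = h' ∧ P L M ∧
    evP hX hY zX zY sX sY lo hi a a' x L M then LW ΛX L * LW ΛY M else 0)

/-- local piece sum is a sum over the exact heights -/
lemma piece_le (T T' i0 lo hi a a' : ℕ) (P : List BX → List BY → Prop) (x : G) :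
    ∑' L2, wF ΛX hX i0 T L2 * ∑' M2, wF ΛY hY i0 T' M2 *
      (if P L2 M2 ∧ evP hX hY zX zY sX sY lo hi a a' x L2 M2 then 1 else 0)
    ≤ ∑ h ∈ Finset.Icc T (T + i0), ∑ h' ∈ Finset.Icc T' (T' + i0),
        Q2 ΛX ΛY hX hY zX zY sX sY h h' lo hi a a' P x := by
  have e : ∑ h ∈ Finset.Icc T (T + i0), ∑ h' ∈ Finset.Icc T' (T' + i0),
        Q2 ΛX ΛY hX hY zX zY sX sY h h' lo hi a a' P x
      = ∑' L : List BX, ∑' M : List BY, ∑ h ∈ Finset.Icc T (T + i0),
        ∑ h' ∈ Finset.Icc T' (T' + i0), (if HT hX L = h ∧ HT hY M = h' ∧ P L M ∧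
    evP hX hY zX zY sX sY lo hi a a' x L M then LW ΛX L * LW ΛY M else 0) := by
    simp only [Q2]
    simp_rw [Summable.tsum_finsetSum (fun _ _ => ENNReal.summable)]
  rw [e]
  refine ENNReal.tsum_le_tsum fun L => ?_
  rw [← ENNReal.tsum_mul_left]
  refine ENNReal.tsum_le_tsum fun M => ?_
  by_cases hc : (fp hX T L ∧ HT hX L ≤ T + i0) ∧ (fp hY T' M ∧ HT hY M ≤ T' + i0) ∧
      (P L M ∧ evP hX hY zX zY sX sY lo hi a a' x L M)
  · obtain ⟨c1, c2, c3⟩ := hc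
    have g1 := FP178.le_HT_of_fp hX c1.1
    have g2 := FP178.le_HT_of_fp hY c2.1
    rw [wF, if_pos c1, wF, if_pos c2, if_pos c3, mul_one]
    refine le_trans ?_ (Finset.single_le_sum (f := fun h => ∑ h' ∈ Finset.Icc T' (T' + i0),
      (if HT hX L = h ∧ HT hY M = h' ∧ P L M ∧
        evP hX hY zX zY sX sY lo hi a a' x L M then LW ΛX L * LW ΛY M else 0))
      (fun _ _ => zero_le) (Finset.mem_Icc.2 ⟨g1, c1.2⟩))
    refine le_trans ?_ (Finset.single_le_sum (f := fun h' =>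
      (if HT hX L = HT hX L ∧ HT hY M = h' ∧ P L M ∧
        evP hX hY zX zY sX sY lo hi a a' x L M then LW ΛX L * LW ΛY M else 0))
      (fun _ _ => zero_le) (Finset.mem_Icc.2 ⟨g2, c2.2⟩))
    rw [if_pos ⟨rfl, rfl, c3.1, c3.2⟩]
  · refine le_trans (le_of_eq ?_) zero_le
    rw [wF, wF]
    by_cases c1 : fp hX T L ∧ HT hX L ≤ T + i0
    · by_cases c2 : fp hY T' M ∧ HT hY M ≤ T' + i0
      · have c3 : ¬ (P L M ∧ evP hX hY zX zY sX sY lo hi a a' x L M) := fun h => hc ⟨c1, c2, h⟩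
        rw [if_neg c3, mul_zero, mul_zero]
      · rw [if_neg c2, zero_mul, mul_zero]
    · rw [if_neg c1, zero_mul]

lemma icc_sum_const (T i0 : ℕ) (R : ℝ≥0∞) : ∑ _h ∈ Finset.Icc T (T + i0), R = (i0 + 1) * R := by
  rw [Finset.sum_const, Nat.card_Icc, nsmul_eq_mul]
  congr 1
  have : T + i0 + 1 - T = i0 + 1 := by omega
  rw [this]; push_cast; ring

/-- **one window** -/
theorem window (hX1 : ∀ b, 1 ≤ hX b) (hY1 : ∀ b, 1 ≤ hY b) (hΛX : ∑' b, ΛX b = 1)
    (hΛY : ∑' b, ΛY b = 1) (hUX : ∀ n, U ΛX hX n ≤ 1) (hUY : ∀ n, U ΛY hY n ≤ 1)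
    (hs : ∀ b, ∀ q ∈ sX b, 1 ≤ q.2 ∧ q.2 ≤ hX b)
    (hs' : ∀ b, ∀ q ∈ sY b, 1 ≤ q.2 ∧ q.2 ≤ hY b) (A T A' T' i0 lo hi n : ℕ)
    (hlo : A + i0 ≤ lo) (hhi : hi ≤ A + T) (hn : A + i0 + T ≤ n)
    (hlo' : A' + i0 ≤ lo) (hhi' : hi ≤ A' + T') (hn' : A' + i0 + T' ≤ n)
    (thX thY u β MX MY R : ℝ≥0∞)
    (huX : ∑' c, (if FL ΛX hX zX T c < thX then FL ΛX hX zX T c else 0) ≤ u)
    (huY : ∑' c, (if FL ΛY hY zY T' c < thY then FL ΛY hY zY T' c else 0) ≤ u)
    (gX bX gY bY : ℕ × G → ℝ≥0∞)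
    (hFX : ∀ c, FL ΛX hX zX A c ≤ gX c + bX c) (hgX : ∀ c, gX c ≤ MX) (hβX : ∑' c, bX c ≤ β)
    (hFY : ∀ c, FL ΛY hY zY A' c ≤ gY c + bY c) (hgY : ∀ c, gY c ≤ MY) (hβY : ∑' c, bY c ≤ β)
    (hRX : ∀ h ∈ Finset.Icc T (T + i0), ∀ h' ∈ Finset.Icc T' (T' + i0),
      ∀ a ∈ Finset.Icc A (A + i0), ∀ a' ∈ Finset.Icc A' (A' + i0), ∀ μ : G → ℝ≥0∞,
      ∑' x, μ x ≤ 1 → (∀ x, μ x ≤ MX) → ∑' x, μ x * Q2 ΛX ΛY hX hY zX zY sX sY h h' lo hi a a'
        (fun L _ => thX ≤ FL ΛX hX zX T (kp hX zX L)) x ≤ R)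
    (hRY : ∀ h ∈ Finset.Icc T (T + i0), ∀ h' ∈ Finset.Icc T' (T' + i0),
      ∀ a ∈ Finset.Icc A (A + i0), ∀ a' ∈ Finset.Icc A' (A' + i0), ∀ μ : G → ℝ≥0∞,
      ∑' x, μ x ≤ 1 → (∀ x, μ x ≤ MY) → ∑' x, μ x * Q2 ΛX ΛY hX hY zX zY sX sY h h' lo hi a a'
        (fun _ M => thY ≤ FL ΛY hY zY T' (kp hY zY M)) x ≤ R)
    (w : G) :
    ∑' L, ∑' M, (if HT hX L = n ∧ HT hY M = n ∧ evF hX hY zX zY sX sY A T i0 lo hi w L M
        then LW ΛX L * LW ΛY M else 0)
      ≤ 2 * ov ΛX hX i0 + (2 * ov ΛY hY i0 + (u * u + ((β + (i0 + 1) * ((i0 + 1) *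
        ((i0 + 1) * ((i0 + 1) * R)))) + (β + (i0 + 1) * ((i0 + 1) *
        ((i0 + 1) * ((i0 + 1) * R))))))) := by
  refine (window_split ΛX ΛY hX hY zX zY sX sY hX1 hY1 hΛX hΛY hUX hUY hs hs' A T A' T' i0 lo hi n
    hlo hhi hn hlo' hhi' hn' w).trans ?_
  refine add_le_add le_rfl (add_le_add le_rfl ?_)
  set pX : List BX → Prop := fun L => thX ≤ FL ΛX hX zX T (kp hX zX L) with hpX
  set pY : List BY → Prop := fun M => thY ≤ FL ΛY hY zY T' (kp hY zY M) with hpY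
  set ΨX : ℕ → ℕ → G → ℝ≥0∞ := fun a a' x => ∑' L2, wF ΛX hX i0 T L2 * ∑' M2,
    wF ΛY hY i0 T' M2 * (if pX L2 ∧ evP hX hY zX zY sX sY lo hi a a' x L2 M2 then 1 else 0)
    with hΨX
  set ΨY : ℕ → ℕ → G → ℝ≥0∞ := fun a' a x => ∑' L2, wF ΛX hX i0 T L2 * ∑' M2,
    wF ΛY hY i0 T' M2 * (if pY M2 ∧ evP hX hY zX zY sX sY lo hi a a' x L2 M2 then 1 else 0)
    with hΨY
  -- split of the indicator
  have step1 : ∀ (a a' : ℕ) (x : G), ∑' L2, wF ΛX hX i0 T L2 * ∑' M2, wF ΛY hY i0 T' M2 *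
        (if evP hX hY zX zY sX sY lo hi a a' x L2 M2 then (1 : ℝ≥0∞) else 0)
      ≤ u * u + (ΨX a a' x + ΨY a' a x) := by
    intro a a' x
    have e1 : ∀ (L2 : List BX) (M2 : List BY),
        (if evP hX hY zX zY sX sY lo hi a a' x L2 M2 then (1 : ℝ≥0∞) else 0)
        ≤ (if FL ΛX hX zX T (kp hX zX L2) < thX then 1 else 0) *
            (if FL ΛY hY zY T' (kp hY zY M2) < thY then 1 else 0)
          + ((if pX L2 ∧ evP hX hY zX zY sX sY lo hi a a' x L2 M2 then 1 else 0)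
          + (if pY M2 ∧ evP hX hY zX zY sX sY lo hi a a' x L2 M2 then 1 else 0)) := by
      intro L2 M2
      by_cases he : evP hX hY zX zY sX sY lo hi a a' x L2 M2
      · rw [if_pos he]
        by_cases h1 : pX L2
        · rw [if_pos (⟨h1, he⟩ : pX L2 ∧ _)]
          exact le_add_left le_self_add
        · by_cases h2 : pY M2
          · rw [if_pos (⟨h2, he⟩ : pY M2 ∧ _)]
            exact le_add_left le_add_self
          · rw [if_pos (not_le.1 h1), if_pos (not_le.1 h2), one_mul]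
            exact le_self_add
      · rw [if_neg he]; exact zero_le
    calc _ ≤ ∑' L2, wF ΛX hX i0 T L2 * ∑' M2, wF ΛY hY i0 T' M2 *
          ((if FL ΛX hX zX T (kp hX zX L2) < thX then 1 else 0) *
            (if FL ΛY hY zY T' (kp hY zY M2) < thY then 1 else 0)
          + ((if pX L2 ∧ evP hX hY zX zY sX sY lo hi a a' x L2 M2 then 1 else 0)
          + (if pY M2 ∧ evP hX hY zX zY sX sY lo hi a a' x L2 M2 then 1 else 0))) := by
          refine ENNReal.tsum_le_tsum fun L2 => mul_le_mul_right ?_ _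
          exact ENNReal.tsum_le_tsum fun M2 => mul_le_mul_right (e1 L2 M2) _
      _ = (∑' L2, wF ΛX hX i0 T L2 * (if FL ΛX hX zX T (kp hX zX L2) < thX then 1 else 0))
            * (∑' M2, wF ΛY hY i0 T' M2 * (if FL ΛY hY zY T' (kp hY zY M2) < thY then 1 else 0))
          + (ΨX a a' x + ΨY a' a x) := by
          simp only [mul_add, ENNReal.tsum_add, hΨX, hΨY]
          congr 1
          rw [← ENNReal.tsum_mul_right]
          refine tsum_congr fun L2 => ?_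
          have hh : ∑' M2, wF ΛY hY i0 T' M2 *
              ((if FL ΛX hX zX T (kp hX zX L2) < thX then 1 else 0) *
              (if FL ΛY hY zY T' (kp hY zY M2) < thY then 1 else 0))
              = (if FL ΛX hX zX T (kp hX zX L2) < thX then 1 else 0) * ∑' M2, wF ΛY hY i0 T' M2 *
              (if FL ΛY hY zY T' (kp hY zY M2) < thY then 1 else 0) := by
            rw [← ENNReal.tsum_mul_left]
            exact tsum_congr fun M2 => by ring
          rw [hh, mul_assoc]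
      _ ≤ _ := by
          refine add_le_add (mul_le_mul' (nonloc ΛX hX zX T i0 thX u huX)
            (nonloc ΛY hY zY T' i0 thY u huY)) le_rfl
  have hmX := wF_mass ΛX hX hX1 hΛX i0 A
  have hmY := wF_mass ΛY hY hY1 hΛY i0 A'
  have step2 : ∑' L1, wF ΛX hX i0 A L1 * ∑' L2, wF ΛX hX i0 T L2 *
        ∑' M1, wF ΛY hY i0 A' M1 * ∑' M2, wF ΛY hY i0 T' M2 *
        (if evP hX hY zX zY sX sY lo hi (HT hX L1) (HT hY M1) (w + Dp zY M1 - Dp zX L1) L2 M2
          then (1 : ℝ≥0∞) else 0)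
      ≤ u * u + (∑' L1, wF ΛX hX i0 A L1 * ∑' M1, wF ΛY hY i0 A' M1 *
          ΨX (HT hX L1) (HT hY M1) (w + Dp zY M1 - Dp zX L1)
        + ∑' L1, wF ΛX hX i0 A L1 * ∑' M1, wF ΛY hY i0 A' M1 *
          ΨY (HT hY M1) (HT hX L1) (w + Dp zY M1 - Dp zX L1)) := by
    calc _ ≤ ∑' L1, wF ΛX hX i0 A L1 * ∑' M1, wF ΛY hY i0 A' M1 *
          (u * u + (ΨX (HT hX L1) (HT hY M1) (w + Dp zY M1 - Dp zX L1)
            + ΨY (HT hY M1) (HT hX L1) (w + Dp zY M1 - Dp zX L1))) := by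
          refine ENNReal.tsum_le_tsum fun L1 => mul_le_mul_right ?_ _
          rw [swapw]
          exact ENNReal.tsum_le_tsum fun M1 => mul_le_mul_right (step1 _ _ _) _
      _ = (∑' L1, wF ΛX hX i0 A L1) * ((∑' M1, wF ΛY hY i0 A' M1) * (u * u))
          + (∑' L1, wF ΛX hX i0 A L1 * ∑' M1, wF ΛY hY i0 A' M1 *
          ΨX (HT hX L1) (HT hY M1) (w + Dp zY M1 - Dp zX L1)
        + ∑' L1, wF ΛX hX i0 A L1 * ∑' M1, wF ΛY hY i0 A' M1 *
          ΨY (HT hY M1) (HT hX L1) (w + Dp zY M1 - Dp zX L1)) := by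
          simp only [mul_add, ENNReal.tsum_add, ENNReal.tsum_mul_right]
      _ ≤ _ := by
          refine add_le_add ?_ le_rfl
          calc _ ≤ 1 * (1 * (u * u)) := mul_le_mul' hmX (mul_le_mul' hmY le_rfl)
            _ = _ := by rw [one_mul, one_mul]
  refine step2.trans (add_le_add le_rfl (add_le_add ?_ ?_))
  · have e1 : ∑' L1, wF ΛX hX i0 A L1 * ∑' M1, wF ΛY hY i0 A' M1 *
          ΨX (HT hX L1) (HT hY M1) (w + Dp zY M1 - Dp zX L1)
        = ∑' c, F1 ΛX hX zX i0 A c * ∑' c', F1 ΛY hY zY i0 A' c' *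
          ΨX c.1 c'.1 ((Equiv.subLeft (w + c'.2)) c.2) := by
      rw [← wF_sum ΛX hX zX i0 A (fun c => ∑' c', F1 ΛY hY zY i0 A' c' *
          ΨX c.1 c'.1 ((Equiv.subLeft (w + c'.2)) c.2))]
      refine tsum_congr fun L1 => ?_
      rw [← wF_sum ΛY hY zY i0 A' (fun c' => ΨX (kp hX zX L1).1 c'.1
        ((Equiv.subLeft (w + c'.2)) (kp hX zX L1).2))]
      rfl
    rw [e1]
    refine localpart (F1 ΛX hX zX i0 A) (F1 ΛY hY zY i0 A') A A' i0 gX bX MX β _
      (fun c => (F1_le ΛX hX zX i0 A c).trans (hFX c)) hgX hβX (F1_mass ΛX hX zX hX1 hΛX i0 A)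
      (F1_mass ΛY hY zY hY1 hΛY i0 A') (F1_supp ΛX hX zX i0 A) (F1_supp ΛY hY zY i0 A') ΨX ?_
      (fun z' => Equiv.subLeft (w + z')) ?_
    · intro a a' x
      calc ΨX a a' x ≤ ∑' L2, wF ΛX hX i0 T L2 * 1 := by
            refine ENNReal.tsum_le_tsum fun L2 => mul_le_mul_right ?_ _
            refine le_trans (ENNReal.tsum_le_tsum fun M2 => ?_) (wF_mass ΛY hY hY1 hΛY i0 T')
            refine mul_le_of_le_one_right' ?_
            split_ifs
            · exact le_rfl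
            · exact zero_le
        _ ≤ 1 := by simpa using wF_mass ΛX hX hX1 hΛX i0 T
    · intro a ha a' ha' μ hμ1 hμM
      calc ∑' x, μ x * ΨX a a' x
          ≤ ∑' x, μ x * ∑ h ∈ Finset.Icc T (T + i0), ∑ h' ∈ Finset.Icc T' (T' + i0),
            Q2 ΛX ΛY hX hY zX zY sX sY h h' lo hi a a' (fun L _ => pX L) x := by
            refine ENNReal.tsum_le_tsum fun x => mul_le_mul_right ?_ _
            refine le_trans (le_of_eq ?_)
              (piece_le ΛX ΛY hX hY zX zY sX sY T T' i0 lo hi a a' (fun L _ => pX L) x)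
            refine tsum_congr fun L2 => ?_
            congr 1
            refine tsum_congr fun M2 => ?_
            congr!
        _ = ∑ h ∈ Finset.Icc T (T + i0), ∑ h' ∈ Finset.Icc T' (T' + i0),
            ∑' x, μ x * Q2 ΛX ΛY hX hY zX zY sX sY h h' lo hi a a' (fun L _ => pX L) x := by
            simp_rw [Finset.mul_sum]
            simp_rw [Summable.tsum_finsetSum (fun _ _ => ENNReal.summable)]
        _ ≤ ∑ h ∈ Finset.Icc T (T + i0), ∑ h' ∈ Finset.Icc T' (T' + i0), R :=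
            Finset.sum_le_sum fun h hh => Finset.sum_le_sum fun h' hh' =>
              hRX h hh h' hh' a ha a' ha' μ hμ1 hμM
        _ = _ := by rw [icc_sum_const, icc_sum_const]
  · have e1 : ∑' L1, wF ΛX hX i0 A L1 * ∑' M1, wF ΛY hY i0 A' M1 *
          ΨY (HT hY M1) (HT hX L1) (w + Dp zY M1 - Dp zX L1)
        = ∑' c', F1 ΛY hY zY i0 A' c' * ∑' c, F1 ΛX hX zX i0 A c *
          ΨY c'.1 c.1 ((Equiv.addLeft (w - c.2)) c'.2) := by
      rw [swapw, ← wF_sum ΛY hY zY i0 A' (fun c' => ∑' c, F1 ΛX hX zX i0 A c *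
          ΨY c'.1 c.1 ((Equiv.addLeft (w - c.2)) c'.2))]
      refine tsum_congr fun M1 => ?_
      rw [← wF_sum ΛX hX zX i0 A (fun c => ΨY (kp hY zY M1).1 c.1
        ((Equiv.addLeft (w - c.2)) (kp hY zY M1).2))]
      congr 1
      refine tsum_congr fun L1 => ?_
      congr 2
      simp only [Equiv.coe_addLeft, kp]
      abel
    rw [e1]
    refine localpart (F1 ΛY hY zY i0 A') (F1 ΛX hX zX i0 A) A' A i0 gY bY MY β _
      (fun c => (F1_le ΛY hY zY i0 A' c).trans (hFY c)) hgY hβY (F1_mass ΛY hY zY hY1 hΛY i0 A')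
      (F1_mass ΛX hX zX hX1 hΛX i0 A) (F1_supp ΛY hY zY i0 A') (F1_supp ΛX hX zX i0 A) ΨY ?_
      (fun z => Equiv.addLeft (w - z)) ?_
    · intro a' a x
      calc ΨY a' a x ≤ ∑' L2, wF ΛX hX i0 T L2 * 1 := by
            refine ENNReal.tsum_le_tsum fun L2 => mul_le_mul_right ?_ _
            refine le_trans (ENNReal.tsum_le_tsum fun M2 => ?_) (wF_mass ΛY hY hY1 hΛY i0 T')
            refine mul_le_of_le_one_right' ?_
            split_ifs
            · exact le_rfl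
            · exact zero_le
        _ ≤ 1 := by simpa using wF_mass ΛX hX hX1 hΛX i0 T
    · intro a' ha' a ha μ hμ1 hμM
      calc ∑' x, μ x * ΨY a' a x
          ≤ ∑' x, μ x * ∑ h ∈ Finset.Icc T (T + i0), ∑ h' ∈ Finset.Icc T' (T' + i0),
            Q2 ΛX ΛY hX hY zX zY sX sY h h' lo hi a a' (fun _ M => pY M) x := by
            refine ENNReal.tsum_le_tsum fun x => mul_le_mul_right ?_ _
            refine le_trans (le_of_eq ?_)
              (piece_le ΛX ΛY hX hY zX zY sX sY T T' i0 lo hi a a' (fun _ M => pY M) x)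
            refine tsum_congr fun L2 => ?_
            congr 1
            refine tsum_congr fun M2 => ?_
            congr!
        _ = ∑ h ∈ Finset.Icc T (T + i0), ∑ h' ∈ Finset.Icc T' (T' + i0),
            ∑' x, μ x * Q2 ΛX ΛY hX hY zX zY sX sY h h' lo hi a a' (fun _ M => pY M) x := by
            simp_rw [Finset.mul_sum]
            simp_rw [Summable.tsum_finsetSum (fun _ _ => ENNReal.summable)]
        _ ≤ ∑ h ∈ Finset.Icc T (T + i0), ∑ h' ∈ Finset.Icc T' (T' + i0), R :=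
            Finset.sum_le_sum fun h hh => Finset.sum_le_sum fun h' hh' =>
              hRY h hh h' hh' a ha a' ha' μ hμ1 hμM
        _ = _ := by rw [icc_sum_const, icc_sum_const]

end Crest.Agent.R154.Asm532
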