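import Mathlib

/-! Row 154, ROAD 801 (helper337): the choice of the constants `ε | K, u | i0 | lam | s`. -/

set_option autoImplicit false

namespace Crest.Agent.R154.Num337

open scoped ENNReal Topology
open Filter

/-- bounding a power by halves -/
lemma pow_half (r : ℕ) (hr : 1 ≤ r) :
    (1 - (r : ℝ)⁻¹) ^ r ≤ (1 / 2 : ℝ) := by
  rcases Nat.lt_or_ge r 2 with h | h
  · have : r = 1 := by omega
    subst this
    norm_num
  · have hr0 : (2 : ℝ) ≤ r := by exact_mod_cast h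
    have h1 : (1 - (r : ℝ)⁻¹) ^ r ≤ Real.exp (-1) := by
      have h2 : (1 - (r : ℝ)⁻¹) ≤ Real.exp (-(r : ℝ)⁻¹) := by
        have := Real.add_one_le_exp (-(r : ℝ)⁻¹)
        linarith
      have h0 : (0 : ℝ) ≤ 1 - (r : ℝ)⁻¹ := by
        have : (r : ℝ)⁻¹ ≤ 1 := inv_le_one_of_one_le₀ (by linarith)
        linarith
      calc (1 - (r : ℝ)⁻¹) ^ r ≤ (Real.exp (-(r : ℝ)⁻¹)) ^ r := by gcongr
        _ = Real.exp (-1) := by
          rw [← Real.exp_nat_mul]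
          congr 1
          field_simp
    refine h1.trans ?_
    have h3 : (2 : ℝ) ≤ Real.exp 1 := by
      have := Real.add_one_le_exp (1 : ℝ)
      linarith
    rw [Real.exp_neg]
    rw [one_div]
    exact inv_anti₀ (by norm_num) h3

/-- the first two constants: `K` windows and the quantile `u` -/
theorem exKu_real (ε : ℝ) (hε : 0 < ε) : ∃ (K : ℕ) (u : ℝ), 4 ≤ K ∧ 0 < u ∧ u < 1 ∧
    ((4 * K + 8 : ℕ) : ℝ) * (u * u) ≤ ε ∧ ((4 * K + 8 : ℕ) : ℝ) * (1 - u) ^ (K / 4) ≤ ε := by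
  -- K = 4 r ^ 4, u = 1 / r ^ 3
  have t1 : Tendsto (fun r : ℕ => (16 * (r : ℝ) ^ 4 + 8) * (1 / 2 : ℝ) ^ r) atTop (𝓝 0) := by
    have a1 := tendsto_pow_const_mul_const_pow_of_abs_lt_one 4 (r := (1 / 2 : ℝ))
      (by rw [abs_of_pos] <;> norm_num)
    have a2 := tendsto_pow_atTop_nhds_zero_of_lt_one (r := (1 / 2 : ℝ)) (by norm_num) (by norm_num)
    have := (a1.const_mul 16).add (a2.const_mul 8)
    simp only [mul_zero, add_zero] at this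
    refine this.congr fun r => ?_
    ring
  have t2 : Tendsto (fun r : ℕ => 24 * ((r : ℝ))⁻¹) atTop (𝓝 0) := by
    have := (tendsto_inv_atTop_nhds_zero_nat (𝕜 := ℝ)).const_mul 24
    simpa using this
  have e1 := t1.eventually (ge_mem_nhds hε)
  have e2 := t2.eventually (ge_mem_nhds hε)
  obtain ⟨r, ⟨h1, h2⟩, h3⟩ := ((e1.and e2).and (eventually_ge_atTop 2)).exists
  have hr : (2 : ℝ) ≤ r := by exact_mod_cast h3
  have hr0 : (0 : ℝ) < r := by linarith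
  refine ⟨4 * r ^ 4, ((r : ℝ) ^ 3)⁻¹, ?_, by positivity, ?_, ?_, ?_⟩
  · have : 1 ≤ r ^ 4 := Nat.one_le_pow _ _ (by omega)
    omega
  · apply inv_lt_one_of_one_lt₀
    have : (2 : ℝ) ^ 3 ≤ (r : ℝ) ^ 3 := by gcongr
    linarith [this]
  · refine le_trans ?_ h2
    push_cast
    have hb : (8 : ℝ) ≤ 8 * (r : ℝ) ^ 4 := by
      have : (1 : ℝ) ≤ (r : ℝ) ^ 4 := one_le_pow₀ (by linarith)
      linarith
    have e : 24 * ((r : ℝ))⁻¹ ≥ 24 * ((r : ℝ) ^ 2)⁻¹ := by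
      have : ((r : ℝ) ^ 2)⁻¹ ≤ ((r : ℝ))⁻¹ := by
        apply inv_anti₀ hr0
        nlinarith
      linarith
    refine le_trans ?_ e
    have : (4 * (4 * (r : ℝ) ^ 4) + 8) * (((r : ℝ) ^ 3)⁻¹ * ((r : ℝ) ^ 3)⁻¹)
        ≤ (24 * (r : ℝ) ^ 4) * (((r : ℝ) ^ 3)⁻¹ * ((r : ℝ) ^ 3)⁻¹) := by
      gcongr
      linarith
    refine this.trans (le_of_eq ?_)
    field_simp
  · refine le_trans ?_ h1
    have hd : 4 * r ^ 4 / 4 = r ^ 3 * r := by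
      rw [Nat.mul_div_cancel_left _ (by norm_num)]
      ring
    rw [hd, pow_mul]
    push_cast
    have hk : (1 - ((r : ℝ) ^ 3)⁻¹) ^ (r ^ 3) ≤ (1 / 2 : ℝ) := by
      have := pow_half (r ^ 3) (Nat.one_le_pow _ _ (by omega))
      push_cast at this
      exact this
    have h0 : (0 : ℝ) ≤ (1 - ((r : ℝ) ^ 3)⁻¹) ^ (r ^ 3) := by
      apply pow_nonneg
      have : ((r : ℝ) ^ 3)⁻¹ ≤ 1 := inv_le_one_of_one_le₀ (one_le_pow₀ (by linarith))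
      linarith
    have : ((1 - ((r : ℝ) ^ 3)⁻¹) ^ (r ^ 3)) ^ r ≤ (1 / 2 : ℝ) ^ r := by gcongr
    have h16 : (4 * (4 * (r : ℝ) ^ 4) + 8) = 16 * (r : ℝ) ^ 4 + 8 := by ring
    rw [h16]
    gcongr

/-- `K` windows and the quantile `u`: `K u² ≤ ε`, `K (1 - u) ^ (K / 4) ≤ ε` -/
theorem exKu (ε : ℝ≥0∞) (hε : ε ≠ 0) : ∃ (K : ℕ) (u : ℝ≥0∞), 4 ≤ K ∧ u ≠ 0 ∧ u < 1 ∧
    ((4 * K + 8 : ℕ) : ℝ≥0∞) * (u * u) ≤ ε ∧ ((4 * K + 8 : ℕ) : ℝ≥0∞) * (1 - u) ^ (K / 4) ≤ ε := by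
  obtain ⟨δ, hδ0, hδ⟩ : ∃ δ : ℝ, 0 < δ ∧ ENNReal.ofReal δ ≤ ε := by
    rcases eq_or_ne ε ⊤ with rfl | h
    · exact ⟨1, one_pos, le_top⟩
    · exact ⟨ε.toReal, ENNReal.toReal_pos hε h, by rw [ENNReal.ofReal_toReal h]⟩
  obtain ⟨K, u, hK, hu0, hu1, h1, h2⟩ := exKu_real δ hδ0
  refine ⟨K, ENNReal.ofReal u, hK, by simpa using hu0, ?_, ?_, ?_⟩
  · rw [← ENNReal.ofReal_one]
    exact (ENNReal.ofReal_lt_ofReal_iff one_pos).2 hu1
  · refine le_trans ?_ hδ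
    rw [← ENNReal.ofReal_mul hu0.le, ← ENNReal.ofReal_natCast,
      ← ENNReal.ofReal_mul (by positivity)]
    exact ENNReal.ofReal_le_ofReal h1
  · refine le_trans ?_ hδ
    have : (1 : ℝ≥0∞) - ENNReal.ofReal u = ENNReal.ofReal (1 - u) := by
      rw [ENNReal.ofReal_sub _ hu0.le, ENNReal.ofReal_one]
    rw [this, ← ENNReal.ofReal_pow (by linarith), ← ENNReal.ofReal_natCast,
      ← ENNReal.ofReal_mul (by positivity)]
    exact ENNReal.ofReal_le_ofReal h2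

/-- a sequence tending to `0` times a finite constant -/
lemma exSmall (f : ℕ → ℝ≥0∞) (hf : Tendsto f atTop (𝓝 0)) (A : ℝ≥0∞) (hA : A ≠ ⊤) (ε : ℝ≥0∞)
    (hε : ε ≠ 0) : ∃ n0, ∀ n, n0 ≤ n → A * f n ≤ ε := by
  have : Tendsto (fun n => A * f n) atTop (𝓝 0) := by
    have := ENNReal.Tendsto.const_mul hf (Or.inr hA)
    simpa using this
  have h := this.eventually (ge_mem_nhds (pos_iff_ne_zero.2 hε))
  obtain ⟨n0, hn0⟩ := eventually_atTop.1 h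
  exact ⟨n0, hn0⟩

/-- `lam` and then `s`: `A (lam + D us / lam + us) ≤ ε` -/
theorem exLam (A D : ℝ≥0∞) (hA : A ≠ ⊤) (hD : D ≠ ⊤) (us : ℕ → ℝ≥0∞)
    (hus : Tendsto us atTop (𝓝 0)) (ε : ℝ≥0∞) (hε : ε ≠ 0) :
    ∃ lam : ℝ≥0∞, lam ≠ 0 ∧ lam ≠ ⊤ ∧ lam ≤ 1 ∧
      ∃ s0, ∀ s, s0 ≤ s → A * (lam + D * us s / lam + us s) ≤ ε := by
  set ε' : ℝ≥0∞ := min ε 1 with hε'
  have hε'0 : ε' ≠ 0 := by simp [hε', hε]
  have hε'1 : ε' ≤ 1 := min_le_right _ _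
  set B : ℝ≥0∞ := A + 1 with hB
  have hB0 : B ≠ 0 := by simp [hB]
  have hBt : B ≠ ⊤ := by simp [hB, hA]
  set lam : ℝ≥0∞ := ε' / 2 / B with hlam
  have hl0 : lam ≠ 0 := by
    rw [hlam]
    refine (ENNReal.div_ne_zero).2 ⟨?_, hBt⟩
    exact (ENNReal.div_ne_zero).2 ⟨hε'0, by norm_num⟩
  have hε't : ε' ≠ ⊤ := ne_top_of_le_ne_top ENNReal.one_ne_top hε'1
  have hl1 : lam ≤ 1 := by
    rw [hlam]
    refine ENNReal.div_le_of_le_mul ?_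
    rw [one_mul]
    calc ε' / 2 ≤ ε' := ENNReal.half_le_self
      _ ≤ 1 := hε'1
      _ ≤ B := by rw [hB]; exact le_add_self
  have hlt : lam ≠ ⊤ := ne_top_of_le_ne_top ENNReal.one_ne_top hl1
  have h1 : A * lam ≤ ε' / 2 := by
    calc A * lam ≤ B * lam := by gcongr; rw [hB]; exact le_self_add
      _ = ε' / 2 := ENNReal.mul_div_cancel hB0 hBt
  have hD' : A * (D / lam + 1) ≠ ⊤ := by
    refine ENNReal.mul_ne_top hA ?_
    refine ENNReal.add_ne_top.2 ⟨?_, ENNReal.one_ne_top⟩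
    exact ENNReal.div_ne_top hD hl0
  obtain ⟨s0, hs0⟩ := exSmall us hus (A * (D / lam + 1)) hD' (ε' / 2)
    ((ENNReal.div_ne_zero).2 ⟨hε'0, by norm_num⟩)
  refine ⟨lam, hl0, hlt, hl1, s0, fun s hs => ?_⟩
  calc A * (lam + D * us s / lam + us s)
      = A * lam + A * (D / lam + 1) * us s := by
        rw [ENNReal.div_eq_inv_mul, ENNReal.div_eq_inv_mul]
        ring
    _ ≤ ε' / 2 + ε' / 2 := add_le_add h1 (hs0 s hs)
    _ = ε' := ENNReal.add_halves _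
    _ ≤ ε := min_le_left _ _

end Crest.Agent.R154.Num337
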