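import Crest.Agent.R154.Asm4_66
import Crest.Agent.R154.Num_337

/-! Row 154 (helper66), ROAD 801: assembly, part 5 (sum over the windows, order of constants). -/

set_option autoImplicit false

namespace Crest.Agent.R154.Asm66

open scoped ENNReal Topology
open Filter
open Crest.Agent.R154.B5A Crest.Agent.R154.FP178

section fin
variable {BX BY G : Type*} [AddCommGroup G]
  (ΛX : BX → ℝ≥0∞) (hX : BX → ℕ) (zX : BX → G) (sX : BX → Set (G × ℕ))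
  (ΛY : BY → ℝ≥0∞) (hY : BY → ℕ) (zY : BY → G) (sY : BY → Set (G × ℕ))

/-- event of one window -/
def Ev (w : G) (A t hi sl : ℕ) (LX : List BX) (LY : List BY) : Prop :=
  (∃ p, p ∈ TT hX zX sX LX 0 0 ∧ p ∈ TT hY zY sY LY w 0 ∧ p.2 ≤ A + t) ∧
  ∀ p, p ∈ TT hX zX sX LX 0 0 → p ∈ TT hY zY sY LY w 0 → A < p.2 ∧ ¬ (hi < p.2 ∧ p.2 ≤ hi + sl)

lemma ev_piece (hsX : ∀ b q, q ∈ sX b → 1 ≤ q.2 ∧ q.2 ≤ hX b)
    (hsY : ∀ b q, q ∈ sY b → 1 ≤ q.2 ∧ q.2 ≤ hY b) (w : G) (A t hi sl a b a' b' i0 : ℕ)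
    (h1 : a + i0 ≤ A) (h2 : a' + i0 ≤ A) (h3 : A + t ≤ a + b) (h4 : A + t ≤ a' + b')
    (h5 : a + i0 + (b + i0) ≤ hi + sl)
    (L1 L2 L3 : List BX) (M1 M2 M3 : List BY) (f1 : fp hX a L1) (l1 : HT hX L1 ≤ a + i0)
    (f2 : fp hX b L2) (f3 : fp hY a' M1) (l3 : HT hY M1 ≤ a' + i0) (f4 : fp hY b' M2)
    (hb : HT hX L2 ≤ b + i0)
    (hE : Ev hX zX sX hY zY sY w A t hi sl (L1 ++ (L2 ++ L3)) (M1 ++ (M2 ++ M3))) :
    Con (A + 1) hi (TT hX zX sX L2 (Dp zX L1) (HT hX L1))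
      (TT hY zY sY M2 (w + Dp zY M1) (HT hY M1)) := by
  have g1 := le_HT_of_fp hX f1
  have g2 := le_HT_of_fp hX f2
  have g3 := le_HT_of_fp hY f3
  have g4 := le_HT_of_fp hY f4
  obtain ⟨⟨p, pX, pY, hp⟩, hall⟩ := hE
  have eX : TT hX zX sX (L1 ++ (L2 ++ L3)) 0 0 = TT hX zX sX L1 0 0 ∪
      (TT hX zX sX L2 (Dp zX L1) (HT hX L1) ∪
        TT hX zX sX L3 (Dp zX L1 + Dp zX L2) (HT hX L1 + HT hX L2)) := by
    rw [TT_append, TT_append, zero_add, zero_add]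
  have eY : TT hY zY sY (M1 ++ (M2 ++ M3)) w 0 = TT hY zY sY M1 w 0 ∪
      (TT hY zY sY M2 (w + Dp zY M1) (HT hY M1) ∪
        TT hY zY sY M3 (w + Dp zY M1 + Dp zY M2) (HT hY M1 + HT hY M2)) := by
    rw [TT_append, TT_append, zero_add]
  have hA := (hall p pX pY).1
  refine ⟨⟨p, ?_, ?_⟩, ?_⟩
  · rw [eX] at pX
    rcases pX with h | h | h
    · have := TT_depth hX zX sX hsX _ _ _ _ h; omega
    · exact h
    · have := TT_depth hX zX sX hsX _ _ _ _ h; omega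
  · rw [eY] at pY
    rcases pY with h | h | h
    · have := TT_depth hY zY sY hsY _ _ _ _ h; omega
    · exact h
    · have := TT_depth hY zY sY hsY _ _ _ _ h; omega
  · intro q qX qY
    have hq := hall q (by rw [eX]; exact Or.inr (Or.inl qX)) (by rw [eY]; exact Or.inr (Or.inl qY))
    have hd := TT_depth hX zX sX hsX _ _ _ _ qX
    refine ⟨hq.1, ?_⟩
    by_contra hc
    exact hq.2 ⟨by omega, by omega⟩

/-- overshoot of the piece or contact -/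
def EvQ (w : G) (bb lo hi : ℕ) (L1 L2 : List BX) (M1 M2 : List BY) : Prop :=
  bb < HT hX L2 ∨ Con lo hi (TT hX zX sX L2 (Dp zX L1) (HT hX L1))
        (TT hY zY sY M2 (w + Dp zY M1) (HT hY M1))

open Classical in
/-- one window -/
theorem window (h1X : ∀ b, 1 ≤ hX b) (h1Y : ∀ b, 1 ≤ hY b)
    (hΛX : ∑' b, ΛX b = 1) (hΛY : ∑' b, ΛY b = 1)
    (hUX : ∀ n, U ΛX hX n ≤ 1) (hUY : ∀ n, U ΛY hY n ≤ 1)
    (hsX : ∀ b q, q ∈ sX b → 1 ≤ q.2 ∧ q.2 ≤ hX b) (hsY : ∀ b q, q ∈ sY b → 1 ≤ q.2 ∧ q.2 ≤ hY b)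
    (C : ℝ≥0∞) (us : ℕ → ℝ≥0∞)
    (hH2 : H2 ΛX hX zX sX ΛY hY zY sY C us) (hH3 : H3 ΛX hX zX sX ΛY hY zY sY C us)
    (w : G) (s i0 a t J n : ℕ) (lam u e : ℝ≥0∞) (hl0 : lam ≠ 0) (hl1 : lam ≠ ⊤)
    (hu0 : u ≠ 0) (hu1 : u < 1) (heX : LD460.eps1 ΛX hX i0 ≤ e) (heY : LD460.eps1 ΛY hY i0 ≤ e)
    (heu : e ≤ u / 2) (ht : 2 * i0 + s + 1 ≤ t) (hJ : J * (3 * t + 2 * i0) ≤ a)
    (hn : a + 3 * t + 4 * i0 ≤ n) :
    ∑' LX, ∑' LY, (if HT hX LX = n ∧ HT hY LY = n ∧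
        Ev hX zX sX hY zY sY w (a + t) t (a + 3 * t - s - 1) (s + 1 + 4 * i0) LX LY
        then LW ΛX LX * LW ΛY LY else 0)
      ≤ 6 * e + 2 * ((1 - u / 2) ^ J + J * e) + u * u
        + 2 * (((i0 + 1) ^ 4 : ℕ) * (C * (lam + ((i0 + 1 : ℕ) / (u / 2)) * us s / lam + us s))) := by
  obtain ⟨thX, EX, hthX0, hthX1, hcX, hnlX, hdX⟩ :=
    densP ΛX hX zX h1X hΛX hUX u hu0 hu1 i0 (heX.trans heu) (3 * t)
  obtain ⟨thY, EY, hthY0, hthY1, hcY, hnlY, hdY⟩ :=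
    densP ΛY hY zY h1Y hΛY hUY u hu0 hu1 i0 (heY.trans heu) (3 * t + i0)
  obtain ⟨SX, hSX, hDX⟩ := hdX J a (le_trans (Nat.mul_le_mul_left J (by omega)) hJ)
  obtain ⟨SY, hSY, hDY⟩ := hdY J (a + i0)
    (le_trans (Nat.mul_le_mul_left J (by omega)) (hJ.trans (by omega)))
  have ovX : ∀ c, ovm ΛX hX c i0 ≤ e := by
    intro c
    refine le_trans (le_of_eq ?_) ((LD460.overshoot ΛX hX h1X hUX i0 c).trans heX)
    refine tsum_congr fun L => ?_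
    simp only [FP_iff_fp]
  have ovY : ∀ c, ovm ΛY hY c i0 ≤ e := by
    intro c
    refine le_trans (le_of_eq ?_) ((LD460.overshoot ΛY hY h1Y hUY i0 c).trans heY)
    refine tsum_congr fun L => ?_
    simp only [FP_iff_fp]
  have hK : ∀ (th : ℝ≥0∞) (c : ℕ), (c : ℝ≥0∞) * th ≤ 1 →
      ((i0 + 1 : ℕ) * th / (u / 2)) * c ≤ (i0 + 1 : ℕ) / (u / 2) := by
    intro th c hc
    calc ((i0 + 1 : ℕ) * th / (u / 2)) * c = ((i0 + 1 : ℕ) / (u / 2)) * (c * th) := by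
          simp only [div_eq_mul_inv]; ring
      _ ≤ ((i0 + 1 : ℕ) / (u / 2)) * 1 := mul_le_mul_right hc _
      _ = _ := mul_one _
  have hwin := win_bound ΛX hX zX sX ΛY hY zY sY h1X h1Y hΛX.le hΛY.le hUX hUY C us hH2 hH3
    w s i0 a (3 * t) (a + i0) (3 * t + i0) (a + t + 1) (a + 3 * t - s - 1) lam u hl0 hl1 rfl rfl
    (by omega) (by omega) EX EY SX SY ((i0 + 1 : ℕ) * thX / (u / 2))
    ((i0 + 1 : ℕ) * thY / (u / 2)) ((i0 + 1 : ℕ) / (u / 2)) ((i0 + 1 : ℕ) / (u / 2))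
    (fun h => hK _ _ (hcX h)) (fun h => hK _ _ (hcY h)) hnlX hnlY
    (fun h g => hDX h g) (fun h g => hDY h g) _ _ hSX hSY
  have hts := two_split ΛX hX ΛY hY h1X h1Y hUX hUY hΛX.le n i0 a (3 * t) (a + i0) (3 * t + i0)
    (by omega) (by omega)
    (Ev hX zX sX hY zY sY w (a + t) t (a + 3 * t - s - 1) (s + 1 + 4 * i0))
    (EvQ hX zX sX hY zY sY w (3 * t + i0) (a + t + 1) (a + 3 * t - s - 1))
    (fun L1 L2 L3 M1 M2 M3 f1 l1 f2 f3 l3 f4 hE => by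
      by_cases hb : HT hX L2 ≤ 3 * t + i0
      · exact Or.inr (ev_piece hX zX sX hY zY sY hsX hsY w (a + t) t (a + 3 * t - s - 1)
          (s + 1 + 4 * i0) a (3 * t) (a + i0) (3 * t + i0) i0 (by omega) (by omega) (by omega)
          (by omega) (by omega) L1 L2 L3 M1 M2 M3 f1 l1 f2 f3 l3 f4 hb hE)
      · exact Or.inl (by omega))
  refine hts.trans ?_
  have hsplit : ∑' L1, ∑' L2, w2 ΛX hX a i0 (3 * t) L1 L2 *
          ∑' M1, ∑' M2, w2 ΛY hY (a + i0) i0 (3 * t + i0) M1 M2 *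
          (if EvQ hX zX sX hY zY sY w (3 * t + i0) (a + t + 1) (a + 3 * t - s - 1) L1 L2 M1 M2
            then 1 else 0)
      ≤ e + II ΛX hX ΛY hY i0 a (3 * t) (a + i0) (3 * t + i0) (fun L1 L2 M1 M2 =>
        if Con (a + t + 1) (a + 3 * t - s - 1) (TT hX zX sX L2 (Dp zX L1) (HT hX L1))
          (TT hY zY sY M2 (w + Dp zY M1) (HT hY M1)) then 1 else 0) := by
    have h1 : II ΛX hX ΛY hY i0 a (3 * t) (a + i0) (3 * t + i0) (fun _ L2 _ _ =>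
      (1 * (if 3 * t + i0 < HT hX L2 then 1 else 0)) * (1 * 1)) ≤ e := by
      refine (II_prod ΛX hX ΛY hY h1X h1Y hΛX.le hΛY.le i0 a (3 * t) (a + i0) (3 * t + i0)
        (fun _ => 1) (fun L2 => if 3 * t + i0 < HT hX L2 then 1 else 0) (fun _ => 1)
        (fun _ => 1)).trans ?_
      have : (∑' L2, (if fp hX (3 * t) L2 then LW ΛX L2 *
          (if 3 * t + i0 < HT hX L2 then 1 else 0) else 0)) = ovm ΛX hX (3 * t) i0 := by
        refine tsum_congr fun L => ?_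
        by_cases h1 : fp hX (3 * t) L <;> by_cases h2 : 3 * t + i0 < HT hX L <;> simp [h1, h2]
      rw [this]
      calc _ ≤ (1 * ovm ΛX hX (3 * t) i0) * (1 * 1) :=
            mul_le_mul' (mul_le_mul' (fpm_le_one ΛX hX h1X hΛX.le a) le_rfl)
              (mul_le_mul' (fpm_le_one ΛY hY h1Y hΛY.le _) (fpm_le_one ΛY hY h1Y hΛY.le _))
        _ = ovm ΛX hX (3 * t) i0 := by ring
        _ ≤ e := ovX _
    refine le_trans ?_ (add_le_add h1 le_rfl)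
    rw [← II_add]
    refine II_mono ΛX hX ΛY hY i0 a (3 * t) (a + i0) (3 * t + i0) _ _ ?_
    intro L1 L2 M1 M2 _ _ _ _ _ _
    by_cases k1 : 3 * t + i0 < HT hX L2
    · have q1 : EvQ hX zX sX hY zY sY w (3 * t + i0) (a + t + 1) (a + 3 * t - s - 1) L1 L2 M1 M2 :=
        Or.inl k1
      rw [if_pos q1, if_pos k1]
      simp only [mul_one]
      exact le_self_add
    · by_cases k2 : Con (a + t + 1) (a + 3 * t - s - 1) (TT hX zX sX L2 (Dp zX L1) (HT hX L1))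
        (TT hY zY sY M2 (w + Dp zY M1) (HT hY M1))
      · have q1 : EvQ hX zX sX hY zY sY w (3 * t + i0) (a + t + 1) (a + 3 * t - s - 1) L1 L2 M1 M2 :=
          Or.inr k2
        rw [if_pos q1, if_pos k2]
        exact le_add_self
      · have q1 : ¬ EvQ hX zX sX hY zY sY w (3 * t + i0) (a + t + 1) (a + 3 * t - s - 1)
            L1 L2 M1 M2 := fun h => h.elim k1 k2
        rw [if_neg q1]; exact zero_le
  have hnX : (1 - u / 2) ^ J + J * LD460.eps1 ΛX hX i0 ≤ (1 - u / 2) ^ J + J * e := by gcongr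
  have hnY : (1 - u / 2) ^ J + J * LD460.eps1 ΛY hY i0 ≤ (1 - u / 2) ^ J + J * e := by gcongr
  have hwin2 := hwin.trans (add_le_add (add_le_add (add_le_add (add_le_add (add_le_add
    (add_le_add (ovX (3 * t)) (ovY (3 * t + i0))) hnX) hnY) (le_refl (u * u))) le_rfl) le_rfl)
  refine (add_le_add (ovX a) (add_le_add (ovY (a + i0))
    (hsplit.trans (add_le_add le_rfl hwin2)))).trans ?_
  set Z := ((i0 + 1) ^ 4 : ℕ) * (C * (lam + ((i0 + 1 : ℕ) / (u / 2)) * us s / lam + us s)) with hZ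
  set Y := (1 - u / 2) ^ J + J * e with hY'
  calc e + (e + (e + (e + e + Y + Y + u * u + Z + Z))) = 5 * e + 2 * Y + u * u + 2 * Z := by ring
    _ ≤ 6 * e + 2 * Y + u * u + 2 * Z := by gcongr; norm_num

/-- thin slab input -/
def H5 : Prop := ∀ (s : ℕ) (η : ℝ≥0∞), η ≠ 0 → ∃ T, ∀ a, T ≤ a → ∀ n w,
  ∑' LX, ∑' LY, (open Classical in if HT hX LX = n ∧ HT hY LY = n ∧
    ∃ p, a ≤ p.2 ∧ p.2 < a + s ∧ p ∈ TT hX zX sX LX 0 0 ∧ p ∈ TT hY zY sY LY w 0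
    then LW ΛX LX * LW ΛY LY else 0) ≤ η

open Classical in
/-- **assembly** -/
theorem kapS1 (h1X : ∀ b, 1 ≤ hX b) (h1Y : ∀ b, 1 ≤ hY b)
    (hΛX : ∑' b, ΛX b = 1) (hΛY : ∑' b, ΛY b = 1)
    (hUX : ∀ n, U ΛX hX n ≤ 1) (hUY : ∀ n, U ΛY hY n ≤ 1)
    (heX : Tendsto (LD460.eps1 ΛX hX) atTop (𝓝 0)) (heY : Tendsto (LD460.eps1 ΛY hY) atTop (𝓝 0))
    (hsX : ∀ b q, q ∈ sX b → 1 ≤ q.2 ∧ q.2 ≤ hX b) (hsY : ∀ b q, q ∈ sY b → 1 ≤ q.2 ∧ q.2 ≤ hY b)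
    (C : ℝ≥0∞) (hC : C ≠ ⊤) (us : ℕ → ℝ≥0∞) (hus : Tendsto us atTop (𝓝 0))
    (hH2 : H2 ΛX hX zX sX ΛY hY zY sY C us) (hH3 : H3 ΛX hX zX sX ΛY hY zY sY C us)
    (hH5 : H5 ΛX hX zX sX ΛY hY zY sY) (ε : ℝ≥0∞) (hε : ε ≠ 0) :
    ∃ M, ∀ m, M ≤ m → ∃ n0, ∀ n, n0 ≤ n → ∀ w,
      ∑' LX, ∑' LY, (if HT hX LX = n ∧ HT hY LY = n ∧
        (∀ p, p ∈ TT hX zX sX LX 0 0 → p ∈ TT hY zY sY LY w 0 → m < p.2) ∧
        (∃ p, p ∈ TT hX zX sX LX 0 0 ∧ p ∈ TT hY zY sY LY w 0 ∧ p.2 ≤ 2 * m)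
        then LW ΛX LX * LW ΛY LY else 0) ≤ ε := by
  set ε1 : ℝ≥0∞ := min (ε / 64) 1 with hε1
  have hε1' : ε1 ≠ 0 := by
    rw [hε1]
    refine (lt_min ?_ one_pos).ne'
    exact ENNReal.div_pos hε (by norm_num)
  obtain ⟨K, v, hK4, hv0, hv1, hKv, hKp⟩ := Num337.exKu ε1 hε1'
  set W : ℕ := 4 * K + 8 with hW
  set J : ℕ := K / 4 with hJ
  have hJ1 : 1 ≤ J := by omega
  have hJW : 10 * J ≤ W := by omega
  set u : ℝ≥0∞ := 2 * v with hu
  have hu0 : u ≠ 0 := by simp [hu, hv0]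
  have huu : u * u = 4 * (v * v) := by rw [hu]; ring
  have hu1 : u < 1 := by
    by_contra hc
    rw [not_lt] at hc
    have h1 : (1 : ℝ≥0∞) ≤ u * u := by
      calc (1 : ℝ≥0∞) = 1 * 1 := (one_mul 1).symm
        _ ≤ u * u := mul_le_mul' hc hc
    have h3 : (24 : ℝ≥0∞) * (v * v) ≤ 1 := by
      calc (24 : ℝ≥0∞) * (v * v) ≤ (W : ℝ≥0∞) * (v * v) := by
            refine mul_le_mul_left ?_ _
            exact_mod_cast (by omega : 24 ≤ W)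
        _ ≤ ε1 := hKv
        _ ≤ 1 := min_le_right _ _
    have h4 : (6 : ℝ≥0∞) ≤ 1 := by
      calc (6 : ℝ≥0∞) = 6 * 1 := (mul_one 6).symm
        _ ≤ 6 * (u * u) := mul_le_mul_right h1 _
        _ = 24 * (v * v) := by rw [huu]; ring
        _ ≤ 1 := h3
    exact absurd h4 (by norm_num)
  have hu2 : u / 2 = v := by
    rw [hu, mul_comm, ENNReal.mul_div_cancel_right (by norm_num) (by norm_num)]
  -- choice of i0
  have hf : Tendsto (fun i => LD460.eps1 ΛX hX i + LD460.eps1 ΛY hY i) atTop (𝓝 0) := by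
    simpa using heX.add heY
  obtain ⟨i1, hi1⟩ := Num337.exSmall _ hf ((W : ℝ≥0∞) * (6 + 2 * J)) (by
    exact ENNReal.mul_ne_top (ENNReal.natCast_ne_top _) (ENNReal.add_ne_top.2 ⟨by norm_num,
      ENNReal.mul_ne_top (by norm_num) (ENNReal.natCast_ne_top _)⟩)) ε1 hε1'
  obtain ⟨i2, hi2⟩ := Num337.exSmall _ hf 1 ENNReal.one_ne_top v hv0
  set i0 := max i1 i2 with hi0
  have he1 := hi1 i0 (le_max_left _ _)
  have he2 := hi2 i0 (le_max_right _ _)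
  set e : ℝ≥0∞ := LD460.eps1 ΛX hX i0 + LD460.eps1 ΛY hY i0 with he
  rw [one_mul] at he2
  -- choice of lam, s
  set D : ℝ≥0∞ := (i0 + 1 : ℕ) / (u / 2) with hD
  have hDt : D ≠ ⊤ := ENNReal.div_ne_top (ENNReal.natCast_ne_top _) (by rw [hu2]; exact hv0)
  obtain ⟨lam, hl0, hl1, -, s, hs⟩ := Num337.exLam
    ((W : ℝ≥0∞) * (2 * (((i0 + 1) ^ 4 : ℕ) * C))) D (by
      exact ENNReal.mul_ne_top (ENNReal.natCast_ne_top _) (ENNReal.mul_ne_top (by norm_num)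
        (ENNReal.mul_ne_top (ENNReal.natCast_ne_top _) hC))) hDt us hus ε1 hε1'
  have hs0 := hs s le_rfl
  have hWt : (W : ℝ≥0∞) ≠ ⊤ := ENNReal.natCast_ne_top _
  have hW0 : (W : ℝ≥0∞) ≠ 0 := by
    have : W ≠ 0 := by omega
    exact_mod_cast this
  set η : ℝ≥0∞ := ε1 / W with hη
  have hη0 : η ≠ 0 := by
    rw [hη, Ne, ENNReal.div_eq_zero_iff, not_or]
    exact ⟨hε1', hWt⟩
  obtain ⟨T, hT⟩ := hH5 (s + 1 + 4 * i0) η hη0
  refine ⟨max T (5 * J * (2 * i0 + s + 1)), fun m hm => ⟨8 * m, fun n hn w => ?_⟩⟩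
  set t := m / (5 * J) with ht
  have h5J : 0 < 5 * J := by omega
  have ht1 : 5 * J * t ≤ m := Nat.mul_div_le m (5 * J)
  have ht2 : m < 5 * J * (t + 1) := by
    have := Nat.lt_mul_div_succ m h5J
    simpa [ht] using this
  have htb : 2 * i0 + s + 1 ≤ t :=
    (Nat.le_div_iff_mul_le h5J).2 (by rw [mul_comm]; exact le_trans (le_max_right _ _) hm)
  have hmT : T ≤ m := le_trans (le_max_left _ _) hm
  have hJt : t ≤ J * t := Nat.le_mul_of_pos_left t (by omega)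
  have hJt1 : 1 ≤ J * t := le_trans (by omega) hJt
  have e5 : 5 * J * t = 5 * (J * t) := by ring
  have e5' : 5 * J * (t + 1) = 5 * (J * t) + 5 * J := by ring
  have hJJ : J ≤ J * t := Nat.le_mul_of_pos_right J (by omega)
  rw [e5] at ht1
  rw [e5'] at ht2
  have hjt : ∀ j ∈ Finset.range (10 * J), j * t ≤ 10 * (J * t) := by
    intro j hj
    have := Nat.mul_le_mul_right t (Finset.mem_range.1 hj).le
    calc j * t ≤ 10 * J * t := this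
      _ = 10 * (J * t) := by ring
  -- the windows
  have hwin : ∀ j ∈ Finset.range (10 * J), ∑' LX, ∑' LY,
      (if HT hX LX = n ∧ HT hY LY = n ∧ Ev hX zX sX hY zY sY w (m + j * t - t + t) t
        (m + j * t - t + 3 * t - s - 1) (s + 1 + 4 * i0) LX LY then LW ΛX LX * LW ΛY LY else 0)
      ≤ 6 * e + 2 * ((1 - u / 2) ^ J + J * e) + u * u
        + 2 * (((i0 + 1) ^ 4 : ℕ) * (C * (lam + D * us s / lam + us s))) := by
    intro j hj
    have := hjt j hj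
    refine window ΛX hX zX sX ΛY hY zY sY h1X h1Y hΛX hΛY hUX hUY hsX hsY C us hH2 hH3 w s i0
      (m + j * t - t) t J n lam u e hl0 hl1 hu0 hu1 le_self_add le_add_self
      (by rw [hu2]; exact he2) htb ?_ ?_
    · calc J * (3 * t + 2 * i0) ≤ J * (4 * t) := Nat.mul_le_mul_left J (by omega)
        _ = 4 * (J * t) := by ring
        _ ≤ m + j * t - t := by omega
    · omega
  have hslab : ∀ j ∈ Finset.range (10 * J), ∑' LX, ∑' LY,
      (if HT hX LX = n ∧ HT hY LY = n ∧ ∃ p, m + j * t - t + 3 * t - s - 1 + 1 ≤ p.2 ∧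
        p.2 < m + j * t - t + 3 * t - s - 1 + 1 + (s + 1 + 4 * i0) ∧
        p ∈ TT hX zX sX LX 0 0 ∧ p ∈ TT hY zY sY LY w 0 then LW ΛX LX * LW ΛY LY else 0) ≤ η := by
    intro j hj
    exact hT _ (by omega) n w
  have hcover : ∑' LX, ∑' LY, (if HT hX LX = n ∧ HT hY LY = n ∧
        (∀ p, p ∈ TT hX zX sX LX 0 0 → p ∈ TT hY zY sY LY w 0 → m < p.2) ∧
        (∃ p, p ∈ TT hX zX sX LX 0 0 ∧ p ∈ TT hY zY sY LY w 0 ∧ p.2 ≤ 2 * m)
        then LW ΛX LX * LW ΛY LY else 0)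
      ≤ ∑ j ∈ Finset.range (10 * J), ((∑' LX, ∑' LY,
      (if HT hX LX = n ∧ HT hY LY = n ∧ Ev hX zX sX hY zY sY w (m + j * t - t + t) t
        (m + j * t - t + 3 * t - s - 1) (s + 1 + 4 * i0) LX LY then LW ΛX LX * LW ΛY LY else 0))
      + ∑' LX, ∑' LY,
      (if HT hX LX = n ∧ HT hY LY = n ∧ ∃ p, m + j * t - t + 3 * t - s - 1 + 1 ≤ p.2 ∧
        p.2 < m + j * t - t + 3 * t - s - 1 + 1 + (s + 1 + 4 * i0) ∧
        p ∈ TT hX zX sX LX 0 0 ∧ p ∈ TT hY zY sY LY w 0 then LW ΛX LX * LW ΛY LY else 0)) := by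
    simp_rw [← ENNReal.tsum_add]
    rw [← Summable.tsum_finsetSum (fun _ _ => ENNReal.summable)]
    refine ENNReal.tsum_le_tsum fun LX => ?_
    rw [← Summable.tsum_finsetSum (fun _ _ => ENNReal.summable)]
    refine ENNReal.tsum_le_tsum fun LY => ?_
    by_cases hc : HT hX LX = n ∧ HT hY LY = n ∧
        (∀ p, p ∈ TT hX zX sX LX 0 0 → p ∈ TT hY zY sY LY w 0 → m < p.2) ∧
        (∃ p, p ∈ TT hX zX sX LX 0 0 ∧ p ∈ TT hY zY sY LY w 0 ∧ p.2 ≤ 2 * m)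
    swap
    · rw [if_neg hc]; exact zero_le
    rw [if_pos hc]
    obtain ⟨hx, hy, hall, p0, hp0X, hp0Y, hp0⟩ := hc
    have hex : ∃ k, ∃ p, p ∈ TT hX zX sX LX 0 0 ∧ p ∈ TT hY zY sY LY w 0 ∧ p.2 = k :=
      ⟨_, p0, hp0X, hp0Y, rfl⟩
    obtain ⟨p1, hp1X, hp1Y, hp1⟩ := Nat.find_spec hex
    have hmin : ∀ p, p ∈ TT hX zX sX LX 0 0 → p ∈ TT hY zY sY LY w 0 → Nat.find hex ≤ p.2 :=
      fun p h1 h2 => Nat.find_min' hex ⟨p, h1, h2, rfl⟩
    set k0 := Nat.find hex with hk0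
    have hk1 : m < k0 := by rw [← hp1]; exact hall p1 hp1X hp1Y
    have hk2 : k0 ≤ 2 * m := (hmin p0 hp0X hp0Y).trans hp0
    have ht0 : 0 < t := by omega
    set j := (k0 - m - 1) / t with hj
    have hj1 : j * t ≤ k0 - m - 1 := Nat.div_mul_le_self _ _
    have hj2 : k0 - m - 1 < (j + 1) * t := by
      have := Nat.lt_mul_div_succ (k0 - m - 1) ht0
      rw [mul_comm]; simpa [hj] using this
    have hj2' : (j + 1) * t = j * t + t := by ring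
    rw [hj2'] at hj2
    have hjr : j ∈ Finset.range (10 * J) := by
      rw [Finset.mem_range]
      by_contra hc
      rw [not_lt] at hc
      have h1 := Nat.mul_le_mul_right t hc
      have h2 : 10 * J * t = 10 * (J * t) := by ring
      omega
    refine le_trans ?_ (Finset.single_le_sum (fun _ _ => zero_le) hjr)
    by_cases hsl : ∃ p, m + j * t - t + 3 * t - s - 1 + 1 ≤ p.2 ∧
        p.2 < m + j * t - t + 3 * t - s - 1 + 1 + (s + 1 + 4 * i0) ∧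
        p ∈ TT hX zX sX LX 0 0 ∧ p ∈ TT hY zY sY LY w 0
    · rw [if_pos (show HT hX LX = n ∧ HT hY LY = n ∧ ∃ p, m + j * t - t + 3 * t - s - 1 + 1 ≤ p.2 ∧
        p.2 < m + j * t - t + 3 * t - s - 1 + 1 + (s + 1 + 4 * i0) ∧
        p ∈ TT hX zX sX LX 0 0 ∧ p ∈ TT hY zY sY LY w 0 from ⟨hx, hy, hsl⟩)]
      exact le_add_self
    · have hev : Ev hX zX sX hY zY sY w (m + j * t - t + t) t
          (m + j * t - t + 3 * t - s - 1) (s + 1 + 4 * i0) LX LY := by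
        refine ⟨⟨p1, hp1X, hp1Y, by omega⟩, fun p h1 h2 => ⟨?_, ?_⟩⟩
        · have := hmin p h1 h2
          omega
        · rintro ⟨h3, h4⟩
          exact hsl ⟨p, by omega, by omega, h1, h2⟩
      rw [if_pos (show HT hX LX = n ∧ HT hY LY = n ∧ Ev hX zX sX hY zY sY w (m + j * t - t + t) t
          (m + j * t - t + 3 * t - s - 1) (s + 1 + 4 * i0) LX LY from ⟨hx, hy, hev⟩)]
      exact le_self_add
  refine hcover.trans ?_
  refine (Finset.sum_le_card_nsmul _ _ _ (fun j hj => add_le_add (hwin j hj) (hslab j hj))).trans ?_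
  rw [Finset.card_range, nsmul_eq_mul]
  set ZZ := lam + D * us s / lam + us s with hZZ
  have a1 : (W : ℝ≥0∞) * η ≤ ε1 := by
    rw [hη, ENNReal.mul_div_cancel hW0 hWt]
  have a2 : (W : ℝ≥0∞) * (u * u) ≤ 4 * ε1 := by
    rw [huu]
    calc (W : ℝ≥0∞) * (4 * (v * v)) = 4 * (W * (v * v)) := by ring
      _ ≤ 4 * ε1 := mul_le_mul_right hKv _
  have a3 : (W : ℝ≥0∞) * (2 * (1 - u / 2) ^ J) ≤ 2 * ε1 := by
    rw [hu2]
    calc (W : ℝ≥0∞) * (2 * (1 - v) ^ J) = 2 * (W * (1 - v) ^ J) := by ring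
      _ ≤ 2 * ε1 := mul_le_mul_right hKp _
  calc ((10 * J : ℕ) : ℝ≥0∞) * (6 * e + 2 * ((1 - u / 2) ^ J + J * e) + u * u
        + 2 * (((i0 + 1) ^ 4 : ℕ) * (C * ZZ)) + η)
      ≤ (W : ℝ≥0∞) * (6 * e + 2 * ((1 - u / 2) ^ J + J * e) + u * u
        + 2 * (((i0 + 1) ^ 4 : ℕ) * (C * ZZ)) + η) := by
        refine mul_le_mul_left ?_ _
        exact_mod_cast hJW
    _ = W * (6 + 2 * J) * e + W * (2 * (1 - u / 2) ^ J) + W * (u * u)
        + W * (2 * (((i0 + 1) ^ 4 : ℕ) * C)) * ZZ + W * η := by ring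
    _ ≤ ε1 + 2 * ε1 + 4 * ε1 + ε1 + ε1 := by
        refine add_le_add (add_le_add (add_le_add (add_le_add he1 a3) a2) hs0) a1
    _ = 9 * ε1 := by ring
    _ ≤ 9 * (ε / 64) := mul_le_mul_right (min_le_left _ _) _
    _ ≤ 64 * (ε / 64) := by
        refine mul_le_mul_left ?_ _
        norm_num
    _ = ε := ENNReal.mul_div_cancel (by norm_num) (by norm_num)

end fin

end Crest.Agent.R154.Asm66
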