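import Crest.Agent.R154.Asm4_855

/-! Row 154 (helper855): ROAD 801, assembly: the inequality of one window. -/

set_option autoImplicit false
set_option linter.unusedVariables false
set_option linter.unusedSectionVars false

namespace Crest.Agent.R154.Asm855

open scoped ENNReal
open B5A

variable {BX BY G : Type*} [AddCommGroup G]
  (ΛX : BX → ℝ≥0∞) (ΛY : BY → ℝ≥0∞) (hX : BX → ℕ) (hY : BY → ℕ) (zX : BX → G) (zY : BY → G)
  (sX : BX → Set (G × ℕ)) (sY : BY → Set (G × ℕ))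

/-- indices of the overshoots -/
def Qs (i0 : ℕ) : Finset ((ℕ × ℕ) × (ℕ × ℕ)) :=
  (Finset.range (i0 + 1) ×ˢ Finset.range (i0 + 1)) ×ˢ
    (Finset.range (i0 + 1) ×ˢ Finset.range (i0 + 1))

lemma mem_Qs (i0 : ℕ) (q : (ℕ × ℕ) × (ℕ × ℕ)) :
    q ∈ Qs i0 ↔ (q.1.1 ≤ i0 ∧ q.1.2 ≤ i0) ∧ (q.2.1 ≤ i0 ∧ q.2.2 ≤ i0) := by
  simp [Qs, Nat.lt_succ_iff]

lemma card_Qs (i0 : ℕ) : (Qs i0).card = (i0 + 1) ^ 4 := by
  simp [Qs]; ring

variable (h1X : ∀ b, 1 ≤ hX b) (h1Y : ∀ b, 1 ≤ hY b) (hΛX : ∑' b, ΛX b = 1) (hΛY : ∑' b, ΛY b = 1)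
  (dX : ∀ b y k, (y, k) ∈ sX b → 1 ≤ k ∧ k ≤ hX b)
  (dY : ∀ b y k, (y, k) ∈ sY b → 1 ≤ k ∧ k ≤ hY b)
include h1X h1Y hΛX hΛY dX dY

lemma window (a a' T T' i0 lo hi J : ℕ) (w : G) (e u θX θY κX κY β : ℝ≥0∞)
    (heX : ∑' j, tail ΛX hX (j + i0) ≤ e) (heY : ∑' j, tail ΛY hY (j + i0) ≤ e)
    (hu1 : u ≤ 1)
    (hθX : E ΛX hX T (fun P => ind (pl ΛX hX zX T P < θX)) ≤ u)
    (hθX' : u ≤ E ΛX hX T (fun P => ind (pl ΛX hX zX T P < 2 * θX)))
    (hθY : E ΛY hY T' (fun P => ind (pl ΛY hY zY T' P < θY)) ≤ u)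
    (hθY' : u ≤ E ΛY hY T' (fun P => ind (pl ΛY hY zY T' P < 2 * θY)))
    (hJX : J * (T + i0) ≤ a) (hJY : J * (T' + i0) ≤ a')
    (hκX : (i0 + 1 : ℕ) * (2 * θX) + (1 - u) * κX ≤ κX)
    (hκY : (i0 + 1 : ℕ) * (2 * θY) + (1 - u) * κY ≤ κY)
    (hQX : ∀ q ∈ Qs i0, ∀ μ : G → ℝ≥0∞, ∑' x, μ x ≤ 1 → (∀ x, μ x ≤ κX) →
      ∑' x, μ x * Gd ΛX ΛY hX hY zX zY sX sY lo hi
        (fun P => HT hX P = T + q.2.1 ∧ θX ≤ pp ΛX hX zX T q.2.1 (Dp zX P))
        (fun P' => HT hY P' = T' + q.2.2) (a + q.1.1) (a' + q.1.2) x ≤ β)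
    (hQY : ∀ q ∈ Qs i0, ∀ μ : G → ℝ≥0∞, ∑' x, μ x ≤ 1 → (∀ x, μ x ≤ κY) →
      ∑' x, μ x * Gd ΛX ΛY hX hY zX zY sX sY lo hi
        (fun P => HT hX P = T + q.2.1)
        (fun P' => HT hY P' = T' + q.2.2 ∧ θY ≤ pp ΛY hY zY T' q.2.2 (Dp zY P'))
        (a + q.1.1) (a' + q.1.2) x ≤ β) :
    E ΛX hX a (fun A => E ΛY hY a' (fun A' => E ΛX hX T (fun P => E ΛY hY T' (fun P' =>
        ind (((∃ g k, Ct hX hY zX zY sX sY P P' (Dp zX A) (w + Dp zY A') (HT hX A) (HT hY A') g k) ∧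
          ∀ g k, Ct hX hY zX zY sX sY P P' (Dp zX A) (w + Dp zY A') (HT hX A) (HT hY A') g k →
            ¬ (a' ≤ k ∧ k < lo) ∧ ¬ (hi < k ∧ k ≤ a + T + 2 * i0)) ∧
          HT hX A ≤ a + i0 ∧ HT hY A' ≤ a' + i0)))))
    ≤ 2 * e + u * u + 2 * (J * e + (1 - u) ^ J) + 2 * (((i0 + 1) ^ 4 : ℕ) * β) := by
  set V2 : List BX → List BX → List BY → List BY → Prop := fun A P A' P' =>
    ((∃ g k, Ct hX hY zX zY sX sY P P' (Dp zX A) (w + Dp zY A') (HT hX A) (HT hY A') g k) ∧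
      ∀ g k, Ct hX hY zX zY sX sY P P' (Dp zX A) (w + Dp zY A') (HT hX A) (HT hY A') g k →
        ¬ (a' ≤ k ∧ k < lo) ∧ ¬ (hi < k ∧ k ≤ a + T + 2 * i0)) ∧
      HT hX A ≤ a + i0 ∧ HT hY A' ≤ a' + i0 with hV2
  set QX : (ℕ × ℕ) × (ℕ × ℕ) → List BX → List BY → List BX → List BY → Prop := fun q A A' P P' =>
    (sm ΛX hX zX T i0 θX J A ∧ HT hX A = a + q.1.1) ∧ HT hY A' = a' + q.1.2 ∧
      (HT hX P = T + q.2.1 ∧ θX ≤ pp ΛX hX zX T q.2.1 (Dp zX P)) ∧ HT hY P' = T' + q.2.2 ∧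
      Ph hX hY zX zY sX sY lo hi P P' (Dp zX A) (w + Dp zY A') (HT hX A) (HT hY A') with hQXd
  set QY : (ℕ × ℕ) × (ℕ × ℕ) → List BX → List BY → List BX → List BY → Prop := fun q A A' P P' =>
    HT hX A = a + q.1.1 ∧ (sm ΛY hY zY T' i0 θY J A' ∧ HT hY A' = a' + q.1.2) ∧
      HT hX P = T + q.2.1 ∧ (HT hY P' = T' + q.2.2 ∧ θY ≤ pp ΛY hY zY T' q.2.2 (Dp zY P')) ∧
      Ph hX hY zX zY sX sY lo hi P P' (Dp zX A) (w + Dp zY A') (HT hX A) (HT hY A') with hQYd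
  have hpt : ∀ A A' P P', att hX A a → att hY A' a' → att hX P T → att hY P' T' →
      ind (V2 A P A' P') ≤
        ind (T + i0 < HT hX P) + (ind (T' + i0 < HT hY P') +
        (ind (pl ΛX hX zX T P < θX) * ind (pl ΛY hY zY T' P' < θY) +
        (ind (¬ sm ΛX hX zX T i0 θX J A) + (ind (¬ sm ΛY hY zY T' i0 θY J A') +
        (∑ q ∈ Qs i0, ind (QX q A A' P P') + ∑ q ∈ Qs i0, ind (QY q A A' P P')))))) := by
    intro A A' P P' hA hA' hP hP'
    by_cases hV : V2 A P A' P'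
    swap
    · rw [ind_false hV]; exact zero_le
    rw [ind_true hV]
    have bA := att_le hX A _ hA
    have bA' := att_le hY A' _ hA'
    have bP := att_le hX P _ hP
    have bP' := att_le hY P' _ hP'
    by_cases c1 : T + i0 < HT hX P
    · rw [ind_true c1]; exact le_self_add
    refine le_add_left ?_
    by_cases c2 : T' + i0 < HT hY P'
    · rw [ind_true c2]; exact le_self_add
    refine le_add_left ?_
    obtain ⟨⟨hex, hall⟩, hAi, hAi'⟩ := hV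
    have hPh : Ph hX hY zX zY sX sY lo hi P P' (Dp zX A) (w + Dp zY A') (HT hX A) (HT hY A') := by
      refine ⟨hex, fun g k h => ?_⟩
      have h1 := Tr_depth hX zX sX dX P _ g _ k h.1
      have h2 := Tr_depth hY zY sY dY P' _ g _ k h.2
      have h3 := hall g k h
      omega
    by_cases c3 : pl ΛX hX zX T P < θX
    · by_cases c4 : pl ΛY hY zY T' P' < θY
      · rw [ind_true c3, ind_true c4, one_mul]; exact le_self_add
      · refine le_add_left ?_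
        refine le_add_left ?_
        by_cases c5 : sm ΛY hY zY T' i0 θY J A'
        · refine le_add_left (le_add_left ?_)
          refine le_trans ?_ (Finset.single_le_sum (f := fun q => ind (QY q A A' P P'))
            (fun _ _ => zero_le) ((mem_Qs i0 ((HT hX A - a, HT hY A' - a'),
              (HT hX P - T, HT hY P' - T'))).2 ⟨⟨by simp only; omega, by simp only; omega⟩,
                ⟨by simp only; omega, by simp only; omega⟩⟩))
          rw [ind_true]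
          refine ⟨by simp only; omega, ⟨c5, by simp only; omega⟩, by simp only; omega,
            ⟨by simp only; omega, ?_⟩, hPh⟩
          exact not_lt.1 c4
        · rw [ind_true c5]; exact le_self_add
    · refine le_add_left ?_
      by_cases c5 : sm ΛX hX zX T i0 θX J A
      · refine le_add_left (le_add_left (le_add_right ?_))
        refine le_trans ?_ (Finset.single_le_sum (f := fun q => ind (QX q A A' P P'))
          (fun _ _ => zero_le) ((mem_Qs i0 ((HT hX A - a, HT hY A' - a'),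
            (HT hX P - T, HT hY P' - T'))).2 ⟨⟨by simp only; omega, by simp only; omega⟩,
              ⟨by simp only; omega, by simp only; omega⟩⟩))
        rw [ind_true]
        refine ⟨⟨c5, by simp only; omega⟩, by simp only; omega, ⟨by simp only; omega, ?_⟩,
          by simp only; omega, hPh⟩
        exact not_lt.1 c3
      · rw [ind_true c5]; exact le_self_add
  have hq1 : (1 : ℝ≥0∞) - u ≤ 1 := tsub_le_self
  refine (E_mono ΛX hX a fun A hA => E_mono ΛY hY a' fun A' hA' => E_mono ΛX hX T fun P hP =>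
    E_mono ΛY hY T' fun P' hP' => hpt A A' P P' hA hA' hP hP').trans ?_
  simp only [E_add, E_finsum]
  have t1 : E ΛX hX a (fun A => E ΛY hY a' (fun A' => E ΛX hX T (fun P => E ΛY hY T' (fun P' =>
      ind (T + i0 < HT hX P))))) ≤ e := by
    refine E_le_const ΛX hX h1X hΛX _ _ _ fun A _ => E_le_const ΛY hY h1Y hΛY _ _ _ fun A' _ => ?_
    simp only [E_const ΛY hY h1Y hΛY]
    exact (oshoot ΛX hX h1X hΛX i0 T).trans heX
  have t2 : E ΛX hX a (fun A => E ΛY hY a' (fun A' => E ΛX hX T (fun P => E ΛY hY T' (fun P' =>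
      ind (T' + i0 < HT hY P'))))) ≤ e := by
    refine E_le_const ΛX hX h1X hΛX _ _ _ fun A _ => E_le_const ΛY hY h1Y hΛY _ _ _ fun A' _ =>
      E_le_const ΛX hX h1X hΛX _ _ _ fun P _ => ?_
    exact (oshoot ΛY hY h1Y hΛY i0 T').trans heY
  have t3 : E ΛX hX a (fun A => E ΛY hY a' (fun A' => E ΛX hX T (fun P => E ΛY hY T' (fun P' =>
      ind (pl ΛX hX zX T P < θX) * ind (pl ΛY hY zY T' P' < θY))))) ≤ u * u := by
    refine E_le_const ΛX hX h1X hΛX _ _ _ fun A _ => E_le_const ΛY hY h1Y hΛY _ _ _ fun A' _ => ?_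
    simp only [E_smul, E_smul']
    exact mul_le_mul' hθX hθY
  have t4 : E ΛX hX a (fun A => E ΛY hY a' (fun A' => E ΛX hX T (fun P => E ΛY hY T' (fun P' =>
      ind (¬ sm ΛX hX zX T i0 θX J A))))) ≤ J * e + (1 - u) ^ J := by
    simp only [E_const ΛY hY h1Y hΛY, E_const ΛX hX h1X hΛX]
    exact rough ΛX hX h1X hΛX zX T i0 θX e heX (1 - u) hq1
      (E_compl ΛX hX h1X hΛX T _ u hθX') J a hJX
  have t5 : E ΛX hX a (fun A => E ΛY hY a' (fun A' => E ΛX hX T (fun P => E ΛY hY T' (fun P' =>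
      ind (¬ sm ΛY hY zY T' i0 θY J A'))))) ≤ J * e + (1 - u) ^ J := by
    refine E_le_const ΛX hX h1X hΛX _ _ _ fun A _ => ?_
    simp only [E_const ΛY hY h1Y hΛY, E_const ΛX hX h1X hΛX]
    exact rough ΛY hY h1Y hΛY zY T' i0 θY e heY (1 - u) hq1
      (E_compl ΛY hY h1Y hΛY T' _ u hθY') J a' hJY
  have t6 : ∀ q ∈ Qs i0, E ΛX hX a (fun A => E ΛY hY a' (fun A' => E ΛX hX T (fun P =>
      E ΛY hY T' (fun P' => ind (QX q A A' P P'))))) ≤ β := by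
    intro q hq
    refine (quad ΛX ΛY hX hY zX zY sX sY a a' T T' lo hi (a + q.1.1) (a' + q.1.2) w
      (fun A => sm ΛX hX zX T i0 θX J A ∧ HT hX A = a + q.1.1) (fun A' => HT hY A' = a' + q.1.2)
      (fun A h => h.2) (fun A' h => h)
      (fun P => HT hX P = T + q.2.1 ∧ θX ≤ pp ΛX hX zX T q.2.1 (Dp zX P))
      (fun P' => HT hY P' = T' + q.2.2)).trans ?_
    refine hQX q hq _ (mu_sum ΛX ΛY hX hY zX zY h1X h1Y hΛX hΛY a a' w _ _) fun x => ?_
    exact mu_leX ΛX ΛY hX hY zX zY h1X h1Y hΛX hΛY a a' w _ _ κX (sm ΛX hX zX T i0 θX J)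
      (fun A h => h.1) (dens ΛX hX h1X hΛX zX T i0 θX κX (1 - u)
        (E_compl ΛX hX h1X hΛX T _ u hθX') hκX J a hJX) x
  have t7 : ∀ q ∈ Qs i0, E ΛX hX a (fun A => E ΛY hY a' (fun A' => E ΛX hX T (fun P =>
      E ΛY hY T' (fun P' => ind (QY q A A' P P'))))) ≤ β := by
    intro q hq
    refine (quad ΛX ΛY hX hY zX zY sX sY a a' T T' lo hi (a + q.1.1) (a' + q.1.2) w
      (fun A => HT hX A = a + q.1.1)
      (fun A' => sm ΛY hY zY T' i0 θY J A' ∧ HT hY A' = a' + q.1.2)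
      (fun A h => h) (fun A' h => h.2)
      (fun P => HT hX P = T + q.2.1)
      (fun P' => HT hY P' = T' + q.2.2 ∧ θY ≤ pp ΛY hY zY T' q.2.2 (Dp zY P'))).trans ?_
    refine hQY q hq _ (mu_sum ΛX ΛY hX hY zX zY h1X h1Y hΛX hΛY a a' w _ _) fun x => ?_
    exact mu_leY ΛX ΛY hX hY zX zY h1X h1Y hΛX hΛY a a' w _ _ κY (sm ΛY hY zY T' i0 θY J)
      (fun A h => h.1) (dens ΛY hY h1Y hΛY zY T' i0 θY κY (1 - u)
        (E_compl ΛY hY h1Y hΛY T' _ u hθY') hκY J a' hJY) x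
  have s6 : ∑ q ∈ Qs i0, E ΛX hX a (fun A => E ΛY hY a' (fun A' => E ΛX hX T (fun P =>
      E ΛY hY T' (fun P' => ind (QX q A A' P P'))))) ≤ ((i0 + 1) ^ 4 : ℕ) * β := by
    refine (Finset.sum_le_sum t6).trans ?_
    rw [Finset.sum_const, card_Qs, nsmul_eq_mul]
  have s7 : ∑ q ∈ Qs i0, E ΛX hX a (fun A => E ΛY hY a' (fun A' => E ΛX hX T (fun P =>
      E ΛY hY T' (fun P' => ind (QY q A A' P P'))))) ≤ ((i0 + 1) ^ 4 : ℕ) * β := by
    refine (Finset.sum_le_sum t7).trans ?_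
    rw [Finset.sum_const, card_Qs, nsmul_eq_mul]
  refine (add_le_add t1 (add_le_add t2 (add_le_add t3 (add_le_add t4 (add_le_add t5
    (add_le_add s6 s7)))))).trans (le_of_eq ?_)
  ring

end Crest.Agent.R154.Asm855
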