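import Crest.Agent.R154.Asm4_958

/-! Row 154, ROAD 801, assembly (helper958), part 5: traces and the event. -/

set_option autoImplicit false

namespace Crest.Agent.R154.Asm958

open Crest.Agent.R154.B5A Crest.Agent.R154.FP178
open scoped ENNReal

section tr

variable {B G : Type*} [AddCommGroup G] (h : B → ℕ) (z : B → G) (s : B → Set (G × ℕ))

lemma TX_append (L R : List B) (x : G) (a : ℕ) :
    TX h z s (L ++ R) x a = TX h z s L x a ∪ TX h z s R (x + Dp z L) (a + HT h L) := by
  induction L generalizing x a with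
  | nil => simp [TX, Dp, HT]
  | cons b L ih =>
    simp only [List.cons_append, TX]
    rw [ih, Set.union_assoc]
    congr 3
    · simp [Dp, add_assoc]
    · simp [HT, add_assoc]

lemma TX_shift (L : List B) (x y p : G) (a k : ℕ) :
    (p + y, k) ∈ TX h z s L (x + y) a ↔ (p, k) ∈ TX h z s L x a := by
  induction L generalizing x a with
  | nil => simp [TX]
  | cons b L ih =>
    simp only [TX, Set.mem_union, Set.mem_setOf_eq]
    rw [show x + y + z b = x + z b + y by abel, ih]
    refine or_congr_left ?_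
    constructor
    · rintro ⟨q, hq, he⟩
      refine ⟨q, hq, ?_⟩
      rw [Prod.mk.injEq] at he ⊢
      refine ⟨?_, he.2⟩
      have := he.1
      rw [show x + y + q.1 = x + q.1 + y by abel] at this
      exact add_right_cancel this
    · rintro ⟨q, hq, he⟩
      refine ⟨q, hq, ?_⟩
      rw [Prod.mk.injEq] at he ⊢
      refine ⟨?_, he.2⟩
      rw [he.1]; abel

lemma TX_range (hs : ∀ b q, q ∈ s b → 1 ≤ q.2 ∧ q.2 ≤ h b) (L : List B) (x p : G) (a k : ℕ)
    (hk : (p, k) ∈ TX h z s L x a) : a < k ∧ k ≤ a + HT h L := by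
  induction L generalizing x a with
  | nil => simp [TX] at hk
  | cons b L ih =>
    rw [HT_cons]
    simp only [TX, Set.mem_union, Set.mem_setOf_eq] at hk
    rcases hk with ⟨q, hq, he⟩ | hk
    · rw [Prod.mk.injEq] at he
      have := hs b q hq
      omega
    · have := ih _ _ hk
      omega

lemma HT_flatten (P : List (List B)) : HT h P.flatten = ((P.map (vv h z)).sum).1 := by
  induction P with
  | nil => simp [HT]
  | cons A P ih => rw [List.flatten_cons, HT_append, ih]; simp [vv]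

lemma Dp_flatten (P : List (List B)) : Dp z P.flatten = ((P.map (vv h z)).sum).2 := by
  induction P with
  | nil => simp [Dp]
  | cons A P ih =>
    rw [List.map_cons, List.sum_cons, Prod.snd_add, ← ih]
    simp [Dp, vv]

end tr

/-- list of `J` pieces, element number `j`. -/
lemma split_at {A : Type*} (L : List A) (j : ℕ) (hj : j < L.length) :
    ∃ P a S, L = P ++ a :: S ∧ P.length = j := by
  refine ⟨L.take j, L[j], L.drop (j + 1), ?_, ?_⟩
  · rw [List.getElem_cons_drop, List.take_append_drop]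
  · rw [List.length_take]; omega

section win

variable {BX BY G : Type*} [AddCommGroup G]
variable (ΛX : BX → ℝ≥0∞) (hX : BX → ℕ) (zX : BX → G) (sX : BX → Set (G × ℕ))
variable (ΛY : BY → ℝ≥0∞) (hY : BY → ℕ) (zY : BY → G) (sY : BY → Set (G × ℕ))

/-- contact at depth `k` -/
def ct (w : G) (LX : List BX) (LY : List BY) (k : ℕ) : Prop :=
  ∃ z, (z, k) ∈ TX hX zX sX LX 0 0 ∧ (z, k) ∈ TX hY zY sY LY w 0

/-- the first contact is at depth in `(m, 2m]` -/
def EE (w : G) (m : ℕ) (LX : List BX) (LY : List BY) : Prop :=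
  (∀ k, ct hX zX sX hY zY sY w LX LY k → m < k) ∧
    ∃ k, ct hX zX sX hY zY sY w LX LY k ∧ k ≤ 2 * m

/-- no contact in the slabs -/
def NS (w : G) (S : Finset ℕ) (LX : List BX) (LY : List BY) : Prop :=
  ∀ k ∈ S, ¬ ct hX zX sX hY zY sY w LX LY k

/-- piece condition -/
def PC {B : Type*} (h : B → ℕ) (T i0 : ℕ) (As : List (List B)) : Prop :=
  ∀ A ∈ As, fp h T A ∧ HT h A ≤ T + i0

lemma PC_range {B : Type*} {h : B → ℕ} {T i0 : ℕ} {As : List (List B)} (hP : PC h T i0 As) :
    As.length * T ≤ HT h As.flatten ∧ HT h As.flatten ≤ As.length * T + As.length * i0 := by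
  induction As with
  | nil => simp [HT]
  | cons A P ih =>
    have h1 := hP A List.mem_cons_self
    have h2 := le_HT_of_fp h h1.1
    have h3 := ih (fun a ha => hP a (List.mem_cons_of_mem _ ha))
    rw [List.flatten_cons, HT_append, List.length_cons]
    have e1 : (P.length + 1) * T = P.length * T + T := by ring
    have e2 : (P.length + 1) * i0 = P.length * i0 + i0 := by ring
    have h4 := h1.2
    omega

/-- slabs -/
def Slab (K J T i0 s : ℕ) : Finset ℕ :=
  (Finset.Icc K J).biUnion fun j => Finset.Icc (j * T - s) (j * T + J * i0 + s)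

lemma mem_piece {B : Type*} (h : B → ℕ) (z : B → G) (s : B → Set (G × ℕ))
    (hs : ∀ b q, q ∈ s b → 1 ≤ q.2 ∧ q.2 ≤ h b) (P : List (List B)) (a : List B)
    (S : List (List B)) (R : List B) (x p : G) (k : ℕ)
    (h1 : HT h P.flatten < k) (h2 : k ≤ HT h P.flatten + HT h a) :
    (p, k) ∈ TX h z s ((P ++ a :: S).flatten ++ R) x 0 ↔
      (p, k) ∈ TX h z s a (x + Dp z P.flatten) (HT h P.flatten) := by
  rw [List.flatten_append, List.flatten_cons, List.append_assoc, List.append_assoc, TX_append,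
    TX_append, zero_add]
  constructor
  · rintro (hk | hk | hk)
    · have := TX_range h z s hs _ _ _ _ _ hk
      omega
    · exact hk
    · have := TX_range h z s hs _ _ _ _ _ hk
      omega
  · intro hk
    exact Or.inr (Or.inl hk)

/-- the window of the first contact -/
theorem find_window (hsX : ∀ b q, q ∈ sX b → 1 ≤ q.2 ∧ q.2 ≤ hX b)
    (hsY : ∀ b q, q ∈ sY b → 1 ≤ q.2 ∧ q.2 ≤ hY b) (w : G) (m K T i0 s : ℕ) (hT : 0 < T)
    (hKT : K * T ≤ m) (h2m : 2 * m < (2 * K + 1) * T)
    (As : List (List BX)) (As' : List (List BY)) (R : List BX) (R' : List BY)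
    (hl : As.length = 2 * K + 1) (hl' : As'.length = 2 * K + 1)
    (hPC : PC hX T i0 As) (hPC' : PC hY T i0 As')
    (hE : EE hX zX sX hY zY sY w m (As.flatten ++ R) (As'.flatten ++ R'))
    (hN : NS hX zX sX hY zY sY w (Slab K (2 * K + 1) T i0 s) (As.flatten ++ R)
      (As'.flatten ++ R')) :
    ∃ j ∈ Finset.Icc K (2 * K), ∃ P a S P' a' S', As = P ++ a :: S ∧ P.length = j ∧
      As' = P' ++ a' :: S' ∧ P'.length = j ∧
      ev (TX hX zX sX a 0 (P.map (vv hX zX)).sum.1)
        (TX hY zY sY a' (w + (P'.map (vv hY zY)).sum.2 - (P.map (vv hX zX)).sum.2)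
          (P'.map (vv hY zY)).sum.1) (j * T + (2 * K + 1) * i0 + s) (j * T + T - s) := by
  obtain ⟨hE1, k0, hk0, hk0m⟩ := hE
  have hmk := hE1 k0 hk0
  set j := k0 / T with hj
  have hjT : j * T ≤ k0 := Nat.div_mul_le_self k0 T
  have hjT' : k0 < j * T + T := by
    have := Nat.lt_div_mul_add (a := k0) hT
    omega
  have hKj : K ≤ j := by
    rw [hj, Nat.le_div_iff_mul_le hT]; omega
  have hj2 : j < 2 * K + 1 := by
    rw [hj, Nat.div_lt_iff_lt_mul hT]; omega
  refine ⟨j, Finset.mem_Icc.2 ⟨hKj, by omega⟩, ?_⟩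
  obtain ⟨P, a, S, hAs, hPl⟩ := split_at As j (by omega)
  obtain ⟨P', a', S', hAs', hPl'⟩ := split_at As' j (by omega)
  refine ⟨P, a, S, P', a', S', hAs, hPl, hAs', hPl', ?_⟩
  have hPP : PC hX T i0 P := fun A hA => hPC A (by rw [hAs]; exact List.mem_append_left _ hA)
  have hPP' : PC hY T i0 P' := fun A hA => hPC' A (by rw [hAs']; exact List.mem_append_left _ hA)
  have ha := hPC a (by rw [hAs]; simp)
  have ha' := hPC' a' (by rw [hAs']; simp)
  have ra := le_HT_of_fp hX ha.1
  have ra' := le_HT_of_fp hY ha'.1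
  have rP := PC_range hPP
  have rP' := PC_range hPP'
  rw [hPl] at rP
  rw [hPl'] at rP'
  have hji : j * i0 + i0 ≤ (2 * K + 1) * i0 := by
    have : (j + 1) * i0 ≤ (2 * K + 1) * i0 := Nat.mul_le_mul_right _ (by omega)
    have e : (j + 1) * i0 = j * i0 + i0 := by ring
    omega
  -- slab facts
  have slab : ∀ k, ct hX zX sX hY zY sY w (As.flatten ++ R) (As'.flatten ++ R') k →
      j * T ≤ k → k ≤ j * T + T + (2 * K + 1) * i0 + s →
      j * T + (2 * K + 1) * i0 + s ≤ k ∧ k ≤ j * T + T - s ∧ j * T + (2 * K + 1) * i0 < k ∧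
        k ≤ j * T + T := by
    intro k hk hk1 hk2
    have n1 : ¬ (j * T - s ≤ k ∧ k ≤ j * T + (2 * K + 1) * i0 + s) := by
      intro hh
      refine hN k ?_ hk
      rw [Slab, Finset.mem_biUnion]
      exact ⟨j, Finset.mem_Icc.2 ⟨hKj, by omega⟩, Finset.mem_Icc.2 hh⟩
    have n2 : ¬ ((j + 1) * T - s ≤ k ∧ k ≤ (j + 1) * T + (2 * K + 1) * i0 + s) := by
      intro hh
      refine hN k ?_ hk
      rw [Slab, Finset.mem_biUnion]
      exact ⟨j + 1, Finset.mem_Icc.2 ⟨by omega, by omega⟩, Finset.mem_Icc.2 hh⟩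
    have e : (j + 1) * T = j * T + T := by ring
    rw [e] at n2
    omega
  have s0 := slab k0 hk0 hjT (by omega)
  rw [← HT_flatten, ← HT_flatten, ← Dp_flatten hX zX P, ← Dp_flatten hY zY P']
  have mX : ∀ p k, HT hX P.flatten < k → k ≤ HT hX P.flatten + HT hX a →
      ((p, k) ∈ TX hX zX sX (As.flatten ++ R) 0 0 ↔
        (p - Dp zX P.flatten, k) ∈ TX hX zX sX a 0 (HT hX P.flatten)) := by
    intro p k h1 h2
    rw [hAs, mem_piece hX zX sX hsX P a S R 0 p k h1 h2]
    have := TX_shift hX zX sX a 0 (Dp zX P.flatten) (p - Dp zX P.flatten) (HT hX P.flatten) k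
    rw [sub_add_cancel] at this
    exact this
  have mY : ∀ p k, HT hY P'.flatten < k → k ≤ HT hY P'.flatten + HT hY a' →
      ((p, k) ∈ TX hY zY sY (As'.flatten ++ R') w 0 ↔
        (p - Dp zX P.flatten, k) ∈ TX hY zY sY a' (w + Dp zY P'.flatten - Dp zX P.flatten)
          (HT hY P'.flatten)) := by
    intro p k h1 h2
    rw [hAs', mem_piece hY zY sY hsY P' a' S' R' w p k h1 h2]
    have := TX_shift hY zY sY a' (w + Dp zY P'.flatten - Dp zX P.flatten) (Dp zX P.flatten)
      (p - Dp zX P.flatten) (HT hY P'.flatten) k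
    rw [sub_add_cancel, sub_add_cancel] at this
    exact this
  constructor
  · obtain ⟨z0, hz1, hz2⟩ := hk0
    refine ⟨z0 - Dp zX P.flatten, k0, (mX z0 k0 (by omega) (by omega)).1 hz1,
      (mY z0 k0 (by omega) (by omega)).1 hz2⟩
  · intro z k hz1 hz2
    have r1 := TX_range hX zX sX hsX _ _ _ _ _ hz1
    have r2 := TX_range hY zY sY hsY _ _ _ _ _ hz2
    have c1 : ct hX zX sX hY zY sY w (As.flatten ++ R) (As'.flatten ++ R') k := by
      refine ⟨z + Dp zX P.flatten, (mX _ k r1.1 r1.2).2 ?_, (mY _ k r2.1 r2.2).2 ?_⟩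
      · rw [add_sub_cancel_right]; exact hz1
      · rw [add_sub_cancel_right]; exact hz2
    have := slab k c1 (by omega) (by omega)
    exact ⟨this.1, this.2.1⟩

end win

end Crest.Agent.R154.Asm958
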