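import Crest.Agent.R154.Asm5_214

/-! Row 154, ROAD 801, abstract assembly, part 6 (helper214): `kapS`. -/

set_option autoImplicit false

namespace Crest.Agent.R154.Asm214

open scoped ENNReal Classical Topology
open Crest.Agent.R154.B5A
open Crest.Agent.R154.FP178
open Crest.Agent.R154.KWB419 (TT)
open Filter

section six

variable {BX BY G : Type*} [AddCommGroup G]
  (ΛX : BX → ℝ≥0∞) (hX : BX → ℕ) (zX : BX → G) (sX : BX → Set (G × ℕ))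
  (ΛY : BY → ℝ≥0∞) (hY : BY → ℕ) (zY : BY → G) (sY : BY → Set (G × ℕ))

lemma over_small {B : Type*} (Λ : B → ℝ≥0∞) (ht : B → ℕ) (h1 : ∀ b, 1 ≤ ht b)
    (hΛ : ∑' b, Λ b = 1) (c : ℝ≥0∞) (hc0 : c ≠ 0) (hc : c ≠ ⊤) (hcU : ∀ n, c ≤ U Λ ht n)
    (hU1 : ∀ n, U Λ ht n ≤ 1) (δ : ℝ≥0∞) (hδ : δ ≠ 0) : ∃ I, ∀ i0, I ≤ i0 → ∀ T,
    ∑' L, (if fp ht T L ∧ T + i0 < HT ht L then LW Λ L else 0) ≤ δ := by
  have hm := mean_le Λ ht h1 hΛ c hc0 hc 0 (fun n _ => hcU n)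
  rw [sum_tail Λ ht hΛ] at hm
  have hne : ∑' k, tail Λ ht k ≠ ⊤ := ne_top_of_le_ne_top (ENNReal.inv_ne_top.2 hc0) hm
  have ht0 := ENNReal.tendsto_sum_nat_add (tail Λ ht) hne
  have hev := ht0.eventually (gt_mem_nhds (pos_iff_ne_zero.2 hδ))
  obtain ⟨I, hI⟩ := eventually_atTop.1 hev
  refine ⟨I, fun i0 hi T => ?_⟩
  refine (overshoot Λ ht h1 hU1 i0 T).trans ?_
  refine le_trans (le_of_eq ?_) (hI i0 hi).le
  refine tsum_congr fun k => ?_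
  rw [add_comm]

/-- **the abstract assembly** -/
theorem kapS (h1X : ∀ b, 1 ≤ hX b) (h1Y : ∀ b, 1 ≤ hY b) (c : ℝ≥0∞) (hc0 : c ≠ 0)
    (hcX : ∀ n, c ≤ U ΛX hX n) (hcY : ∀ n, c ≤ U ΛY hY n)
    (hUX : ∀ n, U ΛX hX n ≤ 1) (hUY : ∀ n, U ΛY hY n ≤ 1)
    (hsX : ∀ b q, q ∈ sX b → 1 ≤ q.2 ∧ q.2 ≤ hX b)
    (hsY : ∀ b q, q ∈ sY b → 1 ≤ q.2 ∧ q.2 ≤ hY b)
    (C : ℝ≥0∞) (hC : C ≠ ⊤) (us : ℕ → ℕ → ℝ≥0∞) (hus : ∀ D, Tendsto (us D) atTop (𝓝 0))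
    (hH2 : H2 ΛX hX zX sX ΛY hY zY sY C us) (hH3 : H3 ΛX hX zX sX ΛY hY zY sY C us)
    (hPt : ∀ ε : ℝ≥0∞, ε ≠ 0 → ∃ k0, ∀ k, k0 ≤ k → ∀ n, k ≤ n → ∀ w,
      ∑' L : List BX, ∑' L' : List BY, (if HT hX L = n ∧ HT hY L' = n ∧
        (∃ v, (v, k) ∈ TT sX hX zX L 0 0 ∧ (v, k) ∈ TT sY hY zY L' w 0)
        then LW ΛX L * LW ΛY L' else 0) ≤ ε) :
    ∀ ε : ℝ≥0∞, ε ≠ 0 → ∃ M : ℕ, ∀ m, M ≤ m → ∀ n, 2 * m ≤ n → ∀ w,
      ∑' L : List BX, ∑' L' : List BY, (if HT hX L = n ∧ HT hY L' = n ∧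
        (∃ k, m < k ∧ k ≤ 2 * m ∧
          ∃ v, (v, k) ∈ TT sX hX zX L 0 0 ∧ (v, k) ∈ TT sY hY zY L' w 0)
        then LW ΛX L * LW ΛY L' else 0) ≤ ε := by
  intro ε hε
  rcases eq_or_ne ε ⊤ with rfl | hεt
  · exact ⟨0, fun _ _ _ _ _ => le_top⟩
  have hΛX : ∑' b, ΛX b = 1 := le_antisymm (mass_le_one ΛX hX h1X hUX)
    (mass_ge_one ΛX hX c hc0 0 fun n _ => hcX n)
  have hΛY : ∑' b, ΛY b = 1 := le_antisymm (mass_le_one ΛY hY h1Y hUY)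
    (mass_ge_one ΛY hY c hc0 0 fun n _ => hcY n)
  have hct : c ≠ ⊤ := ne_top_of_le_ne_top ENNReal.one_ne_top ((hcX 0).trans (hUX 0))
  have hcc0 : c * c ≠ 0 := mul_ne_zero hc0 hc0
  have hcct : c * c ≠ ⊤ := ENNReal.mul_ne_top hct hct
  obtain ⟨η, hη0, hηt, hη⟩ : ∃ η : ℝ≥0∞, η ≠ 0 ∧ η ≠ ⊤ ∧ (c * c)⁻¹ * (5 * η) ≤ ε := by
    obtain ⟨δ, d0, d1, d2⟩ := small ((c * c)⁻¹ * 5) ε
      (ENNReal.mul_ne_top (ENNReal.inv_ne_top.2 hcc0) (by norm_num)) hε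
    refine ⟨δ, d0, d1, ?_⟩
    rw [← mul_assoc]
    exact d2 δ le_rfl
  obtain ⟨q, hq2, hq⟩ := AsmA789.num hη0 6
  set j0 : ℕ := q ^ 3 with hj0def
  have hj0 : 1 ≤ j0 := Nat.one_le_pow _ _ (by omega)
  set N : ℕ := 3 * j0 with hN
  set u : ℝ≥0∞ := (2 * (q : ℝ≥0∞) ^ 2)⁻¹ with hu
  have hqt : (2 * (q : ℝ≥0∞) ^ 2) ≠ ⊤ := ENNReal.mul_ne_top (by norm_num)
    (ENNReal.pow_ne_top (ENNReal.natCast_ne_top q))
  have hu0 : u ≠ 0 := ENNReal.inv_ne_zero.2 hqt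
  have hq1 : (1 : ℝ≥0∞) ≤ (q : ℝ≥0∞) ^ 2 := by
    refine one_le_pow_of_one_le' ?_ 2
    exact_mod_cast (by omega : 1 ≤ q)
  have hq22 : (q : ℝ≥0∞) ^ 2 ≤ 2 * (q : ℝ≥0∞) ^ 2 := by
    calc (q : ℝ≥0∞) ^ 2 = 1 * (q : ℝ≥0∞) ^ 2 := (one_mul _).symm
      _ ≤ _ := mul_le_mul_left one_le_two _
  have hu1 : u ≤ 1 := by
    rw [hu, ENNReal.inv_le_one]
    exact hq1.trans hq22
  have huq : u ≤ ((q : ℝ≥0∞) ^ 2)⁻¹ := ENNReal.inv_le_inv.2 hq22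
  have hA : (N : ℝ≥0∞) * (u * u) + (N : ℝ≥0∞) * (2 * (1 - u) ^ j0) ≤ η := by
    refine le_trans ?_ hq
    have hNq : (N : ℝ≥0∞) ≤ 3 * ((q : ℝ≥0∞) ^ 3 + 6) := by
      rw [hN, hj0def]
      push_cast
      exact mul_le_mul_right le_self_add _
    calc (N : ℝ≥0∞) * (u * u) + (N : ℝ≥0∞) * (2 * (1 - u) ^ j0)
        ≤ (3 * ((q : ℝ≥0∞) ^ 3 + 6)) * (((q : ℝ≥0∞) ^ 2)⁻¹ * ((q : ℝ≥0∞) ^ 2)⁻¹)
          + (3 * ((q : ℝ≥0∞) ^ 3 + 6)) * (2 * (1 - u) ^ j0) := by gcongr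
      _ ≤ 2 * ((3 * ((q : ℝ≥0∞) ^ 3 + 6)) * (((q : ℝ≥0∞) ^ 2)⁻¹ * ((q : ℝ≥0∞) ^ 2)⁻¹))
          + (3 * ((q : ℝ≥0∞) ^ 3 + 6)) * (2 * (1 - u) ^ j0) := by
          refine add_le_add ?_ le_rfl
          rw [two_mul]; exact le_self_add
      _ = _ := by push_cast; ring
  -- overshoot
  obtain ⟨δe, de0, det, hde⟩ := small ((N : ℝ≥0∞) * (2 * N)) η
    (ENNReal.mul_ne_top (ENNReal.natCast_ne_top _)
      (ENNReal.mul_ne_top (by norm_num) (ENNReal.natCast_ne_top _))) hη0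
  obtain ⟨I1, hI1⟩ := over_small ΛX hX h1X hΛX c hc0 hct hcX hUX δe de0
  obtain ⟨I2, hI2⟩ := over_small ΛY hY h1Y hΛY c hc0 hct hcY hUY δe de0
  set i0 := max I1 I2 with hi0
  set D := 3 * j0 * i0 with hD
  set K1 : ℝ≥0∞ := (N : ℝ≥0∞) * (2 * ((D + 1 : ℕ) * (((i0 + 1 : ℕ) * (i0 + 1 : ℕ)) * C))) with hK1
  have hK1t : K1 ≠ ⊤ := by
    refine ENNReal.mul_ne_top (ENNReal.natCast_ne_top _) (ENNReal.mul_ne_top (by norm_num)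
      (ENNReal.mul_ne_top (ENNReal.natCast_ne_top _) (ENNReal.mul_ne_top
        (ENNReal.mul_ne_top (ENNReal.natCast_ne_top _) (ENNReal.natCast_ne_top _)) hC)))
  obtain ⟨lam, l0, lt, hl⟩ := small K1 η hK1t hη0
  set K2 : ℝ≥0∞ := K1 * (N / lam + 1) with hK2
  have hK2t : K2 ≠ ⊤ := ENNReal.mul_ne_top hK1t (ENNReal.add_ne_top.2
    ⟨ENNReal.div_ne_top (ENNReal.natCast_ne_top _) l0, ENNReal.one_ne_top⟩)
  obtain ⟨δu, du0, dut, hdu⟩ := small K2 η hK2t hη0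
  obtain ⟨s, hs⟩ : ∃ s, us D s ≤ δu := by
    obtain ⟨s, hs⟩ := eventually_atTop.1 ((hus D).eventually (gt_mem_nhds (pos_iff_ne_zero.2 du0)))
    exact ⟨s, (hs s le_rfl).le⟩
  obtain ⟨ε', e0, et, he'⟩ := small (((2 * j0 + 1 : ℕ) : ℝ≥0∞) * (3 * j0 * i0 + 2 * s + 1 : ℕ)) η
    (ENNReal.mul_ne_top (ENNReal.natCast_ne_top _) (ENNReal.natCast_ne_top _)) hη0
  obtain ⟨k0, hk0⟩ := hPt ε' e0
  refine ⟨3 * j0 + k0 + s + j0 + j0 * s, fun m hm n hn w => ?_⟩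
  set T := m / j0 with hT
  have t1 : j0 * T ≤ m := Nat.mul_div_le m j0
  have t2 : m < j0 * T + j0 := Nat.lt_mul_div_succ m (by omega)
  have t3 : 3 * j0 * T = 3 * (j0 * T) := by ring
  have t4 : s ≤ T := by
    rw [hT, Nat.le_div_iff_mul_le (by omega)]
    have : s * j0 = j0 * s := mul_comm _ _
    omega
  set R := 3 * j0 * (T + i0) + s with hR
  have hw := windows ΛX hX zX sX ΛY hY zY sY h1X h1Y hΛX hΛY hUX hUY hsX hsY C us hH2 hH3 w T i0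
    j0 s m (n + R) hj0 t1 (by omega) t4 (by omega) u lam δe ε' hu0 hu1 l0 lt
    (hI1 i0 (le_max_left _ _) T) (hI2 i0 (le_max_right _ _) T) (by
      intro k hk hkn
      rw [← S2_ind]
      exact hk0 k (by omega) (n + R) hkn w)
  have hx := Bd958.ext_two ΛX hX ΛY hY h1X h1Y c n R (hcX R) (hcY R)
    (fun L L' => ∃ k, m < k ∧ k ≤ 2 * m ∧
          ∃ v, (v, k) ∈ TT sX hX zX L 0 0 ∧ (v, k) ∈ TT sY hY zY L' w 0)
    (fun L L' => ∃ k, m < k ∧ k ≤ 2 * m ∧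
          ∃ v, (v, k) ∈ TT sX hX zX L 0 0 ∧ (v, k) ∈ TT sY hY zY L' w 0)
    (by
      rintro L R' L' R'' - - - - ⟨k, k1, k2, v, v1, v2⟩
      refine ⟨k, k1, k2, v, ?_, ?_⟩
      · rw [TT_append]; exact Or.inl v1
      · rw [TT_append]; exact Or.inl v2)
  have hfin : c * c * ∑' L : List BX, ∑' L' : List BY, (if HT hX L = n ∧ HT hY L' = n ∧
        (∃ k, m < k ∧ k ≤ 2 * m ∧
          ∃ v, (v, k) ∈ TT sX hX zX L 0 0 ∧ (v, k) ∈ TT sY hY zY L' w 0)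
        then LW ΛX L * LW ΛY L' else 0) ≤ 5 * η := by
    refine le_trans ?_ (hw.trans ?_)
    · rw [← S2_ind]
      refine le_trans ?_ (hx.trans ?_)
      · refine mul_le_mul_right (ENNReal.tsum_le_tsum fun L => ENNReal.tsum_le_tsum fun L' => ?_) _
        split_ifs <;> first | exact le_rfl | exact zero_le
      · refine ENNReal.tsum_le_tsum fun L => ENNReal.tsum_le_tsum fun L' => ?_
        by_cases hcd : HT hX L = n + R ∧ HT hY L' = n + R ∧ ∃ k, m < k ∧ k ≤ 2 * m ∧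
          Ct hX zX sX hY zY sY w k L L'
        · rw [if_pos hcd]
          split_ifs
          · exact le_rfl
          · exact zero_le
        · rw [if_neg hcd]
          refine le_of_eq (if_neg hcd)
    · calc ((2 * j0 + 1 : ℕ) * (3 * j0 * i0 + 2 * s + 1 : ℕ)) * ε' +
            (3 * j0 : ℕ) * (2 * ((3 * j0 : ℕ) * δe) + u * u + 2 * ((1 - u) ^ j0 +
            (3 * j0 * i0 + 1 : ℕ) * (((i0 + 1 : ℕ) * (i0 + 1 : ℕ)) *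
            (C * (lam + (3 * j0 : ℕ) * us (3 * j0 * i0) s / lam + us (3 * j0 * i0) s)))))
          = ((2 * j0 + 1 : ℕ) * (3 * j0 * i0 + 2 * s + 1 : ℕ)) * ε'
            + (((N : ℝ≥0∞) * (2 * N)) * δe + ((N : ℝ≥0∞) * (u * u)
              + (N : ℝ≥0∞) * (2 * (1 - u) ^ j0)) + K1 * lam + K2 * us D s) := by
            rw [hK2, hK1]
            simp only [div_eq_mul_inv]
            ring
        _ ≤ η + (η + η + η + η) := by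
            refine add_le_add (he' ε' le_rfl) (add_le_add (add_le_add (add_le_add ?_ hA) ?_) ?_)
            · exact hde δe le_rfl
            · exact hl lam le_rfl
            · exact hdu _ hs
        _ = 5 * η := by ring
  calc _ = (c * c)⁻¹ * (c * c * ∑' L : List BX, ∑' L' : List BY,
        (if HT hX L = n ∧ HT hY L' = n ∧
        (∃ k, m < k ∧ k ≤ 2 * m ∧
          ∃ v, (v, k) ∈ TT sX hX zX L 0 0 ∧ (v, k) ∈ TT sY hY zY L' w 0)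
        then LW ΛX L * LW ΛY L' else 0)) := by
        rw [← mul_assoc, ENNReal.inv_mul_cancel hcc0 hcct, one_mul]
    _ ≤ (c * c)⁻¹ * (5 * η) := mul_le_mul_right hfin _
    _ ≤ ε := hη

end six

end Crest.Agent.R154.Asm214
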