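import Crest.Agent.R154.Asm5_395

set_option autoImplicit false

namespace Crest.Agent.R154.Asm395

open Crest.Agent.R154.B5A
open scoped ENNReal Topology
open Classical

section window

variable {BX BY G : Type*} [AddCommGroup G]
  (hX : BX → ℕ) (ΛX : BX → ℝ≥0∞) (zX : BX → G) (sX : BX → Set (G × ℕ))
  (hY : BY → ℕ) (ΛY : BY → ℝ≥0∞) (zY : BY → G) (sY : BY → Set (G × ℕ))
  (h1X : ∀ b, 1 ≤ hX b) (hΛX : ∑' b, ΛX b = 1) (hUX : ∀ n, U ΛX hX n ≤ 1)
  (h1Y : ∀ b, 1 ≤ hY b) (hΛY : ∑' b, ΛY b = 1) (hUY : ∀ n, U ΛY hY n ≤ 1)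
  (hsX : ∀ b, ∀ q ∈ sX b, 1 ≤ q.2 ∧ q.2 ≤ hX b)
  (hsY : ∀ b, ∀ q ∈ sY b, 1 ≤ q.2 ∧ q.2 ≤ hY b)

/-- double sum over the pairs of lists of height `n` -/
noncomputable def WW (n : ℕ) (F : List BX → List BY → ℝ≥0∞) : ℝ≥0∞ :=
  ws ΛX (fun L => HT hX L = n) (fun LX => ws ΛY (fun L => HT hY L = n) (fun LY => F LX LY))

include hsX hsY in
/-- pieces of a pair with a first contact in the window -/
lemma Ph_piece (a s σ i0 b b' : ℕ) (hb : a + 2 * i0 + s ≤ b) (hb' : b' + s ≤ a + σ) (w : G)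
    (A P R : List BX) (A' P' R' : List BY)
    (hA : FPi hX a i0 A) (hP : FPi hX σ i0 P) (hA' : FPi hY (a + i0) i0 A')
    (hP' : FPi hY (σ + i0) i0 P')
    (hPh : Ph hX zX sX hY zY sY b b' w (A ++ (P ++ R)) (A' ++ (P' ++ R')))
    (hsl : ∀ k, a + σ - s < k → k ≤ a + σ + 2 * i0 →
      ¬ ∃ z, (z, k) ∈ TS hX zX sX (A ++ (P ++ R)) 0 0 ∧
        (z, k) ∈ TS hY zY sY (A' ++ (P' ++ R')) w 0) :
    Cc hX zX sX hY zY sY (HT hX A) (HT hY A') (b + 1) (a + σ - s)
      (w + Dp zY A' - Dp zX A) P P' := by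
  obtain ⟨hall, z, k, hzX, hzY, hk⟩ := hPh
  have hkb := hall z k hzX hzY
  have a1 := hA.1.1
  have a2 := hA.2
  have a3 := hP.1.1
  have a4 := hP.2
  have a1' := hA'.1.1
  have a2' := hA'.2
  have a3' := hP'.1.1
  have a4' := hP'.2
  -- conversion of membership
  have cX : ∀ y k, (y, k) ∈ TS hX zX sX P 0 (HT hX A) ↔
      (y + Dp zX A, k) ∈ TS hX zX sX P (0 + Dp zX A) (0 + HT hX A) := by
    intro y k
    rw [zero_add (HT hX A)]
    exact TS_shift hX zX sX P 0 (Dp zX A) (HT hX A) y k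
  have cY : ∀ y k, (y, k) ∈ TS hY zY sY P' (w + Dp zY A' - Dp zX A) (HT hY A') ↔
      (y + Dp zX A, k) ∈ TS hY zY sY P' (w + Dp zY A') (0 + HT hY A') := by
    intro y k
    rw [zero_add (HT hY A'), TS_shift hY zY sY P' (w + Dp zY A' - Dp zX A) (Dp zX A) (HT hY A') y k,
      show w + Dp zY A' - Dp zX A + Dp zX A = w + Dp zY A' by abel]
  have inX : ∀ y k, (y, k) ∈ TS hX zX sX P 0 (HT hX A) →
      (y + Dp zX A, k) ∈ TS hX zX sX (A ++ (P ++ R)) 0 0 := by
    intro y k h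
    rw [TS_append, TS_append]
    exact Or.inr (Or.inl ((cX y k).1 h))
  have inY : ∀ y k, (y, k) ∈ TS hY zY sY P' (w + Dp zY A' - Dp zX A) (HT hY A') →
      (y + Dp zX A, k) ∈ TS hY zY sY (A' ++ (P' ++ R')) w 0 := by
    intro y k h
    rw [TS_append, TS_append]
    exact Or.inr (Or.inl ((cY y k).1 h))
  refine ⟨⟨z - Dp zX A, k, ?_, ?_⟩, ?_⟩
  · rw [cX, sub_add_cancel]
    rw [TS_append, TS_append] at hzX
    rcases hzX with h | h | h
    · have := TS_depth hX zX sX hsX A _ _ _ _ h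
      omega
    · exact h
    · have := TS_depth hX zX sX hsX R _ _ _ _ h
      omega
  · rw [cY, sub_add_cancel]
    rw [TS_append, TS_append] at hzY
    rcases hzY with h | h | h
    · have := TS_depth hY zY sY hsY A' _ _ _ _ h
      omega
    · exact h
    · have := TS_depth hY zY sY hsY R' _ _ _ _ h
      omega
  · intro y j hy1 hy2
    have e1 := hall _ _ (inX y j hy1) (inY y j hy2)
    refine ⟨e1, ?_⟩
    by_contra hcon
    push Not at hcon
    have e2 := TS_depth hX zX sX hsX P _ _ _ _ hy1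
    exact hsl j hcon (by omega) ⟨_, inX y j hy1, inY y j hy2⟩

include h1X hΛX hUX h1Y hΛY hUY hsX hsY in
theorem window (C : ℕ → ℝ≥0∞) (us : ℕ → ℕ → ℝ≥0∞)
    (hH2 : H2 hX ΛX zX sX hY ΛY zY sY C us) (hH3 : H3 hX ΛX zX sX hY ΛY zY sY C us)
    (a s σ i0 J n b b' : ℕ) (u lam η : ℝ≥0∞) (hu0 : u ≠ 0) (hu1 : u ≤ 1)
    (hl0 : lam ≠ 0) (hlt : lam ≠ ⊤)
    (hJ : J * (σ + i0 + i0) ≤ a) (hb : a + 2 * i0 + s ≤ b) (hb' : b' + s ≤ a + σ)
    (hn : a + i0 + i0 + (σ + i0 + i0) ≤ n) (w : G)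
    (hη : ∀ k, a + σ - s < k → k ≤ a + σ + 2 * i0 →
      WW hX ΛX hY ΛY n (fun LX LY => ind (∃ z, (z, k) ∈ TS hX zX sX LX 0 0 ∧
        (z, k) ∈ TS hY zY sY LY w 0)) ≤ η) :
    WW hX ΛX hY ΛY n (fun LX LY => ind (Ph hX zX sX hY zY sY b b' w LX LY))
      ≤ ((1 - u) ^ J + J * gp hX ΛX i0) + ((1 - u) ^ J + J * gp hY ΛY i0)
        + (s + 2 * i0 + 1) * η + (2 * gp hX ΛX i0 + 2 * gp hY ΛY i0 + u * u
        + 2 * ((i0 + 1) ^ 4 * (C i0 * (lam + J * (i0 + 1) * us i0 s / lam + us i0 s)))) := by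
  obtain ⟨θ, hθ0, -, hNL, hNS⟩ := exists_theta hX ΛX zX h1X hΛX σ hu0 hu1
  obtain ⟨θ', hθ0', -, hNL', hNS'⟩ := exists_theta hY ΛY zY h1Y hΛY (σ + i0) hu0 hu1
  set GX : List BX → Prop := Gd hX ΛX zX σ i0 θ J with hGX
  set GY : List BY → Prop := Gd hY ΛY zY (σ + i0) i0 θ' J with hGY
  set I : Finset ℕ := Finset.Ioc (a + σ - s) (a + σ + 2 * i0) with hI
  set CT : ℕ → List BX → List BY → Prop := fun k LX LY => ∃ z, (z, k) ∈ TS hX zX sX LX 0 0 ∧
        (z, k) ∈ TS hY zY sY LY w 0 with hCT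
  set Ψ : List BX → List BY → Prop := fun LX LY => Ph hX zX sX hY zY sY b b' w LX LY ∧
    GX LX ∧ GY LY ∧ ∀ k, a + σ - s < k → k ≤ a + σ + 2 * i0 → ¬ CT k LX LY with hΨ
  have hmX := mass_HT hX ΛX hUX
  have hmY := mass_HT hY ΛY hUY
  -- pointwise
  have hpt : ∀ LX LY, ind (Ph hX zX sX hY zY sY b b' w LX LY) ≤
      ind (¬ GX LX) + ind (¬ GY LY) + ∑ k ∈ I, ind (CT k LX LY) + ind (Ψ LX LY) := by
    intro LX LY
    by_cases hP : Ph hX zX sX hY zY sY b b' w LX LY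
    swap
    · rw [ind_false hP]; exact bot_le
    rw [ind_true hP]
    by_cases h1 : GX LX
    swap
    · rw [ind_true h1, add_assoc, add_assoc]; exact le_self_add
    by_cases h2 : GY LY
    swap
    · rw [ind_true (p := ¬ GY LY) h2, add_comm (ind (¬ GX LX)), add_assoc, add_assoc]
      exact le_self_add
    by_cases h3 : ∀ k, a + σ - s < k → k ≤ a + σ + 2 * i0 → ¬ CT k LX LY
    · rw [ind_true (p := Ψ LX LY) ⟨hP, h1, h2, h3⟩]; exact le_add_self
    · push Not at h3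
      obtain ⟨k, k1, k2, k3⟩ := h3
      have hk : k ∈ I := Finset.mem_Ioc.2 ⟨k1, k2⟩
      calc (1 : ℝ≥0∞) = ind (CT k LX LY) := (ind_true k3).symm
        _ ≤ ∑ k ∈ I, ind (CT k LX LY) :=
            Finset.single_le_sum (f := fun k => ind (CT k LX LY)) (fun _ _ => bot_le) hk
        _ ≤ _ := le_add_self.trans le_self_add
  have hsum : WW hX ΛX hY ΛY n (fun LX LY => ind (Ph hX zX sX hY zY sY b b' w LX LY))
      ≤ WW hX ΛX hY ΛY n (fun LX _ => ind (¬ GX LX)) + WW hX ΛX hY ΛY n (fun _ LY => ind (¬ GY LY))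
        + ∑ k ∈ I, WW hX ΛX hY ΛY n (fun LX LY => ind (CT k LX LY))
        + WW hX ΛX hY ΛY n (fun LX LY => ind (Ψ LX LY)) := by
    refine (ws_mono fun LX _ => ws_mono fun LY _ => hpt LX LY).trans (le_of_eq ?_)
    simp only [WW, ws_add, ws_sum]
  refine hsum.trans ?_
  -- the four terms
  have t1 : WW hX ΛX hY ΛY n (fun LX _ => ind (¬ GX LX)) ≤ (1 - u) ^ J + J * gp hX ΛX i0 := by
    refine le_trans (ws_mono fun LX _ => ws_le_of_mass (hmY n) fun _ _ => le_rfl) ?_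
    rw [ws_ind']
    refine bad_le hX ΛX zX hUX σ i0 θ (1 - u) tsub_le_self hNS J n ?_
    have : J * (σ + i0) ≤ J * (σ + i0 + i0) := Nat.mul_le_mul_left _ (by omega)
    omega
  have t2 : WW hX ΛX hY ΛY n (fun _ LY => ind (¬ GY LY)) ≤ (1 - u) ^ J + J * gp hY ΛY i0 := by
    refine ws_le_of_mass (hmX n) fun _ _ => ?_
    rw [ws_ind']
    exact bad_le hY ΛY zY hUY (σ + i0) i0 θ' (1 - u) tsub_le_self hNS' J n (by omega)
  have t3 : ∑ k ∈ I, WW hX ΛX hY ΛY n (fun LX LY => ind (CT k LX LY)) ≤ (s + 2 * i0 + 1) * η := by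
    refine (Finset.sum_le_card_nsmul _ _ η fun k hk => ?_).trans ?_
    · rw [hI, Finset.mem_Ioc] at hk
      exact hη k hk.1 hk.2
    · rw [nsmul_eq_mul, hI, Nat.card_Ioc]
      refine mul_le_mul_left ?_ η
      have : a + σ + 2 * i0 - (a + σ - s) ≤ s + 2 * i0 + 1 := by omega
      calc ((a + σ + 2 * i0 - (a + σ - s) : ℕ) : ℝ≥0∞) ≤ ((s + 2 * i0 + 1 : ℕ) : ℝ≥0∞) := by
            exact_mod_cast this
        _ = _ := by push_cast; ring
  have t4 : WW hX ΛX hY ΛY n (fun LX LY => ind (Ψ LX LY)) ≤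
      2 * gp hX ΛX i0 + 2 * gp hY ΛY i0 + u * u
        + 2 * ((i0 + 1) ^ 4 * (C i0 * (lam + J * (i0 + 1) * us i0 s / lam + us i0 s))) := by
    set Θ1 : List BX → List BY → ℝ≥0∞ := fun P P' =>
      ind (¬ Lo hX ΛX zX σ θ P) * ind (¬ Lo hY ΛY zY (σ + i0) θ' P') with hΘ1
    set CC : List BX → List BY → List BX → List BY → Prop := fun A A' P P' =>
      Cc hX zX sX hY zY sY (HT hX A) (HT hY A') (b + 1) (a + σ - s)
        (w + Dp zY A' - Dp zX A) P P' with hCC
    have mXa := mass_FPi hX ΛX h1X hΛX a i0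
    have mXσ := mass_FPi hX ΛX h1X hΛX σ i0
    have mYa := mass_FPi hY ΛY h1Y hΛY (a + i0) i0
    have mYσ := mass_FPi hY ΛY h1Y hΛY (σ + i0) i0
    -- the inner bound
    have hin : ∀ A P R, FPi hX a i0 A → FPi hX σ i0 P →
        ws ΛY (fun L => HT hY L = n) (fun LY => ind (Ψ (A ++ (P ++ R)) LY)) ≤
        2 * gp hY ΛY i0 + ws ΛY (FPi hY (a + i0) i0) (fun A' => ws ΛY (FPi hY (σ + i0) i0)
          (fun P' => Θ1 P P' + ind (GX A) * (ind (Lo hX ΛX zX σ θ P) * ind (CC A A' P P'))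
            + ind (GY A') * (ind (Lo hY ΛY zY (σ + i0) θ' P') * ind (CC A A' P P')))) := by
      intro A P R hA hP
      refine (split2 hY ΛY h1Y hΛY hUY (a + i0) (σ + i0) i0 n (by omega)
        (fun LY => ind (Ψ (A ++ (P ++ R)) LY)) (fun _ => ind_le_one _)).trans ?_
      gcongr
      refine ws_mono fun A' hA' => ws_mono fun P' hP' => ?_
      refine ws_le_of_mass (hmY _) fun R' _ => ?_
      by_cases hΨ' : Ψ (A ++ (P ++ R)) (A' ++ (P' ++ R'))
      swap
      · rw [ind_false hΨ']; exact bot_le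
      rw [ind_true hΨ']
      obtain ⟨q1, q2, q3, q4⟩ := hΨ'
      have hc : CC A A' P P' :=
        Ph_piece hX zX sX hY zY sY hsX hsY a s σ i0 b b' hb hb' w A P R A' P' R' hA hP hA' hP' q1 q4
      by_cases l1 : Lo hX ΛX zX σ θ P
      · have g1 : GX A := by
          refine Gd_prefix hX ΛX zX h1X σ i0 θ J A (P ++ R) q2 ?_
          have h1 := hA.1.1
          have : J * (σ + i0) ≤ J * (σ + i0 + i0) := Nat.mul_le_mul_left _ (by omega)
          omega
        rw [ind_true g1, ind_true l1, ind_true hc]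
        simp only [mul_one]
        exact le_add_self.trans le_self_add
      · by_cases l2 : Lo hY ΛY zY (σ + i0) θ' P'
        · have g2 : GY A' := by
            refine Gd_prefix hY ΛY zY h1Y (σ + i0) i0 θ' J A' (P' ++ R') q3 ?_
            have h1 := hA'.1.1
            omega
          rw [ind_true g2, ind_true l2, ind_true hc]
          simp only [mul_one]
          exact le_add_self
        · rw [hΘ1]
          simp only
          rw [ind_true l1, ind_true l2, one_mul, add_assoc]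
          exact le_self_add
    refine (split2 hX ΛX h1X hΛX hUX a σ i0 n (by omega) _
      (fun LX => ws_le_of_mass (hmY n) fun _ _ => ind_le_one _)).trans ?_
    have hout : ws ΛX (FPi hX a i0) (fun A => ws ΛX (FPi hX σ i0) (fun P =>
        ws ΛX (fun R => HT hX R = n - HT hX A - HT hX P) (fun R =>
          ws ΛY (fun L => HT hY L = n) (fun LY => ind (Ψ (A ++ (P ++ R)) LY))))) ≤
        ws ΛX (FPi hX a i0) (fun A => ws ΛX (FPi hX σ i0) (fun P =>
          2 * gp hY ΛY i0 + ws ΛY (FPi hY (a + i0) i0) (fun A' => ws ΛY (FPi hY (σ + i0) i0)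
          (fun P' => Θ1 P P' + ind (GX A) * (ind (Lo hX ΛX zX σ θ P) * ind (CC A A' P P'))
            + ind (GY A') * (ind (Lo hY ΛY zY (σ + i0) θ' P') * ind (CC A A' P P')))))) := by
      refine ws_mono fun A hA => ws_mono fun P hP => ?_
      exact ws_le_of_mass (hmX _) fun R _ => hin A P R hA hP
    refine (add_le_add le_rfl hout).trans ?_
    simp only [ws_add]
    have s0 : ws ΛX (FPi hX a i0) (fun A => ws ΛX (FPi hX σ i0) (fun P => 2 * gp hY ΛY i0))
        ≤ 2 * gp hY ΛY i0 :=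
      ws_le_of_mass mXa fun _ _ => ws_le_of_mass mXσ fun _ _ => le_rfl
    have s1 : ws ΛX (FPi hX a i0) (fun A => ws ΛX (FPi hX σ i0) (fun P =>
        ws ΛY (FPi hY (a + i0) i0) (fun A' => ws ΛY (FPi hY (σ + i0) i0)
          (fun P' => Θ1 P P')))) ≤ u * u := by
      refine ws_le_of_mass mXa fun _ _ => ?_
      have e : ∀ P, ws ΛY (FPi hY (a + i0) i0) (fun A' => ws ΛY (FPi hY (σ + i0) i0)
          (fun P' => Θ1 P P')) ≤ ind (¬ Lo hX ΛX zX σ θ P) * u := by
        intro P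
        refine ws_le_of_mass mYa fun _ _ => ?_
        rw [hΘ1]
        simp only
        rw [ws_mul, ws_ind']
        gcongr
        exact (ws_mono_set fun _ h => ⟨h.1.1, h.2⟩).trans hNL'
      refine (ws_mono fun P _ => e P).trans ?_
      rw [ws_mul_right, ws_ind']
      gcongr
      exact (ws_mono_set fun _ h => ⟨h.1.1, h.2⟩).trans hNL
    have s2 : ws ΛX (FPi hX a i0) (fun A => ws ΛX (FPi hX σ i0) (fun P =>
        ws ΛY (FPi hY (a + i0) i0) (fun A' => ws ΛY (FPi hY (σ + i0) i0)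
          (fun P' => ind (GX A) * (ind (Lo hX ΛX zX σ θ P) * ind (CC A A' P P'))))))
        ≤ (i0 + 1) ^ 4 * (C i0 * (lam + J * (i0 + 1) * us i0 s / lam + us i0 s)) := by
      have q := quad hX ΛX zX sX hY ΛY zY sY GX (fun _ => True) (Lo hX ΛX zX σ θ)
        (fun _ => True) a (a + i0) σ (σ + i0) i0 (b + 1) (a + σ - s) w
        (C i0 * (lam + J * (i0 + 1) * us i0 s / lam + us i0 s)) (by
          intro α α1 α2 β β1 β2 h h1 h2 h' h1' h2'
          exact piece2 hX ΛX zX sX hY ΛY zY sY h1X hΛX hUX h1Y hΛY hUY C us hH2 σ i0 s J θ lam hθ0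
            hl0 hlt α β h h' (b + 1) (a + σ - s) w (by omega) (by omega) (by omega) (by omega)
            (by omega) (by omega))
      refine le_trans (le_of_eq ?_) q
      rw [← ws_ind]
      refine congrArg _ (funext fun A => ?_)
      rw [ws_comm]
      simp only [ws_mul, ws_ind, and_true]
      rfl
    have s3 : ws ΛX (FPi hX a i0) (fun A => ws ΛX (FPi hX σ i0) (fun P =>
        ws ΛY (FPi hY (a + i0) i0) (fun A' => ws ΛY (FPi hY (σ + i0) i0)
          (fun P' => ind (GY A') * (ind (Lo hY ΛY zY (σ + i0) θ' P') * ind (CC A A' P P'))))))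
        ≤ (i0 + 1) ^ 4 * (C i0 * (lam + J * (i0 + 1) * us i0 s / lam + us i0 s)) := by
      have q := quad hX ΛX zX sX hY ΛY zY sY (fun _ => True) GY (fun _ => True)
        (Lo hY ΛY zY (σ + i0) θ') a (a + i0) σ (σ + i0) i0 (b + 1) (a + σ - s) w
        (C i0 * (lam + J * (i0 + 1) * us i0 s / lam + us i0 s)) (by
          intro α α1 α2 β β1 β2 h h1 h2 h' h1' h2'
          exact piece3 hX ΛX zX sX hY ΛY zY sY h1X hΛX hUX h1Y hΛY hUY C us hH3 (σ + i0) i0 s J θ'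
            lam hθ0' hl0 hlt α β h h' (b + 1) (a + σ - s) w (by omega) (by omega) (by omega)
            (by omega) (by omega) (by omega))
      refine le_trans (le_of_eq ?_) q
      simp only [and_true]
      refine congrArg _ (funext fun A => ?_)
      rw [ws_comm]
      simp only [ws_mul, ws_ind]
      rfl
    calc _ ≤ 2 * gp hX ΛX i0 + (2 * gp hY ΛY i0 + (u * u + (i0 + 1) ^ 4 * (C i0 * (lam + J * (i0 + 1) * us i0 s / lam + us i0 s))
          + (i0 + 1) ^ 4 * (C i0 * (lam + J * (i0 + 1) * us i0 s / lam + us i0 s)))) :=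
          add_le_add le_rfl (add_le_add s0 (add_le_add (add_le_add s1 s2) s3))
      _ = _ := by ring
  exact add_le_add (add_le_add (add_le_add t1 t2) t3) t4

end window

end Crest.Agent.R154.Asm395
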