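import Crest.Agent.R154.Asm5_532

/-! Row 154 (helper532), ROAD 801: abstract assembly, part 6: one window with explicit constants. -/

set_option autoImplicit false

namespace Crest.Agent.R154.Asm532

open scoped ENNReal
open Crest.Agent.R154.B5A
open Crest.Agent.R154.FP178 (fp)
open Classical
open Finset (range)

section onew

variable {B G : Type*} [AddCommGroup G] (Λ : B → ℝ≥0∞) (ht : B → ℕ) (zz : B → G)

lemma far_le (h1 : ∀ b, 1 ≤ ht b) (hU1 : ∀ n, U Λ ht n ≤ 1) (T i0 : ℕ) :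
    ∑' c, (if T + i0 < c.1 then FL Λ ht zz T c else 0) ≤ ov Λ ht i0 := by
  have h := FL_sum Λ ht zz T (fun c => if T + i0 < c.1 then 1 else 0)
  have e : ∑' c, (if T + i0 < c.1 then FL Λ ht zz T c else 0)
      = ∑' c, FL Λ ht zz T c * (if T + i0 < c.1 then 1 else 0) := by
    refine tsum_congr fun c => ?_
    by_cases hc : T + i0 < c.1 <;> simp [hc]
  rw [e, ← h]
  refine le_trans (le_of_eq (tsum_congr fun L => ?_)) (FP178.overshoot Λ ht h1 hU1 i0 T)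
  have : (kp ht zz L).1 = HT ht L := rfl
  rw [this]
  by_cases h1 : fp ht T L <;> by_cases h2 : T + i0 < HT ht L <;> simp [h1, h2]

lemma geo_le {u : ℝ≥0∞} (hu1 : u ≤ 1) (J : ℕ) : ∑ j ∈ range J, (1 - u) ^ j ≤ u⁻¹ := by
  refine (ENNReal.sum_le_tsum _).trans ?_
  rw [ENNReal.tsum_geometric, ENNReal.sub_sub_cancel ENNReal.one_ne_top hu1]

/-- smooth law and quantile of one walker -/
theorem smooth (h1 : ∀ b, 1 ≤ ht b) (hΛ : ∑' b, Λ b = 1) (hU1 : ∀ n, U Λ ht n ≤ 1)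
    (T i0 J A : ℕ) (hJ : J * (T + i0) ≤ A) (u : ℝ≥0∞) (hu0 : u ≠ 0) (hu1 : u ≤ 1) :
    ∃ (th : ℝ≥0∞) (g b : ℕ × G → ℝ≥0∞), th ≠ 0 ∧ th ≤ 1 ∧
      ∑' c, (if FL Λ ht zz T c < th then FL Λ ht zz T c else 0) ≤ u ∧
      (∀ c, FL Λ ht zz A c ≤ g c + b c) ∧ (∀ c, g c ≤ (i0 + 1) * th * u⁻¹) ∧
      ∑' c, b c ≤ (1 - u) ^ J + ov Λ ht i0 * u⁻¹ := by
  have hm := FL_mass Λ ht zz h1 hΛ T
  obtain ⟨th, hth0, hth1, hq1, hq2⟩ := Dens903.quantile (FL Λ ht zz T) hm hu0 hu1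
  have hNG : ∑' c, (if th < FL Λ ht zz T c then FL Λ ht zz T c else 0) ≤ 1 - u := by
    refine ENNReal.le_sub_of_add_le_right (ne_top_of_le_ne_top ENNReal.one_ne_top hu1) ?_
    refine (add_le_add le_rfl hq2).trans (le_of_eq ?_)
    rw [← ENNReal.tsum_add, ← hm]
    refine tsum_congr fun c => ?_
    by_cases h : th < FL Λ ht zz T c
    · rw [if_pos h, if_neg (not_le.2 h), add_zero]
    · rw [if_neg h, if_pos (not_lt.1 h), zero_add]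
  obtain ⟨g, b, hgb, hg, hb⟩ := dens Λ ht zz h1 hΛ T i0 th (1 - u) (ov Λ ht i0) hNG
    (far_le Λ ht zz h1 hU1 T i0) J A hJ
  refine ⟨th, g, b, hth0, hth1, hq1, hgb, fun c => (hg c).trans ?_, hb.trans ?_⟩
  · exact mul_le_mul_right (geo_le hu1 J) _
  · exact add_le_add le_rfl (mul_le_mul_right (geo_le hu1 J) _)

/-- the local set at one exact height -/
theorem locset (h1 : ∀ b, 1 ≤ ht b) (hΛ : ∑' b, Λ b = 1) (T h : ℕ) (th : ℝ≥0∞) (hth : th ≠ 0) :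
    ∃ E : Finset G, (∀ z, th ≤ FL Λ ht zz T (h, z) → z ∈ E) ∧ th * E.card ≤ 1 := by
  have hm : ∑' z, FL Λ ht zz T (h, z) ≤ 1 := by
    refine le_trans ?_ (FL_mass Λ ht zz h1 hΛ T).le
    refine ENNReal.tsum_comp_le_tsum_of_injective (f := fun z : G => (h, z)) ?_ _
    intro x y hxy
    exact (Prod.mk.inj hxy).2
  have hfin := Dens903.finite_level (fun z => FL Λ ht zz T (h, z))
    (ne_top_of_le_ne_top ENNReal.one_ne_top hm) hth
  refine ⟨hfin.toFinset, fun z hz => hfin.mem_toFinset.2 hz, ?_⟩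
  have hc := Dens903.card_le (fun z => FL Λ ht zz T (h, z)) th
  refine le_trans ?_ (hc.trans hm)
  refine mul_le_mul_right ?_ _
  calc ((hfin.toFinset.card : ℕ) : ℝ≥0∞)
      = ∑ z ∈ hfin.toFinset, (if th ≤ FL Λ ht zz T (h, z) then (1 : ℝ≥0∞) else 0) := by
        have hh : ∀ z ∈ hfin.toFinset, (if th ≤ FL Λ ht zz T (h, z) then (1 : ℝ≥0∞) else 0) = 1 :=
          fun z hz => if_pos (hfin.mem_toFinset.1 hz)
        rw [Finset.sum_congr rfl hh]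
        simp
    _ ≤ _ := ENNReal.sum_le_tsum _

end onew

variable {BX BY G : Type*} [AddCommGroup G] (ΛX : BX → ℝ≥0∞) (ΛY : BY → ℝ≥0∞)
  (hX : BX → ℕ) (hY : BY → ℕ) (zX : BX → G) (zY : BY → G)
  (sX : BX → Set (G × ℕ)) (sY : BY → Set (G × ℕ))

/-- `X` local, list letters: staggered tops and bottoms -/
def HL2 (C : ℝ≥0∞) (r0 s : ℕ) (η : ℝ≥0∞) : Prop :=
  ∀ (h h' a a' lo hi : ℕ) (E : Finset G) (μ : G → ℝ≥0∞) (M lam : ℝ≥0∞),
    a ≤ a' → a' ≤ a + r0 → a + h ≤ a' + h' → a' + h' ≤ a + h + r0 → a' + s ≤ lo →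
    hi + s ≤ a + h → ∑' x, μ x ≤ 1 → (∀ x, μ x ≤ M) → M ≠ ⊤ → lam ≠ 0 → lam ≠ ⊤ →
    ∑' x, μ x * Q2 ΛX ΛY hX hY zX zY sX sY h h' lo hi a a' (fun L _ => Dp zX L ∈ E) x
      ≤ C * (lam + M * E.card * η / lam + η)

/-- `Y` local, list letters: staggered tops and bottoms -/
def HL3 (C : ℝ≥0∞) (r0 s : ℕ) (η : ℝ≥0∞) : Prop :=
  ∀ (h h' a a' lo hi : ℕ) (E : Finset G) (μ : G → ℝ≥0∞) (M lam : ℝ≥0∞),
    a ≤ a' → a' ≤ a + r0 → a + h ≤ a' + h' → a' + h' ≤ a + h + r0 → a' + s ≤ lo →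
    hi + s ≤ a + h → ∑' x, μ x ≤ 1 → (∀ x, μ x ≤ M) → M ≠ ⊤ → lam ≠ 0 → lam ≠ ⊤ →
    ∑' x, μ x * Q2 ΛX ΛY hX hY zX zY sX sY h h' lo hi a a' (fun _ L' => Dp zY L' ∈ E) x
      ≤ C * (lam + M * E.card * η / lam + η)

lemma Q2_mono (h h' lo hi a a' : ℕ) (P P' : List BX → List BY → Prop) (x : G)
    (hP : ∀ L M, HT hX L = h → HT hY M = h' → P L M → P' L M) :
    Q2 ΛX ΛY hX hY zX zY sX sY h h' lo hi a a' P x
      ≤ Q2 ΛX ΛY hX hY zX zY sX sY h h' lo hi a a' P' x := by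
  refine ENNReal.tsum_le_tsum fun L => ENNReal.tsum_le_tsum fun M => ?_
  by_cases hc : HT hX L = h ∧ HT hY M = h' ∧ P L M ∧
    evP hX hY zX zY sX sY lo hi a a' x L M
  · rw [if_pos hc, if_pos ⟨hc.1, hc.2.1, hP L M hc.1 hc.2.1 hc.2.2.1, hc.2.2.2⟩]
  · rw [if_neg hc]; exact zero_le

/-- **one window with constants** -/
theorem window' (hX1 : ∀ b, 1 ≤ hX b) (hY1 : ∀ b, 1 ≤ hY b) (hΛX : ∑' b, ΛX b = 1)
    (hΛY : ∑' b, ΛY b = 1) (hUX : ∀ n, U ΛX hX n ≤ 1) (hUY : ∀ n, U ΛY hY n ≤ 1)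
    (hs : ∀ b, ∀ q ∈ sX b, 1 ≤ q.2 ∧ q.2 ≤ hX b)
    (hs' : ∀ b, ∀ q ∈ sY b, 1 ≤ q.2 ∧ q.2 ≤ hY b) (C : ℝ≥0∞) (A T i0 s J n : ℕ)
    (u η lam : ℝ≥0∞) (hu0 : u ≠ 0) (hu1 : u ≤ 1) (hl0 : lam ≠ 0) (hl1 : lam ≠ ⊤)
    (h2 : HL2 ΛX ΛY hX hY zX zY sX sY C (4 * i0) s η)
    (h3 : HL3 ΛX ΛY hX hY zX zY sX sY C (4 * i0) s η)
    (hJ : J * (T + 2 * i0) ≤ A) (hsA : s ≤ A) (hn : A + T + 3 * i0 ≤ n) (w : G) :
    ∑' L, ∑' M, (if HT hX L = n ∧ HT hY M = n ∧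
        evF hX hY zX zY sX sY A T i0 (A + 2 * i0 + s) (A + T - s) w L M
        then LW ΛX L * LW ΛY M else 0)
      ≤ 2 * ov ΛX hX i0 + (2 * ov ΛY hY i0 + (u * u +
        ((((1 - u) ^ J + (ov ΛX hX i0 + ov ΛY hY i0) * u⁻¹) + (i0 + 1) * ((i0 + 1) *
        ((i0 + 1) * ((i0 + 1) * (C * (lam + (i0 + 1) * u⁻¹ * η / lam + η))))))
        + (((1 - u) ^ J + (ov ΛX hX i0 + ov ΛY hY i0) * u⁻¹) + (i0 + 1) * ((i0 + 1) *
        ((i0 + 1) * ((i0 + 1) * (C * (lam + (i0 + 1) * u⁻¹ * η / lam + η))))))))) := by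
  obtain ⟨thX, gX, bX, hth0, hth1, huX, hFX, hgX, hbX⟩ := smooth ΛX hX zX hX1 hΛX hUX T i0 J A
    (le_trans (Nat.mul_le_mul_left _ (by omega)) hJ) u hu0 hu1
  obtain ⟨thY, gY, bY, hth0', hth1', huY, hFY, hgY, hbY⟩ := smooth ΛY hY zY hY1 hΛY hUY (T + i0) i0
    J (A + i0) (le_trans (le_trans (Nat.mul_le_mul_left _ (by omega)) hJ) (by omega)) u hu0 hu1
  have hMtop : ∀ th : ℝ≥0∞, th ≤ 1 → (i0 + 1) * th * u⁻¹ ≠ ⊤ := by
    intro th hth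
    refine ENNReal.mul_ne_top (ENNReal.mul_ne_top (by finiteness) ?_) (ENNReal.inv_ne_top.2 hu0)
    exact ne_top_of_le_ne_top ENNReal.one_ne_top hth
  have hcard : ∀ (th : ℝ≥0∞) (E : Finset G), th * E.card ≤ 1 →
      C * (lam + (i0 + 1) * th * u⁻¹ * E.card * η / lam + η)
        ≤ C * (lam + (i0 + 1) * u⁻¹ * η / lam + η) := by
    intro th E hE
    have : (i0 + 1) * th * u⁻¹ * E.card ≤ (i0 + 1) * u⁻¹ := by
      calc (i0 + 1) * th * u⁻¹ * E.card = (i0 + 1) * u⁻¹ * (th * E.card) := by ring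
        _ ≤ (i0 + 1) * u⁻¹ * 1 := mul_le_mul_right hE _
        _ = _ := mul_one _
    gcongr
  refine window ΛX ΛY hX hY zX zY sX sY hX1 hY1 hΛX hΛY hUX hUY hs hs' A T (A + i0) (T + i0) i0
    (A + 2 * i0 + s) (A + T - s) n (by omega) (by omega) (by omega) (by omega) (by omega)
    (by omega) thX thY u _ ((i0 + 1) * thX * u⁻¹) ((i0 + 1) * thY * u⁻¹) _ huX huY gX bX gY bY
    hFX hgX (hbX.trans (add_le_add le_rfl (mul_le_mul_left le_self_add _))) hFY hgY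
    (hbY.trans (add_le_add le_rfl (mul_le_mul_left le_add_self _))) ?_ ?_ w
  · intro h hh h' hh' a ha a' ha' μ hμ1 hμM
    rw [Finset.mem_Icc] at hh hh' ha ha'
    obtain ⟨E, hE1, hE2⟩ := locset ΛX hX zX hX1 hΛX T h thX hth0
    refine le_trans ?_ (hcard thX E hE2)
    refine le_trans ?_ (h2 h h' a a' (A + 2 * i0 + s) (A + T - s) E μ _ lam (by omega) (by omega)
      (by omega) (by omega) (by omega) (by omega) hμ1 hμM (hMtop thX hth1) hl0 hl1)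
    refine ENNReal.tsum_le_tsum fun x => mul_le_mul_right ?_ _
    refine Q2_mono ΛX ΛY hX hY zX zY sX sY h h' _ _ a a' _ _ x ?_
    intro L M hL _ hP
    have e : kp hX zX L = (h, Dp zX L) := by rw [kp, hL]
    rw [e] at hP
    exact hE1 _ hP
  · intro h hh h' hh' a ha a' ha' μ hμ1 hμM
    rw [Finset.mem_Icc] at hh hh' ha ha'
    obtain ⟨E, hE1, hE2⟩ := locset ΛY hY zY hY1 hΛY (T + i0) h' thY hth0'
    refine le_trans ?_ (hcard thY E hE2)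
    refine le_trans ?_ (h3 h h' a a' (A + 2 * i0 + s) (A + T - s) E μ _ lam (by omega) (by omega)
      (by omega) (by omega) (by omega) (by omega) hμ1 hμM (hMtop thY hth1') hl0 hl1)
    refine ENNReal.tsum_le_tsum fun x => mul_le_mul_right ?_ _
    refine Q2_mono ΛX ΛY hX hY zX zY sX sY h h' _ _ a a' _ _ x ?_
    intro L M _ hM hP
    have e : kp hY zY M = (h', Dp zY M) := by rw [kp, hM]
    rw [e] at hP
    exact hE1 _ hP

end Crest.Agent.R154.Asm532
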