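import Crest.Agent.R154.Asm6_395

set_option autoImplicit false

namespace Crest.Agent.R154.Asm395

open Crest.Agent.R154.B5A
open scoped ENNReal Topology
open Filter
open Classical

lemma exists_mul_le {D ε : ℝ≥0∞} (hD : D ≠ ⊤) (hε : ε ≠ 0) :
    ∃ l : ℝ≥0∞, l ≠ 0 ∧ l ≠ ⊤ ∧ D * l ≤ ε := by
  refine ⟨min 1 (ε / (D + 1)), ?_, ?_, ?_⟩
  · rw [← pos_iff_ne_zero]
    refine lt_min one_pos ?_
    exact ENNReal.div_pos hε (ENNReal.add_ne_top.2 ⟨hD, ENNReal.one_ne_top⟩)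
  · exact ne_top_of_le_ne_top ENNReal.one_ne_top (min_le_left _ _)
  · calc D * min 1 (ε / (D + 1)) ≤ (D + 1) * (ε / (D + 1)) := by
          gcongr
          · exact le_self_add
          · exact min_le_right _ _
      _ ≤ ε := ENNReal.mul_div_le

lemma num (ε : ℝ≥0∞) (hε : ε ≠ 0) : ∃ (J : ℕ) (u : ℝ≥0∞), u ≠ 0 ∧ u ≤ 1 ∧
    ((5 * J + 5 : ℕ) : ℝ≥0∞) * (2 * (1 - u) ^ J + u * u) ≤ ε := by
  -- reduce to a real `e > 0`
  obtain ⟨e, he, hee⟩ : ∃ e : ℝ, 0 < e ∧ ENNReal.ofReal e ≤ ε := by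
    rcases eq_or_ne ε ⊤ with rfl | ht
    · exact ⟨1, one_pos, le_top⟩
    · exact ⟨ε.toReal, ENNReal.toReal_pos hε ht, by rw [ENNReal.ofReal_toReal ht]⟩
  obtain ⟨q, hq⟩ := exists_nat_gt (490 / e)
  have hq0 : (0 : ℝ) < q := lt_of_le_of_lt (by positivity) hq
  have hq1 : (1 : ℝ) ≤ q := by exact_mod_cast Nat.one_le_iff_ne_zero.2 (by rintro rfl; simp at hq0)
  set v : ℝ := 1 / (q : ℝ) ^ 2 with hv
  have hv0 : 0 < v := by positivity
  have hv1 : v ≤ 1 := by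
    rw [hv, div_le_one (by positivity)]
    nlinarith
  refine ⟨q ^ 3, ENNReal.ofReal v, ?_, ?_, ?_⟩
  · simpa using hv0
  · rw [← ENNReal.ofReal_one]; exact ENNReal.ofReal_le_ofReal hv1
  refine le_trans ?_ hee
  have e1 : (1 : ℝ≥0∞) - ENNReal.ofReal v = ENNReal.ofReal (1 - v) := by
    rw [← ENNReal.ofReal_one, ENNReal.ofReal_sub _ hv0.le]
  have h1v : 0 ≤ 1 - v := by linarith
  have hexp : (1 - v) ^ (q ^ 3) ≤ 24 / (q : ℝ) ^ 4 := by
    have a1 : 1 - v ≤ Real.exp (-v) := by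
      have := Real.add_one_le_exp (-v); linarith
    have a2 : (1 - v) ^ (q ^ 3) ≤ Real.exp (-v) ^ (q ^ 3) := by gcongr
    have a3 : Real.exp (-v) ^ (q ^ 3) = Real.exp (-(q : ℝ)) := by
      rw [← Real.exp_nat_mul]
      congr 1
      rw [hv]
      push_cast
      field_simp
    have a4 : (q : ℝ) ^ 4 / 24 ≤ Real.exp q := by
      have := Real.pow_div_factorial_le_exp (q : ℝ) hq0.le 4
      norm_num [Nat.factorial] at this
      exact this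
    rw [a3] at a2
    refine a2.trans ?_
    rw [Real.exp_neg, inv_eq_one_div, div_le_div_iff₀ (Real.exp_pos _) (by positivity)]
    nlinarith
  rw [e1, ← ENNReal.ofReal_pow h1v, ← ENNReal.ofReal_mul hv0.le,
    show (2 : ℝ≥0∞) = ENNReal.ofReal 2 by simp, ← ENNReal.ofReal_mul (by norm_num),
    ← ENNReal.ofReal_add (by positivity) (by positivity), ← ENNReal.ofReal_natCast,
    ← ENNReal.ofReal_mul (by positivity)]
  refine ENNReal.ofReal_le_ofReal ?_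
  have hvv : v * v = 1 / (q : ℝ) ^ 4 := by rw [hv]; field_simp
  have hfin : ((5 * q ^ 3 + 5 : ℕ) : ℝ) * (2 * (1 - v) ^ (q ^ 3) + v * v)
      ≤ (10 * (q : ℝ) ^ 3) * (49 / (q : ℝ) ^ 4) := by
    have b1 : ((5 * q ^ 3 + 5 : ℕ) : ℝ) ≤ 10 * (q : ℝ) ^ 3 := by
      push_cast
      have : (1 : ℝ) ≤ (q : ℝ) ^ 3 := one_le_pow₀ hq1
      linarith
    have b2 : 2 * (1 - v) ^ (q ^ 3) + v * v ≤ 49 / (q : ℝ) ^ 4 := by
      rw [hvv]
      calc _ ≤ 2 * (24 / (q : ℝ) ^ 4) + 1 / (q : ℝ) ^ 4 := by gcongr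
        _ = _ := by ring
    exact mul_le_mul b1 b2 (by positivity) (by positivity)
  refine hfin.trans ?_
  have : (10 * (q : ℝ) ^ 3) * (49 / (q : ℝ) ^ 4) = 490 / q := by field_simp; norm_num
  rw [this, div_le_iff₀ hq0]
  rw [div_lt_iff₀ he] at hq
  linarith

section final

variable {BX BY G : Type*} [AddCommGroup G]
  (hX : BX → ℕ) (ΛX : BX → ℝ≥0∞) (zX : BX → G) (sX : BX → Set (G × ℕ))
  (hY : BY → ℕ) (ΛY : BY → ℝ≥0∞) (zY : BY → G) (sY : BY → Set (G × ℕ))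
  (h1X : ∀ b, 1 ≤ hX b) (hΛX : ∑' b, ΛX b = 1) (hUX : ∀ n, U ΛX hX n ≤ 1)
  (h1Y : ∀ b, 1 ≤ hY b) (hΛY : ∑' b, ΛY b = 1) (hUY : ∀ n, U ΛY hY n ≤ 1)
  (hsX : ∀ b, ∀ q ∈ sX b, 1 ≤ q.2 ∧ q.2 ≤ hX b)
  (hsY : ∀ b, ∀ q ∈ sY b, 1 ≤ q.2 ∧ q.2 ≤ hY b)

/-- contact at one fixed level is rare -/
def HPt : Prop :=
  ∀ ε : ℝ≥0∞, ε ≠ 0 → ∃ k0 : ℕ, ∀ k, k0 ≤ k → ∀ n, k ≤ n → ∀ w : G,
    WW hX ΛX hY ΛY n (fun LX LY => ind (∃ z, (z, k) ∈ TS hX zX sX LX 0 0 ∧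
        (z, k) ∈ TS hY zY sY LY w 0)) ≤ ε

include h1X hΛX hUX h1Y hΛY hUY hsX hsY in
theorem kap_n0 (C : ℕ → ℝ≥0∞) (us : ℕ → ℕ → ℝ≥0∞)
    (hH2 : H2 hX ΛX zX sX hY ΛY zY sY C us) (hH3 : H3 hX ΛX zX sX hY ΛY zY sY C us)
    (hC : ∀ i0, C i0 ≠ ⊤) (hus : ∀ i0, Tendsto (us i0) atTop (𝓝 0))
    (hgX : Tendsto (gp hX ΛX) atTop (𝓝 0)) (hgY : Tendsto (gp hY ΛY) atTop (𝓝 0))
    (hPt : HPt hX ΛX zX sX hY ΛY zY sY) :
    ∀ ε : ℝ≥0∞, ε ≠ 0 → ∃ M : ℕ, ∀ m, M ≤ m → ∃ n0 : ℕ, ∀ n, n0 ≤ n → ∀ w : G,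
      WW hX ΛX hY ΛY n (fun LX LY => ind (Ph hX zX sX hY zY sY m (2 * m) w LX LY)) ≤ ε := by
  intro ε0 hε0
  set ε : ℝ≥0∞ := ε0 / 5 with hεd
  have hε : ε ≠ 0 := (ENNReal.div_pos hε0 (by norm_num)).ne'
  obtain ⟨J, u, hu0, hu1, hJu⟩ := num ε hε
  set K : ℕ := 5 * J + 5 with hK
  -- i0
  obtain ⟨i0, hi0⟩ : ∃ i0, (K : ℝ≥0∞) * (((J : ℝ≥0∞) + 2) * (gp hX ΛX i0 + gp hY ΛY i0)) ≤ ε := by
    have t : Tendsto (fun i0 => (K : ℝ≥0∞) * (((J : ℝ≥0∞) + 2) * (gp hX ΛX i0 + gp hY ΛY i0)))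
        atTop (𝓝 ((K : ℝ≥0∞) * (((J : ℝ≥0∞) + 2) * (0 + 0)))) := by
      refine ENNReal.Tendsto.const_mul (ENNReal.Tendsto.const_mul (hgX.add hgY) (Or.inr ?_))
        (Or.inr ?_)
      · exact ENNReal.add_ne_top.2 ⟨ENNReal.natCast_ne_top J, by norm_num⟩
      · exact ENNReal.natCast_ne_top K
    simp only [add_zero, mul_zero] at t
    exact (t.eventually_le_const (pos_iff_ne_zero.2 hε)).exists
  set D : ℝ≥0∞ := K * (2 * (((i0 : ℝ≥0∞) + 1) ^ 4 * C i0)) with hD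
  have hDt : D ≠ ⊤ := by
    refine ENNReal.mul_ne_top (ENNReal.natCast_ne_top K) (ENNReal.mul_ne_top (by norm_num)
      (ENNReal.mul_ne_top (ENNReal.pow_ne_top ?_) (hC i0)))
    exact ENNReal.add_ne_top.2 ⟨ENNReal.natCast_ne_top _, by norm_num⟩
  obtain ⟨lam, hl0, hlt, hlam⟩ := exists_mul_le hDt hε
  -- s
  obtain ⟨s, hs⟩ : ∃ s, D * ((J * ((i0 : ℝ≥0∞) + 1) / lam + 1) * us i0 s) ≤ ε := by
    have t : Tendsto (fun s => D * ((J * ((i0 : ℝ≥0∞) + 1) / lam + 1) * us i0 s))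
        atTop (𝓝 (D * ((J * ((i0 : ℝ≥0∞) + 1) / lam + 1) * 0))) := by
      refine ENNReal.Tendsto.const_mul (ENNReal.Tendsto.const_mul (hus i0) (Or.inr ?_))
        (Or.inr hDt)
      refine ENNReal.add_ne_top.2 ⟨ENNReal.div_ne_top (ENNReal.mul_ne_top
        (ENNReal.natCast_ne_top J) (ENNReal.add_ne_top.2 ⟨ENNReal.natCast_ne_top _, by norm_num⟩))
        hl0, by norm_num⟩
    simp only [mul_zero] at t
    exact (t.eventually_le_const (pos_iff_ne_zero.2 hε)).exists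
  obtain ⟨η, hη0, -, hη⟩ := exists_mul_le
    (D := (K : ℝ≥0∞) * ((s : ℝ≥0∞) + 2 * i0 + 1)) (ε := ε) (by
      refine ENNReal.mul_ne_top (ENNReal.natCast_ne_top K) ?_
      have : ((s : ℝ≥0∞) + 2 * i0 + 1) = ((s + 2 * i0 + 1 : ℕ) : ℝ≥0∞) := by push_cast; ring
      rw [this]; exact ENNReal.natCast_ne_top _) hε
  obtain ⟨k0, hk0⟩ := hPt η hη0
  refine ⟨k0 + 2 * (J + J * (4 * i0 + 2 * s) + 2 * i0 + s), fun m hm => ?_⟩
  set t : ℕ := m / K + 1 with ht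
  refine ⟨m + K * t + t + s + 4 * i0, fun n hn w => ?_⟩
  have hKt : m ≤ K * t := by
    have hKpos : 0 < K := by omega
    have h1 := Nat.div_add_mod m K
    have h2 := Nat.mod_lt m hKpos
    rw [ht, mul_add, mul_one]; omega
  have hJt : 5 * (J * t) ≤ m + 5 * J := by
    have h1 : K * (m / K) ≤ m := Nat.mul_div_le m K
    rw [ht, mul_add, mul_one]
    have h3 : 5 * (J * (m / K)) ≤ K * (m / K) := by
      calc 5 * (J * (m / K)) = (5 * J) * (m / K) := by ring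
        _ ≤ K * (m / K) := Nat.mul_le_mul_right _ (by omega)
    omega
  have htpos : 0 < t := Nat.succ_pos _
  clear ht
  clear_value t
  -- windows
  have hwin : ∀ LX LY, ind (Ph hX zX sX hY zY sY m (2 * m) w LX LY)
      ≤ ∑ k ∈ Finset.range K, ind (Ph hX zX sX hY zY sY (m + k * t) (m + k * t + t) w LX LY) := by
    intro LX LY
    by_cases hP : Ph hX zX sX hY zY sY m (2 * m) w LX LY
    swap
    · rw [ind_false hP]; exact bot_le
    rw [ind_true hP]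
    obtain ⟨hall, z, k, h1, h2, h3⟩ := hP
    -- the minimal contact depth
    have hex : ∃ k, ∃ z, (z, k) ∈ TS hX zX sX LX 0 0 ∧ (z, k) ∈ TS hY zY sY LY w 0 := ⟨k, z, h1, h2⟩
    set k1 := Nat.find hex with hk1
    obtain ⟨z1, g1, g2⟩ := Nat.find_spec hex
    have hmin : ∀ z j, (z, j) ∈ TS hX zX sX LX 0 0 → (z, j) ∈ TS hY zY sY LY w 0 → k1 ≤ j :=
      fun z j a1 a2 => Nat.find_min' hex ⟨z, a1, a2⟩
    have hk1a := hall z1 k1 g1 g2
    have hk1b : k1 ≤ k := hmin z k h1 h2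
    set j : ℕ := (k1 - m - 1) / t with hj
    have hj1 := Nat.div_add_mod (k1 - m - 1) t
    have hj2 := Nat.mod_lt (k1 - m - 1) htpos
    rw [← hj] at hj1
    have hjt : j * t = t * j := mul_comm _ _
    have hjK : j < K := by
      by_contra hcon
      push Not at hcon
      have : K * t ≤ j * t := Nat.mul_le_mul_right t hcon
      omega
    calc (1 : ℝ≥0∞) = ind (Ph hX zX sX hY zY sY (m + j * t) (m + j * t + t) w LX LY) := by
          refine (ind_true ⟨fun z i a1 a2 => ?_, z1, k1, g1, g2, ?_⟩).symm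
          · have := hmin z i a1 a2
            omega
          · omega
      _ ≤ _ := Finset.single_le_sum
          (f := fun k => ind (Ph hX zX sX hY zY sY (m + k * t) (m + k * t + t) w LX LY))
          (fun _ _ => bot_le) (Finset.mem_range.2 hjK)
  have hsum : WW hX ΛX hY ΛY n (fun LX LY => ind (Ph hX zX sX hY zY sY m (2 * m) w LX LY))
      ≤ ∑ k ∈ Finset.range K, WW hX ΛX hY ΛY n (fun LX LY =>
        ind (Ph hX zX sX hY zY sY (m + k * t) (m + k * t + t) w LX LY)) := by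
    refine (ws_mono fun LX _ => ws_mono fun LY _ => hwin LX LY).trans (le_of_eq ?_)
    simp only [WW, ws_sum]
  refine hsum.trans ?_
  set B : ℝ≥0∞ := ((1 - u) ^ J + J * gp hX ΛX i0) + ((1 - u) ^ J + J * gp hY ΛY i0)
        + (s + 2 * i0 + 1) * η + (2 * gp hX ΛX i0 + 2 * gp hY ΛY i0 + u * u
        + 2 * ((i0 + 1) ^ 4 * (C i0 * (lam + J * (i0 + 1) * us i0 s / lam + us i0 s)))) with hB
  have hone : ∀ k ∈ Finset.range K, WW hX ΛX hY ΛY n (fun LX LY =>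
        ind (Ph hX zX sX hY zY sY (m + k * t) (m + k * t + t) w LX LY)) ≤ B := by
    intro k hk
    have hkK := Finset.mem_range.1 hk
    have hkt : k * t + t ≤ K * t := by
      have : (k + 1) * t ≤ K * t := Nat.mul_le_mul_right t (by omega)
      rw [add_mul, one_mul] at this; exact this
    have hmJ : J * (t + 2 * i0 + 2 * s + i0 + i0) = J * t + J * (4 * i0 + 2 * s) := by ring
    refine window hX ΛX zX sX hY ΛY zY sY h1X hΛX hUX h1Y hΛY hUY hsX hsY C us hH2 hH3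
      (m + k * t - 2 * i0 - s) s (t + 2 * i0 + 2 * s) i0 J n (m + k * t) (m + k * t + t) u lam η
      hu0 hu1 hl0 hlt ?_ (by omega) (by omega) (by omega) w ?_
    · rw [hmJ]; omega
    · intro j hj1 hj2
      exact hk0 j (by omega) n (by omega) w
  refine (Finset.sum_le_card_nsmul _ _ B hone).trans ?_
  rw [Finset.card_range, nsmul_eq_mul]
  have hBK : (K : ℝ≥0∞) * B = (K : ℝ≥0∞) * (2 * (1 - u) ^ J + u * u)
      + (K : ℝ≥0∞) * (((J : ℝ≥0∞) + 2) * (gp hX ΛX i0 + gp hY ΛY i0))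
      + (K : ℝ≥0∞) * ((s : ℝ≥0∞) + 2 * i0 + 1) * η
      + D * lam + D * ((J * ((i0 : ℝ≥0∞) + 1) / lam + 1) * us i0 s) := by
    rw [hB, hD]
    simp only [ENNReal.div_eq_inv_mul]
    ring
  rw [hBK]
  calc _ ≤ ε + ε + ε + ε + ε := by gcongr
    _ = 5 * ε := by ring
    _ ≤ ε0 := by rw [hεd]; exact ENNReal.mul_div_le

end final

end Crest.Agent.R154.Asm395
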