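import Crest.Agent.R154.Asm6_532

/-! Row 154 (helper532), ROAD 801: abstract assembly, part 7: sum over the windows, constants. -/

set_option autoImplicit false

namespace Crest.Agent.R154.Asm532

open scoped ENNReal Topology
open Crest.Agent.R154.B5A
open Classical
open Finset (range)

lemma exists_small (c ε : ℝ≥0∞) (hc : c ≠ ⊤) (hε : ε ≠ 0) : ∃ x, x ≠ 0 ∧ x ≠ ⊤ ∧ c * x ≤ ε := by
  refine ⟨min 1 (ε / (c + 1)), ?_, ?_, ?_⟩
  · refine (lt_min one_pos ?_).ne'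
    exact ENNReal.div_pos hε (ENNReal.add_ne_top.2 ⟨hc, ENNReal.one_ne_top⟩)
  · exact ne_top_of_le_ne_top ENNReal.one_ne_top (min_le_left _ _)
  · calc c * min 1 (ε / (c + 1)) ≤ (c + 1) * (ε / (c + 1)) :=
          mul_le_mul' le_self_add (min_le_right _ _)
      _ ≤ ε := ENNReal.mul_div_le

variable {BX BY G : Type*} [AddCommGroup G] (ΛX : BX → ℝ≥0∞) (ΛY : BY → ℝ≥0∞)
  (hX : BX → ℕ) (hY : BY → ℕ) (zX : BX → G) (zY : BY → G)
  (sX : BX → Set (G × ℕ)) (sY : BY → Set (G × ℕ))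

/-- weight of the pairs of height `n` with a contact depth in `S` -/
noncomputable def KK (n : ℕ) (w : G) (S : Set ℕ) : ℝ≥0∞ :=
  ∑' L, ∑' M, (if HT hX L = n ∧ HT hY M = n ∧ (∃ k ∈ CT hX hY zX zY sX sY L M 0 w 0 0, k ∈ S)
    then LW ΛX L * LW ΛY M else 0)

/-- cover of `(m, 2m]` -/
lemma cover (m T K i0 s n : ℕ) (hT : m ≤ K * T) (w : G) :
    KK ΛX ΛY hX hY zX zY sX sY n w (Set.Ioc m (2 * m))
      ≤ ∑ j ∈ range (K + 1), KK ΛX ΛY hX hY zX zY sX sY n w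
          (Set.Icc (m + j * T - s) (m + j * T - s + (2 * i0 + 2 * s)))
        + ∑ j ∈ range K, ∑' L, ∑' M, (if HT hX L = n ∧ HT hY M = n ∧
        evF hX hY zX zY sX sY (m + j * T) T i0 (m + j * T + 2 * i0 + s) (m + j * T + T - s) w L M
        then LW ΛX L * LW ΛY M else 0) := by
  have e1 : ∑ j ∈ range (K + 1), KK ΛX ΛY hX hY zX zY sX sY n w
          (Set.Icc (m + j * T - s) (m + j * T - s + (2 * i0 + 2 * s)))
        + ∑ j ∈ range K, ∑' L, ∑' M, (if HT hX L = n ∧ HT hY M = n ∧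
        evF hX hY zX zY sX sY (m + j * T) T i0 (m + j * T + 2 * i0 + s) (m + j * T + T - s) w L M
        then LW ΛX L * LW ΛY M else 0)
      = ∑' L, ∑' M, (∑ j ∈ range (K + 1), (if HT hX L = n ∧ HT hY M = n ∧
          (∃ k ∈ CT hX hY zX zY sX sY L M 0 w 0 0, k ∈
            Set.Icc (m + j * T - s) (m + j * T - s + (2 * i0 + 2 * s)))
          then LW ΛX L * LW ΛY M else 0)
        + ∑ j ∈ range K, (if HT hX L = n ∧ HT hY M = n ∧
        evF hX hY zX zY sX sY (m + j * T) T i0 (m + j * T + 2 * i0 + s) (m + j * T + T - s) w L M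
        then LW ΛX L * LW ΛY M else 0)) := by
    simp only [KK]
    simp_rw [ENNReal.tsum_add, Summable.tsum_finsetSum (fun _ _ => ENNReal.summable)]
  rw [e1]
  refine ENNReal.tsum_le_tsum fun L => ENNReal.tsum_le_tsum fun M => ?_
  by_cases hc : HT hX L = n ∧ HT hY M = n ∧
      (∃ k ∈ CT hX hY zX zY sX sY L M 0 w 0 0, k ∈ Set.Ioc m (2 * m))
  · rw [if_pos hc]
    obtain ⟨c1, c2, k, hk, hkm, hk2⟩ := hc
    by_cases hsl : ∃ j ∈ range (K + 1), ∃ k ∈ CT hX hY zX zY sX sY L M 0 w 0 0, k ∈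
            Set.Icc (m + j * T - s) (m + j * T - s + (2 * i0 + 2 * s))
    · obtain ⟨j, hj, hjk⟩ := hsl
      refine le_trans ?_ le_self_add
      refine le_trans ?_ (Finset.single_le_sum (f := fun j => (if HT hX L = n ∧ HT hY M = n ∧
          (∃ k ∈ CT hX hY zX zY sX sY L M 0 w 0 0, k ∈
            Set.Icc (m + j * T - s) (m + j * T - s + (2 * i0 + 2 * s)))
          then LW ΛX L * LW ΛY M else 0)) (fun _ _ => zero_le) hj)
      rw [if_pos ⟨c1, c2, hjk⟩]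
    · push Not at hsl
      refine le_trans ?_ le_add_self
      -- find the window
      have hT0 : 0 < T := by
        rcases Nat.eq_zero_or_pos T with h | h
        · rw [h, mul_zero] at hT; omega
        · exact h
      set j := (k - m - 1) / T with hj
      have hj1 : j * T ≤ k - m - 1 := Nat.div_mul_le_self _ _
      have hj2 : k - m - 1 < (j + 1) * T := by
        have := Nat.lt_div_mul_add (a := k - m - 1) hT0
        rw [← hj] at this
        nlinarith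
      have hjK : j < K := by
        by_contra hc
        have : K * T ≤ j * T := Nat.mul_le_mul_right _ (not_lt.1 hc)
        omega
      have e2 : (j + 1) * T = j * T + T := by ring
      have hs1 := hsl j (Finset.mem_range.2 (by omega))
      have hs2 := hsl (j + 1) (Finset.mem_range.2 (by omega))
      have gg : ∀ k' ∈ CT hX hY zX zY sX sY L M 0 w 0 0, m + j * T < k' →
          k' ≤ m + j * T + T + 2 * i0 → m + j * T + 2 * i0 + s < k' ∧ k' ≤ m + j * T + T - s := by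
        intro k' hk' h1 h2
        have a1 := hs1 k' hk'
        have a2 := hs2 k' hk'
        rw [Set.mem_Icc, not_and] at a1 a2
        rw [e2] at a2
        constructor
        · have := a1 (by omega); omega
        · by_contra hcon
          have := a2 (by omega); omega
      refine le_trans ?_ (Finset.single_le_sum (f := fun j => (if HT hX L = n ∧ HT hY M = n ∧
        evF hX hY zX zY sX sY (m + j * T) T i0 (m + j * T + 2 * i0 + s) (m + j * T + T - s) w L M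
        then LW ΛX L * LW ΛY M else 0)) (fun _ _ => zero_le) (Finset.mem_range.2 hjK))
      have hev : evF hX hY zX zY sX sY (m + j * T) T i0 (m + j * T + 2 * i0 + s)
          (m + j * T + T - s) w L M :=
        ⟨⟨k, hk, gg k hk (by omega) (by omega)⟩, gg⟩
      rw [if_pos ⟨c1, c2, hev⟩]
  · rw [if_neg hc]; exact zero_le

/-- **KAPPA' on block lists** -/
theorem kapS (hX1 : ∀ b, 1 ≤ hX b) (hY1 : ∀ b, 1 ≤ hY b) (hΛX : ∑' b, ΛX b = 1)
    (hΛY : ∑' b, ΛY b = 1) (hUX : ∀ n, U ΛX hX n ≤ 1) (hUY : ∀ n, U ΛY hY n ≤ 1)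
    (hs : ∀ b, ∀ q ∈ sX b, 1 ≤ q.2 ∧ q.2 ≤ hX b)
    (hs' : ∀ b, ∀ q ∈ sY b, 1 ≤ q.2 ∧ q.2 ≤ hY b)
    (hovX : Filter.Tendsto (fun i => ov ΛX hX i) Filter.atTop (𝓝 0))
    (hovY : Filter.Tendsto (fun i => ov ΛY hY i) Filter.atTop (𝓝 0))
    (C : ℝ≥0∞) (hC : C ≠ ⊤)
    (h2 : ∀ r0 (η : ℝ≥0∞), η ≠ 0 → ∃ s0, ∀ s, s0 ≤ s → HL2 ΛX ΛY hX hY zX zY sX sY C r0 s η)
    (h3 : ∀ r0 (η : ℝ≥0∞), η ≠ 0 → ∃ s0, ∀ s, s0 ≤ s → HL3 ΛX ΛY hX hY zX zY sX sY C r0 s η)
    (hpt : ∀ (S : ℕ) (ε : ℝ≥0∞), ε ≠ 0 → ∃ D0, ∀ D, D0 ≤ D → ∀ n, D + S ≤ n → ∀ w,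
      KK ΛX ΛY hX hY zX zY sX sY n w (Set.Icc D (D + S)) ≤ ε)
    (ε : ℝ≥0∞) (hε : ε ≠ 0) : ∃ M0, ∀ m, M0 ≤ m → ∃ n0, ∀ n, n0 ≤ n → ∀ w,
      KK ΛX ΛY hX hY zX zY sX sY n w (Set.Ioc m (2 * m)) ≤ ε := by
  obtain ⟨δ, hδ0, hδt, hδ⟩ := exists_small 8 ε (by norm_num) hε
  obtain ⟨K, u, -, hK1, ⟨J, hKJ⟩, hu0, hu1, hKu, hKq⟩ := KU823.exists_Ku 0 2 (by norm_num) δ hδ0 1
  have hui : u⁻¹ ≠ ⊤ := ENNReal.inv_ne_top.2 hu0
  have hKt : (K : ℝ≥0∞) ≠ ⊤ := ENNReal.natCast_ne_top K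
  rw [Nat.cast_zero, add_zero] at hKu hKq
  have hJ' : K / 2 = J := by omega
  rw [hJ'] at hKq
  have hKJ2 : (K : ℝ≥0∞) * (1 - u) ^ J ≤ δ := by
    refine le_trans ?_ hKq
    gcongr
    exact ENNReal.half_le_self
  -- i0
  obtain ⟨e, he0, -, he⟩ := exists_small (K * (4 + 4 * u⁻¹)) δ (by finiteness) hδ0
  obtain ⟨i0, hi1, hi2⟩ : ∃ i0, ov ΛX hX i0 ≤ e ∧ ov ΛY hY i0 ≤ e := by
    have a1 := hovX.eventually_le_const (pos_iff_ne_zero.2 he0)
    have a2 := hovY.eventually_le_const (pos_iff_ne_zero.2 he0)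
    exact (a1.and a2).exists
  set c4 : ℝ≥0∞ := (i0 + 1) * ((i0 + 1) * ((i0 + 1) * (i0 + 1))) with hc4
  have hc4t : c4 ≠ ⊤ := by rw [hc4]; finiteness
  -- lam
  obtain ⟨lam, hl0, hl1, hl⟩ := exists_small (K * (2 * (c4 * C))) δ (by finiteness) hδ0
  -- η
  obtain ⟨η, hη0, -, hη⟩ := exists_small (K * (2 * (c4 * (C * ((i0 + 1) * u⁻¹ / lam + 1))))) δ (by
    have : (i0 + 1) * u⁻¹ / lam ≠ ⊤ := ENNReal.div_ne_top (by finiteness) hl0
    finiteness) hδ0
  obtain ⟨s1, hs1⟩ := h2 (4 * i0) η hη0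
  obtain ⟨s2, hs2⟩ := h3 (4 * i0) η hη0
  set s := max s1 s2 with hsdef
  obtain ⟨x, hx0, -, hx⟩ := exists_small ((K : ℝ≥0∞) + 1) δ (by finiteness) hδ0
  obtain ⟨D0, hD0⟩ := hpt (2 * i0 + 2 * s) x hx0
  refine ⟨D0 + s + 2 * J * (1 + 2 * i0) + 1, fun m hm => ?_⟩
  set T := m / K + 1 with hT
  have hKT : m ≤ K * T := by
    have := Nat.lt_mul_div_succ m (show 0 < K by omega)
    rw [hT]; exact this.le
  have hJm : J * (T + 2 * i0) ≤ m := by
    have h1 : J * (m / K) * 2 ≤ m := by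
      have : J * (m / K) * 2 = (m / K) * K := by rw [hKJ]; ring
      rw [this]; exact Nat.div_mul_le_self _ _
    have h2 : J * (T + 2 * i0) = J * (m / K) + J * (1 + 2 * i0) := by rw [hT]; ring
    have h3 : 2 * J * (1 + 2 * i0) = 2 * (J * (1 + 2 * i0)) := by ring
    omega
  clear_value T
  clear hT
  refine ⟨m + K * T + T + 3 * i0 + s, fun n hn w => ?_⟩
  refine (cover ΛX ΛY hX hY zX zY sX sY m T K i0 s n hKT w).trans ?_
  have hjT : ∀ j, j ≤ K → j * T ≤ K * T := fun j hj => Nat.mul_le_mul_right _ hj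
  have part1 : ∑ j ∈ range (K + 1), KK ΛX ΛY hX hY zX zY sX sY n w
      (Set.Icc (m + j * T - s) (m + j * T - s + (2 * i0 + 2 * s))) ≤ δ := by
    calc _ ≤ ∑ j ∈ range (K + 1), x := by
          refine Finset.sum_le_sum fun j hj => ?_
          have hj' := hjT j (by have := Finset.mem_range.1 hj; omega)
          exact hD0 _ (by omega) n (by omega) w
      _ = ((K : ℝ≥0∞) + 1) * x := by rw [Finset.sum_const, Finset.card_range, nsmul_eq_mul]; simp
      _ ≤ δ := hx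
  set W : ℝ≥0∞ := 2 * ov ΛX hX i0 + (2 * ov ΛY hY i0 + (u * u +
        ((((1 - u) ^ J + (ov ΛX hX i0 + ov ΛY hY i0) * u⁻¹) + (i0 + 1) * ((i0 + 1) *
        ((i0 + 1) * ((i0 + 1) * (C * (lam + (i0 + 1) * u⁻¹ * η / lam + η))))))
        + (((1 - u) ^ J + (ov ΛX hX i0 + ov ΛY hY i0) * u⁻¹) + (i0 + 1) * ((i0 + 1) *
        ((i0 + 1) * ((i0 + 1) * (C * (lam + (i0 + 1) * u⁻¹ * η / lam + η))))))))) with hW
  have part2 : ∑ j ∈ range K, ∑' L, ∑' M, (if HT hX L = n ∧ HT hY M = n ∧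
        evF hX hY zX zY sX sY (m + j * T) T i0 (m + j * T + 2 * i0 + s) (m + j * T + T - s) w L M
        then LW ΛX L * LW ΛY M else 0) ≤ K * W := by
    calc _ ≤ ∑ j ∈ range K, W := by
          refine Finset.sum_le_sum fun j hj => ?_
          have hj' := hjT j (by have := Finset.mem_range.1 hj; omega)
          exact window' ΛX ΛY hX hY zX zY sX sY hX1 hY1 hΛX hΛY hUX hUY hs hs' C (m + j * T) T i0 s
            J n u η lam hu0 hu1 hl0 hl1 (hs1 s (le_max_left _ _)) (hs2 s (le_max_right _ _))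
            (by omega) (by omega) (by omega) w
      _ = K * W := by rw [Finset.sum_const, Finset.card_range, nsmul_eq_mul]
  have hWle : K * W ≤ 7 * δ := by
    have b1 : W ≤ (4 + 4 * u⁻¹) * e + u * u + 2 * (1 - u) ^ J + 2 * (c4 * C) * lam
        + 2 * (c4 * (C * ((i0 + 1) * u⁻¹ / lam + 1))) * η := by
      calc W ≤ 2 * e + (2 * e + (u * u +
        ((((1 - u) ^ J + (e + e) * u⁻¹) + (i0 + 1) * ((i0 + 1) *
        ((i0 + 1) * ((i0 + 1) * (C * (lam + (i0 + 1) * u⁻¹ * η / lam + η))))))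
        + (((1 - u) ^ J + (e + e) * u⁻¹) + (i0 + 1) * ((i0 + 1) *
        ((i0 + 1) * ((i0 + 1) * (C * (lam + (i0 + 1) * u⁻¹ * η / lam + η))))))))) := by
            rw [hW]; gcongr
        _ = _ := by
            rw [hc4]
            simp only [div_eq_mul_inv]
            ring
    calc K * W ≤ K * ((4 + 4 * u⁻¹) * e + u * u + 2 * (1 - u) ^ J + 2 * (c4 * C) * lam
        + 2 * (c4 * (C * ((i0 + 1) * u⁻¹ / lam + 1))) * η) := mul_le_mul_right b1 _
      _ = K * (4 + 4 * u⁻¹) * e + K * u ^ 2 + 2 * (K * (1 - u) ^ J) + K * (2 * (c4 * C)) * lam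
        + K * (2 * (c4 * (C * ((i0 + 1) * u⁻¹ / lam + 1)))) * η := by ring
      _ ≤ δ + δ + 2 * δ + δ + δ := by gcongr
      _ ≤ 7 * δ := by
          have : δ + δ + 2 * δ + δ + δ = 6 * δ := by ring
          rw [this]
          gcongr
          norm_num
  calc _ ≤ δ + 7 * δ := add_le_add part1 (part2.trans hWle)
    _ = 8 * δ := by ring
    _ ≤ ε := hδ

end Crest.Agent.R154.Asm532
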