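import Crest.Agent.R154.B5Rec_566

/-! Row 154, ROAD 801, abstract assembly, part A (helper10): first passage pieces of lists of blocks. -/

set_option autoImplicit false

namespace Crest.Agent.R154.Asm10

open scoped ENNReal
open Crest.Agent.R154.B5A

section One

variable {B : Type*} (Λ : B → ℝ≥0∞) (ht : B → ℕ)

/-- first passage list of depth `T` -/
def FP (T : ℕ) (L : List B) : Prop :=
  T ≤ HT ht L ∧ ∀ L1 L2 : List B, L = L1 ++ L2 → L2 ≠ [] → HT ht L1 < T

lemma exists_fp (T : ℕ) (L : List B) (h : T ≤ HT ht L) :
    ∃ P R, L = P ++ R ∧ FP ht T P := by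
  classical
  have hex : ∃ k, T ≤ HT ht (L.take k) := ⟨L.length, by rwa [List.take_length]⟩
  refine ⟨L.take (Nat.find hex), L.drop (Nat.find hex), (List.take_append_drop _ _).symm,
    Nat.find_spec hex, ?_⟩
  intro L1 L2 hL hne
  have hlen : L1.length < Nat.find hex := by
    have := congrArg List.length hL
    rw [List.length_take, List.length_append] at this
    have h2 : 0 < L2.length := List.length_pos_iff.2 hne
    omega
  have h3 := Nat.find_min hex hlen
  rw [not_le] at h3
  have h4 : L.take L1.length = L1 := by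
    have : (L.take (Nat.find hex)).take L1.length = L1 := by rw [hL]; simp
    rw [List.take_take] at this
    rwa [min_eq_left hlen.le] at this
  rwa [h4] at h3

lemma fp_inj (T : ℕ) {P P' R R' : List B} (hP : FP ht T P) (hP' : FP ht T P')
    (h : P ++ R = P' ++ R') : P = P' ∧ R = R' := by
  rcases List.append_eq_append_iff.1 h with ⟨a, ha, hb⟩ | ⟨a, ha, hb⟩
  · by_cases hne : a = []
    · subst hne; simp at ha hb; exact ⟨ha.symm, hb⟩
    · exact absurd (hP'.2 P a ha hne) (not_lt.2 hP.1)
  · by_cases hne : a = []
    · subst hne; simp at ha hb; exact ⟨ha, hb.symm⟩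
    · exact absurd (hP.2 P' a ha hne) (not_lt.2 hP'.1)

/-- piece type -/
abbrev Pc (T : ℕ) := {P : List B // FP ht T P}

/-- weight and height of a piece -/
noncomputable def LP (T : ℕ) : Pc ht T → ℝ≥0∞ := fun P => LW Λ P.1
def HP (T : ℕ) : Pc ht T → ℕ := fun P => HT ht P.1

lemma peel (T : ℕ) (F : List B → ℝ≥0∞) (hF : ∀ L, HT ht L < T → F L = 0) :
    ∑' L, F L ≤ ∑' P : Pc ht T, ∑' R, F (P.1 ++ R) := by
  classical
  have h1 : ∑' L, F L = ∑' L : {L : List B // T ≤ HT ht L}, F L.1 := by
    symm
    refine tsum_subtype_eq_of_support_subset (s := {L : List B | T ≤ HT ht L}) ?_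
    intro L hL
    by_contra hcon
    exact hL (hF L (not_le.1 hcon))
  rw [h1, ← ENNReal.tsum_prod]
  have hch : ∀ L : {L : List B // T ≤ HT ht L}, ∃ q : Pc ht T × List B, q.1.1 ++ q.2 = L.1 := by
    rintro ⟨L, hL⟩
    obtain ⟨P, R, h, hP⟩ := exists_fp ht T L hL
    exact ⟨(⟨P, hP⟩, R), h.symm⟩
  choose f hf using hch
  have hinj : Function.Injective f := by
    intro L L' h
    apply Subtype.ext
    rw [← hf L, ← hf L', h]
  calc ∑' L : {L : List B // T ≤ HT ht L}, F L.1
      = ∑' L : {L : List B // T ≤ HT ht L}, (fun q : Pc ht T × List B => F (q.1.1 ++ q.2)) (f L) :=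
        tsum_congr fun L => by simp only [hf L]
    _ ≤ _ := ENNReal.tsum_comp_le_tsum_of_injective hinj _

lemma fp_length (h1 : ∀ b, 1 ≤ ht b) (T : ℕ) (P : List B) (hP : FP ht T P) : P.length ≤ T + 1 := by
  rcases List.eq_nil_or_concat P with h | ⟨L, b, h⟩
  · subst h; simp
  · rw [List.concat_eq_append] at h
    have h2 := hP.2 L [b] h (by simp)
    have h3 := length_le_HT ht h1 L
    rw [h, List.length_append, List.length_singleton]
    omega

lemma mass_fp (h1 : ∀ b, 1 ≤ ht b) (hΛ : ∑' b, Λ b = 1) (T : ℕ) :
    ∑' P : Pc ht T, LP Λ ht T P ≤ 1 := by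
  classical
  calc ∑' P : Pc ht T, LP Λ ht T P
      = ∑' P : Pc ht T, ∑' R : List B,
          (if (P.1 ++ R).length = T + 1 then LW Λ (P.1 ++ R) else 0) := by
        refine tsum_congr fun P => ?_
        have hl := fp_length ht h1 T P.1 P.2
        have h2 := SL_one Λ hΛ (T + 1 - P.1.length)
        rw [SL] at h2
        rw [LP, ← mul_one (LW Λ P.1), ← h2, ← ENNReal.tsum_mul_left]
        refine tsum_congr fun R => ?_
        rw [List.length_append, LW_append]
        by_cases h : R.length = T + 1 - P.1.length
        · rw [if_pos h, if_pos (by omega), mul_one]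
        · rw [if_neg h, if_neg (by omega), mul_zero]
    _ = ∑' q : Pc ht T × List B,
          (fun L : List B => if L.length = T + 1 then LW Λ L else 0) (q.1.1 ++ q.2) := by
        rw [← ENNReal.tsum_prod]
    _ ≤ ∑' L : List B, (if L.length = T + 1 then LW Λ L else 0) := by
        refine ENNReal.tsum_comp_le_tsum_of_injective (f := fun q : Pc ht T × List B => q.1.1 ++ q.2)
          ?_ _
        rintro ⟨P, R⟩ ⟨P', R'⟩ h
        obtain ⟨h3, h4⟩ := fp_inj ht T P.2 P'.2 h
        exact Prod.ext (Subtype.ext h3) h4
    _ = 1 := by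
        have := SL_one Λ hΛ (T + 1)
        rw [SL] at this
        rw [← this]
        exact tsum_congr fun L => by split_ifs <;> simp

/-- flatten -/
def fl (T : ℕ) (Ps : List (Pc ht T)) : List B := (Ps.map Subtype.val).flatten

@[simp] lemma fl_nil (T : ℕ) : fl ht T [] = [] := rfl
@[simp] lemma fl_cons (T : ℕ) (P : Pc ht T) (Ps : List (Pc ht T)) :
    fl ht T (P :: Ps) = P.1 ++ fl ht T Ps := by simp [fl]
lemma fl_append (T : ℕ) (Ps Qs : List (Pc ht T)) :
    fl ht T (Ps ++ Qs) = fl ht T Ps ++ fl ht T Qs := by simp [fl]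

/-- overshoot mass -/
noncomputable def ov (T i0 : ℕ) : ℝ≥0∞ :=
  ∑' P : Pc ht T, if T + i0 < HP ht T P then LP Λ ht T P else 0

open Classical in
/-- good list of pieces -/
def Gd (T i0 : ℕ) (Ps : List (Pc ht T)) : Prop := ∀ P ∈ Ps, HP ht T P ≤ T + i0

open Classical in
/-- peeling `j` pieces -/
lemma peelJ (h1 : ∀ b, 1 ≤ ht b) (hΛ : ∑' b, Λ b = 1) (hU1 : ∀ n, U Λ ht n ≤ 1) (T i0 j : ℕ) :
    ∀ (n : ℕ) (F : List B → ℝ≥0∞), (∀ L, F L ≤ 1) → j * (T + i0) ≤ n →
    ∑' L : List B, (if HT ht L = n then LW Λ L * F L else 0)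
      ≤ SL (LP Λ ht T) j (fun Ps => if Gd ht T i0 Ps then
          ∑' R : List B, (if HT ht (fl ht T Ps ++ R) = n then LW Λ R * F (fl ht T Ps ++ R) else 0)
          else 0) + j * ov Λ ht T i0 := by
  induction j with
  | zero =>
    intro n F hF _
    rw [SL_zero]
    simp only [fl_nil, List.nil_append]
    have hG : Gd ht T i0 ([] : List (Pc ht T)) := fun P hP => absurd hP (by simp)
    simp only [hG, if_true]
    exact le_self_add
  | succ j ih =>
    intro n F hF hn
    have hn2 : T + i0 ≤ n := le_trans (by nlinarith) hn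
    have hn3 : j * (T + i0) + (T + i0) ≤ n := by rw [← Nat.succ_mul]; exact hn
    have step1 := peel ht T (fun L : List B => if HT ht L = n then LW Λ L * F L else 0)
      (fun L hL => if_neg (by omega))
    refine step1.trans ?_
    have step2 : ∀ P : Pc ht T, (∑' R, (if HT ht (P.1 ++ R) = n then LW Λ (P.1 ++ R) * F (P.1 ++ R)
        else 0)) ≤ LP Λ ht T P * (if HP ht T P ≤ T + i0 then
          (SL (LP Λ ht T) j (fun Ps => if Gd ht T i0 Ps then
          ∑' R : List B, (if HT ht (fl ht T (P :: Ps) ++ R) = n then
            LW Λ R * F (fl ht T (P :: Ps) ++ R) else 0) else 0) + j * ov Λ ht T i0) else 0)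
          + (if T + i0 < HP ht T P then LP Λ ht T P else 0) := by
      intro P
      by_cases hP : HP ht T P ≤ T + i0
      · rw [if_pos hP, if_neg (not_lt.2 hP), add_zero]
        have h3 := ih (n - HT ht P.1) (fun L => F (P.1 ++ L)) (fun L => hF _)
          (by unfold HP at hP; omega)
        calc (∑' R, (if HT ht (P.1 ++ R) = n then LW Λ (P.1 ++ R) * F (P.1 ++ R) else 0))
            = LP Λ ht T P * ∑' R, (if HT ht R = n - HT ht P.1 then LW Λ R * F (P.1 ++ R) else 0) := by
              rw [← ENNReal.tsum_mul_left]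
              refine tsum_congr fun R => ?_
              rw [HT_append, LW_append, LP]
              unfold HP at hP
              by_cases h : HT ht P.1 + HT ht R = n
              · rw [if_pos h, if_pos (by omega), mul_assoc]
              · rw [if_neg h, if_neg (by omega), mul_zero]
          _ ≤ _ := by
              refine mul_le_mul_right (h3.trans (add_le_add (le_of_eq ?_) le_rfl)) _
              refine SL_congr _ _ fun Ps _ => ?_
              by_cases hG : Gd ht T i0 Ps
              · rw [if_pos hG, if_pos hG]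
                refine tsum_congr fun R => ?_
                rw [fl_cons, List.append_assoc, HT_append ht P.1]
                unfold HP at hP
                by_cases h : HT ht P.1 + HT ht (fl ht T Ps ++ R) = n
                · rw [if_pos h, if_pos (by omega)]
                · rw [if_neg h, if_neg (by omega)]
              · rw [if_neg hG, if_neg hG]
      · rw [if_neg hP, if_pos (not_le.1 hP), mul_zero, zero_add]
        calc (∑' R, (if HT ht (P.1 ++ R) = n then LW Λ (P.1 ++ R) * F (P.1 ++ R) else 0))
            ≤ LP Λ ht T P * U Λ ht (n - HT ht P.1) := by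
              rw [U, ← ENNReal.tsum_mul_left]
              refine ENNReal.tsum_le_tsum fun R => ?_
              rw [HT_append, LW_append, LP]
              by_cases h : HT ht P.1 + HT ht R = n
              · rw [if_pos h, if_pos (by omega)]
                calc LW Λ P.1 * LW Λ R * F (P.1 ++ R) ≤ LW Λ P.1 * LW Λ R * 1 :=
                      mul_le_mul_right (hF _) _
                  _ = _ := mul_one _
              · rw [if_neg h]; exact zero_le
          _ ≤ LP Λ ht T P * 1 := mul_le_mul_right (hU1 _) _
          _ = _ := mul_one _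
    refine (ENNReal.tsum_le_tsum step2).trans ?_
    rw [ENNReal.tsum_add]
    have e1 : ∑' P : Pc ht T, (if T + i0 < HP ht T P then LP Λ ht T P else 0) = ov Λ ht T i0 := rfl
    rw [e1]
    have step3 : ∑' P : Pc ht T, LP Λ ht T P * (if HP ht T P ≤ T + i0 then
          (SL (LP Λ ht T) j (fun Ps => if Gd ht T i0 Ps then
          ∑' R : List B, (if HT ht (fl ht T (P :: Ps) ++ R) = n then
            LW Λ R * F (fl ht T (P :: Ps) ++ R) else 0) else 0) + j * ov Λ ht T i0) else 0)
        ≤ SL (LP Λ ht T) (j + 1) (fun Ps => if Gd ht T i0 Ps then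
          ∑' R : List B, (if HT ht (fl ht T Ps ++ R) = n then LW Λ R * F (fl ht T Ps ++ R) else 0)
          else 0) + j * ov Λ ht T i0 := by
      rw [SL_succ]
      calc _ ≤ ∑' P : Pc ht T, (LP Λ ht T P * (SL (LP Λ ht T) j (fun Ps =>
              if Gd ht T i0 (P :: Ps) then ∑' R : List B, (if HT ht (fl ht T (P :: Ps) ++ R) = n then
              LW Λ R * F (fl ht T (P :: Ps) ++ R) else 0) else 0))
              + LP Λ ht T P * (j * ov Λ ht T i0)) := by
            refine ENNReal.tsum_le_tsum fun P => ?_
            rw [← mul_add]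
            refine mul_le_mul_right ?_ _
            by_cases hP : HP ht T P ≤ T + i0
            · rw [if_pos hP]
              refine add_le_add (le_of_eq ?_) le_rfl
              refine SL_congr _ _ fun Ps _ => ?_
              by_cases hG : Gd ht T i0 Ps
              · rw [if_pos hG, if_pos]
                intro Q hQ
                rcases List.mem_cons.1 hQ with rfl | h
                · exact hP
                · exact hG Q h
              · rw [if_neg hG, if_neg]
                intro hcon
                exact hG fun Q hQ => hcon Q (List.mem_cons_of_mem _ hQ)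
            · rw [if_neg hP]; exact zero_le
        _ = _ := ENNReal.tsum_add
        _ ≤ _ := by
            refine add_le_add le_rfl ?_
            rw [ENNReal.tsum_mul_right]
            calc _ ≤ 1 * (j * ov Λ ht T i0) := mul_le_mul_left (mass_fp Λ ht h1 hΛ T) _
              _ = _ := one_mul _
    calc _ ≤ (SL (LP Λ ht T) (j + 1) (fun Ps => if Gd ht T i0 Ps then
          ∑' R : List B, (if HT ht (fl ht T Ps ++ R) = n then LW Λ R * F (fl ht T Ps ++ R) else 0)
          else 0) + j * ov Λ ht T i0) + ov Λ ht T i0 := add_le_add step3 le_rfl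
      _ = _ := by push_cast; ring

end One

end Crest.Agent.R154.Asm10
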