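import Crest.Agent.R154.Hit_12

/-! Row 154, ROAD 801 (helper12): the window step of the assembly. -/

set_option autoImplicit false

namespace Crest.Agent.R154.AsmA12

open scoped ENNReal
open Crest.Agent.R154.B5A (LW HT LW_append HT_append)
open Crest.Agent.R154.FP178
open Crest.Agent.R154.Hit12

lemma num (n : ℕ) (hn : n ≠ 0) (lam A us : ℝ≥0∞) (hl0 : lam ≠ 0) (hlt : lam ≠ ⊤)
    (hus : us ≤ lam / 2) (h : 2 * lam ≤ lam + A / n + us) : (n : ℝ≥0∞) ≤ 2 * A / lam := by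
  have h2 : lam / 2 + lam / 2 = lam := ENNReal.add_halves lam
  have hh0 : lam / 2 ≠ 0 := by
    rw [Ne, ENNReal.div_eq_zero_iff, not_or]; exact ⟨hl0, by norm_num⟩
  have hht : lam / 2 ≠ ⊤ := ne_top_of_le_ne_top hlt (ENNReal.half_le_self)
  have h3 : (lam + lam / 2) + lam / 2 ≤ (lam + lam / 2) + A / n := by
    calc (lam + lam / 2) + lam / 2 = 2 * lam := by rw [add_assoc, h2, two_mul]
      _ ≤ lam + A / n + us := h
      _ ≤ lam + A / n + lam / 2 := add_le_add le_rfl hus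
      _ = _ := by ring
  have h4 : lam / 2 ≤ A / n :=
    (ENNReal.add_le_add_iff_left (ENNReal.add_ne_top.2 ⟨hlt, hht⟩)).1 h3
  have hn0 : (n : ℝ≥0∞) ≠ 0 := by exact_mod_cast hn
  have hnt : (n : ℝ≥0∞) ≠ ⊤ := ENNReal.natCast_ne_top n
  have h5 : lam / 2 * n ≤ A := (ENNReal.le_div_iff_mul_le (Or.inl hn0) (Or.inl hnt)).1 h4
  have h6 : (n : ℝ≥0∞) * lam ≤ 2 * A := by
    calc (n : ℝ≥0∞) * lam = 2 * (lam / 2 * n) := by
          rw [← mul_assoc, ENNReal.mul_div_cancel (by norm_num) (by norm_num), mul_comm]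
      _ ≤ 2 * A := mul_le_mul_right h5 _
  exact (ENNReal.le_div_iff_mul_le (Or.inl hl0) (Or.inl hlt)).2 h6

open Classical in
/-- the exceptional set of a window function is small -/
lemma exc {G : Type*} (Φ : G → ℝ≥0∞) (C lam us N : ℝ≥0∞) (hC0 : C ≠ 0) (hCt : C ≠ ⊤)
    (hl0 : lam ≠ 0) (hlt : lam ≠ ⊤) (hus : us ≤ lam / 2)
    (hH : ∀ (μ : G → ℝ≥0∞) (M : ℝ≥0∞), ∑' x, μ x ≤ 1 → (∀ x, μ x ≤ M) →
      ∑' x, μ x * Φ x ≤ C * (lam + M * N * us / lam + us)) :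
    ∑' x, (if 2 * (C * lam) < Φ x then (1 : ℝ≥0∞) else 0) ≤ 2 * (N * us / lam) / lam := by
  rw [ENNReal.tsum_eq_iSup_sum]
  refine iSup_le fun F => ?_
  rw [← Finset.sum_filter, Finset.sum_const, nsmul_eq_mul, mul_one]
  set F' := F.filter (fun x => 2 * (C * lam) < Φ x) with hF'
  rcases Nat.eq_zero_or_pos F'.card with h0 | h0
  · rw [h0]; simp
  · have hn : F'.card ≠ 0 := h0.ne'
    have hn0 : (F'.card : ℝ≥0∞) ≠ 0 := by exact_mod_cast hn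
    have hnt : (F'.card : ℝ≥0∞) ≠ ⊤ := ENNReal.natCast_ne_top _
    refine num F'.card hn lam _ us hl0 hlt hus ?_
    set μ : G → ℝ≥0∞ := fun x => if x ∈ F' then (F'.card : ℝ≥0∞)⁻¹ else 0 with hμ
    have hμ1 : ∑' x, μ x ≤ 1 := by
      rw [tsum_eq_sum (s := F')]
      · rw [Finset.sum_congr rfl (g := fun _ => (F'.card : ℝ≥0∞)⁻¹)]
        · rw [Finset.sum_const, nsmul_eq_mul, ENNReal.mul_inv_cancel hn0 hnt]
        · intro x hx; simp only [hμ]; rw [if_pos hx]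
      · intro x hx; simp only [hμ]; rw [if_neg hx]
    have h1 := hH μ (F'.card : ℝ≥0∞)⁻¹ hμ1 (fun x => by
      simp only [hμ]; split_ifs <;> simp)
    have h2 : 2 * (C * lam) ≤ ∑' x, μ x * Φ x := by
      calc 2 * (C * lam) = ∑ x ∈ F', (F'.card : ℝ≥0∞)⁻¹ * (2 * (C * lam)) := by
            rw [Finset.sum_const, nsmul_eq_mul, ← mul_assoc (F'.card : ℝ≥0∞),
              ENNReal.mul_inv_cancel hn0 hnt, one_mul]
        _ ≤ ∑ x ∈ F', μ x * Φ x := by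
            refine Finset.sum_le_sum fun x hx => ?_
            have hx2 : 2 * (C * lam) < Φ x := (Finset.mem_filter.1 hx).2
            simp only [hμ]
            rw [if_pos hx]
            exact mul_le_mul_right hx2.le _
        _ ≤ _ := ENNReal.sum_le_tsum F'
    have h3 : C * (2 * lam) ≤ C * (lam + (N * us / lam) / F'.card + us) := by
      calc C * (2 * lam) = 2 * (C * lam) := by ring
        _ ≤ _ := h2.trans h1
        _ = _ := by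
          congr 2
          simp only [div_eq_mul_inv]
          ring
    exact (ENNReal.mul_le_mul_iff_right hC0 hCt).1 h3

open Classical in
lemma card_union {G ι : Type*} (s : Finset ι) (S : ι → Set G) (N : ℝ≥0∞)
    (h : ∀ i ∈ s, ∑' x, (if x ∈ S i then (1 : ℝ≥0∞) else 0) ≤ N) :
    ∑' x, (if ∃ i ∈ s, x ∈ S i then (1 : ℝ≥0∞) else 0) ≤ s.card * N := by
  calc _ ≤ ∑' x, ∑ i ∈ s, (if x ∈ S i then (1 : ℝ≥0∞) else 0) := by
        refine ENNReal.tsum_le_tsum fun x => ?_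
        by_cases hx : ∃ i ∈ s, x ∈ S i
        · obtain ⟨i, hi, hxi⟩ := hx
          rw [if_pos ⟨i, hi, hxi⟩]
          refine le_trans ?_ (Finset.single_le_sum (f := fun i => if x ∈ S i then (1 : ℝ≥0∞) else 0)
            (fun _ _ => zero_le) hi)
          rw [if_pos hxi]
        · rw [if_neg hx]; exact zero_le
    _ = ∑ i ∈ s, ∑' x, (if x ∈ S i then (1 : ℝ≥0∞) else 0) :=
        Summable.tsum_finsetSum fun _ _ => ENNReal.summable
    _ ≤ ∑ _ ∈ s, N := Finset.sum_le_sum h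
    _ = _ := by rw [Finset.sum_const, nsmul_eq_mul]

section

variable {B1 B2 G : Type*} [AddCommGroup G]

open Classical in
/-- **local window bound**: the window weight with piece 1 local is `≤ c` off a small set. -/
lemma loc (Λ1 : B1 → ℝ≥0∞) (h1 : B1 → ℕ) (z1 : B1 → G) (Λ2 : B2 → ℝ≥0∞) (h2 : B2 → ℕ)
    (hb1 : ∀ b, 1 ≤ h1 b) (hb2 : ∀ b, 1 ≤ h2 b) (hΛ1 : ∑' b, Λ1 b ≤ 1) (hΛ2 : ∑' b, Λ2 b ≤ 1)
    (T1 T2 i0 : ℕ) (Lc : Set (ℕ × G)) (Ef : ℕ → Finset G) (hEf : ∀ h y, (h, y) ∈ Lc → y ∈ Ef h)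
    (Nc : ℝ≥0∞) (hNc : ∀ h, ((Ef h).card : ℝ≥0∞) ≤ Nc)
    (Ev : G → List B1 → List B2 → Prop) (C lam us : ℝ≥0∞) (hC0 : C ≠ 0) (hCt : C ≠ ⊤)
    (hl0 : lam ≠ 0) (hlt : lam ≠ ⊤) (hus : us ≤ lam / 2)
    (H : ∀ h h' : ℕ, T1 ≤ h → h ≤ T1 + i0 → T2 ≤ h' → h' ≤ T2 + i0 →
      ∀ (E : Finset G) (μ : G → ℝ≥0∞) (M : ℝ≥0∞), ∑' x, μ x ≤ 1 →
      (∀ x, μ x ≤ M) → ∑' x, μ x * ∑' Q, ∑' Q', (if HT h1 Q = h ∧ Dp z1 Q ∈ E ∧ HT h2 Q' = h' ∧
        Ev x Q Q' then LW Λ1 Q * LW Λ2 Q' else 0) ≤ C * (lam + M * E.card * us / lam + us)) :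
    ∃ S : Set G, (∑' x, (if x ∈ S then (1 : ℝ≥0∞) else 0)
        ≤ ((i0 + 1) * (i0 + 1) : ℕ) * (2 * (Nc * us / lam) / lam)) ∧
      ∀ x, ∑' Q, ∑' Q', (if fp h1 T1 Q ∧ HT h1 Q ≤ T1 + i0 ∧ (HT h1 Q, Dp z1 Q) ∈ Lc ∧ fp h2 T2 Q' ∧
        HT h2 Q' ≤ T2 + i0 ∧ Ev x Q Q' then LW Λ1 Q * LW Λ2 Q' else 0)
        ≤ ((i0 + 1) * (i0 + 1) : ℕ) * (2 * (C * lam)) + (if x ∈ S then 1 else 0) := by
  set Φ : ℕ × ℕ → G → ℝ≥0∞ := fun p x => ∑' Q, ∑' Q', (if HT h1 Q = p.1 ∧ Dp z1 Q ∈ Ef p.1 ∧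
    HT h2 Q' = p.2 ∧ Ev x Q Q' then LW Λ1 Q * LW Λ2 Q' else 0) with hΦ
  set R : Finset (ℕ × ℕ) := Finset.Icc T1 (T1 + i0) ×ˢ Finset.Icc T2 (T2 + i0) with hR
  have hRc : R.card = (i0 + 1) * (i0 + 1) := by
    rw [hR, Finset.card_product, Nat.card_Icc, Nat.card_Icc]
    have h1 : T1 + i0 + 1 - T1 = i0 + 1 := by omega
    have h2 : T2 + i0 + 1 - T2 = i0 + 1 := by omega
    rw [h1, h2]
  refine ⟨{x | ∃ p ∈ R, x ∈ {x | 2 * (C * lam) < Φ p x}}, ?_, fun x => ?_⟩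
  · rw [← hRc]
    refine le_trans (le_of_eq ?_) (card_union R (fun p => {x | 2 * (C * lam) < Φ p x}) _
      fun p hp => ?_)
    · refine tsum_congr fun x => ?_
      by_cases hx : x ∈ {x | ∃ p ∈ R, x ∈ {x | 2 * (C * lam) < Φ p x}}
      · rw [if_pos hx]
        exact (if_pos (show ∃ p ∈ R, x ∈ {x | 2 * (C * lam) < Φ p x} from hx)).symm
      · rw [if_neg hx]
        exact (if_neg (show ¬ ∃ p ∈ R, x ∈ {x | 2 * (C * lam) < Φ p x} from hx)).symm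
    rw [hR, Finset.mem_product, Finset.mem_Icc, Finset.mem_Icc] at hp
    refine le_trans (le_of_eq (tsum_congr fun x => ?_))
      ((exc (Φ p) C lam us (Ef p.1).card hC0 hCt hl0 hlt hus ?_).trans ?_)
    · by_cases hx : 2 * (C * lam) < Φ p x
      · rw [if_pos hx]; exact if_pos hx
      · rw [if_neg hx]; exact if_neg hx
    · intro μ M hμ hM
      exact H p.1 p.2 hp.1.1 hp.1.2 hp.2.1 hp.2.2 (Ef p.1) μ M hμ hM
    · exact ENNReal.div_le_div_right (mul_le_mul_right (ENNReal.div_le_div_right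
        (mul_le_mul_left (hNc _) _) _) _) _
  · have hle1 : ∑' Q, ∑' Q', (if fp h1 T1 Q ∧ HT h1 Q ≤ T1 + i0 ∧ (HT h1 Q, Dp z1 Q) ∈ Lc ∧ fp h2 T2 Q' ∧
        HT h2 Q' ≤ T2 + i0 ∧ Ev x Q Q' then LW Λ1 Q * LW Λ2 Q' else 0) ≤ 1 := by
      calc _ ≤ ∑' Q, ∑' Q', (if fp h1 T1 Q then LW Λ1 Q else 0) * (if fp h2 T2 Q' then LW Λ2 Q' else 0) := by
            refine ENNReal.tsum_le_tsum fun Q => ENNReal.tsum_le_tsum fun Q' => ?_
            by_cases hc : fp h1 T1 Q ∧ HT h1 Q ≤ T1 + i0 ∧ (HT h1 Q, Dp z1 Q) ∈ Lc ∧ fp h2 T2 Q' ∧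
              HT h2 Q' ≤ T2 + i0 ∧ Ev x Q Q'
            · rw [if_pos hc, if_pos hc.1, if_pos hc.2.2.2.1]
            · rw [if_neg hc]; exact zero_le
        _ = (∑' Q, (if fp h1 T1 Q then LW Λ1 Q else 0)) * ∑' Q', (if fp h2 T2 Q' then LW Λ2 Q' else 0) := by
            rw [← ENNReal.tsum_mul_right]
            exact tsum_congr fun Q => ENNReal.tsum_mul_left
        _ ≤ 1 * 1 := mul_le_mul' (sum_FP Λ1 h1 hb1 hΛ1 T1) (sum_FP Λ2 h2 hb2 hΛ2 T2)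
        _ = 1 := one_mul 1
    by_cases hx : x ∈ {x | ∃ p ∈ R, x ∈ {x | 2 * (C * lam) < Φ p x}}
    · rw [if_pos hx]
      exact hle1.trans le_add_self
    · rw [if_neg hx, add_zero]
      have hx' : ∀ p ∈ R, Φ p x ≤ 2 * (C * lam) := by
        intro p hp
        by_contra hc
        exact hx ⟨p, hp, not_le.1 hc⟩
      calc _ ≤ ∑' Q, ∑' Q', ∑ p ∈ R, (if HT h1 Q = p.1 ∧ Dp z1 Q ∈ Ef p.1 ∧
              HT h2 Q' = p.2 ∧ Ev x Q Q' then LW Λ1 Q * LW Λ2 Q' else 0) := by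
            refine ENNReal.tsum_le_tsum fun Q => ENNReal.tsum_le_tsum fun Q' => ?_
            by_cases hc : fp h1 T1 Q ∧ HT h1 Q ≤ T1 + i0 ∧ (HT h1 Q, Dp z1 Q) ∈ Lc ∧ fp h2 T2 Q' ∧
              HT h2 Q' ≤ T2 + i0 ∧ Ev x Q Q'
            · rw [if_pos hc]
              refine le_trans ?_ (Finset.single_le_sum (f := fun p : ℕ × ℕ =>
                if HT h1 Q = p.1 ∧ Dp z1 Q ∈ Ef p.1 ∧ HT h2 Q' = p.2 ∧ Ev x Q Q' then
                  LW Λ1 Q * LW Λ2 Q' else 0) (fun _ _ => zero_le)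
                (show (HT h1 Q, HT h2 Q') ∈ R from ?_))
              · simp only
                rw [if_pos ⟨trivial, hEf _ _ hc.2.2.1, trivial, hc.2.2.2.2.2⟩]
              · rw [hR, Finset.mem_product, Finset.mem_Icc, Finset.mem_Icc]
                exact ⟨⟨le_HT_of_fp h1 hc.1, hc.2.1⟩, ⟨le_HT_of_fp h2 hc.2.2.2.1, hc.2.2.2.2.1⟩⟩
            · rw [if_neg hc]; exact zero_le
        _ = ∑ p ∈ R, Φ p x := by
            simp only [hΦ]
            rw [← Summable.tsum_finsetSum (fun _ _ => ENNReal.summable)]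
            refine tsum_congr fun Q => ?_
            rw [← Summable.tsum_finsetSum (fun _ _ => ENNReal.summable)]
        _ ≤ ∑ _ ∈ R, 2 * (C * lam) := Finset.sum_le_sum hx'
        _ = _ := by rw [Finset.sum_const, nsmul_eq_mul, hRc]

end

end Crest.Agent.R154.AsmA12
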