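import Crest.Agent.R154.B5Abs_566
import Crest.Agent.R154.Dens_616

/-! Row 154, KAPPA' (801 #38888): first passage lists (helper129). -/

set_option autoImplicit false

namespace Crest.Agent.R154.Asm129

open scoped ENNReal
open Crest.Agent.R154.B5A
open Classical

variable {B G : Type*} [AddCommGroup G]

/-- displacement -/
def Dp (z : B → G) (L : List B) : G := (L.map z).sum

lemma Dp_nil (z : B → G) : Dp z [] = 0 := by simp [Dp]

lemma Dp_append (z : B → G) (L L' : List B) : Dp z (L ++ L') = Dp z L + Dp z L' := by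
  simp [Dp]

/-- first passage lists -/
def fp (ht : B → ℕ) : ℕ → List B → Prop
  | T, [] => T = 0
  | T, b :: L => T ≠ 0 ∧ fp ht (T - ht b) L

lemma fp_zero (ht : B → ℕ) (L : List B) : fp ht 0 L ↔ L = [] := by
  cases L <;> simp [fp]

lemma fp_HT (ht : B → ℕ) (L : List B) : ∀ T, fp ht T L → T ≤ HT ht L := by
  induction L with
  | nil => intro T h; simp only [fp] at h; omega
  | cons b L ih =>
    intro T h
    have := ih _ h.2
    rw [HT_cons]; omega

lemma fp_snoc (ht : B → ℕ) (L : List B) (b : B) : ∀ T, fp ht T (L ++ [b]) → HT ht L < T := by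
  induction L with
  | nil => intro T h; simp only [List.nil_append, fp] at h; rw [HT_nil]; omega
  | cons c L ih =>
    intro T h
    have := ih _ h.2
    rw [HT_cons]; omega

variable (Λ : B → ℝ≥0∞) (ht : B → ℕ) (z : B → G)

lemma fp_split (h1 : ∀ b, 1 ≤ ht b) : ∀ (T : ℕ) (F : List B → ℝ≥0∞),
    ∑' L, (if T ≤ HT ht L then F L else 0) = ∑' A, ∑' R, if fp ht T A then F (A ++ R) else 0 := by
  intro T
  induction T using Nat.strong_induction_on with
  | _ T ih =>
    intro F
    rcases Nat.eq_zero_or_pos T with rfl | hT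
    · rw [tsum_eq_single (f := fun A => ∑' R, if fp ht 0 A then F (A ++ R) else 0) ([] : List B)]
      · simp [fp]
      · intro A hA
        simp [fp_zero, hA]
    · rw [tsum_list, tsum_list (fun A => ∑' R, if fp ht T A then F (A ++ R) else 0)]
      have e1 : (if T ≤ HT ht ([] : List B) then F [] else 0) = 0 := by
        rw [if_neg]; rw [HT_nil]; omega
      have e2 : (∑' R, if fp ht T ([] : List B) then F ([] ++ R) else 0) = 0 := by
        simp only [fp]
        simp [show T ≠ 0 by omega]
      rw [e1, e2, zero_add, zero_add]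
      refine tsum_congr fun b => ?_
      have hb := h1 b
      have := ih (T - ht b) (by omega) (fun L => F (b :: L))
      calc _ = ∑' L, (if T - ht b ≤ HT ht L then F (b :: L) else 0) := by
            refine tsum_congr fun L => ?_
            rw [HT_cons]
            by_cases h : T ≤ ht b + HT ht L
            · rw [if_pos h, if_pos (by omega)]
            · rw [if_neg h, if_neg (by omega)]
        _ = _ := by
            rw [this]
            refine tsum_congr fun A => tsum_congr fun R => ?_
            simp only [fp, List.cons_append]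
            simp [show T ≠ 0 by omega]

lemma fp_comp (h1 : ∀ b, 1 ≤ ht b) : ∀ (T r : ℕ), T ≤ r → ∀ (F : List B → ℝ≥0∞),
    ∑' A, (if fp ht r A then F A else 0)
      = ∑' P, ∑' A, if fp ht T P ∧ fp ht (r - HT ht P) A then F (P ++ A) else 0 := by
  intro T
  induction T using Nat.strong_induction_on with
  | _ T ih =>
    intro r hr F
    rcases Nat.eq_zero_or_pos T with rfl | hT
    · rw [tsum_eq_single (f := fun P => ∑' A, if fp ht 0 P ∧ fp ht (r - HT ht P) A
        then F (P ++ A) else 0) ([] : List B)]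
      · simp [fp, HT_nil]
      · intro A hA
        simp [fp_zero, hA]
    · rw [tsum_list, tsum_list (fun P => ∑' A, if fp ht T P ∧ fp ht (r - HT ht P) A
        then F (P ++ A) else 0)]
      have e1 : (if fp ht r ([] : List B) then F [] else 0) = 0 := by
        rw [if_neg]; simp only [fp]; omega
      have e2 : (∑' R, if fp ht T ([] : List B) ∧ fp ht (r - HT ht ([] : List B)) R
          then F ([] ++ R) else 0) = 0 := by
        simp only [fp]
        simp [show T ≠ 0 by omega]
      rw [e1, e2, zero_add, zero_add]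
      refine tsum_congr fun b => ?_
      have hb := h1 b
      have := ih (T - ht b) (by omega) (r - ht b) (by omega) (fun L => F (b :: L))
      calc _ = ∑' L, (if fp ht (r - ht b) L then F (b :: L) else 0) := by
            refine tsum_congr fun L => ?_
            simp [fp, show r ≠ 0 by omega]
        _ = _ := by
            rw [this]
            refine tsum_congr fun A => tsum_congr fun R => ?_
            simp only [fp, List.cons_append, HT_cons, Nat.sub_add_eq]
            simp [show T ≠ 0 by omega]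

lemma fp_mass (h1 : ∀ b, 1 ≤ ht b) (hΛ : ∑' b, Λ b = 1) : ∀ T : ℕ,
    ∑' A, (if fp ht T A then LW Λ A else 0) = 1 := by
  intro T
  induction T using Nat.strong_induction_on with
  | _ T ih =>
    rcases Nat.eq_zero_or_pos T with rfl | hT
    · rw [tsum_eq_single ([] : List B)]
      · simp [fp, LW_nil]
      · intro A hA
        simp [fp_zero, hA]
    · rw [tsum_list]
      have e1 : (if fp ht T ([] : List B) then LW Λ [] else 0) = 0 := by
        rw [if_neg]; simp only [fp]; omega
      rw [e1, zero_add, ← hΛ]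
      refine tsum_congr fun b => ?_
      have hb := h1 b
      have := ih (T - ht b) (by omega)
      calc _ = ∑' L, Λ b * (if fp ht (T - ht b) L then LW Λ L else 0) := by
            refine tsum_congr fun L => ?_
            simp only [fp, LW_cons]
            simp [show T ≠ 0 by omega]
        _ = _ := by rw [ENNReal.tsum_mul_left, this, mul_one]

lemma tsum_snoc (F : List B → ℝ≥0∞) : ∑' L, F L = F [] + ∑' L, ∑' b, F (L ++ [b]) := by
  have e : ∀ f : List B → ℝ≥0∞, ∑' L : List B, f L.reverse = ∑' L, f L := fun f =>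
    Equiv.tsum_eq (Function.Involutive.toPerm List.reverse List.reverse_involutive) f
  rw [← e F, tsum_list]
  congr 1
  rw [ENNReal.tsum_comm]
  rw [← e (fun L => ∑' b, F (L ++ [b]))]
  refine tsum_congr fun L => tsum_congr fun b => ?_
  rw [List.reverse_cons]

/-- overshoot -/
noncomputable def ep (i0 : ℕ) : ℝ≥0∞ := ∑' b, Λ b * ((ht b - i0 : ℕ) : ℝ≥0∞)

lemma over_le (hU : ∀ n, U Λ ht n ≤ 1) (T i0 : ℕ) :
    ∑' A, (if fp ht T A ∧ T + i0 < HT ht A then LW Λ A else 0) ≤ ep Λ ht i0 := by
  rw [tsum_snoc]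
  have e1 : (if fp ht T ([] : List B) ∧ T + i0 < HT ht ([] : List B) then LW Λ [] else 0) = 0 := by
    rw [if_neg]; rintro ⟨_, h⟩; rw [HT_nil] at h; omega
  rw [e1, zero_add, ENNReal.tsum_comm, ep]
  refine ENNReal.tsum_le_tsum fun b => ?_
  set s : Finset ℕ := (Finset.range T).filter (fun n => T + i0 < n + ht b) with hs
  have hcard : s.card ≤ ht b - i0 := by
    have : s ⊆ Finset.Ico (T + i0 + 1 - ht b) T := by
      intro n hn
      simp only [hs, Finset.mem_filter, Finset.mem_range] at hn
      rw [Finset.mem_Ico]; omega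
    have h2 := Finset.card_le_card this
    rw [Nat.card_Ico] at h2
    omega
  calc ∑' L : List B, (if fp ht T (L ++ [b]) ∧ T + i0 < HT ht (L ++ [b])
        then LW Λ (L ++ [b]) else 0)
      ≤ ∑' L : List B, Λ b * ∑ n ∈ s, (if HT ht L = n then LW Λ L else 0) := by
        refine ENNReal.tsum_le_tsum fun L => ?_
        by_cases h : fp ht T (L ++ [b]) ∧ T + i0 < HT ht (L ++ [b])
        · rw [if_pos h, LW_append, mul_comm]
          have h3 := fp_snoc ht L b T h.1
          have h4 := h.2
          rw [HT_append, HT_cons, HT_nil] at h4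
          refine mul_le_mul' (by simp [LW]) ?_
          rw [Finset.sum_ite_eq, if_pos]
          simp only [hs, Finset.mem_filter, Finset.mem_range]; omega
        · rw [if_neg h]; exact zero_le
    _ = Λ b * ∑ n ∈ s, U Λ ht n := by
        rw [ENNReal.tsum_mul_left, Summable.tsum_finsetSum (fun _ _ => ENNReal.summable)]
        rfl
    _ ≤ Λ b * ∑ n ∈ s, 1 := mul_le_mul_right (Finset.sum_le_sum fun n _ => hU n) _
    _ ≤ _ := by
        refine mul_le_mul_right ?_ _
        simp only [Finset.sum_const, nsmul_eq_mul, mul_one]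
        exact_mod_cast hcard

/-- first passage law -/
noncomputable def fl (T : ℕ) (x : ℕ × G) : ℝ≥0∞ :=
  ∑' A, if fp ht T A ∧ HT ht A = T + x.1 ∧ Dp z A = x.2 then LW Λ A else 0

lemma push (T : ℕ) (Φ : ℕ → G → ℝ≥0∞) :
    ∑' A, (if fp ht T A then LW Λ A * Φ (HT ht A) (Dp z A) else 0)
      = ∑' x : ℕ × G, fl Λ ht z T x * Φ (T + x.1) x.2 := by
  have e : ∀ x : ℕ × G, fl Λ ht z T x * Φ (T + x.1) x.2
      = ∑' A, if fp ht T A ∧ HT ht A = T + x.1 ∧ Dp z A = x.2
        then LW Λ A * Φ (HT ht A) (Dp z A) else 0 := by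
    intro x
    rw [fl, ← ENNReal.tsum_mul_right]
    refine tsum_congr fun A => ?_
    by_cases h : fp ht T A ∧ HT ht A = T + x.1 ∧ Dp z A = x.2
    · rw [if_pos h, if_pos h, h.2.1, h.2.2]
    · rw [if_neg h, if_neg h, zero_mul]
  simp only [e]
  rw [ENNReal.tsum_comm]
  refine tsum_congr fun A => ?_
  by_cases h : fp ht T A
  · rw [if_pos h]
    have hT := fp_HT ht A T h
    rw [tsum_eq_single (HT ht A - T, Dp z A)]
    · rw [if_pos]; exact ⟨h, by simp only; omega, rfl⟩
    · intro x hx
      rw [if_neg]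
      rintro ⟨_, h2, h3⟩
      apply hx
      ext
      · simp only; omega
      · exact h3.symm
  · rw [if_neg h]
    simp [h]

lemma fl_mass (h1 : ∀ b, 1 ≤ ht b) (hΛ : ∑' b, Λ b = 1) (T : ℕ) :
    ∑' x : ℕ × G, fl Λ ht z T x = 1 := by
  have := push Λ ht z T (fun _ _ => 1)
  simp only [mul_one] at this
  rw [← this, fp_mass Λ ht h1 hΛ T]

/-- density recursion -/
theorem dens2 (p : ℕ × G → ℝ≥0∞) (a ov : ℕ → ℕ × G → ℝ≥0∞) (T i0 : ℕ) (th q ε : ℝ≥0∞)
    (hrec : ∀ r, T + i0 ≤ r → ∀ x, a r x ≤
      (∑' y : ℕ × G, if y.1 ≤ i0 then p y * a (r - T - y.1) (x.1, x.2 - y.2) else 0) + ov r x)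
    (hov : ∀ r, T + i0 ≤ r → ∑' x, ov r x ≤ ε)
    (ha : ∀ r, ∑' x, a r x ≤ 1)
    (hq : ∑' y, (if y.1 ≤ i0 ∧ th < p y then p y else 0) ≤ q) (hq1 : q ≤ 1) :
    ∀ N r, N * (T + i0) ≤ r → ∃ b : ℕ × G → ℝ≥0∞, (∑' x, b x ≤ q ^ N + N * ε) ∧
      ∀ x, a r x ≤ N * ((i0 + 1 : ℕ) * th) + b x := by
  intro N
  induction N with
  | zero =>
    intro r _
    exact ⟨a r, by simpa using ha r, fun x => by simp⟩
  | succ N ih =>
    intro r hr
    have hTr : T + i0 ≤ r := by nlinarith
    have hrem : ∀ i, i ≤ i0 → N * (T + i0) ≤ r - T - i := by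
      intro i hi
      have : N * (T + i0) + (T + i0) ≤ r := by nlinarith
      omega
    have ih' : ∀ i, ∃ b : ℕ × G → ℝ≥0∞, i ≤ i0 → (∑' x, b x ≤ q ^ N + N * ε) ∧
        ∀ x, a (r - T - i) x ≤ N * ((i0 + 1 : ℕ) * th) + b x := by
      intro i
      by_cases hi : i ≤ i0
      · obtain ⟨b, hb⟩ := ih (r - T - i) (hrem i hi)
        exact ⟨b, fun _ => hb⟩
      · exact ⟨0, fun h => absurd h hi⟩
    choose b hb using ih'
    refine ⟨fun x => (∑' y : ℕ × G, if y.1 ≤ i0 ∧ th < p y then p y * b y.1 (x.1, x.2 - y.2)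
      else 0) + ov r x, ?_, ?_⟩
    · rw [ENNReal.tsum_add]
      have h1 : ∑' x : ℕ × G, ∑' y : ℕ × G, (if y.1 ≤ i0 ∧ th < p y
          then p y * b y.1 (x.1, x.2 - y.2) else 0) ≤ q ^ (N + 1) + N * ε := by
        rw [ENNReal.tsum_comm]
        calc _ ≤ ∑' y : ℕ × G, (if y.1 ≤ i0 ∧ th < p y then p y else 0) * (q ^ N + N * ε) := by
              refine ENNReal.tsum_le_tsum fun y => ?_
              by_cases hy : y.1 ≤ i0 ∧ th < p y
              · simp only [if_pos hy]
                rw [ENNReal.tsum_mul_left]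
                refine mul_le_mul_right ?_ _
                refine le_trans ?_ (hb y.1 hy.1).1
                exact ENNReal.tsum_comp_le_tsum_of_injective
                  (f := fun x : ℕ × G => (x.1, x.2 - y.2))
                  (fun x x' h => by
                    simp only [Prod.mk.injEq, sub_left_inj] at h
                    exact Prod.ext h.1 h.2) _
              · simp [if_neg hy]
          _ ≤ q * (q ^ N + N * ε) := by rw [ENNReal.tsum_mul_right]; exact mul_le_mul_left hq _
          _ ≤ _ := by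
              rw [mul_add, pow_succ']
              refine add_le_add le_rfl ?_
              calc q * (N * ε) ≤ 1 * (N * ε) := mul_le_mul_left hq1 _
                _ = _ := one_mul _
      calc _ ≤ (q ^ (N + 1) + N * ε) + ε := add_le_add h1 (hov r hTr)
        _ = _ := by push_cast; ring
    · intro x
      refine (hrec r hTr x).trans ?_
      have h2 : (∑' y : ℕ × G, if y.1 ≤ i0 then p y * a (r - T - y.1) (x.1, x.2 - y.2) else 0)
          ≤ (∑' y : ℕ × G, if y.1 ≤ i0 then th * a (r - T - y.1) (x.1, x.2 - y.2) else 0)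
            + ∑' y : ℕ × G, ((if y.1 ≤ i0 ∧ th < p y then p y else 0) * (N * ((i0 + 1 : ℕ) * th))
              + if y.1 ≤ i0 ∧ th < p y then p y * b y.1 (x.1, x.2 - y.2) else 0) := by
        rw [← ENNReal.tsum_add]
        refine ENNReal.tsum_le_tsum fun y => ?_
        by_cases hy : y.1 ≤ i0
        · by_cases hp : th < p y
          · have hyp : y.1 ≤ i0 ∧ th < p y := ⟨hy, hp⟩
            simp only [if_pos hy, if_pos hyp]
            rw [← mul_add]
            exact le_add_left (mul_le_mul_right ((hb y.1 hy).2 _) _)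
          · rw [if_pos hy, if_pos hy]
            exact le_add_right (mul_le_mul_left (not_lt.1 hp) _)
        · rw [if_neg hy]; exact zero_le
      have h3 : (∑' y : ℕ × G, if y.1 ≤ i0 then th * a (r - T - y.1) (x.1, x.2 - y.2) else 0)
          ≤ (i0 + 1 : ℕ) * th := by
        rw [ENNReal.tsum_prod (f := fun i z => if i ≤ i0 then th * a (r - T - i) (x.1, x.2 - z)
          else 0)]
        rw [tsum_eq_sum (s := Finset.range (i0 + 1))]
        · calc _ ≤ ∑ i ∈ Finset.range (i0 + 1), th := by
                refine Finset.sum_le_sum fun i hi => ?_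
                have hi' : i ≤ i0 := by rw [Finset.mem_range] at hi; omega
                simp only [if_pos hi']
                rw [ENNReal.tsum_mul_left]
                calc th * _ ≤ th * 1 := by
                      refine mul_le_mul_right ?_ _
                      refine le_trans ?_ (ha (r - T - i))
                      exact ENNReal.tsum_comp_le_tsum_of_injective
                        (f := fun z : G => (x.1, x.2 - z))
                        (fun z z' h => by simpa using h) _
                  _ = th := mul_one _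
            _ = _ := by simp
        · intro i hi
          have hi' : ¬ i ≤ i0 := by rw [Finset.mem_range] at hi; omega
          simp [if_neg hi']
      have h4 : (∑' y : ℕ × G, (if y.1 ≤ i0 ∧ th < p y then p y else 0)
          * (N * ((i0 + 1 : ℕ) * th))) ≤ N * ((i0 + 1 : ℕ) * th) := by
        rw [ENNReal.tsum_mul_right]
        calc _ ≤ 1 * (N * ((i0 + 1 : ℕ) * th)) := mul_le_mul_left (hq.trans hq1) _
          _ = _ := one_mul _
      rw [ENNReal.tsum_add] at h2
      calc _ ≤ ((i0 + 1 : ℕ) * th + (N * ((i0 + 1 : ℕ) * th)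
            + ∑' y : ℕ × G, if y.1 ≤ i0 ∧ th < p y then p y * b y.1 (x.1, x.2 - y.2) else 0))
            + ov r x := by
              refine add_le_add (h2.trans (add_le_add h3 (add_le_add h4 le_rfl))) le_rfl
        _ = _ := by push_cast; ring

/-- overshooting part of the first passage law -/
noncomputable def ovl (T i0 r : ℕ) (x : ℕ × G) : ℝ≥0∞ :=
  ∑' P, ∑' A, if (fp ht T P ∧ T + i0 < HT ht P) ∧ fp ht (r - HT ht P) A ∧
    HT ht (P ++ A) = r + x.1 ∧ Dp z (P ++ A) = x.2 then LW Λ P * LW Λ A else 0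

lemma ovl_le (h1 : ∀ b, 1 ≤ ht b) (hΛ : ∑' b, Λ b = 1) (hU : ∀ n, U Λ ht n ≤ 1)
    (T i0 r : ℕ) : ∑' x : ℕ × G, ovl Λ ht z T i0 r x ≤ ep Λ ht i0 := by
  refine le_trans ?_ (over_le Λ ht hU T i0)
  simp only [ovl]
  rw [ENNReal.tsum_comm]
  refine ENNReal.tsum_le_tsum fun P => ?_
  rw [ENNReal.tsum_comm]
  by_cases hP : fp ht T P ∧ T + i0 < HT ht P
  · rw [if_pos hP]
    calc _ ≤ ∑' A, LW Λ P * (if fp ht (r - HT ht P) A then LW Λ A else 0) := by
          refine ENNReal.tsum_le_tsum fun A => ?_
          by_cases hA : fp ht (r - HT ht P) A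
          · rw [if_pos hA]
            refine le_trans (ENNReal.tsum_le_tsum (g := fun x : ℕ × G =>
              if x = (HT ht (P ++ A) - r, Dp z (P ++ A)) then LW Λ P * LW Λ A else 0) ?_) ?_
            · intro x
              by_cases hx : (fp ht T P ∧ T + i0 < HT ht P) ∧ fp ht (r - HT ht P) A ∧
                HT ht (P ++ A) = r + x.1 ∧ Dp z (P ++ A) = x.2
              · rw [if_pos hx, if_pos]
                ext
                · simp only; omega
                · exact hx.2.2.2.symm
              · rw [if_neg hx]; exact zero_le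
            · rw [tsum_ite_eq]
          · rw [if_neg hA]
            simp [hA]
      _ = LW Λ P := by rw [ENNReal.tsum_mul_left, fp_mass Λ ht h1 hΛ, mul_one]
  · rw [if_neg hP]
    simp [hP]

lemma fl_rec (h1 : ∀ b, 1 ≤ ht b) (T i0 r : ℕ) (hr : T + i0 ≤ r) (x : ℕ × G) :
    fl Λ ht z r x ≤ (∑' y : ℕ × G, if y.1 ≤ i0
      then fl Λ ht z T y * fl Λ ht z (r - T - y.1) (x.1, x.2 - y.2) else 0)
        + ovl Λ ht z T i0 r x := by
  have e1 : fl Λ ht z r x = ∑' P, ∑' A, if fp ht T P ∧ fp ht (r - HT ht P) A then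
      (if HT ht (P ++ A) = r + x.1 ∧ Dp z (P ++ A) = x.2 then LW Λ (P ++ A) else 0) else 0 := by
    rw [← fp_comp ht h1 T r (by omega)
      (fun L => if HT ht L = r + x.1 ∧ Dp z L = x.2 then LW Λ L else 0), fl]
    refine tsum_congr fun A => ?_
    split_ifs <;> first | rfl | tauto
  have e2 : (∑' y : ℕ × G, if y.1 ≤ i0
      then fl Λ ht z T y * fl Λ ht z (r - T - y.1) (x.1, x.2 - y.2) else 0)
      = ∑' P, (if fp ht T P then LW Λ P * (if HT ht P ≤ T + i0 then
        fl Λ ht z (r - HT ht P) (x.1, x.2 - Dp z P) else 0) else 0) := by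
    rw [push Λ ht z T (fun h w => if h ≤ T + i0 then fl Λ ht z (r - h) (x.1, x.2 - w) else 0)]
    refine tsum_congr fun y => ?_
    by_cases hy : y.1 ≤ i0
    · rw [if_pos hy, if_pos (by omega), Nat.sub_add_eq]
    · rw [if_neg hy, if_neg (by omega), mul_zero]
  rw [e1, e2, ovl, ← ENNReal.tsum_add]
  refine ENNReal.tsum_le_tsum fun P => ?_
  by_cases hP : fp ht T P
  · by_cases hh : HT ht P ≤ T + i0
    · refine le_add_right ?_
      rw [if_pos hP, if_pos hh, fl, ← ENNReal.tsum_mul_left]
      refine ENNReal.tsum_le_tsum fun A => ?_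
      by_cases hA : fp ht (r - HT ht P) A
      · rw [if_pos ⟨hP, hA⟩]
        by_cases h5 : HT ht (P ++ A) = r + x.1 ∧ Dp z (P ++ A) = x.2
        · rw [if_pos h5, if_pos, LW_append]
          rw [HT_append, Dp_append] at h5
          refine ⟨hA, ?_, ?_⟩
          · simp only; omega
          · simp only; rw [← h5.2]; abel
        · rw [if_neg h5]; exact zero_le
      · rw [if_neg (fun h => hA h.2)]; exact zero_le
    · refine le_add_left ?_
      refine ENNReal.tsum_le_tsum fun A => ?_
      by_cases hA : fp ht (r - HT ht P) A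
      · rw [if_pos ⟨hP, hA⟩]
        by_cases h5 : HT ht (P ++ A) = r + x.1 ∧ Dp z (P ++ A) = x.2
        · rw [if_pos h5, if_pos ⟨⟨hP, by omega⟩, hA, h5⟩, LW_append]
        · rw [if_neg h5]; exact zero_le
      · rw [if_neg (fun h => hA h.2)]; exact zero_le
  · simp [hP]

/-- **smooth density of the first passage law** -/
theorem fl_dens (h1 : ∀ b, 1 ≤ ht b) (hΛ : ∑' b, Λ b = 1) (hU : ∀ n, U Λ ht n ≤ 1)
    (T i0 : ℕ) (u : ℝ≥0∞) (hu0 : u ≠ 0) (hu1 : u < 1) (N : ℕ) :
    ∃ th : ℝ≥0∞, th ≠ 0 ∧ th ≤ 1 ∧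
      (∑' x : ℕ × G, if fl Λ ht z T x < th then fl Λ ht z T x else 0) ≤ u ∧
      ∀ r, N * (T + i0) ≤ r → ∃ b : ℕ × G → ℝ≥0∞,
        (∑' x, b x ≤ (1 - u) ^ N + N * ep Λ ht i0) ∧
        ∀ x, fl Λ ht z r x ≤ N * ((i0 + 1 : ℕ) * th) + b x := by
  obtain ⟨th, h0, h2, h3, h4⟩ := Dens616.quantile (fl Λ ht z T) (fl_mass Λ ht z h1 hΛ T) hu0 hu1
  refine ⟨th, h0, h2, h3, ?_⟩
  refine dens2 (fl Λ ht z T) (fl Λ ht z) (ovl Λ ht z T i0) T i0 th (1 - u) (ep Λ ht i0)
    (fun r hr x => fl_rec Λ ht z h1 T i0 r hr x) (fun r _ => ovl_le Λ ht z h1 hΛ hU T i0 r)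
    (fun r => (fl_mass Λ ht z h1 hΛ r).le) ?_ tsub_le_self N
  have h5 : (∑' y : ℕ × G, if fl Λ ht z T y ≤ th then fl Λ ht z T y else 0)
      + ∑' y : ℕ × G, (if y.1 ≤ i0 ∧ th < fl Λ ht z T y then fl Λ ht z T y else 0) ≤ 1 := by
    rw [← ENNReal.tsum_add, ← fl_mass Λ ht z h1 hΛ T]
    refine ENNReal.tsum_le_tsum fun y => ?_
    by_cases h : fl Λ ht z T y ≤ th
    · rw [if_pos h, if_neg (fun h' => absurd h'.2 (not_lt.2 h)), add_zero]
    · rw [if_neg h, zero_add]
      split_ifs <;> simp
  refine ENNReal.le_sub_of_add_le_left (ne_top_of_lt hu1) ?_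
  exact (add_le_add h4 le_rfl).trans h5

end Crest.Agent.R154.Asm129
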