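import Crest.Agent.R154.MidB_562

/-! Row 154 (helper13): the local window lemma of the assembly (ROAD 801), on 562's lists. -/

set_option autoImplicit false

namespace Crest.Agent.R154.Asm13

open Crest.Agent.R154.B5A Crest.Agent.R154.Mid562
open scoped ENNReal Classical

variable {B B' G : Type*} [AddCommGroup G]
variable (Λ : B → ℝ≥0∞) (ht : B → ℕ) (z : B → G) (Λ' : B' → ℝ≥0∞) (ht' : B' → ℕ)

lemma FS_le_add {T : ℕ} (h1 : ∀ b, 1 ≤ ht b) (hΛ : ∑' b, Λ b = 1) (c : ℝ≥0∞)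
    {f g : List B → ℝ≥0∞} (h : ∀ A, FR ht T A → f A ≤ c + g A) :
    FS Λ ht T f ≤ c + FS Λ ht T g := by
  calc FS Λ ht T f ≤ FS Λ ht T (fun A => c + g A) := FS_mono Λ ht h
    _ = FS Λ ht T (fun _ => c) + FS Λ ht T g := FS_add Λ ht _ _
    _ = c + FS Λ ht T g := by rw [FS_const Λ ht h1 hΛ]

lemma FS_comm (T T' : ℕ) (F : List B → List B' → ℝ≥0∞) :
    FS Λ ht T (fun A => FS Λ' ht' T' (fun A' => F A A'))
      = FS Λ' ht' T' (fun A' => FS Λ ht T (fun A => F A A')) := by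
  have e1 : FS Λ ht T (fun A => FS Λ' ht' T' (fun A' => F A A'))
      = ∑' A : List B, ∑' A' : List B',
        (if FR ht T A ∧ FR ht' T' A' then LW Λ A * LW Λ' A' * F A A' else 0) := by
    simp only [FS]
    refine tsum_congr fun A => ?_
    by_cases hA : FR ht T A
    · rw [if_pos hA, ← ENNReal.tsum_mul_left]
      refine tsum_congr fun A' => ?_
      by_cases hA' : FR ht' T' A'
      · rw [if_pos hA', if_pos ⟨hA, hA'⟩, mul_assoc]
      · rw [if_neg hA', if_neg (fun h => hA' h.2), mul_zero]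
    · rw [if_neg hA]
      simp [hA]
  have e2 : FS Λ' ht' T' (fun A' => FS Λ ht T (fun A => F A A'))
      = ∑' A' : List B', ∑' A : List B,
        (if FR ht T A ∧ FR ht' T' A' then LW Λ A * LW Λ' A' * F A A' else 0) := by
    simp only [FS]
    refine tsum_congr fun A' => ?_
    by_cases hA' : FR ht' T' A'
    · rw [if_pos hA', ← ENNReal.tsum_mul_left]
      refine tsum_congr fun A => ?_
      by_cases hA : FR ht T A
      · rw [if_pos hA, if_pos ⟨hA, hA'⟩]; ring
      · rw [if_neg hA, if_neg (fun h => hA h.1), mul_zero]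
    · rw [if_neg hA']
      simp [hA']
  rw [e1, e2, ENNReal.tsum_comm]

lemma swap4 (s : Finset ℕ) (f : List B → List B' → ℕ → ℕ → ℝ≥0∞) :
    ∑ h ∈ s, ∑ h' ∈ s, ∑' P, ∑' P', f P P' h h' = ∑' P, ∑' P', ∑ h ∈ s, ∑ h' ∈ s, f P P' h h' := by
  have e : ∀ P, ∑' P', ∑ h ∈ s, ∑ h' ∈ s, f P P' h h' = ∑ h ∈ s, ∑ h' ∈ s, ∑' P', f P P' h h' := by
    intro P
    rw [Summable.tsum_finsetSum (fun _ _ => ENNReal.summable)]
    refine Finset.sum_congr rfl fun h _ => ?_
    rw [Summable.tsum_finsetSum (fun _ _ => ENNReal.summable)]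
  rw [tsum_congr e, Summable.tsum_finsetSum (fun _ _ => ENNReal.summable)]
  refine Finset.sum_congr rfl fun h _ => ?_
  rw [Summable.tsum_finsetSum (fun _ _ => ENNReal.summable)]

/-- **one walker smooth and local** -/
theorem locS (h1 : ∀ b, 1 ≤ ht b) (hΛ : ∑' b, Λ b = 1) (h1' : ∀ b, 1 ≤ ht' b)
    (hΛ' : ∑' b, Λ' b = 1)
    (α τ τ' i0 J : ℕ) (th v η : ℝ≥0∞) (hv : v ≤ 1)
    (huv : ∑' x, (if pl Λ ht z τ x ≤ 2 * th then 0 else pl Λ ht z τ x) ≤ v)
    (hJ : (τ + i0) * J ≤ α) (ev : ℕ → G → List B → List B' → Prop)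
    (hF : ∀ a, a ≤ i0 → ∀ h, h ≤ i0 → ∀ h', h' ≤ i0 → ∀ μ : G → ℝ≥0∞, ∑' x, μ x ≤ 1 →
      (∀ x, μ x ≤ (J : ℝ≥0∞) * ((i0 + 1 : ℕ) * (2 * th))) →
      ∑' x, μ x * ∑' P, ∑' P', (if HT ht P = τ + h ∧ HT ht' P' = τ' + h' ∧
        th ≤ pl Λ ht z τ (h, DG z P) ∧ ev a x P P' then LW Λ P * LW Λ' P' else 0) ≤ η) :
    FS Λ ht α (fun A => if HT ht A ≤ α + i0 then
      FS Λ ht τ (fun P => FS Λ' ht' τ' (fun P' => if HT ht P ≤ τ + i0 ∧ HT ht' P' ≤ τ' + i0 ∧
        th ≤ pl Λ ht z τ (HT ht P - τ, DG z P) ∧ ev (HT ht A - α) (DG z A) P P'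
        then 1 else 0)) else 0)
      ≤ (v ^ J + J * ep Λ ht i0) + ((i0 : ℝ≥0∞) + 1) ^ 3 * η := by
  have hsum : ∑ j ∈ Finset.range J, v ^ j ≤ (J : ℝ≥0∞) := by
    calc ∑ j ∈ Finset.range J, v ^ j ≤ ∑ j ∈ Finset.range J, (1 : ℝ≥0∞) :=
          Finset.sum_le_sum fun j _ => pow_le_one' hv j
      _ = J := by simp
  obtain ⟨D, hD1, hD2, hD3⟩ := dens Λ ht z h1 hΛ τ i0 th 0 v huv J α hJ
  set Φ : ℕ × G → ℝ≥0∞ := fun x => if x.1 ≤ i0 then
      FS Λ ht τ (fun P => FS Λ' ht' τ' (fun P' => if HT ht P ≤ τ + i0 ∧ HT ht' P' ≤ τ' + i0 ∧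
        th ≤ pl Λ ht z τ (HT ht P - τ, DG z P) ∧ ev x.1 x.2 P P' then 1 else 0)) else 0 with hΦ
  have hΦ1 : ∀ x, Φ x ≤ 1 := by
    intro x
    simp only [hΦ]
    split_ifs
    · refine FS_le_one Λ ht h1 hΛ τ fun P => FS_le_one Λ' ht' h1' hΛ' τ' fun P' => ?_
      split_ifs <;> simp
    · exact zero_le
  have e0 : FS Λ ht α (fun A => if HT ht A ≤ α + i0 then
      FS Λ ht τ (fun P => FS Λ' ht' τ' (fun P' => if HT ht P ≤ τ + i0 ∧ HT ht' P' ≤ τ' + i0 ∧
        th ≤ pl Λ ht z τ (HT ht P - τ, DG z P) ∧ ev (HT ht A - α) (DG z A) P P'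
        then 1 else 0)) else 0) ≤ FS Λ ht α (fun A => Φ (HT ht A - α, DG z A)) := by
    refine FS_mono Λ ht fun A hA => ?_
    simp only [hΦ]
    by_cases hh : HT ht A ≤ α + i0
    · rw [if_pos hh, if_pos (by omega)]
    · rw [if_neg hh]; exact zero_le
  refine (e0.trans (hD3 Φ hΦ1)).trans ?_
  refine add_le_add (add_le_add le_rfl (mul_le_mul_left hsum _)) ?_
  -- the smooth part
  set K : ℕ → ℕ → ℕ → G → ℝ≥0∞ := fun a h h' x => ∑' P, ∑' P', (if HT ht P = τ + h ∧
        HT ht' P' = τ' + h' ∧ th ≤ pl Λ ht z τ (h, DG z P) ∧ ev a x P P'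
        then LW Λ P * LW Λ' P' else 0) with hK
  have hΦK : ∀ a x, a ≤ i0 → Φ (a, x) ≤ ∑ h ∈ Finset.range (i0 + 1),
      ∑ h' ∈ Finset.range (i0 + 1), K a h h' x := by
    intro a x ha
    simp only [hΦ]
    rw [if_pos ha]
    have e1 : ∑ h ∈ Finset.range (i0 + 1), ∑ h' ∈ Finset.range (i0 + 1), K a h h' x
        = ∑' P, ∑' P', ∑ h ∈ Finset.range (i0 + 1), ∑ h' ∈ Finset.range (i0 + 1),
          (if HT ht P = τ + h ∧ HT ht' P' = τ' + h' ∧ th ≤ pl Λ ht z τ (h, DG z P) ∧ ev a x P P'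
            then LW Λ P * LW Λ' P' else 0) := by
      simp only [hK]
      exact swap4 _ _
    rw [e1]
    unfold FS
    refine ENNReal.tsum_le_tsum fun P => ?_
    by_cases hP : FR ht τ P
    · rw [if_pos hP, ← ENNReal.tsum_mul_left]
      refine ENNReal.tsum_le_tsum fun P' => ?_
      by_cases hP' : FR ht' τ' P'
      · rw [if_pos hP']
        by_cases hc : HT ht P ≤ τ + i0 ∧ HT ht' P' ≤ τ' + i0 ∧
            th ≤ pl Λ ht z τ (HT ht P - τ, DG z P) ∧ ev a x P P'
        · beta_reduce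
          rw [if_pos hc, mul_one]
          have hle := FR_le ht h1 hP
          have hle' := FR_le ht' h1' hP'
          refine le_trans ?_ (Finset.single_le_sum (fun _ _ => zero_le)
            (Finset.mem_range.2 (show HT ht P - τ < i0 + 1 by omega)))
          refine le_trans ?_ (Finset.single_le_sum (fun _ _ => zero_le)
            (Finset.mem_range.2 (show HT ht' P' - τ' < i0 + 1 by omega)))
          rw [if_pos ⟨by omega, by omega, hc.2.2.1, hc.2.2.2⟩]
        · beta_reduce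
          rw [if_neg hc, mul_zero, mul_zero]; exact zero_le
      · rw [if_neg hP', mul_zero]; exact zero_le
    · rw [if_neg hP]; exact zero_le
  have hDa : ∀ a, a ≤ i0 → ∑' x, D (a, x) * Φ (a, x) ≤ ((i0 : ℝ≥0∞) + 1) ^ 2 * η := by
    intro a ha
    have hμ1 : ∑' x, D (a, x) ≤ 1 := by
      refine le_trans ?_ hD2
      exact ENNReal.tsum_comp_le_tsum_of_injective (f := fun x : G => (a, x))
        (fun x y h => (Prod.mk.inj h).2) D
    have hμM : ∀ x, D (a, x) ≤ (J : ℝ≥0∞) * ((i0 + 1 : ℕ) * (2 * th)) := fun x =>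
      (hD1 (a, x)).trans (mul_le_mul_left hsum _)
    calc ∑' x, D (a, x) * Φ (a, x)
        ≤ ∑' x, D (a, x) * (∑ h ∈ Finset.range (i0 + 1),
            ∑ h' ∈ Finset.range (i0 + 1), K a h h' x) :=
          ENNReal.tsum_le_tsum fun x => mul_le_mul_right (hΦK a x ha) _
      _ = ∑' x, ∑ h ∈ Finset.range (i0 + 1), ∑ h' ∈ Finset.range (i0 + 1),
            D (a, x) * K a h h' x := by
          refine tsum_congr fun x => ?_
          rw [Finset.mul_sum]
          exact Finset.sum_congr rfl fun h _ => Finset.mul_sum _ _ _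
      _ = ∑ h ∈ Finset.range (i0 + 1), ∑ h' ∈ Finset.range (i0 + 1),
            ∑' x, D (a, x) * K a h h' x := by
          rw [Summable.tsum_finsetSum (fun _ _ => ENNReal.summable)]
          refine Finset.sum_congr rfl fun h _ => ?_
          rw [Summable.tsum_finsetSum (fun _ _ => ENNReal.summable)]
      _ ≤ ∑ h ∈ Finset.range (i0 + 1), ∑ h' ∈ Finset.range (i0 + 1), η := by
          refine Finset.sum_le_sum fun h hh => Finset.sum_le_sum fun h' hh' => ?_
          exact hF a ha h (by have := Finset.mem_range.1 hh; omega) h'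
            (by have := Finset.mem_range.1 hh'; omega) (fun x => D (a, x)) hμ1 hμM
      _ = _ := by
          simp only [Finset.sum_const, Finset.card_range, nsmul_eq_mul]
          push_cast
          ring
  calc ∑' x, D x * Φ x = ∑' a, ∑' x, D (a, x) * Φ (a, x) := ENNReal.tsum_prod'
    _ ≤ ∑' a, (if a ∈ Finset.range (i0 + 1) then ((i0 : ℝ≥0∞) + 1) ^ 2 * η else 0) := by
        refine ENNReal.tsum_le_tsum fun a => ?_
        by_cases ha : a ≤ i0
        · rw [if_pos (Finset.mem_range.2 (by omega))]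
          exact hDa a ha
        · rw [if_neg (fun h => ha (by have := Finset.mem_range.1 h; omega))]
          have : ∀ x, D (a, x) * Φ (a, x) = 0 := by
            intro x
            simp only [hΦ]
            rw [if_neg ha, mul_zero]
          simp [this]
    _ = ∑ a ∈ Finset.range (i0 + 1), ((i0 : ℝ≥0∞) + 1) ^ 2 * η := by
        rw [tsum_eq_sum (s := Finset.range (i0 + 1))]
        · exact Finset.sum_congr rfl fun a ha => if_pos ha
        · intro a ha; exact if_neg ha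
    _ = _ := by
        simp only [Finset.sum_const, Finset.card_range, nsmul_eq_mul]
        push_cast
        ring

end Crest.Agent.R154.Asm13
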