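import Crest.Agent.R154.FP_178

/-! Row 154, ROAD 801 (helper15): labelled density lemma and the decomposition of the list of height
`n` at two first passages. -/

set_option autoImplicit false

namespace Crest.Agent.R154.Asm15

open scoped ENNReal Classical
open Finset
open Crest.Agent.R154.B5A Crest.Agent.R154.FP178

/-! ### labelled smooth density -/

section dens

variable {ι V : Type*} [AddCommGroup V]

lemma tsum_sub (f : V → ℝ≥0∞) (z : V) : ∑' z', f (z - z') = ∑' z', f z' :=
  (Equiv.subLeft z).tsum_eq f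

lemma tsum_conv2 (g : V → ℝ≥0∞) (f : ι → V → ℝ≥0∞) :
    ∑' l, ∑' z, ∑' z', g z' * f l (z - z') = (∑' z', g z') * ∑' l, ∑' z, f l z := by
  rw [← ENNReal.tsum_mul_left]
  refine tsum_congr fun l => ?_
  rw [ENNReal.tsum_comm, ← ENNReal.tsum_mul_right]
  refine tsum_congr fun z' => ?_
  rw [ENNReal.tsum_mul_left]
  congr 1
  exact (Equiv.subRight z').tsum_eq (f l)

theorem dens (U : ℕ → ι → V → ℝ≥0∞) (p : ℕ → V → ℝ≥0∞) (s i0 : ℕ) (th q ε : ℝ≥0∞)
    (hU : ∀ h, s + i0 ≤ h → ∃ F : ι → V → ℝ≥0∞, ∑' l, ∑' z, F l z ≤ ε ∧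
      ∀ l z, U h l z ≤ F l z
        + ∑ i ∈ range (i0 + 1), ∑' z', p i z' * U (h - s - i) l (z - z'))
    (hU1 : ∀ h, ∑' l, ∑' z, U h l z ≤ 1)
    (hNG : ∑ i ∈ range (i0 + 1), ∑' z, (if th < p i z then p i z else 0) ≤ q) (J : ℕ) :
    ∀ h, J * (s + i0) ≤ h → ∃ g b : ι → V → ℝ≥0∞, (∀ l z, U h l z ≤ g l z + b l z) ∧
      (∀ l z, g l z ≤ (i0 + 1) * th * ∑ j ∈ range J, q ^ j) ∧
      ∑' l, ∑' z, b l z ≤ q ^ J + ε * ∑ j ∈ range J, q ^ j := by
  induction J with
  | zero =>
    intro h _
    refine ⟨fun _ _ => 0, U h, fun l z => by simp, fun l z => by simp, ?_⟩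
    simpa using hU1 h
  | succ J ih =>
    intro h hh
    have e0 : (J + 1) * (s + i0) = J * (s + i0) + (s + i0) := by ring
    have hs : s + i0 ≤ h := by
      have := Nat.zero_le (J * (s + i0))
      omega
    obtain ⟨F, hF1, hF2⟩ := hU h hs
    have hch : ∀ i, ∃ g b : ι → V → ℝ≥0∞, i ∈ range (i0 + 1) →
        (∀ l z, U (h - s - i) l z ≤ g l z + b l z) ∧
        (∀ l z, g l z ≤ (i0 + 1) * th * ∑ j ∈ range J, q ^ j) ∧
        ∑' l, ∑' z, b l z ≤ q ^ J + ε * ∑ j ∈ range J, q ^ j := by
      intro i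
      by_cases hi : i ∈ range (i0 + 1)
      · have := mem_range.1 hi
        obtain ⟨g, b, hgb⟩ := ih (h - s - i) (by omega)
        exact ⟨g, b, fun _ => hgb⟩
      · exact ⟨0, 0, fun h => absurd h hi⟩
    choose g b hgb using hch
    set pl : ℕ → V → ℝ≥0∞ := fun i z => if th < p i z then 0 else p i z with hpl
    set ph : ℕ → V → ℝ≥0∞ := fun i z => if th < p i z then p i z else 0 with hph
    have hp : ∀ i z, p i z = pl i z + ph i z := by
      intro i z
      simp only [hpl, hph]
      split_ifs <;> simp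
    have hplt : ∀ i z, pl i z ≤ th := by
      intro i z
      simp only [hpl]
      split_ifs with h
      · exact zero_le
      · exact not_lt.1 h
    have hq : ∑ j ∈ range (J + 1), q ^ j = 1 + q * ∑ j ∈ range J, q ^ j := by
      rw [Finset.sum_range_succ', Finset.mul_sum, add_comm]
      simp [pow_succ, mul_comm]
    refine ⟨fun l z => ∑ i ∈ range (i0 + 1), (∑' z', pl i z' * U (h - s - i) l (z - z')
        + ∑' z', ph i z' * g i l (z - z')),
      fun l z => F l z + ∑ i ∈ range (i0 + 1), ∑' z', ph i z' * b i l (z - z'), ?_, ?_, ?_⟩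
    · intro l z
      refine (hF2 l z).trans ?_
      simp only []
      rw [add_left_comm, ← sum_add_distrib]
      refine add_le_add le_rfl ?_
      refine sum_le_sum fun i hi => ?_
      rw [← ENNReal.tsum_add, ← ENNReal.tsum_add]
      refine ENNReal.tsum_le_tsum fun z' => ?_
      rw [hp i z', add_mul, add_assoc, ← mul_add]
      exact add_le_add le_rfl (mul_le_mul_right ((hgb i hi).1 l _) _)
    · intro l z
      simp only []
      rw [hq, mul_add, mul_one, sum_add_distrib]
      refine add_le_add ?_ ?_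
      · calc _ ≤ ∑ i ∈ range (i0 + 1), th := by
              refine sum_le_sum fun i _ => ?_
              calc ∑' z', pl i z' * U (h - s - i) l (z - z')
                  ≤ ∑' z', th * U (h - s - i) l (z - z') :=
                    ENNReal.tsum_le_tsum fun z' => mul_le_mul_left (hplt i z') _
                _ = th * ∑' z', U (h - s - i) l z' := by rw [ENNReal.tsum_mul_left, tsum_sub]
                _ ≤ th * 1 := mul_le_mul_right ((ENNReal.le_tsum l).trans (hU1 _)) _
                _ = th := mul_one _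
          _ = (i0 + 1) * th := by simp
      · calc _ ≤ ∑ i ∈ range (i0 + 1), (∑' z', ph i z')
                * ((i0 + 1) * th * ∑ j ∈ range J, q ^ j) := by
              refine sum_le_sum fun i hi => ?_
              rw [← ENNReal.tsum_mul_right]
              exact ENNReal.tsum_le_tsum fun z' => mul_le_mul_right ((hgb i hi).2.1 l _) _
          _ = (∑ i ∈ range (i0 + 1), ∑' z', ph i z')
                * ((i0 + 1) * th * ∑ j ∈ range J, q ^ j) := by rw [sum_mul]
          _ ≤ q * ((i0 + 1) * th * ∑ j ∈ range J, q ^ j) := mul_le_mul_left hNG _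
          _ = _ := by ring
    · have e1 : q ^ (J + 1) + ε * ∑ j ∈ range (J + 1), q ^ j
          = ε + q * (q ^ J + ε * ∑ j ∈ range J, q ^ j) := by
        rw [hq]
        ring
      rw [e1]
      simp_rw [ENNReal.tsum_add]
      refine add_le_add hF1 ?_
      have e2 : ∑' l, ∑' z, ∑ i ∈ range (i0 + 1), ∑' z', ph i z' * b i l (z - z')
          = ∑ i ∈ range (i0 + 1), ∑' l, ∑' z, ∑' z', ph i z' * b i l (z - z') := by
        rw [← Summable.tsum_finsetSum (fun _ _ => ENNReal.summable)]
        refine tsum_congr fun l => ?_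
        rw [← Summable.tsum_finsetSum (fun _ _ => ENNReal.summable)]
      rw [e2]
      calc _ ≤ ∑ i ∈ range (i0 + 1), (∑' z', ph i z')
              * (q ^ J + ε * ∑ j ∈ range J, q ^ j) := by
            refine sum_le_sum fun i hi => ?_
            rw [tsum_conv2]
            exact mul_le_mul_right (hgb i hi).2.2 _
        _ = (∑ i ∈ range (i0 + 1), ∑' z', ph i z')
              * (q ^ J + ε * ∑ j ∈ range J, q ^ j) := by rw [sum_mul]
        _ ≤ _ := mul_le_mul_left hNG _

end dens

/-! ### one system of blocks -/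

section one

variable {B : Type*} (Λ : B → ℝ≥0∞) (ht : B → ℕ)

lemma exists_fp (h1 : ∀ b, 1 ≤ ht b) (a : ℕ) (L : List B) (h : a ≤ HT ht L) :
    ∃ L1 L2, L = L1 ++ L2 ∧ fp ht a L1 := by
  induction L generalizing a with
  | nil =>
    rw [HT_nil] at h
    exact ⟨[], [], rfl, by rw [fp_nil]; omega⟩
  | cons b L ih =>
    rcases Nat.eq_zero_or_pos a with rfl | ha
    · exact ⟨[], b :: L, rfl, rfl⟩
    · rw [HT_cons] at h
      obtain ⟨L1, L2, e, hf⟩ := ih (a - ht b) (by omega)
      exact ⟨b :: L1, L2, by rw [e]; rfl, ⟨ha, hf⟩⟩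

/-- sum over the last part -/
lemma rest_le (hU1 : ∀ n, U Λ ht n ≤ 1) (n k : ℕ) (f : List B → ℝ≥0∞) (c : ℝ≥0∞)
    (hf : ∀ L, k + HT ht L = n → f L ≤ c) :
    ∑' L, LW Λ L * (if k + HT ht L = n then f L else 0) ≤ c := by
  calc _ ≤ ∑' L, c * (if HT ht L = n - k then LW Λ L else 0) := by
        refine ENNReal.tsum_le_tsum fun L => ?_
        by_cases h : k + HT ht L = n
        · rw [if_pos h, if_pos (by omega), mul_comm]
          exact mul_le_mul_left (hf L h) _
        · rw [if_neg h, mul_zero]; exact zero_le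
    _ = c * U Λ ht (n - k) := by rw [ENNReal.tsum_mul_left, U]
    _ ≤ c * 1 := mul_le_mul_right (hU1 _) _
    _ = c := mul_one c

/-- the decomposition of a list of height `n` at two first passages. -/
theorem two_fp (h1 : ∀ b, 1 ≤ ht b) (hΛ : ∑' b, Λ b ≤ 1) (hU1 : ∀ n, U Λ ht n ≤ 1)
    (α τ i0 n : ℕ) (hn : α + i0 + τ ≤ n) (ov : ℝ≥0∞)
    (hov : ∀ a, ∑' L, (if fp ht a L ∧ a + i0 < HT ht L then LW Λ L else 0) ≤ ov)
    (f : List B → ℝ≥0∞) (hf1 : ∀ L, f L ≤ 1) (g : List B → List B → ℝ≥0∞)
    (hg : ∀ L0 L1 L2, fp ht α L0 → HT ht L0 ≤ α + i0 → fp ht τ L1 → HT ht L1 ≤ τ + i0 →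
      HT ht (L0 ++ (L1 ++ L2)) = n → f (L0 ++ (L1 ++ L2)) ≤ g L0 L1) :
    ∑' L, (if HT ht L = n then LW Λ L * f L else 0)
      ≤ 2 * ov + ∑' L0, ∑' L1, (if fp ht α L0 ∧ HT ht L0 ≤ α + i0 ∧ fp ht τ L1 ∧
          HT ht L1 ≤ τ + i0 then LW Λ L0 * LW Λ L1 * g L0 L1 else 0) := by
  have e1 : ∑' L, (if HT ht L = n then LW Λ L * f L else 0)
      = ∑' L, (if α ≤ HT ht L then LW Λ L * (if HT ht L = n then f L else 0) else 0) := by
    refine tsum_congr fun L => ?_
    by_cases h : HT ht L = n
    · rw [if_pos h, if_pos (by omega), if_pos h]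
    · rw [if_neg h, if_neg h]; simp
  rw [e1, split Λ ht h1 α (fun L => if HT ht L = n then f L else 0)]
  have key : ∀ L0, (if fp ht α L0 then LW Λ L0 * ∑' L2, LW Λ L2 *
        (if HT ht (L0 ++ L2) = n then f (L0 ++ L2) else 0) else 0)
      ≤ (if fp ht α L0 ∧ α + i0 < HT ht L0 then LW Λ L0 else 0)
        + ((if fp ht α L0 then LW Λ L0 else 0) * ov
        + ∑' L1, (if fp ht α L0 ∧ HT ht L0 ≤ α + i0 ∧ fp ht τ L1 ∧
          HT ht L1 ≤ τ + i0 then LW Λ L0 * LW Λ L1 * g L0 L1 else 0)) := by
    intro L0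
    by_cases h0 : fp ht α L0
    · rw [if_pos h0]
      by_cases hh : α + i0 < HT ht L0
      · rw [if_pos ⟨h0, hh⟩]
        refine le_trans ?_ le_self_add
        calc _ ≤ LW Λ L0 * 1 := by
              refine mul_le_mul_right ?_ _
              simp_rw [HT_append]
              exact rest_le Λ ht hU1 n (HT ht L0) (fun L2 => f (L0 ++ L2)) 1
                (fun L _ => hf1 _)
          _ = _ := mul_one _
      · rw [if_neg (fun h => hh h.2), zero_add, if_pos h0]
        have hh' : HT ht L0 ≤ α + i0 := not_lt.1 hh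
        have e2 : ∑' L2, LW Λ L2 * (if HT ht (L0 ++ L2) = n then f (L0 ++ L2) else 0)
            = ∑' L2, (if τ ≤ HT ht L2 then LW Λ L2 *
                (if HT ht (L0 ++ L2) = n then f (L0 ++ L2) else 0) else 0) := by
          refine tsum_congr fun L2 => ?_
          by_cases h2 : τ ≤ HT ht L2
          · rw [if_pos h2]
          · rw [if_neg h2, if_neg (by rw [HT_append]; omega), mul_zero]
        rw [e2, split Λ ht h1 τ (fun L2 => if HT ht (L0 ++ L2) = n then f (L0 ++ L2) else 0)]
        rw [← mul_comm ov, mul_comm ov, ← ENNReal.tsum_mul_left]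
        calc _ ≤ ∑' L1, (LW Λ L0 * (if fp ht τ L1 ∧ τ + i0 < HT ht L1 then LW Λ L1 else 0)
              + (if fp ht α L0 ∧ HT ht L0 ≤ α + i0 ∧ fp ht τ L1 ∧
                HT ht L1 ≤ τ + i0 then LW Λ L0 * LW Λ L1 * g L0 L1 else 0)) := by
              refine ENNReal.tsum_le_tsum fun L1 => ?_
              by_cases h3 : fp ht τ L1
              · rw [if_pos h3]
                by_cases h4 : τ + i0 < HT ht L1
                · rw [if_pos ⟨h3, h4⟩]
                  refine le_trans ?_ le_self_add
                  refine mul_le_mul_right ?_ _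
                  calc _ ≤ LW Λ L1 * 1 := by
                        refine mul_le_mul_right ?_ _
                        simp_rw [HT_append]
                        simp_rw [← add_assoc]
                        exact rest_le Λ ht hU1 n (HT ht L0 + HT ht L1)
                          (fun L2 => f (L0 ++ (L1 ++ L2))) 1 (fun L _ => hf1 _)
                    _ = _ := mul_one _
                · rw [if_neg (fun h => h4 h.2), mul_zero, zero_add,
                    if_pos ⟨h0, hh', h3, not_lt.1 h4⟩, mul_assoc]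
                  refine mul_le_mul_right (mul_le_mul_right ?_ _) _
                  simp_rw [HT_append]
                  simp_rw [← add_assoc]
                  refine rest_le Λ ht hU1 n (HT ht L0 + HT ht L1)
                    (fun L2 => f (L0 ++ (L1 ++ L2))) _ (fun L hL => ?_)
                  exact hg L0 L1 L h0 hh' h3 (not_lt.1 h4)
                    (by rw [HT_append, HT_append]; omega)
              · rw [if_neg h3, mul_zero]; exact zero_le
          _ = LW Λ L0 * ∑' L1, (if fp ht τ L1 ∧ τ + i0 < HT ht L1 then LW Λ L1 else 0) + _ := by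
              rw [ENNReal.tsum_add, ENNReal.tsum_mul_left]
          _ ≤ _ := add_le_add (mul_le_mul_right (hov τ) _) le_rfl
    · rw [if_neg h0]; exact zero_le
  refine (ENNReal.tsum_le_tsum key).trans ?_
  rw [ENNReal.tsum_add, ENNReal.tsum_add, ENNReal.tsum_mul_right, ← add_assoc]
  refine add_le_add ?_ le_rfl
  rw [two_mul]
  refine add_le_add (hov α) ?_
  calc _ ≤ 1 * ov := mul_le_mul_left (sum_FP Λ ht h1 hΛ α) _
    _ = ov := one_mul ov

end one

end Crest.Agent.R154.Asm15
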