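import Crest.Agent.R154.B5Abs_566

/-! Row 154, ROAD 801 (helper151): first passage functional on block lists. -/

set_option autoImplicit false

namespace Crest.Agent.R154.X151

open scoped ENNReal
open Crest.Agent.R154.B5A

variable {B : Type*} (Λ : B → ℝ≥0∞) (ht : B → ℕ)

/-- the list `L` is the first passage over height `a` -/
def FP : ℕ → List B → Prop
  | a, [] => a = 0
  | a, b :: L => 0 < a ∧ FP (a - ht b) L

lemma FP_le (L : List B) : ∀ a, FP ht a L → a ≤ HT ht L := by
  induction L with
  | nil => intro a h; simp only [FP] at h; omega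
  | cons b L ih =>
    intro a h
    have := ih _ h.2
    rw [HT_cons]; omega

open Classical in
/-- first passage functional -/
noncomputable def FPE (a : ℕ) (f : List B → ℝ≥0∞) : ℝ≥0∞ :=
  ∑' L : List B, if FP ht a L then LW Λ L * f L else 0

lemma FPE_zero (f : List B → ℝ≥0∞) : FPE Λ ht 0 f = f [] := by
  rw [FPE, tsum_list]
  simp [FP, LW_nil]

lemma FPE_pos (a : ℕ) (ha : 0 < a) (f : List B → ℝ≥0∞) :
    FPE Λ ht a f = ∑' b, Λ b * FPE Λ ht (a - ht b) (fun L => f (b :: L)) := by
  rw [FPE, tsum_list]
  have h0 : ¬ FP ht a ([] : List B) := by simp only [FP]; omega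
  rw [if_neg h0, zero_add]
  refine tsum_congr fun b => ?_
  rw [FPE, ← ENNReal.tsum_mul_left]
  refine tsum_congr fun L => ?_
  by_cases h : FP ht (a - ht b) L
  · have h' : FP ht a (b :: L) := ⟨ha, h⟩
    rw [if_pos h, if_pos h', LW_cons, mul_assoc]
  · have h' : ¬ FP ht a (b :: L) := fun hh => h hh.2
    rw [if_neg h, if_neg h', mul_zero]

lemma FPE_mono (a : ℕ) {f g : List B → ℝ≥0∞} (h : ∀ L, a ≤ HT ht L → f L ≤ g L) :
    FPE Λ ht a f ≤ FPE Λ ht a g := by
  refine ENNReal.tsum_le_tsum fun L => ?_
  by_cases hL : FP ht a L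
  · simp only [hL, if_true]; exact mul_le_mul_right (h L (FP_le ht L a hL)) _
  · simp [hL]

lemma FPE_congr (a : ℕ) {f g : List B → ℝ≥0∞} (h : ∀ L, a ≤ HT ht L → f L = g L) :
    FPE Λ ht a f = FPE Λ ht a g :=
  le_antisymm (FPE_mono Λ ht a fun L hL => (h L hL).le) (FPE_mono Λ ht a fun L hL => (h L hL).ge)

lemma FPE_add (a : ℕ) (f g : List B → ℝ≥0∞) :
    FPE Λ ht a (fun L => f L + g L) = FPE Λ ht a f + FPE Λ ht a g := by
  rw [FPE, FPE, FPE, ← ENNReal.tsum_add]
  refine tsum_congr fun L => ?_
  split_ifs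
  · rw [mul_add]
  · simp

lemma FPE_mul (a : ℕ) (c : ℝ≥0∞) (f : List B → ℝ≥0∞) :
    FPE Λ ht a (fun L => c * f L) = c * FPE Λ ht a f := by
  rw [FPE, FPE, ← ENNReal.tsum_mul_left]
  refine tsum_congr fun L => ?_
  split_ifs
  · rw [mul_left_comm]
  · simp

lemma FPE_tsum {ι : Type*} (a : ℕ) (f : ι → List B → ℝ≥0∞) :
    FPE Λ ht a (fun L => ∑' i, f i L) = ∑' i, FPE Λ ht a (f i) := by
  simp only [FPE]
  rw [ENNReal.tsum_comm]
  refine tsum_congr fun L => ?_
  split_ifs
  · rw [ENNReal.tsum_mul_left]
  · simp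

open Classical in
lemma FPE_comm {B' : Type*} (Λ' : B' → ℝ≥0∞) (ht' : B' → ℕ) (a a' : ℕ)
    (f : List B → List B' → ℝ≥0∞) :
    FPE Λ ht a (fun L => FPE Λ' ht' a' (fun L' => f L L'))
      = FPE Λ' ht' a' (fun L' => FPE Λ ht a (fun L => f L L')) := by
  simp only [FPE]
  have e1 : ∀ L : List B, (if FP ht a L then LW Λ L * ∑' L' : List B',
      (if FP ht' a' L' then LW Λ' L' * f L L' else 0) else 0)
      = ∑' L' : List B', (if FP ht a L ∧ FP ht' a' L' then LW Λ L * (LW Λ' L' * f L L') else 0) := by
    intro L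
    by_cases h : FP ht a L
    · rw [if_pos h, ← ENNReal.tsum_mul_left]
      refine tsum_congr fun L' => ?_
      by_cases h' : FP ht' a' L' <;> simp [h, h']
    · simp [h]
  have e2 : ∀ L' : List B', (if FP ht' a' L' then LW Λ' L' * ∑' L : List B,
      (if FP ht a L then LW Λ L * f L L' else 0) else 0)
      = ∑' L : List B, (if FP ht a L ∧ FP ht' a' L' then LW Λ L * (LW Λ' L' * f L L') else 0) := by
    intro L'
    by_cases h' : FP ht' a' L'
    · rw [if_pos h', ← ENNReal.tsum_mul_left]
      refine tsum_congr fun L => ?_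
      by_cases h : FP ht a L
      · simp [h, h', mul_left_comm]
      · simp [h]
    · simp [h']
  simp_rw [e1, e2]
  rw [ENNReal.tsum_comm]

variable (h1 : ∀ b, 1 ≤ ht b)
include h1

lemma FPE_one (hΛ : ∑' b, Λ b = 1) (a : ℕ) : FPE Λ ht a (fun _ => 1) = 1 := by
  induction a using Nat.strong_induction_on with
  | _ a ih =>
    rcases Nat.eq_zero_or_pos a with rfl | ha
    · rw [FPE_zero]
    · rw [FPE_pos Λ ht a ha]
      refine Eq.trans (tsum_congr fun b => ?_) hΛ
      rw [ih _ (by have := h1 b; omega), mul_one]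

lemma FPE_const (hΛ : ∑' b, Λ b = 1) (a : ℕ) (c : ℝ≥0∞) : FPE Λ ht a (fun _ => c) = c := by
  have := FPE_mul Λ ht a c (fun _ => 1)
  rw [FPE_one Λ ht h1 hΛ] at this
  simpa using this

lemma FPE_le_one (hΛ : ∑' b, Λ b = 1) (a : ℕ) (f : List B → ℝ≥0∞)
    (hf : ∀ L, a ≤ HT ht L → f L ≤ 1) : FPE Λ ht a f ≤ 1 :=
  (FPE_mono Λ ht a hf).trans (FPE_one Λ ht h1 hΛ a).le

open Classical in
/-- splitting at the first passage -/
lemma split (a : ℕ) (f : List B → ℝ≥0∞) :
    ∑' L : List B, (if a ≤ HT ht L then LW Λ L * f L else 0)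
      = FPE Λ ht a (fun L1 => ∑' L2, LW Λ L2 * f (L1 ++ L2)) := by
  induction a using Nat.strong_induction_on generalizing f with
  | _ a ih =>
    rcases Nat.eq_zero_or_pos a with rfl | ha
    · rw [FPE_zero]; simp
    · rw [FPE_pos Λ ht a ha, tsum_list, if_neg (by rw [HT_nil]; omega), zero_add]
      refine tsum_congr fun b => ?_
      have := ih (a - ht b) (by have := h1 b; omega) (fun L => f (b :: L))
      simp only [List.cons_append]
      rw [← this, ← ENNReal.tsum_mul_left]
      refine tsum_congr fun L => ?_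
      rw [HT_cons, LW_cons]
      by_cases h : a ≤ ht b + HT ht L
      · rw [if_pos h, if_pos (by omega), mul_assoc]
      · rw [if_neg h, if_neg (by omega), mul_zero]

/-- Markov property of the first passages -/
lemma markov (l T : ℕ) (hl : l ≤ T) (f : List B → ℝ≥0∞) :
    FPE Λ ht T f = FPE Λ ht l (fun P => FPE Λ ht (T - HT ht P) (fun L => f (P ++ L))) := by
  induction l using Nat.strong_induction_on generalizing T f with
  | _ l ih =>
    rcases Nat.eq_zero_or_pos l with rfl | hl0
    · rw [FPE_zero]; simp [HT_nil]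
    · rw [FPE_pos Λ ht T (by omega), FPE_pos Λ ht l hl0]
      refine tsum_congr fun b => ?_
      rw [ih (l - ht b) (by have := h1 b; omega) (T - ht b) (by omega)]
      congr 1
      refine FPE_congr Λ ht _ fun P _ => ?_
      rw [HT_cons, Nat.sub_sub]
      rfl

omit h1 in
open Classical in
lemma FPE_le_sum (a : ℕ) (f : List B → ℝ≥0∞) :
    FPE Λ ht a f ≤ ∑' L : List B, (if a ≤ HT ht L then LW Λ L * f L else 0) := by
  refine ENNReal.tsum_le_tsum fun L => ?_
  by_cases h : FP ht a L
  · rw [if_pos h, if_pos (FP_le ht L a h)]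
  · rw [if_neg h]; exact zero_le

open Classical in
/-- overshoot identity -/
lemma over_eq (i a : ℕ) :
    FPE Λ ht a (fun L => if a + i < HT ht L then 1 else 0)
      = ∑' L : List B, (if HT ht L < a then LW Λ L * tail Λ ht (a + i - HT ht L) else 0) := by
  induction a using Nat.strong_induction_on with
  | _ a ih =>
    rcases Nat.eq_zero_or_pos a with rfl | ha
    · rw [FPE_zero, HT_nil]; simp
    · rw [FPE_pos Λ ht a ha, tsum_list, if_pos (by rw [HT_nil]; omega), HT_nil, LW_nil, one_mul,
        Nat.sub_zero, tail, ← ENNReal.tsum_add]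
      refine tsum_congr fun b => ?_
      rcases Nat.lt_or_ge (ht b) a with hb | hb
      · have e : FPE Λ ht (a - ht b) (fun L => if a + i < HT ht (b :: L) then (1 : ℝ≥0∞) else 0)
            = FPE Λ ht (a - ht b) (fun L => if (a - ht b) + i < HT ht L then 1 else 0) := by
          refine FPE_congr Λ ht _ fun L _ => ?_
          rw [HT_cons]
          exact if_congr (by omega) rfl rfl
        rw [e, ih (a - ht b) (by have := h1 b; omega), if_neg (by omega), zero_add,
          ← ENNReal.tsum_mul_left]
        refine tsum_congr fun L => ?_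
        rw [HT_cons, LW_cons]
        by_cases h : HT ht L < a - ht b
        · rw [if_pos h, if_pos (by omega), mul_assoc,
            show a + i - (ht b + HT ht L) = a - ht b + i - HT ht L by omega]
        · rw [if_neg h, if_neg (by omega), mul_zero]
      · rw [show a - ht b = 0 by omega, FPE_zero, HT_cons, HT_nil, add_zero]
        have : ∀ L : List B, (if HT ht (b :: L) < a then
            LW Λ (b :: L) * tail Λ ht (a + i - HT ht (b :: L)) else 0) = 0 := fun L => by
          rw [if_neg (by rw [HT_cons]; omega)]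
        simp_rw [this]
        rw [tsum_zero, add_zero]
        split_ifs <;> simp

open Classical in
lemma over_le (hU1 : ∀ n, U Λ ht n ≤ 1) (i a : ℕ) :
    FPE Λ ht a (fun L => if a + i < HT ht L then 1 else 0) ≤ ∑' k, tail Λ ht (k + i) := by
  rw [over_eq Λ ht h1]
  calc ∑' L : List B, (if HT ht L < a then LW Λ L * tail Λ ht (a + i - HT ht L) else 0)
      = ∑' L : List B, ∑ j ∈ Finset.range a,
          (if HT ht L = j then LW Λ L else 0) * tail Λ ht (a + i - j) := by
        refine tsum_congr fun L => ?_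
        by_cases h : HT ht L < a
        · rw [if_pos h, Finset.sum_eq_single (HT ht L)]
          · simp
          · intro j _ hj; rw [if_neg hj.symm, zero_mul]
          · intro hh; exact absurd (Finset.mem_range.2 h) hh
        · rw [if_neg h, Finset.sum_eq_zero]
          intro j hj
          rw [if_neg (by have := Finset.mem_range.1 hj; omega), zero_mul]
    _ = ∑ j ∈ Finset.range a, U Λ ht j * tail Λ ht (a + i - j) := by
        rw [Summable.tsum_finsetSum (fun _ _ => ENNReal.summable)]
        refine Finset.sum_congr rfl fun j _ => ?_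
        rw [ENNReal.tsum_mul_right, U]
    _ ≤ ∑ j ∈ Finset.range a, tail Λ ht ((a - j) + i) := by
        refine Finset.sum_le_sum fun j hj => ?_
        rw [show a + i - j = (a - j) + i by have := Finset.mem_range.1 hj; omega]
        calc U Λ ht j * tail Λ ht (a - j + i) ≤ 1 * tail Λ ht (a - j + i) :=
              mul_le_mul_left (hU1 j) _
          _ = _ := one_mul _
    _ ≤ ∑' k, tail Λ ht (k + i) := by
        have hinj : Set.InjOn (fun j => a - j) (Finset.range a : Set ℕ) := by
          intro x hx y hy hxy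
          simp only [Finset.coe_range, Set.mem_Iio] at hx hy
          simp only at hxy
          omega
        rw [← Finset.sum_image (f := fun k => tail Λ ht (k + i)) (g := fun j => a - j) hinj]
        exact ENNReal.sum_le_tsum _

end Crest.Agent.R154.X151
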