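import Crest.Agent.R154.FP_178
import Crest.Agent.R154.Dens_903

/-! Row 154, ROAD 801 (helper177): single-walker part of the assembly
(first passage lists, joint smooth density of height and displacement). -/

set_option autoImplicit false

namespace Crest.Agent.R154.Asm177

open scoped ENNReal Classical
open Crest.Agent.R154.B5A Crest.Agent.R154.FP178

section one

variable {B G : Type*} [AddCommGroup G] (Λ : B → ℝ≥0∞) (ht : B → ℕ) (z : B → G)

/-- displacement of a list -/
def Dp (L : List B) : G := (L.map z).sum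

lemma Dp_append (L L' : List B) : Dp z (L ++ L') = Dp z L + Dp z L' := by simp [Dp]

/-- first passage weight -/
noncomputable def w (a : ℕ) (L : List B) : ℝ≥0∞ := if fp ht a L then LW Λ L else 0

/-- weight at exact height -/
noncomputable def v (n : ℕ) (L : List B) : ℝ≥0∞ := if HT ht L = n then LW Λ L else 0

lemma w_ne {a : ℕ} {L : List B} (h : w Λ ht a L ≠ 0) : fp ht a L := by
  by_contra h'
  exact h (if_neg h')

lemma sum_v (hU1 : ∀ n, U Λ ht n ≤ 1) (n : ℕ) : ∑' L, v Λ ht n L ≤ 1 := hU1 n

lemma sum_w (h1 : ∀ b, 1 ≤ ht b) (hΛ : ∑' b, Λ b ≤ 1) (a : ℕ) : ∑' L, w Λ ht a L ≤ 1 :=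
  sum_FP Λ ht h1 hΛ a

lemma sum_w_eq (h1 : ∀ b, 1 ≤ ht b) (hΛ : ∑' b, Λ b = 1) (a : ℕ) : ∑' L, w Λ ht a L = 1 := by
  unfold w
  induction a using Nat.strong_induction_on with
  | _ a ih =>
    rcases Nat.eq_zero_or_pos a with rfl | ha
    · have := sum_fp_zero Λ ht (fun _ => 1)
      simpa only [mul_one] using this
    · have := sum_fp_step Λ ht a ha (fun _ => 1)
      simp only [mul_one] at this
      rw [this, ← hΛ]
      refine tsum_congr fun b => ?_
      rw [ih (a - ht b) (by have := h1 b; omega), mul_one]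

lemma split1 (h1 : ∀ b, 1 ≤ ht b) (a n : ℕ) (han : a ≤ n) (f : List B → ℝ≥0∞) :
    ∑' L, v Λ ht n L * f L = ∑' A, w Λ ht a A *
      ∑' L, (if HT ht A + HT ht L = n then LW Λ L else 0) * f (A ++ L) := by
  have := split Λ ht h1 a (fun L => if HT ht L = n then f L else 0)
  calc ∑' L, v Λ ht n L * f L
      = ∑' L, (if a ≤ HT ht L then LW Λ L * (if HT ht L = n then f L else 0) else 0) := by
        refine tsum_congr fun L => ?_
        unfold v
        by_cases h : HT ht L = n
        · rw [if_pos h, if_pos h, if_pos (by omega)]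
        · rw [if_neg h, if_neg h, zero_mul, mul_zero, ite_self]
    _ = _ := this
    _ = _ := by
        refine tsum_congr fun A => ?_
        unfold w
        by_cases h : fp ht a A
        · rw [if_pos h, if_pos h]
          congr 1
          refine tsum_congr fun L => ?_
          rw [HT_append]
          by_cases h' : HT ht A + HT ht L = n
          · rw [if_pos h', if_pos h']
          · rw [if_neg h', if_neg h', zero_mul, mul_zero]
        · rw [if_neg h, if_neg h, zero_mul]

lemma lemC (h1 : ∀ b, 1 ≤ ht b) (hU1 : ∀ n, U Λ ht n ≤ 1) (a i0 n : ℕ) (hn : a + i0 ≤ n)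
    (ε : ℝ≥0∞) (hε : ∑' L, (if fp ht a L ∧ a + i0 < HT ht L then LW Λ L else 0) ≤ ε)
    (f : List B → ℝ≥0∞) (hf : ∀ L, f L ≤ 1) :
    ∑' L, v Λ ht n L * f L ≤ ε + ∑' A, w Λ ht a A *
      (if HT ht A ≤ a + i0 then ∑' L, v Λ ht (n - HT ht A) L * f (A ++ L) else 0) := by
  rw [split1 Λ ht h1 a n (by omega) f]
  refine le_trans ?_ (add_le_add_left hε _)
  rw [← ENNReal.tsum_add]
  refine ENNReal.tsum_le_tsum fun A => ?_
  unfold w
  by_cases hA : fp ht a A
  swap
  · rw [if_neg hA, zero_mul]; exact zero_le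
  rw [if_pos hA]
  by_cases hh : HT ht A ≤ a + i0
  · rw [if_pos hh, if_neg (by omega : ¬ (fp ht a A ∧ a + i0 < HT ht A)), zero_add]
    refine mul_le_mul_right (le_of_eq ?_) _
    refine tsum_congr fun L => ?_
    unfold v
    by_cases h' : HT ht L = n - HT ht A
    · rw [if_pos h', if_pos (by omega)]
    · rw [if_neg h', if_neg (by omega)]
  · rw [if_neg hh, if_pos ⟨hA, by omega⟩, mul_zero, add_zero]
    refine le_trans (mul_le_mul_right ?_ _) (mul_one _).le
    refine le_trans ?_ (hU1 (n - HT ht A))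
    refine ENNReal.tsum_le_tsum fun L => ?_
    refine le_trans (mul_le_mul_right (hf _) _) ?_
    rw [mul_one]
    by_cases h' : HT ht A + HT ht L = n
    · rw [if_pos h', if_pos (by omega)]
    · rw [if_neg h']; exact zero_le

theorem lemD (h1 : ∀ b, 1 ≤ ht b) (hΛ : ∑' b, Λ b ≤ 1) (hU1 : ∀ n, U Λ ht n ≤ 1)
    (a τ i0 n : ℕ) (hn : a + i0 + τ + i0 ≤ n)
    (ε : ℝ≥0∞) (hε : ∀ a, ∑' L, (if fp ht a L ∧ a + i0 < HT ht L then LW Λ L else 0) ≤ ε)
    (f : List B → ℝ≥0∞) (hf : ∀ L, f L ≤ 1) (g : List B → List B → ℝ≥0∞)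
    (hg : ∀ A P R, fp ht a A → fp ht τ P → HT ht A ≤ a + i0 → HT ht P ≤ τ + i0 →
      f (A ++ (P ++ R)) ≤ g A P) :
    ∑' L, v Λ ht n L * f L ≤ 2 * ε + ∑' A, w Λ ht a A * ∑' P, w Λ ht τ P * g A P := by
  refine (lemC Λ ht h1 hU1 a i0 n (by omega) ε (hε a) f hf).trans ?_
  rw [two_mul, add_assoc]
  refine add_le_add_right ?_ _
  calc ∑' A, w Λ ht a A *
      (if HT ht A ≤ a + i0 then ∑' L, v Λ ht (n - HT ht A) L * f (A ++ L) else 0)
      ≤ ∑' A, (w Λ ht a A * ε + w Λ ht a A * ∑' P, w Λ ht τ P * g A P) := by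
        refine ENNReal.tsum_le_tsum fun A => ?_
        rw [← mul_add]
        by_cases hA : fp ht a A
        swap
        · unfold w; rw [if_neg hA, zero_mul, zero_mul]
        refine mul_le_mul_right ?_ _
        by_cases hh : HT ht A ≤ a + i0
        swap
        · rw [if_neg hh]; exact zero_le
        rw [if_pos hh]
        refine (lemC Λ ht h1 hU1 τ i0 (n - HT ht A) (by omega) ε (hε τ)
          (fun L => f (A ++ L)) (fun L => hf _)).trans ?_
        refine add_le_add_right ?_ _
        refine ENNReal.tsum_le_tsum fun P => ?_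
        by_cases hP : fp ht τ P
        swap
        · unfold w; rw [if_neg hP, zero_mul, zero_mul]
        refine mul_le_mul_right ?_ _
        by_cases hh' : HT ht P ≤ τ + i0
        swap
        · rw [if_neg hh']; exact zero_le
        rw [if_pos hh']
        calc ∑' L, v Λ ht (n - HT ht A - HT ht P) L * f (A ++ (P ++ L))
            ≤ ∑' L, v Λ ht (n - HT ht A - HT ht P) L * g A P :=
              ENNReal.tsum_le_tsum fun L => mul_le_mul_right (hg A P L hA hP hh hh') _
          _ = (∑' L, v Λ ht (n - HT ht A - HT ht P) L) * g A P := ENNReal.tsum_mul_right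
          _ ≤ 1 * g A P := mul_le_mul_left (sum_v Λ ht hU1 _) _
          _ = g A P := one_mul _
    _ = (∑' A, w Λ ht a A) * ε + ∑' A, w Λ ht a A * ∑' P, w Λ ht τ P * g A P := by
        rw [ENNReal.tsum_add, ENNReal.tsum_mul_right]
    _ ≤ 1 * ε + _ := add_le_add_left (mul_le_mul_left (sum_w Λ ht h1 hΛ a) _) _
    _ = _ := by rw [one_mul]

/-- joint law of height and displacement of a family of weights -/
lemma fiber (W : List B → ℝ≥0∞) (Ψ : ℕ → G → ℝ≥0∞) :
    ∑' L, W L * Ψ (HT ht L) (Dp z L)
      = ∑' α, ∑' x, (∑' L, if HT ht L = α ∧ Dp z L = x then W L else 0) * Ψ α x := by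
  have e : ∀ α x, (∑' L, if HT ht L = α ∧ Dp z L = x then W L else 0) * Ψ α x
      = ∑' L, (if HT ht L = α ∧ Dp z L = x then W L * Ψ (HT ht L) (Dp z L) else 0) := by
    intro α x
    rw [← ENNReal.tsum_mul_right]
    refine tsum_congr fun L => ?_
    by_cases h : HT ht L = α ∧ Dp z L = x
    · rw [if_pos h, if_pos h, h.1, h.2]
    · rw [if_neg h, if_neg h, zero_mul]
  rw [tsum_congr fun α => (tsum_congr fun x => e α x).trans ENNReal.tsum_comm, ENNReal.tsum_comm]
  refine tsum_congr fun L => ?_
  rw [tsum_eq_single (HT ht L), tsum_eq_single (Dp z L)]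
  · rw [if_pos ⟨rfl, rfl⟩]
  · intro x hx; rw [if_neg fun h => hx h.2.symm]
  · intro α hα
    rw [ENNReal.tsum_eq_zero]
    intro x; rw [if_neg fun h => hα h.1.symm]

/-- law of (height, displacement) of the first passage of `a` -/
noncomputable def m (a α : ℕ) (x : G) : ℝ≥0∞ :=
  ∑' L, if HT ht L = α ∧ Dp z L = x then w Λ ht a L else 0

lemma sum_m (a : ℕ) : ∑' α, ∑' x, m Λ ht z a α x = ∑' L, w Λ ht a L := by
  have := fiber ht z (w Λ ht a) (fun _ _ => 1)
  simp only [mul_one] at this
  exact this.symm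

lemma m_zero {a α : ℕ} (h : α < a) (x : G) : m Λ ht z a α x = 0 := by
  unfold m
  rw [ENNReal.tsum_eq_zero]
  intro L
  by_cases h' : HT ht L = α ∧ Dp z L = x
  · rw [if_pos h']
    unfold w
    rw [if_neg]
    intro hf
    have := le_HT_of_fp ht hf
    omega
  · rw [if_neg h']

lemma m_rec (h1 : ∀ b, 1 ≤ ht b) {τ a : ℕ} (hτ : τ ≤ a) (α : ℕ) (x : G) :
    m Λ ht z a α x = ∑' A, w Λ ht τ A *
      (if HT ht A ≤ α then m Λ ht z (a - HT ht A) (α - HT ht A) (x - Dp z A) else 0) := by
  have := fp_split Λ ht h1 τ a hτ (fun L => if HT ht L = α ∧ Dp z L = x then 1 else 0)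
  calc m Λ ht z a α x
      = ∑' L, (if fp ht a L then LW Λ L * (if HT ht L = α ∧ Dp z L = x then 1 else 0) else 0) := by
        unfold m w
        refine tsum_congr fun L => ?_
        by_cases h : HT ht L = α ∧ Dp z L = x <;> by_cases h' : fp ht a L <;> simp [h, h']
    _ = _ := this
    _ = _ := by
        refine tsum_congr fun A => ?_
        unfold w
        by_cases h : fp ht τ A
        swap
        · rw [if_neg h, if_neg h, zero_mul]
        rw [if_pos h, if_pos h]
        congr 1
        by_cases hα : HT ht A ≤ α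
        · rw [if_pos hα]
          unfold m w
          refine tsum_congr fun L => ?_
          rw [HT_append, Dp_append]
          have : (HT ht A + HT ht L = α ∧ Dp z A + Dp z L = x) ↔
              (HT ht L = α - HT ht A ∧ Dp z L = x - Dp z A) := by
            rw [eq_sub_iff_add_eq, add_comm (Dp z L)]
            constructor
            · rintro ⟨h, h'⟩; exact ⟨by omega, h'⟩
            · rintro ⟨h, h'⟩; exact ⟨by omega, h'⟩
          by_cases h3 : HT ht L = α - HT ht A ∧ Dp z L = x - Dp z A
          · rw [if_pos (this.2 h3), if_pos h3, mul_one]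
          · rw [if_neg (fun h => h3 (this.1 h)), if_neg h3, mul_zero, ite_self]
        · rw [if_neg hα, ENNReal.tsum_eq_zero]
          intro L
          rw [HT_append, if_neg (by omega : ¬ (HT ht A + HT ht L = α ∧ _)), mul_zero, ite_self]

lemma shift_le (F : ℕ → G → ℝ≥0∞) (k : ℕ) (y : G) :
    ∑' α, ∑' x, (if k ≤ α then F (α - k) (x - y) else 0) = ∑' α, ∑' x, F α x := by
  have e : ∀ α, ∑' x, (if k ≤ α then F (α - k) (x - y) else 0)
      = (if k ≤ α then ∑' x, F (α - k) x else 0) := by
    intro α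
    by_cases h : k ≤ α
    · simp only [if_pos h]
      exact (Equiv.subRight y).tsum_eq (fun x => F (α - k) x)
    · simp only [if_neg h, tsum_zero]
  rw [tsum_congr e]
  have hinj : Function.Injective (fun β : ℕ => β + k) := add_left_injective k
  rw [← hinj.tsum_eq]
  · refine tsum_congr fun β => ?_
    simp
  · intro α hα
    by_cases h : k ≤ α
    · exact ⟨α - k, by simp only; omega⟩
    · simp [h] at hα

theorem dens (h1 : ∀ b, 1 ≤ ht b) (hΛ : ∑' b, Λ b ≤ 1) (τ i0 : ℕ) (th q Gd ε : ℝ≥0∞)
    (hε : ∑' L, (if τ + i0 < HT ht L then w Λ ht τ L else 0) ≤ ε)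
    (hq : ∑' L, (if th < m Λ ht z τ (HT ht L) (Dp z L) then w Λ ht τ L else 0) ≤ q)
    (hq1 : q ≤ 1) (hG : (i0 + 1 : ℕ) * th + q * Gd ≤ Gd) :
    ∀ J a : ℕ, J * (τ + i0) ≤ a → ∃ b : ℕ → G → ℝ≥0∞,
      (∀ α x, m Λ ht z a α x ≤ Gd + b α x) ∧ ∑' α, ∑' x, b α x ≤ q ^ J + J * ε := by
  intro J
  induction J with
  | zero =>
    intro a _
    refine ⟨fun α x => m Λ ht z a α x, fun α x => le_add_self, ?_⟩
    rw [sum_m]
    simpa using sum_w Λ ht h1 hΛ a
  | succ J ih =>
    intro a ha
    have hJa : J * (τ + i0) + (τ + i0) ≤ a := by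
      calc J * (τ + i0) + (τ + i0) = (J + 1) * (τ + i0) := by ring
        _ ≤ a := ha
    choose! b hb hbs using ih
    let M : ℕ → G → List B → ℝ≥0∞ := fun α x A =>
      (if HT ht A ≤ α then m Λ ht z (a - HT ht A) (α - HT ht A) (x - Dp z A) else 0)
    let b' : ℕ → G → List B → ℝ≥0∞ := fun α x A =>
      (if HT ht A ≤ α then b (a - HT ht A) (α - HT ht A) (x - Dp z A) else 0)
    let P1 : List B → Prop := fun A => τ + i0 < HT ht A
    let P2 : List B → Prop := fun A => th < m Λ ht z τ (HT ht A) (Dp z A)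
    refine ⟨fun α x => ∑' A, (if P1 A then w Λ ht τ A else 0) * M α x A
      + ∑' A, (if ¬ P1 A ∧ P2 A then w Λ ht τ A else 0) * b' α x A, ?_, ?_⟩
    · intro α x
      rw [m_rec Λ ht z h1 (by omega : τ ≤ a) α x]
      have hpt : ∀ A, w Λ ht τ A * M α x A
          ≤ ((if P1 A then w Λ ht τ A else 0) * M α x A
            + (if ¬ P1 A ∧ P2 A then w Λ ht τ A else 0) * b' α x A)
            + ((if P2 A then w Λ ht τ A else 0) * Gd
            + (if ¬ P1 A ∧ ¬ P2 A then w Λ ht τ A else 0) * M α x A) := by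
        intro A
        by_cases h : P1 A
        · rw [if_pos h]
          exact le_add_right le_self_add
        · by_cases h' : P2 A
          · rw [if_neg h, if_pos ⟨h, h'⟩, if_pos h', if_neg (fun hh => hh.2 h'), zero_mul,
              zero_add, add_zero, ← mul_add]
            refine mul_le_mul_right ?_ _
            by_cases hα : HT ht A ≤ α
            · simp only [M, b', if_pos hα]
              rw [add_comm]
              refine hb _ ?_ _ _
              simp only [P1, not_lt] at h
              omega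
            · simp only [M, if_neg hα]; exact zero_le
          · rw [if_neg h, if_neg (fun hh => h' hh.2), if_neg h', if_pos ⟨h, h'⟩, zero_mul, zero_mul,
              zero_mul, zero_add, zero_add, zero_add]
      refine (ENNReal.tsum_le_tsum hpt).trans ?_
      rw [ENNReal.tsum_add, ENNReal.tsum_add, ENNReal.tsum_add, ENNReal.tsum_mul_right]
      rw [add_comm Gd]
      refine add_le_add_right ?_ _
      refine le_trans ?_ hG
      rw [add_comm]
      refine add_le_add ?_ (mul_le_mul_left hq _)
      -- the thin part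
      let Φ : ℕ → G → ℝ≥0∞ := fun β y => if ¬ (τ + i0 < β) ∧ ¬ (th < m Λ ht z τ β y) then
              (if β ≤ α then m Λ ht z (a - β) (α - β) (x - y) else 0) else 0
      have e3 : ∑' A, (if ¬ P1 A ∧ ¬ P2 A then w Λ ht τ A else 0) * M α x A
          = ∑' A, w Λ ht τ A * Φ (HT ht A) (Dp z A) := by
        refine tsum_congr fun A => ?_
        simp only [P1, P2, M, Φ]
        by_cases h : ¬ (τ + i0 < HT ht A) ∧ ¬ (th < m Λ ht z τ (HT ht A) (Dp z A))
        · rw [if_pos h, if_pos h]
        · rw [if_neg h, if_neg h, zero_mul, mul_zero]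
      rw [e3, fiber ht z (w Λ ht τ) Φ]
      simp only [Φ]
      calc ∑' β, ∑' y, (∑' L, if HT ht L = β ∧ Dp z L = y then w Λ ht τ L else 0) *
            (if ¬ (τ + i0 < β) ∧ ¬ (th < m Λ ht z τ β y) then
              (if β ≤ α then m Λ ht z (a - β) (α - β) (x - y) else 0) else 0)
          ≤ ∑' β, (if β ∈ Finset.Icc τ (τ + i0) then th else 0) := by
            refine ENNReal.tsum_le_tsum fun β => ?_
            by_cases hβ : β ∈ Finset.Icc τ (τ + i0)
            · rw [if_pos hβ]
              calc ∑' y, (∑' L, if HT ht L = β ∧ Dp z L = y then w Λ ht τ L else 0) *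
                  (if ¬ (τ + i0 < β) ∧ ¬ (th < m Λ ht z τ β y) then
                    (if β ≤ α then m Λ ht z (a - β) (α - β) (x - y) else 0) else 0)
                  ≤ ∑' y, th * m Λ ht z (a - β) (α - β) (x - y) := by
                    refine ENNReal.tsum_le_tsum fun y => ?_
                    by_cases h : ¬ (τ + i0 < β) ∧ ¬ (th < m Λ ht z τ β y)
                    · rw [if_pos h]
                      refine mul_le_mul' (not_lt.1 h.2) ?_
                      split_ifs
                      · exact le_rfl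
                      · exact zero_le
                    · rw [if_neg h, mul_zero]; exact zero_le
                _ = th * ∑' y, m Λ ht z (a - β) (α - β) (x - y) := ENNReal.tsum_mul_left
                _ = th * ∑' y, m Λ ht z (a - β) (α - β) y := by
                    congr 1
                    exact (Equiv.subLeft x).tsum_eq (fun y => m Λ ht z (a - β) (α - β) y)
                _ ≤ th * 1 := by
                    refine mul_le_mul_right ?_ _
                    refine le_trans ?_ (sum_w Λ ht h1 hΛ (a - β))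
                    rw [← sum_m Λ ht z]
                    exact ENNReal.le_tsum (α - β)
                _ = th := mul_one _
            · rw [if_neg hβ]
              refine (ENNReal.tsum_eq_zero.2 fun y => ?_).le
              rw [Finset.mem_Icc, not_and_or, not_le, not_le] at hβ
              rcases hβ with h | h
              · have := m_zero Λ ht z h y
                unfold m at this
                rw [this, zero_mul]
              · rw [if_neg (fun hh => hh.1 h), mul_zero]
        _ = ∑ β ∈ Finset.Icc τ (τ + i0), th := by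
            rw [tsum_eq_sum (s := Finset.Icc τ (τ + i0)) (fun β hβ => if_neg hβ)]
            exact Finset.sum_congr rfl fun β hβ => if_pos hβ
        _ = (i0 + 1 : ℕ) * th := by
            rw [Finset.sum_const, Nat.card_Icc, nsmul_eq_mul]
            congr 2
            omega
    · have hM : ∀ A, ∑' α, ∑' x, M α x A ≤ 1 := by
        intro A
        simp only [M]
        rw [shift_le (fun α x => m Λ ht z (a - HT ht A) α x), sum_m]
        exact sum_w Λ ht h1 hΛ _
      have hb' : ∀ A, ¬ P1 A → ∑' α, ∑' x, b' α x A ≤ q ^ J + J * ε := by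
        intro A hA
        simp only [b']
        rw [shift_le (fun α x => b (a - HT ht A) α x)]
        refine hbs _ ?_
        simp only [P1, not_lt] at hA
        omega
      calc ∑' α, ∑' x, (∑' A, (if P1 A then w Λ ht τ A else 0) * M α x A
            + ∑' A, (if ¬ P1 A ∧ P2 A then w Λ ht τ A else 0) * b' α x A)
          = ∑' A, (if P1 A then w Λ ht τ A else 0) * ∑' α, ∑' x, M α x A
            + ∑' A, (if ¬ P1 A ∧ P2 A then w Λ ht τ A else 0) * ∑' α, ∑' x, b' α x A := by
            simp only [ENNReal.tsum_add, ← ENNReal.tsum_mul_left]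
            congr 1
            · rw [tsum_congr fun α => ENNReal.tsum_comm, ENNReal.tsum_comm]
            · rw [tsum_congr fun α => ENNReal.tsum_comm, ENNReal.tsum_comm]
        _ ≤ ∑' A, (if P1 A then w Λ ht τ A else 0) * 1
            + ∑' A, (if ¬ P1 A ∧ P2 A then w Λ ht τ A else 0) * (q ^ J + J * ε) := by
            refine add_le_add (ENNReal.tsum_le_tsum fun A => mul_le_mul_right (hM A) _)
              (ENNReal.tsum_le_tsum fun A => ?_)
            by_cases h : ¬ P1 A ∧ P2 A
            · exact mul_le_mul_right (hb' A h.1) _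
            · rw [if_neg h, zero_mul, zero_mul]
        _ = ∑' A, (if P1 A then w Λ ht τ A else 0)
            + (∑' A, (if ¬ P1 A ∧ P2 A then w Λ ht τ A else 0)) * (q ^ J + J * ε) := by
            rw [ENNReal.tsum_mul_right, mul_one, ENNReal.tsum_mul_right]
        _ ≤ ε + q * (q ^ J + J * ε) := by
            refine add_le_add hε (mul_le_mul_left (le_trans (ENNReal.tsum_le_tsum fun A => ?_) hq) _)
            by_cases h : P2 A
            · rw [if_pos h]; split_ifs
              · exact le_rfl
              · exact zero_le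
            · rw [if_neg h, if_neg fun hh => h hh.2]
        _ ≤ q ^ (J + 1) + (J + 1 : ℕ) * ε := by
            have : q * (J * ε) ≤ J * ε := by
              calc q * (J * ε) ≤ 1 * (J * ε) := mul_le_mul_left hq1 _
                _ = _ := one_mul _
            calc ε + q * (q ^ J + J * ε) = q ^ (J + 1) + (q * (J * ε) + ε) := by
                  rw [mul_add, pow_succ]; ring
              _ ≤ q ^ (J + 1) + (J * ε + ε) := by gcongr
              _ = _ := by push_cast; ring

theorem half (h1 : ∀ b, 1 ≤ ht b) (hΛ : ∑' b, Λ b ≤ 1) (τ i0 : ℕ) (th q Gd ε : ℝ≥0∞)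
    (hε : ∑' L, (if τ + i0 < HT ht L then w Λ ht τ L else 0) ≤ ε)
    (hq : ∑' L, (if th < m Λ ht z τ (HT ht L) (Dp z L) then w Λ ht τ L else 0) ≤ q)
    (hq1 : q ≤ 1) (hG : (i0 + 1 : ℕ) * th + q * Gd ≤ Gd) (J a : ℕ) (hJ : J * (τ + i0) ≤ a)
    (Ψ : ℕ → G → ℝ≥0∞) (hΨ1 : ∀ α x, Ψ α x ≤ 1)
    (hΨ0 : ∀ α x, a + i0 < α → Ψ α x = 0) (R : ℝ≥0∞)
    (hR : ∀ α, a ≤ α → α ≤ a + i0 → ∀ ν : G → ℝ≥0∞, ∑' x, ν x ≤ 1 → (∀ x, ν x ≤ Gd) →
      ∑' x, ν x * Ψ α x ≤ R) :
    ∑' A, w Λ ht a A * Ψ (HT ht A) (Dp z A) ≤ (i0 + 1 : ℕ) * R + (q ^ J + J * ε) := by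
  obtain ⟨b, hb, hbs⟩ := dens Λ ht z h1 hΛ τ i0 th q Gd ε hε hq hq1 hG J a hJ
  rw [fiber ht z (w Λ ht a) Ψ]
  calc ∑' α, ∑' x, m Λ ht z a α x * Ψ α x
      ≤ ∑' α, ((if α ∈ Finset.Icc a (a + i0) then R else 0) + ∑' x, b α x) := by
        refine ENNReal.tsum_le_tsum fun α => ?_
        by_cases hα : α ∈ Finset.Icc a (a + i0)
        · rw [if_pos hα]
          have hα' := Finset.mem_Icc.1 hα
          calc ∑' x, m Λ ht z a α x * Ψ α x
              ≤ ∑' x, (min (m Λ ht z a α x) Gd * Ψ α x + b α x) := by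
                refine ENNReal.tsum_le_tsum fun x => ?_
                rcases le_total (m Λ ht z a α x) Gd with h | h
                · rw [min_eq_left h]; exact le_self_add
                · rw [min_eq_right h]
                  calc m Λ ht z a α x * Ψ α x ≤ (Gd + b α x) * Ψ α x := mul_le_mul_left (hb α x) _
                    _ = Gd * Ψ α x + b α x * Ψ α x := add_mul _ _ _
                    _ ≤ Gd * Ψ α x + b α x * 1 :=
                        add_le_add_right (mul_le_mul_right (hΨ1 α x) _) _
                    _ = _ := by rw [mul_one]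
            _ = ∑' x, min (m Λ ht z a α x) Gd * Ψ α x + ∑' x, b α x := ENNReal.tsum_add
            _ ≤ _ := by
                refine add_le_add_left ?_ _
                refine hR α hα'.1 hα'.2 _ ?_ (fun x => min_le_right _ _)
                refine le_trans (ENNReal.tsum_le_tsum fun x => min_le_left _ _) ?_
                refine le_trans ?_ (sum_w Λ ht h1 hΛ a)
                rw [← sum_m Λ ht z]
                exact ENNReal.le_tsum α
        · refine le_trans (le_of_eq ?_) (zero_le)
          rw [ENNReal.tsum_eq_zero]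
          intro x
          rw [Finset.mem_Icc, not_and_or, not_le, not_le] at hα
          rcases hα with h | h
          · rw [m_zero Λ ht z h x, zero_mul]
          · rw [hΨ0 α x h, mul_zero]
    _ = ∑' α, (if α ∈ Finset.Icc a (a + i0) then R else 0) + ∑' α, ∑' x, b α x :=
        ENNReal.tsum_add
    _ ≤ _ := by
        refine add_le_add (le_of_eq ?_) hbs
        rw [tsum_eq_sum (s := Finset.Icc a (a + i0)) (fun β hβ => if_neg hβ)]
        rw [Finset.sum_congr rfl fun β hβ => if_pos hβ, Finset.sum_const, Nat.card_Icc,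
          nsmul_eq_mul]
        congr 2
        omega

/-- the threshold: law of one attempt. -/
theorem thr (h1 : ∀ b, 1 ≤ ht b) (hΛ : ∑' b, Λ b = 1) (τ : ℕ) {u : ℝ≥0∞} (hu0 : u ≠ 0)
    (hu1 : u ≤ 1) : ∃ th : ℝ≥0∞, th ≠ 0 ∧ th ≤ 1 ∧
      (∑' L, (if m Λ ht z τ (HT ht L) (Dp z L) < th then w Λ ht τ L else 0) ≤ u) ∧
      (∑' L, (if th < m Λ ht z τ (HT ht L) (Dp z L) then w Λ ht τ L else 0) ≤ 1 - u) := by
  have hs : ∑' y : ℕ × G, m Λ ht z τ y.1 y.2 = 1 := by
    rw [ENNReal.tsum_prod (f := fun α x => m Λ ht z τ α x), sum_m, sum_w_eq Λ ht h1 hΛ]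
  obtain ⟨th, h0, hth1, ha, hb⟩ := Dens903.quantile (fun y : ℕ × G => m Λ ht z τ y.1 y.2) hs hu0 hu1
  refine ⟨th, h0, hth1, ?_, ?_⟩
  · refine le_trans (le_of_eq ?_) ha
    have := fiber ht z (w Λ ht τ) (fun β y => if m Λ ht z τ β y < th then 1 else 0)
    simp only [mul_ite, mul_one, mul_zero] at this
    rw [this, ENNReal.tsum_prod (f := fun α x => if m Λ ht z τ α x < th then m Λ ht z τ α x else 0)]
    rfl
  · have := fiber ht z (w Λ ht τ) (fun β y => if th < m Λ ht z τ β y then 1 else 0)
    simp only [mul_ite, mul_one, mul_zero] at this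
    rw [this]
    have e : ∑' α, ∑' x, (if th < m Λ ht z τ α x then m Λ ht z τ α x else 0)
        = ∑' y : ℕ × G, (if th < m Λ ht z τ y.1 y.2 then m Λ ht z τ y.1 y.2 else 0) :=
      (ENNReal.tsum_prod (f := fun α x => if th < m Λ ht z τ α x then m Λ ht z τ α x else 0)).symm
    refine le_trans (le_of_eq e) ?_
    refine ENNReal.le_sub_of_add_le_right (ne_top_of_le_ne_top ENNReal.one_ne_top hu1) ?_
    calc ∑' y : ℕ × G, (if th < m Λ ht z τ y.1 y.2 then m Λ ht z τ y.1 y.2 else 0) + u
        ≤ ∑' y : ℕ × G, (if th < m Λ ht z τ y.1 y.2 then m Λ ht z τ y.1 y.2 else 0)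
          + ∑' y : ℕ × G, (if m Λ ht z τ y.1 y.2 ≤ th then m Λ ht z τ y.1 y.2 else 0) :=
          add_le_add_right hb _
      _ = ∑' y : ℕ × G, m Λ ht z τ y.1 y.2 := by
          rw [← ENNReal.tsum_add]
          refine tsum_congr fun y => ?_
          by_cases h : th < m Λ ht z τ y.1 y.2
          · rw [if_pos h, if_neg (not_le.2 h), add_zero]
          · rw [if_neg h, if_pos (not_lt.1 h), zero_add]
      _ = 1 := hs

end one

end Crest.Agent.R154.Asm177
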