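import Crest.Agent.R154.FP_178
import Crest.Agent.R154.Gap_583
import Crest.Agent.R154.Dens_616

/-! Row 154, ROAD 801 (helper198): abstract assembly, part A: first passage splits and smoothing
for one walker on lists of blocks. -/

set_option autoImplicit false

namespace Crest.Agent.R154.Asm198

open scoped ENNReal
open Crest.Agent.R154.B5A Crest.Agent.R154.FP178

section one

variable {B : Type*} (Λ : B → ℝ≥0∞) (ht : B → ℕ)

/-- overshoot bound -/
noncomputable def ov (i : ℕ) : ℝ≥0∞ := ∑' k, tail Λ ht (i + k)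

open Classical in
lemma sum_eq_le (hU1 : ∀ n, U Λ ht n ≤ 1) (a n : ℕ) (g : List B → ℝ≥0∞) (M : ℝ≥0∞)
    (hg : ∀ L, g L ≤ M) :
    ∑' L, LW Λ L * (if a + HT ht L = n then g L else 0) ≤ M := by
  calc ∑' L, LW Λ L * (if a + HT ht L = n then g L else 0)
      ≤ ∑' L, (if HT ht L = n - a then LW Λ L else 0) * M := by
        refine ENNReal.tsum_le_tsum fun L => ?_
        by_cases h : a + HT ht L = n
        · rw [if_pos h, if_pos (by omega)]
          exact mul_le_mul_right (hg L) _
        · rw [if_neg h, mul_zero]; exact zero_le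
    _ = U Λ ht (n - a) * M := by rw [ENNReal.tsum_mul_right, U]
    _ ≤ 1 * M := mul_le_mul_left (hU1 _) _
    _ = M := one_mul _

open Classical in
lemma step (h1 : ∀ b, 1 ≤ ht b) (hU1 : ∀ n, U Λ ht n ≤ 1) (a S i0 n : ℕ) (hS : a + S ≤ n)
    (g : List B → ℝ≥0∞) (hg : ∀ L, g L ≤ 1) (ψ : List B → ℝ≥0∞)
    (hψ : ∀ P, fp ht S P → HT ht P ≤ S + i0 →
      ∑' Q, LW Λ Q * (if a + HT ht (P ++ Q) = n then g (P ++ Q) else 0) ≤ ψ P) :
    ∑' L, LW Λ L * (if a + HT ht L = n then g L else 0)
      ≤ ov Λ ht i0 + ∑' P, (if fp ht S P ∧ HT ht P ≤ S + i0 then LW Λ P * ψ P else 0) := by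
  have e1 : ∑' L, LW Λ L * (if a + HT ht L = n then g L else 0)
      = ∑' P, (if fp ht S P then LW Λ P *
          ∑' Q, LW Λ Q * (if a + HT ht (P ++ Q) = n then g (P ++ Q) else 0) else 0) := by
    rw [← split Λ ht h1 S (fun L => if a + HT ht L = n then g L else 0)]
    refine tsum_congr fun L => ?_
    by_cases h : a + HT ht L = n
    · rw [if_pos h, if_pos (by omega)]
    · rw [if_neg h, mul_zero, ite_self]
  rw [e1]
  have e2 : ∀ P, (if fp ht S P then LW Λ P *
          ∑' Q, LW Λ Q * (if a + HT ht (P ++ Q) = n then g (P ++ Q) else 0) else 0)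
      ≤ (if fp ht S P ∧ S + i0 < HT ht P then LW Λ P else 0)
        + (if fp ht S P ∧ HT ht P ≤ S + i0 then LW Λ P * ψ P else 0) := by
    intro P
    by_cases hP : fp ht S P
    swap
    · rw [if_neg hP]; exact zero_le
    rw [if_pos hP]
    by_cases hov : S + i0 < HT ht P
    · rw [if_pos ⟨hP, hov⟩, if_neg (fun h => absurd h.2 (by omega)), add_zero]
      calc LW Λ P * ∑' Q, LW Λ Q * (if a + HT ht (P ++ Q) = n then g (P ++ Q) else 0)
          ≤ LW Λ P * 1 := by
            refine mul_le_mul_right ?_ _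
            have := sum_eq_le Λ ht hU1 (a + HT ht P) n (fun Q => g (P ++ Q)) 1 (fun Q => hg _)
            refine le_trans (le_of_eq ?_) this
            refine tsum_congr fun Q => ?_
            rw [HT_append, add_assoc]
        _ = LW Λ P := mul_one _
    · rw [if_neg (fun h => hov h.2), zero_add, if_pos ⟨hP, by omega⟩]
      exact mul_le_mul_right (hψ P hP (by omega)) _
  refine (ENNReal.tsum_le_tsum e2).trans ?_
  rw [ENNReal.tsum_add]
  gcongr
  exact overshoot Λ ht h1 hU1 i0 S

open Classical in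
/-- triple split of a list of height `n` -/
theorem split3 (h1 : ∀ b, 1 ≤ ht b) (hΛ : ∑' b, Λ b ≤ 1) (hU1 : ∀ n, U Λ ht n ≤ 1)
    (T S i0 n : ℕ) (hn : T + i0 + S ≤ n) (f : List B → ℝ≥0∞) (hf : ∀ L, f L ≤ 1)
    (φ : List B → List B → ℝ≥0∞)
    (hφ : ∀ A P Q, fp ht T A → HT ht A ≤ T + i0 → fp ht S P → HT ht P ≤ S + i0 →
      f (A ++ (P ++ Q)) ≤ φ A P) :
    ∑' L, (if HT ht L = n then LW Λ L * f L else 0)
      ≤ (ov Λ ht i0 + ov Λ ht i0) + ∑' A, (if fp ht T A ∧ HT ht A ≤ T + i0 then LW Λ A *
        ∑' P, (if fp ht S P ∧ HT ht P ≤ S + i0 then LW Λ P * φ A P else 0) else 0) := by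
  have e0 : ∑' L, (if HT ht L = n then LW Λ L * f L else 0)
      = ∑' L, LW Λ L * (if 0 + HT ht L = n then f L else 0) := by
    refine tsum_congr fun L => ?_
    rw [zero_add]
    by_cases h : HT ht L = n <;> simp [h]
  rw [e0]
  refine (step Λ ht h1 hU1 0 T i0 n (by omega) f hf
    (fun A => ov Λ ht i0 +
      ∑' P, (if fp ht S P ∧ HT ht P ≤ S + i0 then LW Λ P * φ A P else 0)) ?_).trans ?_
  · intro A hA hA0
    have e1 : ∑' Q, LW Λ Q * (if 0 + HT ht (A ++ Q) = n then f (A ++ Q) else 0)
        = ∑' Q, LW Λ Q * (if HT ht A + HT ht Q = n then f (A ++ Q) else 0) := by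
      refine tsum_congr fun Q => ?_
      rw [HT_append, zero_add]
    rw [e1]
    refine step Λ ht h1 hU1 (HT ht A) S i0 n (by omega) (fun L => f (A ++ L)) (fun L => hf _)
      (fun P => φ A P) ?_
    intro P hP hP0
    have := sum_eq_le Λ ht hU1 (HT ht A + HT ht P) n (fun Q => f (A ++ (P ++ Q))) (φ A P)
      (fun Q => hφ A P Q hA hA0 hP hP0)
    refine le_trans (le_of_eq ?_) this
    refine tsum_congr fun Q => ?_
    rw [HT_append, add_assoc]
  · rw [add_assoc]
    gcongr
    calc ∑' A, (if fp ht T A ∧ HT ht A ≤ T + i0 then LW Λ A * (ov Λ ht i0 +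
          ∑' P, (if fp ht S P ∧ HT ht P ≤ S + i0 then LW Λ P * φ A P else 0)) else 0)
        ≤ ∑' A, ((if fp ht T A then LW Λ A else 0) * ov Λ ht i0 +
          (if fp ht T A ∧ HT ht A ≤ T + i0 then LW Λ A *
            ∑' P, (if fp ht S P ∧ HT ht P ≤ S + i0 then LW Λ P * φ A P else 0) else 0)) := by
          refine ENNReal.tsum_le_tsum fun A => ?_
          by_cases h : fp ht T A ∧ HT ht A ≤ T + i0
          · rw [if_pos h, if_pos h, if_pos h.1, mul_add]
          · rw [if_neg h, if_neg h]; exact zero_le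
      _ ≤ _ := by
          rw [ENNReal.tsum_add, ENNReal.tsum_mul_right]
          gcongr
          calc (∑' A, (if fp ht T A then LW Λ A else 0)) * ov Λ ht i0
              ≤ 1 * ov Λ ht i0 := mul_le_mul_left (sum_FP Λ ht h1 hΛ T) _
            _ = _ := one_mul _

open Classical in
lemma sum_FP_eq (h1 : ∀ b, 1 ≤ ht b) (hΛ : ∑' b, Λ b = 1) (a : ℕ) :
    ∑' L, (if fp ht a L then LW Λ L else 0) = 1 := by
  induction a using Nat.strong_induction_on with
  | _ a ih =>
    rcases Nat.eq_zero_or_pos a with rfl | ha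
    · have := sum_fp_zero Λ ht (fun _ => 1)
      simpa only [mul_one] using this
    · have := sum_fp_step Λ ht a ha (fun _ => 1)
      simp only [mul_one] at this
      rw [this, ← hΛ]
      refine tsum_congr fun b => ?_
      rw [ih (a - ht b) (by have := h1 b; omega), mul_one]

/-! ### laws with displacement -/

variable {G : Type*} [AddCommGroup G] (z : B → G)

/-- total displacement -/
def Dp (L : List B) : G := (L.map z).sum

lemma Dp_append (L L' : List B) : Dp z (L ++ L') = Dp z L + Dp z L' := by simp [Dp]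

lemma Dp_nil : Dp z [] = 0 := rfl

lemma Dp_cons (b : B) (L : List B) : Dp z (b :: L) = z b + Dp z L := by simp [Dp]

open Classical in
/-- law of (overshoot, displacement) at the first passage of `T` -/
noncomputable def law (T j : ℕ) (v : G) : ℝ≥0∞ :=
  ∑' L, if fp ht T L ∧ HT ht L = T + j ∧ Dp z L = v then LW Λ L else 0

open Classical in
/-- regrouping by (overshoot, displacement) -/
lemma regroup (T i0 : ℕ) (F : ℕ → G → ℝ≥0∞) :
    ∑' L, (if fp ht T L ∧ HT ht L ≤ T + i0 then LW Λ L * F (HT ht L - T) (Dp z L) else 0)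
      = ∑' j, ∑' v, (if j ≤ i0 then law Λ ht z T j v * F j v else 0) := by
  have e : ∀ (j : ℕ) (v : G), (if j ≤ i0 then law Λ ht z T j v * F j v else 0)
      = ∑' L, (if j ≤ i0 ∧ fp ht T L ∧ HT ht L = T + j ∧ Dp z L = v then LW Λ L * F j v else 0) := by
    intro j v
    by_cases hj : j ≤ i0
    · rw [if_pos hj, law, ← ENNReal.tsum_mul_right]
      refine tsum_congr fun L => ?_
      by_cases h : fp ht T L ∧ HT ht L = T + j ∧ Dp z L = v
      · rw [if_pos h, if_pos ⟨hj, h⟩]
      · rw [if_neg h, if_neg (fun h' => h h'.2), zero_mul]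
    · rw [if_neg hj]
      symm
      rw [ENNReal.tsum_eq_zero]
      intro L
      rw [if_neg (fun h => hj h.1)]
  rw [tsum_congr fun j => tsum_congr fun v => e j v]
  rw [tsum_congr fun j => ENNReal.tsum_comm, ENNReal.tsum_comm]
  refine tsum_congr fun L => ?_
  by_cases h : fp ht T L ∧ HT ht L ≤ T + i0
  · rw [if_pos h, tsum_eq_single (HT ht L - T), tsum_eq_single (Dp z L)]
    · have := le_HT_of_fp ht h.1
      rw [if_pos ⟨by omega, h.1, by omega, rfl⟩]
    · intro v hv
      rw [if_neg (fun h' => hv h'.2.2.2.symm)]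
    · intro j hj
      rw [ENNReal.tsum_eq_zero]
      intro v
      rw [if_neg (fun h' => hj (by omega))]
  · rw [if_neg h]
    symm
    rw [ENNReal.tsum_eq_zero]
    intro j
    rw [ENNReal.tsum_eq_zero]
    intro v
    rw [if_neg]
    rintro ⟨h2, h3, h4, -⟩
    exact h ⟨h3, by omega⟩

open Classical in
lemma law_sum (T : ℕ) (h1 : ∀ b, 1 ≤ ht b) (hΛ : ∑' b, Λ b ≤ 1) :
    ∑' j, ∑' v, law Λ ht z T j v ≤ 1 := by
  refine le_trans (le_of_eq ?_) (sum_FP Λ ht h1 hΛ T)
  unfold law
  rw [tsum_congr fun j => ENNReal.tsum_comm, ENNReal.tsum_comm]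
  refine tsum_congr fun L => ?_
  by_cases h : fp ht T L
  · have := le_HT_of_fp ht h
    rw [if_pos h, tsum_eq_single (HT ht L - T), tsum_eq_single (Dp z L)]
    · rw [if_pos ⟨h, by omega, rfl⟩]
    · intro v hv
      rw [if_neg (fun h' => hv h'.2.2.symm)]
    · intro j hj
      rw [ENNReal.tsum_eq_zero]
      intro v
      rw [if_neg (fun h' => hj (by omega))]
  · rw [if_neg h, ENNReal.tsum_eq_zero]
    intro j
    rw [ENNReal.tsum_eq_zero]
    intro v
    rw [if_neg (fun h' => h h'.1)]

lemma law_sum1 (T : ℕ) (h1 : ∀ b, 1 ≤ ht b) (hΛ : ∑' b, Λ b ≤ 1) (j : ℕ) :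
    ∑' v, law Λ ht z T j v ≤ 1 :=
  (ENNReal.le_tsum (f := fun j => ∑' v, law Λ ht z T j v) j).trans (law_sum Λ ht z T h1 hΛ)

lemma tsum_le_const (i0 : ℕ) (f : ℕ → ℝ≥0∞) (c : ℝ≥0∞) (hf : ∀ i, i ≤ i0 → f i ≤ c) :
    ∑' i, (if i ≤ i0 then f i else 0) ≤ (i0 + 1 : ℕ) * c := by
  rw [tsum_eq_sum (s := Finset.range (i0 + 1))]
  · calc ∑ i ∈ Finset.range (i0 + 1), (if i ≤ i0 then f i else 0)
        ≤ ∑ _i ∈ Finset.range (i0 + 1), c := by
          refine Finset.sum_le_sum fun i hi => ?_
          have := Finset.mem_range.1 hi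
          rw [if_pos (by omega)]
          exact hf i (by omega)
      _ = (i0 + 1 : ℕ) * c := by simp
  · intro i hi
    rw [Finset.mem_range] at hi
    rw [if_neg (by omega)]

open Classical in
/-- **smoothing** of the law at depth `r` by `N` attempts of height `S` -/
theorem smooth (h1 : ∀ b, 1 ≤ ht b) (hΛ : ∑' b, Λ b ≤ 1) (hU1 : ∀ n, U Λ ht n ≤ 1) (S i0 : ℕ)
    (th q M : ℝ≥0∞)
    (hq : ∑' P, (if fp ht S P ∧ HT ht P ≤ S + i0 ∧ th < law Λ ht z S (HT ht P - S) (Dp z P)
      then LW Λ P else 0) ≤ q)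
    (hq1 : q ≤ 1) (hM : (i0 + 1 : ℕ) * th + q * M ≤ M) :
    ∀ N r, N * (S + i0) ≤ r → ∃ b : ℕ → G → ℝ≥0∞,
      (∑' j, ∑' v, b j v ≤ q ^ N + N * ov Λ ht i0) ∧
      ∀ j v, law Λ ht z r j v ≤ M + b j v := by
  intro N
  induction N with
  | zero =>
    intro r _
    exact ⟨law Λ ht z r, by simpa using law_sum Λ ht z r h1 hΛ, fun j v => le_add_self⟩
  | succ N ih =>
    intro r hr
    have hr' : N * (S + i0) + (S + i0) ≤ r := by rw [Nat.succ_mul] at hr; exact hr
    have hSr : S ≤ r := by omega
    have hrem : ∀ h, h ≤ S + i0 → N * (S + i0) ≤ r - h := by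
      intro h hh
      omega
    choose! bb hb1 hb2 using fun h (hh : h ≤ S + i0) => ih (r - h) (hrem h hh)
    set I : List B → ℕ → G → ℝ≥0∞ := fun P j v => ∑' L, (if fp ht (r - HT ht P) L ∧
      HT ht (P ++ L) = r + j ∧ Dp z (P ++ L) = v then LW Λ L else 0) with hI
    have hlaw : ∀ j v, law Λ ht z r j v = ∑' P, (if fp ht S P then LW Λ P * I P j v else 0) := by
      intro j v
      have := fp_split Λ ht h1 S r hSr (fun L => if HT ht L = r + j ∧ Dp z L = v then 1 else 0)
      have e1 : ∀ (a : ℕ) (A L : List B), (if fp ht a L then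
          LW Λ L * (if HT ht (A ++ L) = r + j ∧ Dp z (A ++ L) = v then 1 else 0) else 0)
          = (if fp ht a L ∧ HT ht (A ++ L) = r + j ∧ Dp z (A ++ L) = v then LW Λ L else 0) := by
        intro a A L
        by_cases h : fp ht a L <;>
          by_cases h' : HT ht (A ++ L) = r + j ∧ Dp z (A ++ L) = v <;> simp [h, h']
      have e2 := fun L => e1 r [] L
      simp only [List.nil_append] at e2
      rw [tsum_congr e2] at this
      rw [law, this]
      refine tsum_congr fun P => ?_
      rw [tsum_congr (e1 (r - HT ht P) P)]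
    have hI1 : ∀ P, HT ht P ≤ S + i0 → ∀ j v, I P j v = law Λ ht z (r - HT ht P) j (v - Dp z P) := by
      intro P hP j v
      simp only [hI, law]
      refine tsum_congr fun L => ?_
      have e1 : (HT ht (P ++ L) = r + j) ↔ (HT ht L = r - HT ht P + j) := by
        rw [HT_append]; omega
      have e2 : (Dp z (P ++ L) = v) ↔ (Dp z L = v - Dp z P) := by
        rw [Dp_append]
        constructor
        · intro h; rw [← h]; abel
        · intro h; rw [h]; abel
      simp only [e1, e2]
    have hI2 : ∀ P, ∑' j, ∑' v, I P j v ≤ 1 := by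
      intro P
      refine le_trans ?_ (sum_FP Λ ht h1 hΛ (r - HT ht P))
      simp only [hI]
      rw [tsum_congr fun j => ENNReal.tsum_comm, ENNReal.tsum_comm]
      refine ENNReal.tsum_le_tsum fun L => ?_
      by_cases h : fp ht (r - HT ht P) L
      · rw [if_pos h, tsum_eq_single (HT ht (P ++ L) - r), tsum_eq_single (Dp z (P ++ L))]
        · split_ifs
          · exact le_rfl
          · exact zero_le
        · intro v hv
          rw [if_neg (fun h' => hv h'.2.2.symm)]
        · intro j hj
          rw [ENNReal.tsum_eq_zero]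
          intro v
          rw [if_neg (fun h' => hj (by omega))]
      · rw [if_neg h]
        refine le_of_eq ?_
        rw [ENNReal.tsum_eq_zero]
        intro j
        rw [ENNReal.tsum_eq_zero]
        intro v
        rw [if_neg (fun h' => h h'.1)]
    refine ⟨fun j v => (∑' P, (if fp ht S P ∧ S + i0 < HT ht P then LW Λ P * I P j v else 0)) +
      ∑' P, (if fp ht S P ∧ HT ht P ≤ S + i0 ∧ th < law Λ ht z S (HT ht P - S) (Dp z P)
        then LW Λ P * bb (HT ht P) j (v - Dp z P) else 0), ?_, ?_⟩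
    · -- total mass
      have t1 : ∑' j, ∑' v, ∑' P, (if fp ht S P ∧ S + i0 < HT ht P then LW Λ P * I P j v else 0)
          ≤ ov Λ ht i0 := by
        rw [tsum_congr fun j => ENNReal.tsum_comm, ENNReal.tsum_comm]
        refine le_trans (ENNReal.tsum_le_tsum fun P => ?_) (overshoot Λ ht h1 hU1 i0 S)
        by_cases h : fp ht S P ∧ S + i0 < HT ht P
        · simp only [if_pos h, ENNReal.tsum_mul_left]
          calc LW Λ P * ∑' j, ∑' v, I P j v ≤ LW Λ P * 1 := mul_le_mul_right (hI2 P) _
            _ = _ := mul_one _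
        · simp only [if_neg h, tsum_zero, le_refl]
      have t2 : ∑' j, ∑' v, ∑' P, (if fp ht S P ∧ HT ht P ≤ S + i0 ∧
          th < law Λ ht z S (HT ht P - S) (Dp z P)
          then LW Λ P * bb (HT ht P) j (v - Dp z P) else 0) ≤ q * (q ^ N + N * ov Λ ht i0) := by
        rw [tsum_congr fun j => ENNReal.tsum_comm, ENNReal.tsum_comm]
        calc ∑' P, ∑' j, ∑' v, (if fp ht S P ∧ HT ht P ≤ S + i0 ∧
              th < law Λ ht z S (HT ht P - S) (Dp z P)
              then LW Λ P * bb (HT ht P) j (v - Dp z P) else 0)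
            ≤ ∑' P, (if fp ht S P ∧ HT ht P ≤ S + i0 ∧
              th < law Λ ht z S (HT ht P - S) (Dp z P) then LW Λ P else 0) *
              (q ^ N + N * ov Λ ht i0) := by
              refine ENNReal.tsum_le_tsum fun P => ?_
              by_cases h : fp ht S P ∧ HT ht P ≤ S + i0 ∧
                th < law Λ ht z S (HT ht P - S) (Dp z P)
              · simp only [if_pos h, ENNReal.tsum_mul_left]
                refine mul_le_mul_right ?_ _
                refine le_trans (le_of_eq ?_) (hb1 (HT ht P) h.2.1)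
                refine tsum_congr fun j => ?_
                exact (Equiv.subRight (Dp z P)).tsum_eq fun v => bb (HT ht P) j v
              · simp only [if_neg h, tsum_zero, zero_mul, le_refl]
          _ ≤ q * (q ^ N + N * ov Λ ht i0) := by
              rw [ENNReal.tsum_mul_right]
              exact mul_le_mul_left hq _
      have t3 : ∀ (f g : ℕ → G → ℝ≥0∞), ∑' j, ∑' v, (f j v + g j v)
          = ∑' j, ∑' v, f j v + ∑' j, ∑' v, g j v := by
        intro f g
        rw [← ENNReal.tsum_add]
        refine tsum_congr fun j => ?_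
        rw [ENNReal.tsum_add]
      rw [t3]
      calc _ ≤ ov Λ ht i0 + q * (q ^ N + N * ov Λ ht i0) := add_le_add t1 t2
        _ ≤ ov Λ ht i0 + (q ^ (N + 1) + 1 * (N * ov Λ ht i0)) := by
            rw [mul_add, pow_succ, mul_comm q (q ^ N)]
            gcongr
        _ = q ^ (N + 1) + ((N + 1 : ℕ) : ℝ≥0∞) * ov Λ ht i0 := by
            push_cast
            ring
    · intro j v
      rw [hlaw j v]
      set F : ℕ → G → ℝ≥0∞ := fun i y =>
        if law Λ ht z S i y ≤ th then law Λ ht z (r - S - i) j (v - y) else 0 with hF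
      have p1 : ∀ P, (if fp ht S P then LW Λ P * I P j v else 0)
          ≤ ((if fp ht S P ∧ S + i0 < HT ht P then LW Λ P * I P j v else 0) +
            (if fp ht S P ∧ HT ht P ≤ S + i0 ∧ th < law Λ ht z S (HT ht P - S) (Dp z P)
              then LW Λ P * bb (HT ht P) j (v - Dp z P) else 0)) +
            ((if fp ht S P ∧ HT ht P ≤ S + i0 ∧ th < law Λ ht z S (HT ht P - S) (Dp z P)
              then LW Λ P else 0) * M +
            (if fp ht S P ∧ HT ht P ≤ S + i0 then LW Λ P * F (HT ht P - S) (Dp z P) else 0)) := by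
        intro P
        by_cases hP : fp ht S P
        swap
        · rw [if_neg hP]; exact zero_le
        rw [if_pos hP]
        by_cases hov : S + i0 < HT ht P
        · rw [if_pos ⟨hP, hov⟩]
          exact le_add_right (le_add_right le_rfl)
        have hov' : HT ht P ≤ S + i0 := by omega
        by_cases hd : th < law Λ ht z S (HT ht P - S) (Dp z P)
        · rw [if_neg (fun h => hov h.2), if_pos ⟨hP, hov', hd⟩, if_pos ⟨hP, hov', hd⟩, zero_add,
            hI1 P hov' j v]
          calc LW Λ P * law Λ ht z (r - HT ht P) j (v - Dp z P)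
              ≤ LW Λ P * (M + bb (HT ht P) j (v - Dp z P)) :=
                mul_le_mul_right (hb2 (HT ht P) hov' j _) _
            _ = LW Λ P * bb (HT ht P) j (v - Dp z P) + (LW Λ P * M + 0) := by ring
            _ ≤ _ := by gcongr; exact zero_le
        · rw [if_pos (⟨hP, hov'⟩ : fp ht S P ∧ HT ht P ≤ S + i0), hI1 P hov' j v]
          have hS := le_HT_of_fp ht hP
          have e1 : F (HT ht P - S) (Dp z P) = law Λ ht z (r - HT ht P) j (v - Dp z P) := by
            simp only [hF]
            rw [if_pos (not_lt.1 hd)]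
            congr 1
            omega
          rw [e1]
          exact le_add_left (le_add_left le_rfl)
      have p2 : ∑' P, (if fp ht S P ∧ HT ht P ≤ S + i0 then
          LW Λ P * F (HT ht P - S) (Dp z P) else 0) ≤ (i0 + 1 : ℕ) * th := by
        rw [regroup Λ ht z S i0 F]
        have p3 : ∀ i, ∑' y, (if i ≤ i0 then law Λ ht z S i y * F i y else 0)
            = (if i ≤ i0 then ∑' y, law Λ ht z S i y * F i y else 0) := by
          intro i
          by_cases hi : i ≤ i0 <;> simp [hi]
        rw [tsum_congr p3]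
        refine tsum_le_const i0 _ th fun i hi => ?_
        calc ∑' y, law Λ ht z S i y * F i y
            ≤ ∑' y, th * law Λ ht z (r - S - i) j (v - y) := by
              refine ENNReal.tsum_le_tsum fun y => ?_
              simp only [hF]
              by_cases h : law Λ ht z S i y ≤ th
              · rw [if_pos h]
                exact mul_le_mul_left h _
              · rw [if_neg h, mul_zero]; exact zero_le
          _ = th * ∑' y, law Λ ht z (r - S - i) j y := by
              rw [ENNReal.tsum_mul_left]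
              congr 1
              exact (Equiv.subLeft v).tsum_eq fun y => law Λ ht z (r - S - i) j y
          _ ≤ th * 1 := mul_le_mul_right (law_sum1 Λ ht z _ h1 hΛ j) _
          _ = th := mul_one _
      refine (ENNReal.tsum_le_tsum p1).trans ?_
      rw [ENNReal.tsum_add, ENNReal.tsum_add, ENNReal.tsum_add, ENNReal.tsum_mul_right, add_comm]
      gcongr
      calc (∑' P, (if fp ht S P ∧ HT ht P ≤ S + i0 ∧
              th < law Λ ht z S (HT ht P - S) (Dp z P) then LW Λ P else 0)) * M +
            ∑' P, (if fp ht S P ∧ HT ht P ≤ S + i0 then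
              LW Λ P * F (HT ht P - S) (Dp z P) else 0)
          ≤ q * M + (i0 + 1 : ℕ) * th := add_le_add (mul_le_mul_left hq _) p2
        _ = (i0 + 1 : ℕ) * th + q * M := add_comm _ _
        _ ≤ M := hM

end one

end Crest.Agent.R154.Asm198
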