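import Crest.Agent.R154.B5Abs_566

/-! Row 154, ROAD 801, single walker list machine: first passage lists (helper201). -/

set_option autoImplicit false

namespace Crest.Agent.R154.Asm201

open scoped ENNReal
open Filter Topology Crest.Agent.R154.B5A

variable {B : Type*} (ht : B → ℕ) (Λ : B → ℝ≥0∞)

/-- first passage lists at height `a` -/
def FP : ℕ → List B → Prop
  | a, [] => a = 0
  | a, b :: L => a ≠ 0 ∧ FP (a - ht b) L

lemma FP_nil (a : ℕ) : FP ht a [] ↔ a = 0 := Iff.rfl

lemma FP_cons (a : ℕ) (b : B) (L : List B) : FP ht a (b :: L) ↔ a ≠ 0 ∧ FP ht (a - ht b) L :=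
  Iff.rfl

lemma FP_zero (L : List B) : FP ht 0 L ↔ L = [] := by
  cases L with
  | nil => simp [FP_nil]
  | cons b L => simp [FP_cons]

lemma FP_le {a : ℕ} {L : List B} (h : FP ht a L) : a ≤ HT ht L := by
  induction L generalizing a with
  | nil => rw [FP_nil] at h; omega
  | cons b L ih => rw [HT_cons]; have := ih h.2; omega

lemma FP_append (L R : List B) (a c : ℕ) (h : FP ht a L) (hc : a ≤ c) :
    FP ht c (L ++ R) ↔ FP ht (c - HT ht L) R := by
  induction L generalizing a c with
  | nil => simp [HT_nil]
  | cons b L ih =>
    rw [List.cons_append, FP_cons, ih _ _ h.2 (Nat.sub_le_sub_right hc _), HT_cons]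
    have h0 := h.1
    rw [Nat.sub_sub]
    constructor
    · exact fun h => h.2
    · exact fun h => ⟨by omega, h⟩

lemma FP_of_HT (h1 : ∀ b, 1 ≤ ht b) (L : List B) (a : ℕ) (h : HT ht L = a) : FP ht a L := by
  induction L generalizing a with
  | nil => rw [HT_nil] at h; exact h.symm
  | cons b L ih =>
    rw [HT_cons] at h
    have := h1 b
    exact ⟨by omega, ih _ (by omega)⟩

lemma FP_last (L : List B) (b : B) (a : ℕ) (h : FP ht a (L ++ [b])) : HT ht L < a := by
  induction L generalizing a with
  | nil => rw [HT_nil]; have := h.1; omega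
  | cons c L ih =>
    rw [List.cons_append, FP_cons] at h
    rw [HT_cons]
    have := ih _ h.2
    omega

open Classical in
/-- splitting a list sum at the first passage -/
lemma split (h1 : ∀ b, 1 ≤ ht b) (a : ℕ) (F : List B → ℝ≥0∞) :
    ∑' L, (if a ≤ HT ht L then F L else 0)
      = ∑' T, (if FP ht a T then ∑' R, F (T ++ R) else 0) := by
  induction a using Nat.strong_induction_on generalizing F with
  | _ a ih =>
    rcases Nat.eq_zero_or_pos a with rfl | ha
    · have : ∀ T : List B, (if FP ht 0 T then ∑' R, F (T ++ R) else 0)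
          = if T = [] then ∑' R, F (T ++ R) else 0 := by
        intro T
        by_cases h : T = []
        · rw [if_pos ((FP_zero ht T).2 h), if_pos h]
        · rw [if_neg (fun h' => h ((FP_zero ht T).1 h')), if_neg h]
      simp only [this, Nat.zero_le, if_true]
      symm
      rw [tsum_eq_single ([] : List B) (fun T hT => if_neg hT)]
      simp
    · rw [tsum_list, tsum_list (F := fun T => if FP ht a T then ∑' R, F (T ++ R) else 0)]
      simp only [HT_nil, HT_cons, FP_nil, FP_cons]
      rw [if_neg (by omega), if_neg (by omega), zero_add, zero_add]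
      refine tsum_congr fun b => ?_
      have := ih (a - ht b) (by have := h1 b; omega) (fun L => F (b :: L))
      calc _ = ∑' L, (if a - ht b ≤ HT ht L then F (b :: L) else 0) := by
            refine tsum_congr fun L => ?_
            congr 1
            simp only [eq_iff_iff]; omega
        _ = _ := by
            rw [this]
            refine tsum_congr fun T => ?_
            simp [ha.ne']

open Classical in
lemma fp_mass (h1 : ∀ b, 1 ≤ ht b) (hΛ : ∑' b, Λ b = 1) (a : ℕ) :
    ∑' T, (if FP ht a T then LW Λ T else 0) = 1 := by
  induction a using Nat.strong_induction_on with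
  | _ a ih =>
    rcases Nat.eq_zero_or_pos a with rfl | ha
    · rw [tsum_eq_single ([] : List B)]
      · simp [FP_nil, LW_nil]
      · intro L hL; simp [FP_zero, hL]
    · rw [tsum_list]
      simp only [FP_nil, FP_cons, LW_cons]
      rw [if_neg (by omega), zero_add]
      calc _ = ∑' b, Λ b * ∑' T, (if FP ht (a - ht b) T then LW Λ T else 0) := by
            refine tsum_congr fun b => ?_
            rw [← ENNReal.tsum_mul_left]
            refine tsum_congr fun T => ?_
            by_cases h : FP ht (a - ht b) T
            · simp [h, ha.ne']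
            · simp [h]
        _ = ∑' b, Λ b := by
            refine tsum_congr fun b => ?_
            rw [ih _ (by have := h1 b; omega), mul_one]
        _ = 1 := hΛ

open Classical in
lemma U_le (h1 : ∀ b, 1 ≤ ht b) (hΛ : ∑' b, Λ b = 1) (n : ℕ) :
    ∑' L, (if HT ht L = n then LW Λ L else 0) ≤ 1 := by
  rw [← fp_mass ht Λ h1 hΛ n]
  refine ENNReal.tsum_le_tsum fun L => ?_
  by_cases h : HT ht L = n
  · rw [if_pos h, if_pos (FP_of_HT ht h1 L n h)]
  · simp [h]

/-- overshoot bound -/
noncomputable def e1 (i0 : ℕ) : ℝ≥0∞ := ∑' k, tail Λ ht (k + (i0 + 1))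

open Classical in
lemma overs (h1 : ∀ b, 1 ≤ ht b) (hΛ : ∑' b, Λ b = 1) (a i0 : ℕ) :
    ∑' T, (if FP ht a T ∧ a + i0 < HT ht T then LW Λ T else 0) ≤ e1 ht Λ i0 := by
  have hinj : Function.Injective (fun p : List B × B => p.1 ++ [p.2]) := by
    rintro ⟨a, b⟩ ⟨a', b'⟩ h
    have := List.append_inj' h rfl
    simp only [List.cons.injEq, and_true] at this
    exact Prod.ext this.1 this.2
  have hs : Function.support (fun T : List B =>
      if FP ht a T ∧ a + i0 < HT ht T then LW Λ T else 0)
      ⊆ Set.range (fun p : List B × B => p.1 ++ [p.2]) := by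
    intro L hL
    rcases List.eq_nil_or_concat L with rfl | ⟨L', b, rfl⟩
    · simp [HT_nil] at hL
    · exact ⟨(L', b), by simp⟩
  rw [← hinj.tsum_eq hs, ENNReal.tsum_prod']
  calc _ ≤ ∑' L : List B, ∑ j ∈ Finset.range a,
        (if HT ht L = j then LW Λ L else 0) * tail Λ ht (a + i0 - j) := by
        refine ENNReal.tsum_le_tsum fun L => ?_
        by_cases hL : HT ht L < a
        · refine le_trans ?_ (Finset.single_le_sum (f := fun j =>
            (if HT ht L = j then LW Λ L else 0) * tail Λ ht (a + i0 - j)) (fun _ _ => zero_le)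
            (Finset.mem_range.2 hL))
          simp only [if_true]
          rw [tail, ← ENNReal.tsum_mul_left]
          refine ENNReal.tsum_le_tsum fun b => ?_
          split_ifs with h h'
          · rw [LW_append]; simp [LW]
          · exact absurd h.2 (by rw [HT_append, HT_cons, HT_nil]; omega)
          · exact zero_le
          · exact zero_le
        · refine le_trans (le_of_eq ?_) (zero_le)
          rw [ENNReal.tsum_eq_zero]
          intro b
          rw [if_neg]
          rintro ⟨h, -⟩
          exact hL (FP_last ht L b a h)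
    _ = ∑ j ∈ Finset.range a, (∑' L, if HT ht L = j then LW Λ L else 0)
          * tail Λ ht (a + i0 - j) := by
        rw [Summable.tsum_finsetSum fun _ _ => ENNReal.summable]
        exact Finset.sum_congr rfl fun j _ => ENNReal.tsum_mul_right
    _ ≤ ∑ j ∈ Finset.range a, tail Λ ht ((a - 1 - j) + (i0 + 1)) := by
        refine Finset.sum_le_sum fun j hj => ?_
        have hj' := Finset.mem_range.1 hj
        calc _ ≤ 1 * tail Λ ht (a + i0 - j) := by gcongr; exact U_le ht Λ h1 hΛ j
          _ = _ := by rw [one_mul]; congr 1; omega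
    _ = ∑ j ∈ Finset.range a, tail Λ ht (j + (i0 + 1)) :=
        Finset.sum_range_reflect (fun j => tail Λ ht (j + (i0 + 1))) a
    _ ≤ _ := ENNReal.sum_le_tsum _

lemma e1_tendsto (hΛ : ∑' b, Λ b = 1) (hm : ∑' b, Λ b * (ht b : ℝ≥0∞) ≠ ⊤) :
    Tendsto (e1 ht Λ) atTop (𝓝 0) := by
  rw [sum_tail Λ ht hΛ] at hm
  exact (ENNReal.tendsto_sum_nat_add _ hm).comp (tendsto_add_atTop_nat 1)

open Classical in
/-- the three pieces of a list -/
lemma piece (h1 : ∀ b, 1 ≤ ht b) (hΛ : ∑' b, Λ b = 1) (a l n i0 : ℕ) (hn : a + i0 + l ≤ n)
    (E : List B → Prop) :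
    ∑' L, (if HT ht L = n ∧ E L then LW Λ L else 0)
      ≤ 2 * e1 ht Λ i0 + ∑' T, ∑' P, (if FP ht a T ∧ HT ht T ≤ a + i0 ∧ FP ht l P ∧
          HT ht P ≤ l + i0 ∧ (∃ R, HT ht (T ++ (P ++ R)) = n ∧ E (T ++ (P ++ R)))
          then LW Λ T * LW Λ P else 0) := by
  calc ∑' L, (if HT ht L = n ∧ E L then LW Λ L else 0)
      = ∑' L, (if a ≤ HT ht L then (if HT ht L = n ∧ E L then LW Λ L else 0) else 0) := by
        refine tsum_congr fun L => ?_
        by_cases h : HT ht L = n
        · rw [if_pos (show a ≤ HT ht L by omega)]
        · simp [h]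
    _ = ∑' T, (if FP ht a T then ∑' R, (if HT ht (T ++ R) = n ∧ E (T ++ R)
          then LW Λ (T ++ R) else 0) else 0) := split ht h1 a _
    _ ≤ ∑' T, ((if FP ht a T ∧ a + i0 < HT ht T then LW Λ T else 0)
          + (if FP ht a T then LW Λ T else 0) * e1 ht Λ i0
          + ∑' P, (if FP ht a T ∧ HT ht T ≤ a + i0 ∧ FP ht l P ∧
          HT ht P ≤ l + i0 ∧ (∃ R, HT ht (T ++ (P ++ R)) = n ∧ E (T ++ (P ++ R)))
          then LW Λ T * LW Λ P else 0)) := by
        refine ENNReal.tsum_le_tsum fun T => ?_
        by_cases hT : FP ht a T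
        swap
        · simp [hT]
        by_cases ho : a + i0 < HT ht T
        · rw [if_pos hT, if_pos ⟨hT, ho⟩]
          refine le_trans ?_ (le_add_right (le_add_right le_rfl))
          calc _ ≤ ∑' R, LW Λ T * (if HT ht R = n - HT ht T then LW Λ R else 0) := by
                refine ENNReal.tsum_le_tsum fun R => ?_
                split_ifs with h h'
                · rw [LW_append]
                · rw [HT_append] at h; omega
                · exact zero_le
                · exact zero_le
            _ ≤ LW Λ T * 1 := by
                rw [ENNReal.tsum_mul_left]; gcongr; exact U_le ht Λ h1 hΛ _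
            _ = _ := mul_one _
        · rw [if_pos hT, if_neg (fun h => ho h.2), if_pos hT, zero_add]
          have e : ∑' R, (if HT ht (T ++ R) = n ∧ E (T ++ R) then LW Λ (T ++ R) else 0)
              = ∑' P, (if FP ht l P then ∑' R, (if HT ht (T ++ (P ++ R)) = n ∧
                  E (T ++ (P ++ R)) then LW Λ (T ++ (P ++ R)) else 0) else 0) := by
            rw [← split ht h1 l (fun R => if HT ht (T ++ R) = n ∧ E (T ++ R)
              then LW Λ (T ++ R) else 0)]
            refine tsum_congr fun R => ?_
            by_cases h : HT ht (T ++ R) = n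
            · rw [if_pos (show l ≤ HT ht R by rw [HT_append] at h; omega)]
            · simp [h]
          rw [e]
          calc _ ≤ ∑' P, (LW Λ T * (if FP ht l P ∧ l + i0 < HT ht P then LW Λ P else 0)
                + (if FP ht a T ∧ HT ht T ≤ a + i0 ∧ FP ht l P ∧
          HT ht P ≤ l + i0 ∧ (∃ R, HT ht (T ++ (P ++ R)) = n ∧ E (T ++ (P ++ R)))
          then LW Λ T * LW Λ P else 0)) := by
                refine ENNReal.tsum_le_tsum fun P => ?_
                by_cases hP : FP ht l P
                swap
                · simp [hP]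
                rw [if_pos hP]
                have hb : ∑' R, (if HT ht (T ++ (P ++ R)) = n ∧
                  E (T ++ (P ++ R)) then LW Λ (T ++ (P ++ R)) else 0) ≤ LW Λ T * LW Λ P := by
                  calc _ ≤ ∑' R, LW Λ T * LW Λ P *
                        (if HT ht R = n - HT ht T - HT ht P then LW Λ R else 0) := by
                        refine ENNReal.tsum_le_tsum fun R => ?_
                        split_ifs with h h'
                        · rw [LW_append, LW_append, mul_assoc]
                        · rw [HT_append, HT_append] at h; omega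
                        · exact zero_le
                        · exact zero_le
                    _ ≤ LW Λ T * LW Λ P * 1 := by
                        rw [ENNReal.tsum_mul_left]; gcongr; exact U_le ht Λ h1 hΛ _
                    _ = _ := mul_one _
                by_cases hoP : l + i0 < HT ht P
                · rw [if_pos ⟨hP, hoP⟩]
                  exact hb.trans (le_add_right le_rfl)
                · by_cases hE : ∃ R, HT ht (T ++ (P ++ R)) = n ∧ E (T ++ (P ++ R))
                  · rw [if_pos (show FP ht a T ∧ HT ht T ≤ a + i0 ∧ FP ht l P ∧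
                      HT ht P ≤ l + i0 ∧ (∃ R, HT ht (T ++ (P ++ R)) = n ∧
                      E (T ++ (P ++ R))) from ⟨hT, not_lt.1 ho, hP, not_lt.1 hoP, hE⟩)]
                    exact hb.trans (le_add_left le_rfl)
                  · refine le_trans (le_of_eq ?_) (zero_le)
                    rw [ENNReal.tsum_eq_zero]
                    intro R
                    rw [if_neg]
                    exact fun h => hE ⟨R, h⟩
            _ ≤ _ := by
                rw [ENNReal.tsum_add, ENNReal.tsum_mul_left]
                gcongr
                exact overs ht Λ h1 hΛ l i0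
    _ ≤ _ := by
        rw [ENNReal.tsum_add, ENNReal.tsum_add, ENNReal.tsum_mul_right, fp_mass ht Λ h1 hΛ,
          one_mul, two_mul]
        gcongr
        exact overs ht Λ h1 hΛ a i0

end Crest.Agent.R154.Asm201
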