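import Crest.Agent.R154.B5Abs_566

/-! Row 154 (helper207), ROAD 801, assembly part A: first passage sums over lists of blocks. -/

set_option autoImplicit false

namespace Crest.Agent.R154.Asm207

open scoped ENNReal Topology
open Crest.Agent.R154.B5A

variable {B : Type*} {G : Type*}

/-- first passage of `a` -/
def FP (ht : B → ℕ) : ℕ → List B → Prop
  | a, [] => a = 0
  | a, b :: L => 1 ≤ a ∧ FP ht (a - ht b) L

open Classical in
/-- first passage sum -/
noncomputable def FPS (Λ : B → ℝ≥0∞) (ht : B → ℕ) (a : ℕ) (F : List B → ℝ≥0∞) : ℝ≥0∞ :=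
  ∑' L : List B, if FP ht a L then LW Λ L * F L else 0

variable (Λ : B → ℝ≥0∞) (ht : B → ℕ)

lemma FPS_zero (F : List B → ℝ≥0∞) : FPS Λ ht 0 F = F [] := by
  rw [FPS, tsum_list]
  simp [FP, LW_nil]

lemma FPS_pos {a : ℕ} (ha : 1 ≤ a) (F : List B → ℝ≥0∞) :
    FPS Λ ht a F = ∑' b, Λ b * FPS Λ ht (a - ht b) (fun L => F (b :: L)) := by
  rw [FPS, tsum_list]
  have h0 : ¬ FP ht a [] := by simp only [FP]; omega
  rw [if_neg h0, zero_add]
  refine tsum_congr fun b => ?_
  rw [FPS, ← ENNReal.tsum_mul_left]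
  refine tsum_congr fun L => ?_
  by_cases h : FP ht (a - ht b) L
  · have h' : FP ht a (b :: L) := ⟨ha, h⟩
    rw [if_pos h', if_pos h, LW_cons, mul_assoc]
  · have h' : ¬ FP ht a (b :: L) := fun hh => h hh.2
    rw [if_neg h', if_neg h, mul_zero]

lemma FPS_mono (a : ℕ) {F F' : List B → ℝ≥0∞} (h : ∀ L, FP ht a L → F L ≤ F' L) :
    FPS Λ ht a F ≤ FPS Λ ht a F' := by
  refine ENNReal.tsum_le_tsum fun L => ?_
  by_cases hL : FP ht a L
  · rw [if_pos hL, if_pos hL]; exact mul_le_mul_right (h L hL) _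
  · rw [if_neg hL, if_neg hL]

lemma FPS_congr (a : ℕ) {F F' : List B → ℝ≥0∞} (h : ∀ L, FP ht a L → F L = F' L) :
    FPS Λ ht a F = FPS Λ ht a F' :=
  le_antisymm (FPS_mono Λ ht a fun L hL => (h L hL).le) (FPS_mono Λ ht a fun L hL => (h L hL).ge)

lemma FPS_add (a : ℕ) (F F' : List B → ℝ≥0∞) :
    FPS Λ ht a (fun L => F L + F' L) = FPS Λ ht a F + FPS Λ ht a F' := by
  rw [FPS, FPS, FPS, ← ENNReal.tsum_add]
  refine tsum_congr fun L => ?_
  by_cases hL : FP ht a L
  · simp only [if_pos hL, mul_add]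
  · simp only [if_neg hL, add_zero]

lemma FPS_const_mul (a : ℕ) (c : ℝ≥0∞) (F : List B → ℝ≥0∞) :
    FPS Λ ht a (fun L => c * F L) = c * FPS Λ ht a F := by
  rw [FPS, FPS, ← ENNReal.tsum_mul_left]
  refine tsum_congr fun L => ?_
  by_cases hL : FP ht a L
  · simp only [if_pos hL]; ring
  · simp only [if_neg hL, mul_zero]

lemma FPS_tsum {ι : Type*} (a : ℕ) (F : ι → List B → ℝ≥0∞) :
    FPS Λ ht a (fun L => ∑' i, F i L) = ∑' i, FPS Λ ht a (F i) := by
  simp only [FPS]
  rw [ENNReal.tsum_comm]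
  refine tsum_congr fun L => ?_
  by_cases hL : FP ht a L
  · simp only [if_pos hL, ENNReal.tsum_mul_left]
  · simp only [if_neg hL, tsum_zero]

lemma FPS_one (h1 : ∀ b, 1 ≤ ht b) (hΛ : ∑' b, Λ b = 1) (a : ℕ) :
    FPS Λ ht a (fun _ => 1) = 1 := by
  induction a using Nat.strong_induction_on with
  | _ a ih =>
    rcases Nat.eq_zero_or_pos a with rfl | ha
    · rw [FPS_zero]
    · rw [FPS_pos Λ ht ha]
      calc _ = ∑' b, Λ b * 1 := tsum_congr fun b => by
            rw [ih (a - ht b) (by have := h1 b; omega)]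
        _ = 1 := by simp [hΛ]

lemma FPS_le_one (h1 : ∀ b, 1 ≤ ht b) (hΛ : ∑' b, Λ b = 1) (a : ℕ) {F : List B → ℝ≥0∞}
    (hF : ∀ L, F L ≤ 1) : FPS Λ ht a F ≤ 1 :=
  (FPS_mono Λ ht a fun L _ => hF L).trans (FPS_one Λ ht h1 hΛ a).le

lemma FP_le {a : ℕ} {L : List B} (h : FP ht a L) : a ≤ HT ht L := by
  induction L generalizing a with
  | nil => simp only [FP] at h; omega
  | cons b L ih =>
    have := ih h.2
    rw [HT_cons]; omega

/-- every list of height `≥ a` starts with a first passage of `a` -/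
lemma sum_le_FPS (h1 : ∀ b, 1 ≤ ht b) (a : ℕ) (F : List B → ℝ≥0∞) :
    ∑' L : List B, (if a ≤ HT ht L then LW Λ L * F L else 0)
      ≤ FPS Λ ht a (fun L1 => ∑' L2, LW Λ L2 * F (L1 ++ L2)) := by
  induction a using Nat.strong_induction_on generalizing F with
  | _ a ih =>
    rcases Nat.eq_zero_or_pos a with rfl | ha
    · rw [FPS_zero]
      simp
    · rw [FPS_pos Λ ht ha, tsum_list]
      have h0 : ¬ a ≤ HT ht ([] : List B) := by rw [HT_nil]; omega
      rw [if_neg h0, zero_add]
      refine ENNReal.tsum_le_tsum fun b => ?_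
      have hb := h1 b
      refine le_trans ?_ (mul_le_mul_right (ih (a - ht b) (by omega) (fun L => F (b :: L))) _)
      rw [← ENNReal.tsum_mul_left]
      refine ENNReal.tsum_le_tsum fun L => ?_
      by_cases h : a ≤ HT ht (b :: L)
      · have h' : a - ht b ≤ HT ht L := by rw [HT_cons] at h; omega
        rw [if_pos h, if_pos h', LW_cons, mul_assoc]
      · rw [if_neg h]; exact zero_le

/-- composition of first passages -/
lemma FPS_mul (h1 : ∀ b, 1 ≤ ht b) (s : ℕ) : ∀ n, s ≤ n → ∀ F : List B → ℝ≥0∞,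
    FPS Λ ht n F = FPS Λ ht s (fun A => FPS Λ ht (n - HT ht A) (fun L => F (A ++ L))) := by
  induction s using Nat.strong_induction_on with
  | _ s ih =>
    intro n hn F
    rcases Nat.eq_zero_or_pos s with rfl | hs
    · rw [FPS_zero]
      simp [HT_nil]
    · rw [FPS_pos Λ ht hs, FPS_pos Λ ht (by omega : 1 ≤ n)]
      refine tsum_congr fun b => ?_
      have hb := h1 b
      rw [ih (s - ht b) (by omega) (n - ht b) (by omega) (fun L => F (b :: L))]
      congr 1
      refine FPS_congr Λ ht _ fun A _ => ?_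
      rw [HT_cons, Nat.sub_sub]
      rfl

/-- last step decomposition -/
lemma FPS_last (h1 : ∀ b, 1 ≤ ht b) (a : ℕ) : ∀ F : List B → ℝ≥0∞, 1 ≤ a →
    FPS Λ ht a F ≤ ∑' L : List B, (if HT ht L < a then
      LW Λ L * ∑' b, (if a ≤ HT ht L + ht b then Λ b * F (L ++ [b]) else 0) else 0) := by
  induction a using Nat.strong_induction_on with
  | _ a ih =>
    intro F ha
    rw [FPS_pos Λ ht ha, tsum_list]
    have h0 : HT ht ([] : List B) < a := by rw [HT_nil]; omega
    rw [if_pos h0]
    have e1 : ∀ b, Λ b * FPS Λ ht (a - ht b) (fun L => F (b :: L))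
        ≤ (if a ≤ HT ht ([] : List B) + ht b then Λ b * F ([] ++ [b]) else 0)
          + ∑' L : List B, (if HT ht (b :: L) < a then
      LW Λ (b :: L) * ∑' b', (if a ≤ HT ht (b :: L) + ht b' then Λ b' * F (b :: L ++ [b']) else 0)
      else 0) := by
      intro b
      have hb := h1 b
      by_cases hab : a ≤ ht b
      · have h2 : a ≤ HT ht ([] : List B) + ht b := by rw [HT_nil]; omega
        rw [if_pos h2, Nat.sub_eq_zero_of_le hab, FPS_zero]
        exact le_self_add
      · refine le_trans ?_ le_add_self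
        refine le_trans (mul_le_mul_right (ih (a - ht b) (by omega) (fun L => F (b :: L))
          (by omega)) _) ?_
        rw [← ENNReal.tsum_mul_left]
        refine ENNReal.tsum_le_tsum fun L => ?_
        by_cases h : HT ht L < a - ht b
        · have h' : HT ht (b :: L) < a := by rw [HT_cons]; omega
          rw [if_pos h, if_pos h', LW_cons, ← mul_assoc]
          refine mul_le_mul_right (ENNReal.tsum_le_tsum fun b' => ?_) _
          by_cases h2 : a - ht b ≤ HT ht L + ht b'
          · have h3 : a ≤ HT ht (b :: L) + ht b' := by rw [HT_cons]; omega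
            rw [if_pos h2, if_pos h3]
            rfl
          · rw [if_neg h2]; exact zero_le
        · rw [if_neg h, mul_zero]; exact zero_le
    refine (ENNReal.tsum_le_tsum e1).trans ?_
    rw [ENNReal.tsum_add]
    simp only [LW_nil, one_mul]
    exact le_rfl

/-- overshoot tail -/
noncomputable def ov (i0 : ℕ) : ℝ≥0∞ := ∑' k, tail Λ ht (k + i0)

open Classical in
lemma FPS_over (h1 : ∀ b, 1 ≤ ht b) (hU1 : ∀ n, U Λ ht n ≤ 1) (a i0 : ℕ) :
    FPS Λ ht a (fun L => if a + i0 < HT ht L then 1 else 0) ≤ ov Λ ht i0 := by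
  rcases Nat.eq_zero_or_pos a with rfl | ha
  · rw [FPS_zero]
    simp [HT_nil]
  · refine (FPS_last Λ ht h1 a _ ha).trans ?_
    have e1 : ∀ L : List B, (if HT ht L < a then
      LW Λ L * ∑' b, (if a ≤ HT ht L + ht b then Λ b *
        (if a + i0 < HT ht (L ++ [b]) then 1 else 0) else 0) else 0)
        ≤ ∑' c, (if HT ht L = c then LW Λ L else 0) * (if c < a then tail Λ ht (a + i0 - c) else 0)
        := by
      intro L
      by_cases h : HT ht L < a
      · rw [if_pos h]
        refine le_trans ?_ (ENNReal.le_tsum (HT ht L))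
        rw [if_pos rfl, if_pos h]
        refine mul_le_mul_right ?_ _
        rw [tail]
        refine ENNReal.tsum_le_tsum fun b => ?_
        by_cases h2 : a + i0 < HT ht (L ++ [b])
        · have h3 : a + i0 - HT ht L < ht b := by
            rw [HT_append, HT_cons, HT_nil] at h2; omega
          rw [if_pos h2, if_pos h3, mul_one]
          split_ifs <;> simp
        · rw [if_neg h2, mul_zero]
          simp
      · rw [if_neg h]; exact zero_le
    refine (ENNReal.tsum_le_tsum e1).trans ?_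
    rw [ENNReal.tsum_comm]
    have e2 : ∀ c, ∑' L : List B, (if HT ht L = c then LW Λ L else 0) *
        (if c < a then tail Λ ht (a + i0 - c) else 0) ≤ (if c < a then tail Λ ht (a + i0 - c) else 0) := by
      intro c
      rw [ENNReal.tsum_mul_right]
      exact mul_le_of_le_one_left zero_le (hU1 c)
    refine (ENNReal.tsum_le_tsum e2).trans ?_
    rw [tsum_eq_sum (s := Finset.range a) (fun c hc => by
      rw [Finset.mem_range] at hc; rw [if_neg hc])]
    rw [ov]
    calc ∑ c ∈ Finset.range a, (if c < a then tail Λ ht (a + i0 - c) else 0)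
        = ∑ c ∈ Finset.range a, tail Λ ht (a + i0 - c) := Finset.sum_congr rfl fun c hc => by
          rw [if_pos (Finset.mem_range.1 hc)]
      _ = ∑ c ∈ Finset.range a, tail Λ ht ((a - 1 - c) + 1 + i0) := Finset.sum_congr rfl fun c hc => by
          have := Finset.mem_range.1 hc
          congr 1; omega
      _ = ∑ c ∈ Finset.range a, tail Λ ht (c + 1 + i0) :=
          Finset.sum_range_reflect (fun c => tail Λ ht (c + 1 + i0)) a
      _ ≤ ∑ c ∈ Finset.range (a + 1), tail Λ ht (c + i0) := by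
          rw [Finset.sum_range_succ']
          exact le_self_add
      _ ≤ _ := ENNReal.sum_le_tsum _

lemma ov_tendsto (hm : ∑' b, Λ b * (ht b : ℝ≥0∞) ≠ ⊤) (hΛ : ∑' b, Λ b = 1) :
    Filter.Tendsto (ov Λ ht) Filter.atTop (𝓝 0) := by
  have h := sum_tail Λ ht hΛ
  exact ENNReal.tendsto_sum_nat_add (tail Λ ht) (by rw [← h]; exact hm)

end Crest.Agent.R154.Asm207
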