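import Crest.Agent.R154.B5Abs_566

/-! Row 154, road 801 (helper222): lists, first passage functional `SF`, traces. -/

set_option autoImplicit false
set_option linter.unusedSectionVars false

namespace Crest.Agent.R154.Asm222

open scoped ENNReal
open Crest.Agent.R154.B5A

variable {B G : Type*} [AddCommGroup G]

/-- total displacement -/
def Dp (z : B → G) (L : List B) : G := (L.map z).sum

/-- trace of a list placed at `x`, depth `a` -/
def TT (h : B → ℕ) (z : B → G) (s : B → Set (G × ℕ)) : List B → G → ℕ → Set (G × ℕ)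
  | [], _, _ => ∅
  | b :: L, x, a => {p | ∃ q ∈ s b, p = (x + q.1, a + q.2)} ∪ TT h z s L (x + z b) (a + h b)

lemma Dp_nil (z : B → G) : Dp z [] = 0 := by simp [Dp]

lemma Dp_cons (z : B → G) (b : B) (L : List B) : Dp z (b :: L) = z b + Dp z L := by simp [Dp]

lemma Dp_append (z : B → G) (L L' : List B) : Dp z (L ++ L') = Dp z L + Dp z L' := by simp [Dp]

lemma TT_append (h : B → ℕ) (z : B → G) (s : B → Set (G × ℕ)) (L L' : List B) (x : G) (a : ℕ) :
    TT h z s (L ++ L') x a = TT h z s L x a ∪ TT h z s L' (x + Dp z L) (a + HT h L) := by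
  induction L generalizing x a with
  | nil => simp [TT, Dp_nil, HT_nil]
  | cons b L ih =>
    simp only [List.cons_append, TT]
    rw [ih, Dp_cons, HT_cons, Set.union_assoc, add_assoc, add_assoc]

lemma TT_depth (h : B → ℕ) (z : B → G) (s : B → Set (G × ℕ))
    (hs : ∀ b, ∀ p ∈ s b, 1 ≤ p.2 ∧ p.2 ≤ h b) (L : List B) (x : G) (a : ℕ) (p : G × ℕ)
    (hp : p ∈ TT h z s L x a) : a < p.2 ∧ p.2 ≤ a + HT h L := by
  induction L generalizing x a with
  | nil => simp [TT] at hp
  | cons b L ih =>
    rw [HT_cons]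
    rcases hp with ⟨q, hq, rfl⟩ | hp
    · have := hs b q hq
      simp only
      omega
    · have := ih _ _ hp
      omega

lemma TT_shift (h : B → ℕ) (z : B → G) (s : B → Set (G × ℕ)) (L : List B) (x y : G) (a : ℕ)
    (p : G × ℕ) : p ∈ TT h z s L (x + y) a ↔ (p.1 - y, p.2) ∈ TT h z s L x a := by
  induction L generalizing x a with
  | nil => simp [TT]
  | cons b L ih =>
    simp only [TT, Set.mem_union, Set.mem_ofPred_eq]
    have e : x + y + z b = x + z b + y := by abel
    rw [e, ih]
    refine or_congr ?_ Iff.rfl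
    constructor
    · rintro ⟨q, hq, rfl⟩
      refine ⟨q, hq, ?_⟩
      ext <;> simp
      abel
    · rintro ⟨q, hq, he⟩
      refine ⟨q, hq, ?_⟩
      rw [Prod.ext_iff] at he ⊢
      refine ⟨?_, he.2⟩
      have h1 : p.1 - y = x + q.1 := he.1
      change p.1 = x + y + q.1
      rw [← sub_add_cancel p.1 y, h1]
      abel

/-- first passage of height `a` -/
def FP (h : B → ℕ) : ℕ → List B → Prop
  | a, [] => a = 0
  | a, b :: L => a ≠ 0 ∧ FP h (a - h b) L

lemma FP_le (h : B → ℕ) (L : List B) (a : ℕ) (hL : FP h a L) : a ≤ HT h L := by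
  induction L generalizing a with
  | nil => simp only [FP] at hL; omega
  | cons b L ih =>
    rw [HT_cons]
    have := ih _ hL.2
    omega

open Classical in
/-- first passage functional -/
noncomputable def SF (Λ : B → ℝ≥0∞) (h : B → ℕ) (a : ℕ) (F : List B → ℝ≥0∞) : ℝ≥0∞ :=
  ∑' A : List B, if FP h a A then LW Λ A * F A else 0

variable (Λ : B → ℝ≥0∞) (h : B → ℕ)

lemma SF_zero (F : List B → ℝ≥0∞) : SF Λ h 0 F = F [] := by
  rw [SF, tsum_list]
  simp [FP, LW_nil]

lemma SF_succ (a : ℕ) (ha : a ≠ 0) (F : List B → ℝ≥0∞) :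
    SF Λ h a F = ∑' b, Λ b * SF Λ h (a - h b) (fun A => F (b :: A)) := by
  classical
  rw [SF, tsum_list]
  simp only [FP, ha, if_false, zero_add, ne_eq, not_false_eq_true, true_and]
  refine tsum_congr fun b => ?_
  rw [SF, ← ENNReal.tsum_mul_left]
  refine tsum_congr fun L => ?_
  by_cases hL : FP h (a - h b) L
  · simp [hL, LW_cons, mul_assoc]
  · simp [hL]

lemma SF_mono (a : ℕ) {F F' : List B → ℝ≥0∞} (hF : ∀ L, FP h a L → F L ≤ F' L) :
    SF Λ h a F ≤ SF Λ h a F' := by
  classical
  refine ENNReal.tsum_le_tsum fun L => ?_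
  by_cases hL : FP h a L
  · simp only [hL, if_true]; exact mul_le_mul_right (hF L hL) _
  · simp [hL]

lemma SF_add (a : ℕ) (F F' : List B → ℝ≥0∞) :
    SF Λ h a (fun L => F L + F' L) = SF Λ h a F + SF Λ h a F' := by
  classical
  rw [SF, SF, SF, ← ENNReal.tsum_add]
  refine tsum_congr fun L => ?_
  by_cases hL : FP h a L
  · simp [hL, mul_add]
  · simp [hL]

lemma SF_const_mul (a : ℕ) (c : ℝ≥0∞) (F : List B → ℝ≥0∞) :
    SF Λ h a (fun L => c * F L) = c * SF Λ h a F := by
  classical
  rw [SF, SF, ← ENNReal.tsum_mul_left]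
  refine tsum_congr fun L => ?_
  by_cases hL : FP h a L
  · simp [hL, mul_left_comm]
  · simp [hL]

lemma SF_one (h1 : ∀ b, 1 ≤ h b) (hΛ : ∑' b, Λ b = 1) (a : ℕ) : SF Λ h a (fun _ => 1) = 1 := by
  induction a using Nat.strong_induction_on with
  | _ a ih =>
    by_cases ha : a = 0
    · subst ha; rw [SF_zero]
    · rw [SF_succ Λ h a ha]
      refine Eq.trans (tsum_congr fun b => ?_) hΛ
      rw [ih (a - h b) (by have := h1 b; omega), mul_one]

lemma SF_le_const (h1 : ∀ b, 1 ≤ h b) (hΛ : ∑' b, Λ b = 1) (a : ℕ) (c : ℝ≥0∞)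
    {F : List B → ℝ≥0∞} (hF : ∀ L, FP h a L → F L ≤ c) : SF Λ h a F ≤ c := by
  calc SF Λ h a F ≤ SF Λ h a (fun _ => c * 1) := SF_mono Λ h a fun L hL => by
        rw [mul_one]; exact hF L hL
    _ = c := by rw [SF_const_mul, SF_one Λ h h1 hΛ, mul_one]

/-- splitting off a shorter first passage -/
lemma SF_split (h1 : ∀ b, 1 ≤ h b) (a c : ℕ) (hac : a ≤ c) (F : List B → ℝ≥0∞) :
    SF Λ h c F = SF Λ h a (fun P => SF Λ h (c - HT h P) (fun A => F (P ++ A))) := by
  induction a using Nat.strong_induction_on generalizing c F with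
  | _ a ih =>
    by_cases ha : a = 0
    · subst ha
      rw [SF_zero]
      simp [HT_nil]
    · rw [SF_succ Λ h a ha, SF_succ Λ h c (by omega)]
      refine tsum_congr fun b => ?_
      rw [ih (a - h b) (by have := h1 b; omega) (c - h b) (by omega)]
      congr 1
      refine congrArg _ (funext fun P => ?_)
      rw [HT_cons, Nat.sub_add_eq]
      rfl

open Classical in
/-- splitting all lists of height at least `a` -/
lemma tsum_split (h1 : ∀ b, 1 ≤ h b) (a : ℕ) (F : List B → ℝ≥0∞) :
    ∑' L, (if a ≤ HT h L then LW Λ L * F L else 0)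
      = SF Λ h a (fun A => ∑' R, LW Λ R * F (A ++ R)) := by
  induction a using Nat.strong_induction_on generalizing F with
  | _ a ih =>
    by_cases ha : a = 0
    · subst ha
      rw [SF_zero]
      simp
    · rw [SF_succ Λ h a ha, tsum_list, HT_nil, if_neg (by omega), zero_add]
      refine tsum_congr fun b => ?_
      have := ih (a - h b) (by have := h1 b; omega) (fun A => F (b :: A))
      simp only [List.cons_append]
      rw [← this, ← ENNReal.tsum_mul_left]
      refine tsum_congr fun L => ?_
      rw [HT_cons]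
      by_cases hh : a ≤ h b + HT h L
      · rw [if_pos hh, if_pos (by omega), LW_cons, mul_assoc]
      · rw [if_neg hh, if_neg (by omega), mul_zero]

open Classical in
/-- cutting a list of height `n` at `c`, then at `T`, single walker. -/
lemma cut (h1 : ∀ b, 1 ≤ h b) (hΛ : ∑' b, Λ b = 1) (hU : ∀ n, U Λ h n ≤ 1)
    (c T i0 n : ℕ) (hn : c + i0 + T ≤ n) (ε : ℝ≥0∞)
    (hc : SF Λ h c (fun A => if c + i0 < HT h A then 1 else 0) ≤ ε)
    (hT : SF Λ h T (fun A => if T + i0 < HT h A then 1 else 0) ≤ ε)
    (F : List B → ℝ≥0∞) (hF : ∀ L, F L ≤ 1) (H : List B → List B → ℝ≥0∞)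
    (hH : ∀ A P R, FP h c A → FP h T P → HT h A ≤ c + i0 → HT h P ≤ T + i0 →
      F (A ++ (P ++ R)) ≤ H A P) :
    ∑' L, (if HT h L = n then LW Λ L * F L else 0)
      ≤ SF Λ h c (fun A => SF Λ h T (fun P => H A P)) + 2 * ε := by
  have hUn : ∀ (m k : ℕ) (G : List B → ℝ≥0∞), (∀ L, G L ≤ 1) →
      ∑' R, LW Λ R * (if m + HT h R = k then G R else 0) ≤ 1 := by
    intro m k G hG
    by_cases hmk : m ≤ k
    · refine le_trans (ENNReal.tsum_le_tsum fun R => ?_) (hU (k - m))
      by_cases hh : m + HT h R = k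
      · rw [if_pos hh, if_pos (by omega)]
        exact mul_le_of_le_one_right zero_le (hG R)
      · rw [if_neg hh, mul_zero]; exact zero_le
    · refine le_trans (le_of_eq ?_) zero_le
      rw [ENNReal.tsum_eq_zero]
      intro R
      rw [if_neg (by omega), mul_zero]
  have e1 : ∑' L, (if HT h L = n then LW Λ L * F L else 0)
      = ∑' L, (if c ≤ HT h L then LW Λ L * (if HT h L = n then F L else 0) else 0) := by
    refine tsum_congr fun L => ?_
    by_cases hL : HT h L = n
    · rw [if_pos hL, if_pos (by omega), if_pos hL]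
    · rw [if_neg hL]
      simp [hL]
  rw [e1, tsum_split Λ h h1 c]
  have key : ∀ A, FP h c A → ∑' R, LW Λ R * (if HT h (A ++ R) = n then F (A ++ R) else 0)
      ≤ SF Λ h T (fun P => H A P) + (ε + (if c + i0 < HT h A then 1 else 0)) := by
    intro A hA
    by_cases hb : c + i0 < HT h A
    · refine le_add_left (le_add_left ?_)
      rw [if_pos hb]
      simp only [HT_append]
      exact hUn (HT h A) n (fun R => F (A ++ R)) fun R => hF _
    · rw [if_neg hb, add_zero]
      have e2 : ∑' R, LW Λ R * (if HT h (A ++ R) = n then F (A ++ R) else 0)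
          = ∑' R, (if T ≤ HT h R then
              LW Λ R * (if HT h (A ++ R) = n then F (A ++ R) else 0) else 0) := by
        refine tsum_congr fun R => ?_
        by_cases hR : T ≤ HT h R
        · rw [if_pos hR]
        · rw [if_neg hR, if_neg (by rw [HT_append]; omega), mul_zero]
      rw [e2, tsum_split Λ h h1 T]
      have e3 : ∀ P, FP h T P →
          ∑' R, LW Λ R * (if HT h (A ++ (P ++ R)) = n then F (A ++ (P ++ R)) else 0)
          ≤ H A P + (if T + i0 < HT h P then 1 else 0) := by
        intro P hP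
        by_cases hb' : T + i0 < HT h P
        · rw [if_pos hb']
          refine le_add_left ?_
          simp only [HT_append, ← add_assoc]
          exact hUn (HT h A + HT h P) n (fun R => F (A ++ (P ++ R))) fun R => hF _
        · rw [if_neg hb', add_zero]
          calc ∑' R, LW Λ R * (if HT h (A ++ (P ++ R)) = n then F (A ++ (P ++ R)) else 0)
              ≤ ∑' R, H A P * (LW Λ R * (if HT h A + HT h P + HT h R = n then 1 else 0)) := by
                refine ENNReal.tsum_le_tsum fun R => ?_
                rw [HT_append, HT_append, ← add_assoc]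
                by_cases hh : HT h A + HT h P + HT h R = n
                · rw [if_pos hh, if_pos hh, mul_one, mul_comm]
                  exact mul_le_mul_left (hH A P R hA hP (by omega) (by omega)) _
                · rw [if_neg hh, mul_zero]; exact zero_le
            _ = H A P * ∑' R, (LW Λ R * (if HT h A + HT h P + HT h R = n then 1 else 0)) :=
                ENNReal.tsum_mul_left
            _ ≤ H A P := mul_le_of_le_one_right zero_le
                (hUn (HT h A + HT h P) n (fun _ => 1) fun _ => le_rfl)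
      calc _ ≤ SF Λ h T (fun P => H A P + (if T + i0 < HT h P then 1 else 0)) :=
            SF_mono Λ h T e3
        _ = SF Λ h T (fun P => H A P) + SF Λ h T (fun P => if T + i0 < HT h P then 1 else 0) :=
            SF_add Λ h T _ _
        _ ≤ _ := by gcongr
  calc _ ≤ SF Λ h c (fun A => SF Λ h T (fun P => H A P)
        + (ε + (if c + i0 < HT h A then 1 else 0))) := SF_mono Λ h c key
    _ = SF Λ h c (fun A => SF Λ h T (fun P => H A P))
        + (SF Λ h c (fun _ => ε) + SF Λ h c (fun A => if c + i0 < HT h A then 1 else 0)) := by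
        rw [SF_add, SF_add]
    _ ≤ SF Λ h c (fun A => SF Λ h T (fun P => H A P)) + (ε + ε) := by
        gcongr
        exact SF_le_const Λ h h1 hΛ c ε fun _ _ => le_rfl
    _ = _ := by rw [two_mul]

end Crest.Agent.R154.Asm222
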