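import Crest.Agent.R154.B5Abs_566

/-! Row 154, ROAD 801 (helper224): first passage lists, overshoot, density of the first passage law. -/

set_option autoImplicit false

namespace Crest.Agent.R154.Asm224

open scoped ENNReal
open Crest.Agent.R154.B5A

variable {B : Type*}

/-- first passage of height `a` -/
def FP (ht : B → ℕ) : ℕ → List B → Prop
  | a, [] => a = 0
  | a, b :: L => a ≠ 0 ∧ FP ht (a - ht b) L

lemma FP_zero (ht : B → ℕ) (L : List B) : FP ht 0 L ↔ L = [] := by
  cases L <;> simp [FP]

lemma FP_cons (ht : B → ℕ) (a : ℕ) (b : B) (L : List B) :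
    FP ht a (b :: L) ↔ a ≠ 0 ∧ FP ht (a - ht b) L := by simp [FP]

lemma FP_le (ht : B → ℕ) (L : List B) : ∀ a, FP ht a L → a ≤ HT ht L := by
  induction L with
  | nil => intro a h; simp [FP] at h; simp [h]
  | cons b L ih =>
    intro a h
    rw [FP_cons] at h
    have := ih _ h.2
    rw [HT_cons]; omega

open Classical in
lemma tsum_FP_zero (ht : B → ℕ) (F : List B → ℝ≥0∞) :
    ∑' A : List B, (if FP ht 0 A then F A else 0) = F [] := by
  rw [tsum_eq_single []]
  · simp [FP]
  · intro A hA; rw [if_neg]; rw [FP_zero]; exact hA

open Classical in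
lemma tsum_FP_pos (ht : B → ℕ) (a : ℕ) (ha : a ≠ 0) (F : List B → ℝ≥0∞) :
    ∑' A : List B, (if FP ht a A then F A else 0)
      = ∑' b, ∑' A : List B, (if FP ht (a - ht b) A then F (b :: A) else 0) := by
  rw [tsum_list]
  have h0 : ¬ FP ht a [] := by simpa [FP] using ha
  rw [if_neg h0, zero_add]
  refine tsum_congr fun b => tsum_congr fun A => ?_
  simp [FP_cons, ha]

open Classical in
/-- splitting at the first passage -/
lemma fp_split (ht : B → ℕ) (h1 : ∀ b, 1 ≤ ht b) (a : ℕ) : ∀ F : List B → ℝ≥0∞,
    ∑' L : List B, (if a ≤ HT ht L then F L else 0)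
      ≤ ∑' A : List B, (if FP ht a A then ∑' R, F (A ++ R) else 0) := by
  induction a using Nat.strong_induction_on with
  | _ a ih =>
    intro F
    by_cases ha : a = 0
    · subst ha
      rw [tsum_FP_zero]
      simp
    · rw [tsum_FP_pos ht a ha, tsum_list]
      have h0 : ¬ a ≤ HT ht ([] : List B) := by simp [HT]; omega
      rw [if_neg h0, zero_add]
      refine ENNReal.tsum_le_tsum fun b => ?_
      have hlt : a - ht b < a := by have := h1 b; omega
      refine le_trans (le_of_eq ?_) ((ih _ hlt (fun L => F (b :: L))).trans (le_of_eq ?_))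
      · refine tsum_congr fun L => ?_
        rw [HT_cons]
        have : a ≤ ht b + HT ht L ↔ a - ht b ≤ HT ht L := by omega
        simp only [this]
      · rfl

open Classical in
lemma fp_mass (Λ : B → ℝ≥0∞) (ht : B → ℕ) (h1 : ∀ b, 1 ≤ ht b) (hΛ : ∑' b, Λ b = 1) (a : ℕ) :
    ∑' A : List B, (if FP ht a A then LW Λ A else 0) = 1 := by
  induction a using Nat.strong_induction_on with
  | _ a ih =>
    by_cases ha : a = 0
    · subst ha; rw [tsum_FP_zero, LW_nil]
    · rw [tsum_FP_pos ht a ha, ← hΛ]
      refine tsum_congr fun b => ?_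
      have hlt : a - ht b < a := by have := h1 b; omega
      calc ∑' A : List B, (if FP ht (a - ht b) A then LW Λ (b :: A) else 0)
          = ∑' A : List B, Λ b * (if FP ht (a - ht b) A then LW Λ A else 0) := by
            refine tsum_congr fun A => ?_
            rw [LW_cons]; split_ifs <;> simp
        _ = Λ b * 1 := by rw [ENNReal.tsum_mul_left, ih _ hlt]
        _ = Λ b := mul_one _

open Classical in
/-- overshoot, first form -/
lemma fp_over_aux (Λ : B → ℝ≥0∞) (ht : B → ℕ) (h1 : ∀ b, 1 ≤ ht b) (i0 : ℕ) (a : ℕ) :
    ∑' A : List B, (if FP ht a A ∧ a + i0 < HT ht A then LW Λ A else 0)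
      ≤ ∑' A : List B, ∑' b, (if HT ht A < a ∧ a + i0 < HT ht A + ht b then LW Λ A * Λ b else 0) := by
  induction a using Nat.strong_induction_on with
  | _ a ih =>
    by_cases ha : a = 0
    · subst ha
      refine le_trans (le_of_eq ?_) zero_le
      rw [ENNReal.tsum_eq_zero]
      intro A
      rw [if_neg]
      rintro ⟨hA, hlt⟩
      rw [FP_zero] at hA
      subst hA
      simp [HT] at hlt
    · have e0 : ∑' A : List B, (if FP ht a A ∧ a + i0 < HT ht A then LW Λ A else 0)
          = ∑' A : List B, (if FP ht a A then (if a + i0 < HT ht A then LW Λ A else 0) else 0) := by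
        refine tsum_congr fun A => ?_
        by_cases h : FP ht a A <;> simp [h]
      rw [e0, tsum_FP_pos ht a ha, tsum_list (fun A => ∑' b, (if HT ht A < a ∧
        a + i0 < HT ht A + ht b then LW Λ A * Λ b else 0))]
      rw [← ENNReal.tsum_add]
      refine ENNReal.tsum_le_tsum fun b => ?_
      have hlt : a - ht b < a := by have := h1 b; omega
      by_cases hb : a ≤ ht b
      · -- the block `b` ends the passage
        have hz : a - ht b = 0 := by omega
        rw [hz, tsum_FP_zero]
        refine le_trans ?_ le_self_add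
        simp only [HT_nil, LW_nil, one_mul, HT_cons, LW_cons, mul_one, add_zero, zero_add]
        have : 0 < a := by omega
        simp [this]
      · refine le_trans ?_ le_add_self
        have hih := ih _ hlt
        calc ∑' A : List B, (if FP ht (a - ht b) A then
              (if a + i0 < HT ht (b :: A) then LW Λ (b :: A) else 0) else 0)
            = Λ b * ∑' A : List B, (if FP ht (a - ht b) A ∧ (a - ht b) + i0 < HT ht A
                then LW Λ A else 0) := by
              rw [← ENNReal.tsum_mul_left]
              refine tsum_congr fun A => ?_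
              rw [HT_cons, LW_cons]
              have e : a + i0 < ht b + HT ht A ↔ (a - ht b) + i0 < HT ht A := by omega
              by_cases h : FP ht (a - ht b) A <;> by_cases h' : (a - ht b) + i0 < HT ht A <;>
                simp [h, h', e]
          _ ≤ Λ b * ∑' A : List B, ∑' b', (if HT ht A < a - ht b ∧ (a - ht b) + i0 < HT ht A + ht b'
                then LW Λ A * Λ b' else 0) := by gcongr
          _ = ∑' A : List B, ∑' b', (if HT ht (b :: A) < a ∧ a + i0 < HT ht (b :: A) + ht b'
                then LW Λ (b :: A) * Λ b' else 0) := by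
              rw [← ENNReal.tsum_mul_left]
              refine tsum_congr fun A => ?_
              rw [← ENNReal.tsum_mul_left]
              refine tsum_congr fun b' => ?_
              rw [HT_cons, LW_cons]
              have e1 : ht b + HT ht A < a ↔ HT ht A < a - ht b := by omega
              have e2 : a + i0 < ht b + HT ht A + ht b' ↔ (a - ht b) + i0 < HT ht A + ht b' := by
                omega
              by_cases h : HT ht A < a - ht b <;> by_cases h' : (a - ht b) + i0 < HT ht A + ht b' <;>
                simp [h, h', e1, e2, mul_assoc]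

open Classical in
/-- overshoot -/
lemma fp_over (Λ : B → ℝ≥0∞) (ht : B → ℕ) (h1 : ∀ b, 1 ≤ ht b) (hU : ∀ n, U Λ ht n ≤ 1)
    (i0 a : ℕ) :
    ∑' A : List B, (if FP ht a A ∧ a + i0 < HT ht A then LW Λ A else 0)
      ≤ ∑' k, tail Λ ht (i0 + k) := by
  refine (fp_over_aux Λ ht h1 i0 a).trans ?_
  calc ∑' A : List B, ∑' b, (if HT ht A < a ∧ a + i0 < HT ht A + ht b then LW Λ A * Λ b else 0)
      = ∑' A : List B, ∑' j : ℕ, (if HT ht A = j then (if j < a then LW Λ A * tail Λ ht (i0 + (a - j))
          else 0) else 0) := by
        refine tsum_congr fun A => ?_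
        rw [tsum_eq_single (HT ht A) (fun j hj => if_neg (Ne.symm hj)), if_pos rfl]
        by_cases h : HT ht A < a
        · rw [if_pos h, tail, ← ENNReal.tsum_mul_left]
          refine tsum_congr fun b => ?_
          have e : a + i0 < HT ht A + ht b ↔ i0 + (a - HT ht A) < ht b := by omega
          simp [h, e]
        · rw [if_neg h]
          simp [h]
    _ = ∑' j : ℕ, ∑' A : List B, (if HT ht A = j then (if j < a then LW Λ A * tail Λ ht (i0 + (a - j))
          else 0) else 0) := ENNReal.tsum_comm
    _ = ∑' j : ℕ, (if j < a then U Λ ht j * tail Λ ht (i0 + (a - j)) else 0) := by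
        refine tsum_congr fun j => ?_
        by_cases h : j < a
        · simp only [h, if_true]
          rw [U, ← ENNReal.tsum_mul_right]
          refine tsum_congr fun A => ?_
          split_ifs <;> simp
        · simp [h]
    _ ≤ ∑' j : ℕ, (if j < a then tail Λ ht (i0 + (a - j)) else 0) := by
        refine ENNReal.tsum_le_tsum fun j => ?_
        split_ifs
        · calc _ ≤ 1 * tail Λ ht (i0 + (a - j)) := by gcongr; exact hU j
            _ = _ := one_mul _
        · exact le_rfl
    _ = ∑ j ∈ Finset.range a, tail Λ ht (i0 + (a - j)) := by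
        rw [tsum_eq_sum (s := Finset.range a)]
        · exact Finset.sum_congr rfl fun j hj => if_pos (Finset.mem_range.1 hj)
        · intro j hj; exact if_neg (by simpa using hj)
    _ = ∑ j ∈ Finset.range a, tail Λ ht (i0 + (j + 1)) := by
        rw [← Finset.sum_range_reflect]
        refine Finset.sum_congr rfl fun j hj => ?_
        have := Finset.mem_range.1 hj
        congr 2; omega
    _ ≤ ∑' k : ℕ, tail Λ ht (i0 + (k + 1)) := ENNReal.sum_le_tsum _
    _ ≤ ∑' k, tail Λ ht (i0 + k) :=
        ENNReal.tsum_comp_le_tsum_of_injective (add_left_injective 1) (fun k => tail Λ ht (i0 + k))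

end Crest.Agent.R154.Asm224
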