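import Crest.Agent.R154.B5Abs_566

/-! Row 154 (helper239): first passage lists, overshoot, density of first passages. -/

set_option autoImplicit false

namespace Crest.Agent.R154.Asm239

open scoped ENNReal
open scoped Classical
open B5A

variable {B G : Type*}

/-- first passage of height `a` -/
def SP (ht : B → ℕ) (a : ℕ) (L : List B) : Prop :=
  a ≤ HT ht L ∧ ∀ T, T <+: L → T ≠ L → HT ht T < a

/-- displacement of a list -/
def Dp [AddCommGroup G] (z : B → G) (L : List B) : G := (L.map z).sum

lemma Dp_append [AddCommGroup G] (z : B → G) (L L' : List B) :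
    Dp z (L ++ L') = Dp z L + Dp z L' := by simp [Dp]

lemma SP_zero (ht : B → ℕ) (L : List B) : SP ht 0 L ↔ L = [] := by
  constructor
  · intro h
    by_contra hL
    have := h.2 [] (List.nil_prefix) (fun h => hL h.symm)
    omega
  · rintro rfl
    exact ⟨Nat.zero_le _, fun T hT hne => absurd (List.prefix_nil.mp hT) hne⟩

lemma SP_nil (ht : B → ℕ) (a : ℕ) (ha : a ≠ 0) : ¬ SP ht a ([] : List B) := by
  intro h
  have := h.1
  rw [HT_nil] at this
  omega

lemma SP_cons (ht : B → ℕ) (a : ℕ) (ha : a ≠ 0) (b : B) (L : List B) :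
    SP ht a (b :: L) ↔ SP ht (a - ht b) L := by
  unfold SP
  rw [HT_cons]
  constructor
  · rintro ⟨h, h'⟩
    refine ⟨by omega, fun T hT hne => ?_⟩
    have := h' (b :: T) (List.cons_prefix_cons.mpr ⟨rfl, hT⟩) (by simpa using hne)
    rw [HT_cons] at this
    omega
  · rintro ⟨h, h'⟩
    refine ⟨by omega, fun T hT hne => ?_⟩
    cases T with
    | nil => rw [HT_nil]; omega
    | cons c T =>
      obtain ⟨hcb, hT2⟩ := List.cons_prefix_cons.mp hT
      subst hcb
      have := h' T hT2 (by simpa using hne)
      rw [HT_cons]; omega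

lemma SP_append (ht : B → ℕ) (r : ℕ) (A R : List B) (h : SP ht r (A ++ R)) :
    SP ht (r - HT ht A) R := by
  obtain ⟨h, h'⟩ := h
  rw [HT_append] at h
  refine ⟨by omega, fun S hS hne => ?_⟩
  have := h' (A ++ S) ((List.prefix_append_right_inj A).mpr hS) (by simpa using hne)
  rw [HT_append] at this
  omega

lemma mass_SP (Λ : B → ℝ≥0∞) (ht : B → ℕ) (h1 : ∀ b, 1 ≤ ht b) (hΛ : ∑' b, Λ b = 1) (a : ℕ) :
    ∑' L, (if SP ht a L then LW Λ L else 0) = 1 := by
  induction a using Nat.strong_induction_on with
  | _ a ih =>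
    rw [tsum_list]
    by_cases ha : a = 0
    · subst ha
      simp [SP_zero ht, LW_nil]
    · simp only [SP_nil ht a ha, if_false, zero_add, SP_cons ht a ha, LW_cons]
      have : ∀ b, ∑' L, (if SP ht (a - ht b) L then Λ b * LW Λ L else 0) = Λ b := by
        intro b
        have h2 : ∀ L, (if SP ht (a - ht b) L then Λ b * LW Λ L else 0)
            = Λ b * (if SP ht (a - ht b) L then LW Λ L else 0) := by
          intro L; split_ifs <;> simp
        simp_rw [h2]
        rw [ENNReal.tsum_mul_left, ih _ (by have := h1 b; omega), mul_one]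
      simp_rw [this, hΛ]

lemma exists_SP (ht : B → ℕ) (a : ℕ) (L : List B) (h : a ≤ HT ht L) :
    ∃ T R, L = T ++ R ∧ SP ht a T := by
  induction L generalizing a with
  | nil =>
    rw [HT_nil] at h
    exact ⟨[], [], rfl, by rw [Nat.le_zero.mp h]; exact (SP_zero ht _).mpr rfl⟩
  | cons b L ih =>
    by_cases ha : a = 0
    · exact ⟨[], b :: L, rfl, by subst ha; exact (SP_zero ht _).mpr rfl⟩
    · obtain ⟨T, R, hL, hT⟩ := ih (a - ht b) (by rw [HT_cons] at h; omega)
      exact ⟨b :: T, R, by rw [hL]; rfl, (SP_cons ht a ha b T).mpr hT⟩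

lemma split_le (ht : B → ℕ) (a : ℕ) (F : List B → ℝ≥0∞)
    (hF : ∀ L, F L ≠ 0 → a ≤ HT ht L) :
    ∑' L, F L ≤ ∑' T, ∑' R, (if SP ht a T then F (T ++ R) else 0) := by
  have hex : ∀ L : List B, ∃ p : List B × List B, p.1 ++ p.2 = L ∧ (F L ≠ 0 → SP ht a p.1) := by
    intro L
    by_cases h : F L ≠ 0
    · obtain ⟨T, R, hL, hT⟩ := exists_SP ht a L (hF L h)
      exact ⟨(T, R), hL.symm, fun _ => hT⟩
    · exact ⟨([], L), rfl, fun h' => absurd h' h⟩
  choose φ hφ hφ' using hex
  have hinj : Function.Injective φ := fun L L' h => by rw [← hφ L, ← hφ L', h]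
  calc ∑' L, F L
      ≤ ∑' L, (fun p : List B × List B => if SP ht a p.1 then F (p.1 ++ p.2) else 0) (φ L) := by
        apply ENNReal.tsum_le_tsum
        intro L
        by_cases h : F L ≠ 0
        · simp only [hφ' L h, if_true, hφ L, le_refl]
        · push Not at h
          rw [h]
          exact zero_le
    _ ≤ ∑' p : List B × List B, (if SP ht a p.1 then F (p.1 ++ p.2) else 0) :=
        ENNReal.tsum_comp_le_tsum_of_injective hinj _
    _ = _ := ENNReal.tsum_prod (f := fun T R => if SP ht a T then F (T ++ R) else 0)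

lemma tsum_snoc (F : List B → ℝ≥0∞) : ∑' L, F L = F [] + ∑' b, ∑' L, F (L ++ [b]) := by
  have h1 : ∑' L : List B, F L.reverse = ∑' L, F L :=
    (List.reverse_involutive.toPerm (List.reverse : List B → List B)).tsum_eq F
  rw [← h1, tsum_list]
  congr 1
  apply tsum_congr
  intro b
  have h2 := (List.reverse_involutive.toPerm (List.reverse : List B → List B)).tsum_eq
    (fun L => F (L ++ [b]))
  rw [← h2]
  apply tsum_congr
  intro L
  simp [Function.Involutive.coe_toPerm]

lemma sum_HT_mem (Λ : B → ℝ≥0∞) (ht : B → ℕ) (hU : ∀ n, U Λ ht n ≤ 1) (s : Finset ℕ) :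
    ∑' L, (if HT ht L ∈ s then LW Λ L else 0) ≤ (s.card : ℝ≥0∞) := by
  have h : ∀ L : List B, (if HT ht L ∈ s then LW Λ L else 0)
      = ∑ k ∈ s, (if HT ht L = k then LW Λ L else 0) := by
    intro L
    rw [Finset.sum_ite_eq]
  simp_rw [h]
  rw [Summable.tsum_finsetSum (fun _ _ => ENNReal.summable)]
  calc ∑ k ∈ s, ∑' L, (if HT ht L = k then LW Λ L else 0) ≤ ∑ k ∈ s, 1 :=
        Finset.sum_le_sum (fun k _ => hU k)
    _ = _ := by simp

/-- the overshoot function -/
noncomputable def ov (Λ : B → ℝ≥0∞) (ht : B → ℕ) (i : ℕ) : ℝ≥0∞ :=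
  ∑' b, Λ b * ((ht b - i : ℕ) : ℝ≥0∞)

lemma over_le (Λ : B → ℝ≥0∞) (ht : B → ℕ) (hU : ∀ n, U Λ ht n ≤ 1) (a i : ℕ) :
    ∑' T, (if SP ht a T ∧ a + i < HT ht T then LW Λ T else 0) ≤ ov Λ ht i := by
  rw [tsum_snoc]
  have h0 : (if SP ht a ([] : List B) ∧ a + i < HT ht ([] : List B) then LW Λ [] else 0) = 0 := by
    rw [if_neg]
    rintro ⟨-, h⟩
    rw [HT_nil] at h
    omega
  rw [h0, zero_add]
  apply ENNReal.tsum_le_tsum
  intro b
  calc ∑' L, (if SP ht a (L ++ [b]) ∧ a + i < HT ht (L ++ [b]) then LW Λ (L ++ [b]) else 0)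
      ≤ ∑' L, Λ b * (if HT ht L ∈ Finset.Ico (a + i + 1 - ht b) a then LW Λ L else 0) := by
        apply ENNReal.tsum_le_tsum
        intro L
        split_ifs with h1 h2 h2
        · rw [LW_append, mul_comm]
          simp [LW]
        · exfalso
          apply h2
          rw [Finset.mem_Ico]
          have h3 := h1.1.2 L (List.prefix_append _ _) (by simp)
          have h4 := h1.2
          rw [HT_append, HT_cons, HT_nil] at h4
          omega
        · exact zero_le
        · exact zero_le
    _ = Λ b * ∑' L, (if HT ht L ∈ Finset.Ico (a + i + 1 - ht b) a then LW Λ L else 0) :=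
        ENNReal.tsum_mul_left
    _ ≤ Λ b * ((ht b - i : ℕ) : ℝ≥0∞) := by
        gcongr
        refine (sum_HT_mem Λ ht hU _).trans ?_
        rw [Nat.card_Ico]
        exact_mod_cast (by omega)

/-- fibering a sum over lists -/
lemma tsum_fiber {ι κ : Type*} (Φ : ι → ℝ≥0∞) (k : ι → κ) (ψ : κ → ℝ≥0∞) :
    ∑' A, Φ A * ψ (k A) = ∑' y, (∑' A, if k A = y then Φ A else 0) * ψ y := by
  have h1 : ∀ A, Φ A * ψ (k A) = ∑' y, (if k A = y then Φ A * ψ y else 0) := by
    intro A
    rw [tsum_eq_single (k A)]
    · simp
    · intro y hy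
      rw [if_neg (fun h => hy h.symm)]
  simp_rw [h1]
  rw [ENNReal.tsum_comm]
  apply tsum_congr
  intro y
  rw [← ENNReal.tsum_mul_right]
  apply tsum_congr
  intro A
  split_ifs <;> simp

variable [AddCommGroup G]

/-- law of (overshoot, displacement) at the first passage of height `r` -/
noncomputable def fp (Λ : B → ℝ≥0∞) (ht : B → ℕ) (z : B → G) (r : ℕ) (y : ℕ × G) : ℝ≥0∞ :=
  ∑' T, if SP ht r T ∧ (HT ht T - r, Dp z T) = y then LW Λ T else 0

lemma sum_fp (Λ : B → ℝ≥0∞) (ht : B → ℕ) (z : B → G) (h1 : ∀ b, 1 ≤ ht b) (hΛ : ∑' b, Λ b = 1)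
    (r : ℕ) : ∑' y, fp Λ ht z r y = 1 := by
  have h := tsum_fiber (fun T : List B => if SP ht r T then LW Λ T else 0)
    (fun T => (HT ht T - r, Dp z T)) (fun _ => 1)
  simp only [mul_one] at h
  rw [mass_SP Λ ht h1 hΛ] at h
  rw [h]
  apply tsum_congr
  intro y
  apply tsum_congr
  intro T
  by_cases h2 : SP ht r T <;> by_cases h3 : (HT ht T - r, Dp z T) = y <;> simp [h2, h3]

/-- fibering over first passages -/
lemma fiber_fp (Λ : B → ℝ≥0∞) (ht : B → ℕ) (z : B → G) (r : ℕ) (ψ : ℕ × G → ℝ≥0∞) :
    ∑' T, (if SP ht r T then LW Λ T else 0) * ψ (HT ht T - r, Dp z T)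
      = ∑' y, fp Λ ht z r y * ψ y := by
  rw [tsum_fiber (fun T : List B => if SP ht r T then LW Λ T else 0)
    (fun T => (HT ht T - r, Dp z T)) ψ]
  apply tsum_congr
  intro y
  congr 1
  apply tsum_congr
  intro T
  by_cases h2 : SP ht r T <;> by_cases h3 : (HT ht T - r, Dp z T) = y <;> simp [h2, h3]

lemma sum_fp_slice (Λ : B → ℝ≥0∞) (ht : B → ℕ) (z : B → G) (h1 : ∀ b, 1 ≤ ht b)
    (hΛ : ∑' b, Λ b = 1) (r j : ℕ) (x : G) :
    ∑' z' : G, fp Λ ht z r (j, x - z') ≤ 1 := by
  rw [← sum_fp Λ ht z h1 hΛ r]
  have hinj : Function.Injective (fun z' : G => ((j, x - z') : ℕ × G)) := by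
    intro a b h
    simpa using h
  exact ENNReal.tsum_comp_le_tsum_of_injective hinj (fp Λ ht z r)

/-- one step of the recursion -/
lemma fp_rec (Λ : B → ℝ≥0∞) (ht : B → ℕ) (z : B → G) (c r : ℕ) (hr : c ≤ r) (y : ℕ × G) :
    fp Λ ht z r y ≤ ∑' A, ∑' R, (if SP ht c A ∧ SP ht r (A ++ R) ∧
      (HT ht (A ++ R) - r, Dp z (A ++ R)) = y then LW Λ A * LW Λ R else 0) := by
  unfold fp
  refine (split_le ht c _ ?_).trans ?_
  · intro L hL
    by_cases h : SP ht r L
    · exact hr.trans h.1
    · simp [h] at hL
  · apply ENNReal.tsum_le_tsum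
    intro A
    apply ENNReal.tsum_le_tsum
    intro R
    by_cases h : SP ht c A
    · simp only [h, if_true, true_and, LW_append, le_refl]
    · simp [h]

lemma dens (Λ : B → ℝ≥0∞) (ht : B → ℕ) (z : B → G) (h1 : ∀ b, 1 ≤ ht b)
    (hΛ : ∑' b, Λ b = 1) (c i0 : ℕ) (th q e Gc : ℝ≥0∞)
    (he : ∑' T, (if SP ht c T ∧ c + i0 < HT ht T then LW Λ T else 0) ≤ e)
    (hq1 : q ≤ 1)
    (hq : ∑' A, (if SP ht c A ∧ ¬ (fp Λ ht z c (HT ht A - c, Dp z A) ≤ th)
      then LW Λ A else 0) ≤ q)
    (hG : ((i0 + 1 : ℕ) : ℝ≥0∞) * th + q * Gc ≤ Gc) :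
    ∀ J r, J * (c + i0) ≤ r → ∃ b : ℕ × G → ℝ≥0∞,
      (∀ y, fp Λ ht z r y ≤ Gc + b y) ∧ ∑' y, b y ≤ q ^ J + J * e := by
  intro J
  induction J with
  | zero =>
    intro r _
    exact ⟨fp Λ ht z r, fun y => le_add_self, by simp [sum_fp Λ ht z h1 hΛ r]⟩
  | succ J ih =>
    intro r hr
    have hr' : c + i0 ≤ r := by nlinarith
    have hih : ∀ r' : ℕ, ∃ b : ℕ × G → ℝ≥0∞, J * (c + i0) ≤ r' →
        ((∀ y, fp Λ ht z r' y ≤ Gc + b y) ∧ ∑' y, b y ≤ q ^ J + J * e) := by
      intro r'
      by_cases h : J * (c + i0) ≤ r'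
      · obtain ⟨b, hb⟩ := ih r' h
        exact ⟨b, fun _ => hb⟩
      · exact ⟨0, fun h' => absurd h' h⟩
    choose bb hbb using hih
    -- far part
    let far : ℕ × G → ℝ≥0∞ := fun y => ∑' A, ∑' R, (if (SP ht c A ∧ c + i0 < HT ht A) ∧
      (SP ht r (A ++ R) ∧ (HT ht (A ++ R) - r, Dp z (A ++ R)) = y) then LW Λ A * LW Λ R else 0)
    let hi : ℕ × G → ℝ≥0∞ := fun y => ∑' A, (if SP ht c A ∧
      ¬ (fp Λ ht z c (HT ht A - c, Dp z A) ≤ th) then LW Λ A else 0) *
        (if HT ht A ≤ c + i0 then bb (r - HT ht A) (y.1, y.2 - Dp z A) else 0)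
    have hfar : ∑' y, far y ≤ e := by
      calc ∑' y, far y = ∑' A, ∑' R, ∑' y : ℕ × G, (if (SP ht c A ∧ c + i0 < HT ht A) ∧
            (SP ht r (A ++ R) ∧ (HT ht (A ++ R) - r, Dp z (A ++ R)) = y)
              then LW Λ A * LW Λ R else 0) := by
            simp only [far]
            rw [ENNReal.tsum_comm]
            apply tsum_congr
            intro A
            rw [ENNReal.tsum_comm]
        _ ≤ ∑' A, ∑' R, (if SP ht c A ∧ c + i0 < HT ht A then LW Λ A else 0) *
              (if SP ht (r - HT ht A) R then LW Λ R else 0) := by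
            apply ENNReal.tsum_le_tsum
            intro A
            apply ENNReal.tsum_le_tsum
            intro R
            rw [tsum_eq_single (HT ht (A ++ R) - r, Dp z (A ++ R))]
            · split_ifs with ha hb hc hb hc
              · exact le_refl _
              · exact absurd (SP_append ht r A R ha.2.1) (by assumption)
              · exact absurd ha.1 (by assumption)
              · exact absurd ha.1 (by assumption)
              all_goals exact zero_le
            · intro y hy
              rw [if_neg]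
              rintro ⟨-, -, h⟩
              exact hy h.symm
        _ = ∑' A, (if SP ht c A ∧ c + i0 < HT ht A then LW Λ A else 0) := by
            apply tsum_congr
            intro A
            rw [ENNReal.tsum_mul_left, mass_SP Λ ht h1 hΛ, mul_one]
        _ ≤ e := he
    have hhi : ∑' y, hi y ≤ q * (q ^ J + J * e) := by
      calc ∑' y, hi y = ∑' A, (if SP ht c A ∧
            ¬ (fp Λ ht z c (HT ht A - c, Dp z A) ≤ th) then LW Λ A else 0) *
            ∑' y : ℕ × G, (if HT ht A ≤ c + i0 then bb (r - HT ht A) (y.1, y.2 - Dp z A) else 0) := by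
            simp only [hi]
            rw [ENNReal.tsum_comm]
            apply tsum_congr
            intro A
            rw [ENNReal.tsum_mul_left]
        _ ≤ ∑' A, (if SP ht c A ∧
            ¬ (fp Λ ht z c (HT ht A - c, Dp z A) ≤ th) then LW Λ A else 0) * (q ^ J + J * e) := by
            apply ENNReal.tsum_le_tsum
            intro A
            gcongr
            by_cases hA : HT ht A ≤ c + i0
            · simp only [hA, if_true]
              have hJ : J * (c + i0) ≤ r - HT ht A := by
                have : (J + 1) * (c + i0) = J * (c + i0) + (c + i0) := by ring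
                omega
              refine le_trans (le_of_eq ?_) (hbb _ hJ).2
              let eqv : ℕ × G ≃ ℕ × G :=
                (Equiv.refl ℕ).prodCongr (Equiv.subRight (Dp z A))
              exact eqv.tsum_eq (bb (r - HT ht A))
            · simp [hA]
        _ = _ * (q ^ J + J * e) := ENNReal.tsum_mul_right
        _ ≤ q * (q ^ J + J * e) := by gcongr
    refine ⟨fun y => far y + hi y, ?_, ?_⟩
    · intro y
      -- low part bound
      let low : ℝ≥0∞ := ∑' A, (if SP ht c A then LW Λ A else 0) *
        (if HT ht A ≤ c + i0 ∧ fp Λ ht z c (HT ht A - c, Dp z A) ≤ th then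
          fp Λ ht z (r - HT ht A) (y.1, y.2 - Dp z A) else 0)
      have hlow : low ≤ ((i0 + 1 : ℕ) : ℝ≥0∞) * th := by
        let ψ : ℕ × G → ℝ≥0∞ := fun v => if v.1 ≤ i0 ∧ fp Λ ht z c v ≤ th then
          fp Λ ht z (r - (c + v.1)) (y.1, y.2 - v.2) else 0
        have hl : low ≤ ∑' v, fp Λ ht z c v * ψ v := by
          rw [← fiber_fp]
          apply ENNReal.tsum_le_tsum
          intro A
          by_cases hA : SP ht c A
          · simp only [hA, if_true]
            gcongr
            simp only [ψ]
            have h3 : c + (HT ht A - c) = HT ht A := by have := hA.1; omega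
            have h4 : (HT ht A ≤ c + i0) ↔ (HT ht A - c ≤ i0) := by omega
            rw [h3]
            simp only [h4, le_refl]
          · simp [hA]
        refine hl.trans ?_
        calc ∑' v, fp Λ ht z c v * ψ v
            ≤ ∑' v : ℕ × G, (if v.1 ≤ i0 then th * fp Λ ht z (r - (c + v.1)) (y.1, y.2 - v.2)
                else 0) := by
              apply ENNReal.tsum_le_tsum
              intro v
              simp only [ψ]
              by_cases hv : v.1 ≤ i0 <;> by_cases hv' : fp Λ ht z c v ≤ th
              · simp only [hv, hv', and_self, if_true]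
                gcongr
              · simp [hv, hv']
              · simp [hv]
              · simp [hv]
          _ = ∑' i : ℕ, ∑' z' : G, (if i ≤ i0 then th * fp Λ ht z (r - (c + i)) (y.1, y.2 - z')
                else 0) := ENNReal.tsum_prod (f := fun i z' => if i ≤ i0 then
                  th * fp Λ ht z (r - (c + i)) (y.1, y.2 - z') else 0)
          _ ≤ ∑' i : ℕ, (if i ∈ Finset.range (i0 + 1) then th else 0) := by
              apply ENNReal.tsum_le_tsum
              intro i
              by_cases hi' : i ≤ i0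
              · have : i ∈ Finset.range (i0 + 1) := by rw [Finset.mem_range]; omega
                simp only [hi', this, if_true]
                rw [ENNReal.tsum_mul_left]
                calc th * _ ≤ th * 1 := by
                      gcongr
                      exact sum_fp_slice Λ ht z h1 hΛ _ _ _
                  _ = th := mul_one _
              · simp [hi']
          _ = ((i0 + 1 : ℕ) : ℝ≥0∞) * th := by
              rw [tsum_eq_sum (s := Finset.range (i0 + 1))]
              · rw [Finset.sum_ite_mem, Finset.inter_self, Finset.sum_const, Finset.card_range,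
                  nsmul_eq_mul]
              · intro i hi'
                rw [if_neg hi']
      have hmain : fp Λ ht z r y ≤ far y + (low + (q * Gc + hi y)) := by
        refine (fp_rec Λ ht z c r (by omega) y).trans ?_
        have h2 : q * Gc + hi y ≥ ∑' A, (if SP ht c A ∧
            ¬ (fp Λ ht z c (HT ht A - c, Dp z A) ≤ th) then LW Λ A else 0) *
            (if HT ht A ≤ c + i0 then fp Λ ht z (r - HT ht A) (y.1, y.2 - Dp z A) else 0) := by
          calc _ ≤ ∑' A, ((if SP ht c A ∧
                ¬ (fp Λ ht z c (HT ht A - c, Dp z A) ≤ th) then LW Λ A else 0) * Gc +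
                (if SP ht c A ∧
                ¬ (fp Λ ht z c (HT ht A - c, Dp z A) ≤ th) then LW Λ A else 0) *
                (if HT ht A ≤ c + i0 then bb (r - HT ht A) (y.1, y.2 - Dp z A) else 0)) := by
                apply ENNReal.tsum_le_tsum
                intro A
                rw [← mul_add]
                gcongr
                by_cases hA : HT ht A ≤ c + i0
                · simp only [hA, if_true]
                  have hJ : J * (c + i0) ≤ r - HT ht A := by
                    have : (J + 1) * (c + i0) = J * (c + i0) + (c + i0) := by ring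
                    omega
                  exact (hbb _ hJ).1 _
                · simp [hA]
            _ ≤ q * Gc + hi y := by
                rw [ENNReal.tsum_add, ENNReal.tsum_mul_right]
                gcongr
        refine le_trans ?_ (add_le_add_right (add_le_add_right h2 low) (far y))
        simp only [far, low]
        rw [← ENNReal.tsum_add, ← ENNReal.tsum_add]
        apply ENNReal.tsum_le_tsum
        intro A
        by_cases hc : SP ht c A
        · by_cases hA : HT ht A ≤ c + i0
          · have hstep : ∑' R, (if SP ht c A ∧ SP ht r (A ++ R) ∧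
                (HT ht (A ++ R) - r, Dp z (A ++ R)) = y then LW Λ A * LW Λ R else 0)
                ≤ LW Λ A * fp Λ ht z (r - HT ht A) (y.1, y.2 - Dp z A) := by
              unfold fp
              rw [← ENNReal.tsum_mul_left]
              apply ENNReal.tsum_le_tsum
              intro R
              by_cases hR : SP ht r (A ++ R) ∧ (HT ht (A ++ R) - r, Dp z (A ++ R)) = y
              · have hR1 := SP_append ht r A R hR.1
                have hR2 := hR.2
                rw [Prod.ext_iff] at hR2
                simp only [HT_append, Dp_append] at hR2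
                have hR3 : (HT ht R - (r - HT ht A), Dp z R) = (y.1, y.2 - Dp z A) := by
                  rw [Prod.ext_iff]
                  refine ⟨?_, ?_⟩
                  · have := hR2.1
                    simp only
                    omega
                  · simp only
                    rw [← hR2.2]
                    abel
                rw [if_pos ⟨hc, hR⟩, if_pos ⟨hR1, hR3⟩]
              · rw [if_neg (fun h => hR h.2)]
                exact zero_le
            refine hstep.trans ?_
            by_cases hth : fp Λ ht z c (HT ht A - c, Dp z A) ≤ th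
            · simp only [hc, hA, hth, and_self, if_true, not_true_eq_false, and_false, if_false,
                zero_mul, add_zero]
              exact le_add_self
            · simp only [hc, hA, hth, and_false, if_true, not_false_eq_true, and_self, if_false,
                mul_zero, zero_add]
              exact le_add_self
          · have hA' : c + i0 < HT ht A := by omega
            refine le_trans (le_of_eq ?_) le_self_add
            apply tsum_congr
            intro R
            simp only [hc, hA', true_and]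
        · simp [hc]
      calc fp Λ ht z r y ≤ far y + (low + (q * Gc + hi y)) := hmain
        _ ≤ far y + (((i0 + 1 : ℕ) : ℝ≥0∞) * th + (q * Gc + hi y)) := by gcongr
        _ = (((i0 + 1 : ℕ) : ℝ≥0∞) * th + q * Gc) + (far y + hi y) := by ring
        _ ≤ Gc + (far y + hi y) := by gcongr
    · rw [ENNReal.tsum_add]
      calc ∑' y, far y + ∑' y, hi y ≤ e + q * (q ^ J + J * e) := by gcongr
        _ = q ^ (J + 1) + (q * (J * e) + e) := by rw [pow_succ]; ring
        _ ≤ q ^ (J + 1) + (1 * (J * e) + e) := by gcongr
        _ = q ^ (J + 1) + ((J + 1 : ℕ) : ℝ≥0∞) * e := by push_cast; ring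

end Crest.Agent.R154.Asm239
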