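import Crest.Agent.R154.B5Abs_566

/-! Row 154, ROAD 801 (helper251): first passage lists, part A (abstract renewal lists). -/

set_option autoImplicit false

namespace Crest.Agent.R154.Asm251

open scoped ENNReal
open Crest.Agent.R154.B5A

variable {B : Type*}

/-- first passage of depth `a` -/
def FP (ht : B → ℕ) : ℕ → List B → Prop
  | a, [] => a = 0
  | a, b :: L => 0 < a ∧ FP ht (a - ht b) L

lemma FP_zero (ht : B → ℕ) (L : List B) : FP ht 0 L ↔ L = [] := by
  cases L with
  | nil => simp [FP]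
  | cons b L => simp [FP]

lemma FP_le (ht : B → ℕ) {a : ℕ} {L : List B} (h : FP ht a L) : a ≤ HT ht L := by
  induction L generalizing a with
  | nil => have : a = 0 := h; simp [this]
  | cons b L ih =>
    have h2 := ih h.2
    rw [HT_cons]; omega

lemma FP_HT (ht : B → ℕ) (h1 : ∀ b, 1 ≤ ht b) (L : List B) : FP ht (HT ht L) L := by
  induction L with
  | nil => simp [FP, HT_nil]
  | cons b L ih =>
    refine ⟨?_, ?_⟩
    · rw [HT_cons]; have := h1 b; omega
    · rw [HT_cons, Nat.add_sub_cancel_left]; exact ih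

lemma FP_unique (ht : B → ℕ) {a : ℕ} {P P' A A' : List B} (h : FP ht a P) (h' : FP ht a P')
    (he : P ++ A = P' ++ A') : P = P' ∧ A = A' := by
  induction P generalizing a P' with
  | nil =>
    have ha : a = 0 := h
    subst ha
    have := (FP_zero ht P').1 h'
    subst this
    exact ⟨rfl, by simpa using he⟩
  | cons b P ih =>
    cases P' with
    | nil =>
      have ha : a = 0 := h'
      subst ha
      exact absurd h.1 (lt_irrefl _)
    | cons b' P' =>
      simp only [List.cons_append, List.cons.injEq] at he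
      obtain ⟨rfl, he⟩ := he
      obtain ⟨h3, h4⟩ := ih h.2 h'.2 he
      exact ⟨by rw [h3], h4⟩

variable (Λ : B → ℝ≥0∞) (ht : B → ℕ)

open Classical in
/-- sum over the first passage lists -/
noncomputable def PS (a : ℕ) (F : List B → ℝ≥0∞) : ℝ≥0∞ :=
  ∑' L : List B, if FP ht a L then LW Λ L * F L else 0

lemma PS_zero (F : List B → ℝ≥0∞) : PS Λ ht 0 F = F [] := by
  classical
  rw [PS, tsum_list]
  simp [FP, LW_nil]

lemma PS_pos {a : ℕ} (ha : 0 < a) (F : List B → ℝ≥0∞) :
    PS Λ ht a F = ∑' b, Λ b * PS Λ ht (a - ht b) (fun L => F (b :: L)) := by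
  classical
  rw [PS, tsum_list]
  have h0 : ¬ FP ht a [] := fun h => by have : a = 0 := h; omega
  rw [if_neg h0, zero_add]
  refine tsum_congr fun b => ?_
  rw [PS, ← ENNReal.tsum_mul_left]
  refine tsum_congr fun L => ?_
  by_cases h : FP ht (a - ht b) L
  · rw [if_pos (show FP ht a (b :: L) from ⟨ha, h⟩), if_pos h, LW_cons, mul_assoc]
  · rw [if_neg (show ¬ FP ht a (b :: L) from fun h' => h h'.2), if_neg h, mul_zero]

lemma PS_mono {a : ℕ} {F F' : List B → ℝ≥0∞} (h : ∀ L, FP ht a L → F L ≤ F' L) :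
    PS Λ ht a F ≤ PS Λ ht a F' := by
  classical
  refine ENNReal.tsum_le_tsum fun L => ?_
  by_cases hL : FP ht a L
  · rw [if_pos hL, if_pos hL]; exact mul_le_mul_right (h L hL) _
  · rw [if_neg hL, if_neg hL]

lemma PS_congr {a : ℕ} {F F' : List B → ℝ≥0∞} (h : ∀ L, FP ht a L → F L = F' L) :
    PS Λ ht a F = PS Λ ht a F' :=
  le_antisymm (PS_mono Λ ht fun L hL => (h L hL).le) (PS_mono Λ ht fun L hL => (h L hL).ge)

lemma PS_add (a : ℕ) (F F' : List B → ℝ≥0∞) :
    PS Λ ht a (fun L => F L + F' L) = PS Λ ht a F + PS Λ ht a F' := by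
  classical
  rw [PS, PS, PS, ← ENNReal.tsum_add]
  refine tsum_congr fun L => ?_
  by_cases hL : FP ht a L
  · simp [hL, mul_add]
  · simp [hL]

lemma PS_mul (a : ℕ) (c : ℝ≥0∞) (F : List B → ℝ≥0∞) :
    PS Λ ht a (fun L => c * F L) = c * PS Λ ht a F := by
  classical
  rw [PS, PS, ← ENNReal.tsum_mul_left]
  refine tsum_congr fun L => ?_
  by_cases hL : FP ht a L
  · simp [hL, mul_left_comm]
  · simp [hL]

lemma PS_tsum {ι : Type*} (a : ℕ) (F : ι → List B → ℝ≥0∞) :
    PS Λ ht a (fun L => ∑' x, F x L) = ∑' x, PS Λ ht a (F x) := by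
  classical
  simp only [PS]
  rw [ENNReal.tsum_comm]
  refine tsum_congr fun L => ?_
  by_cases hL : FP ht a L
  · simp only [hL, if_true]; rw [ENNReal.tsum_mul_left]
  · simp [hL]

lemma PS_sum {ι : Type*} (s : Finset ι) (a : ℕ) (F : ι → List B → ℝ≥0∞) :
    PS Λ ht a (fun L => ∑ x ∈ s, F x L) = ∑ x ∈ s, PS Λ ht a (F x) := by
  classical
  induction s using Finset.induction_on with
  | empty => simpa using PS_mul Λ ht a 0 (fun _ => 0)
  | insert x s hx ih =>
    simp only [Finset.sum_insert hx]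
    rw [PS_add, ih]

lemma PS_one (h1 : ∀ b, 1 ≤ ht b) (hΛ : ∑' b, Λ b = 1) (a : ℕ) : PS Λ ht a (fun _ => 1) = 1 := by
  induction a using Nat.strong_induction_on with
  | _ a ih =>
    rcases Nat.eq_zero_or_pos a with rfl | ha
    · rw [PS_zero]
    · rw [PS_pos Λ ht ha]
      refine Eq.trans (tsum_congr fun b => ?_) hΛ
      rw [ih _ (by have := h1 b; omega), mul_one]

lemma PS_const (h1 : ∀ b, 1 ≤ ht b) (hΛ : ∑' b, Λ b = 1) (a : ℕ) (c : ℝ≥0∞) :
    PS Λ ht a (fun _ => c) = c := by
  have := PS_mul Λ ht a c (fun _ => 1)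
  rw [PS_one Λ ht h1 hΛ] at this
  simpa using this

lemma PS_comp (h1 : ∀ b, 1 ≤ ht b) (T : ℕ) : ∀ (a : ℕ), T ≤ a → ∀ F : List B → ℝ≥0∞,
    PS Λ ht a F = PS Λ ht T (fun P => PS Λ ht (a - HT ht P) (fun A => F (P ++ A))) := by
  induction T using Nat.strong_induction_on with
  | _ T ih =>
    intro a hTa F
    rcases Nat.eq_zero_or_pos T with rfl | hT
    · rw [PS_zero]; simp [HT_nil]
    · rw [PS_pos Λ ht (lt_of_lt_of_le hT hTa), PS_pos Λ ht hT]
      refine tsum_congr fun b => ?_
      have hb := h1 b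
      rw [ih (T - ht b) (by omega) (a - ht b) (by omega)]
      congr 1
      refine PS_congr Λ ht fun P _ => ?_
      rw [HT_cons, Nat.sub_sub]
      rfl

/-- sum over the lists of height `n` -/
lemma tsum_le_PS (h1 : ∀ b, 1 ≤ ht b) (n : ℕ) (F : List B → ℝ≥0∞) :
    (∑' L : List B, if HT ht L = n then LW Λ L * F L else 0) ≤ PS Λ ht n F := by
  classical
  refine ENNReal.tsum_le_tsum fun L => ?_
  by_cases hL : HT ht L = n
  · subst hL
    rw [if_pos rfl, if_pos (FP_HT ht h1 L)]
  · rw [if_neg hL]; exact zero_le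

lemma U_le_one (h1 : ∀ b, 1 ≤ ht b) (hΛ : ∑' b, Λ b = 1) (n : ℕ) : U Λ ht n ≤ 1 := by
  have := tsum_le_PS Λ ht h1 n (fun _ => 1)
  rw [PS_one Λ ht h1 hΛ] at this
  refine le_trans (le_of_eq ?_) this
  rw [U]
  simp

/-- overshoot bound -/
noncomputable def ov (i0 : ℕ) : ℝ≥0∞ := ∑' k, tail Λ ht (i0 + k)

open Classical in
lemma PS_over_eq (h1 : ∀ b, 1 ≤ ht b) (i0 : ℕ) (a : ℕ) :
    PS Λ ht a (fun L => if a + i0 < HT ht L then 1 else 0)
      ≤ ∑ k ∈ Finset.range a, U Λ ht (a - 1 - k) * tail Λ ht (k + 1 + i0) := by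
  induction a using Nat.strong_induction_on with
  | _ a ih =>
    rcases Nat.eq_zero_or_pos a with rfl | ha
    · rw [PS_zero]; simp [HT_nil]
    · rw [PS_pos Λ ht ha]
      have hterm : ∀ b, Λ b * PS Λ ht (a - ht b) (fun L => if a + i0 < HT ht (b :: L) then 1 else 0)
          ≤ (if a + i0 < ht b then Λ b else 0) +
            ∑ j ∈ Finset.range a, (if ht b = j + 1 then Λ b else 0) *
              (∑ k ∈ Finset.range (a - (j + 1)), U Λ ht (a - (j + 1) - 1 - k) *
                tail Λ ht (k + 1 + i0)) := by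
        intro b
        have hb := h1 b
        by_cases hba : a ≤ ht b
        · have : a - ht b = 0 := by omega
          rw [this, PS_zero]
          refine le_trans ?_ le_self_add
          rw [HT_cons, HT_nil, add_zero]
          split_ifs <;> simp
        · refine le_trans ?_ le_add_self
          have hj : ht b - 1 ∈ Finset.range a := Finset.mem_range.2 (by omega)
          refine le_trans ?_ (Finset.single_le_sum (f := fun j =>
            (if ht b = j + 1 then Λ b else 0) *
              (∑ k ∈ Finset.range (a - (j + 1)), U Λ ht (a - (j + 1) - 1 - k) *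
                tail Λ ht (k + 1 + i0))) (fun _ _ => zero_le) hj)
          rw [if_pos (by omega), show ht b - 1 + 1 = ht b by omega]
          refine mul_le_mul_right (le_trans (le_of_eq ?_) (ih (a - ht b) (by omega))) _
          refine PS_congr Λ ht fun L _ => ?_
          rw [HT_cons]
          by_cases h : a + i0 < ht b + HT ht L
          · rw [if_pos h, if_pos (by omega)]
          · rw [if_neg h, if_neg (by omega)]
      refine (ENNReal.tsum_le_tsum hterm).trans ?_
      rw [ENNReal.tsum_add, ← show tail Λ ht (a + i0) = ∑' b, (if a + i0 < ht b then Λ b else 0)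
        from rfl]
      have hsw : (∑' b, ∑ j ∈ Finset.range a, (if ht b = j + 1 then Λ b else 0) *
              (∑ k ∈ Finset.range (a - (j + 1)), U Λ ht (a - (j + 1) - 1 - k) *
                tail Λ ht (k + 1 + i0)))
          = ∑ j ∈ Finset.range a, Ph Λ ht (j + 1) *
              (∑ k ∈ Finset.range (a - (j + 1)), U Λ ht (a - (j + 1) - 1 - k) *
                tail Λ ht (k + 1 + i0)) := by
        rw [Summable.tsum_finsetSum (fun _ _ => ENNReal.summable)]
        refine Finset.sum_congr rfl fun j _ => ?_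
        rw [ENNReal.tsum_mul_right]; rfl
      rw [hsw]
      -- exchange the sums
      have hex : (∑ j ∈ Finset.range a, Ph Λ ht (j + 1) *
              (∑ k ∈ Finset.range (a - (j + 1)), U Λ ht (a - (j + 1) - 1 - k) *
                tail Λ ht (k + 1 + i0)))
          = ∑ k ∈ Finset.range (a - 1), (∑ j ∈ Finset.range (a - 1 - k),
              U Λ ht (a - 1 - k - 1 - j) * Ph Λ ht (j + 1)) * tail Λ ht (k + 1 + i0) := by
        simp_rw [Finset.mul_sum, Finset.sum_mul]
        rw [Finset.sum_sigma', Finset.sum_sigma']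
        refine Finset.sum_nbij' (fun x => ⟨x.2, x.1⟩) (fun x => ⟨x.2, x.1⟩) ?_ ?_ ?_ ?_ ?_
        · rintro ⟨j, k⟩ h
          simp only [Finset.mem_sigma, Finset.mem_range] at h ⊢
          omega
        · rintro ⟨k, j⟩ h
          simp only [Finset.mem_sigma, Finset.mem_range] at h ⊢
          omega
        · rintro ⟨j, k⟩ _; rfl
        · rintro ⟨k, j⟩ _; rfl
        · rintro ⟨j, k⟩ h
          simp only [Finset.mem_sigma, Finset.mem_range] at h ⊢
          rw [show a - (j + 1) - 1 - k = a - 1 - k - 1 - j by omega]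
          ring
      rw [hex]
      have ea : a = (a - 1) + 1 := by omega
      rw [show Finset.range a = Finset.range ((a - 1) + 1) by rw [← ea], Finset.sum_range_succ]
      rw [Nat.sub_self, U_zero Λ ht h1, one_mul, show a - 1 + 1 + i0 = a + i0 by omega, add_comm]
      refine add_le_add (Finset.sum_le_sum fun k hk => ?_) le_rfl
      have hk := Finset.mem_range.1 hk
      refine mul_le_mul_left ?_ _
      have := U_succ Λ ht h1 (a - 1 - k - 1)
      rw [show a - 1 - k - 1 + 1 = a - 1 - k by omega] at this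
      rw [this]

open Classical in
lemma PS_over (h1 : ∀ b, 1 ≤ ht b) (hΛ : ∑' b, Λ b = 1) (i0 : ℕ) (a : ℕ) :
    PS Λ ht a (fun L => if a + i0 < HT ht L then 1 else 0) ≤ ov Λ ht i0 := by
  refine (PS_over_eq Λ ht h1 i0 a).trans ?_
  calc _ ≤ ∑ k ∈ Finset.range a, tail Λ ht (i0 + (k + 1)) := by
        refine Finset.sum_le_sum fun k _ => ?_
        rw [show k + 1 + i0 = i0 + (k + 1) by ring]
        exact le_trans (mul_le_mul_left (U_le_one Λ ht h1 hΛ _) _) (by rw [one_mul])
    _ ≤ ∑ k ∈ Finset.range (a + 1), tail Λ ht (i0 + k) := by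
        rw [Finset.sum_range_succ']
        exact le_self_add
    _ ≤ _ := ENNReal.sum_le_tsum _

lemma ov_tendsto (hΛ : ∑' b, Λ b = 1) (hm : ∑' b, Λ b * (ht b : ℝ≥0∞) ≠ ⊤) :
    Filter.Tendsto (ov Λ ht) Filter.atTop (nhds 0) := by
  have h2 : ∑' k, tail Λ ht k ≠ ⊤ := by rwa [← sum_tail Λ ht hΛ]
  have h3 := ENNReal.tendsto_sum_nat_add (tail Λ ht) h2
  refine h3.congr fun i => ?_
  rw [ov]
  refine tsum_congr fun k => ?_
  rw [add_comm]

end Crest.Agent.R154.Asm251
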