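import Crest.Agent.R154.FP_178
import Crest.Agent.R154.Dens_616

/-! Row 154 (helper262), ROAD 801: one-walker part of the assembly. -/

set_option autoImplicit false

namespace Crest.Agent.R154.Asm262

open scoped ENNReal
open Crest.Agent.R154.B5A Crest.Agent.R154.FP178

/-! ### density on first passages -/

section dens
variable {G : Type*} [AddCommGroup G]

theorem dens (p : ℕ → G → ℝ≥0∞) (f g : ℕ → ℕ → G → ℝ≥0∞) (T i0 : ℕ) (th q ε M : ℝ≥0∞)
    (hrec : ∀ r, T + i0 ≤ r → ∀ e z, f r e z ≤
      (∑' i, ∑' z', if i ≤ i0 then p i z' * f (r - T - i) e (z - z') else 0) + g r e z)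
    (hf : ∀ r, ∑' e, ∑' z, f r e z ≤ 1)
    (hε : ∀ r, ∑' e, ∑' z, g r e z ≤ ε)
    (hq : ∑' i, ∑' z', (if i ≤ i0 ∧ th < p i z' then p i z' else 0) ≤ q) (hq1 : q ≤ 1)
    (hG : (i0 + 1 : ℕ) * th + q * M ≤ M) :
    ∀ J r, J * (T + i0) ≤ r → ∃ b : ℕ → G → ℝ≥0∞, (∑' e, ∑' z, b e z ≤ q ^ J + J * ε) ∧
      ∀ e z, f r e z ≤ M + b e z := by
  intro J
  induction J with
  | zero =>
    intro r _
    exact ⟨f r, by simpa using hf r, fun e z => le_add_self⟩
  | succ J ih =>
    intro r hr
    have hTr : T + i0 ≤ r := by nlinarith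
    have hrem : ∀ i, i ≤ i0 → J * (T + i0) ≤ r - T - i := by
      intro i hi
      have : J * (T + i0) + (T + i0) ≤ r := by nlinarith
      omega
    choose! b hb1 hb2 using fun i (hi : i ≤ i0) => ih (r - T - i) (hrem i hi)
    refine ⟨fun e z => g r e z +
      ∑' i, ∑' z', if i ≤ i0 ∧ th < p i z' then p i z' * b i e (z - z') else 0, ?_, ?_⟩
    · simp_rw [ENNReal.tsum_add]
      have e2 : ∑' e, ∑' z, ∑' i, ∑' z', (if i ≤ i0 ∧ th < p i z' then
            p i z' * b i e (z - z') else 0)
          ≤ q * (q ^ J + J * ε) := by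
        calc ∑' e, ∑' z, ∑' i, ∑' z', (if i ≤ i0 ∧ th < p i z' then
              p i z' * b i e (z - z') else 0)
            = ∑' e, ∑' i, ∑' z', ∑' z, (if i ≤ i0 ∧ th < p i z' then
              p i z' * b i e (z - z') else 0) := by
              refine tsum_congr fun e => ?_
              rw [ENNReal.tsum_comm]
              refine tsum_congr fun i => ?_
              rw [ENNReal.tsum_comm]
          _ = ∑' i, ∑' z', ∑' e, ∑' z, (if i ≤ i0 ∧ th < p i z' then
              p i z' * b i e (z - z') else 0) := by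
              rw [ENNReal.tsum_comm]
              refine tsum_congr fun i => ?_
              rw [ENNReal.tsum_comm]
          _ ≤ ∑' i, ∑' z', (if i ≤ i0 ∧ th < p i z' then p i z' else 0) * (q ^ J + J * ε) := by
              refine ENNReal.tsum_le_tsum fun i => ENNReal.tsum_le_tsum fun z' => ?_
              split_ifs with h
              · simp_rw [ENNReal.tsum_mul_left]
                have : ∀ e, ∑' z, b i e (z - z') = ∑' z, b i e z := fun e =>
                  (Equiv.subRight z').tsum_eq fun z => b i e z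
                simp_rw [this]
                gcongr
                exact hb1 i h.1
              · simp
          _ = (∑' i, ∑' z', (if i ≤ i0 ∧ th < p i z' then p i z' else 0)) * (q ^ J + J * ε) := by
              simp_rw [ENNReal.tsum_mul_right]
          _ ≤ _ := by gcongr
      calc _ ≤ ε + q * (q ^ J + J * ε) := add_le_add (hε r) e2
        _ = q ^ (J + 1) + (ε + q * (J * ε)) := by ring
        _ ≤ q ^ (J + 1) + (ε + 1 * (J * ε)) := by gcongr
        _ = q ^ (J + 1) + ((J + 1 : ℕ) : ℝ≥0∞) * ε := by push_cast; ring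
    · intro e z
      have hterm : ∀ i z', (if i ≤ i0 then p i z' * f (r - T - i) e (z - z') else 0) ≤
          (if i ≤ i0 then th * f (r - T - i) e (z - z') else 0) +
          ((if i ≤ i0 ∧ th < p i z' then p i z' * b i e (z - z') else 0) +
            (if i ≤ i0 ∧ th < p i z' then p i z' else 0) * M) := by
        intro i z'
        by_cases hi : i ≤ i0
        · simp only [hi, if_true, true_and]
          by_cases hp : th < p i z'
          · simp only [hp, if_true]
            calc _ ≤ p i z' * (M + b i e (z - z')) := by gcongr; exact hb2 i hi _ _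
              _ = p i z' * b i e (z - z') + p i z' * M := by ring
              _ ≤ _ := le_add_self
          · simp only [hp, if_false, zero_mul, add_zero]
            gcongr
            exact not_lt.1 hp
        · simp [hi]
      have hfe : ∀ r, ∑' z, f r e z ≤ 1 := fun r => (ENNReal.le_tsum e).trans (hf r)
      calc f r e z ≤ (∑' i, ∑' z', if i ≤ i0 then p i z' * f (r - T - i) e (z - z') else 0)
            + g r e z := hrec r hTr e z
        _ ≤ (∑' i, ∑' z', ((if i ≤ i0 then th * f (r - T - i) e (z - z') else 0) +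
          ((if i ≤ i0 ∧ th < p i z' then p i z' * b i e (z - z') else 0) +
            (if i ≤ i0 ∧ th < p i z' then p i z' else 0) * M))) + g r e z := by
            gcongr with i z'
            exact hterm i z'
        _ = ((∑' i, ∑' z', (if i ≤ i0 then th * f (r - T - i) e (z - z') else 0)) +
          ((∑' i, ∑' z', (if i ≤ i0 ∧ th < p i z' then p i z' * b i e (z - z') else 0)) +
            (∑' i, ∑' z', (if i ≤ i0 ∧ th < p i z' then p i z' else 0)) * M)) + g r e z := by
            simp_rw [ENNReal.tsum_add, ENNReal.tsum_mul_right]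
        _ ≤ (((i0 + 1 : ℕ) * th) +
          ((∑' i, ∑' z', (if i ≤ i0 ∧ th < p i z' then p i z' * b i e (z - z') else 0)) + q * M))
            + g r e z := by
            gcongr
            calc ∑' i, ∑' z', (if i ≤ i0 then th * f (r - T - i) e (z - z') else 0)
                ≤ ∑' i, (if i ≤ i0 then th else 0) := by
                  refine ENNReal.tsum_le_tsum fun i => ?_
                  split_ifs with h
                  · rw [ENNReal.tsum_mul_left]
                    have : ∑' z', f (r - T - i) e (z - z') = ∑' z', f (r - T - i) e z' :=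
                      (Equiv.subLeft z).tsum_eq fun z' => f (r - T - i) e z'
                    rw [this]
                    calc th * ∑' z', f (r - T - i) e z' ≤ th * 1 := by gcongr; exact hfe _
                      _ = th := mul_one _
                  · simp
              _ = ∑ i ∈ Finset.range (i0 + 1), th := by
                  rw [tsum_eq_sum (s := Finset.range (i0 + 1))]
                  · refine Finset.sum_congr rfl fun i hi => ?_
                    rw [if_pos (by have := Finset.mem_range.1 hi; omega)]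
                  · intro i hi
                    rw [if_neg (by intro h; exact hi (Finset.mem_range.2 (by omega)))]
              _ = _ := by simp
        _ = ((i0 + 1 : ℕ) * th + q * M) +
            (g r e z +
            ∑' i, ∑' z', (if i ≤ i0 ∧ th < p i z' then p i z' * b i e (z - z') else 0)) := by ring
        _ ≤ _ := by gcongr

end dens

/-! ### one walker -/

section walker
variable {B G : Type*} [AddCommGroup G] (Λ : B → ℝ≥0∞) (ht : B → ℕ) (z : B → G)

/-- displacement of a list -/
def Dp {B G : Type*} [AddCommGroup G] (z : B → G) (L : List B) : G := (L.map z).sum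

lemma Dp_nil : Dp z [] = 0 := by simp [Dp]
lemma Dp_cons (b : B) (L : List B) : Dp z (b :: L) = z b + Dp z L := by simp [Dp]
lemma Dp_append (L L' : List B) : Dp z (L ++ L') = Dp z L + Dp z L' := by simp [Dp]

open Classical in
theorem sum_FP_eq (h1 : ∀ b, 1 ≤ ht b) (hΛ : ∑' b, Λ b = 1) (a : ℕ) :
    ∑' L, (if fp ht a L then LW Λ L else 0) = 1 := by
  induction a using Nat.strong_induction_on with
  | _ a ih =>
    rcases Nat.eq_zero_or_pos a with rfl | ha
    · have := sum_fp_zero Λ ht (fun _ => 1)
      simp only [mul_one] at this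
      exact this
    · have := sum_fp_step Λ ht a ha (fun _ => 1)
      simp only [mul_one] at this
      rw [this]
      calc ∑' b, Λ b * ∑' L, (if fp ht (a - ht b) L then LW Λ L else 0)
          = ∑' b, Λ b * 1 := by
            refine tsum_congr fun b => ?_
            rw [ih (a - ht b) (by have := h1 b; omega)]
        _ = 1 := by simpa using hΛ

open Classical in
/-- law of the first passage of depth `c`: overshoot `e`, displacement `x` -/
noncomputable def F (c e : ℕ) (x : G) : ℝ≥0∞ :=
  ∑' A, if fp ht c A ∧ HT ht A = c + e ∧ Dp z A = x then LW Λ A else 0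

open Classical in
lemma sum_F (c : ℕ) (f : ℕ → G → ℝ≥0∞) :
    ∑' A, (if fp ht c A then LW Λ A * f (HT ht A - c) (Dp z A) else 0)
      = ∑' e, ∑' x, F Λ ht z c e x * f e x := by
  have e1 : ∀ e x, F Λ ht z c e x * f e x
      = ∑' A, (if fp ht c A ∧ HT ht A = c + e ∧ Dp z A = x then LW Λ A * f e x else 0) := by
    intro e x
    rw [F, ← ENNReal.tsum_mul_right]
    refine tsum_congr fun A => ?_
    split_ifs <;> simp
  simp_rw [e1]
  have e2 : ∀ e, ∑' x, ∑' A, (if fp ht c A ∧ HT ht A = c + e ∧ Dp z A = x then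
      LW Λ A * f e x else 0) = ∑' A, (if fp ht c A ∧ HT ht A = c + e then
      LW Λ A * f e (Dp z A) else 0) := by
    intro e
    rw [ENNReal.tsum_comm]
    refine tsum_congr fun A => ?_
    rw [tsum_eq_single (Dp z A)]
    · simp
    · intro x hx
      rw [if_neg (fun h => hx h.2.2.symm)]
  simp_rw [e2]
  rw [ENNReal.tsum_comm]
  refine tsum_congr fun A => ?_
  by_cases h : fp ht c A
  · have h' := le_HT_of_fp ht h
    rw [tsum_eq_single (HT ht A - c)]
    · rw [if_pos h, if_pos ⟨h, by omega⟩]
    · intro e he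
      rw [if_neg (fun h => he (by omega))]
  · rw [if_neg h]
    symm
    rw [ENNReal.tsum_eq_zero]
    intro e
    rw [if_neg (fun h' => h h'.1)]

open Classical in
lemma sum_F_one (h1 : ∀ b, 1 ≤ ht b) (hΛ : ∑' b, Λ b = 1) (c : ℕ) :
    ∑' e, ∑' x, F Λ ht z c e x = 1 := by
  have := sum_F Λ ht z c (fun _ _ => 1)
  simp only [mul_one] at this
  rw [← this, sum_FP_eq Λ ht h1 hΛ]

open Classical in
/-- the first passages with a long first attempt -/
noncomputable def g (T i0 r e : ℕ) (x : G) : ℝ≥0∞ :=
  ∑' A, if fp ht T A ∧ T + i0 < HT ht A then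
    LW Λ A * ∑' L, (if fp ht (r - HT ht A) L then
      LW Λ L * (if HT ht (A ++ L) = r + e ∧ Dp z (A ++ L) = x then 1 else 0) else 0) else 0

lemma F_rec (h1 : ∀ b, 1 ≤ ht b) (T i0 r : ℕ) (hr : T + i0 ≤ r) (e : ℕ) (x : G) :
    F Λ ht z r e x ≤
      (∑' i, ∑' z', if i ≤ i0 then F Λ ht z T i z' * F Λ ht z (r - T - i) e (x - z') else 0)
        + g Λ ht z T i0 r e x := by
  classical
  have e0 : F Λ ht z r e x = ∑' L, (if fp ht r L then
      LW Λ L * (if HT ht L = r + e ∧ Dp z L = x then 1 else 0) else 0) := by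
    rw [F]
    refine tsum_congr fun L => ?_
    by_cases h : fp ht r L <;> simp [h]
  rw [e0, fp_split Λ ht h1 T r (by omega)]
  have e1 : (∑' i, ∑' z', if i ≤ i0 then F Λ ht z T i z' * F Λ ht z (r - T - i) e (x - z') else 0)
      = ∑' A, (if fp ht T A then LW Λ A *
        (if HT ht A - T ≤ i0 then F Λ ht z (r - T - (HT ht A - T)) e (x - Dp z A) else 0)
        else 0) := by
    rw [sum_F Λ ht z T (fun i z' => if i ≤ i0 then F Λ ht z (r - T - i) e (x - z') else 0)]
    refine tsum_congr fun i => tsum_congr fun z' => ?_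
    split_ifs <;> simp
  rw [e1, g, ← ENNReal.tsum_add]
  refine ENNReal.tsum_le_tsum fun A => ?_
  by_cases h : fp ht T A
  · have h' := le_HT_of_fp ht h
    simp only [h, if_true, true_and]
    by_cases h2 : HT ht A - T ≤ i0
    · rw [if_pos h2, if_neg (by omega), add_zero]
      gcongr
      rw [F]
      refine ENNReal.tsum_le_tsum fun L => ?_
      have e3 : r - T - (HT ht A - T) = r - HT ht A := by omega
      rw [e3]
      by_cases h3 : fp ht (r - HT ht A) L
      · simp only [h3, if_true, true_and]
        by_cases h4 : HT ht (A ++ L) = r + e ∧ Dp z (A ++ L) = x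
        · rw [if_pos h4]
          rw [HT_append, Dp_append] at h4
          rw [if_pos ⟨by omega, by rw [← h4.2]; abel⟩, mul_one]
        · rw [if_neg h4, mul_zero]; exact zero_le
      · simp [h3]
    · rw [if_neg h2, if_pos (by omega), mul_zero, zero_add]
  · simp [h]

lemma g_sum (h1 : ∀ b, 1 ≤ ht b) (hΛ : ∑' b, Λ b = 1) (T i0 r : ℕ) (δ : ℝ≥0∞)
    (hδ : ∑' L, (open Classical in if fp ht T L ∧ T + i0 < HT ht L then LW Λ L else 0) ≤ δ) :
    ∑' e, ∑' x, g Λ ht z T i0 r e x ≤ δ := by
  classical
  refine le_trans ?_ hδ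
  have e1 : ∑' e, ∑' x, g Λ ht z T i0 r e x = ∑' A, (if fp ht T A ∧ T + i0 < HT ht A then
      LW Λ A * ∑' L, (if fp ht (r - HT ht A) L then
      LW Λ L * (∑' e, ∑' x, if HT ht (A ++ L) = r + e ∧ Dp z (A ++ L) = x then 1 else 0) else 0)
        else 0) := by
    simp only [g]
    have : ∀ e, ∑' x, ∑' A, (if fp ht T A ∧ T + i0 < HT ht A then
        LW Λ A * ∑' L, (if fp ht (r - HT ht A) L then
        LW Λ L * (if HT ht (A ++ L) = r + e ∧ Dp z (A ++ L) = x then 1 else 0) else 0) else 0)
        = ∑' A, ∑' x, (if fp ht T A ∧ T + i0 < HT ht A then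
        LW Λ A * ∑' L, (if fp ht (r - HT ht A) L then
        LW Λ L * (if HT ht (A ++ L) = r + e ∧ Dp z (A ++ L) = x then 1 else 0) else 0) else 0) :=
      fun e => ENNReal.tsum_comm
    simp_rw [this]
    rw [ENNReal.tsum_comm]
    refine tsum_congr fun A => ?_
    by_cases h : fp ht T A ∧ T + i0 < HT ht A
    · simp only [h, if_true, and_self]
      simp_rw [ENNReal.tsum_mul_left]
      congr 1
      have : ∀ e, ∑' x, ∑' L, (if fp ht (r - HT ht A) L then
        LW Λ L * (if HT ht (A ++ L) = r + e ∧ Dp z (A ++ L) = x then 1 else 0) else 0)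
        = ∑' L, ∑' x, (if fp ht (r - HT ht A) L then
        LW Λ L * (if HT ht (A ++ L) = r + e ∧ Dp z (A ++ L) = x then 1 else 0) else 0) :=
        fun e => ENNReal.tsum_comm
      simp_rw [this]
      rw [ENNReal.tsum_comm]
      refine tsum_congr fun L => ?_
      by_cases h3 : fp ht (r - HT ht A) L
      · simp only [h3, if_true]
        simp_rw [ENNReal.tsum_mul_left]
      · simp [h3]
    · simp only [h, if_false]
      simp
  rw [e1]
  refine ENNReal.tsum_le_tsum fun A => ?_
  by_cases h : fp ht T A ∧ T + i0 < HT ht A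
  · rw [if_pos h, if_pos h]
    calc _ ≤ LW Λ A * ∑' L, (if fp ht (r - HT ht A) L then LW Λ L * 1 else 0) := by
          gcongr with L
          split_ifs with h3
          · gcongr
            have : ∀ e, ∑' x, (if HT ht (A ++ L) = r + e ∧ Dp z (A ++ L) = x then (1:ℝ≥0∞) else 0)
                = if HT ht (A ++ L) = r + e then 1 else 0 := by
              intro e
              rw [tsum_eq_single (Dp z (A ++ L))]
              · simp
              · intro x hx; rw [if_neg (fun h => hx h.2.symm)]
            simp_rw [this]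
            by_cases h5 : r ≤ HT ht (A ++ L)
            · rw [tsum_eq_single (HT ht (A ++ L) - r)]
              · rw [if_pos (by omega)]
              · intro e he; rw [if_neg (by omega)]
            · rw [ENNReal.tsum_eq_zero.2]
              · exact zero_le
              · intro e; rw [if_neg (by omega)]
          · exact le_rfl
      _ = LW Λ A * 1 := by
          simp only [mul_one]
          rw [sum_FP_eq Λ ht h1 hΛ]; simp
      _ = _ := mul_one _
  · rw [if_neg h, if_neg h]

open Classical in
/-- threshold, local sets, density -/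
theorem loc (h1 : ∀ b, 1 ≤ ht b) (hΛ : ∑' b, Λ b = 1) (T i0 : ℕ) (u δ : ℝ≥0∞) (hu0 : u ≠ 0)
    (hu1 : u < 1)
    (hδ : ∑' L, (if fp ht T L ∧ T + i0 < HT ht L then LW Λ L else 0) ≤ δ) :
    ∃ (M : ℝ≥0∞) (E : ℕ → Finset G), M ≠ ⊤ ∧ (∀ j, M * ((E j).card : ℝ≥0∞) ≤ (i0 + 1 : ℕ) / u) ∧
      (∑' P, (if fp ht T P ∧ Dp z P ∉ E (HT ht P - T) then LW Λ P else 0) ≤ u) ∧
      ∀ J c, J * (T + i0) ≤ c → ∃ b : ℕ → G → ℝ≥0∞,
        (∑' e, ∑' x, b e x ≤ (1 - u) ^ J + J * δ) ∧ ∀ e x, F Λ ht z c e x ≤ M + b e x := by
  have hsum : ∑' x : ℕ × G, F Λ ht z T x.1 x.2 = 1 := by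
    rw [ENNReal.tsum_prod']
    exact sum_F_one Λ ht z h1 hΛ T
  obtain ⟨th, hth0, hth1, hlow, hup⟩ := Dens616.quantile (fun x : ℕ × G => F Λ ht z T x.1 x.2)
    hsum hu0 hu1
  have hfin : ∀ j, {x : G | th ≤ F Λ ht z T j x}.Finite := by
    intro j
    refine Dens616.finite_local (fun x => F Λ ht z T j x) ?_ hth0
    refine ne_top_of_le_ne_top ENNReal.one_ne_top ?_
    rw [← sum_F_one Λ ht z h1 hΛ T]
    exact ENNReal.le_tsum (f := fun e => ∑' x, F Λ ht z T e x) j
  have hut : u ≠ ⊤ := ne_top_of_lt hu1
  refine ⟨(i0 + 1 : ℕ) * th / u, fun j => (hfin j).toFinset, ENNReal.div_ne_top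
    (ENNReal.mul_ne_top (ENNReal.natCast_ne_top _)
      (ne_top_of_le_ne_top ENNReal.one_ne_top hth1)) hu0, ?_, ?_, ?_⟩
  · intro j
    have h2 : ((hfin j).toFinset.card : ℝ≥0∞) * th ≤ 1 := by
      refine (Dens616.card_mul_le (fun x => F Λ ht z T j x) th _ ?_).trans ?_
      · intro x hx
        simpa using hx
      · rw [← sum_F_one Λ ht z h1 hΛ T]
        exact ENNReal.le_tsum (f := fun e => ∑' x, F Λ ht z T e x) j
    calc (i0 + 1 : ℕ) * th / u * ((hfin j).toFinset.card : ℝ≥0∞)
        = (i0 + 1 : ℕ) / u * (((hfin j).toFinset.card : ℝ≥0∞) * th) := by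
          rw [div_eq_mul_inv, div_eq_mul_inv]; ring
      _ ≤ (i0 + 1 : ℕ) / u * 1 := by gcongr
      _ = _ := mul_one _
  · have h3 := sum_F Λ ht z T (fun e x => if x ∉ (hfin e).toFinset then 1 else 0)
    have h4 : ∑' P, (if fp ht T P ∧ Dp z P ∉ (hfin (HT ht P - T)).toFinset then LW Λ P else 0)
        = ∑' e, ∑' x, F Λ ht z T e x * (if x ∉ (hfin e).toFinset then 1 else 0) := by
      rw [← h3]
      refine tsum_congr fun P => ?_
      by_cases h : fp ht T P
      · simp only [h, true_and, if_true]
        split_ifs <;> simp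
      · simp [h]
    rw [h4]
    refine le_trans ?_ hlow
    rw [ENNReal.tsum_prod']
    refine ENNReal.tsum_le_tsum fun e => ENNReal.tsum_le_tsum fun x => ?_
    simp only [Set.Finite.mem_toFinset, Set.mem_ofPred_eq, not_le]
    split_ifs <;> simp
  · refine fun J c hJ => dens (fun i x => F Λ ht z T i x) (fun r e x => F Λ ht z r e x)
      (fun r e x => g Λ ht z T i0 r e x) T i0 th (1 - u) δ ((i0 + 1 : ℕ) * th / u)
      (fun r hr e x => F_rec Λ ht z h1 T i0 r hr e x) (fun r => (sum_F_one Λ ht z h1 hΛ r).le)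
      (fun r => g_sum Λ ht z h1 hΛ T i0 r δ hδ) ?_ tsub_le_self ?_ J c hJ
    · have h5 : ∑' x : ℕ × G, (if th < F Λ ht z T x.1 x.2 then F Λ ht z T x.1 x.2 else 0)
          + ∑' x : ℕ × G, (if F Λ ht z T x.1 x.2 ≤ th then F Λ ht z T x.1 x.2 else 0) = 1 := by
        rw [← ENNReal.tsum_add, ← hsum]
        refine tsum_congr fun x => ?_
        by_cases h : th < F Λ ht z T x.1 x.2
        · rw [if_pos h, if_neg (not_le.2 h), add_zero]
        · rw [if_neg h, if_pos (not_lt.1 h), zero_add]
      have h6 : ∑' x : ℕ × G, (if th < F Λ ht z T x.1 x.2 then F Λ ht z T x.1 x.2 else 0)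
          ≤ 1 - u := by
        refine ENNReal.le_sub_of_add_le_right hut ?_
        rw [← h5]
        gcongr
      refine le_trans ?_ h6
      rw [ENNReal.tsum_prod']
      refine ENNReal.tsum_le_tsum fun e => ENNReal.tsum_le_tsum fun x => ?_
      by_cases h : th < F Λ ht z T e x
      · by_cases h' : e ≤ i0 <;> simp [h, h']
      · simp [h]
    · have h7 : (i0 + 1 : ℕ) * th = u * ((i0 + 1 : ℕ) * th / u) := by
        rw [ENNReal.mul_div_cancel hu0 hut]
      have h8 : (1 - u) + u = 1 := tsub_add_cancel_of_le hu1.le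
      calc (i0 + 1 : ℕ) * th + (1 - u) * ((i0 + 1 : ℕ) * th / u)
          = u * ((i0 + 1 : ℕ) * th / u) + (1 - u) * ((i0 + 1 : ℕ) * th / u) := by rw [← h7]
        _ = ((1 - u) + u) * ((i0 + 1 : ℕ) * th / u) := by ring
        _ ≤ _ := by rw [h8, one_mul]

open Classical in
lemma U_le_one (h1 : ∀ b, 1 ≤ ht b) (hΛ : ∑' b, Λ b = 1) (n : ℕ) : U Λ ht n ≤ 1 := by
  have hfp : ∀ (L : List B) (n : ℕ), HT ht L = n → fp ht n L := by
    intro L
    induction L with
    | nil => intro n hn; rw [fp_nil]; rw [HT_nil] at hn; exact hn.symm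
    | cons b L ih =>
      intro n hn
      rw [HT_cons] at hn
      have := h1 b
      exact (fp_cons ht n b L).2 ⟨by omega, ih _ (by omega)⟩
  rw [U, ← sum_FP_eq Λ ht h1 hΛ n]
  refine ENNReal.tsum_le_tsum fun L => ?_
  by_cases h : HT ht L = n
  · rw [if_pos h, if_pos (hfp L n h)]
  · rw [if_neg h]; exact zero_le

open Classical in
/-- cutting a list of height `n` at the first passage of `c` and the next first passage of `T` -/
theorem cut (h1 : ∀ b, 1 ≤ ht b) (hΛ : ∑' b, Λ b = 1) (c T i0 n : ℕ) (hn : c + T + i0 ≤ n)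
    (δ : ℝ≥0∞) (hδ : ∀ a, ∑' L, (if fp ht a L ∧ a + i0 < HT ht L then LW Λ L else 0) ≤ δ)
    (f : List B → ℝ≥0∞) (hf : ∀ L, f L ≤ 1) :
    ∑' L, (if HT ht L = n then LW Λ L * f L else 0) ≤ δ + δ +
      ∑' A, ∑' P, (if (fp ht c A ∧ HT ht A ≤ c + i0) ∧ (fp ht T P ∧ HT ht P ≤ T + i0) then
        LW Λ A * LW Λ P * ∑' R, (if HT ht A + HT ht P + HT ht R = n then
          LW Λ R * f (A ++ (P ++ R)) else 0) else 0) := by
  have hU := U_le_one Λ ht h1 hΛ
  have s1 : ∑' L, (if HT ht L = n then LW Λ L * f L else 0)
      = ∑' L, (if c ≤ HT ht L then LW Λ L * (if HT ht L = n then f L else 0) else 0) := by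
    refine tsum_congr fun L => ?_
    by_cases h : HT ht L = n
    · rw [if_pos h, if_pos (by omega), if_pos h]
    · simp [h]
  rw [s1, FP178.split Λ ht h1 c]
  -- inner sum
  have inner : ∀ A : List B, HT ht A ≤ c + i0 →
      ∑' L2, LW Λ L2 * (if HT ht (A ++ L2) = n then f (A ++ L2) else 0)
      ≤ δ + ∑' P, (if fp ht T P ∧ HT ht P ≤ T + i0 then
        LW Λ P * ∑' R, (if HT ht A + HT ht P + HT ht R = n then
          LW Λ R * f (A ++ (P ++ R)) else 0) else 0) := by
    intro A hA
    have s2 : ∑' L2, LW Λ L2 * (if HT ht (A ++ L2) = n then f (A ++ L2) else 0)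
        = ∑' L2, (if T ≤ HT ht L2 then LW Λ L2 *
          (if HT ht (A ++ L2) = n then f (A ++ L2) else 0) else 0) := by
      refine tsum_congr fun L => ?_
      by_cases h : HT ht (A ++ L) = n
      · rw [HT_append] at h
        rw [if_pos (show T ≤ HT ht L by omega)]
      · simp [h]
    rw [s2, FP178.split Λ ht h1 T]
    have s3 : ∀ P : List B, (if fp ht T P then LW Λ P * ∑' R, LW Λ R *
        (if HT ht (A ++ (P ++ R)) = n then f (A ++ (P ++ R)) else 0) else 0)
        ≤ (if fp ht T P ∧ T + i0 < HT ht P then LW Λ P else 0) +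
          (if fp ht T P ∧ HT ht P ≤ T + i0 then
        LW Λ P * ∑' R, (if HT ht A + HT ht P + HT ht R = n then
          LW Λ R * f (A ++ (P ++ R)) else 0) else 0) := by
      intro P
      by_cases h : fp ht T P
      · simp only [h, if_true, true_and]
        by_cases h2 : HT ht P ≤ T + i0
        · rw [if_pos h2, if_neg (by omega), zero_add]
          gcongr with R
          rw [HT_append, HT_append, ← add_assoc]
          split_ifs <;> simp
        · rw [if_neg h2, if_pos (by omega), add_zero]
          calc LW Λ P * _ ≤ LW Λ P * ∑' R, (if HT ht R = n - HT ht A - HT ht P then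
                LW Λ R else 0) := by
                gcongr with R
                split_ifs with h3 h4 h4
                · calc LW Λ R * f (A ++ (P ++ R)) ≤ LW Λ R * 1 := by gcongr; exact hf _
                    _ = _ := mul_one _
                · rw [HT_append, HT_append] at h3; omega
                · simp
                · simp
            _ ≤ LW Λ P * 1 := by gcongr; exact hU _
            _ = _ := mul_one _
      · simp [h]
    refine (ENNReal.tsum_le_tsum s3).trans ?_
    rw [ENNReal.tsum_add]
    gcongr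
    exact hδ T
  have s4 : ∀ A : List B, (if fp ht c A then LW Λ A * ∑' L2, LW Λ L2 *
      (if HT ht (A ++ L2) = n then f (A ++ L2) else 0) else 0)
      ≤ (if fp ht c A ∧ c + i0 < HT ht A then LW Λ A else 0) +
        ((if fp ht c A then LW Λ A else 0) * δ +
        ∑' P, (if (fp ht c A ∧ HT ht A ≤ c + i0) ∧ (fp ht T P ∧ HT ht P ≤ T + i0) then
        LW Λ A * LW Λ P * ∑' R, (if HT ht A + HT ht P + HT ht R = n then
          LW Λ R * f (A ++ (P ++ R)) else 0) else 0)) := by
    intro A
    by_cases h : fp ht c A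
    · simp only [h, if_true, true_and]
      by_cases h2 : HT ht A ≤ c + i0
      · rw [if_neg (by omega), zero_add]
        simp only [h2, true_and]
        calc _ ≤ LW Λ A * (δ + ∑' P, (if fp ht T P ∧ HT ht P ≤ T + i0 then
              LW Λ P * ∑' R, (if HT ht A + HT ht P + HT ht R = n then
              LW Λ R * f (A ++ (P ++ R)) else 0) else 0)) := by gcongr; exact inner A h2
          _ = _ := by
            rw [mul_add, ← ENNReal.tsum_mul_left]
            congr 1
            refine tsum_congr fun P => ?_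
            split_ifs
            · rw [mul_assoc]
            · simp
      · rw [if_pos (by omega)]
        refine le_trans ?_ le_self_add
        calc LW Λ A * _ ≤ LW Λ A * ∑' R, (if HT ht R = n - HT ht A then
              LW Λ R else 0) := by
              gcongr with R
              split_ifs with h3 h4 h4
              · calc LW Λ R * f (A ++ R) ≤ LW Λ R * 1 := by gcongr; exact hf _
                  _ = _ := mul_one _
              · rw [HT_append] at h3; omega
              · simp
              · simp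
          _ ≤ LW Λ A * 1 := by gcongr; exact hU _
          _ = _ := mul_one _
    · simp [h]
  refine (ENNReal.tsum_le_tsum s4).trans ?_
  rw [ENNReal.tsum_add, ENNReal.tsum_add, ENNReal.tsum_mul_right, sum_FP_eq Λ ht h1 hΛ c, one_mul,
    add_assoc]
  gcongr
  exact hδ c

end walker

end Crest.Agent.R154.Asm262
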