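import Crest.Agent.R154.AsmD_540
import Crest.Agent.R154.Dens_616

/-! Row 154, KAPPA' (801), list assembly, part A (helper295): first passage lists of one walker. -/

set_option autoImplicit false

namespace Crest.Agent.R154.Asm295

open scoped ENNReal
open Crest.Agent.R154.B5A (LW HT LW_nil LW_cons LW_append HT_nil HT_cons HT_append tsum_list)
open Crest.Agent.R154.Asm540 (Dp Dp_append)

section one

variable {B G : Type*}

/-- first passage of height `a` (list read from the tie) -/
def fp (h : B → ℕ) : List B → ℕ → Prop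
  | [], a => a = 0
  | b :: L, a => 1 ≤ a ∧ fp h L (a - h b)

variable {Λ : B → ℝ≥0∞} {h : B → ℕ}

lemma fp_le : ∀ (L : List B) (a : ℕ), fp h L a → a ≤ HT h L
  | [], a, e => by simp only [fp] at e; omega
  | b :: L, a, e => by
      obtain ⟨_, e2⟩ := e
      have := fp_le L _ e2
      rw [HT_cons]; omega

lemma fp_split : ∀ (L : List B) (a : ℕ), a ≤ HT h L → ∃ A R, L = A ++ R ∧ fp h A a
  | [], a, e => ⟨[], [], rfl, by rw [HT_nil] at e; simp only [fp]; omega⟩
  | b :: L, a, e => by
      rcases Nat.eq_zero_or_pos a with rfl | ha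
      · exact ⟨[], b :: L, rfl, rfl⟩
      · rw [HT_cons] at e
        obtain ⟨A, R, e1, e2⟩ := fp_split L (a - h b) (by omega)
        exact ⟨b :: A, R, by rw [e1]; rfl, ha, e2⟩

lemma fp_dec : ∀ (L : List B) (r T : ℕ), T ≤ r → fp h L r → ∃ A R, L = A ++ R ∧ fp h A T ∧
    ((HT h A ≤ r ∧ fp h R (r - HT h A)) ∨ (r < HT h A ∧ R = []))
  | [], r, T, hT, e => by
      simp only [fp] at e
      subst e
      exact ⟨[], [], rfl, by simp only [fp]; omega, Or.inl ⟨by rw [HT_nil], by simp [fp]⟩⟩
  | b :: L, r, T, hT, e => by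
      rcases Nat.eq_zero_or_pos T with rfl | hT0
      · exact ⟨[], b :: L, rfl, rfl, Or.inl ⟨by rw [HT_nil]; omega, by rw [HT_nil]; exact e⟩⟩
      · obtain ⟨e1, e2⟩ := e
        obtain ⟨A, R, f1, f2, f3⟩ := fp_dec L (r - h b) (T - h b) (by omega) e2
        refine ⟨b :: A, R, by rw [f1]; rfl, ⟨hT0, f2⟩, ?_⟩
        rw [HT_cons]
        rcases f3 with ⟨g1, g2⟩ | ⟨g1, g2⟩
        · by_cases hb : h b ≤ r
          · refine Or.inl ⟨by omega, ?_⟩
            rw [show r - (h b + HT h A) = r - h b - HT h A by omega]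
            exact g2
          · refine Or.inr ⟨by omega, ?_⟩
            rw [show r - h b = 0 by omega] at e2
            cases L with
            | nil => exact (List.append_eq_nil_iff.1 f1.symm).2
            | cons c L => exact absurd e2.1 (by omega)
        · exact Or.inr ⟨by omega, g2⟩

lemma fp_last : ∀ (L : List B) (b : B) (a : ℕ), fp h (L ++ [b]) a → HT h L < a
  | [], b, a, e => by rw [HT_nil]; exact e.1
  | c :: L, b, a, e => by
      obtain ⟨_, e2⟩ := e
      have := fp_last L b _ e2
      rw [HT_cons]; omega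

open Classical in
lemma tsum_split (F : List B → ℝ≥0∞) (P : List B → List B → Prop)
    (hF : ∀ L, F L ≠ 0 → ∃ A R, L = A ++ R ∧ P A R) :
    ∑' L, F L ≤ ∑' A, ∑' R, if P A R then F (A ++ R) else 0 := by
  have key : ∀ L : List B, ∃ p : List B × List B, p.1 ++ p.2 = L ∧ (F L ≠ 0 → P p.1 p.2) := by
    intro L
    by_cases e : F L ≠ 0
    · obtain ⟨A, R, e1, e2⟩ := hF L e
      exact ⟨(A, R), e1.symm, fun _ => e2⟩
    · exact ⟨(L, []), by simp, fun e' => absurd e' e⟩
  choose i hi1 hi2 using key
  have hinj : Function.Injective i := fun L L' e => by rw [← hi1 L, ← hi1 L', e]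
  rw [← ENNReal.tsum_prod]
  calc ∑' L, F L ≤ ∑' L, (fun p : List B × List B =>
        if P p.1 p.2 then F (p.1 ++ p.2) else 0) (i L) := by
        refine ENNReal.tsum_le_tsum fun L => ?_
        by_cases e : F L = 0
        · rw [e]; exact bot_le
        · simp only [hi1, if_pos (hi2 L e), le_refl]
    _ ≤ _ := ENNReal.tsum_comp_le_tsum_of_injective hinj _

open Classical in
lemma tsum_fp_rec (F : List B → ℝ≥0∞) (a : ℕ) (ha : 1 ≤ a) :
    ∑' L, (if fp h L a then LW Λ L * F L else 0)
      = ∑' b, Λ b * ∑' L, (if fp h L (a - h b) then LW Λ L * F (b :: L) else 0) := by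
  rw [tsum_list]
  have : ¬ fp h ([] : List B) a := by simp only [fp]; omega
  rw [if_neg this, zero_add]
  refine tsum_congr fun b => ?_
  rw [← ENNReal.tsum_mul_left]
  refine tsum_congr fun L => ?_
  by_cases e : fp h L (a - h b)
  · rw [if_pos (show fp h (b :: L) a from ⟨ha, e⟩), if_pos e, LW_cons, mul_assoc]
  · rw [if_neg (show ¬ fp h (b :: L) a from fun e' => e e'.2), if_neg e, mul_zero]

open Classical in
lemma tsum_fp_zero (F : List B → ℝ≥0∞) :
    ∑' L, (if fp h L 0 then LW Λ L * F L else 0) = F [] := by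
  rw [tsum_list, if_pos (show fp h ([] : List B) 0 from rfl), LW_nil, one_mul]
  have : ∀ (b : B) (L : List B), (if fp h (b :: L) 0 then LW Λ (b :: L) * F (b :: L) else 0) = 0 :=
    fun b L => if_neg (fun e => absurd e.1 (by omega))
  simp only [this, tsum_zero, add_zero]

open Classical in
lemma sum_fp (hΛ : ∑' b, Λ b = 1) (h1 : ∀ b, 1 ≤ h b) (a : ℕ) :
    ∑' L, (if fp h L a then LW Λ L else 0) = 1 := by
  induction a using Nat.strong_induction_on with
  | _ a ih =>
    have e : ∀ a, ∑' L, (if fp h L a then LW Λ L else 0)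
        = ∑' L, (if fp h L a then LW Λ L * (fun _ => (1:ℝ≥0∞)) L else 0) := fun a =>
      tsum_congr fun L => by simp
    rcases Nat.eq_zero_or_pos a with rfl | ha
    · rw [e, tsum_fp_zero]
    · rw [e, tsum_fp_rec _ a ha]
      refine Eq.trans (tsum_congr fun b => ?_) hΛ
      have := ih (a - h b) (by have := h1 b; omega)
      rw [e] at this
      simp only at this ⊢
      rw [this, mul_one]

open Classical in
/-- overshoot -/
lemma ovs (hU : ∀ n, ∑' L, (if HT h L = n then LW Λ L else 0) ≤ 1) (a i : ℕ) :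
    ∑' L, (if fp h L a ∧ a + i < HT h L then LW Λ L else 0) ≤ ∑' b, Λ b * ((h b - i : ℕ) : ℝ≥0∞) := by
  have hinj : Function.Injective (fun p : List B × B => p.1 ++ [p.2]) := by
    rintro ⟨L, b⟩ ⟨L', b'⟩ e
    simp only at e
    obtain ⟨e1, e2⟩ := List.append_inj' e rfl
    exact Prod.ext e1 (by simpa using e2)
  have hs : Function.support (fun L : List B => if fp h L a ∧ a + i < HT h L then LW Λ L else 0)
      ⊆ Set.range (fun p : List B × B => p.1 ++ [p.2]) := by
    intro L hL
    rcases List.eq_nil_or_concat L with rfl | ⟨L', b, rfl⟩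
    · simp only [Function.mem_support, HT_nil] at hL
      exact absurd (if_neg (by omega)) hL
    · exact ⟨(L', b), by simp⟩
  rw [← hinj.tsum_eq hs]
  refine (le_of_eq (ENNReal.tsum_prod (f := fun (L : List B) (b : B) =>
    if fp h (L ++ [b]) a ∧ a + i < HT h (L ++ [b]) then LW Λ (L ++ [b]) else 0))).trans ?_
  rw [ENNReal.tsum_comm]
  refine ENNReal.tsum_le_tsum fun b => ?_
  calc ∑' L, (if fp h (L ++ [b]) a ∧ a + i < HT h (L ++ [b]) then LW Λ (L ++ [b]) else 0)
      ≤ ∑' L, ∑ r ∈ Finset.range (h b - i), Λ b * (if HT h L = a - r then LW Λ L else 0) := by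
        refine ENNReal.tsum_le_tsum fun L => ?_
        split_ifs with e
        · obtain ⟨e1, e2⟩ := e
          have h3 := fp_last L b a e1
          rw [HT_append, HT_cons, HT_nil] at e2
          have hm : a - HT h L ∈ Finset.range (h b - i) := Finset.mem_range.2 (by omega)
          refine le_trans ?_ (Finset.single_le_sum (f := fun r => Λ b *
            (if HT h L = a - r then LW Λ L else 0)) (fun _ _ => bot_le) hm)
          rw [if_pos (by omega), LW_append, LW_cons, LW_nil, mul_one, mul_comm]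
        · exact bot_le
    _ = ∑ r ∈ Finset.range (h b - i), Λ b * ∑' L, (if HT h L = a - r then LW Λ L else 0) := by
        rw [Summable.tsum_finsetSum (fun _ _ => ENNReal.summable)]
        simp_rw [ENNReal.tsum_mul_left]
    _ ≤ ∑ r ∈ Finset.range (h b - i), Λ b * 1 := by
        gcongr; exact hU _
    _ = Λ b * ((h b - i : ℕ) : ℝ≥0∞) := by
        rw [mul_one, Finset.sum_const, Finset.card_range, nsmul_eq_mul, mul_comm]

variable [AddCommGroup G] (Λ h)

open Classical in
/-- law of the first passage of height `T`: overshoot `i`, displacement `x` -/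
noncomputable def nf (z : B → G) (T i : ℕ) (x : G) : ℝ≥0∞ :=
  ∑' L, if HT h L = T + i ∧ Dp z L = x then (if fp h L T then LW Λ L else 0) else 0

variable {Λ h}

open Classical in
lemma fib (z : B → G) (T : ℕ) (φ : ℕ → G → ℝ≥0∞) :
    ∑' L, (if fp h L T then LW Λ L else 0) * φ (HT h L - T) (Dp z L)
      = ∑' i, ∑' x, nf Λ h z T i x * φ i x := by
  have e : ∀ i x, nf Λ h z T i x * φ i x = ∑' L, (if HT h L = T + i ∧ Dp z L = x then
      (if fp h L T then LW Λ L else 0) * φ i x else 0) := by
    intro i x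
    rw [nf, ← ENNReal.tsum_mul_right]
    exact tsum_congr fun L => by split_ifs <;> simp
  simp_rw [e]
  have e2 : ∀ i, ∑' x, ∑' L, (if HT h L = T + i ∧ Dp z L = x then
      (if fp h L T then LW Λ L else 0) * φ i x else 0) = ∑' L, ∑' x,
      (if HT h L = T + i ∧ Dp z L = x then
      (if fp h L T then LW Λ L else 0) * φ i x else 0) := fun i => ENNReal.tsum_comm
  simp_rw [e2]
  rw [ENNReal.tsum_comm]
  refine tsum_congr fun L => ?_
  by_cases hL : fp h L T
  · have hT := fp_le L T hL
    rw [tsum_eq_single (HT h L - T), tsum_eq_single (Dp z L)]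
    · exact (if_pos ⟨by omega, rfl⟩).symm
    · intro x hx
      exact if_neg fun e => hx e.2.symm
    · intro i hi
      refine ENNReal.tsum_eq_zero.2 fun x => if_neg fun e => hi ?_
      omega
  · simp [hL]

lemma nf_sum (hΛ : ∑' b, Λ b = 1) (h1 : ∀ b, 1 ≤ h b) (z : B → G) (T : ℕ) :
    ∑' i, ∑' x, nf Λ h z T i x = 1 := by
  classical
  have := fib (Λ := Λ) (h := h) z T (fun _ _ => 1)
  simp only [mul_one] at this
  rw [← this, sum_fp hΛ h1]

open Classical in
lemma nf_rec (z : B → G) (T r : ℕ) (hTr : T ≤ r) (α : ℕ) (x : G) :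
    nf Λ h z r α x ≤ (∑' i, ∑' x', if T + i ≤ r then
      nf Λ h z T i x' * nf Λ h z (r - T - i) α (x - x') else 0) +
      ∑' L, if HT h L = r + α ∧ Dp z L = x then (if fp h L T ∧ r < HT h L then LW Λ L else 0)
        else 0 := by
  have e0 : ∀ L, (if HT h L = r + α ∧ Dp z L = x then (if fp h L r then LW Λ L else 0) else 0)
      ≤ (if (∃ A R, L = A ++ R ∧ (fp h A T ∧ HT h A ≤ r ∧ fp h R (r - HT h A))) then
        (if HT h L = r + α ∧ Dp z L = x then LW Λ L else 0) else 0) +
      (if HT h L = r + α ∧ Dp z L = x then (if fp h L T ∧ r < HT h L then LW Λ L else 0)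
        else 0) := by
    intro L
    by_cases hL : HT h L = r + α ∧ Dp z L = x
    · rw [if_pos hL, if_pos hL, if_pos hL]
      by_cases hf : fp h L r
      · rw [if_pos hf]
        obtain ⟨A, R, f1, f2, f3⟩ := fp_dec L r T hTr hf
        rcases f3 with ⟨g1, g2⟩ | ⟨g1, g2⟩
        · rw [if_pos ⟨A, R, f1, f2, g1, g2⟩]; exact le_self_add
        · have : L = A := by rw [f1, g2, List.append_nil]
          rw [← this] at f2 g1
          exact le_trans (le_of_eq (if_pos ⟨f2, g1⟩).symm) le_add_self
      · rw [if_neg hf]; exact bot_le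
    · rw [if_neg hL]; exact bot_le
  rw [nf]
  refine (ENNReal.tsum_le_tsum e0).trans ?_
  rw [ENNReal.tsum_add]
  refine add_le_add_left ?_ _
  refine (tsum_split _ (fun A R => fp h A T ∧ HT h A ≤ r ∧ fp h R (r - HT h A)) ?_).trans ?_
  · intro L hL
    by_contra hcon
    exact hL (if_neg hcon)
  · have := fib (Λ := Λ) (h := h) z T (fun i x' => if T + i ≤ r then
      nf Λ h z (r - T - i) α (x - x') else 0)
    have e3 : ∀ i x', (if T + i ≤ r then nf Λ h z T i x' * nf Λ h z (r - T - i) α (x - x') else 0)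
        = nf Λ h z T i x' * (if T + i ≤ r then nf Λ h z (r - T - i) α (x - x') else 0) := by
      intro i x'; split_ifs <;> simp
    simp_rw [e3]
    rw [← this]
    refine ENNReal.tsum_le_tsum fun A => ?_
    by_cases hA : fp h A T ∧ HT h A ≤ r
    · have hT := fp_le A T hA.1
      rw [if_pos hA.1]
      rw [if_pos (show T + (HT h A - T) ≤ r by omega), nf, ← ENNReal.tsum_mul_left]
      refine ENNReal.tsum_le_tsum fun R => ?_
      by_cases hR : fp h A T ∧ HT h A ≤ r ∧ fp h R (r - HT h A)
      · rw [if_pos hR, if_pos ⟨A, R, rfl, hR⟩, HT_append, Dp_append]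
        by_cases hx : HT h A + HT h R = r + α ∧ Dp z A + Dp z R = x
        · rw [if_pos hx, if_pos ⟨by omega, by rw [← hx.2]; abel⟩, LW_append,
            if_pos (by rw [show r - T - (HT h A - T) = r - HT h A by omega]; exact hR.2.2)]
        · rw [if_neg hx]; exact bot_le
      · rw [if_neg hR]; exact bot_le
    · refine le_of_eq_of_le ?_ bot_le
      refine ENNReal.tsum_eq_zero.2 fun R => if_neg fun e => hA ⟨e.1, e.2.1⟩

end one

end Crest.Agent.R154.Asm295
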