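import Crest.Agent.R154.B5Abs_566

set_option autoImplicit false

namespace Crest.Agent.R154.Asm307

open scoped ENNReal
open Crest.Agent.R154.B5A

section one
variable {B G : Type*} [AddCommGroup G]

/-- displacement of a list -/
def Dp (z : B → G) (L : List B) : G := (L.map z).sum

lemma Dp_append (z : B → G) (L L' : List B) : Dp z (L ++ L') = Dp z L + Dp z L' := by
  simp [Dp]

/-- first passage -/
def FP (ht : B → ℕ) : List B → ℕ → Prop
  | [], a => a = 0
  | b :: L, a => a ≠ 0 ∧ FP ht L (a - ht b)

/-- cut a list at first passage -/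
def cut (ht : B → ℕ) : List B → ℕ → List B × List B
  | [], _ => ([], [])
  | b :: L, a => if a = 0 then ([], b :: L) else (b :: (cut ht L (a - ht b)).1, (cut ht L (a - ht b)).2)

lemma cut_app (ht : B → ℕ) (L : List B) (a : ℕ) : (cut ht L a).1 ++ (cut ht L a).2 = L := by
  induction L generalizing a with
  | nil => rfl
  | cons b L ih =>
    by_cases h : a = 0
    · simp [cut, h]
    · simp [cut, h, ih]

lemma cut_fp (ht : B → ℕ) (L : List B) (a : ℕ) (h : a ≤ HT ht L) : FP ht (cut ht L a).1 a := by
  induction L generalizing a with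
  | nil => simp [HT] at h; simp [cut, FP, h]
  | cons b L ih =>
    by_cases h0 : a = 0
    · simp [cut, h0, FP]
    · rw [HT_cons] at h
      simp only [cut, h0, if_false, FP]
      exact ⟨h0, ih _ (by omega)⟩

lemma fp_le (ht : B → ℕ) (L : List B) (a : ℕ) (h : FP ht L a) : a ≤ HT ht L := by
  induction L generalizing a with
  | nil => simp [FP] at h; simp [h]
  | cons b L ih =>
    have := ih _ h.2
    rw [HT_cons]; omega

lemma fp_last (ht : B → ℕ) (A : List B) (b : B) (a : ℕ) (h : FP ht (A ++ [b]) a) : HT ht A < a := by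
  induction A generalizing a with
  | nil => have := h.1; simp [HT]; omega
  | cons c A ih =>
    have := ih _ h.2
    rw [HT_cons]; omega

/-- first passage composition -/
lemma fp_comp (ht : B → ℕ) (A : List B) (a T : ℕ) (hT : T ≤ a) (h : FP ht A a) :
    FP ht (cut ht A T).1 T ∧ FP ht (cut ht A T).2 (a - HT ht (cut ht A T).1) := by
  induction A generalizing a T with
  | nil =>
    simp [FP] at h
    simp [cut, FP, HT, h]; omega
  | cons b A ih =>
    by_cases h0 : T = 0
    · subst h0; simpa [cut, FP, HT] using h
    · have h2 := ih (a - ht b) (T - ht b) (by omega) h.2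
      simp only [cut, h0, if_false, FP, HT_cons]
      refine ⟨⟨h0, h2.1⟩, ?_⟩
      have := h2.2
      rwa [Nat.sub_sub] at this

variable (Λ : B → ℝ≥0∞) (ht : B → ℕ)

open Classical in
lemma fp_mass (h1 : ∀ b, 1 ≤ ht b) (hΛ : ∑' b, Λ b = 1) (a : ℕ) :
    ∑' A : List B, (if FP ht A a then LW Λ A else 0) = 1 := by
  induction a using Nat.strong_induction_on with
  | _ a ih =>
  rw [tsum_list]
  by_cases h0 : a = 0
  · subst h0
    simp [FP, LW_nil]
  · have : ∀ b, ∑' L : List B, (if FP ht (b :: L) a then LW Λ (b :: L) else 0) = Λ b := by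
      intro b
      have := ih (a - ht b) (by have := h1 b; omega)
      calc _ = ∑' L : List B, Λ b * (if FP ht L (a - ht b) then LW Λ L else 0) := by
            refine tsum_congr fun L => ?_
            by_cases h : FP ht L (a - ht b) <;> simp [FP, h0, h, LW_cons]
        _ = Λ b := by rw [ENNReal.tsum_mul_left, this, mul_one]
    simp only [this]
    simp [FP, h0, hΛ]

open Classical in
lemma U_le (h1 : ∀ b, 1 ≤ ht b) (hΛ : ∑' b, Λ b = 1) (r : ℕ) :
    ∑' A : List B, (if HT ht A = r then LW Λ A else 0) ≤ 1 := by
  induction r using Nat.strong_induction_on with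
  | _ r ih =>
  rw [tsum_list]
  by_cases h0 : r = 0
  · subst h0
    have : ∀ b, ∑' L : List B, (if HT ht (b :: L) = 0 then LW Λ (b :: L) else 0) = 0 := by
      intro b
      refine ENNReal.tsum_eq_zero.2 fun L => if_neg ?_
      rw [HT_cons]; have := h1 b; omega
    rw [ENNReal.tsum_eq_zero.2 this, add_zero]
    simp [HT, LW_nil]
  · have : ∀ b, ∑' L : List B, (if HT ht (b :: L) = r then LW Λ (b :: L) else 0) ≤ Λ b := by
      intro b
      by_cases hb : ht b ≤ r
      · have := ih (r - ht b) (by have := h1 b; omega)
        calc _ = ∑' L : List B, Λ b * (if HT ht L = r - ht b then LW Λ L else 0) := by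
              refine tsum_congr fun L => ?_
              rw [HT_cons]
              by_cases h : HT ht L = r - ht b
              · rw [if_pos (by omega), if_pos h, LW_cons]
              · rw [if_neg (by omega), if_neg h, mul_zero]
          _ ≤ Λ b * 1 := by rw [ENNReal.tsum_mul_left]; gcongr
          _ = Λ b := mul_one _
      · refine le_of_eq_of_le (ENNReal.tsum_eq_zero.2 fun L => if_neg ?_) zero_le'
        rw [HT_cons]; omega
    calc _ ≤ 0 + ∑' b, Λ b := by
          gcongr with b
          · simp [HT]; omega
          · exact this b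
      _ = 1 := by rw [zero_add, hΛ]

open Classical in
/-- sum over lists against first passage decomposition -/
lemma sum_cut (F : List B → ℝ≥0∞) (a : ℕ) :
    ∑' L, F L ≤ ∑' A, ∑' R, if (cut ht (A ++ R) a = (A, R)) then F (A ++ R) else 0 := by
  rw [← ENNReal.tsum_prod (f := fun A R => if (cut ht (A ++ R) a = (A, R)) then F (A ++ R) else 0)]
  have hinj : Function.Injective (fun L : List B => cut ht L a) := by
    intro L L' h
    simp only at h
    rw [← cut_app ht L a, h, cut_app]
  refine le_trans (le_of_eq ?_) (ENNReal.tsum_comp_le_tsum_of_injective hinj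
    (fun q : List B × List B => if (cut ht (q.1 ++ q.2) a = (q.1, q.2)) then F (q.1 ++ q.2) else 0))
  refine tsum_congr fun L => ?_
  simp only [cut_app, Prod.mk.eta, if_true]

open Classical in
lemma overS (h1 : ∀ b, 1 ≤ ht b) (hΛ : ∑' b, Λ b = 1) (a i0 : ℕ) :
    ∑' A : List B, (if FP ht A a ∧ a + i0 < HT ht A then LW Λ A else 0)
      ≤ ∑' b, Λ b * ((ht b - i0 : ℕ) : ℝ≥0∞) := by
  have hinj : Function.Injective (fun p : List B × B => p.1 ++ [p.2]) := by
    rintro ⟨A, b⟩ ⟨A', b'⟩ h
    simp only at h
    have := List.append_inj' h rfl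
    simp only [List.cons.injEq, and_true] at this
    exact Prod.ext this.1 this.2
  have hs : Function.support (fun A : List B => if FP ht A a ∧ a + i0 < HT ht A then LW Λ A else 0)
      ⊆ Set.range (fun p : List B × B => p.1 ++ [p.2]) := by
    intro A hA
    rcases List.eq_nil_or_concat A with h | ⟨A', b, h⟩
    · subst h; simp [HT] at hA
    · exact ⟨(A', b), by simp [h]⟩
  rw [← hinj.tsum_eq hs, ENNReal.tsum_prod (f := fun A b => if FP ht (A ++ [b]) a ∧ a + i0 < HT ht (A ++ [b]) then LW Λ (A ++ [b]) else 0), ENNReal.tsum_comm]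
  refine ENNReal.tsum_le_tsum fun b => ?_
  have key : ∀ A : List B, (if FP ht (A ++ [b]) a ∧ a + i0 < HT ht (A ++ [b]) then LW Λ (A ++ [b]) else 0)
      ≤ Λ b * ∑ r ∈ (Finset.range a).filter (fun r => a + i0 < r + ht b), (if HT ht A = r then LW Λ A else 0) := by
    intro A
    by_cases h : FP ht (A ++ [b]) a ∧ a + i0 < HT ht (A ++ [b])
    · have hlt := fp_last ht A b a h.1
      have h2 := h.2
      rw [HT_append, HT_cons, HT_nil] at h2
      rw [if_pos h, LW_append, LW_cons, LW_nil, mul_one, mul_comm]
      gcongr
      have hm : HT ht A ∈ (Finset.range a).filter (fun r => a + i0 < r + ht b) := by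
        simp only [Finset.mem_filter, Finset.mem_range]; omega
      refine le_trans (le_of_eq ?_) (Finset.single_le_sum (f := fun r => if HT ht A = r then LW Λ A else 0)
        (fun _ _ => zero_le') hm)
      simp
    · rw [if_neg h]; exact zero_le'
  calc _ ≤ ∑' A : List B, Λ b * ∑ r ∈ (Finset.range a).filter (fun r => a + i0 < r + ht b), (if HT ht A = r then LW Λ A else 0) :=
        ENNReal.tsum_le_tsum key
    _ = Λ b * ∑ r ∈ (Finset.range a).filter (fun r => a + i0 < r + ht b), ∑' A : List B, (if HT ht A = r then LW Λ A else 0) := by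
        rw [ENNReal.tsum_mul_left, Summable.tsum_finsetSum (fun _ _ => ENNReal.summable)]
    _ ≤ Λ b * ∑ r ∈ (Finset.range a).filter (fun r => a + i0 < r + ht b), 1 := by
        gcongr with r
        exact U_le Λ ht h1 hΛ r
    _ ≤ Λ b * ((ht b - i0 : ℕ) : ℝ≥0∞) := by
        gcongr
        rw [Finset.sum_const, nsmul_eq_mul, mul_one]
        have : ((Finset.range a).filter (fun r => a + i0 < r + ht b)) ⊆ Finset.Ico (a + i0 + 1 - ht b) a := by
          intro r hr
          simp only [Finset.mem_filter, Finset.mem_range] at hr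
          simp only [Finset.mem_Ico]; omega
        have := Finset.card_le_card this
        rw [Nat.card_Ico] at this
        exact_mod_cast (by omega : _ ≤ _)

open Classical in
/-- law of the first passage -/
noncomputable def V (z : B → G) (a h : ℕ) (g : G) : ℝ≥0∞ :=
  ∑' A : List B, if FP ht A a ∧ HT ht A = h ∧ Dp z A = g then LW Λ A else 0

open Classical in
/-- regrouping -/
lemma regroup (z : B → G) (a : ℕ) (W : ℕ → G → ℝ≥0∞) :
    ∑' A : List B, (if FP ht A a then LW Λ A * W (HT ht A) (Dp z A) else 0)
      = ∑' h, ∑' g, V Λ ht z a h g * W h g := by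
  have e : ∀ A : List B, (if FP ht A a then LW Λ A * W (HT ht A) (Dp z A) else 0)
      = ∑' h, ∑' g, (if FP ht A a ∧ HT ht A = h ∧ Dp z A = g then LW Λ A else 0) * W h g := by
    intro A
    rw [tsum_eq_single (HT ht A), tsum_eq_single (Dp z A)]
    · by_cases h : FP ht A a <;> simp [h]
    · intro g hg; rw [if_neg (fun h => hg h.2.2.symm), zero_mul]
    · intro h hh; refine ENNReal.tsum_eq_zero.2 fun g => ?_
      rw [if_neg (fun h => hh h.2.1.symm), zero_mul]
  simp only [e]
  rw [ENNReal.tsum_comm]
  refine tsum_congr fun h => ?_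
  rw [ENNReal.tsum_comm]
  refine tsum_congr fun g => ?_
  rw [ENNReal.tsum_mul_right]; rfl

lemma V_mass (h1 : ∀ b, 1 ≤ ht b) (hΛ : ∑' b, Λ b = 1) (z : B → G) (a : ℕ) :
    ∑' h, ∑' g, V Λ ht z a h g = 1 := by
  classical
  have := regroup Λ ht z a (fun _ _ => 1)
  simp only [mul_one] at this
  rw [← this, fp_mass Λ ht h1 hΛ a]

lemma V_mass1 (h1 : ∀ b, 1 ≤ ht b) (hΛ : ∑' b, Λ b = 1) (z : B → G) (a h : ℕ) :
    ∑' g, V Λ ht z a h g ≤ 1 := by
  rw [← V_mass Λ ht h1 hΛ z a]
  exact ENNReal.le_tsum h

open Classical in
/-- renewal inequality -/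
lemma V_split (z : B → G) (a T : ℕ) (hT : T ≤ a) (h : ℕ) (g : G) :
    V Λ ht z a h g ≤ ∑' A : List B, if FP ht A T then
      LW Λ A * (if HT ht A ≤ h then V Λ ht z (a - HT ht A) (h - HT ht A) (g - Dp z A) else 0) else 0 := by
  refine le_trans (sum_cut ht _ T) (ENNReal.tsum_le_tsum fun A => ?_)
  by_cases hA : FP ht A T
  · rw [if_pos hA]
    by_cases hh : HT ht A ≤ h
    · rw [if_pos hh, V, ← ENNReal.tsum_mul_left]
      refine ENNReal.tsum_le_tsum fun R => ?_
      by_cases hc : cut ht (A ++ R) T = (A, R)
      · rw [if_pos hc]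
        by_cases hf : FP ht (A ++ R) a ∧ HT ht (A ++ R) = h ∧ Dp z (A ++ R) = g
        · have hcomp := fp_comp ht (A ++ R) a T hT hf.1
          rw [hc] at hcomp
          have e1 := hf.2.1
          have e2 := hf.2.2
          rw [HT_append] at e1
          rw [Dp_append] at e2
          rw [if_pos hf, if_pos ⟨hcomp.2, by omega, by rw [← e2]; abel⟩, LW_append]
        · rw [if_neg hf]; exact zero_le'
      · rw [if_neg hc]; exact zero_le'
    · rw [if_neg hh, mul_zero]
      refine le_of_eq (ENNReal.tsum_eq_zero.2 fun R => ?_)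
      by_cases hc : cut ht (A ++ R) T = (A, R)
      · rw [if_pos hc, if_neg]
        rintro ⟨_, h2, _⟩
        rw [HT_append] at h2; omega
      · rw [if_neg hc]
  · rw [if_neg hA]
    refine le_of_eq (ENNReal.tsum_eq_zero.2 fun R => ?_)
    by_cases hc : cut ht (A ++ R) T = (A, R)
    · rw [if_pos hc, if_neg]
      rintro ⟨h1, _, _⟩
      have hcomp := fp_comp ht (A ++ R) a T hT h1
      rw [hc] at hcomp
      exact hA hcomp.1
    · rw [if_neg hc]

/-- shifting a function of (height, displacement) does not increase the mass -/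
lemma shift_mass (b : ℕ → G → ℝ≥0∞) (k : ℕ) (y : G) :
    ∑' h, ∑' g, (if k ≤ h then b (h - k) (g - y) else 0) ≤ ∑' h, ∑' g, b h g := by
  have e : ∀ h, ∑' g, (if k ≤ h then b (h - k) (g - y) else 0) = if k ≤ h then ∑' g, b (h - k) g else 0 := by
    intro h
    by_cases hk : k ≤ h
    · simp only [hk, if_true]
      exact (Equiv.subRight y).tsum_eq (fun g => b (h - k) g)
    · simp [hk]
  simp only [e]
  have hinj : Function.Injective (fun h : ℕ => h + k) := fun a b h => by simpa using h
  have hs : Function.support (fun h : ℕ => if k ≤ h then ∑' g, b (h - k) g else 0) ⊆ Set.range (fun h : ℕ => h + k) := by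
    intro h hh
    by_cases hk : k ≤ h
    · exact ⟨h - k, by simp; omega⟩
    · simp [hk] at hh
  rw [← hinj.tsum_eq hs]
  refine ENNReal.tsum_le_tsum fun h => ?_
  simp

open Classical in
/-- good / bad decomposition of the law of the top -/
lemma good_bad (h1 : ∀ b, 1 ≤ ht b) (hΛ : ∑' b, Λ b = 1) (z : B → G) (T i0 : ℕ)
    (th q ε Gd : ℝ≥0∞)
    (hq : ∑' h, ∑' g, (if h ≤ T + i0 ∧ th < V Λ ht z T h g then V Λ ht z T h g else 0) ≤ q)
    (hq1 : q ≤ 1)
    (hε : ∑' h, ∑' g, (if T + i0 < h then V Λ ht z T h g else 0) ≤ ε)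
    (hG : (i0 + 1 : ℕ) * th + q * Gd ≤ Gd) (J : ℕ) :
    ∀ a, J * (T + i0) ≤ a → ∃ b : ℕ → G → ℝ≥0∞, (∀ h g, V Λ ht z a h g ≤ Gd + b h g) ∧
      ∑' h, ∑' g, b h g ≤ q ^ J + J * ε := by
  induction J with
  | zero =>
    intro a _
    exact ⟨V Λ ht z a, fun h g => le_add_self, by rw [V_mass Λ ht h1 hΛ z a]; simp⟩
  | succ J ih =>
    intro a ha
    rw [add_mul, one_mul] at ha
    choose b hb1 hb2 using fun a' : {a' : ℕ // J * (T + i0) ≤ a'} => ih a'.1 a'.2
    set bb : ℕ → ℕ → G → ℝ≥0∞ := fun a' => if h : J * (T + i0) ≤ a' then b ⟨a', h⟩ else fun _ _ => 0 with hbb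
    have hbb1 : ∀ a', J * (T + i0) ≤ a' → ∀ h g, V Λ ht z a' h g ≤ Gd + bb a' h g := by
      intro a' h'; rw [hbb]; simp only [h', dif_pos]; exact hb1 ⟨a', h'⟩
    have hbb2 : ∀ a', ∑' h, ∑' g, bb a' h g ≤ q ^ J + J * ε := by
      intro a'
      by_cases h' : J * (T + i0) ≤ a'
      · rw [hbb]; simp only [h', dif_pos]; exact hb2 ⟨a', h'⟩
      · rw [hbb]; simp [h']
    -- new bad part
    set P := V Λ ht z T with hP
    refine ⟨fun h g => (∑' k, ∑' y, (if k ≤ T + i0 ∧ th < P k y then P k y else 0) *
        (if k ≤ h then bb (a - k) (h - k) (g - y) else 0))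
      + ∑' k, ∑' y, (if T + i0 < k then P k y else 0) *
        (if k ≤ h then V Λ ht z (a - k) (h - k) (g - y) else 0), ?_, ?_⟩
    · intro h g
      refine le_trans (V_split Λ ht z a T (by omega) h g) ?_
      rw [regroup Λ ht z T (fun k y => if k ≤ h then V Λ ht z (a - k) (h - k) (g - y) else 0)]
      -- pointwise split
      have hpt : ∀ k y, V Λ ht z T k y * (if k ≤ h then V Λ ht z (a - k) (h - k) (g - y) else 0)
          ≤ ((if T ≤ k ∧ k ≤ T + i0 then th * (if k ≤ h then V Λ ht z (a - k) (h - k) (g - y) else 0) else 0)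
            + (if k ≤ T + i0 ∧ th < P k y then P k y else 0) * Gd)
            + ((if k ≤ T + i0 ∧ th < P k y then P k y else 0) *
                (if k ≤ h then bb (a - k) (h - k) (g - y) else 0)
              + (if T + i0 < k then P k y else 0) *
                (if k ≤ h then V Λ ht z (a - k) (h - k) (g - y) else 0)) := by
        intro k y
        rw [← hP]
        by_cases hk : T + i0 < k
        · rw [if_pos hk]
          exact le_trans le_add_self le_add_self
        · by_cases hkT : T ≤ k
          · by_cases hth : th < P k y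
            · have e1 : (if k ≤ T + i0 ∧ th < P k y then P k y else 0) = P k y :=
                if_pos ⟨by omega, hth⟩
              rw [e1]
              by_cases hkh : k ≤ h
              · simp only [hkh, if_true]
                have := hbb1 (a - k) (by omega) (h - k) (g - y)
                calc P k y * V Λ ht z (a - k) (h - k) (g - y)
                    ≤ P k y * (Gd + bb (a - k) (h - k) (g - y)) := by gcongr
                  _ = P k y * Gd + P k y * bb (a - k) (h - k) (g - y) := mul_add _ _ _
                  _ ≤ _ := by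
                      gcongr
                      · exact le_add_self
                      · exact le_self_add
              · rw [if_neg hkh, mul_zero]; exact zero_le'
            · rw [if_pos (⟨hkT, by omega⟩ : T ≤ k ∧ k ≤ T + i0)]
              refine le_trans ?_ (le_trans le_self_add le_self_add)
              gcongr
              exact not_lt.1 hth
          · -- P k y = 0 as k < T
            have : P k y = 0 := by
              rw [hP, V]
              refine ENNReal.tsum_eq_zero.2 fun A => if_neg ?_
              rintro ⟨hA, hA2, _⟩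
              have := fp_le ht A T hA
              omega
            rw [this, zero_mul]; exact zero_le'
      refine le_trans (ENNReal.tsum_le_tsum fun k => ENNReal.tsum_le_tsum fun y => hpt k y) ?_
      simp only [ENNReal.tsum_add]
      gcongr
      refine le_trans ?_ hG
      gcongr
      · -- th part
        have : ∀ k, ∑' y, (if T ≤ k ∧ k ≤ T + i0 then th * (if k ≤ h then V Λ ht z (a - k) (h - k) (g - y) else 0) else 0)
            ≤ if k ∈ Finset.Icc T (T + i0) then th else 0 := by
          intro k
          by_cases hk : T ≤ k ∧ k ≤ T + i0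
          · rw [if_pos (Finset.mem_Icc.2 hk)]
            simp only [hk, and_self, if_true]
            rw [ENNReal.tsum_mul_left]
            refine le_trans (mul_le_mul_right ?_ th) (le_of_eq (mul_one th))
            by_cases hkh : k ≤ h
            · simp only [hkh, if_true]
              refine le_trans (le_of_eq ((Equiv.subLeft g).tsum_eq (fun y => V Λ ht z (a - k) (h - k) y))) ?_
              exact V_mass1 Λ ht h1 hΛ z _ _
            · simp [hkh]
          · simp [hk]
        refine le_trans (ENNReal.tsum_le_tsum this) ?_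
        rw [tsum_eq_sum (s := Finset.Icc T (T + i0)) (fun k hk => if_neg hk)]
        rw [Finset.sum_congr rfl (fun k hk => if_pos hk), Finset.sum_const, nsmul_eq_mul, Nat.card_Icc]
        gcongr
        omega
      · simp only [ENNReal.tsum_mul_right]
        gcongr
    · -- mass
      simp only [ENNReal.tsum_add]
      have m1 : ∑' h, ∑' g, ∑' k, ∑' y, (if k ≤ T + i0 ∧ th < P k y then P k y else 0) *
        (if k ≤ h then bb (a - k) (h - k) (g - y) else 0) ≤ q * (q ^ J + J * ε) := by
        calc _ = ∑' k, ∑' y, (if k ≤ T + i0 ∧ th < P k y then P k y else 0) *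
              ∑' h, ∑' g, (if k ≤ h then bb (a - k) (h - k) (g - y) else 0) := by
                rw [show (∑' h, ∑' g, ∑' k, ∑' y, (if k ≤ T + i0 ∧ th < P k y then P k y else 0) *
                  (if k ≤ h then bb (a - k) (h - k) (g - y) else 0)) = ∑' h, ∑' k, ∑' g, ∑' y, (if k ≤ T + i0 ∧ th < P k y then P k y else 0) *
                  (if k ≤ h then bb (a - k) (h - k) (g - y) else 0) from tsum_congr fun h => ENNReal.tsum_comm]
                rw [ENNReal.tsum_comm]
                refine tsum_congr fun k => ?_
                rw [show (∑' h, ∑' g, ∑' y, (if k ≤ T + i0 ∧ th < P k y then P k y else 0) *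
                  (if k ≤ h then bb (a - k) (h - k) (g - y) else 0)) = ∑' h, ∑' y, ∑' g, (if k ≤ T + i0 ∧ th < P k y then P k y else 0) *
                  (if k ≤ h then bb (a - k) (h - k) (g - y) else 0) from tsum_congr fun h => ENNReal.tsum_comm]
                rw [ENNReal.tsum_comm]
                refine tsum_congr fun y => ?_
                simp only [ENNReal.tsum_mul_left]
          _ ≤ ∑' k, ∑' y, (if k ≤ T + i0 ∧ th < P k y then P k y else 0) * (q ^ J + J * ε) := by
                gcongr with k y
                exact le_trans (shift_mass _ _ _) (hbb2 _)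
          _ ≤ q * (q ^ J + J * ε) := by
                simp only [ENNReal.tsum_mul_right]
                gcongr
      have m2 : ∑' h, ∑' g, ∑' k, ∑' y, (if T + i0 < k then P k y else 0) *
        (if k ≤ h then V Λ ht z (a - k) (h - k) (g - y) else 0) ≤ ε := by
        calc _ = ∑' k, ∑' y, (if T + i0 < k then P k y else 0) *
              ∑' h, ∑' g, (if k ≤ h then V Λ ht z (a - k) (h - k) (g - y) else 0) := by
                rw [show (∑' h, ∑' g, ∑' k, ∑' y, (if T + i0 < k then P k y else 0) *
                  (if k ≤ h then V Λ ht z (a - k) (h - k) (g - y) else 0)) = ∑' h, ∑' k, ∑' g, ∑' y, (if T + i0 < k then P k y else 0) *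
                  (if k ≤ h then V Λ ht z (a - k) (h - k) (g - y) else 0) from tsum_congr fun h => ENNReal.tsum_comm]
                rw [ENNReal.tsum_comm]
                refine tsum_congr fun k => ?_
                rw [show (∑' h, ∑' g, ∑' y, (if T + i0 < k then P k y else 0) *
                  (if k ≤ h then V Λ ht z (a - k) (h - k) (g - y) else 0)) = ∑' h, ∑' y, ∑' g, (if T + i0 < k then P k y else 0) *
                  (if k ≤ h then V Λ ht z (a - k) (h - k) (g - y) else 0) from tsum_congr fun h => ENNReal.tsum_comm]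
                rw [ENNReal.tsum_comm]
                refine tsum_congr fun y => ?_
                simp only [ENNReal.tsum_mul_left]
          _ ≤ ∑' k, ∑' y, (if T + i0 < k then P k y else 0) * 1 := by
                gcongr with k y
                exact le_trans (shift_mass _ _ _) (le_of_eq (V_mass Λ ht h1 hΛ z _))
          _ ≤ ε := by simpa using hε
      refine le_trans (add_le_add m1 m2) ?_
      have m3 : q * (J * ε) ≤ J * ε := by
        calc q * (J * ε) ≤ 1 * (J * ε) := by gcongr
          _ = J * ε := one_mul _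
      calc q * (q ^ J + J * ε) + ε = q ^ (J + 1) + (q * (J * ε) + ε) := by
            rw [mul_add, ← pow_succ', add_assoc]
        _ ≤ q ^ (J + 1) + (J * ε + ε) := by gcongr
        _ = q ^ (J + 1) + ((J + 1 : ℕ) : ℝ≥0∞) * ε := by push_cast; rw [add_mul, one_mul]

end one

end Crest.Agent.R154.Asm307
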