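import Crest.Agent.R154.B5Rec_566

/-! Row 154, ROAD 801 (helper309): first-passage lists, density lemma on lists. -/

set_option autoImplicit false

namespace Crest.Agent.R154.Asm309

open scoped ENNReal
open B5A

/-- general upper bound of a sum through a (partial) cover -/
lemma tsum_le_cover {γ δ : Type*} (F : γ → ℝ≥0∞) (H : δ → ℝ≥0∞) (g : δ → γ)
    (hex : ∀ c, F c ≠ 0 → ∃ p, g p = c ∧ F c ≤ H p) : ∑' c, F c ≤ ∑' p, H p := by
  classical
  choose f hf using hex
  have e : ∑' c : Function.support F, F c = ∑' c, F c :=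
    tsum_subtype_eq_of_support_subset subset_rfl
  rw [← e]
  calc ∑' c : Function.support F, F c ≤ ∑' c : Function.support F, H (f c c.2) :=
        ENNReal.tsum_le_tsum fun c => (hf c c.2).2
    _ ≤ ∑' p, H p := by
        refine ENNReal.tsum_comp_le_tsum_of_injective (f := fun c : Function.support F => f c c.2) ?_ H
        intro c c' h
        have h1 := (hf c c.2).1
        have h2 := (hf c' c'.2).1
        apply Subtype.ext
        rw [← h1, ← h2]
        exact congrArg g h

/-- fibres -/
lemma tsum_fiber {α γ : Type*} (a : α → ℝ≥0∞) (κ : α → γ) (f : γ → ℝ≥0∞) [DecidableEq γ] :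
    ∑' v, a v * f (κ v) = ∑' c, (∑' v, if κ v = c then a v else 0) * f c := by
  simp_rw [← ENNReal.tsum_mul_right]
  rw [ENNReal.tsum_comm]
  refine tsum_congr fun v => ?_
  rw [tsum_eq_single (κ v)]
  · simp
  · intro c hc; rw [if_neg (Ne.symm hc), zero_mul]

variable {B G : Type*}

/-- first passage lists -/
def FP (ht : B → ℕ) : List B → ℕ → Prop
  | [], a => a = 0
  | b :: L, a => a ≠ 0 ∧ FP ht L (a - ht b)

lemma FP_le (ht : B → ℕ) (L : List B) : ∀ a : ℕ, FP ht L a → a ≤ HT ht L := by
  induction L with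
  | nil => intro a h; simp only [FP] at h; omega
  | cons b L ih =>
    intro a h
    have := ih _ h.2
    rw [HT_cons]; omega

lemma FP_split (ht : B → ℕ) (L : List B) : ∀ a S : ℕ, S ≤ a → FP ht L a →
    ∃ V L', L = V ++ L' ∧ FP ht V S ∧ FP ht L' (a - HT ht V) := by
  induction L with
  | nil =>
    intro a S hS h
    simp only [FP] at h
    refine ⟨[], [], rfl, ?_, ?_⟩
    · simp only [FP]; omega
    · simp only [FP]; omega
  | cons b L ih =>
    intro a S hS h
    by_cases h0 : S = 0
    · exact ⟨[], b :: L, rfl, h0, by rw [HT_nil]; exact h⟩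
    · obtain ⟨V, L', e, h1, h2⟩ := ih (a - ht b) (S - ht b) (by omega) h.2
      refine ⟨b :: V, L', by rw [e]; rfl, ⟨h0, h1⟩, ?_⟩
      rw [HT_cons, ← Nat.sub_sub]; exact h2

lemma exists_FP (ht : B → ℕ) (L : List B) : ∀ a : ℕ, a ≤ HT ht L →
    ∃ A R, L = A ++ R ∧ FP ht A a := by
  induction L with
  | nil => intro a h; exact ⟨[], [], rfl, by rw [HT_nil] at h; simp only [FP]; omega⟩
  | cons b L ih =>
    intro a h
    by_cases h0 : a = 0
    · exact ⟨[], b :: L, rfl, h0⟩
    · obtain ⟨A, R, e, h1⟩ := ih (a - ht b) (by rw [HT_cons] at h; omega)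
      exact ⟨b :: A, R, by rw [e]; rfl, h0, h1⟩

open Classical in
lemma FP_mass (Λ : B → ℝ≥0∞) (ht : B → ℕ) (h1 : ∀ b, 1 ≤ ht b) (hΛ : ∑' b, Λ b = 1) (a : ℕ) :
    ∑' L, (if FP ht L a then LW Λ L else 0) = 1 := by
  induction a using Nat.strong_induction_on with
  | _ a ih =>
    rw [tsum_list]
    by_cases h0 : a = 0
    · subst h0
      simp [FP, LW_nil]
    · have e1 : (if FP ht ([] : List B) a then LW Λ [] else 0) = 0 := by
        rw [if_neg]; simpa [FP] using h0
      rw [e1, zero_add]
      rw [← hΛ]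
      refine tsum_congr fun b => ?_
      have e2 : ∀ L : List B, (if FP ht (b :: L) a then LW Λ (b :: L) else 0)
          = Λ b * (if FP ht L (a - ht b) then LW Λ L else 0) := by
        intro L
        by_cases h : FP ht L (a - ht b)
        · rw [if_pos h, if_pos ⟨h0, h⟩, LW_cons]
        · rw [if_neg h, if_neg (fun h' => h h'.2), mul_zero]
      simp_rw [e2]
      rw [ENNReal.tsum_mul_left, ih _ (by have := h1 b; omega), mul_one]

/-- displacement -/
def Dp [AddCommGroup G] (z : B → G) (L : List B) : G := (L.map z).sum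

lemma Dp_nil [AddCommGroup G] (z : B → G) : Dp z ([] : List B) = 0 := by simp [Dp]
lemma Dp_cons [AddCommGroup G] (z : B → G) (b : B) (L : List B) : Dp z (b :: L) = z b + Dp z L := by
  simp [Dp]
lemma Dp_append [AddCommGroup G] (z : B → G) (L L' : List B) :
    Dp z (L ++ L') = Dp z L + Dp z L' := by simp [Dp]

variable [AddCommGroup G]

open Classical in
/-- law of the attempt -/
noncomputable def pp (Λ : B → ℝ≥0∞) (ht : B → ℕ) (z : B → G) (T : ℕ) (h : ℕ) (x : G) : ℝ≥0∞ :=
  ∑' V, if (HT ht V, Dp z V) = (h, x) then (if FP ht V T then LW Λ V else 0) else 0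

/-- smooth lists: some attempt has low density -/
def Sm (ht : B → ℕ) (z : B → G) (p : ℕ → G → ℝ≥0∞) (th : ℝ≥0∞) (T i0 : ℕ) : ℕ → List B → Prop
  | 0, _ => False
  | J + 1, L => ∃ V L', L = V ++ L' ∧ FP ht V T ∧ HT ht V ≤ T + i0 ∧
      (p (HT ht V) (Dp z V) ≤ th ∨ (th < p (HT ht V) (Dp z V) ∧ Sm ht z p th T i0 J L'))

open Classical in
lemma pp_mass (Λ : B → ℝ≥0∞) (ht : B → ℕ) (z : B → G) (h1 : ∀ b, 1 ≤ ht b) (hΛ : ∑' b, Λ b = 1)
    (T : ℕ) : ∑' c : ℕ × G, pp Λ ht z T c.1 c.2 = 1 := by
  have h := tsum_fiber (fun V : List B => if FP ht V T then LW Λ V else 0)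
    (fun V => (HT ht V, Dp z V)) (fun _ => 1)
  simp only [mul_one] at h
  rw [FP_mass Λ ht h1 hΛ T] at h
  exact h.symm

open Classical in
lemma W_sum (Λ : B → ℝ≥0∞) (ht : B → ℕ) (z : B → G) (hU1 : ∀ n, U Λ ht n ≤ 1) (A : ℕ) (y : G) :
    ∑' x : G, (∑' L, if HT ht L = A ∧ Dp z L = y - x then LW Λ L else 0) ≤ 1 := by
  rw [ENNReal.tsum_comm]
  refine le_trans (le_of_eq ?_) (hU1 A)
  rw [U]
  refine tsum_congr fun L => ?_
  rw [tsum_eq_single (y - Dp z L)]
  · by_cases h : HT ht L = A
    · rw [if_pos ⟨h, by abel⟩, if_pos h]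
    · rw [if_neg (fun h' => h h'.1), if_neg h]
  · intro x hx
    rw [if_neg]
    rintro ⟨_, h⟩
    apply hx
    rw [h]; abel

open Classical in
/-- density of the smooth lists -/
lemma dens (Λ : B → ℝ≥0∞) (ht : B → ℕ) (z : B → G) (hU1 : ∀ n, U Λ ht n ≤ 1)
    (T i0 : ℕ) (th q : ℝ≥0∞)
    (hq : ∑' V, (if FP ht V T ∧ HT ht V ≤ T + i0 ∧ th < pp Λ ht z T (HT ht V) (Dp z V)
      then LW Λ V else 0) ≤ q) (J : ℕ) :
    ∀ (A : ℕ) (x : G), ∑' L, (if Sm ht z (pp Λ ht z T) th T i0 J L ∧ HT ht L = A ∧ Dp z L = x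
      then LW Λ L else 0) ≤ (i0 + 1 : ℕ) * th * ∑ j ∈ Finset.range J, q ^ j := by
  induction J with
  | zero => intro A x; simp [Sm]
  | succ J ih =>
    intro A x
    set p := pp Λ ht z T with hp
    set H1 : List B × List B → ℝ≥0∞ := fun c =>
      (if FP ht c.1 T then LW Λ c.1 else 0) * ((if HT ht c.1 ≤ T + i0 ∧ p (HT ht c.1) (Dp z c.1) ≤ th
        then 1 else 0) * (if HT ht c.2 = A - HT ht c.1 ∧ Dp z c.2 = x - Dp z c.1 then LW Λ c.2 else 0))
      with hH1
    set H2 : List B × List B → ℝ≥0∞ := fun c =>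
      (if FP ht c.1 T ∧ HT ht c.1 ≤ T + i0 ∧ th < p (HT ht c.1) (Dp z c.1) then LW Λ c.1 else 0) *
        (if Sm ht z p th T i0 J c.2 ∧ HT ht c.2 = A - HT ht c.1 ∧ Dp z c.2 = x - Dp z c.1
          then LW Λ c.2 else 0) with hH2
    have step : ∑' L, (if Sm ht z p th T i0 (J + 1) L ∧ HT ht L = A ∧ Dp z L = x
      then LW Λ L else 0) ≤ ∑' c, (H1 c + H2 c) := by
      refine tsum_le_cover _ _ (fun c => c.1 ++ c.2) ?_
      intro L hL
      by_cases hc : Sm ht z p th T i0 (J + 1) L ∧ HT ht L = A ∧ Dp z L = x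
      · obtain ⟨⟨V, L', e, hV, hVi, hor⟩, hA, hx⟩ := hc
        refine ⟨(V, L'), e.symm, ?_⟩
        have hA' : HT ht L' = A - HT ht V := by rw [← hA, e, HT_append]; omega
        have hx' : Dp z L' = x - Dp z V := by rw [← hx, e, Dp_append]; abel
        rw [if_pos ⟨⟨V, L', e, hV, hVi, hor⟩, hA, hx⟩, e, LW_append]
        rcases hor with h | h
        · refine le_trans (le_of_eq ?_) le_self_add
          simp only [hH1]
          rw [if_pos hV, if_pos ⟨hVi, h⟩, if_pos ⟨hA', hx'⟩, one_mul]
        · refine le_trans (le_of_eq ?_) le_add_self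
          simp only [hH2]
          rw [if_pos ⟨hV, hVi, h.1⟩, if_pos ⟨h.2, hA', hx'⟩]
      · exact absurd (if_neg hc) hL
    refine step.trans ?_
    rw [ENNReal.tsum_add, Finset.sum_range_succ', pow_zero]
    have b1 : ∑' c, H1 c ≤ (i0 + 1 : ℕ) * th := by
      rw [ENNReal.tsum_prod']
      obtain ⟨φ, hφ⟩ : ∃ φ : ℕ × G → ℝ≥0∞, ∀ c, φ c = (if c.1 ≤ T + i0 ∧ p c.1 c.2 ≤ th then 1 else 0) *
            ∑' L', (if HT ht L' = A - c.1 ∧ Dp z L' = x - c.2 then LW Λ L' else 0) := ⟨_, fun _ => rfl⟩
      have e1 : ∀ V : List B, ∑' L', H1 (V, L') = (if FP ht V T then LW Λ V else 0) *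
          φ (HT ht V, Dp z V) := by
        intro V
        rw [hφ]
        simp only [hH1]
        rw [ENNReal.tsum_mul_left]
        refine congrArg _ ?_
        by_cases hc : HT ht V ≤ T + i0 ∧ p (HT ht V) (Dp z V) ≤ th
        · simp only [if_pos hc, one_mul]
        · simp only [if_neg hc, zero_mul, tsum_zero]
      simp_rw [e1]
      rw [tsum_fiber (fun V : List B => if FP ht V T then LW Λ V else 0)
        (fun V => (HT ht V, Dp z V)) φ]
      simp_rw [hφ]
      rw [ENNReal.tsum_prod']
      calc _ ≤ ∑' h : ℕ, (if h ∈ Finset.Icc T (T + i0) then th else 0) := by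
            refine ENNReal.tsum_le_tsum fun h => ?_
            by_cases hh : h ∈ Finset.Icc T (T + i0)
            · rw [if_pos hh]
              calc _ ≤ ∑' g : G, th * ∑' L', (if HT ht L' = A - h ∧ Dp z L' = x - g
                    then LW Λ L' else 0) := by
                    refine ENNReal.tsum_le_tsum fun g => ?_
                    have e3 : (∑' v : List B, if (HT ht v, Dp z v) = (h, g) then
                        (if FP ht v T then LW Λ v else 0) else 0) = p h g := rfl
                    rw [e3, ← mul_assoc]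
                    refine mul_le_mul_left ?_ _
                    by_cases hc : h ≤ T + i0 ∧ p h g ≤ th
                    · rw [if_pos hc, mul_one]; exact hc.2
                    · rw [if_neg hc, mul_zero]; exact zero_le
                _ ≤ th * 1 := by
                    rw [ENNReal.tsum_mul_left]
                    exact mul_le_mul_right (W_sum Λ ht z hU1 _ _) _
                _ = th := mul_one _
            · rw [if_neg hh]
              refine le_of_eq (ENNReal.tsum_eq_zero.2 fun g => ?_)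
              have e3 : (∑' v : List B, if (HT ht v, Dp z v) = (h, g) then
                  (if FP ht v T then LW Λ v else 0) else 0) * (if h ≤ T + i0 then (1 : ℝ≥0∞) else 0) = 0 := by
                by_cases h2 : h ≤ T + i0
                · rw [if_pos h2, mul_one]
                  refine ENNReal.tsum_eq_zero.2 ?_
                  intro v
                  by_cases h3 : (HT ht v, Dp z v) = (h, g)
                  · rw [if_pos h3, if_neg]
                    intro h4
                    have := FP_le ht v T h4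
                    have h5 : HT ht v = h := congrArg Prod.fst h3
                    exact hh (Finset.mem_Icc.2 ⟨by omega, h2⟩)
                  · rw [if_neg h3]
                · rw [if_neg h2, mul_zero]
              by_cases h2 : h ≤ T + i0
              · rw [if_pos h2, mul_one] at e3
                simp only
                rw [e3, zero_mul]
              · simp only
                rw [if_neg (fun h' => h2 h'.1), zero_mul, mul_zero]
        _ = (i0 + 1 : ℕ) * th := by
            rw [tsum_eq_sum (s := Finset.Icc T (T + i0)) (fun h hh => if_neg hh),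
              Finset.sum_congr rfl (fun h hh => if_pos hh), Finset.sum_const, Nat.card_Icc,
              nsmul_eq_mul]
            congr 2; omega
    have b2 : ∑' c, H2 c ≤ q * ((i0 + 1 : ℕ) * th * ∑ j ∈ Finset.range J, q ^ j) := by
      rw [ENNReal.tsum_prod']
      calc _ ≤ ∑' V, (if FP ht V T ∧ HT ht V ≤ T + i0 ∧ th < p (HT ht V) (Dp z V)
            then LW Λ V else 0) * ((i0 + 1 : ℕ) * th * ∑ j ∈ Finset.range J, q ^ j) := by
            refine ENNReal.tsum_le_tsum fun V => ?_
            simp only [hH2]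
            rw [ENNReal.tsum_mul_left]
            exact mul_le_mul_right (ih _ _) _
        _ ≤ _ := by
            rw [ENNReal.tsum_mul_right]
            exact mul_le_mul_left hq _
    calc _ ≤ (i0 + 1 : ℕ) * th + q * ((i0 + 1 : ℕ) * th * ∑ j ∈ Finset.range J, q ^ j) :=
          add_le_add b1 b2
      _ = _ := by
          simp_rw [pow_succ]
          rw [← Finset.sum_mul]
          ring

open Classical in
/-- mass of the non-smooth first-passage lists -/
lemma bad (Λ : B → ℝ≥0∞) (ht : B → ℕ) (z : B → G) (h1 : ∀ b, 1 ≤ ht b) (hΛ : ∑' b, Λ b = 1)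
    (T i0 : ℕ) (th q η : ℝ≥0∞) (p : ℕ → G → ℝ≥0∞) (hq1 : q ≤ 1)
    (hq : ∑' V, (if FP ht V T ∧ HT ht V ≤ T + i0 ∧ th < p (HT ht V) (Dp z V)
      then LW Λ V else 0) ≤ q)
    (hη : ∑' V, (if FP ht V T ∧ T + i0 < HT ht V then LW Λ V else 0) ≤ η) (J : ℕ) :
    ∀ a : ℕ, J * (T + i0) ≤ a → ∑' L, (if FP ht L a ∧ ¬ Sm ht z p th T i0 J L
      then LW Λ L else 0) ≤ q ^ J + J * η := by
  induction J with
  | zero =>
    intro a _
    simp only [pow_zero, Nat.cast_zero, zero_mul, add_zero]
    refine le_trans (ENNReal.tsum_le_tsum fun L => ?_) (FP_mass Λ ht h1 hΛ a).le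
    by_cases h : FP ht L a ∧ ¬ Sm ht z p th T i0 0 L
    · rw [if_pos h, if_pos h.1]
    · rw [if_neg h]; exact zero_le
  | succ J ih =>
    intro a ha
    have ha' : T + i0 + J * (T + i0) ≤ a := by
      have : (J + 1) * (T + i0) = T + i0 + J * (T + i0) := by ring
      omega
    set H1 : List B × List B → ℝ≥0∞ := fun c =>
      (if FP ht c.1 T ∧ T + i0 < HT ht c.1 then LW Λ c.1 else 0) *
        (if FP ht c.2 (a - HT ht c.1) then LW Λ c.2 else 0) with hH1
    set H2 : List B × List B → ℝ≥0∞ := fun c =>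
      (if FP ht c.1 T ∧ HT ht c.1 ≤ T + i0 ∧ th < p (HT ht c.1) (Dp z c.1) then LW Λ c.1 else 0) *
        (if FP ht c.2 (a - HT ht c.1) ∧ ¬ Sm ht z p th T i0 J c.2 then LW Λ c.2 else 0) with hH2
    have step : ∑' L, (if FP ht L a ∧ ¬ Sm ht z p th T i0 (J + 1) L then LW Λ L else 0)
        ≤ ∑' c, (H1 c + H2 c) := by
      refine tsum_le_cover _ _ (fun c => c.1 ++ c.2) ?_
      intro L hL
      by_cases hc : FP ht L a ∧ ¬ Sm ht z p th T i0 (J + 1) L
      · obtain ⟨V, L', e, hV, hL'⟩ := FP_split ht L a T (by omega) hc.1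
        refine ⟨(V, L'), e.symm, ?_⟩
        rw [if_pos hc, e, LW_append]
        by_cases hVi : T + i0 < HT ht V
        · refine le_trans (le_of_eq ?_) le_self_add
          simp only [hH1]
          rw [if_pos ⟨hV, hVi⟩, if_pos hL']
        · have hVi' : HT ht V ≤ T + i0 := by omega
          refine le_trans (le_of_eq ?_) le_add_self
          simp only [hH2]
          have h2 : th < p (HT ht V) (Dp z V) := by
            by_contra h3
            exact hc.2 ⟨V, L', e, hV, hVi', Or.inl (not_lt.1 h3)⟩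
          have h4 : ¬ Sm ht z p th T i0 J L' := fun h3 =>
            hc.2 ⟨V, L', e, hV, hVi', Or.inr ⟨h2, h3⟩⟩
          rw [if_pos ⟨hV, hVi', h2⟩, if_pos ⟨hL', h4⟩]
      · exact absurd (if_neg hc) hL
    refine step.trans ?_
    rw [ENNReal.tsum_add]
    have b1 : ∑' c, H1 c ≤ η := by
      rw [ENNReal.tsum_prod']
      refine le_trans (le_of_eq ?_) hη
      refine tsum_congr fun V => ?_
      simp only [hH1]
      rw [ENNReal.tsum_mul_left, FP_mass Λ ht h1 hΛ, mul_one]
    have b2 : ∑' c, H2 c ≤ q * (q ^ J + J * η) := by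
      rw [ENNReal.tsum_prod']
      calc _ ≤ ∑' V, (if FP ht V T ∧ HT ht V ≤ T + i0 ∧ th < p (HT ht V) (Dp z V)
            then LW Λ V else 0) * (q ^ J + J * η) := by
            refine ENNReal.tsum_le_tsum fun V => ?_
            simp only [hH2]
            rw [ENNReal.tsum_mul_left]
            by_cases hV : FP ht V T ∧ HT ht V ≤ T + i0 ∧ th < p (HT ht V) (Dp z V)
            · exact mul_le_mul_right (ih _ (by have := hV.2.1; omega)) _
            · rw [if_neg hV, zero_mul, zero_mul]
        _ ≤ _ := by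
            rw [ENNReal.tsum_mul_right]
            exact mul_le_mul_left hq _
    calc _ ≤ η + q * (q ^ J + J * η) := add_le_add b1 b2
      _ ≤ η + (q ^ (J + 1) + J * η) := by
          refine add_le_add le_rfl ?_
          rw [mul_add, pow_succ, mul_comm q]
          refine add_le_add le_rfl ?_
          calc q * (J * η) ≤ 1 * (J * η) := mul_le_mul_left hq1 _
            _ = _ := one_mul _
      _ = _ := by push_cast; ring

end Crest.Agent.R154.Asm309
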