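import Crest.Agent.R154.B5Abs_566

/-! Row 154 (helper329), ROAD 801: first passage lists, their laws, smoothing of the law.
Lists of blocks (566's letters). -/

set_option autoImplicit false

namespace Crest.Agent.R154.Asm329

open Crest.Agent.R154.B5A
open scoped ENNReal

variable {B G : Type*} [AddCommGroup G]

/-- displacement of a list -/
def Dp (z : B → G) (L : List B) : G := (L.map z).sum

lemma Dp_nil (z : B → G) : Dp z [] = 0 := by simp [Dp]
lemma Dp_cons (z : B → G) (b : B) (L : List B) : Dp z (b :: L) = z b + Dp z L := by simp [Dp]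
lemma Dp_append (z : B → G) (L L' : List B) : Dp z (L ++ L') = Dp z L + Dp z L' := by simp [Dp]

/-- first passage of height `T` -/
def FP (h : B → ℕ) (T : ℕ) (L : List B) : Prop :=
  T ≤ HT h L ∧ ∀ L1 L2, L = L1 ++ L2 → L2 ≠ [] → HT h L1 < T

lemma FP_zero (h : B → ℕ) (L : List B) : FP h 0 L ↔ L = [] := by
  constructor
  · rintro ⟨-, h2⟩
    by_contra hL
    exact absurd (h2 [] L rfl hL) (by simp [HT_nil])
  · rintro rfl
    refine ⟨Nat.zero_le _, fun L1 L2 e hne => ?_⟩
    have := List.append_eq_nil_iff.1 e.symm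
    exact absurd this.2 hne

lemma FP_nil (h : B → ℕ) {T : ℕ} (hT : 0 < T) : ¬ FP h T [] := fun hh => by
  have := hh.1; rw [HT_nil] at this; omega

lemma FP_cons (h : B → ℕ) {T : ℕ} (hT : 0 < T) (b : B) (L : List B) :
    FP h T (b :: L) ↔ FP h (T - h b) L := by
  constructor
  · rintro ⟨h1, h2⟩
    rw [HT_cons] at h1
    refine ⟨by omega, fun L1 L2 e hne => ?_⟩
    have := h2 (b :: L1) L2 (by rw [e]; rfl) hne
    rw [HT_cons] at this
    omega
  · rintro ⟨h1, h2⟩
    refine ⟨by rw [HT_cons]; omega, fun L1 L2 e hne => ?_⟩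
    cases L1 with
    | nil => rw [HT_nil]; exact hT
    | cons a L1 =>
      simp only [List.cons_append, List.cons.injEq] at e
      obtain ⟨rfl, e⟩ := e
      have := h2 L1 L2 e hne
      rw [HT_cons]
      omega

/-- the shortest prefix reaching `T` -/
lemma FP_exists (h : B → ℕ) (L : List B) : ∀ T, T ≤ HT h L → ∃ A R, L = A ++ R ∧ FP h T A := by
  induction L with
  | nil =>
    intro T hT
    refine ⟨[], [], rfl, ?_⟩
    have : T = 0 := by rw [HT_nil] at hT; omega
    subst this
    exact (FP_zero h []).2 rfl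
  | cons b L ih =>
    intro T hT
    rcases Nat.eq_zero_or_pos T with rfl | hpos
    · exact ⟨[], b :: L, rfl, (FP_zero h []).2 rfl⟩
    · rw [HT_cons] at hT
      obtain ⟨A, R, e, hA⟩ := ih (T - h b) (by omega)
      exact ⟨b :: A, R, by rw [e]; rfl, (FP_cons h hpos b A).2 hA⟩

open Classical in
/-- **split at the first passage** -/
lemma fp_split (h : B → ℕ) (T : ℕ) (F : List B → ℝ≥0∞) :
    ∑' L, (if T ≤ HT h L then F L else 0)
      ≤ ∑' A, ∑' R, (if FP h T A then F (A ++ R) else 0) := by
  rw [← ENNReal.tsum_prod]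
  have hc : ∀ L : List B, ∃ p : List B × List B, T ≤ HT h L → (L = p.1 ++ p.2 ∧ FP h T p.1) := by
    intro L
    by_cases hL : T ≤ HT h L
    · obtain ⟨A, R, e, hA⟩ := FP_exists h L T hL
      exact ⟨(A, R), fun _ => ⟨e, hA⟩⟩
    · exact ⟨(L, []), fun hh => absurd hh hL⟩
  choose f hf using hc
  let S := {L : List B // T ≤ HT h L}
  have e1 : ∑' L, (if T ≤ HT h L then F L else 0) = ∑' L : S, F L.1 := by
    rw [show (fun L => if T ≤ HT h L then F L else 0) = {L : List B | T ≤ HT h L}.indicator F from by
      ext L; simp [Set.indicator]]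
    exact (tsum_subtype {L : List B | T ≤ HT h L} F).symm
  rw [e1]
  have hinj : Function.Injective (fun L : S => f L.1) := by
    intro L L' e
    apply Subtype.ext
    rw [(hf L.1 L.2).1, (hf L'.1 L'.2).1]
    simp only at e
    rw [e]
  calc ∑' L : S, F L.1 ≤ ∑' L : S, (fun p : List B × List B =>
        if FP h T p.1 then F (p.1 ++ p.2) else 0) (f L.1) := by
        refine ENNReal.tsum_le_tsum fun L => ?_
        have := hf L.1 L.2
        simp only [if_pos this.2, ← this.1]
        exact le_rfl
    _ ≤ _ := ENNReal.tsum_comp_le_tsum_of_injective hinj _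

open Classical in
/-- total mass of the first passage lists -/
lemma fp_mass (Λ : B → ℝ≥0∞) (h : B → ℕ) (h1 : ∀ b, 1 ≤ h b) (hΛ : ∑' b, Λ b ≤ 1) :
    ∀ T, ∑' A, (if FP h T A then LW Λ A else 0) ≤ 1 := by
  intro T
  induction T using Nat.strong_induction_on with
  | _ T ih =>
    rcases Nat.eq_zero_or_pos T with rfl | hpos
    · simp only [FP_zero]
      rw [tsum_eq_single []]
      · simp [LW_nil]
      · intro L hL; simp [hL]
    · rw [tsum_list, if_neg (FP_nil h hpos), zero_add]
      calc ∑' b, ∑' L, (if FP h T (b :: L) then LW Λ (b :: L) else 0)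
          ≤ ∑' b, Λ b * 1 := by
            refine ENNReal.tsum_le_tsum fun b => ?_
            calc ∑' L, (if FP h T (b :: L) then LW Λ (b :: L) else 0)
                = Λ b * ∑' L, (if FP h (T - h b) L then LW Λ L else 0) := by
                  rw [← ENNReal.tsum_mul_left]
                  refine tsum_congr fun L => ?_
                  simp only [FP_cons h hpos, LW_cons, mul_ite, mul_zero]
              _ ≤ Λ b * 1 := by
                  have := h1 b
                  gcongr
                  exact ih _ (by omega)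
        _ ≤ 1 := by simpa using hΛ

/-- total mass at an exact height -/
lemma u_le (Λ : B → ℝ≥0∞) (h : B → ℕ) (h1 : ∀ b, 1 ≤ h b) (hΛ : ∑' b, Λ b ≤ 1) :
    ∀ n, ∑' L : List B, (if HT h L = n then LW Λ L else 0) ≤ 1 := by
  classical
  intro n
  refine le_trans ?_ (fp_mass Λ h h1 hΛ n)
  refine ENNReal.tsum_le_tsum fun L => ?_
  by_cases hL : HT h L = n
  · rw [if_pos hL, if_pos]
    refine ⟨hL.ge, fun L1 L2 e hne => ?_⟩
    rw [← hL, e, HT_append]
    have : 1 ≤ HT h L2 := by
      have := length_le_HT h h1 L2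
      have := List.length_pos_of_ne_nil hne
      omega
    omega
  · rw [if_neg hL]; exact zero_le

open Classical in
/-- the law of (overshoot, displacement) of the first passage list -/
noncomputable def law (Λ : B → ℝ≥0∞) (h : B → ℕ) (z : B → G) (T i : ℕ) (x : G) : ℝ≥0∞ :=
  ∑' A, (if FP h T A ∧ HT h A = T + i ∧ Dp z A = x then LW Λ A else 0)

open Classical in
lemma law_push (Λ : B → ℝ≥0∞) (h : B → ℕ) (z : B → G) (T : ℕ) (f : ℕ → G → ℝ≥0∞) :
    ∑' A, (if FP h T A then LW Λ A * f (HT h A - T) (Dp z A) else 0)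
      = ∑' i, ∑' x, law Λ h z T i x * f i x := by
  unfold law
  simp_rw [← ENNReal.tsum_mul_right]
  have e1 : ∀ i : ℕ, (∑' x : G, ∑' A : List B,
      (if FP h T A ∧ HT h A = T + i ∧ Dp z A = x then LW Λ A else 0) * f i x)
      = ∑' A : List B, ∑' x : G,
      (if FP h T A ∧ HT h A = T + i ∧ Dp z A = x then LW Λ A else 0) * f i x :=
    fun i => ENNReal.tsum_comm
  simp_rw [e1]
  rw [ENNReal.tsum_comm]
  refine tsum_congr fun A => ?_
  by_cases hA : FP h T A
  · rw [if_pos hA, tsum_eq_single (HT h A - T)]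
    · rw [tsum_eq_single (Dp z A)]
      · rw [if_pos ⟨hA, by have := hA.1; omega, rfl⟩]
      · intro x hx
        rw [if_neg (fun hh => hx hh.2.2.symm), zero_mul]
    · intro i hi
      have : ∀ x, ¬ (FP h T A ∧ HT h A = T + i ∧ Dp z A = x) := fun x hh => hi (by
        have := hh.2.1; omega)
      simp [this]
  · rw [if_neg hA]
    simp [hA]

/-- mass of the overshoot -/
noncomputable def ov (Λ : B → ℝ≥0∞) (h : B → ℕ) (T i0 : ℕ) : ℝ≥0∞ := by
  classical
  exact ∑' A, (if FP h T A ∧ T + i0 < HT h A then LW Λ A else 0)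

open Classical in
lemma ov_law (Λ : B → ℝ≥0∞) (h : B → ℕ) (z : B → G) (T i0 : ℕ) :
    ∑' i, ∑' x, (if i0 < i then law Λ h z T i x else 0) ≤ ov Λ h T i0 := by
  have := law_push Λ h z T (fun i _ => if i0 < i then 1 else 0)
  simp only [mul_ite, mul_one, mul_zero] at this
  rw [← this, ov]
  refine ENNReal.tsum_le_tsum fun A => ?_
  by_cases hA : FP h T A
  · by_cases hh : i0 < HT h A - T
    · rw [if_pos hA, if_pos hh, if_pos ⟨hA, by omega⟩]
    · rw [if_pos hA, if_neg hh]; exact zero_le
  · rw [if_neg hA]; exact zero_le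

lemma law_mass (Λ : B → ℝ≥0∞) (h : B → ℕ) (z : B → G) (h1 : ∀ b, 1 ≤ h b) (hΛ : ∑' b, Λ b ≤ 1)
    (T : ℕ) : ∑' i, ∑' x, law Λ h z T i x ≤ 1 := by
  classical
  have := law_push Λ h z T (fun _ _ => 1)
  simp only [mul_one] at this
  rw [← this]
  exact fp_mass Λ h h1 hΛ T

lemma law_mass_i (Λ : B → ℝ≥0∞) (h : B → ℕ) (z : B → G) (h1 : ∀ b, 1 ≤ h b) (hΛ : ∑' b, Λ b ≤ 1)
    (T i : ℕ) : ∑' x, law Λ h z T i x ≤ 1 :=
  (ENNReal.le_tsum (f := fun i => ∑' x, law Λ h z T i x) i).trans (law_mass Λ h z h1 hΛ T)

lemma FP_append (h : B → ℕ) {T : ℕ} {P R : List B} (hh : FP h T (P ++ R)) :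
    FP h (T - HT h P) R := by
  obtain ⟨h1, h2⟩ := hh
  rw [HT_append] at h1
  refine ⟨by omega, fun R1 R2 e hne => ?_⟩
  have := h2 (P ++ R1) R2 (by rw [e, List.append_assoc]) hne
  rw [HT_append] at this
  omega

open Classical in
/-- inner sum -/
noncomputable def inn (Λ : B → ℝ≥0∞) (h : B → ℕ) (z : B → G) (S T i : ℕ) (z' : G) (i' : ℕ) (x : G) :
    ℝ≥0∞ :=
  ∑' R, (if FP h (T - (S + i)) R ∧ S + i + HT h R = T + i' ∧ z' + Dp z R = x then LW Λ R else 0)

lemma inn_eq (Λ : B → ℝ≥0∞) (h : B → ℕ) (z : B → G) {S T i : ℕ} (hi : S + i ≤ T) (z' : G) (i' : ℕ)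
    (x : G) : inn Λ h z S T i z' i' x = law Λ h z (T - (S + i)) i' (x - z') := by
  classical
  unfold inn law
  refine tsum_congr fun R => ?_
  congr 1
  refine propext (and_congr_right fun _ => and_congr ?_ ?_)
  · omega
  · rw [eq_sub_iff_add_eq, add_comm]

lemma inn_mass (Λ : B → ℝ≥0∞) (h : B → ℕ) (z : B → G) (h1 : ∀ b, 1 ≤ h b) (hΛ : ∑' b, Λ b ≤ 1)
    (S T i : ℕ) (z' : G) : ∑' i', ∑' x, inn Λ h z S T i z' i' x ≤ 1 := by
  classical
  unfold inn
  have e1 : ∀ i' : ℕ, (∑' x : G, ∑' R : List B,
      (if FP h (T - (S + i)) R ∧ S + i + HT h R = T + i' ∧ z' + Dp z R = x then LW Λ R else 0))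
      = ∑' R : List B, ∑' x : G,
      (if FP h (T - (S + i)) R ∧ S + i + HT h R = T + i' ∧ z' + Dp z R = x then LW Λ R else 0) :=
    fun i => ENNReal.tsum_comm
  simp_rw [e1]
  rw [ENNReal.tsum_comm]
  refine le_trans ?_ (fp_mass Λ h h1 hΛ (T - (S + i)))
  refine ENNReal.tsum_le_tsum fun R => ?_
  rw [tsum_eq_single (S + i + HT h R - T)]
  · rw [tsum_eq_single (z' + Dp z R)]
    · by_cases hR : FP h (T - (S + i)) R
      · rw [if_pos hR]
        split_ifs
        · exact le_rfl
        · exact zero_le
      · rw [if_neg hR, if_neg (fun hh => hR hh.1)]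
    · intro x hx
      rw [if_neg (fun hh => hx hh.2.2.symm)]
  · intro i' hi'
    have : ∀ x, ¬ (FP h (T - (S + i)) R ∧ S + i + HT h R = T + i' ∧ z' + Dp z R = x) :=
      fun x hh => hi' (by have := hh.2.1; omega)
    simp [this]

/-- Markov at the first attempt -/
lemma law_le (Λ : B → ℝ≥0∞) (h : B → ℕ) (z : B → G) {S T : ℕ} (hST : S ≤ T) (i' : ℕ) (x : G) :
    law Λ h z T i' x ≤ ∑' i, ∑' z', law Λ h z S i z' * inn Λ h z S T i z' i' x := by
  classical
  rw [← law_push Λ h z S (fun i z' => inn Λ h z S T i z' i' x)]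
  have e0 : law Λ h z T i' x = ∑' A, (if S ≤ HT h A then
      (if FP h T A ∧ HT h A = T + i' ∧ Dp z A = x then LW Λ A else 0) else 0) := by
    unfold law
    refine tsum_congr fun A => ?_
    by_cases hA : FP h T A ∧ HT h A = T + i' ∧ Dp z A = x
    · rw [if_pos hA, if_pos (by have := hA.1.1; omega)]
    · rw [if_neg hA]; simp
  rw [e0]
  refine (fp_split h S _).trans (ENNReal.tsum_le_tsum fun P => ?_)
  by_cases hP : FP h S P
  · simp only [if_pos hP]
    unfold inn
    rw [← ENNReal.tsum_mul_left]
    refine ENNReal.tsum_le_tsum fun R => ?_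
    by_cases hR : FP h T (P ++ R) ∧ HT h (P ++ R) = T + i' ∧ Dp z (P ++ R) = x
    · rw [if_pos hR, if_pos, LW_append]
      have h0 := hP.1
      have e : S + (HT h P - S) = HT h P := by omega
      rw [e]
      refine ⟨FP_append h hR.1, ?_, ?_⟩
      · rw [← hR.2.1, HT_append]
      · rw [← hR.2.2, Dp_append]
    · rw [if_neg hR]; exact zero_le
  · simp [hP]

/-- **SMOOTHING**: the law of the first passage of `T ≥ N (S + i0)` is smooth up to a small mass. -/
theorem smooth (Λ : B → ℝ≥0∞) (h : B → ℕ) (z : B → G) (h1 : ∀ b, 1 ≤ h b) (hΛ : ∑' b, Λ b ≤ 1)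
    (S i0 : ℕ) (th q ε : ℝ≥0∞)
    (hq : ∑' i, ∑' x, (open Classical in if i ≤ i0 ∧ th < law Λ h z S i x then law Λ h z S i x
      else 0) ≤ q) (hε : ov Λ h S i0 ≤ ε) :
    ∀ N T, N * (S + i0) ≤ T → ∃ g b : ℕ → G → ℝ≥0∞, (∀ i x, law Λ h z T i x ≤ g i x + b i x) ∧
      (∀ i x, g i x ≤ (i0 + 1) * th * ∑ j ∈ Finset.range N, q ^ j) ∧
      ∑' i, ∑' x, b i x ≤ q ^ N + ε * ∑ j ∈ Finset.range N, q ^ j := by
  classical
  intro N
  induction N with
  | zero =>
    intro T _
    refine ⟨fun _ _ => 0, fun i x => law Λ h z T i x, fun i x => by simp, fun i x => by simp, ?_⟩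
    simpa using law_mass Λ h z h1 hΛ T
  | succ N ih =>
    intro T hT
    have hT' : N * (S + i0) + (S + i0) ≤ T := by
      have : (N + 1) * (S + i0) = N * (S + i0) + (S + i0) := by ring
      omega
    have hi : ∀ i, ∃ gb : (ℕ → G → ℝ≥0∞) × (ℕ → G → ℝ≥0∞), i ≤ i0 →
        (∀ j x, law Λ h z (T - (S + i)) j x ≤ gb.1 j x + gb.2 j x) ∧
        (∀ j x, gb.1 j x ≤ (i0 + 1) * th * ∑ j ∈ Finset.range N, q ^ j) ∧
        ∑' j, ∑' x, gb.2 j x ≤ q ^ N + ε * ∑ j ∈ Finset.range N, q ^ j := by
      intro i
      by_cases hi0 : i ≤ i0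
      · obtain ⟨g, b, h2⟩ := ih (T - (S + i)) (by omega)
        exact ⟨(g, b), fun _ => h2⟩
      · exact ⟨(fun _ _ => 0, fun _ _ => 0), fun hh => absurd hh hi0⟩
    choose gb hgb using hi
    set p : ℕ → G → ℝ≥0∞ := law Λ h z S with hp
    refine ⟨fun i' x => (∑' i, ∑' z', (if i ≤ i0 ∧ p i z' ≤ th then
        p i z' * law Λ h z (T - (S + i)) i' (x - z') else 0))
        + ∑' i, ∑' z', (if i ≤ i0 ∧ th < p i z' then p i z' * (gb i).1 i' (x - z') else 0),
      fun i' x => (∑' i, ∑' z', (if i ≤ i0 ∧ th < p i z' then p i z' * (gb i).2 i' (x - z') else 0))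
        + ∑' i, ∑' z', (if i0 < i then p i z' * inn Λ h z S T i z' i' x else 0), ?_, ?_, ?_⟩
    · intro i' x
      refine (law_le Λ h z (show S ≤ T by omega) i' x).trans ?_
      have e : ∀ a b c d : ℕ → G → ℝ≥0∞, (∑' i, ∑' z', a i z') + (∑' i, ∑' z', b i z')
          + ((∑' i, ∑' z', c i z') + ∑' i, ∑' z', d i z')
          = ∑' i, ∑' z', (a i z' + b i z' + (c i z' + d i z')) := by
        intro a b c d
        simp_rw [ENNReal.tsum_add]
      simp only []
      rw [e]
      refine ENNReal.tsum_le_tsum fun i => ENNReal.tsum_le_tsum fun z' => ?_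
      by_cases hi0 : i ≤ i0
      · have hne : ¬ i0 < i := by omega
        have hST : S + i ≤ T := by omega
        by_cases hth : p i z' ≤ th
        · simp only [hi0, hth, not_lt.2 hth, hne, and_true, and_false, if_true, if_false, add_zero]
          rw [inn_eq Λ h z hST]
        · have hth' := not_le.1 hth
          simp only [hi0, hth, hth', hne, and_true, and_false, if_true, if_false, add_zero,
            zero_add]
          rw [inn_eq Λ h z hST, ← mul_add]
          gcongr
          exact ((hgb i hi0).1 i' (x - z'))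
      · have hne : i0 < i := by omega
        simp only [hi0, hne, false_and, if_true, if_false, zero_add]
        exact le_rfl
    · intro i' x
      have hg1 : (∑' i, ∑' z', (if i ≤ i0 ∧ p i z' ≤ th then
          p i z' * law Λ h z (T - (S + i)) i' (x - z') else 0)) ≤ (i0 + 1) * th := by
        calc _ ≤ ∑' i : ℕ, (if i ≤ i0 then th else 0) := by
              refine ENNReal.tsum_le_tsum fun i => ?_
              by_cases hi0 : i ≤ i0
              · rw [if_pos hi0]
                calc _ ≤ ∑' z', th * law Λ h z (T - (S + i)) i' (x - z') := by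
                      refine ENNReal.tsum_le_tsum fun z' => ?_
                      by_cases hth : p i z' ≤ th
                      · rw [if_pos ⟨hi0, hth⟩]
                        gcongr
                      · rw [if_neg (fun hh => hth hh.2)]; exact zero_le
                  _ = th * ∑' z', law Λ h z (T - (S + i)) i' (x - z') := ENNReal.tsum_mul_left
                  _ = th * ∑' y, law Λ h z (T - (S + i)) i' y := by
                      congr 1
                      exact (Equiv.subLeft x).tsum_eq (fun y => law Λ h z (T - (S + i)) i' y)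
                  _ ≤ th * 1 := by gcongr; exact law_mass_i Λ h z h1 hΛ _ _
                  _ = th := mul_one _
              · simp [hi0]
          _ = ∑ i ∈ Finset.range (i0 + 1), th := by
              rw [tsum_eq_sum (s := Finset.range (i0 + 1))]
              · exact Finset.sum_congr rfl fun i hi => if_pos (by
                  have := Finset.mem_range.1 hi; omega)
              · intro i hi
                rw [if_neg (fun hh => hi (Finset.mem_range.2 (by omega)))]
          _ = (i0 + 1) * th := by simp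
      have hg2 : (∑' i, ∑' z', (if i ≤ i0 ∧ th < p i z' then p i z' * (gb i).1 i' (x - z') else 0))
          ≤ q * ((i0 + 1) * th * ∑ j ∈ Finset.range N, q ^ j) := by
        calc _ ≤ ∑' i, ∑' z', (if i ≤ i0 ∧ th < p i z' then p i z' else 0)
              * ((i0 + 1) * th * ∑ j ∈ Finset.range N, q ^ j) := by
              refine ENNReal.tsum_le_tsum fun i => ENNReal.tsum_le_tsum fun z' => ?_
              by_cases hh : i ≤ i0 ∧ th < p i z'
              · rw [if_pos hh, if_pos hh]
                gcongr
                exact (hgb i hh.1).2.1 i' _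
              · rw [if_neg hh, if_neg hh, zero_mul]
          _ = (∑' i, ∑' z', (if i ≤ i0 ∧ th < p i z' then p i z' else 0))
              * ((i0 + 1) * th * ∑ j ∈ Finset.range N, q ^ j) := by
              simp_rw [ENNReal.tsum_mul_right]
          _ ≤ _ := by gcongr
      calc _ ≤ (i0 + 1) * th + q * ((i0 + 1) * th * ∑ j ∈ Finset.range N, q ^ j) :=
            add_le_add hg1 hg2
        _ = _ := by
          rw [Finset.sum_range_succ', pow_zero, Finset.mul_sum, Finset.mul_sum, mul_add, mul_one,
            Finset.mul_sum, add_comm]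
          congr 1
          refine Finset.sum_congr rfl fun j _ => ?_
          rw [pow_succ]; ring
    · have hb1 : ∑' i', ∑' x : G, (∑' i, ∑' z', (if i ≤ i0 ∧ th < p i z' then
          p i z' * (gb i).2 i' (x - z') else 0))
          ≤ q * (q ^ N + ε * ∑ j ∈ Finset.range N, q ^ j) := by
        calc _ = ∑' i, ∑' z', ∑' i', ∑' x : G, (if i ≤ i0 ∧ th < p i z' then
              p i z' * (gb i).2 i' (x - z') else 0) := by
              have e1 : ∀ i' : ℕ, (∑' x : G, ∑' i, ∑' z', (if i ≤ i0 ∧ th < p i z' then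
                  p i z' * (gb i).2 i' (x - z') else 0)) = ∑' i, ∑' z', ∑' x : G,
                  (if i ≤ i0 ∧ th < p i z' then p i z' * (gb i).2 i' (x - z') else 0) := by
                intro i'
                rw [ENNReal.tsum_comm]
                exact tsum_congr fun i => ENNReal.tsum_comm
              simp_rw [e1]
              rw [ENNReal.tsum_comm]
              exact tsum_congr fun i => ENNReal.tsum_comm
          _ ≤ ∑' i, ∑' z', (if i ≤ i0 ∧ th < p i z' then p i z' else 0)
              * (q ^ N + ε * ∑ j ∈ Finset.range N, q ^ j) := by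
              refine ENNReal.tsum_le_tsum fun i => ENNReal.tsum_le_tsum fun z' => ?_
              by_cases hh : i ≤ i0 ∧ th < p i z'
              · simp only [if_pos hh]
                simp_rw [ENNReal.tsum_mul_left]
                gcongr
                refine le_trans (le_of_eq ?_) (hgb i hh.1).2.2
                refine tsum_congr fun i' => ?_
                exact (Equiv.subRight z').tsum_eq (fun y => (gb i).2 i' y)
              · simp [if_neg hh]
          _ = (∑' i, ∑' z', (if i ≤ i0 ∧ th < p i z' then p i z' else 0))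
              * (q ^ N + ε * ∑ j ∈ Finset.range N, q ^ j) := by
              simp_rw [ENNReal.tsum_mul_right]
          _ ≤ _ := by gcongr
      have hb2 : ∑' i', ∑' x : G, (∑' i, ∑' z', (if i0 < i then
          p i z' * inn Λ h z S T i z' i' x else 0)) ≤ ε := by
        calc _ = ∑' i, ∑' z', ∑' i', ∑' x : G, (if i0 < i then
              p i z' * inn Λ h z S T i z' i' x else 0) := by
              have e1 : ∀ i' : ℕ, (∑' x : G, ∑' i, ∑' z', (if i0 < i then
                  p i z' * inn Λ h z S T i z' i' x else 0)) = ∑' i, ∑' z', ∑' x : G,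
                  (if i0 < i then p i z' * inn Λ h z S T i z' i' x else 0) := by
                intro i'
                rw [ENNReal.tsum_comm]
                exact tsum_congr fun i => ENNReal.tsum_comm
              simp_rw [e1]
              rw [ENNReal.tsum_comm]
              exact tsum_congr fun i => ENNReal.tsum_comm
          _ ≤ ∑' i, ∑' z', (if i0 < i then p i z' else 0) := by
              refine ENNReal.tsum_le_tsum fun i => ENNReal.tsum_le_tsum fun z' => ?_
              by_cases hh : i0 < i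
              · simp only [if_pos hh]
                simp_rw [ENNReal.tsum_mul_left]
                calc _ ≤ p i z' * 1 := by gcongr; exact inn_mass Λ h z h1 hΛ S T i z'
                  _ = _ := mul_one _
              · simp [if_neg hh]
          _ ≤ ov Λ h S i0 := ov_law Λ h z S i0
          _ ≤ ε := hε
      simp_rw [ENNReal.tsum_add]
      calc _ ≤ q * (q ^ N + ε * ∑ j ∈ Finset.range N, q ^ j) + ε := add_le_add hb1 hb2
        _ = _ := by
          rw [Finset.sum_range_succ', pow_zero, Finset.mul_sum, mul_add, mul_add, Finset.mul_sum,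
            Finset.mul_sum, mul_one, ← add_assoc, ← pow_succ']
          congr 2
          refine Finset.sum_congr rfl fun j _ => ?_
          rw [pow_succ]; ring

end Crest.Agent.R154.Asm329
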