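import Crest.Agent.R154.FP_178

/-! Row 154, ROAD 801, abstract assembly, part A (helper344): traces of lists of blocks, the law of
(overshoot, displacement) at a first passage, its density. -/

set_option autoImplicit false

namespace Crest.Agent.R154.Asm344

open scoped ENNReal
open Crest.Agent.R154.B5A
open Crest.Agent.R154.FP178

variable {B G : Type*} [AddCommGroup G]

/-- displacement of a list -/
def Dp (z : B → G) (L : List B) : G := (L.map z).sum

lemma Dp_nil (z : B → G) : Dp z [] = 0 := by simp [Dp]

lemma Dp_cons (z : B → G) (b : B) (L : List B) : Dp z (b :: L) = z b + Dp z L := by simp [Dp]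

lemma Dp_append (z : B → G) (L L' : List B) : Dp z (L ++ L') = Dp z L + Dp z L' := by simp [Dp]

/-- sites read by a list hung at `x`, depth `a` -/
def TT (ht : B → ℕ) (z : B → G) (s : B → Set (G × ℕ)) : List B → G → ℕ → Set (G × ℕ)
  | [], _, _ => ∅
  | b :: L, x, a => {p | ∃ q ∈ s b, p = (x + q.1, a + q.2)} ∪ TT ht z s L (x + z b) (a + ht b)

variable (ht : B → ℕ) (z : B → G) (s : B → Set (G × ℕ))

lemma TT_append (L L' : List B) (x : G) (a : ℕ) :
    TT ht z s (L ++ L') x a = TT ht z s L x a ∪ TT ht z s L' (x + Dp z L) (a + HT ht L) := by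
  induction L generalizing x a with
  | nil => simp [TT, Dp_nil, HT_nil]
  | cons b L ih =>
    simp only [List.cons_append, TT]
    rw [ih, Dp_cons, HT_cons, Set.union_assoc, add_assoc, add_assoc]

lemma TT_shift (L : List B) (x y v : G) (a k : ℕ) :
    (v, k) ∈ TT ht z s L (x + y) a ↔ (v - y, k) ∈ TT ht z s L x a := by
  induction L generalizing x a with
  | nil => simp [TT]
  | cons b L ih =>
    simp only [TT, Set.mem_union, Set.mem_setOf_eq]
    rw [show x + y + z b = x + z b + y by abel, ih]
    refine or_congr ?_ Iff.rfl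
    constructor
    · rintro ⟨q, hq, h⟩
      refine ⟨q, hq, ?_⟩
      rw [Prod.mk.injEq] at h ⊢
      refine ⟨?_, h.2⟩
      rw [h.1]; abel
    · rintro ⟨q, hq, h⟩
      refine ⟨q, hq, ?_⟩
      rw [Prod.mk.injEq] at h ⊢
      refine ⟨?_, h.2⟩
      have := h.1
      rw [sub_eq_iff_eq_add] at this
      rw [this]; abel

lemma TT_depth (hs : ∀ b q, q ∈ s b → 1 ≤ q.2 ∧ q.2 ≤ ht b) (L : List B) (x : G) (a : ℕ)
    (p : G × ℕ) (hp : p ∈ TT ht z s L x a) : a < p.2 ∧ p.2 ≤ a + HT ht L := by
  induction L generalizing x a with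
  | nil => simp [TT] at hp
  | cons b L ih =>
    rw [HT_cons]
    rcases hp with ⟨q, hq, rfl⟩ | hp
    · have := hs b q hq
      simp only; omega
    · have := ih _ _ hp
      omega

variable (Λ : B → ℝ≥0∞)

open Classical in
/-- joint law of the overshoot and the displacement at the first passage of depth `r` -/
noncomputable def att (r o : ℕ) (x : G) : ℝ≥0∞ :=
  ∑' L : List B, if fp ht r L ∧ HT ht L = r + o ∧ Dp z L = x then LW Λ L else 0

open Classical in
/-- sums over first passage lists by overshoot and displacement -/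
lemma sum_att (r : ℕ) (H : ℕ → G → ℝ≥0∞) :
    ∑' L, (if fp ht r L then LW Λ L * H (HT ht L - r) (Dp z L) else 0)
      = ∑' o, ∑' x, att ht z Λ r o x * H o x := by
  have e1 : ∀ L : List B, (if fp ht r L then LW Λ L * H (HT ht L - r) (Dp z L) else 0)
      = ∑' o, ∑' x, (if fp ht r L ∧ HT ht L = r + o ∧ Dp z L = x then LW Λ L else 0) * H o x := by
    intro L
    by_cases h : fp ht r L
    · have h' := le_HT_of_fp ht h
      rw [tsum_eq_single (HT ht L - r), tsum_eq_single (Dp z L)]
      · rw [if_pos h, if_pos ⟨h, by omega, rfl⟩]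
      · intro x hx
        rw [if_neg (fun hh => hx hh.2.2.symm), zero_mul]
      · intro o ho
        refine ENNReal.tsum_eq_zero.2 fun x => ?_
        rw [if_neg (fun hh => ho (by omega)), zero_mul]
    · rw [if_neg h]
      symm
      refine ENNReal.tsum_eq_zero.2 fun o => ENNReal.tsum_eq_zero.2 fun x => ?_
      rw [if_neg (fun hh => h hh.1), zero_mul]
  rw [tsum_congr e1, ENNReal.tsum_comm]
  refine tsum_congr fun o => ?_
  rw [ENNReal.tsum_comm]
  refine tsum_congr fun x => ?_
  rw [ENNReal.tsum_mul_right, att]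

lemma att_sum_le (h1 : ∀ b, 1 ≤ ht b) (hΛ : ∑' b, Λ b ≤ 1) (r : ℕ) :
    ∑' o, ∑' x, att ht z Λ r o x ≤ 1 := by
  classical
  have := sum_att ht z Λ r (fun _ _ => 1)
  simp only [mul_one] at this
  rw [← this]
  exact sum_FP Λ ht h1 hΛ r

open Classical in
/-- first passage mass is one -/
lemma sum_FP_one (h1 : ∀ b, 1 ≤ ht b) (hΛ : ∑' b, Λ b = 1) (a : ℕ) :
    ∑' L, (if fp ht a L then LW Λ L else 0) = 1 := by
  induction a using Nat.strong_induction_on with
  | _ a ih =>
    rcases Nat.eq_zero_or_pos a with rfl | ha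
    · have := sum_fp_zero Λ ht (fun _ => 1)
      simp only [mul_one] at this
      exact this
    · have := sum_fp_step Λ ht a ha (fun _ => 1)
      simp only [mul_one] at this
      rw [this]
      calc ∑' b, Λ b * ∑' L, (if fp ht (a - ht b) L then LW Λ L else 0)
          = ∑' b, Λ b * 1 := by
            refine tsum_congr fun b => ?_
            rw [ih (a - ht b) (by have := h1 b; omega)]
        _ = 1 := by simpa using hΛ

lemma att_sum_one (h1 : ∀ b, 1 ≤ ht b) (hΛ : ∑' b, Λ b = 1) (r : ℕ) :
    ∑' o, ∑' x, att ht z Λ r o x = 1 := by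
  classical
  have := sum_att ht z Λ r (fun _ _ => 1)
  simp only [mul_one] at this
  rw [← this]
  exact sum_FP_one ht Λ h1 hΛ r

/-- overshoot mass -/
noncomputable def ov (i : ℕ) : ℝ≥0∞ := ∑' k, tail Λ ht (i + k)

lemma swap3 {α β γ : Type*} (F : α → β → γ → ℝ≥0∞) :
    ∑' o, ∑' x, ∑' L, F o x L = ∑' L, ∑' o, ∑' x, F o x L := by
  rw [ENNReal.tsum_comm (f := fun L o => ∑' x, F o x L)]
  refine tsum_congr fun o => ?_
  rw [ENNReal.tsum_comm]

omit [AddCommGroup G] in
open Classical in
lemma ind_le (c r : ℕ) (v : G) :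
    ∑' o : ℕ, ∑' x : G, (if c = r + o ∧ v = x then (1 : ℝ≥0∞) else 0) ≤ 1 := by
  have e1 : ∀ o : ℕ, ∑' x : G, (if c = r + o ∧ v = x then (1 : ℝ≥0∞) else 0)
      = if c = r + o then 1 else 0 := by
    intro o
    by_cases h : c = r + o
    · rw [tsum_eq_single v]
      · simp [h]
      · intro x hx
        rw [if_neg (fun hh => hx hh.2.symm)]
    · simp [h]
  rw [tsum_congr e1]
  by_cases h : r ≤ c
  · rw [tsum_eq_single (c - r)]
    · split_ifs <;> simp
    · intro o ho
      rw [if_neg (by omega)]
  · rw [ENNReal.tsum_eq_zero.2]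
    · exact zero_le_one
    · intro o
      rw [if_neg (by omega)]

open Classical in
/-- auxiliary continuation -/
noncomputable def cont (r o : ℕ) (x : G) (A : List B) : ℝ≥0∞ :=
  ∑' L, (if fp ht (r - HT ht A) L then LW Λ L *
      (if HT ht (A ++ L) = r + o ∧ Dp z (A ++ L) = x then 1 else 0) else 0)

lemma cont_sum_le (h1 : ∀ b, 1 ≤ ht b) (hΛ : ∑' b, Λ b ≤ 1) (r : ℕ) (A : List B) :
    ∑' o, ∑' x, cont ht z Λ r o x A ≤ 1 := by
  classical
  unfold cont
  calc _ = ∑' L, ∑' o, ∑' x, (if fp ht (r - HT ht A) L then LW Λ L *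
      (if HT ht (A ++ L) = r + o ∧ Dp z (A ++ L) = x then 1 else 0) else 0) := swap3 _
    _ ≤ ∑' L, (if fp ht (r - HT ht A) L then LW Λ L else 0) := by
        refine ENNReal.tsum_le_tsum fun L => ?_
        by_cases h : fp ht (r - HT ht A) L
        · simp only [if_pos h]
          simp_rw [ENNReal.tsum_mul_left]
          calc _ ≤ LW Λ L * 1 := by
                gcongr
                exact ind_le _ _ _
            _ = _ := mul_one _
        · simp [h]
    _ ≤ 1 := sum_FP Λ ht h1 hΛ _

lemma cont_near (T i r : ℕ) (hi : T + i ≤ r) (o : ℕ) (x : G) (A : List B)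
    (hA : HT ht A = T + i) :
    cont ht z Λ r o x A = att ht z Λ (r - T - i) o (x - Dp z A) := by
  classical
  unfold cont att
  refine tsum_congr fun L => ?_
  rw [hA, Nat.sub_add_eq, HT_append, Dp_append, hA]
  by_cases h : fp ht (r - T - i) L
  · by_cases h2 : HT ht L = r - T - i + o
    · by_cases h3 : Dp z L = x - Dp z A
      · rw [if_pos h, if_pos ⟨by omega, by rw [h3]; abel⟩, if_pos ⟨h, h2, h3⟩, mul_one]
      · rw [if_pos h, if_neg (fun hh => h3 (by rw [← hh.2]; abel)),
          if_neg (fun hh => h3 hh.2.2), mul_zero]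
    · rw [if_pos h, if_neg (fun hh => h2 (by omega)), if_neg (fun hh => h2 hh.2.1), mul_zero]
  · rw [if_neg h, if_neg (fun hh => h hh.1)]

open Classical in
/-- the renewal inequality of the law at a first passage -/
lemma att_rec (h1 : ∀ b, 1 ≤ ht b) (hΛ : ∑' b, Λ b ≤ 1) (hU1 : ∀ n, U Λ ht n ≤ 1)
    (T i0 r : ℕ) (hr : T + i0 ≤ r) : ∃ e : ℕ → G → ℝ≥0∞, (∑' o, ∑' x, e o x ≤ ov ht Λ i0) ∧
      ∀ o x, att ht z Λ r o x ≤ (∑ i ∈ Finset.range (i0 + 1), ∑' x', att ht z Λ T i x' *
        att ht z Λ (r - T - i) o (x - x')) + e o x := by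
  refine ⟨fun o x => ∑' A, (if fp ht T A ∧ T + i0 < HT ht A then LW Λ A else 0) *
    cont ht z Λ r o x A, ?_, ?_⟩
  · calc _ = ∑' A, ∑' o, ∑' x, (if fp ht T A ∧ T + i0 < HT ht A then LW Λ A else 0) *
          cont ht z Λ r o x A := swap3 _
      _ ≤ ∑' A, (if fp ht T A ∧ T + i0 < HT ht A then LW Λ A else 0) := by
          refine ENNReal.tsum_le_tsum fun A => ?_
          simp_rw [ENNReal.tsum_mul_left]
          calc _ ≤ (if fp ht T A ∧ T + i0 < HT ht A then LW Λ A else 0) * 1 := by
                gcongr
                exact cont_sum_le ht z Λ h1 hΛ r A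
            _ = _ := mul_one _
      _ ≤ _ := overshoot Λ ht h1 hU1 i0 T
  · intro o x
    have e0 : att ht z Λ r o x = ∑' A, (if fp ht T A then LW Λ A * cont ht z Λ r o x A else 0) := by
      have := fp_split Λ ht h1 T r (by omega)
        (fun L => if HT ht L = r + o ∧ Dp z L = x then 1 else 0)
      unfold att
      rw [show (∑' L : List B, if fp ht r L ∧ HT ht L = r + o ∧ Dp z L = x then LW Λ L else 0)
        = ∑' L, (if fp ht r L then LW Λ L *
          (if HT ht L = r + o ∧ Dp z L = x then 1 else 0) else 0) from tsum_congr fun L => by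
            by_cases h : fp ht r L <;> simp [h], this]
      rfl
    rw [e0]
    have e1 : ∀ A : List B, (if fp ht T A then LW Λ A * cont ht z Λ r o x A else 0)
        ≤ (if fp ht T A then LW Λ A * (if HT ht A - T ≤ i0 then
          att ht z Λ (r - T - (HT ht A - T)) o (x - Dp z A) else 0) else 0)
          + (if fp ht T A ∧ T + i0 < HT ht A then LW Λ A else 0) * cont ht z Λ r o x A := by
      intro A
      by_cases h : fp ht T A
      · have h' := le_HT_of_fp ht h
        by_cases h2 : HT ht A ≤ T + i0
        · rw [if_pos h, if_pos h, if_pos (by omega), if_neg (by omega), zero_mul, add_zero,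
            cont_near ht z Λ T (HT ht A - T) r (by omega) o x A (by omega)]
        · rw [if_pos h, if_pos h, if_neg (show ¬ (HT ht A - T ≤ i0) by omega), mul_zero, zero_add,
            if_pos ⟨h, by omega⟩]
      · rw [if_neg h]; exact zero_le
    refine (ENNReal.tsum_le_tsum e1).trans ?_
    rw [ENNReal.tsum_add]
    refine add_le_add ?_ le_rfl
    rw [sum_att ht z Λ T (fun i x' => if i ≤ i0 then att ht z Λ (r - T - i) o (x - x') else 0)]
    rw [tsum_eq_sum (s := Finset.range (i0 + 1))]
    · refine Finset.sum_le_sum fun i hi => ENNReal.tsum_le_tsum fun x' => ?_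
      rw [if_pos (by have := Finset.mem_range.1 hi; omega)]
    · intro i hi
      refine ENNReal.tsum_eq_zero.2 fun x' => ?_
      rw [if_neg (by intro h; exact hi (Finset.mem_range.2 (by omega))), mul_zero]

open Classical in
/-- **density lemma** in first passage form -/
theorem dens (p : ℕ → G → ℝ≥0∞) (f : ℕ → ℕ → G → ℝ≥0∞) (T i0 : ℕ) (th q ε D : ℝ≥0∞)
    (hrec : ∀ r, T + i0 ≤ r → ∃ e : ℕ → G → ℝ≥0∞, (∑' o, ∑' x, e o x ≤ ε) ∧ ∀ o x,
      f r o x ≤ (∑ i ∈ Finset.range (i0 + 1), ∑' x', p i x' * f (r - T - i) o (x - x')) + e o x)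
    (hf : ∀ r, ∑' o, ∑' x, f r o x ≤ 1)
    (hq : ∑ i ∈ Finset.range (i0 + 1), ∑' x', (if th < p i x' then p i x' else 0) ≤ q)
    (hq1 : q ≤ 1) (hD : (i0 + 1 : ℕ) * th + q * D ≤ D) :
    ∀ J r, J * (T + i0) ≤ r → ∃ b : ℕ → G → ℝ≥0∞, (∑' o, ∑' x, b o x ≤ q ^ J + J * ε) ∧
      ∀ o x, f r o x ≤ D + b o x := by
  intro J
  induction J with
  | zero =>
    intro r _
    exact ⟨f r, by simpa using hf r, fun o x => le_add_self⟩
  | succ J ih =>
    intro r hr
    have hTr : T + i0 ≤ r := by nlinarith
    have hrem : ∀ i, i ≤ i0 → J * (T + i0) ≤ r - T - i := by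
      intro i hi
      have : J * (T + i0) + (T + i0) ≤ r := by nlinarith
      omega
    choose! b hb1 hb2 using fun i (hi : i ≤ i0) => ih (r - T - i) (hrem i hi)
    obtain ⟨e, he1, he2⟩ := hrec r hTr
    refine ⟨fun o x => e o x + ∑ i ∈ Finset.range (i0 + 1), ∑' x',
      (if th < p i x' then p i x' else 0) * b i o (x - x'), ?_, ?_⟩
    · have e2 : ∑' o, ∑' x, ∑ i ∈ Finset.range (i0 + 1), ∑' x',
          (if th < p i x' then p i x' else 0) * b i o (x - x') ≤ q * (q ^ J + J * ε) := by
        calc ∑' o, ∑' x, ∑ i ∈ Finset.range (i0 + 1), ∑' x',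
              (if th < p i x' then p i x' else 0) * b i o (x - x')
            = ∑ i ∈ Finset.range (i0 + 1), ∑' x', ∑' o, ∑' x,
              (if th < p i x' then p i x' else 0) * b i o (x - x') := by
              simp_rw [Summable.tsum_finsetSum (fun _ _ => ENNReal.summable)]
              refine Finset.sum_congr rfl fun i _ => ?_
              rw [ENNReal.tsum_comm (f := fun (x' : G) (o : ℕ) => ∑' x,
                (if th < p i x' then p i x' else 0) * b i o (x - x'))]
              refine tsum_congr fun o => ?_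
              rw [ENNReal.tsum_comm]
          _ ≤ ∑ i ∈ Finset.range (i0 + 1), ∑' x', (if th < p i x' then p i x' else 0) *
              (q ^ J + J * ε) := by
              refine Finset.sum_le_sum fun i hi => ENNReal.tsum_le_tsum fun x' => ?_
              simp_rw [ENNReal.tsum_mul_left]
              gcongr
              have : ∀ o, ∑' x, b i o (x - x') = ∑' x, b i o x := fun o =>
                (Equiv.subRight x').tsum_eq fun x => b i o x
              rw [tsum_congr this]
              exact hb1 i (by have := Finset.mem_range.1 hi; omega)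
          _ = (∑ i ∈ Finset.range (i0 + 1), ∑' x', (if th < p i x' then p i x' else 0)) *
              (q ^ J + J * ε) := by
              simp_rw [ENNReal.tsum_mul_right]
              rw [Finset.sum_mul]
          _ ≤ _ := by gcongr
      calc _ = (∑' o, ∑' x, e o x) + ∑' o, ∑' x, ∑ i ∈ Finset.range (i0 + 1), ∑' x',
            (if th < p i x' then p i x' else 0) * b i o (x - x') := by
            simp_rw [ENNReal.tsum_add]
        _ ≤ ε + q * (q ^ J + J * ε) := add_le_add he1 e2
        _ = q ^ (J + 1) + (ε + q * (J * ε)) := by ring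
        _ ≤ q ^ (J + 1) + (ε + 1 * (J * ε)) := by gcongr
        _ = q ^ (J + 1) + ((J + 1 : ℕ) : ℝ≥0∞) * ε := by push_cast; ring
    · intro o x
      have hterm : ∀ i ∈ Finset.range (i0 + 1), ∑' x', p i x' * f (r - T - i) o (x - x') ≤
          th + ((∑' x', (if th < p i x' then p i x' else 0) * b i o (x - x')) +
            (∑' x', (if th < p i x' then p i x' else 0)) * D) := by
        intro i hi
        have hi' : i ≤ i0 := by have := Finset.mem_range.1 hi; omega
        calc ∑' x', p i x' * f (r - T - i) o (x - x')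
            ≤ ∑' x', (th * f (r - T - i) o (x - x') +
              ((if th < p i x' then p i x' else 0) * b i o (x - x') +
              (if th < p i x' then p i x' else 0) * D)) := by
              refine ENNReal.tsum_le_tsum fun x' => ?_
              by_cases hp : th < p i x'
              · simp only [if_pos hp]
                calc p i x' * f (r - T - i) o (x - x') ≤ p i x' * (D + b i o (x - x')) := by
                      gcongr; exact hb2 i hi' _ _
                  _ = p i x' * b i o (x - x') + p i x' * D := by ring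
                  _ ≤ _ := le_add_self
              · simp only [if_neg hp, zero_mul, add_zero]
                gcongr
                exact not_lt.1 hp
          _ = th * (∑' x', f (r - T - i) o (x - x')) +
              ((∑' x', (if th < p i x' then p i x' else 0) * b i o (x - x')) +
              (∑' x', (if th < p i x' then p i x' else 0)) * D) := by
              rw [ENNReal.tsum_add, ENNReal.tsum_add, ENNReal.tsum_mul_left,
                ENNReal.tsum_mul_right]
          _ ≤ th * 1 + _ := by
              gcongr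
              have : ∑' x', f (r - T - i) o (x - x') = ∑' x', f (r - T - i) o x' :=
                (Equiv.subLeft x).tsum_eq fun x' => f (r - T - i) o x'
              rw [this]
              exact (ENNReal.le_tsum o).trans (hf _)
          _ = _ := by rw [mul_one]
      calc f r o x ≤ (∑ i ∈ Finset.range (i0 + 1), ∑' x', p i x' * f (r - T - i) o (x - x'))
            + e o x := he2 o x
        _ ≤ (∑ i ∈ Finset.range (i0 + 1), (th +
            ((∑' x', (if th < p i x' then p i x' else 0) * b i o (x - x')) +
            (∑' x', (if th < p i x' then p i x' else 0)) * D))) + e o x := by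
            gcongr with i hi
            exact hterm i hi
        _ = (((i0 + 1 : ℕ) * th + (∑ i ∈ Finset.range (i0 + 1),
            ∑' x', (if th < p i x' then p i x' else 0)) * D)) + (e o x +
            ∑ i ∈ Finset.range (i0 + 1),
            ∑' x', (if th < p i x' then p i x' else 0) * b i o (x - x')) := by
            rw [Finset.sum_add_distrib, Finset.sum_add_distrib, Finset.sum_mul]
            simp only [Finset.sum_const, Finset.card_range, nsmul_eq_mul]
            ring
        _ ≤ _ := by
            gcongr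
            refine le_trans ?_ hD
            gcongr

end Crest.Agent.R154.Asm344
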