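import Crest.Agent.R154.FP_178

/-! Row 154 (helper354), ROAD 801: assembly, part A: traces, one walker cut, density. -/

set_option autoImplicit false

namespace Crest.Agent.R154.Asm354

open scoped ENNReal
open Crest.Agent.R154.B5A
open Crest.Agent.R154.FP178 (fp fp_nil fp_cons fp_zero le_HT_of_fp split sum_FP fp_split overshoot
  sum_fp_step sum_fp_zero)

variable {B G : Type*} [AddCommGroup G]

/-- total displacement -/
def Dp (z : B → G) (L : List B) : G := (L.map z).sum

/-- trace of a list placed at `(x, a)` -/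
def TR (z : B → G) (h : B → ℕ) (s : B → Set (G × ℕ)) : List B → G → ℕ → Set (G × ℕ)
  | [], _, _ => ∅
  | b :: L, x, a => {p | ∃ q ∈ s b, p = (x + q.1, a + q.2)} ∪ TR z h s L (x + z b) (a + h b)

lemma Dp_nil (z : B → G) : Dp z [] = 0 := by simp [Dp]
lemma Dp_cons (z : B → G) (b : B) (L : List B) : Dp z (b :: L) = z b + Dp z L := by simp [Dp]
lemma Dp_append (z : B → G) (L L' : List B) : Dp z (L ++ L') = Dp z L + Dp z L' := by simp [Dp]

lemma TR_append (z : B → G) (h : B → ℕ) (s : B → Set (G × ℕ)) (L L' : List B) (x : G) (a : ℕ) :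
    TR z h s (L ++ L') x a = TR z h s L x a ∪ TR z h s L' (x + Dp z L) (a + HT h L) := by
  induction L generalizing x a with
  | nil => simp [TR, Dp_nil, HT_nil]
  | cons b L ih =>
    rw [List.cons_append, TR, TR, ih, Set.union_assoc, Dp_cons, HT_cons, add_assoc x,
      add_assoc a]

lemma TR_depth (z : B → G) (h : B → ℕ) (s : B → Set (G × ℕ))
    (hs : ∀ b, ∀ q ∈ s b, 1 ≤ q.2 ∧ q.2 ≤ h b) (L : List B) (x : G) (a : ℕ) (y : G) (k : ℕ)
    (hk : (y, k) ∈ TR z h s L x a) : a < k ∧ k ≤ a + HT h L := by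
  induction L generalizing x a with
  | nil => exact absurd hk (by simp [TR])
  | cons b L ih =>
    rw [HT_cons]
    rcases hk with ⟨q, hq, e⟩ | hk
    · have := hs b q hq
      have e2 : k = a + q.2 := congrArg Prod.snd e
      omega
    · have := ih _ _ hk
      omega

lemma TR_shift (z : B → G) (h : B → ℕ) (s : B → Set (G × ℕ)) (L : List B) (x c : G) (a : ℕ)
    (y : G) (k : ℕ) : (y, k) ∈ TR z h s L (x + c) a ↔ (y - c, k) ∈ TR z h s L x a := by
  induction L generalizing x a with
  | nil => simp [TR]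
  | cons b L ih =>
    have e : x + c + z b = (x + z b) + c := by abel
    rw [TR, TR, Set.mem_union, Set.mem_union, e, ih]
    refine or_congr ?_ Iff.rfl
    constructor
    · rintro ⟨q, hq, e'⟩
      have e1 : y = x + c + q.1 := congrArg Prod.fst e'
      have e2 : k = a + q.2 := congrArg Prod.snd e'
      exact ⟨q, hq, Prod.ext (by simp only [e1]; abel) e2⟩
    · rintro ⟨q, hq, e'⟩
      have e1 : y - c = x + q.1 := congrArg Prod.fst e'
      have e2 : k = a + q.2 := congrArg Prod.snd e'
      refine ⟨q, hq, Prod.ext ?_ e2⟩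
      have : y = x + q.1 + c := by rw [← e1]; abel
      simp only [this]; abel

lemma fp_unique (ht : B → ℕ) {a : ℕ} : ∀ {V V' L L' : List B}, fp ht a V → fp ht a V' →
    V ++ L = V' ++ L' → V = V' ∧ L = L' := by
  intro V
  induction V generalizing a with
  | nil =>
    intro V' L L' h h' e
    rw [fp_nil] at h
    subst h
    rw [fp_zero] at h'
    subst h'
    exact ⟨rfl, e⟩
  | cons b V ih =>
    intro V' L L' h h' e
    cases V' with
    | nil =>
      rw [fp_nil] at h'
      rw [fp_cons] at h
      omega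
    | cons b' V' =>
      rw [List.cons_append, List.cons_append, List.cons.injEq] at e
      obtain ⟨rfl, e⟩ := e
      rw [fp_cons] at h h'
      obtain ⟨rfl, rfl⟩ := ih h.2 h'.2 e
      exact ⟨rfl, rfl⟩

section one
variable (Λ : B → ℝ≥0∞) (ht : B → ℕ) (z : B → G)

lemma U_le_one (h1 : ∀ b, 1 ≤ ht b) (hΛ : ∑' b, Λ b = 1) (n : ℕ) : U Λ ht n ≤ 1 := by
  have h := renewal_one Λ ht h1 hΛ n
  have h0 : tail Λ ht 0 = 1 := by
    rw [tail, ← hΛ]
    exact tsum_congr fun b => if_pos (by have := h1 b; omega)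
  rw [← h]
  have := Finset.single_le_sum (f := fun k => U Λ ht (n - k) * tail Λ ht k)
    (fun _ _ => zero_le') (Finset.mem_range.2 (Nat.succ_pos n))
  simpa [h0] using this

/-- mass of the lists of height `n` -/
lemma sum_HT_le (h1 : ∀ b, 1 ≤ ht b) (hΛ : ∑' b, Λ b = 1) (n : ℕ) (c : ℝ≥0∞) (f : List B → ℝ≥0∞)
    (hf : ∀ L, HT ht L = n → f L ≤ c) (hf0 : ∀ L, HT ht L ≠ n → f L = 0) :
    ∑' L, LW Λ L * f L ≤ c := by
  calc ∑' L, LW Λ L * f L ≤ ∑' L, (if HT ht L = n then LW Λ L else 0) * c := by
        refine ENNReal.tsum_le_tsum fun L => ?_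
        by_cases h : HT ht L = n
        · rw [if_pos h]; exact mul_le_mul_right (hf L h) _
        · rw [if_neg h, hf0 L h, mul_zero, zero_mul]
    _ = U Λ ht n * c := by rw [ENNReal.tsum_mul_right]; rfl
    _ ≤ 1 * c := mul_le_mul_left (U_le_one Λ ht h1 hΛ n) _
    _ = c := one_mul c

open Classical in
/-- one walker cut -/
lemma cut1 (h1 : ∀ b, 1 ≤ ht b) (hΛ : ∑' b, Λ b = 1) (i0 : ℕ) (η : ℝ≥0∞)
    (hη : ∀ a, ∑' L, (if fp ht a L ∧ a + i0 < HT ht L then LW Λ L else 0) ≤ η)
    (α T n : ℕ) (hn : α + i0 + T ≤ n) (φ : List B → ℝ≥0∞) (hφ : ∀ L, φ L ≤ 1)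
    (ψ : List B → List B → ℝ≥0∞)
    (hψ : ∀ A P R, fp ht α A → HT ht A ≤ α + i0 → fp ht T P → HT ht P ≤ T + i0 →
      HT ht (A ++ (P ++ R)) = n → φ (A ++ (P ++ R)) ≤ ψ A P) :
    ∑' L, (if HT ht L = n then LW Λ L * φ L else 0)
      ≤ 2 * η + ∑' A, ∑' P, (if (fp ht α A ∧ HT ht A ≤ α + i0) ∧ (fp ht T P ∧ HT ht P ≤ T + i0)
        then LW Λ A * LW Λ P * ψ A P else 0) := by
  set f : List B → ℝ≥0∞ := fun L => if HT ht L = n then φ L else 0 with hf
  have e0 : ∑' L, (if HT ht L = n then LW Λ L * φ L else 0)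
      = ∑' L, (if α ≤ HT ht L then LW Λ L * f L else 0) := by
    refine tsum_congr fun L => ?_
    by_cases h : HT ht L = n
    · rw [if_pos h, if_pos (by omega), hf]; simp only [if_pos h]
    · rw [if_neg h, hf]; simp only [if_neg h, mul_zero, ite_self]
  rw [e0, split Λ ht h1 α f]
  have hfle : ∀ L, f L ≤ 1 := fun L => by
    simp only [hf]; split_ifs
    · exact hφ L
    · exact zero_le'
  -- inner bound, any prefix
  have hin : ∀ (A : List B), ∑' L2, LW Λ L2 * f (A ++ L2) ≤ 1 := by
    intro A
    by_cases hA : HT ht A ≤ n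
    · refine sum_HT_le Λ ht h1 hΛ (n - HT ht A) 1 (fun L2 => f (A ++ L2)) (fun L _ => hfle _)
        fun L hL => ?_
      simp only [hf]
      rw [if_neg (by rw [HT_append]; omega)]
    · have : ∀ L2, LW Λ L2 * f (A ++ L2) = 0 := fun L2 => by
        simp only [hf]
        rw [if_neg (by rw [HT_append]; omega), mul_zero]
      rw [tsum_congr this, tsum_zero]; exact zero_le'
  have hP : ∀ A, fp ht α A → HT ht A ≤ α + i0 → ∑' L2, LW Λ L2 * f (A ++ L2) ≤ η + ∑' P,
      (if fp ht T P ∧ HT ht P ≤ T + i0 then LW Λ P * ψ A P else 0) := by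
    intro A hA hA'
    have e1 : ∑' L2, LW Λ L2 * f (A ++ L2) = ∑' L2, (if T ≤ HT ht L2 then LW Λ L2 * f (A ++ L2)
        else 0) := by
      refine tsum_congr fun L2 => ?_
      by_cases h : T ≤ HT ht L2
      · rw [if_pos h]
      · rw [if_neg h]
        simp only [hf]
        rw [if_neg (by rw [HT_append]; omega), mul_zero]
    rw [e1, split Λ ht h1 T (fun L => f (A ++ L))]
    calc ∑' P, (if fp ht T P then LW Λ P * ∑' R, LW Λ R * f (A ++ (P ++ R)) else 0)
        ≤ ∑' P, ((if fp ht T P ∧ T + i0 < HT ht P then LW Λ P else 0)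
          + (if fp ht T P ∧ HT ht P ≤ T + i0 then LW Λ P * ψ A P else 0)) := by
          refine ENNReal.tsum_le_tsum fun P => ?_
          by_cases hPf : fp ht T P
          · by_cases hPh : HT ht P ≤ T + i0
            · rw [if_pos hPf, if_neg (by rintro ⟨_, h⟩; omega), if_pos ⟨hPf, hPh⟩, zero_add]
              refine mul_le_mul_right ?_ _
              by_cases hn' : HT ht A + HT ht P ≤ n
              · refine sum_HT_le Λ ht h1 hΛ (n - HT ht A - HT ht P) _ _ (fun R hR => ?_)
                  fun R hR => ?_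
                · have hh : HT ht (A ++ (P ++ R)) = n := by
                    rw [HT_append, HT_append]; omega
                  simp only [hf]
                  rw [if_pos hh]
                  exact hψ A P R hA hA' hPf hPh hh
                · simp only [hf]
                  rw [if_neg (by rw [HT_append, HT_append]; omega)]
              · have : ∀ R, LW Λ R * f (A ++ (P ++ R)) = 0 := fun R => by
                  simp only [hf]
                  rw [if_neg (by rw [HT_append, HT_append]; omega), mul_zero]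
                rw [tsum_congr this, tsum_zero]; exact zero_le'
            · rw [if_pos hPf, if_pos ⟨hPf, by omega⟩, if_neg (by rintro ⟨_, h⟩; omega), add_zero]
              calc LW Λ P * ∑' R, LW Λ R * f (A ++ (P ++ R)) ≤ LW Λ P * 1 := by
                    refine mul_le_mul_right ?_ _
                    have := hin (A ++ P)
                    simpa only [List.append_assoc] using this
                _ = LW Λ P := mul_one _
          · rw [if_neg hPf]; exact zero_le'
      _ ≤ η + _ := by
          rw [ENNReal.tsum_add]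
          exact add_le_add_left (hη T) _
  calc ∑' A, (if fp ht α A then LW Λ A * ∑' L2, LW Λ L2 * f (A ++ L2) else 0)
      ≤ ∑' A, ((if fp ht α A ∧ α + i0 < HT ht A then LW Λ A else 0)
        + ((if fp ht α A then LW Λ A else 0) * η + ∑' P, (if (fp ht α A ∧ HT ht A ≤ α + i0) ∧
          (fp ht T P ∧ HT ht P ≤ T + i0) then LW Λ A * LW Λ P * ψ A P else 0))) := by
        refine ENNReal.tsum_le_tsum fun A => ?_
        by_cases hA : fp ht α A
        · by_cases hA' : HT ht A ≤ α + i0
          · rw [if_pos hA, if_neg (by rintro ⟨_, h⟩; omega), if_pos hA, zero_add]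
            calc LW Λ A * ∑' L2, LW Λ L2 * f (A ++ L2) ≤ LW Λ A * (η + ∑' P,
                  (if fp ht T P ∧ HT ht P ≤ T + i0 then LW Λ P * ψ A P else 0)) :=
                  mul_le_mul_right (hP A hA hA') _
              _ = _ := by
                  rw [mul_add, ← ENNReal.tsum_mul_left]
                  congr 1
                  refine tsum_congr fun P => ?_
                  by_cases hPP : fp ht T P ∧ HT ht P ≤ T + i0
                  · rw [if_pos hPP, if_pos ⟨⟨hA, hA'⟩, hPP⟩, mul_assoc]
                  · rw [if_neg hPP, if_neg (fun h => hPP h.2), mul_zero]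
          · rw [if_pos hA, if_pos ⟨hA, by omega⟩]
            calc LW Λ A * ∑' L2, LW Λ L2 * f (A ++ L2) ≤ LW Λ A * 1 :=
                  mul_le_mul_right (hin A) _
              _ = LW Λ A := mul_one _
              _ ≤ _ := le_self_add
        · rw [if_neg hA]; exact zero_le'
    _ ≤ η + (1 * η + _) := by
        rw [ENNReal.tsum_add, ENNReal.tsum_add, ENNReal.tsum_mul_right]
        refine add_le_add (hη α) (add_le_add (mul_le_mul_left (sum_FP Λ ht h1 hΛ.le α) _) le_rfl)
    _ = _ := by rw [one_mul, ← add_assoc, two_mul]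

end one

end Crest.Agent.R154.Asm354
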