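import Crest.Agent.R154.B5Rec_566
import Crest.Agent.R154.Dens_616

/-! Row 154, ROAD 801, assembly (helper366), part A: first passage lists, traces. -/

set_option autoImplicit false

namespace Crest.Agent.R154.Asm366

open scoped ENNReal
open Crest.Agent.R154.B5A

variable {B G : Type*}

/-- first passage lists: minimal lists of height `≥ a` -/
def FP (h : B → ℕ) : List B → ℕ → Prop
  | [], a => a = 0
  | b :: P, a => a ≠ 0 ∧ FP h P (a - h b)

lemma FP_nil (h : B → ℕ) (a : ℕ) : FP h [] a ↔ a = 0 := Iff.rfl

lemma FP_cons (h : B → ℕ) (b : B) (P : List B) (a : ℕ) :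
    FP h (b :: P) a ↔ a ≠ 0 ∧ FP h P (a - h b) := Iff.rfl

lemma FP_zero (h : B → ℕ) (P : List B) : FP h P 0 ↔ P = [] := by
  cases P with
  | nil => simp [FP_nil]
  | cons b P => simp [FP_cons]

lemma le_HT_of_FP (h : B → ℕ) (P : List B) (a : ℕ) (hP : FP h P a) : a ≤ HT h P := by
  induction P generalizing a with
  | nil => rw [FP_nil] at hP; omega
  | cons b P ih => rw [FP_cons] at hP; have := ih _ hP.2; rw [HT_cons]; omega

lemma FP_of_HT (h : B → ℕ) (h1 : ∀ b, 1 ≤ h b) (P : List B) (a : ℕ) (hP : HT h P = a) :
    FP h P a := by
  induction P generalizing a with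
  | nil => rw [FP_nil, ← hP, HT_nil]
  | cons b P ih =>
    rw [HT_cons] at hP
    rw [FP_cons]
    exact ⟨by have := h1 b; omega, ih _ (by omega)⟩

open Classical in
lemma split_eq (h : B → ℕ) (h1 : ∀ b, 1 ≤ h b) (a : ℕ) (F : List B → ℝ≥0∞) :
    ∑' L : List B, (if a ≤ HT h L then F L else 0)
      = ∑' P : List B, ∑' R : List B, if FP h P a then F (P ++ R) else 0 := by
  induction a using Nat.strong_induction_on generalizing F with
  | _ a ih =>
    rcases Nat.eq_zero_or_pos a with rfl | ha
    · simp only [Nat.zero_le, if_true, FP_zero]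
      symm
      rw [tsum_eq_single ([] : List B)]
      · simp
      · intro P hP; simp [hP]
    · rw [tsum_list, tsum_list (fun P => ∑' R : List B, if FP h P a then F (P ++ R) else 0)]
      have e1 : ¬ a ≤ HT h ([] : List B) := by rw [HT_nil]; omega
      have e2 : ¬ FP h ([] : List B) a := by rw [FP_nil]; omega
      simp only [if_neg e1, if_neg e2, tsum_zero, zero_add]
      refine tsum_congr fun b => ?_
      have hb := h1 b
      have := ih (a - h b) (by omega) (fun L => F (b :: L))
      simp only [FP_cons, HT_cons, List.cons_append]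
      calc ∑' L : List B, (if a ≤ h b + HT h L then F (b :: L) else 0)
          = ∑' L : List B, (if a - h b ≤ HT h L then F (b :: L) else 0) := by
            refine tsum_congr fun L => ?_
            by_cases hh : a ≤ h b + HT h L
            · rw [if_pos hh, if_pos (by omega)]
            · rw [if_neg hh, if_neg (by omega)]
        _ = _ := this
        _ = _ := by
            refine tsum_congr fun P => tsum_congr fun R => ?_
            by_cases hh : FP h P (a - h b)
            · rw [if_pos hh, if_pos ⟨by omega, hh⟩]
            · rw [if_neg hh, if_neg (fun h' => hh h'.2)]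

open Classical in
lemma mass_FP (Λ : B → ℝ≥0∞) (hΛ : ∑' b, Λ b = 1) (h : B → ℕ) (h1 : ∀ b, 1 ≤ h b) (a : ℕ) :
    ∑' P : List B, (if FP h P a then LW Λ P else 0) = 1 := by
  induction a using Nat.strong_induction_on with
  | _ a ih =>
    rcases Nat.eq_zero_or_pos a with rfl | ha
    · simp only [FP_zero]
      rw [tsum_eq_single ([] : List B)]
      · simp [LW_nil]
      · intro P hP; simp [hP]
    · rw [tsum_list]
      have e2 : ¬ FP h ([] : List B) a := by rw [FP_nil]; omega
      rw [if_neg e2, zero_add]
      calc _ = ∑' b, Λ b * 1 := by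
            refine tsum_congr fun b => ?_
            rw [← ih (a - h b) (by have := h1 b; omega), ← ENNReal.tsum_mul_left]
            refine tsum_congr fun P => ?_
            simp only [FP_cons, LW_cons]
            by_cases hh : FP h P (a - h b)
            · rw [if_pos hh, if_pos ⟨by omega, hh⟩]
            · rw [if_neg hh, if_neg (fun h' => hh h'.2), mul_zero]
        _ = 1 := by simpa using hΛ

/-- the overshoot bound -/
noncomputable def ep (Λ : B → ℝ≥0∞) (h : B → ℕ) (i0 : ℕ) : ℝ≥0∞ := ∑' k, tail Λ h (i0 + k)

open Classical in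
lemma over_aux (Λ : B → ℝ≥0∞) (h : B → ℕ) (h1 : ∀ b, 1 ≤ h b) (i0 a : ℕ) :
    ∑' P : List B, (if FP h P a ∧ a + i0 < HT h P then LW Λ P else 0)
      ≤ ∑ r ∈ Finset.range a, U Λ h r * tail Λ h (a + i0 - r) := by
  induction a using Nat.strong_induction_on with
  | _ a ih =>
    rcases Nat.eq_zero_or_pos a with rfl | ha
    · simp only [FP_zero, Finset.range_zero, Finset.sum_empty, nonpos_iff_eq_zero]
      rw [ENNReal.tsum_eq_zero]
      intro P
      rw [if_neg]
      rintro ⟨rfl, h2⟩
      rw [HT_nil] at h2; omega
    · rw [tsum_list]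
      have e2 : ¬ (FP h ([] : List B) a ∧ a + i0 < HT h ([] : List B)) := by
        rw [FP_nil]; omega
      rw [if_neg e2, zero_add]
      -- the block `b` ends beyond `a` or not
      have step : ∀ b, ∑' P : List B,
          (if FP h (b :: P) a ∧ a + i0 < HT h (b :: P) then LW Λ (b :: P) else 0)
          ≤ (if a + i0 < h b then Λ b else 0) +
            Λ b * ∑ r ∈ Finset.range (a - h b), U Λ h r * tail Λ h (a - h b + i0 - r) := by
        intro b
        have hb := h1 b
        by_cases hab : h b < a
        · refine le_add_left ?_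
          refine le_trans ?_ (mul_le_mul_right (ih (a - h b) (by omega)) _)
          rw [← ENNReal.tsum_mul_left]
          refine ENNReal.tsum_le_tsum fun P => ?_
          simp only [FP_cons, LW_cons, HT_cons]
          by_cases hh : FP h P (a - h b) ∧ a - h b + i0 < HT h P
          · rw [if_pos hh]; split_ifs <;> simp
          · rw [if_neg hh, if_neg, mul_zero]
            rintro ⟨⟨_, h3⟩, h4⟩
            exact hh ⟨h3, by omega⟩
        · refine le_add_right ?_
          have e0 : a - h b = 0 := by omega
          rw [tsum_eq_single (β := List B) []]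
          · simp only [FP_cons, e0, FP_zero, LW_cons, LW_nil, mul_one, HT_cons, HT_nil, add_zero]
            by_cases h5 : a + i0 < h b
            · rw [if_pos h5]; split_ifs <;> simp
            · rw [if_neg h5, if_neg (fun h6 => h5 h6.2)]
          · intro P hP
            rw [if_neg]
            rintro ⟨h3, _⟩
            rw [FP_cons, e0, FP_zero] at h3
            exact hP h3.2
      refine (ENNReal.tsum_le_tsum step).trans ?_
      rw [ENNReal.tsum_add]
      obtain ⟨a', rfl⟩ : ∃ a', a = a' + 1 := ⟨a - 1, by omega⟩
      rw [Finset.sum_range_succ', U_zero Λ h h1, one_mul, Nat.sub_zero, add_comm]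
      refine add_le_add ?_ le_rfl
      -- the renewal equation for `U`
      have hU : ∀ r, U Λ h (r + 1) = ∑' b, (if h b ≤ r + 1 then Λ b * U Λ h (r + 1 - h b) else 0) := by
        intro r
        rw [U, tsum_list]
        simp only [HT_nil, HT_cons, LW_cons]
        rw [if_neg (by omega), zero_add]
        refine tsum_congr fun b => ?_
        by_cases hb : h b ≤ r + 1
        · rw [if_pos hb, U, ← ENNReal.tsum_mul_left]
          refine tsum_congr fun L => ?_
          by_cases hh : h b + HT h L = r + 1
          · rw [if_pos hh, if_pos (by omega)]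
          · rw [if_neg hh, if_neg (by omega), mul_zero]
        · rw [if_neg hb, ENNReal.tsum_eq_zero]
          intro L
          rw [if_neg (by omega)]
      calc ∑' b, Λ b * ∑ r ∈ Finset.range (a' + 1 - h b), U Λ h r * tail Λ h (a' + 1 - h b + i0 - r)
          = ∑' b, ∑ r ∈ Finset.range a', (if h b ≤ r + 1 then Λ b * U Λ h (r + 1 - h b) else 0)
              * tail Λ h (a' + 1 + i0 - (r + 1)) := by
            refine tsum_congr fun b => ?_
            have hb := h1 b
            rw [Finset.mul_sum]
            -- shift `r ↦ r + h b - 1`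
            have himg : ∑ r ∈ Finset.range a', (if h b ≤ r + 1 then Λ b * U Λ h (r + 1 - h b) else 0)
              * tail Λ h (a' + 1 + i0 - (r + 1)) = ∑ r ∈ (Finset.range a').filter (fun r => h b ≤ r + 1),
              (Λ b * U Λ h (r + 1 - h b)) * tail Λ h (a' + 1 + i0 - (r + 1)) := by
              rw [Finset.sum_filter]
              refine Finset.sum_congr rfl fun r _ => ?_
              split_ifs <;> simp
            rw [himg]
            refine Finset.sum_bij (fun r _ => r + h b - 1) ?_ ?_ ?_ ?_
            · intro r hr
              have := Finset.mem_range.1 hr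
              rw [Finset.mem_filter, Finset.mem_range]; omega
            · intro r _ r' _ he
              omega
            · intro r hr
              rw [Finset.mem_filter, Finset.mem_range] at hr
              exact ⟨r + 1 - h b, Finset.mem_range.2 (by omega), by omega⟩
            · intro r hr
              have := Finset.mem_range.1 hr
              rw [show r + h b - 1 + 1 - h b = r by omega,
                show a' + 1 + i0 - (r + h b - 1 + 1) = a' + 1 - h b + i0 - r by omega]
              ring
        _ = ∑ r ∈ Finset.range a', ∑' b, (if h b ≤ r + 1 then Λ b * U Λ h (r + 1 - h b) else 0)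
              * tail Λ h (a' + 1 + i0 - (r + 1)) := by
            rw [Summable.tsum_finsetSum (fun _ _ => ENNReal.summable)]
        _ ≤ _ := by
            refine Finset.sum_le_sum fun r _ => ?_
            rw [ENNReal.tsum_mul_right, ← hU]

open Classical in
lemma overshoot (Λ : B → ℝ≥0∞) (h : B → ℕ) (h1 : ∀ b, 1 ≤ h b) (hU : ∀ n, U Λ h n ≤ 1) (i0 a : ℕ) :
    ∑' P : List B, (if FP h P a ∧ a + i0 < HT h P then LW Λ P else 0) ≤ ep Λ h i0 := by
  refine (over_aux Λ h h1 i0 a).trans ?_
  calc ∑ r ∈ Finset.range a, U Λ h r * tail Λ h (a + i0 - r)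
      ≤ ∑ r ∈ Finset.range a, tail Λ h (i0 + (a - 1 - r + 1)) := by
        refine Finset.sum_le_sum fun r hr => ?_
        have := Finset.mem_range.1 hr
        rw [show a + i0 - r = i0 + (a - 1 - r + 1) by omega]
        exact mul_le_of_le_one_left (zero_le) (hU r)
    _ = ∑ r ∈ Finset.range a, tail Λ h (i0 + (r + 1)) := by
        rw [← Finset.sum_range_reflect (fun r => tail Λ h (i0 + (r + 1)))]
    _ ≤ ∑' k, tail Λ h (i0 + (k + 1)) := ENNReal.sum_le_tsum _
    _ ≤ ep Λ h i0 := by
        rw [ep]
        exact ENNReal.tsum_comp_le_tsum_of_injective (f := fun k => k + 1)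
          (fun a b h => by simpa using h) (fun k => tail Λ h (i0 + k))

end Crest.Agent.R154.Asm366
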