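import Crest.Agent.R154.FP_178
import Crest.Agent.R154.Gap_583

/-! Row 154, ROAD 801 (helper368): abstract assembly, part A: first passage law, smooth part. -/

set_option autoImplicit false

namespace Crest.Agent.R154.Asm368

open scoped ENNReal
open Crest.Agent.R154.B5A Crest.Agent.R154.FP178

variable {B G : Type*} [AddCommGroup G]

/-- displacement -/
def Dp (z : B → G) (L : List B) : G := (L.map z).sum

lemma Dp_nil (z : B → G) : Dp z [] = 0 := by simp [Dp]
lemma Dp_append (z : B → G) (L L' : List B) : Dp z (L ++ L') = Dp z L + Dp z L' := by simp [Dp]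

/-- pushforward of a weighted sum -/
lemma push {A V : Type*} (w : A → ℝ≥0∞) (g : A → V) (Ψ : V → ℝ≥0∞) [DecidableEq V] :
    ∑' a, w a * Ψ (g a) = ∑' v, (∑' a, if g a = v then w a else 0) * Ψ v := by
  have h1 : ∀ v, (∑' a, if g a = v then w a else 0) * Ψ v
      = ∑' a, if g a = v then w a * Ψ v else 0 := by
    intro v
    rw [← ENNReal.tsum_mul_right]
    refine tsum_congr fun a => ?_
    by_cases h : g a = v <;> simp [h]
  rw [tsum_congr h1, ENNReal.tsum_comm]
  refine tsum_congr fun a => ?_
  rw [tsum_eq_single (g a)]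
  · simp
  · intro v hv
    rw [if_neg (Ne.symm hv)]

variable (Λ : B → ℝ≥0∞) (ht : B → ℕ) (z : B → G)

open Classical in
/-- first passage law: overshoot and displacement -/
noncomputable def V (a : ℕ) (v : ℕ × G) : ℝ≥0∞ :=
  ∑' A : List B, if fp ht a A ∧ HT ht A = a + v.1 ∧ Dp z A = v.2 then LW Λ A else 0

open Classical in
/-- sums over first passages only depending on height and displacement -/
lemma sum_fp_push (a : ℕ) (Ψ : ℕ × G → ℝ≥0∞) :
    ∑' A : List B, (if fp ht a A then LW Λ A * Ψ (HT ht A - a, Dp z A) else 0)
      = ∑' v, V Λ ht z a v * Ψ v := by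
  have h := push (fun A : List B => if fp ht a A then LW Λ A else 0)
    (fun A => (HT ht A - a, Dp z A)) Ψ
  have e1 : ∀ A : List B, (if fp ht a A then LW Λ A * Ψ (HT ht A - a, Dp z A) else 0)
      = (if fp ht a A then LW Λ A else 0) * Ψ (HT ht A - a, Dp z A) := by
    intro A; by_cases hA : fp ht a A <;> simp [hA]
  rw [tsum_congr e1, h]
  refine tsum_congr fun v => ?_
  congr 1
  refine tsum_congr fun A => ?_
  by_cases hA : fp ht a A
  · have := le_HT_of_fp ht hA
    by_cases hv : (HT ht A - a, Dp z A) = v
    · rw [if_pos hv, if_pos hA, if_pos]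
      refine ⟨hA, ?_, ?_⟩
      · rw [← hv]; simp only; omega
      · rw [← hv]
    · rw [if_neg hv, if_neg]
      rintro ⟨_, h2, h3⟩
      apply hv
      exact Prod.ext (by simp only; omega) h3
  · simp [hA]

open Classical in
lemma V_sum (h1 : ∀ b, 1 ≤ ht b) (hΛ : ∑' b, Λ b ≤ 1) (a : ℕ) : ∑' v, V Λ ht z a v ≤ 1 := by
  have h := sum_fp_push Λ ht z a (fun _ => 1)
  simp only [mul_one] at h
  rw [← h]
  exact sum_FP Λ ht h1 hΛ a

open Classical in
/-- one attempt -/
lemma V_rec (h1 : ∀ b, 1 ≤ ht b) (T a : ℕ) (hT : T ≤ a) (v : ℕ × G) :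
    V Λ ht z a v = ∑' P : List B, (if fp ht T P then LW Λ P *
      ∑' L : List B, (if fp ht (a - HT ht P) L then LW Λ L *
        (if HT ht P + HT ht L = a + v.1 ∧ Dp z P + Dp z L = v.2 then 1 else 0) else 0) else 0) := by
  have h := fp_split Λ ht h1 T a hT (fun L => if HT ht L = a + v.1 ∧ Dp z L = v.2 then 1 else 0)
  have e1 : V Λ ht z a v = ∑' L : List B, (if fp ht a L then LW Λ L *
      (if HT ht L = a + v.1 ∧ Dp z L = v.2 then 1 else 0) else 0) := by
    refine tsum_congr fun A => ?_
    by_cases hA : fp ht a A <;> by_cases hB : HT ht A = a + v.1 ∧ Dp z A = v.2 <;> simp [hA, hB]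
  rw [e1, h]
  refine tsum_congr fun P => ?_
  simp only [HT_append, Dp_append]

open Classical in
lemma V_rec_in (a : ℕ) (P : List B) (hP : HT ht P ≤ a) (v : ℕ × G) :
    ∑' L : List B, (if fp ht (a - HT ht P) L then LW Λ L *
        (if HT ht P + HT ht L = a + v.1 ∧ Dp z P + Dp z L = v.2 then 1 else 0) else 0)
      = V Λ ht z (a - HT ht P) (v.1, v.2 - Dp z P) := by
  refine tsum_congr fun L => ?_
  have e : (HT ht P + HT ht L = a + v.1 ∧ Dp z P + Dp z L = v.2)
      ↔ (HT ht L = a - HT ht P + v.1 ∧ Dp z L = v.2 - Dp z P) := by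
    constructor
    · rintro ⟨h2, h3⟩
      exact ⟨by omega, by rw [← h3]; abel⟩
    · rintro ⟨h2, h3⟩
      exact ⟨by omega, by rw [h3]; abel⟩
  by_cases hA : fp ht (a - HT ht P) L
  · by_cases hB : HT ht L = a - HT ht P + v.1 ∧ Dp z L = v.2 - Dp z P
    · rw [if_pos hA, if_pos (e.2 hB), if_pos ⟨hA, hB⟩, mul_one]
    · rw [if_pos hA, if_neg (fun h => hB (e.1 h)), if_neg (fun h => hB h.2), mul_zero]
  · rw [if_neg hA, if_neg (fun h => hA h.1)]

lemma tsum_shift (f : ℕ × G → ℝ≥0∞) (y : G) :
    ∑' v : ℕ × G, f (v.1, v.2 - y) = ∑' v, f v :=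
  ((Equiv.refl ℕ).prodCongr (Equiv.subRight y)).tsum_eq f

/-- a fixed first coordinate -/
lemma tsum_fix_le (f : ℕ × G → ℝ≥0∞) (i : ℕ) : ∑' y : G, f (i, y) ≤ ∑' v, f v :=
  ENNReal.tsum_comp_le_tsum_of_injective (f := fun y : G => (i, y))
    (fun _ _ h => (Prod.mk.inj h).2) f

open Classical in
/-- **smooth part** -/
theorem smooth (h1 : ∀ b, 1 ≤ ht b) (hΛ : ∑' b, Λ b ≤ 1) (T i0 : ℕ) (th q ε Gm : ℝ≥0∞)
    (hε : ∑' P : List B, (if fp ht T P ∧ T + i0 < HT ht P then LW Λ P else 0) ≤ ε)
    (hq : ∑' v : ℕ × G, (if th < V Λ ht z T v then V Λ ht z T v else 0) ≤ q) (hq1 : q ≤ 1)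
    (hG : (i0 + 1 : ℕ) * th + q * Gm ≤ Gm) :
    ∀ J a, J * (T + i0) ≤ a → ∃ b : ℕ × G → ℝ≥0∞, (∑' v, b v ≤ q ^ J + J * ε) ∧
      ∀ v, V Λ ht z a v ≤ Gm + b v := by
  intro J
  induction J with
  | zero =>
    intro a _
    refine ⟨V Λ ht z a, ?_, fun v => le_add_left le_rfl⟩
    simpa using V_sum Λ ht z h1 hΛ a
  | succ J ih =>
    intro a ha
    have haT : T + i0 ≤ a := by nlinarith
    have hJ : ∀ k, k ≤ T + i0 → J * (T + i0) ≤ a - k := by
      intro k hk
      have : (J + 1) * (T + i0) = J * (T + i0) + (T + i0) := by ring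
      omega
    choose bb hbb using fun k : {k // k ≤ T + i0} => ih (a - k.1) (hJ k.1 k.2)
    set W : List B → ℕ × G → ℝ≥0∞ := fun P v =>
      ∑' L : List B, (if fp ht (a - HT ht P) L then LW Λ L *
        (if HT ht P + HT ht L = a + v.1 ∧ Dp z P + Dp z L = v.2 then 1 else 0) else 0) with hW
    have hWin : ∀ P, HT ht P ≤ T + i0 → ∀ v, W P v = V Λ ht z (a - HT ht P) (v.1, v.2 - Dp z P) :=
      fun P hP v => V_rec_in Λ ht z a P (hP.trans haT) v
    set Pv : List B → ℕ × G := fun P => (HT ht P - T, Dp z P) with hPv
    -- classes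
    let far : List B → Prop := fun P => T + i0 < HT ht P
    let big : List B → Prop := fun P => HT ht P ≤ T + i0 ∧ th < V Λ ht z T (Pv P)
    set e : ℕ × G → ℝ≥0∞ := fun v =>
      ∑' P : List B, (if fp ht T P ∧ T + i0 < HT ht P then LW Λ P * W P v else 0) with he
    set bg : ℕ × G → ℝ≥0∞ := fun v =>
      ∑' P : List B, (if h : fp ht T P ∧ HT ht P ≤ T + i0 ∧ th < V Λ ht z T (Pv P) then
        LW Λ P * bb ⟨HT ht P, h.2.1⟩ (v.1, v.2 - Dp z P) else 0) with hbg
    have hmass : ∑' P : List B, (if fp ht T P ∧ HT ht P ≤ T + i0 ∧ th < V Λ ht z T (Pv P) then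
        LW Λ P else 0) ≤ q := by
      calc ∑' P : List B, (if fp ht T P ∧ HT ht P ≤ T + i0 ∧ th < V Λ ht z T (Pv P) then
            LW Λ P else 0)
          ≤ ∑' P : List B, (if fp ht T P then LW Λ P *
              (fun v => if th < V Λ ht z T v then (1 : ℝ≥0∞) else 0) (HT ht P - T, Dp z P)
              else 0) := by
            refine ENNReal.tsum_le_tsum fun P => ?_
            by_cases h : fp ht T P ∧ HT ht P ≤ T + i0 ∧ th < V Λ ht z T (Pv P)
            · rw [if_pos h, if_pos h.1]
              simp only
              rw [if_pos h.2.2, mul_one]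
            · rw [if_neg h]; exact zero_le
        _ = ∑' v, V Λ ht z T v * (if th < V Λ ht z T v then (1 : ℝ≥0∞) else 0) :=
            sum_fp_push Λ ht z T (fun v => if th < V Λ ht z T v then (1 : ℝ≥0∞) else 0)
        _ ≤ q := by
            refine le_trans (le_of_eq (tsum_congr fun v => ?_)) hq
            by_cases h : th < V Λ ht z T v <;> simp [h]
    refine ⟨fun v => e v + bg v, ?_, ?_⟩
    · rw [ENNReal.tsum_add]
      have he1 : ∑' v, e v ≤ ε := by
        rw [he, ENNReal.tsum_comm]
        refine le_trans (ENNReal.tsum_le_tsum fun P => ?_) hε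
        by_cases h : fp ht T P ∧ T + i0 < HT ht P
        · simp only [if_pos h]
          rw [ENNReal.tsum_mul_left]
          have : ∑' v, W P v ≤ 1 := by
            rw [hW, ENNReal.tsum_comm]
            refine le_trans (ENNReal.tsum_le_tsum (g := fun L =>
              if fp ht (a - HT ht P) L then LW Λ L else 0) fun L => ?_) (sum_FP Λ ht h1 hΛ _)
            by_cases hL : fp ht (a - HT ht P) L
            · simp only [if_pos hL]
              rw [ENNReal.tsum_mul_left]
              have h5 : ∑' v : ℕ × G, (if HT ht P + HT ht L = a + v.1 ∧ Dp z P + Dp z L = v.2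
                  then (1 : ℝ≥0∞) else 0) ≤ 1 := by
                by_cases ha2 : a ≤ HT ht P + HT ht L
                · rw [tsum_eq_single (HT ht P + HT ht L - a, Dp z P + Dp z L)]
                  · split_ifs <;> simp
                  · intro v hv
                    rw [if_neg]
                    rintro ⟨h6, h7⟩
                    apply hv
                    ext1
                    · simp only; omega
                    · simp only; exact h7.symm
                · have : ∀ v : ℕ × G, (if HT ht P + HT ht L = a + v.1 ∧ Dp z P + Dp z L = v.2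
                      then (1 : ℝ≥0∞) else 0) = 0 := by
                    intro v
                    rw [if_neg]
                    rintro ⟨h6, _⟩
                    omega
                  simp [this]
              calc LW Λ L * _ ≤ LW Λ L * 1 := mul_le_mul_right h5 _
                _ = _ := mul_one _
            · simp [hL]
          calc LW Λ P * ∑' v, W P v ≤ LW Λ P * 1 := mul_le_mul_right this _
            _ = _ := mul_one _
        · simp [h]
      have hb1 : ∑' v, bg v ≤ q * (q ^ J + J * ε) := by
        rw [hbg, ENNReal.tsum_comm]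
        calc ∑' P : List B, ∑' v : ℕ × G, (if h : fp ht T P ∧ HT ht P ≤ T + i0 ∧
              th < V Λ ht z T (Pv P) then
              LW Λ P * bb ⟨HT ht P, h.2.1⟩ (v.1, v.2 - Dp z P) else 0)
            ≤ ∑' P : List B, (if fp ht T P ∧ HT ht P ≤ T + i0 ∧ th < V Λ ht z T (Pv P) then
              LW Λ P else 0) * (q ^ J + J * ε) := by
              refine ENNReal.tsum_le_tsum fun P => ?_
              by_cases h : fp ht T P ∧ HT ht P ≤ T + i0 ∧ th < V Λ ht z T (Pv P)
              · simp only [dif_pos h, if_pos h]
                rw [ENNReal.tsum_mul_left]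
                refine mul_le_mul_right ?_ _
                rw [tsum_shift (bb ⟨HT ht P, h.2.1⟩) (Dp z P)]
                exact (hbb ⟨HT ht P, h.2.1⟩).1
              · simp [h]
          _ = _ := ENNReal.tsum_mul_right
          _ ≤ q * (q ^ J + J * ε) := mul_le_mul_left hmass _
      calc ∑' v, e v + ∑' v, bg v ≤ ε + q * (q ^ J + J * ε) := add_le_add he1 hb1
        _ = q ^ (J + 1) + (ε + q * (J * ε)) := by ring
        _ ≤ q ^ (J + 1) + (ε + 1 * (J * ε)) := by gcongr
        _ = q ^ (J + 1) + (J + 1 : ℕ) * ε := by push_cast; ring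
    · intro v
      rw [V_rec Λ ht z h1 T a (by omega) v]
      -- split in three classes
      have hpt : ∀ P : List B, (if fp ht T P then LW Λ P * W P v else 0)
          ≤ (if fp ht T P ∧ T + i0 < HT ht P then LW Λ P * W P v else 0)
            + ((if fp ht T P ∧ HT ht P ≤ T + i0 ∧ th < V Λ ht z T (Pv P) then LW Λ P else 0) * Gm
              + (if h : fp ht T P ∧ HT ht P ≤ T + i0 ∧ th < V Λ ht z T (Pv P) then
                  LW Λ P * bb ⟨HT ht P, h.2.1⟩ (v.1, v.2 - Dp z P) else 0))
            + (if fp ht T P then LW Λ P * (fun x : ℕ × G =>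
                if x.1 ≤ i0 ∧ V Λ ht z T x ≤ th then
                  V Λ ht z (a - (T + x.1)) (v.1, v.2 - x.2) else 0) (HT ht P - T, Dp z P)
                else 0) := by
        intro P
        by_cases hfp : fp ht T P
        · have hTP := le_HT_of_fp ht hfp
          by_cases hfar : T + i0 < HT ht P
          · rw [if_pos hfp, if_pos (⟨hfp, hfar⟩ : fp ht T P ∧ T + i0 < HT ht P)]
            exact le_add_right (le_add_right le_rfl)
          · have hle : HT ht P ≤ T + i0 := not_lt.1 hfar
            by_cases hbig : th < V Λ ht z T (Pv P)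
            · have h := (⟨hfp, hle, hbig⟩ : fp ht T P ∧ HT ht P ≤ T + i0 ∧
                th < V Λ ht z T (Pv P))
              rw [if_pos hfp, if_pos h, dif_pos h, hWin P hle v]
              refine le_add_right (le_add_left ?_)
              rw [← mul_add]
              exact mul_le_mul_right ((hbb ⟨HT ht P, hle⟩).2 _) _
            · rw [if_pos hfp, if_pos hfp, hWin P hle v]
              refine le_add_left ?_
              simp only
              rw [if_pos ⟨by omega, not_lt.1 hbig⟩]
              rw [show T + (HT ht P - T) = HT ht P by omega]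
        · simp [hfp]
      calc _ ≤ _ := ENNReal.tsum_le_tsum hpt
        _ = e v + (∑' P : List B, (if fp ht T P ∧ HT ht P ≤ T + i0 ∧ th < V Λ ht z T (Pv P)
              then LW Λ P else 0) * Gm + bg v)
            + ∑' x : ℕ × G, V Λ ht z T x * (fun x : ℕ × G =>
                if x.1 ≤ i0 ∧ V Λ ht z T x ≤ th then
                  V Λ ht z (a - (T + x.1)) (v.1, v.2 - x.2) else 0) x := by
            rw [ENNReal.tsum_add, ENNReal.tsum_add, ENNReal.tsum_add]
            congr 1
            exact sum_fp_push Λ ht z T (fun x : ℕ × G =>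
                if x.1 ≤ i0 ∧ V Λ ht z T x ≤ th then
                  V Λ ht z (a - (T + x.1)) (v.1, v.2 - x.2) else 0)
        _ ≤ e v + (q * Gm + bg v) + (i0 + 1 : ℕ) * th := by
            refine add_le_add (add_le_add le_rfl (add_le_add ?_ le_rfl)) ?_
            · rw [ENNReal.tsum_mul_right]
              exact mul_le_mul_left hmass _
            · simp only
              rw [ENNReal.tsum_prod']
              calc ∑' i : ℕ, ∑' y : G, V Λ ht z T (i, y) *
                    (if i ≤ i0 ∧ V Λ ht z T (i, y) ≤ th then
                      V Λ ht z (a - (T + i)) (v.1, v.2 - y) else 0)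
                  ≤ ∑' i : ℕ, (if i ≤ i0 then th else 0) := by
                    refine ENNReal.tsum_le_tsum fun i => ?_
                    by_cases hi : i ≤ i0
                    · rw [if_pos hi]
                      calc ∑' y : G, V Λ ht z T (i, y) *
                            (if i ≤ i0 ∧ V Λ ht z T (i, y) ≤ th then
                              V Λ ht z (a - (T + i)) (v.1, v.2 - y) else 0)
                          ≤ ∑' y : G, th * V Λ ht z (a - (T + i)) (v.1, v.2 - y) := by
                            refine ENNReal.tsum_le_tsum fun y => ?_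
                            by_cases hy : V Λ ht z T (i, y) ≤ th
                            · rw [if_pos ⟨hi, hy⟩]
                              exact mul_le_mul_left hy _
                            · rw [if_neg (fun h => hy h.2), mul_zero]; exact zero_le
                        _ = th * ∑' y : G, V Λ ht z (a - (T + i)) (v.1, y) := by
                            rw [ENNReal.tsum_mul_left]
                            congr 1
                            exact (Equiv.subLeft v.2).tsum_eq
                              (fun y => V Λ ht z (a - (T + i)) (v.1, y))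
                        _ ≤ th * 1 := by
                            refine mul_le_mul_right ?_ _
                            exact (tsum_fix_le _ _).trans (V_sum Λ ht z h1 hΛ _)
                        _ = th := mul_one _
                    · rw [if_neg hi]
                      simp [hi]
                _ = ∑ i ∈ Finset.range (i0 + 1), th := by
                    rw [tsum_eq_sum (s := Finset.range (i0 + 1))]
                    · refine Finset.sum_congr rfl fun i hi => ?_
                      rw [if_pos (by have := Finset.mem_range.1 hi; omega)]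
                    · intro i hi
                      rw [if_neg]
                      intro h
                      exact hi (Finset.mem_range.2 (by omega))
                _ = (i0 + 1 : ℕ) * th := by simp
        _ = ((i0 + 1 : ℕ) * th + q * Gm) + (e v + bg v) := by ring
        _ ≤ Gm + (e v + bg v) := by gcongr

end Crest.Agent.R154.Asm368
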