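import Crest.Agent.R154.FP_178
import Crest.Agent.R154.KU_823
import Crest.Agent.R154.Dens_616

/-! Row 154 (T0219, road 801), assembly, part A (helper380): single walker operators, cuts, density. -/

set_option autoImplicit false

namespace Crest.Agent.R154.Asm380

open scoped ENNReal
open Crest.Agent.R154.B5A Crest.Agent.R154.FP178

section one

variable {B : Type*} (Λ : B → ℝ≥0∞) (ht : B → ℕ)

open Classical in
/-- weight of a first passage list -/
noncomputable def q (a : ℕ) (L : List B) : ℝ≥0∞ := if fp ht a L then LW Λ L else 0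

lemma q_sum (h1 : ∀ b, 1 ≤ ht b) (hΛ : ∑' b, Λ b = 1) (a : ℕ) : ∑' L, q Λ ht a L = 1 := by
  classical
  induction a using Nat.strong_induction_on with
  | _ a ih =>
    rcases Nat.eq_zero_or_pos a with rfl | ha
    · have := sum_fp_zero Λ ht (fun _ => 1)
      simp only [mul_one] at this
      exact this
    · have := sum_fp_step Λ ht a ha (fun _ => 1)
      simp only [mul_one] at this
      rw [show ∑' L, q Λ ht a L = ∑' L, (if fp ht a L then LW Λ L else 0) from rfl, this]
      rw [← hΛ]
      refine tsum_congr fun b => ?_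
      have := ih (a - ht b) (by have := h1 b; omega)
      rw [show ∑' L, (if fp ht (a - ht b) L then LW Λ L else 0) = ∑' L, q Λ ht (a - ht b) L from rfl,
        this, mul_one]

lemma q_le (a : ℕ) (L : List B) : q Λ ht a L ≤ LW Λ L := by
  classical
  rw [q]; split_ifs
  · exact le_rfl
  · exact zero_le

lemma q_mul_le {a : ℕ} {F G : List B → ℝ≥0∞} (h : ∀ L, fp ht a L → F L ≤ G L) :
    ∑' L, q Λ ht a L * F L ≤ ∑' L, q Λ ht a L * G L := by
  classical
  refine ENNReal.tsum_le_tsum fun L => ?_
  by_cases hL : fp ht a L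
  · exact mul_le_mul_right (h L hL) _
  · rw [q, if_neg hL, zero_mul]; exact zero_le

lemma q_fp_split (h1 : ∀ b, 1 ≤ ht b) (τ a : ℕ) (hτ : τ ≤ a) (f : List B → ℝ≥0∞) :
    ∑' L, q Λ ht a L * f L
      = ∑' A, q Λ ht τ A * ∑' L, q Λ ht (a - HT ht A) L * f (A ++ L) := by
  classical
  have := fp_split Λ ht h1 τ a hτ f
  have e : ∀ (c : ℕ) (L : List B) (x : ℝ≥0∞), q Λ ht c L * x = if fp ht c L then LW Λ L * x else 0 := by
    intro c L x
    rw [q]; split_ifs <;> simp
  simp only [e]
  exact this

lemma q_split (h1 : ∀ b, 1 ≤ ht b) (a n : ℕ) (han : a ≤ n) (f : List B → ℝ≥0∞) :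
    ∑' L, (if HT ht L = n then LW Λ L * f L else 0)
      = ∑' A, q Λ ht a A * ∑' L, (if HT ht A + HT ht L = n then LW Λ L * f (A ++ L) else 0) := by
  classical
  have := split Λ ht h1 a (fun L => if HT ht L = n then f L else 0)
  have e1 : ∀ L, (if HT ht L = n then LW Λ L * f L else 0)
      = (if a ≤ HT ht L then LW Λ L * (if HT ht L = n then f L else 0) else 0) := by
    intro L
    by_cases h : HT ht L = n
    · rw [if_pos h, if_pos (by omega), if_pos h]
    · rw [if_neg h, if_neg h, mul_zero]; split_ifs <;> rfl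
  simp only [e1, this]
  refine tsum_congr fun A => ?_
  rw [q]
  split_ifs
  · congr 1
    refine tsum_congr fun L => ?_
    rw [HT_append]
    split_ifs <;> simp
  · rw [zero_mul]

/-- cut a list of height `n` at two first passages -/
lemma cut (h1 : ∀ b, 1 ≤ ht b) (hΛ : ∑' b, Λ b = 1) (hU1 : ∀ n, U Λ ht n ≤ 1) (e : ℝ≥0∞) (i0 : ℕ)
    (he : ∀ a, ∑' L, q Λ ht a L * (if a + i0 < HT ht L then 1 else 0) ≤ e)
    (n a T : ℕ) (hn : a + i0 + T ≤ n) (F : List B → ℝ≥0∞) (hF : ∀ L, F L ≤ 1)
    (G : List B → List B → ℝ≥0∞)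
    (hG : ∀ A P R, fp ht a A → HT ht A ≤ a + i0 → fp ht T P → HT ht P ≤ T + i0 →
      F (A ++ (P ++ R)) ≤ G A P) :
    ∑' L, (if HT ht L = n then LW Λ L * F L else 0)
      ≤ (∑' A, q Λ ht a A * ∑' P, q Λ ht T P * G A P) + 2 * e := by
  classical
  have hU : ∀ (h : ℕ) (f : List B → ℝ≥0∞), (∀ L, f L ≤ 1) →
      ∑' L, (if h + HT ht L = n then LW Λ L * f L else 0) ≤ 1 := by
    intro h f hf
    refine le_trans ?_ (hU1 (n - h))
    rw [U]
    refine ENNReal.tsum_le_tsum fun L => ?_
    by_cases hL : h + HT ht L = n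
    · rw [if_pos hL, if_pos (by omega)]
      exact mul_le_of_le_one_right' (hf L)
    · rw [if_neg hL]; exact zero_le
  rw [q_split Λ ht h1 a n (by omega) F]
  calc ∑' A, q Λ ht a A * ∑' L, (if HT ht A + HT ht L = n then LW Λ L * F (A ++ L) else 0)
      ≤ ∑' A, q Λ ht a A * ((∑' P, q Λ ht T P * G A P + e) + (if a + i0 < HT ht A then 1 else 0)) := by
        refine q_mul_le Λ ht fun A hA => ?_
        by_cases hA' : a + i0 < HT ht A
        · rw [if_pos hA']
          exact (hU _ _ (fun L => hF _)).trans le_add_self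
        · rw [if_neg hA', add_zero]
          have hs := q_split Λ ht h1 T (n - HT ht A) (by omega) (fun L => F (A ++ L))
          have e1 : ∑' L, (if HT ht A + HT ht L = n then LW Λ L * F (A ++ L) else 0)
              = ∑' L, (if HT ht L = n - HT ht A then LW Λ L * F (A ++ L) else 0) := by
            refine tsum_congr fun L => ?_
            by_cases h : HT ht A + HT ht L = n
            · rw [if_pos h, if_pos (by omega)]
            · rw [if_neg h, if_neg (by omega)]
          rw [e1, hs]
          calc ∑' P, q Λ ht T P * ∑' R, (if HT ht P + HT ht R = n - HT ht A then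
                  LW Λ R * F (A ++ (P ++ R)) else 0)
              ≤ ∑' P, q Λ ht T P * (G A P + (if T + i0 < HT ht P then 1 else 0)) := by
                refine q_mul_le Λ ht fun P hP => ?_
                have e2 : ∑' R, (if HT ht P + HT ht R = n - HT ht A then
                  LW Λ R * F (A ++ (P ++ R)) else 0)
                  = ∑' R, (if (HT ht A + HT ht P) + HT ht R = n then
                  LW Λ R * F (A ++ (P ++ R)) else 0) := by
                  refine tsum_congr fun R => ?_
                  by_cases h : HT ht P + HT ht R = n - HT ht A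
                  · rw [if_pos h, if_pos (by omega)]
                  · rw [if_neg h, if_neg (by omega)]
                rw [e2]
                by_cases hP' : T + i0 < HT ht P
                · rw [if_pos hP']
                  exact (hU _ _ (fun L => hF _)).trans le_add_self
                · rw [if_neg hP', add_zero]
                  calc ∑' R, (if (HT ht A + HT ht P) + HT ht R = n then
                        LW Λ R * F (A ++ (P ++ R)) else 0)
                      ≤ ∑' R, G A P * (if (HT ht A + HT ht P) + HT ht R = n then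
                        LW Λ R * 1 else 0) := by
                        refine ENNReal.tsum_le_tsum fun R => ?_
                        split_ifs
                        · rw [mul_comm, mul_one]
                          exact mul_le_mul_left (hG A P R hA (by omega) hP (by omega)) _
                        · simp
                    _ = G A P * ∑' R, (if (HT ht A + HT ht P) + HT ht R = n then
                        LW Λ R * 1 else 0) := ENNReal.tsum_mul_left
                    _ ≤ G A P * 1 := mul_le_mul_right (hU _ _ (fun _ => le_rfl)) _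
                    _ = G A P := mul_one _
            _ = ∑' P, q Λ ht T P * G A P
                + ∑' P, q Λ ht T P * (if T + i0 < HT ht P then 1 else 0) := by
                rw [← ENNReal.tsum_add]
                exact tsum_congr fun P => mul_add _ _ _
            _ ≤ ∑' P, q Λ ht T P * G A P + e := add_le_add le_rfl (he T)
    _ = (∑' A, q Λ ht a A * ∑' P, q Λ ht T P * G A P) + (∑' A, q Λ ht a A * e)
        + ∑' A, q Λ ht a A * (if a + i0 < HT ht A then 1 else 0) := by
        rw [← ENNReal.tsum_add, ← ENNReal.tsum_add]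
        exact tsum_congr fun A => by rw [mul_add, mul_add]
    _ ≤ (∑' A, q Λ ht a A * ∑' P, q Λ ht T P * G A P) + e + e := by
        refine add_le_add (add_le_add le_rfl ?_) (he a)
        rw [ENNReal.tsum_mul_right, q_sum Λ ht h1 hΛ, one_mul]
    _ = _ := by rw [add_assoc, two_mul]

end one

section dens

variable {B G : Type*} [AddCommGroup G] (Λ : B → ℝ≥0∞) (ht : B → ℕ) (dz : B → G)

/-- displacement -/
def Dp (L : List B) : G := (L.map dz).sum

lemma Dp_append (L L' : List B) : Dp dz (L ++ L') = Dp dz L + Dp dz L' := by simp [Dp]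

/-- (height, displacement) -/
def kap (L : List B) : ℤ × G := ((HT ht L : ℤ), Dp dz L)

lemma kap_append (L L' : List B) : kap ht dz (L ++ L') = kap ht dz L + kap ht dz L' := by
  simp [kap, HT_append, Dp_append]

open Classical in
/-- law of (height, displacement) at the first passage of depth `a` -/
noncomputable def f (a : ℕ) (ζ : ℤ × G) : ℝ≥0∞ :=
  ∑' L, q Λ ht a L * (if kap ht dz L = ζ then 1 else 0)

lemma f_tsum (a : ℕ) (F : ℤ × G → ℝ≥0∞) :
    ∑' ζ, f Λ ht dz a ζ * F ζ = ∑' L, q Λ ht a L * F (kap ht dz L) := by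
  classical
  simp only [f]
  have : ∀ ζ, (∑' L, q Λ ht a L * (if kap ht dz L = ζ then 1 else 0)) * F ζ
      = ∑' L, q Λ ht a L * ((if kap ht dz L = ζ then 1 else 0) * F ζ) := by
    intro ζ
    rw [← ENNReal.tsum_mul_right]
    exact tsum_congr fun L => mul_assoc _ _ _
  rw [tsum_congr this, ENNReal.tsum_comm]
  refine tsum_congr fun L => ?_
  rw [ENNReal.tsum_mul_left, tsum_eq_single (kap ht dz L)]
  · rw [if_pos rfl, one_mul]
  · intro ζ hζ; rw [if_neg (Ne.symm hζ), zero_mul]

lemma f_sum (h1 : ∀ b, 1 ≤ ht b) (hΛ : ∑' b, Λ b = 1) (a : ℕ) : ∑' ζ, f Λ ht dz a ζ = 1 := by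
  have := f_tsum Λ ht dz a (fun _ => 1)
  simp only [mul_one] at this
  rw [this, q_sum Λ ht h1 hΛ]

lemma f_split (h1 : ∀ b, 1 ≤ ht b) (T a : ℕ) (hT : T ≤ a) (ζ : ℤ × G) :
    f Λ ht dz a ζ = ∑' A, q Λ ht T A * f Λ ht dz (a - HT ht A) (ζ - kap ht dz A) := by
  classical
  rw [f, q_fp_split Λ ht h1 T a hT]
  refine tsum_congr fun A => ?_
  rw [f]
  congr 1
  refine tsum_congr fun L => ?_
  congr 1
  rw [kap_append]
  have : (kap ht dz A + kap ht dz L = ζ) ↔ (kap ht dz L = ζ - kap ht dz A) := by
    constructor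
    · intro h; rw [← h]; abel
    · intro h; rw [h]; abel
  simp only [this]

lemma f_zero {T : ℕ} {ζ : ℤ × G} (h : ζ.1 < T) : f Λ ht dz T ζ = 0 := by
  classical
  rw [f, ENNReal.tsum_eq_zero]
  intro L
  by_cases hL : fp ht T L
  · have := le_HT_of_fp ht hL
    rw [if_neg, mul_zero]
    intro h'
    have : ζ.1 = (HT ht L : ℤ) := by rw [← h']; rfl
    omega
  · rw [q, if_neg hL, zero_mul]

lemma tsum_shift (F : ℤ × G → ℝ≥0∞) (κ : ℤ × G) : ∑' ζ, F (ζ - κ) = ∑' ζ, F ζ :=
  (Equiv.subRight κ).tsum_eq F

lemma f_slice (h1 : ∀ b, 1 ≤ ht b) (hΛ : ∑' b, Λ b = 1) (a : ℕ) (h : ℤ) (z0 : G) :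
    ∑' z, f Λ ht dz a (h, z0 - z) ≤ 1 := by
  have e0 : ∑' z, f Λ ht dz a (h, z0 - z) = ∑' z, f Λ ht dz a (h, z) :=
    (Equiv.subLeft z0).tsum_eq (fun z => f Λ ht dz a (h, z))
  rw [e0]
  rw [← f_sum Λ ht dz h1 hΛ a, ENNReal.tsum_prod']
  exact ENNReal.le_tsum (f := fun h => ∑' z, f Λ ht dz a (h, z)) h

open Classical in
/-- **smooth density**, total form: the truncated excess of the law at the first passage. -/
theorem dens (h1 : ∀ b, 1 ≤ ht b) (hΛ : ∑' b, Λ b = 1) (T i0 : ℕ) (θ r G0 e : ℝ≥0∞)
    (he : ∑' L, q Λ ht T L * (if T + i0 < HT ht L then 1 else 0) ≤ e)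
    (hr : ∑' L, q Λ ht T L * (if HT ht L ≤ T + i0 ∧ θ < f Λ ht dz T (kap ht dz L) then 1 else 0) ≤ r)
    (hG : (i0 + 1 : ℕ) * θ + r * G0 ≤ G0) (hr1 : r ≤ 1) :
    ∀ J a, J * (T + i0) ≤ a → ∑' ζ, (f Λ ht dz a ζ - G0) ≤ r ^ J + J * e := by
  intro J
  induction J with
  | zero =>
    intro a _
    rw [pow_zero, Nat.cast_zero, zero_mul, add_zero, ← f_sum Λ ht dz h1 hΛ a]
    exact ENNReal.tsum_le_tsum fun ζ => tsub_le_self
  | succ J ih =>
    intro a ha
    have hTa : T ≤ a := by nlinarith [Nat.zero_le J, Nat.zero_le i0]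
    have key : ∀ ζ, f Λ ht dz a ζ - G0
        ≤ ∑' A, q Λ ht T A * ((if HT ht A ≤ T + i0 ∧ θ < f Λ ht dz T (kap ht dz A) then
            (f Λ ht dz (a - HT ht A) (ζ - kap ht dz A) - G0) else 0)
          + (if T + i0 < HT ht A then f Λ ht dz (a - HT ht A) (ζ - kap ht dz A) else 0)) := by
      intro ζ
      rw [tsub_le_iff_left]
      have c1 : ∑' A, q Λ ht T A * (if HT ht A ≤ T + i0 ∧ f Λ ht dz T (kap ht dz A) ≤ θ then
          f Λ ht dz (a - HT ht A) (ζ - kap ht dz A) else 0) ≤ (i0 + 1 : ℕ) * θ := by
        have e1 := f_tsum Λ ht dz T (fun ξ => if ξ.1 ≤ T + i0 ∧ f Λ ht dz T ξ ≤ θ then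
          f Λ ht dz (a - ξ.1.toNat) (ζ - ξ) else 0)
        have e2 : ∀ A, (if HT ht A ≤ T + i0 ∧ f Λ ht dz T (kap ht dz A) ≤ θ then
          f Λ ht dz (a - HT ht A) (ζ - kap ht dz A) else 0)
          = (fun ξ : ℤ × G => if ξ.1 ≤ T + i0 ∧ f Λ ht dz T ξ ≤ θ then
          f Λ ht dz (a - ξ.1.toNat) (ζ - ξ) else 0) (kap ht dz A) := by
          intro A
          have h3 : ((kap ht dz A).1 ≤ (T : ℤ) + i0) ↔ (HT ht A ≤ T + i0) := by
            simp only [kap]; omega
          have h4 : (kap ht dz A).1.toNat = HT ht A := by simp only [kap]; omega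
          simp only [h3, h4]
        simp only [e2]
        rw [← e1, ENNReal.tsum_prod']
        calc ∑' (h : ℤ) (z : G), f Λ ht dz T (h, z) * (if (h, z).1 ≤ T + i0 ∧ f Λ ht dz T (h, z) ≤ θ then
              f Λ ht dz (a - (h, z).1.toNat) (ζ - (h, z)) else 0)
            ≤ ∑' (h : ℤ), (if h ∈ Finset.Icc (T : ℤ) (T + i0) then θ else 0) := by
              refine ENNReal.tsum_le_tsum fun h => ?_
              by_cases hh : h ∈ Finset.Icc (T : ℤ) (T + i0)
              · rw [if_pos hh]
                calc ∑' (z : G), f Λ ht dz T (h, z) * (if (h, z).1 ≤ T + i0 ∧ f Λ ht dz T (h, z) ≤ θ then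
                      f Λ ht dz (a - (h, z).1.toNat) (ζ - (h, z)) else 0)
                    ≤ ∑' (z : G), θ * f Λ ht dz (a - h.toNat) (ζ.1 - h, ζ.2 - z) := by
                      refine ENNReal.tsum_le_tsum fun z => ?_
                      split_ifs with h5
                      · exact mul_le_mul_left h5.2 _
                      · rw [mul_zero]; exact zero_le
                  _ = θ * ∑' (z : G), f Λ ht dz (a - h.toNat) (ζ.1 - h, ζ.2 - z) :=
                      ENNReal.tsum_mul_left
                  _ ≤ θ * 1 := mul_le_mul_right (f_slice Λ ht dz h1 hΛ _ _ _) _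
                  _ = θ := mul_one _
              · rw [if_neg hh, nonpos_iff_eq_zero, ENNReal.tsum_eq_zero]
                intro z
                rw [Finset.mem_Icc, not_and_or] at hh
                rcases hh with hh | hh
                · rw [f_zero Λ ht dz (show ((h, z) : ℤ × G).1 < T by simpa using hh), zero_mul]
                · rw [if_neg (by rintro ⟨h6, _⟩; exact hh h6), mul_zero]
          _ = (i0 + 1 : ℕ) * θ := by
              rw [tsum_eq_sum (s := Finset.Icc (T : ℤ) (T + i0)) (fun h hh => if_neg hh)]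
              rw [Finset.sum_congr rfl (fun h hh => if_pos hh), Finset.sum_const, nsmul_eq_mul,
                Int.card_Icc]
              congr 2
              omega
      have c2 : ∑' A, q Λ ht T A * (if HT ht A ≤ T + i0 ∧ θ < f Λ ht dz T (kap ht dz A) then
          G0 else 0) ≤ r * G0 := by
        refine le_trans (le_of_eq ?_) (mul_le_mul_left hr G0)
        rw [← ENNReal.tsum_mul_right]
        refine tsum_congr fun A => ?_
        rw [mul_assoc]; split_ifs <;> simp
      calc f Λ ht dz a ζ = ∑' A, q Λ ht T A * f Λ ht dz (a - HT ht A) (ζ - kap ht dz A) :=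
            f_split Λ ht dz h1 T a hTa ζ
        _ ≤ ∑' A, (q Λ ht T A * (if HT ht A ≤ T + i0 ∧ f Λ ht dz T (kap ht dz A) ≤ θ then
              f Λ ht dz (a - HT ht A) (ζ - kap ht dz A) else 0)
            + q Λ ht T A * (if HT ht A ≤ T + i0 ∧ θ < f Λ ht dz T (kap ht dz A) then G0 else 0)
            + q Λ ht T A * ((if HT ht A ≤ T + i0 ∧ θ < f Λ ht dz T (kap ht dz A) then
              (f Λ ht dz (a - HT ht A) (ζ - kap ht dz A) - G0) else 0)
              + (if T + i0 < HT ht A then f Λ ht dz (a - HT ht A) (ζ - kap ht dz A) else 0))) := by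
            refine ENNReal.tsum_le_tsum fun A => ?_
            rw [← mul_add, ← mul_add]
            refine mul_le_mul_right ?_ _
            by_cases h5 : HT ht A ≤ T + i0
            · rcases le_or_gt (f Λ ht dz T (kap ht dz A)) θ with h6 | h6
              · rw [if_pos ⟨h5, h6⟩]
                exact le_add_right (le_add_right le_rfl)
              · rw [if_neg (fun h => absurd h.2 (not_le.2 h6)), if_pos ⟨h5, h6⟩, if_pos ⟨h5, h6⟩,
                  zero_add]
                rw [← add_assoc]
                exact le_add_right le_add_tsub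
            · rw [if_neg (fun h => h5 h.1), if_neg (fun h => h5 h.1), if_neg (fun h => h5 h.1),
                if_pos (by omega), zero_add, zero_add, zero_add]
        _ = _ + _ + _ := by rw [ENNReal.tsum_add, ENNReal.tsum_add]
        _ ≤ G0 + _ := add_le_add ((add_le_add c1 c2).trans hG) le_rfl
    calc ∑' ζ, (f Λ ht dz a ζ - G0)
        ≤ ∑' ζ, ∑' A, q Λ ht T A * ((if HT ht A ≤ T + i0 ∧ θ < f Λ ht dz T (kap ht dz A) then
            (f Λ ht dz (a - HT ht A) (ζ - kap ht dz A) - G0) else 0)
          + (if T + i0 < HT ht A then f Λ ht dz (a - HT ht A) (ζ - kap ht dz A) else 0)) :=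
          ENNReal.tsum_le_tsum key
      _ = ∑' A, q Λ ht T A * ∑' ζ, ((if HT ht A ≤ T + i0 ∧ θ < f Λ ht dz T (kap ht dz A) then
            (f Λ ht dz (a - HT ht A) (ζ - kap ht dz A) - G0) else 0)
          + (if T + i0 < HT ht A then f Λ ht dz (a - HT ht A) (ζ - kap ht dz A) else 0)) := by
          rw [ENNReal.tsum_comm]
          exact tsum_congr fun A => ENNReal.tsum_mul_left
      _ ≤ ∑' A, q Λ ht T A * ((if HT ht A ≤ T + i0 ∧ θ < f Λ ht dz T (kap ht dz A) then
            1 else 0) * (r ^ J + J * e) + (if T + i0 < HT ht A then 1 else 0)) := by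
          refine ENNReal.tsum_le_tsum fun A => mul_le_mul_right ?_ _
          rw [ENNReal.tsum_add]
          refine add_le_add ?_ ?_
          · split_ifs with h5
            · rw [one_mul, tsum_shift (fun ζ => f Λ ht dz (a - HT ht A) ζ - G0)]
              refine ih _ ?_
              have : (J + 1) * (T + i0) = J * (T + i0) + (T + i0) := by ring
              omega
            · simp
          · split_ifs with h5
            · rw [tsum_shift (fun ζ => f Λ ht dz (a - HT ht A) ζ), f_sum Λ ht dz h1 hΛ]
            · simp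
      _ = (∑' A, q Λ ht T A * (if HT ht A ≤ T + i0 ∧ θ < f Λ ht dz T (kap ht dz A) then
            1 else 0)) * (r ^ J + J * e)
          + ∑' A, q Λ ht T A * (if T + i0 < HT ht A then 1 else 0) := by
          rw [← ENNReal.tsum_mul_right, ← ENNReal.tsum_add]
          exact tsum_congr fun A => by rw [mul_add, mul_assoc]
      _ ≤ r * (r ^ J + J * e) + e := add_le_add (mul_le_mul_left hr _) he
      _ ≤ r ^ (J + 1) + (J + 1 : ℕ) * e := by
          rw [mul_add, ← pow_succ', add_assoc]
          refine add_le_add le_rfl ?_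
          push_cast
          rw [add_mul, one_mul]
          refine add_le_add ?_ le_rfl
          exact mul_le_of_le_one_left' hr1

end dens

end Crest.Agent.R154.Asm380
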