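import Crest.Agent.R154.FP_178
import Crest.Agent.R154.Dens_616

/-! Row 154, ROAD 801 (helper387, second hand of the assembly), part A: density of the first
passage law. -/

set_option autoImplicit false
set_option linter.unusedSectionVars false

namespace Crest.Agent.R154.Asm387

open scoped ENNReal
open Crest.Agent.R154.B5A Crest.Agent.R154.FP178

section dens
variable {Z I : Type*} [AddCommGroup Z]

lemma tsum_shift (g : Z → ℝ≥0∞) (z' : Z) : ∑' z, g (z - z') = ∑' z, g z :=
  (Equiv.subRight z').tsum_eq g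

lemma tsum_refl (g : Z → ℝ≥0∞) (z : Z) : ∑' z', g (z - z') = ∑' z', g z' :=
  (Equiv.subLeft z).tsum_eq g

open Classical in
theorem dens2 (p : ℕ → Z → ℝ≥0∞) (f e : ℕ → I → Z → ℝ≥0∞) (T i0 : ℕ) (th q ε G : ℝ≥0∞)
    (hrec : ∀ r, T + i0 ≤ r → ∀ ι z, f r ι z ≤
      (∑ i ∈ Finset.range (i0 + 1), ∑' z', p i z' * f (r - T - i) ι (z - z')) + e r ι z)
    (he : ∀ r, T + i0 ≤ r → ∑' ι, ∑' z, e r ι z ≤ ε)
    (hf : ∀ r, ∑' ι, ∑' z, f r ι z ≤ 1)
    (hq : ∑ i ∈ Finset.range (i0 + 1), ∑' z', (if th < p i z' then p i z' else 0) ≤ q)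
    (hq1 : q ≤ 1) (hG : (i0 + 1 : ℕ) * th + q * G ≤ G) :
    ∀ J r, J * (T + i0) ≤ r → ∃ b : I → Z → ℝ≥0∞, (∑' ι, ∑' z, b ι z ≤ q ^ J + J * ε) ∧
      ∀ ι z, f r ι z ≤ G + b ι z := by
  intro J
  induction J with
  | zero =>
    intro r _
    exact ⟨f r, by simpa using hf r, fun ι z => le_add_self⟩
  | succ J ih =>
    intro r hr
    have hr1 : T + i0 ≤ r := by nlinarith
    have hri : ∀ i, ∃ b : I → Z → ℝ≥0∞, i ∈ Finset.range (i0 + 1) →
        (∑' ι, ∑' z, b ι z ≤ q ^ J + J * ε) ∧ ∀ ι z, f (r - T - i) ι z ≤ G + b ι z := by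
      intro i
      by_cases hi : i ∈ Finset.range (i0 + 1)
      · have hi' := Finset.mem_range.1 hi
        have h2 : (J + 1) * (T + i0) = J * (T + i0) + (T + i0) := by ring
        obtain ⟨b, hb⟩ := ih (r - T - i) (by omega)
        exact ⟨b, fun _ => hb⟩
      · exact ⟨fun _ _ => 0, fun h => absurd h hi⟩
    choose b hb using hri
    set P : ℕ → Z → ℝ≥0∞ := fun i z' => if th < p i z' then p i z' else 0 with hP
    refine ⟨fun ι z => (∑ i ∈ Finset.range (i0 + 1), ∑' z', P i z' * b i ι (z - z')) + e r ι z,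
      ?_, ?_⟩
    · have h1 : ∑' ι, ∑' z, ((∑ i ∈ Finset.range (i0 + 1), ∑' z', P i z' * b i ι (z - z'))
          + e r ι z) = (∑ i ∈ Finset.range (i0 + 1), (∑' z', P i z') * ∑' ι, ∑' z, b i ι z)
            + ∑' ι, ∑' z, e r ι z := by
        simp_rw [ENNReal.tsum_add]
        congr 1
        have h2 : ∀ ι, ∑' z, (∑ i ∈ Finset.range (i0 + 1), ∑' z', P i z' * b i ι (z - z'))
            = ∑ i ∈ Finset.range (i0 + 1), (∑' z', P i z') * ∑' z, b i ι z := by
          intro ι
          rw [Summable.tsum_finsetSum (fun i _ => ENNReal.summable)]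
          refine Finset.sum_congr rfl fun i _ => ?_
          rw [ENNReal.tsum_comm, ← ENNReal.tsum_mul_right]
          refine tsum_congr fun z' => ?_
          rw [ENNReal.tsum_mul_left, tsum_shift]
        simp_rw [h2]
        rw [Summable.tsum_finsetSum (fun i _ => ENNReal.summable)]
        refine Finset.sum_congr rfl fun i _ => ?_
        rw [ENNReal.tsum_mul_left]
      rw [h1]
      calc _ ≤ (∑ i ∈ Finset.range (i0 + 1), (∑' z', P i z') * (q ^ J + J * ε)) + ε := by
            refine add_le_add (Finset.sum_le_sum fun i hi => ?_) (he r hr1)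
            exact mul_le_mul_right (hb i hi).1 _
        _ = (∑ i ∈ Finset.range (i0 + 1), (∑' z', P i z')) * (q ^ J + J * ε) + ε := by
            rw [Finset.sum_mul]
        _ ≤ q * (q ^ J + J * ε) + ε := add_le_add_left (mul_le_mul_left hq _) _
        _ ≤ q ^ (J + 1) + ((J + 1 : ℕ) : ℝ≥0∞) * ε := by
            rw [mul_add, ← pow_succ', add_assoc]
            refine add_le_add_right ?_ _
            calc q * (J * ε) + ε ≤ 1 * (J * ε) + ε := add_le_add_left (mul_le_mul_left hq1 _) _
              _ = ((J + 1 : ℕ) : ℝ≥0∞) * ε := by push_cast; ring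
    · intro ι z
      refine (hrec r hr1 ι z).trans ?_
      have h3 : ∀ i ∈ Finset.range (i0 + 1), ∑' z', p i z' * f (r - T - i) ι (z - z')
          ≤ th + ((∑' z', P i z') * G + ∑' z', P i z' * b i ι (z - z')) := by
        intro i hi
        calc ∑' z', p i z' * f (r - T - i) ι (z - z')
            ≤ ∑' z', (th * f (r - T - i) ι (z - z')
              + (P i z' * G + P i z' * b i ι (z - z'))) := by
              refine ENNReal.tsum_le_tsum fun z' => ?_
              by_cases h : th < p i z'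
              · have : P i z' = p i z' := by simp [hP, h]
                rw [this, ← mul_add]
                exact le_add_left (mul_le_mul_right ((hb i hi).2 ι (z - z')) _)
              · exact le_add_right (mul_le_mul_left (not_lt.1 h) _)
          _ ≤ th + ((∑' z', P i z') * G + ∑' z', P i z' * b i ι (z - z')) := by
              rw [ENNReal.tsum_add, ENNReal.tsum_add, ENNReal.tsum_mul_left,
                ENNReal.tsum_mul_right, tsum_refl (fun y => f (r - T - i) ι y) z]
              refine add_le_add_left ?_ _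
              calc th * ∑' z', f (r - T - i) ι z' ≤ th * 1 :=
                    mul_le_mul_right ((ENNReal.le_tsum ι).trans (hf _)) _
                _ = th := mul_one _
      calc (∑ i ∈ Finset.range (i0 + 1), ∑' z', p i z' * f (r - T - i) ι (z - z')) + e r ι z
          ≤ (∑ i ∈ Finset.range (i0 + 1),
            (th + ((∑' z', P i z') * G + ∑' z', P i z' * b i ι (z - z')))) + e r ι z :=
            add_le_add_left (Finset.sum_le_sum h3) _
        _ = ((i0 + 1 : ℕ) * th + (∑ i ∈ Finset.range (i0 + 1), ∑' z', P i z') * G)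
            + ((∑ i ∈ Finset.range (i0 + 1), ∑' z', P i z' * b i ι (z - z')) + e r ι z) := by
            rw [Finset.sum_add_distrib, Finset.sum_add_distrib, Finset.sum_const,
              Finset.card_range, nsmul_eq_mul, Finset.sum_mul]
            ring
        _ ≤ G + _ := by
            refine add_le_add_left ?_ _
            exact (add_le_add_right (mul_le_mul_left hq _) _).trans hG

end dens

section fpd
variable {B G : Type*} [AddCommGroup G] (Λ : B → ℝ≥0∞) (ht : B → ℕ) (z : B → G)

def Dp (L : List B) : G := (L.map z).sum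

lemma Dp_append (A L : List B) : Dp z (A ++ L) = Dp z A + Dp z L := by simp [Dp]

open Classical in
/-- law of the first passage -/
noncomputable def F (r i : ℕ) (g : G) : ℝ≥0∞ :=
  ∑' L : List B, if fp ht r L ∧ HT ht L = r + i ∧ Dp z L = g then LW Λ L else 0

open Classical in
lemma sum_le_gen {β : Type*} (Q : β → Prop) (α : β → ℕ) (D : β → G) (r : ℕ) (w : β → ℝ≥0∞) :
    ∑' i : ℕ, ∑' g : G, ∑' L, (if Q L ∧ α L = r + i ∧ D L = g then w L else 0)
      ≤ ∑' L, (if Q L then w L else 0) := by
  have e1 : ∀ i : ℕ, ∑' g : G, ∑' L, (if Q L ∧ α L = r + i ∧ D L = g then w L else 0)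
      = ∑' L, (if Q L ∧ α L = r + i then w L else 0) := by
    intro i
    rw [ENNReal.tsum_comm]
    refine tsum_congr fun L => ?_
    rw [tsum_eq_single (D L)]
    · simp
    · intro g hg
      rw [if_neg]
      rintro ⟨_, _, h⟩
      exact hg h.symm
  simp_rw [e1]
  rw [ENNReal.tsum_comm]
  refine ENNReal.tsum_le_tsum fun L => ?_
  by_cases h : Q L
  · rw [if_pos h]
    rw [tsum_eq_single (α L - r)]
    · split_ifs
      · exact le_rfl
      · exact zero_le
    · intro i hi
      rw [if_neg]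
      rintro ⟨_, h2⟩
      omega
  · simp [h]

open Classical in
lemma sum_eq_gen {β : Type*} (Q : β → Prop) (α : β → ℕ) (D : β → G) (r : ℕ) (w : β → ℝ≥0∞)
    (hQ : ∀ L, Q L → r ≤ α L) :
    ∑' i : ℕ, ∑' g : G, ∑' L, (if Q L ∧ α L = r + i ∧ D L = g then w L else 0)
      = ∑' L, (if Q L then w L else 0) := by
  have e1 : ∀ i : ℕ, ∑' g : G, ∑' L, (if Q L ∧ α L = r + i ∧ D L = g then w L else 0)
      = ∑' L, (if Q L ∧ α L = r + i then w L else 0) := by
    intro i
    rw [ENNReal.tsum_comm]
    refine tsum_congr fun L => ?_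
    rw [tsum_eq_single (D L)]
    · simp
    · intro g hg
      rw [if_neg]
      rintro ⟨_, _, h⟩
      exact hg h.symm
  simp_rw [e1]
  rw [ENNReal.tsum_comm]
  refine tsum_congr fun L => ?_
  by_cases h : Q L
  · have hr := hQ L h
    rw [if_pos h]
    rw [tsum_eq_single (α L - r)]
    · rw [if_pos ⟨h, by omega⟩]
    · intro i hi
      rw [if_neg]
      rintro ⟨_, h2⟩
      omega
  · simp [h]

open Classical in
theorem sum_fp_eq (h1 : ∀ b, 1 ≤ ht b) (hΛ : ∑' b, Λ b = 1) (a : ℕ) :
    ∑' L, (if fp ht a L then LW Λ L else 0) = 1 := by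
  induction a using Nat.strong_induction_on with
  | _ a ih =>
    rcases Nat.eq_zero_or_pos a with rfl | ha
    · have := sum_fp_zero Λ ht (fun _ => 1)
      simp only [mul_one] at this
      exact this
    · have := sum_fp_step Λ ht a ha (fun _ => 1)
      simp only [mul_one] at this
      rw [this]
      calc ∑' b, Λ b * ∑' L, (if fp ht (a - ht b) L then LW Λ L else 0)
          = ∑' b, Λ b * 1 := by
            refine tsum_congr fun b => ?_
            rw [ih (a - ht b) (by have := h1 b; omega)]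
        _ = 1 := by simpa using hΛ

lemma F_tot (h1 : ∀ b, 1 ≤ ht b) (hΛ : ∑' b, Λ b = 1) (r : ℕ) :
    ∑' i, ∑' g, F Λ ht z r i g = 1 := by
  classical
  have := sum_eq_gen (G := G) (fun L => fp ht r L) (HT ht) (Dp z) r (LW Λ)
    (fun L hL => le_HT_of_fp ht hL)
  rw [sum_fp_eq Λ ht h1 hΛ] at this
  exact this

open Classical in
lemma F_rec (h1 : ∀ b, 1 ≤ ht b) (T i0 r : ℕ) (hr : T + i0 ≤ r) (i : ℕ) (g : G) :
    F Λ ht z r i g ≤
      (∑ i' ∈ Finset.range (i0 + 1), ∑' g', F Λ ht z T i' g' * F Λ ht z (r - T - i') i (g - g'))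
      + ∑' A, (if fp ht T A ∧ T + i0 < HT ht A then LW Λ A *
          ∑' L, (if fp ht (r - HT ht A) L ∧ HT ht A + HT ht L = r + i ∧ Dp z A + Dp z L = g
            then LW Λ L else 0) else 0) := by
  have e0 : F Λ ht z r i g = ∑' L, (if fp ht r L then
      LW Λ L * (if HT ht L = r + i ∧ Dp z L = g then 1 else 0) else 0) := by
    refine tsum_congr fun L => ?_
    by_cases h : fp ht r L
    · by_cases h' : HT ht L = r + i ∧ Dp z L = g
      · rw [if_pos ⟨h, h'⟩, if_pos h, if_pos h', mul_one]
      · rw [if_neg (fun hh => h' hh.2), if_pos h, if_neg h', mul_zero]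
    · rw [if_neg (fun hh => h hh.1), if_neg h]
  rw [e0, fp_split Λ ht h1 T r (by omega)]
  have e1 : ∀ A : List B, (if fp ht T A then LW Λ A *
      ∑' L, (if fp ht (r - HT ht A) L then LW Λ L *
        (if HT ht (A ++ L) = r + i ∧ Dp z (A ++ L) = g then 1 else 0) else 0) else 0)
      ≤ (∑ i' ∈ Finset.range (i0 + 1), ∑' g', (if fp ht T A ∧ HT ht A = T + i' ∧ Dp z A = g' then
          LW Λ A else 0) * F Λ ht z (r - T - i') i (g - g'))
        + (if fp ht T A ∧ T + i0 < HT ht A then LW Λ A *
          ∑' L, (if fp ht (r - HT ht A) L ∧ HT ht A + HT ht L = r + i ∧ Dp z A + Dp z L = g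
            then LW Λ L else 0) else 0) := by
    intro A
    by_cases hA : fp ht T A
    · rw [if_pos hA]
      have hT := le_HT_of_fp ht hA
      have e2 : ∑' L, (if fp ht (r - HT ht A) L then LW Λ L *
          (if HT ht (A ++ L) = r + i ∧ Dp z (A ++ L) = g then 1 else 0) else 0)
          = ∑' L, (if fp ht (r - HT ht A) L ∧ HT ht A + HT ht L = r + i ∧ Dp z A + Dp z L = g
            then LW Λ L else 0) := by
        refine tsum_congr fun L => ?_
        rw [HT_append, Dp_append]
        by_cases h : fp ht (r - HT ht A) L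
        · by_cases h' : HT ht A + HT ht L = r + i ∧ Dp z A + Dp z L = g
          · rw [if_pos h, if_pos h', if_pos ⟨h, h'⟩, mul_one]
          · rw [if_pos h, if_neg h', if_neg (fun hh => h' hh.2), mul_zero]
        · rw [if_neg h, if_neg (fun hh => h hh.1)]
      rw [e2]
      by_cases hH : T + i0 < HT ht A
      · rw [if_pos ⟨hA, hH⟩]
        exact le_add_self
      · refine le_add_right ?_
        have hi : HT ht A - T ∈ Finset.range (i0 + 1) := Finset.mem_range.2 (by omega)
        refine le_trans ?_ (Finset.single_le_sum (f := fun i' => ∑' g',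
          (if fp ht T A ∧ HT ht A = T + i' ∧ Dp z A = g' then
          LW Λ A else 0) * F Λ ht z (r - T - i') i (g - g')) (fun _ _ => zero_le) hi)
        refine le_trans ?_ (ENNReal.le_tsum (Dp z A))
        rw [if_pos ⟨hA, by omega, rfl⟩]
        refine mul_le_mul_right ?_ _
        refine le_of_eq ?_
        have h3 : r - T - (HT ht A - T) = r - HT ht A := by omega
        rw [h3, F]
        refine tsum_congr fun L => ?_
        congr 1
        have h4 : (HT ht A + HT ht L = r + i) ↔ (HT ht L = r - HT ht A + i) := by omega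
        have h5 : (Dp z A + Dp z L = g) ↔ (Dp z L = g - Dp z A) := by
          rw [eq_sub_iff_add_eq, add_comm]
        rw [h4, h5]
    · rw [if_neg hA]; exact zero_le
  refine (ENNReal.tsum_le_tsum e1).trans (le_of_eq ?_)
  rw [ENNReal.tsum_add]
  congr 1
  rw [Summable.tsum_finsetSum (fun i _ => ENNReal.summable)]
  refine Finset.sum_congr rfl fun i' _ => ?_
  rw [ENNReal.tsum_comm]
  refine tsum_congr fun g' => ?_
  rw [ENNReal.tsum_mul_right]
  rfl

open Classical in
/-- **density of the first passage law** -/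
theorem fp_dens (h1 : ∀ b, 1 ≤ ht b) (hΛ : ∑' b, Λ b = 1) (hU1 : ∀ n, U Λ ht n ≤ 1)
    {u : ℝ≥0∞} (hu0 : u ≠ 0) (hu1 : u < 1) (T : ℕ) :
    ∃ th : ℝ≥0∞, th ≠ 0 ∧ th ≤ 1 ∧
      (∑' i, ∑' g, (if F Λ ht z T i g < th then F Λ ht z T i g else 0) ≤ u) ∧
      ∀ i0 J r, J * (T + i0) ≤ r → ∃ b : ℕ → G → ℝ≥0∞,
        (∑' i, ∑' g, b i g ≤ (1 - u) ^ J + J * ∑' k, tail Λ ht (i0 + k)) ∧
        ∀ i g, F Λ ht z r i g ≤ (i0 + 1 : ℕ) * th / u + b i g := by
  have hut : u ≠ ⊤ := ne_top_of_lt hu1
  have htot := F_tot Λ ht z h1 hΛ T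
  have htot' : ∑' x : ℕ × G, F Λ ht z T x.1 x.2 = 1 := by
    rw [ENNReal.tsum_prod (f := fun i g => F Λ ht z T i g)]; exact htot
  obtain ⟨th, h0, hle, hlow, hupp⟩ := Dens616.quantile (fun x : ℕ × G => F Λ ht z T x.1 x.2)
    htot' hu0 hu1
  refine ⟨th, h0, hle, ?_, ?_⟩
  · refine le_trans (le_of_eq ?_) hlow
    rw [ENNReal.tsum_prod (f := fun i g => (if F Λ ht z T i g < th then F Λ ht z T i g else 0))]
  intro i0
  have hq : ∑ i ∈ Finset.range (i0 + 1), ∑' g, (if th < F Λ ht z T i g then F Λ ht z T i g else 0)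
      ≤ 1 - u := by
    calc ∑ i ∈ Finset.range (i0 + 1), ∑' g, (if th < F Λ ht z T i g then F Λ ht z T i g else 0)
        ≤ ∑' i, ∑' g, (if th < F Λ ht z T i g then F Λ ht z T i g else 0) :=
          ENNReal.sum_le_tsum _
      _ = ∑' x : ℕ × G, (if th < F Λ ht z T x.1 x.2 then F Λ ht z T x.1 x.2 else 0) := by
          rw [ENNReal.tsum_prod (f := fun i g =>
            (if th < F Λ ht z T i g then F Λ ht z T i g else 0))]
      _ ≤ 1 - u := by
          refine ENNReal.le_sub_of_add_le_left hut ?_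
          refine (add_le_add_left hupp _).trans (le_of_eq ?_)
          rw [← ENNReal.tsum_add, ← htot']
          refine tsum_congr fun x => ?_
          by_cases h : F Λ ht z T x.1 x.2 ≤ th
          · rw [if_pos h, if_neg (not_lt.2 h), add_zero]
          · rw [if_neg h, if_pos (not_le.1 h), zero_add]
  refine dens2 (I := ℕ) (fun i g => F Λ ht z T i g) (fun r i g => F Λ ht z r i g)
    (fun r i g => ∑' A, (if fp ht T A ∧ T + i0 < HT ht A then LW Λ A *
          ∑' L, (if fp ht (r - HT ht A) L ∧ HT ht A + HT ht L = r + i ∧ Dp z A + Dp z L = g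
            then LW Λ L else 0) else 0)) T i0 th (1 - u) _ _ ?_ ?_ ?_ hq tsub_le_self ?_
  · intro r hr i g
    exact F_rec Λ ht z h1 T i0 r hr i g
  · intro r hr
    calc ∑' i, ∑' g, ∑' A, (if fp ht T A ∧ T + i0 < HT ht A then LW Λ A *
          ∑' L, (if fp ht (r - HT ht A) L ∧ HT ht A + HT ht L = r + i ∧ Dp z A + Dp z L = g
            then LW Λ L else 0) else 0)
        = ∑' A, (if fp ht T A ∧ T + i0 < HT ht A then LW Λ A * ∑' i, ∑' g,
          ∑' L, (if fp ht (r - HT ht A) L ∧ HT ht A + HT ht L = r + i ∧ Dp z A + Dp z L = g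
            then LW Λ L else 0) else 0) := by
          have : ∀ i : ℕ, ∑' g, ∑' A, (if fp ht T A ∧ T + i0 < HT ht A then LW Λ A *
            ∑' L, (if fp ht (r - HT ht A) L ∧ HT ht A + HT ht L = r + i ∧ Dp z A + Dp z L = g
            then LW Λ L else 0) else 0) = ∑' A, (if fp ht T A ∧ T + i0 < HT ht A then LW Λ A *
            ∑' g, ∑' L, (if fp ht (r - HT ht A) L ∧ HT ht A + HT ht L = r + i ∧
              Dp z A + Dp z L = g then LW Λ L else 0) else 0) := by
            intro i
            rw [ENNReal.tsum_comm]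
            refine tsum_congr fun A => ?_
            by_cases h : fp ht T A ∧ T + i0 < HT ht A
            · simp only [if_pos h, ENNReal.tsum_mul_left]
            · simp [h]
          simp_rw [this]
          rw [ENNReal.tsum_comm]
          refine tsum_congr fun A => ?_
          by_cases h : fp ht T A ∧ T + i0 < HT ht A
          · simp only [if_pos h, ENNReal.tsum_mul_left]
          · simp [h]
      _ ≤ ∑' A, (if fp ht T A ∧ T + i0 < HT ht A then LW Λ A else 0) := by
          refine ENNReal.tsum_le_tsum fun A => ?_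
          by_cases h : fp ht T A ∧ T + i0 < HT ht A
          · rw [if_pos h, if_pos h]
            refine (mul_le_mul_right ?_ _).trans (le_of_eq (mul_one _))
            refine (sum_le_gen (G := G) (fun L => fp ht (r - HT ht A) L)
              (fun L => HT ht A + HT ht L) (fun L => Dp z A + Dp z L) r (LW Λ)).trans ?_
            exact sum_FP Λ ht h1 hΛ.le _
          · rw [if_neg h, if_neg h]
      _ ≤ _ := overshoot Λ ht h1 hU1 i0 T
  · intro r
    exact (F_tot Λ ht z h1 hΛ r).le
  · have h2 : ((i0 + 1 : ℕ) : ℝ≥0∞) * th = u * (((i0 + 1 : ℕ) : ℝ≥0∞) * th / u) :=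
      (ENNReal.mul_div_cancel hu0 hut).symm
    calc ((i0 + 1 : ℕ) : ℝ≥0∞) * th + (1 - u) * (((i0 + 1 : ℕ) : ℝ≥0∞) * th / u)
        = u * (((i0 + 1 : ℕ) : ℝ≥0∞) * th / u) + (1 - u) * (((i0 + 1 : ℕ) : ℝ≥0∞) * th / u) :=
          congrArg (· + (1 - u) * (((i0 + 1 : ℕ) : ℝ≥0∞) * th / u)) h2
      _ = ((i0 + 1 : ℕ) : ℝ≥0∞) * th / u := by
          rw [← add_mul, add_tsub_cancel_of_le hu1.le, one_mul]
      _ ≤ _ := le_rfl

end fpd

end Crest.Agent.R154.Asm387
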