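import Crest.Agent.R154.FP_178
import Crest.Agent.R154.Dens_903

/-! Row 154, ROAD 801 (helper392): chains of first passages of height `T`, their law, the smooth part. -/

set_option autoImplicit false

namespace Crest.Agent.R154.Asm392

open scoped ENNReal
open Crest.Agent.R154.B5A Crest.Agent.R154.FP178

section Single

variable {B : Type*} (wt : List B → ℝ≥0∞)

/-- `j`-fold product of a weight on lists, integrated against a function of the concatenation -/
noncomputable def It : ℕ → (List B → ℝ≥0∞) → ℝ≥0∞
  | 0, F => F []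
  | j + 1, F => ∑' A, wt A * It j (fun L => F (A ++ L))

lemma It_zero (F : List B → ℝ≥0∞) : It wt 0 F = F [] := rfl

lemma It_succ (j : ℕ) (F : List B → ℝ≥0∞) :
    It wt (j + 1) F = ∑' A, wt A * It wt j (fun L => F (A ++ L)) := rfl

lemma It_add (i j : ℕ) (F : List B → ℝ≥0∞) :
    It wt (i + j) F = It wt i (fun P => It wt j (fun Q => F (P ++ Q))) := by
  induction i generalizing F with
  | zero => rw [zero_add, It_zero]; rfl
  | succ i ih =>
    rw [show i + 1 + j = (i + j) + 1 by ring, It_succ, It_succ]
    refine tsum_congr fun A => ?_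
    rw [ih]
    simp only [List.append_assoc]

lemma It_tsum {ι : Type*} (j : ℕ) (F : ι → List B → ℝ≥0∞) :
    It wt j (fun P => ∑' i, F i P) = ∑' i, It wt j (F i) := by
  induction j generalizing F with
  | zero => rfl
  | succ j ih =>
    simp only [It_succ]
    rw [ENNReal.tsum_comm]
    refine tsum_congr fun A => ?_
    rw [ih (fun i L => F i (A ++ L)), ENNReal.tsum_mul_left]

lemma It_mul (j : ℕ) (c : ℝ≥0∞) (F : List B → ℝ≥0∞) :
    It wt j (fun P => c * F P) = c * It wt j F := by
  induction j generalizing F with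
  | zero => rfl
  | succ j ih =>
    simp only [It_succ]
    rw [← ENNReal.tsum_mul_left]
    refine tsum_congr fun A => ?_
    rw [ih (fun L => F (A ++ L))]
    ring

lemma It_add_fun (j : ℕ) (F F' : List B → ℝ≥0∞) :
    It wt j (fun P => F P + F' P) = It wt j F + It wt j F' := by
  induction j generalizing F F' with
  | zero => rfl
  | succ j ih =>
    simp only [It_succ]
    rw [← ENNReal.tsum_add]
    refine tsum_congr fun A => ?_
    rw [ih, mul_add]

lemma It_sum {ι : Type*} (s : Finset ι) (j : ℕ) (F : ι → List B → ℝ≥0∞) :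
    It wt j (fun P => ∑ i ∈ s, F i P) = ∑ i ∈ s, It wt j (F i) := by
  classical
  induction s using Finset.induction_on with
  | empty =>
    simp only [Finset.sum_empty]
    have := It_mul wt j 0 (fun _ => 0)
    simpa using this
  | insert a s ha ih =>
    simp only [Finset.sum_insert ha]
    rw [It_add_fun, ih]

/-- monotone, with the range of heights -/
lemma It_mono (ht : B → ℕ) (lo hi : ℕ) (hw : ∀ A, wt A ≠ 0 → lo ≤ HT ht A ∧ HT ht A ≤ hi)
    (j : ℕ) {F F' : List B → ℝ≥0∞}
    (h : ∀ P, j * lo ≤ HT ht P → HT ht P ≤ j * hi → F P ≤ F' P) : It wt j F ≤ It wt j F' := by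
  induction j generalizing F F' with
  | zero => exact h [] (by simp) (by simp [HT_nil])
  | succ j ih =>
    rw [It_succ, It_succ]
    refine ENNReal.tsum_le_tsum fun A => ?_
    by_cases hA : wt A = 0
    · simp [hA]
    · obtain ⟨h1, h2⟩ := hw A hA
      refine mul_le_mul_right (ih fun P hP hP' => h (A ++ P) ?_ ?_) _
      · rw [HT_append]; nlinarith
      · rw [HT_append]; nlinarith

lemma It_mono' (j : ℕ) {F F' : List B → ℝ≥0∞}
    (h : ∀ P, F P ≤ F' P) : It wt j F ≤ It wt j F' := by
  induction j generalizing F F' with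
  | zero => exact h []
  | succ j ih =>
    rw [It_succ, It_succ]
    exact ENNReal.tsum_le_tsum fun A => mul_le_mul_right (ih fun P => h (A ++ P)) _

lemma It_one (hw : ∑' A, wt A ≤ 1) (j : ℕ) : It wt j (fun _ => 1) ≤ 1 := by
  induction j with
  | zero => exact le_rfl
  | succ j ih =>
    rw [It_succ]
    calc ∑' A, wt A * It wt j (fun _ => 1) ≤ ∑' A, wt A * 1 :=
          ENNReal.tsum_le_tsum fun A => mul_le_mul_right ih _
      _ ≤ 1 := by simpa using hw

lemma It_const (hw : ∑' A, wt A ≤ 1) (j : ℕ) (c : ℝ≥0∞) : It wt j (fun _ => c) ≤ c := by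
  have := It_mul wt j c (fun _ => 1)
  simp only [mul_one] at this
  rw [this]
  calc c * It wt j (fun _ => 1) ≤ c * 1 := mul_le_mul_right (It_one wt hw j) _
    _ = c := mul_one c

lemma It_comm {B' : Type*} (wt' : List B' → ℝ≥0∞) (i j : ℕ) (F : List B → List B' → ℝ≥0∞) :
    It wt i (fun P => It wt' j (fun Q => F P Q)) = It wt' j (fun Q => It wt i (fun P => F P Q)) := by
  induction i generalizing F with
  | zero => rfl
  | succ i ih =>
    simp only [It_succ]
    rw [It_tsum wt' j (fun A Q => wt A * It wt i (fun L => F (A ++ L) Q))]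
    refine tsum_congr fun A => ?_
    rw [ih (fun L Q => F (A ++ L) Q), It_mul]

/-! ### law of the value -/

variable {V : Type*} [AddCommGroup V] (val : List B → V)

open Classical in
/-- law of `val` under `It j` -/
noncomputable def g (j : ℕ) (v : V) : ℝ≥0∞ := It wt j (fun P => if val P = v then 1 else 0)

lemma It_law (j : ℕ) (Φ : V → ℝ≥0∞) :
    It wt j (fun P => Φ (val P)) = ∑' v, g wt val j v * Φ v := by
  classical
  have h : ∀ P, Φ (val P) = ∑' v, Φ v * (if val P = v then 1 else 0) := by
    intro P
    rw [tsum_eq_single (val P)]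
    · simp
    · intro v hv; rw [if_neg (Ne.symm hv), mul_zero]
  simp only [h]
  rw [It_tsum wt j (fun v P => Φ v * (if val P = v then 1 else 0))]
  refine tsum_congr fun v => ?_
  rw [It_mul, mul_comm, g]

lemma g_sum (hw : ∑' A, wt A ≤ 1) (j : ℕ) : ∑' v, g wt val j v ≤ 1 := by
  have := It_law wt val j (fun _ => 1)
  simp only [mul_one] at this
  rw [← this]
  exact It_one wt hw j

open Classical in
/-- one step law -/
noncomputable def p (v : V) : ℝ≥0∞ := ∑' A, wt A * (if val A = v then 1 else 0)

lemma p_law (Φ : V → ℝ≥0∞) : ∑' A, wt A * Φ (val A) = ∑' v, p wt val v * Φ v := by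
  classical
  have h : ∀ P, Φ (val P) = ∑' v, Φ v * (if val P = v then 1 else 0) := by
    intro P
    rw [tsum_eq_single (val P)]
    · simp
    · intro v hv; rw [if_neg (Ne.symm hv), mul_zero]
  have h2 : ∀ A, wt A * Φ (val A) = ∑' v, wt A * (Φ v * (if val A = v then 1 else 0)) := by
    intro A
    rw [ENNReal.tsum_mul_left, ← h A]
  rw [tsum_congr h2, ENNReal.tsum_comm]
  refine tsum_congr fun v => ?_
  rw [p, ← ENNReal.tsum_mul_right]
  refine tsum_congr fun A => ?_
  ring

lemma g_succ (hval : ∀ A L, val (A ++ L) = val A + val L) (j : ℕ) (v : V) :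
    g wt val (j + 1) v = ∑' v', p wt val v' * g wt val j (v - v') := by
  classical
  rw [g, It_succ, ← p_law wt val (fun v' => g wt val j (v - v'))]
  refine tsum_congr fun A => ?_
  congr 1
  rw [g]
  congr 1
  funext L
  rw [hval]
  by_cases h : val L = v - val A
  · rw [if_pos h, if_pos (by rw [h]; abel)]
  · rw [if_neg h, if_neg (fun h' => h (by rw [← h']; abel))]

/-- **the smooth part**: `g j ≤ Gc + rough` with a rough part of mass `q ^ j` -/
theorem smooth (hval : ∀ A L, val (A ++ L) = val A + val L) (hw : ∑' A, wt A ≤ 1)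
    (S : V → Prop) (th q Gc : ℝ≥0∞) (hS : ∀ v, S v → p wt val v ≤ th)
    (hq : by classical exact ∑' v, (if S v then 0 else p wt val v) ≤ q)
    (hG : th + q * Gc ≤ Gc) (j : ℕ) :
    ∃ b : V → ℝ≥0∞, (∀ v, g wt val j v ≤ Gc + b v) ∧ ∑' v, b v ≤ q ^ j := by
  classical
  induction j with
  | zero => exact ⟨g wt val 0, fun v => le_add_self, by simpa using g_sum wt val hw 0⟩
  | succ j ih =>
    obtain ⟨b, hb, hbm⟩ := ih
    have hq' : ∑' v, (if S v then 0 else p wt val v) ≤ q := by convert hq
    refine ⟨fun v => ∑' v', (if S v' then 0 else p wt val v') * b (v - v'), fun v => ?_, ?_⟩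
    · rw [g_succ wt val hval]
      calc ∑' v', p wt val v' * g wt val j (v - v')
          ≤ ∑' v', (th * g wt val j (v - v') + ((if S v' then 0 else p wt val v') * Gc
              + (if S v' then 0 else p wt val v') * b (v - v'))) := by
            refine ENNReal.tsum_le_tsum fun v' => ?_
            by_cases h : S v'
            · rw [if_pos h, zero_mul, zero_mul, add_zero, add_zero]
              exact mul_le_mul_left (hS v' h) _
            · rw [if_neg h, ← mul_add]
              exact le_add_left (mul_le_mul_right (hb _) _)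
        _ = th * ∑' v', g wt val j (v - v') + ((∑' v', (if S v' then 0 else p wt val v')) * Gc
              + ∑' v', (if S v' then 0 else p wt val v') * b (v - v')) := by
            rw [ENNReal.tsum_add, ENNReal.tsum_add, ENNReal.tsum_mul_left, ENNReal.tsum_mul_right]
        _ ≤ th * 1 + (q * Gc + ∑' v', (if S v' then 0 else p wt val v') * b (v - v')) := by
            refine add_le_add (mul_le_mul_right ?_ _) (add_le_add_left (mul_le_mul_left hq' _) _)
            rw [Dens903.tsum_sub (g wt val j) v]
            exact g_sum wt val hw j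
        _ ≤ Gc + ∑' v', (if S v' then 0 else p wt val v') * b (v - v') := by
            rw [mul_one, ← add_assoc]
            exact add_le_add_left hG _
    · rw [Dens903.tsum_conv (fun v' => if S v' then 0 else p wt val v') b, pow_succ, mul_comm]
      exact mul_le_mul' hbm hq'

end Single

end Crest.Agent.R154.Asm392
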