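import Crest.Agent.R154.FP_178
import Crest.Agent.R154.Dens_903

/-! Row 154 (helper4), ROAD 801, assembly part A: density of the tie law on first passage lists. -/

set_option autoImplicit false

namespace Crest.Agent.R154.Asm4

open scoped ENNReal
open Crest.Agent.R154.B5A Crest.Agent.R154.FP178

variable {B G : Type*} [AddCommGroup G] (Λ : B → ℝ≥0∞) (ht : B → ℕ) (zf : B → G)

/-- displacement -/
def Dp (L : List B) : G := (L.map zf).sum

lemma Dp_nil : Dp zf ([] : List B) = 0 := rfl
lemma Dp_append (L L' : List B) : Dp zf (L ++ L') = Dp zf L + Dp zf L' := by simp [Dp]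

open Classical in
theorem sum_FP_eq (h1 : ∀ b, 1 ≤ ht b) (hΛ : ∑' b, Λ b = 1) (a : ℕ) :
    ∑' L, (if fp ht a L then LW Λ L else 0) = 1 := by
  induction a using Nat.strong_induction_on with
  | _ a ih =>
    rcases Nat.eq_zero_or_pos a with rfl | ha
    · have := sum_fp_zero Λ ht (fun _ => 1)
      simp only [mul_one] at this
      exact this
    · have := sum_fp_step Λ ht a ha (fun _ => 1)
      simp only [mul_one] at this
      rw [this]
      calc ∑' b, Λ b * ∑' L, (if fp ht (a - ht b) L then LW Λ L else 0)
          = ∑' b, Λ b * 1 := by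
            refine tsum_congr fun b => ?_
            rw [ih (a - ht b) (by have := h1 b; omega)]
        _ = 1 := by simpa using hΛ

lemma fp_unique {a : ℕ} {A A' R R' : List B} (hA : fp ht a A) (hA' : fp ht a A')
    (h : A ++ R = A' ++ R') : A = A' := by
  induction A generalizing a A' with
  | nil =>
    rw [fp_nil] at hA
    subst hA
    rw [fp_zero] at hA'
    exact hA'.symm
  | cons b A ih =>
    cases A' with
    | nil =>
      rw [fp_nil] at hA'
      subst hA'
      rw [fp_zero] at hA
      exact hA
    | cons c A' =>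
      rw [fp_cons] at hA hA'
      simp only [List.cons_append, List.cons.injEq] at h
      obtain ⟨rfl, h2⟩ := h
      rw [ih hA.2 hA'.2 h2]

open Classical in
/-- the attempt law -/
noncomputable def pL (τ h : ℕ) (z : G) : ℝ≥0∞ :=
  ∑' P, (if fp ht τ P ∧ HT ht P = h ∧ Dp zf P = z then LW Λ P else 0)

/-- one of the first `J` attempts is low -/
def Sm (τ i0 : ℕ) (th : ℝ≥0∞) : ℕ → List B → Prop
  | 0, _ => False
  | J + 1, L => ∃ A R, L = A ++ R ∧ fp ht τ A ∧ HT ht A ≤ τ + i0 ∧
      (pL Λ ht zf τ (HT ht A) (Dp zf A) ≤ th ∨ Sm τ i0 th J R)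

variable {Λ ht zf}

open Classical in
/-- push a sum over words to a sum over (height, displacement) -/
lemma sum_hz (τ : ℕ) (F : ℕ → G → ℝ≥0∞) :
    ∑' P, (if fp ht τ P then LW Λ P * F (HT ht P) (Dp zf P) else 0)
      = ∑' h, ∑' z, pL Λ ht zf τ h z * F h z := by
  have e1 : ∀ P : List B, (if fp ht τ P then LW Λ P * F (HT ht P) (Dp zf P) else 0)
      = ∑' h : ℕ, ∑' z : G, (if fp ht τ P ∧ HT ht P = h ∧ Dp zf P = z then LW Λ P else 0) * F h z := by
    intro P
    rw [tsum_eq_single (HT ht P), tsum_eq_single (Dp zf P)]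
    · by_cases h : fp ht τ P <;> simp [h]
    · intro z hz
      rw [if_neg (fun h => hz h.2.2.symm), zero_mul]
    · intro h hh
      simp only [ENNReal.tsum_eq_zero]
      intro z
      rw [if_neg (fun h' => hh h'.2.1.symm), zero_mul]
  rw [tsum_congr e1, ENNReal.tsum_comm]
  refine tsum_congr fun h => ?_
  rw [ENNReal.tsum_comm]
  refine tsum_congr fun z => ?_
  rw [ENNReal.tsum_mul_right]
  rfl

lemma pL_sum (h1 : ∀ b, 1 ≤ ht b) (hΛ : ∑' b, Λ b = 1) (τ : ℕ) :
    ∑' h, ∑' z, pL Λ ht zf τ h z = 1 := by
  classical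
  have := sum_hz (Λ := Λ) (ht := ht) (zf := zf) τ (fun _ _ => 1)
  simp only [mul_one] at this
  rw [← this]
  exact sum_FP_eq Λ ht h1 hΛ τ

open Classical in
/-- **density**, smooth part. -/
theorem dens_le (h1 : ∀ b, 1 ≤ ht b) (hΛ : ∑' b, Λ b = 1) (τ i0 : ℕ) (th q Gd : ℝ≥0∞)
    (hq : ∑' P, (if fp ht τ P ∧ ¬ pL Λ ht zf τ (HT ht P) (Dp zf P) ≤ th then LW Λ P else 0) ≤ q)
    (hG : (i0 + 1 : ℕ) * th + q * Gd ≤ Gd) :
    ∀ J a, J * (τ + i0) ≤ a → ∀ h z,
      ∑' L, (if fp ht a L ∧ HT ht L = h ∧ Dp zf L = z ∧ Sm Λ ht zf τ i0 th J L then LW Λ L else 0)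
        ≤ Gd := by
  intro J
  induction J with
  | zero =>
    intro a ha h z
    have : ∀ L : List B, (if fp ht a L ∧ HT ht L = h ∧ Dp zf L = z ∧ Sm Λ ht zf τ i0 th 0 L
        then LW Λ L else 0) = 0 := fun L => if_neg (fun h => h.2.2.2)
    simp [this]
  | succ J ih =>
    intro a ha h z
    have hτa : τ ≤ a := by
      have : τ ≤ (J + 1) * (τ + i0) := by nlinarith
      omega
    set p := pL Λ ht zf τ with hp
    have e0 : ∀ L : List B, (if fp ht a L ∧ HT ht L = h ∧ Dp zf L = z ∧
        Sm Λ ht zf τ i0 th (J + 1) L then LW Λ L else 0)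
        = (if fp ht a L then LW Λ L * (if HT ht L = h ∧ Dp zf L = z ∧
          Sm Λ ht zf τ i0 th (J + 1) L then 1 else 0) else 0) := by
      intro L
      by_cases h1 : fp ht a L <;> by_cases h2 : HT ht L = h ∧ Dp zf L = z ∧
          Sm Λ ht zf τ i0 th (J + 1) L <;> simp [h1, h2]
    rw [tsum_congr e0, fp_split Λ ht h1 τ a hτa]
    -- bound for each `A`
    have key : ∀ A : List B, (if fp ht τ A then LW Λ A *
          ∑' L, (if fp ht (a - HT ht A) L then LW Λ L * (if HT ht (A ++ L) = h ∧
            Dp zf (A ++ L) = z ∧ Sm Λ ht zf τ i0 th (J + 1) (A ++ L) then 1 else 0) else 0) else 0)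
        ≤ (if fp ht τ A then LW Λ A * (fun h' z' => if h' ≤ τ + i0 ∧ p h' z' ≤ th then
            ∑' L, (if fp ht (a - h') L ∧ Dp zf L = z - z' then LW Λ L else 0) else 0)
              (HT ht A) (Dp zf A) else 0)
          + (if fp ht τ A ∧ ¬ p (HT ht A) (Dp zf A) ≤ th then LW Λ A else 0) * Gd := by
      intro A
      by_cases hA : fp ht τ A
      swap
      · simp [hA]
      rw [if_pos hA, if_pos hA]
      by_cases hov : HT ht A ≤ τ + i0
      swap
      · have : ∑' L, (if fp ht (a - HT ht A) L then LW Λ L * (if HT ht (A ++ L) = h ∧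
            Dp zf (A ++ L) = z ∧ Sm Λ ht zf τ i0 th (J + 1) (A ++ L) then 1 else 0) else 0)
            = (0 : ℝ≥0∞) := by
          rw [ENNReal.tsum_eq_zero]
          intro L
          by_cases hL : fp ht (a - HT ht A) L
          · rw [if_pos hL, if_neg, mul_zero]
            rintro ⟨-, -, A', R, h2, h3, h4, -⟩
            have := fp_unique ht hA h3 h2
            rw [← this] at h4
            exact hov h4
          · rw [if_neg hL]
        rw [this, mul_zero]; exact zero_le
      by_cases hlow : p (HT ht A) (Dp zf A) ≤ th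
      · refine le_trans ?_ le_self_add
        refine mul_le_mul_right ?_ _
        simp only [hov, hlow, and_self, if_true]
        refine ENNReal.tsum_le_tsum fun L => ?_
        by_cases hL : fp ht (a - HT ht A) L
        · rw [if_pos hL]
          by_cases h3 : HT ht (A ++ L) = h ∧ Dp zf (A ++ L) = z ∧
            Sm Λ ht zf τ i0 th (J + 1) (A ++ L)
          · rw [if_pos h3, if_pos, mul_one]
            refine ⟨hL, ?_⟩
            have := h3.2.1
            rw [Dp_append] at this
            rw [← this]; abel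
          · rw [if_neg h3, mul_zero]; exact zero_le
        · rw [if_neg hL]; exact zero_le
      · refine le_trans ?_ le_add_self
        rw [if_pos ⟨hA, hlow⟩]
        refine mul_le_mul_right ?_ _
        refine le_trans ?_ (ih (a - HT ht A) ?_ (h - HT ht A) (z - Dp zf A))
        · refine ENNReal.tsum_le_tsum fun L => ?_
          by_cases hL : fp ht (a - HT ht A) L
          · rw [if_pos hL]
            by_cases h3 : HT ht (A ++ L) = h ∧ Dp zf (A ++ L) = z ∧
              Sm Λ ht zf τ i0 th (J + 1) (A ++ L)
            · rw [if_pos h3, if_pos, mul_one]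
              obtain ⟨h4, h5, A', R, h6, h7, h8, h9⟩ := h3
              have hAA := fp_unique ht hA h7 h6
              subst hAA
              have hR : L = R := List.append_cancel_left h6
              subst hR
              refine ⟨hL, ?_, ?_, ?_⟩
              · rw [HT_append] at h4; omega
              · rw [Dp_append] at h5; rw [← h5]; abel
              · rcases h9 with h9 | h9
                · exact absurd h9 hlow
                · exact h9
            · rw [if_neg h3, mul_zero]; exact zero_le
          · rw [if_neg hL]; exact zero_le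
        · have : (J + 1) * (τ + i0) = J * (τ + i0) + (τ + i0) := by ring
          omega
    refine (ENNReal.tsum_le_tsum key).trans ?_
    rw [ENNReal.tsum_add, ENNReal.tsum_mul_right]
    refine le_trans (add_le_add ?_ (mul_le_mul_left hq Gd)) hG
    rw [sum_hz (Λ := Λ) (ht := ht) (zf := zf) τ (fun h' z' => if h' ≤ τ + i0 ∧ p h' z' ≤ th then
            ∑' L, (if fp ht (a - h') L ∧ Dp zf L = z - z' then LW Λ L else 0) else 0)]
    calc ∑' h', ∑' z', p h' z' * (fun h' z' => if h' ≤ τ + i0 ∧ p h' z' ≤ th then
            ∑' L, (if fp ht (a - h') L ∧ Dp zf L = z - z' then LW Λ L else 0) else 0) h' z'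
        ≤ ∑' h' : ℕ, (if τ ≤ h' ∧ h' ≤ τ + i0 then th else 0) := by
          refine ENNReal.tsum_le_tsum fun h' => ?_
          by_cases hh : τ ≤ h'
          swap
          · have hz : ∀ z', p h' z' = 0 := by
              intro z'
              rw [hp, pL, ENNReal.tsum_eq_zero]
              intro P
              rw [if_neg]
              rintro ⟨h1, h2, -⟩
              have := le_HT_of_fp ht h1
              omega
            simp [hz]
          by_cases hh2 : h' ≤ τ + i0
          swap
          · simp [hh2]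
          rw [if_pos ⟨hh, hh2⟩]
          calc ∑' z', p h' z' * (fun h' z' => if h' ≤ τ + i0 ∧ p h' z' ≤ th then
            ∑' L, (if fp ht (a - h') L ∧ Dp zf L = z - z' then LW Λ L else 0) else 0) h' z'
              ≤ ∑' z', th * ∑' L, (if fp ht (a - h') L ∧ Dp zf L = z - z' then LW Λ L else 0) := by
                refine ENNReal.tsum_le_tsum fun z' => ?_
                by_cases hl : p h' z' ≤ th
                · simp only [hh2, hl, and_self, if_true]
                  exact mul_le_mul_left hl _
                · simp [hl]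
            _ = th * ∑' L, ∑' z', (if fp ht (a - h') L ∧ Dp zf L = z - z' then LW Λ L else 0) := by
                rw [ENNReal.tsum_mul_left, ENNReal.tsum_comm]
            _ = th * ∑' L, (if fp ht (a - h') L then LW Λ L else 0) := by
                congr 1
                refine tsum_congr fun L => ?_
                rw [tsum_eq_single (z - Dp zf L)]
                · by_cases h : fp ht (a - h') L <;> simp [h]
                · intro z' hz'
                  rw [if_neg]
                  rintro ⟨-, h2⟩
                  exact hz' (by rw [h2]; abel)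
            _ = th := by rw [sum_FP_eq Λ ht h1 hΛ, mul_one]
      _ = (i0 + 1 : ℕ) * th := by
          have : ∀ h' : ℕ, (if τ ≤ h' ∧ h' ≤ τ + i0 then th else 0)
              = (if h' ∈ Finset.Icc τ (τ + i0) then th else 0) := by
            intro h'; simp [Finset.mem_Icc]
          rw [tsum_congr this, tsum_eq_sum (s := Finset.Icc τ (τ + i0))
            (fun b hb => if_neg hb)]
          rw [Finset.sum_congr rfl (fun b hb => if_pos hb), Finset.sum_const, Nat.card_Icc,
            nsmul_eq_mul]
          congr 2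
          omega

open Classical in
/-- **density**, bad part. -/
theorem bad_le (h1 : ∀ b, 1 ≤ ht b) (hΛ : ∑' b, Λ b = 1) (τ i0 : ℕ) (th q ε : ℝ≥0∞)
    (hq : ∑' P, (if fp ht τ P ∧ ¬ pL Λ ht zf τ (HT ht P) (Dp zf P) ≤ th then LW Λ P else 0) ≤ q)
    (hq1 : q ≤ 1)
    (hε : ∑' P, (if fp ht τ P ∧ τ + i0 < HT ht P then LW Λ P else 0) ≤ ε) :
    ∀ J a, J * (τ + i0) ≤ a →
      ∑' L, (if fp ht a L ∧ ¬ Sm Λ ht zf τ i0 th J L then LW Λ L else 0) ≤ q ^ J + J * ε := by
  intro J
  induction J with
  | zero =>
    intro a ha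
    rw [pow_zero, Nat.cast_zero, zero_mul, add_zero]
    refine le_trans (ENNReal.tsum_le_tsum fun L => ?_) (sum_FP_eq Λ ht h1 hΛ a).le
    by_cases h : fp ht a L
    · rw [if_pos h]; split_ifs <;> simp
    · rw [if_neg (fun h' => h h'.1)]; exact zero_le
  | succ J ih =>
    intro a ha
    have hτa : τ ≤ a := by
      have : τ ≤ (J + 1) * (τ + i0) := by nlinarith
      omega
    set p := pL Λ ht zf τ with hp
    have e0 : ∀ L : List B, (if fp ht a L ∧ ¬ Sm Λ ht zf τ i0 th (J + 1) L then LW Λ L else 0)
        = (if fp ht a L then LW Λ L * (if ¬ Sm Λ ht zf τ i0 th (J + 1) L then 1 else 0) else 0) := by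
      intro L
      by_cases h1 : fp ht a L <;> by_cases h2 : Sm Λ ht zf τ i0 th (J + 1) L <;> simp [h1, h2]
    rw [tsum_congr e0, fp_split Λ ht h1 τ a hτa]
    have key : ∀ A : List B, (if fp ht τ A then LW Λ A *
          ∑' L, (if fp ht (a - HT ht A) L then LW Λ L * (if
            ¬ Sm Λ ht zf τ i0 th (J + 1) (A ++ L) then 1 else 0) else 0) else 0)
        ≤ (if fp ht τ A ∧ τ + i0 < HT ht A then LW Λ A else 0)
          + (if fp ht τ A ∧ ¬ p (HT ht A) (Dp zf A) ≤ th then LW Λ A else 0)
            * (q ^ J + J * ε) := by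
      intro A
      by_cases hA : fp ht τ A
      swap
      · simp [hA]
      rw [if_pos hA]
      have hsum1 : ∑' L, (if fp ht (a - HT ht A) L then LW Λ L * (if
            ¬ Sm Λ ht zf τ i0 th (J + 1) (A ++ L) then 1 else 0) else 0) ≤ 1 := by
        refine le_trans (ENNReal.tsum_le_tsum fun L => ?_) (sum_FP_eq Λ ht h1 hΛ (a - HT ht A)).le
        by_cases h : fp ht (a - HT ht A) L
        · rw [if_pos h, if_pos h]; split_ifs <;> simp
        · rw [if_neg h]; exact zero_le
      by_cases hov : HT ht A ≤ τ + i0
      swap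
      · refine le_trans ?_ le_self_add
        rw [if_pos ⟨hA, by omega⟩]
        calc LW Λ A * _ ≤ LW Λ A * 1 := mul_le_mul_right hsum1 _
          _ = LW Λ A := mul_one _
      · refine le_trans ?_ le_add_self
        by_cases hlow : p (HT ht A) (Dp zf A) ≤ th
        · have : ∑' L, (if fp ht (a - HT ht A) L then LW Λ L * (if
            ¬ Sm Λ ht zf τ i0 th (J + 1) (A ++ L) then 1 else 0) else 0) = (0 : ℝ≥0∞) := by
            rw [ENNReal.tsum_eq_zero]
            intro L
            by_cases hL : fp ht (a - HT ht A) L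
            · rw [if_pos hL, if_neg, mul_zero]
              rw [not_not]
              exact ⟨A, L, rfl, hA, hov, Or.inl hlow⟩
            · rw [if_neg hL]
          rw [this, mul_zero]; exact zero_le
        · rw [if_pos ⟨hA, hlow⟩]
          refine mul_le_mul_right ?_ _
          refine le_trans ?_ (ih (a - HT ht A) ?_)
          · refine ENNReal.tsum_le_tsum fun L => ?_
            by_cases hL : fp ht (a - HT ht A) L
            · rw [if_pos hL]
              by_cases h3 : Sm Λ ht zf τ i0 th (J + 1) (A ++ L)
              · rw [if_neg (not_not.2 h3), mul_zero]; exact zero_le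
              · rw [if_pos h3, if_pos, mul_one]
                refine ⟨hL, fun h4 => h3 ⟨A, L, rfl, hA, hov, Or.inr h4⟩⟩
            · rw [if_neg hL]; exact zero_le
          · have : (J + 1) * (τ + i0) = J * (τ + i0) + (τ + i0) := by ring
            omega
    refine (ENNReal.tsum_le_tsum key).trans ?_
    rw [ENNReal.tsum_add, ENNReal.tsum_mul_right]
    calc _ ≤ ε + q * (q ^ J + J * ε) := add_le_add hε (mul_le_mul_left hq _)
      _ ≤ ε + (q ^ (J + 1) + J * ε) := by
          refine add_le_add le_rfl ?_
          rw [mul_add, pow_succ, mul_comm q (q ^ J)]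
          refine add_le_add le_rfl ?_
          calc q * (J * ε) ≤ 1 * (J * ε) := mul_le_mul_left hq1 _
            _ = J * ε := one_mul _
      _ = q ^ (J + 1) + ((J + 1 : ℕ) : ℝ≥0∞) * ε := by push_cast; ring

end Crest.Agent.R154.Asm4
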