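import Crest.Agent.R154.B5Rec_566
import Crest.Agent.R154.Gap_583
import Crest.Agent.R154.Dens_616

/-! Row 154, ROAD 801 (helper456): first passage lists, attempts, smooth density. -/

set_option autoImplicit false

namespace Crest.Agent.R154.Asm456

open scoped ENNReal
open Crest.Agent.R154.B5A

section
variable {B G : Type*}

/-- `L` is a first passage list of depth `a` -/
def FP (ht : B → ℕ) : ℕ → List B → Prop
  | a, [] => a = 0
  | a, b :: L => a ≠ 0 ∧ FP ht (a - ht b) L

/-- split a list at the first passage of depth `a` -/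
def sp (ht : B → ℕ) : ℕ → List B → List B × List B
  | _, [] => ([], [])
  | a, b :: L => if a = 0 then ([], b :: L) else
      (b :: (sp ht (a - ht b) L).1, (sp ht (a - ht b) L).2)

lemma sp_app (ht : B → ℕ) (L : List B) : ∀ a, (sp ht a L).1 ++ (sp ht a L).2 = L := by
  induction L with
  | nil => intro a; simp [sp]
  | cons b L ih =>
    intro a
    by_cases h : a = 0
    · simp [sp, h]
    · simp [sp, h, ih]

lemma sp_FP (ht : B → ℕ) (L : List B) : ∀ a, a ≤ HT ht L → FP ht a (sp ht a L).1 := by
  induction L with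
  | nil => intro a h; rw [HT_nil] at h; simp [sp, FP]; omega
  | cons b L ih =>
    intro a h
    rw [HT_cons] at h
    by_cases h0 : a = 0
    · simp [sp, FP, h0]
    · simp only [sp, h0, if_false, FP, ne_eq, not_false_eq_true, true_and]
      exact ih _ (by omega)

lemma FP_le (ht : B → ℕ) (L : List B) : ∀ a, FP ht a L → a ≤ HT ht L := by
  induction L with
  | nil => intro a h; simp [FP] at h; omega
  | cons b L ih =>
    intro a h
    have := ih _ h.2
    rw [HT_cons]; omega

lemma FP_concat (ht : B → ℕ) (b : B) (L : List B) :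
    ∀ a, FP ht a (L ++ [b]) → HT ht L < a := by
  induction L with
  | nil => intro a h; rw [HT_nil]; exact Nat.pos_of_ne_zero h.1
  | cons c L ih =>
    intro a h
    have := ih _ h.2
    rw [HT_cons]; omega

open Classical in
lemma split_le (ht : B → ℕ) (a : ℕ) (g : List B → ℝ≥0∞) (hg : ∀ L, g L ≠ 0 → a ≤ HT ht L) :
    ∑' L, g L ≤ ∑' L1, ∑' L2, (if FP ht a L1 then g (L1 ++ L2) else 0) := by
  set F : List B × List B → ℝ≥0∞ := fun p => if FP ht a p.1 then g (p.1 ++ p.2) else 0 with hF
  have hinj : Function.Injective (sp ht a) := by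
    intro L L' h
    rw [← sp_app ht L a, ← sp_app ht L' a, h]
  have h1 : ∀ L, g L ≤ F (sp ht a L) := by
    intro L
    by_cases h0 : g L = 0
    · rw [h0]; exact zero_le
    · simp only [hF]
      rw [if_pos (sp_FP ht L a (hg L h0)), sp_app]
  calc ∑' L, g L ≤ ∑' L, F (sp ht a L) := ENNReal.tsum_le_tsum h1
    _ ≤ ∑' p, F p := ENNReal.tsum_comp_le_tsum_of_injective hinj F
    _ = _ := ENNReal.tsum_prod'

open Classical in
lemma mass_one (Λ : B → ℝ≥0∞) (ht : B → ℕ) (h1 : ∀ b, 1 ≤ ht b) (hΛ : ∑' b, Λ b = 1) :
    ∀ a, ∑' L, (if FP ht a L then LW Λ L else 0) = 1 := by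
  intro a
  induction a using Nat.strong_induction_on with
  | _ a ih =>
    by_cases h0 : a = 0
    · subst h0
      rw [tsum_list]
      simp [FP, LW_nil]
    · rw [tsum_list]
      have e : ∀ b, ∑' L, (if FP ht a (b :: L) then LW Λ (b :: L) else 0) = Λ b := by
        intro b
        calc ∑' L, (if FP ht a (b :: L) then LW Λ (b :: L) else 0)
            = ∑' L, Λ b * (if FP ht (a - ht b) L then LW Λ L else 0) := by
              refine tsum_congr fun L => ?_
              by_cases h : FP ht (a - ht b) L
              · rw [if_pos ⟨h0, h⟩, if_pos h, LW_cons]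
              · rw [if_neg (fun hh => h hh.2), if_neg h, mul_zero]
          _ = Λ b := by
              rw [ENNReal.tsum_mul_left, ih (a - ht b) (by have := h1 b; omega), mul_one]
      simp_rw [e, hΛ]
      simp [FP, h0]

open Classical in
lemma over_le (Λ : B → ℝ≥0∞) (ht : B → ℕ) (hU1 : ∀ n, U Λ ht n ≤ 1) (a i0 : ℕ) :
    ∑' L, (if FP ht a L ∧ a + i0 < HT ht L then LW Λ L else 0)
      ≤ ∑' b, Λ b * ((ht b - i0 : ℕ) : ℝ≥0∞) := by
  set g : List B → ℝ≥0∞ := fun L => if FP ht a L ∧ a + i0 < HT ht L then LW Λ L else 0 with hg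
  have hinj : Function.Injective (fun p : B × List B => p.2 ++ [p.1]) := by
    rintro ⟨b, L⟩ ⟨b', L'⟩ h
    simp only at h
    obtain ⟨h1, h2⟩ := List.append_inj' h rfl
    simp only [List.cons.injEq, and_true] at h2
    rw [h1, h2]
  have hs : Function.support g ⊆ Set.range (fun p : B × List B => p.2 ++ [p.1]) := by
    intro L hL
    rcases List.eq_nil_or_concat L with h | ⟨L', b, h⟩
    · exfalso
      apply hL
      simp only [hg]
      rw [if_neg]
      rintro ⟨h1, h2⟩
      rw [h, HT_nil] at h2
      omega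
    · exact ⟨(b, L'), by simp [h]⟩
  have e : ∑' L, g L = ∑' p : B × List B, g (p.2 ++ [p.1]) := (hinj.tsum_eq hs).symm
  rw [e, ENNReal.tsum_prod']
  refine ENNReal.tsum_le_tsum fun b => ?_
  have h2 : ∀ L1 : List B, g (L1 ++ [b])
      ≤ Λ b * ∑ j ∈ (Finset.range a).filter (fun j => a + i0 < j + ht b),
          (if HT ht L1 = j then LW Λ L1 else 0) := by
    intro L1
    by_cases hc : FP ht a (L1 ++ [b]) ∧ a + i0 < HT ht (L1 ++ [b])
    · have h3 := FP_concat ht b L1 a hc.1
      have h4 := hc.2
      rw [HT_append, HT_cons, HT_nil, add_zero] at h4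
      have hs : ∑ j ∈ (Finset.range a).filter (fun j => a + i0 < j + ht b),
          (if HT ht L1 = j then LW Λ L1 else 0) = LW Λ L1 := by
        rw [Finset.sum_ite_eq, if_pos]
        rw [Finset.mem_filter, Finset.mem_range]
        exact ⟨h3, h4⟩
      rw [hs]
      simp only [hg]
      rw [if_pos hc, LW_append, LW_cons, LW_nil, mul_one, mul_comm]
    · simp only [hg]
      rw [if_neg hc]
      exact zero_le
  calc ∑' L1 : List B, g (L1 ++ [b])
      ≤ ∑' L1 : List B, Λ b * ∑ j ∈ (Finset.range a).filter (fun j => a + i0 < j + ht b),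
          (if HT ht L1 = j then LW Λ L1 else 0) := ENNReal.tsum_le_tsum h2
    _ = Λ b * ∑ j ∈ (Finset.range a).filter (fun j => a + i0 < j + ht b), U Λ ht j := by
        rw [ENNReal.tsum_mul_left, Summable.tsum_finsetSum (fun _ _ => ENNReal.summable)]
        rfl
    _ ≤ Λ b * ∑ j ∈ (Finset.range a).filter (fun j => a + i0 < j + ht b), 1 :=
        mul_le_mul_right (Finset.sum_le_sum fun j _ => hU1 j) _
    _ ≤ Λ b * ((ht b - i0 : ℕ) : ℝ≥0∞) := by
        refine mul_le_mul_right ?_ _
        rw [Finset.sum_const, nsmul_eq_mul, mul_one]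
        have hcard : ((Finset.range a).filter (fun j => a + i0 < j + ht b)).card
            ≤ ht b - i0 := by
          have hsub : (Finset.range a).filter (fun j => a + i0 < j + ht b)
              ⊆ Finset.Ico (a - (ht b - i0)) a := by
            intro j hj
            rw [Finset.mem_filter, Finset.mem_range] at hj
            rw [Finset.mem_Ico]
            omega
          refine (Finset.card_le_card hsub).trans ?_
          rw [Nat.card_Ico]
          omega
        exact_mod_cast hcard

end

section
variable {B G : Type*} [AddCommGroup G]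

/-- total displacement -/
def Dp (z : B → G) (L : List B) : G := (L.map z).sum

lemma Dp_nil (z : B → G) : Dp z [] = 0 := by simp [Dp]
lemma Dp_cons (z : B → G) (b : B) (L : List B) : Dp z (b :: L) = z b + Dp z L := by simp [Dp]
lemma Dp_append (z : B → G) (L L' : List B) : Dp z (L ++ L') = Dp z L + Dp z L' := by simp [Dp]

variable (Λ : B → ℝ≥0∞) (ht : B → ℕ) (z : B → G) (S i0 : ℕ)

open Classical in
/-- iterated attempts: `J` successive first passages of `S`, all of overshoot `≤ i0` -/
noncomputable def IJ : ℕ → (List B → ℝ≥0∞) → ℝ≥0∞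
  | 0, F => F []
  | J + 1, F => ∑' P, (if FP ht S P ∧ HT ht P ≤ S + i0 then
      LW Λ P * IJ J (fun Q => F (P ++ Q)) else 0)

lemma IJ_mono (J : ℕ) : ∀ {F F' : List B → ℝ≥0∞}, (∀ L, F L ≤ F' L) →
    IJ Λ ht S i0 J F ≤ IJ Λ ht S i0 J F' := by
  classical
  induction J with
  | zero => intro F F' h; exact h []
  | succ J ih =>
    intro F F' h
    simp only [IJ]
    refine ENNReal.tsum_le_tsum fun P => ?_
    by_cases hP : FP ht S P ∧ HT ht P ≤ S + i0
    · rw [if_pos hP, if_pos hP]
      exact mul_le_mul_right (ih fun Q => h _) _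
    · rw [if_neg hP]; exact zero_le

open Classical in
/-- bound of a sum over the lists of height `n` by attempts -/
lemma att_le (h1 : ∀ b, 1 ≤ ht b) (hΛ : ∑' b, Λ b = 1) (hU1 : ∀ n, U Λ ht n ≤ 1) (J : ℕ) :
    ∀ (n : ℕ) (F : List B → ℝ≥0∞), (∀ L, F L ≤ 1) → J * (S + i0) ≤ n →
    ∑' L, (if HT ht L = n then LW Λ L * F L else 0)
      ≤ J * (∑' b, Λ b * ((ht b - i0 : ℕ) : ℝ≥0∞))
        + IJ Λ ht S i0 J (fun A => ∑' R, (if HT ht A + HT ht R = n then
            LW Λ R * F (A ++ R) else 0)) := by
  induction J with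
  | zero =>
    intro n F hF hn
    simp only [IJ, HT_nil, zero_add, List.nil_append, Nat.cast_zero, zero_mul]
    exact le_rfl
  | succ J ih =>
    intro n F hF hn
    set e := ∑' b, Λ b * ((ht b - i0 : ℕ) : ℝ≥0∞) with he
    have hn1 : S + i0 ≤ n := le_trans (by nlinarith) hn
    have s1 := split_le ht S (fun L => if HT ht L = n then LW Λ L * F L else 0) (by
      intro L hL
      by_contra hc
      apply hL
      rw [if_neg (by omega)])
    refine s1.trans ?_
    have s2 : ∀ P : List B, ∑' L2, (if FP ht S P then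
        (if HT ht (P ++ L2) = n then LW Λ (P ++ L2) * F (P ++ L2) else 0) else 0)
        ≤ (if FP ht S P ∧ S + i0 < HT ht P then LW Λ P else 0)
          + (if FP ht S P ∧ HT ht P ≤ S + i0 then LW Λ P * (J * e + IJ Λ ht S i0 J
            (fun Q => ∑' R, (if HT ht (P ++ Q) + HT ht R = n then
              LW Λ R * F (P ++ Q ++ R) else 0))) else 0) := by
      intro P
      by_cases hP : FP ht S P
      · by_cases ho : HT ht P ≤ S + i0
        · rw [if_neg (fun h => absurd h.2 (by omega)), if_pos ⟨hP, ho⟩, zero_add]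
          have hr : ∀ L2, (if FP ht S P then
              (if HT ht (P ++ L2) = n then LW Λ (P ++ L2) * F (P ++ L2) else 0) else 0)
              = LW Λ P * (if HT ht L2 = n - HT ht P then LW Λ L2 * F (P ++ L2) else 0) := by
            intro L2
            rw [if_pos hP, HT_append]
            by_cases h : HT ht P + HT ht L2 = n
            · rw [if_pos h, if_pos (by omega), LW_append, mul_assoc]
            · rw [if_neg h, if_neg (by omega), mul_zero]
          simp_rw [hr]
          rw [ENNReal.tsum_mul_left]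
          refine mul_le_mul_right ?_ _
          have hi := ih (n - HT ht P) (fun L => F (P ++ L)) (fun L => hF _) (by
            have : (J + 1) * (S + i0) = J * (S + i0) + (S + i0) := by ring
            omega)
          refine hi.trans (add_le_add le_rfl (IJ_mono Λ ht S i0 J fun Q => ?_))
          refine ENNReal.tsum_le_tsum fun R => ?_
          rw [HT_append, List.append_assoc]
          by_cases h : HT ht Q + HT ht R = n - HT ht P
          · rw [if_pos h, if_pos (by omega)]
          · rw [if_neg h]; exact zero_le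
        · rw [if_pos ⟨hP, by omega⟩, if_neg (fun h => ho h.2), add_zero]
          calc _ ≤ ∑' L2, LW Λ P * (if HT ht L2 = n - HT ht P then LW Λ L2 else 0) := by
                refine ENNReal.tsum_le_tsum fun L2 => ?_
                rw [if_pos hP, HT_append]
                by_cases h : HT ht P + HT ht L2 = n
                · rw [if_pos h, if_pos (by omega), LW_append, mul_assoc]
                  refine mul_le_mul_right ?_ _
                  calc _ ≤ LW Λ L2 * 1 := mul_le_mul_right (hF _) _
                    _ = _ := mul_one _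
                · rw [if_neg h]; exact zero_le
            _ = LW Λ P * U Λ ht (n - HT ht P) := by rw [ENNReal.tsum_mul_left]; rfl
            _ ≤ LW Λ P * 1 := mul_le_mul_right (hU1 _) _
            _ = _ := mul_one _
      · have : ∀ L2, (if FP ht S P then
            (if HT ht (P ++ L2) = n then LW Λ (P ++ L2) * F (P ++ L2) else 0) else 0)
            = (0 : ℝ≥0∞) := fun L2 => if_neg hP
        simp only [this, tsum_zero]
        exact zero_le
    refine (ENNReal.tsum_le_tsum s2).trans ?_
    rw [ENNReal.tsum_add]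
    have s3 : ∑' P, (if FP ht S P ∧ HT ht P ≤ S + i0 then LW Λ P * (J * e + IJ Λ ht S i0 J
            (fun Q => ∑' R, (if HT ht (P ++ Q) + HT ht R = n then
              LW Λ R * F (P ++ Q ++ R) else 0))) else 0)
        ≤ J * e + IJ Λ ht S i0 (J + 1) (fun A => ∑' R, (if HT ht A + HT ht R = n then
            LW Λ R * F (A ++ R) else 0)) := by
      have : ∀ P, (if FP ht S P ∧ HT ht P ≤ S + i0 then LW Λ P * (J * e + IJ Λ ht S i0 J
            (fun Q => ∑' R, (if HT ht (P ++ Q) + HT ht R = n then
              LW Λ R * F (P ++ Q ++ R) else 0))) else 0)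
          ≤ (if FP ht S P then LW Λ P else 0) * (J * e)
            + (if FP ht S P ∧ HT ht P ≤ S + i0 then LW Λ P * IJ Λ ht S i0 J
            (fun Q => ∑' R, (if HT ht (P ++ Q) + HT ht R = n then
              LW Λ R * F (P ++ Q ++ R) else 0)) else 0) := by
        intro P
        by_cases hP : FP ht S P ∧ HT ht P ≤ S + i0
        · rw [if_pos hP, if_pos hP.1, if_pos hP, mul_add]
        · rw [if_neg hP]; exact zero_le
      refine (ENNReal.tsum_le_tsum this).trans ?_
      rw [ENNReal.tsum_add, ENNReal.tsum_mul_right, mass_one Λ ht h1 hΛ S, one_mul]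
      exact le_rfl
    calc _ ≤ e + (J * e + IJ Λ ht S i0 (J + 1) (fun A => ∑' R, (if HT ht A + HT ht R = n then
            LW Λ R * F (A ++ R) else 0))) :=
          add_le_add (over_le Λ ht hU1 S i0) s3
      _ = _ := by push_cast; ring

/-- position after a list -/
def pos (L : List B) : ℤ × G := ((HT ht L : ℤ), Dp z L)

lemma pos_nil : pos ht z ([] : List B) = 0 := by simp [pos, HT_nil, Dp_nil]

lemma pos_append (L L' : List B) : pos ht z (L ++ L') = pos ht z L + pos ht z L' := by
  simp only [pos, HT_append, Dp_append, Prod.mk_add_mk]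
  push_cast
  rfl

open Classical in
/-- law of one attempt -/
noncomputable def pp (y : ℤ × G) : ℝ≥0∞ := ∑' P, (if FP ht S P ∧ pos ht z P = y then LW Λ P else 0)

open Classical in
/-- law of `J` attempts -/
noncomputable def ff : ℕ → ℤ × G → ℝ≥0∞
  | 0, x => if x = 0 then 1 else 0
  | J + 1, x => ∑' y, pp Λ ht z S y * ff J (x - y)

open Classical in
lemma sum_pos (g : List B → ℝ≥0∞) (Φ : ℤ × G → ℝ≥0∞) :
    ∑' P, g P * Φ (pos ht z P) = ∑' y, (∑' P, if pos ht z P = y then g P else 0) * Φ y := by
  calc ∑' P, g P * Φ (pos ht z P)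
      = ∑' P, ∑' y, (if pos ht z P = y then g P * Φ y else 0) := by
        refine tsum_congr fun P => ?_
        rw [tsum_eq_single (pos ht z P) (fun y hy => if_neg (Ne.symm hy)), if_pos rfl]
    _ = ∑' y, ∑' P, (if pos ht z P = y then g P * Φ y else 0) := ENNReal.tsum_comm
    _ = _ := by
        refine tsum_congr fun y => ?_
        rw [← ENNReal.tsum_mul_right]
        refine tsum_congr fun P => ?_
        by_cases h : pos ht z P = y
        · rw [if_pos h, if_pos h]
        · rw [if_neg h, if_neg h, zero_mul]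

lemma pp_mass (h1 : ∀ b, 1 ≤ ht b) (hΛ : ∑' b, Λ b = 1) : ∑' y, pp Λ ht z S y = 1 := by
  classical
  have h := sum_pos ht z (fun P => if FP ht S P then LW Λ P else 0) (fun _ => 1)
  simp only [mul_one] at h
  rw [mass_one Λ ht h1 hΛ S] at h
  rw [h]
  refine tsum_congr fun y => ?_
  refine tsum_congr fun P => ?_
  by_cases hP : FP ht S P
  · by_cases hy : pos ht z P = y
    · rw [if_pos ⟨hP, hy⟩, if_pos hy, if_pos hP]
    · rw [if_neg (fun h => hy h.2), if_neg hy]
  · rw [if_neg (fun h => hP h.1)]
    split_ifs <;> rfl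

lemma ff_mass (h1 : ∀ b, 1 ≤ ht b) (hΛ : ∑' b, Λ b = 1) (J : ℕ) :
    ∑' x, ff Λ ht z S J x = 1 := by
  classical
  induction J with
  | zero => simp [ff]
  | succ J ih =>
    simp only [ff]
    rw [ENNReal.tsum_comm]
    have : ∀ y, ∑' x, pp Λ ht z S y * ff Λ ht z S J (x - y) = pp Λ ht z S y := by
      intro y
      have e2 : ∑' x, ff Λ ht z S J (x - y) = ∑' x, ff Λ ht z S J x :=
        (Equiv.subRight y).tsum_eq (ff Λ ht z S J)
      rw [ENNReal.tsum_mul_left, e2, ih, mul_one]
    simp_rw [this]
    exact pp_mass Λ ht z S h1 hΛ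

/-- the attempts in terms of the law `ff` -/
lemma IJ_le (J : ℕ) : ∀ (Φ : ℤ × G → ℝ≥0∞),
    IJ Λ ht S i0 J (fun A => Φ (pos ht z A)) ≤ ∑' x, (if x.1 ≤ ((J * (S + i0) : ℕ) : ℤ) ∧
      ((J * S : ℕ) : ℤ) ≤ x.1 then ff Λ ht z S J x * Φ x else 0) := by
  classical
  induction J with
  | zero =>
    intro Φ
    simp only [IJ, ff]
    rw [tsum_eq_single (0 : ℤ × G)]
    · rw [pos_nil]; simp
    · intro x hx
      split_ifs <;> simp_all
  | succ J ih =>
    intro Φ
    simp only [IJ]
    set Ψ : ℤ × G → ℝ≥0∞ := fun y => ∑' x, (if x.1 ≤ ((J * (S + i0) : ℕ) : ℤ) ∧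
      ((J * S : ℕ) : ℤ) ≤ x.1 ∧ y.1 ≤ ((S + i0 : ℕ) : ℤ) ∧ (S : ℤ) ≤ y.1
      then ff Λ ht z S J x * Φ (y + x) else 0) with hΨ
    calc ∑' P, (if FP ht S P ∧ HT ht P ≤ S + i0 then
        LW Λ P * IJ Λ ht S i0 J (fun Q => Φ (pos ht z (P ++ Q))) else 0)
        ≤ ∑' P, (if FP ht S P then LW Λ P else 0) * Ψ (pos ht z P) := by
          refine ENNReal.tsum_le_tsum fun P => ?_
          by_cases hP : FP ht S P ∧ HT ht P ≤ S + i0
          · rw [if_pos hP, if_pos hP.1]
            refine mul_le_mul_right ?_ _
            have := ih (fun x => Φ (pos ht z P + x))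
            refine le_trans (le_of_eq ?_) (this.trans ?_)
            · congr 1
              funext Q
              rw [pos_append]
            · simp only [hΨ]
              refine ENNReal.tsum_le_tsum fun x => ?_
              by_cases hx : x.1 ≤ ((J * (S + i0) : ℕ) : ℤ) ∧ ((J * S : ℕ) : ℤ) ≤ x.1
              · rw [if_pos hx, if_pos ⟨hx.1, hx.2, by simp only [pos]; exact_mod_cast hP.2,
                  by simp only [pos]; exact_mod_cast FP_le ht P S hP.1⟩]
              · rw [if_neg hx]; exact zero_le
          · rw [if_neg hP]; exact zero_le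
      _ = ∑' y, pp Λ ht z S y * Ψ y := by
          rw [sum_pos ht z (fun P => if FP ht S P then LW Λ P else 0) Ψ]
          refine tsum_congr fun y => ?_
          congr 1
          refine tsum_congr fun P => ?_
          by_cases hy : pos ht z P = y
          · by_cases hP : FP ht S P
            · rw [if_pos hy, if_pos hP, if_pos ⟨hP, hy⟩]
            · rw [if_pos hy, if_neg hP, if_neg (fun h => hP h.1)]
          · rw [if_neg hy, if_neg (fun h => hy h.2)]
      _ ≤ ∑' y, ∑' x, (if x.1 ≤ (((J + 1) * (S + i0) : ℕ) : ℤ) ∧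
            (((J + 1) * S : ℕ) : ℤ) ≤ x.1 then
            pp Λ ht z S y * ff Λ ht z S J (x - y) * Φ x else 0) := by
          refine ENNReal.tsum_le_tsum fun y => ?_
          rw [← (Equiv.addLeft y).tsum_eq (fun x : ℤ × G =>
            (if x.1 ≤ (((J + 1) * (S + i0) : ℕ) : ℤ) ∧ (((J + 1) * S : ℕ) : ℤ) ≤ x.1 then
            pp Λ ht z S y * ff Λ ht z S J (x - y) * Φ x else 0))]
          simp only [hΨ]
          rw [← ENNReal.tsum_mul_left]
          refine ENNReal.tsum_le_tsum fun x => ?_
          by_cases hx : x.1 ≤ ((J * (S + i0) : ℕ) : ℤ) ∧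
            ((J * S : ℕ) : ℤ) ≤ x.1 ∧ y.1 ≤ ((S + i0 : ℕ) : ℤ) ∧ (S : ℤ) ≤ y.1
          · rw [if_pos hx]
            obtain ⟨a1, a2, a3, a4⟩ := hx
            have e1 : ((Equiv.addLeft y) x).1 = y.1 + x.1 := rfl
            rw [if_pos]
            · have : (Equiv.addLeft y) x - y = x := by simp
              rw [this]
              simp only [Equiv.coe_addLeft]
              rw [mul_assoc]
            · rw [e1]
              push_cast at a1 a2 a3 a4 ⊢
              constructor <;> nlinarith
          · rw [if_neg hx, mul_zero]; exact zero_le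
      _ = _ := by
          rw [ENNReal.tsum_comm]
          refine tsum_congr fun x => ?_
          by_cases hx : x.1 ≤ (((J + 1) * (S + i0) : ℕ) : ℤ) ∧ (((J + 1) * S : ℕ) : ℤ) ≤ x.1
          · simp only [if_pos hx, ff]
            rw [ENNReal.tsum_mul_right]
          · simp only [if_neg hx, tsum_zero]

/-- smooth density -/
lemma ff_dens (h1 : ∀ b, 1 ≤ ht b) (hΛ : ∑' b, Λ b = 1) (th u : ℝ≥0∞) (hu0 : u ≠ 0)
    (hu1 : u ≤ 1) (hth : u ≤ ∑' y, (if pp Λ ht z S y ≤ th then pp Λ ht z S y else 0)) (J : ℕ) :
    ∃ b : ℤ × G → ℝ≥0∞, (∑' x, b x ≤ (1 - u) ^ J) ∧ ∀ x, ff Λ ht z S J x ≤ th / u + b x := by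
  classical
  have hu' : u ≠ ⊤ := ne_top_of_le_ne_top ENNReal.one_ne_top hu1
  induction J with
  | zero =>
    refine ⟨ff Λ ht z S 0, ?_, fun x => le_add_self⟩
    rw [pow_zero, ff_mass Λ ht z S h1 hΛ 0]
  | succ J ih =>
    obtain ⟨b, hb1, hb2⟩ := ih
    set p := pp Λ ht z S with hp
    set f := ff Λ ht z S J with hf
    refine ⟨fun x => ∑' y, (if th < p y then p y * b (x - y) else 0), ?_, ?_⟩
    · rw [ENNReal.tsum_comm]
      have e : ∀ y, ∑' x, (if th < p y then p y * b (x - y) else 0)
          = (if th < p y then p y else 0) * ∑' x, b x := by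
        intro y
        by_cases h : th < p y
        · simp only [if_pos h]
          have e2 : ∑' x, b (x - y) = ∑' x, b x := (Equiv.subRight y).tsum_eq b
          rw [ENNReal.tsum_mul_left, e2]
        · simp only [if_neg h, tsum_zero, zero_mul]
      simp_rw [e]
      rw [ENNReal.tsum_mul_right, pow_succ, mul_comm]
      refine mul_le_mul' hb1 ?_
      have hsum : (∑' y, (if p y ≤ th then p y else 0)) + ∑' y, (if th < p y then p y else 0) = 1 := by
        rw [← ENNReal.tsum_add, ← pp_mass Λ ht z S h1 hΛ]
        refine tsum_congr fun y => ?_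
        by_cases h : p y ≤ th
        · rw [if_pos h, if_neg (not_lt.2 h), add_zero]
        · rw [if_neg h, if_pos (not_le.1 h), zero_add]
      refine ENNReal.le_sub_of_add_le_left hu' ?_
      rw [← hsum]
      exact add_le_add hth le_rfl
    · intro x
      simp only [ff]
      have h2 : ∀ y, p y * f (x - y) ≤ th * f (x - y) * 1
          ⊓ ⊤ + (if th < p y then p y * (th / u) else 0)
            + (if th < p y then p y * b (x - y) else 0) := by
        intro y
        simp only [mul_one, inf_top_eq]
        by_cases h : th < p y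
        · rw [if_pos h, if_pos h]
          calc p y * f (x - y) ≤ p y * (th / u + b (x - y)) := mul_le_mul_right (hb2 _) _
            _ = p y * (th / u) + p y * b (x - y) := mul_add _ _ _
            _ ≤ _ := by rw [add_assoc]; exact le_add_self
        · rw [if_neg h, if_neg h, add_zero, add_zero]
          exact mul_le_mul_left (not_lt.1 h) _
      have h3 : ∑' y, f (x - y) = 1 := by
        have e2 : ∑' y, f (x - y) = ∑' y, f y := (Equiv.subLeft x).tsum_eq f
        rw [e2]
        exact ff_mass Λ ht z S h1 hΛ J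
      have h4 : ∑' y, (if th < p y then p y else 0) ≤ 1 - u := by
        have hsum : (∑' y, (if p y ≤ th then p y else 0)) + ∑' y, (if th < p y then p y else 0)
            = 1 := by
          rw [← ENNReal.tsum_add, ← pp_mass Λ ht z S h1 hΛ]
          refine tsum_congr fun y => ?_
          by_cases h : p y ≤ th
          · rw [if_pos h, if_neg (not_lt.2 h), add_zero]
          · rw [if_neg h, if_pos (not_le.1 h), zero_add]
        refine ENNReal.le_sub_of_add_le_left hu' ?_
        rw [← hsum]
        exact add_le_add hth le_rfl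
      calc ∑' y, p y * f (x - y)
          ≤ ∑' y, (th * f (x - y) + (if th < p y then p y else 0) * (th / u)
            + (if th < p y then p y * b (x - y) else 0)) := by
            refine ENNReal.tsum_le_tsum fun y => (h2 y).trans (le_of_eq ?_)
            simp only [mul_one, inf_top_eq]
            congr 2
            split_ifs <;> simp
        _ = th * 1 + (∑' y, (if th < p y then p y else 0)) * (th / u)
            + ∑' y, (if th < p y then p y * b (x - y) else 0) := by
            rw [ENNReal.tsum_add, ENNReal.tsum_add, ENNReal.tsum_mul_left,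
              ENNReal.tsum_mul_right, h3]
        _ ≤ th * 1 + (1 - u) * (th / u)
            + ∑' y, (if th < p y then p y * b (x - y) else 0) := by gcongr
        _ = th / u + _ := by
            congr 1
            have : th * 1 = u * (th / u) := by
              rw [mul_one, ENNReal.mul_div_cancel hu0 hu']
            rw [this, ← add_mul, add_tsub_cancel_of_le hu1, one_mul]

end

end Crest.Agent.R154.Asm456
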