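import Crest.Agent.R154.B5Abs_566

/-! Row 154, ROAD 801 (helper470): first passage lists of a single renewal walker. -/

set_option autoImplicit false

namespace Crest.Agent.R154.Asm470

open scoped ENNReal
open Crest.Agent.R154.B5A (LW HT U tail)

variable {B G : Type*}

/-- displacement of a list -/
def Dp [AddCommGroup G] (z : B → G) (L : List B) : G := (L.map z).sum

/-- first passage lists of depth `a` -/
def FP (h : B → ℕ) : List B → ℕ → Prop
  | [], a => a = 0
  | b :: L, a => a ≠ 0 ∧ FP h L (a - h b)

/-- cut a list at depth `a` -/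
def cut (h : B → ℕ) : List B → ℕ → List B × List B
  | [], _ => ([], [])
  | b :: L, 0 => ([], b :: L)
  | b :: L, (a + 1) => (b :: (cut h L (a + 1 - h b)).1, (cut h L (a + 1 - h b)).2)

lemma cut_app (h : B → ℕ) (L : List B) (a : ℕ) : (cut h L a).1 ++ (cut h L a).2 = L := by
  induction L generalizing a with
  | nil => rfl
  | cons b L ih =>
    cases a with
    | zero => rfl
    | succ a => simp [cut, ih]

lemma FP_cut (h : B → ℕ) (L : List B) (a : ℕ) (ha : a ≤ HT h L) : FP h (cut h L a).1 a := by
  induction L generalizing a with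
  | nil =>
    simp only [HT, List.map_nil, List.sum_nil, Nat.le_zero] at ha
    simpa [cut, FP] using ha
  | cons b L ih =>
    cases a with
    | zero => simp [cut, FP]
    | succ a =>
      simp only [cut, FP]
      refine ⟨by omega, ih _ ?_⟩
      rw [B5A.HT_cons] at ha
      omega

lemma FP_le (h : B → ℕ) (L : List B) (a : ℕ) (hf : FP h L a) : a ≤ HT h L := by
  induction L generalizing a with
  | nil => simp only [FP] at hf; omega
  | cons b L ih =>
    obtain ⟨h0, h1⟩ := hf
    have := ih _ h1
    rw [B5A.HT_cons]; omega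

lemma FP_append (h : B → ℕ) (L L' : List B) (a : ℕ) (hf : FP h (L ++ L') a) :
    FP h L' (a - HT h L) := by
  induction L generalizing a with
  | nil => simpa [HT] using hf
  | cons b L ih =>
    have := ih _ hf.2
    rwa [B5A.HT_cons, ← Nat.sub_sub]

lemma FP_snoc (h : B → ℕ) (L : List B) (b : B) (a : ℕ) (hf : FP h (L ++ [b]) a) :
    HT h L < a := by
  induction L generalizing a with
  | nil =>
    obtain ⟨h0, -⟩ := hf
    simp only [HT, List.map_nil, List.sum_nil]; omega
  | cons c L ih =>
    obtain ⟨h0, h1⟩ := hf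
    have := ih _ h1
    rw [B5A.HT_cons]; omega

lemma HT_nil' (h : B → ℕ) : HT h ([] : List B) = 0 := rfl

lemma cut_FP_pre (h : B → ℕ) (L : List B) (a T : ℕ) (hf : FP h L a) (hT : T ≤ a) :
    FP h (cut h L T).1 T := FP_cut h L T (hT.trans (FP_le h L a hf))

variable (Λ : B → ℝ≥0∞) (h : B → ℕ)

open Classical in
/-- sum over first passage lists -/
noncomputable def FS (a : ℕ) (F : List B → ℝ≥0∞) : ℝ≥0∞ :=
  ∑' L : List B, if FP h L a then LW Λ L * F L else 0

lemma FS_mono (a : ℕ) {F F' : List B → ℝ≥0∞} (hF : ∀ L, FP h L a → F L ≤ F' L) :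
    FS Λ h a F ≤ FS Λ h a F' := by
  refine ENNReal.tsum_le_tsum fun L => ?_
  split_ifs with hL
  · exact mul_le_mul_right (hF L hL) _
  · exact le_rfl

lemma FS_add (a : ℕ) (F F' : List B → ℝ≥0∞) :
    FS Λ h a (fun L => F L + F' L) = FS Λ h a F + FS Λ h a F' := by
  rw [FS, FS, FS, ← ENNReal.tsum_add]
  refine tsum_congr fun L => ?_
  split_ifs
  · rw [mul_add]
  · simp

lemma FS_mul (a : ℕ) (c : ℝ≥0∞) (F : List B → ℝ≥0∞) :
    FS Λ h a (fun L => F L * c) = FS Λ h a F * c := by
  rw [FS, FS, ← ENNReal.tsum_mul_right]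
  refine tsum_congr fun L => ?_
  split_ifs
  · rw [mul_assoc]
  · simp

lemma FS_one (h1 : ∀ b, 1 ≤ h b) (hΛ : ∑' b, Λ b = 1) (a : ℕ) :
    FS Λ h a (fun _ => 1) = 1 := by
  classical
  induction a using Nat.strong_induction_on with
  | _ a ih =>
    rw [FS, B5A.tsum_list]
    rcases Nat.eq_zero_or_pos a with rfl | ha
    · simp [FP, B5A.LW_nil]
    · have e0 : ¬ FP h [] a := by simp only [FP]; omega
      rw [if_neg e0, zero_add]
      calc _ = ∑' b, Λ b * FS Λ h (a - h b) (fun _ => 1) := by
            refine tsum_congr fun b => ?_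
            rw [FS, ← ENNReal.tsum_mul_left]
            refine tsum_congr fun L => ?_
            have : FP h (b :: L) a ↔ FP h L (a - h b) := by
              simp only [FP]; exact ⟨fun h => h.2, fun h => ⟨by omega, h⟩⟩
            simp only [this, B5A.LW_cons, mul_one]
            split_ifs <;> simp
        _ = ∑' b, Λ b := by
            refine tsum_congr fun b => ?_
            rw [ih (a - h b) (by have := h1 b; omega), mul_one]
        _ = 1 := hΛ

lemma FS_le (h1 : ∀ b, 1 ≤ h b) (hΛ : ∑' b, Λ b = 1) (a : ℕ) (F : List B → ℝ≥0∞) (c : ℝ≥0∞)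
    (hF : ∀ L, FP h L a → F L ≤ c) : FS Λ h a F ≤ c := by
  calc FS Λ h a F ≤ FS Λ h a (fun _ => 1 * c) := FS_mono Λ h a fun L hL => by
        rw [one_mul]; exact hF L hL
    _ = c := by rw [FS_mul, FS_one Λ h h1 hΛ, one_mul]

open Classical in
/-- first passage split of the lists of height `n` -/
lemma split1 (n a : ℕ) (han : a ≤ n) (F : List B → List B → ℝ≥0∞) :
    ∑' L : List B, (if HT h L = n then LW Λ L * F (cut h L a).1 (cut h L a).2 else 0)
      ≤ FS Λ h a (fun A => ∑' R : List B, if HT h A + HT h R = n then LW Λ R * F A R else 0) := by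
  have e : FS Λ h a (fun A => ∑' R : List B, if HT h A + HT h R = n then LW Λ R * F A R else 0)
      = ∑' q : List B × List B, (if FP h q.1 a then LW Λ q.1 *
        (if HT h q.1 + HT h q.2 = n then LW Λ q.2 * F q.1 q.2 else 0) else 0) := by
    rw [ENNReal.tsum_prod (f := fun (A R : List B) => (if FP h A a then LW Λ A *
        (if HT h A + HT h R = n then LW Λ R * F A R else 0) else 0))]
    refine tsum_congr fun A => ?_
    split_ifs
    · rw [← ENNReal.tsum_mul_left]
    · simp
  rw [e]
  have hinj : Function.Injective (fun L : List B => cut h L a) := by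
    intro L L' hLL
    have := congrArg (fun q : List B × List B => q.1 ++ q.2) hLL
    simpa [cut_app] using this
  refine le_trans (ENNReal.tsum_le_tsum fun L => ?_)
    (ENNReal.tsum_comp_le_tsum_of_injective hinj _)
  by_cases h1 : HT h L = n
  · have h2 : FP h (cut h L a).1 a := FP_cut h L a (by omega)
    have h3 : HT h (cut h L a).1 + HT h (cut h L a).2 = n := by
      rw [← B5A.HT_append, cut_app]; exact h1
    simp only [h1, h2, h3, if_true]
    rw [← mul_assoc, ← B5A.LW_append, cut_app]
  · rw [if_neg h1]; exact zero_le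

open Classical in
lemma split_one (hU : ∀ n, U Λ h n ≤ 1) (n a : ℕ) (han : a ≤ n) (F : List B → ℝ≥0∞) :
    ∑' L : List B, (if HT h L = n then LW Λ L * F (cut h L a).1 else 0) ≤ FS Λ h a F := by
  refine (split1 Λ h n a han (fun A _ => F A)).trans (FS_mono Λ h a fun A _ => ?_)
  calc _ ≤ F A * U Λ h (n - HT h A) := by
        rw [U, ← ENNReal.tsum_mul_left]
        refine ENNReal.tsum_le_tsum fun R => ?_
        split_ifs with h1 h2
        · rw [mul_comm]
        · omega
        · exact zero_le
        · exact zero_le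
    _ ≤ F A * 1 := mul_le_mul_right (hU _) _
    _ = F A := mul_one _

open Classical in
/-- two consecutive pieces -/
lemma split_two (hU : ∀ n, U Λ h n ≤ 1) (n a T i0 : ℕ) (han : a + i0 + T ≤ n)
    (F : List B → List B → ℝ≥0∞) :
    ∑' L : List B, (if HT h L = n then LW Λ L *
        (if HT h (cut h L a).1 ≤ a + i0 then F (cut h L a).1 (cut h (cut h L a).2 T).1 else 0)
        else 0)
      ≤ FS Λ h a (fun A => if HT h A ≤ a + i0 then FS Λ h T (F A) else 0) := by
  refine (split1 Λ h n a (by omega) (fun A R => if HT h A ≤ a + i0 then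
    F A (cut h R T).1 else 0)).trans (FS_mono Λ h a fun A _ => ?_)
  split_ifs with hA
  · refine le_trans (ENNReal.tsum_le_tsum fun R => ?_)
      (split_one Λ h hU (n - HT h A) T (by omega) (F A))
    split_ifs with h1 h2
    · exact le_rfl
    · omega
    · exact zero_le
    · exact zero_le
  · simp

lemma overshoot (hU : ∀ n, U Λ h n ≤ 1) (a i : ℕ) :
    FS Λ h a (fun L => if a + i < HT h L then 1 else 0) ≤ ∑' k, tail Λ h (k + i) := by
  classical
  have hinj : Function.Injective (fun p : List B × B => p.1 ++ [p.2]) := by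
    rintro ⟨a, L⟩ ⟨a', L'⟩ h
    have h' := List.append_inj' h rfl
    simp only [List.cons.injEq, and_true] at h'
    exact Prod.ext h'.1 h'.2
  set f : List B → ℝ≥0∞ := fun L => if FP h L a then LW Λ L * (if a + i < HT h L then 1 else 0)
    else 0 with hf
  have hs : Function.support f ⊆ Set.range (fun p : List B × B => p.1 ++ [p.2]) := by
    intro L hL
    rcases List.eq_nil_or_concat L with rfl | ⟨L', b, rfl⟩
    · exfalso
      apply hL
      simp [hf, HT_nil']
    · exact ⟨(L', b), by simp⟩
  have e := hinj.tsum_eq hs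
  calc FS Λ h a (fun L => if a + i < HT h L then 1 else 0) = ∑' L, f L := rfl
    _ = ∑' p : List B × B, f (p.1 ++ [p.2]) := e.symm
    _ = ∑' L, ∑' b, f (L ++ [b]) := ENNReal.tsum_prod (f := fun L b => f (L ++ [b]))
    _ ≤ ∑' L : List B, ∑ r ∈ Finset.range a, (if HT h L = r then LW Λ L else 0)
          * tail Λ h (a - 1 - r + 1 + i) := by
        refine ENNReal.tsum_le_tsum fun L => ?_
        by_cases hL : HT h L < a
        · rw [Finset.sum_eq_single (HT h L)]
          · rw [if_pos rfl, tail, ← ENNReal.tsum_mul_left]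
            refine ENNReal.tsum_le_tsum fun b => ?_
            simp only [hf]
            have hH : HT h (L ++ [b]) = HT h L + h b := by
              rw [B5A.HT_append]; simp [HT]
            have hW : LW Λ (L ++ [b]) = LW Λ L * Λ b := by
              rw [B5A.LW_append]; simp [LW]
            rw [hH, hW]
            split_ifs with g1 g2 g3
            · rw [mul_one]
            · omega
            · simp
            · simp
            · exact zero_le
            · exact zero_le
          · intro r _ hr
            rw [if_neg (fun hh => hr hh.symm), zero_mul]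
          · intro hr; exact absurd (Finset.mem_range.2 hL) hr
        · have : ∀ b, f (L ++ [b]) = 0 := fun b => by
            simp only [hf]
            rw [if_neg (fun hh => hL (FP_snoc h L b a hh))]
          simp [this]
    _ = ∑ r ∈ Finset.range a, U Λ h r * tail Λ h (a - 1 - r + 1 + i) := by
        rw [Summable.tsum_finsetSum (fun _ _ => ENNReal.summable)]
        refine Finset.sum_congr rfl fun r _ => ?_
        rw [ENNReal.tsum_mul_right, U]
    _ ≤ ∑ r ∈ Finset.range a, tail Λ h (a - 1 - r + 1 + i) := by
        refine Finset.sum_le_sum fun r _ => ?_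
        calc _ ≤ 1 * tail Λ h (a - 1 - r + 1 + i) := mul_le_mul_left (hU r) _
          _ = _ := one_mul _
    _ = ∑ r ∈ Finset.range a, tail Λ h (r + 1 + i) :=
        Finset.sum_range_reflect (fun r => tail Λ h (r + 1 + i)) a
    _ ≤ ∑' k, tail Λ h (k + 1 + i) := ENNReal.sum_le_tsum _
    _ ≤ ∑' k, tail Λ h (k + i) :=
        ENNReal.tsum_comp_le_tsum_of_injective (add_left_injective 1) (fun k => tail Λ h (k + i))

end Crest.Agent.R154.Asm470
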