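import Crest.Agent.R154.B5Abs_566

/-! Row 154, T0219 (ROAD 801): single walker renewal lists (helper471). -/

set_option autoImplicit false

namespace Crest.Agent.R154.Asm471

open Crest.Agent.R154.B5A
open scoped ENNReal Classical
open Filter Topology

section one

variable {B G : Type*} [AddCommGroup G] (Λ : B → ℝ≥0∞) (ht : B → ℕ) (dz : B → G)

/-- displacement of a list -/
def Dp (L : List B) : G := (L.map dz).sum

lemma Dp_nil : Dp dz [] = 0 := by simp [Dp]
lemma Dp_cons (b : B) (L : List B) : Dp dz (b :: L) = dz b + Dp dz L := by simp [Dp]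
lemma Dp_append (L L' : List B) : Dp dz (L ++ L') = Dp dz L + Dp dz L' := by simp [Dp]

/-- first passage lists -/
def FP : ℕ → List B → Prop
  | T, [] => T = 0
  | T, b :: L => 0 < T ∧ FP (T - ht b) L

lemma FP_le (T : ℕ) (L : List B) (h : FP ht T L) : T ≤ HT ht L := by
  induction L generalizing T with
  | nil => simp [FP] at h; simp [h]
  | cons b L ih =>
    obtain ⟨h0, h1⟩ := h
    have := ih _ h1
    rw [HT_cons]; omega

lemma FP_last (T : ℕ) (L : List B) (b : B) (h : FP ht T (L ++ [b])) : HT ht L < T := by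
  induction L generalizing T with
  | nil => simp only [List.nil_append] at h; rw [HT_nil]; exact h.1
  | cons c L ih =>
    obtain ⟨h0, h1⟩ := h
    have := ih _ h1
    rw [HT_cons]; omega

/-- sum over the first passage lists -/
noncomputable def N (T : ℕ) (Φ : List B → ℝ≥0∞) : ℝ≥0∞ := ∑' L, if FP ht T L then Φ L else 0

lemma N_zero (Φ : List B → ℝ≥0∞) : N ht 0 Φ = Φ [] := by
  rw [N, tsum_list]
  simp [FP]

lemma N_pos (T : ℕ) (hT : 0 < T) (Φ : List B → ℝ≥0∞) :
    N ht T Φ = ∑' b, N ht (T - ht b) (fun L => Φ (b :: L)) := by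
  rw [N, tsum_list]
  have : ¬ FP ht T [] := by simp [FP]; omega
  rw [if_neg this, zero_add]
  refine tsum_congr fun b => ?_
  rw [N]
  refine tsum_congr fun L => ?_
  simp [FP, hT]

lemma N_mono (T : ℕ) {Φ Ψ : List B → ℝ≥0∞} (h : ∀ L, FP ht T L → Φ L ≤ Ψ L) :
    N ht T Φ ≤ N ht T Ψ := by
  refine ENNReal.tsum_le_tsum fun L => ?_
  by_cases hL : FP ht T L
  · simp only [hL, if_true]; exact h L hL
  · simp [hL]

lemma N_congr (T : ℕ) {Φ Ψ : List B → ℝ≥0∞} (h : ∀ L, FP ht T L → Φ L = Ψ L) :
    N ht T Φ = N ht T Ψ :=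
  le_antisymm (N_mono ht T fun L hL => (h L hL).le) (N_mono ht T fun L hL => (h L hL).ge)

lemma N_add (T : ℕ) (Φ Ψ : List B → ℝ≥0∞) :
    N ht T (fun L => Φ L + Ψ L) = N ht T Φ + N ht T Ψ := by
  rw [N, N, N, ← ENNReal.tsum_add]
  refine tsum_congr fun L => ?_
  split_ifs <;> simp

lemma N_mul (T : ℕ) (c : ℝ≥0∞) (Φ : List B → ℝ≥0∞) :
    N ht T (fun L => c * Φ L) = c * N ht T Φ := by
  rw [N, N, ← ENNReal.tsum_mul_left]
  refine tsum_congr fun L => ?_
  split_ifs <;> simp

lemma N_tsum {ι : Type*} (T : ℕ) (Φ : ι → List B → ℝ≥0∞) :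
    N ht T (fun L => ∑' i, Φ i L) = ∑' i, N ht T (Φ i) := by
  simp only [N]
  rw [ENNReal.tsum_comm]
  refine tsum_congr fun L => ?_
  split_ifs <;> simp

variable (h1 : ∀ b, 1 ≤ ht b)
include h1

lemma split_eq (T : ℕ) (F : List B → ℝ≥0∞) :
    ∑' L, (if T ≤ HT ht L then F L else 0) = N ht T (fun L1 => ∑' L2, F (L1 ++ L2)) := by
  induction T using Nat.strong_induction_on generalizing F with
  | _ T ih =>
    rcases Nat.eq_zero_or_pos T with rfl | hT
    · rw [N_zero]; simp
    · rw [N_pos ht T hT, tsum_list]
      rw [if_neg (by rw [HT_nil]; omega), zero_add]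
      refine tsum_congr fun b => ?_
      have hb := h1 b
      refine Eq.trans ?_ (ih (T - ht b) (by omega) (fun L => F (b :: L)))
      refine tsum_congr fun L => ?_
      rw [HT_cons]
      by_cases h : T ≤ ht b + HT ht L
      · rw [if_pos h, if_pos (by omega)]
      · rw [if_neg h, if_neg (by omega)]

/-- Markov property of the renewals -/
lemma N_markov (S T : ℕ) (hST : S ≤ T) (Φ : List B → ℝ≥0∞) :
    N ht T Φ = N ht S (fun P => N ht (T - HT ht P) (fun R => Φ (P ++ R))) := by
  induction S using Nat.strong_induction_on generalizing T Φ with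
  | _ S ih =>
    rcases Nat.eq_zero_or_pos S with rfl | hS
    · rw [N_zero]; simp [HT_nil]
    · rw [N_pos ht T (by omega), N_pos ht S hS]
      refine tsum_congr fun b => ?_
      have hb := h1 b
      rw [ih (S - ht b) (by omega) (T - ht b) (by omega)]
      refine N_congr ht _ fun P _ => ?_
      rw [HT_cons, ← Nat.sub_sub]
      rfl

lemma N_mass (hΛ : ∑' b, Λ b = 1) (T : ℕ) : N ht T (LW Λ) = 1 := by
  induction T using Nat.strong_induction_on with
  | _ T ih =>
    rcases Nat.eq_zero_or_pos T with rfl | hT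
    · rw [N_zero, LW_nil]
    · rw [N_pos ht T hT, ← hΛ]
      refine tsum_congr fun b => ?_
      have hb := h1 b
      rw [N_congr ht (T - ht b) (Ψ := fun L => Λ b * LW Λ L) (fun L _ => LW_cons Λ b L), N_mul,
        ih _ (by omega), mul_one]

omit h1 in
lemma tsum_list_last (F : List B → ℝ≥0∞) :
    ∑' L, F L = F [] + ∑' b, ∑' L, F (L ++ [b]) := by
  have e : ∀ f : List B → ℝ≥0∞, ∑' L, f L = ∑' L, f (List.reverse L) := fun f =>
    ((Function.Involutive.toPerm List.reverse List.reverse_involutive).tsum_eq f).symm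
  rw [e, tsum_list]
  simp only [List.reverse_nil, List.reverse_cons]
  congr 1
  refine tsum_congr fun b => ?_
  exact (e (fun L => F (L ++ [b]))).symm

/-- overshoot -/
lemma overshoot (hU1 : ∀ n, U Λ ht n ≤ 1) (T i : ℕ) :
    N ht T (fun L => if T + i < HT ht L then LW Λ L else 0) ≤ ∑' k, tail Λ ht (k + (i + 1)) := by
  rw [N, tsum_list_last]
  have h0 : (if FP ht T ([] : List B) then (if T + i < HT ht ([] : List B) then LW Λ ([] : List B) else 0) else (0:ℝ≥0∞)) = 0 := by
    rw [HT_nil, if_neg (by omega : ¬ T + i < 0)]; simp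
  rw [h0, zero_add]
  calc ∑' b, ∑' L, (if FP ht T (L ++ [b]) then (if T + i < HT ht (L ++ [b]) then LW Λ (L ++ [b]) else 0) else 0)
      ≤ ∑' b, ∑' L, ∑ n ∈ Finset.range T, (if HT ht L = n then LW Λ L else 0) * (if T + i - n < ht b then Λ b else 0) := by
        refine ENNReal.tsum_le_tsum fun b => ENNReal.tsum_le_tsum fun L => ?_
        by_cases hf : FP ht T (L ++ [b])
        · rw [if_pos hf]
          have hl := FP_last ht T L b hf
          by_cases hh : T + i < HT ht (L ++ [b])
          · rw [if_pos hh]
            rw [HT_append, HT_cons, HT_nil] at hh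
            rw [Finset.sum_eq_single (HT ht L)]
            · rw [if_pos rfl, if_pos (by omega), LW_append, LW_cons, LW_nil, mul_one]
            · intro n _ hn; rw [if_neg hn.symm, zero_mul]
            · intro h; exact absurd (Finset.mem_range.2 hl) h
          · rw [if_neg hh]; exact zero_le
        · rw [if_neg hf]; exact zero_le
    _ = ∑ n ∈ Finset.range T, U Λ ht n * tail Λ ht (T + i - n) := by
        simp_rw [Summable.tsum_finsetSum (fun _ _ => ENNReal.summable)]
        refine Finset.sum_congr rfl fun n _ => ?_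
        simp_rw [ENNReal.tsum_mul_right]
        rw [ENNReal.tsum_mul_left]
        rfl
    _ ≤ ∑ n ∈ Finset.range T, tail Λ ht (T + i - n) := by
        refine Finset.sum_le_sum fun n _ => ?_
        calc _ ≤ 1 * tail Λ ht (T + i - n) := mul_le_mul_left (hU1 n) _
          _ = _ := one_mul _
    _ = ∑ k ∈ Finset.range T, tail Λ ht (k + (i + 1)) := by
        rw [← Finset.sum_range_reflect]
        refine Finset.sum_congr rfl fun k hk => ?_
        have := Finset.mem_range.1 hk
        congr 1; omega
    _ ≤ _ := ENNReal.sum_le_tsum _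

omit h1 in
lemma eps_tendsto (hm : ∑' b, Λ b * (ht b : ℝ≥0∞) ≠ ⊤) (hΛ : ∑' b, Λ b = 1) :
    Tendsto (fun i : ℕ => ∑' k, tail Λ ht (k + (i + 1))) atTop (𝓝 0) := by
  have hf : ∑' k, tail Λ ht k ≠ ⊤ := by rw [← sum_tail Λ ht hΛ]; exact hm
  have := ENNReal.tendsto_sum_nat_add (tail Λ ht) hf
  exact this.comp (tendsto_add_atTop_nat 1)

omit h1 in
/-- law of the first passage -/
noncomputable def pl (T h : ℕ) (z : G) : ℝ≥0∞ :=
  N ht T (fun L => if HT ht L = h ∧ Dp dz L = z then LW Λ L else 0)

omit h1 in
lemma pl_slice (T : ℕ) (f : ℕ → G → ℝ≥0∞) :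
    ∑' h, ∑' z, pl Λ ht dz T h z * f h z = N ht T (fun L => LW Λ L * f (HT ht L) (Dp dz L)) := by
  simp only [pl, ← N_tsum, mul_comm _ (f _ _), ← N_mul]
  refine N_congr ht T fun L _ => ?_
  rw [tsum_eq_single (HT ht L), tsum_eq_single (Dp dz L)]
  · simp
  · intro z hz; rw [if_neg (fun h => hz h.2.symm), mul_zero]
  · intro h hh
    rw [ENNReal.tsum_eq_zero]
    intro z; rw [if_neg (fun h' => hh h'.1.symm), mul_zero]

lemma pl_mass (hΛ : ∑' b, Λ b = 1) (T : ℕ) : ∑' h, ∑' z, pl Λ ht dz T h z = 1 := by
  have := pl_slice Λ ht dz T (fun _ _ => 1)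
  simp only [mul_one] at this
  rw [this]
  exact N_mass Λ ht h1 hΛ T

lemma pl_mass_h (hΛ : ∑' b, Λ b = 1) (T h : ℕ) : ∑' z, pl Λ ht dz T h z ≤ 1 := by
  rw [← pl_mass Λ ht dz h1 hΛ T]
  exact ENNReal.le_tsum h


lemma pl_zero_of_lt (T h : ℕ) (z : G) (hh : h < T) : pl Λ ht dz T h z = 0 := by
  rw [pl, N, ENNReal.tsum_eq_zero]
  intro L
  by_cases hf : FP ht T L
  · rw [if_pos hf, if_neg]
    rintro ⟨h2, _⟩
    have := FP_le ht T L hf
    omega
  · rw [if_neg hf]

/-- Markov for the law -/
lemma pl_markov (S T : ℕ) (hST : S ≤ T) (a : ℕ) (z : G) :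
    pl Λ ht dz T a z = N ht S (fun P => LW Λ P *
      (if HT ht P ≤ a then pl Λ ht dz (T - HT ht P) (a - HT ht P) (z - Dp dz P) else 0)) := by
  rw [pl, N_markov ht h1 S T hST]
  refine N_congr ht S fun P _ => ?_
  by_cases h : HT ht P ≤ a
  · rw [if_pos h, pl, ← N_mul]
    refine N_congr ht _ fun R _ => ?_
    rw [HT_append, Dp_append, LW_append]
    by_cases h2 : HT ht P + HT ht R = a ∧ Dp dz P + Dp dz R = z
    · rw [if_pos h2, if_pos ⟨by omega, by rw [← h2.2]; abel⟩]
    · rw [if_neg h2, if_neg, mul_zero]
      rintro ⟨h3, h4⟩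
      exact h2 ⟨by omega, by rw [h4]; abel⟩
  · rw [if_neg h, mul_zero, N, ENNReal.tsum_eq_zero]
    intro R
    split_ifs with h3 h4
    · exfalso
      rw [HT_append] at h4
      have := h4.1
      omega
    · rfl
    · rfl

/-- **Smooth density.** -/
lemma dens (hΛ : ∑' b, Λ b = 1) (S i0 : ℕ) (th q ε1 : ℝ≥0∞)
    (hq : N ht S (fun P => if HT ht P ≤ S + i0 ∧ th < pl Λ ht dz S (HT ht P) (Dp dz P)
      then LW Λ P else 0) ≤ q)
    (hfar : N ht S (fun P => if S + i0 < HT ht P then LW Λ P else 0) ≤ ε1) (J : ℕ) :
    ∀ T, J * (S + i0) ≤ T → ∃ g r : ℕ → G → ℝ≥0∞,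
      (∀ a z, pl Λ ht dz T a z ≤ g a z + r a z) ∧
      (∀ a z, g a z ≤ (i0 + 1) * th * ∑ j ∈ Finset.range J, q ^ j) ∧
      ∑' a, ∑' z, r a z ≤ q ^ J + ε1 * ∑ j ∈ Finset.range J, q ^ j := by
  induction J with
  | zero =>
    intro T _
    refine ⟨fun _ _ => 0, fun a z => pl Λ ht dz T a z, fun a z => by simp, fun a z => by simp, ?_⟩
    rw [pl_mass Λ ht dz h1 hΛ T]; simp
  | succ J ih =>
    intro T hT
    choose! g r hgr hg hr using ih
    have hST : S ≤ T := by nlinarith
    -- classes
    let sp : List B → Prop := fun P => HT ht P ≤ S + i0 ∧ pl Λ ht dz S (HT ht P) (Dp dz P) ≤ th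
    let ns : List B → Prop := fun P => HT ht P ≤ S + i0 ∧ th < pl Λ ht dz S (HT ht P) (Dp dz P)
    let fa : List B → Prop := fun P => S + i0 < HT ht P
    refine ⟨fun a z => (i0 + 1) * th + N ht S (fun P => if ns P then LW Λ P *
        (if HT ht P ≤ a then g (T - HT ht P) (a - HT ht P) (z - Dp dz P) else 0) else 0),
      fun a z => N ht S (fun P => if ns P then LW Λ P *
        (if HT ht P ≤ a then r (T - HT ht P) (a - HT ht P) (z - Dp dz P) else 0) else 0)
        + N ht S (fun P => if fa P then LW Λ P *
        (if HT ht P ≤ a then pl Λ ht dz (T - HT ht P) (a - HT ht P) (z - Dp dz P) else 0) else 0),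
      ?_, ?_, ?_⟩
    · intro a z
      rw [pl_markov Λ ht dz h1 S T hST a z]
      have hsplit : N ht S (fun P => LW Λ P *
          (if HT ht P ≤ a then pl Λ ht dz (T - HT ht P) (a - HT ht P) (z - Dp dz P) else 0))
          ≤ N ht S (fun P => (if sp P then LW Λ P *
          (if HT ht P ≤ a then pl Λ ht dz (T - HT ht P) (a - HT ht P) (z - Dp dz P) else 0) else 0)
          + ((if ns P then LW Λ P *
          (if HT ht P ≤ a then g (T - HT ht P) (a - HT ht P) (z - Dp dz P) else 0) else 0)
          + ((if ns P then LW Λ P *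
          (if HT ht P ≤ a then r (T - HT ht P) (a - HT ht P) (z - Dp dz P) else 0) else 0)
          + (if fa P then LW Λ P *
          (if HT ht P ≤ a then pl Λ ht dz (T - HT ht P) (a - HT ht P) (z - Dp dz P) else 0) else 0)))) := by
        refine N_mono ht S fun P hP => ?_
        by_cases h2 : S + i0 < HT ht P
        · have e1 : fa P := h2
          rw [if_pos e1]
          exact le_add_left (le_add_left le_add_self)
        · by_cases h3 : pl Λ ht dz S (HT ht P) (Dp dz P) ≤ th
          · have e1 : sp P := ⟨not_lt.1 h2, h3⟩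
            rw [if_pos e1]
            exact le_self_add
          · have e1 : ns P := ⟨not_lt.1 h2, not_le.1 h3⟩
            rw [if_pos e1, if_pos e1]
            refine le_add_left ?_
            rw [← add_assoc]
            refine le_add_right ?_
            rw [← mul_add]
            refine mul_le_mul_right ?_ _
            by_cases h4 : HT ht P ≤ a
            · rw [if_pos h4, if_pos h4, if_pos h4]
              exact hgr _ (by have := e1.1; have : (J+1)*(S+i0) = J*(S+i0) + (S+i0) := by ring
                              omega) _ _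
            · simp [h4]
      refine hsplit.trans ?_
      rw [N_add, N_add, N_add]
      rw [← add_assoc]
      refine add_le_add (add_le_add ?_ le_rfl) le_rfl
      -- special part
      have : N ht S (fun P => if sp P then LW Λ P *
          (if HT ht P ≤ a then pl Λ ht dz (T - HT ht P) (a - HT ht P) (z - Dp dz P) else 0) else 0)
          = ∑' h, ∑' z', pl Λ ht dz S h z' * (if h ≤ S + i0 ∧ pl Λ ht dz S h z' ≤ th then
          (if h ≤ a then pl Λ ht dz (T - h) (a - h) (z - z') else 0) else 0) := by
        rw [pl_slice Λ ht dz S]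
        refine N_congr ht S fun P _ => ?_
        by_cases h2 : sp P
        · rw [if_pos h2]; exact (by rw [if_pos h2])
        · rw [if_neg h2]; exact (by rw [if_neg h2, mul_zero])
      rw [this]
      calc _ ≤ ∑' h, (if h ∈ Finset.Icc S (S + i0) then th * 1 else 0) := by
            refine ENNReal.tsum_le_tsum fun h => ?_
            by_cases hS : h < S
            · rw [ENNReal.tsum_eq_zero.2 (fun z' => by rw [pl_zero_of_lt Λ ht dz h1 S h z' hS, zero_mul])]
              exact zero_le
            · by_cases hle : h ≤ S + i0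
              · rw [if_pos (Finset.mem_Icc.2 ⟨not_lt.1 hS, hle⟩)]
                calc _ ≤ ∑' z', th * (if h ≤ a then pl Λ ht dz (T - h) (a - h) (z - z') else 0) := by
                      refine ENNReal.tsum_le_tsum fun z' => ?_
                      by_cases h5 : h ≤ S + i0 ∧ pl Λ ht dz S h z' ≤ th
                      · rw [if_pos h5]; exact mul_le_mul_left h5.2 _
                      · rw [if_neg h5, mul_zero]; exact zero_le
                  _ = th * ∑' z', (if h ≤ a then pl Λ ht dz (T - h) (a - h) (z - z') else 0) :=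
                      ENNReal.tsum_mul_left
                  _ ≤ th * 1 := by
                      refine mul_le_mul_right ?_ _
                      by_cases h6 : h ≤ a
                      · simp only [h6, if_true]
                        exact ((Equiv.subLeft z).tsum_eq (fun x => pl Λ ht dz (T - h) (a - h) x)).trans_le
                          (pl_mass_h Λ ht dz h1 hΛ _ _)
                      · simp [h6]
              · rw [ENNReal.tsum_eq_zero.2 (fun z' => by rw [if_neg (fun h7 => hle h7.1), mul_zero])]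
                exact zero_le
        _ = ∑ h ∈ Finset.Icc S (S + i0), th * 1 := by
            rw [tsum_eq_sum (s := Finset.Icc S (S + i0))]
            · exact Finset.sum_congr rfl fun h hh => if_pos hh
            · intro h hh; exact if_neg hh
        _ = (i0 + 1) * th := by
            rw [Finset.sum_const, Nat.card_Icc, nsmul_eq_mul, mul_one,
              show S + i0 + 1 - S = i0 + 1 by omega]
            push_cast; ring
        _ ≤ _ := le_rfl
    · intro a z
      rw [Finset.sum_range_succ', pow_zero, mul_add, mul_one,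
        add_comm _ ((i0 + 1 : ℝ≥0∞) * th)]
      refine add_le_add le_rfl ?_
      calc _ ≤ N ht S (fun P => ((i0 + 1) * th * ∑ j ∈ Finset.range J, q ^ j) *
            (if ns P then LW Λ P else 0)) := by
            refine N_mono ht S fun P _ => ?_
            by_cases h2 : ns P
            · rw [if_pos h2, if_pos h2, mul_comm]
              refine mul_le_mul_left ?_ _
              split_ifs
              · exact hg _ (by have := h2.1; have : (J+1)*(S+i0) = J*(S+i0) + (S+i0) := by ring
                               omega) _ _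
              · exact zero_le
            · rw [if_neg h2, if_neg h2, mul_zero]
        _ = ((i0 + 1) * th * ∑ j ∈ Finset.range J, q ^ j) * N ht S (fun P => if ns P then LW Λ P else 0) := N_mul _ _ _ _
        _ ≤ ((i0 + 1) * th * ∑ j ∈ Finset.range J, q ^ j) * q := mul_le_mul_right hq _
        _ = _ := by
            simp_rw [pow_succ, ← Finset.sum_mul]; ring
    · have key : ∀ (D : List B → Prop) [DecidablePred D] (f : ℕ → ℕ → G → ℝ≥0∞) (m : ℝ≥0∞)
          (hm : ∀ P, FP ht S P → D P → ∑' a, ∑' z, f (T - HT ht P) a z ≤ m),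
          ∑' a, ∑' z, N ht S (fun P => if D P then LW Λ P *
          (if HT ht P ≤ a then f (T - HT ht P) (a - HT ht P) (z - Dp dz P) else 0) else 0)
          ≤ m * N ht S (fun P => if D P then LW Λ P else 0) := by
        intro D _ f m hm
        simp_rw [← N_tsum]
        rw [← N_mul]
        refine N_mono ht S fun P hP => ?_
        by_cases h2 : D P
        · simp only [h2, if_true]
          simp_rw [ENNReal.tsum_mul_left]
          rw [mul_comm]
          refine mul_le_mul_left ?_ _
          refine le_trans ?_ (hm P hP h2)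
          calc ∑' a, ∑' z, (if HT ht P ≤ a then f (T - HT ht P) (a - HT ht P) (z - Dp dz P) else 0)
              = ∑' a, (if HT ht P ≤ a then ∑' z, f (T - HT ht P) (a - HT ht P) z else 0) := by
                refine tsum_congr fun a => ?_
                by_cases h3 : HT ht P ≤ a
                · simp only [h3, if_true]
                  exact (Equiv.subRight (Dp dz P)).tsum_eq (fun x => f (T - HT ht P) (a - HT ht P) x)
                · simp [h3]
            _ ≤ ∑' a, ∑' z, f (T - HT ht P) a z := by
                have hs : Function.support (fun a => if HT ht P ≤ a then ∑' z, f (T - HT ht P) (a - HT ht P) z else 0)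
                    ⊆ Set.range (fun a => a + HT ht P) := by
                  intro a ha
                  by_cases h3 : HT ht P ≤ a
                  · exact ⟨a - HT ht P, by simp only; omega⟩
                  · exfalso; apply ha; simp [h3]
                rw [← (add_left_injective (HT ht P)).tsum_eq hs]
                refine ENNReal.tsum_le_tsum fun a => ?_
                simp
        · simp [h2]
      have e2 : ∀ x y : ℕ → G → ℝ≥0∞, ∑' a, ∑' z, (x a z + y a z) = ∑' a, ∑' z, x a z + ∑' a, ∑' z, y a z := by
        intro x y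
        simp_rw [ENNReal.tsum_add]
      rw [e2]
      have k1 := key ns r (q ^ J + ε1 * ∑ j ∈ Finset.range J, q ^ j) (fun P _ hP => hr _
        (by have := hP.1; have : (J+1)*(S+i0) = J*(S+i0) + (S+i0) := by ring
            omega))
      have k2 := key fa (fun T a z => pl Λ ht dz T a z) 1 (fun P _ hP => (pl_mass Λ ht dz h1 hΛ _).le)
      calc _ ≤ (q ^ J + ε1 * ∑ j ∈ Finset.range J, q ^ j) * q + 1 * ε1 :=
            add_le_add (k1.trans (mul_le_mul_right hq _)) (k2.trans (mul_le_mul_right hfar _))
        _ = q ^ (J + 1) + ε1 * ∑ j ∈ Finset.range (J + 1), q ^ j := by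
            rw [Finset.sum_range_succ', pow_zero]
            simp_rw [pow_succ, ← Finset.sum_mul]; ring

end one

end Crest.Agent.R154.Asm471
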