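import Crest.Agent.R154.FP_178
import Crest.Agent.R154.Dens_903
import Crest.Agent.R154.KU_823

/-! Row 154, ROAD 801 (helper474): abstract assembly, part A: convolution powers of the piece law,
smooth / rough split, decomposition of the lists into first-passage pieces. -/

set_option autoImplicit false
set_option linter.unusedVariables false
set_option linter.unusedSectionVars false

namespace Crest.Agent.R154.Asm474

open scoped ENNReal
open Crest.Agent.R154.B5A Crest.Agent.R154.FP178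
open Classical

section Conv

variable {A V : Type*} [AddCommGroup V] (F : A → ℝ≥0∞) (st : A → V) (lo : V → Prop)

noncomputable def S : ℕ → V → ℝ≥0∞
  | 0, v => if v = 0 then 1 else 0
  | j+1, v => ∑' a, F a * S j (v - st a)

noncomputable def Bd : ℕ → V → ℝ≥0∞
  | 0, v => if v = 0 then 1 else 0
  | j+1, v => ∑' a, (if lo (st a) then 0 else F a) * Bd j (v - st a)

noncomputable def Gd : ℕ → V → ℝ≥0∞
  | 0, _ => 0
  | j+1, v => ∑' a, (if lo (st a) then F a else 0) * S F st j (v - st a)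
      + ∑' a, (if lo (st a) then 0 else F a) * Gd j (v - st a)

lemma S_eq (j : ℕ) (v : V) : S F st j v = Gd F st lo j v + Bd F st lo j v := by
  induction j generalizing v with
  | zero => simp [S, Gd, Bd]
  | succ j ih =>
    rw [S, Gd, Bd, add_assoc, ← ENNReal.tsum_add, ← ENNReal.tsum_add]
    refine tsum_congr fun a => ?_
    rw [← mul_add, ← ih]
    by_cases h : lo (st a) <;> simp [h]

lemma tsum_shift (f : V → ℝ≥0∞) (a : V) : ∑' v, f (v - a) = ∑' v, f v :=
  (Equiv.subRight a).tsum_eq f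

lemma tsum_shift' (f : V → ℝ≥0∞) (a : V) : ∑' v, f (a - v) = ∑' v, f v :=
  (Equiv.subLeft a).tsum_eq f

lemma S_sum (hF : ∑' a, F a ≤ 1) (j : ℕ) : ∑' v, S F st j v ≤ 1 := by
  induction j with
  | zero => simp [S]
  | succ j ih =>
    simp only [S]
    rw [ENNReal.tsum_comm]
    calc ∑' a, ∑' v, F a * S F st j (v - st a) ≤ ∑' a, F a := by
          refine ENNReal.tsum_le_tsum fun a => ?_
          rw [ENNReal.tsum_mul_left, tsum_shift]
          exact mul_le_of_le_one_right' ih
      _ ≤ 1 := hF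

lemma Bd_sum (q : ℝ≥0∞) (hq : ∑' a, (if lo (st a) then 0 else F a) ≤ q) (j : ℕ) :
    ∑' v, Bd F st lo j v ≤ q ^ j := by
  induction j with
  | zero => simp [Bd]
  | succ j ih =>
    simp only [Bd]
    rw [ENNReal.tsum_comm]
    calc ∑' a, ∑' v, (if lo (st a) then 0 else F a) * Bd F st lo j (v - st a)
        ≤ ∑' a, (if lo (st a) then 0 else F a) * q ^ j := by
          refine ENNReal.tsum_le_tsum fun a => ?_
          rw [ENNReal.tsum_mul_left, tsum_shift]
          gcongr
      _ ≤ q * q ^ j := by rw [ENNReal.tsum_mul_right]; gcongr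
      _ = q ^ (j+1) := by rw [pow_succ']

lemma Gd_le (hF : ∑' a, F a ≤ 1) (th : ℝ≥0∞)
    (hlo : ∀ v, lo v → ∑' a, (if st a = v then F a else 0) ≤ th) (j : ℕ) (v : V) :
    Gd F st lo j v ≤ j * th := by
  induction j generalizing v with
  | zero => simp [Gd]
  | succ j ih =>
    rw [Gd]
    have h1 : ∑' a, (if lo (st a) then F a else 0) * S F st j (v - st a) ≤ th := by
      calc ∑' a, (if lo (st a) then F a else 0) * S F st j (v - st a)
          = ∑' a, ∑' v', (if st a = v' then (if lo v' then F a else 0) * S F st j (v - v') else 0) := by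
            refine tsum_congr fun a => ?_
            rw [tsum_eq_single (st a)]
            · simp
            · intro v' hv'; rw [if_neg (Ne.symm hv')]
        _ = ∑' v', ∑' a, (if st a = v' then (if lo v' then F a else 0) * S F st j (v - v') else 0) :=
            ENNReal.tsum_comm
        _ ≤ ∑' v', th * S F st j (v - v') := by
            refine ENNReal.tsum_le_tsum fun v' => ?_
            by_cases h : lo v'
            · calc ∑' a, (if st a = v' then (if lo v' then F a else 0) * S F st j (v - v') else 0)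
                  = ∑' a, (if st a = v' then F a else 0) * S F st j (v - v') := by
                    refine tsum_congr fun a => ?_
                    by_cases h2 : st a = v' <;> simp [h, h2]
                _ ≤ th * S F st j (v - v') := by
                    rw [ENNReal.tsum_mul_right]; gcongr; exact hlo v' h
            · simp [h]
        _ ≤ th := by
            rw [ENNReal.tsum_mul_left, tsum_shift']
            exact mul_le_of_le_one_right' (S_sum F st hF j)
    have h2 : ∑' a, (if lo (st a) then 0 else F a) * Gd F st lo j (v - st a) ≤ j * th := by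
      calc ∑' a, (if lo (st a) then 0 else F a) * Gd F st lo j (v - st a)
          ≤ ∑' a, F a * (j * th) := by
            refine ENNReal.tsum_le_tsum fun a => ?_
            gcongr
            · split_ifs <;> simp
            · exact ih _
        _ ≤ j * th := by
            rw [ENNReal.tsum_mul_right]
            exact mul_le_of_le_one_left' hF
    calc _ ≤ th + j * th := add_le_add h1 h2
      _ = _ := by push_cast; ring

end Conv

section Dec

lemma cover {α β : Type*} (g : α → ℝ≥0∞) (g' : β → ℝ≥0∞) (φ : β → α)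
    (h : ∀ a, g a ≠ 0 → ∃ b, φ b = a ∧ g a ≤ g' b) : ∑' a, g a ≤ ∑' b, g' b := by
  choose σ hσ using fun a : Function.support g => h a a.2
  calc ∑' a, g a = ∑' a : Function.support g, g a := (tsum_subtype_support g).symm
    _ ≤ ∑' a : Function.support g, g' (σ a) :=
        ENNReal.tsum_le_tsum fun a => (hσ a).2
    _ ≤ ∑' b, g' b := by
        refine ENNReal.tsum_comp_le_tsum_of_injective (f := fun a : Function.support g => σ a) ?_ g'
        intro a b hab
        have h1 := (hσ a).1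
        have h2 := (hσ b).1
        apply Subtype.ext
        have hab' : σ a = σ b := hab
        rw [← h1, ← h2, hab']

variable {B V : Type*} [AddCommGroup V] (Λ : B → ℝ≥0∞) (ht : B → ℕ)

def np (T : ℕ) : ℕ → List B → Prop
  | 0, L => L = []
  | j+1, L => ∃ A L', fp ht T A ∧ np T j L' ∧ L = A ++ L'

noncomputable def F1 (T : ℕ) (P : List B) : ℝ≥0∞ := if fp ht T P then LW Λ P else 0

lemma F1_sum (h1 : ∀ b, 1 ≤ ht b) (hΛ : ∑' b, Λ b ≤ 1) (T : ℕ) : ∑' P, F1 Λ ht T P ≤ 1 :=
  sum_FP Λ ht h1 hΛ T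

lemma F1_sum_eq (h1 : ∀ b, 1 ≤ ht b) (hΛ : ∑' b, Λ b = 1) (T : ℕ) : ∑' P, F1 Λ ht T P = 1 := by
  unfold F1
  induction T using Nat.strong_induction_on with
  | _ a ih =>
    rcases Nat.eq_zero_or_pos a with rfl | ha
    · have := sum_fp_zero Λ ht (fun _ => 1)
      simpa only [mul_one] using this
    · have := sum_fp_step Λ ht a ha (fun _ => 1)
      simp only [mul_one] at this
      rw [this]
      calc ∑' b, Λ b * ∑' L, (if fp ht (a - ht b) L then LW Λ L else 0)
          = ∑' b, Λ b * 1 := by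
            refine tsum_congr fun b => ?_
            rw [ih (a - ht b) (by have := h1 b; omega)]
        _ = 1 := by simpa using hΛ

variable (st : List B → V)

lemma np_sum (st0 : st [] = 0) (stA : ∀ A L, st (A ++ L) = st A + st L) (T j : ℕ) (f : V → ℝ≥0∞) :
    ∑' A, (if np ht T j A then LW Λ A * f (st A) else 0) ≤ ∑' v, S (F1 Λ ht T) st j v * f v := by
  induction j generalizing f with
  | zero =>
    have e1 : ∑' A : List B, (if np ht T 0 A then LW Λ A * f (st A) else 0) = f 0 := by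
      rw [tsum_eq_single ([] : List B)]
      · simp [np, st0, LW_nil]
      · intro A hA; simp [np, hA]
    have e2 : ∑' v, S (F1 Λ ht T) st 0 v * f v = f 0 := by
      rw [tsum_eq_single (0 : V)]
      · simp [S]
      · intro v hv; simp [S, hv]
    rw [e1, e2]
  | succ j ih =>
    calc ∑' A, (if np ht T (j+1) A then LW Λ A * f (st A) else 0)
        ≤ ∑' q : List B × List B, (F1 Λ ht T q.1 * (if np ht T j q.2 then
            LW Λ q.2 * f (st q.1 + st q.2) else 0)) := by
          refine cover _ _ (fun q : List B × List B => q.1 ++ q.2) fun L hL => ?_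
          by_cases h : np ht T (j+1) L
          · obtain ⟨A, L', hA, hL', rfl⟩ := h
            refine ⟨(A, L'), rfl, ?_⟩
            have h' : np ht T (j+1) (A ++ L') := ⟨A, L', hA, hL', rfl⟩
            simp only [F1]
            rw [if_pos h', if_pos hA, if_pos hL', LW_append, stA, mul_assoc]
          · exact absurd (if_neg h) hL
      _ = ∑' A, F1 Λ ht T A * ∑' L, (if np ht T j L then LW Λ L * f (st A + st L) else 0) := by
          rw [ENNReal.tsum_prod']
          refine tsum_congr fun A => ?_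
          dsimp only
          rw [ENNReal.tsum_mul_left]
      _ ≤ ∑' A, F1 Λ ht T A * ∑' v, S (F1 Λ ht T) st j v * f (st A + v) := by
          refine ENNReal.tsum_le_tsum fun A => ?_
          gcongr
          exact ih (fun v => f (st A + v))
      _ = ∑' A, F1 Λ ht T A * ∑' v, S (F1 Λ ht T) st j (v - st A) * f v := by
          refine tsum_congr fun A => ?_
          congr 1
          rw [← tsum_shift (fun v => S (F1 Λ ht T) st j v * f (st A + v)) (st A)]
          refine tsum_congr fun v => ?_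
          simp
      _ = ∑' v, S (F1 Λ ht T) st (j+1) v * f v := by
          have : ∀ v, S (F1 Λ ht T) st (j+1) v * f v
              = ∑' A, F1 Λ ht T A * (S (F1 Λ ht T) st j (v - st A) * f v) := by
            intro v
            rw [S, ← ENNReal.tsum_mul_right]
            refine tsum_congr fun A => ?_
            rw [mul_assoc]
          rw [tsum_congr this, ENNReal.tsum_comm]
          refine tsum_congr fun A => ?_
          rw [ENNReal.tsum_mul_left]

lemma dec1 (hU1 : ∀ n, U Λ ht n ≤ 1) (NP : List B → Prop) (Sv : V → ℝ≥0∞)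
    (hS : ∀ f : V → ℝ≥0∞, ∑' A, (if NP A then LW Λ A * f (st A) else 0) ≤ ∑' v, Sv v * f v)
    (n T : ℕ) (Φ : V → List B → ℝ≥0∞) :
    ∑' t : List B × List B × List B, (if NP t.1 ∧ fp ht T t.2.1 ∧
        HT ht (t.1 ++ t.2.1 ++ t.2.2) = n then LW Λ (t.1 ++ t.2.1 ++ t.2.2) * Φ (st t.1) t.2.1 else 0)
      ≤ ∑' v, Sv v * ∑' P, F1 Λ ht T P * Φ v P := by
  rw [ENNReal.tsum_prod']
  refine le_trans ?_ (hS (fun v => ∑' P, F1 Λ ht T P * Φ v P))
  refine ENNReal.tsum_le_tsum fun A => ?_
  rw [ENNReal.tsum_prod']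
  by_cases hA : NP A
  · rw [if_pos hA, ← ENNReal.tsum_mul_left]
    refine ENNReal.tsum_le_tsum fun P => ?_
    by_cases hP : fp ht T P
    · calc ∑' R, (if NP A ∧ fp ht T P ∧ HT ht (A ++ P ++ R) = n then
            LW Λ (A ++ P ++ R) * Φ (st A) P else 0)
          ≤ ∑' R, (LW Λ A * (LW Λ P * Φ (st A) P)) * (if HT ht R = n - HT ht (A ++ P) then LW Λ R else 0) := by
            refine ENNReal.tsum_le_tsum fun R => ?_
            by_cases hn : HT ht (A ++ P ++ R) = n
            · have h2 : HT ht R = n - HT ht (A ++ P) := by rw [← hn, HT_append ht (A ++ P) R]; omega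
              rw [if_pos ⟨hA, hP, hn⟩, if_pos h2, LW_append, LW_append]
              exact le_of_eq (by ring)
            · rw [if_neg (fun h => hn h.2.2)]; exact zero_le
        _ = (LW Λ A * (LW Λ P * Φ (st A) P)) * U Λ ht (n - HT ht (A ++ P)) := by
            rw [ENNReal.tsum_mul_left, U]
        _ ≤ (LW Λ A * (LW Λ P * Φ (st A) P)) * 1 := by gcongr; exact hU1 _
        _ = LW Λ A * (F1 Λ ht T P * Φ (st A) P) := by rw [mul_one, F1, if_pos hP]
    · have : ∀ R, (if NP A ∧ fp ht T P ∧ HT ht (A ++ P ++ R) = n then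
            LW Λ (A ++ P ++ R) * Φ (st A) P else 0) = 0 := fun R => if_neg fun h => hP h.2.1
      simp only [this, tsum_zero]; exact zero_le
  · rw [if_neg hA]
    have : ∀ P R, (if NP A ∧ fp ht T P ∧ HT ht (A ++ P ++ R) = n then
            LW Λ (A ++ P ++ R) * Φ (st A) P else 0) = 0 := fun P R => if_neg fun h => hA h.1
    simp only [this, tsum_zero]; exact le_rfl

lemma exists_fp (a : ℕ) (L : List B) (h : a ≤ HT ht L) : ∃ P R, fp ht a P ∧ L = P ++ R := by
  induction L generalizing a with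
  | nil => exact ⟨[], [], by rw [fp_nil]; rw [HT_nil] at h; omega, rfl⟩
  | cons b L ih =>
    rcases Nat.eq_zero_or_pos a with rfl | ha
    · exact ⟨[], b :: L, (fp_nil ht 0).2 rfl, rfl⟩
    · rw [HT_cons] at h
      obtain ⟨P, R, hP, rfl⟩ := ih (a - ht b) (by omega)
      exact ⟨b :: P, R, (fp_cons ht a b P).2 ⟨ha, hP⟩, rfl⟩

lemma chain (T i0 : ℕ) (N : ℕ) (L : List B) (hN : N * (T + i0) ≤ HT ht L) :
    (∃ i, i < N ∧ ∃ A P R, np ht T i A ∧ fp ht T P ∧ T + i0 < HT ht P ∧ L = A ++ P ++ R) ∨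
    (∃ Ps : List (List B), Ps.length = N ∧ (∀ P ∈ Ps, fp ht T P ∧ HT ht P ≤ T + i0) ∧
      ∃ R, L = Ps.flatten ++ R) := by
  induction N generalizing L with
  | zero => exact Or.inr ⟨[], rfl, by simp, L, by simp⟩
  | succ N ih =>
    have hT : T ≤ HT ht L := by
      have : (N + 1) * (T + i0) = N * (T + i0) + T + i0 := by ring
      omega
    obtain ⟨P, L', hP, rfl⟩ := exists_fp ht T L hT
    by_cases hov : T + i0 < HT ht P
    · exact Or.inl ⟨0, by omega, [], P, L', rfl, hP, hov, by simp⟩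
    · have hov' := not_lt.1 hov
      rw [HT_append] at hN
      have h2 : N * (T + i0) ≤ HT ht L' := by
        have : (N + 1) * (T + i0) = N * (T + i0) + T + i0 := by ring
        omega
      rcases ih L' h2 with ⟨i, hi, A, P', R, hA, hP', ho, rfl⟩ | ⟨Ps, hlen, hPs, R, rfl⟩
      · exact Or.inl ⟨i + 1, by omega, P ++ A, P', R, ⟨P, A, hP, hA, rfl⟩, hP', ho, by simp⟩
      · refine Or.inr ⟨P :: Ps, by simp [hlen], ?_, R, by simp⟩
        intro Q hQ
        rcases List.mem_cons.1 hQ with rfl | hQ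
        · exact ⟨hP, hov'⟩
        · exact hPs Q hQ

lemma flat_le (T i0 : ℕ) (Ps : List (List B)) (hPs : ∀ P ∈ Ps, fp ht T P ∧ HT ht P ≤ T + i0) :
    Ps.length * T ≤ HT ht Ps.flatten := by
  induction Ps with
  | nil => simp
  | cons P Ps ih =>
    rw [List.flatten_cons, HT_append, List.length_cons]
    have h1 := ih fun Q hQ => hPs Q (List.mem_cons_of_mem _ hQ)
    have h2 := le_HT_of_fp ht (hPs P List.mem_cons_self).1
    have : (Ps.length + 1) * T = Ps.length * T + T := by ring
    omega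

lemma locate (T i0 : ℕ) (Ps : List (List B)) (R : List B) (k : ℕ)
    (hPs : ∀ P ∈ Ps, fp ht T P ∧ HT ht P ≤ T + i0) (hk : 0 < k) (hk2 : k ≤ HT ht Ps.flatten) :
    ∃ j A P R', j < Ps.length ∧ Ps.flatten ++ R = A ++ P ++ R' ∧ np ht T j A ∧ fp ht T P ∧
      T ≤ HT ht P ∧ HT ht P ≤ T + i0 ∧ j * T ≤ HT ht A ∧ HT ht A ≤ j * (T + i0) ∧
      HT ht A < k ∧ k ≤ HT ht A + HT ht P := by
  induction Ps generalizing k with
  | nil => simp only [List.flatten_nil, HT_nil] at hk2; omega
  | cons P Ps ih =>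
    have hP := hPs P List.mem_cons_self
    have hT := le_HT_of_fp ht hP.1
    by_cases h : k ≤ HT ht P
    · refine ⟨0, [], P, Ps.flatten ++ R, by simp, by simp, rfl, hP.1, hT, hP.2, ?_, ?_, ?_, ?_⟩
      · simp
      · simp [HT_nil]
      · rw [HT_nil]; exact hk
      · rw [HT_nil]; omega
    · rw [List.flatten_cons, HT_append] at hk2
      obtain ⟨j, A, Q, R', hj, he, hA, hQ, h1, h2, h3, h4, h5, h6⟩ :=
        ih (k - HT ht P) (fun Q hQ => hPs Q (List.mem_cons_of_mem _ hQ)) (by omega) (by omega)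
      refine ⟨j + 1, P ++ A, Q, R', by simpa using hj, ?_, ⟨P, A, hP.1, hA, rfl⟩, hQ, h1, h2, ?_, ?_, ?_, ?_⟩
      · rw [List.flatten_cons, List.append_assoc, he]; simp
      · rw [HT_append]
        have : (j + 1) * T = j * T + T := by ring
        omega
      · rw [HT_append]
        have : (j + 1) * (T + i0) = j * (T + i0) + (T + i0) := by ring
        have := hP.2
        omega
      · rw [HT_append]; omega
      · rw [HT_append]; omega

end Dec

section Dec2

lemma reorder {V P V' P' : Type*} (s : V → ℝ≥0∞) (f : P → ℝ≥0∞) (s' : V' → ℝ≥0∞) (f' : P' → ℝ≥0∞)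
    (Ψ : V → P → V' → P' → ℝ≥0∞) :
    ∑' v, s v * ∑' p, f p * ∑' v', s' v' * ∑' p', f' p' * Ψ v p v' p'
      = ∑' v, ∑' v', s v * s' v' * ∑' p, ∑' p', f p * f' p' * Ψ v p v' p' := by
  refine tsum_congr fun v => ?_
  simp only [← ENNReal.tsum_mul_left]
  rw [ENNReal.tsum_comm]
  refine tsum_congr fun v' => tsum_congr fun p => tsum_congr fun p' => ?_
  ring

variable {BX BY V V' : Type*} [AddCommGroup V] [AddCommGroup V'] (ΛX : BX → ℝ≥0∞) (ΛY : BY → ℝ≥0∞)
  (hX : BX → ℕ) (hY : BY → ℕ) (stX : List BX → V) (stY : List BY → V')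

lemma dec2 (hUX : ∀ n, U ΛX hX n ≤ 1) (hUY : ∀ n, U ΛY hY n ≤ 1)
    (NX : List BX → Prop) (SX : V → ℝ≥0∞)
    (hSX : ∀ f : V → ℝ≥0∞, ∑' A, (if NX A then LW ΛX A * f (stX A) else 0) ≤ ∑' v, SX v * f v)
    (NY : List BY → Prop) (SY : V' → ℝ≥0∞)
    (hSY : ∀ f : V' → ℝ≥0∞, ∑' A, (if NY A then LW ΛY A * f (stY A) else 0) ≤ ∑' v, SY v * f v)
    (n T : ℕ) (E : List BX → List BY → Prop) (Ψ : V → List BX → V' → List BY → ℝ≥0∞)
    (hE : ∀ LX LY, HT hX LX = n → HT hY LY = n → E LX LY → ∃ A P R A' P' R',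
      NX A ∧ fp hX T P ∧ LX = A ++ P ++ R ∧ NY A' ∧ fp hY T P' ∧ LY = A' ++ P' ++ R' ∧
      1 ≤ Ψ (stX A) P (stY A') P') :
    ∑' LX, ∑' LY, (if HT hX LX = n ∧ HT hY LY = n ∧ E LX LY then LW ΛX LX * LW ΛY LY else 0)
      ≤ ∑' v, ∑' v', SX v * SY v' *
        ∑' P, ∑' P', F1 ΛX hX T P * F1 ΛY hY T P' * Ψ v P v' P' := by
  rw [← reorder]
  calc ∑' LX, ∑' LY, (if HT hX LX = n ∧ HT hY LY = n ∧ E LX LY then LW ΛX LX * LW ΛY LY else 0)
      = ∑' L : List BX × List BY, (if HT hX L.1 = n ∧ HT hY L.2 = n ∧ E L.1 L.2 then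
          LW ΛX L.1 * LW ΛY L.2 else 0) := by rw [ENNReal.tsum_prod']
    _ ≤ ∑' b : (List BX × List BX × List BX) × (List BY × List BY × List BY),
        (if NX b.1.1 ∧ fp hX T b.1.2.1 ∧ HT hX (b.1.1 ++ b.1.2.1 ++ b.1.2.2) = n then
          LW ΛX (b.1.1 ++ b.1.2.1 ++ b.1.2.2) *
          (if NY b.2.1 ∧ fp hY T b.2.2.1 ∧ HT hY (b.2.1 ++ b.2.2.1 ++ b.2.2.2) = n then
            LW ΛY (b.2.1 ++ b.2.2.1 ++ b.2.2.2) * Ψ (stX b.1.1) b.1.2.1 (stY b.2.1) b.2.2.1 else 0)
          else 0) := by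
        refine cover _ _ (fun b : (List BX × List BX × List BX) × (List BY × List BY × List BY) =>
          (b.1.1 ++ b.1.2.1 ++ b.1.2.2, b.2.1 ++ b.2.2.1 ++ b.2.2.2)) fun L hL => ?_
        obtain ⟨LX, LY⟩ := L
        by_cases h : HT hX LX = n ∧ HT hY LY = n ∧ E LX LY
        · obtain ⟨A, P, R, A', P', R', hA, hP, rfl, hA', hP', rfl, h1⟩ := hE LX LY h.1 h.2.1 h.2.2
          refine ⟨((A, P, R), (A', P', R')), rfl, ?_⟩
          simp only
          rw [if_pos h, if_pos ⟨hA, hP, h.1⟩, if_pos ⟨hA', hP', h.2.1⟩]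
          gcongr
          exact le_mul_of_one_le_right' h1
        · exact absurd (if_neg h) hL
    _ = ∑' t : List BX × List BX × List BX,
        (if NX t.1 ∧ fp hX T t.2.1 ∧ HT hX (t.1 ++ t.2.1 ++ t.2.2) = n then
          LW ΛX (t.1 ++ t.2.1 ++ t.2.2) * (fun v P => ∑' t' : List BY × List BY × List BY,
          (if NY t'.1 ∧ fp hY T t'.2.1 ∧ HT hY (t'.1 ++ t'.2.1 ++ t'.2.2) = n then
            LW ΛY (t'.1 ++ t'.2.1 ++ t'.2.2) * Ψ v P (stY t'.1) t'.2.1 else 0))
              (stX t.1) t.2.1 else 0) := by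
        rw [ENNReal.tsum_prod']
        refine tsum_congr fun t => ?_
        split_ifs with h
        · dsimp only
          rw [ENNReal.tsum_mul_left]
        · simp
    _ ≤ _ := by
        refine (dec1 ΛX hX stX hUX NX SX hSX n T (fun v P => ∑' t' : List BY × List BY × List BY,
          (if NY t'.1 ∧ fp hY T t'.2.1 ∧ HT hY (t'.1 ++ t'.2.1 ++ t'.2.2) = n then
            LW ΛY (t'.1 ++ t'.2.1 ++ t'.2.2) * Ψ v P (stY t'.1) t'.2.1 else 0))).trans ?_
        refine ENNReal.tsum_le_tsum fun v => mul_le_mul_right (ENNReal.tsum_le_tsum fun P =>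
          mul_le_mul_right ?_ _) _
        exact dec1 ΛY hY stY hUY NY SY hSY n T (fun v' P' => Ψ v P v' P')

end Dec2

section Off

variable {B V : Type*} [AddCommGroup V] (Λ : B → ℝ≥0∞) (ht : B → ℕ) (st : List B → V)

/-- first a first passage of depth `D`, then `j` of depth `T` -/
def npD (D T j : ℕ) (L : List B) : Prop := ∃ A L', fp ht D A ∧ np ht T j L' ∧ L = A ++ L'

noncomputable def SD (D T j : ℕ) (v : V) : ℝ≥0∞ := ∑' A, F1 Λ ht D A * S (F1 Λ ht T) st j (v - st A)

noncomputable def GD (lo : V → Prop) (D T j : ℕ) (v : V) : ℝ≥0∞ :=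
  ∑' A, F1 Λ ht D A * Gd (F1 Λ ht T) st lo j (v - st A)

noncomputable def BD (lo : V → Prop) (D T j : ℕ) (v : V) : ℝ≥0∞ :=
  ∑' A, F1 Λ ht D A * Bd (F1 Λ ht T) st lo j (v - st A)

lemma SD_eq (lo : V → Prop) (D T j : ℕ) (v : V) :
    SD Λ ht st D T j v = GD Λ ht st lo D T j v + BD Λ ht st lo D T j v := by
  unfold SD GD BD
  rw [← ENNReal.tsum_add]
  refine tsum_congr fun A => ?_
  rw [← mul_add, S_eq (F1 Λ ht T) st lo]

lemma tsum_conv1 (D : ℕ) (g : V → ℝ≥0∞) :
    ∑' v, ∑' A, F1 Λ ht D A * g (v - st A) = (∑' A, F1 Λ ht D A) * ∑' v, g v := by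
  rw [ENNReal.tsum_comm, ← ENNReal.tsum_mul_right]
  refine tsum_congr fun A => ?_
  rw [ENNReal.tsum_mul_left, tsum_shift]

lemma SD_sum (h1 : ∀ b, 1 ≤ ht b) (hΛ : ∑' b, Λ b ≤ 1) (D T j : ℕ) :
    ∑' v, SD Λ ht st D T j v ≤ 1 := by
  unfold SD
  rw [tsum_conv1]
  exact mul_le_one' (F1_sum Λ ht h1 hΛ D) (S_sum _ st (F1_sum Λ ht h1 hΛ T) j)

lemma GD_sum (h1 : ∀ b, 1 ≤ ht b) (hΛ : ∑' b, Λ b ≤ 1) (lo : V → Prop) (D T j : ℕ) :
    ∑' v, GD Λ ht st lo D T j v ≤ 1 := by
  refine le_trans (ENNReal.tsum_le_tsum fun v => ?_) (SD_sum Λ ht st h1 hΛ D T j)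
  rw [SD_eq Λ ht st lo]
  exact le_self_add

lemma BD_sum (h1 : ∀ b, 1 ≤ ht b) (hΛ : ∑' b, Λ b ≤ 1) (lo : V → Prop) (D T j : ℕ)
    (q : ℝ≥0∞) (hq : ∑' a, (if lo (st a) then 0 else F1 Λ ht T a) ≤ q) :
    ∑' v, BD Λ ht st lo D T j v ≤ q ^ j := by
  unfold BD
  rw [tsum_conv1]
  calc _ ≤ 1 * q ^ j := mul_le_mul' (F1_sum Λ ht h1 hΛ D) (Bd_sum _ st lo q hq j)
    _ = _ := one_mul _

lemma GD_le (h1 : ∀ b, 1 ≤ ht b) (hΛ : ∑' b, Λ b ≤ 1) (lo : V → Prop) (D T j : ℕ) (th : ℝ≥0∞)
    (hlo : ∀ v, lo v → ∑' a, (if st a = v then F1 Λ ht T a else 0) ≤ th) (v : V) :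
    GD Λ ht st lo D T j v ≤ j * th := by
  unfold GD
  calc _ ≤ ∑' A, F1 Λ ht D A * (j * th) := ENNReal.tsum_le_tsum fun A => by
        gcongr
        exact Gd_le _ st lo (F1_sum Λ ht h1 hΛ T) th hlo j _
    _ ≤ _ := by
        rw [ENNReal.tsum_mul_right]
        exact mul_le_of_le_one_left' (F1_sum Λ ht h1 hΛ D)

lemma npD_sum (st0 : st [] = 0) (stA : ∀ A L, st (A ++ L) = st A + st L) (D T j : ℕ)
    (f : V → ℝ≥0∞) :
    ∑' A, (if npD ht D T j A then LW Λ A * f (st A) else 0) ≤ ∑' v, SD Λ ht st D T j v * f v := by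
  calc ∑' A, (if npD ht D T j A then LW Λ A * f (st A) else 0)
      ≤ ∑' q : List B × List B, (F1 Λ ht D q.1 * (if np ht T j q.2 then
            LW Λ q.2 * f (st q.1 + st q.2) else 0)) := by
          refine cover _ _ (fun q : List B × List B => q.1 ++ q.2) fun L hL => ?_
          by_cases h : npD ht D T j L
          · obtain ⟨A, L', hA, hL', rfl⟩ := h
            refine ⟨(A, L'), rfl, ?_⟩
            have h' : npD ht D T j (A ++ L') := ⟨A, L', hA, hL', rfl⟩
            simp only [F1]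
            rw [if_pos h', if_pos hA, if_pos hL', LW_append, stA, mul_assoc]
          · exact absurd (if_neg h) hL
    _ = ∑' A, F1 Λ ht D A * ∑' L, (if np ht T j L then LW Λ L * f (st A + st L) else 0) := by
          rw [ENNReal.tsum_prod']
          refine tsum_congr fun A => ?_
          dsimp only
          rw [ENNReal.tsum_mul_left]
    _ ≤ ∑' A, F1 Λ ht D A * ∑' v, S (F1 Λ ht T) st j v * f (st A + v) := by
          refine ENNReal.tsum_le_tsum fun A => ?_
          gcongr
          exact np_sum Λ ht st st0 stA T j (fun v => f (st A + v))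
    _ = ∑' A, F1 Λ ht D A * ∑' v, S (F1 Λ ht T) st j (v - st A) * f v := by
          refine tsum_congr fun A => ?_
          congr 1
          rw [← tsum_shift (fun v => S (F1 Λ ht T) st j v * f (st A + v)) (st A)]
          refine tsum_congr fun v => ?_
          simp
    _ = ∑' v, SD Λ ht st D T j v * f v := by
          have : ∀ v, SD Λ ht st D T j v * f v
              = ∑' A, F1 Λ ht D A * (S (F1 Λ ht T) st j (v - st A) * f v) := by
            intro v
            rw [SD, ← ENNReal.tsum_mul_right]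
            refine tsum_congr fun A => ?_
            rw [mul_assoc]
          rw [tsum_congr this, ENNReal.tsum_comm]
          refine tsum_congr fun A => ?_
          rw [ENNReal.tsum_mul_left]

end Off

end Crest.Agent.R154.Asm474
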