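import Crest.Agent.R154.B5Abs_566

/-! Row 154, NBProp (S0219), ROAD 801, second source of the abstract assembly (helper478), part A:
first passage lists, attempts, smooth density, for one renewal system of blocks. -/

set_option autoImplicit false

namespace Crest.Agent.R154.Asm478

open Crest.Agent.R154.B5A
open scoped ENNReal Classical

variable {B G : Type*}

/-- first passage lists of depth `a` -/
def FP (ht : B → ℕ) : List B → ℕ → Prop
  | [], a => a = 0
  | b :: L, a => 0 < a ∧ FP ht L (a - ht b)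

/-- split at the first passage of depth `a` -/
def fp (ht : B → ℕ) : List B → ℕ → List B × List B
  | [], _ => ([], [])
  | b :: L, a => if a = 0 then ([], b :: L) else (b :: (fp ht L (a - ht b)).1, (fp ht L (a - ht b)).2)

variable (ht : B → ℕ)

lemma fp_eq (L : List B) (a : ℕ) : (fp ht L a).1 ++ (fp ht L a).2 = L := by
  induction L generalizing a with
  | nil => rfl
  | cons b L ih =>
    by_cases h : a = 0
    · simp [fp, h]
    · simp [fp, h, ih]

lemma fp_FP (L : List B) (a : ℕ) (h : a ≤ HT ht L) : FP ht (fp ht L a).1 a := by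
  induction L generalizing a with
  | nil => simp [HT] at h; simp [fp, FP, h]
  | cons b L ih =>
    by_cases h0 : a = 0
    · simp [fp, h0, FP]
    · rw [HT_cons] at h
      simp only [fp, h0, if_false, FP]
      exact ⟨by omega, ih _ (by omega)⟩

lemma fp_append (L L' : List B) (a : ℕ) (h : FP ht L a) : fp ht (L ++ L') a = (L, L') := by
  induction L generalizing a with
  | nil =>
    simp only [FP] at h
    subst h
    cases L' <;> simp [fp]
  | cons b L ih =>
    obtain ⟨h0, h1⟩ := h
    simp [fp, h0.ne', ih _ h1]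

lemma FP_le (L : List B) (a : ℕ) (h : FP ht L a) : a ≤ HT ht L := by
  induction L generalizing a with
  | nil => simp only [FP] at h; omega
  | cons b L ih =>
    rw [HT_cons]
    have := ih _ h.2
    omega

lemma FP_append (L L' : List B) (a : ℕ) (h : FP ht (L ++ L') a) : FP ht L' (a - HT ht L) := by
  induction L generalizing a with
  | nil => simpa [HT] using h
  | cons b L ih =>
    rw [HT_cons, Nat.sub_add_eq]
    exact ih _ h.2

variable (Λ : B → ℝ≥0∞)

/-- sum over the first passage lists -/
noncomputable def SF (a : ℕ) (F : List B → ℝ≥0∞) : ℝ≥0∞ :=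
  ∑' L, if FP ht L a then LW Λ L * F L else 0

lemma SF_mono {a : ℕ} {F F' : List B → ℝ≥0∞} (h : ∀ L, FP ht L a → F L ≤ F' L) :
    SF ht Λ a F ≤ SF ht Λ a F' := by
  refine ENNReal.tsum_le_tsum fun L => ?_
  by_cases hL : FP ht L a
  · simp only [hL, if_true]; exact mul_le_mul_right (h L hL) _
  · simp [hL]

lemma SF_add (a : ℕ) (F F' : List B → ℝ≥0∞) :
    SF ht Λ a (fun L => F L + F' L) = SF ht Λ a F + SF ht Λ a F' := by
  rw [SF, SF, SF, ← ENNReal.tsum_add]
  refine tsum_congr fun L => ?_
  by_cases hL : FP ht L a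
  · simp [hL, mul_add]
  · simp [hL]

lemma SF_const_mul (a : ℕ) (c : ℝ≥0∞) (F : List B → ℝ≥0∞) :
    SF ht Λ a (fun L => c * F L) = c * SF ht Λ a F := by
  rw [SF, SF, ← ENNReal.tsum_mul_left]
  refine tsum_congr fun L => ?_
  by_cases hL : FP ht L a
  · simp [hL, mul_left_comm]
  · simp [hL]

lemma SF_mul_const (a : ℕ) (c : ℝ≥0∞) (F : List B → ℝ≥0∞) :
    SF ht Λ a (fun L => F L * c) = SF ht Λ a F * c := by
  rw [mul_comm, ← SF_const_mul]
  simp only [mul_comm]

lemma SF_tsum {ι : Type*} (a : ℕ) (F : ι → List B → ℝ≥0∞) :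
    SF ht Λ a (fun L => ∑' i, F i L) = ∑' i, SF ht Λ a (F i) := by
  simp only [SF]
  rw [ENNReal.tsum_comm]
  refine tsum_congr fun L => ?_
  by_cases hL : FP ht L a
  · simp [hL, ENNReal.tsum_mul_left]
  · simp [hL]

lemma SF_sum {ι : Type*} (a : ℕ) (s : Finset ι) (F : ι → List B → ℝ≥0∞) :
    SF ht Λ a (fun L => ∑ i ∈ s, F i L) = ∑ i ∈ s, SF ht Λ a (F i) := by
  induction s using Finset.induction_on with
  | empty => simp [SF]
  | insert i s hi ih => simp only [Finset.sum_insert hi]; rw [SF_add, ih]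

lemma SF_le (h1 : ∀ b, 1 ≤ ht b) (hΛ : ∑' b, Λ b ≤ 1) (a : ℕ) : SF ht Λ a (fun _ => 1) ≤ 1 := by
  induction a using Nat.strong_induction_on with
  | _ a ih =>
    rw [SF, tsum_list]
    by_cases ha : a = 0
    · subst ha
      simp [FP, LW_nil]
    · have e : ∀ b, (∑' L, if FP ht (b :: L) a then LW Λ (b :: L) * (1 : ℝ≥0∞) else 0)
          = Λ b * SF ht Λ (a - ht b) (fun _ => 1) := by
        intro b
        rw [SF, ← ENNReal.tsum_mul_left]
        refine tsum_congr fun L => ?_
        have : FP ht (b :: L) a ↔ FP ht L (a - ht b) := by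
          simp only [FP]; constructor
          · exact fun h => h.2
          · exact fun h => ⟨by omega, h⟩
        by_cases h : FP ht L (a - ht b)
        · rw [if_pos (this.2 h), if_pos h, LW_cons, mul_assoc]
        · rw [if_neg (fun h' => h (this.1 h')), if_neg h, mul_zero]
      rw [if_neg (by simpa [FP] using ha), zero_add]
      calc _ = ∑' b, Λ b * SF ht Λ (a - ht b) (fun _ => 1) := tsum_congr e
        _ ≤ ∑' b, Λ b * 1 := ENNReal.tsum_le_tsum fun b =>
            mul_le_mul_right (ih _ (by have := h1 b; omega)) _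
        _ ≤ 1 := by simpa using hΛ

lemma SF_le_one (h1 : ∀ b, 1 ≤ ht b) (hΛ : ∑' b, Λ b ≤ 1) (a : ℕ) {F : List B → ℝ≥0∞}
    (hF : ∀ L, FP ht L a → F L ≤ 1) : SF ht Λ a F ≤ 1 :=
  (SF_mono ht Λ hF).trans (SF_le ht Λ h1 hΛ a)

lemma SF_le_const (h1 : ∀ b, 1 ≤ ht b) (hΛ : ∑' b, Λ b ≤ 1) (a : ℕ) {F : List B → ℝ≥0∞}
    {c : ℝ≥0∞} (hF : ∀ L, FP ht L a → F L ≤ c) : SF ht Λ a F ≤ c := by
  calc SF ht Λ a F ≤ SF ht Λ a (fun _ => c * 1) := SF_mono ht Λ fun L hL => by simpa using hF L hL
    _ = c * SF ht Λ a (fun _ => 1) := SF_const_mul ht Λ a c _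
    _ ≤ c * 1 := mul_le_mul_right (SF_le ht Λ h1 hΛ a) _
    _ = c := mul_one _

/-- every list of height at least `a` is split -/
lemma tsum_le_SF (a : ℕ) (F : List B → ℝ≥0∞) :
    ∑' L, (if a ≤ HT ht L then LW Λ L * F L else 0)
      ≤ SF ht Λ a (fun L1 => ∑' L2, LW Λ L2 * F (L1 ++ L2)) := by
  set g : List B × List B → ℝ≥0∞ := fun q =>
    if FP ht q.1 a then LW Λ q.1 * (LW Λ q.2 * F (q.1 ++ q.2)) else 0 with hg
  have hinj : Function.Injective (fun L : List B => fp ht L a) := by
    intro L L' h
    have h' : fp ht L a = fp ht L' a := h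
    rw [← fp_eq ht L a, ← fp_eq ht L' a, h']
  calc ∑' L, (if a ≤ HT ht L then LW Λ L * F L else 0) ≤ ∑' L, g (fp ht L a) := by
        refine ENNReal.tsum_le_tsum fun L => ?_
        by_cases h : a ≤ HT ht L
        · rw [if_pos h]
          simp only [hg]
          rw [if_pos (fp_FP ht L a h), ← mul_assoc, ← LW_append, fp_eq]
        · rw [if_neg h]; exact zero_le
    _ ≤ ∑' q, g q := ENNReal.tsum_comp_le_tsum_of_injective hinj g
    _ = ∑' L1, ∑' L2, g (L1, L2) := ENNReal.tsum_prod'
    _ = _ := by
        rw [SF]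
        refine tsum_congr fun L1 => ?_
        by_cases h : FP ht L1 a
        · simp only [hg, h, if_true]
          rw [ENNReal.tsum_mul_left]
        · simp [hg, h]

/-- first passage of `r ≥ t` through the first passage of `t` -/
lemma SF_split {t r : ℕ} (htr : t ≤ r) (F : List B → ℝ≥0∞) :
    SF ht Λ r F ≤ SF ht Λ t (fun L1 => SF ht Λ (r - HT ht L1) (fun L2 => F (L1 ++ L2))) := by
  calc SF ht Λ r F
      ≤ ∑' L, (if t ≤ HT ht L then LW Λ L * (if FP ht L r then F L else 0) else 0) := by
        refine ENNReal.tsum_le_tsum fun L => ?_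
        by_cases h : FP ht L r
        · rw [if_pos h, if_pos (htr.trans (FP_le ht L r h)), if_pos h]
        · rw [if_neg h]; exact zero_le
    _ ≤ SF ht Λ t (fun L1 => ∑' L2, LW Λ L2 * (if FP ht (L1 ++ L2) r then F (L1 ++ L2) else 0)) :=
        tsum_le_SF ht Λ t _
    _ ≤ _ := by
        refine SF_mono ht Λ fun L1 _ => ENNReal.tsum_le_tsum fun L2 => ?_
        by_cases h : FP ht (L1 ++ L2) r
        · rw [if_pos h, if_pos (FP_append ht L1 L2 r h)]
        · rw [if_neg h, mul_zero]; exact zero_le

/-! ### attempts -/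

/-- one of the first `J` attempts is good -/
def Gd (good : List B → Prop) (t : ℕ) : ℕ → ℕ → List B → Prop
  | 0, _, _ => False
  | J + 1, r, U => t ≤ r ∧ (good (fp ht U t).1 ∨ Gd good t J (r - HT ht (fp ht U t).1) (fp ht U t).2)

lemma Gd_succ (good : List B → Prop) (t J r : ℕ) (htr : t ≤ r) (L1 L2 : List B)
    (h : FP ht L1 t) :
    Gd ht good t (J + 1) r (L1 ++ L2) ↔ good L1 ∨ Gd ht good t J (r - HT ht L1) L2 := by
  simp only [Gd, fp_append ht L1 L2 t h, htr, true_and]

/-- mass of the lists without good attempt -/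
lemma bad_le (h1 : ∀ b, 1 ≤ ht b) (hΛ : ∑' b, Λ b ≤ 1) (good : List B → Prop) (t i0 : ℕ)
    {q e : ℝ≥0∞} (hq : SF ht Λ t (fun L => if good L then 0 else 1) ≤ q) (hq1 : q ≤ 1)
    (he : SF ht Λ t (fun L => if t + i0 < HT ht L then 1 else 0) ≤ e) (J : ℕ) :
    ∀ r, J * (t + i0) ≤ r →
      SF ht Λ r (fun U => if Gd ht good t J r U then 0 else 1) ≤ q ^ J + J * e := by
  induction J with
  | zero =>
    intro r _
    simp only [pow_zero, Nat.cast_zero, zero_mul, add_zero]
    exact SF_le_one ht Λ h1 hΛ r fun L _ => by split_ifs <;> simp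
  | succ J ih =>
    intro r hr
    have htr : t ≤ r := by nlinarith
    refine (SF_split ht Λ htr _).trans ?_
    calc SF ht Λ t (fun L1 => SF ht Λ (r - HT ht L1) (fun L2 =>
            if Gd ht good t (J + 1) r (L1 ++ L2) then 0 else 1))
        ≤ SF ht Λ t (fun L1 => (if good L1 then 0 else 1) * (q ^ J + J * e)
            + (if t + i0 < HT ht L1 then 1 else 0)) := by
          refine SF_mono ht Λ fun L1 hL1 => ?_
          by_cases hg : good L1
          · rw [if_pos hg, zero_mul, zero_add]
            refine le_trans (le_of_eq ?_) zero_le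
            have : ∀ L2, Gd ht good t (J + 1) r (L1 ++ L2) := fun L2 =>
              (Gd_succ ht good t J r htr L1 L2 hL1).2 (Or.inl hg)
            simp [SF, this]
          · rw [if_neg hg, one_mul]
            by_cases hh : t + i0 < HT ht L1
            · rw [if_pos hh]
              refine le_trans (SF_le_one ht Λ h1 hΛ _ fun L _ => by split_ifs <;> simp) le_add_self
            · rw [if_neg hh, add_zero]
              refine le_trans (SF_mono ht Λ fun L2 _ => ?_) (ih (r - HT ht L1) ?_)
              · have := Gd_succ ht good t J r htr L1 L2 hL1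
                by_cases h2 : Gd ht good t J (r - HT ht L1) L2
                · rw [if_pos (this.2 (Or.inr h2))]; exact zero_le
                · rw [if_neg h2]; split_ifs <;> simp
              · push_cast at hr ⊢
                have : (J + 1) * (t + i0) = J * (t + i0) + (t + i0) := by ring
                omega
      _ ≤ q * (q ^ J + J * e) + e := by
          rw [SF_add, SF_mul_const]
          exact add_le_add (mul_le_mul_left hq _) he
      _ ≤ _ := by
          rw [mul_add, pow_succ, mul_comm (q ^ J) q, add_assoc]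
          refine add_le_add le_rfl ?_
          push_cast
          rw [add_mul, one_mul]
          refine add_le_add ?_ le_rfl
          calc q * (J * e) ≤ 1 * (J * e) := mul_le_mul_left hq1 _
            _ = _ := one_mul _

variable [AddCommGroup G] (z : B → G)

/-- displacement -/
def Dp (z : B → G) (L : List B) : G := (L.map z).sum

lemma Dp_append (L L' : List B) : Dp z (L ++ L') = Dp z L + Dp z L' := by simp [Dp]

/-- law of one attempt -/
noncomputable def pp (t h : ℕ) (x : G) : ℝ≥0∞ :=
  SF ht Λ t (fun L => if HT ht L = h ∧ Dp z L = x then 1 else 0)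

/-- one good attempt spreads -/
lemma one_good (h1 : ∀ b, 1 ≤ ht b) (hΛ : ∑' b, Λ b ≤ 1) (t i0 : ℕ) (θ : ℝ≥0∞) (r a : ℕ) (x : G) :
    SF ht Λ t (fun L1 => (if HT ht L1 ≤ t + i0 ∧ pp ht Λ z t (HT ht L1) (Dp z L1) < θ then 1 else 0) *
      SF ht Λ (r - HT ht L1) (fun L2 => if HT ht L1 + HT ht L2 = a ∧ Dp z L1 + Dp z L2 = x
        then 1 else 0)) ≤ (i0 + 1) * θ := by
  calc SF ht Λ t (fun L1 => (if HT ht L1 ≤ t + i0 ∧ pp ht Λ z t (HT ht L1) (Dp z L1) < θ
          then 1 else 0) * SF ht Λ (r - HT ht L1) (fun L2 =>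
            if HT ht L1 + HT ht L2 = a ∧ Dp z L1 + Dp z L2 = x then 1 else 0))
      ≤ SF ht Λ t (fun L1 => ∑ h ∈ Finset.Icc t (t + i0), SF ht Λ (r - h) (fun L2 =>
          if HT ht L1 = h ∧ Dp z L1 = x - Dp z L2 ∧ pp ht Λ z t h (x - Dp z L2) < θ
            then 1 else 0)) := by
        refine SF_mono ht Λ fun L1 hL1 => ?_
        by_cases hc : HT ht L1 ≤ t + i0 ∧ pp ht Λ z t (HT ht L1) (Dp z L1) < θ
        · rw [if_pos hc, one_mul]
          refine le_trans ?_ (Finset.single_le_sum (f := fun h => SF ht Λ (r - h) (fun L2 =>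
            if HT ht L1 = h ∧ Dp z L1 = x - Dp z L2 ∧ pp ht Λ z t h (x - Dp z L2) < θ
              then (1 : ℝ≥0∞) else 0)) (fun _ _ => zero_le)
            (Finset.mem_Icc.2 ⟨FP_le ht L1 t hL1, hc.1⟩))
          refine SF_mono ht Λ fun L2 _ => ?_
          by_cases h2 : HT ht L1 + HT ht L2 = a ∧ Dp z L1 + Dp z L2 = x
          · have e : Dp z L1 = x - Dp z L2 := eq_sub_of_add_eq h2.2
            rw [if_pos h2, if_pos ⟨rfl, e, by rw [← e]; exact hc.2⟩]
          · rw [if_neg h2]; exact zero_le
        · rw [if_neg hc, zero_mul]; exact zero_le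
    _ = ∑ h ∈ Finset.Icc t (t + i0), SF ht Λ (r - h) (fun L2 => SF ht Λ t (fun L1 =>
          if HT ht L1 = h ∧ Dp z L1 = x - Dp z L2 ∧ pp ht Λ z t h (x - Dp z L2) < θ
            then 1 else 0)) := by
        rw [SF_sum]
        refine Finset.sum_congr rfl fun h _ => ?_
        simp only [SF, ← ENNReal.tsum_mul_left]
        have e1 : ∀ L1 : List B, (if FP ht L1 t then ∑' L2 : List B, LW Λ L1 *
            (if FP ht L2 (r - h) then LW Λ L2 * (if HT ht L1 = h ∧ Dp z L1 = x - Dp z L2 ∧
              pp ht Λ z t h (x - Dp z L2) < θ then (1 : ℝ≥0∞) else 0) else 0) else 0)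
            = ∑' L2 : List B, (if FP ht L2 (r - h) then LW Λ L2 * (if FP ht L1 t then LW Λ L1 *
              (if HT ht L1 = h ∧ Dp z L1 = x - Dp z L2 ∧
              pp ht Λ z t h (x - Dp z L2) < θ then (1 : ℝ≥0∞) else 0) else 0) else 0) := by
          intro L1
          by_cases h1 : FP ht L1 t
          · simp only [h1, if_true]
            refine tsum_congr fun L2 => ?_
            by_cases h2 : FP ht L2 (r - h)
            · simp only [h2, if_true]; ring
            · simp [h2]
          · simp [h1]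
        have e2 : ∀ L2 : List B, (if FP ht L2 (r - h) then ∑' L1 : List B, LW Λ L2 *
            (if FP ht L1 t then LW Λ L1 * (if HT ht L1 = h ∧ Dp z L1 = x - Dp z L2 ∧
              pp ht Λ z t h (x - Dp z L2) < θ then (1 : ℝ≥0∞) else 0) else 0) else 0)
            = ∑' L1 : List B, (if FP ht L2 (r - h) then LW Λ L2 * (if FP ht L1 t then LW Λ L1 *
              (if HT ht L1 = h ∧ Dp z L1 = x - Dp z L2 ∧
              pp ht Λ z t h (x - Dp z L2) < θ then (1 : ℝ≥0∞) else 0) else 0) else 0) := by
          intro L2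
          by_cases h2 : FP ht L2 (r - h)
          · simp only [h2, if_true]
          · simp [h2]
        rw [tsum_congr e1, tsum_congr e2, ENNReal.tsum_comm]
    _ ≤ ∑ h ∈ Finset.Icc t (t + i0), θ := by
        refine Finset.sum_le_sum fun h _ => SF_le_const ht Λ h1 hΛ _ fun L2 _ => ?_
        by_cases hp : pp ht Λ z t h (x - Dp z L2) < θ
        · simp only [hp, and_true]
          exact hp.le
        · simp [hp, SF]
    _ = (i0 + 1) * θ := by
        rw [Finset.sum_const, Nat.card_Icc, nsmul_eq_mul]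
        congr 1
        have : t + i0 + 1 - t = i0 + 1 := by omega
        rw [this]
        push_cast
        ring

/-- **smooth density** -/
lemma dens_le (h1 : ∀ b, 1 ≤ ht b) (hΛ : ∑' b, Λ b ≤ 1) (t i0 : ℕ) (θ q : ℝ≥0∞)
    (hq : SF ht Λ t (fun L => if HT ht L ≤ t + i0 ∧ pp ht Λ z t (HT ht L) (Dp z L) < θ
      then 0 else 1) ≤ q) (J : ℕ) : ∀ (r a : ℕ) (x : G),
    SF ht Λ r (fun U => if Gd ht (fun L => HT ht L ≤ t + i0 ∧
      pp ht Λ z t (HT ht L) (Dp z L) < θ) t J r U ∧ HT ht U = a ∧ Dp z U = x then 1 else 0)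
      ≤ (∑ i ∈ Finset.range J, q ^ i) * ((i0 + 1) * θ) := by
  induction J with
  | zero => intro r a x; simp [Gd, SF]
  | succ J ih =>
    intro r a x
    set good : List B → Prop := fun L => HT ht L ≤ t + i0 ∧
      pp ht Λ z t (HT ht L) (Dp z L) < θ with hgood
    by_cases htr : t ≤ r
    · refine (SF_split ht Λ htr _).trans ?_
      calc SF ht Λ t (fun L1 => SF ht Λ (r - HT ht L1) (fun L2 =>
              if Gd ht good t (J + 1) r (L1 ++ L2) ∧ HT ht (L1 ++ L2) = a ∧
                Dp z (L1 ++ L2) = x then 1 else 0))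
          ≤ SF ht Λ t (fun L1 => (if HT ht L1 ≤ t + i0 ∧ pp ht Λ z t (HT ht L1) (Dp z L1) < θ
              then 1 else 0) * SF ht Λ (r - HT ht L1) (fun L2 =>
                if HT ht L1 + HT ht L2 = a ∧ Dp z L1 + Dp z L2 = x then 1 else 0)
              + (if HT ht L1 ≤ t + i0 ∧ pp ht Λ z t (HT ht L1) (Dp z L1) < θ
              then 0 else 1) * ((∑ i ∈ Finset.range J, q ^ i) * ((i0 + 1) * θ))) := by
            refine SF_mono ht Λ fun L1 hL1 => ?_
            by_cases hg : HT ht L1 ≤ t + i0 ∧ pp ht Λ z t (HT ht L1) (Dp z L1) < θ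
            · rw [if_pos hg, if_pos hg, one_mul, zero_mul, add_zero]
              refine SF_mono ht Λ fun L2 _ => ?_
              rw [HT_append, Dp_append]
              split_ifs with h2 h3 h3
              · exact le_rfl
              · exact absurd h2.2 h3
              · exact zero_le
              · exact le_rfl
            · rw [if_neg hg, if_neg hg, zero_mul, one_mul, zero_add]
              refine le_trans (SF_mono ht Λ fun L2 _ => ?_)
                (ih (r - HT ht L1) (a - HT ht L1) (x - Dp z L1))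
              rw [HT_append, Dp_append]
              have hs := Gd_succ ht good t J r htr L1 L2 hL1
              split_ifs with h2 h3 h3
              · exact le_rfl
              · refine absurd ⟨(hs.1 h2.1).resolve_left hg, ?_, ?_⟩ h3
                · omega
                · rw [← h2.2.2]; abel
              · exact zero_le
              · exact le_rfl
        _ ≤ (i0 + 1) * θ + q * ((∑ i ∈ Finset.range J, q ^ i) * ((i0 + 1) * θ)) := by
            rw [SF_add, SF_mul_const]
            exact add_le_add (one_good ht Λ z h1 hΛ t i0 θ r a x) (mul_le_mul_left hq _)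
        _ = _ := by
            rw [Finset.sum_range_succ', pow_zero]
            simp only [pow_succ]
            rw [← Finset.sum_mul]
            ring
    · have : ∀ U, ¬ Gd ht good t (J + 1) r U := fun U h => htr h.1
      simp [this, SF]

end Crest.Agent.R154.Asm478
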