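import Crest.Agent.R154.B5Abs_566

/-! Row 154, ROAD 801 (helper508): first-passage lists, overshoot, smooth density. -/

set_option autoImplicit false

namespace Crest.Agent.R154.Asm508

open Crest.Agent.R154.B5A
open scoped ENNReal

variable {B : Type*}

/-- `L` is a first passage of depth `a` (list read from the tie). -/
def FP (h : B → ℕ) : List B → ℕ → Prop
  | [], a => a = 0
  | b :: L, a => 0 < a ∧ FP h L (a - h b)

lemma FP_zero (h : B → ℕ) (L : List B) : FP h L 0 ↔ L = [] := by
  cases L <;> simp [FP]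

lemma FP_ge (h : B → ℕ) (L : List B) (a : ℕ) (hL : FP h L a) : a ≤ HT h L := by
  induction L generalizing a with
  | nil => simp [FP] at hL; omega
  | cons b L ih => have := ih _ hL.2; rw [HT_cons]; omega

lemma FP_append (h : B → ℕ) (A R : List B) (t a : ℕ) (hA : FP h A t) (hta : t ≤ a) :
    FP h (A ++ R) a ↔ FP h R (a - HT h A) := by
  induction A generalizing t a with
  | nil => simp [HT_nil]
  | cons b A ih =>
    rw [List.cons_append, HT_cons]
    have h0 : 0 < a := lt_of_lt_of_le hA.1 hta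
    have := ih (t - h b) (a - h b) hA.2 (by omega)
    rw [← Nat.sub_sub, ← this]
    simp only [FP, h0, true_and]

variable (Λ : B → ℝ≥0∞) (h : B → ℕ)

open Classical in
/-- weighted sum over the first passages of depth `a` -/
noncomputable def fpS (a : ℕ) (F : List B → ℝ≥0∞) : ℝ≥0∞ :=
  ∑' L : List B, if FP h L a then LW Λ L * F L else 0

lemma fpS_zero (F : List B → ℝ≥0∞) : fpS Λ h 0 F = F [] := by
  classical
  rw [fpS, tsum_eq_single []]
  · simp [FP, LW_nil]
  · intro L hL
    rw [if_neg]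
    rwa [FP_zero]

lemma fpS_pos (a : ℕ) (ha : 0 < a) (F : List B → ℝ≥0∞) :
    fpS Λ h a F = ∑' b, Λ b * fpS Λ h (a - h b) (fun L => F (b :: L)) := by
  classical
  rw [fpS, tsum_list, if_neg (by simp [FP]; omega), zero_add]
  refine tsum_congr fun b => ?_
  rw [fpS, ← ENNReal.tsum_mul_left]
  refine tsum_congr fun L => ?_
  by_cases hL : FP h L (a - h b)
  · rw [if_pos hL, if_pos ⟨ha, hL⟩, LW_cons, mul_assoc]
  · rw [if_neg hL, if_neg (fun hh => hL hh.2), mul_zero]

lemma fpS_mono (a : ℕ) {F G : List B → ℝ≥0∞} (hFG : ∀ L, FP h L a → F L ≤ G L) :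
    fpS Λ h a F ≤ fpS Λ h a G := by
  refine ENNReal.tsum_le_tsum fun L => ?_
  split_ifs with hL
  · exact mul_le_mul_right (hFG L hL) _
  · exact le_rfl

lemma fpS_congr (a : ℕ) {F G : List B → ℝ≥0∞} (hFG : ∀ L, FP h L a → F L = G L) :
    fpS Λ h a F = fpS Λ h a G :=
  le_antisymm (fpS_mono Λ h a fun L hL => (hFG L hL).le) (fpS_mono Λ h a fun L hL => (hFG L hL).ge)

lemma fpS_add (a : ℕ) (F G : List B → ℝ≥0∞) :
    fpS Λ h a (fun L => F L + G L) = fpS Λ h a F + fpS Λ h a G := by
  rw [fpS, fpS, fpS, ← ENNReal.tsum_add]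
  refine tsum_congr fun L => ?_
  split_ifs <;> simp [mul_add]

lemma fpS_mul (a : ℕ) (c : ℝ≥0∞) (F : List B → ℝ≥0∞) :
    fpS Λ h a (fun L => c * F L) = c * fpS Λ h a F := by
  rw [fpS, fpS, ← ENNReal.tsum_mul_left]
  refine tsum_congr fun L => ?_
  split_ifs
  · rw [mul_left_comm]
  · rw [mul_zero]

lemma fpS_tsum {ι : Type*} (a : ℕ) (F : ι → List B → ℝ≥0∞) :
    fpS Λ h a (fun L => ∑' i, F i L) = ∑' i, fpS Λ h a (F i) := by
  simp only [fpS]
  rw [ENNReal.tsum_comm]
  refine tsum_congr fun L => ?_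
  split_ifs
  · rw [ENNReal.tsum_mul_left]
  · simp

lemma fpS_one (h1 : ∀ b, 1 ≤ h b) (hΛ : ∑' b, Λ b = 1) (a : ℕ) :
    fpS Λ h a (fun _ => 1) ≤ 1 := by
  induction a using Nat.strong_induction_on with
  | _ a ih =>
    rcases Nat.eq_zero_or_pos a with rfl | ha
    · rw [fpS_zero]
    · rw [fpS_pos Λ h a ha]
      calc _ ≤ ∑' b, Λ b * 1 := ENNReal.tsum_le_tsum fun b =>
            mul_le_mul_right (ih _ (by have := h1 b; omega)) _
        _ = 1 := by simpa using hΛ

lemma fpS_le (h1 : ∀ b, 1 ≤ h b) (hΛ : ∑' b, Λ b = 1) (a : ℕ) {F : List B → ℝ≥0∞} {c : ℝ≥0∞}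
    (hF : ∀ L, FP h L a → F L ≤ c) : fpS Λ h a F ≤ c :=
  calc _ ≤ fpS Λ h a (fun _ => c * 1) := fpS_mono Λ h a fun L hL => by
        rw [mul_one]; exact hF L hL
    _ = c * fpS Λ h a (fun _ => 1) := fpS_mul Λ h a c _
    _ ≤ c * 1 := mul_le_mul_right (fpS_one Λ h h1 hΛ a) _
    _ = c := mul_one c

/-- splitting at the first passage of depth `a` -/
lemma fp_split (h1 : ∀ b, 1 ≤ h b) (a : ℕ) (F : List B → ℝ≥0∞)
    (hF : ∀ L, F L ≠ 0 → a ≤ HT h L) :
    ∑' L, LW Λ L * F L = fpS Λ h a (fun A => ∑' R, LW Λ R * F (A ++ R)) := by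
  induction a using Nat.strong_induction_on generalizing F with
  | _ a ih =>
    rcases Nat.eq_zero_or_pos a with rfl | ha
    · rw [fpS_zero]; rfl
    · rw [fpS_pos Λ h a ha, tsum_list]
      have h0 : F [] = 0 := by
        by_contra h0
        have := hF [] h0
        rw [HT_nil] at this
        omega
      rw [h0, mul_zero, zero_add]
      refine tsum_congr fun b => ?_
      simp only [LW_cons, mul_assoc]
      rw [ENNReal.tsum_mul_left]
      congr 1
      refine ih (a - h b) (by have := h1 b; omega) (fun L => F (b :: L)) fun L hL => ?_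
      have := hF _ hL
      rw [HT_cons] at this
      omega

/-- composition of first passages -/
lemma fpS_comp (h1 : ∀ b, 1 ≤ h b) (t a : ℕ) (hta : t ≤ a) (F : List B → ℝ≥0∞) :
    fpS Λ h a F = fpS Λ h t (fun A => fpS Λ h (a - HT h A) (fun R => F (A ++ R))) := by
  classical
  have e1 : fpS Λ h a F = ∑' L, LW Λ L * (if FP h L a then F L else 0) := by
    rw [fpS]; refine tsum_congr fun L => ?_
    split_ifs <;> simp
  rw [e1, fp_split Λ h h1 t]
  · refine fpS_congr Λ h t fun A hA => ?_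
    rw [fpS]
    refine tsum_congr fun R => ?_
    by_cases hR : FP h R (a - HT h A)
    · rw [if_pos ((FP_append h A R t a hA hta).2 hR), if_pos hR]
    · rw [if_neg (fun hh => hR ((FP_append h A R t a hA hta).1 hh)), if_neg hR, mul_zero]
  · intro L hL
    by_cases hh : FP h L a
    · exact hta.trans (FP_ge h L a hh)
    · simp [hh] at hL

/-! ### overshoot -/

lemma over_aux (h1 : ∀ b, 1 ≤ h b) (a i0 : ℕ) :
    fpS Λ h a (fun L => if a + i0 < HT h L then 1 else 0)
      ≤ ∑' L, LW Λ L * (if HT h L < a then tail Λ h (a + i0 - HT h L) else 0) := by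
  induction a using Nat.strong_induction_on with
  | _ a ih =>
    rcases Nat.eq_zero_or_pos a with rfl | ha
    · rw [fpS_zero]; simp [HT_nil]
    · rw [fpS_pos Λ h a ha, tsum_list, HT_nil, if_pos ha, LW_nil, one_mul, Nat.sub_zero, tail,
        ← ENNReal.tsum_add]
      refine ENNReal.tsum_le_tsum fun b => ?_
      simp only [HT_cons, LW_cons, mul_assoc]
      rw [ENNReal.tsum_mul_left]
      by_cases hb : h b < a
      · refine le_trans ?_ le_add_self
        refine mul_le_mul_right ?_ _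
        have := ih (a - h b) (by have := h1 b; omega)
        refine le_trans (le_of_eq ?_) (this.trans (le_of_eq ?_))
        · refine fpS_congr Λ h _ fun L _ => ?_
          by_cases hc : a + i0 < h b + HT h L
          · rw [if_pos hc, if_pos (by omega)]
          · rw [if_neg hc, if_neg (by omega)]
        · refine tsum_congr fun L => ?_
          by_cases hc : HT h L < a - h b
          · rw [if_pos hc, if_pos (by omega)]
            congr 2; omega
          · rw [if_neg hc, if_neg (by omega)]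
      · rw [show a - h b = 0 by omega, fpS_zero, HT_nil, add_zero]
        refine le_trans ?_ le_self_add
        split_ifs <;> simp

/-- the overshoot bound -/
noncomputable def ov (i0 : ℕ) : ℝ≥0∞ := ∑' k, tail Λ h (k + (i0 + 1))

lemma U_le_one (h1 : ∀ b, 1 ≤ h b) (hΛ : ∑' b, Λ b = 1) (n : ℕ) : U Λ h n ≤ 1 := by
  have h0 : tail Λ h 0 = 1 := by
    rw [← hΛ, tail]
    refine tsum_congr fun b => ?_
    rw [if_pos (by have := h1 b; omega)]
  rw [← renewal_one Λ h h1 hΛ n]
  calc U Λ h n = U Λ h (n - 0) * tail Λ h 0 := by rw [h0, mul_one, Nat.sub_zero]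
    _ ≤ _ := Finset.single_le_sum (f := fun k => U Λ h (n - k) * tail Λ h k)
      (fun _ _ => zero_le) (Finset.mem_range.2 (Nat.succ_pos n))

lemma over_le (h1 : ∀ b, 1 ≤ h b) (hΛ : ∑' b, Λ b = 1) (a i0 : ℕ) :
    fpS Λ h a (fun L => if a + i0 < HT h L then 1 else 0) ≤ ov Λ h i0 := by
  refine (over_aux Λ h h1 a i0).trans ?_
  have e : ∑' L, LW Λ L * (if HT h L < a then tail Λ h (a + i0 - HT h L) else 0)
      = ∑' r : ℕ, U Λ h r * (if r < a then tail Λ h (a + i0 - r) else 0) := by
    simp only [U, ← ENNReal.tsum_mul_right]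
    rw [ENNReal.tsum_comm]
    refine tsum_congr fun L => ?_
    rw [tsum_eq_single (HT h L)]
    · simp
    · intro r hr; simp [hr.symm]
  rw [e]
  calc _ ≤ ∑' r : ℕ, (if r < a then tail Λ h (a + i0 - r) else 0) :=
        ENNReal.tsum_le_tsum fun r => by
          calc _ ≤ 1 * _ := mul_le_mul_left (U_le_one Λ h h1 hΛ r) _
            _ = _ := one_mul _
    _ = ∑ r ∈ Finset.range a, tail Λ h (a + i0 - r) := by
        rw [tsum_eq_sum (s := Finset.range a)]
        · exact Finset.sum_congr rfl fun r hr => if_pos (Finset.mem_range.1 hr)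
        · intro r hr; rw [if_neg (by simpa using hr)]
    _ = ∑ r ∈ Finset.range a, tail Λ h (r + (i0 + 1)) := by
        rw [← Finset.sum_range_reflect]
        refine Finset.sum_congr rfl fun r hr => ?_
        have := Finset.mem_range.1 hr
        congr 1; omega
    _ ≤ _ := ENNReal.sum_le_tsum _

lemma ov_tendsto (hΛ : ∑' b, Λ b = 1) (hm : ∑' b, Λ b * (h b : ℝ≥0∞) ≠ ⊤) :
    Filter.Tendsto (fun i0 => ov Λ h i0) Filter.atTop (nhds 0) := by
  rw [sum_tail Λ h hΛ] at hm
  exact (ENNReal.tendsto_sum_nat_add _ hm).comp (Filter.tendsto_add_atTop_nat 1)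

/-! ### density -/

variable {G : Type*} [AddCommGroup G] (z : B → G)

/-- displacement of a list -/
def Dp (z : B → G) (L : List B) : G := (L.map z).sum

lemma Dp_append (z : B → G) (L L' : List B) : Dp z (L ++ L') = Dp z L + Dp z L' := by
  simp [Dp]

open Classical in
/-- law of (overshoot, displacement) of the first passage of depth `a` -/
noncomputable def V (a : ℕ) (p : ℕ × G) : ℝ≥0∞ :=
  fpS Λ h a (fun L => if HT h L = a + p.1 ∧ Dp z L = p.2 then 1 else 0)

lemma V_push (a : ℕ) (F : ℕ × G → ℝ≥0∞) :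
    fpS Λ h a (fun L => F (HT h L - a, Dp z L)) = ∑' p, V Λ h z a p * F p := by
  classical
  have e : ∀ p, V Λ h z a p * F p
      = fpS Λ h a (fun L => if HT h L = a + p.1 ∧ Dp z L = p.2 then F p else 0) := by
    intro p
    rw [V, mul_comm, ← fpS_mul]
    refine fpS_congr Λ h a fun L _ => ?_
    split_ifs <;> simp
  simp_rw [e]
  rw [← fpS_tsum]
  refine fpS_congr Λ h a fun L hL => ?_
  have hge := FP_ge h L a hL
  rw [tsum_eq_single (HT h L - a, Dp z L)]
  · rw [if_pos ⟨by simp only; omega, rfl⟩]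
  · rintro ⟨i, x⟩ hp
    rw [if_neg]
    rintro ⟨h1, h2⟩
    apply hp
    simp only at h1 h2
    ext
    · simp only; omega
    · exact h2.symm

lemma V_sum (h1 : ∀ b, 1 ≤ h b) (hΛ : ∑' b, Λ b = 1) (a : ℕ) : ∑' p, V Λ h z a p ≤ 1 := by
  have := V_push Λ h z a (fun _ => 1)
  simp only [mul_one] at this
  rw [← this]
  exact fpS_one Λ h h1 hΛ a

end Crest.Agent.R154.Asm508
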