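import Crest.Agent.R154.FP_178
import Crest.Agent.R154.Dens_903

/-! Row 154 (helper519), ROAD 801: descent lemma (first dense attempt) on lists of blocks. -/

set_option autoImplicit false

namespace Crest.Agent.R154.Asm519

open scoped ENNReal
open Crest.Agent.R154.B5A Crest.Agent.R154.FP178
open Filter Topology

variable {B G : Type*} [AddCommGroup G] (Λ : B → ℝ≥0∞) (ht : B → ℕ) (zz : B → G)

/-- displacement of a list -/
def Dz (L : List B) : G := (L.map zz).sum

lemma Dz_append (L L' : List B) : Dz zz (L ++ L') = Dz zz L + Dz zz L' := by simp [Dz]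

open Classical in
/-- total mass of a first passage is one -/
theorem sum_FP_eq (h1 : ∀ b, 1 ≤ ht b) (hΛ : ∑' b, Λ b = 1) (a : ℕ) :
    ∑' L, (if fp ht a L then LW Λ L else 0) = 1 := by
  induction a using Nat.strong_induction_on with
  | _ a ih =>
    rcases Nat.eq_zero_or_pos a with rfl | ha
    · have := sum_fp_zero Λ ht (fun _ => 1)
      simpa only [mul_one] using this
    · have := sum_fp_step Λ ht a ha (fun _ => 1)
      simp only [mul_one] at this
      calc _ = ∑' b, Λ b * ∑' L, (if fp ht (a - ht b) L then LW Λ L else 0) := this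
        _ = ∑' b, Λ b := by
          refine tsum_congr fun b => ?_
          rw [ih (a - ht b) (by have := h1 b; omega), mul_one]
        _ = 1 := hΛ

open Classical in
/-- law of the first passage of height `T` -/
noncomputable def pl (T : ℕ) (x : ℕ × G) : ℝ≥0∞ :=
  ∑' A, (if fp ht T A ∧ HT ht A = x.1 ∧ Dz zz A = x.2 then LW Λ A else 0)

open Classical in
lemma regroup (T : ℕ) (φ : ℕ × G → ℝ≥0∞) :
    ∑' A, (if fp ht T A then LW Λ A * φ (HT ht A, Dz zz A) else 0)
      = ∑' x, pl Λ ht zz T x * φ x := by
  have e : ∀ x, pl Λ ht zz T x * φ x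
      = ∑' A, (if fp ht T A ∧ HT ht A = x.1 ∧ Dz zz A = x.2 then LW Λ A * φ x else 0) := by
    intro x
    rw [pl, ← ENNReal.tsum_mul_right]
    refine tsum_congr fun A => ?_
    split_ifs <;> simp
  rw [tsum_congr e, ENNReal.tsum_comm]
  refine tsum_congr fun A => ?_
  rw [tsum_eq_single (HT ht A, Dz zz A)]
  · by_cases h : fp ht T A <;> simp [h]
  · intro x hx
    rw [if_neg]
    rintro ⟨_, h1, h2⟩
    exact hx (Prod.ext h1.symm h2.symm)

open Classical in
theorem pl_sum (h1 : ∀ b, 1 ≤ ht b) (hΛ : ∑' b, Λ b = 1) (T : ℕ) :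
    ∑' x, pl Λ ht zz T x = 1 := by
  have := regroup Λ ht zz T (fun _ => 1)
  simp only [mul_one] at this
  rw [← this]
  exact sum_FP_eq Λ ht h1 hΛ T

open Classical in
/-- one level of the piece law -/
lemma sum_level (T i : ℕ) (th : ℝ≥0∞) (F : G → ℝ≥0∞) (v : G) (Bd : ℝ≥0∞)
    (hle : ∑' x, pl Λ ht zz T x ≤ 1)
    (hF : ∀ ν : G → ℝ≥0∞, ∑' z, ν z ≤ 1 → (∀ z, ν z ≤ th) → ∑' z, ν z * F z ≤ Bd) :
    ∑' A, (if fp ht T A ∧ HT ht A = T + i ∧ pl Λ ht zz T (T + i, Dz zz A) ≤ th
      then LW Λ A * F (Dz zz A + v) else 0) ≤ Bd := by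
  have e := regroup Λ ht zz T (fun x => if x.1 = T + i ∧ pl Λ ht zz T (T + i, x.2) ≤ th
    then F (x.2 + v) else 0)
  have e1 : ∑' A, (if fp ht T A ∧ HT ht A = T + i ∧ pl Λ ht zz T (T + i, Dz zz A) ≤ th
      then LW Λ A * F (Dz zz A + v) else 0)
      = ∑' A, (if fp ht T A then LW Λ A * (if (HT ht A, Dz zz A).1 = T + i ∧
        pl Λ ht zz T (T + i, (HT ht A, Dz zz A).2) ≤ th then F ((HT ht A, Dz zz A).2 + v) else 0)
        else 0) := by
    refine tsum_congr fun A => ?_
    by_cases h : fp ht T A
    · by_cases h' : HT ht A = T + i ∧ pl Λ ht zz T (T + i, Dz zz A) ≤ th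
      · rw [if_pos ⟨h, h'⟩, if_pos h, if_pos h']
      · rw [if_neg (fun hh => h' hh.2), if_pos h, if_neg h', mul_zero]
    · rw [if_neg (fun hh => h hh.1), if_neg h]
  rw [e1, e, ENNReal.tsum_prod']
  rw [tsum_eq_single (T + i)]
  · set ν : G → ℝ≥0∞ := fun y => if pl Λ ht zz T (T + i, y - v) ≤ th then
      pl Λ ht zz T (T + i, y - v) else 0 with hν
    have h2 : ∑' z, pl Λ ht zz T (T + i, z) * (if (T + i, z).1 = T + i ∧
        pl Λ ht zz T (T + i, (T + i, z).2) ≤ th then F ((T + i, z).2 + v) else 0)
        = ∑' y, ν y * F y := by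
      rw [← (Equiv.addRight v).tsum_eq (fun y => ν y * F y)]
      refine tsum_congr fun z => ?_
      simp only [hν, Equiv.coe_addRight, add_sub_cancel_right, true_and]
      by_cases h : pl Λ ht zz T (T + i, z) ≤ th <;> simp [h]
    rw [h2]
    refine hF ν ?_ ?_
    · calc ∑' y, ν y ≤ ∑' y, pl Λ ht zz T (T + i, y - v) := by
            refine ENNReal.tsum_le_tsum fun y => ?_
            simp only [hν]
            split_ifs
            · exact le_rfl
            · exact zero_le
        _ = ∑' z, pl Λ ht zz T (T + i, z) := (Equiv.subRight v).tsum_eq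
            (fun z => pl Λ ht zz T (T + i, z))
        _ ≤ ∑' x, pl Λ ht zz T x := by
            rw [ENNReal.tsum_prod']
            exact ENNReal.le_tsum (T + i)
        _ ≤ 1 := hle
    · intro y
      simp only [hν]
      split_ifs with h
      · exact h
      · exact zero_le
  · intro a ha
    have : ∀ z, pl Λ ht zz T (a, z) * (if (a, z).1 = T + i ∧
        pl Λ ht zz T (T + i, (a, z).2) ≤ th then F ((a, z).2 + v) else 0) = 0 := by
      intro z
      rw [if_neg (fun h => ha h.1), mul_zero]
    rw [tsum_congr this, tsum_zero]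

open Classical in
/-- **descent**: the first attempt with small density smooths the rest. -/
theorem descent (h1 : ∀ b, 1 ≤ ht b) (hΛ : ∑' b, Λ b = 1)
    (T i0 : ℕ) (th q e1 Bd : ℝ≥0∞) (hq1 : q ≤ 1)
    (hq : ∑' x, (if th < pl Λ ht zz T x then pl Λ ht zz T x else 0) ≤ q)
    (he : ∀ a, ∑' L, (if fp ht a L ∧ a + i0 < HT ht L then LW Λ L else 0) ≤ e1)
    (J : ℕ) : ∀ (D : ℕ) (F : ℕ → G → ℝ≥0∞), J * (T + i0) ≤ D → (∀ a z, F a z ≤ 1) →
      (∀ a, D ≤ a → a ≤ D + i0 → ∀ ν : G → ℝ≥0∞, ∑' z, ν z ≤ 1 → (∀ z, ν z ≤ th) →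
        ∑' z, ν z * F a z ≤ Bd) →
      ∑' L, (if fp ht D L then LW Λ L * (if HT ht L ≤ D + i0 then
        F (HT ht L) (Dz zz L) else 0) else 0)
        ≤ q ^ J + J * e1 + J * ((i0 + 1) * Bd) := by
  have hpl : ∑' x, pl Λ ht zz T x ≤ 1 := (pl_sum Λ ht zz h1 hΛ T).le
  induction J with
  | zero =>
    intro D F _ hF1 _
    simp only [pow_zero, Nat.cast_zero, zero_mul, add_zero]
    refine le_trans (ENNReal.tsum_le_tsum fun L => ?_) (sum_FP_eq Λ ht h1 hΛ D).le
    split_ifs
    · calc _ ≤ LW Λ L * 1 := by gcongr; exact hF1 _ _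
        _ = _ := mul_one _
    · simp
    · exact le_rfl
  | succ J ih =>
    intro D F hD hF1 hFB
    have hTD : T ≤ D := by
      have : T ≤ (J + 1) * (T + i0) := by nlinarith [Nat.zero_le (J * (T + i0))]
      omega
    set f : List B → ℝ≥0∞ := fun L => if HT ht L ≤ D + i0 then F (HT ht L) (Dz zz L) else 0
      with hf
    have hf1 : ∀ L, f L ≤ 1 := by
      intro L; simp only [hf]; split_ifs
      · exact hF1 _ _
      · exact zero_le
    rw [show (∑' L, (if fp ht D L then LW Λ L * (if HT ht L ≤ D + i0 then
        F (HT ht L) (Dz zz L) else 0) else 0)) = ∑' L, (if fp ht D L then LW Λ L * f L else 0)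
        from rfl, fp_split Λ ht h1 T D hTD f]
    set Inn : List B → ℝ≥0∞ := fun A => ∑' L, (if fp ht (D - HT ht A) L then
      LW Λ L * f (A ++ L) else 0) with hInn
    have hInn1 : ∀ A, Inn A ≤ 1 := by
      intro A
      refine le_trans (ENNReal.tsum_le_tsum fun L => ?_) (sum_FP_eq Λ ht h1 hΛ (D - HT ht A)).le
      split_ifs
      · calc _ ≤ LW Λ L * 1 := by gcongr; exact hf1 _
          _ = _ := mul_one _
      · exact le_rfl
    set R0 : ℝ≥0∞ := q ^ J + J * e1 + J * ((i0 + 1) * Bd) with hR0
    set t1 : List B → ℝ≥0∞ := fun A => if fp ht T A ∧ T + i0 < HT ht A then LW Λ A else 0 with ht1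
    set t2 : List B → ℝ≥0∞ := fun A => if fp ht T A then LW Λ A *
      (if th < pl Λ ht zz T (HT ht A, Dz zz A) then R0 else 0) else 0 with ht2
    set t3 : ℕ → List B → ℝ≥0∞ := fun i A => if fp ht T A ∧ HT ht A = T + i ∧
      pl Λ ht zz T (T + i, Dz zz A) ≤ th then LW Λ A * Inn A else 0 with ht3
    have hterm : ∀ A, (if fp ht T A then LW Λ A * Inn A else 0)
        ≤ t1 A + t2 A + ∑ i ∈ Finset.range (i0 + 1), t3 i A := by
      intro A
      by_cases hA : fp ht T A
      · rw [if_pos hA]
        have hTA := le_HT_of_fp ht hA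
        by_cases ho : T + i0 < HT ht A
        · calc LW Λ A * Inn A ≤ LW Λ A * 1 := by gcongr; exact hInn1 A
            _ = t1 A := by simp only [ht1]; rw [if_pos ⟨hA, ho⟩, mul_one]
            _ ≤ t1 A + t2 A + ∑ i ∈ Finset.range (i0 + 1), t3 i A := by
                rw [add_assoc]; exact le_self_add
        · by_cases hl : th < pl Λ ht zz T (HT ht A, Dz zz A)
          · have hI : Inn A ≤ R0 := by
              have := ih (D - HT ht A) (fun a z => F (HT ht A + a) (Dz zz A + z))
                (by
                  have h3 : (J + 1) * (T + i0) = J * (T + i0) + (T + i0) := by ring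
                  omega)
                (fun a z => hF1 _ _)
                (by
                  intro a ha ha' ν hν hν'
                  have h3 : (J + 1) * (T + i0) = J * (T + i0) + (T + i0) := by ring
                  have h4 := hFB (HT ht A + a) (by omega) (by omega)
                    (fun z => ν (z - Dz zz A)) (by
                      have h5 : ∑' z, ν (z - Dz zz A) = ∑' z, ν z :=
                        (Equiv.subRight (Dz zz A)).tsum_eq ν
                      rw [h5]
                      exact hν) (fun z => hν' _)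
                  rw [← (Equiv.addLeft (Dz zz A)).tsum_eq] at h4
                  simpa using h4)
              refine le_trans (le_of_eq ?_) this
              simp only [hInn, hf]
              refine tsum_congr fun L => ?_
              by_cases hL : fp ht (D - HT ht A) L
              · rw [if_pos hL, if_pos hL, HT_append, Dz_append]
                have h3 : (J + 1) * (T + i0) = J * (T + i0) + (T + i0) := by ring
                by_cases h5 : HT ht A + HT ht L ≤ D + i0
                · rw [if_pos h5, if_pos (by omega)]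
                · rw [if_neg h5, if_neg (by omega)]
              · rw [if_neg hL, if_neg hL]
            calc LW Λ A * Inn A ≤ LW Λ A * R0 := by gcongr
              _ = t2 A := by simp only [ht2]; rw [if_pos hA, if_pos hl]
              _ ≤ t1 A + t2 A + ∑ i ∈ Finset.range (i0 + 1), t3 i A := by
                  calc t2 A ≤ t1 A + t2 A := le_add_self
                    _ ≤ _ := le_self_add
          · have hi : HT ht A - T < i0 + 1 := by omega
            have heq : HT ht A = T + (HT ht A - T) := by omega
            calc LW Λ A * Inn A = t3 (HT ht A - T) A := by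
                  simp only [ht3]
                  rw [if_pos ⟨hA, heq, by rw [← heq]; exact not_lt.1 hl⟩]
              _ ≤ ∑ i ∈ Finset.range (i0 + 1), t3 i A :=
                  Finset.single_le_sum (f := fun i => t3 i A) (fun _ _ => zero_le)
                    (Finset.mem_range.2 hi)
              _ ≤ _ := le_add_self
      · rw [if_neg hA]; exact zero_le
    have hs1 : ∑' A, t1 A ≤ e1 := he T
    have hs2 : ∑' A, t2 A ≤ q * R0 := by
      have := regroup Λ ht zz T (fun x => if th < pl Λ ht zz T x then R0 else 0)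
      simp only [ht2]
      rw [this]
      calc ∑' x, pl Λ ht zz T x * (if th < pl Λ ht zz T x then R0 else 0)
          = ∑' x, (if th < pl Λ ht zz T x then pl Λ ht zz T x else 0) * R0 := by
            refine tsum_congr fun x => ?_
            split_ifs <;> simp
        _ = (∑' x, (if th < pl Λ ht zz T x then pl Λ ht zz T x else 0)) * R0 :=
            ENNReal.tsum_mul_right
        _ ≤ q * R0 := by gcongr
    have hs3 : ∀ i ∈ Finset.range (i0 + 1), ∑' A, t3 i A ≤ Bd := by
      intro i hi
      have hi' := Finset.mem_range.1 hi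
      have e3 : ∀ A, t3 i A = ∑' L, (if fp ht (D - (T + i)) L ∧ T + i + HT ht L ≤ D + i0 then
          LW Λ L * (if fp ht T A ∧ HT ht A = T + i ∧ pl Λ ht zz T (T + i, Dz zz A) ≤ th then
            LW Λ A * F (T + i + HT ht L) (Dz zz A + Dz zz L) else 0) else 0) := by
        intro A
        simp only [ht3, hInn, hf]
        by_cases h : fp ht T A ∧ HT ht A = T + i ∧ pl Λ ht zz T (T + i, Dz zz A) ≤ th
        · rw [if_pos h, ← ENNReal.tsum_mul_left]
          refine tsum_congr fun L => ?_
          rw [if_pos h, h.2.1, HT_append, Dz_append, h.2.1]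
          by_cases hL : fp ht (D - (T + i)) L
          · by_cases h5 : T + i + HT ht L ≤ D + i0
            · rw [if_pos hL, if_pos h5, if_pos ⟨hL, h5⟩]; ring
            · rw [if_pos hL, if_neg h5, if_neg (fun hh => h5 hh.2), mul_zero, mul_zero]
          · rw [if_neg hL, if_neg (fun hh => hL hh.1), mul_zero]
        · rw [if_neg h]
          symm
          rw [ENNReal.tsum_eq_zero]
          intro L
          rw [if_neg h, mul_zero, ite_self]
      rw [tsum_congr e3, ENNReal.tsum_comm]
      calc _ ≤ ∑' L, (if fp ht (D - (T + i)) L then LW Λ L * Bd else 0) := by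
            refine ENNReal.tsum_le_tsum fun L => ?_
            by_cases hL : fp ht (D - (T + i)) L ∧ T + i + HT ht L ≤ D + i0
            · rw [if_pos hL.1]
              have e4 : ∀ A, (if fp ht (D - (T + i)) L ∧ T + i + HT ht L ≤ D + i0 then
                  LW Λ L * (if fp ht T A ∧ HT ht A = T + i ∧ pl Λ ht zz T (T + i, Dz zz A) ≤ th
                    then LW Λ A * F (T + i + HT ht L) (Dz zz A + Dz zz L) else 0) else 0)
                  = LW Λ L * (if fp ht T A ∧ HT ht A = T + i ∧
                    pl Λ ht zz T (T + i, Dz zz A) ≤ th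
                    then LW Λ A * F (T + i + HT ht L) (Dz zz A + Dz zz L) else 0) := fun A => by
                rw [if_pos hL]
              rw [tsum_congr e4, ENNReal.tsum_mul_left]
              gcongr
              have h6 := le_HT_of_fp ht hL.1
              exact sum_level Λ ht zz T i th (F (T + i + HT ht L)) (Dz zz L) Bd hpl
                (hFB (T + i + HT ht L) (by omega) hL.2)
            · have e4 : ∀ A, (if fp ht (D - (T + i)) L ∧ T + i + HT ht L ≤ D + i0 then
                  LW Λ L * (if fp ht T A ∧ HT ht A = T + i ∧ pl Λ ht zz T (T + i, Dz zz A) ≤ th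
                    then LW Λ A * F (T + i + HT ht L) (Dz zz A + Dz zz L) else 0) else 0) = 0 :=
                fun A => by rw [if_neg hL]
              rw [tsum_congr e4, tsum_zero]
              exact zero_le
        _ = (∑' L, (if fp ht (D - (T + i)) L then LW Λ L else 0)) * Bd := by
            rw [← ENNReal.tsum_mul_right]
            refine tsum_congr fun L => ?_
            split_ifs <;> simp
        _ = Bd := by rw [sum_FP_eq Λ ht h1 hΛ, one_mul]
    calc ∑' A, (if fp ht T A then LW Λ A * Inn A else 0)
        ≤ ∑' A, (t1 A + t2 A + ∑ i ∈ Finset.range (i0 + 1), t3 i A) :=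
          ENNReal.tsum_le_tsum hterm
      _ = ∑' A, t1 A + ∑' A, t2 A + ∑ i ∈ Finset.range (i0 + 1), ∑' A, t3 i A := by
          rw [ENNReal.tsum_add, ENNReal.tsum_add,
            Summable.tsum_finsetSum (fun _ _ => ENNReal.summable)]
      _ ≤ e1 + q * R0 + ∑ i ∈ Finset.range (i0 + 1), Bd := by
          gcongr with i hi
          exact hs3 i hi
      _ = e1 + q * R0 + (i0 + 1) * Bd := by
          rw [Finset.sum_const, Finset.card_range, nsmul_eq_mul]
          push_cast
          ring
      _ ≤ q ^ (J + 1) + ((J + 1 : ℕ) : ℝ≥0∞) * e1 + ((J + 1 : ℕ) : ℝ≥0∞) * ((i0 + 1) * Bd) := by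
          have h7 : q * R0 ≤ q ^ (J + 1) + J * e1 + J * ((i0 + 1) * Bd) := by
            rw [hR0, mul_add, mul_add]
            have ha : q * q ^ J = q ^ (J + 1) := by ring
            have hb : q * (J * e1) ≤ J * e1 := mul_le_of_le_one_left' hq1
            have hc : q * (J * ((i0 + 1) * Bd)) ≤ J * ((i0 + 1) * Bd) :=
              mul_le_of_le_one_left' hq1
            rw [ha]
            gcongr
          calc e1 + q * R0 + (i0 + 1) * Bd
              ≤ e1 + (q ^ (J + 1) + J * e1 + J * ((i0 + 1) * Bd)) + (i0 + 1) * Bd := by gcongr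
            _ = _ := by push_cast; ring

end Crest.Agent.R154.Asm519
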