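import Mathlib

/-! Row 154 (helper52): smooth density for first passage laws (after helper903's `dens_split`):
the rough mass is paid once for all overshoots. -/

set_option autoImplicit false

namespace Crest.Agent.R154.Dens52

open scoped ENNReal Classical
open Finset

variable {ι V : Type*} [AddCommGroup V]

lemma tsum_conv (g f : V → ℝ≥0∞) : ∑' z, ∑' z', g z' * f (z - z') = (∑' z', g z') * ∑' z, f z := by
  rw [ENNReal.tsum_comm, ← ENNReal.tsum_mul_right]
  refine tsum_congr fun z' => ?_
  rw [ENNReal.tsum_mul_left]
  congr 1
  exact (Equiv.subRight z').tsum_eq f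

theorem dens2 (U : ℕ → ι → V → ℝ≥0∞) (p : ℕ → V → ℝ≥0∞) (s i0 : ℕ) (th q ε : ℝ≥0∞)
    (hU : ∀ h, s + i0 ≤ h → ∃ far : ι → V → ℝ≥0∞, (∀ j z, U h j z ≤
      (∑ i ∈ range (i0 + 1), ∑' z', p i z' * U (h - s - i) j (z - z')) + far j z) ∧
      ∑' j, ∑' z, far j z ≤ ε)
    (hU1 : ∀ h, ∑' j, ∑' z, U h j z ≤ 1)
    (hNG : ∑ i ∈ range (i0 + 1), ∑' z, (if th < p i z then p i z else 0) ≤ q) (J : ℕ) :
    ∀ h, J * (s + i0) ≤ h → ∃ Ag Bb : ι → V → ℝ≥0∞, (∀ j z, U h j z ≤ Ag j z + Bb j z) ∧
      (∀ j z, Ag j z ≤ (i0 + 1) * th * ∑ j ∈ range J, q ^ j) ∧
      ∑' j, ∑' z, Bb j z ≤ q ^ J + ε * ∑ j ∈ range J, q ^ j := by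
  induction J with
  | zero =>
    intro h _
    refine ⟨fun _ _ => 0, U h, fun j z => by simp, fun j z => by simp, ?_⟩
    simpa using hU1 h
  | succ J ih =>
    intro h hh
    have hs : s + i0 ≤ h := by
      have : s + i0 ≤ (J + 1) * (s + i0) := by nlinarith [Nat.zero_le (J * (s + i0))]
      omega
    have hrest : ∀ i, i ≤ i0 → J * (s + i0) ≤ h - s - i := by
      intro i hi
      have : (J + 1) * (s + i0) = J * (s + i0) + (s + i0) := by ring
      omega
    have hch : ∀ i, ∃ Ag Bb : ι → V → ℝ≥0∞, i ≤ i0 →
        (∀ j z, U (h - s - i) j z ≤ Ag j z + Bb j z) ∧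
        (∀ j z, Ag j z ≤ (i0 + 1) * th * ∑ j ∈ range J, q ^ j) ∧
        ∑' j, ∑' z, Bb j z ≤ q ^ J + ε * ∑ j ∈ range J, q ^ j := by
      intro i
      by_cases hi : i ≤ i0
      · obtain ⟨a, b, h1⟩ := ih _ (hrest i hi)
        exact ⟨a, b, fun _ => h1⟩
      · exact ⟨0, 0, fun h => absurd h hi⟩
    choose A B hAB using hch
    obtain ⟨far, hfar1, hfar2⟩ := hU h hs
    refine ⟨fun j z => ∑ i ∈ range (i0 + 1), ∑' z',
        ((if ¬ th < p i z' then p i z' * U (h - s - i) j (z - z') else 0)
        + (if th < p i z' then p i z' * A i j (z - z') else 0)),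
      fun j z => (∑ i ∈ range (i0 + 1), ∑' z',
        (if th < p i z' then p i z' * B i j (z - z') else 0)) + far j z, ?_, ?_, ?_⟩
    · intro j z
      refine (hfar1 j z).trans ?_
      rw [← add_assoc]
      refine add_le_add ?_ le_rfl
      rw [← Finset.sum_add_distrib]
      refine Finset.sum_le_sum fun i hi => ?_
      have hi' : i ≤ i0 := by have := Finset.mem_range.1 hi; omega
      rw [← ENNReal.tsum_add]
      refine ENNReal.tsum_le_tsum fun z' => ?_
      by_cases ht : th < p i z'
      · simp only [ht, not_true, if_true, if_false, zero_add]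
        rw [← mul_add]
        gcongr
        exact (hAB i hi').1 _ _
      · simp [ht]
    · intro j z
      have hq : ∑ j ∈ range (J + 1), q ^ j = 1 + q * ∑ j ∈ range J, q ^ j := by
        rw [Finset.sum_range_succ', Finset.mul_sum, add_comm]
        simp [pow_succ, mul_comm]
      rw [hq, mul_add, mul_one]
      have h1 : ∑ i ∈ range (i0 + 1), ∑' z',
          (if ¬ th < p i z' then p i z' * U (h - s - i) j (z - z') else 0)
          ≤ (i0 + 1) * th := by
        calc _ ≤ ∑ i ∈ range (i0 + 1), th := by
              refine Finset.sum_le_sum fun i hi => ?_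
              calc _ ≤ ∑' z', th * U (h - s - i) j (z - z') := by
                    refine ENNReal.tsum_le_tsum fun z' => ?_
                    by_cases ht : th < p i z'
                    · simp [ht]
                    · simp only [ht, not_false_eq_true, if_true]
                      gcongr
                      exact not_lt.1 ht
                _ = th * ∑' z', U (h - s - i) j z' := by
                    rw [ENNReal.tsum_mul_left]
                    congr 1
                    exact (Equiv.subLeft z).tsum_eq (U (h - s - i) j)
                _ ≤ th * 1 := by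
                    gcongr
                    exact (ENNReal.le_tsum j).trans (hU1 _)
                _ = th := mul_one _
          _ = (i0 + 1) * th := by
              rw [Finset.sum_const, card_range, nsmul_eq_mul]; push_cast; rfl
      have h2 : ∑ i ∈ range (i0 + 1), ∑' z', (if th < p i z' then p i z' * A i j (z - z') else 0)
          ≤ (i0 + 1) * th * (q * ∑ j ∈ range J, q ^ j) := by
        calc _ ≤ ∑ i ∈ range (i0 + 1), ∑' z', (if th < p i z' then p i z' else 0)
                * ((i0 + 1) * th * ∑ j ∈ range J, q ^ j) := by
              refine Finset.sum_le_sum fun i hi => ENNReal.tsum_le_tsum fun z' => ?_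
              have hi' : i ≤ i0 := by have := Finset.mem_range.1 hi; omega
              by_cases ht : th < p i z'
              · rw [if_pos ht, if_pos ht]
                gcongr
                exact (hAB i hi').2.1 _ _
              · simp [if_neg ht]
          _ = (∑ i ∈ range (i0 + 1), ∑' z', (if th < p i z' then p i z' else 0))
                * ((i0 + 1) * th * ∑ j ∈ range J, q ^ j) := by
              rw [Finset.sum_mul]
              refine Finset.sum_congr rfl fun i _ => ?_
              rw [ENNReal.tsum_mul_right]
          _ ≤ q * ((i0 + 1) * th * ∑ j ∈ range J, q ^ j) := by gcongr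
          _ = _ := by ring
      calc _ = ∑ i ∈ range (i0 + 1), ∑' z',
              (if ¬ th < p i z' then p i z' * U (h - s - i) j (z - z') else 0)
            + ∑ i ∈ range (i0 + 1), ∑' z',
              (if th < p i z' then p i z' * A i j (z - z') else 0) := by
              rw [← Finset.sum_add_distrib]
              refine Finset.sum_congr rfl fun i _ => ?_
              rw [← ENNReal.tsum_add]
        _ ≤ _ := add_le_add h1 h2
    · have hq : q ^ (J + 1) + ε * ∑ j ∈ range (J + 1), q ^ j
          = q * (q ^ J + ε * ∑ j ∈ range J, q ^ j) + ε := by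
        have hq' : ∑ j ∈ range (J + 1), q ^ j = 1 + q * ∑ j ∈ range J, q ^ j := by
          rw [Finset.sum_range_succ', Finset.mul_sum, add_comm]
          simp [pow_succ, mul_comm]
        rw [hq']
        ring
      rw [hq]
      calc _ = (∑' j, ∑' z, ∑ i ∈ range (i0 + 1), ∑' z',
              (if th < p i z' then p i z' * B i j (z - z') else 0)) + ∑' j, ∑' z, far j z := by
              rw [← ENNReal.tsum_add]
              refine tsum_congr fun j => ?_
              rw [← ENNReal.tsum_add]
        _ ≤ _ := by
              refine add_le_add ?_ hfar2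
              have e1 : ∑' j, ∑' z, ∑ i ∈ range (i0 + 1), ∑' z',
                  (if th < p i z' then p i z' * B i j (z - z') else 0)
                  = ∑ i ∈ range (i0 + 1), ∑' j, ∑' z, ∑' z',
                  (if th < p i z' then p i z' * B i j (z - z') else 0) := by
                rw [← Summable.tsum_finsetSum (fun _ _ => ENNReal.summable)]
                refine tsum_congr fun j => ?_
                rw [← Summable.tsum_finsetSum (fun _ _ => ENNReal.summable)]
              rw [e1]
              calc _ ≤ ∑ i ∈ range (i0 + 1), (∑' z', (if th < p i z' then p i z' else 0))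
                    * (q ^ J + ε * ∑ j ∈ range J, q ^ j) := by
                    refine Finset.sum_le_sum fun i hi => ?_
                    have hi' : i ≤ i0 := by have := Finset.mem_range.1 hi; omega
                    have e : ∀ j z z', (if th < p i z' then p i z' * B i j (z - z') else 0)
                        = (if th < p i z' then p i z' else 0) * B i j (z - z') := by
                      intro j z z'; by_cases ht : th < p i z'
                      · rw [if_pos ht, if_pos ht]
                      · rw [if_neg ht, if_neg ht, zero_mul]
                    simp_rw [e, tsum_conv]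
                    rw [ENNReal.tsum_mul_left]
                    gcongr
                    exact (hAB i hi').2.2
                _ = (∑ i ∈ range (i0 + 1), ∑' z', (if th < p i z' then p i z' else 0))
                    * (q ^ J + ε * ∑ j ∈ range J, q ^ j) := (Finset.sum_mul _ _ _).symm
                _ ≤ _ := by gcongr

end Crest.Agent.R154.Dens52
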