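import Crest.Agent.R154.FP_52
import Crest.Agent.R154.Dens_52
import Crest.Agent.R154.Gap_583
import Crest.Agent.R154.Dens_903

/-! Row 154 (helper52): positions, site sets, first passage laws. -/

set_option autoImplicit false

namespace Crest.Agent.R154.Asm52

open Crest.Agent.R154.B5A Crest.Agent.R154.FP52
open scoped ENNReal Classical
open Finset

section pos

variable {B G : Type*} [AddCommGroup G] (h : B → ℕ) (z : B → G) (s : B → Set (G × ℕ))

/-- sites of a list placed at `x`, depth `a` -/
def TR : List B → G → ℕ → Set (G × ℕ)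
  | [], _, _ => ∅
  | b :: L, x, a => {q | ∃ r ∈ s b, q = (x + r.1, a + r.2)} ∪ TR L (x + z b) (a + h b)

/-- displacement -/
def Dp (L : List B) : G := (L.map z).sum

lemma Dp_nil : Dp z [] = 0 := by simp [Dp]

lemma Dp_cons (b : B) (L : List B) : Dp z (b :: L) = z b + Dp z L := by simp [Dp]

lemma Dp_append (L L' : List B) : Dp z (L ++ L') = Dp z L + Dp z L' := by simp [Dp]

lemma TR_append (L L' : List B) (x : G) (a : ℕ) :
    TR h z s (L ++ L') x a = TR h z s L x a ∪ TR h z s L' (x + Dp z L) (a + HT h L) := by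
  induction L generalizing x a with
  | nil => simp [TR, Dp_nil, HT_nil]
  | cons b L ih =>
    simp only [List.cons_append, TR]
    rw [ih, Set.union_assoc, Dp_cons, HT_cons, add_assoc, add_assoc]

lemma TR_shift (L : List B) (x g : G) (a : ℕ) (y : G) (k : ℕ) :
    (y + g, k) ∈ TR h z s L (x + g) a ↔ (y, k) ∈ TR h z s L x a := by
  induction L generalizing x a with
  | nil => simp [TR]
  | cons b L ih =>
    simp only [TR, Set.mem_union]
    rw [show x + g + z b = x + z b + g by abel, ih]
    refine or_congr_left ?_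
    constructor
    · rintro ⟨r, hr, h2⟩
      refine ⟨r, hr, ?_⟩
      rw [Prod.mk.injEq] at h2 ⊢
      refine ⟨?_, h2.2⟩
      have := h2.1
      rw [show x + g + r.1 = x + r.1 + g by abel] at this
      exact add_right_cancel this
    · rintro ⟨r, hr, h2⟩
      refine ⟨r, hr, ?_⟩
      rw [Prod.mk.injEq] at h2 ⊢
      refine ⟨?_, h2.2⟩
      rw [h2.1]; abel

lemma TR_depth (hs : ∀ b r, r ∈ s b → 1 ≤ r.2 ∧ r.2 ≤ h b) (L : List B) (x : G) (a : ℕ) (y : G)
    (k : ℕ) (hy : (y, k) ∈ TR h z s L x a) : a < k ∧ k ≤ a + HT h L := by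
  induction L generalizing x a with
  | nil => simp [TR] at hy
  | cons b L ih =>
    rw [HT_cons]
    rcases hy with ⟨r, hr, h2⟩ | hy
    · have := hs b r hr
      rw [Prod.mk.injEq] at h2
      omega
    · have := ih _ _ hy; omega

end pos

/-! ### first passage laws -/

section law

variable {B G : Type*} [AddCommGroup G] (Λ : B → ℝ≥0∞) (h : B → ℕ) (z : B → G)

/-- law of (overshoot, displacement) at the first passage of `c` -/
noncomputable def fl (c j : ℕ) (y : G) : ℝ≥0∞ :=
  EF Λ h c (fun P => if HT h P = c + j ∧ Dp z P = y then 1 else 0)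

lemma pt_sum (c : ℕ) (P : List B) (hP : c ≤ HT h P) (f : ℕ → G → ℝ≥0∞) :
    ∑' j, ∑' y, (if HT h P = c + j ∧ Dp z P = y then 1 else 0) * f j y
      = f (HT h P - c) (Dp z P) := by
  rw [tsum_eq_single (HT h P - c), tsum_eq_single (Dp z P)]
  · rw [if_pos ⟨by omega, rfl⟩, one_mul]
  · intro y hy; rw [if_neg (fun h => hy h.2.symm), zero_mul]
  · intro j hj
    rw [ENNReal.tsum_eq_zero]
    intro y
    rw [if_neg (fun h => hj (by omega)), zero_mul]

lemma law (c : ℕ) (f : ℕ → G → ℝ≥0∞) :
    EF Λ h c (fun P => f (HT h P - c) (Dp z P)) = ∑' j, ∑' y, fl Λ h z c j y * f j y := by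
  calc EF Λ h c (fun P => f (HT h P - c) (Dp z P))
      = EF Λ h c (fun P => ∑' j, ∑' y, (if HT h P = c + j ∧ Dp z P = y then 1 else 0) * f j y) :=
        EF_congr _ _ _ fun P hP => (pt_sum h z c P (FP_le h c P hP) f).symm
    _ = _ := by
        rw [EF_tsum]
        refine tsum_congr fun j => ?_
        rw [EF_tsum]
        refine tsum_congr fun y => ?_
        rw [EF_mul_const]
        rfl

lemma fl_sum (h1 : ∀ b, 1 ≤ h b) (hΛ : ∑' b, Λ b = 1) (c : ℕ) :
    ∑' j, ∑' y, fl Λ h z c j y = 1 := by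
  have := law Λ h z c (fun _ _ => 1)
  rw [EF_one Λ h h1 hΛ] at this
  simpa using this.symm

lemma fl_rec (h1 : ∀ b, 1 ≤ h b) (hΛ : ∑' b, Λ b = 1) (hU1 : ∀ n, U Λ h n ≤ 1) (S i0 c : ℕ)
    (hc : S + i0 ≤ c) : ∃ far : ℕ → G → ℝ≥0∞, (∀ j y, fl Λ h z c j y ≤
      (∑ i ∈ range (i0 + 1), ∑' y', fl Λ h z S i y' * fl Λ h z (c - S - i) j (y - y'))
        + far j y) ∧ ∑' j, ∑' y, far j y ≤ eo Λ h i0 := by
  refine ⟨fun j y => EF Λ h S (fun P1 => (if S + i0 < HT h P1 then 1 else 0) *
    EF Λ h (c - HT h P1) (fun P2 => if HT h (P1 ++ P2) = c + j ∧ Dp z (P1 ++ P2) = y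
      then 1 else 0)), ?_, ?_⟩
  · intro j y
    have e1 : ∑ i ∈ range (i0 + 1), ∑' y', fl Λ h z S i y' * fl Λ h z (c - S - i) j (y - y')
        = EF Λ h S (fun P1 => if HT h P1 ≤ S + i0 then
            fl Λ h z (c - S - (HT h P1 - S)) j (y - Dp z P1) else 0) := by
      have e2 := law Λ h z S (fun i y' => if i ≤ i0 then fl Λ h z (c - S - i) j (y - y') else 0)
      calc _ = ∑' i, ∑' y', fl Λ h z S i y' *
            (if i ≤ i0 then fl Λ h z (c - S - i) j (y - y') else 0) := by
            rw [tsum_eq_sum (s := range (i0 + 1))]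
            · refine Finset.sum_congr rfl fun i hi => ?_
              have : i ≤ i0 := by have := Finset.mem_range.1 hi; omega
              simp [this]
            · intro i hi
              have : ¬ i ≤ i0 := fun h => hi (Finset.mem_range.2 (by omega))
              simp [this]
        _ = _ := by
            rw [← e2]
            refine EF_congr _ _ _ fun P hP => ?_
            have := FP_le h S P hP
            by_cases h3 : HT h P ≤ S + i0
            · rw [if_pos h3, if_pos (by omega)]
            · rw [if_neg h3, if_neg (by omega)]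
    rw [e1, ← EF_add]
    rw [fl, EF_comp Λ h h1 S c (by omega)]
    refine EF_mono _ _ _ fun P hP => ?_
    have h5 := FP_le h S P hP
    by_cases h3 : HT h P ≤ S + i0
    · rw [if_pos h3, if_neg (by omega), zero_mul, add_zero, fl]
      rw [show c - S - (HT h P - S) = c - HT h P by omega]
      refine EF_mono _ _ _ fun P2 hP2 => ?_
      rw [HT_append, Dp_append]
      by_cases h4 : HT h P + HT h P2 = c + j ∧ Dp z P + Dp z P2 = y
      · rw [if_pos h4, if_pos ⟨by omega, by rw [← h4.2]; abel⟩]
      · rw [if_neg h4]; exact zero_le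
    · rw [if_neg h3, if_pos (by omega), one_mul, zero_add]
  · have e1 : ∑' j, ∑' y, EF Λ h S (fun P1 => (if S + i0 < HT h P1 then 1 else 0) *
        EF Λ h (c - HT h P1) (fun P2 => if HT h (P1 ++ P2) = c + j ∧ Dp z (P1 ++ P2) = y
        then 1 else 0)) = EF Λ h S (fun P1 => (if S + i0 < HT h P1 then 1 else 0) *
        EF Λ h (c - HT h P1) (fun P2 => ∑' j, ∑' y,
          (if HT h (P1 ++ P2) = c + j ∧ Dp z (P1 ++ P2) = y then 1 else 0))) := by
      simp_rw [← EF_tsum]
      refine EF_congr _ _ _ fun P _ => ?_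
      simp_rw [ENNReal.tsum_mul_left, ← EF_tsum]
    rw [e1]
    refine le_trans ?_ (far_le Λ h hU1 S i0)
    refine EF_mono _ _ _ fun P hP => ?_
    calc _ ≤ (if S + i0 < HT h P then 1 else 0) * (1 : ℝ≥0∞) := by
          gcongr
          refine EF_le_const Λ h h1 hΛ _ _ fun P2 hP2 => ?_
          have h6 := FP_le h _ P2 hP2
          have := pt_sum h z c (P ++ P2) (by rw [HT_append]; omega) (fun _ _ => 1)
          simp only [mul_one] at this
          exact this.le
      _ = _ := mul_one _

end law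

end Crest.Agent.R154.Asm52
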