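import Crest.Agent.R154.FP_178

/-! Row 154 (helper53), ROAD 801: abstract assembly of KAPPA' on single-walker lists, part A
(first passage triple split, placed traces, density of the first passage law, quantile). -/

set_option autoImplicit false

namespace Crest.Agent.R154.Asm53

open scoped ENNReal Topology
open Crest.Agent.R154.B5A Crest.Agent.R154.FP178
open Filter

section gen

variable {A I : Type*}

open Classical in
lemma fib (V : A → ℝ≥0∞) (φ : A → I) (Ψ : I → ℝ≥0∞) :
    ∑' a, V a * Ψ (φ a) = ∑' i, (∑' a, if φ a = i then V a else 0) * Ψ i := by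
  have e : ∀ i, (∑' a, if φ a = i then V a else 0) * Ψ i
      = ∑' a, (if φ a = i then V a else 0) * Ψ i := fun i => ENNReal.tsum_mul_right.symm
  rw [tsum_congr e, ENNReal.tsum_comm]
  refine tsum_congr fun a => ?_
  rw [tsum_eq_single (φ a)]
  · rw [if_pos rfl]
  · intro i hi
    rw [if_neg (fun h => hi h.symm), zero_mul]

open Classical in
lemma fib_tot (V : A → ℝ≥0∞) (φ : A → I) :
    ∑' i, (∑' a, if φ a = i then V a else 0) = ∑' a, V a := by
  have := fib V φ (fun _ => 1)
  simp only [mul_one] at this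
  exact this.symm

/-- convolution of two sub-probabilities, one of them bounded -/
lemma conv {G : Type*} [AddCommGroup G] (p q Θ : G → ℝ≥0∞) (w : G) (M Bd : ℝ≥0∞)
    (hp : ∑' z, p z ≤ 1) (hq : ∑' z, q z ≤ 1)
    (h : (∀ z, p z ≤ M) ∨ (∀ z, q z ≤ M))
    (hH : ∀ μ : G → ℝ≥0∞, ∑' x, μ x ≤ 1 → (∀ x, μ x ≤ M) → ∑' x, μ x * Θ x ≤ Bd) :
    ∑' z, p z * ∑' z', q z' * Θ (w + z' - z) ≤ Bd := by
  have key : ∑' z, p z * ∑' z', q z' * Θ (w + z' - z)
      = ∑' x, (∑' z', q z' * p (w + z' - x)) * Θ x := by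
    have e1 : ∀ z, p z * ∑' z', q z' * Θ (w + z' - z) = ∑' z', p z * (q z' * Θ (w + z' - z)) :=
      fun z => ENNReal.tsum_mul_left.symm
    rw [tsum_congr e1, ENNReal.tsum_comm]
    have e2 : ∀ x, (∑' z', q z' * p (w + z' - x)) * Θ x = ∑' z', q z' * p (w + z' - x) * Θ x :=
      fun x => ENNReal.tsum_mul_right.symm
    rw [tsum_congr e2, ENNReal.tsum_comm (f := fun x z' => q z' * p (w + z' - x) * Θ x)]
    refine tsum_congr fun z' => ?_
    rw [← (Equiv.subLeft (w + z')).tsum_eq (fun z => p z * (q z' * Θ (w + z' - z)))]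
    refine tsum_congr fun x => ?_
    simp only [Equiv.subLeft_apply, sub_sub_cancel]
    ring
  rw [key]
  refine hH _ ?_ ?_
  · rw [ENNReal.tsum_comm]
    calc ∑' z', ∑' x, q z' * p (w + z' - x) = ∑' z', q z' * ∑' x, p x := by
          refine tsum_congr fun z' => ?_
          rw [ENNReal.tsum_mul_left, ← (Equiv.subLeft (w + z')).tsum_eq p]
          rfl
      _ ≤ ∑' z', q z' * 1 := ENNReal.tsum_le_tsum fun z' => mul_le_mul_right hp _
      _ ≤ 1 := by simpa using hq
  · intro x
    rcases h with h | h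
    · calc ∑' z', q z' * p (w + z' - x) ≤ ∑' z', q z' * M :=
            ENNReal.tsum_le_tsum fun z' => mul_le_mul_right (h _) _
        _ = (∑' z', q z') * M := ENNReal.tsum_mul_right
        _ ≤ 1 * M := mul_le_mul_left hq _
        _ = M := one_mul _
    · calc ∑' z', q z' * p (w + z' - x) ≤ ∑' z', M * p (w + z' - x) :=
            ENNReal.tsum_le_tsum fun z' => mul_le_mul_left (h _) _
        _ = M * ∑' z', p (w + z' - x) := ENNReal.tsum_mul_left
        _ = M * ∑' z', p z' := by
            congr 1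
            have : ∀ z', p (w + z' - x) = p ((Equiv.addRight (w - x)) z') := by
              intro z'; congr 1; simp [Equiv.coe_addRight]; abel
            rw [tsum_congr this, (Equiv.addRight (w - x)).tsum_eq p]
        _ ≤ M * 1 := mul_le_mul_right hp _
        _ = M := mul_one _

open Classical in
/-- dyadic quantile -/
lemma quant (P : I → ℝ≥0∞) (hP : ∑' i, P i ≤ 1) (u : ℝ≥0∞) (hu : u ≠ 0) (huP : u ≤ ∑' i, P i) :
    ∃ th : ℝ≥0∞, th ≠ 0 ∧ th ≤ 1 ∧ ∑' i, (if P i < th then P i else 0) ≤ u ∧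
      u ≤ ∑' i, (if P i < 2 * th then P i else 0) := by
  have hP1 : ∀ i, P i ≤ 1 := fun i => (ENNReal.le_tsum i).trans hP
  have hex : ∃ k : ℕ, ∑' i, (if P i < (2⁻¹ : ℝ≥0∞) ^ k then P i else 0) ≤ u := by
    have hne : ∑' i, P i ≠ ⊤ := ne_top_of_le_ne_top ENNReal.one_ne_top hP
    have ht := ENNReal.tendsto_tsum_compl_atTop_zero hne
    have hev := (ENNReal.tendsto_nhds_zero.1 ht) u (pos_iff_ne_zero.2 hu)
    obtain ⟨s, hs⟩ := hev.exists
    -- a power below all the nonzero values on `s`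
    have hk : ∃ k : ℕ, ∀ i ∈ s, P i ≠ 0 → (2⁻¹ : ℝ≥0∞) ^ k ≤ P i := by
      have : ∀ i : I, ∃ k : ℕ, P i ≠ 0 → (2⁻¹ : ℝ≥0∞) ^ k ≤ P i := by
        intro i
        by_cases h : P i = 0
        · exact ⟨0, fun h' => absurd h h'⟩
        · obtain ⟨k, hk⟩ := ENNReal.exists_inv_two_pow_lt h
          exact ⟨k, fun _ => hk.le⟩
      choose κ hκ using this
      refine ⟨s.sup κ, fun i hi h0 => ?_⟩
      refine le_trans ?_ (hκ i h0)
      exact pow_le_pow_of_le_one (zero_le) (by simp) (Finset.le_sup hi)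
    obtain ⟨k, hk⟩ := hk
    refine ⟨k, le_trans ?_ hs⟩
    have e : ∑' b : {x // x ∉ s}, P b = ∑' i, Set.indicator {i | i ∉ s} P i :=
      tsum_subtype {i : I | i ∉ s} P
    rw [e]
    refine ENNReal.tsum_le_tsum fun i => ?_
    by_cases h : P i < (2⁻¹ : ℝ≥0∞) ^ k
    · rw [if_pos h]
      by_cases hi : i ∈ s
      · by_cases h0 : P i = 0
        · rw [h0]; exact zero_le
        · exact absurd (hk i hi h0) (not_le.2 h)
      · rw [Set.indicator_of_mem (show i ∈ {i | i ∉ s} from hi)]
    · rw [if_neg h]; exact zero_le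
  have hf := Nat.find_spec hex
  rcases Nat.eq_zero_or_eq_succ_pred (Nat.find hex) with h0 | h0
  · refine ⟨1, one_ne_zero, le_rfl, ?_, ?_⟩
    · rw [h0, pow_zero] at hf; exact hf
    · refine huP.trans (ENNReal.tsum_le_tsum fun i => ?_)
      rw [if_pos]
      calc P i ≤ 1 := hP1 i
        _ < 2 * 1 := by rw [mul_one]; exact ENNReal.one_lt_two
  · obtain ⟨k, hk⟩ : ∃ k, Nat.find hex = k + 1 := ⟨_, h0⟩
    have hmin := Nat.find_min hex (m := k) (by omega)
    rw [hk] at hf
    refine ⟨(2⁻¹ : ℝ≥0∞) ^ (k + 1), ?_, ?_, hf, ?_⟩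
    · exact pow_ne_zero _ (by simp)
    · exact pow_le_one₀ (zero_le) (by simp)
    · have e2 : 2 * (2⁻¹ : ℝ≥0∞) ^ (k + 1) = 2⁻¹ ^ k := by
        rw [pow_succ, mul_comm ((2⁻¹ : ℝ≥0∞) ^ k), ← mul_assoc,
          ENNReal.mul_inv_cancel (by norm_num) (by norm_num), one_mul]
      rw [e2]
      exact (not_le.1 hmin).le

end gen

section lists

variable {B G : Type*} [AddCommGroup G]

/-- displacement of a list -/
def Dp (z : B → G) (L : List B) : G := (L.map z).sum

/-- (position, depth) read by a list placed at `x`, depth `a` -/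
def TX (ht : B → ℕ) (z : B → G) (s : B → Set (G × ℕ)) : List B → G → ℕ → Set (G × ℕ)
  | [], _, _ => ∅
  | b :: L, x, a => {p | ∃ q ∈ s b, p = (x + q.1, a + q.2)} ∪ TX ht z s L (x + z b) (a + ht b)

lemma Dp_nil (z : B → G) : Dp z [] = 0 := by simp [Dp]
lemma Dp_cons (z : B → G) (b : B) (L : List B) : Dp z (b :: L) = z b + Dp z L := by simp [Dp]
lemma Dp_append (z : B → G) (L L' : List B) : Dp z (L ++ L') = Dp z L + Dp z L' := by simp [Dp]

variable (ht : B → ℕ) (z : B → G) (s : B → Set (G × ℕ))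

lemma TX_append (L L' : List B) (x : G) (a : ℕ) :
    TX ht z s (L ++ L') x a = TX ht z s L x a ∪ TX ht z s L' (x + Dp z L) (a + HT ht L) := by
  induction L generalizing x a with
  | nil => simp [TX, Dp, HT]
  | cons b L ih =>
    rw [List.cons_append, TX, TX, ih, Dp_cons, HT_cons, Set.union_assoc, add_assoc, add_assoc]

lemma TX_shift (L : List B) (x v y : G) (a k : ℕ) :
    (y, k) ∈ TX ht z s L (x + v) a ↔ (y - v, k) ∈ TX ht z s L x a := by
  induction L generalizing x a with
  | nil => simp [TX]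
  | cons b L ih =>
    rw [TX, TX, Set.mem_union, Set.mem_union, show x + v + z b = x + z b + v by abel, ih]
    refine or_congr ?_ Iff.rfl
    constructor
    · rintro ⟨q, hq, h⟩
      refine ⟨q, hq, ?_⟩
      rw [Prod.mk.injEq] at h ⊢
      exact ⟨by rw [h.1]; abel, h.2⟩
    · rintro ⟨q, hq, h⟩
      refine ⟨q, hq, ?_⟩
      rw [Prod.mk.injEq] at h ⊢
      refine ⟨?_, h.2⟩
      have := h.1
      rw [sub_eq_iff_eq_add] at this
      rw [this]; abel

lemma TX_depth (hs : ∀ b q, q ∈ s b → 1 ≤ q.2 ∧ q.2 ≤ ht b) (L : List B) (x y : G) (a k : ℕ)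
    (h : (y, k) ∈ TX ht z s L x a) : a + 1 ≤ k ∧ k ≤ a + HT ht L := by
  induction L generalizing x a with
  | nil => simp [TX] at h
  | cons b L ih =>
    rw [TX, Set.mem_union] at h
    rw [HT_cons]
    rcases h with ⟨q, hq, h⟩ | h
    · rw [Prod.mk.injEq] at h
      have := hs b q hq
      omega
    · have := ih _ _ h
      omega

variable (Λ : B → ℝ≥0∞)

open Classical in
/-- weight of the lists of height `n` -/
noncomputable def WX (n : ℕ) (L : List B) : ℝ≥0∞ := if HT ht L = n then LW Λ L else 0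

open Classical in
/-- weight of the first passages of `a` with overshoot at most `i` -/
noncomputable def V (i a : ℕ) (L : List B) : ℝ≥0∞ :=
  if fp ht a L ∧ HT ht L ≤ a + i then LW Λ L else 0

lemma tsum_WX (n : ℕ) : ∑' L, WX ht Λ n L = U Λ ht n := rfl

lemma tsum_V_le (h1 : ∀ b, 1 ≤ ht b) (hΛ : ∑' b, Λ b ≤ 1) (i a : ℕ) :
    ∑' L, V ht Λ i a L ≤ 1 := by
  classical
  refine le_trans (ENNReal.tsum_le_tsum fun L => ?_) (sum_FP Λ ht h1 hΛ a)
  unfold V
  by_cases h : fp ht a L
  · rw [if_pos h]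
    split_ifs
    · exact le_rfl
    · exact zero_le
  · rw [if_neg h, if_neg (fun h' => h h'.1)]

open Classical in
/-- first passage sum = good overshoot + bad overshoot -/
lemma fp_le_V (h1 : ∀ b, 1 ≤ ht b) (hU1 : ∀ n, U Λ ht n ≤ 1) (i a : ℕ) (f : List B → ℝ≥0∞)
    (hf : ∀ L, f L ≤ 1) :
    ∑' L, (if fp ht a L then LW Λ L * f L else 0)
      ≤ ∑' L, V ht Λ i a L * f L + ∑' k, tail Λ ht (i + k) := by
  refine le_trans ?_ (add_le_add_right (overshoot Λ ht h1 hU1 i a) _)
  rw [← ENNReal.tsum_add]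
  refine ENNReal.tsum_le_tsum fun L => ?_
  unfold V
  by_cases h : fp ht a L
  · rw [if_pos h]
    by_cases h' : a + i < HT ht L
    · rw [if_pos (show fp ht a L ∧ a + i < HT ht L from ⟨h, h'⟩)]
      refine le_trans ?_ le_add_self
      calc LW Λ L * f L ≤ LW Λ L * 1 := mul_le_mul_right (hf L) _
        _ = _ := mul_one _
    · rw [if_pos ⟨h, by omega⟩]
      exact le_self_add
  · rw [if_neg h]; exact zero_le

open Classical in
/-- total mass of the good first passages -/
lemma sum_FP_eq (h1 : ∀ b, 1 ≤ ht b) (hΛ : ∑' b, Λ b = 1) (a : ℕ) :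
    ∑' L, (if fp ht a L then LW Λ L else 0) = 1 := by
  induction a using Nat.strong_induction_on with
  | _ a ih =>
    rcases Nat.eq_zero_or_pos a with rfl | ha
    · have := sum_fp_zero Λ ht (fun _ => 1)
      simp only [mul_one] at this
      exact this
    · have := sum_fp_step Λ ht a ha (fun _ => 1)
      simp only [mul_one] at this
      rw [this]
      calc ∑' b, Λ b * ∑' L, (if fp ht (a - ht b) L then LW Λ L else 0)
          = ∑' b, Λ b * 1 := by
            refine tsum_congr fun b => ?_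
            rw [ih (a - ht b) (by have := h1 b; omega)]
        _ = 1 := by simpa using hΛ

lemma one_le_V (h1 : ∀ b, 1 ≤ ht b) (hΛ : ∑' b, Λ b = 1) (hU1 : ∀ n, U Λ ht n ≤ 1) (i a : ℕ) :
    1 ≤ ∑' L, V ht Λ i a L + ∑' k, tail Λ ht (i + k) := by
  have := fp_le_V ht Λ h1 hU1 i a (fun _ => 1) (fun _ => le_rfl)
  simp only [mul_one] at this
  rw [sum_FP_eq ht Λ h1 hΛ a] at this
  exact this

lemma WX_split (h1 : ∀ b, 1 ≤ ht b) (n a : ℕ) (ha : a ≤ n) (f : List B → ℝ≥0∞) :
    ∑' L, WX ht Λ n L * f L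
      = ∑' L1, (open Classical in if fp ht a L1 then LW Λ L1 *
          ∑' L2, LW Λ L2 * (if HT ht L1 + HT ht L2 = n then f (L1 ++ L2) else 0) else 0) := by
  classical
  have := split Λ ht h1 a (fun L => if HT ht L = n then f L else 0)
  have e : ∀ L, WX ht Λ n L * f L
      = (if a ≤ HT ht L then LW Λ L * (if HT ht L = n then f L else 0) else 0) := by
    intro L
    unfold WX
    by_cases h : HT ht L = n
    · rw [if_pos h, if_pos (by omega), if_pos h]
    · rw [if_neg h, zero_mul, if_neg h, mul_zero, ite_self]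
  rw [tsum_congr e, this]
  refine tsum_congr fun L1 => ?_
  simp only [HT_append]

/-- the triple split -/
lemma split3 (h1 : ∀ b, 1 ≤ ht b) (hΛ : ∑' b, Λ b ≤ 1) (hU1 : ∀ n, U Λ ht n ≤ 1) (i a b n : ℕ)
    (hn : a + i + b ≤ n) (f : List B → ℝ≥0∞) (hf : ∀ L, f L ≤ 1) (g : List B → List B → ℝ≥0∞)
    (hg : ∀ L1 L2 L3, fp ht a L1 → HT ht L1 ≤ a + i → fp ht b L2 → HT ht L2 ≤ b + i →
      HT ht L1 + HT ht L2 + HT ht L3 = n → f (L1 ++ L2 ++ L3) ≤ g L1 L2) :
    ∑' L, WX ht Λ n L * f L ≤ ∑' L1, V ht Λ i a L1 * ∑' L2, V ht Λ i b L2 * g L1 L2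
      + 2 * ∑' k, tail Λ ht (i + k) := by
  classical
  set e := ∑' k, tail Λ ht (i + k) with he
  have hS1 : ∀ (m c : ℕ) (F : List B → ℝ≥0∞), (∀ L, F L ≤ 1) →
      ∑' L2, LW Λ L2 * (if c + HT ht L2 = m then F L2 else 0) ≤ 1 := by
    intro m c F hF
    by_cases hc : c ≤ m
    · refine le_trans (ENNReal.tsum_le_tsum fun L2 => ?_) (hU1 (m - c))
      by_cases h : c + HT ht L2 = m
      · rw [if_pos h, if_pos (by omega)]
        calc LW Λ L2 * F L2 ≤ LW Λ L2 * 1 := mul_le_mul_right (hF _) _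
          _ = _ := mul_one _
      · rw [if_neg h, mul_zero]; exact zero_le
    · have : ∀ L2 : List B, LW Λ L2 * (if c + HT ht L2 = m then F L2 else 0) = 0 := by
        intro L2; rw [if_neg (by omega), mul_zero]
      rw [tsum_congr this, tsum_zero]; exact zero_le
  rw [WX_split ht Λ h1 n a (by omega) f]
  refine le_trans (fp_le_V ht Λ h1 hU1 i a
    (fun L1 => ∑' L2, LW Λ L2 * (if HT ht L1 + HT ht L2 = n then f (L1 ++ L2) else 0))
    (fun L1 => hS1 n (HT ht L1) (fun L2 => f (L1 ++ L2)) (fun _ => hf _))) ?_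
  have hin : ∀ L1, V ht Λ i a L1 *
      ∑' L2, LW Λ L2 * (if HT ht L1 + HT ht L2 = n then f (L1 ++ L2) else 0)
      ≤ V ht Λ i a L1 * ∑' L2, V ht Λ i b L2 * g L1 L2 + V ht Λ i a L1 * e := by
    intro L1
    by_cases hL1 : fp ht a L1 ∧ HT ht L1 ≤ a + i
    · rw [← mul_add]
      refine mul_le_mul_right ?_ _
      have e1 : ∑' L2, LW Λ L2 * (if HT ht L1 + HT ht L2 = n then f (L1 ++ L2) else 0)
          = ∑' L2, WX ht Λ (n - HT ht L1) L2 * f (L1 ++ L2) := by
        refine tsum_congr fun L2 => ?_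
        unfold WX
        by_cases h : HT ht L1 + HT ht L2 = n
        · rw [if_pos h, if_pos (by omega)]
        · rw [if_neg h, if_neg (by omega), mul_zero, zero_mul]
      rw [e1, WX_split ht Λ h1 (n - HT ht L1) b (by omega) (fun L2 => f (L1 ++ L2))]
      refine le_trans (fp_le_V ht Λ h1 hU1 i b
        (fun L2 => ∑' L3, LW Λ L3 * (if HT ht L2 + HT ht L3 = n - HT ht L1 then
          f (L1 ++ (L2 ++ L3)) else 0))
        (fun L2 => hS1 (n - HT ht L1) (HT ht L2) (fun L3 => f (L1 ++ (L2 ++ L3)))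
          (fun _ => hf _))) ?_
      refine add_le_add_left (ENNReal.tsum_le_tsum fun L2 => ?_) _
      by_cases hL2 : fp ht b L2 ∧ HT ht L2 ≤ b + i
      · refine mul_le_mul_right ?_ _
        calc ∑' L3, LW Λ L3 * (if HT ht L2 + HT ht L3 = n - HT ht L1 then
              f (L1 ++ (L2 ++ L3)) else 0)
            ≤ ∑' L3, (LW Λ L3 * (if HT ht L2 + HT ht L3 = n - HT ht L1 then 1 else 0))
                * g L1 L2 := by
              refine ENNReal.tsum_le_tsum fun L3 => ?_
              by_cases h : HT ht L2 + HT ht L3 = n - HT ht L1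
              · rw [if_pos h, if_pos h, mul_one]
                refine mul_le_mul_right ?_ _
                rw [← List.append_assoc]
                exact hg L1 L2 L3 hL1.1 hL1.2 hL2.1 hL2.2 (by omega)
              · rw [if_neg h, mul_zero]; exact zero_le
          _ = (∑' L3, LW Λ L3 * (if HT ht L2 + HT ht L3 = n - HT ht L1 then 1 else 0))
                * g L1 L2 := ENNReal.tsum_mul_right
          _ ≤ 1 * g L1 L2 := mul_le_mul_left (hS1 _ _ (fun _ => 1) (fun _ => le_rfl)) _
          _ = g L1 L2 := one_mul _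
      · unfold V
        rw [if_neg hL2, zero_mul, zero_mul]
    · unfold V
      rw [if_neg hL1, zero_mul, zero_mul, zero_mul, add_zero]
  calc (∑' L1, V ht Λ i a L1 *
        ∑' L2, LW Λ L2 * (if HT ht L1 + HT ht L2 = n then f (L1 ++ L2) else 0)) + e
      ≤ (∑' L1, (V ht Λ i a L1 * ∑' L2, V ht Λ i b L2 * g L1 L2 + V ht Λ i a L1 * e)) + e :=
        add_le_add_left (ENNReal.tsum_le_tsum hin) _
    _ = ∑' L1, V ht Λ i a L1 * ∑' L2, V ht Λ i b L2 * g L1 L2
          + (∑' L1, V ht Λ i a L1) * e + e := by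
        rw [ENNReal.tsum_add, ENNReal.tsum_mul_right]
    _ ≤ ∑' L1, V ht Λ i a L1 * ∑' L2, V ht Λ i b L2 * g L1 L2 + 1 * e + e := by
        gcongr
        exact tsum_V_le ht Λ h1 hΛ i a
    _ = _ := by ring

open Classical in
/-- law of (overshoot, displacement) of the first passage of `a` -/
noncomputable def FL (a : ℕ) (p : ℕ × G) : ℝ≥0∞ :=
  ∑' L, if HT ht L = a + p.1 ∧ Dp z L = p.2 then (if fp ht a L then LW Λ L else 0) else 0

open Classical in
/-- law of (overshoot, displacement) of the good first passages of `a` -/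
noncomputable def PL (i a : ℕ) (p : ℕ × G) : ℝ≥0∞ :=
  ∑' L, if HT ht L = a + p.1 ∧ Dp z L = p.2 then V ht Λ i a L else 0

lemma PL_le_FL (i a : ℕ) (p : ℕ × G) : PL ht z Λ i a p ≤ FL ht z Λ a p := by
  classical
  unfold PL FL
  refine ENNReal.tsum_le_tsum fun L => ?_
  split_ifs with h h'
  · unfold V
    split_ifs
    · exact le_rfl
    · exact zero_le
  · unfold V
    rw [if_neg (fun h'' => h' h''.1)]
  · exact le_rfl

/-- expectation of a function of (overshoot, displacement) -/
lemma V_fib (i a : ℕ) (Ψ : ℕ × G → ℝ≥0∞) :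
    ∑' L, V ht Λ i a L * Ψ (HT ht L - a, Dp z L) = ∑' p, PL ht z Λ i a p * Ψ p := by
  classical
  rw [fib (V ht Λ i a) (fun L => (HT ht L - a, Dp z L)) Ψ]
  refine tsum_congr fun p => ?_
  congr 1
  unfold PL
  refine tsum_congr fun L => ?_
  by_cases hf : fp ht a L
  · have := le_HT_of_fp ht hf
    have e : ((HT ht L - a, Dp z L) = p) ↔ (HT ht L = a + p.1 ∧ Dp z L = p.2) := by
      rw [Prod.ext_iff]
      constructor
      · rintro ⟨h1, h2⟩
        simp only at h1 h2
        exact ⟨by omega, h2⟩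
      · rintro ⟨h1, h2⟩
        exact ⟨by simp only; omega, h2⟩
    by_cases h : (HT ht L - a, Dp z L) = p
    · rw [if_pos h, if_pos (e.1 h)]
    · rw [if_neg h, if_neg (fun h' => h (e.2 h'))]
  · have : V ht Λ i a L = 0 := by unfold V; rw [if_neg (fun h' => hf h'.1)]
    rw [this, ite_self, ite_self]

lemma tsum_PL (i a : ℕ) : ∑' p, PL ht z Λ i a p = ∑' L, V ht Λ i a L := by
  have := V_fib ht z Λ i a (fun _ => 1)
  simp only [mul_one] at this
  exact this.symm

lemma PL_supp (i a : ℕ) (p : ℕ × G) (hp : i < p.1) : PL ht z Λ i a p = 0 := by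
  classical
  unfold PL
  rw [ENNReal.tsum_eq_zero]
  intro L
  split_ifs with h
  · unfold V
    rw [if_neg (fun h' => by have := h'.2; omega)]
  · rfl

open Classical in
lemma FL_tot_gen (a c : ℕ) (v : G) (W : List B → ℝ≥0∞) :
    ∑' p : ℕ × G, (∑' L, if c + HT ht L = a + p.1 ∧ v + Dp z L = p.2 then W L else 0)
      ≤ ∑' L, W L := by
  rw [ENNReal.tsum_comm]
  refine ENNReal.tsum_le_tsum fun L => ?_
  by_cases h : a ≤ c + HT ht L
  · rw [tsum_eq_single (c + HT ht L - a, v + Dp z L)]
    · split_ifs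
      · exact le_rfl
      · exact zero_le
    · intro p hp
      rw [if_neg]
      rintro ⟨h1, h2⟩
      exact hp (Prod.ext (by simp only; omega) h2.symm)
  · have : ∀ p : ℕ × G, (if c + HT ht L = a + p.1 ∧ v + Dp z L = p.2 then W L else 0) = 0 := by
      intro p
      rw [if_neg (fun h' => by have := h'.1; omega)]
    rw [tsum_congr this, tsum_zero]
    exact zero_le

lemma FL_tot (h1 : ∀ b, 1 ≤ ht b) (hΛ : ∑' b, Λ b ≤ 1) (a : ℕ) : ∑' p, FL ht z Λ a p ≤ 1 := by
  classical
  have := FL_tot_gen ht z a 0 0 (fun L => if fp ht a L then LW Λ L else 0)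
  simp only [zero_add] at this
  exact this.trans (sum_FP Λ ht h1 hΛ a)

/-- the slice sum of `FL` at a fixed overshoot -/
lemma FL_slice (h1 : ∀ b, 1 ≤ ht b) (hΛ : ∑' b, Λ b ≤ 1) (a j : ℕ) (v : G) :
    ∑' y, FL ht z Λ a (j, v - y) ≤ 1 := by
  have e : ∑' y, FL ht z Λ a (j, v - y) = ∑' y, FL ht z Λ a (j, y) :=
    (Equiv.subLeft v).tsum_eq (fun y => FL ht z Λ a (j, y))
  rw [e]
  refine le_trans ?_ (FL_tot ht z Λ h1 hΛ a)
  exact ENNReal.tsum_comp_le_tsum_of_injective (f := fun y : G => ((j, y) : ℕ × G))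
    (fun y y' h => (Prod.mk.inj h).2) _

/-- renewal inequality for `FL` -/
lemma FL_rec (h1 : ∀ b, 1 ≤ ht b) (T i a : ℕ) (ha : T + i ≤ a) (p : ℕ × G) :
    FL ht z Λ a p ≤ (∑' q : ℕ × G, PL ht z Λ i T q * FL ht z Λ (a - T - q.1) (p.1, p.2 - q.2))
      + (open Classical in ∑' A, (if fp ht T A ∧ T + i < HT ht A then LW Λ A else 0) *
          ∑' L, if HT ht A + HT ht L = a + p.1 ∧ Dp z A + Dp z L = p.2 then
            (if fp ht (a - HT ht A) L then LW Λ L else 0) else 0) := by
  classical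
  have e0 : FL ht z Λ a p = ∑' L, (if fp ht a L then LW Λ L *
      (if HT ht L = a + p.1 ∧ Dp z L = p.2 then 1 else 0) else 0) := by
    unfold FL
    refine tsum_congr fun L => ?_
    by_cases h : fp ht a L
    · rw [if_pos h, if_pos h, mul_ite, mul_one, mul_zero]
    · rw [if_neg h, if_neg h, ite_self]
  rw [e0, fp_split Λ ht h1 T a (by omega)]
  -- split good and far attempts
  have hgood := V_fib ht z Λ i T (fun q => FL ht z Λ (a - T - q.1) (p.1, p.2 - q.2))
  rw [← hgood, ← ENNReal.tsum_add]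
  refine ENNReal.tsum_le_tsum fun A => ?_
  by_cases hA : fp ht T A
  · rw [if_pos hA]
    have hTA := le_HT_of_fp ht hA
    by_cases hA' : T + i < HT ht A
    · refine le_trans ?_ le_add_self
      rw [if_pos (show fp ht T A ∧ T + i < HT ht A from ⟨hA, hA'⟩)]
      refine mul_le_mul_right (le_of_eq (tsum_congr fun L => ?_)) _
      rw [HT_append, Dp_append]
      by_cases h : fp ht (a - HT ht A) L
      · rw [if_pos h, if_pos h, mul_ite, mul_one, mul_zero]
      · rw [if_neg h, if_neg h, ite_self]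
    · refine le_trans ?_ le_self_add
      have hV : V ht Λ i T A = LW Λ A := by
        unfold V; rw [if_pos ⟨hA, by omega⟩]
      rw [hV]
      refine mul_le_mul_right (le_of_eq ?_) _
      unfold FL
      refine tsum_congr fun L => ?_
      have e1 : a - T - (HT ht A - T) = a - HT ht A := by omega
      simp only [e1]
      rw [HT_append, Dp_append]
      have e2 : (HT ht L = a - HT ht A + p.1 ∧ Dp z L = p.2 - Dp z A)
          ↔ (HT ht A + HT ht L = a + p.1 ∧ Dp z A + Dp z L = p.2) := by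
        constructor
        · rintro ⟨h, h'⟩
          exact ⟨by omega, by rw [h']; abel⟩
        · rintro ⟨h, h'⟩
          exact ⟨by omega, by rw [← h']; abel⟩
      by_cases h : fp ht (a - HT ht A) L
      · rw [if_pos h, if_pos h]
        by_cases h' : HT ht A + HT ht L = a + p.1 ∧ Dp z A + Dp z L = p.2
        · rw [if_pos h', if_pos (e2.2 h'), mul_one]
        · rw [if_neg h', if_neg (fun h'' => h' (e2.1 h'')), mul_zero]
      · rw [if_neg h, if_neg h, ite_self]
  · rw [if_neg hA]; exact zero_le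

/-- far part has total mass at most the overshoot tail -/
lemma far_tot (h1 : ∀ b, 1 ≤ ht b) (hΛ : ∑' b, Λ b ≤ 1) (hU1 : ∀ n, U Λ ht n ≤ 1) (T i a : ℕ) :
    ∑' p : ℕ × G, (open Classical in ∑' A, (if fp ht T A ∧ T + i < HT ht A then LW Λ A else 0) *
          ∑' L, if HT ht A + HT ht L = a + p.1 ∧ Dp z A + Dp z L = p.2 then
            (if fp ht (a - HT ht A) L then LW Λ L else 0) else 0)
      ≤ ∑' k, tail Λ ht (i + k) := by
  classical
  refine le_trans ?_ (overshoot Λ ht h1 hU1 i T)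
  rw [ENNReal.tsum_comm]
  refine ENNReal.tsum_le_tsum fun A => ?_
  rw [ENNReal.tsum_mul_left]
  calc (if fp ht T A ∧ T + i < HT ht A then LW Λ A else 0) *
        ∑' p : ℕ × G, ∑' L, (if HT ht A + HT ht L = a + p.1 ∧ Dp z A + Dp z L = p.2 then
            (if fp ht (a - HT ht A) L then LW Λ L else 0) else 0)
      ≤ (if fp ht T A ∧ T + i < HT ht A then LW Λ A else 0) * 1 :=
        mul_le_mul_right ((FL_tot_gen ht z a (HT ht A) (Dp z A) _).trans
          (sum_FP Λ ht h1 hΛ _)) _
    _ = _ := mul_one _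

open Classical in
/-- smooth density of the first passage law: `(FL - Gd)` has total mass `≤ q^J + J ε`. -/
theorem dens (h1 : ∀ b, 1 ≤ ht b) (hΛ : ∑' b, Λ b ≤ 1) (hU1 : ∀ n, U Λ ht n ≤ 1)
    (T i : ℕ) (th q Gd ε : ℝ≥0∞) (hε : ∑' k, tail Λ ht (i + k) ≤ ε)
    (hq : ∑' p : ℕ × G, (if PL ht z Λ i T p < th then 0 else PL ht z Λ i T p) ≤ q) (hq1 : q ≤ 1)
    (hG : (i + 1 : ℕ) * th + q * Gd ≤ Gd) :
    ∀ (J a : ℕ), J * (T + i) ≤ a →
      ∑' p : ℕ × G, (FL ht z Λ a p - Gd) ≤ q ^ J + J * ε := by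
  intro J
  induction J with
  | zero =>
    intro a _
    rw [pow_zero, Nat.cast_zero, zero_mul, add_zero]
    exact (ENNReal.tsum_le_tsum fun p => tsub_le_self).trans (FL_tot ht z Λ h1 hΛ a)
  | succ J ih =>
    intro a ha
    have ha1 : T + i ≤ a := by nlinarith
    -- the far part
    set far : ℕ × G → ℝ≥0∞ := fun p => ∑' A, (if fp ht T A ∧ T + i < HT ht A then LW Λ A else 0) *
          ∑' L, (if HT ht A + HT ht L = a + p.1 ∧ Dp z A + Dp z L = p.2 then
            (if fp ht (a - HT ht A) L then LW Λ L else 0) else 0) with hfar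
    set Q : ℕ × G → ℝ≥0∞ := fun q' => if PL ht z Λ i T q' < th then 0 else PL ht z Λ i T q' with hQ
    -- the rough part
    set R : ℕ × G → ℝ≥0∞ := fun p =>
      ∑' q' : ℕ × G, Q q' * (FL ht z Λ (a - T - q'.1) (p.1, p.2 - q'.2) - Gd) with hR
    have hpt : ∀ p, FL ht z Λ a p - Gd ≤ R p + far p := by
      intro p
      rw [tsub_le_iff_left]
      refine (FL_rec ht z Λ h1 T i a ha1 p).trans ?_
      rw [← add_assoc]
      refine add_le_add_left ?_ _
      have hsplit : ∀ q' : ℕ × G, PL ht z Λ i T q' * FL ht z Λ (a - T - q'.1) (p.1, p.2 - q'.2)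
          ≤ (if q'.1 ≤ i then th * FL ht z Λ (a - T - q'.1) (p.1, p.2 - q'.2) else 0)
            + (Q q' * Gd + Q q' * (FL ht z Λ (a - T - q'.1) (p.1, p.2 - q'.2) - Gd)) := by
        intro q'
        by_cases hi : q'.1 ≤ i
        · by_cases hlt : PL ht z Λ i T q' < th
          · refine le_trans ?_ le_self_add
            rw [if_pos hi]
            exact mul_le_mul_left hlt.le _
          · refine le_trans ?_ le_add_self
            have : Q q' = PL ht z Λ i T q' := by rw [hQ]; simp only; rw [if_neg hlt]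
            rw [this, ← mul_add]
            exact mul_le_mul_right le_add_tsub _
        · rw [PL_supp ht z Λ i T q' (by omega), zero_mul]
          exact zero_le
      refine (ENNReal.tsum_le_tsum hsplit).trans ?_
      rw [ENNReal.tsum_add, ENNReal.tsum_add, ← add_assoc]
      refine add_le_add ?_ le_rfl
      have hS : ∑' q' : ℕ × G,
          (if q'.1 ≤ i then th * FL ht z Λ (a - T - q'.1) (p.1, p.2 - q'.2) else 0)
          ≤ (i + 1 : ℕ) * th := by
        refine le_trans (le_of_eq (ENNReal.tsum_prod (f := fun (j : ℕ) (y : G) =>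
          if j ≤ i then th * FL ht z Λ (a - T - j) (p.1, p.2 - y) else 0))) ?_
        calc ∑' j : ℕ, ∑' y : G,
              (if j ≤ i then th * FL ht z Λ (a - T - j) (p.1, p.2 - y) else 0)
            ≤ ∑' j : ℕ, (if j ≤ i then th else 0) := by
              refine ENNReal.tsum_le_tsum fun j => ?_
              by_cases hj : j ≤ i
              · simp only [if_pos hj]
                rw [ENNReal.tsum_mul_left]
                calc th * ∑' y : G, FL ht z Λ (a - T - j) (p.1, p.2 - y)
                    ≤ th * 1 := mul_le_mul_right (FL_slice ht z Λ h1 hΛ _ _ _) _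
                  _ = th := mul_one _
              · simp only [if_neg hj, tsum_zero]
                exact le_rfl
          _ = ∑ j ∈ Finset.range (i + 1), (if j ≤ i then th else 0) := by
              refine tsum_eq_sum fun j hj => ?_
              rw [Finset.mem_range] at hj
              rw [if_neg (by omega)]
          _ ≤ ∑ j ∈ Finset.range (i + 1), th := Finset.sum_le_sum fun j _ => by
              split_ifs
              · exact le_rfl
              · exact zero_le
          _ = (i + 1 : ℕ) * th := by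
              rw [Finset.sum_const, Finset.card_range, nsmul_eq_mul]
      have hQG : ∑' q' : ℕ × G, Q q' * Gd ≤ q * Gd := by
        rw [ENNReal.tsum_mul_right]
        exact mul_le_mul_left hq _
      exact (add_le_add hS hQG).trans hG
    have hRt : ∑' p, R p ≤ q * (q ^ J + J * ε) := by
      rw [hR]
      simp only
      rw [ENNReal.tsum_comm]
      calc ∑' q' : ℕ × G, ∑' p : ℕ × G,
            Q q' * (FL ht z Λ (a - T - q'.1) (p.1, p.2 - q'.2) - Gd)
          ≤ ∑' q' : ℕ × G, Q q' * (q ^ J + J * ε) := by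
            refine ENNReal.tsum_le_tsum fun q' => ?_
            by_cases hi : q'.1 ≤ i
            · rw [ENNReal.tsum_mul_left]
              refine mul_le_mul_right ?_ _
              have e : ∑' p : ℕ × G, (FL ht z Λ (a - T - q'.1) (p.1, p.2 - q'.2) - Gd)
                  = ∑' p : ℕ × G, (FL ht z Λ (a - T - q'.1) p - Gd) :=
                (Equiv.prodCongr (Equiv.refl ℕ) (Equiv.subRight q'.2)).tsum_eq
                  (fun p => FL ht z Λ (a - T - q'.1) p - Gd)
              rw [e]
              refine ih (a - T - q'.1) ?_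
              have : (J + 1) * (T + i) = J * (T + i) + (T + i) := by ring
              omega
            · have : Q q' = 0 := by
                rw [hQ]; simp only
                rw [PL_supp ht z Λ i T q' (by omega), ite_self]
              simp only [this, zero_mul, tsum_zero]
              exact le_rfl
        _ = (∑' q', Q q') * (q ^ J + J * ε) := ENNReal.tsum_mul_right
        _ ≤ q * (q ^ J + J * ε) := mul_le_mul_left hq _
    calc ∑' p, (FL ht z Λ a p - Gd) ≤ ∑' p, (R p + far p) := ENNReal.tsum_le_tsum hpt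
      _ = ∑' p, R p + ∑' p, far p := ENNReal.tsum_add
      _ ≤ q * (q ^ J + J * ε) + ε :=
          add_le_add hRt ((far_tot ht z Λ h1 hΛ hU1 T i a).trans hε)
      _ = q ^ (J + 1) + q * (J * ε) + ε := by ring
      _ ≤ q ^ (J + 1) + 1 * (J * ε) + ε :=
          add_le_add_left (add_le_add_right (mul_le_mul_left hq1 _) _) _
      _ = q ^ (J + 1) + (J + 1 : ℕ) * ε := by push_cast; ring

end lists

end Crest.Agent.R154.Asm53
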