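import Crest.Agent.R154.B5Rec_566

/-! Row 154, KAPPA' (road 801), helper540: one walker renewal lists: first passage pieces, attempts,
density of the sum. -/

set_option autoImplicit false

namespace Crest.Agent.R154.Asm540

open scoped ENNReal
open Crest.Agent.R154.B5A

variable {B G : Type*}

/-- minimal list of height `≥ r` -/
def FP (ht : B → ℕ) : ℕ → List B → Prop
  | r, [] => r = 0
  | r, b :: L => 0 < r ∧ FP ht (r - ht b) L

def pre (ht : B → ℕ) : ℕ → List B → List B
  | _, [] => []
  | r, b :: L => if r = 0 then [] else b :: pre ht (r - ht b) L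

def suf (ht : B → ℕ) : ℕ → List B → List B
  | _, [] => []
  | r, b :: L => if r = 0 then b :: L else suf ht (r - ht b) L

variable (Λ : B → ℝ≥0∞) (ht : B → ℕ)

lemma fp_zero {L : List B} : FP ht 0 L ↔ L = [] := by
  cases L <;> simp [FP]

lemma pre_app {r : ℕ} {P : List B} (h : FP ht r P) (A : List B) : pre ht r (P ++ A) = P := by
  induction P generalizing r with
  | nil =>
    simp only [FP] at h
    subst h
    cases A <;> simp [pre]
  | cons b P ih =>
    simp only [FP] at h
    simp only [List.cons_append, pre]
    rw [if_neg (by omega), ih h.2]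

lemma suf_app {r : ℕ} {P : List B} (h : FP ht r P) (A : List B) : suf ht r (P ++ A) = A := by
  induction P generalizing r with
  | nil =>
    simp only [FP] at h
    subst h
    cases A <;> simp [suf]
  | cons b P ih =>
    simp only [FP] at h
    simp only [List.cons_append, suf]
    rw [if_neg (by omega), ih h.2]

lemma fp_HT {r : ℕ} {L : List B} (h : FP ht r L) : r ≤ HT ht L := by
  induction L generalizing r with
  | nil => simp only [FP] at h; omega
  | cons b L ih =>
    simp only [FP] at h
    have := ih h.2
    rw [HT_cons]; omega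

lemma fp_append {r : ℕ} {P A : List B} (h : FP ht r (P ++ A)) : FP ht (r - HT ht P) A := by
  induction P generalizing r with
  | nil => simpa [HT_nil] using h
  | cons b P ih =>
    simp only [List.cons_append, FP] at h
    have := ih h.2
    rwa [Nat.sub_sub, ← HT_cons] at this

lemma fp_last {r : ℕ} {L : List B} {b : B} (h : FP ht r (L ++ [b])) : HT ht L < r := by
  induction L generalizing r with
  | nil =>
    simp only [List.nil_append, FP] at h
    simp only [HT_nil]
    exact h.1
  | cons c L ih =>
    simp only [List.cons_append, FP] at h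
    have := ih h.2
    rw [HT_cons]; omega

open Classical in
lemma split_le (h1 : ∀ b, 1 ≤ ht b) (r : ℕ) (F : List B → ℝ≥0∞) :
    ∑' L, (if r ≤ HT ht L then F L else 0)
      ≤ ∑' L1, (if FP ht r L1 then ∑' L2, F (L1 ++ L2) else 0) := by
  induction r using Nat.strong_induction_on generalizing F with
  | _ r ih =>
    rcases Nat.eq_zero_or_pos r with hr | hr
    · subst hr
      refine le_trans ?_ (ENNReal.le_tsum ([] : List B))
      simp [FP]
    · rw [tsum_list, tsum_list (fun L1 => if FP ht r L1 then ∑' L2, F (L1 ++ L2) else 0)]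
      simp only [HT_nil]
      rw [if_neg (by omega), zero_add]
      refine le_add_left ?_
      refine ENNReal.tsum_le_tsum fun b => ?_
      have hb := h1 b
      refine le_trans (le_of_eq ?_) ((ih (r - ht b) (by omega) (fun L => F (b :: L))).trans
        (le_of_eq ?_))
      · refine tsum_congr fun L => ?_
        rw [HT_cons]
        by_cases h : r ≤ ht b + HT ht L
        · rw [if_pos h, if_pos (by omega)]
        · rw [if_neg h, if_neg (by omega)]
      · refine tsum_congr fun L => ?_
        simp only [FP, hr, true_and, List.cons_append]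

open Classical in
lemma fp_mass (hΛ : ∑' b, Λ b ≤ 1) (r : ℕ) (h1 : ∀ b, 1 ≤ ht b) :
    ∑' L, (if FP ht r L then LW Λ L else 0) ≤ 1 := by
  induction r using Nat.strong_induction_on with
  | _ r ih =>
    rcases Nat.eq_zero_or_pos r with hr | hr
    · subst hr
      rw [tsum_eq_single []]
      · simp [FP, LW_nil]
      · intro L hL
        rw [if_neg (by rw [fp_zero]; exact hL)]
    · rw [tsum_list]
      simp only [FP]
      rw [if_neg (by omega), zero_add]
      refine le_trans (ENNReal.tsum_le_tsum fun b => ?_) hΛ
      refine le_trans (b := Λ b * ∑' L, (if FP ht (r - ht b) L then LW Λ L else 0)) ?_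
        (le_trans (mul_le_mul_right (ih _ (by have := h1 b; omega)) _) (mul_one _).le)
      rw [← ENNReal.tsum_mul_left]
      refine ENNReal.tsum_le_tsum fun L => ?_
      by_cases h : FP ht (r - ht b) L
      · rw [if_pos ⟨hr, h⟩, if_pos h, LW_cons]
      · rw [if_neg (fun h' => h h'.2)]; exact zero_le

open Classical in
lemma fp_comp (h1 : ∀ b, 1 ≤ ht b) {q r : ℕ} (hq : q ≤ r) (F : List B → ℝ≥0∞) :
    ∑' A, (if FP ht r A then F A else 0)
      ≤ ∑' P, (if FP ht q P then ∑' A, (if FP ht (r - HT ht P) A then F (P ++ A) else 0) else 0) := by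
  refine le_trans (le_of_eq ?_) ((split_le ht h1 q (fun A => if FP ht r A then F A else 0)).trans ?_)
  · refine tsum_congr fun A => ?_
    by_cases h : FP ht r A
    · rw [if_pos h, if_pos (hq.trans (fp_HT ht h))]
    · simp [h]
  · refine ENNReal.tsum_le_tsum fun P => ?_
    split_ifs with hP
    · refine ENNReal.tsum_le_tsum fun A => ?_
      by_cases h : FP ht r (P ++ A)
      · rw [if_pos h, if_pos (fp_append ht h)]
      · rw [if_neg h]; exact zero_le
    · exact le_rfl

/-- overshoot bound -/
noncomputable def e1 (i0 : ℕ) : ℝ≥0∞ := ∑' b, Λ b * ((ht b - i0 : ℕ) : ℝ≥0∞)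

lemma tsum_list_last (F : List B → ℝ≥0∞) : ∑' L, F L = F [] + ∑' b, ∑' L, F (L ++ [b]) := by
  rw [← (Equiv.ofBijective List.reverse List.reverse_bijective).tsum_eq F, tsum_list]
  simp only [Equiv.ofBijective_apply, List.reverse_nil, List.reverse_cons]
  congr 1
  refine tsum_congr fun b => ?_
  rw [← (Equiv.ofBijective List.reverse List.reverse_bijective).tsum_eq (fun L => F (L ++ [b]))]
  simp only [Equiv.ofBijective_apply]

open Classical in
lemma over_le (hU1 : ∀ n, U Λ ht n ≤ 1) (r i0 : ℕ) :
    ∑' L, (if FP ht r L ∧ r + i0 < HT ht L then LW Λ L else 0) ≤ e1 Λ ht i0 := by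
  rw [tsum_list_last]
  rw [if_neg (by rw [HT_nil]; omega), zero_add]
  refine ENNReal.tsum_le_tsum fun b => ?_
  calc (∑' L, if FP ht r (L ++ [b]) ∧ r + i0 < HT ht (L ++ [b]) then LW Λ (L ++ [b]) else 0)
      ≤ ∑' L, ∑ k ∈ Finset.range r, (if r + i0 < k + ht b then
          (if HT ht L = k then LW Λ L else 0) else 0) * Λ b := by
        refine ENNReal.tsum_le_tsum fun L => ?_
        split_ifs with h
        · have h2 := fp_last ht h.1
          have h3 : HT ht (L ++ [b]) = HT ht L + ht b := by simp [HT_append, HT_cons, HT_nil]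
          refine le_trans ?_ (Finset.single_le_sum
            (f := fun k => (if r + i0 < k + ht b then
              (if HT ht L = k then LW Λ L else 0) else 0) * Λ b)
            (fun _ _ => zero_le) (Finset.mem_range.2 h2))
          rw [if_pos (by have := h.2; omega), if_pos rfl, LW_append, LW_cons, LW_nil, mul_one]
        · exact zero_le
    _ = ∑ k ∈ Finset.range r, (if r + i0 < k + ht b then U Λ ht k else 0) * Λ b := by
        rw [Summable.tsum_finsetSum (fun _ _ => ENNReal.summable)]
        refine Finset.sum_congr rfl fun k _ => ?_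
        rw [ENNReal.tsum_mul_right]
        congr 1
        split_ifs with h
        · rfl
        · simp
    _ ≤ ∑ k ∈ Finset.range r, (if r + i0 < k + ht b then 1 else 0) * Λ b := by
        refine Finset.sum_le_sum fun k _ => mul_le_mul_left ?_ _
        split_ifs
        · exact hU1 k
        · exact le_rfl
    _ = ((Finset.range r).filter (fun k => r + i0 < k + ht b)).card * Λ b := by
        rw [← Finset.sum_mul, Finset.sum_ite]
        simp
    _ ≤ ((ht b - i0 : ℕ) : ℝ≥0∞) * Λ b := by
        refine mul_le_mul_left ?_ _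
        have : ((Finset.range r).filter (fun k => r + i0 < k + ht b)).card ≤ ht b - i0 := by
          calc _ ≤ (Finset.Ico (r + i0 + 1 - ht b) r).card := by
                refine Finset.card_le_card fun k hk => ?_
                rw [Finset.mem_filter, Finset.mem_range] at hk
                rw [Finset.mem_Ico]; omega
            _ ≤ ht b - i0 := by rw [Nat.card_Ico]; omega
        exact_mod_cast this
    _ = _ := mul_comm _ _

lemma e1_small (hE : ∑' b, Λ b * (ht b : ℝ≥0∞) ≠ ⊤) {η : ℝ≥0∞} (hη : η ≠ 0) :
    ∃ i0, ∀ i, i0 ≤ i → e1 Λ ht i ≤ η := by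
  have h := ENNReal.tendsto_tsum_compl_atTop_zero hE
  have h2 := (h.eventually (gt_mem_nhds (pos_iff_ne_zero.2 hη))).exists
  obtain ⟨F, hF⟩ := h2
  refine ⟨F.sup ht, fun i hi => ?_⟩
  rw [e1]
  have h3 : ∑' b, Λ b * ((ht b - i : ℕ) : ℝ≥0∞)
      = ∑ b ∈ F, Λ b * ((ht b - i : ℕ) : ℝ≥0∞)
        + ∑' b : {x // x ∉ F}, Λ b * ((ht b - i : ℕ) : ℝ≥0∞) :=
    (ENNReal.sum_add_tsum_compl F _).symm
  rw [h3, Finset.sum_eq_zero, zero_add]
  · refine le_trans (ENNReal.tsum_le_tsum fun b => ?_) hF.le
    refine mul_le_mul_right ?_ _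
    exact_mod_cast Nat.sub_le _ _
  · intro b hb
    have : ht b ≤ F.sup ht := Finset.le_sup hb
    rw [show ht b - i = 0 by omega]; simp

end Crest.Agent.R154.Asm540
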