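import Crest.Agent.R154.FP_178

/-! Row 154 (helper557), ROAD 801, assembly: one window, two independent block lists. -/

set_option autoImplicit false
set_option maxHeartbeats 1000000

namespace Crest.Agent.R154.Asm557

open scoped ENNReal
open Crest.Agent.R154.B5A Crest.Agent.R154.FP178

section one
variable {B G : Type*} [AddCommGroup G] (Λ : B → ℝ≥0∞) (ht : B → ℕ) (z : B → G)
  (s : B → Set (G × ℕ))

/-- displacement of a list -/
def Dp (L : List B) : G := (L.map z).sum

lemma Dp_nil : Dp z ([] : List B) = 0 := rfl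
lemma Dp_cons (b : B) (L : List B) : Dp z (b :: L) = z b + Dp z L := by simp [Dp]
lemma Dp_append (L L' : List B) : Dp z (L ++ L') = Dp z L + Dp z L' := by simp [Dp]

/-- sites (position, depth) of a list hung at `(x, a)` -/
def T : List B → G → ℕ → Set (G × ℕ)
  | [], _, _ => ∅
  | b :: L, x, a => {p | ∃ q ∈ s b, p = (x + q.1, a + q.2)} ∪ T L (x + z b) (a + ht b)

lemma T_append (L L' : List B) (x : G) (a : ℕ) :
    T ht z s (L ++ L') x a = T ht z s L x a ∪ T ht z s L' (x + Dp z L) (a + HT ht L) := by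
  induction L generalizing x a with
  | nil => simp [T, Dp, HT]
  | cons b L ih =>
    rw [List.cons_append, T, T, ih, Set.union_assoc, Dp_cons, HT_cons, add_assoc, add_assoc]

lemma T_depth (hs : ∀ b q, q ∈ s b → 1 ≤ q.2 ∧ q.2 ≤ ht b) (L : List B) (x : G) (a : ℕ)
    (p : G × ℕ) (hp : p ∈ T ht z s L x a) : a < p.2 ∧ p.2 ≤ a + HT ht L := by
  induction L generalizing x a with
  | nil => exact absurd hp (by simp [T])
  | cons b L ih =>
    rw [T] at hp
    rw [HT_cons]
    rcases hp with ⟨q, hq, rfl⟩ | hp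
    · have := hs b q hq
      simp only
      omega
    · have := ih _ _ hp
      omega

lemma T_shift (L : List B) (x y v : G) (a k : ℕ) :
    (v, k) ∈ T ht z s L (x + y) a ↔ (v - y, k) ∈ T ht z s L x a := by
  induction L generalizing x a with
  | nil => simp [T]
  | cons b L ih =>
    rw [T, T, Set.mem_union, Set.mem_union]
    have e : x + y + z b = (x + z b) + y := by abel
    rw [e, ih]
    refine or_congr ?_ Iff.rfl
    constructor
    · rintro ⟨q, hq, h⟩
      refine ⟨q, hq, ?_⟩
      rw [Prod.mk.injEq] at h ⊢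
      refine ⟨?_, h.2⟩
      rw [h.1]; abel
    · rintro ⟨q, hq, h⟩
      refine ⟨q, hq, ?_⟩
      rw [Prod.mk.injEq] at h ⊢
      refine ⟨?_, h.2⟩
      have := h.1
      rw [sub_eq_iff_eq_add] at this
      rw [this]; abel

open Classical in
/-- weight of a first passage with overshoot `≤ i` -/
noncomputable def nu (a i : ℕ) (A : List B) : ℝ≥0∞ :=
  if fp ht a A ∧ HT ht A ≤ a + i then LW Λ A else 0

/-- total overshoot tail -/
noncomputable def ep (i : ℕ) : ℝ≥0∞ := ∑' k, tail Λ ht (i + k)

open Classical in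
lemma nu_sum (h1 : ∀ b, 1 ≤ ht b) (hU1 : ∀ n, U Λ ht n ≤ 1) (a i : ℕ) :
    ∑' A, nu Λ ht a i A ≤ 1 := by
  refine le_trans (ENNReal.tsum_le_tsum fun A => ?_)
    (sum_FP Λ ht h1 (mass_le_one Λ ht h1 hU1) a)
  unfold nu
  split_ifs with h h' h'
  · exact le_rfl
  · exact absurd h.1 h'
  · exact zero_le
  · exact le_rfl

open Classical in
lemma rest_le (hU1 : ∀ n, U Λ ht n ≤ 1) (n : ℕ) (f : List B → ℝ≥0∞) (A : List B) (c : ℝ≥0∞)
    (hc : ∀ R, HT ht (A ++ R) = n → f (A ++ R) ≤ c) :
    ∑' R, LW Λ R * (if HT ht (A ++ R) = n then f (A ++ R) else 0) ≤ c := by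
  have h : ∀ R : List B, LW Λ R * (if HT ht (A ++ R) = n then f (A ++ R) else 0)
      ≤ (if HT ht R = n - HT ht A then LW Λ R else 0) * c := by
    intro R
    by_cases hR : HT ht (A ++ R) = n
    · rw [if_pos hR, if_pos (by rw [HT_append] at hR; omega)]
      exact mul_le_mul_right (hc R hR) _
    · rw [if_neg hR, mul_zero]; exact zero_le
  refine (ENNReal.tsum_le_tsum h).trans ?_
  rw [ENNReal.tsum_mul_right]
  calc _ ≤ 1 * c := mul_le_mul_left (hU1 (n - HT ht A)) c
    _ = c := one_mul c

open Classical in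
lemma win_one (h1 : ∀ b, 1 ≤ ht b) (hU1 : ∀ n, U Λ ht n ≤ 1) (a τ i n : ℕ)
    (hn : a + i + τ ≤ n) (f : List B → ℝ≥0∞) (hf : ∀ L, f L ≤ 1)
    (g : List B → List B → ℝ≥0∞)
    (hg : ∀ A P R, fp ht a A → HT ht A ≤ a + i → fp ht τ P → HT ht P ≤ τ + i →
      HT ht (A ++ (P ++ R)) = n → f (A ++ (P ++ R)) ≤ g A P) :
    ∑' L, (if HT ht L = n then LW Λ L * f L else 0) ≤ 2 * ep Λ ht i +
      ∑' A, nu Λ ht a i A * ∑' P, nu Λ ht τ i P * g A P := by
  have e0 : ∀ L : List B, (if HT ht L = n then LW Λ L * f L else 0)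
      = (if a ≤ HT ht L then LW Λ L * (if HT ht L = n then f L else 0) else 0) := by
    intro L
    by_cases h : HT ht L = n
    · rw [if_pos h, if_pos (by omega), if_pos h]
    · rw [if_neg h, if_neg h, mul_zero, ite_self]
  rw [tsum_congr e0, split Λ ht h1 a]
  have step : ∀ A : List B, fp ht a A → HT ht A ≤ a + i →
      ∑' R, LW Λ R * (if HT ht (A ++ R) = n then f (A ++ R) else 0)
        ≤ ep Λ ht i + ∑' P, nu Λ ht τ i P * g A P := by
    intro A hA hA'
    have e1 : ∀ R : List B, LW Λ R * (if HT ht (A ++ R) = n then f (A ++ R) else 0)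
        = (if τ ≤ HT ht R then LW Λ R * (if HT ht (A ++ R) = n then f (A ++ R) else 0)
            else 0) := by
      intro R
      by_cases h : τ ≤ HT ht R
      · rw [if_pos h]
      · rw [if_neg h, if_neg (by rw [HT_append]; omega), mul_zero]
    rw [tsum_congr e1, split Λ ht h1 τ (fun R => if HT ht (A ++ R) = n then f (A ++ R) else 0)]
    have e2 : ∀ P : List B, (if fp ht τ P then LW Λ P * ∑' R, LW Λ R *
          (if HT ht (A ++ (P ++ R)) = n then f (A ++ (P ++ R)) else 0) else 0)
        ≤ (if fp ht τ P ∧ τ + i < HT ht P then LW Λ P else 0) + nu Λ ht τ i P * g A P := by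
      intro P
      by_cases hP : fp ht τ P
      · rw [if_pos hP]
        by_cases hP' : HT ht P ≤ τ + i
        · rw [if_neg (fun h => by omega), zero_add, nu, if_pos ⟨hP, hP'⟩]
          refine mul_le_mul_right ?_ _
          have := rest_le Λ ht hU1 n f (A ++ P) (g A P)
            (fun R hR => by
              rw [List.append_assoc] at hR ⊢
              exact hg A P R hA hA' hP hP' hR)
          simpa only [List.append_assoc] using this
        · rw [if_pos ⟨hP, by omega⟩]
          refine le_add_right ?_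
          have := rest_le Λ ht hU1 n f (A ++ P) 1 (fun R _ => hf _)
          simp only [List.append_assoc] at this
          calc _ ≤ LW Λ P * 1 := mul_le_mul_right this _
            _ = _ := mul_one _
      · rw [if_neg hP]; exact zero_le
    refine (ENNReal.tsum_le_tsum e2).trans ?_
    rw [ENNReal.tsum_add]
    exact add_le_add (overshoot Λ ht h1 hU1 i τ) le_rfl
  have e3 : ∀ A : List B, (if fp ht a A then LW Λ A * ∑' R, LW Λ R *
        (if HT ht (A ++ R) = n then f (A ++ R) else 0) else 0)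
      ≤ (if fp ht a A ∧ a + i < HT ht A then LW Λ A else 0)
        + (nu Λ ht a i A * ep Λ ht i + nu Λ ht a i A * ∑' P, nu Λ ht τ i P * g A P) := by
    intro A
    by_cases hA : fp ht a A
    · rw [if_pos hA]
      by_cases hA' : HT ht A ≤ a + i
      · rw [if_neg (fun h => by omega), zero_add, ← mul_add]
        rw [show nu Λ ht a i A = LW Λ A by rw [nu, if_pos ⟨hA, hA'⟩]]
        exact mul_le_mul_right (step A hA hA') _
      · rw [if_pos ⟨hA, by omega⟩]
        refine le_add_right ?_
        have := rest_le Λ ht hU1 n f A 1 (fun R _ => hf _)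
        calc _ ≤ LW Λ A * 1 := mul_le_mul_right this _
          _ = _ := mul_one _
    · rw [if_neg hA]; exact zero_le
  refine (ENNReal.tsum_le_tsum e3).trans ?_
  rw [ENNReal.tsum_add, ENNReal.tsum_add, ← add_assoc]
  refine add_le_add ?_ le_rfl
  rw [two_mul, ENNReal.tsum_mul_right]
  refine add_le_add (overshoot Λ ht h1 hU1 i a) ?_
  calc _ ≤ 1 * ep Λ ht i := mul_le_mul_left (nu_sum Λ ht h1 hU1 a i) _
    _ = _ := one_mul _

end one

end Crest.Agent.R154.Asm557
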