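import Crest.Agent.R154.B5Abs_566

/-! Row 154, ROAD 801 (helper396): renewal facts in the letters of `B5Abs_566`
(lists of blocks `B`, weights `Λ`, heights `ht`, displacements `z`).

* `TS N = Σ_k tail (N + k)`, `TS -> 0` (`tendsto_TS`);
* `over_le` : the first renewal at depth `≥ L` is `> L + i0` with weight `≤ TS (i0+1)`;
* `cover_le`: lists of height `n` without a renewal in `[r, r+s)` have weight `≤ TS s`;
* `FR T P`  : `P` ends at the first renewal of height `≥ T`; `split_FR`;
* `W A c δ` : law of (height, displacement) of the first renewal `≥ A`; `W_split`;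
* `dens`    : smooth-density lemma (801 (1)) in list form. -/

set_option autoImplicit false

namespace Crest.Agent.R154.Ren396

open Crest.Agent.R154.B5A
open scoped ENNReal

variable {B : Type*} (Λ : B → ℝ≥0∞) (ht : B → ℕ)

/-- tail sum -/
noncomputable def TS (N : ℕ) : ℝ≥0∞ := ∑' k, tail Λ ht (N + k)

theorem tendsto_TS (c : ℝ≥0∞) (hc : c ≠ 0) (hc' : c ≠ ⊤) (h1 : ∀ b, 1 ≤ ht b)
    (hΛ : ∑' b, Λ b = 1) (R : ℕ) (hU : ∀ n, R ≤ n → c ≤ U Λ ht n) :
    Filter.Tendsto (TS Λ ht) Filter.atTop (nhds 0) := by
  have hE := mean_le Λ ht h1 hΛ c hc hc' R hU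
  rw [sum_tail Λ ht hΛ] at hE
  have hne : ∑' k, tail Λ ht k ≠ ⊤ :=
    ne_top_of_le_ne_top (ENNReal.inv_ne_top.2 hc) hE
  have := ENNReal.tendsto_sum_nat_add (tail Λ ht) hne
  refine this.congr fun N => ?_
  unfold TS
  exact tsum_congr fun k => by rw [Nat.add_comm]

lemma TS_anti {N M : ℕ} (h : N ≤ M) : TS Λ ht M ≤ TS Λ ht N := by
  unfold TS
  calc ∑' k, tail Λ ht (M + k) = ∑' k, (fun k => tail Λ ht (N + k)) (k + (M - N)) :=
        tsum_congr fun k => by simp only; congr 1; omega
    _ ≤ ∑' k, tail Λ ht (N + k) :=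
        ENNReal.tsum_comp_le_tsum_of_injective (add_left_injective (M - N)) _

/-- grouping by height -/
lemma sum_prefix_le (hU1 : ∀ n, U Λ ht n ≤ 1) (L s : ℕ) :
    ∑' (P : List B) (b : B),
      (if HT ht P < L ∧ L + s < HT ht P + ht b then LW Λ P * Λ b else 0) ≤ TS Λ ht (s + 1) := by
  classical
  calc _ = ∑' P : List B, (if HT ht P < L then LW Λ P * tail Λ ht (L + s - HT ht P) else 0) := by
        refine tsum_congr fun P => ?_
        by_cases h : HT ht P < L
        · rw [if_pos h, tail, ← ENNReal.tsum_mul_left]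
          refine tsum_congr fun b => ?_
          by_cases h2 : L + s < HT ht P + ht b
          · rw [if_pos ⟨h, h2⟩, if_pos (by omega)]
          · rw [if_neg (fun hh => h2 hh.2), if_neg (by omega), mul_zero]
        · rw [if_neg h]
          simp [h]
    _ = ∑' P : List B, ∑ k ∈ Finset.range L,
          (if HT ht P = k then LW Λ P else 0) * tail Λ ht (L + s - k) := by
        refine tsum_congr fun P => ?_
        by_cases h : HT ht P < L
        · rw [if_pos h, Finset.sum_eq_single (HT ht P)]
          · rw [if_pos rfl]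
          · intro k _ hk; rw [if_neg hk.symm, zero_mul]
          · intro h'; exact absurd (Finset.mem_range.2 h) h'
        · rw [if_neg h, Finset.sum_eq_zero]
          intro k hk
          rw [if_neg (by have := Finset.mem_range.1 hk; omega), zero_mul]
    _ = ∑ k ∈ Finset.range L, U Λ ht k * tail Λ ht (L + s - k) := by
        rw [Summable.tsum_finsetSum (fun _ _ => ENNReal.summable)]
        refine Finset.sum_congr rfl fun k _ => ?_
        rw [ENNReal.tsum_mul_right, U]
    _ ≤ ∑ k ∈ Finset.range L, tail Λ ht (L + s - k) :=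
        Finset.sum_le_sum fun k _ => by
          calc _ ≤ 1 * tail Λ ht (L + s - k) := mul_le_mul_left (hU1 k) _
            _ = _ := one_mul _
    _ = ∑ j ∈ Finset.range L, tail Λ ht (s + 1 + j) := by
        rw [← Finset.sum_range_reflect]
        refine Finset.sum_congr rfl fun k hk => ?_
        have := Finset.mem_range.1 hk
        congr 1
        omega
    _ ≤ TS Λ ht (s + 1) := ENNReal.sum_le_tsum _

/-- sum over a range of a map is at most the sum over the domain -/
lemma tsum_ex_le {α β : Type*} (φ : α → β) (p : α → Prop) [DecidablePred p]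
    (f : β → ℝ≥0∞) [DecidablePred fun L => ∃ t, φ t = L ∧ p t] :
    ∑' L, (if ∃ t, φ t = L ∧ p t then f L else 0) ≤ ∑' t, if p t then f (φ t) else 0 := by
  classical
  calc _ ≤ ∑' L, ∑' t, (if φ t = L ∧ p t then f L else 0) := by
        refine ENNReal.tsum_le_tsum fun L => ?_
        split_ifs with h
        · obtain ⟨t, h1⟩ := h
          refine le_trans ?_ (ENNReal.le_tsum t)
          rw [if_pos h1]
        · exact zero_le
    _ = ∑' t, ∑' L, (if φ t = L ∧ p t then f L else 0) := ENNReal.tsum_comm
    _ = _ := by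
        refine tsum_congr fun t => ?_
        rw [tsum_eq_single (φ t)]
        · simp
        · intro L hL
          rw [if_neg]
          rintro ⟨h, _⟩
          exact hL h.symm

open Classical in
/-- **(R3)** lists of height `n` with a block covering `[r, r+s]` (no renewal in `[r, r+s)`). -/
theorem cover_le (hU1 : ∀ n, U Λ ht n ≤ 1) (n r s : ℕ) :
    ∑' L : List B, (if ∃ t : List B × B × List B, t.1 ++ t.2.1 :: t.2.2 = L ∧
        (HT ht (t.1 ++ t.2.1 :: t.2.2) = n ∧ HT ht t.1 < r ∧ r + s < HT ht t.1 + ht t.2.1)
        then LW Λ L else 0) ≤ TS Λ ht (s + 1) := by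
  refine (tsum_ex_le (fun t : List B × B × List B => t.1 ++ t.2.1 :: t.2.2)
    (fun t => HT ht (t.1 ++ t.2.1 :: t.2.2) = n ∧ HT ht t.1 < r ∧ r + s < HT ht t.1 + ht t.2.1)
    (LW Λ)).trans ?_
  rw [ENNReal.tsum_prod']
  simp_rw [ENNReal.tsum_prod']
  refine le_trans ?_ (sum_prefix_le Λ ht hU1 r s)
  refine ENNReal.tsum_le_tsum fun P => ENNReal.tsum_le_tsum fun b => ?_
  by_cases h : HT ht P < r ∧ r + s < HT ht P + ht b
  · rw [if_pos h]
    calc _ ≤ ∑' R : List B, LW Λ P * Λ b *
          (if HT ht R = n - (HT ht P + ht b) then LW Λ R else 0) := by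
          refine ENNReal.tsum_le_tsum fun R => ?_
          split_ifs with h1 h2
          · rw [LW_append, LW_cons, mul_assoc]
          · exfalso
            apply h2
            have := h1.1
            rw [HT_append, HT_cons] at this
            omega
          · exact zero_le
          · exact zero_le
      _ = LW Λ P * Λ b * U Λ ht (n - (HT ht P + ht b)) := by
          rw [ENNReal.tsum_mul_left, U]
      _ ≤ LW Λ P * Λ b * 1 := mul_le_mul_right (hU1 _) _
      _ = _ := mul_one _
  · rw [if_neg h]
    refine le_of_eq ?_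
    rw [ENNReal.tsum_eq_zero]
    intro R
    rw [if_neg (fun hh => h hh.2)]

/-! ### first renewal above a level -/

/-- `P` ends at the first renewal of height `≥ T`. -/
def FR (ht : B → ℕ) : List B → ℕ → Prop
  | [], T => T = 0
  | b :: P, T => T ≠ 0 ∧ FR ht P (T - ht b)

lemma FR_le {P : List B} {T : ℕ} (h : FR ht P T) : T ≤ HT ht P := by
  induction P generalizing T with
  | nil => simp only [FR] at h; omega
  | cons b P ih =>
    have := ih h.2
    rw [HT_cons]; omega

lemma FR_zero (P : List B) : FR ht P 0 ↔ P = [] := by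
  cases P with
  | nil => simp [FR]
  | cons b P => simp [FR]

lemma FR_append {a R : List B} {T A : ℕ} (h : FR ht a T) (hT : T ≤ A) :
    FR ht (a ++ R) A ↔ FR ht R (A - HT ht a) := by
  induction a generalizing T A with
  | nil => simp [HT_nil]
  | cons b a ih =>
    obtain ⟨h0, h1⟩ := h
    rw [List.cons_append, HT_cons]
    have := ih (A := A - ht b) h1 (by omega)
    constructor
    · rintro ⟨_, h2⟩
      rw [← Nat.sub_sub]; exact this.1 h2
    · intro h2
      rw [← Nat.sub_sub] at h2
      exact ⟨by omega, this.2 h2⟩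

lemma FR_exists (L : List B) {T : ℕ} (h : T ≤ HT ht L) : ∃ P R, P ++ R = L ∧ FR ht P T := by
  induction L generalizing T with
  | nil => exact ⟨[], [], rfl, by rw [HT_nil] at h; simp only [FR]; omega⟩
  | cons b L ih =>
    rcases Nat.eq_zero_or_pos T with h0 | h0
    · exact ⟨[], b :: L, rfl, h0⟩
    · rw [HT_cons] at h
      obtain ⟨P, R, h1, h2⟩ := ih (T := T - ht b) (by omega)
      exact ⟨b :: P, R, by simp [h1], ⟨by omega, h2⟩⟩

lemma FR_unique {P P' R R' : List B} {T : ℕ} (h : FR ht P T) (h' : FR ht P' T)
    (he : P ++ R = P' ++ R') : P = P' ∧ R = R' := by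
  induction P generalizing P' T with
  | nil =>
    simp only [FR] at h
    rw [h, FR_zero] at h'
    subst h'
    exact ⟨rfl, by simpa using he⟩
  | cons b P ih =>
    cases P' with
    | nil =>
      simp only [FR] at h'
      exact absurd h' h.1
    | cons b' P' =>
      simp only [List.cons_append, List.cons.injEq] at he
      obtain ⟨rfl, he⟩ := he
      obtain ⟨h3, h4⟩ := ih h.2 h'.2 he
      exact ⟨by rw [h3], h4⟩

open Classical in
/-- **split of a sum over lists at the first renewal `≥ T`** -/
theorem split_FR (T : ℕ) (F : List B → ℝ≥0∞) :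
    ∑' L : List B, (if T ≤ HT ht L then F L else 0)
      = ∑' P : List B, (if FR ht P T then ∑' R : List B, F (P ++ R) else 0) := by
  calc _ = ∑' L : List B, ∑' t : List B × List B,
        (if t.1 ++ t.2 = L ∧ FR ht t.1 T then F L else 0) := by
        refine tsum_congr fun L => ?_
        by_cases h : T ≤ HT ht L
        · obtain ⟨P, R, h1, h2⟩ := FR_exists ht L h
          rw [if_pos h, tsum_eq_single (P, R)]
          · rw [if_pos ⟨h1, h2⟩]
          · rintro ⟨P', R'⟩ hne
            rw [if_neg]
            rintro ⟨h3, h4⟩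
            obtain ⟨rfl, rfl⟩ := FR_unique ht h4 h2 (h3.trans h1.symm)
            exact hne rfl
        · rw [if_neg h]
          symm
          rw [ENNReal.tsum_eq_zero]
          rintro ⟨P, R⟩
          rw [if_neg]
          rintro ⟨h3, h4⟩
          have h5 : T ≤ HT ht P := FR_le ht h4
          simp only at h3
          rw [← h3, HT_append] at h
          omega
    _ = ∑' t : List B × List B, ∑' L : List B,
        (if t.1 ++ t.2 = L ∧ FR ht t.1 T then F L else 0) := ENNReal.tsum_comm
    _ = ∑' t : List B × List B, (if FR ht t.1 T then F (t.1 ++ t.2) else 0) := by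
        refine tsum_congr fun t => ?_
        rw [tsum_eq_single (t.1 ++ t.2)]
        · simp
        · intro L hL
          rw [if_neg]
          rintro ⟨h, _⟩
          exact hL h.symm
    _ = _ := by
        rw [ENNReal.tsum_prod']
        refine tsum_congr fun P => ?_
        by_cases h : FR ht P T
        · simp [h]
        · simp [h]

open Classical in
/-- two first renewals `T ≤ A` -/
theorem split_FR2 {T A : ℕ} (hT : T ≤ A) (F : List B → ℝ≥0∞) :
    ∑' L : List B, (if FR ht L A then F L else 0)
      = ∑' a : List B, (if FR ht a T then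
          ∑' R : List B, (if FR ht R (A - HT ht a) then F (a ++ R) else 0) else 0) := by
  have h := split_FR ht T (fun L => if FR ht L A then F L else 0)
  calc _ = ∑' L : List B, (if T ≤ HT ht L then (if FR ht L A then F L else 0) else 0) := by
        refine tsum_congr fun L => ?_
        by_cases h1 : FR ht L A
        · have := FR_le ht h1
          rw [if_pos h1, if_pos (by omega)]
        · simp [h1]
    _ = _ := h
    _ = _ := by
        refine tsum_congr fun a => ?_
        by_cases h1 : FR ht a T
        · rw [if_pos h1, if_pos h1]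
          refine tsum_congr fun R => ?_
          simp only [FR_append ht h1 hT]
        · rw [if_neg h1, if_neg h1]

open Classical in
/-- total mass of the first renewal -/
theorem mass_FR (hΛ : ∑' b, Λ b ≤ 1) (h1 : ∀ b, 1 ≤ ht b) (A : ℕ) :
    ∑' L : List B, (if FR ht L A then LW Λ L else 0) ≤ 1 := by
  induction A using Nat.strong_induction_on with
  | _ A ih =>
    rw [tsum_list]
    rcases Nat.eq_zero_or_pos A with h0 | h0
    · subst h0
      simp [FR, LW_nil]
    · have e0 : (if FR ht ([] : List B) A then LW Λ [] else 0) = 0 := by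
        rw [if_neg]; simp only [FR]; omega
      rw [e0, zero_add]
      calc _ = ∑' b, Λ b * ∑' L : List B, (if FR ht L (A - ht b) then LW Λ L else 0) := by
            refine tsum_congr fun b => ?_
            rw [← ENNReal.tsum_mul_left]
            refine tsum_congr fun L => ?_
            simp only [FR, LW_cons]
            by_cases h2 : FR ht L (A - ht b)
            · rw [if_pos ⟨by omega, h2⟩, if_pos h2]
            · rw [if_neg (fun h => h2 h.2), if_neg h2, mul_zero]
        _ ≤ ∑' b, Λ b * 1 := by
            refine ENNReal.tsum_le_tsum fun b => mul_le_mul_right (ih _ ?_) _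
            have := h1 b
            omega
        _ ≤ 1 := by simpa using hΛ

lemma FR_last {P : List B} {T : ℕ} (h : FR ht P T) (h0 : T ≠ 0) :
    ∃ P' b, P' ++ [b] = P ∧ HT ht P' < T := by
  induction P generalizing T with
  | nil => exact absurd h h0
  | cons b P ih =>
    by_cases h2 : T - ht b = 0
    · have h3 := h.2
      rw [h2, FR_zero] at h3
      subst h3
      exact ⟨[], b, rfl, by rw [HT_nil]; omega⟩
    · obtain ⟨P', b', h3, h4⟩ := ih h.2 h2
      exact ⟨b :: P', b', by simp [h3], by rw [HT_cons]; omega⟩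

open Classical in
/-- **(R1)** overshoot: the first renewal `≥ T` is `> T + i0` with weight `≤ TS (i0+1)`. -/
theorem over_le (hU1 : ∀ n, U Λ ht n ≤ 1) (T i0 : ℕ) :
    ∑' P : List B, (if FR ht P T ∧ T + i0 < HT ht P then LW Λ P else 0) ≤ TS Λ ht (i0 + 1) := by
  rcases Nat.eq_zero_or_pos T with h0 | h0
  · subst h0
    refine le_trans (le_of_eq ?_) zero_le
    rw [ENNReal.tsum_eq_zero]
    intro P
    rw [if_neg]
    rintro ⟨h, h2⟩
    rw [FR_zero] at h
    subst h
    rw [HT_nil] at h2
    omega
  · refine le_trans ?_ (sum_prefix_le Λ ht hU1 T i0)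
    refine le_trans ?_ ((tsum_ex_le (fun t : List B × B => t.1 ++ [t.2])
      (fun t => HT ht t.1 < T ∧ T + i0 < HT ht t.1 + ht t.2) (LW Λ)).trans (le_of_eq ?_))
    · refine ENNReal.tsum_le_tsum fun P => ?_
      by_cases h : FR ht P T ∧ T + i0 < HT ht P
      · rw [if_pos h]
        obtain ⟨P', b, h1, h2⟩ := FR_last ht h.1 (by omega)
        rw [if_pos ⟨(P', b), h1, h2, by
          have := h.2; rw [← h1, HT_append, HT_cons, HT_nil] at this; simpa using this⟩]
      · rw [if_neg h]; exact zero_le
    · rw [ENNReal.tsum_prod']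
      refine tsum_congr fun P => tsum_congr fun b => ?_
      simp only [LW_append, LW_cons, LW_nil, mul_one]

/-! ### law of (height, displacement) of the first renewal, and the density lemma -/

variable {G : Type*} [AddCommGroup G] (z : B → G)

/-- displacement of a list -/
def dp (P : List B) : G := (P.map z).sum

lemma dp_append (P R : List B) : dp z (P ++ R) = dp z P + dp z R := by simp [dp]

open Classical in
/-- law of (height, displacement) at the first renewal `≥ A` -/
noncomputable def W (A c : ℕ) (δ : G) : ℝ≥0∞ :=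
  ∑' P : List B, (if FR ht P A then (if HT ht P = c ∧ dp z P = δ then LW Λ P else 0) else 0)

lemma tsum_W_le (hΛ : ∑' b, Λ b ≤ 1) (h1 : ∀ b, 1 ≤ ht b) (A c : ℕ) :
    ∑' δ, W Λ ht z A c δ ≤ 1 := by
  classical
  refine le_trans ?_ (mass_FR Λ ht hΛ h1 A)
  simp only [W]
  rw [ENNReal.tsum_comm]
  refine ENNReal.tsum_le_tsum fun P => ?_
  by_cases h : FR ht P A
  · simp only [h, if_true]
    rw [tsum_eq_single (dp z P)]
    · split_ifs
      · exact le_rfl
      · exact zero_le
    · intro δ hδ
      rw [if_neg (fun hh => hδ hh.2.symm)]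
  · simp [h]

open Classical in
lemma tsum_tsum_W (A : ℕ) :
    ∑' c, ∑' δ, W Λ ht z A c δ = ∑' L : List B, (if FR ht L A then LW Λ L else 0) := by
  classical
  simp only [W]
  rw [← ENNReal.tsum_prod (f := fun c δ => ∑' P : List B,
    (if FR ht P A then (if HT ht P = c ∧ dp z P = δ then LW Λ P else 0) else 0)),
    ENNReal.tsum_comm]
  refine tsum_congr fun P => ?_
  by_cases h : FR ht P A
  · simp only [h, if_true]
    rw [tsum_eq_single (HT ht P, dp z P)]
    · simp
    · rintro ⟨c, δ⟩ hδ
      rw [if_neg]
      rintro ⟨h2, h3⟩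
      exact hδ (by simp [h2, h3])
  · simp [h]

lemma tsum_W_sub_le (hΛ : ∑' b, Λ b ≤ 1) (h1 : ∀ b, 1 ≤ ht b) (A c : ℕ) (δ : G) :
    ∑' δ', W Λ ht z A c (δ - δ') ≤ 1 := by
  have : ∑' δ', W Λ ht z A c (δ - δ') = ∑' δ', W Λ ht z A c δ' :=
    (Equiv.subLeft δ).tsum_eq (fun δ' => W Λ ht z A c δ')
  rw [this]
  exact tsum_W_le Λ ht z hΛ h1 A c

open Classical in
theorem W_split {T A : ℕ} (hT : T ≤ A) (c : ℕ) (δ : G) :
    W Λ ht z A c δ = ∑' a : List B, (if FR ht a T then LW Λ a *
      (if HT ht a ≤ c then W Λ ht z (A - HT ht a) (c - HT ht a) (δ - dp z a) else 0) else 0) := by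
  rw [W, split_FR2 ht hT]
  refine tsum_congr fun a => ?_
  by_cases h : FR ht a T
  · rw [if_pos h, if_pos h]
    by_cases hc : HT ht a ≤ c
    · rw [if_pos hc, W, ← ENNReal.tsum_mul_left]
      refine tsum_congr fun R => ?_
      by_cases h2 : FR ht R (A - HT ht a)
      · rw [if_pos h2, if_pos h2, HT_append, dp_append, LW_append]
        have : (HT ht a + HT ht R = c ∧ dp z a + dp z R = δ) ↔
            (HT ht R = c - HT ht a ∧ dp z R = δ - dp z a) := by
          constructor
          · rintro ⟨h3, h4⟩; exact ⟨by omega, by rw [← h4]; abel⟩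
          · rintro ⟨h3, h4⟩; exact ⟨by omega, by rw [h4]; abel⟩
        by_cases h3 : HT ht R = c - HT ht a ∧ dp z R = δ - dp z a
        · rw [if_pos (this.2 h3), if_pos h3]
        · rw [if_neg (fun hh => h3 (this.1 hh)), if_neg h3, mul_zero]
      · rw [if_neg h2, if_neg h2, mul_zero]
    · rw [if_neg hc, mul_zero, ENNReal.tsum_eq_zero]
      intro R
      rw [HT_append]
      split_ifs with h2 h3
      · omega
      · rfl
      · rfl
  · rw [if_neg h, if_neg h]

open Classical in
/-- the low first part: `≤ (i0+1) θ` -/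
theorem low_le (hΛ : ∑' b, Λ b ≤ 1) (h1 : ∀ b, 1 ≤ ht b) (T A i0 c : ℕ) (θ : ℝ≥0∞) (δ : G) :
    ∑' a : List B, (if FR ht a T ∧ HT ht a ≤ T + i0 ∧ W Λ ht z T (HT ht a) (dp z a) ≤ θ then
      LW Λ a * (if HT ht a ≤ c then W Λ ht z (A - HT ht a) (c - HT ht a) (δ - dp z a) else 0)
      else 0) ≤ (i0 + 1) * θ := by
  calc _ ≤ ∑' a : List B, ∑ i ∈ Finset.range (i0 + 1), ∑' δ' : G,
        (if W Λ ht z T (T + i) δ' ≤ θ then
          (if FR ht a T then (if HT ht a = T + i ∧ dp z a = δ' then LW Λ a else 0) else 0) *
            W Λ ht z (A - (T + i)) (c - (T + i)) (δ - δ') else 0) := by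
        refine ENNReal.tsum_le_tsum fun a => ?_
        by_cases h : FR ht a T ∧ HT ht a ≤ T + i0 ∧ W Λ ht z T (HT ht a) (dp z a) ≤ θ
        · rw [if_pos h]
          obtain ⟨h2, h3, h4⟩ := h
          have h5 := FR_le ht h2
          have e : T + (HT ht a - T) = HT ht a := by omega
          refine le_trans ?_ (Finset.single_le_sum (f := fun i => ∑' δ' : G,
            (if W Λ ht z T (T + i) δ' ≤ θ then
            (if FR ht a T then (if HT ht a = T + i ∧ dp z a = δ' then LW Λ a else 0) else 0) *
            W Λ ht z (A - (T + i)) (c - (T + i)) (δ - δ') else 0)) (fun _ _ => zero_le)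
            (Finset.mem_range.2 (show HT ht a - T < i0 + 1 by omega)))
          simp only [e]
          refine le_trans ?_ (ENNReal.le_tsum (dp z a))
          rw [if_pos h4, if_pos h2]
          simp only [and_self, if_true]
          refine mul_le_mul_right ?_ _
          split_ifs
          · exact le_rfl
          · exact zero_le
        · rw [if_neg h]; exact zero_le
    _ = ∑ i ∈ Finset.range (i0 + 1), ∑' δ' : G, (if W Λ ht z T (T + i) δ' ≤ θ then
          W Λ ht z T (T + i) δ' * W Λ ht z (A - (T + i)) (c - (T + i)) (δ - δ') else 0) := by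
        rw [Summable.tsum_finsetSum (fun _ _ => ENNReal.summable)]
        refine Finset.sum_congr rfl fun i _ => ?_
        rw [ENNReal.tsum_comm]
        refine tsum_congr fun δ' => ?_
        by_cases h : W Λ ht z T (T + i) δ' ≤ θ
        · simp only [if_pos h]
          rw [ENNReal.tsum_mul_right]
          rfl
        · simp only [if_neg h, tsum_zero]
    _ ≤ ∑ i ∈ Finset.range (i0 + 1), θ := by
        refine Finset.sum_le_sum fun i _ => ?_
        calc _ ≤ ∑' δ' : G, θ * W Λ ht z (A - (T + i)) (c - (T + i)) (δ - δ') := by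
              refine ENNReal.tsum_le_tsum fun δ' => ?_
              split_ifs with h
              · exact mul_le_mul_left h _
              · exact zero_le
          _ ≤ θ * 1 := by
              rw [ENNReal.tsum_mul_left]
              exact mul_le_mul_right (tsum_W_sub_le Λ ht z hΛ h1 _ _ _) _
          _ = θ := mul_one _
    _ = (i0 + 1) * θ := by simp

open Classical in
/-- **(1) of 801 in list form: smooth density of the first renewal `≥ A`.**
`u ≤` mass of the attempts (first renewal `≥ T`) which are low (`W T ≤ θ`) with overshoot `≤ i0`;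
`e` = mass of the overshoots `> i0`; `J (T + i0) ≤ A`. -/
theorem dens (hΛ : ∑' b, Λ b ≤ 1) (h1 : ∀ b, 1 ≤ ht b) (T i0 : ℕ) (θ u e : ℝ≥0∞) (hu0 : u ≠ 0)
    (hlow : u ≤ ∑' a : List B, (if FR ht a T ∧ HT ht a ≤ T + i0 ∧
      W Λ ht z T (HT ht a) (dp z a) ≤ θ then LW Λ a else 0))
    (hover : ∑' P : List B, (if FR ht P T ∧ T + i0 < HT ht P then LW Λ P else 0) ≤ e)
    (J : ℕ) : ∀ A, J * (T + i0) ≤ A → ∃ Wg Wb : ℕ → G → ℝ≥0∞,
      (∀ c δ, W Λ ht z A c δ ≤ Wg c δ + Wb c δ) ∧
      (∀ c δ, Wg c δ ≤ (i0 + 1) * θ / u) ∧
      ∑' c, ∑' δ, Wb c δ ≤ (1 - u) ^ J + J * e := by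
  have hm := mass_FR Λ ht hΛ h1 T
  have hu1 : u ≤ 1 := hlow.trans ((ENNReal.tsum_le_tsum fun a => by
    by_cases h : FR ht a T ∧ HT ht a ≤ T + i0 ∧ W Λ ht z T (HT ht a) (dp z a) ≤ θ
    · rw [if_pos h, if_pos h.1]
    · rw [if_neg h]; exact zero_le).trans hm)
  have hut : u ≠ ⊤ := ne_top_of_le_ne_top ENNReal.one_ne_top hu1
  -- high mass
  have hhigh : ∑' a : List B, (if FR ht a T ∧ HT ht a ≤ T + i0 ∧
      ¬ W Λ ht z T (HT ht a) (dp z a) ≤ θ then LW Λ a else 0) ≤ 1 - u := by
    refine ENNReal.le_sub_of_add_le_right hut ?_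
    refine (add_le_add_right hlow _).trans ?_
    rw [← ENNReal.tsum_add]
    refine le_trans (ENNReal.tsum_le_tsum fun a => ?_) hm
    by_cases h2 : FR ht a T
    · by_cases h3 : HT ht a ≤ T + i0
      · by_cases h4 : W Λ ht z T (HT ht a) (dp z a) ≤ θ <;> simp [h2, h3, h4]
      · simp [h2, h3]
    · simp [h2]
  have hrec : (i0 + 1 : ℝ≥0∞) * θ + (1 - u) * ((i0 + 1) * θ / u) = (i0 + 1) * θ / u := by
    calc (i0 + 1 : ℝ≥0∞) * θ + (1 - u) * ((i0 + 1) * θ / u)
        = u * ((i0 + 1) * θ / u) + (1 - u) * ((i0 + 1) * θ / u) := by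
          rw [ENNReal.mul_div_cancel hu0 hut]
      _ = (u + (1 - u)) * ((i0 + 1) * θ / u) := (add_mul u (1 - u) ((i0 + 1) * θ / u)).symm
      _ = _ := by rw [add_tsub_cancel_of_le hu1, one_mul]
  induction J with
  | zero =>
    intro A _
    refine ⟨fun _ _ => 0, W Λ ht z A, fun c δ => by simp, fun c δ => zero_le, ?_⟩
    rw [tsum_tsum_W]
    simpa using mass_FR Λ ht hΛ h1 A
  | succ J ih =>
    intro A hA
    have hA' : ∀ a : List B, FR ht a T → HT ht a ≤ T + i0 → J * (T + i0) ≤ A - HT ht a := by
      intro a _ h3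
      rw [Nat.succ_mul] at hA
      omega
    have hTA : T ≤ A := by rw [Nat.succ_mul] at hA; omega
    choose! Wg Wb hW hg hb using ih
    -- the pieces
    refine ⟨fun c δ => ∑' a : List B, (if FR ht a T ∧ HT ht a ≤ T + i0 then LW Λ a *
        (if W Λ ht z T (HT ht a) (dp z a) ≤ θ then
          (if HT ht a ≤ c then W Λ ht z (A - HT ht a) (c - HT ht a) (δ - dp z a) else 0)
          else (if HT ht a ≤ c then Wg (A - HT ht a) (c - HT ht a) (δ - dp z a) else 0)) else 0),
      fun c δ => ∑' a : List B, (if FR ht a T then LW Λ a *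
        (if HT ht a ≤ T + i0 then
          (if W Λ ht z T (HT ht a) (dp z a) ≤ θ then 0 else
            (if HT ht a ≤ c then Wb (A - HT ht a) (c - HT ht a) (δ - dp z a) else 0))
          else (if HT ht a ≤ c then W Λ ht z (A - HT ht a) (c - HT ht a) (δ - dp z a) else 0))
          else 0), ?_, ?_, ?_⟩
    · intro c δ
      rw [W_split Λ ht z hTA, ← ENNReal.tsum_add]
      refine ENNReal.tsum_le_tsum fun a => ?_
      by_cases h2 : FR ht a T
      · by_cases h3 : HT ht a ≤ T + i0
        · by_cases h4 : W Λ ht z T (HT ht a) (dp z a) ≤ θ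
          · simp only [h2, h3, h4, true_and, if_true]
            exact le_self_add
          · simp only [h2, h3, h4, true_and, if_true, if_false]
            rw [← mul_add]
            refine mul_le_mul_right ?_ _
            split_ifs
            · exact hW _ (hA' a h2 h3) _ _
            · simp
        · simp only [h2, h3, and_false, if_true, if_false, zero_add]
          exact le_rfl
      · simp [h2]
    · intro c δ
      simp only
      calc _ ≤ ∑' a : List B, ((if FR ht a T ∧ HT ht a ≤ T + i0 ∧
            W Λ ht z T (HT ht a) (dp z a) ≤ θ then LW Λ a *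
            (if HT ht a ≤ c then W Λ ht z (A - HT ht a) (c - HT ht a) (δ - dp z a) else 0)
            else 0) + (if FR ht a T ∧ HT ht a ≤ T + i0 ∧
            ¬ W Λ ht z T (HT ht a) (dp z a) ≤ θ then LW Λ a else 0) *
              ((i0 + 1) * θ / u)) := by
            refine ENNReal.tsum_le_tsum fun a => ?_
            by_cases h2 : FR ht a T
            · by_cases h3 : HT ht a ≤ T + i0
              · by_cases h4 : W Λ ht z T (HT ht a) (dp z a) ≤ θ
                · simp only [h2, h3, h4, true_and, if_true]
                  exact le_self_add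
                · simp only [h2, h3, h4, true_and, if_true, if_false, and_false, not_false_eq_true,
                    zero_add]
                  refine mul_le_mul_right ?_ _
                  split_ifs
                  · exact hg _ (hA' a h2 h3) _ _
                  · exact zero_le
              · simp [h2, h3]
            · simp [h2]
        _ ≤ (i0 + 1) * θ + (1 - u) * ((i0 + 1) * θ / u) := by
            rw [ENNReal.tsum_add, ENNReal.tsum_mul_right]
            exact add_le_add (low_le Λ ht z hΛ h1 T A i0 c θ δ) (mul_le_mul_left hhigh _)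
        _ = _ := hrec
    · -- total bad mass
      have hsh : ∀ (k : ℕ) (δ0 : G) (f : ℕ → G → ℝ≥0∞),
          ∑' c, ∑' δ, (if k ≤ c then f (c - k) (δ - δ0) else 0) = ∑' c, ∑' δ, f c δ := by
        intro k δ0 f
        have e1 : ∀ c, ∑' δ, (if k ≤ c then f (c - k) (δ - δ0) else 0)
            = if k ≤ c then ∑' δ, f (c - k) δ else 0 := by
          intro c
          by_cases h : k ≤ c
          · simp only [h, if_true]
            exact (Equiv.subRight δ0).tsum_eq (fun δ => f (c - k) δ)
          · simp [h]
        simp_rw [e1]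
        have hinj : Function.Injective (fun c : ℕ => c + k) := add_left_injective k
        have hs : Function.support (fun c => if k ≤ c then ∑' δ, f (c - k) δ else 0)
            ⊆ Set.range (fun c : ℕ => c + k) := by
          intro c hc
          by_cases h : k ≤ c
          · exact ⟨c - k, by simp only; omega⟩
          · simp [h] at hc
        rw [← hinj.tsum_eq hs]
        refine tsum_congr fun c => ?_
        simp
      calc _ ≤ ∑' a : List B, ((if FR ht a T ∧ HT ht a ≤ T + i0 ∧
            ¬ W Λ ht z T (HT ht a) (dp z a) ≤ θ then LW Λ a else 0) * ((1 - u) ^ J + J * e)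
            + (if FR ht a T ∧ T + i0 < HT ht a then LW Λ a else 0)) := by
            rw [← ENNReal.tsum_prod (f := fun c δ => ∑' a : List B, (if FR ht a T then LW Λ a *
              (if HT ht a ≤ T + i0 then
              (if W Λ ht z T (HT ht a) (dp z a) ≤ θ then 0 else
              (if HT ht a ≤ c then Wb (A - HT ht a) (c - HT ht a) (δ - dp z a) else 0))
              else (if HT ht a ≤ c then W Λ ht z (A - HT ht a) (c - HT ht a) (δ - dp z a) else 0))
              else 0)), ENNReal.tsum_comm]
            refine ENNReal.tsum_le_tsum fun a => ?_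
            rw [ENNReal.tsum_prod (f := fun c δ => (if FR ht a T then LW Λ a *
              (if HT ht a ≤ T + i0 then
              (if W Λ ht z T (HT ht a) (dp z a) ≤ θ then 0 else
              (if HT ht a ≤ c then Wb (A - HT ht a) (c - HT ht a) (δ - dp z a) else 0))
              else (if HT ht a ≤ c then W Λ ht z (A - HT ht a) (c - HT ht a) (δ - dp z a) else 0))
              else 0))]
            by_cases h2 : FR ht a T
            · by_cases h3 : HT ht a ≤ T + i0
              · by_cases h4 : W Λ ht z T (HT ht a) (dp z a) ≤ θ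
                · simp [h2, h3, h4]
                · simp only [h2, h3, h4, true_and, if_true, if_false, not_false_eq_true,
                    ENNReal.tsum_mul_left]
                  rw [hsh]
                  refine le_add_right (mul_le_mul_right (hb _ (hA' a h2 h3)) _)
              · simp only [h2, h3, false_and, and_false, if_true, if_false, true_and, zero_mul,
                  zero_add, ENNReal.tsum_mul_left, not_le.1 h3]
                rw [hsh, tsum_tsum_W]
                calc _ ≤ LW Λ a * 1 := mul_le_mul_right (mass_FR Λ ht hΛ h1 _) _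
                  _ = _ := mul_one _
            · simp [h2]
        _ ≤ (1 - u) * ((1 - u) ^ J + J * e) + e := by
            rw [ENNReal.tsum_add, ENNReal.tsum_mul_right]
            exact add_le_add (mul_le_mul_left hhigh _) hover
        _ ≤ (1 - u) ^ (J + 1) + (J * e) + e := by
            rw [mul_add]
            refine add_le_add (add_le_add (le_of_eq (by rw [pow_succ, mul_comm])) ?_) le_rfl
            calc (1 - u) * (J * e) ≤ 1 * (J * e) := mul_le_mul_left tsub_le_self _
              _ = _ := one_mul _
        _ = _ := by push_cast; ring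

end Crest.Agent.R154.Ren396
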