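import Crest.Agent.R154.B5Abs_566
import Crest.Agent.R154.AsmA_789
import Crest.Agent.R154.Ren_396

/-! Row 154, ROAD 801, abstract assembly, part A: geometry and decomposition (helper580). -/

set_option autoImplicit false

namespace Crest.Agent.R154.Asm580

open scoped ENNReal
open Crest.Agent.R154.B5A
open Crest.Agent.R154.Ren396 (FR FR_le split_FR mass_FR over_le TS tendsto_TS FR_zero)

section geom

variable {B G : Type*} [AddCommGroup G] (s : B → Set (G × ℕ)) (z : B → G) (h : B → ℕ)

/-- sites read by a list of blocks, with depth -/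
def TT : List B → G → ℕ → Set (G × ℕ)
  | [], _, _ => ∅
  | b :: L, x, a => {p | ∃ q ∈ s b, p = (x + q.1, a + q.2)} ∪ TT L (x + z b) (a + h b)

/-- total displacement -/
def Dp (L : List B) : G := (L.map z).sum

lemma Dp_nil : Dp z ([] : List B) = 0 := by simp [Dp]

lemma Dp_cons (b : B) (L : List B) : Dp z (b :: L) = z b + Dp z L := by simp [Dp]

lemma Dp_append (L L' : List B) : Dp z (L ++ L') = Dp z L + Dp z L' := by simp [Dp]

lemma TT_append (L L' : List B) (x : G) (a : ℕ) :
    TT s z h (L ++ L') x a = TT s z h L x a ∪ TT s z h L' (x + Dp z L) (a + HT h L) := by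
  induction L generalizing x a with
  | nil => simp [TT, Dp_nil, HT_nil]
  | cons b L ih =>
    simp only [List.cons_append, TT, Dp_cons, HT_cons]
    rw [ih, Set.union_assoc, ← add_assoc, ← add_assoc]

lemma TT_depth (hs : ∀ b, ∀ q ∈ s b, q.2 ≤ h b) (L : List B) (x : G) (a : ℕ) (y : G) (k : ℕ)
    (hm : (y, k) ∈ TT s z h L x a) : a ≤ k ∧ k ≤ a + HT h L := by
  induction L generalizing x a with
  | nil => simp [TT] at hm
  | cons b L ih =>
    rw [HT_cons]
    rcases hm with ⟨q, hq, hp⟩ | hm
    · have h1 := hs b q hq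
      obtain ⟨-, h2⟩ := Prod.mk.inj hp
      omega
    · have := ih _ _ hm
      omega

lemma TT_shift (L : List B) (x t : G) (a : ℕ) (y : G) (k : ℕ) :
    (y, k) ∈ TT s z h L (x + t) a ↔ (y - t, k) ∈ TT s z h L x a := by
  induction L generalizing x a with
  | nil => simp [TT]
  | cons b L ih =>
    simp only [TT, Set.mem_union, Set.mem_setOf_eq]
    rw [show x + t + z b = (x + z b) + t by abel, ih]
    refine or_congr ?_ Iff.rfl
    constructor
    · rintro ⟨q, hq, hp⟩
      obtain ⟨h1, h2⟩ := Prod.mk.inj hp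
      exact ⟨q, hq, Prod.ext (by simp only [h1]; abel) h2⟩
    · rintro ⟨q, hq, hp⟩
      obtain ⟨h1, h2⟩ := Prod.mk.inj hp
      exact ⟨q, hq, Prod.ext (by simp only; rw [← sub_add_cancel y t, h1]; abel) h2⟩

lemma TT_flatten (Ps : List (List B)) (x : G) (a : ℕ) (y : G) (k : ℕ)
    (hm : (y, k) ∈ TT s z h Ps.flatten x a) :
    ∃ j, j < Ps.length ∧ (y, k) ∈ TT s z h (Ps.getD j []) (x + Dp z (Ps.take j).flatten)
      (a + HT h (Ps.take j).flatten) := by
  induction Ps generalizing x a with
  | nil => simp [TT] at hm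
  | cons P Ps ih =>
    rw [List.flatten_cons, TT_append] at hm
    rcases hm with hm | hm
    · refine ⟨0, by simp, ?_⟩
      simpa [Dp_nil, HT_nil] using hm
    · obtain ⟨j, hj, hm'⟩ := ih _ _ hm
      refine ⟨j + 1, by simpa using hj, ?_⟩
      simp only [List.getD_cons_succ, List.take_succ_cons, List.flatten_cons, Dp_append,
        HT_append]
      rw [← add_assoc, ← add_assoc]
      exact hm'

lemma take_getD_drop {A : Type*} (Ps : List A) (d0 : A) (j : ℕ) (hj : j < Ps.length) :
    Ps = Ps.take j ++ Ps.getD j d0 :: Ps.drop (j + 1) := by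
  rw [List.getD_eq_getElem _ _ hj, ← List.drop_eq_getElem_cons hj, List.take_append_drop]

lemma TT_piece_sub (Ps : List (List B)) (j : ℕ) (hj : j < Ps.length) (x : G) (a : ℕ) :
    TT s z h (Ps.getD j []) (x + Dp z (Ps.take j).flatten) (a + HT h (Ps.take j).flatten)
      ⊆ TT s z h Ps.flatten x a := by
  conv_rhs => rw [take_getD_drop Ps [] j hj]
  rw [List.flatten_append, List.flatten_cons, TT_append, TT_append]
  exact fun p hp => Or.inr (Or.inl hp)

lemma HT_flatten_bd (T i0 : ℕ) (Ps : List (List B)) (hP : ∀ P ∈ Ps, T ≤ HT h P ∧ HT h P ≤ T + i0) :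
    Ps.length * T ≤ HT h Ps.flatten ∧ HT h Ps.flatten ≤ Ps.length * (T + i0) := by
  induction Ps with
  | nil => simp [HT_nil]
  | cons P Ps ih =>
    have h1 := hP P (by simp)
    have h2 := ih (fun Q hQ => hP Q (by simp [hQ]))
    rw [List.flatten_cons, HT_append, List.length_cons]
    constructor
    · rw [add_mul, one_mul]; omega
    · rw [add_mul, one_mul]; omega

end geom

section SLx

variable {A : Type*} (lm : A → ℝ≥0∞)

lemma SL_mono' (j : ℕ) {F F' : List A → ℝ≥0∞}
    (hF : ∀ L, L.length = j → (∀ b ∈ L, lm b ≠ 0) → F L ≤ F' L) : SL lm j F ≤ SL lm j F' := by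
  refine ENNReal.tsum_le_tsum fun L => ?_
  by_cases hL : L.length = j
  · simp only [hL, if_true]
    by_cases h0 : LW lm L = 0
    · rw [h0, zero_mul, zero_mul]
    · refine mul_le_mul_right (hF L hL fun b hb hb0 => h0 ?_) _
      rw [LW]
      exact List.prod_eq_zero (List.mem_map.2 ⟨b, hb, hb0⟩)
  · simp [hL]

lemma SL_le_const (hlm : ∑' b, lm b ≤ 1) (j : ℕ) (a : ℝ≥0∞) : SL lm j (fun _ => a) ≤ a := by
  have h1 := SL_const_mul lm j a (fun _ => 1)
  rw [SL_pow] at h1
  simp only [mul_one] at h1
  rw [h1]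
  exact mul_le_of_le_one_right' (pow_le_one' hlm j)

lemma SL_fin {ι : Type*} (S : Finset ι) (j : ℕ) (F : ι → List A → ℝ≥0∞) :
    SL lm j (fun L => ∑ q ∈ S, F q L) = ∑ q ∈ S, SL lm j (F q) := by
  classical
  induction S using Finset.induction_on with
  | empty =>
    simp only [Finset.sum_empty]
    rw [SL]; simp
  | insert a S ha ih =>
    simp only [Finset.sum_insert ha]
    rw [SL_add_fun, ih]

lemma SL_at (hlm : ∑' b, lm b ≤ 1) (j r : ℕ) (d0 : A) (F : List A → A → ℝ≥0∞) :
    SL lm (j + (r + 1)) (fun L => F (L.take j) (L.getD j d0))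
      ≤ SL lm j (fun L1 => ∑' b, lm b * F L1 b) := by
  rw [SL_add]
  refine SL_mono lm j fun L1 h1 => ?_
  rw [SL_succ]
  refine ENNReal.tsum_le_tsum fun b => mul_le_mul_right ?_ _
  refine le_trans (SL_mono lm r (F' := fun _ => F L1 b) fun L' _ => ?_) (SL_le_const lm hlm r _)
  have e1 : (L1 ++ b :: L').take j = L1 := by rw [← h1]; simp
  have e2 : (L1 ++ b :: L').getD j d0 = b := by
    rw [← h1, List.getD_append_right _ _ _ _ (le_refl _)]; simp
  rw [e1, e2]

end SLx

section decomp

variable {B : Type*} (Λ : B → ℝ≥0∞) (h : B → ℕ)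

open Classical in
/-- good pieces -/
noncomputable def lam (T i0 : ℕ) (P : List B) : ℝ≥0∞ :=
  if FR h P T ∧ HT h P ≤ T + i0 then LW Λ P else 0

lemma lam_le (T i0 : ℕ) (P : List B) : lam Λ h T i0 P ≤ LW Λ P := by
  rw [lam]; split_ifs
  · exact le_rfl
  · exact zero_le

lemma lam_ne {T i0 : ℕ} {P : List B} (hP : lam Λ h T i0 P ≠ 0) : T ≤ HT h P ∧ HT h P ≤ T + i0 := by
  rw [lam] at hP
  split_ifs at hP with h1
  · exact ⟨FR_le h h1.1, h1.2⟩
  · exact absurd rfl hP

lemma tsum_lam_le (hΛ : ∑' b, Λ b ≤ 1) (h1 : ∀ b, 1 ≤ h b) (T i0 : ℕ) :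
    ∑' P, lam Λ h T i0 P ≤ 1 := by
  classical
  refine le_trans (ENNReal.tsum_le_tsum fun P => ?_) (mass_FR Λ h hΛ h1 T)
  rw [lam]
  by_cases h2 : FR h P T
  · rw [if_pos h2]; split_ifs
    · exact le_rfl
    · exact zero_le
  · rw [if_neg (fun h3 => h2 h3.1)]; exact zero_le

open Classical in
theorem mass_FR_eq (hΛ : ∑' b, Λ b = 1) (h1 : ∀ b, 1 ≤ h b) (A : ℕ) :
    ∑' L : List B, (if FR h L A then LW Λ L else 0) = 1 := by
  induction A using Nat.strong_induction_on with
  | _ A ih =>
    rw [tsum_list]
    rcases Nat.eq_zero_or_pos A with h0 | h0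
    · subst h0
      simp [FR, LW_nil]
    · have e0 : (if FR h ([] : List B) A then LW Λ [] else 0) = 0 := by
        rw [if_neg]; simp only [FR]; omega
      rw [e0, zero_add]
      calc _ = ∑' b, Λ b * ∑' L : List B, (if FR h L (A - h b) then LW Λ L else 0) := by
            refine tsum_congr fun b => ?_
            rw [← ENNReal.tsum_mul_left]
            refine tsum_congr fun L => ?_
            simp only [FR, LW_cons]
            by_cases h2 : FR h L (A - h b)
            · rw [if_pos ⟨by omega, h2⟩, if_pos h2]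
            · rw [if_neg (fun h => h2 h.2), if_neg h2, mul_zero]
        _ = ∑' b, Λ b * 1 := by
            refine tsum_congr fun b => ?_
            rw [ih _ (by have := h1 b; omega)]
        _ = 1 := by simpa using hΛ

open Classical in
lemma tsum_lam_ge (hΛ : ∑' b, Λ b = 1) (h1 : ∀ b, 1 ≤ h b) (T i0 : ℕ) (g : ℝ≥0∞)
    (hg : ∑' P : List B, (if FR h P T ∧ T + i0 < HT h P then LW Λ P else 0) ≤ g) :
    1 ≤ ∑' P, lam Λ h T i0 P + g := by
  rw [← mass_FR_eq Λ h hΛ h1 T]
  refine le_trans ?_ (add_le_add_right hg _)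
  rw [← ENNReal.tsum_add]
  refine ENNReal.tsum_le_tsum fun P => ?_
  rw [lam]
  by_cases h2 : FR h P T
  · rw [if_pos h2]
    by_cases h3 : HT h P ≤ T + i0
    · rw [if_pos ⟨h2, h3⟩]; exact le_add_right le_rfl
    · rw [if_neg (fun h => h3 h.2), if_pos ⟨h2, by omega⟩, zero_add]
  · rw [if_neg h2]; exact zero_le

open Classical in
lemma decomp (hΛ : ∑' b, Λ b ≤ 1) (h1 : ∀ b, 1 ≤ h b) (hU1 : ∀ n, U Λ h n ≤ 1) (T i0 : ℕ)
    (g : ℝ≥0∞)
    (hg : ∑' P : List B, (if FR h P T ∧ T + i0 < HT h P then LW Λ P else 0) ≤ g)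
    (J : ℕ) : ∀ n, J * (T + i0) ≤ n → ∀ F : List B → ℝ≥0∞, (∀ L, F L ≤ 1) →
    ∑' L, (if HT h L = n then LW Λ L * F L else 0)
      ≤ SL (lam Λ h T i0) J (fun Ps => ∑' R, (if HT h Ps.flatten + HT h R = n
          then LW Λ R * F (Ps.flatten ++ R) else 0)) + J * g := by
  induction J with
  | zero =>
    intro n _ F _
    rw [SL_zero]
    simp [HT_nil]
  | succ J ih =>
    intro n hn F hF
    have hT : T ≤ n := by
      rw [add_mul, one_mul] at hn; omega
    have e1 : ∑' L, (if HT h L = n then LW Λ L * F L else 0)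
        = ∑' L, (if T ≤ HT h L then (if HT h L = n then LW Λ L * F L else 0) else 0) := by
      refine tsum_congr fun L => ?_
      by_cases h2 : HT h L = n
      · rw [if_pos h2, if_pos (by omega)]
      · rw [if_neg h2, ite_self]
    rw [e1, split_FR h T]
    have hR : ∀ P : List B, ∑' R : List B, (if HT h (P ++ R) = n then LW Λ (P ++ R) * F (P ++ R)
        else 0) = LW Λ P * ∑' R : List B, (if HT h P + HT h R = n then LW Λ R * F (P ++ R) else 0) := by
      intro P
      rw [← ENNReal.tsum_mul_left]
      refine tsum_congr fun R => ?_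
      rw [HT_append, LW_append]
      split_ifs
      · ring
      · rw [mul_zero]
    have hR1 : ∀ P : List B, ∑' R : List B, (if HT h P + HT h R = n then LW Λ R * F (P ++ R) else 0)
        ≤ 1 := by
      intro P
      by_cases hP : HT h P ≤ n
      · refine le_trans (ENNReal.tsum_le_tsum fun R => ?_) (hU1 (n - HT h P))
        by_cases h2 : HT h P + HT h R = n
        · rw [if_pos h2, if_pos (by omega)]
          exact mul_le_of_le_one_right' (hF _)
        · rw [if_neg h2]; exact zero_le
      · refine le_trans (le_of_eq ?_) (zero_le_one)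
        rw [ENNReal.tsum_eq_zero]
        intro R
        rw [if_neg (by omega)]
    calc _ ≤ ∑' P : List B, (lam Λ h T i0 P * (∑' R : List B,
              (if HT h P + HT h R = n then LW Λ R * F (P ++ R) else 0))
            + (if FR h P T ∧ T + i0 < HT h P then LW Λ P else 0)) := by
          refine ENNReal.tsum_le_tsum fun P => ?_
          by_cases h2 : FR h P T
          · rw [if_pos h2, hR P]
            by_cases h3 : HT h P ≤ T + i0
            · rw [lam, if_pos ⟨h2, h3⟩]; exact le_add_right le_rfl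
            · refine le_add_left ?_
              rw [if_pos ⟨h2, by omega⟩]
              exact mul_le_of_le_one_right' (hR1 P)
          · rw [if_neg h2]; exact zero_le
      _ ≤ ∑' P : List B, (lam Λ h T i0 P * (SL (lam Λ h T i0) J (fun Ps => ∑' R,
              (if HT h (P :: Ps).flatten + HT h R = n
                then LW Λ R * F ((P :: Ps).flatten ++ R) else 0)) + J * g)
            + (if FR h P T ∧ T + i0 < HT h P then LW Λ P else 0)) := by
          refine ENNReal.tsum_le_tsum fun P => add_le_add ?_ le_rfl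
          by_cases h0 : lam Λ h T i0 P = 0
          · rw [h0, zero_mul, zero_mul]
          · refine mul_le_mul_right ?_ _
            have h4 := lam_ne Λ h h0
            have h5 : J * (T + i0) ≤ n - HT h P := by
              rw [add_mul, one_mul] at hn; omega
            have h6 : HT h P ≤ n := by
              have : 1 * (T + i0) ≤ (J + 1) * (T + i0) := Nat.mul_le_mul_right _ (by omega)
              omega
            have := ih (n - HT h P) h5 (fun R => F (P ++ R)) (fun R => hF _)
            refine le_trans (le_of_eq ?_) (le_trans this (add_le_add (le_of_eq ?_) le_rfl))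
            · refine tsum_congr fun R => ?_
              by_cases h7 : HT h R = n - HT h P
              · rw [if_pos h7, if_pos (by omega)]
              · rw [if_neg h7, if_neg (by omega)]
            · refine SL_congr _ _ fun Ps _ => tsum_congr fun R => ?_
              rw [List.flatten_cons, HT_append, List.append_assoc]
              by_cases h7 : HT h Ps.flatten + HT h R = n - HT h P
              · rw [if_pos h7, if_pos (by omega)]
              · rw [if_neg h7, if_neg (by omega)]
      _ = SL (lam Λ h T i0) (J + 1) (fun Ps => ∑' R, (if HT h Ps.flatten + HT h R = n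
              then LW Λ R * F (Ps.flatten ++ R) else 0))
            + ((∑' P, lam Λ h T i0 P) * (J * g)
            + ∑' P, (if FR h P T ∧ T + i0 < HT h P then LW Λ P else 0)) := by
          rw [SL_succ, ENNReal.tsum_add]
          simp_rw [mul_add]
          rw [ENNReal.tsum_add, ENNReal.tsum_mul_right, add_assoc]
      _ ≤ _ := by
          refine add_le_add le_rfl ?_
          calc _ ≤ 1 * (J * g) + g :=
                add_le_add (mul_le_mul_left (tsum_lam_le Λ h hΛ h1 T i0) _) hg
            _ = _ := by push_cast; ring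

end decomp

end Crest.Agent.R154.Asm580
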