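import Crest.Agent.R154.B5Rec_566

/-! Row 154, ROAD 801 (helper594): first passage lists, density of a sum of iid pieces,
the two-walker grouping lemma. Pure sums. -/

set_option autoImplicit false

namespace Crest.Agent.R154.Asm594

open scoped ENNReal
open Crest.Agent.R154.B5A

section single

variable {B : Type*} (Λ : B → ℝ≥0∞) (ht : B → ℕ)

/-- first-passage list over the height `T` -/
def FP : List B → ℕ → Prop
  | [], T => T = 0
  | b :: L, T => T ≠ 0 ∧ FP L (T - ht b)

lemma FP_le (L : List B) (T : ℕ) (h : FP ht L T) : T ≤ HT ht L := by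
  induction L generalizing T with
  | nil => have : T = 0 := h; omega
  | cons b L ih =>
    obtain ⟨h0, h1⟩ := h
    have := ih _ h1
    rw [HT_cons]; omega

lemma FP_exists (L : List B) (T : ℕ) (h : T ≤ HT ht L) : ∃ P Q, L = P ++ Q ∧ FP ht P T := by
  induction L generalizing T with
  | nil =>
    rw [HT_nil] at h
    exact ⟨[], [], rfl, by show T = 0; omega⟩
  | cons b L ih =>
    by_cases h0 : T = 0
    · exact ⟨[], b :: L, rfl, h0⟩
    · obtain ⟨P, Q, h1, h2⟩ := ih (T - ht b) (by rw [HT_cons] at h; omega)
      exact ⟨b :: P, Q, by rw [h1]; rfl, h0, h2⟩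

open Classical in
lemma FP_mass (h1 : ∀ b, 1 ≤ ht b) (hΛ : ∑' b, Λ b = 1) (T : ℕ) :
    ∑' P : List B, (if FP ht P T then LW Λ P else 0) = 1 := by
  induction T using Nat.strong_induction_on with
  | _ T ih =>
    rw [tsum_list]
    by_cases h0 : T = 0
    · subst h0
      have e1 : FP ht [] 0 := rfl
      have e2 : ∀ b L, ¬ FP ht (b :: L) 0 := fun b L h => h.1 rfl
      simp [e1, e2, LW_nil]
    · have : ∀ b, ∑' L, (if FP ht (b :: L) T then LW Λ (b :: L) else 0) = Λ b := by
        intro b
        have e : ∀ L, (if FP ht (b :: L) T then LW Λ (b :: L) else 0)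
            = Λ b * (if FP ht L (T - ht b) then LW Λ L else 0) := by
          intro L
          by_cases h : FP ht L (T - ht b)
          · rw [if_pos (show FP ht (b :: L) T from ⟨h0, h⟩), if_pos h, LW_cons]
          · rw [if_neg (fun hh => h hh.2), if_neg h, mul_zero]
        simp_rw [e]
        rw [ENNReal.tsum_mul_left, ih _ (by have := h1 b; omega), mul_one]
      simp_rw [this]
      rw [if_neg (show ¬ FP ht [] T from h0), zero_add, hΛ]

end single

/-! ### union bound -/

open Classical in
lemma ub {α β : Type*} (f : α → ℝ≥0∞) (g : β → α) (φ : β → Prop) :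
    ∑' a, (if ∃ t, g t = a ∧ φ t then f a else 0) ≤ ∑' t, if φ t then f (g t) else 0 := by
  set S : Set α := {a | ∃ t, g t = a ∧ φ t} with hS
  have hex : ∀ a : S, ∃ t, g t = a.1 ∧ φ t := fun a => a.2
  choose τ hτ1 hτ2 using hex
  have hinj : Function.Injective τ := by
    intro a b hab
    apply Subtype.ext
    rw [← hτ1 a, ← hτ1 b, hab]
  calc ∑' a, (if ∃ t, g t = a ∧ φ t then f a else 0)
      = ∑' a : S, f a.1 := by
        rw [tsum_subtype S f]
        refine tsum_congr fun a => ?_
        by_cases h : a ∈ S
        · rw [Set.indicator_of_mem h, if_pos (show ∃ t, g t = a ∧ φ t from h)]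
        · rw [Set.indicator_of_notMem h, if_neg (show ¬ ∃ t, g t = a ∧ φ t from h)]
    _ = ∑' a : S, (fun t => if φ t then f (g t) else 0) (τ a) := by
        refine tsum_congr fun a => ?_
        simp only
        rw [if_pos (hτ2 a), hτ1 a]
    _ ≤ _ := ENNReal.tsum_comp_le_tsum_of_injective hinj _

/-! ### density -/

section density

variable {C V : Type*} [AddCommGroup V] (π : C → ℝ≥0∞) (v : C → V)

open Classical in
/-- law of one letter -/
noncomputable def pp (x : V) : ℝ≥0∞ := ∑' c, if v c = x then π c else 0

open Classical in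
/-- law of the sum of `j` letters -/
noncomputable def PJ (j : ℕ) (x : V) : ℝ≥0∞ := SL π j (fun L => if (L.map v).sum = x then 1 else 0)

open Classical in
lemma fiber (g : C → ℝ≥0∞) : ∑' c, g c = ∑' y, ∑' c, if v c = y then g c else 0 := by
  rw [ENNReal.tsum_comm]
  refine tsum_congr fun c => ?_
  rw [tsum_eq_single (v c)]
  · simp
  · intro y hy; rw [if_neg (Ne.symm hy)]

lemma PJ_succ (j : ℕ) (x : V) : PJ π v (j + 1) x = ∑' c, π c * PJ π v j (x - v c) := by
  classical
  unfold PJ; rw [SL_succ]
  refine tsum_congr fun c => ?_
  congr 1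
  refine SL_congr π j fun L _ => ?_
  have : ((c :: L).map v).sum = x ↔ (L.map v).sum = x - v c := by
    rw [List.map_cons, List.sum_cons, eq_sub_iff_add_eq, add_comm]
  simp only [this]

lemma tsum_sub (f : V → ℝ≥0∞) (y : V) : ∑' x, f (x - y) = ∑' x, f x :=
  (Equiv.subRight y).tsum_eq f

lemma tsum_sub' (f : V → ℝ≥0∞) (y : V) : ∑' x, f (y - x) = ∑' x, f x :=
  (Equiv.subLeft y).tsum_eq f

lemma PJ_sum (hπ : ∑' c, π c ≤ 1) (j : ℕ) : ∑' x, PJ π v j x ≤ 1 := by
  classical
  induction j with
  | zero =>
    unfold PJ
    simp only [SL_zero, List.map_nil, List.sum_nil]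
    rw [tsum_eq_single 0]
    · simp
    · intro y hy; rw [if_neg (Ne.symm hy)]
  | succ j ih =>
    simp_rw [PJ_succ]
    rw [ENNReal.tsum_comm]
    calc ∑' c, ∑' x, π c * PJ π v j (x - v c)
        ≤ ∑' c, π c := by
          refine ENNReal.tsum_le_tsum fun c => ?_
          rw [ENNReal.tsum_mul_left, tsum_sub]
          exact mul_le_of_le_one_right' ih
      _ ≤ 1 := hπ

/-- **density lemma** -/
lemma dens (hπ : ∑' c, π c ≤ 1) (th q M : ℝ≥0∞)
    (hq : ∑' c, (if th < pp π v (v c) then π c else 0) ≤ q) (hM : th + q * M ≤ M) (j : ℕ) :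
    ∃ Ag Ab : V → ℝ≥0∞, (∀ x, PJ π v j x = Ag x + Ab x) ∧ (∀ x, Ag x ≤ M) ∧
      ∑' x, Ab x ≤ q ^ j := by
  classical
  induction j with
  | zero =>
    refine ⟨fun _ => 0, PJ π v 0, fun x => by simp, fun x => zero_le, ?_⟩
    simpa using PJ_sum π v hπ 0
  | succ j ih =>
    obtain ⟨Ag, Ab, h1, h2, h3⟩ := ih
    refine ⟨fun x => (∑' c, if th < pp π v (v c) then 0 else π c * PJ π v j (x - v c)) +
      ∑' c, (if th < pp π v (v c) then π c * Ag (x - v c) else 0),
      fun x => ∑' c, (if th < pp π v (v c) then π c * Ab (x - v c) else 0), ?_, ?_, ?_⟩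
    · intro x
      rw [PJ_succ]
      beta_reduce
      rw [← ENNReal.tsum_add, ← ENNReal.tsum_add]
      refine tsum_congr fun c => ?_
      split_ifs with h
      · rw [h1, mul_add, zero_add]
      · simp
    · intro x
      refine le_trans (add_le_add ?_ ?_) hM
      · rw [fiber v]
        calc ∑' y, ∑' c, (if v c = y then (if th < pp π v (v c) then 0 else
              π c * PJ π v j (x - v c)) else 0)
            ≤ ∑' y, th * PJ π v j (x - y) := by
              refine ENNReal.tsum_le_tsum fun y => ?_
              by_cases hy : th < pp π v y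
              · refine le_trans (le_of_eq ?_) zero_le
                rw [ENNReal.tsum_eq_zero]
                intro c
                split_ifs with h h'
                · rfl
                · exact absurd (by rw [h]; exact hy) h'
                · rfl
              · calc ∑' c, (if v c = y then (if th < pp π v (v c) then 0 else
                      π c * PJ π v j (x - v c)) else 0)
                    ≤ ∑' c, (if v c = y then π c else 0) * PJ π v j (x - y) := by
                      refine ENNReal.tsum_le_tsum fun c => ?_
                      split_ifs with h h'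
                      · exact zero_le
                      · rw [h]
                      · simp
                  _ = pp π v y * PJ π v j (x - y) := by rw [ENNReal.tsum_mul_right]; rfl
                  _ ≤ _ := mul_le_mul_left (not_lt.1 hy) _
          _ = th * ∑' y, PJ π v j (x - y) := ENNReal.tsum_mul_left
          _ ≤ th * 1 := by
              rw [tsum_sub' (fun y => PJ π v j y) x]
              exact mul_le_mul_right (PJ_sum π v hπ j) _
          _ = th := mul_one _
      · calc ∑' c, (if th < pp π v (v c) then π c * Ag (x - v c) else 0)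
            ≤ ∑' c, (if th < pp π v (v c) then π c else 0) * M := by
              refine ENNReal.tsum_le_tsum fun c => ?_
              split_ifs
              · exact mul_le_mul_right (h2 _) _
              · simp
          _ = (∑' c, (if th < pp π v (v c) then π c else 0)) * M := ENNReal.tsum_mul_right
          _ ≤ q * M := mul_le_mul_left hq _
    · rw [ENNReal.tsum_comm]
      calc ∑' c, ∑' x, (if th < pp π v (v c) then π c * Ab (x - v c) else 0)
          ≤ ∑' c, (if th < pp π v (v c) then π c else 0) * q ^ j := by
            refine ENNReal.tsum_le_tsum fun c => ?_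
            split_ifs
            · rw [ENNReal.tsum_mul_left, tsum_sub]
              exact mul_le_mul_right h3 _
            · simp
        _ = (∑' c, (if th < pp π v (v c) then π c else 0)) * q ^ j := ENNReal.tsum_mul_right
        _ ≤ q * q ^ j := mul_le_mul_left hq _
        _ = q ^ (j + 1) := (pow_succ' q j).symm

end density

end Crest.Agent.R154.Asm594
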