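import Crest.Agent.R154.FP_178

/-! Row 154, ROAD 801, abstract assembly (helper636), part A: traces of lists of blocks and the
reduction of a list of height `n` to (top part, piece). -/

set_option autoImplicit false

namespace Crest.Agent.R154.Asm636

open scoped ENNReal
open Crest.Agent.R154.B5A Crest.Agent.R154.FP178

variable {B G : Type*} [AddCommGroup G]

/-- displacement -/
def Dp (z : B → G) (L : List B) : G := (L.map z).sum

/-- trace of a list hung at `(x, a)` -/
def TS (h : B → ℕ) (z : B → G) (s : B → Set (G × ℕ)) : List B → G → ℕ → Set (G × ℕ)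
  | [], _, _ => ∅
  | b :: L, x, a => {p | ∃ q ∈ s b, p = (x + q.1, a + q.2)} ∪ TS h z s L (x + z b) (a + h b)

lemma TS_append (h : B → ℕ) (z : B → G) (s : B → Set (G × ℕ)) (L L' : List B) (x : G) (a : ℕ) :
    TS h z s (L ++ L') x a = TS h z s L x a ∪ TS h z s L' (x + Dp z L) (a + HT h L) := by
  induction L generalizing x a with
  | nil => simp [TS, Dp, HT]
  | cons b L ih =>
    have e1 : x + Dp z (b :: L) = x + z b + Dp z L := by simp [Dp, add_assoc]
    have e2 : a + HT h (b :: L) = a + h b + HT h L := by rw [HT_cons]; omega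
    rw [List.cons_append]
    show _ ∪ TS h z s (L ++ L') (x + z b) (a + h b) = (_ ∪ TS h z s L (x + z b) (a + h b)) ∪ _
    rw [ih, e1, e2, Set.union_assoc]

lemma TS_range (h : B → ℕ) (z : B → G) (s : B → Set (G × ℕ))
    (hs : ∀ b, ∀ q ∈ s b, 1 ≤ q.2 ∧ q.2 ≤ h b) (L : List B) (x : G) (a : ℕ) :
    ∀ p ∈ TS h z s L x a, a < p.2 ∧ p.2 ≤ a + HT h L := by
  induction L generalizing x a with
  | nil => intro p hp; exact absurd hp (by simp [TS])
  | cons b L ih =>
    intro p hp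
    rw [HT_cons]
    rcases hp with ⟨q, hq, rfl⟩ | hp
    · have := hs b q hq
      dsimp only
      omega
    · have := ih _ _ p hp
      omega

lemma TS_shift (h : B → ℕ) (z : B → G) (s : B → Set (G × ℕ)) (L : List B) (x v y : G) (a k : ℕ) :
    (y, k) ∈ TS h z s L x a ↔ (y + v, k) ∈ TS h z s L (x + v) a := by
  induction L generalizing x a with
  | nil => simp [TS]
  | cons b L ih =>
    have e : x + v + z b = x + z b + v := by abel
    show (_ ∨ _) ↔ (_ ∨ _)
    rw [e, ih (x + z b) (a + h b)]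
    refine or_congr ⟨?_, ?_⟩ Iff.rfl
    · rintro ⟨q, hq, he⟩
      refine ⟨q, hq, ?_⟩
      rw [Prod.mk.injEq] at he ⊢
      refine ⟨?_, he.2⟩
      rw [he.1]; abel
    · rintro ⟨q, hq, he⟩
      refine ⟨q, hq, ?_⟩
      rw [Prod.mk.injEq] at he ⊢
      refine ⟨?_, he.2⟩
      have := he.1
      have h2 : y + v = (x + q.1) + v := by rw [this]; abel
      exact add_right_cancel h2

open Classical in
/-- weight of the first passages with small overshoot -/
noncomputable def V (Λ : B → ℝ≥0∞) (h : B → ℕ) (i0 a : ℕ) (L : List B) : ℝ≥0∞ :=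
  if fp h a L ∧ HT h L ≤ a + i0 then LW Λ L else 0

variable (Λ : B → ℝ≥0∞) (h : B → ℕ)

open Classical in
lemma V_sum (h1 : ∀ b, 1 ≤ h b) (hΛ : ∑' b, Λ b ≤ 1) (i0 a : ℕ) : ∑' L, V Λ h i0 a L ≤ 1 := by
  refine le_trans (ENNReal.tsum_le_tsum fun L => ?_) (sum_FP Λ h h1 hΛ a)
  unfold V
  by_cases hf : fp h a L
  · rw [if_pos hf]; split_ifs <;> simp
  · rw [if_neg (fun hh => hf hh.1)]; exact zero_le

open Classical in
lemma U_le' (hU1 : ∀ n, U Λ h n ≤ 1) (c n : ℕ) :
    ∑' L, (if c + HT h L = n then LW Λ L else 0) ≤ 1 := by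
  by_cases hc : c ≤ n
  · refine le_trans (le_of_eq ?_) (hU1 (n - c))
    unfold U
    refine tsum_congr fun L => ?_
    by_cases hL : HT h L = n - c
    · rw [if_pos hL, if_pos (by omega)]
    · rw [if_neg hL, if_neg (by omega)]
  · have : ∀ L, (if c + HT h L = n then LW Λ L else 0) = 0 := fun L => if_neg (by omega)
    simp [this]

open Classical in
/-- **reduction of one walker** -/
lemma red (h1 : ∀ b, 1 ≤ h b) (hΛ : ∑' b, Λ b ≤ 1) (hU1 : ∀ n, U Λ h n ≤ 1)
    (a t i0 n : ℕ) (hn : a + i0 + t ≤ n) (ε : ℝ≥0∞)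
    (hov : ∀ a, ∑' L, (if fp h a L ∧ a + i0 < HT h L then LW Λ L else 0) ≤ ε)
    (F : List B → ℝ≥0∞) (hF : ∀ L, F L ≤ 1) (g : List B → List B → ℝ≥0∞)
    (hg : ∀ P1 P2 P3, fp h a P1 → HT h P1 ≤ a + i0 → fp h t P2 → HT h P2 ≤ t + i0 →
      F (P1 ++ (P2 ++ P3)) ≤ g P1 P2) :
    ∑' L, (if HT h L = n then LW Λ L * F L else 0)
      ≤ ∑' P1, V Λ h i0 a P1 * ∑' P2, V Λ h i0 t P2 * g P1 P2 + 2 * ε := by
  set f : List B → ℝ≥0∞ := fun L => if HT h L = n then F L else 0 with hf
  have e0 : ∑' L, (if HT h L = n then LW Λ L * F L else 0)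
      = ∑' L, (if a ≤ HT h L then LW Λ L * f L else 0) := by
    refine tsum_congr fun L => ?_
    rw [hf]; dsimp only
    by_cases hL : HT h L = n
    · rw [if_pos hL, if_pos hL, if_pos (by omega)]
    · rw [if_neg hL, if_neg hL, mul_zero, ite_self]
  rw [e0, split Λ h h1 a f]
  -- the inner sums
  have I1 : ∀ P1 : List B, ∑' L2, LW Λ L2 * f (P1 ++ L2) ≤ 1 := by
    intro P1
    refine le_trans (ENNReal.tsum_le_tsum fun L2 => ?_) (U_le' Λ h hU1 (HT h P1) n)
    rw [hf]; dsimp only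
    rw [HT_append]
    split_ifs
    · calc LW Λ L2 * F (P1 ++ L2) ≤ LW Λ L2 * 1 := mul_le_mul_right (hF _) _
        _ = _ := mul_one _
    · simp
  have I2 : ∀ P1 P2 : List B, ∑' L3, LW Λ L3 * f (P1 ++ (P2 ++ L3)) ≤ 1 := by
    intro P1 P2
    refine le_trans (ENNReal.tsum_le_tsum fun L3 => ?_)
      (U_le' Λ h hU1 (HT h P1 + HT h P2) n)
    rw [hf]; dsimp only
    rw [HT_append, HT_append, ← add_assoc]
    split_ifs
    · calc LW Λ L3 * F _ ≤ LW Λ L3 * 1 := mul_le_mul_right (hF _) _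
        _ = _ := mul_one _
    · simp
  have I3 : ∀ P1 P2 : List B, fp h a P1 → HT h P1 ≤ a + i0 → fp h t P2 → HT h P2 ≤ t + i0 →
      ∑' L3, LW Λ L3 * f (P1 ++ (P2 ++ L3)) ≤ g P1 P2 := by
    intro P1 P2 p1 p2 p3 p4
    calc ∑' L3, LW Λ L3 * f (P1 ++ (P2 ++ L3))
        ≤ ∑' L3, (if (HT h P1 + HT h P2) + HT h L3 = n then LW Λ L3 else 0) * g P1 P2 := by
          refine ENNReal.tsum_le_tsum fun L3 => ?_
          rw [hf]; dsimp only
          rw [HT_append, HT_append, ← add_assoc]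
          split_ifs
          · exact mul_le_mul_right (hg P1 P2 L3 p1 p2 p3 p4) _
          · simp
      _ = (∑' L3, (if (HT h P1 + HT h P2) + HT h L3 = n then LW Λ L3 else 0)) * g P1 P2 :=
          ENNReal.tsum_mul_right
      _ ≤ 1 * g P1 P2 := mul_le_mul_left (U_le' Λ h hU1 _ n) _
      _ = _ := one_mul _
  have I4 : ∀ P1 : List B, fp h a P1 → HT h P1 ≤ a + i0 →
      ∑' L2, LW Λ L2 * f (P1 ++ L2) ≤ ∑' P2, V Λ h i0 t P2 * g P1 P2 + ε := by
    intro P1 p1 p2
    have e1 : ∑' L2, LW Λ L2 * f (P1 ++ L2)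
        = ∑' L2, (if t ≤ HT h L2 then LW Λ L2 * f (P1 ++ L2) else 0) := by
      refine tsum_congr fun L2 => ?_
      rw [hf]; dsimp only
      rw [HT_append]
      by_cases hL : HT h P1 + HT h L2 = n
      · rw [if_pos hL, if_pos (by omega)]
      · rw [if_neg hL, mul_zero, ite_self]
    rw [e1, split Λ h h1 t (fun L2 => f (P1 ++ L2))]
    calc ∑' P2, (if fp h t P2 then LW Λ P2 * ∑' L3, LW Λ L3 * f (P1 ++ (P2 ++ L3)) else 0)
        ≤ ∑' P2, (V Λ h i0 t P2 * g P1 P2
            + (if fp h t P2 ∧ t + i0 < HT h P2 then LW Λ P2 else 0)) := by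
          refine ENNReal.tsum_le_tsum fun P2 => ?_
          by_cases hp : fp h t P2
          · rw [if_pos hp]
            by_cases hH : HT h P2 ≤ t + i0
            · refine le_trans ?_ le_self_add
              unfold V
              rw [if_pos ⟨hp, hH⟩]
              exact mul_le_mul_right (I3 P1 P2 p1 p2 hp hH) _
            · refine le_trans ?_ le_add_self
              rw [if_pos ⟨hp, by omega⟩]
              calc LW Λ P2 * _ ≤ LW Λ P2 * 1 := mul_le_mul_right (I2 P1 P2) _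
                _ = _ := mul_one _
          · rw [if_neg hp]; exact zero_le
      _ = ∑' P2, V Λ h i0 t P2 * g P1 P2
            + ∑' P2, (if fp h t P2 ∧ t + i0 < HT h P2 then LW Λ P2 else 0) := ENNReal.tsum_add
      _ ≤ _ := by gcongr; exact hov t
  calc ∑' P1, (if fp h a P1 then LW Λ P1 * ∑' L2, LW Λ L2 * f (P1 ++ L2) else 0)
      ≤ ∑' P1, (V Λ h i0 a P1 * (∑' P2, V Λ h i0 t P2 * g P1 P2 + ε)
          + (if fp h a P1 ∧ a + i0 < HT h P1 then LW Λ P1 else 0)) := by
        refine ENNReal.tsum_le_tsum fun P1 => ?_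
        by_cases hp : fp h a P1
        · rw [if_pos hp]
          by_cases hH : HT h P1 ≤ a + i0
          · refine le_trans ?_ le_self_add
            unfold V
            rw [if_pos ⟨hp, hH⟩]
            exact mul_le_mul_right (I4 P1 hp hH) _
          · refine le_trans ?_ le_add_self
            rw [if_pos ⟨hp, by omega⟩]
            calc LW Λ P1 * _ ≤ LW Λ P1 * 1 := mul_le_mul_right (I1 P1) _
              _ = _ := mul_one _
        · rw [if_neg hp]; exact zero_le
    _ = ∑' P1, V Λ h i0 a P1 * (∑' P2, V Λ h i0 t P2 * g P1 P2 + ε)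
          + ∑' P1, (if fp h a P1 ∧ a + i0 < HT h P1 then LW Λ P1 else 0) := ENNReal.tsum_add
    _ ≤ (∑' P1, V Λ h i0 a P1 * ∑' P2, V Λ h i0 t P2 * g P1 P2 + ε) + ε := by
        refine add_le_add ?_ (hov a)
        have : ∀ P1, V Λ h i0 a P1 * (∑' P2, V Λ h i0 t P2 * g P1 P2 + ε)
            = V Λ h i0 a P1 * ∑' P2, V Λ h i0 t P2 * g P1 P2 + V Λ h i0 a P1 * ε :=
          fun P1 => mul_add _ _ _
        simp_rw [this]
        rw [ENNReal.tsum_add, ENNReal.tsum_mul_right]
        gcongr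
        calc (∑' L, V Λ h i0 a L) * ε ≤ 1 * ε := mul_le_mul_left (V_sum Λ h h1 hΛ i0 a) _
          _ = ε := one_mul _
    _ = _ := by rw [two_mul, add_assoc]

end Crest.Agent.R154.Asm636
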