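import Crest.Agent.R154.FP_178
import Crest.Agent.R154.Dens_903

/-! Row 154, ROAD 801, list assembly (helper647), part A: density with first passages, local case. -/

set_option autoImplicit false

namespace Crest.Agent.R154.Asm647

open scoped ENNReal
open Crest.Agent.R154.B5A Crest.Agent.R154.FP178

/-! ### push forward -/

open Classical in
lemma push {A Y : Type*} (w : A → ℝ≥0∞) (φ : A → Y) (g : Y → ℝ≥0∞) :
    ∑' a, w a * g (φ a) = ∑' y, (∑' a, if φ a = y then w a else 0) * g y := by
  simp_rw [← ENNReal.tsum_mul_right]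
  rw [ENNReal.tsum_comm]
  refine tsum_congr fun a => ?_
  rw [tsum_eq_single (φ a)]
  · simp
  · intro y hy
    rw [if_neg (Ne.symm hy), zero_mul]

section dens

variable {G : Type*} [AddCommGroup G]

lemma tsum_le_nat (i0 : ℕ) (g : ℕ → ℝ≥0∞) (c : ℝ≥0∞) (hg : ∀ i, i ≤ i0 → g i ≤ c) :
    ∑' i, (if i ≤ i0 then g i else 0) ≤ (i0 + 1 : ℕ) * c := by
  rw [tsum_eq_sum (s := Finset.range (i0 + 1))]
  · calc ∑ i ∈ Finset.range (i0 + 1), (if i ≤ i0 then g i else 0)
        ≤ ∑ i ∈ Finset.range (i0 + 1), c := by
          refine Finset.sum_le_sum fun i hi => ?_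
          rw [if_pos (by have := Finset.mem_range.1 hi; omega)]
          exact hg i (by have := Finset.mem_range.1 hi; omega)
      _ = _ := by simp
  · intro i hi
    rw [if_neg (by intro h; exact hi (Finset.mem_range.2 (by omega)))]

open Classical in
/-- smooth density for first passages, with the overshoot mark `c`. -/
theorem densFP (p : ℕ × G → ℝ≥0∞) (f : ℕ → G → ℕ → ℝ≥0∞) (T i0 : ℕ) (th q ε Gc : ℝ≥0∞)
    (hrec : ∀ r, T + i0 ≤ r → ∃ o : G → ℕ → ℝ≥0∞, (∑' z, ∑' c, o z c ≤ ε) ∧ ∀ z c, f r z c ≤
      ∑' y : ℕ × G, (if y.1 ≤ i0 then p y * f (r - T - y.1) (z - y.2) c else 0) + o z c)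
    (hf : ∀ r, ∑' z, ∑' c, f r z c ≤ 1)
    (hq : ∑' y : ℕ × G, (if th < p y then p y else 0) ≤ q) (hq1 : q ≤ 1)
    (hG : (i0 + 1 : ℕ) * th + q * Gc ≤ Gc) :
    ∀ J r, J * (T + i0) ≤ r → ∃ b : G → ℕ → ℝ≥0∞, (∑' z, ∑' c, b z c ≤ q ^ J + J * ε) ∧
      ∀ z c, f r z c ≤ Gc + b z c := by
  intro J
  induction J with
  | zero =>
    intro r _
    exact ⟨f r, by simpa using hf r, fun z c => le_add_self⟩
  | succ J ih =>
    intro r hr
    have hTr : T + i0 ≤ r := by nlinarith
    have hrem : ∀ i, i ≤ i0 → J * (T + i0) ≤ r - T - i := by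
      intro i hi
      have : J * (T + i0) + (T + i0) ≤ r := by nlinarith
      omega
    choose! b hb1 hb2 using fun i (hi : i ≤ i0) => ih (r - T - i) (hrem i hi)
    obtain ⟨o, ho1, ho2⟩ := hrec r hTr
    refine ⟨fun z c => o z c + ∑' y : ℕ × G,
      (if y.1 ≤ i0 ∧ th < p y then p y * b y.1 (z - y.2) c else 0), ?_, ?_⟩
    · have e2 : ∑' z, ∑' c, ∑' y : ℕ × G,
          (if y.1 ≤ i0 ∧ th < p y then p y * b y.1 (z - y.2) c else 0)
          ≤ q * (q ^ J + J * ε) := by
        calc ∑' z, ∑' c, ∑' y : ℕ × G,
            (if y.1 ≤ i0 ∧ th < p y then p y * b y.1 (z - y.2) c else 0)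
            = ∑' y : ℕ × G, ∑' z, ∑' c,
              (if y.1 ≤ i0 ∧ th < p y then p y * b y.1 (z - y.2) c else 0) := by
              rw [ENNReal.tsum_comm]
              rw [← ENNReal.tsum_comm]
              have : ∀ z : G, ∑' c, ∑' y : ℕ × G,
                  (if y.1 ≤ i0 ∧ th < p y then p y * b y.1 (z - y.2) c else 0)
                  = ∑' y : ℕ × G, ∑' c,
                  (if y.1 ≤ i0 ∧ th < p y then p y * b y.1 (z - y.2) c else 0) :=
                fun z => ENNReal.tsum_comm
              simp_rw [this]
              exact ENNReal.tsum_comm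
          _ ≤ ∑' y : ℕ × G, (if th < p y then p y else 0) * (q ^ J + J * ε) := by
              refine ENNReal.tsum_le_tsum fun y => ?_
              by_cases h : y.1 ≤ i0 ∧ th < p y
              · simp only [if_pos h, if_pos h.2]
                simp_rw [ENNReal.tsum_mul_left]
                have : ∑' z, ∑' c, b y.1 (z - y.2) c = ∑' z, ∑' c, b y.1 z c :=
                  (Equiv.subRight y.2).tsum_eq fun z => ∑' c, b y.1 z c
                rw [this]
                gcongr
                exact hb1 y.1 h.1
              · simp [if_neg h]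
          _ = (∑' y : ℕ × G, (if th < p y then p y else 0)) * (q ^ J + J * ε) := by
              rw [ENNReal.tsum_mul_right]
          _ ≤ _ := by gcongr
      calc ∑' z, ∑' c, (o z c + ∑' y : ℕ × G,
            (if y.1 ≤ i0 ∧ th < p y then p y * b y.1 (z - y.2) c else 0))
          = (∑' z, ∑' c, o z c) + ∑' z, ∑' c, ∑' y : ℕ × G,
            (if y.1 ≤ i0 ∧ th < p y then p y * b y.1 (z - y.2) c else 0) := by
            simp_rw [ENNReal.tsum_add]
        _ ≤ ε + q * (q ^ J + J * ε) := add_le_add ho1 e2
        _ = q ^ (J + 1) + (ε + q * (J * ε)) := by ring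
        _ ≤ q ^ (J + 1) + (ε + 1 * (J * ε)) := by gcongr
        _ = _ := by push_cast; ring
    · intro z c
      refine (ho2 z c).trans ?_
      have hsplit : ∑' y : ℕ × G, (if y.1 ≤ i0 then p y * f (r - T - y.1) (z - y.2) c else 0)
          ≤ (i0 + 1 : ℕ) * th + (q * Gc + ∑' y : ℕ × G,
            (if y.1 ≤ i0 ∧ th < p y then p y * b y.1 (z - y.2) c else 0)) := by
        calc ∑' y : ℕ × G, (if y.1 ≤ i0 then p y * f (r - T - y.1) (z - y.2) c else 0)
            ≤ ∑' y : ℕ × G, ((if y.1 ≤ i0 then th * f (r - T - y.1) (z - y.2) c else 0)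
              + ((if th < p y then p y else 0) * Gc +
                (if y.1 ≤ i0 ∧ th < p y then p y * b y.1 (z - y.2) c else 0))) := by
              refine ENNReal.tsum_le_tsum fun y => ?_
              by_cases h1 : y.1 ≤ i0
              · by_cases h2 : th < p y
                · simp only [if_pos h1, if_pos h2, if_pos (And.intro h1 h2)]
                  calc p y * f (r - T - y.1) (z - y.2) c
                      ≤ p y * (Gc + b y.1 (z - y.2) c) := by gcongr; exact hb2 _ h1 _ _
                    _ = p y * Gc + p y * b y.1 (z - y.2) c := mul_add _ _ _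
                    _ ≤ _ := le_add_self
                · simp only [if_pos h1]
                  refine le_add_right ?_
                  gcongr
                  exact not_lt.1 h2
              · simp [h1]
          _ = (∑' y : ℕ × G, (if y.1 ≤ i0 then th * f (r - T - y.1) (z - y.2) c else 0))
              + ((∑' y : ℕ × G, (if th < p y then p y else 0)) * Gc +
                ∑' y : ℕ × G, (if y.1 ≤ i0 ∧ th < p y then p y * b y.1 (z - y.2) c else 0)) := by
              rw [ENNReal.tsum_add, ENNReal.tsum_add, ENNReal.tsum_mul_right]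
          _ ≤ _ := by
              gcongr
              rw [ENNReal.tsum_prod']
              have : ∀ i : ℕ, ∑' z' : G, (if ((i, z') : ℕ × G).1 ≤ i0 then
                  th * f (r - T - ((i, z') : ℕ × G).1) (z - ((i, z') : ℕ × G).2) c else 0)
                  = if i ≤ i0 then ∑' z' : G, th * f (r - T - i) (z - z') c else 0 := by
                intro i
                by_cases h : i ≤ i0 <;> simp [h]
              simp_rw [this]
              refine tsum_le_nat i0 _ th fun i _ => ?_
              rw [ENNReal.tsum_mul_left]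
              calc th * ∑' z', f (r - T - i) (z - z') c ≤ th * 1 := by
                    gcongr
                    have e : ∑' z', f (r - T - i) (z - z') c = ∑' z', f (r - T - i) z' c :=
                      (Equiv.subLeft z).tsum_eq fun z' => f (r - T - i) z' c
                    rw [e]
                    refine le_trans (ENNReal.tsum_le_tsum fun z' => ENNReal.le_tsum c) (hf _)
                _ = th := mul_one _
      calc _ ≤ ((i0 + 1 : ℕ) * th + (q * Gc + ∑' y : ℕ × G,
            (if y.1 ≤ i0 ∧ th < p y then p y * b y.1 (z - y.2) c else 0))) + o z c := by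
            gcongr
        _ = ((i0 + 1 : ℕ) * th + q * Gc) + (o z c + ∑' y : ℕ × G,
            (if y.1 ≤ i0 ∧ th < p y then p y * b y.1 (z - y.2) c else 0)) := by ring
        _ ≤ _ := by gcongr

open Classical in
/-- the local case, for two marked laws -/
theorem local_case (f1 f2 b : G → ℕ → ℝ≥0∞) (i0 : ℕ) (Gc R : ℝ≥0∞) (w : G)
    (Φ : ℕ → ℕ → G → ℝ≥0∞) (hΦ1 : ∀ c c' x, Φ c c' x ≤ 1)
    (h1 : ∑' z, ∑' c, f1 z c ≤ 1) (h2 : ∑' z, ∑' c, f2 z c ≤ 1)
    (hb : ∀ z c, f1 z c ≤ Gc + b z c)
    (hR : ∀ c c', c ≤ i0 → c' ≤ i0 → ∀ μ : G → ℝ≥0∞, ∑' x, μ x ≤ 1 → (∀ x, μ x ≤ Gc) →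
      ∑' x, μ x * Φ c c' x ≤ R) :
    ∑' c, ∑' c', (if c ≤ i0 ∧ c' ≤ i0 then
      ∑' z, ∑' z', f1 z c * f2 z' c' * Φ c c' (w + z' - z) else 0)
      ≤ (i0 + 1 : ℕ) * ((i0 + 1 : ℕ) * R) + ∑' z, ∑' c, b z c := by
  have hm : ∀ z c, f1 z c ≤ min (f1 z c) Gc + b z c := by
    intro z c
    rcases le_total (f1 z c) Gc with h | h
    · rw [min_eq_left h]; exact le_self_add
    · rw [min_eq_right h]; exact hb z c
  have key : ∀ c c', (if c ≤ i0 ∧ c' ≤ i0 then
      ∑' z, ∑' z', f1 z c * f2 z' c' * Φ c c' (w + z' - z) else 0)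
      ≤ (if c ≤ i0 then (if c' ≤ i0 then R else 0) else 0) +
        (∑' z, b z c) * (∑' z', f2 z' c') := by
    intro c c'
    by_cases h : c ≤ i0 ∧ c' ≤ i0
    · rw [if_pos h, if_pos h.1, if_pos h.2]
      calc ∑' z, ∑' z', f1 z c * f2 z' c' * Φ c c' (w + z' - z)
          ≤ ∑' z, ∑' z', (min (f1 z c) Gc * f2 z' c' * Φ c c' (w + z' - z)
              + b z c * f2 z' c') := by
            refine ENNReal.tsum_le_tsum fun z => ENNReal.tsum_le_tsum fun z' => ?_
            calc f1 z c * f2 z' c' * Φ c c' (w + z' - z)
                ≤ (min (f1 z c) Gc + b z c) * f2 z' c' * Φ c c' (w + z' - z) := by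
                  gcongr; exact hm z c
              _ = min (f1 z c) Gc * f2 z' c' * Φ c c' (w + z' - z)
                  + b z c * f2 z' c' * Φ c c' (w + z' - z) := by ring
              _ ≤ min (f1 z c) Gc * f2 z' c' * Φ c c' (w + z' - z)
                  + b z c * f2 z' c' * 1 := by gcongr; exact hΦ1 _ _ _
              _ = _ := by rw [mul_one]
        _ = (∑' z, ∑' z', min (f1 z c) Gc * f2 z' c' * Φ c c' (w + z' - z))
              + ∑' z, ∑' z', b z c * f2 z' c' := by simp_rw [ENNReal.tsum_add]
        _ ≤ R + (∑' z, b z c) * (∑' z', f2 z' c') := by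
            refine add_le_add ?_ ?_
            · have e : ∑' z, ∑' z', min (f1 z c) Gc * f2 z' c' * Φ c c' (w + z' - z)
                  = ∑' x, (∑' z', min (f1 (w + z' - x) c) Gc * f2 z' c') * Φ c c' x := by
                rw [ENNReal.tsum_comm]
                have : ∀ z', ∑' z, min (f1 z c) Gc * f2 z' c' * Φ c c' (w + z' - z)
                    = ∑' x, min (f1 (w + z' - x) c) Gc * f2 z' c' * Φ c c' x := by
                  intro z'
                  rw [← (Equiv.subLeft (w + z')).tsum_eq
                    (fun z => min (f1 z c) Gc * f2 z' c' * Φ c c' (w + z' - z))]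
                  refine tsum_congr fun x => ?_
                  simp [Equiv.subLeft_apply]
                simp_rw [this]
                rw [ENNReal.tsum_comm]
                refine tsum_congr fun x => ?_
                rw [ENNReal.tsum_mul_right]
              rw [e]
              refine hR c c' h.1 h.2 _ ?_ ?_
              · rw [ENNReal.tsum_comm]
                calc ∑' z', ∑' x, min (f1 (w + z' - x) c) Gc * f2 z' c'
                    ≤ ∑' z', 1 * f2 z' c' := by
                      refine ENNReal.tsum_le_tsum fun z' => ?_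
                      rw [ENNReal.tsum_mul_right]
                      gcongr
                      calc ∑' x, min (f1 (w + z' - x) c) Gc ≤ ∑' x, f1 (w + z' - x) c :=
                            ENNReal.tsum_le_tsum fun x => min_le_left _ _
                        _ = ∑' x, f1 x c :=
                            (Equiv.subLeft (w + z')).tsum_eq fun x => f1 x c
                        _ ≤ ∑' z, ∑' c, f1 z c :=
                            ENNReal.tsum_le_tsum fun z => ENNReal.le_tsum c
                        _ ≤ 1 := h1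
                  _ = ∑' z', f2 z' c' := by simp
                  _ ≤ ∑' z, ∑' c, f2 z c := ENNReal.tsum_le_tsum fun z => ENNReal.le_tsum c'
                  _ ≤ 1 := h2
              · intro x
                calc ∑' z', min (f1 (w + z' - x) c) Gc * f2 z' c'
                    ≤ ∑' z', Gc * f2 z' c' := by
                      refine ENNReal.tsum_le_tsum fun z' => ?_
                      gcongr; exact min_le_right _ _
                  _ = Gc * ∑' z', f2 z' c' := ENNReal.tsum_mul_left
                  _ ≤ Gc * 1 := by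
                      gcongr
                      exact (ENNReal.tsum_le_tsum fun z => ENNReal.le_tsum c').trans h2
                  _ = Gc := mul_one _
            · rw [← ENNReal.tsum_mul_right]
              refine ENNReal.tsum_le_tsum fun z => ?_
              rw [ENNReal.tsum_mul_left]
    · rw [if_neg h]; exact bot_le
  calc ∑' c, ∑' c', (if c ≤ i0 ∧ c' ≤ i0 then
      ∑' z, ∑' z', f1 z c * f2 z' c' * Φ c c' (w + z' - z) else 0)
      ≤ ∑' c, ∑' c', ((if c ≤ i0 then (if c' ≤ i0 then R else 0) else 0) +
        (∑' z, b z c) * (∑' z', f2 z' c')) :=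
        ENNReal.tsum_le_tsum fun c => ENNReal.tsum_le_tsum fun c' => key c c'
    _ = (∑' c, ∑' c', (if c ≤ i0 then (if c' ≤ i0 then R else 0) else 0)) +
        ∑' c, ∑' c', (∑' z, b z c) * (∑' z', f2 z' c') := by simp_rw [ENNReal.tsum_add]
    _ ≤ _ := by
        refine add_le_add ?_ ?_
        · have : ∀ c : ℕ, ∑' c' : ℕ, (if c ≤ i0 then (if c' ≤ i0 then R else 0) else 0)
              = if c ≤ i0 then ∑' c' : ℕ, (if c' ≤ i0 then R else 0) else 0 := by
            intro c; by_cases h : c ≤ i0 <;> simp [h]
          simp_rw [this]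
          refine tsum_le_nat i0 _ _ fun c _ => ?_
          exact tsum_le_nat i0 _ _ fun _ _ => le_rfl
        · simp_rw [ENNReal.tsum_mul_left, ENNReal.tsum_mul_right]
          calc (∑' c, ∑' z, b z c) * ∑' c', ∑' z', f2 z' c'
              ≤ (∑' c, ∑' z, b z c) * 1 := by
                gcongr
                rw [ENNReal.tsum_comm]; exact h2
            _ = ∑' z, ∑' c, b z c := by rw [mul_one, ENNReal.tsum_comm]

end dens

end Crest.Agent.R154.Asm647
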