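import Crest.Agent.R154.B5Abs_566
import Crest.Agent.R154.Dens_616

/-! Row 154, ROAD 801 (helper650): first passage lists and the smooth density of the first passage
position, in the letters of `B5A`. -/

set_option autoImplicit false

namespace Crest.Agent.R154.Asm650

open Crest.Agent.R154.B5A
open scoped ENNReal

variable {B : Type*} (Λ : B → ℝ≥0∞) (ht : B → ℕ)

/-- first passage of depth `T` -/
def FP : ℕ → List B → Prop
  | T, [] => T = 0
  | T, b :: L => T ≠ 0 ∧ FP (T - ht b) L

lemma FP_zero (L : List B) : FP ht 0 L ↔ L = [] := by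
  cases L <;> simp [FP]

lemma FP_le (T : ℕ) (L : List B) (h : FP ht T L) : T ≤ HT ht L := by
  induction L generalizing T with
  | nil => rw [FP] at h; omega
  | cons b L ih =>
    obtain ⟨_, h2⟩ := h
    have := ih _ h2
    rw [HT_cons]; omega

open Classical in
/-- expectation with respect to the first passage law -/
noncomputable def EF (T : ℕ) (G : List B → ℝ≥0∞) : ℝ≥0∞ :=
  ∑' L, if FP ht T L then LW Λ L * G L else 0

open Classical in
/-- sum over the lists of height `n` -/
noncomputable def EN (n : ℕ) (G : List B → ℝ≥0∞) : ℝ≥0∞ :=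
  ∑' L, if HT ht L = n then LW Λ L * G L else 0

lemma EF_mono (T : ℕ) {G G' : List B → ℝ≥0∞} (h : ∀ L, FP ht T L → G L ≤ G' L) :
    EF Λ ht T G ≤ EF Λ ht T G' := by
  classical
  refine ENNReal.tsum_le_tsum fun L => ?_
  by_cases hL : FP ht T L
  · simp only [hL, if_true]; exact mul_le_mul_right (h L hL) _
  · simp [hL]

lemma EN_mono (n : ℕ) {G G' : List B → ℝ≥0∞} (h : ∀ L, HT ht L = n → G L ≤ G' L) :
    EN Λ ht n G ≤ EN Λ ht n G' := by
  classical
  refine ENNReal.tsum_le_tsum fun L => ?_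
  by_cases hL : HT ht L = n
  · simp only [hL, if_true]; exact mul_le_mul_right (h L hL) _
  · simp [hL]

lemma EF_add (T : ℕ) (G G' : List B → ℝ≥0∞) :
    EF Λ ht T (fun L => G L + G' L) = EF Λ ht T G + EF Λ ht T G' := by
  classical
  rw [EF, EF, EF, ← ENNReal.tsum_add]
  refine tsum_congr fun L => ?_
  by_cases hL : FP ht T L
  · simp [hL, mul_add]
  · simp [hL]

lemma EF_zero (G : List B → ℝ≥0∞) : EF Λ ht 0 G = G [] := by
  classical
  rw [EF, tsum_list]
  simp [FP, LW_nil]

lemma EF_pos (T : ℕ) (hT : T ≠ 0) (G : List B → ℝ≥0∞) :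
    EF Λ ht T G = ∑' b, Λ b * EF Λ ht (T - ht b) (fun L => G (b :: L)) := by
  classical
  rw [EF, tsum_list]
  rw [if_neg (by rw [FP]; exact hT), zero_add]
  refine tsum_congr fun b => ?_
  rw [EF, ← ENNReal.tsum_mul_left]
  refine tsum_congr fun L => ?_
  by_cases h : FP ht (T - ht b) L
  · rw [if_pos (show FP ht T (b :: L) from ⟨hT, h⟩), if_pos h, LW_cons, mul_assoc]
  · rw [if_neg (fun h' : FP ht T (b :: L) => h h'.2), if_neg h, mul_zero]

lemma EF_const_mul (T : ℕ) (a : ℝ≥0∞) (G : List B → ℝ≥0∞) :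
    EF Λ ht T (fun L => a * G L) = a * EF Λ ht T G := by
  classical
  rw [EF, EF, ← ENNReal.tsum_mul_left]
  refine tsum_congr fun L => ?_
  by_cases hL : FP ht T L
  · simp [hL, mul_left_comm]
  · simp [hL]

lemma EF_one_le (h1 : ∀ b, 1 ≤ ht b) (hΛ : ∑' b, Λ b ≤ 1) (T : ℕ) : EF Λ ht T (fun _ => 1) ≤ 1 := by
  induction T using Nat.strong_induction_on with
  | _ T ih =>
    by_cases hT : T = 0
    · subst hT; rw [EF_zero]
    · rw [EF_pos Λ ht T hT]
      calc _ ≤ ∑' b, Λ b * 1 := ENNReal.tsum_le_tsum fun b =>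
            mul_le_mul_right (ih _ (by have := h1 b; omega)) _
        _ ≤ 1 := by simpa using hΛ

lemma EF_one (h1 : ∀ b, 1 ≤ ht b) (hΛ : ∑' b, Λ b = 1) (T : ℕ) : EF Λ ht T (fun _ => 1) = 1 := by
  induction T using Nat.strong_induction_on with
  | _ T ih =>
    by_cases hT : T = 0
    · subst hT; rw [EF_zero]
    · rw [EF_pos Λ ht T hT]
      calc _ = ∑' b, Λ b * 1 := tsum_congr fun b => by rw [ih _ (by have := h1 b; omega)]
        _ = 1 := by simpa using hΛ

lemma EF_const_le (h1 : ∀ b, 1 ≤ ht b) (hΛ : ∑' b, Λ b ≤ 1) (T : ℕ) (a : ℝ≥0∞)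
    (G : List B → ℝ≥0∞) (hG : ∀ L, FP ht T L → G L ≤ a) : EF Λ ht T G ≤ a := by
  calc EF Λ ht T G ≤ EF Λ ht T (fun _ => a * 1) := EF_mono Λ ht T fun L hL => by
        rw [mul_one]; exact hG L hL
    _ = a * EF Λ ht T (fun _ => 1) := EF_const_mul Λ ht T a _
    _ ≤ a * 1 := mul_le_mul_right (EF_one_le Λ ht h1 hΛ T) _
    _ = a := mul_one a

/-- Markov property of the first passages -/
lemma EF_EF (h1 : ∀ b, 1 ≤ ht b) (S : ℕ) : ∀ (T : ℕ) (_ : S ≤ T) (G : List B → ℝ≥0∞),
    EF Λ ht T G = EF Λ ht S (fun L1 => EF Λ ht (T - HT ht L1) (fun L2 => G (L1 ++ L2))) := by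
  induction S using Nat.strong_induction_on with
  | _ S ih =>
    intro T hST G
    by_cases hS : S = 0
    · subst hS; rw [EF_zero]; simp [HT_nil]
    · rw [EF_pos Λ ht T (by omega), EF_pos Λ ht S hS]
      refine tsum_congr fun b => ?_
      congr 1
      rw [ih (S - ht b) (by have := h1 b; omega) (T - ht b) (by omega)]
      simp only [HT_cons, Nat.sub_sub, List.cons_append]

/-- lists of height `n` cut at the first passage of `S ≤ n` -/
lemma EN_split (h1 : ∀ b, 1 ≤ ht b) (S : ℕ) : ∀ (n : ℕ) (_ : S ≤ n) (G : List B → ℝ≥0∞),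
    EN Λ ht n G = EF Λ ht S (fun L1 => if HT ht L1 ≤ n then
      EN Λ ht (n - HT ht L1) (fun L2 => G (L1 ++ L2)) else 0) := by
  classical
  induction S using Nat.strong_induction_on with
  | _ S ih =>
    intro n hSn G
    by_cases hS : S = 0
    · subst hS; rw [EF_zero]; simp [HT_nil]
    · rw [EF_pos Λ ht S hS, EN, tsum_list]
      rw [if_neg (by rw [HT_nil]; omega), zero_add]
      refine tsum_congr fun b => ?_
      by_cases hb : ht b ≤ n
      · have e : (∑' L, if HT ht (b :: L) = n then LW Λ (b :: L) * G (b :: L) else 0)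
            = Λ b * EN Λ ht (n - ht b) (fun L => G (b :: L)) := by
          rw [EN, ← ENNReal.tsum_mul_left]
          refine tsum_congr fun L => ?_
          rw [HT_cons]
          by_cases h : ht b + HT ht L = n
          · rw [if_pos h, if_pos (by omega), LW_cons, mul_assoc]
          · rw [if_neg h, if_neg (by omega), mul_zero]
        rw [e]
        congr 1
        rw [ih (S - ht b) (by have := h1 b; omega) (n - ht b) (by omega)]
        congr 1
        funext L1
        rw [HT_cons]
        by_cases h : HT ht L1 ≤ n - ht b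
        · rw [if_pos h, if_pos (by omega), Nat.sub_sub]; rfl
        · rw [if_neg h, if_neg (by omega)]
      · have e : (∑' L, if HT ht (b :: L) = n then LW Λ (b :: L) * G (b :: L) else 0) = 0 := by
          simp only [HT_cons]
          rw [ENNReal.tsum_eq_zero]
          intro L
          rw [if_neg (by omega)]
        rw [e]
        have e2 : EF Λ ht (S - ht b) (fun L => if HT ht (b :: L) ≤ n then
            EN Λ ht (n - HT ht (b :: L)) (fun L2 => G (b :: L ++ L2)) else 0) = 0 := by
          rw [EF, ENNReal.tsum_eq_zero]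
          intro L
          split_ifs with h3 h4
          · rw [HT_cons] at h4; omega
          · rw [mul_zero]
          · rfl
        rw [e2, mul_zero]

lemma EN_one_eq (n : ℕ) : EN Λ ht n (fun _ => 1) = U Λ ht n := by
  classical
  rw [EN, U]
  refine tsum_congr fun L => ?_
  by_cases h : HT ht L = n <;> simp [h]

lemma EN_le_one (hU1 : ∀ n, U Λ ht n ≤ 1) (n : ℕ) (G : List B → ℝ≥0∞)
    (hG : ∀ L, HT ht L = n → G L ≤ 1) : EN Λ ht n G ≤ 1 :=
  ((EN_mono Λ ht n hG).trans_eq (EN_one_eq Λ ht n)).trans (hU1 n)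

/-- a bound of a sum over the lists of height `n` by the first passage of `S` -/
lemma EN_le_EF (h1 : ∀ b, 1 ≤ ht b) (hU1 : ∀ n, U Λ ht n ≤ 1) (S n : ℕ) (hS : S ≤ n)
    (G H : List B → ℝ≥0∞) (hGH : ∀ L1 L2, FP ht S L1 → G (L1 ++ L2) ≤ H L1) :
    EN Λ ht n G ≤ EF Λ ht S H := by
  rw [EN_split Λ ht h1 S n hS]
  refine EF_mono Λ ht S fun L1 hL1 => ?_
  split_ifs with h
  · calc EN Λ ht (n - HT ht L1) (fun L2 => G (L1 ++ L2))
        ≤ EN Λ ht (n - HT ht L1) (fun _ => H L1) := EN_mono Λ ht _ fun L2 _ => hGH L1 L2 hL1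
      _ = H L1 * EN Λ ht (n - HT ht L1) (fun _ => 1) := by
          classical
          rw [EN, EN, ← ENNReal.tsum_mul_left]
          refine tsum_congr fun L => ?_
          by_cases h : HT ht L = n - HT ht L1 <;> simp [h, mul_comm]
      _ ≤ H L1 * 1 := by rw [EN_one_eq]; exact mul_le_mul_right (hU1 _) _
      _ = H L1 := mul_one _
  · exact zero_le

/-! ### overshoot -/

open Classical in
/-- the first passage list by its last block -/
lemma EF_last (h1 : ∀ b, 1 ≤ ht b) (T : ℕ) : ∀ (_ : T ≠ 0) (G : List B → ℝ≥0∞),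
    EF Λ ht T G = ∑' L1, ∑' b, if HT ht L1 < T ∧ T ≤ HT ht L1 + ht b
      then LW Λ L1 * (Λ b * G (L1 ++ [b])) else 0 := by
  induction T using Nat.strong_induction_on with
  | _ T ih =>
    intro hT G
    rw [EF_pos Λ ht T hT, tsum_list, ← ENNReal.tsum_add]
    refine tsum_congr fun b => ?_
    by_cases hb : T ≤ ht b
    · rw [show T - ht b = 0 by omega, EF_zero]
      rw [if_pos (by rw [HT_nil]; omega)]
      have : (∑' L, ∑' b', if HT ht (b :: L) < T ∧ T ≤ HT ht (b :: L) + ht b'
          then LW Λ (b :: L) * (Λ b' * G (b :: L ++ [b'])) else 0) = 0 := by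
        simp only [HT_cons]
        rw [ENNReal.tsum_eq_zero]; intro L
        rw [ENNReal.tsum_eq_zero]; intro b'
        rw [if_neg (by omega)]
      rw [this, add_zero, LW_nil, one_mul]; rfl
    · rw [if_neg (by rw [HT_nil]; omega), zero_add]
      rw [ih (T - ht b) (by have := h1 b; omega) (by omega), ← ENNReal.tsum_mul_left]
      refine tsum_congr fun L => ?_
      rw [← ENNReal.tsum_mul_left]
      refine tsum_congr fun b' => ?_
      rw [HT_cons]
      by_cases h : HT ht L < T - ht b ∧ T - ht b ≤ HT ht L + ht b'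
      · rw [if_pos h, if_pos (by omega), LW_cons, mul_assoc]; rfl
      · rw [if_neg h, if_neg (by omega), mul_zero]

open Classical in
lemma overshoot (h1 : ∀ b, 1 ≤ ht b) (hU1 : ∀ n, U Λ ht n ≤ 1) (T i0 : ℕ) :
    EF Λ ht T (fun L => if T + i0 < HT ht L then 1 else 0) ≤ ∑' j, tail Λ ht (i0 + j) := by
  by_cases hT : T = 0
  · subst hT
    rw [EF_zero, HT_nil, if_neg (by omega)]
    exact zero_le
  rw [EF_last Λ ht h1 T hT]
  calc _ ≤ ∑' L1, ∑' b, ∑ k ∈ Finset.range T, (if HT ht L1 = k then LW Λ L1 else 0) *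
          (if i0 + (T - 1 - k) < ht b then Λ b else 0) := by
        refine ENNReal.tsum_le_tsum fun L1 => ENNReal.tsum_le_tsum fun b => ?_
        split_ifs with h h2
        · rw [Finset.sum_eq_single (HT ht L1)]
          · rw [if_pos rfl, if_pos]
            · rw [mul_one]
            · rw [HT_append, HT_cons, HT_nil] at h2; omega
          · intro k _ hk; rw [if_neg hk.symm, zero_mul]
          · intro hn; exact absurd (Finset.mem_range.2 h.1) hn
        · simp
        · exact zero_le
    _ = ∑ k ∈ Finset.range T, U Λ ht k * tail Λ ht (i0 + (T - 1 - k)) := by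
        simp_rw [U, tail, ← ENNReal.tsum_mul_left]
        rw [← Summable.tsum_finsetSum (fun _ _ => ENNReal.summable)]
        simp_rw [← ENNReal.tsum_mul_right]
        have : ∀ L1 : List B, (∑' b, ∑ k ∈ Finset.range T, (if HT ht L1 = k then LW Λ L1 else 0) *
            (if i0 + (T - 1 - k) < ht b then Λ b else 0)) = ∑ k ∈ Finset.range T, ∑' b,
            (if HT ht L1 = k then LW Λ L1 else 0) *
            (if i0 + (T - 1 - k) < ht b then Λ b else 0) := fun L1 =>
          Summable.tsum_finsetSum (fun _ _ => ENNReal.summable)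
        simp_rw [this]
        rw [Summable.tsum_finsetSum (fun _ _ => ENNReal.summable),
          Summable.tsum_finsetSum (fun _ _ => ENNReal.summable)]
        refine Finset.sum_congr rfl fun k _ => ?_
        rw [ENNReal.tsum_comm]
    _ ≤ ∑ k ∈ Finset.range T, tail Λ ht (i0 + (T - 1 - k)) := by
        refine Finset.sum_le_sum fun k _ => ?_
        calc _ ≤ 1 * tail Λ ht (i0 + (T - 1 - k)) := mul_le_mul_left (hU1 k) _
          _ = _ := one_mul _
    _ = ∑ k ∈ Finset.range T, tail Λ ht (i0 + k) :=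
        Finset.sum_range_reflect (fun k => tail Λ ht (i0 + k)) T
    _ ≤ _ := ENNReal.sum_le_tsum _

lemma over_tendsto (hΛ : ∑' b, Λ b = 1) (hE : ∑' b, Λ b * (ht b : ℝ≥0∞) ≠ ⊤) :
    Filter.Tendsto (fun i0 : ℕ => ∑' j, tail Λ ht (i0 + j)) Filter.atTop (nhds 0) := by
  have := sum_tail Λ ht hΛ
  rw [this] at hE
  have h2 := ENNReal.tendsto_sum_nat_add (fun j => tail Λ ht j) hE
  refine h2.congr fun i => ?_
  exact tsum_congr fun j => by rw [add_comm]

end Crest.Agent.R154.Asm650
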