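import Crest.Agent.R154.B5Abs_566
import Crest.Agent.R154.Dens_903

/-! Row 154, ROAD 801 (helper667): abstract assembly, single-walker lists. -/

set_option autoImplicit false

namespace Crest.Agent.R154.AsmR667

open scoped ENNReal Classical Topology
open Filter
open Crest.Agent.R154.B5A (LW HT LW_nil LW_cons LW_append HT_nil HT_cons HT_append tsum_list U tail
  U_zero renewal_one sum_tail)

variable {B G : Type*}

/-- first passage of the level `ℓ` -/
def FP (ht : B → ℕ) : ℕ → List B → Prop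
  | ℓ, [] => ℓ = 0
  | ℓ, b :: A => ℓ ≠ 0 ∧ FP ht (ℓ - ht b) A

lemma FP_nil (ht : B → ℕ) (ℓ : ℕ) : FP ht ℓ [] ↔ ℓ = 0 := by simp [FP]

lemma FP_cons (ht : B → ℕ) (ℓ : ℕ) (b : B) (A : List B) :
    FP ht ℓ (b :: A) ↔ ℓ ≠ 0 ∧ FP ht (ℓ - ht b) A := by simp [FP]

lemma FP_le (ht : B → ℕ) (ℓ : ℕ) (A : List B) (h : FP ht ℓ A) : ℓ ≤ HT ht A := by
  induction A generalizing ℓ with
  | nil => rw [FP_nil] at h; omega
  | cons b A ih =>
    rw [FP_cons] at h
    have := ih _ h.2
    rw [HT_cons]; omega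

/-- integral over the first passage lists -/
noncomputable def EA (Λ : B → ℝ≥0∞) (ht : B → ℕ) (ℓ : ℕ) (φ : List B → ℝ≥0∞) : ℝ≥0∞ :=
  ∑' A : List B, if FP ht ℓ A then LW Λ A * φ A else 0

/-- integral over the completions: lists `L` with `a + HT L = n` -/
noncomputable def EB (Λ : B → ℝ≥0∞) (ht : B → ℕ) (a n : ℕ) (φ : List B → ℝ≥0∞) : ℝ≥0∞ :=
  ∑' L : List B, if a + HT ht L = n then LW Λ L * φ L else 0

variable (Λ : B → ℝ≥0∞) (ht : B → ℕ)

lemma EA_zero (φ : List B → ℝ≥0∞) : EA Λ ht 0 φ = φ [] := by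
  rw [EA, tsum_list]
  simp [FP_nil, FP_cons, LW_nil]

lemma EA_pos (ℓ : ℕ) (hℓ : ℓ ≠ 0) (φ : List B → ℝ≥0∞) :
    EA Λ ht ℓ φ = ∑' b, Λ b * EA Λ ht (ℓ - ht b) (fun A => φ (b :: A)) := by
  rw [EA, tsum_list, if_neg (by rw [FP_nil]; exact hℓ), zero_add]
  refine tsum_congr fun b => ?_
  rw [EA, ← ENNReal.tsum_mul_left]
  refine tsum_congr fun A => ?_
  by_cases h : FP ht (ℓ - ht b) A
  · rw [if_pos ((FP_cons ..).2 ⟨hℓ, h⟩), if_pos h, LW_cons, mul_assoc]
  · rw [if_neg (fun h' => h ((FP_cons ..).1 h').2), if_neg h, mul_zero]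

lemma EA_mono (ℓ : ℕ) {φ ψ : List B → ℝ≥0∞} (h : ∀ A, FP ht ℓ A → φ A ≤ ψ A) :
    EA Λ ht ℓ φ ≤ EA Λ ht ℓ ψ := by
  refine ENNReal.tsum_le_tsum fun A => ?_
  by_cases hA : FP ht ℓ A
  · rw [if_pos hA, if_pos hA]; exact mul_le_mul_right (h A hA) _
  · rw [if_neg hA, if_neg hA]

lemma EA_congr (ℓ : ℕ) {φ ψ : List B → ℝ≥0∞} (h : ∀ A, FP ht ℓ A → φ A = ψ A) :
    EA Λ ht ℓ φ = EA Λ ht ℓ ψ :=
  le_antisymm (EA_mono Λ ht ℓ fun A hA => (h A hA).le) (EA_mono Λ ht ℓ fun A hA => (h A hA).ge)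

lemma EA_add (ℓ : ℕ) (φ ψ : List B → ℝ≥0∞) :
    EA Λ ht ℓ (fun A => φ A + ψ A) = EA Λ ht ℓ φ + EA Λ ht ℓ ψ := by
  rw [EA, EA, EA, ← ENNReal.tsum_add]
  refine tsum_congr fun A => ?_
  by_cases hA : FP ht ℓ A
  · simp only [if_pos hA, mul_add]
  · simp only [if_neg hA, add_zero]

lemma EA_mul_left (ℓ : ℕ) (c : ℝ≥0∞) (φ : List B → ℝ≥0∞) :
    EA Λ ht ℓ (fun A => c * φ A) = c * EA Λ ht ℓ φ := by
  rw [EA, EA, ← ENNReal.tsum_mul_left]
  refine tsum_congr fun A => ?_
  by_cases hA : FP ht ℓ A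
  · simp only [if_pos hA]; ring
  · simp only [if_neg hA, mul_zero]

lemma EA_tsum {α : Type*} (ℓ : ℕ) (φ : α → List B → ℝ≥0∞) :
    EA Λ ht ℓ (fun A => ∑' i, φ i A) = ∑' i, EA Λ ht ℓ (φ i) := by
  simp only [EA]
  rw [ENNReal.tsum_comm]
  refine tsum_congr fun A => ?_
  by_cases hA : FP ht ℓ A
  · simp only [if_pos hA, ENNReal.tsum_mul_left]
  · simp only [if_neg hA, tsum_zero]

lemma EA_one (h1 : ∀ b, 1 ≤ ht b) (hΛ : ∑' b, Λ b = 1) (ℓ : ℕ) :
    EA Λ ht ℓ (fun _ => 1) = 1 := by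
  induction ℓ using Nat.strong_induction_on with
  | _ ℓ ih =>
    rcases Nat.eq_zero_or_pos ℓ with rfl | hℓ
    · rw [EA_zero]
    · rw [EA_pos Λ ht ℓ (by omega)]
      refine Eq.trans ?_ hΛ
      refine tsum_congr fun b => ?_
      rw [ih (ℓ - ht b) (by have := h1 b; omega), mul_one]

lemma EA_const (h1 : ∀ b, 1 ≤ ht b) (hΛ : ∑' b, Λ b = 1) (ℓ : ℕ) (c : ℝ≥0∞) :
    EA Λ ht ℓ (fun _ => c) = c := by
  have := EA_mul_left Λ ht ℓ c (fun _ => 1)
  rw [EA_one Λ ht h1 hΛ, mul_one] at this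
  simpa using this

lemma EA_le (h1 : ∀ b, 1 ≤ ht b) (hΛ : ∑' b, Λ b = 1) (ℓ : ℕ) (c : ℝ≥0∞) {φ : List B → ℝ≥0∞}
    (h : ∀ A, FP ht ℓ A → φ A ≤ c) : EA Λ ht ℓ φ ≤ c :=
  (EA_mono Λ ht ℓ h).trans (EA_const Λ ht h1 hΛ ℓ c).le

lemma U_le_one (h1 : ∀ b, 1 ≤ ht b) (hΛ : ∑' b, Λ b = 1) (n : ℕ) : U Λ ht n ≤ 1 := by
  have := renewal_one Λ ht h1 hΛ n
  rw [Finset.sum_range_succ'] at this
  simp only [Nat.sub_zero] at this
  have ht0 : tail Λ ht 0 = 1 := by
    rw [← hΛ, tail]
    refine tsum_congr fun b => ?_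
    rw [if_pos (by have := h1 b; omega)]
  rw [ht0, mul_one] at this
  rw [← this]
  exact le_add_self

lemma EB_mono (a n : ℕ) {φ ψ : List B → ℝ≥0∞} (h : ∀ L, a + HT ht L = n → φ L ≤ ψ L) :
    EB Λ ht a n φ ≤ EB Λ ht a n ψ := by
  refine ENNReal.tsum_le_tsum fun L => ?_
  by_cases hL : a + HT ht L = n
  · rw [if_pos hL, if_pos hL]; exact mul_le_mul_right (h L hL) _
  · rw [if_neg hL, if_neg hL]

lemma EB_le (h1 : ∀ b, 1 ≤ ht b) (hΛ : ∑' b, Λ b = 1) (a n : ℕ) (c : ℝ≥0∞)
    {φ : List B → ℝ≥0∞} (h : ∀ L, a + HT ht L = n → φ L ≤ c) : EB Λ ht a n φ ≤ c := by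
  refine (EB_mono Λ ht a n h).trans ?_
  have : EB Λ ht a n (fun _ => c) ≤ U Λ ht (n - a) * c := by
    rw [EB, U, ← ENNReal.tsum_mul_right]
    refine ENNReal.tsum_le_tsum fun L => ?_
    by_cases hL : a + HT ht L = n
    · rw [if_pos hL, if_pos (by omega)]
    · rw [if_neg hL]; exact zero_le
  refine this.trans ?_
  calc _ ≤ 1 * c := mul_le_mul_left (U_le_one Λ ht h1 hΛ _) _
    _ = c := one_mul c

/-- completion split at a first passage -/
lemma EB_split (h1 : ∀ b, 1 ≤ ht b) (ℓ : ℕ) : ∀ (a n : ℕ), a + ℓ ≤ n → ∀ F : List B → ℝ≥0∞,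
    EB Λ ht a n F ≤ EA Λ ht ℓ (fun A => EB Λ ht (a + HT ht A) n (fun L => F (A ++ L))) := by
  induction ℓ using Nat.strong_induction_on with
  | _ ℓ ih =>
    intro a n hn F
    rcases Nat.eq_zero_or_pos ℓ with rfl | hℓ
    · rw [EA_zero]; simp [HT_nil]
    · rw [EA_pos Λ ht ℓ (by omega), EB, tsum_list, if_neg (by rw [HT_nil]; omega), zero_add]
      refine ENNReal.tsum_le_tsum fun b => ?_
      have hb := h1 b
      have e : (∑' L : List B, if a + HT ht (b :: L) = n then LW Λ (b :: L) * F (b :: L) else 0)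
          = Λ b * EB Λ ht (a + ht b) n (fun L => F (b :: L)) := by
        rw [EB, ← ENNReal.tsum_mul_left]
        refine tsum_congr fun L => ?_
        rw [HT_cons, LW_cons, ← add_assoc]
        by_cases hL : a + ht b + HT ht L = n
        · rw [if_pos hL, if_pos hL, mul_assoc]
        · rw [if_neg hL, if_neg hL, mul_zero]
      rw [e]
      refine mul_le_mul_right ?_ _
      by_cases hbn : a + ht b ≤ n
      · refine (ih (ℓ - ht b) (by omega) (a + ht b) n (by omega) _).trans ?_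
        refine EA_mono Λ ht _ fun A _ => ?_
        rw [HT_cons, ← add_assoc]
        rfl
      · have : EB Λ ht (a + ht b) n (fun L => F (b :: L)) = 0 := by
          rw [EB]
          refine ENNReal.tsum_eq_zero.2 fun L => ?_
          rw [if_neg (by omega)]
        rw [this]; exact zero_le

/-- first passage split at a smaller level -/
lemma EA_split (h1 : ∀ b, 1 ≤ ht b) (T : ℕ) : ∀ ℓ : ℕ, T ≤ ℓ → ∀ φ : List B → ℝ≥0∞,
    EA Λ ht ℓ φ = EA Λ ht T (fun P => EA Λ ht (ℓ - HT ht P) (fun A => φ (P ++ A))) := by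
  induction T using Nat.strong_induction_on with
  | _ T ih =>
    intro ℓ hT φ
    rcases Nat.eq_zero_or_pos T with rfl | hT0
    · rw [EA_zero]; simp [HT_nil]
    · rw [EA_pos Λ ht T (by omega), EA_pos Λ ht ℓ (by omega)]
      refine tsum_congr fun b => ?_
      have hb := h1 b
      congr 1
      rw [ih (T - ht b) (by omega) (ℓ - ht b) (by omega)]
      refine EA_congr Λ ht _ fun P _ => ?_
      rw [HT_cons, Nat.sub_sub]
      rfl

/-- overshoot -/
lemma over_le (h1 : ∀ b, 1 ≤ ht b) (hΛ : ∑' b, Λ b = 1) (i0 : ℕ) (ℓ : ℕ) :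
    EA Λ ht ℓ (fun A => if ℓ + i0 < HT ht A then 1 else 0)
      ≤ ∑ y ∈ Finset.range ℓ, tail Λ ht (y + 1 + i0) := by
  induction ℓ using Nat.strong_induction_on with
  | _ ℓ ih =>
    rcases Nat.eq_zero_or_pos ℓ with rfl | hℓ
    · rw [EA_zero]; simp [HT_nil]
    · obtain ⟨l, rfl⟩ : ∃ l, ℓ = l + 1 := ⟨ℓ - 1, by omega⟩
      rw [EA_pos Λ ht (l + 1) (by omega), Finset.sum_range_succ]
      have key : ∀ b, Λ b * EA Λ ht (l + 1 - ht b)
          (fun A => if l + 1 + i0 < HT ht (b :: A) then (1 : ℝ≥0∞) else 0)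
          ≤ Λ b * ∑ y ∈ Finset.range l, tail Λ ht (y + 1 + i0)
            + (if l + 1 + i0 < ht b then Λ b else 0) := by
        intro b
        have hb := h1 b
        by_cases hbl : ht b ≤ l + 1
        · refine le_add_right (mul_le_mul_right ?_ _)
          refine le_trans ?_ ((ih (l + 1 - ht b) (by omega)).trans
            (Finset.sum_le_sum_of_subset (Finset.range_mono (by omega))))
          refine EA_mono Λ ht _ fun A _ => ?_
          rw [HT_cons]
          by_cases h : l + 1 + i0 < ht b + HT ht A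
          · rw [if_pos h, if_pos (by omega)]
          · rw [if_neg h]; exact zero_le
        · have e : l + 1 - ht b = 0 := by omega
          rw [e, EA_zero]
          simp only [HT_cons, HT_nil, add_zero]
          by_cases h : l + 1 + i0 < ht b
          · rw [if_pos h, if_pos h, mul_one]; exact le_add_self
          · rw [if_neg h, mul_zero]; exact zero_le
      refine (ENNReal.tsum_le_tsum key).trans ?_
      rw [ENNReal.tsum_add, ENNReal.tsum_mul_right, hΛ, one_mul]
      exact le_of_eq rfl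

/-- uniform overshoot bound -/
noncomputable def rho (i0 : ℕ) : ℝ≥0∞ := ∑' y, tail Λ ht (y + (i0 + 1))

lemma over_le' (h1 : ∀ b, 1 ≤ ht b) (hΛ : ∑' b, Λ b = 1) (i0 : ℕ) (ℓ : ℕ) :
    EA Λ ht ℓ (fun A => if ℓ + i0 < HT ht A then 1 else 0) ≤ rho Λ ht i0 := by
  refine (over_le Λ ht h1 hΛ i0 ℓ).trans ?_
  rw [rho]
  refine le_trans (le_of_eq ?_) (ENNReal.sum_le_tsum (Finset.range ℓ))
  refine Finset.sum_congr rfl fun y _ => ?_
  rw [show y + 1 + i0 = y + (i0 + 1) by ring]

lemma rho_tendsto (hΛ : ∑' b, Λ b = 1) (hm : ∑' b, Λ b * (ht b : ℝ≥0∞) ≠ ⊤) :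
    Tendsto (rho Λ ht) atTop (𝓝 0) := by
  rw [sum_tail Λ ht hΛ] at hm
  have := ENNReal.tendsto_sum_nat_add (tail Λ ht) hm
  exact this.comp (tendsto_add_atTop_nat 1)

variable [AddCommGroup G] (z : B → G)

/-- displacement -/
def Dp (z : B → G) (L : List B) : G := (L.map z).sum

lemma Dp_nil : Dp z [] = 0 := by simp [Dp]
lemma Dp_cons (b : B) (L : List B) : Dp z (b :: L) = z b + Dp z L := by simp [Dp]
lemma Dp_append (L L' : List B) : Dp z (L ++ L') = Dp z L + Dp z L' := by simp [Dp]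

/-- law of (overshoot, displacement) at the first passage -/
noncomputable def F (ℓ i : ℕ) (x : G) : ℝ≥0∞ :=
  EA Λ ht ℓ (fun A => if HT ht A = ℓ + i ∧ Dp z A = x then 1 else 0)

/-- push forward -/
lemma EA_push (ℓ : ℕ) (φ : ℕ → G → ℝ≥0∞) :
    EA Λ ht ℓ (fun A => φ (HT ht A) (Dp z A)) = ∑' i, ∑' x, F Λ ht z ℓ i x * φ (ℓ + i) x := by
  have e : ∀ i x, F Λ ht z ℓ i x * φ (ℓ + i) x
      = EA Λ ht ℓ (fun A => if HT ht A = ℓ + i ∧ Dp z A = x then φ (ℓ + i) x else 0) := by
    intro i x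
    rw [F, mul_comm, ← EA_mul_left]
    refine EA_congr Λ ht ℓ fun A _ => ?_
    by_cases h : HT ht A = ℓ + i ∧ Dp z A = x
    · rw [if_pos h, if_pos h, mul_one]
    · rw [if_neg h, if_neg h, mul_zero]
  simp_rw [e]
  simp_rw [← EA_tsum]
  refine EA_congr Λ ht ℓ fun A hA => ?_
  have hle := FP_le ht ℓ A hA
  rw [tsum_eq_single (HT ht A - ℓ), tsum_eq_single (Dp z A)]
  · rw [if_pos ⟨by omega, rfl⟩, show ℓ + (HT ht A - ℓ) = HT ht A by omega]
  · intro x hx
    rw [if_neg (fun h => hx h.2.symm)]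
  · intro i hi
    refine ENNReal.tsum_eq_zero.2 fun x => ?_
    rw [if_neg (fun h => hi (by omega))]

lemma F_sum (h1 : ∀ b, 1 ≤ ht b) (hΛ : ∑' b, Λ b = 1) (ℓ : ℕ) :
    ∑' i, ∑' x, F Λ ht z ℓ i x = 1 := by
  have := EA_push Λ ht z ℓ (fun _ _ => 1)
  rw [EA_one Λ ht h1 hΛ] at this
  simpa using this.symm

lemma F_sum_le (h1 : ∀ b, 1 ≤ ht b) (hΛ : ∑' b, Λ b = 1) (ℓ i : ℕ) :
    ∑' x, F Λ ht z ℓ i x ≤ 1 := by
  rw [← F_sum Λ ht z h1 hΛ ℓ]
  exact ENNReal.le_tsum i

/-- recursion of the first passage law -/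
lemma F_rec (h1 : ∀ b, 1 ≤ ht b) (T ℓ : ℕ) (hT : T ≤ ℓ) (i : ℕ) (x : G) :
    F Λ ht z ℓ i x = ∑' i', ∑' x', F Λ ht z T i' x' *
      (if T + i' ≤ ℓ then F Λ ht z (ℓ - (T + i')) i (x - x')
        else if T + i' = ℓ + i ∧ x' = x then 1 else 0) := by
  rw [← EA_push Λ ht z T (fun h x' => if h ≤ ℓ then F Λ ht z (ℓ - h) i (x - x')
        else if h = ℓ + i ∧ x' = x then 1 else 0), F, EA_split Λ ht h1 T ℓ hT]
  refine EA_congr Λ ht T fun P _ => ?_
  by_cases hP : HT ht P ≤ ℓ
  · rw [if_pos hP, F]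
    refine EA_congr Λ ht _ fun A _ => ?_
    rw [HT_append, Dp_append]
    refine if_congr ⟨fun h => ⟨by omega, ?_⟩, fun h => ⟨by omega, ?_⟩⟩ rfl rfl
    · rw [← h.2]; abel
    · rw [h.2]; abel
  · rw [if_neg hP, show ℓ - HT ht P = 0 by omega, EA_zero, List.append_nil]

lemma shift_sum (f : G → ℝ≥0∞) (v : G) : ∑' x, f (x - v) = ∑' x, f x :=
  (Equiv.subRight v).tsum_eq f

lemma shift_sum' (f : G → ℝ≥0∞) (v : G) : ∑' x, f (v - x) = ∑' x, f x :=
  (Equiv.subLeft v).tsum_eq f

lemma far_le (h1 : ∀ b, 1 ≤ ht b) (hΛ : ∑' b, Λ b = 1) (i0 T : ℕ) :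
    ∑' i, ∑' x, (if i0 < i then F Λ ht z T i x else 0) ≤ rho Λ ht i0 := by
  refine le_trans (le_of_eq ?_) (over_le' Λ ht h1 hΛ i0 T)
  rw [EA_push Λ ht z T (fun h _ => if T + i0 < h then 1 else 0)]
  refine tsum_congr fun i => tsum_congr fun x => ?_
  by_cases h : i0 < i
  · rw [if_pos h, if_pos (by omega), mul_one]
  · rw [if_neg h, if_neg (by omega), mul_zero]

/-- **smooth density** of the first passage law -/
theorem dens (h1 : ∀ b, 1 ≤ ht b) (hΛ : ∑' b, Λ b = 1) (T i0 : ℕ) (th q : ℝ≥0∞) (hq1 : q ≤ 1)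
    (hq : ∑' i, ∑' x, (if i ≤ i0 ∧ th < F Λ ht z T i x then F Λ ht z T i x else 0) ≤ q)
    (J : ℕ) : ∀ ℓ, J * (T + i0) ≤ ℓ → ∃ Ag Bb : ℕ → G → ℝ≥0∞,
      (∀ i x, F Λ ht z ℓ i x ≤ Ag i x + Bb i x) ∧ (∀ i x, Ag i x ≤ J * ((i0 + 1) * th)) ∧
      ∑' i, ∑' x, Bb i x ≤ q ^ J + J * rho Λ ht i0 := by
  induction J with
  | zero =>
    intro ℓ _
    refine ⟨fun _ _ => 0, F Λ ht z ℓ, fun i x => by simp, fun i x => by simp, ?_⟩
    rw [F_sum Λ ht z h1 hΛ]; simp
  | succ J ih =>
    intro ℓ hℓ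
    choose! Ag Bb hih using ih
    have hTi : T + i0 ≤ ℓ := by nlinarith
    have hsub : ∀ i', i' ≤ i0 → J * (T + i0) ≤ ℓ - (T + i') := by
      intro i' hi'
      have : (J + 1) * (T + i0) = J * (T + i0) + (T + i0) := by ring
      omega
    set p : ℕ → G → ℝ≥0∞ := F Λ ht z T with hp
    set K : ℕ → G → ℕ → G → ℝ≥0∞ := fun i' x' i x =>
      (if T + i' ≤ ℓ then F Λ ht z (ℓ - (T + i')) i (x - x')
        else if T + i' = ℓ + i ∧ x' = x then 1 else 0) with hK
    have hK1 : ∀ i' x', ∑' i, ∑' x, K i' x' i x ≤ 1 := by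
      intro i' x'
      by_cases h : T + i' ≤ ℓ
      · simp only [hK, if_pos h]
        rw [show (∑' i, ∑' x, F Λ ht z (ℓ - (T + i')) i (x - x'))
          = ∑' i, ∑' x, F Λ ht z (ℓ - (T + i')) i x from
          tsum_congr fun i => shift_sum (fun x => F Λ ht z (ℓ - (T + i')) i x) x',
          F_sum Λ ht z h1 hΛ]
      · simp only [hK, if_neg h]
        rw [tsum_eq_single (T + i' - ℓ), tsum_eq_single x']
        · split_ifs <;> simp
        · intro x hx; rw [if_neg (fun h' => hx h'.2.symm)]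
        · intro i hi
          refine ENNReal.tsum_eq_zero.2 fun x => ?_
          rw [if_neg (fun h' => hi (by omega))]
    refine ⟨fun i x => (∑' i', ∑' x', if i' ≤ i0 ∧ th < p i' x' then
        p i' x' * Ag (ℓ - (T + i')) i (x - x') else 0)
        + ∑' i', ∑' x', if i' ≤ i0 ∧ p i' x' ≤ th then
          th * F Λ ht z (ℓ - (T + i')) i (x - x') else 0,
      fun i x => (∑' i', ∑' x', if i' ≤ i0 ∧ th < p i' x' then
        p i' x' * Bb (ℓ - (T + i')) i (x - x') else 0)
        + ∑' i', ∑' x', if i0 < i' then p i' x' * K i' x' i x else 0, ?_, ?_, ?_⟩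
    · intro i x
      rw [F_rec Λ ht z h1 T ℓ (by omega)]
      simp only [← ENNReal.tsum_add]
      refine ENNReal.tsum_le_tsum fun i' => ENNReal.tsum_le_tsum fun x' => ?_
      change p i' x' * K i' x' i x ≤ _
      by_cases hi : i0 < i'
      · simp only [if_pos hi]
        exact le_add_self.trans (le_add_self)
      · have hi' : i' ≤ i0 := not_lt.1 hi
        have eK : K i' x' i x = F Λ ht z (ℓ - (T + i')) i (x - x') := by
          simp only [hK]; rw [if_pos (by omega)]
        rw [eK]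
        by_cases hth : th < p i' x'
        · rw [if_pos ⟨hi', hth⟩, if_neg (fun h => absurd hth (not_lt.2 h.2)),
            if_pos ⟨hi', hth⟩, if_neg hi, add_zero, add_zero, ← mul_add]
          exact mul_le_mul_right ((hih _ (hsub i' hi')).1 _ _) _
        · have hth' := not_lt.1 hth
          rw [if_neg (fun h => hth h.2), if_pos ⟨hi', hth'⟩, if_neg (fun h => hth h.2), if_neg hi,
            add_zero, add_zero, zero_add]
          exact mul_le_mul_left hth' _
    · intro i x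
      have e1 : (∑' i', ∑' x', if i' ≤ i0 ∧ th < p i' x' then
          p i' x' * Ag (ℓ - (T + i')) i (x - x') else 0) ≤ J * ((i0 + 1) * th) := by
        calc _ ≤ ∑' i', ∑' x', p i' x' * (J * ((i0 + 1) * th)) := by
              refine ENNReal.tsum_le_tsum fun i' => ENNReal.tsum_le_tsum fun x' => ?_
              by_cases h : i' ≤ i0 ∧ th < p i' x'
              · rw [if_pos h]
                exact mul_le_mul_right ((hih _ (hsub i' h.1)).2.1 _ _) _
              · rw [if_neg h]; exact zero_le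
          _ = _ := by
              simp_rw [ENNReal.tsum_mul_right]
              rw [F_sum Λ ht z h1 hΛ, one_mul]
      have e2 : (∑' i', ∑' x', if i' ≤ i0 ∧ p i' x' ≤ th then
          th * F Λ ht z (ℓ - (T + i')) i (x - x') else 0) ≤ (i0 + 1) * th := by
        calc _ ≤ ∑' i', (if i' ≤ i0 then th else 0) := by
              refine ENNReal.tsum_le_tsum fun i' => ?_
              by_cases h : i' ≤ i0
              · rw [if_pos h]
                calc _ ≤ ∑' x', th * F Λ ht z (ℓ - (T + i')) i (x - x') := by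
                      refine ENNReal.tsum_le_tsum fun x' => ?_
                      split_ifs
                      · exact le_refl _
                      · exact zero_le
                  _ = th * ∑' x', F Λ ht z (ℓ - (T + i')) i x' := by
                      rw [ENNReal.tsum_mul_left,
                        shift_sum' (fun x => F Λ ht z (ℓ - (T + i')) i x) x]
                  _ ≤ th * 1 := mul_le_mul_right (F_sum_le Λ ht z h1 hΛ _ _) _
                  _ = th := mul_one th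
              · rw [if_neg h]
                refine le_of_eq (ENNReal.tsum_eq_zero.2 fun x' => ?_)
                rw [if_neg (fun h' => h h'.1)]
          _ = ∑ i' ∈ Finset.range (i0 + 1), th := by
              rw [tsum_eq_sum (s := Finset.range (i0 + 1))]
              · refine Finset.sum_congr rfl fun i' hi' => ?_
                rw [if_pos (by have := Finset.mem_range.1 hi'; omega)]
              · intro i' hi'
                rw [if_neg (by rw [Finset.mem_range] at hi'; omega)]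
          _ = (i0 + 1) * th := by simp
      calc _ ≤ J * ((i0 + 1) * th) + (i0 + 1) * th := add_le_add e1 e2
        _ = _ := by push_cast; ring
    · simp only [ENNReal.tsum_add]
      have e1 : ∑' i, ∑' x, (∑' i', ∑' x', if i' ≤ i0 ∧ th < p i' x' then
          p i' x' * Bb (ℓ - (T + i')) i (x - x') else 0) ≤ q * (q ^ J + J * rho Λ ht i0) := by
        calc _ = ∑' i', ∑' x', ∑' i, ∑' x, (if i' ≤ i0 ∧ th < p i' x' then
              p i' x' * Bb (ℓ - (T + i')) i (x - x') else 0) := by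
              rw [show (∑' i, ∑' x, (∑' i', ∑' x', if i' ≤ i0 ∧ th < p i' x' then
                p i' x' * Bb (ℓ - (T + i')) i (x - x') else 0))
                = ∑' i, ∑' i', ∑' x, ∑' x', (if i' ≤ i0 ∧ th < p i' x' then
                p i' x' * Bb (ℓ - (T + i')) i (x - x') else 0) from
                tsum_congr fun i => ENNReal.tsum_comm]
              rw [ENNReal.tsum_comm]
              refine tsum_congr fun i' => ?_
              rw [show (∑' i, ∑' x, ∑' x', (if i' ≤ i0 ∧ th < p i' x' then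
                p i' x' * Bb (ℓ - (T + i')) i (x - x') else 0))
                = ∑' i, ∑' x', ∑' x, (if i' ≤ i0 ∧ th < p i' x' then
                p i' x' * Bb (ℓ - (T + i')) i (x - x') else 0) from
                tsum_congr fun i => ENNReal.tsum_comm]
              rw [ENNReal.tsum_comm]
          _ ≤ ∑' i', ∑' x', (if i' ≤ i0 ∧ th < p i' x' then p i' x' else 0)
                * (q ^ J + J * rho Λ ht i0) := by
              refine ENNReal.tsum_le_tsum fun i' => ENNReal.tsum_le_tsum fun x' => ?_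
              by_cases h : i' ≤ i0 ∧ th < p i' x'
              · simp only [if_pos h, ENNReal.tsum_mul_left]
                refine mul_le_mul_right ?_ _
                rw [show (∑' i, ∑' x, Bb (ℓ - (T + i')) i (x - x'))
                  = ∑' i, ∑' x, Bb (ℓ - (T + i')) i x from
                  tsum_congr fun i => shift_sum (fun x => Bb (ℓ - (T + i')) i x) x']
                exact (hih _ (hsub i' h.1)).2.2
              · simp [if_neg h]
          _ = (∑' i', ∑' x', (if i' ≤ i0 ∧ th < p i' x' then p i' x' else 0))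
                * (q ^ J + J * rho Λ ht i0) := by
              simp_rw [ENNReal.tsum_mul_right]
          _ ≤ _ := mul_le_mul_left hq _
      have e2 : ∑' i, ∑' x, (∑' i', ∑' x', if i0 < i' then p i' x' * K i' x' i x else 0)
          ≤ rho Λ ht i0 := by
        calc _ = ∑' i', ∑' x', ∑' i, ∑' x, (if i0 < i' then p i' x' * K i' x' i x else 0) := by
              rw [show (∑' i, ∑' x, (∑' i', ∑' x', if i0 < i' then
                p i' x' * K i' x' i x else 0))
                = ∑' i, ∑' i', ∑' x, ∑' x', (if i0 < i' then p i' x' * K i' x' i x else 0) from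
                tsum_congr fun i => ENNReal.tsum_comm]
              rw [ENNReal.tsum_comm]
              refine tsum_congr fun i' => ?_
              rw [show (∑' i, ∑' x, ∑' x', (if i0 < i' then p i' x' * K i' x' i x else 0))
                = ∑' i, ∑' x', ∑' x, (if i0 < i' then p i' x' * K i' x' i x else 0) from
                tsum_congr fun i => ENNReal.tsum_comm]
              rw [ENNReal.tsum_comm]
          _ ≤ ∑' i', ∑' x', (if i0 < i' then p i' x' else 0) := by
              refine ENNReal.tsum_le_tsum fun i' => ENNReal.tsum_le_tsum fun x' => ?_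
              by_cases h : i0 < i'
              · simp only [if_pos h, ENNReal.tsum_mul_left]
                calc _ ≤ p i' x' * 1 := mul_le_mul_right (hK1 i' x') _
                  _ = _ := mul_one _
              · simp [if_neg h]
          _ ≤ _ := far_le Λ ht z h1 hΛ i0 T
      calc _ ≤ q * (q ^ J + J * rho Λ ht i0) + rho Λ ht i0 := add_le_add e1 e2
        _ = q ^ (J + 1) + q * (J * rho Λ ht i0) + rho Λ ht i0 := by rw [mul_add, pow_succ]; ring
        _ ≤ q ^ (J + 1) + 1 * (J * rho Λ ht i0) + rho Λ ht i0 := by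
              gcongr
        _ = _ := by push_cast; ring

end Crest.Agent.R154.AsmR667
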