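import Crest.Agent.R154.B5Abs_566

/-! Row 154, ROAD 801: the abstract assembly, part 1 (helper738): first passage lists, split, sums. -/

set_option autoImplicit false

open scoped ENNReal
open Crest.Agent.R154.B5A (LW HT LW_nil LW_cons LW_append HT_nil HT_cons HT_append tsum_list U)

namespace Crest.Agent.R154.Asm738

variable {B G : Type*} [AddCommGroup G]

/-- displacement -/
def Dp (z : B → G) (L : List B) : G := (L.map z).sum

lemma Dp_nil (z : B → G) : Dp z [] = 0 := by simp [Dp]
lemma Dp_cons (z : B → G) (b : B) (L : List B) : Dp z (b :: L) = z b + Dp z L := by simp [Dp]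
lemma Dp_append (z : B → G) (L L' : List B) : Dp z (L ++ L') = Dp z L + Dp z L' := by simp [Dp]

/-- sites read by a list -/
def TX (h : B → ℕ) (z : B → G) (s : B → Set (G × ℕ)) : List B → G → ℕ → Set (G × ℕ)
  | [], _, _ => ∅
  | b :: L, x, a => {p | ∃ q ∈ s b, p = (x + q.1, a + q.2)} ∪ TX h z s L (x + z b) (a + h b)

lemma TX_append (h : B → ℕ) (z : B → G) (s : B → Set (G × ℕ)) (L L' : List B) (x : G) (a : ℕ) :
    TX h z s (L ++ L') x a = TX h z s L x a ∪ TX h z s L' (x + Dp z L) (a + HT h L) := by
  induction L generalizing x a with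
  | nil => simp [TX, Dp_nil, HT_nil]
  | cons b L ih =>
    simp only [List.cons_append, TX, Dp_cons, HT_cons]
    rw [ih, Set.union_assoc, add_assoc, add_assoc]

lemma TX_depth (h : B → ℕ) (z : B → G) (s : B → Set (G × ℕ))
    (hs : ∀ b, ∀ q ∈ s b, 1 ≤ q.2 ∧ q.2 ≤ h b) (L : List B) (x : G) (a : ℕ) (p : G × ℕ)
    (hp : p ∈ TX h z s L x a) : a < p.2 ∧ p.2 ≤ a + HT h L := by
  induction L generalizing x a with
  | nil => exact absurd hp (by simp [TX])
  | cons b L ih =>
    rw [HT_cons]
    rcases hp with ⟨q, hq, rfl⟩ | hp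
    · have := hs b q hq
      simp only
      omega
    · have := ih _ _ hp
      omega

lemma TX_shift (h : B → ℕ) (z : B → G) (s : B → Set (G × ℕ)) (L : List B) (x y : G) (a : ℕ)
    (p : G × ℕ) : p ∈ TX h z s L (x + y) a ↔ (p.1 - x, p.2) ∈ TX h z s L y a := by
  induction L generalizing y a with
  | nil => simp [TX]
  | cons b L ih =>
    simp only [TX, Set.mem_union, Set.mem_ofPred_eq]
    rw [add_assoc x y (z b), ih]
    refine or_congr ?_ Iff.rfl
    constructor
    · rintro ⟨q, hq, rfl⟩
      refine ⟨q, hq, ?_⟩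
      ext <;> simp <;> abel
    · rintro ⟨q, hq, e⟩
      refine ⟨q, hq, ?_⟩
      have e1 : p.1 - x = y + q.1 := congrArg Prod.fst e
      have e2 : p.2 = a + q.2 := congrArg Prod.snd e
      ext
      · simp only
        rw [add_assoc, ← e1]; abel
      · simpa using e2

/-- first passage: the list reaches height `a` at its last block -/
def FP (h : B → ℕ) : List B → ℕ → Prop
  | [], a => a = 0
  | b :: L, a => a ≠ 0 ∧ FP h L (a - h b)

lemma FP_ge (h : B → ℕ) (L : List B) (a : ℕ) (hL : FP h L a) : a ≤ HT h L := by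
  induction L generalizing a with
  | nil => have : a = 0 := hL; omega
  | cons b L ih => rw [HT_cons]; have := ih _ hL.2; omega

lemma FP_split (h : B → ℕ) (L : List B) (a : ℕ) (hL : a ≤ HT h L) :
    ∃ A R, L = A ++ R ∧ FP h A a := by
  induction L generalizing a with
  | nil => rw [HT_nil] at hL; exact ⟨[], [], rfl, by change a = 0; omega⟩
  | cons b L ih =>
    rw [HT_cons] at hL
    by_cases h0 : a = 0
    · exact ⟨[], b :: L, rfl, h0⟩
    · obtain ⟨A, R, e, hA⟩ := ih (a - h b) (by omega)
      exact ⟨b :: A, R, by rw [e]; rfl, h0, hA⟩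

lemma FP_mid (h : B → ℕ) (A : List B) (a T : ℕ) (hT : T ≤ a) (hA : FP h A a) :
    ∃ P A', A = P ++ A' ∧ FP h P T ∧ FP h A' (a - HT h P) := by
  induction A generalizing a T with
  | nil =>
    have : a = 0 := hA
    exact ⟨[], [], rfl, by change T = 0; omega, by change a - HT h [] = 0; omega⟩
  | cons b A ih =>
    by_cases h0 : T = 0
    · exact ⟨[], b :: A, rfl, h0, by rw [HT_nil]; exact hA⟩
    · obtain ⟨P, A', e, hP, hA'⟩ := ih (a - h b) (T - h b) (by omega) hA.2
      refine ⟨b :: P, A', by rw [e]; rfl, ⟨h0, hP⟩, ?_⟩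
      rw [HT_cons]
      have e2 : a - (h b + HT h P) = a - h b - HT h P := by omega
      rw [e2]; exact hA'

open Classical in
lemma sum_FP (Λ : B → ℝ≥0∞) (h : B → ℕ) (h1 : ∀ b, 1 ≤ h b) (hΛ : ∑' b, Λ b = 1) (a : ℕ) :
    ∑' L, (if FP h L a then LW Λ L else 0) = 1 := by
  induction a using Nat.strong_induction_on with
  | _ a ih =>
    rw [tsum_list]
    by_cases h0 : a = 0
    · subst h0
      simp [FP, LW_nil]
    · have e0 : (if FP h ([] : List B) a then LW Λ [] else 0) = 0 := if_neg h0
      rw [e0, zero_add]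
      have : ∀ b, (∑' L, if FP h (b :: L) a then LW Λ (b :: L) else 0) = Λ b := by
        intro b
        have e1 : ∀ L, (if FP h (b :: L) a then LW Λ (b :: L) else 0)
            = Λ b * (if FP h L (a - h b) then LW Λ L else 0) := by
          intro L
          rw [LW_cons]
          by_cases hL : FP h L (a - h b)
          · rw [if_pos hL, if_pos (show FP h (b :: L) a from ⟨h0, hL⟩)]
          · rw [if_neg hL, if_neg (fun hh : FP h (b :: L) a => hL hh.2), mul_zero]
        simp_rw [e1]
        rw [ENNReal.tsum_mul_left, ih (a - h b) (by have := h1 b; omega), mul_one]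
      simp_rw [this, hΛ]

/-- sum over the objects which come from a parameter -/
lemma tsum_exists_le {σ τ : Type*} (φ : τ → σ) (c : τ → Prop) (F : σ → ℝ≥0∞)
    [∀ L, Decidable (∃ t, φ t = L ∧ c t)] [∀ t, Decidable (c t)] :
    ∑' L, (if ∃ t, φ t = L ∧ c t then F L else 0) ≤ ∑' t, (if c t then F (φ t) else 0) := by
  have h1 : ∑' L, (if ∃ t, φ t = L ∧ c t then F L else 0)
      = ∑' L : {L : σ // ∃ t, φ t = L ∧ c t}, F L.1 := by
    refine Eq.trans ?_ (tsum_subtype {L : σ | ∃ t, φ t = L ∧ c t} F).symm
    refine tsum_congr fun L => ?_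
    by_cases h : ∃ t, φ t = L ∧ c t
    · rw [if_pos h, Set.indicator_of_mem (show L ∈ {L | ∃ t, φ t = L ∧ c t} from h)]
    · rw [if_neg h, Set.indicator_of_notMem (show L ∉ {L | ∃ t, φ t = L ∧ c t} from h)]
  rw [h1]
  let g : {L : σ // ∃ t, φ t = L ∧ c t} → τ := fun L => L.2.choose
  have hg : ∀ L, φ (g L) = L.1 ∧ c (g L) := fun L => L.2.choose_spec
  have hinj : Function.Injective g := fun L L' e => Subtype.ext (by
    rw [← (hg L).1, ← (hg L').1, e])
  refine le_trans (le_of_eq ?_) (ENNReal.tsum_comp_le_tsum_of_injective hinj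
    (fun t => if c t then F (φ t) else 0))
  refine tsum_congr fun L => ?_
  rw [if_pos (hg L).2, (hg L).1]

open Classical in
/-- overshoot -/
lemma over_le (Λ : B → ℝ≥0∞) (h : B → ℕ) (h1 : ∀ b, 1 ≤ h b) (hU : ∀ n, U Λ h n ≤ 1) (a i0 : ℕ) :
    ∑' L, (if FP h L a ∧ a + i0 < HT h L then LW Λ L else 0) ≤ ∑' b, Λ b * ((h b - i0 : ℕ) : ℝ≥0∞) := by
  have hlast : ∀ L a, FP h L a → a + i0 < HT h L →
      ∃ t : List B × B, t.1 ++ [t.2] = L ∧ (HT h t.1 < a ∧ a + i0 < HT h t.1 + h t.2) := by
    intro L
    induction L with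
    | nil => intro a hL hh; rw [HT_nil] at hh; omega
    | cons b L ih =>
      intro a hL hh
      rw [HT_cons] at hh
      have h0 := hL.1
      by_cases hb : a ≤ h b
      · have e : a - h b = 0 := by omega
        have h2 := hL.2
        rw [e] at h2
        have hn : L = [] := by
          cases L with
          | nil => rfl
          | cons c L => exact absurd rfl h2.1
        subst hn
        rw [HT_nil] at hh
        refine ⟨([], b), rfl, ?_, ?_⟩
        · simp only [HT_nil]; omega
        · simp only [HT_nil]; omega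
      · obtain ⟨t, e, h3, h4⟩ := ih (a - h b) hL.2 (by omega)
        refine ⟨(b :: t.1, t.2), by rw [← e]; rfl, ?_, ?_⟩
        · simp only [HT_cons]; omega
        · simp only [HT_cons]; omega
  calc ∑' L, (if FP h L a ∧ a + i0 < HT h L then LW Λ L else 0)
      ≤ ∑' L, (if ∃ t : List B × B, t.1 ++ [t.2] = L ∧ (HT h t.1 < a ∧ a + i0 < HT h t.1 + h t.2)
          then LW Λ L else 0) := by
        refine ENNReal.tsum_le_tsum fun L => ?_
        by_cases hL : FP h L a ∧ a + i0 < HT h L
        · rw [if_pos hL, if_pos (hlast L a hL.1 hL.2)]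
        · rw [if_neg hL]; exact zero_le
    _ ≤ ∑' t : List B × B, (if HT h t.1 < a ∧ a + i0 < HT h t.1 + h t.2
          then LW Λ (t.1 ++ [t.2]) else 0) :=
        tsum_exists_le (fun t : List B × B => t.1 ++ [t.2])
          (fun t => HT h t.1 < a ∧ a + i0 < HT h t.1 + h t.2) _
    _ = ∑' b, ∑' L, (if HT h L < a ∧ a + i0 < HT h L + h b then LW Λ L * Λ b else 0) := by
        rw [ENNReal.tsum_prod', ENNReal.tsum_comm]
        refine tsum_congr fun b => tsum_congr fun L => ?_
        rw [LW_append, LW_cons, LW_nil, mul_one]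
    _ ≤ ∑' b, Λ b * ((h b - i0 : ℕ) : ℝ≥0∞) := by
        refine ENNReal.tsum_le_tsum fun b => ?_
        have e1 : ∀ L, (if HT h L < a ∧ a + i0 < HT h L + h b then LW Λ L * Λ b else 0)
            = Λ b * ∑ k ∈ (Finset.range a).filter (fun k => a + i0 < k + h b),
              (if HT h L = k then LW Λ L else 0) := by
          intro L
          rw [Finset.sum_ite_eq]
          by_cases hL : HT h L < a ∧ a + i0 < HT h L + h b
          · rw [if_pos hL, if_pos (by simp [hL]), mul_comm]
          · rw [if_neg hL, if_neg (by simpa using hL), mul_zero]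
        simp_rw [e1]
        rw [ENNReal.tsum_mul_left, Summable.tsum_finsetSum (fun _ _ => ENNReal.summable)]
        refine mul_le_mul_right ?_ _
        calc _ ≤ ∑ k ∈ (Finset.range a).filter (fun k => a + i0 < k + h b), (1 : ℝ≥0∞) :=
              Finset.sum_le_sum fun k _ => hU k
          _ = (((Finset.range a).filter (fun k => a + i0 < k + h b)).card : ℝ≥0∞) := by simp
          _ ≤ _ := by
              refine Nat.cast_le.2 ?_
              have hsub : (Finset.range a).filter (fun k => a + i0 < k + h b)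
                  ⊆ Finset.Ico (a - (h b - i0)) a := by
                intro k hk
                simp only [Finset.mem_filter, Finset.mem_range, Finset.mem_Ico] at hk ⊢
                omega
              refine (Finset.card_le_card hsub).trans ?_
              rw [Nat.card_Ico]
              omega

end Crest.Agent.R154.Asm738
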