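import Crest.Agent.R154.B5Abs_566

/-! Row 154 (helper746): first passage decomposition of block lists. -/

set_option autoImplicit false

namespace Crest.Agent.R154.Asm746

open scoped ENNReal
open Crest.Agent.R154.B5A

variable {B : Type*}

/-- first passage of height `a` -/
def FP (ht : B → ℕ) : ℕ → List B → Prop
  | a, [] => a = 0
  | a, b :: L => 0 < a ∧ FP ht (a - ht b) L

lemma FP_le_HT (ht : B → ℕ) (L : List B) : ∀ a, FP ht a L → a ≤ HT ht L := by
  induction L with
  | nil => intro a h; simp only [FP] at h; omega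
  | cons b L ih =>
    intro a h
    simp only [FP] at h
    have := ih _ h.2
    rw [HT_cons]; omega

open Classical in
lemma tsum_FP_split (ht : B → ℕ) (h1 : ∀ b, 1 ≤ ht b) (a : ℕ) : ∀ F : List B → ℝ≥0∞,
    ∑' L, (if a ≤ HT ht L then F L else 0)
      = ∑' L1, if FP ht a L1 then ∑' L2, F (L1 ++ L2) else 0 := by
  induction a using Nat.strong_induction_on with
  | _ a ih =>
    intro F
    rcases Nat.eq_zero_or_pos a with h0 | h0
    · subst h0
      rw [tsum_eq_single (f := fun L1 => if FP ht 0 L1 then ∑' L2, F (L1 ++ L2) else 0) []]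
      · simp [FP]
      · intro L hL
        cases L with
        | nil => exact absurd rfl hL
        | cons b L => simp [FP]
    · rw [tsum_list, tsum_list]
      rw [if_neg (by rw [HT_nil]; omega), if_neg (by simp only [FP]; omega), zero_add, zero_add]
      refine tsum_congr fun b => ?_
      have hb := h1 b
      have := ih (a - ht b) (by omega) (fun L => F (b :: L))
      simp only [FP, HT_cons, h0, true_and, List.cons_append]
      rw [← this]
      refine tsum_congr fun L => ?_
      by_cases h : a ≤ ht b + HT ht L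
      · rw [if_pos h, if_pos (by omega)]
      · rw [if_neg h, if_neg (by omega)]

variable (Λ : B → ℝ≥0∞) (ht : B → ℕ)

open Classical in
/-- expectation over first passage lists -/
noncomputable def EF (a : ℕ) (F : List B → ℝ≥0∞) : ℝ≥0∞ :=
  ∑' L, if FP ht a L then LW Λ L * F L else 0

open Classical in
/-- sum over lists of height `n` -/
noncomputable def UF (n : ℕ) (F : List B → ℝ≥0∞) : ℝ≥0∞ :=
  ∑' L, if HT ht L = n then LW Λ L * F L else 0

lemma EF_zero (F : List B → ℝ≥0∞) : EF Λ ht 0 F = F [] := by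
  classical
  rw [EF, tsum_eq_single []]
  · simp [FP, LW_nil]
  · intro L hL
    cases L with
    | nil => exact absurd rfl hL
    | cons b L => simp [FP]

lemma EF_pos (a : ℕ) (ha : 0 < a) (F : List B → ℝ≥0∞) :
    EF Λ ht a F = ∑' b, Λ b * EF Λ ht (a - ht b) (fun L => F (b :: L)) := by
  classical
  rw [EF, tsum_list, if_neg (by simp only [FP]; omega), zero_add]
  refine tsum_congr fun b => ?_
  rw [EF, ← ENNReal.tsum_mul_left]
  refine tsum_congr fun L => ?_
  simp only [FP, ha, true_and]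
  by_cases h : FP ht (a - ht b) L
  · rw [if_pos h, if_pos h, LW_cons, mul_assoc]
  · rw [if_neg h, if_neg h, mul_zero]

lemma EF_mono (a : ℕ) {F F' : List B → ℝ≥0∞} (h : ∀ L, FP ht a L → F L ≤ F' L) :
    EF Λ ht a F ≤ EF Λ ht a F' := by
  classical
  refine ENNReal.tsum_le_tsum fun L => ?_
  by_cases hL : FP ht a L
  · simp only [hL, if_true]; exact mul_le_mul_right (h L hL) _
  · simp [hL]

lemma UF_mono (n : ℕ) {F F' : List B → ℝ≥0∞} (h : ∀ L, HT ht L = n → F L ≤ F' L) :
    UF Λ ht n F ≤ UF Λ ht n F' := by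
  classical
  refine ENNReal.tsum_le_tsum fun L => ?_
  by_cases hL : HT ht L = n
  · simp only [hL, if_true]; exact mul_le_mul_right (h L hL) _
  · simp [hL]

lemma EF_add (a : ℕ) (F F' : List B → ℝ≥0∞) :
    EF Λ ht a (fun L => F L + F' L) = EF Λ ht a F + EF Λ ht a F' := by
  classical
  rw [EF, EF, EF, ← ENNReal.tsum_add]
  refine tsum_congr fun L => ?_
  by_cases hL : FP ht a L
  · simp [hL, mul_add]
  · simp [hL]

lemma UF_add (a : ℕ) (F F' : List B → ℝ≥0∞) :
    UF Λ ht a (fun L => F L + F' L) = UF Λ ht a F + UF Λ ht a F' := by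
  classical
  rw [UF, UF, UF, ← ENNReal.tsum_add]
  refine tsum_congr fun L => ?_
  by_cases hL : HT ht L = a
  · simp [hL, mul_add]
  · simp [hL]

lemma EF_const_mul (a : ℕ) (c : ℝ≥0∞) (F : List B → ℝ≥0∞) :
    EF Λ ht a (fun L => c * F L) = c * EF Λ ht a F := by
  classical
  rw [EF, EF, ← ENNReal.tsum_mul_left]
  refine tsum_congr fun L => ?_
  by_cases hL : FP ht a L
  · simp [hL, mul_left_comm]
  · simp [hL]

lemma EF_one (h1 : ∀ b, 1 ≤ ht b) (hΛ : ∑' b, Λ b = 1) (a : ℕ) :
    EF Λ ht a (fun _ => 1) = 1 := by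
  induction a using Nat.strong_induction_on with
  | _ a ih =>
    rcases Nat.eq_zero_or_pos a with h0 | h0
    · subst h0; rw [EF_zero]
    · rw [EF_pos Λ ht a h0]
      calc _ = ∑' b, Λ b * 1 := tsum_congr fun b => by
            rw [ih (a - ht b) (by have := h1 b; omega)]
        _ = 1 := by simpa using hΛ

lemma EF_const (h1 : ∀ b, 1 ≤ ht b) (hΛ : ∑' b, Λ b = 1) (a : ℕ) (c : ℝ≥0∞) :
    EF Λ ht a (fun _ => c) = c := by
  have := EF_const_mul Λ ht a c (fun _ => 1)
  rw [EF_one Λ ht h1 hΛ a] at this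
  simpa using this

lemma EF_le_const (h1 : ∀ b, 1 ≤ ht b) (hΛ : ∑' b, Λ b = 1) (a : ℕ) (c : ℝ≥0∞)
    (F : List B → ℝ≥0∞) (hF : ∀ L, FP ht a L → F L ≤ c) : EF Λ ht a F ≤ c :=
  (EF_mono Λ ht a hF).trans (EF_const Λ ht h1 hΛ a c).le

lemma EF_split (h1 : ∀ b, 1 ≤ ht b) (s : ℕ) : ∀ (h : ℕ), s ≤ h → ∀ F : List B → ℝ≥0∞,
    EF Λ ht h F = EF Λ ht s (fun L1 => EF Λ ht (h - HT ht L1) (fun L2 => F (L1 ++ L2))) := by
  induction s using Nat.strong_induction_on with
  | _ s ih =>
    intro h hs F
    rcases Nat.eq_zero_or_pos s with h0 | h0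
    · subst h0
      rw [EF_zero Λ ht]
      simp [HT_nil]
    · rw [EF_pos Λ ht s h0, EF_pos Λ ht h (by omega)]
      refine tsum_congr fun b => ?_
      have hb := h1 b
      rw [ih (s - ht b) (by omega) (h - ht b) (by omega) (fun L => F (b :: L))]
      congr 1
      congr 1
      funext L1
      rw [HT_cons, show h - (ht b + HT ht L1) = h - ht b - HT ht L1 by omega]
      rfl

lemma UF_split (h1 : ∀ b, 1 ≤ ht b) (a n : ℕ) (han : a ≤ n) (F : List B → ℝ≥0∞) :
    UF Λ ht n F = EF Λ ht a (fun A => if HT ht A ≤ n then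
      UF Λ ht (n - HT ht A) (fun R => F (A ++ R)) else 0) := by
  classical
  have h := tsum_FP_split ht h1 a (fun L => if HT ht L = n then LW Λ L * F L else 0)
  have e : UF Λ ht n F = ∑' L, (if a ≤ HT ht L then
      (if HT ht L = n then LW Λ L * F L else 0) else 0) := by
    rw [UF]
    refine tsum_congr fun L => ?_
    by_cases hL : HT ht L = n
    · rw [if_pos hL, if_pos (by omega)]
    · rw [if_neg hL]; split_ifs <;> rfl
  rw [e, h, EF]
  refine tsum_congr fun A => ?_
  by_cases hA : FP ht a A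
  · rw [if_pos hA, if_pos hA]
    by_cases hn : HT ht A ≤ n
    · rw [if_pos hn, UF, ← ENNReal.tsum_mul_left]
      refine tsum_congr fun R => ?_
      rw [HT_append, LW_append]
      by_cases hR : HT ht R = n - HT ht A
      · rw [if_pos hR, if_pos (by omega), mul_assoc]
      · rw [if_neg hR, if_neg (by omega), mul_zero]
    · rw [if_neg hn, mul_zero]
      refine ENNReal.tsum_eq_zero.2 fun R => ?_
      rw [HT_append, if_neg (by omega)]
  · rw [if_neg hA, if_neg hA]

lemma UF_one_le (h1 : ∀ b, 1 ≤ ht b) (hΛ : ∑' b, Λ b = 1) (n : ℕ) :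
    UF Λ ht n (fun _ => 1) ≤ 1 := by
  have h := renewal_one Λ ht h1 hΛ n
  have ht0 : tail Λ ht 0 = 1 := by
    rw [← hΛ, tail]
    refine tsum_congr fun b => ?_
    rw [if_pos (by have := h1 b; omega)]
  have e : UF Λ ht n (fun _ => 1) = U Λ ht n := by
    rw [UF, U]; exact tsum_congr fun L => by simp
  rw [e, ← h]
  have := Finset.single_le_sum (f := fun k => U Λ ht (n - k) * tail Λ ht k)
    (fun _ _ => zero_le) (Finset.mem_range.2 (Nat.succ_pos n))
  simpa [ht0] using this

lemma UF_le_const (h1 : ∀ b, 1 ≤ ht b) (hΛ : ∑' b, Λ b = 1) (n : ℕ) (c : ℝ≥0∞)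
    (F : List B → ℝ≥0∞) (hF : ∀ L, HT ht L = n → F L ≤ c) : UF Λ ht n F ≤ c := by
  classical
  refine (UF_mono Λ ht n hF).trans ?_
  have e : UF Λ ht n (fun _ => c) = c * UF Λ ht n (fun _ => 1) := by
    rw [UF, UF, ← ENNReal.tsum_mul_left]
    refine tsum_congr fun L => ?_
    by_cases hL : HT ht L = n
    · simp [hL, mul_comm]
    · simp [hL]
  rw [e]
  calc c * UF Λ ht n (fun _ => 1) ≤ c * 1 := mul_le_mul_right (UF_one_le Λ ht h1 hΛ n) _
    _ = c := mul_one c

/-- overshoot bound -/
noncomputable def ep (i0 : ℕ) : ℝ≥0∞ := ∑' k, tail Λ ht (k + i0)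

lemma EF_over (h1 : ∀ b, 1 ≤ ht b) (hΛ : ∑' b, Λ b = 1) (i0 a : ℕ) :
    EF Λ ht a (fun L => if a + i0 < HT ht L then 1 else 0) ≤ ep Λ ht i0 := by
  have key : EF Λ ht a (fun L => if a + i0 < HT ht L then 1 else 0)
      ≤ ∑ k ∈ Finset.range a, tail Λ ht (k + 1 + i0) := by
    induction a using Nat.strong_induction_on with
    | _ a ih =>
      rcases Nat.eq_zero_or_pos a with h0 | h0
      · subst h0; rw [EF_zero]; simp [HT_nil]
      · rw [EF_pos Λ ht a h0]
        obtain ⟨c, rfl⟩ : ∃ c, a = c + 1 := ⟨a - 1, by omega⟩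
        rw [Finset.sum_range_succ]
        have hb : ∀ b, Λ b * EF Λ ht (c + 1 - ht b)
            (fun L => if c + 1 + i0 < HT ht (b :: L) then 1 else 0)
            ≤ Λ b * ∑ k ∈ Finset.range c, tail Λ ht (k + 1 + i0)
              + (if c + 1 + i0 < ht b then Λ b else 0) := by
          intro b
          have hb1 := h1 b
          by_cases hbc : c + 1 ≤ ht b
          · rw [show c + 1 - ht b = 0 by omega, EF_zero, HT_cons, HT_nil]
            refine le_trans ?_ le_add_self
            split_ifs with h2 h3 h3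
            · rw [mul_one]
            · omega
            · omega
            · rw [mul_zero]
          · refine le_trans ?_ le_self_add
            refine mul_le_mul_right ?_ _
            have h2 := ih (c + 1 - ht b) (by omega)
            refine le_trans (le_trans (EF_mono Λ ht _ fun L _ => ?_) h2) ?_
            · rw [HT_cons]
              split_ifs with h3 h4 h4
              · exact le_rfl
              · omega
              · exact zero_le
              · exact le_rfl
            · exact Finset.sum_le_sum_of_subset (Finset.range_mono (by omega))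
        refine (ENNReal.tsum_le_tsum hb).trans ?_
        rw [ENNReal.tsum_add, ENNReal.tsum_mul_right, hΛ, one_mul]
        exact le_rfl
  refine key.trans ?_
  rw [ep]
  calc ∑ k ∈ Finset.range a, tail Λ ht (k + 1 + i0) ≤ ∑' k, tail Λ ht (k + 1 + i0) :=
        ENNReal.sum_le_tsum _
    _ ≤ ∑' k, tail Λ ht (k + i0) :=
        ENNReal.tsum_comp_le_tsum_of_injective (f := fun k => k + 1) (add_left_injective 1)
          (fun k => tail Λ ht (k + i0))

lemma ep_tendsto (hΛ : ∑' b, Λ b = 1) (hm : ∑' b, Λ b * (ht b : ℝ≥0∞) ≠ ⊤) :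
    Filter.Tendsto (fun i0 => ep Λ ht i0) Filter.atTop (nhds 0) := by
  rw [sum_tail Λ ht hΛ] at hm
  exact ENNReal.tendsto_sum_nat_add _ hm

/-- domination of a sum over crossings by two first passages -/
lemma UF_le2 (h1 : ∀ b, 1 ≤ ht b) (hΛ : ∑' b, Λ b = 1) (a i0 T n : ℕ) (hn : a + i0 + T ≤ n)
    (F : List B → ℝ≥0∞) (hF1 : ∀ L, F L ≤ 1) (Φ : List B → List B → ℝ≥0∞)
    (hΦ : ∀ A P R, FP ht a A → HT ht A ≤ a + i0 → FP ht T P → F (A ++ (P ++ R)) ≤ Φ A P) :
    UF Λ ht n F ≤ ep Λ ht i0
      + EF Λ ht a (fun A => if HT ht A ≤ a + i0 then EF Λ ht T (fun P => Φ A P) else 0) := by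
  rw [UF_split Λ ht h1 a n (by omega)]
  refine le_trans ?_ (add_le_add_left (EF_over Λ ht h1 hΛ i0 a) _)
  rw [← EF_add]
  refine EF_mono Λ ht a fun A hA => ?_
  by_cases hA2 : HT ht A ≤ a + i0
  · have e1 : (if a + i0 < HT ht A then (1 : ℝ≥0∞) else 0) = 0 := if_neg (by omega)
    have e2 : HT ht A ≤ n := by omega
    rw [e1, zero_add, if_pos hA2, if_pos e2, UF_split Λ ht h1 T (n - HT ht A) (by omega)]
    refine EF_mono Λ ht T fun P hP => ?_
    split_ifs
    · exact UF_le_const Λ ht h1 hΛ _ _ _ fun R _ => hΦ A P R hA hA2 hP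
    · exact zero_le
  · have e1 : (if a + i0 < HT ht A then (1 : ℝ≥0∞) else 0) = 1 := if_pos (by omega)
    rw [e1]
    refine le_trans ?_ le_self_add
    split_ifs
    · exact UF_le_const Λ ht h1 hΛ _ _ _ fun R _ => hF1 _
    · exact zero_le

/-- exchange -/
lemma EF_comm {B' : Type*} (Λ' : B' → ℝ≥0∞) (ht' : B' → ℕ) (a b : ℕ)
    (F : List B → List B' → ℝ≥0∞) :
    EF Λ ht a (fun A => EF Λ' ht' b (fun A' => F A A'))
      = EF Λ' ht' b (fun A' => EF Λ ht a (fun A => F A A')) := by
  classical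
  simp only [EF]
  have e1 : ∀ A : List B, (if FP ht a A then LW Λ A *
      ∑' A', (if FP ht' b A' then LW Λ' A' * F A A' else 0) else 0)
      = ∑' A', (if FP ht a A ∧ FP ht' b A' then LW Λ A * LW Λ' A' * F A A' else 0) := by
    intro A
    by_cases h : FP ht a A
    · simp only [h, if_true, true_and]
      rw [← ENNReal.tsum_mul_left]
      refine tsum_congr fun A' => ?_
      by_cases h' : FP ht' b A'
      · simp only [h', if_true, mul_assoc]
      · simp [h']
    · simp [h]
  have e2 : ∀ A' : List B', (if FP ht' b A' then LW Λ' A' *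
      ∑' A, (if FP ht a A then LW Λ A * F A A' else 0) else 0)
      = ∑' A, (if FP ht a A ∧ FP ht' b A' then LW Λ A * LW Λ' A' * F A A' else 0) := by
    intro A'
    by_cases h : FP ht' b A'
    · simp only [h, if_true, and_true]
      rw [← ENNReal.tsum_mul_left]
      refine tsum_congr fun A => ?_
      by_cases h' : FP ht a A
      · simp only [h', if_true]; ring
      · simp [h']
    · simp [h]
  simp_rw [e1, e2]
  exact ENNReal.tsum_comm

end Crest.Agent.R154.Asm746
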