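import Crest.Agent.R154.B5Abs_566

/-! Row 154, ROAD 801 (helper790): abstract assembly, part A: first passage pieces. -/

set_option autoImplicit false

namespace Crest.Agent.R154.Asm790

open scoped ENNReal
open Crest.Agent.R154.B5A

variable {B : Type*}

/-- first passage of the height `τ` -/
def FP (ht : B → ℕ) : ℕ → List B → Prop
  | τ, [] => τ = 0
  | τ, b :: L => 0 < τ ∧ FP ht (τ - ht b) L

lemma FP_split (ht : B → ℕ) (L : List B) (τ : ℕ) (h : τ ≤ HT ht L) :
    ∃ L1 L2, L = L1 ++ L2 ∧ FP ht τ L1 := by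
  induction L generalizing τ with
  | nil => exact ⟨[], [], rfl, by simpa [HT, FP] using h⟩
  | cons b L ih =>
    by_cases h0 : τ = 0
    · exact ⟨[], b :: L, rfl, by simpa [FP] using h0⟩
    · obtain ⟨L1, L2, e, hf⟩ := ih (τ - ht b) (by rw [HT_cons] at h; omega)
      exact ⟨b :: L1, L2, by rw [e]; rfl, by omega, hf⟩

lemma FP_le (ht : B → ℕ) (L : List B) (τ : ℕ) (h : FP ht τ L) : τ ≤ HT ht L := by
  induction L generalizing τ with
  | nil => simp only [FP] at h; omega
  | cons b L ih =>
    have := ih _ h.2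
    rw [HT_cons]; omega

lemma FP_length (ht : B → ℕ) (h1 : ∀ b, 1 ≤ ht b) (L : List B) (τ : ℕ) (h : FP ht τ L) :
    L.length ≤ τ := by
  induction L generalizing τ with
  | nil => simp
  | cons b L ih =>
    have := ih _ h.2
    have h2 := h1 b
    have h3 := h.1
    rw [List.length_cons]; omega

/-- union bound over the splits of a list -/
lemma tsum_split_le (F : List B → ℝ≥0∞) (C : List B → Prop) [DecidablePred C]
    (hC : ∀ L, F L ≠ 0 → ∃ L1 L2, L = L1 ++ L2 ∧ C L1) :
    ∑' L, F L ≤ ∑' L1, (if C L1 then ∑' L2, F (L1 ++ L2) else 0) := by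
  classical
  have hC' : ∀ L : Function.support F, ∃ p : List B × List B, L.1 = p.1 ++ p.2 ∧ C p.1 := by
    rintro ⟨L, hL⟩
    obtain ⟨L1, L2, e, h⟩ := hC L hL
    exact ⟨(L1, L2), e, h⟩
  choose g hg1 hg2 using hC'
  have hinj : Function.Injective g := by
    intro L L' h
    apply Subtype.ext
    rw [hg1 L, hg1 L', h]
  calc ∑' L, F L = ∑' L : Function.support F, F L := (tsum_subtype_support F).symm
    _ = ∑' L : Function.support F, (fun p : List B × List B =>
          if C p.1 then F (p.1 ++ p.2) else 0) (g L) := by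
        refine tsum_congr fun L => ?_
        simp only
        rw [if_pos (hg2 L), ← hg1 L]
    _ ≤ ∑' p : List B × List B, (if C p.1 then F (p.1 ++ p.2) else 0) :=
        ENNReal.tsum_comp_le_tsum_of_injective hinj _
    _ = ∑' L1, ∑' L2, (if C L1 then F (L1 ++ L2) else 0) :=
        ENNReal.tsum_prod (f := fun L1 L2 => if C L1 then F (L1 ++ L2) else 0)
    _ = _ := tsum_congr fun L1 => by by_cases h : C L1 <;> simp [h]

variable (Λ : B → ℝ≥0∞) (ht : B → ℕ)

open Classical in
/-- weight of a piece without overshoot -/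
noncomputable def La (τ i0 : ℕ) (P : List B) : ℝ≥0∞ :=
  if FP ht τ P ∧ HT ht P ≤ τ + i0 then LW Λ P else 0

open Classical in
/-- weight of the overshoots -/
noncomputable def Ov (τ i0 : ℕ) : ℝ≥0∞ :=
  ∑' P, (if FP ht τ P ∧ τ + i0 < HT ht P then LW Λ P else 0)

open Classical in
lemma sum_FP (h1 : ∀ b, 1 ≤ ht b) (hΛ : ∑' b, Λ b ≤ 1) (τ : ℕ) :
    ∑' P, (if FP ht τ P then LW Λ P else 0) ≤ 1 := by
  induction τ using Nat.strong_induction_on with
  | _ τ ih =>
    rw [tsum_list]
    by_cases h0 : τ = 0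
    · subst h0
      simp [FP, LW_nil]
    · have : (if FP ht τ ([] : List B) then LW Λ ([] : List B) else 0) = 0 := by
        simp [FP, h0]
      rw [this, zero_add]
      calc ∑' b, ∑' L, (if FP ht τ (b :: L) then LW Λ (b :: L) else 0)
          = ∑' b, Λ b * ∑' L, (if FP ht (τ - ht b) L then LW Λ L else 0) := by
            refine tsum_congr fun b => ?_
            rw [← ENNReal.tsum_mul_left]
            refine tsum_congr fun L => ?_
            have : FP ht τ (b :: L) ↔ FP ht (τ - ht b) L := by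
              simp only [FP]
              exact ⟨fun h => h.2, fun h => ⟨by omega, h⟩⟩
            by_cases h : FP ht (τ - ht b) L
            · rw [if_pos (this.2 h), if_pos h, LW_cons]
            · rw [if_neg (fun h' => h (this.1 h')), if_neg h, mul_zero]
        _ ≤ ∑' b, Λ b * 1 := by
            refine ENNReal.tsum_le_tsum fun b => ?_
            have := h1 b
            exact mul_le_mul_right (ih _ (by omega)) _
        _ ≤ 1 := by simpa using hΛ

lemma sum_La (h1 : ∀ b, 1 ≤ ht b) (hΛ : ∑' b, Λ b ≤ 1) (τ i0 : ℕ) :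
    ∑' P, La Λ ht τ i0 P ≤ 1 := by
  classical
  refine le_trans (ENNReal.tsum_le_tsum fun P => ?_) (sum_FP Λ ht h1 hΛ τ)
  simp only [La]
  by_cases h : FP ht τ P
  · by_cases h2 : HT ht P ≤ τ + i0 <;> simp [h, h2]
  · simp [h]

lemma La_ne (τ i0 : ℕ) (P : List B) (h : La Λ ht τ i0 P ≠ 0) :
    FP ht τ P ∧ HT ht P ≤ τ + i0 := by
  classical
  by_contra hc
  exact h (by simp only [La]; rw [if_neg hc])

open Classical in
/-- first piece -/
lemma dec_one (hU : ∀ n, U Λ ht n ≤ 1) (τ i0 n : ℕ) (hn : τ ≤ n)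
    (f : List B → ℝ≥0∞) (hf : ∀ L, f L ≤ 1) :
    ∑' L, (if HT ht L = n then LW Λ L * f L else 0)
      ≤ Ov Λ ht τ i0 + ∑' P, La Λ ht τ i0 P *
        ∑' R, (if HT ht P + HT ht R = n then LW Λ R * f (P ++ R) else 0) := by
  have h := tsum_split_le (fun L => if HT ht L = n then LW Λ L * f L else 0) (FP ht τ) (by
    intro L hL
    have h2 : HT ht L = n := by by_contra h2; exact hL (if_neg h2)
    exact FP_split ht L τ (by omega))
  refine h.trans ?_
  rw [Ov, ← ENNReal.tsum_add]
  refine ENNReal.tsum_le_tsum fun P => ?_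
  by_cases hP : FP ht τ P
  · rw [if_pos hP]
    have e : ∑' R, (if HT ht (P ++ R) = n then LW Λ (P ++ R) * f (P ++ R) else 0)
        = LW Λ P * ∑' R, (if HT ht P + HT ht R = n then LW Λ R * f (P ++ R) else 0) := by
      rw [← ENNReal.tsum_mul_left]
      refine tsum_congr fun R => ?_
      rw [HT_append, LW_append]
      by_cases hR : HT ht P + HT ht R = n
      · rw [if_pos hR, if_pos hR, mul_assoc]
      · rw [if_neg hR, if_neg hR, mul_zero]
    rw [e]
    by_cases hov : HT ht P ≤ τ + i0
    · refine le_add_left ?_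
      rw [La, if_pos ⟨hP, hov⟩]
    · refine le_add_right ?_
      rw [if_pos ⟨hP, by omega⟩]
      refine le_trans (mul_le_mul_right (b := ∑' R, (if HT ht P + HT ht R = n then LW Λ R * f (P ++ R) else 0)) (c := 1) ?_ _) (by rw [mul_one])
      by_cases hPn : HT ht P ≤ n
      · refine le_trans (ENNReal.tsum_le_tsum fun R => ?_) (hU (n - HT ht P))
        by_cases hR : HT ht P + HT ht R = n
        · rw [if_pos hR, if_pos (by omega)]
          calc LW Λ R * f (P ++ R) ≤ LW Λ R * 1 := mul_le_mul_right (hf _) _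
            _ = _ := mul_one _
        · rw [if_neg hR]; exact zero_le
      · have : ∀ R : List B, ¬ (HT ht P + HT ht R = n) := fun R => by omega
        simp [this]
  · rw [if_neg hP]; exact zero_le

open Classical in
/-- decomposition in `j` pieces -/
lemma dec (h1 : ∀ b, 1 ≤ ht b) (hΛ : ∑' b, Λ b ≤ 1) (hU : ∀ n, U Λ ht n ≤ 1) (τ i0 : ℕ) (j n : ℕ)
    (hn : j * (τ + i0) ≤ n) (f : List B → ℝ≥0∞) (hf : ∀ L, f L ≤ 1) :
    ∑' L, (if HT ht L = n then LW Λ L * f L else 0)
      ≤ j * Ov Λ ht τ i0 + SL (La Λ ht τ i0) j (fun Q => ∑' R,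
        (if HT ht Q.flatten + HT ht R = n then LW Λ R * f (Q.flatten ++ R) else 0)) := by
  induction j generalizing n f with
  | zero =>
    rw [SL_zero]
    simp [HT_nil]
  | succ j ih =>
    have hn' : τ ≤ n := by nlinarith
    refine (dec_one Λ ht hU τ i0 n hn' f hf).trans ?_
    rw [SL_succ]
    have key : ∀ P, La Λ ht τ i0 P *
        ∑' R, (if HT ht P + HT ht R = n then LW Λ R * f (P ++ R) else 0)
        ≤ La Λ ht τ i0 P * (j * Ov Λ ht τ i0) + La Λ ht τ i0 P * SL (La Λ ht τ i0) j (fun Q =>
          ∑' R, (if HT ht (P :: Q).flatten + HT ht R = n then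
            LW Λ R * f ((P :: Q).flatten ++ R) else 0)) := by
      intro P
      by_cases hP : La Λ ht τ i0 P = 0
      · simp [hP]
      · obtain ⟨hP1, hP2⟩ := La_ne Λ ht τ i0 P hP
        rw [← mul_add]
        refine mul_le_mul_right ?_ _
        have hle : HT ht P ≤ n := by
          have : (j + 1) * (τ + i0) = j * (τ + i0) + (τ + i0) := by ring
          have h3 : 0 ≤ j * (τ + i0) := Nat.zero_le _
          omega
        have h2 := ih (n - HT ht P) (by
          have : (j + 1) * (τ + i0) = j * (τ + i0) + (τ + i0) := by ring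
          omega) (fun R => f (P ++ R)) (fun R => hf _)
        have e1 : ∑' R, (if HT ht P + HT ht R = n then LW Λ R * f (P ++ R) else 0)
            = ∑' R, (if HT ht R = n - HT ht P then LW Λ R * f (P ++ R) else 0) := by
          refine tsum_congr fun R => ?_
          by_cases hR : HT ht P + HT ht R = n
          · rw [if_pos hR, if_pos (by omega)]
          · rw [if_neg hR, if_neg (by omega)]
        rw [e1]
        refine h2.trans ?_
        refine add_le_add_right (SL_mono _ j fun Q _ => ?_) _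
        refine le_of_eq (tsum_congr fun R => ?_)
        rw [List.flatten_cons, HT_append, List.append_assoc]
        by_cases hR : HT ht Q.flatten + HT ht R = n - HT ht P
        · rw [if_pos hR, if_pos (by omega)]
        · rw [if_neg hR, if_neg (by omega)]
    refine le_trans (add_le_add_right (ENNReal.tsum_le_tsum key) _) ?_
    rw [ENNReal.tsum_add, ENNReal.tsum_mul_right, ← add_assoc]
    refine add_le_add_left ?_ _
    calc Ov Λ ht τ i0 + (∑' P, La Λ ht τ i0 P) * (j * Ov Λ ht τ i0)
        ≤ Ov Λ ht τ i0 + 1 * (j * Ov Λ ht τ i0) :=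
          add_le_add_right (mul_le_mul_left (sum_La Λ ht h1 hΛ τ i0) _) _
      _ = ((j + 1 : ℕ) : ℝ≥0∞) * Ov Λ ht τ i0 := by push_cast; ring

end Crest.Agent.R154.Asm790
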