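import Crest.Agent.R154.B5Abs_566

/-! Row 154, ROAD 801, assembly part A (helper817): single-walker lists, first passage pieces,
overshoots, decomposition, traces. -/

set_option autoImplicit false

namespace Crest.Agent.R154.Asm817

open scoped ENNReal
open B5A

variable {B G : Type*} [AddCommGroup G] (Λ : B → ℝ≥0∞) (ht : B → ℕ) (z : B → G)

/-- displacement of a list -/
def Dp (z : B → G) (L : List B) : G := (L.map z).sum

omit [AddCommGroup G] in
lemma Dp_nil [AddCommGroup G] (z : B → G) : Dp z [] = 0 := by simp [Dp]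

lemma Dp_cons (b : B) (L : List B) : Dp z (b :: L) = z b + Dp z L := by simp [Dp]

lemma Dp_append (L L' : List B) : Dp z (L ++ L') = Dp z L + Dp z L' := by simp [Dp]

/-- first passage list to height `a` -/
def FP (ht : B → ℕ) (a : ℕ) (L : List B) : Prop :=
  a ≤ HT ht L ∧ ∀ L1 L2, L = L1 ++ L2 → L2 ≠ [] → HT ht L1 < a

lemma FP_nil (a : ℕ) : FP ht a [] ↔ a = 0 := by
  constructor
  · rintro ⟨h, _⟩; simpa [HT] using h
  · rintro rfl
    refine ⟨by simp, fun L1 L2 h h2 => ?_⟩
    have := List.append_eq_nil_iff.1 h.symm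
    exact absurd this.2 h2

lemma FP_cons (a : ℕ) (b : B) (L : List B) :
    FP ht a (b :: L) ↔ 0 < a ∧ FP ht (a - ht b) L := by
  constructor
  · rintro ⟨h1, h2⟩
    have h0 := h2 [] (b :: L) rfl (by simp)
    rw [HT_nil] at h0
    rw [HT_cons] at h1
    refine ⟨h0, by omega, fun L1 L2 h h3 => ?_⟩
    have := h2 (b :: L1) L2 (by rw [h]; rfl) h3
    rw [HT_cons] at this
    omega
  · rintro ⟨h0, h1, h2⟩
    refine ⟨by rw [HT_cons]; omega, fun L1 L2 h h3 => ?_⟩
    cases L1 with
    | nil => rw [HT_nil]; exact h0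
    | cons c L1 =>
      simp only [List.cons_append, List.cons.injEq] at h
      have := h2 L1 L2 h.2 h3
      rw [HT_cons, ← h.1]
      omega

lemma exists_FP (L : List B) : ∀ a, a ≤ HT ht L → ∃ A R, L = A ++ R ∧ FP ht a A := by
  induction L with
  | nil =>
    intro a ha
    rw [HT_nil] at ha
    exact ⟨[], [], rfl, (FP_nil ht a).2 (by omega)⟩
  | cons b L ih =>
    intro a ha
    rcases Nat.eq_zero_or_pos a with rfl | h0
    · exact ⟨[], b :: L, rfl, (FP_nil ht 0).2 rfl⟩
    · rw [HT_cons] at ha
      obtain ⟨A, R, h, hA⟩ := ih (a - ht b) (by omega)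
      exact ⟨b :: A, R, by rw [h]; rfl, (FP_cons ht a b A).2 ⟨h0, hA⟩⟩

open Classical in
/-- first passage mass is one -/
lemma FP_mass (h1 : ∀ b, 1 ≤ ht b) (hΛ : ∑' b, Λ b = 1) (a : ℕ) :
    ∑' L, (if FP ht a L then LW Λ L else 0) = 1 := by
  induction a using Nat.strong_induction_on with
  | _ a ih =>
    rw [tsum_list]
    simp only [FP_nil, FP_cons, LW_nil, LW_cons]
    rcases Nat.eq_zero_or_pos a with rfl | h0
    · simp
    · rw [if_neg (by omega), zero_add]
      have : ∀ b, ∑' L, (if 0 < a ∧ FP ht (a - ht b) L then Λ b * LW Λ L else 0) = Λ b := by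
        intro b
        have e : ∀ L, (if 0 < a ∧ FP ht (a - ht b) L then Λ b * LW Λ L else 0)
            = Λ b * (if FP ht (a - ht b) L then LW Λ L else 0) := by
          intro L
          by_cases h : FP ht (a - ht b) L <;> simp [h, h0]
        simp_rw [e]
        rw [ENNReal.tsum_mul_left, ih (a - ht b) (by have := h1 b; omega), mul_one]
      simp_rw [this]
      exact hΛ

/-- decomposition by the last letter -/
lemma tsum_snoc (F : List B → ℝ≥0∞) : ∑' L, F L = F [] + ∑' L, ∑' b, F (L ++ [b]) := by
  have e : Function.Involutive (List.reverse : List B → List B) := List.reverse_reverse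
  rw [← (e.toPerm).tsum_eq F, tsum_list]
  congr 1
  rw [ENNReal.tsum_comm, ← (e.toPerm).tsum_eq (fun L => ∑' b, F (L ++ [b]))]
  refine tsum_congr fun L => tsum_congr fun b => ?_
  simp [Function.Involutive.toPerm]

lemma U_le_one (h1 : ∀ b, 1 ≤ ht b) (hΛ : ∑' b, Λ b = 1) (n : ℕ) : U Λ ht n ≤ 1 := by
  have h := renewal_one Λ ht h1 hΛ n
  have ht0 : tail Λ ht 0 = 1 := by
    rw [← hΛ, tail]
    refine tsum_congr fun b => ?_
    rw [if_pos (by have := h1 b; omega)]
  rw [← h]
  calc U Λ ht n = U Λ ht (n - 0) * tail Λ ht 0 := by rw [ht0, mul_one, Nat.sub_zero]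
    _ ≤ _ := Finset.single_le_sum (f := fun k => U Λ ht (n - k) * tail Λ ht k)
        (fun _ _ => zero_le) (Finset.mem_range.2 (Nat.succ_pos n))

/-- the overshoot bound -/
noncomputable def ov (Λ : B → ℝ≥0∞) (ht : B → ℕ) (i0 : ℕ) : ℝ≥0∞ :=
  ∑' k, tail Λ ht (k + (i0 + 1))

lemma ov_tendsto (hΛ : ∑' b, Λ b = 1) (hm : ∑' b, Λ b * (ht b : ℝ≥0∞) ≠ ⊤) :
    Filter.Tendsto (ov Λ ht) Filter.atTop (nhds 0) := by
  rw [sum_tail Λ ht hΛ] at hm
  have := ENNReal.tendsto_sum_nat_add (fun k => tail Λ ht k) hm
  exact this.comp (Filter.tendsto_add_atTop_nat 1)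

open Classical in
lemma over_le (h1 : ∀ b, 1 ≤ ht b) (hΛ : ∑' b, Λ b = 1) (a i0 : ℕ) :
    ∑' L, (if FP ht a L ∧ a + i0 < HT ht L then LW Λ L else 0) ≤ ov Λ ht i0 := by
  rw [tsum_snoc]
  have e0 : (if FP ht a [] ∧ a + i0 < HT ht ([] : List B) then LW Λ ([] : List B) else 0)
      = (0 : ℝ≥0∞) := by
    rw [if_neg]
    rintro ⟨_, h⟩
    rw [HT_nil] at h
    omega
  rw [e0, zero_add]
  calc ∑' L, ∑' b, (if FP ht a (L ++ [b]) ∧ a + i0 < HT ht (L ++ [b]) then LW Λ (L ++ [b]) else 0)
      ≤ ∑' L, ∑ r ∈ Finset.range a, (if HT ht L = r then LW Λ L else 0) *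
          tail Λ ht (a + i0 - r) := by
        refine ENNReal.tsum_le_tsum fun L => ?_
        by_cases hL : HT ht L < a
        · rw [Finset.sum_eq_single (HT ht L)]
          · rw [if_pos rfl, tail, ← ENNReal.tsum_mul_left]
            refine ENNReal.tsum_le_tsum fun b => ?_
            rw [HT_append, LW_append]
            simp only [HT_cons, HT_nil, LW_cons, LW_nil, mul_one, add_zero]
            by_cases hb : a + i0 - HT ht L < ht b
            · rw [if_pos hb]
              split_ifs <;> simp
            · rw [if_neg hb, if_neg (by rintro ⟨_, h⟩; omega)]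
              simp
          · intro r _ hr; rw [if_neg (fun h => hr h.symm), zero_mul]
          · intro h; exact absurd (Finset.mem_range.2 hL) h
        · have : ∀ b, (if FP ht a (L ++ [b]) ∧ a + i0 < HT ht (L ++ [b])
              then LW Λ (L ++ [b]) else 0) = 0 := by
            intro b
            rw [if_neg]
            rintro ⟨⟨_, h⟩, _⟩
            exact hL (h L [b] rfl (by simp))
          simp [this]
    _ = ∑ r ∈ Finset.range a, U Λ ht r * tail Λ ht (a + i0 - r) := by
        rw [Summable.tsum_finsetSum (fun _ _ => ENNReal.summable)]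
        refine Finset.sum_congr rfl fun r _ => ?_
        rw [ENNReal.tsum_mul_right, U]
    _ ≤ ∑ r ∈ Finset.range a, tail Λ ht (a + i0 - r) := by
        refine Finset.sum_le_sum fun r _ => ?_
        calc _ ≤ 1 * tail Λ ht (a + i0 - r) := by gcongr; exact U_le_one Λ ht h1 hΛ r
          _ = _ := one_mul _
    _ = ∑ r ∈ Finset.range a, tail Λ ht (r + (i0 + 1)) := by
        rw [← Finset.sum_range_reflect]
        refine Finset.sum_congr rfl fun r hr => ?_
        have := Finset.mem_range.1 hr
        congr 1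
        omega
    _ ≤ _ := ENNReal.sum_le_tsum _

open Classical in
lemma split_FP (F : List B → ℝ≥0∞) (a n : ℕ) (h : a ≤ n) :
    ∑' L, (if HT ht L = n then F L else 0) ≤
      ∑' A, ∑' R, (if FP ht a A ∧ HT ht A + HT ht R = n then F (A ++ R) else 0) := by
  have hex : ∀ L : List B, HT ht L = n → ∃ p : List B × List B, L = p.1 ++ p.2 ∧ FP ht a p.1 := by
    intro L hL
    obtain ⟨A, R, h1, h2⟩ := exists_FP ht L a (by omega)
    exact ⟨(A, R), h1, h2⟩
  choose! p hp1 hp2 using hex
  set i : List B → List B × List B := fun L => if HT ht L = n then p L else (L, []) with hi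
  have happ : ∀ L, (i L).1 ++ (i L).2 = L := by
    intro L
    by_cases hL : HT ht L = n
    · simp only [hi, hL, if_true]; exact (hp1 L hL).symm
    · simp [hi, hL]
  have hinj : Function.Injective i := by
    intro L L' h
    rw [← happ L, ← happ L', h]
  rw [← ENNReal.tsum_prod]
  calc ∑' L, (if HT ht L = n then F L else 0)
      ≤ ∑' L, (fun q : List B × List B =>
          if FP ht a q.1 ∧ HT ht q.1 + HT ht q.2 = n then F (q.1 ++ q.2) else 0) (i L) := by
        refine ENNReal.tsum_le_tsum fun L => ?_
        by_cases hL : HT ht L = n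
        · simp only [happ]
          rw [if_pos hL, if_pos]
          refine ⟨?_, ?_⟩
          · simp only [hi, hL, if_true]; exact hp2 L hL
          · rw [← HT_append, happ, hL]
        · rw [if_neg hL]; exact zero_le
    _ ≤ _ := ENNReal.tsum_comp_le_tsum_of_injective hinj _

open Classical in
/-- the decomposition: top part, piece, rest -/
lemma decomp (h1 : ∀ b, 1 ≤ ht b) (hΛ : ∑' b, Λ b = 1) (n a c i0 : ℕ) (hn : a + i0 + c ≤ n)
    (Φ : List B → ℝ≥0∞) (Ψ : List B → List B → ℝ≥0∞) (hΦ : ∀ L, Φ L ≤ 1)
    (hΨ : ∀ A P R, FP ht a A → HT ht A ≤ a + i0 → FP ht c P → Φ (A ++ (P ++ R)) ≤ Ψ A P) :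
    ∑' L, (if HT ht L = n then LW Λ L * Φ L else 0) ≤ ov Λ ht i0 +
      ∑' A, (if FP ht a A ∧ HT ht A ≤ a + i0 then
        LW Λ A * ∑' P, (if FP ht c P then LW Λ P * Ψ A P else 0) else 0) := by
  calc ∑' L, (if HT ht L = n then LW Λ L * Φ L else 0)
      ≤ ∑' A, ∑' R, (if FP ht a A ∧ HT ht A + HT ht R = n then LW Λ (A ++ R) * Φ (A ++ R)
          else 0) := split_FP ht (fun L => LW Λ L * Φ L) a n (by omega)
    _ ≤ ∑' A, ((if FP ht a A ∧ a + i0 < HT ht A then LW Λ A else 0) +
        (if FP ht a A ∧ HT ht A ≤ a + i0 then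
        LW Λ A * ∑' P, (if FP ht c P then LW Λ P * Ψ A P else 0) else 0)) := by
        refine ENNReal.tsum_le_tsum fun A => ?_
        by_cases hA : FP ht a A
        · by_cases hA2 : a + i0 < HT ht A
          · rw [if_pos ⟨hA, hA2⟩]
            refine le_trans ?_ le_self_add
            calc ∑' R, (if FP ht a A ∧ HT ht A + HT ht R = n then LW Λ (A ++ R) * Φ (A ++ R)
                  else 0)
                ≤ ∑' R, LW Λ A * (if HT ht R = n - HT ht A then LW Λ R else 0) := by
                  refine ENNReal.tsum_le_tsum fun R => ?_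
                  by_cases hR : HT ht A + HT ht R = n
                  · rw [if_pos ⟨hA, hR⟩, if_pos (by omega), LW_append]
                    calc _ ≤ LW Λ A * LW Λ R * 1 := by gcongr; exact hΦ _
                      _ = _ := mul_one _
                  · rw [if_neg (fun h => hR h.2)]; exact zero_le
              _ = LW Λ A * U Λ ht (n - HT ht A) := by rw [ENNReal.tsum_mul_left, U]
              _ ≤ LW Λ A * 1 := by gcongr; exact U_le_one Λ ht h1 hΛ _
              _ = _ := mul_one _
          · rw [if_neg (fun h => hA2 h.2), zero_add, if_pos ⟨hA, by omega⟩]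
            calc ∑' R, (if FP ht a A ∧ HT ht A + HT ht R = n then LW Λ (A ++ R) * Φ (A ++ R)
                  else 0)
                = ∑' R, (if HT ht R = n - HT ht A then LW Λ A * (LW Λ R * Φ (A ++ R)) else 0) := by
                  refine tsum_congr fun R => ?_
                  by_cases hR : HT ht A + HT ht R = n
                  · rw [if_pos ⟨hA, hR⟩, if_pos (by omega), LW_append, mul_assoc]
                  · rw [if_neg (fun h => hR h.2), if_neg (by omega)]
              _ ≤ ∑' P, ∑' R, (if FP ht c P ∧ HT ht P + HT ht R = n - HT ht A then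
                    LW Λ A * (LW Λ (P ++ R) * Φ (A ++ (P ++ R))) else 0) :=
                  split_FP ht (fun R => LW Λ A * (LW Λ R * Φ (A ++ R))) c (n - HT ht A) (by omega)
              _ ≤ ∑' P, LW Λ A * (if FP ht c P then LW Λ P * Ψ A P else 0) := by
                  refine ENNReal.tsum_le_tsum fun P => ?_
                  by_cases hP : FP ht c P
                  · rw [if_pos hP]
                    calc _ ≤ ∑' R, LW Λ A * (LW Λ P * Ψ A P) *
                          (if HT ht R = n - HT ht A - HT ht P then LW Λ R else 0) := by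
                          refine ENNReal.tsum_le_tsum fun R => ?_
                          by_cases hR : HT ht P + HT ht R = n - HT ht A
                          · rw [if_pos ⟨hP, hR⟩, if_pos (by omega), LW_append]
                            calc _ ≤ LW Λ A * (LW Λ P * LW Λ R * Ψ A P) := by
                                  gcongr
                                  exact hΨ A P R hA (by omega) hP
                              _ = _ := by ring
                          · rw [if_neg (fun h => hR h.2)]; exact zero_le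
                      _ = LW Λ A * (LW Λ P * Ψ A P) * U Λ ht (n - HT ht A - HT ht P) := by
                          rw [ENNReal.tsum_mul_left, U]
                      _ ≤ LW Λ A * (LW Λ P * Ψ A P) * 1 := by
                          gcongr; exact U_le_one Λ ht h1 hΛ _
                      _ = _ := mul_one _
                  · have : ∀ R, (if FP ht c P ∧ HT ht P + HT ht R = n - HT ht A then
                        LW Λ A * (LW Λ (P ++ R) * Φ (A ++ (P ++ R))) else 0) = 0 := fun R =>
                      if_neg (fun h => hP h.1)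
                    simp [this]
              _ = _ := by rw [ENNReal.tsum_mul_left]
        · have : ∀ R, (if FP ht a A ∧ HT ht A + HT ht R = n then LW Λ (A ++ R) * Φ (A ++ R)
                  else 0) = 0 := fun R => if_neg (fun h => hA h.1)
          simp [this]
    _ = (∑' A, (if FP ht a A ∧ a + i0 < HT ht A then LW Λ A else 0)) + _ := ENNReal.tsum_add
    _ ≤ _ := by gcongr; exact over_le Λ ht h1 hΛ a i0

/-! ### traces -/

/-- sites (position, depth) read by a list hung at `(x, a)` -/
def Tr (z : B → G) (ht : B → ℕ) (s : B → Set (G × ℕ)) : List B → G → ℕ → Set (G × ℕ)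
  | [], _, _ => ∅
  | b :: L, x, a => {p | ∃ g k, (g, k) ∈ s b ∧ p = (x + g, a + k)} ∪
      Tr z ht s L (x + z b) (a + ht b)

variable (s : B → Set (G × ℕ))

lemma Tr_append (L L' : List B) (x : G) (a : ℕ) :
    Tr z ht s (L ++ L') x a = Tr z ht s L x a ∪ Tr z ht s L' (x + Dp z L) (a + HT ht L) := by
  induction L generalizing x a with
  | nil => simp [Tr, Dp, HT]
  | cons b L ih =>
    simp only [List.cons_append, Tr, Dp_cons, HT_cons]
    rw [ih, Set.union_assoc, ← add_assoc, ← add_assoc]

lemma Tr_depth (hs : ∀ b g k, (g, k) ∈ s b → 1 ≤ k ∧ k ≤ ht b) (L : List B) (x : G) (a : ℕ)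
    (g : G) (k : ℕ) (h : (g, k) ∈ Tr z ht s L x a) : a < k ∧ k ≤ a + HT ht L := by
  induction L generalizing x a with
  | nil => simp [Tr] at h
  | cons b L ih =>
    rw [HT_cons]
    rcases h with ⟨g', k', h1, h2⟩ | h
    · have := hs b g' k' h1
      simp only [Prod.mk.injEq] at h2
      omega
    · have := ih _ _ h; omega

lemma Tr_shift (L : List B) (x c : G) (a : ℕ) (g : G) (k : ℕ) :
    (g, k) ∈ Tr z ht s L (x + c) a ↔ (g - c, k) ∈ Tr z ht s L x a := by
  induction L generalizing x a with
  | nil => simp [Tr]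
  | cons b L ih =>
    simp only [Tr, Set.mem_union, Set.mem_setOf_eq, Prod.mk.injEq]
    rw [show x + c + z b = (x + z b) + c by abel, ih]
    constructor
    · rintro (⟨g', k', h1, h2, h3⟩ | h)
      · exact Or.inl ⟨g', k', h1, by rw [h2]; abel, h3⟩
      · exact Or.inr h
    · rintro (⟨g', k', h1, h2, h3⟩ | h)
      · exact Or.inl ⟨g', k', h1, by rw [eq_add_of_sub_eq h2]; abel, h3⟩
      · exact Or.inr h

end Crest.Agent.R154.Asm817
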