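import Crest.Agent.R154.B5Rec_566

/-! Row 154, road 801: first passage lists, overshoots, attempts and density (helper819). -/

set_option autoImplicit false

namespace Crest.Agent.R154.Asm819

open Crest.Agent.R154.B5A
open scoped ENNReal
open Classical

variable {B G : Type*} [AddCommGroup G]

/-- first passage lists over the level `b` -/
def FP (ht : B → ℕ) : ℕ → List B → Prop
  | b, [] => b = 0
  | b, x :: L => 0 < b ∧ FP ht (b - ht x) L

/-- displacement -/
def Dp (z : B → G) (L : List B) : G := (L.map z).sum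

lemma Dp_append (z : B → G) (L L' : List B) : Dp z (L ++ L') = Dp z L + Dp z L' := by
  simp [Dp]

lemma FP_HT {ht : B → ℕ} : ∀ {b : ℕ} {L : List B}, FP ht b L → b ≤ HT ht L
  | b, [], h => by
      have : b = 0 := h
      omega
  | b, x :: L, h => by
      have := FP_HT h.2
      rw [HT_cons]; omega

lemma FP_exists (ht : B → ℕ) : ∀ (L : List B) (b : ℕ), b ≤ HT ht L →
    ∃ A R, L = A ++ R ∧ FP ht b A
  | [], b, h => ⟨[], [], rfl, by
      rw [HT_nil] at h
      exact Nat.le_zero.1 h⟩
  | x :: L, b, h => by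
      rcases Nat.eq_zero_or_pos b with hb | hb
      · exact ⟨[], x :: L, rfl, hb⟩
      · obtain ⟨A, R, e, hA⟩ := FP_exists ht L (b - ht x) (by rw [HT_cons] at h; omega)
        exact ⟨x :: A, R, by rw [e]; rfl, hb, hA⟩

lemma FP_append {ht : B → ℕ} : ∀ {b : ℕ} {P R : List B}, FP ht b (P ++ R) →
    FP ht (b - HT ht P) R
  | b, [], R, h => by simpa [HT_nil] using h
  | b, x :: P, R, h => by
      have := FP_append (b := b - ht x) (P := P) (R := R) h.2
      rw [HT_cons]
      rwa [Nat.sub_sub] at this

lemma FP_cons_sum (Λ : B → ℝ≥0∞) (ht : B → ℕ) {b : ℕ} (hb : 0 < b) (x : B)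
    (F : List B → ℝ≥0∞) :
    ∑' L : List B, (if FP ht b (x :: L) then LW Λ (x :: L) * F L else 0)
      = Λ x * ∑' L : List B, (if FP ht (b - ht x) L then LW Λ L * F L else 0) := by
  rw [← ENNReal.tsum_mul_left]
  refine tsum_congr fun L => ?_
  by_cases h : FP ht (b - ht x) L
  · rw [if_pos ⟨hb, h⟩, if_pos h, LW_cons, mul_assoc]
  · rw [if_neg (fun h' => h h'.2), if_neg h, mul_zero]

lemma FP_mass (Λ : B → ℝ≥0∞) (ht : B → ℕ) (h1 : ∀ b, 1 ≤ ht b) (hΛ : ∑' b, Λ b = 1)
    (b : ℕ) : ∑' L : List B, (if FP ht b L then LW Λ L else 0) = 1 := by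
  induction b using Nat.strong_induction_on with
  | _ b ih =>
    rw [tsum_list]
    rcases Nat.eq_zero_or_pos b with hb | hb
    · subst hb
      have h0 : FP ht 0 ([] : List B) := rfl
      rw [if_pos h0, LW_nil]
      have : ∀ (x : B) (L : List B), ¬ FP ht 0 (x :: L) := fun x L h => absurd h.1 (lt_irrefl 0)
      simp only [if_neg (this _ _), tsum_zero, add_zero]
    · have h0 : ¬ FP ht b ([] : List B) := fun h => by
        have : b = 0 := h
        omega
      rw [if_neg h0, zero_add]
      have h2 : ∀ x, ∑' L : List B, (if FP ht b (x :: L) then LW Λ (x :: L) else 0) = Λ x := by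
        intro x
        have := FP_cons_sum Λ ht hb x (fun _ => 1)
        simp only [mul_one] at this
        rw [this, ih _ (by have := h1 x; omega), mul_one]
      simp only [h2]
      exact hΛ

/-- mean overshoot beyond `i0` -/
noncomputable def ov (Λ : B → ℝ≥0∞) (ht : B → ℕ) (i0 : ℕ) : ℝ≥0∞ :=
  ∑' x, Λ x * ((ht x - i0 : ℕ) : ℝ≥0∞)

lemma ov_small (Λ : B → ℝ≥0∞) (ht : B → ℕ) (hE : ∑' x, Λ x * (ht x : ℝ≥0∞) ≠ ⊤)
    (ε : ℝ≥0∞) (hε : ε ≠ 0) : ∃ i1, ∀ i0, i1 ≤ i0 → ov Λ ht i0 ≤ ε := by
  have h := ENNReal.tendsto_tsum_compl_atTop_zero hE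
  have h2 := (ENNReal.tendsto_nhds_zero.1 h) ε (pos_iff_ne_zero.2 hε)
  obtain ⟨S, hS⟩ := h2.exists
  refine ⟨S.sup ht, fun i0 hi0 => ?_⟩
  have e := tsum_subtype ({x | x ∉ S} : Set B) (fun x => Λ x * (ht x : ℝ≥0∞))
  refine le_trans ?_ (e.symm.le.trans hS)
  rw [ov]
  refine ENNReal.tsum_le_tsum fun x => ?_
  by_cases hx : x ∈ S
  · have h3 : ht x ≤ S.sup ht := Finset.le_sup hx
    have : ht x - i0 = 0 := by omega
    rw [this]
    simp
  · rw [Set.indicator_of_mem (by exact hx)]
    gcongr
    omega

lemma ov_le (Λ : B → ℝ≥0∞) (ht : B → ℕ) (h1 : ∀ b, 1 ≤ ht b) (hΛ : ∑' b, Λ b = 1)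
    (i0 b : ℕ) :
    ∑' L : List B, (if FP ht b L ∧ b + i0 < HT ht L then LW Λ L else 0) ≤ ov Λ ht i0 := by
  have key : ∀ b : ℕ, ∑' L : List B, (if FP ht b L ∧ b + i0 < HT ht L then LW Λ L else 0)
      ≤ ∑ k ∈ Finset.range b, ∑' x, (if k + 1 + i0 < ht x then Λ x else 0) := by
    intro b
    induction b using Nat.strong_induction_on with
    | _ b ih =>
      rw [tsum_list]
      rcases Nat.eq_zero_or_pos b with hb | hb
      · subst hb
        have h0 : ¬ (FP ht 0 ([] : List B) ∧ 0 + i0 < HT ht ([] : List B)) := by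
          rw [HT_nil]; omega
        rw [if_neg h0]
        have : ∀ (x : B) (L : List B), ¬ (FP ht 0 (x :: L) ∧ 0 + i0 < HT ht (x :: L)) :=
          fun x L h => absurd h.1.1 (lt_irrefl 0)
        simp only [if_neg (this _ _), tsum_zero, add_zero]
        exact zero_le
      · have h0 : ¬ (FP ht b ([] : List B) ∧ b + i0 < HT ht ([] : List B)) := by
          rw [HT_nil]; omega
        rw [if_neg h0, zero_add]
        obtain ⟨c, rfl⟩ : ∃ c, b = c + 1 := ⟨b - 1, by omega⟩
        rw [Finset.sum_range_succ]
        set S := ∑ k ∈ Finset.range c, ∑' x, (if k + 1 + i0 < ht x then Λ x else 0) with hS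
        have hx : ∀ x : B, ∑' L : List B, (if FP ht (c + 1) (x :: L) ∧
            c + 1 + i0 < HT ht (x :: L) then LW Λ (x :: L) else 0)
            ≤ Λ x * S + (if c + 1 + i0 < ht x then Λ x else 0) := by
          intro x
          by_cases hxb : c + 1 ≤ ht x
          · -- only the empty rest
            have hz : c + 1 - ht x = 0 := by omega
            rw [tsum_eq_single ([] : List B)]
            · refine le_add_left ?_
              by_cases hh : c + 1 + i0 < ht x
              · rw [if_pos hh]
                split_ifs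
                · simp [LW]
                · exact zero_le
              · rw [if_neg hh, if_neg]
                rintro ⟨-, h⟩
                rw [HT_cons, HT_nil] at h
                omega
            · intro L hL
              rw [if_neg]
              rintro ⟨h, -⟩
              have h' := h.2
              rw [hz] at h'
              cases L with
              | nil => exact hL rfl
              | cons y L => exact absurd h'.1 (lt_irrefl 0)
          · refine le_add_right ?_
            have hI := ih (c + 1 - ht x) (by have := h1 x; omega)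
            have hmono : ∑ k ∈ Finset.range (c + 1 - ht x),
                ∑' x, (if k + 1 + i0 < ht x then Λ x else 0) ≤ S := by
              refine Finset.sum_le_sum_of_subset ?_
              intro k hk
              rw [Finset.mem_range] at hk ⊢
              have := h1 x
              omega
            calc ∑' L : List B, (if FP ht (c + 1) (x :: L) ∧
                c + 1 + i0 < HT ht (x :: L) then LW Λ (x :: L) else 0)
                = Λ x * ∑' L : List B, (if FP ht (c + 1 - ht x) L ∧
                    c + 1 - ht x + i0 < HT ht L then LW Λ L else 0) := by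
                  rw [← ENNReal.tsum_mul_left]
                  refine tsum_congr fun L => ?_
                  by_cases h : FP ht (c + 1 - ht x) L ∧ c + 1 - ht x + i0 < HT ht L
                  · rw [if_pos h, if_pos ⟨⟨Nat.succ_pos c, h.1⟩, by
                      rw [HT_cons]; have := h.2; omega⟩, LW_cons]
                  · rw [if_neg h, mul_zero, if_neg]
                    rintro ⟨h3, h4⟩
                    refine h ⟨h3.2, ?_⟩
                    rw [HT_cons] at h4
                    omega
              _ ≤ Λ x * S := mul_le_mul_right (hI.trans hmono) _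
        refine (ENNReal.tsum_le_tsum hx).trans ?_
        rw [ENNReal.tsum_add, ENNReal.tsum_mul_right, hΛ, one_mul]
  refine (key b).trans ?_
  rw [ov, ← Summable.tsum_finsetSum (fun _ _ => ENNReal.summable)]
  refine ENNReal.tsum_le_tsum fun x => ?_
  calc ∑ k ∈ Finset.range b, (if k + 1 + i0 < ht x then Λ x else 0)
      = ((Finset.range b).filter (fun k => k + 1 + i0 < ht x)).card * Λ x := by
        rw [← Finset.sum_filter, Finset.sum_const, nsmul_eq_mul]
    _ ≤ ((ht x - i0 : ℕ) : ℝ≥0∞) * Λ x := by
        gcongr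
        calc ((Finset.range b).filter (fun k => k + 1 + i0 < ht x)).card
            ≤ (Finset.range (ht x - i0)).card := by
              refine Finset.card_le_card ?_
              intro k hk
              rw [Finset.mem_filter] at hk
              rw [Finset.mem_range]
              have := hk.2
              omega
          _ = _ := Finset.card_range _
    _ = _ := mul_comm _ _

/-- splitting at the first passage -/
lemma split_le (ht : B → ℕ) (b : ℕ) (g : List B → ℝ≥0∞) :
    ∑' L : List B, (if b ≤ HT ht L then g L else 0) ≤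
      ∑' A : List B, ∑' R : List B, (if FP ht b A then g (A ++ R) else 0) := by
  rw [← ENNReal.tsum_prod]
  have hch : ∀ L : List B, ∃ p : List B × List B, p.1 ++ p.2 = L ∧
      (b ≤ HT ht L → FP ht b p.1) := by
    intro L
    by_cases h : b ≤ HT ht L
    · obtain ⟨A, R, e, hA⟩ := FP_exists ht L b h
      exact ⟨(A, R), e.symm, fun _ => hA⟩
    · exact ⟨([], L), rfl, fun h' => absurd h' h⟩
  choose φ hφ1 hφ2 using hch
  have hinj : Function.Injective φ := fun L L' h => by rw [← hφ1 L, ← hφ1 L', h]
  refine le_trans (ENNReal.tsum_le_tsum fun L => ?_)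
    (ENNReal.tsum_comp_le_tsum_of_injective hinj
      (fun p : List B × List B => if FP ht b p.1 then g (p.1 ++ p.2) else 0))
  by_cases h : b ≤ HT ht L
  · rw [if_pos h, if_pos (hφ2 L h), hφ1]
  · rw [if_neg h]; exact zero_le

/-- law of the first passage piece at level `h0` -/
noncomputable def pl (Λ : B → ℝ≥0∞) (ht : B → ℕ) (z : B → G) (h0 k : ℕ) (x : G) : ℝ≥0∞ :=
  ∑' P : List B, (if FP ht h0 P ∧ HT ht P = k ∧ Dp z P = x then LW Λ P else 0)

/-- a low attempt among the first `J` -/
def Good (Λ : B → ℝ≥0∞) (ht : B → ℕ) (z : B → G) (h0 i0 : ℕ) (th : ℝ≥0∞) :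
    ℕ → List B → Prop
  | 0, _ => False
  | J + 1, A => ∃ P R, A = P ++ R ∧ FP ht h0 P ∧ HT ht P ≤ h0 + i0 ∧
      (pl Λ ht z h0 (HT ht P) (Dp z P) ≤ th ∨ Good Λ ht z h0 i0 th J R)

variable (Λ : B → ℝ≥0∞) (ht : B → ℕ) (z : B → G)

lemma good_mass (h1 : ∀ b, 1 ≤ ht b) (hΛ : ∑' b, Λ b = 1) (h0 i0 : ℕ) (th q : ℝ≥0∞)
    (hq : ∑' P : List B, (if FP ht h0 P ∧ ¬ pl Λ ht z h0 (HT ht P) (Dp z P) ≤ th
      then LW Λ P else 0) ≤ q) (hq1 : q ≤ 1) (J : ℕ) : ∀ b, J * (h0 + i0) ≤ b →
    ∑' A : List B, (if FP ht b A ∧ ¬ Good Λ ht z h0 i0 th J A then LW Λ A else 0)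
      ≤ q ^ J + J * ov Λ ht i0 := by
  induction J with
  | zero =>
    intro b _
    simp only [Good, not_false_iff, and_true, pow_zero, Nat.cast_zero, zero_mul, add_zero]
    exact (FP_mass Λ ht h1 hΛ b).le
  | succ J ih =>
    intro b hb
    set e := ov Λ ht i0 with he
    have hb0 : h0 ≤ b := by
      have : (J + 1) * (h0 + i0) = J * (h0 + i0) + (h0 + i0) := by ring
      omega
    -- pass to pairs
    have hs : ∑' A : List B, (if FP ht b A ∧ ¬ Good Λ ht z h0 i0 th (J + 1) A
        then LW Λ A else 0)
        ≤ ∑' P : List B, ∑' R : List B, (if FP ht h0 P then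
          (if FP ht b (P ++ R) ∧ ¬ Good Λ ht z h0 i0 th (J + 1) (P ++ R)
            then LW Λ (P ++ R) else 0) else 0) := by
      refine le_trans (ENNReal.tsum_le_tsum fun A => ?_) (split_le ht h0
        (fun L => if FP ht b L ∧ ¬ Good Λ ht z h0 i0 th (J + 1) L then LW Λ L else 0))
      by_cases hA : h0 ≤ HT ht A
      · rw [if_pos hA]
      · rw [if_neg hA, if_neg]
        rintro ⟨h, -⟩
        have := FP_HT h
        omega
    refine hs.trans ?_
    have hP : ∀ P : List B, ∑' R : List B, (if FP ht h0 P then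
          (if FP ht b (P ++ R) ∧ ¬ Good Λ ht z h0 i0 th (J + 1) (P ++ R)
            then LW Λ (P ++ R) else 0) else 0)
        ≤ (if FP ht h0 P ∧ h0 + i0 < HT ht P then LW Λ P else 0)
          + (if FP ht h0 P ∧ ¬ pl Λ ht z h0 (HT ht P) (Dp z P) ≤ th then LW Λ P else 0)
            * (q ^ J + J * e) := by
      intro P
      by_cases hF : FP ht h0 P
      swap
      · simp only [if_neg hF, tsum_zero]; exact zero_le
      simp only [if_pos hF]
      by_cases hov : h0 + i0 < HT ht P
      · rw [if_pos ⟨hF, hov⟩]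
        refine le_add_right ?_
        calc ∑' R : List B, (if FP ht b (P ++ R) ∧ ¬ Good Λ ht z h0 i0 th (J + 1) (P ++ R)
            then LW Λ (P ++ R) else 0)
            ≤ ∑' R : List B, LW Λ P * (if FP ht (b - HT ht P) R then LW Λ R else 0) := by
              refine ENNReal.tsum_le_tsum fun R => ?_
              by_cases h : FP ht b (P ++ R) ∧ ¬ Good Λ ht z h0 i0 th (J + 1) (P ++ R)
              · rw [if_pos h, if_pos (FP_append h.1), LW_append]
              · rw [if_neg h]; exact zero_le
          _ = LW Λ P := by rw [ENNReal.tsum_mul_left, FP_mass Λ ht h1 hΛ, mul_one]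
      · by_cases hlow : pl Λ ht z h0 (HT ht P) (Dp z P) ≤ th
        · have : ∀ R, ¬ (FP ht b (P ++ R) ∧ ¬ Good Λ ht z h0 i0 th (J + 1) (P ++ R)) := by
            rintro R ⟨-, h⟩
            exact h ⟨P, R, rfl, hF, by omega, Or.inl hlow⟩
          simp only [if_neg (this _), tsum_zero]
          exact zero_le
        · rw [if_pos (⟨hF, hlow⟩ : FP ht h0 P ∧ ¬ pl Λ ht z h0 (HT ht P) (Dp z P) ≤ th)]
          refine le_add_left ?_
          have hJ := ih (b - HT ht P) (by
            have : (J + 1) * (h0 + i0) = J * (h0 + i0) + (h0 + i0) := by ring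
            omega)
          refine le_trans ?_ (mul_le_mul_right hJ _)
          rw [← ENNReal.tsum_mul_left]
          refine ENNReal.tsum_le_tsum fun R => ?_
          by_cases h : FP ht b (P ++ R) ∧ ¬ Good Λ ht z h0 i0 th (J + 1) (P ++ R)
          · rw [if_pos h, if_pos ⟨FP_append h.1, fun hg => h.2
              ⟨P, R, rfl, hF, by omega, Or.inr hg⟩⟩, LW_append]
          · rw [if_neg h]; exact zero_le
    refine (ENNReal.tsum_le_tsum hP).trans ?_
    rw [ENNReal.tsum_add, ENNReal.tsum_mul_right]
    calc _ ≤ e + q * (q ^ J + J * e) := add_le_add (ov_le Λ ht h1 hΛ i0 h0)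
          (mul_le_mul_left hq _)
      _ = q ^ (J + 1) + (q * (J * e) + e) := by ring
      _ ≤ q ^ (J + 1) + (1 * (J * e) + e) := by gcongr
      _ = q ^ (J + 1) + (J + 1 : ℕ) * e := by push_cast; ring

lemma good_dens (h1 : ∀ b, 1 ≤ ht b) (hΛ : ∑' b, Λ b = 1) (h0 i0 : ℕ) (th : ℝ≥0∞)
    (J : ℕ) : ∀ (b a : ℕ) (x : G),
    ∑' A : List B, (if FP ht b A ∧ HT ht A = a ∧ Dp z A = x ∧ Good Λ ht z h0 i0 th J A
      then LW Λ A else 0) ≤ J * ((i0 + 1 : ℕ) * th) := by
  induction J with
  | zero =>
    intro b a x
    simp only [Good, and_false, if_false, tsum_zero]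
    exact zero_le
  | succ J ih =>
    intro b a x
    -- union over the split
    have hs : ∑' A : List B, (if FP ht b A ∧ HT ht A = a ∧ Dp z A = x ∧
        Good Λ ht z h0 i0 th (J + 1) A then LW Λ A else 0)
        ≤ ∑' P : List B, ∑' R : List B, (
          (if FP ht h0 P ∧ HT ht P ≤ h0 + i0 ∧ pl Λ ht z h0 (HT ht P) (Dp z P) ≤ th ∧
            FP ht (b - HT ht P) R ∧ HT ht P + HT ht R = a ∧ Dp z P + Dp z R = x
            then LW Λ P * LW Λ R else 0)
          + (if FP ht h0 P ∧ FP ht (b - HT ht P) R ∧ HT ht R = a - HT ht P ∧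
              Dp z R = x - Dp z P ∧ Good Λ ht z h0 i0 th J R
            then LW Λ P * LW Λ R else 0)) := by
      have hch : ∀ A : List B, ∃ p : List B × List B, p.1 ++ p.2 = A ∧
          (Good Λ ht z h0 i0 th (J + 1) A → FP ht h0 p.1 ∧ HT ht p.1 ≤ h0 + i0 ∧
            (pl Λ ht z h0 (HT ht p.1) (Dp z p.1) ≤ th ∨ Good Λ ht z h0 i0 th J p.2)) := by
        intro A
        by_cases h : Good Λ ht z h0 i0 th (J + 1) A
        · obtain ⟨P, R, e, h2⟩ := h
          exact ⟨(P, R), e.symm, fun _ => h2⟩
        · exact ⟨([], A), rfl, fun h' => absurd h' h⟩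
      choose φ hφ1 hφ2 using hch
      have hinj : Function.Injective φ := fun L L' h => by rw [← hφ1 L, ← hφ1 L', h]
      rw [← ENNReal.tsum_prod]
      refine le_trans (ENNReal.tsum_le_tsum fun A => ?_)
        (ENNReal.tsum_comp_le_tsum_of_injective hinj _)
      by_cases h : FP ht b A ∧ HT ht A = a ∧ Dp z A = x ∧ Good Λ ht z h0 i0 th (J + 1) A
      swap
      · rw [if_neg h]; exact zero_le
      rw [if_pos h]
      obtain ⟨hA1, hA2, hA3, hA4⟩ := h
      obtain ⟨g1, g2, g3⟩ := hφ2 A hA4
      have e := hφ1 A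
      set P := (φ A).1 with hP
      set R := (φ A).2 with hR
      have hA1' : FP ht (b - HT ht P) R := FP_append (by rw [e]; exact hA1)
      have hA2' : HT ht P + HT ht R = a := by rw [← HT_append, e]; exact hA2
      have hA3' : Dp z P + Dp z R = x := by rw [← Dp_append, e]; exact hA3
      have hLW : LW Λ A = LW Λ P * LW Λ R := by rw [← LW_append, e]
      rcases g3 with g3 | g3
      · refine le_add_right ?_
        rw [if_pos ⟨g1, g2, g3, hA1', hA2', hA3'⟩, hLW]
      · refine le_add_left ?_
        rw [if_pos ⟨g1, hA1', by omega, by rw [← hA3']; abel, g3⟩, hLW]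
    refine hs.trans ?_
    have hsum : ∑' P : List B, ∑' R : List B, (
          (if FP ht h0 P ∧ HT ht P ≤ h0 + i0 ∧ pl Λ ht z h0 (HT ht P) (Dp z P) ≤ th ∧
            FP ht (b - HT ht P) R ∧ HT ht P + HT ht R = a ∧ Dp z P + Dp z R = x
            then LW Λ P * LW Λ R else 0)
          + (if FP ht h0 P ∧ FP ht (b - HT ht P) R ∧ HT ht R = a - HT ht P ∧
              Dp z R = x - Dp z P ∧ Good Λ ht z h0 i0 th J R
            then LW Λ P * LW Λ R else 0))
        = (∑' P : List B, ∑' R : List B,
          (if FP ht h0 P ∧ HT ht P ≤ h0 + i0 ∧ pl Λ ht z h0 (HT ht P) (Dp z P) ≤ th ∧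
            FP ht (b - HT ht P) R ∧ HT ht P + HT ht R = a ∧ Dp z P + Dp z R = x
            then LW Λ P * LW Λ R else 0))
          + ∑' P : List B, ∑' R : List B,
          (if FP ht h0 P ∧ FP ht (b - HT ht P) R ∧ HT ht R = a - HT ht P ∧
              Dp z R = x - Dp z P ∧ Good Λ ht z h0 i0 th J R
            then LW Λ P * LW Λ R else 0) := by
      rw [← ENNReal.tsum_add]
      exact tsum_congr fun P => ENNReal.tsum_add
    rw [hsum]
    have hI : ∑' P : List B, ∑' R : List B,
          (if FP ht h0 P ∧ HT ht P ≤ h0 + i0 ∧ pl Λ ht z h0 (HT ht P) (Dp z P) ≤ th ∧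
            FP ht (b - HT ht P) R ∧ HT ht P + HT ht R = a ∧ Dp z P + Dp z R = x
            then LW Λ P * LW Λ R else 0) ≤ (i0 + 1 : ℕ) * th := by
      -- sum over the height of `P`
      have h2 : ∀ P R : List B, (if FP ht h0 P ∧ HT ht P ≤ h0 + i0 ∧
            pl Λ ht z h0 (HT ht P) (Dp z P) ≤ th ∧
            FP ht (b - HT ht P) R ∧ HT ht P + HT ht R = a ∧ Dp z P + Dp z R = x
            then LW Λ P * LW Λ R else 0)
          ≤ ∑ i ∈ Finset.range (i0 + 1), (if FP ht (b - (h0 + i)) R then
              (if pl Λ ht z h0 (h0 + i) (x - Dp z R) ≤ th then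
              (if FP ht h0 P ∧ HT ht P = h0 + i ∧ Dp z P = x - Dp z R
                then LW Λ P else 0) else 0) * LW Λ R else 0) := by
        intro P R
        by_cases h : FP ht h0 P ∧ HT ht P ≤ h0 + i0 ∧ pl Λ ht z h0 (HT ht P) (Dp z P) ≤ th ∧
            FP ht (b - HT ht P) R ∧ HT ht P + HT ht R = a ∧ Dp z P + Dp z R = x
        swap
        · rw [if_neg h]; exact zero_le
        rw [if_pos h]
        obtain ⟨c1, c2, c3, c4, c5, c6⟩ := h
        have c7 := FP_HT c1
        have e1 : h0 + (HT ht P - h0) = HT ht P := by omega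
        have e2 : Dp z P = x - Dp z R := by rw [← c6]; abel
        refine le_trans ?_ (Finset.single_le_sum (f := fun i => (if FP ht (b - (h0 + i)) R then
              (if pl Λ ht z h0 (h0 + i) (x - Dp z R) ≤ th then
              (if FP ht h0 P ∧ HT ht P = h0 + i ∧ Dp z P = x - Dp z R
                then LW Λ P else 0) else 0) * LW Λ R else 0)) (fun _ _ => zero_le)
              (Finset.mem_range.2 (show HT ht P - h0 < i0 + 1 by omega)))
        simp only [e1]
        rw [if_pos c4, if_pos (by rw [← e2]; exact c3), if_pos ⟨c1, trivial, e2⟩]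
      calc _ ≤ ∑' P : List B, ∑' R : List B, ∑ i ∈ Finset.range (i0 + 1),
              (if FP ht (b - (h0 + i)) R then
              (if pl Λ ht z h0 (h0 + i) (x - Dp z R) ≤ th then
              (if FP ht h0 P ∧ HT ht P = h0 + i ∧ Dp z P = x - Dp z R
                then LW Λ P else 0) else 0) * LW Λ R else 0) :=
            ENNReal.tsum_le_tsum fun P => ENNReal.tsum_le_tsum fun R => h2 P R
        _ = ∑ i ∈ Finset.range (i0 + 1), ∑' R : List B, ∑' P : List B,
              (if FP ht (b - (h0 + i)) R then
              (if pl Λ ht z h0 (h0 + i) (x - Dp z R) ≤ th then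
              (if FP ht h0 P ∧ HT ht P = h0 + i ∧ Dp z P = x - Dp z R
                then LW Λ P else 0) else 0) * LW Λ R else 0) := by
            rw [ENNReal.tsum_comm]
            have : ∀ R : List B, ∑' P : List B, ∑ i ∈ Finset.range (i0 + 1),
              (if FP ht (b - (h0 + i)) R then
              (if pl Λ ht z h0 (h0 + i) (x - Dp z R) ≤ th then
              (if FP ht h0 P ∧ HT ht P = h0 + i ∧ Dp z P = x - Dp z R
                then LW Λ P else 0) else 0) * LW Λ R else 0)
              = ∑ i ∈ Finset.range (i0 + 1), ∑' P : List B,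
              (if FP ht (b - (h0 + i)) R then
              (if pl Λ ht z h0 (h0 + i) (x - Dp z R) ≤ th then
              (if FP ht h0 P ∧ HT ht P = h0 + i ∧ Dp z P = x - Dp z R
                then LW Λ P else 0) else 0) * LW Λ R else 0) :=
              fun R => Summable.tsum_finsetSum (fun _ _ => ENNReal.summable)
            simp only [this]
            exact Summable.tsum_finsetSum (fun _ _ => ENNReal.summable)
        _ ≤ ∑ i ∈ Finset.range (i0 + 1), th := by
            refine Finset.sum_le_sum fun i _ => ?_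
            calc _ ≤ ∑' R : List B, th * (if FP ht (b - (h0 + i)) R then LW Λ R else 0) := by
                  refine ENNReal.tsum_le_tsum fun R => ?_
                  by_cases hR : FP ht (b - (h0 + i)) R
                  · simp only [if_pos hR]
                    rw [ENNReal.tsum_mul_right]
                    refine mul_le_mul_left ?_ _
                    by_cases hl : pl Λ ht z h0 (h0 + i) (x - Dp z R) ≤ th
                    · simp only [if_pos hl]
                      exact hl
                    · simp only [if_neg hl, tsum_zero]; exact zero_le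
                  · simp only [if_neg hR, tsum_zero]; exact zero_le
              _ = th := by rw [ENNReal.tsum_mul_left, FP_mass Λ ht h1 hΛ, mul_one]
        _ = (i0 + 1 : ℕ) * th := by simp
    have hII : ∑' P : List B, ∑' R : List B,
          (if FP ht h0 P ∧ FP ht (b - HT ht P) R ∧ HT ht R = a - HT ht P ∧
              Dp z R = x - Dp z P ∧ Good Λ ht z h0 i0 th J R
            then LW Λ P * LW Λ R else 0) ≤ J * ((i0 + 1 : ℕ) * th) := by
      calc _ ≤ ∑' P : List B, (if FP ht h0 P then LW Λ P else 0)
              * (J * ((i0 + 1 : ℕ) * th)) := by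
            refine ENNReal.tsum_le_tsum fun P => ?_
            by_cases hP : FP ht h0 P
            · rw [if_pos hP]
              refine le_trans ?_ (mul_le_mul_right (ih (b - HT ht P) (a - HT ht P)
                (x - Dp z P)) _)
              rw [← ENNReal.tsum_mul_left]
              refine ENNReal.tsum_le_tsum fun R => ?_
              by_cases hR : FP ht (b - HT ht P) R ∧ HT ht R = a - HT ht P ∧
                  Dp z R = x - Dp z P ∧ Good Λ ht z h0 i0 th J R
              · rw [if_pos ⟨hP, hR⟩, if_pos hR]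
              · rw [if_neg (fun h => hR h.2)]; exact zero_le
            · simp only [hP, false_and, if_false, tsum_zero]; exact zero_le
        _ = _ := by rw [ENNReal.tsum_mul_right, FP_mass Λ ht h1 hΛ, one_mul]
    calc _ ≤ (i0 + 1 : ℕ) * th + J * ((i0 + 1 : ℕ) * th) := add_le_add hI hII
      _ = (J + 1 : ℕ) * ((i0 + 1 : ℕ) * th) := by push_cast; ring

end Crest.Agent.R154.Asm819
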