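import Crest.Agent.R154.B5Abs_566

/-! Row 154, T0219, ROAD 801 (helper834, hedge of 540's assembly): first passage pieces. -/

set_option autoImplicit false

namespace Crest.Agent.R154.Asm834

open scoped ENNReal
open Crest.Agent.R154.B5A

/-- indicator of a proposition -/
noncomputable def chi (p : Prop) : ℝ≥0∞ := by classical exact if p then 1 else 0

lemma chi_pos {p : Prop} (h : p) : chi p = 1 := by simp [chi, h]
lemma chi_neg {p : Prop} (h : ¬ p) : chi p = 0 := by simp [chi, h]
lemma chi_le_one (p : Prop) : chi p ≤ 1 := by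
  by_cases h : p
  · rw [chi_pos h]
  · rw [chi_neg h]; exact zero_le
lemma chi_mono {p q : Prop} (h : p → q) : chi p ≤ chi q := by
  by_cases hp : p
  · rw [chi_pos hp, chi_pos (h hp)]
  · rw [chi_neg hp]; exact zero_le
lemma chi_congr {p q : Prop} (h : p ↔ q) : chi p = chi q :=
  le_antisymm (chi_mono h.1) (chi_mono h.2)
lemma chi_and (p q : Prop) : chi (p ∧ q) = chi p * chi q := by
  by_cases hp : p <;> by_cases hq : q <;> simp [chi, hp, hq]
lemma chi_or_le (p q : Prop) : chi (p ∨ q) ≤ chi p + chi q := by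
  by_cases hp : p
  · rw [chi_pos hp, chi_pos (Or.inl hp)]; exact le_self_add
  · by_cases hq : q
    · rw [chi_pos hq, chi_pos (Or.inr hq)]; exact le_add_self
    · rw [chi_neg (by tauto)]; exact zero_le
lemma ite_chi (p : Prop) [Decidable p] (a : ℝ≥0∞) : (if p then a else 0) = chi p * a := by
  by_cases h : p
  · rw [if_pos h, chi_pos h, one_mul]
  · rw [if_neg h, chi_neg h, zero_mul]

variable {B : Type*} (Λ : B → ℝ≥0∞) (h : B → ℕ)

/-- first passage lists over `T` -/
def FP : List B → ℕ → Prop
  | [], T => T = 0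
  | b :: L, T => T ≠ 0 ∧ FP L (T - h b)

lemma FP_le (L : List B) (T : ℕ) (hL : FP h L T) : T ≤ HT h L := by
  induction L generalizing T with
  | nil => simp only [FP] at hL; omega
  | cons b L ih =>
    rw [HT_cons]
    have := ih _ hL.2
    omega

lemma FP_split (L : List B) (T : ℕ) (hL : T ≤ HT h L) : ∃ A R, L = A ++ R ∧ FP h A T := by
  induction L generalizing T with
  | nil => exact ⟨[], [], rfl, by simp only [FP]; simpa [HT_nil] using hL⟩
  | cons b L ih =>
    by_cases hT : T = 0
    · exact ⟨[], b :: L, rfl, hT⟩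
    · rw [HT_cons] at hL
      obtain ⟨A, R, rfl, hA⟩ := ih (T - h b) (by omega)
      exact ⟨b :: A, R, rfl, hT, hA⟩

lemma FP_mass (h1 : ∀ b, 1 ≤ h b) (hΛ : ∑' b, Λ b = 1) (T : ℕ) :
    ∑' A, chi (FP h A T) * LW Λ A = 1 := by
  induction T using Nat.strong_induction_on with
  | _ T ih =>
    rw [tsum_list]
    by_cases hT : T = 0
    · subst hT
      rw [chi_pos (show FP h [] 0 from rfl), LW_nil]
      have : ∀ b (L : List B), chi (FP h (b :: L) 0) = 0 := fun b L => chi_neg (by simp [FP])
      simp [this]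
    · rw [chi_neg (show ¬ FP h [] T from hT), zero_mul, zero_add, ← hΛ]
      refine tsum_congr fun b => ?_
      have h2 : ∀ L : List B, chi (FP h (b :: L) T) * LW Λ (b :: L)
          = Λ b * (chi (FP h L (T - h b)) * LW Λ L) := fun L => by
        rw [LW_cons, chi_congr (show FP h (b :: L) T ↔ FP h L (T - h b) from
          ⟨fun x => x.2, fun x => ⟨hT, x⟩⟩)]
        ring
      simp_rw [h2]
      rw [ENNReal.tsum_mul_left, ih _ (by have := h1 b; omega), mul_one]

/-- weight of the first passage lists with overshoot `> i0` -/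
noncomputable def tall (T i0 : ℕ) : ℝ≥0∞ := ∑' A, chi (FP h A T ∧ T + i0 < HT h A) * LW Λ A

/-- sum over lists by a decomposition -/
lemma tsum_le_split (P : List B → Prop) (Q : List B → List B → Prop) (g : List B → ℝ≥0∞)
    (hPQ : ∀ L, P L → ∃ A R, L = A ++ R ∧ Q A R) :
    ∑' L, chi (P L) * g L ≤ ∑' A, ∑' R, chi (Q A R) * g (A ++ R) := by
  classical
  choose! a r hs using hPQ
  have hinj : Function.Injective (fun L : {L // P L} => (a L.1, r L.1)) := by
    intro L L' hLL'
    simp only [Prod.mk.injEq] at hLL'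
    apply Subtype.ext
    rw [(hs L.1 L.2).1, (hs L'.1 L'.2).1, hLL'.1, hLL'.2]
  calc ∑' L, chi (P L) * g L = ∑' L : {L // P L}, g L.1 := by
        refine Eq.trans ?_ (tsum_subtype ({L | P L} : Set (List B)) g).symm
        refine tsum_congr fun L => ?_
        by_cases hL : P L
        · rw [chi_pos hL, one_mul, Set.indicator_of_mem (show L ∈ {L | P L} from hL)]
        · rw [chi_neg hL, zero_mul, Set.indicator_of_notMem (show L ∉ {L | P L} from hL)]
    _ = ∑' L : {L // P L}, (fun p : List B × List B => chi (Q p.1 p.2) * g (p.1 ++ p.2))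
          ((fun L : {L // P L} => (a L.1, r L.1)) L) := by
        refine tsum_congr fun L => ?_
        have := hs L.1 L.2
        simp only
        rw [chi_pos this.2, one_mul, ← this.1]
    _ ≤ ∑' p : List B × List B, chi (Q p.1 p.2) * g (p.1 ++ p.2) :=
        ENNReal.tsum_comp_le_tsum_of_injective hinj _
    _ = _ := ENNReal.tsum_prod (f := fun A R => chi (Q A R) * g (A ++ R))

/-- the triple split -/
lemma split3 (hU : ∀ n, U Λ h n ≤ 1) (n α T i0 : ℕ) (hn : α + i0 + T ≤ n)
    (F : List B → ℝ≥0∞) (hF : ∀ L, F L ≤ 1) (F' : List B → List B → ℝ≥0∞)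
    (hFF : ∀ A P R, FP h A α → HT h A ≤ α + i0 → FP h P T → HT h (A ++ P ++ R) = n →
      F (A ++ P ++ R) ≤ F' A P) :
    ∑' L, chi (HT h L = n) * (LW Λ L * F L) ≤ tall Λ h α i0 +
      ∑' A, chi (FP h A α ∧ HT h A ≤ α + i0) * (LW Λ A *
        ∑' P, chi (FP h P T) * (LW Λ P * F' A P)) := by
  have hU' : ∀ k, ∑' R, chi (HT h R = k) * LW Λ R ≤ 1 := fun k => by
    refine le_trans (le_of_eq ?_) (hU k)
    rw [U]
    refine tsum_congr fun R => ?_
    rw [ite_chi]
  have s1 := tsum_le_split (fun L : List B => HT h L = n)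
    (fun A R => FP h A α ∧ HT h A + HT h R = n) (fun L => LW Λ L * F L) (by
      intro L hL
      obtain ⟨A, R, rfl, hA⟩ := FP_split h L α (by omega)
      exact ⟨A, R, rfl, hA, by rw [← HT_append]; exact hL⟩)
  refine s1.trans ?_
  rw [tall, ← ENNReal.tsum_add]
  refine ENNReal.tsum_le_tsum fun A => ?_
  by_cases hA : FP h A α
  · by_cases hA2 : HT h A ≤ α + i0
    · refine le_trans ?_ le_add_self
      rw [chi_pos ⟨hA, hA2⟩, one_mul, ← ENNReal.tsum_mul_left]
      have e1 : ∀ R, chi (FP h A α ∧ HT h A + HT h R = n) * (LW Λ (A ++ R) * F (A ++ R))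
          = chi (HT h R = n - HT h A) * (LW Λ A * (LW Λ R * F (A ++ R))) := fun R => by
        rw [LW_append, mul_assoc (LW Λ A)]
        congr 1
        refine chi_congr ⟨fun x => by omega, fun x => ⟨hA, by omega⟩⟩
      simp_rw [e1]
      have s2 := tsum_le_split (fun L : List B => HT h L = n - HT h A)
        (fun P R => FP h P T ∧ HT h P + HT h R = n - HT h A)
        (fun L => LW Λ A * (LW Λ L * F (A ++ L))) (by
          intro L hL
          obtain ⟨P, R, rfl, hP⟩ := FP_split h L T (by omega)
          exact ⟨P, R, rfl, hP, by rw [← HT_append]; exact hL⟩)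
      refine s2.trans (ENNReal.tsum_le_tsum fun P => ?_)
      by_cases hP : FP h P T
      · rw [chi_pos hP, one_mul]
        calc ∑' R, chi (FP h P T ∧ HT h P + HT h R = n - HT h A) *
              (LW Λ A * (LW Λ (P ++ R) * F (A ++ (P ++ R))))
            ≤ ∑' R, (LW Λ A * (LW Λ P * F' A P)) * (chi (HT h R = n - HT h A - HT h P) * LW Λ R) := by
              refine ENNReal.tsum_le_tsum fun R => ?_
              by_cases hR : HT h P + HT h R = n - HT h A
              · rw [chi_pos ⟨hP, hR⟩, one_mul, LW_append,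
                  chi_pos (show HT h R = n - HT h A - HT h P by omega), one_mul]
                have := hFF A P R hA hA2 hP (by rw [HT_append, HT_append]; omega)
                rw [List.append_assoc] at this
                calc LW Λ A * (LW Λ P * LW Λ R * F (A ++ (P ++ R)))
                    ≤ LW Λ A * (LW Λ P * LW Λ R * F' A P) := by gcongr
                  _ = _ := by ring
              · rw [chi_neg (fun x => hR x.2), zero_mul]; exact zero_le
          _ = (LW Λ A * (LW Λ P * F' A P)) * ∑' R, (chi (HT h R = n - HT h A - HT h P) * LW Λ R) :=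
              ENNReal.tsum_mul_left
          _ ≤ (LW Λ A * (LW Λ P * F' A P)) * 1 := by gcongr; exact hU' _
          _ = _ := mul_one _
      · have : ∀ R, chi (FP h P T ∧ HT h P + HT h R = n - HT h A) = 0 :=
          fun R => chi_neg (fun x => hP x.1)
        simp [this]
    · refine le_trans ?_ le_self_add
      rw [chi_pos ⟨hA, by omega⟩, one_mul]
      calc ∑' R, chi (FP h A α ∧ HT h A + HT h R = n) * (LW Λ (A ++ R) * F (A ++ R))
          ≤ ∑' R, LW Λ A * (chi (HT h R = n - HT h A) * LW Λ R) := by
            refine ENNReal.tsum_le_tsum fun R => ?_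
            by_cases hR : HT h A + HT h R = n
            · rw [chi_pos ⟨hA, hR⟩, one_mul, chi_pos (by omega), one_mul, LW_append]
              calc LW Λ A * LW Λ R * F (A ++ R) ≤ LW Λ A * LW Λ R * 1 := by gcongr; exact hF _
                _ = _ := mul_one _
            · rw [chi_neg (fun x => hR x.2), zero_mul]; exact zero_le
        _ = LW Λ A * ∑' R, (chi (HT h R = n - HT h A) * LW Λ R) := ENNReal.tsum_mul_left
        _ ≤ LW Λ A * 1 := by gcongr; exact hU' _
        _ = _ := mul_one _
  · have : ∀ R, chi (FP h A α ∧ HT h A + HT h R = n) = 0 := fun R => chi_neg (fun x => hA x.1)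
    simp [this]

end Crest.Agent.R154.Asm834
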