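import Crest.Agent.R154.B5Abs_566
import Crest.Agent.R154.Dens_616

/-! Row 154, ROAD 801 (helper857): one-walker renewal lists (first passage pieces), overshoot,
density of the first passage law. -/

set_option autoImplicit false

namespace Crest.Agent.R154.Asm857

open Crest.Agent.R154.B5A
open scoped ENNReal Topology

noncomputable section

open Classical

section one

variable {B G : Type*} [AddCommGroup G] (Λ : B → ℝ≥0∞) (ht : B → ℕ) (zz : B → G)

/-- displacement of a list -/
def Dp (L : List B) : G := (L.map zz).sum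

lemma Dp_append (L1 L2 : List B) : Dp zz (L1 ++ L2) = Dp zz L1 + Dp zz L2 := by simp [Dp]

/-- first passage of the depth `τ` -/
def FP : ℕ → List B → Prop
  | τ, [] => τ = 0
  | τ, b :: L => 0 < τ ∧ FP (τ - ht b) L

lemma FP_zero (L : List B) : FP ht 0 L ↔ L = [] := by
  cases L <;> simp [FP]

lemma le_of_FP (L : List B) : ∀ τ, FP ht τ L → τ ≤ HT ht L := by
  induction L with
  | nil => intro τ h; simp only [FP] at h; omega
  | cons b L ih =>
    intro τ h
    have := ih _ h.2
    rw [HT_cons]; omega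

lemma FP_append_iff (P A : List B) : ∀ r, HT ht P ≤ r → (∀ b, 1 ≤ ht b) →
    (FP ht r (P ++ A) ↔ FP ht (r - HT ht P) A) := by
  induction P with
  | nil => intro r _ _; simp [HT_nil]
  | cons b P ih =>
    intro r hr h1
    rw [HT_cons] at hr ⊢
    have hb := h1 b
    rw [List.cons_append]
    have := ih (r - ht b) (by omega) h1
    constructor
    · intro h
      have h2 := this.1 h.2
      rwa [Nat.sub_sub] at h2
    · intro h
      refine ⟨by omega, this.2 ?_⟩
      rwa [Nat.sub_sub]

lemma FP_append_imp (P A : List B) : ∀ r, FP ht r (P ++ A) → FP ht (r - HT ht P) A := by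
  induction P with
  | nil => intro r h; simpa [HT_nil] using h
  | cons b P ih =>
    intro r h
    have h2 := ih _ h.2
    rw [HT_cons, ← Nat.sub_sub]
    exact h2

theorem FP_split (h1 : ∀ b, 1 ≤ ht b) : ∀ (τ : ℕ) (F : List B → ℝ≥0∞),
    ∑' L, (if τ ≤ HT ht L then F L else 0)
      = ∑' L1, (if FP ht τ L1 then ∑' L2, F (L1 ++ L2) else 0) := by
  intro τ
  induction τ using Nat.strong_induction_on with
  | _ τ ih =>
    intro F
    by_cases h0 : τ = 0
    · subst h0
      have e : ∑' L1, (if FP ht 0 L1 then ∑' L2, F (L1 ++ L2) else 0) = ∑' L2, F L2 := by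
        rw [tsum_eq_single ([] : List B)]
        · simp [FP]
        · intro L hL
          rw [if_neg]
          rw [FP_zero]; exact hL
      rw [e]
      simp
    · rw [tsum_list, tsum_list (fun L1 => if FP ht τ L1 then ∑' L2, F (L1 ++ L2) else 0)]
      rw [if_neg (by rw [HT_nil]; omega), if_neg (by simpa [FP] using h0)]
      congr 1
      refine tsum_congr fun b => ?_
      have h2 := ih (τ - ht b) (by have := h1 b; omega) (fun L => F (b :: L))
      calc _ = ∑' L, (if τ - ht b ≤ HT ht L then F (b :: L) else 0) := by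
            refine tsum_congr fun L => ?_
            rw [HT_cons]
            exact if_congr (by omega) rfl rfl
        _ = _ := h2
        _ = _ := by
            refine tsum_congr fun L => ?_
            refine if_congr ?_ rfl rfl
            simp only [FP]
            constructor
            · intro h; exact ⟨by omega, h⟩
            · intro h; exact h.2

theorem FP_mass (h1 : ∀ b, 1 ≤ ht b) (hΛ : ∑' b, Λ b = 1) : ∀ τ : ℕ,
    ∑' L, (if FP ht τ L then LW Λ L else 0) = 1 := by
  intro τ
  induction τ using Nat.strong_induction_on with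
  | _ τ ih =>
    by_cases h0 : τ = 0
    · subst h0
      rw [tsum_eq_single ([] : List B)]
      · simp [FP, LW_nil]
      · intro L hL
        rw [if_neg]
        rw [FP_zero]; exact hL
    · rw [tsum_list, if_neg (by simpa [FP] using h0), zero_add]
      rw [← hΛ]
      refine tsum_congr fun b => ?_
      have h2 := ih (τ - ht b) (by have := h1 b; omega)
      calc _ = ∑' L, Λ b * (if FP ht (τ - ht b) L then LW Λ L else 0) := by
            refine tsum_congr fun L => ?_
            by_cases h : FP ht (τ - ht b) L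
            · rw [if_pos h, if_pos ⟨by omega, h⟩, LW_cons]
            · rw [if_neg h, if_neg (fun h' => h h'.2), mul_zero]
        _ = Λ b * 1 := by rw [ENNReal.tsum_mul_left, h2]
        _ = Λ b := mul_one _

lemma FP_last (L : List B) : ∀ τ, 0 < τ → FP ht τ L → ∃ L1 b, L = L1 ++ [b] ∧ HT ht L1 < τ := by
  induction L with
  | nil => intro τ h0 h; simp only [FP] at h; omega
  | cons b L ih =>
    intro τ h0 h
    by_cases hb : τ - ht b = 0
    · have h2 := h.2
      rw [hb, FP_zero] at h2
      subst h2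
      exact ⟨[], b, rfl, by rw [HT_nil]; exact h0⟩
    · obtain ⟨L1, b', hL, hlt⟩ := ih (τ - ht b) (by omega) h.2
      exact ⟨b :: L1, b', by rw [hL]; rfl, by rw [HT_cons]; omega⟩

/-- the overshoot bound -/
def ovs (i0 : ℕ) : ℝ≥0∞ := ∑' b, Λ b * ((ht b - i0 : ℕ) : ℝ≥0∞)

theorem oversh (hU1 : ∀ n, U Λ ht n ≤ 1) (τ i0 : ℕ) :
    ∑' L, (if FP ht τ L ∧ τ + i0 < HT ht L then LW Λ L else 0) ≤ ovs Λ ht i0 := by
  by_cases h0 : τ = 0
  · subst h0
    have : ∀ L : List B, (if FP ht 0 L ∧ 0 + i0 < HT ht L then LW Λ L else 0) = 0 := by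
      intro L
      rw [if_neg]
      rintro ⟨h, h'⟩
      rw [FP_zero] at h
      subst h
      rw [HT_nil] at h'; omega
    simp only [this, tsum_zero]
    exact zero_le
  set S : Set (List B) := {L | FP ht τ L ∧ τ + i0 < HT ht L} with hS
  set H : B × List B → ℝ≥0∞ := fun p =>
    if HT ht p.2 < τ ∧ τ + i0 < HT ht p.2 + ht p.1 then LW Λ p.2 * Λ p.1 else 0 with hH
  have hex : ∀ L : S, ∃ p : B × List B, L.1 = p.2 ++ [p.1] ∧ HT ht p.2 < τ ∧
      τ + i0 < HT ht p.2 + ht p.1 := by
    rintro ⟨L, hL1, hL2⟩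
    obtain ⟨L1, b, h1, h2⟩ := FP_last ht L τ (by omega) hL1
    refine ⟨(b, L1), h1, h2, ?_⟩
    rw [h1, HT_append, HT_cons, HT_nil] at hL2
    simpa using hL2
  choose f hf using hex
  have hinj : Function.Injective f := by
    intro L L' h
    apply Subtype.ext
    rw [(hf L).1, (hf L').1, h]
  have hfG : ∀ L : S, LW Λ L.1 = H (f L) := by
    intro L
    obtain ⟨h1, h2, h3⟩ := hf L
    simp only [hH]
    rw [if_pos ⟨h2, h3⟩, h1, LW_append, LW_cons, LW_nil, mul_one]
  have step1 : ∑' L : List B, (if FP ht τ L ∧ τ + i0 < HT ht L then LW Λ L else 0)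
      ≤ ∑' p, H p := by
    calc _ = ∑' L : List B, S.indicator (LW Λ) L := by
          refine tsum_congr fun L => ?_
          simp only [Set.indicator, hS, Set.mem_setOf_eq]
      _ = ∑' L : S, LW Λ L.1 := (tsum_subtype S (LW Λ)).symm
      _ = ∑' L : S, H (f L) := tsum_congr hfG
      _ ≤ _ := ENNReal.tsum_comp_le_tsum_of_injective hinj H
  refine step1.trans ?_
  rw [ENNReal.tsum_prod', ovs]
  refine ENNReal.tsum_le_tsum fun b => ?_
  have h2 : ∀ L1 : List B, H (b, L1)
      ≤ Λ b * ∑ j ∈ (Finset.range τ).filter (fun j => τ + i0 < j + ht b),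
          (if HT ht L1 = j then LW Λ L1 else 0) := by
    intro L1
    simp only [hH]
    by_cases hc : HT ht L1 < τ ∧ τ + i0 < HT ht L1 + ht b
    · have hs : ∑ j ∈ (Finset.range τ).filter (fun j => τ + i0 < j + ht b),
          (if HT ht L1 = j then LW Λ L1 else 0) = LW Λ L1 := by
        rw [Finset.sum_ite_eq, if_pos]
        rw [Finset.mem_filter, Finset.mem_range]
        exact hc
      rw [hs, if_pos hc, mul_comm]
    · rw [if_neg hc]; exact zero_le
  calc ∑' L1 : List B, H (b, L1)
      ≤ ∑' L1 : List B, Λ b * ∑ j ∈ (Finset.range τ).filter (fun j => τ + i0 < j + ht b),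
          (if HT ht L1 = j then LW Λ L1 else 0) := ENNReal.tsum_le_tsum h2
    _ = Λ b * ∑ j ∈ (Finset.range τ).filter (fun j => τ + i0 < j + ht b), U Λ ht j := by
        rw [ENNReal.tsum_mul_left, Summable.tsum_finsetSum (fun _ _ => ENNReal.summable)]
        rfl
    _ ≤ Λ b * ∑ j ∈ (Finset.range τ).filter (fun j => τ + i0 < j + ht b), 1 :=
        mul_le_mul_right (Finset.sum_le_sum fun j _ => hU1 j) _
    _ ≤ Λ b * ((ht b - i0 : ℕ) : ℝ≥0∞) := by
        refine mul_le_mul_right ?_ _
        rw [Finset.sum_const, nsmul_eq_mul, mul_one]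
        have hcard : ((Finset.range τ).filter (fun j => τ + i0 < j + ht b)).card
            ≤ ht b - i0 := by
          have hsub : (Finset.range τ).filter (fun j => τ + i0 < j + ht b)
              ⊆ Finset.Ico (τ - (ht b - i0)) τ := by
            intro j hj
            rw [Finset.mem_filter, Finset.mem_range] at hj
            rw [Finset.mem_Ico]
            omega
          refine (Finset.card_le_card hsub).trans ?_
          rw [Nat.card_Ico]
          omega
        exact_mod_cast hcard

/-- law of (overshoot, displacement) of the first passage piece -/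
def pp (τ : ℕ) (x : ℕ × G) : ℝ≥0∞ :=
  ∑' L, (if FP ht τ L ∧ (HT ht L - τ, Dp zz L) = x then LW Λ L else 0)

theorem fiber (τ : ℕ) (φ : ℕ × G → ℝ≥0∞) :
    ∑' x, pp Λ ht zz τ x * φ x
      = ∑' L, (if FP ht τ L then LW Λ L * φ (HT ht L - τ, Dp zz L) else 0) := by
  simp only [pp]
  simp_rw [← ENNReal.tsum_mul_right]
  rw [ENNReal.tsum_comm]
  refine tsum_congr fun L => ?_
  rw [tsum_eq_single (HT ht L - τ, Dp zz L)]
  · by_cases h : FP ht τ L
    · simp [h]
    · simp [h]
  · intro x hx
    rw [if_neg (fun h => hx h.2.symm), zero_mul]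

lemma pp_total (h1 : ∀ b, 1 ≤ ht b) (hΛ : ∑' b, Λ b = 1) (τ : ℕ) :
    ∑' x, pp Λ ht zz τ x = 1 := by
  have := fiber Λ ht zz τ (fun _ => 1)
  simp only [mul_one] at this
  rw [this, FP_mass Λ ht h1 hΛ]

end one

lemma shift {G : Type*} [AddCommGroup G] (g : ℕ × G → ℝ≥0∞) (z : G) :
    ∑' x : ℕ × G, g (x.1, x.2 - z) = ∑' x, g x :=
  (Equiv.prodCongr (Equiv.refl ℕ) (Equiv.subRight z)).tsum_eq g

theorem dens {G : Type*} [AddCommGroup G] (f : ℕ → ℕ × G → ℝ≥0∞) (p : ℕ × G → ℝ≥0∞)
    (τ i0 : ℕ) (th q ε Gc : ℝ≥0∞)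
    (hrec : ∀ r, τ + i0 ≤ r → ∃ b1 : ℕ × G → ℝ≥0∞, ∑' x, b1 x ≤ ε ∧ ∀ x, f r x ≤ b1 x +
      ∑' y : ℕ × G, (if y.1 ≤ i0 then p y * f (r - τ - y.1) (x.1, x.2 - y.2) else 0))
    (hf : ∀ r, ∑' x, f r x ≤ 1)
    (hq : ∑' y, (if th < p y then p y else 0) ≤ q) (hq1 : q ≤ 1)
    (hG : ((i0 + 1 : ℕ) : ℝ≥0∞) * th + q * Gc ≤ Gc) :
    ∀ J r, J * (τ + i0) ≤ r → ∃ b : ℕ × G → ℝ≥0∞, ∑' x, b x ≤ q ^ J + J * ε ∧
      ∀ x, f r x ≤ Gc + b x := by
  intro J
  induction J with
  | zero => intro r _; exact ⟨f r, by simpa using hf r, fun x => le_add_self⟩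
  | succ J ih =>
    intro r hr
    have hr' : τ + i0 ≤ r := by nlinarith
    have hrem : ∀ i, i ≤ i0 → J * (τ + i0) ≤ r - τ - i := by
      intro i hi
      have : J * (τ + i0) + (τ + i0) ≤ r := by nlinarith
      omega
    choose! b hb1 hb2 using fun i (hi : i ≤ i0) => ih (r - τ - i) (hrem i hi)
    obtain ⟨b1, hb11, hb12⟩ := hrec r hr'
    refine ⟨fun x => b1 x + ∑' y : ℕ × G,
      (if y.1 ≤ i0 ∧ th < p y then p y * b y.1 (x.1, x.2 - y.2) else 0), ?_, ?_⟩
    · rw [ENNReal.tsum_add]
      have e2 : ∑' x : ℕ × G, ∑' y : ℕ × G,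
          (if y.1 ≤ i0 ∧ th < p y then p y * b y.1 (x.1, x.2 - y.2) else 0)
          ≤ q * (q ^ J + J * ε) := by
        rw [ENNReal.tsum_comm]
        calc _ ≤ ∑' y : ℕ × G, (if th < p y then p y else 0) * (q ^ J + J * ε) := by
              refine ENNReal.tsum_le_tsum fun y => ?_
              by_cases h : y.1 ≤ i0 ∧ th < p y
              · have e3 : ∀ x : ℕ × G, (if y.1 ≤ i0 ∧ th < p y then
                    p y * b y.1 (x.1, x.2 - y.2) else 0) = p y * b y.1 (x.1, x.2 - y.2) :=
                  fun x => if_pos h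
                simp only [e3]
                rw [ENNReal.tsum_mul_left, if_pos h.2, shift (b y.1) y.2]
                exact mul_le_mul_right (hb1 _ h.1) _
              · simp only [h, if_false, tsum_zero]; exact zero_le
          _ = _ := ENNReal.tsum_mul_right
          _ ≤ _ := mul_le_mul_left hq _
      calc _ ≤ ε + q * (q ^ J + J * ε) := add_le_add hb11 e2
        _ = q ^ (J + 1) + (ε + q * (J * ε)) := by ring
        _ ≤ q ^ (J + 1) + (ε + 1 * (J * ε)) := by gcongr
        _ = q ^ (J + 1) + ((J + 1 : ℕ) : ℝ≥0∞) * ε := by push_cast; ring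
    · intro x
      have hterm : ∀ y : ℕ × G, (if y.1 ≤ i0 then p y * f (r - τ - y.1) (x.1, x.2 - y.2) else 0) ≤
          (if y.1 ≤ i0 ∧ th < p y then p y * b y.1 (x.1, x.2 - y.2) else 0) +
            (if th < p y then p y else 0) * Gc +
            (if y.1 ≤ i0 then th * f (r - τ - y.1) (x.1, x.2 - y.2) else 0) := by
        intro y
        by_cases hi : y.1 ≤ i0
        · by_cases hp : th < p y
          · simp only [hi, hp, if_true, true_and, and_self]
            calc _ ≤ p y * (Gc + b y.1 (x.1, x.2 - y.2)) := mul_le_mul_right (hb2 _ hi _) _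
              _ = p y * b y.1 (x.1, x.2 - y.2) + p y * Gc := by ring
              _ ≤ _ := le_self_add
          · simp only [hi, hp, if_true, true_and, if_false, zero_mul, add_zero, zero_add]
            exact mul_le_mul_left (not_lt.1 hp) _
        · simp only [hi, if_false, false_and]; exact zero_le
      have hlast : ∑' y : ℕ × G, (if y.1 ≤ i0 then th * f (r - τ - y.1) (x.1, x.2 - y.2) else 0)
          ≤ ((i0 + 1 : ℕ) : ℝ≥0∞) * th := by
        rw [ENNReal.tsum_prod']
        calc _ ≤ ∑' i : ℕ, (if i ≤ i0 then th else 0) := by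
              refine ENNReal.tsum_le_tsum fun i => ?_
              by_cases hi : i ≤ i0
              · simp only [hi, if_true]
                rw [ENNReal.tsum_mul_left]
                calc th * ∑' z' : G, f (r - τ - i) (x.1, x.2 - z')
                    = th * ∑' z' : G, f (r - τ - i) (x.1, z') := by
                      congr 1
                      exact (Equiv.subLeft x.2).tsum_eq fun z' => f (r - τ - i) (x.1, z')
                  _ ≤ th * 1 := by
                      refine mul_le_mul_right (le_trans ?_ (hf (r - τ - i))) _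
                      exact ENNReal.tsum_comp_le_tsum_of_injective
                        (f := fun z' : G => ((x.1, z') : ℕ × G))
                        (fun a b h => by simpa using h) _
                  _ = th := mul_one _
              · simp only [hi, if_false, tsum_zero]; exact zero_le
          _ = ∑ i ∈ Finset.range (i0 + 1), th := by
              rw [tsum_eq_sum (s := Finset.range (i0 + 1))]
              · refine Finset.sum_congr rfl fun i hi => ?_
                rw [if_pos (by have := Finset.mem_range.1 hi; omega)]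
              · intro i hi
                rw [if_neg (by intro h; exact hi (Finset.mem_range.2 (by omega)))]
          _ = _ := by simp
      calc f r x ≤ b1 x + ∑' y : ℕ × G,
            (if y.1 ≤ i0 then p y * f (r - τ - y.1) (x.1, x.2 - y.2) else 0) := hb12 x
        _ ≤ b1 x + ∑' y : ℕ × G,
            ((if y.1 ≤ i0 ∧ th < p y then p y * b y.1 (x.1, x.2 - y.2) else 0) +
            (if th < p y then p y else 0) * Gc +
            (if y.1 ≤ i0 then th * f (r - τ - y.1) (x.1, x.2 - y.2) else 0)) := by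
            gcongr with y; exact hterm y
        _ = b1 x + (∑' y : ℕ × G,
            (if y.1 ≤ i0 ∧ th < p y then p y * b y.1 (x.1, x.2 - y.2) else 0) +
            (∑' y : ℕ × G, (if th < p y then p y else 0)) * Gc +
            ∑' y : ℕ × G, (if y.1 ≤ i0 then th * f (r - τ - y.1) (x.1, x.2 - y.2) else 0)) := by
            rw [ENNReal.tsum_add, ENNReal.tsum_add, ENNReal.tsum_mul_right]
        _ ≤ b1 x + (∑' y : ℕ × G,
            (if y.1 ≤ i0 ∧ th < p y then p y * b y.1 (x.1, x.2 - y.2) else 0) +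
            q * Gc + ((i0 + 1 : ℕ) : ℝ≥0∞) * th) := by gcongr
        _ = (((i0 + 1 : ℕ) : ℝ≥0∞) * th + q * Gc) + (b1 x + ∑' y : ℕ × G,
            (if y.1 ≤ i0 ∧ th < p y then p y * b y.1 (x.1, x.2 - y.2) else 0)) := by ring
        _ ≤ _ := by gcongr

section two

variable {B G : Type*} [AddCommGroup G] (Λ : B → ℝ≥0∞) (ht : B → ℕ) (zz : B → G)

/-- recursion of the first passage law -/
theorem pp_rec (h1 : ∀ b, 1 ≤ ht b) (hΛ : ∑' b, Λ b = 1) (hU1 : ∀ n, U Λ ht n ≤ 1)
    (τ i0 r : ℕ) (hr : τ + i0 ≤ r) :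
    ∃ b1 : ℕ × G → ℝ≥0∞, ∑' x, b1 x ≤ ovs Λ ht i0 ∧ ∀ x, pp Λ ht zz r x ≤ b1 x +
      ∑' y : ℕ × G, (if y.1 ≤ i0 then pp Λ ht zz τ y * pp Λ ht zz (r - τ - y.1)
        (x.1, x.2 - y.2) else 0) := by
  refine ⟨fun x => ∑' P, (if FP ht τ P ∧ τ + i0 < HT ht P then
    ∑' A, (if FP ht r (P ++ A) ∧ (HT ht (P ++ A) - r, Dp zz (P ++ A)) = x
      then LW Λ (P ++ A) else 0) else 0), ?_, ?_⟩
  · rw [ENNReal.tsum_comm]
    refine le_trans ?_ (oversh Λ ht hU1 τ i0)
    refine ENNReal.tsum_le_tsum fun P => ?_
    by_cases hP : FP ht τ P ∧ τ + i0 < HT ht P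
    · simp only [if_pos hP]
      rw [ENNReal.tsum_comm]
      calc _ ≤ ∑' A, LW Λ P * (if FP ht (r - HT ht P) A then LW Λ A else 0) := by
            refine ENNReal.tsum_le_tsum fun A => ?_
            by_cases hA : FP ht r (P ++ A)
            · rw [if_pos (FP_append_imp ht P A r hA), ← LW_append]
              rw [tsum_eq_single (HT ht (P ++ A) - r, Dp zz (P ++ A))]
              · simp [hA]
              · intro x hx
                rw [if_neg (fun h => hx h.2.symm)]
            · simp [hA]
        _ = LW Λ P * 1 := by rw [ENNReal.tsum_mul_left, FP_mass Λ ht h1 hΛ]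
        _ = LW Λ P := mul_one _
    · simp only [if_neg hP, tsum_zero]; exact zero_le
  · intro x
    have e1 : pp Λ ht zz r x = ∑' P, (if FP ht τ P then
        ∑' A, (if FP ht r (P ++ A) ∧ (HT ht (P ++ A) - r, Dp zz (P ++ A)) = x
          then LW Λ (P ++ A) else 0) else 0) := by
      rw [← FP_split ht h1 τ (fun L => if FP ht r L ∧ (HT ht L - r, Dp zz L) = x
        then LW Λ L else 0), pp]
      refine tsum_congr fun L => ?_
      by_cases hL : τ ≤ HT ht L
      · rw [if_pos hL]
      · rw [if_neg hL, if_neg]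
        rintro ⟨h, _⟩
        have := le_of_FP ht L r h
        omega
    have e2 : ∑' y : ℕ × G, (if y.1 ≤ i0 then pp Λ ht zz τ y * pp Λ ht zz (r - τ - y.1)
        (x.1, x.2 - y.2) else 0) = ∑' P, (if FP ht τ P then LW Λ P *
          (if HT ht P - τ ≤ i0 then pp Λ ht zz (r - τ - (HT ht P - τ)) (x.1, x.2 - Dp zz P)
            else 0) else 0) := by
      rw [← fiber Λ ht zz τ (fun y => if y.1 ≤ i0 then pp Λ ht zz (r - τ - y.1)
        (x.1, x.2 - y.2) else 0)]
      refine tsum_congr fun y => ?_
      split_ifs <;> simp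
    rw [e1, e2, ← ENNReal.tsum_add]
    refine ENNReal.tsum_le_tsum fun P => ?_
    by_cases hP : FP ht τ P
    · have hle := le_of_FP ht P τ hP
      by_cases ho : τ + i0 < HT ht P
      · rw [if_pos hP, if_pos ⟨hP, ho⟩]; exact le_self_add
      · rw [if_pos hP, if_neg (fun h => ho h.2), if_pos hP, if_pos (by omega), zero_add]
        rw [show r - τ - (HT ht P - τ) = r - HT ht P by omega, pp, ← ENNReal.tsum_mul_left]
        refine ENNReal.tsum_le_tsum fun A => ?_
        by_cases hA : FP ht r (P ++ A) ∧ (HT ht (P ++ A) - r, Dp zz (P ++ A)) = x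
        · rw [if_pos hA]
          have h3 := (FP_append_iff ht P A r (by omega) h1).1 hA.1
          have h4 := hA.2
          have h5 := le_of_FP ht A _ h3
          rw [if_pos, LW_append]
          refine ⟨h3, ?_⟩
          rw [← h4, HT_append, Dp_append]
          refine Prod.ext ?_ ?_
          · simp only; omega
          · simp only; abel
        · rw [if_neg hA]; exact zero_le
    · rw [if_neg hP]; exact zero_le

end two

end

end Crest.Agent.R154.Asm857
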