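import Crest.Agent.R154.B5Abs_566

/-! Row 154, ROAD 801 (helper867): first passage lists, the good / bad split of the prefix
(density lemma at first passage), quantile. -/

set_option autoImplicit false

namespace Crest.Agent.R154.Asm867

open scoped ENNReal
open B5A

variable {B : Type*} {G : Type*} [AddCommGroup G]

/-- first passage of the height `T` -/
def FP (ht : B → ℕ) (T : ℕ) (L : List B) : Prop :=
  T ≤ HT ht L ∧ ∀ L1 L2, L = L1 ++ L2 → L2 ≠ [] → HT ht L1 < T

/-- total displacement -/
def Dp (z : B → G) (L : List B) : G := (L.map z).sum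

lemma Dp_append (z : B → G) (L L' : List B) : Dp z (L ++ L') = Dp z L + Dp z L' := by
  simp [Dp]

lemma exists_FP (ht : B → ℕ) (T : ℕ) (L : List B) (h : T ≤ HT ht L) :
    ∃ V W, L = V ++ W ∧ FP ht T V := by
  classical
  have hex : ∃ k, T ≤ HT ht (L.take k) := ⟨L.length, by simpa using h⟩
  refine ⟨L.take (Nat.find hex), L.drop (Nat.find hex), (List.take_append_drop _ _).symm,
    Nat.find_spec hex, ?_⟩
  intro L1 L2 h12 hne
  have hlen : L1.length < Nat.find hex := by
    have h1 : (L.take (Nat.find hex)).length = L1.length + L2.length := by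
      rw [h12]; simp
    have h2 : (L.take (Nat.find hex)).length ≤ Nat.find hex := by
      rw [List.length_take]; exact min_le_left _ _
    have h3 : 0 < L2.length := List.length_pos_iff.2 hne
    omega
  have h4 := Nat.find_min hex hlen
  have h5 : L.take L1.length = L1 := by
    have h6 : L = L1 ++ (L2 ++ L.drop (Nat.find hex)) := by
      rw [← List.append_assoc, ← h12, List.take_append_drop]
    conv_lhs => rw [h6]
    simp
  rw [h5] at h4
  omega

lemma FP_unique (ht : B → ℕ) (T : ℕ) {V W V' W' : List B} (h : V ++ W = V' ++ W')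
    (hV : FP ht T V) (hV' : FP ht T V') : V = V' ∧ W = W' := by
  rcases List.append_eq_append_iff.1 h with ⟨as, h1, h2⟩ | ⟨as, h1, h2⟩
  · by_cases ha : as = []
    · subst ha; simp at h1 h2; exact ⟨h1.symm, h2⟩
    · have := hV'.2 V as h1 ha
      have := hV.1
      omega
  · by_cases ha : as = []
    · subst ha; simp at h1 h2; exact ⟨h1, h2.symm⟩
    · have := hV.2 V' as h1 ha
      have := hV'.1
      omega

lemma FP_rest (ht : B → ℕ) (a : ℕ) {V W : List B} (h : FP ht a (V ++ W)) :
    FP ht (a - HT ht V) W := by
  refine ⟨by have := h.1; rw [HT_append] at this; omega, ?_⟩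
  intro L1 L2 h12 hne
  have := h.2 (V ++ L1) L2 (by rw [h12, List.append_assoc]) hne
  rw [HT_append] at this
  omega

open Classical in
lemma dec_le (f : List B → ℝ≥0∞) (P : List B → Prop)
    (h : ∀ L, f L ≠ 0 → ∃ V W, L = V ++ W ∧ P V) :
    ∑' L, f L ≤ ∑' V, ∑' W, if P V then f (V ++ W) else 0 := by
  have hc : ∀ L, ∃ q : List B × List B, L = q.1 ++ q.2 ∧ (f L ≠ 0 → P q.1) := by
    intro L
    by_cases hL : f L = 0
    · exact ⟨(L, []), by simp, fun h => absurd hL h⟩
    · obtain ⟨V, W, h1, h2⟩ := h L hL
      exact ⟨(V, W), h1, fun _ => h2⟩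
  choose g hg1 hg2 using hc
  have hinj : Function.Injective g := fun L L' hLL => by rw [hg1 L, hg1 L', hLL]
  rw [← ENNReal.tsum_prod (f := fun V W => if P V then f (V ++ W) else 0)]
  calc ∑' L, f L ≤ ∑' L, (fun q : List B × List B => if P q.1 then f (q.1 ++ q.2) else 0) (g L) := by
        refine ENNReal.tsum_le_tsum fun L => ?_
        by_cases hL : f L = 0
        · rw [hL]; exact zero_le
        · simp only [if_pos (hg2 L hL), ← hg1 L, le_refl]
    _ ≤ _ := ENNReal.tsum_comp_le_tsum_of_injective hinj _

section mass

variable (Λ : B → ℝ≥0∞) (ht : B → ℕ)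

open Classical in
/-- total weight of the first passage lists -/
lemma FP_mass (h1 : ∀ b, 1 ≤ ht b) (hΛ : ∑' b, Λ b ≤ 1) (T : ℕ) :
    ∑' L : List B, (if FP ht T L then LW Λ L else 0) ≤ 1 := by
  induction T using Nat.strong_induction_on with
  | _ T ih =>
    rw [tsum_list]
    rcases Nat.eq_zero_or_pos T with hT | hT
    · subst hT
      have h0 : ∀ b (L : List B), ¬ FP ht 0 (b :: L) := fun b L h => by
        have := h.2 [] (b :: L) rfl (by simp)
        omega
      have h00 : FP ht 0 ([] : List B) := ⟨by simp, fun L1 L2 h hne => by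
        exfalso; have := List.append_eq_nil_iff.1 h.symm; exact hne this.2⟩
      simp [h0, h00, LW_nil]
    · have h0 : ¬ FP ht T ([] : List B) := fun h => by have := h.1; rw [HT_nil] at this; omega
      rw [if_neg h0, zero_add]
      calc ∑' b, ∑' L, (if FP ht T (b :: L) then LW Λ (b :: L) else 0)
          ≤ ∑' b, Λ b * ∑' L, (if FP ht (T - ht b) L then LW Λ L else 0) := by
            refine ENNReal.tsum_le_tsum fun b => ?_
            rw [← ENNReal.tsum_mul_left]
            refine ENNReal.tsum_le_tsum fun L => ?_
            by_cases h : FP ht T (b :: L)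
            · have h' : FP ht (T - ht b) L := by
                have := FP_rest ht T (V := [b]) (W := L) (by simpa using h)
                simpa [HT] using this
              rw [if_pos h, if_pos h', LW_cons]
            · rw [if_neg h]; exact zero_le
        _ ≤ ∑' b, Λ b * 1 := by
            refine ENNReal.tsum_le_tsum fun b => ?_
            have hb := h1 b
            gcongr
            exact ih _ (by omega)
        _ ≤ 1 := by simpa using hΛ

variable (z : B → G)

open Classical in
/-- law of the (height, displacement) of the first passage list -/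
noncomputable def pT (T : ℕ) (h : ℕ) (y : G) : ℝ≥0∞ :=
  ∑' L : List B, if FP ht T L ∧ HT ht L = h ∧ Dp z L = y then LW Λ L else 0

/-- the prefix contains a non local attempt among the first `J` -/
def Good (T i0 : ℕ) (th : ℝ≥0∞) : ℕ → List B → Prop
  | 0, _ => False
  | J + 1, L => ∃ V W, L = V ++ W ∧ FP ht T V ∧ HT ht V ≤ T + i0 ∧
      (pT Λ ht z T (HT ht V) (Dp z V) < th ∨ Good T i0 th J W)

open Classical in
lemma bad_le (h1 : ∀ b, 1 ≤ ht b) (hΛ : ∑' b, Λ b ≤ 1) (T i0 : ℕ) (th q η : ℝ≥0∞) (hq1 : q ≤ 1)
    (hη : ∑' L : List B, (if FP ht T L ∧ T + i0 < HT ht L then LW Λ L else 0) ≤ η)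
    (hq : ∑' L : List B, (if FP ht T L ∧ ¬ pT Λ ht z T (HT ht L) (Dp z L) < th
      then LW Λ L else 0) ≤ q) (J : ℕ) :
    ∀ a, J * (T + i0) ≤ a → ∑' L : List B, (if FP ht a L ∧ ¬ Good Λ ht z T i0 th J L
      then LW Λ L else 0) ≤ q ^ J + J * η := by
  induction J with
  | zero =>
    intro a _
    refine le_trans ?_ (le_trans (FP_mass Λ ht h1 hΛ a) (by simp))
    refine ENNReal.tsum_le_tsum fun L => ?_
    by_cases h : FP ht a L
    · by_cases h' : ¬ Good Λ ht z T i0 th 0 L
      · rw [if_pos ⟨h, h'⟩, if_pos h]
      · rw [if_neg (fun hh => h' hh.2)]; exact zero_le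
    · rw [if_neg (fun hh => h hh.1)]; exact zero_le
  | succ J ih =>
    intro a ha
    have ha' : J * (T + i0) + (T + i0) ≤ a := by rw [Nat.succ_mul] at ha; exact ha
    calc ∑' L : List B, (if FP ht a L ∧ ¬ Good Λ ht z T i0 th (J + 1) L then LW Λ L else 0)
        ≤ ∑' V, ∑' W, (if FP ht T V then
            (if FP ht a (V ++ W) ∧ ¬ Good Λ ht z T i0 th (J + 1) (V ++ W)
              then LW Λ (V ++ W) else 0) else 0) := by
          refine dec_le _ (FP ht T) fun L hL => ?_
          by_cases h : FP ht a L ∧ ¬ Good Λ ht z T i0 th (J + 1) L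
          · exact exists_FP ht T L (by have := h.1.1; omega)
          · rw [if_neg h] at hL; exact absurd rfl hL
      _ ≤ ∑' V, ((if FP ht T V ∧ T + i0 < HT ht V then LW Λ V else 0)
            + (if FP ht T V ∧ ¬ pT Λ ht z T (HT ht V) (Dp z V) < th then LW Λ V else 0)
              * (q ^ J + J * η)) := by
          refine ENNReal.tsum_le_tsum fun V => ?_
          by_cases hV : FP ht T V
          · simp only [if_pos hV]
            by_cases hov : T + i0 < HT ht V
            · rw [if_pos ⟨hV, hov⟩]
              refine le_trans ?_ le_self_add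
              calc ∑' W, (if FP ht a (V ++ W) ∧ ¬ Good Λ ht z T i0 th (J + 1) (V ++ W)
                    then LW Λ (V ++ W) else 0)
                  ≤ ∑' W, LW Λ V * (if FP ht (a - HT ht V) W then LW Λ W else 0) := by
                    refine ENNReal.tsum_le_tsum fun W => ?_
                    by_cases h : FP ht a (V ++ W) ∧ ¬ Good Λ ht z T i0 th (J + 1) (V ++ W)
                    · rw [if_pos h, if_pos (FP_rest ht a h.1), LW_append]
                    · rw [if_neg h]; exact zero_le
                _ ≤ LW Λ V * 1 := by
                    rw [ENNReal.tsum_mul_left]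
                    gcongr
                    exact FP_mass Λ ht h1 hΛ _
                _ = LW Λ V := mul_one _
            · rw [if_neg (fun h => hov h.2), zero_add]
              by_cases hN : pT Λ ht z T (HT ht V) (Dp z V) < th
              · rw [if_neg (fun h => h.2 hN), zero_mul]
                refine le_of_eq (ENNReal.tsum_eq_zero.2 fun W => if_neg fun h => h.2 ?_)
                exact ⟨V, W, rfl, hV, by omega, Or.inl hN⟩
              · rw [if_pos ⟨hV, hN⟩]
                calc ∑' W, (if FP ht a (V ++ W) ∧ ¬ Good Λ ht z T i0 th (J + 1) (V ++ W)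
                      then LW Λ (V ++ W) else 0)
                    ≤ ∑' W, LW Λ V * (if FP ht (a - HT ht V) W ∧ ¬ Good Λ ht z T i0 th J W
                        then LW Λ W else 0) := by
                      refine ENNReal.tsum_le_tsum fun W => ?_
                      by_cases h : FP ht a (V ++ W) ∧ ¬ Good Λ ht z T i0 th (J + 1) (V ++ W)
                      · rw [if_pos h, if_pos ⟨FP_rest ht a h.1, fun hg => h.2
                          ⟨V, W, rfl, hV, by omega, Or.inr hg⟩⟩, LW_append]
                      · rw [if_neg h]; exact zero_le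
                  _ ≤ LW Λ V * (q ^ J + J * η) := by
                      rw [ENNReal.tsum_mul_left]
                      gcongr
                      exact ih _ (by omega)
          · simp [hV]
      _ ≤ η + q * (q ^ J + J * η) := by
          rw [ENNReal.tsum_add, ENNReal.tsum_mul_right]
          gcongr
      _ ≤ q ^ (J + 1) + ((J + 1 : ℕ) : ℝ≥0∞) * η := by
          calc η + q * (q ^ J + J * η) = q ^ (J + 1) + (q * (J * η) + η) := by
                rw [pow_succ]; ring
            _ ≤ q ^ (J + 1) + (1 * (J * η) + η) := by gcongr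
            _ = _ := by push_cast; ring

open Classical in
lemma pT_part (T h : ℕ) (y : G) (th : ℝ≥0∞) :
    ∑' V : List B, (if FP ht T V ∧ pT Λ ht z T (HT ht V) (Dp z V) < th ∧ HT ht V = h ∧ Dp z V = y
      then LW Λ V else 0) ≤ th := by
  by_cases hy : pT Λ ht z T h y < th
  · refine le_trans ?_ hy.le
    rw [pT]
    refine ENNReal.tsum_le_tsum fun V => ?_
    by_cases hV : FP ht T V ∧ pT Λ ht z T (HT ht V) (Dp z V) < th ∧ HT ht V = h ∧ Dp z V = y
    · rw [if_pos hV, if_pos ⟨hV.1, hV.2.2.1, hV.2.2.2⟩]
    · rw [if_neg hV]; exact zero_le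
  · refine le_trans (le_of_eq (ENNReal.tsum_eq_zero.2 fun V => if_neg fun hV => hy ?_)) zero_le
    have := hV.2.1
    rwa [hV.2.2.1, hV.2.2.2] at this

open Classical in
lemma good_le (h1 : ∀ b, 1 ≤ ht b) (hΛ : ∑' b, Λ b ≤ 1) (T i0 : ℕ) (th q C : ℝ≥0∞)
    (hq : ∑' L : List B, (if FP ht T L ∧ ¬ pT Λ ht z T (HT ht L) (Dp z L) < th
      then LW Λ L else 0) ≤ q) (hC : ((i0 + 1 : ℕ) : ℝ≥0∞) * th + q * C ≤ C) (J : ℕ) :
    ∀ a A y, ∑' L : List B, (if FP ht a L ∧ Good Λ ht z T i0 th J L ∧ HT ht L = A ∧ Dp z L = y
      then LW Λ L else 0) ≤ C := by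
  induction J with
  | zero =>
    intro a A y
    refine le_trans (le_of_eq (ENNReal.tsum_eq_zero.2 fun L => if_neg fun h => h.2.1)) zero_le
  | succ J ih =>
    intro a A y
    calc ∑' L : List B, (if FP ht a L ∧ Good Λ ht z T i0 th (J + 1) L ∧ HT ht L = A ∧ Dp z L = y
          then LW Λ L else 0)
        ≤ ∑' V, ∑' W, (if FP ht T V then
            (if FP ht a (V ++ W) ∧ Good Λ ht z T i0 th (J + 1) (V ++ W) ∧ HT ht (V ++ W) = A ∧
              Dp z (V ++ W) = y then LW Λ (V ++ W) else 0) else 0) := by
          refine dec_le _ (FP ht T) fun L hL => ?_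
          by_cases h : FP ht a L ∧ Good Λ ht z T i0 th (J + 1) L ∧ HT ht L = A ∧ Dp z L = y
          · obtain ⟨V, W, h2, h3, -⟩ := h.2.1
            exact ⟨V, W, h2, h3⟩
          · rw [if_neg h] at hL; exact absurd rfl hL
      _ ≤ ∑' V, ∑' W, ((if FP ht T V ∧ HT ht V ≤ T + i0 ∧ pT Λ ht z T (HT ht V) (Dp z V) < th ∧
              FP ht (a - HT ht V) W ∧ HT ht V + HT ht W = A ∧ Dp z V + Dp z W = y
              then LW Λ V * LW Λ W else 0)
            + (if FP ht T V ∧ ¬ pT Λ ht z T (HT ht V) (Dp z V) < th then LW Λ V else 0)
              * (if FP ht (a - HT ht V) W ∧ Good Λ ht z T i0 th J W ∧ HT ht W = A - HT ht V ∧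
                  Dp z W = y - Dp z V then LW Λ W else 0)) := by
          refine ENNReal.tsum_le_tsum fun V => ENNReal.tsum_le_tsum fun W => ?_
          by_cases hV : FP ht T V
          · rw [if_pos hV]
            by_cases h : FP ht a (V ++ W) ∧ Good Λ ht z T i0 th (J + 1) (V ++ W) ∧
                HT ht (V ++ W) = A ∧ Dp z (V ++ W) = y
            · rw [if_pos h]
              obtain ⟨ha, ⟨V', W', hVW, hV', hV'i, hor⟩, hA, hy⟩ := h
              obtain ⟨rfl, rfl⟩ := FP_unique ht T hVW hV hV'
              rw [HT_append] at hA
              rw [Dp_append] at hy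
              by_cases hN : pT Λ ht z T (HT ht V) (Dp z V) < th
              · rw [if_pos ⟨hV, hV'i, hN, FP_rest ht a ha, hA, hy⟩, LW_append]
                exact le_self_add
              · have hg := hor.resolve_left hN
                rw [if_pos (⟨hV, hN⟩ : FP ht T V ∧ ¬ pT Λ ht z T (HT ht V) (Dp z V) < th),
                  if_pos (⟨FP_rest ht a ha, hg, by omega, by rw [← hy]; abel⟩ :
                    FP ht (a - HT ht V) W ∧ Good Λ ht z T i0 th J W ∧ HT ht W = A - HT ht V ∧
                    Dp z W = y - Dp z V), LW_append]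
                exact le_add_self
            · rw [if_neg h]; exact zero_le
          · rw [if_neg hV]; exact zero_le
      _ = (∑' V, ∑' W, (if FP ht T V ∧ HT ht V ≤ T + i0 ∧ pT Λ ht z T (HT ht V) (Dp z V) < th ∧
              FP ht (a - HT ht V) W ∧ HT ht V + HT ht W = A ∧ Dp z V + Dp z W = y
              then LW Λ V * LW Λ W else 0))
            + ∑' V, ∑' W, ((if FP ht T V ∧ ¬ pT Λ ht z T (HT ht V) (Dp z V) < th then LW Λ V else 0)
              * (if FP ht (a - HT ht V) W ∧ Good Λ ht z T i0 th J W ∧ HT ht W = A - HT ht V ∧
                  Dp z W = y - Dp z V then LW Λ W else 0)) := by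
          simp_rw [ENNReal.tsum_add]
      _ ≤ ((i0 + 1 : ℕ) : ℝ≥0∞) * th + q * C := by
          gcongr
          · rw [ENNReal.tsum_comm]
            calc ∑' W, ∑' V, (if FP ht T V ∧ HT ht V ≤ T + i0 ∧
                    pT Λ ht z T (HT ht V) (Dp z V) < th ∧ FP ht (a - HT ht V) W ∧
                    HT ht V + HT ht W = A ∧ Dp z V + Dp z W = y then LW Λ V * LW Λ W else 0)
                ≤ ∑' W, ∑ i ∈ Finset.range (i0 + 1),
                    (if FP ht (a - (T + i)) W then LW Λ W else 0) * th := by
                  refine ENNReal.tsum_le_tsum fun W => ?_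
                  by_cases hi : ∃ i, i ≤ i0 ∧ T + i + HT ht W = A
                  · obtain ⟨i, hi, hiA⟩ := hi
                    refine le_trans ?_ (Finset.single_le_sum (f := fun i =>
                      (if FP ht (a - (T + i)) W then LW Λ W else 0) * th)
                      (fun _ _ => zero_le) (Finset.mem_range.2 (Nat.lt_succ_of_le hi)))
                    by_cases hW : FP ht (a - (T + i)) W
                    · simp only [if_pos hW]
                      calc _ ≤ ∑' V, (if FP ht T V ∧ pT Λ ht z T (HT ht V) (Dp z V) < th ∧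
                            HT ht V = T + i ∧ Dp z V = y - Dp z W then LW Λ V else 0)
                              * LW Λ W := by
                            refine ENNReal.tsum_le_tsum fun V => ?_
                            by_cases h : FP ht T V ∧ HT ht V ≤ T + i0 ∧
                                pT Λ ht z T (HT ht V) (Dp z V) < th ∧ FP ht (a - HT ht V) W ∧
                                HT ht V + HT ht W = A ∧ Dp z V + Dp z W = y
                            · rw [if_pos h, if_pos ⟨h.1, h.2.2.1, by
                                have := h.2.2.2.2.1; omega, by rw [← h.2.2.2.2.2]; abel⟩]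
                            · rw [if_neg h]; exact zero_le
                        _ = (∑' V, (if FP ht T V ∧ pT Λ ht z T (HT ht V) (Dp z V) < th ∧
                            HT ht V = T + i ∧ Dp z V = y - Dp z W then LW Λ V else 0))
                              * LW Λ W := ENNReal.tsum_mul_right
                        _ ≤ LW Λ W * th := by
                            rw [mul_comm]
                            gcongr
                            exact pT_part Λ ht z T _ _ th
                    · refine le_trans (le_of_eq (ENNReal.tsum_eq_zero.2 fun V =>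
                        if_neg fun h => hW ?_)) zero_le
                      have h5 := h.2.2.2.2.1
                      have h6 := h.2.2.2.1
                      rwa [show HT ht V = T + i by omega] at h6
                  · refine le_trans (le_of_eq (ENNReal.tsum_eq_zero.2 fun V =>
                        if_neg fun h => hi ?_)) zero_le
                    have h5 := h.2.2.2.2.1
                    have h6 := h.1.1
                    exact ⟨HT ht V - T, by have := h.2.1; omega, by omega⟩
              _ = ∑ i ∈ Finset.range (i0 + 1),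
                    (∑' W, (if FP ht (a - (T + i)) W then LW Λ W else 0)) * th := by
                  rw [Summable.tsum_finsetSum (fun _ _ => ENNReal.summable)]
                  refine Finset.sum_congr rfl fun i _ => ?_
                  rw [ENNReal.tsum_mul_right]
              _ ≤ ∑ i ∈ Finset.range (i0 + 1), 1 * th := by
                  gcongr
                  exact FP_mass Λ ht h1 hΛ _
              _ = _ := by rw [Finset.sum_const, Finset.card_range, one_mul, nsmul_eq_mul]
          · calc ∑' V, ∑' W, ((if FP ht T V ∧ ¬ pT Λ ht z T (HT ht V) (Dp z V) < th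
                    then LW Λ V else 0)
                  * (if FP ht (a - HT ht V) W ∧ Good Λ ht z T i0 th J W ∧ HT ht W = A - HT ht V ∧
                      Dp z W = y - Dp z V then LW Λ W else 0))
                ≤ ∑' V, (if FP ht T V ∧ ¬ pT Λ ht z T (HT ht V) (Dp z V) < th
                    then LW Λ V else 0) * C := by
                  refine ENNReal.tsum_le_tsum fun V => ?_
                  rw [ENNReal.tsum_mul_left]
                  gcongr
                  exact ih _ _ _
              _ ≤ q * C := by rw [ENNReal.tsum_mul_right]; gcongr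
      _ ≤ C := hC

end mass

end Crest.Agent.R154.Asm867
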