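import Crest.Agent.R154.FP_178
import Crest.Agent.R154.Dens_903

/-! Row 154 (helper871), ROAD 801: laws of first passages and their smooth part. -/

set_option autoImplicit false

namespace Crest.Agent.R154.Asm871

open scoped ENNReal
open Crest.Agent.R154.B5A Crest.Agent.R154.FP178

section one

variable {B G : Type*} [AddCommGroup G] (Λ : B → ℝ≥0∞) (ht : B → ℕ) (dz : B → G)

/-- displacement of a list -/
def Dp (L : List B) : G := (L.map dz).sum

lemma Dp_append (L L' : List B) : Dp dz (L ++ L') = Dp dz L + Dp dz L' := by simp [Dp]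

/-- height and displacement -/
def vL (L : List B) : ℤ × G := ((HT ht L : ℤ), Dp dz L)

lemma vL_append (L L' : List B) : vL ht dz (L ++ L') = vL ht dz L + vL ht dz L' := by
  simp [vL, HT_append, Dp_append]

open Classical in
/-- law of (height, displacement) at the first passage of depth `T` -/
noncomputable def law (T : ℕ) (v : ℤ × G) : ℝ≥0∞ :=
  ∑' A, if fp ht T A ∧ vL ht dz A = v then LW Λ A else 0

open Classical in
lemma law_sum (T : ℕ) (Φ : ℤ × G → ℝ≥0∞) :
    ∑' A, (if fp ht T A then LW Λ A * Φ (vL ht dz A) else 0)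
      = ∑' v, law Λ ht dz T v * Φ v := by
  simp only [law, ← ENNReal.tsum_mul_right]
  rw [ENNReal.tsum_comm]
  refine tsum_congr fun A => ?_
  rw [tsum_eq_single (vL ht dz A)]
  · by_cases h : fp ht T A <;> simp [h]
  · intro v hv
    rw [if_neg (fun h => hv h.2.symm), zero_mul]

lemma law_le (h1 : ∀ b, 1 ≤ ht b) (hΛ : ∑' b, Λ b ≤ 1) (T : ℕ) :
    ∑' v, law Λ ht dz T v ≤ 1 := by
  classical
  have := law_sum Λ ht dz T (fun _ => 1)
  simp only [mul_one] at this
  rw [← this]
  exact sum_FP Λ ht h1 hΛ T

open Classical in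
lemma sum_FP_eq (h1 : ∀ b, 1 ≤ ht b) (hΛ : ∑' b, Λ b = 1) (a : ℕ) :
    ∑' L, (if fp ht a L then LW Λ L else 0) = 1 := by
  induction a using Nat.strong_induction_on with
  | _ a ih =>
    rcases Nat.eq_zero_or_pos a with rfl | ha
    · have := sum_fp_zero Λ ht (fun _ => 1)
      simp only [mul_one] at this
      exact this
    · have := sum_fp_step Λ ht a ha (fun _ => 1)
      simp only [mul_one] at this
      rw [this]
      calc ∑' b, Λ b * ∑' L, (if fp ht (a - ht b) L then LW Λ L else 0)
          = ∑' b, Λ b * 1 := by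
            refine tsum_congr fun b => ?_
            rw [ih (a - ht b) (by have := h1 b; omega)]
        _ = 1 := by simpa using hΛ

lemma law_eq_one (h1 : ∀ b, 1 ≤ ht b) (hΛ : ∑' b, Λ b = 1) (T : ℕ) :
    ∑' v, law Λ ht dz T v = 1 := by
  classical
  have := law_sum Λ ht dz T (fun _ => 1)
  simp only [mul_one] at this
  rw [← this]
  exact sum_FP_eq Λ ht h1 hΛ T

lemma law_conv (h1 : ∀ b, 1 ≤ ht b) (τ T : ℕ) (hτ : τ ≤ T) (v : ℤ × G) :
    law Λ ht dz T v = ∑' u, law Λ ht dz τ u * law Λ ht dz (T - u.1.toNat) (v - u) := by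
  classical
  have e0 : law Λ ht dz T v
      = ∑' L, (if fp ht T L then LW Λ L * (if vL ht dz L = v then 1 else 0) else 0) := by
    refine tsum_congr fun L => ?_
    by_cases h : fp ht T L <;> by_cases h' : vL ht dz L = v <;> simp [h, h']
  rw [e0, fp_split Λ ht h1 τ T hτ (fun L => if vL ht dz L = v then 1 else 0),
    ← law_sum Λ ht dz τ (fun u => law Λ ht dz (T - u.1.toNat) (v - u))]
  refine tsum_congr fun A => ?_
  by_cases h : fp ht τ A
  · rw [if_pos h, if_pos h]
    congr 1
    show _ = ∑' L, _
    have e1 : (vL ht dz A).1.toNat = HT ht A := by simp [vL]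
    rw [e1]
    refine tsum_congr fun L => ?_
    rw [vL_append]
    by_cases h2 : fp ht (T - HT ht A) L
    · by_cases h3 : vL ht dz L = v - vL ht dz A
      · have h4 : vL ht dz A + vL ht dz L = v := by rw [h3]; abel
        simp [h2, h3]
      · have h4 : ¬ (vL ht dz A + vL ht dz L = v) := fun h => h3 (by rw [← h]; abel)
        simp [h2, h3, h4]
    · simp [h2]
  · rw [if_neg h, if_neg h]

lemma law_ne (s : ℕ) (u : ℤ × G) (h : law Λ ht dz s u ≠ 0) : (s : ℤ) ≤ u.1 := by
  classical
  by_contra hc
  apply h
  rw [law, ENNReal.tsum_eq_zero]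
  intro A
  rw [if_neg]
  rintro ⟨h1, h2⟩
  apply hc
  rw [← h2]
  have := le_HT_of_fp ht h1
  simp only [vL]
  exact_mod_cast this

lemma tsum_shift (f : ℤ × G → ℝ≥0∞) (u : ℤ × G) : ∑' v, f (v - u) = ∑' v, f v :=
  (Equiv.subRight u).tsum_eq f

open Classical in
/-- **smooth part of the law of a first passage** -/
theorem smooth (h1 : ∀ b, 1 ≤ ht b) (hΛ : ∑' b, Λ b ≤ 1) (s i0 : ℕ) (th q ε M : ℝ≥0∞)
    (hε : ∑' v, (if s + i0 < v.1.toNat then law Λ ht dz s v else 0) ≤ ε)
    (hq : ∑' v, (if th < law Λ ht dz s v then law Λ ht dz s v else 0) ≤ q) (hq1 : q ≤ 1)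
    (hM : (i0 + 1 : ℕ) * th + q * M ≤ M) :
    ∀ J T, J * (s + i0) ≤ T → ∃ b : ℤ × G → ℝ≥0∞, (∑' v, b v ≤ q ^ J + J * ε) ∧
      ∀ v, law Λ ht dz T v ≤ M + b v := by
  intro J
  induction J with
  | zero =>
    intro T _
    exact ⟨law Λ ht dz T, by simpa using law_le Λ ht dz h1 hΛ T, fun v => le_add_self⟩
  | succ J ih =>
    intro T hT
    have hsT : s ≤ T := by nlinarith
    have hrem : ∀ h, h ≤ s + i0 → J * (s + i0) ≤ T - h := by
      intro h hh
      have : J * (s + i0) + (s + i0) ≤ T := by nlinarith
      omega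
    choose! b hb1 hb2 using fun h (hh : h ≤ s + i0) => ih (T - h) (hrem h hh)
    set p := law Λ ht dz s with hp
    set F := fun (u v : ℤ × G) => law Λ ht dz (T - u.1.toNat) (v - u) with hF
    have hFv : ∀ u, ∑' v, F u v ≤ 1 := by
      intro u
      show ∑' v, law Λ ht dz (T - u.1.toNat) (v - u) ≤ 1
      rw [tsum_shift (law Λ ht dz (T - u.1.toNat)) u]
      exact law_le Λ ht dz h1 hΛ _
    refine ⟨fun v => (∑' u, if s + i0 < u.1.toNat then p u * F u v else 0) +
      ∑' u, if u.1.toNat ≤ s + i0 ∧ th < p u then p u * b u.1.toNat (v - u) else 0, ?_, ?_⟩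
    · rw [ENNReal.tsum_add]
      have e1 : ∑' v, ∑' u, (if s + i0 < u.1.toNat then p u * F u v else 0) ≤ ε := by
        rw [ENNReal.tsum_comm]
        refine le_trans (ENNReal.tsum_le_tsum fun u => ?_) hε
        split_ifs with h
        · rw [ENNReal.tsum_mul_left]
          calc p u * ∑' v, F u v ≤ p u * 1 := by gcongr; exact hFv u
            _ = p u := mul_one _
        · simp
      have e2 : ∑' v, ∑' u, (if u.1.toNat ≤ s + i0 ∧ th < p u then
          p u * b u.1.toNat (v - u) else 0) ≤ q * (q ^ J + J * ε) := by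
        rw [ENNReal.tsum_comm]
        calc _ ≤ ∑' u, (if th < p u then p u else 0) * (q ^ J + J * ε) := by
              refine ENNReal.tsum_le_tsum fun u => ?_
              by_cases h : u.1.toNat ≤ s + i0 ∧ th < p u
              · simp only [if_pos h, if_pos h.2]
                rw [ENNReal.tsum_mul_left, tsum_shift (b u.1.toNat) u]
                gcongr
                exact hb1 _ h.1
              · simp only [if_neg h, tsum_zero]
                exact zero_le
          _ = (∑' u, (if th < p u then p u else 0)) * (q ^ J + J * ε) := by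
              rw [ENNReal.tsum_mul_right]
          _ ≤ _ := by gcongr
      calc _ ≤ ε + q * (q ^ J + J * ε) := add_le_add e1 e2
        _ = q ^ (J + 1) + (ε + q * (J * ε)) := by ring
        _ ≤ q ^ (J + 1) + (ε + 1 * (J * ε)) := by gcongr
        _ = q ^ (J + 1) + ((J + 1 : ℕ) : ℝ≥0∞) * ε := by push_cast; ring
    · intro v
      have hterm : ∀ u, p u * F u v ≤
          ((if s + i0 < u.1.toNat then p u * F u v else 0) +
            (if u.1 ∈ Finset.Icc (s : ℤ) (s + i0 : ℕ) then th * F u v else 0)) +
          ((if u.1.toNat ≤ s + i0 ∧ th < p u then p u * b u.1.toNat (v - u) else 0) +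
            (if th < p u then p u else 0) * M) := by
        intro u
        by_cases hi : s + i0 < u.1.toNat
        · rw [if_pos hi]
          exact le_add_right (le_add_right le_rfl)
        · rw [not_lt] at hi
          by_cases hpu : th < p u
          · calc p u * F u v ≤ p u * (M + b u.1.toNat (v - u)) := by
                  gcongr
                  exact hb2 _ hi _
              _ = p u * b u.1.toNat (v - u) + p u * M := by ring
              _ ≤ _ := by
                  rw [if_pos (⟨hi, hpu⟩ : u.1.toNat ≤ s + i0 ∧ th < p u), if_pos hpu]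
                  exact le_add_self
          · by_cases h0 : p u = 0
            · simp [h0]
            · have h2 := law_ne Λ ht dz s u h0
              have h3 : u.1 ∈ Finset.Icc (s : ℤ) (s + i0 : ℕ) := by
                rw [Finset.mem_Icc]
                refine ⟨h2, ?_⟩
                omega
              rw [if_pos h3]
              calc p u * F u v ≤ th * F u v := by gcongr; exact not_lt.1 hpu
                _ ≤ _ := le_add_right le_add_self
      have hmid : ∑' u : ℤ × G, (if u.1 ∈ Finset.Icc (s : ℤ) (s + i0 : ℕ) then th * F u v else 0)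
          ≤ (i0 + 1 : ℕ) * th := by
        have hpr : ∑' u : ℤ × G, (if u.1 ∈ Finset.Icc (s : ℤ) (s + i0 : ℕ) then th * F u v else 0)
            = ∑' c : ℤ, ∑' z : G,
              (if c ∈ Finset.Icc (s : ℤ) (s + i0 : ℕ) then th * F (c, z) v else 0) :=
          ENNReal.tsum_prod (f := fun (c : ℤ) (z : G) =>
            if c ∈ Finset.Icc (s : ℤ) (s + i0 : ℕ) then th * F (c, z) v else 0)
        rw [hpr, tsum_eq_sum (s := Finset.Icc (s : ℤ) (s + i0 : ℕ))]
        · calc _ ≤ ∑ c ∈ Finset.Icc (s : ℤ) (s + i0 : ℕ), th := by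
                refine Finset.sum_le_sum fun c hc => ?_
                simp only [if_pos hc]
                rw [ENNReal.tsum_mul_left]
                calc th * ∑' z, F (c, z) v ≤ th * 1 := by
                      gcongr
                      refine le_trans ?_ (law_le Λ ht dz h1 hΛ (T - c.toNat))
                      have hinj : Function.Injective (fun z : G => v - ((c, z) : ℤ × G)) := by
                        intro z z' h
                        have := congrArg Prod.snd h
                        simpa using this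
                      exact ENNReal.tsum_comp_le_tsum_of_injective hinj _
                  _ = th := mul_one _
            _ = _ := by
                rw [Finset.sum_const, Int.card_Icc, nsmul_eq_mul]
                congr 2
                omega
        · intro c hc
          simp only [if_neg hc, tsum_zero]
      calc law Λ ht dz T v = ∑' u, p u * F u v := law_conv Λ ht dz h1 s T hsT v
        _ ≤ _ := ENNReal.tsum_le_tsum hterm
        _ = ((∑' u, (if s + i0 < u.1.toNat then p u * F u v else 0)) +
            (∑' u : ℤ × G, (if u.1 ∈ Finset.Icc (s : ℤ) (s + i0 : ℕ) then th * F u v else 0))) +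
          ((∑' u, (if u.1.toNat ≤ s + i0 ∧ th < p u then p u * b u.1.toNat (v - u) else 0)) +
            (∑' u, (if th < p u then p u else 0)) * M) := by
            rw [ENNReal.tsum_add, ENNReal.tsum_add, ENNReal.tsum_add, ENNReal.tsum_mul_right]
        _ ≤ ((∑' u, (if s + i0 < u.1.toNat then p u * F u v else 0)) + ((i0 + 1 : ℕ) * th)) +
          ((∑' u, (if u.1.toNat ≤ s + i0 ∧ th < p u then p u * b u.1.toNat (v - u) else 0)) +
            q * M) := by gcongr
        _ = ((i0 + 1 : ℕ) * th + q * M) + ((∑' u, (if s + i0 < u.1.toNat then p u * F u v else 0)) +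
          (∑' u, (if u.1.toNat ≤ s + i0 ∧ th < p u then p u * b u.1.toNat (v - u) else 0))) := by
            ring
        _ ≤ _ := by gcongr

end one

end Crest.Agent.R154.Asm871
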