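import Crest.Agent.R154.Smooth_178
import Crest.Agent.R154.Dens_616

/-! Row 154 (helper876), ROAD 801: assembly, part A (operators on one list system). -/

set_option autoImplicit false

namespace Crest.Agent.R154.Asm876

open scoped ENNReal
open Crest.Agent.R154.B5A
open Crest.Agent.R154.FP178

section one

variable {B : Type*} (Λ : B → ℝ≥0∞) (ht : B → ℕ)

open Classical in
noncomputable def ES (n : ℕ) (f : List B → ℝ≥0∞) : ℝ≥0∞ :=
  ∑' L, if HT ht L = n then LW Λ L * f L else 0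

open Classical in
noncomputable def FS (a i0 : ℕ) (f : List B → ℝ≥0∞) : ℝ≥0∞ :=
  ∑' A, if fp ht a A ∧ HT ht A ≤ a + i0 then LW Λ A * f A else 0

open Classical in
noncomputable def OV (a i0 : ℕ) : ℝ≥0∞ :=
  ∑' L, (if fp ht a L ∧ a + i0 < HT ht L then LW Λ L else 0)

lemma ES_mono {n : ℕ} {f g : List B → ℝ≥0∞} (h : ∀ L, HT ht L = n → f L ≤ g L) :
    ES Λ ht n f ≤ ES Λ ht n g := by
  refine ENNReal.tsum_le_tsum fun L => ?_
  by_cases hL : HT ht L = n
  · rw [if_pos hL, if_pos hL]; exact mul_le_mul_right (h L hL) _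
  · rw [if_neg hL, if_neg hL]

lemma FS_mono {a i0 : ℕ} {f g : List B → ℝ≥0∞}
    (h : ∀ A, fp ht a A → HT ht A ≤ a + i0 → f A ≤ g A) :
    FS Λ ht a i0 f ≤ FS Λ ht a i0 g := by
  refine ENNReal.tsum_le_tsum fun L => ?_
  by_cases hL : fp ht a L ∧ HT ht L ≤ a + i0
  · rw [if_pos hL, if_pos hL]; exact mul_le_mul_right (h L hL.1 hL.2) _
  · rw [if_neg hL, if_neg hL]

lemma ES_add {n : ℕ} (f g : List B → ℝ≥0∞) :
    ES Λ ht n (fun L => f L + g L) = ES Λ ht n f + ES Λ ht n g := by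
  rw [ES, ES, ES, ← ENNReal.tsum_add]
  refine tsum_congr fun L => ?_
  by_cases hL : HT ht L = n
  · simp only [if_pos hL, mul_add]
  · simp only [if_neg hL, add_zero]

lemma FS_add {a i0 : ℕ} (f g : List B → ℝ≥0∞) :
    FS Λ ht a i0 (fun L => f L + g L) = FS Λ ht a i0 f + FS Λ ht a i0 g := by
  rw [FS, FS, FS, ← ENNReal.tsum_add]
  refine tsum_congr fun L => ?_
  by_cases hL : fp ht a L ∧ HT ht L ≤ a + i0
  · simp only [if_pos hL, mul_add]
  · simp only [if_neg hL, add_zero]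

lemma FS_mul_left {a i0 : ℕ} (c : ℝ≥0∞) (f : List B → ℝ≥0∞) :
    FS Λ ht a i0 (fun L => c * f L) = c * FS Λ ht a i0 f := by
  rw [FS, FS, ← ENNReal.tsum_mul_left]
  refine tsum_congr fun L => ?_
  by_cases hL : fp ht a L ∧ HT ht L ≤ a + i0
  · simp only [if_pos hL]; ring
  · simp only [if_neg hL, mul_zero]

lemma ES_le_const (hU1 : ∀ n, U Λ ht n ≤ 1) {n : ℕ} {f : List B → ℝ≥0∞} {c : ℝ≥0∞}
    (hf : ∀ L, HT ht L = n → f L ≤ c) : ES Λ ht n f ≤ c := by
  calc ES Λ ht n f ≤ ES Λ ht n (fun _ => c) := ES_mono Λ ht hf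
    _ = U Λ ht n * c := by
      rw [ES, U, ← ENNReal.tsum_mul_right]
      refine tsum_congr fun L => ?_
      by_cases hL : HT ht L = n
      · rw [if_pos hL, if_pos hL]
      · rw [if_neg hL, if_neg hL, zero_mul]
    _ ≤ 1 * c := mul_le_mul_left (hU1 n) _
    _ = c := one_mul c

lemma FS_le_const (h1 : ∀ b, 1 ≤ ht b) (hΛ : ∑' b, Λ b ≤ 1) {a i0 : ℕ} {f : List B → ℝ≥0∞}
    {c : ℝ≥0∞} (hf : ∀ A, fp ht a A → HT ht A ≤ a + i0 → f A ≤ c) : FS Λ ht a i0 f ≤ c := by
  classical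
  calc FS Λ ht a i0 f ≤ ∑' L, (if fp ht a L then LW Λ L else 0) * c := by
        refine ENNReal.tsum_le_tsum fun L => ?_
        by_cases hL : fp ht a L ∧ HT ht L ≤ a + i0
        · rw [if_pos hL, if_pos hL.1]; exact mul_le_mul_right (hf L hL.1 hL.2) _
        · rw [if_neg hL]; exact zero_le
    _ = (∑' L, (if fp ht a L then LW Λ L else 0)) * c := ENNReal.tsum_mul_right
    _ ≤ 1 * c := mul_le_mul_left (by convert sum_FP Λ ht h1 hΛ a) _
    _ = c := one_mul c

lemma ES_split (h1 : ∀ b, 1 ≤ ht b) (hU1 : ∀ n, U Λ ht n ≤ 1) {n a i0 : ℕ} (ha : a ≤ n)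
    (f : List B → ℝ≥0∞) (hf : ∀ L, f L ≤ 1) :
    ES Λ ht n f ≤ FS Λ ht a i0 (fun A => ES Λ ht (n - HT ht A) (fun R => f (A ++ R)))
      + OV Λ ht a i0 := by
  classical
  have e0 : ES Λ ht n f
      = ∑' L, (if a ≤ HT ht L then LW Λ L * (if HT ht L = n then f L else 0) else 0) := by
    refine tsum_congr fun L => ?_
    by_cases hL : HT ht L = n
    · rw [if_pos hL, if_pos hL, if_pos (by omega)]
    · rw [if_neg hL, if_neg hL, mul_zero, ite_self]
  rw [e0, split Λ ht h1 a, FS, OV, ← ENNReal.tsum_add]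
  refine ENNReal.tsum_le_tsum fun A => ?_
  set I : ℝ≥0∞ := ∑' L2, LW Λ L2 * (if HT ht (A ++ L2) = n then f (A ++ L2) else 0) with hI
  have hI1 : I ≤ ES Λ ht (n - HT ht A) (fun R => f (A ++ R)) := by
    refine ENNReal.tsum_le_tsum fun R => ?_
    by_cases h : HT ht (A ++ R) = n
    · rw [if_pos h, if_pos (by rw [HT_append] at h; omega)]
    · rw [if_neg h, mul_zero]; exact zero_le
  have hI2 : I ≤ 1 := hI1.trans (ES_le_const Λ ht hU1 fun L _ => hf _)
  by_cases hA : fp ht a A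
  · rw [if_pos hA]
    by_cases h2 : HT ht A ≤ a + i0
    · rw [if_pos ⟨hA, h2⟩, if_neg (by omega), add_zero]
      exact mul_le_mul_right hI1 _
    · rw [if_neg (fun h => h2 h.2), if_pos ⟨hA, by omega⟩, zero_add]
      calc LW Λ A * I ≤ LW Λ A * 1 := mul_le_mul_right hI2 _
        _ = _ := mul_one _
  · rw [if_neg hA]; exact zero_le

variable {G : Type*} [AddCommGroup G] (dsp : B → G)

lemma sum_disp (a : ℕ) (φ : G → ℝ≥0∞) [DecidablePred (fp ht a)] :
    ∑' A, (if fp ht a A then LW Λ A * φ (dL dsp A) else 0) = ∑' z, mL Λ ht dsp a z * φ z := by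
  classical
  have : ∀ z, mL Λ ht dsp a z * φ z = ∑' A, (if fp ht a A then
      LW Λ A * (if dL dsp A = z then φ z else 0) else 0) := by
    intro z
    rw [mL, ← ENNReal.tsum_mul_right]
    refine tsum_congr fun A => ?_
    by_cases h : fp ht a A
    · rw [if_pos h, if_pos h, mul_assoc]
      congr 1
      by_cases h' : dL dsp A = z
      · rw [if_pos h', if_pos h', one_mul]
      · rw [if_neg h', if_neg h', zero_mul]
    · rw [if_neg h, if_neg h, zero_mul]
  rw [tsum_congr this, ENNReal.tsum_comm]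
  refine tsum_congr fun A => ?_
  by_cases h : fp ht a A
  · simp only [if_pos h]
    rw [ENNReal.tsum_mul_left, tsum_eq_single (dL dsp A)]
    · rw [if_pos rfl]
    · intro z hz
      rw [if_neg (fun hh => hz hh.symm)]
  · simp only [if_neg h, tsum_zero]

lemma dens_apply {a i0 : ℕ} {g b : G → ℝ≥0∞} (hgb : ∀ z, mL Λ ht dsp a z = g z + b z)
    (Ψ : ℕ → G → ℝ≥0∞) (hΨ : ∀ c z, a ≤ c → c ≤ a + i0 → Ψ c z ≤ 1) :
    FS Λ ht a i0 (fun A => Ψ (HT ht A) (dL dsp A))
      ≤ (∑ c ∈ Finset.range (i0 + 1), ∑' z, g z * Ψ (a + c) z) + ∑' z, b z := by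
  classical
  set S : G → ℝ≥0∞ := fun z => ∑ c ∈ Finset.range (i0 + 1), Ψ (a + c) z with hS
  calc FS Λ ht a i0 (fun A => Ψ (HT ht A) (dL dsp A))
      ≤ ∑' A, (if fp ht a A then LW Λ A * (min (S (dL dsp A)) 1) else 0) := by
        refine ENNReal.tsum_le_tsum fun A => ?_
        by_cases hA : fp ht a A ∧ HT ht A ≤ a + i0
        · rw [if_pos hA, if_pos hA.1]
          refine mul_le_mul_right (le_min ?_ (hΨ _ _ (le_HT_of_fp ht hA.1) hA.2)) _
          have hle := le_HT_of_fp ht hA.1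
          have : Ψ (HT ht A) (dL dsp A) = Ψ (a + (HT ht A - a)) (dL dsp A) := by
            rw [show a + (HT ht A - a) = HT ht A by omega]
          rw [this]
          exact Finset.single_le_sum (f := fun c => Ψ (a + c) (dL dsp A))
            (fun _ _ => zero_le) (Finset.mem_range.2 (by omega))
        · rw [if_neg hA]; exact zero_le
    _ = ∑' z, mL Λ ht dsp a z * min (S z) 1 := sum_disp Λ ht dsp a (fun z => min (S z) 1)
    _ ≤ ∑' z, (g z * S z + b z) := by
        refine ENNReal.tsum_le_tsum fun z => ?_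
        rw [hgb, add_mul]
        refine add_le_add (mul_le_mul_right (min_le_left _ _) _) ?_
        calc b z * min (S z) 1 ≤ b z * 1 := mul_le_mul_right (min_le_right _ _) _
          _ = b z := mul_one _
    _ = (∑' z, g z * S z) + ∑' z, b z := ENNReal.tsum_add
    _ = _ := by
        congr 1
        rw [← Summable.tsum_finsetSum (fun _ _ => ENNReal.summable)]
        refine tsum_congr fun z => ?_
        rw [hS, Finset.mul_sum]

end one

end Crest.Agent.R154.Asm876
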