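import Crest.Agent.R154.FP_178

/-! Row 154 (helper879), ROAD 801: expectation over first passage lists, reduction of a whole
list to (top, piece), smooth density on first passage lists (rough part paid once). -/

set_option autoImplicit false

namespace Crest.Agent.R154.AsmA879

open scoped ENNReal
open Crest.Agent.R154.B5A Crest.Agent.R154.FP178

variable {B : Type*} (Λ : B → ℝ≥0∞) (ht : B → ℕ)

open Classical in
/-- expectation over the first passage lists of depth `a` -/
noncomputable def Ex (a : ℕ) (F : List B → ℝ≥0∞) : ℝ≥0∞ :=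
  ∑' L, (if fp ht a L then LW Λ L * F L else 0)

lemma Ex_mono (a : ℕ) {F F' : List B → ℝ≥0∞} (h : ∀ L, fp ht a L → F L ≤ F' L) :
    Ex Λ ht a F ≤ Ex Λ ht a F' := by
  refine ENNReal.tsum_le_tsum fun L => ?_
  by_cases hL : fp ht a L
  · rw [if_pos hL, if_pos hL]; exact mul_le_mul_right (h L hL) _
  · rw [if_neg hL, if_neg hL]

lemma Ex_congr (a : ℕ) {F F' : List B → ℝ≥0∞} (h : ∀ L, fp ht a L → F L = F' L) :
    Ex Λ ht a F = Ex Λ ht a F' :=
  le_antisymm (Ex_mono Λ ht a fun L hL => (h L hL).le) (Ex_mono Λ ht a fun L hL => (h L hL).ge)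

lemma Ex_add (a : ℕ) (F F' : List B → ℝ≥0∞) :
    Ex Λ ht a (fun L => F L + F' L) = Ex Λ ht a F + Ex Λ ht a F' := by
  rw [Ex, Ex, Ex, ← ENNReal.tsum_add]
  refine tsum_congr fun L => ?_
  by_cases hL : fp ht a L
  · simp only [if_pos hL, mul_add]
  · simp only [if_neg hL, add_zero]

lemma Ex_mul (a : ℕ) (c : ℝ≥0∞) (F : List B → ℝ≥0∞) :
    Ex Λ ht a (fun L => c * F L) = c * Ex Λ ht a F := by
  rw [Ex, Ex, ← ENNReal.tsum_mul_left]
  refine tsum_congr fun L => ?_
  by_cases hL : fp ht a L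
  · simp only [if_pos hL]; rw [mul_left_comm]
  · simp only [if_neg hL, mul_zero]

lemma Ex_tsum {ι : Type*} (a : ℕ) (F : ι → List B → ℝ≥0∞) :
    Ex Λ ht a (fun L => ∑' i, F i L) = ∑' i, Ex Λ ht a (F i) := by
  simp only [Ex]
  rw [ENNReal.tsum_comm]
  refine tsum_congr fun L => ?_
  by_cases hL : fp ht a L
  · simp only [if_pos hL, ENNReal.tsum_mul_left]
  · simp only [if_neg hL, tsum_zero]

lemma Ex_one_le (h1 : ∀ b, 1 ≤ ht b) (hΛ : ∑' b, Λ b ≤ 1) (a : ℕ) :
    Ex Λ ht a (fun _ => 1) ≤ 1 := by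
  have := sum_FP Λ ht h1 hΛ a
  simpa only [Ex, mul_one] using this

lemma Ex_const_le (h1 : ∀ b, 1 ≤ ht b) (hΛ : ∑' b, Λ b ≤ 1) (a : ℕ) (c : ℝ≥0∞)
    {F : List B → ℝ≥0∞} (hF : ∀ L, fp ht a L → F L ≤ c) : Ex Λ ht a F ≤ c := by
  refine (Ex_mono Λ ht a (F' := fun _ => c * 1) fun L hL => by rw [mul_one]; exact hF L hL).trans ?_
  rw [Ex_mul]
  exact (mul_le_mul_right (Ex_one_le Λ ht h1 hΛ a) c).trans (mul_one c).le

lemma Ex_split (h1 : ∀ b, 1 ≤ ht b) (τ a : ℕ) (hτ : τ ≤ a) (F : List B → ℝ≥0∞) :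
    Ex Λ ht a F = Ex Λ ht τ (fun V => Ex Λ ht (a - HT ht V) (fun L => F (V ++ L))) :=
  fp_split Λ ht h1 τ a hτ F

open Classical in
lemma Ex_one (h1 : ∀ b, 1 ≤ ht b) (hΛ : ∑' b, Λ b = 1) (a : ℕ) :
    Ex Λ ht a (fun _ => 1) = 1 := by
  induction a using Nat.strong_induction_on with
  | _ a ih =>
    rcases Nat.eq_zero_or_pos a with rfl | ha
    · exact sum_fp_zero Λ ht (fun _ => 1)
    · rw [Ex, sum_fp_step Λ ht a ha (fun _ => 1)]
      calc ∑' b, Λ b * ∑' L, (if fp ht (a - ht b) L then LW Λ L * 1 else 0)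
          = ∑' b, Λ b * 1 := by
            refine tsum_congr fun b => ?_
            congr 1
            exact ih (a - ht b) (by have := h1 b; omega)
        _ = 1 := by simpa using hΛ

open Classical in
/-- **whole list → (top, piece)** -/
theorem red (h1 : ∀ b, 1 ≤ ht b) (hU1 : ∀ n, U Λ ht n ≤ 1) (T τ i0 n : ℕ)
    (hn : T + i0 + τ ≤ n) (F : List B → ℝ≥0∞) (hF1 : ∀ L, F L ≤ 1)
    (G : List B → List B → ℝ≥0∞)
    (hG : ∀ A P R, fp ht T A → fp ht τ P → HT ht A + (HT ht P + HT ht R) = n →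
      F (A ++ (P ++ R)) ≤ G A P) :
    ∑' L, (if HT ht L = n then LW Λ L * F L else 0)
      ≤ Ex Λ ht T (fun A => if T + i0 < HT ht A then 1 else 0)
        + Ex Λ ht T (fun A => Ex Λ ht τ (fun P => G A P)) := by
  have hU : ∀ (k : ℕ) (c : ℝ≥0∞) (f : List B → ℝ≥0∞),
      (∀ L, f L ≤ c) → (∀ L, f L ≠ 0 → HT ht L = k) → ∑' L, LW Λ L * f L ≤ c := by
    intro k c f hf hk
    calc ∑' L, LW Λ L * f L ≤ ∑' L, c * (if HT ht L = k then LW Λ L else 0) := by
          refine ENNReal.tsum_le_tsum fun L => ?_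
          by_cases h0 : f L = 0
          · rw [h0, mul_zero]; exact zero_le
          · rw [if_pos (hk L h0), mul_comm]; exact mul_le_mul_left (hf L) _
      _ = c * U Λ ht k := by rw [ENNReal.tsum_mul_left]; rfl
      _ ≤ c := (mul_le_mul_right (hU1 k) c).trans (mul_one c).le
  have hL : ∑' L, (if HT ht L = n then LW Λ L * F L else 0)
      = ∑' L, (if T ≤ HT ht L then LW Λ L * (if HT ht L = n then F L else 0) else 0) := by
    refine tsum_congr fun L => ?_
    by_cases h : HT ht L = n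
    · rw [if_pos h, if_pos (by omega), if_pos h]
    · rw [if_neg h, if_neg h, mul_zero, ite_self]
  rw [hL, split Λ ht h1 T (fun L => if HT ht L = n then F L else 0), ← Ex_add]
  refine Ex_mono Λ ht T fun A hA => ?_
  by_cases ho : T + i0 < HT ht A
  · rw [if_pos ho]
    refine le_trans ?_ le_self_add
    refine hU (n - HT ht A) 1 _ (fun L => ?_) (fun L hL => ?_)
    · split_ifs
      · exact hF1 _
      · exact zero_le
    · by_contra hne
      apply hL
      rw [if_neg]
      rw [HT_append]; omega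
  · rw [if_neg ho, zero_add]
    have e : ∑' L2, LW Λ L2 * (if HT ht (A ++ L2) = n then F (A ++ L2) else 0)
        = ∑' L2, (if τ ≤ HT ht L2 then
            LW Λ L2 * (if HT ht (A ++ L2) = n then F (A ++ L2) else 0) else 0) := by
      refine tsum_congr fun L => ?_
      by_cases h : HT ht (A ++ L) = n
      · rw [if_pos h, if_pos (by rw [HT_append] at h; omega)]
      · rw [if_neg h, mul_zero, ite_self]
    rw [e, split Λ ht h1 τ (fun L2 => if HT ht (A ++ L2) = n then F (A ++ L2) else 0)]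
    refine Ex_mono Λ ht τ fun P hP => ?_
    refine hU (n - HT ht A - HT ht P) (G A P) _ (fun R => ?_) (fun R hR => ?_)
    · by_cases h : HT ht (A ++ (P ++ R)) = n
      · rw [if_pos h]
        exact hG A P R hA hP (by rw [HT_append, HT_append] at h; exact h)
      · rw [if_neg h]; exact zero_le
    · by_contra hne
      apply hR
      rw [if_neg]
      rw [HT_append, HT_append]; omega

variable {G : Type*} [AddCommGroup G] (z : B → G)

/-- displacement of a list -/
def Dp (L : List B) : G := (L.map z).sum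

lemma Dp_append (L L' : List B) : Dp z (L ++ L') = Dp z L + Dp z L' := by
  simp [Dp]

open Classical in
/-- law of (height, displacement) of the first passage list of depth `a` -/
noncomputable def fl (a r : ℕ) (x : G) : ℝ≥0∞ :=
  Ex Λ ht a (fun A => if HT ht A = r ∧ Dp z A = x then 1 else 0)

/-- grouping -/
lemma Ex_group (a : ℕ) (φ : ℕ → G → ℝ≥0∞) :
    Ex Λ ht a (fun A => φ (HT ht A) (Dp z A)) = ∑' r, ∑' x, fl Λ ht z a r x * φ r x := by
  classical
  have e : ∀ A : List B, φ (HT ht A) (Dp z A)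
      = ∑' r, ∑' x, φ r x * (if HT ht A = r ∧ Dp z A = x then 1 else 0) := by
    intro A
    rw [tsum_eq_single (HT ht A), tsum_eq_single (Dp z A)]
    · rw [if_pos ⟨rfl, rfl⟩, mul_one]
    · intro x hx; rw [if_neg (fun h => hx h.2.symm), mul_zero]
    · intro r hr
      refine ENNReal.tsum_eq_zero.2 fun x => ?_
      rw [if_neg (fun h => hr h.1.symm), mul_zero]
  rw [Ex_congr Λ ht a (F' := fun A => ∑' r, ∑' x, φ r x * (if HT ht A = r ∧ Dp z A = x then 1
    else 0)) (fun A _ => e A), Ex_tsum]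
  refine tsum_congr fun r => ?_
  rw [Ex_tsum]
  refine tsum_congr fun x => ?_
  rw [Ex_mul, mul_comm]
  congr 2

lemma fl_sum (h1 : ∀ b, 1 ≤ ht b) (hΛ : ∑' b, Λ b ≤ 1) (a : ℕ) :
    ∑' r, ∑' x, fl Λ ht z a r x ≤ 1 := by
  have := Ex_group Λ ht z a (fun _ _ => 1)
  simp only [mul_one] at this
  rw [← this]
  exact Ex_one_le Λ ht h1 hΛ a

lemma fl_sum1 (h1 : ∀ b, 1 ≤ ht b) (hΛ : ∑' b, Λ b ≤ 1) (a r : ℕ) :
    ∑' x, fl Λ ht z a r x ≤ 1 :=
  (ENNReal.le_tsum r).trans (fl_sum Λ ht z h1 hΛ a)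

lemma fl_zero_of_lt (a r : ℕ) (x : G) (h : r < a) : fl Λ ht z a r x = 0 := by
  rw [fl, Ex]
  refine ENNReal.tsum_eq_zero.2 fun A => ?_
  by_cases hA : fp ht a A
  · rw [if_pos hA, if_neg, mul_zero]
    rintro ⟨h', _⟩
    have := le_HT_of_fp ht hA
    omega
  · rw [if_neg hA]

lemma tsum_shift (h : ℕ) (ψ : ℕ → ℝ≥0∞) :
    ∑' r, (if h ≤ r then ψ (r - h) else 0) = ∑' r, ψ r := by
  have hinj : Function.Injective (fun r : ℕ => r + h) := fun a b hab => by
    simpa using hab
  have hsupp : Function.support (fun r => if h ≤ r then ψ (r - h) else 0)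
      ⊆ Set.range (fun r : ℕ => r + h) := by
    intro r hr
    by_cases hh : h ≤ r
    · exact ⟨r - h, by simp only; omega⟩
    · simp [hh] at hr
  rw [← hinj.tsum_eq hsupp]
  refine tsum_congr fun r => ?_
  rw [if_pos (by omega)]
  congr 1
  omega

lemma tsum_subL (y : G) (ψ : G → ℝ≥0∞) : ∑' x, ψ (x - y) = ∑' x, ψ x :=
  (Equiv.subRight y).tsum_eq ψ

lemma tsum_subR (y : G) (ψ : G → ℝ≥0∞) : ∑' x, ψ (y - x) = ∑' x, ψ x :=
  (Equiv.subLeft y).tsum_eq ψ

open Classical in
/-- recursion of the first passage law -/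
lemma fl_rec (h1 : ∀ b, 1 ≤ ht b) (τ a : ℕ) (hτ : τ ≤ a) (r : ℕ) (x : G) :
    fl Λ ht z a r x = Ex Λ ht τ (fun V => if HT ht V ≤ r then
      fl Λ ht z (a - HT ht V) (r - HT ht V) (x - Dp z V) else 0) := by
  rw [fl, Ex_split Λ ht h1 τ a hτ]
  refine Ex_congr Λ ht τ fun V _ => ?_
  by_cases h : HT ht V ≤ r
  · rw [if_pos h, fl]
    refine Ex_congr Λ ht _ fun L _ => ?_
    rw [HT_append, Dp_append]
    refine if_congr ?_ rfl rfl
    constructor
    · rintro ⟨h2, h3⟩
      exact ⟨by omega, by rw [← h3]; abel⟩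
    · rintro ⟨h2, h3⟩
      exact ⟨by omega, by rw [h3]; abel⟩
  · rw [if_neg h]
    refine le_antisymm ?_ zero_le
    calc Ex Λ ht (a - HT ht V) (fun L => if HT ht (V ++ L) = r ∧ Dp z (V ++ L) = x then 1 else 0)
        ≤ Ex Λ ht (a - HT ht V) (fun _ => 0 * 1) := by
          refine Ex_mono Λ ht _ fun L _ => ?_
          rw [if_neg, zero_mul]
          rintro ⟨h2, _⟩
          rw [HT_append] at h2; omega
      _ = 0 := by rw [Ex_mul, zero_mul]

open Classical in
/-- **SMOOTH DENSITY ON FIRST PASSAGE LISTS**, the rough part paid once. -/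
theorem dens (h1 : ∀ b, 1 ≤ ht b) (hΛ : ∑' b, Λ b ≤ 1) (τ i0 : ℕ) (th q e : ℝ≥0∞)
    (hq : Ex Λ ht τ (fun V => if th < fl Λ ht z τ (HT ht V) (Dp z V) then 1 else 0) ≤ q)
    (he : Ex Λ ht τ (fun V => if τ + i0 < HT ht V then 1 else 0) ≤ e) (J : ℕ) :
    ∀ a, J * (τ + i0) ≤ a → ∃ g b : ℕ → G → ℝ≥0∞,
      (∀ r x, fl Λ ht z a r x ≤ g r x + b r x) ∧ (∀ r x, g r x ≤ fl Λ ht z a r x) ∧
      (∀ r x, g r x ≤ ((i0 : ℝ≥0∞) + 1) * th * ∑ j ∈ Finset.range J, q ^ j) ∧
      ∑' r, ∑' x, b r x ≤ q ^ J + e * ∑ j ∈ Finset.range J, q ^ j := by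
  induction J with
  | zero =>
    intro a _
    refine ⟨fun _ _ => 0, fl Λ ht z a, fun r x => by simp, fun r x => zero_le,
      fun r x => zero_le, ?_⟩
    simpa using fl_sum Λ ht z h1 hΛ a
  | succ J ih =>
    intro a ha
    have hτa : τ ≤ a := by
      have : (J + 1) * (τ + i0) = J * (τ + i0) + τ + i0 := by ring
      omega
    choose! g' b' hfg hgf hgM hbM using ih
    set f := fl Λ ht z with hf
    let lo : List B → Prop := fun V => f τ (HT ht V) (Dp z V) ≤ th
    let nr : List B → Prop := fun V => HT ht V ≤ τ + i0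
    let gl : ℕ → G → ℝ≥0∞ := fun r x => Ex Λ ht τ (fun V => if nr V ∧ lo V ∧ HT ht V ≤ r then
      f (a - HT ht V) (r - HT ht V) (x - Dp z V) else 0)
    let gh : ℕ → G → ℝ≥0∞ := fun r x => Ex Λ ht τ (fun V => if nr V ∧ ¬ lo V ∧ HT ht V ≤ r then
      g' (a - HT ht V) (r - HT ht V) (x - Dp z V) else 0)
    let bh : ℕ → G → ℝ≥0∞ := fun r x => Ex Λ ht τ (fun V => if nr V ∧ ¬ lo V ∧ HT ht V ≤ r then
      b' (a - HT ht V) (r - HT ht V) (x - Dp z V) else 0)
    let bf : ℕ → G → ℝ≥0∞ := fun r x => Ex Λ ht τ (fun V => if ¬ nr V ∧ HT ht V ≤ r then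
      f (a - HT ht V) (r - HT ht V) (x - Dp z V) else 0)
    have hroom : ∀ V, nr V → J * (τ + i0) ≤ a - HT ht V := by
      intro V hV
      have h2 : (J + 1) * (τ + i0) = J * (τ + i0) + (τ + i0) := by ring
      simp only [nr] at hV
      omega
    have hle : ∀ r x, f a r x ≤ (gl r x + gh r x) + (bh r x + bf r x) := by
      intro r x
      rw [hf, fl_rec Λ ht z h1 τ a hτa r x, ← hf]
      simp only [gl, gh, bh, bf]
      rw [← Ex_add, ← Ex_add, ← Ex_add]
      refine Ex_mono Λ ht τ fun V _ => ?_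
      by_cases hr : HT ht V ≤ r
      · by_cases hn : nr V
        · by_cases hl : lo V
          · simp [hr, hn, hl]
          · simp only [hr, hn, hl, if_true, not_true, not_false_eq_true, and_true, true_and,
              false_and, if_false, zero_add, add_zero]
            exact hfg _ (hroom V hn) _ _
        · simp [hr, hn]
      · simp [hr]
    have hgl : ∀ r x, gl r x ≤ ((i0 : ℝ≥0∞) + 1) * th := by
      intro r x
      have e1 : gl r x = ∑' h, ∑' y, f τ h y * (if h ≤ τ + i0 ∧ f τ h y ≤ th ∧ h ≤ r then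
          f (a - h) (r - h) (x - y) else 0) :=
        Ex_group Λ ht z τ (fun h y => if h ≤ τ + i0 ∧ f τ h y ≤ th ∧ h ≤ r then
          f (a - h) (r - h) (x - y) else 0)
      rw [e1]
      have e2 : ∀ h, ∑' y, f τ h y * (if h ≤ τ + i0 ∧ f τ h y ≤ th ∧ h ≤ r then
          f (a - h) (r - h) (x - y) else 0) ≤ if h ∈ Finset.Icc τ (τ + i0) then th else 0 := by
        intro h
        by_cases hh : h ∈ Finset.Icc τ (τ + i0)
        · rw [if_pos hh]
          calc _ ≤ ∑' y, th * f (a - h) (r - h) (x - y) := by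
                refine ENNReal.tsum_le_tsum fun y => ?_
                by_cases hc : h ≤ τ + i0 ∧ f τ h y ≤ th ∧ h ≤ r
                · rw [if_pos hc]; exact mul_le_mul_left hc.2.1 _
                · rw [if_neg hc, mul_zero]; exact zero_le
            _ = th * ∑' y, f (a - h) (r - h) (x - y) := by rw [ENNReal.tsum_mul_left]
            _ ≤ th * 1 := by
                refine mul_le_mul_right ?_ _
                rw [tsum_subR x (f (a - h) (r - h))]
                exact fl_sum1 Λ ht z h1 hΛ _ _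
            _ = th := mul_one _
        · rw [if_neg hh]
          refine le_of_eq (ENNReal.tsum_eq_zero.2 fun y => ?_)
          by_cases hlt : h < τ
          · rw [hf, fl_zero_of_lt Λ ht z τ h y hlt, zero_mul]
          · rw [if_neg, mul_zero]
            rintro ⟨h3, _⟩
            exact hh (Finset.mem_Icc.2 ⟨by omega, h3⟩)
      refine (ENNReal.tsum_le_tsum e2).trans ?_
      rw [tsum_eq_sum (s := Finset.Icc τ (τ + i0)) (fun h hh => if_neg hh)]
      rw [Finset.sum_congr rfl (fun h hh => if_pos hh), Finset.sum_const, Nat.card_Icc,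
        nsmul_eq_mul]
      refine le_of_eq ?_
      congr 1
      have : τ + i0 + 1 - τ = i0 + 1 := by omega
      rw [this]; push_cast; ring
    have hgh : ∀ r x, gh r x ≤ q * (((i0 : ℝ≥0∞) + 1) * th * ∑ j ∈ Finset.range J, q ^ j) := by
      intro r x
      calc gh r x ≤ Ex Λ ht τ (fun V => (((i0 : ℝ≥0∞) + 1) * th * ∑ j ∈ Finset.range J, q ^ j) *
            (if th < f τ (HT ht V) (Dp z V) then 1 else 0)) := by
            refine Ex_mono Λ ht τ fun V _ => ?_
            by_cases hc : nr V ∧ ¬ lo V ∧ HT ht V ≤ r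
            · rw [if_pos hc, if_pos (not_le.1 hc.2.1), mul_one]
              exact hgM _ (hroom V hc.1) _ _
            · rw [if_neg hc]; exact zero_le
        _ = _ := Ex_mul _ _ _ _ _
        _ ≤ _ := by rw [mul_comm]; exact mul_le_mul_left hq _
    have hswap : ∀ (φ : List B → ℕ → G → ℝ≥0∞),
        ∑' r, ∑' x, Ex Λ ht τ (fun V => φ V r x) = Ex Λ ht τ (fun V => ∑' r, ∑' x, φ V r x) := by
      intro φ
      rw [Ex_tsum]
      refine tsum_congr fun r => ?_
      rw [Ex_tsum]
    have hin : ∀ (V : List B) (ψ : ℕ → G → ℝ≥0∞), ∑' r, ∑' x, (if HT ht V ≤ r then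
        ψ (r - HT ht V) (x - Dp z V) else 0) = ∑' r, ∑' x, ψ r x := by
      intro V ψ
      rw [← tsum_shift (HT ht V) (fun r => ∑' x, ψ r x)]
      refine tsum_congr fun r => ?_
      by_cases hr : HT ht V ≤ r
      · simp only [if_pos hr]
        exact tsum_subL (Dp z V) (ψ (r - HT ht V))
      · simp only [if_neg hr, tsum_zero]
    have hbh : ∑' r, ∑' x, bh r x ≤ q * (q ^ J + e * ∑ j ∈ Finset.range J, q ^ j) := by
      simp only [bh]
      rw [hswap (fun V r x => if nr V ∧ ¬ lo V ∧ HT ht V ≤ r then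
        b' (a - HT ht V) (r - HT ht V) (x - Dp z V) else 0)]
      calc _ ≤ Ex Λ ht τ (fun V => (q ^ J + e * ∑ j ∈ Finset.range J, q ^ j) *
            (if th < f τ (HT ht V) (Dp z V) then 1 else 0)) := by
            refine Ex_mono Λ ht τ fun V _ => ?_
            by_cases hc : nr V ∧ ¬ lo V
            · rw [if_pos (not_le.1 hc.2), mul_one]
              refine le_trans (le_of_eq ?_) (hbM _ (hroom V hc.1))
              rw [← hin V (b' (a - HT ht V))]
              refine tsum_congr fun r => tsum_congr fun x => if_congr ?_ rfl rfl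
              exact ⟨fun h => h.2.2, fun h => ⟨hc.1, hc.2, h⟩⟩
            · refine le_trans (le_of_eq ?_) zero_le
              refine ENNReal.tsum_eq_zero.2 fun r => ENNReal.tsum_eq_zero.2 fun x => ?_
              rw [if_neg (fun h => hc ⟨h.1, h.2.1⟩)]
        _ = _ := Ex_mul _ _ _ _ _
        _ ≤ _ := by rw [mul_comm]; exact mul_le_mul_left hq _
    have hbf : ∑' r, ∑' x, bf r x ≤ e := by
      simp only [bf]
      rw [hswap (fun V r x => if ¬ nr V ∧ HT ht V ≤ r then
        f (a - HT ht V) (r - HT ht V) (x - Dp z V) else 0)]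
      refine le_trans (Ex_mono Λ ht τ fun V _ => ?_) he
      by_cases hc : nr V
      · refine le_trans (le_of_eq ?_) zero_le
        refine ENNReal.tsum_eq_zero.2 fun r => ENNReal.tsum_eq_zero.2 fun x => ?_
        rw [if_neg (fun h => h.1 hc)]
      · rw [if_pos (not_le.1 hc)]
        refine le_trans (le_of_eq ?_) (fl_sum Λ ht z h1 hΛ (a - HT ht V))
        rw [← hf, ← hin V (f (a - HT ht V))]
        refine tsum_congr fun r => tsum_congr fun x => if_congr ?_ rfl rfl
        exact ⟨fun h => h.2, fun h => ⟨hc, h⟩⟩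
    refine ⟨fun r x => min (f a r x) (gl r x + gh r x), fun r x => bh r x + bf r x,
      fun r x => ?_, fun r x => min_le_left _ _, fun r x => ?_, ?_⟩
    · rcases le_total (f a r x) (gl r x + gh r x) with h | h
      · simp only [min_eq_left h]; exact le_self_add
      · simp only [min_eq_right h]; exact hle r x
    · refine (min_le_right _ _).trans ((add_le_add (hgl r x) (hgh r x)).trans (le_of_eq ?_))
      rw [Finset.sum_range_succ', pow_zero]
      have : ∑ k ∈ Finset.range J, q ^ (k + 1) = q * ∑ k ∈ Finset.range J, q ^ k := by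
        rw [Finset.mul_sum]
        exact Finset.sum_congr rfl fun k _ => by rw [pow_succ']
      rw [this]; ring
    · have : ∑' r, ∑' x, (bh r x + bf r x) = ∑' r, ∑' x, bh r x + ∑' r, ∑' x, bf r x := by
        rw [← ENNReal.tsum_add]
        exact tsum_congr fun r => ENNReal.tsum_add
      rw [this]
      refine (add_le_add hbh hbf).trans (le_of_eq ?_)
      rw [Finset.sum_range_succ' (fun j => q ^ j), pow_zero]
      have : ∑ k ∈ Finset.range J, q ^ (k + 1) = q * ∑ k ∈ Finset.range J, q ^ k := by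
        rw [Finset.mul_sum]
        exact Finset.sum_congr rfl fun k _ => by rw [pow_succ']
      rw [this, pow_succ']; ring

end Crest.Agent.R154.AsmA879
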