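import Crest.Agent.R154.Smooth_178
import Crest.Agent.R154.KWBind_419

/-! Row 154, ROAD 801 (helper887): abstract assembly, part A: traces, one-walker splitting,
the window sum against a density. -/

set_option autoImplicit false

namespace Crest.Agent.R154.Asm887

open scoped ENNReal
open Crest.Agent.R154.B5A Crest.Agent.R154.FP178
open Crest.Agent.R154.KWB419 (TT)

/-! ### traces -/

section trace

variable {B G : Type*} [AddCommGroup G] (s : B → Set (G × ℕ)) (z : B → G) (h : B → ℕ)

lemma TT_append (L L' : List B) (x : G) (a : ℕ) :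
    TT s h z (L ++ L') x a = TT s h z L x a ∪ TT s h z L' (x + (L.map z).sum) (a + HT h L) := by
  induction L generalizing x a with
  | nil => simp [TT, HT]
  | cons b L ih =>
    simp only [List.cons_append, TT, List.map_cons, List.sum_cons, HT_cons]
    rw [ih, Set.union_assoc, add_assoc, add_assoc]

lemma TT_shift (L : List B) (x v : G) (a : ℕ) (y : G) (k : ℕ) :
    (y, k) ∈ TT s h z L (x + v) a ↔ (y - v, k) ∈ TT s h z L x a := by
  induction L generalizing x a with
  | nil => simp [TT]
  | cons b L ih =>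
    simp only [TT, Set.mem_union, Set.mem_ofPred_eq]
    rw [show x + v + z b = x + z b + v by abel, ih]
    refine or_congr ?_ Iff.rfl
    constructor
    · rintro ⟨q, hq, e⟩
      refine ⟨q, hq, ?_⟩
      rw [Prod.mk.injEq] at e ⊢
      exact ⟨by rw [e.1]; abel, e.2⟩
    · rintro ⟨q, hq, e⟩
      refine ⟨q, hq, ?_⟩
      rw [Prod.mk.injEq] at e ⊢
      refine ⟨?_, e.2⟩
      rw [show x + v + q.1 = x + q.1 + v by abel, ← e.1]; abel

lemma TT_depth (hs : ∀ b p, p ∈ s b → 1 ≤ p.2 ∧ p.2 ≤ h b) (L : List B) (x : G) (a : ℕ)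
    (p : G × ℕ) (hp : p ∈ TT s h z L x a) : a < p.2 ∧ p.2 ≤ a + HT h L := by
  induction L generalizing x a with
  | nil => simp [TT] at hp
  | cons b L ih =>
    rw [HT_cons]
    rcases hp with ⟨q, hq, rfl⟩ | hp
    · have := hs b q hq
      simp only
      omega
    · have := ih _ _ hp
      omega

end trace

/-! ### sums -/

lemma tsum_ite_const {ι : Type*} (p : Prop) [Decidable p] (f : ι → ℝ≥0∞) :
    ∑' i, (if p then f i else 0) = if p then ∑' i, f i else 0 := by
  by_cases h : p <;> simp [h]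

lemma tsum_fiber {ι κ : Type*} [DecidableEq κ] (key : ι → κ) (F : ι → ℝ≥0∞) :
    ∑' i, F i = ∑' k, ∑' i, (if key i = k then F i else 0) := by
  rw [ENNReal.tsum_comm]
  refine tsum_congr fun i => ?_
  rw [tsum_eq_single (key i)]
  · simp
  · intro k hk
    rw [if_neg (fun h => hk h.symm)]

section one

variable {B : Type*} (Λ : B → ℝ≥0∞) (ht : B → ℕ)

/-- overshoot bound -/
noncomputable def ov (i : ℕ) : ℝ≥0∞ := ∑' k, tail Λ ht (i + k)

open Classical in
/-- weight of a first passage of `a` with overshoot at most `i0` -/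
noncomputable def wf (a i0 : ℕ) (L : List B) : ℝ≥0∞ :=
  if fp ht a L ∧ HT ht L ≤ a + i0 then LW Λ L else 0

lemma wf_le (a i0 : ℕ) (L : List B) : wf Λ ht a i0 L ≤ LW Λ L := by
  classical
  rw [wf]; split_ifs <;> simp

lemma sum_wf (h1 : ∀ b, 1 ≤ ht b) (hΛ : ∑' b, Λ b ≤ 1) (a i0 : ℕ) :
    ∑' L, wf Λ ht a i0 L ≤ 1 := by
  classical
  refine le_trans (ENNReal.tsum_le_tsum fun L => ?_) (sum_FP Λ ht h1 hΛ a)
  rw [wf]
  by_cases h : fp ht a L <;> by_cases h' : HT ht L ≤ a + i0 <;> simp [h, h']

open Classical in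
lemma U_shift (hU1 : ∀ n, U Λ ht n ≤ 1) (n c : ℕ) :
    ∑' R, (if c + HT ht R = n then LW Λ R else 0) ≤ 1 := by
  by_cases hc : c ≤ n
  · calc ∑' R, (if c + HT ht R = n then LW Λ R else 0) = U Λ ht (n - c) := by
          rw [U]
          refine tsum_congr fun R => ?_
          by_cases h : c + HT ht R = n
          · rw [if_pos h, if_pos (by omega)]
          · rw [if_neg h, if_neg (by omega)]
      _ ≤ 1 := hU1 _
  · have : ∀ R : List B, (if c + HT ht R = n then LW Λ R else 0) = 0 := fun R => by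
      rw [if_neg (by omega)]
    simp [this]

open Classical in
/-- one walker: split at the first passage of `a`, then of `τ`. -/
theorem one (h1 : ∀ b, 1 ≤ ht b) (hΛ : ∑' b, Λ b ≤ 1) (hU1 : ∀ n, U Λ ht n ≤ 1)
    (n a τ i0 : ℕ) (hn : a + i0 + τ ≤ n) (f : List B → ℝ≥0∞) (F : List B → List B → ℝ≥0∞)
    (hf : ∀ L, f L ≤ 1)
    (hF : ∀ A P R, fp ht a A → HT ht A ≤ a + i0 → fp ht τ P → HT ht P ≤ τ + i0 →
      HT ht A + HT ht P + HT ht R = n → f (A ++ (P ++ R)) ≤ F A P) :
    ∑' L, (if HT ht L = n then LW Λ L * f L else 0)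
      ≤ 2 * ov Λ ht i0 + ∑' A, wf Λ ht a i0 A * ∑' P, wf Λ ht τ i0 P * F A P := by
  set f' : List B → ℝ≥0∞ := fun L => if HT ht L = n then f L else 0 with hf'
  have e1 : ∑' L, (if HT ht L = n then LW Λ L * f L else 0)
      = ∑' L, (if a ≤ HT ht L then LW Λ L * f' L else 0) := by
    refine tsum_congr fun L => ?_
    simp only [hf']
    by_cases h : HT ht L = n
    · rw [if_pos h, if_pos (by omega), if_pos h]
    · rw [if_neg h, if_neg h, mul_zero]; simp
  rw [e1, split Λ ht h1 a f']
  -- inner sums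
  have hbound : ∀ A : List B, ∑' L2, LW Λ L2 * f' (A ++ L2) ≤ 1 := by
    intro A
    calc ∑' L2, LW Λ L2 * f' (A ++ L2)
        ≤ ∑' L2, (if HT ht A + HT ht L2 = n then LW Λ L2 else 0) := by
          refine ENNReal.tsum_le_tsum fun L2 => ?_
          simp only [hf', HT_append]
          by_cases h : HT ht A + HT ht L2 = n
          · rw [if_pos h, if_pos h]
            calc LW Λ L2 * f (A ++ L2) ≤ LW Λ L2 * 1 := mul_le_mul_right (hf _) _
              _ = _ := mul_one _
          · rw [if_neg h, if_neg h, mul_zero]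
      _ ≤ 1 := U_shift Λ ht hU1 n _
  have hin : ∀ A : List B, fp ht a A → HT ht A ≤ a + i0 →
      ∑' L2, LW Λ L2 * f' (A ++ L2) ≤ ov Λ ht i0 + ∑' P, wf Λ ht τ i0 P * F A P := by
    intro A hA1 hA2
    have e2 : ∑' L2, LW Λ L2 * f' (A ++ L2)
        = ∑' L2, (if τ ≤ HT ht L2 then LW Λ L2 * f' (A ++ L2) else 0) := by
      refine tsum_congr fun L2 => ?_
      by_cases h : τ ≤ HT ht L2
      · rw [if_pos h]
      · rw [if_neg h]
        simp only [hf', HT_append]
        rw [if_neg (by omega), mul_zero]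
    rw [e2, split Λ ht h1 τ (fun L => f' (A ++ L))]
    calc ∑' P, (if fp ht τ P then LW Λ P * ∑' R, LW Λ R * f' (A ++ (P ++ R)) else 0)
        ≤ ∑' P, ((if fp ht τ P ∧ τ + i0 < HT ht P then LW Λ P else 0)
            + wf Λ ht τ i0 P * F A P) := by
          refine ENNReal.tsum_le_tsum fun P => ?_
          by_cases hP : fp ht τ P
          · rw [if_pos hP]
            by_cases hP2 : HT ht P ≤ τ + i0
            · refine le_trans ?_ le_add_self
              rw [wf, if_pos ⟨hP, hP2⟩]
              refine mul_le_mul_right ?_ _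
              calc ∑' R, LW Λ R * f' (A ++ (P ++ R))
                  ≤ ∑' R, (if HT ht A + HT ht P + HT ht R = n then LW Λ R else 0) * F A P := by
                    refine ENNReal.tsum_le_tsum fun R => ?_
                    simp only [hf', HT_append]
                    by_cases h : HT ht A + HT ht P + HT ht R = n
                    · rw [if_pos (by omega), if_pos h]
                      exact mul_le_mul_right (hF A P R hA1 hA2 hP hP2 h) _
                    · rw [if_neg (by omega), mul_zero]; exact zero_le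
                _ = (∑' R, (if HT ht A + HT ht P + HT ht R = n then LW Λ R else 0)) * F A P :=
                    ENNReal.tsum_mul_right
                _ ≤ 1 * F A P := mul_le_mul_left (U_shift Λ ht hU1 n _) _
                _ = _ := one_mul _
            · refine le_trans ?_ le_self_add
              rw [if_pos ⟨hP, by omega⟩]
              calc LW Λ P * ∑' R, LW Λ R * f' (A ++ (P ++ R)) ≤ LW Λ P * 1 := by
                    refine mul_le_mul_right ?_ _
                    have := hbound (A ++ P)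
                    simpa only [List.append_assoc] using this
                _ = _ := mul_one _
          · rw [if_neg hP]; exact zero_le
      _ = (∑' P, (if fp ht τ P ∧ τ + i0 < HT ht P then LW Λ P else 0))
            + ∑' P, wf Λ ht τ i0 P * F A P := ENNReal.tsum_add
      _ ≤ _ := by
          gcongr
          exact overshoot Λ ht h1 hU1 i0 τ
  calc ∑' A, (if fp ht a A then LW Λ A * ∑' L2, LW Λ L2 * f' (A ++ L2) else 0)
      ≤ ∑' A, ((if fp ht a A ∧ a + i0 < HT ht A then LW Λ A else 0)
          + wf Λ ht a i0 A * (ov Λ ht i0 + ∑' P, wf Λ ht τ i0 P * F A P)) := by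
        refine ENNReal.tsum_le_tsum fun A => ?_
        by_cases hA : fp ht a A
        · rw [if_pos hA]
          by_cases hA2 : HT ht A ≤ a + i0
          · refine le_trans ?_ le_add_self
            rw [wf, if_pos ⟨hA, hA2⟩]
            exact mul_le_mul_right (hin A hA hA2) _
          · refine le_trans ?_ le_self_add
            rw [if_pos ⟨hA, by omega⟩]
            calc LW Λ A * ∑' L2, LW Λ L2 * f' (A ++ L2) ≤ LW Λ A * 1 :=
                  mul_le_mul_right (hbound A) _
              _ = _ := mul_one _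
        · rw [if_neg hA]; exact zero_le
    _ = (∑' A, (if fp ht a A ∧ a + i0 < HT ht A then LW Λ A else 0))
          + ((∑' A, wf Λ ht a i0 A) * ov Λ ht i0
            + ∑' A, wf Λ ht a i0 A * ∑' P, wf Λ ht τ i0 P * F A P) := by
        rw [ENNReal.tsum_add]
        simp_rw [mul_add]
        rw [ENNReal.tsum_add, ENNReal.tsum_mul_right]
    _ ≤ ov Λ ht i0 + (1 * ov Λ ht i0
            + ∑' A, wf Λ ht a i0 A * ∑' P, wf Λ ht τ i0 P * F A P) := by
        gcongr
        · exact overshoot Λ ht h1 hU1 i0 a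
        · exact sum_wf Λ ht h1 hΛ a i0
    _ = _ := by ring

end one

/-! ### a sum against a density -/

open Classical in
theorem core {SA SP SA' SP' G : Type*} [AddCommGroup G]
    (wA : SA → ℝ≥0∞) (hA : SA → ℕ) (dA : SA → G)
    (wA' : SA' → ℝ≥0∞) (hA' : SA' → ℕ) (dA' : SA' → G)
    (wP : SP → ℝ≥0∞) (wP' : SP' → ℝ≥0∞)
    (sA : ∑' x, wA x ≤ 1) (sA' : ∑' x, wA' x ≤ 1) (sP : ∑' x, wP x ≤ 1)
    (sP' : ∑' x, wP' x ≤ 1)
    (I I' : Finset ℕ) (hI : ∀ x, wA x ≠ 0 → hA x ∈ I) (hI' : ∀ x, wA' x ≠ 0 → hA' x ∈ I')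
    (Q : ℕ → ℕ → G → SP → SP' → Prop) (w : G) (M Bd bad : ℝ≥0∞)
    (b : ℕ → G → ℝ≥0∞) (hb : ∑' α, ∑' z, b α z ≤ bad)
    (hm : ∀ α z, (∑' x, if hA x = α ∧ dA x = z then wA x else 0) ≤ M + b α z)
    (HQ : ∀ α ∈ I, ∀ α' ∈ I', ∀ μ : G → ℝ≥0∞, ∑' x, μ x ≤ 1 → (∀ x, μ x ≤ M) →
      ∑' x, μ x * ∑' P, ∑' P', (if Q α α' x P P' then wP P * wP' P' else 0) ≤ Bd) :
    ∑' A, wA A * ∑' A', wA' A' * ∑' P, ∑' P',
        (if Q (hA A) (hA' A') (w + dA' A' - dA A) P P' then wP P * wP' P' else 0)
      ≤ I.card * Bd + bad := by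
  set Φ : ℕ → ℕ → G → ℝ≥0∞ := fun α α' x =>
    ∑' P, ∑' P', (if Q α α' x P P' then wP P * wP' P' else 0) with hΦ
  have hΦ1 : ∀ α α' x, Φ α α' x ≤ 1 := by
    intro α α' x
    calc Φ α α' x ≤ ∑' P, ∑' P', wP P * wP' P' := by
          refine ENNReal.tsum_le_tsum fun P => ENNReal.tsum_le_tsum fun P' => ?_
          split_ifs <;> simp
      _ = (∑' P, wP P) * ∑' P', wP' P' := by
          simp_rw [ENNReal.tsum_mul_left, ENNReal.tsum_mul_right]
      _ ≤ 1 * 1 := mul_le_mul' sP sP'
      _ = 1 := one_mul _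
  set Ψ : ℕ → G → ℝ≥0∞ := fun α z => ∑' A', wA' A' * Φ α (hA' A') (w + dA' A' - z) with hΨ
  have hΨ1 : ∀ α z, Ψ α z ≤ 1 := by
    intro α z
    calc Ψ α z ≤ ∑' A', wA' A' * 1 :=
          ENNReal.tsum_le_tsum fun A' => mul_le_mul_right (hΦ1 _ _ _) _
      _ ≤ 1 := by simpa using sA'
  set m : ℕ → G → ℝ≥0∞ := fun α z => ∑' x, if hA x = α ∧ dA x = z then wA x else 0 with hmdef
  have hmsum : ∀ α, ∑' z, m α z ≤ 1 := by
    intro α
    calc ∑' z, m α z = ∑' x, ∑' z, (if hA x = α ∧ dA x = z then wA x else 0) := by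
          rw [ENNReal.tsum_comm]
      _ ≤ ∑' x, wA x := by
          refine ENNReal.tsum_le_tsum fun x => ?_
          rw [tsum_eq_single (dA x)]
          · split_ifs <;> simp
          · intro z hz
            rw [if_neg (fun h => hz h.2.symm)]
      _ ≤ 1 := sA
  have hm0 : ∀ α, α ∉ I → ∀ z, m α z = 0 := by
    intro α hα z
    simp only [hmdef, ENNReal.tsum_eq_zero]
    intro x
    split_ifs with h
    · by_contra hx
      exact hα (h.1 ▸ hI x hx)
    · rfl
  have e1 : ∑' A, wA A * Ψ (hA A) (dA A) = ∑ α ∈ I, ∑' z, m α z * Ψ α z := by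
    calc ∑' A, wA A * Ψ (hA A) (dA A)
        = ∑' k : ℕ × G, ∑' A, (if (hA A, dA A) = k then wA A * Ψ (hA A) (dA A) else 0) :=
          tsum_fiber (fun A => (hA A, dA A)) _
      _ = ∑' k : ℕ × G, m k.1 k.2 * Ψ k.1 k.2 := by
          refine tsum_congr fun k => ?_
          simp only [hmdef]
          rw [← ENNReal.tsum_mul_right]
          refine tsum_congr fun A => ?_
          by_cases h : (hA A, dA A) = k
          · rw [if_pos h, if_pos ⟨congrArg Prod.fst h, congrArg Prod.snd h⟩, ← h]
          · rw [if_neg h, if_neg (fun h' => h (Prod.ext h'.1 h'.2)), zero_mul]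
      _ = ∑' α, ∑' z, m α z * Ψ α z := ENNReal.tsum_prod (f := fun α z => m α z * Ψ α z)
      _ = ∑ α ∈ I, ∑' z, m α z * Ψ α z := by
          refine tsum_eq_sum fun α hα => ?_
          simp [hm0 α hα]
  have e0 : ∑' A, wA A * ∑' A', wA' A' * ∑' P, ∑' P',
        (if Q (hA A) (hA' A') (w + dA' A' - dA A) P P' then wP P * wP' P' else 0)
      = ∑' A, wA A * Ψ (hA A) (dA A) := rfl
  rw [e0, e1]
  set g : ℕ → G → ℝ≥0∞ := fun α z => min (m α z) M with hg
  have hgb : ∀ α z, m α z ≤ g α z + b α z := by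
    intro α z
    simp only [hg]
    rcases le_total (m α z) M with h | h
    · rw [min_eq_left h]; exact le_self_add
    · rw [min_eq_right h]; exact hm α z
  calc ∑ α ∈ I, ∑' z, m α z * Ψ α z
      ≤ ∑ α ∈ I, (∑' z, g α z * Ψ α z + ∑' z, b α z) := by
        refine Finset.sum_le_sum fun α _ => ?_
        rw [← ENNReal.tsum_add]
        refine ENNReal.tsum_le_tsum fun z => ?_
        calc m α z * Ψ α z ≤ (g α z + b α z) * Ψ α z := mul_le_mul_left (hgb α z) _
          _ = g α z * Ψ α z + b α z * Ψ α z := add_mul _ _ _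
          _ ≤ g α z * Ψ α z + b α z * 1 := by gcongr; exact hΨ1 α z
          _ = _ := by rw [mul_one]
    _ = ∑ α ∈ I, ∑' z, g α z * Ψ α z + ∑ α ∈ I, ∑' z, b α z := Finset.sum_add_distrib
    _ ≤ ∑ α ∈ I, Bd + bad := by
        refine add_le_add (Finset.sum_le_sum fun α hα => ?_)
          ((ENNReal.sum_le_tsum I).trans hb)
        calc ∑' z, g α z * Ψ α z
            = ∑' z, ∑' A', g α z * (wA' A' * Φ α (hA' A') (w + dA' A' - z)) := by
              refine tsum_congr fun z => ?_
              simp only [hΨ]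
              rw [ENNReal.tsum_mul_left]
          _ = ∑' A', wA' A' * ∑' z, g α z * Φ α (hA' A') (w + dA' A' - z) := by
              rw [ENNReal.tsum_comm]
              refine tsum_congr fun A' => ?_
              rw [← ENNReal.tsum_mul_left]
              refine tsum_congr fun z => ?_
              ring
          _ ≤ ∑' A', wA' A' * Bd := by
              refine ENNReal.tsum_le_tsum fun A' => ?_
              by_cases hw : wA' A' = 0
              · rw [hw, zero_mul, zero_mul]
              refine mul_le_mul_right ?_ _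
              have e : ∑' z, g α z * Φ α (hA' A') (w + dA' A' - z)
                  = ∑' x, g α (w + dA' A' - x) * Φ α (hA' A') x := by
                rw [← (Equiv.subLeft (w + dA' A')).tsum_eq
                  (fun x => g α (w + dA' A' - x) * Φ α (hA' A') x)]
                refine tsum_congr fun z => ?_
                simp only [Equiv.subLeft_apply, sub_sub_cancel]
              rw [e]
              refine HQ α hα (hA' A') (hI' A' hw) (fun x => g α (w + dA' A' - x)) ?_ ?_
              · calc ∑' x, g α (w + dA' A' - x) = ∑' z, g α z :=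
                      (Equiv.subLeft (w + dA' A')).tsum_eq (fun z => g α z)
                  _ ≤ ∑' z, m α z := ENNReal.tsum_le_tsum fun z => min_le_left _ _
                  _ ≤ 1 := hmsum α
              · intro x
                exact min_le_right _ _
          _ = (∑' A', wA' A') * Bd := ENNReal.tsum_mul_right
          _ ≤ 1 * Bd := mul_le_mul_left sA' _
          _ = Bd := one_mul _
    _ = I.card * Bd + bad := by simp

end Crest.Agent.R154.Asm887
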