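import Crest.Agent.R154.FP_178

/-! Row 154, ROAD 801 (helper903): pieces of lists (first passage of `T`), iteration, density of the
law of `j` pieces. -/

set_option autoImplicit false

namespace Crest.Agent.R154.Asm903

open scoped ENNReal Classical
open Finset
open Crest.Agent.R154.B5A Crest.Agent.R154.FP178

section conv

variable {A S : Type*} [AddCancelCommMonoid S] (Λ : A → ℝ≥0∞) (g : A → S)

/-- law of one piece -/
noncomputable def pl (σ : S) : ℝ≥0∞ := ∑' a, if g a = σ then Λ a else 0

/-- law of `j` pieces -/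
noncomputable def pj (j : ℕ) (σ : S) : ℝ≥0∞ := SL Λ j (fun L => if (L.map g).sum = σ then 1 else 0)

lemma SL_le_one (hΛ : ∑' a, Λ a ≤ 1) (j : ℕ) : SL Λ j (fun _ => 1) ≤ 1 := by
  rw [SL_pow]; exact pow_le_one' hΛ _

lemma SL_le_const (hΛ : ∑' a, Λ a ≤ 1) (j : ℕ) (c : ℝ≥0∞) : SL Λ j (fun _ => c) ≤ c := by
  have h := SL_const_mul Λ j c (fun _ => 1)
  simp only [mul_one] at h
  rw [h]
  calc c * SL Λ j (fun _ => 1) ≤ c * 1 := by gcongr; exact SL_le_one Λ hΛ j
    _ = c := mul_one c

theorem conv (hΛ : ∑' a, Λ a ≤ 1) (th q : ℝ≥0∞)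
    (hq : ∑' a, (if th < pl Λ g (g a) then Λ a else 0) ≤ q) (j : ℕ) :
    ∃ b : S → ℝ≥0∞, (∀ σ, pj Λ g j σ ≤ th * ∑ l ∈ range j, q ^ l + b σ) ∧ ∑' σ, b σ ≤ q ^ j := by
  induction j with
  | zero =>
    refine ⟨fun σ => if (0 : S) = σ then 1 else 0, fun σ => ?_, ?_⟩
    · rw [pj, SL_zero]; simp
    · rw [tsum_ite_eq']; simp
  | succ j ih =>
    obtain ⟨b, hb, hb1⟩ := ih
    refine ⟨fun σ => ∑' a, (if th < pl Λ g (g a) then Λ a else 0) *
      ∑' τ, (if g a + τ = σ then b τ else 0), fun σ => ?_, ?_⟩
    · have e1 : pj Λ g (j + 1) σ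
          = ∑' a, Λ a * SL Λ j (fun L => if g a + (L.map g).sum = σ then 1 else 0) := by
        rw [pj, SL_succ]
        refine tsum_congr fun a => ?_
        congr 1
      rw [e1]
      have e2 : ∀ a, Λ a * SL Λ j (fun L => if g a + (L.map g).sum = σ then (1 : ℝ≥0∞) else 0)
          ≤ (if th < pl Λ g (g a) then 0 else Λ a) *
              SL Λ j (fun L => if g a + (L.map g).sum = σ then (1 : ℝ≥0∞) else 0)
            + ((if th < pl Λ g (g a) then Λ a else 0) * (th * ∑ l ∈ range j, q ^ l)
            + (if th < pl Λ g (g a) then Λ a else 0) *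
              ∑' τ, (if g a + τ = σ then b τ else 0)) := by
        intro a
        by_cases h : th < pl Λ g (g a)
        · simp only [h, if_true, zero_mul, zero_add]
          rw [← mul_add]
          gcongr
          by_cases hex : ∃ τ, g a + τ = σ
          · obtain ⟨τ0, hτ0⟩ := hex
            have : (fun L : List A => if g a + (L.map g).sum = σ then (1 : ℝ≥0∞) else 0)
                = fun L => if (L.map g).sum = τ0 then 1 else 0 := by
              funext L
              have : g a + (L.map g).sum = σ ↔ (L.map g).sum = τ0 := by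
                rw [← hτ0]; exact add_right_inj _
              simp [this]
            rw [this]
            refine (hb τ0).trans ?_
            gcongr
            refine le_trans ?_ (ENNReal.le_tsum τ0)
            rw [if_pos hτ0]
          · have : (fun L : List A => if g a + (L.map g).sum = σ then (1 : ℝ≥0∞) else 0)
                = fun L => 0 := by
              funext L
              rw [if_neg (fun h => hex ⟨_, h⟩)]
            rw [this]
            have := SL_const_mul Λ j 0 (fun _ => 1)
            simp only [zero_mul] at this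
            rw [this]
            exact zero_le
        · simp [h]
      refine (ENNReal.tsum_le_tsum e2).trans ?_
      rw [ENNReal.tsum_add, ENNReal.tsum_add, ← add_assoc]
      refine add_le_add ?_ le_rfl
      have hS : th * ∑ l ∈ range (j + 1), q ^ l = th + q * (th * ∑ l ∈ range j, q ^ l) := by
        rw [Finset.sum_range_succ', mul_add, pow_zero, mul_one, add_comm]
        congr 1
        rw [mul_left_comm, Finset.mul_sum (s := range j) (a := q)]
        congr 1
        refine Finset.sum_congr rfl fun l _ => ?_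
        rw [pow_succ, mul_comm]
      rw [hS]
      refine add_le_add ?_ ?_
      · -- good part
        have e3 : ∑' a, (if th < pl Λ g (g a) then 0 else Λ a) *
              SL Λ j (fun L => if g a + (L.map g).sum = σ then (1 : ℝ≥0∞) else 0)
            = ∑' L : List A, if L.length = j then LW Λ L *
              ∑' a, (if th < pl Λ g (g a) then 0 else
                if g a + (L.map g).sum = σ then Λ a else 0) else 0 := by
          have : ∀ a, (if th < pl Λ g (g a) then 0 else Λ a) *
              SL Λ j (fun L => if g a + (L.map g).sum = σ then (1 : ℝ≥0∞) else 0)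
              = ∑' L : List A, if L.length = j then LW Λ L * (if th < pl Λ g (g a) then 0 else
                if g a + (L.map g).sum = σ then Λ a else 0) else 0 := by
            intro a
            rw [SL, ← ENNReal.tsum_mul_left]
            refine tsum_congr fun L => ?_
            split_ifs <;> simp [mul_comm]
          rw [tsum_congr this, ENNReal.tsum_comm]
          refine tsum_congr fun L => ?_
          by_cases hL : L.length = j
          · simp only [hL, if_true]; rw [ENNReal.tsum_mul_left]
          · simp [hL]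
        rw [e3]
        calc _ ≤ SL Λ j (fun _ => th) := by
              rw [SL]
              refine ENNReal.tsum_le_tsum fun L => ?_
              by_cases hL : L.length = j
              · simp only [hL, if_true]
                gcongr
                by_cases hex : ∃ a1, ¬ th < pl Λ g (g a1) ∧ g a1 + (L.map g).sum = σ
                · obtain ⟨a1, h1, h2⟩ := hex
                  refine le_trans ?_ (not_lt.1 h1)
                  rw [pl]
                  refine ENNReal.tsum_le_tsum fun a => ?_
                  split_ifs with c1 c2 c3 c4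
                  · exact zero_le
                  · exact zero_le
                  · exact le_rfl
                  · exact absurd (add_right_cancel (c3.trans h2.symm)) c4
                  · exact zero_le
                  · exact zero_le
                · have : ∀ a, (if th < pl Λ g (g a) then 0 else
                      if g a + (L.map g).sum = σ then Λ a else 0) = 0 := by
                    intro a
                    split_ifs with c1 c2
                    · rfl
                    · exact absurd ⟨a, c1, c2⟩ hex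
                    · rfl
                  simp [this]
              · simp [hL]
          _ ≤ th := SL_le_const Λ hΛ j th
      · rw [ENNReal.tsum_mul_right]
        gcongr
    · rw [ENNReal.tsum_comm]
      have : ∀ a, ∑' σ, (if th < pl Λ g (g a) then Λ a else 0) *
          ∑' τ, (if g a + τ = σ then b τ else 0)
          = (if th < pl Λ g (g a) then Λ a else 0) * ∑' τ, b τ := by
        intro a
        rw [ENNReal.tsum_mul_left, ENNReal.tsum_comm]
        congr 1
        refine tsum_congr fun τ => ?_
        rw [tsum_eq_single (g a + τ)]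
        · simp
        · intro σ hσ; rw [if_neg hσ.symm]
      rw [tsum_congr this, ENNReal.tsum_mul_right, pow_succ, mul_comm]
      gcongr

/-- push forward -/
lemma SL_push (j : ℕ) (Ψ : S → ℝ≥0∞) :
    SL Λ j (fun L => Ψ ((L.map g).sum)) = ∑' σ, pj Λ g j σ * Ψ σ := by
  have : ∀ σ, pj Λ g j σ * Ψ σ
      = ∑' L : List A, if L.length = j then LW Λ L * (if (L.map g).sum = σ then Ψ σ else 0)
        else 0 := by
    intro σ
    rw [pj, SL, ← ENNReal.tsum_mul_right]
    refine tsum_congr fun L => ?_
    split_ifs <;> simp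
  rw [tsum_congr this, ENNReal.tsum_comm, SL]
  refine tsum_congr fun L => ?_
  by_cases hL : L.length = j
  · simp only [hL, if_true]
    rw [ENNReal.tsum_mul_left]
    congr 1
    rw [tsum_eq_single ((L.map g).sum)]
    · simp
    · intro σ hσ; rw [if_neg hσ.symm]
  · simp [hL]

lemma tsum_pj_le (hΛ : ∑' a, Λ a ≤ 1) (j : ℕ) : ∑' σ, pj Λ g j σ ≤ 1 := by
  have := SL_push Λ g j (fun _ => 1)
  simp only [mul_one] at this
  rw [← this]
  exact SL_le_one Λ hΛ j

lemma LW_ne_zero {L : List A} (h : LW Λ L ≠ 0) : ∀ a ∈ L, Λ a ≠ 0 := by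
  intro a ha h0
  apply h
  rw [LW]
  exact List.prod_eq_zero (List.mem_map.2 ⟨a, ha, h0⟩)

lemma SL_mono' (j : ℕ) {F F' : List A → ℝ≥0∞}
    (h : ∀ L, L.length = j → (∀ a ∈ L, Λ a ≠ 0) → F L ≤ F' L) : SL Λ j F ≤ SL Λ j F' := by
  refine ENNReal.tsum_le_tsum fun L => ?_
  by_cases hL : L.length = j
  · simp only [hL, if_true]
    by_cases h0 : LW Λ L = 0
    · simp [h0]
    · gcongr
      exact h L hL (LW_ne_zero Λ h0)
  · simp [hL]

lemma SL_tsum {ι : Type*} (j : ℕ) (F : ι → List A → ℝ≥0∞) :
    SL Λ j (fun L => ∑' i, F i L) = ∑' i, SL Λ j (F i) := by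
  simp only [SL]
  rw [ENNReal.tsum_comm]
  refine tsum_congr fun L => ?_
  by_cases hL : L.length = j
  · simp only [hL, if_true]; rw [ENNReal.tsum_mul_left]
  · simp [hL]

lemma SL_sum {ι : Type*} (s : Finset ι) (j : ℕ) (F : ι → List A → ℝ≥0∞) :
    SL Λ j (fun L => ∑ i ∈ s, F i L) = ∑ i ∈ s, SL Λ j (F i) := by
  induction s using Finset.induction_on with
  | empty =>
    simp only [Finset.sum_empty]
    have := SL_const_mul Λ j 0 (fun _ => 1)
    simpa using this
  | insert i s hi ih =>
    simp only [Finset.sum_insert hi]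
    rw [SL_add_fun, ih]

end conv

section pieces

variable {B : Type*} (Λ : B → ℝ≥0∞) (ht : B → ℕ)

/-- sums over lists of a given height -/
noncomputable def D (n : ℕ) (F : List B → ℝ≥0∞) : ℝ≥0∞ :=
  ∑' L, if HT ht L = n then LW Λ L * F L else 0

/-- weight of a piece -/
noncomputable def LP (T i0 : ℕ) (P : List B) : ℝ≥0∞ :=
  if fp ht T P ∧ HT ht P ≤ T + i0 then LW Λ P else 0

lemma LP_ne {T i0 : ℕ} {P : List B} (h : LP Λ ht T i0 P ≠ 0) : T ≤ HT ht P ∧ HT ht P ≤ T + i0 := by
  rw [LP] at h
  split_ifs at h with h1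
  · exact ⟨le_HT_of_fp ht h1.1, h1.2⟩
  · exact absurd rfl h

lemma LP_le (T i0 : ℕ) (P : List B) : LP Λ ht T i0 P ≤ LW Λ P := by
  rw [LP]; split_ifs
  · exact le_rfl
  · exact zero_le

lemma sum_LP (h1 : ∀ b, 1 ≤ ht b) (hΛ : ∑' b, Λ b ≤ 1) (T i0 : ℕ) :
    ∑' P, LP Λ ht T i0 P ≤ 1 := by
  refine le_trans (ENNReal.tsum_le_tsum fun P => ?_) (sum_FP Λ ht h1 hΛ T)
  rw [LP]
  split_ifs with a b c
  · exact le_rfl
  · exact absurd a.1 b
  · exact zero_le
  · exact zero_le

lemma D_mono (n : ℕ) {F F' : List B → ℝ≥0∞} (h : ∀ L, HT ht L = n → F L ≤ F' L) :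
    D Λ ht n F ≤ D Λ ht n F' := by
  refine ENNReal.tsum_le_tsum fun L => ?_
  by_cases hL : HT ht L = n
  · simp only [hL, if_true]
    gcongr
    exact h L hL
  · simp [hL]

lemma D_const (hU1 : ∀ n, U Λ ht n ≤ 1) (n : ℕ) (c : ℝ≥0∞) : D Λ ht n (fun _ => c) ≤ c := by
  have : D Λ ht n (fun _ => c) = U Λ ht n * c := by
    rw [D, U, ← ENNReal.tsum_mul_right]
    refine tsum_congr fun L => ?_
    split_ifs <;> simp
  rw [this]
  calc U Λ ht n * c ≤ 1 * c := by gcongr; exact hU1 n
    _ = c := one_mul c

lemma D_step (h1 : ∀ b, 1 ≤ ht b) (hU1 : ∀ n, U Λ ht n ≤ 1) (T i0 n : ℕ) (hn : T + i0 ≤ n)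
    (F : List B → ℝ≥0∞) (hF : ∀ L, F L ≤ 1) :
    D Λ ht n F ≤ ∑' k, tail Λ ht (i0 + k)
      + ∑' P, LP Λ ht T i0 P * D Λ ht (n - HT ht P) (fun R => F (P ++ R)) := by
  have e0 : D Λ ht n F = ∑' L, (if T ≤ HT ht L then LW Λ L * (if HT ht L = n then F L else 0)
      else 0) := by
    rw [D]
    refine tsum_congr fun L => ?_
    by_cases hL : HT ht L = n
    · rw [if_pos hL, if_pos hL, if_pos (by omega)]
    · rw [if_neg hL, if_neg hL]; simp
  rw [e0, split Λ ht h1 T]
  refine le_trans ?_ (add_le_add (overshoot Λ ht h1 hU1 i0 T) le_rfl)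
  rw [← ENNReal.tsum_add]
  refine ENNReal.tsum_le_tsum fun P => ?_
  by_cases hP : fp ht T P
  · rw [if_pos hP]
    by_cases hh : HT ht P ≤ T + i0
    · refine le_add_left ?_
      rw [LP, if_pos ⟨hP, hh⟩, D]
      gcongr with R
      by_cases hR : HT ht (P ++ R) = n
      · rw [if_pos hR, if_pos (by rw [HT_append] at hR; omega)]
      · rw [if_neg hR, mul_zero]; exact zero_le
    · refine le_add_right ?_
      rw [if_pos ⟨hP, by omega⟩]
      calc LW Λ P * ∑' R, LW Λ R * (if HT ht (P ++ R) = n then F (P ++ R) else 0)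
          ≤ LW Λ P * 1 := by
            gcongr
            refine le_trans ?_ (hU1 (n - HT ht P))
            rw [U]
            refine ENNReal.tsum_le_tsum fun R => ?_
            by_cases hR : HT ht (P ++ R) = n
            · rw [if_pos hR, if_pos (by rw [HT_append] at hR; omega)]
              calc LW Λ R * F (P ++ R) ≤ LW Λ R * 1 := by gcongr; exact hF _
                _ = _ := mul_one _
            · rw [if_neg hR, mul_zero]; exact zero_le
        _ = _ := mul_one _
  · rw [if_neg hP]; exact zero_le

theorem iter (h1 : ∀ b, 1 ≤ ht b) (hU1 : ∀ n, U Λ ht n ≤ 1) (hΛ : ∑' b, Λ b ≤ 1) (T i0 : ℕ)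
    (K : ℕ) : ∀ n, K * (T + i0) ≤ n → ∀ F : List B → ℝ≥0∞, (∀ L, F L ≤ 1) →
    D Λ ht n F ≤ K * ∑' k, tail Λ ht (i0 + k)
      + SL (LP Λ ht T i0) K (fun Ps => D Λ ht (n - HT ht Ps.flatten)
          (fun R => F (Ps.flatten ++ R))) := by
  induction K with
  | zero =>
    intro n _ F _
    rw [SL_zero]
    simp [HT_nil]
  | succ K ih =>
    intro n hn F hF
    have hn' : T + i0 ≤ n := by nlinarith [Nat.zero_le (K * (T + i0))]
    refine (D_step Λ ht h1 hU1 T i0 n hn' F hF).trans ?_
    set tl := ∑' k, tail Λ ht (i0 + k)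
    calc tl + ∑' P, LP Λ ht T i0 P * D Λ ht (n - HT ht P) (fun R => F (P ++ R))
        ≤ tl + ∑' P, LP Λ ht T i0 P * (K * tl + SL (LP Λ ht T i0) K (fun Ps =>
            D Λ ht (n - HT ht P - HT ht Ps.flatten) (fun R => F (P ++ (Ps.flatten ++ R))))) := by
          gcongr tl + ?_
          refine ENNReal.tsum_le_tsum fun P => ?_
          by_cases h0 : LP Λ ht T i0 P = 0
          · rw [h0, zero_mul, zero_mul]
          · gcongr
            have hP := (LP_ne Λ ht h0).2
            refine ih (n - HT ht P) ?_ (fun R => F (P ++ R)) (fun L => hF _)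
            have : (K + 1) * (T + i0) = K * (T + i0) + (T + i0) := by ring
            omega
      _ ≤ (K + 1 : ℕ) * tl + SL (LP Λ ht T i0) (K + 1) (fun Ps => D Λ ht (n - HT ht Ps.flatten)
          (fun R => F (Ps.flatten ++ R))) := by
          rw [SL_succ]
          simp only [mul_add]
          rw [ENNReal.tsum_add, ← add_assoc]
          refine add_le_add ?_ ?_
          · rw [ENNReal.tsum_mul_right]
            push_cast
            rw [add_mul, one_mul, add_comm (_ * tl)]
            gcongr tl + ?_
            calc _ ≤ 1 * (K * tl) := by gcongr; exact sum_LP Λ ht h1 hΛ T i0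
              _ = _ := one_mul _
          · refine ENNReal.tsum_le_tsum fun P => ?_
            refine mul_le_mul_right (SL_mono _ _ fun Ps _ => ?_) _
            rw [List.flatten_cons, HT_append, ← Nat.sub_sub]
            simp only [List.append_assoc]
            exact le_rfl

end pieces

end Crest.Agent.R154.Asm903
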