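import Crest.Agent.R154.FP_178

/-! Row 154, ROAD 801 (helper942): assembly, part A (one walker): decomposition of the lists of
height `n` at first passages, density of the displacement of a first passage. -/

set_option autoImplicit false

namespace Crest.Agent.R154.Asm942

open scoped ENNReal
open Crest.Agent.R154.B5A Crest.Agent.R154.FP178

variable {B : Type*} (Λ : B → ℝ≥0∞) (ht : B → ℕ)

open Classical in
theorem sum_FP_eq (h1 : ∀ b, 1 ≤ ht b) (hΛ : ∑' b, Λ b = 1) (a : ℕ) :
    ∑' L, (if fp ht a L then LW Λ L else 0) = 1 := by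
  induction a using Nat.strong_induction_on with
  | _ a ih =>
    rcases Nat.eq_zero_or_pos a with rfl | ha
    · have := sum_fp_zero Λ ht (fun _ => 1)
      simp only [mul_one] at this
      exact this
    · have := sum_fp_step Λ ht a ha (fun _ => 1)
      simp only [mul_one] at this
      rw [this]
      calc ∑' b, Λ b * ∑' L, (if fp ht (a - ht b) L then LW Λ L else 0)
          = ∑' b, Λ b * 1 := by
            refine tsum_congr fun b => ?_
            rw [ih (a - ht b) (by have := h1 b; omega)]
        _ = 1 := by simpa using hΛ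

open Classical in
lemma rest_le (hU1 : ∀ n, U Λ ht n ≤ 1) (c n : ℕ) (g : List B → ℝ≥0∞) (M : ℝ≥0∞)
    (hg : ∀ L, c + HT ht L = n → g L ≤ M) :
    ∑' L, LW Λ L * (if c + HT ht L = n then g L else 0) ≤ M := by
  calc ∑' L, LW Λ L * (if c + HT ht L = n then g L else 0)
      ≤ ∑' L, (if HT ht L = n - c then LW Λ L else 0) * M := by
        refine ENNReal.tsum_le_tsum fun L => ?_
        by_cases h : c + HT ht L = n
        · rw [if_pos h, if_pos (by omega)]
          exact mul_le_mul_right (hg L h) _
        · rw [if_neg h, mul_zero]; exact zero_le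
    _ = U Λ ht (n - c) * M := by rw [ENNReal.tsum_mul_right]; rfl
    _ ≤ 1 * M := mul_le_mul_left (hU1 _) _
    _ = M := one_mul _

open Classical in
/-- decomposition of the lists of height `n`: first passage of `A`, first passage of `T`, rest -/
theorem dec (h1 : ∀ b, 1 ≤ ht b) (hΛ : ∑' b, Λ b ≤ 1) (hU1 : ∀ n, U Λ ht n ≤ 1) (A T i0 n : ℕ)
    (hn : A + i0 + T ≤ n) (φ : List B → ℝ≥0∞) (hφ : ∀ L, φ L ≤ 1) (ψ : List B → List B → ℝ≥0∞)
    (h : ∀ L1 L2 L3, fp ht A L1 → fp ht T L2 → HT ht L1 ≤ A + i0 → HT ht L2 ≤ T + i0 →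
      HT ht L1 + (HT ht L2 + HT ht L3) = n → φ (L1 ++ (L2 ++ L3)) ≤ ψ L1 L2) :
    ∑' L, (if HT ht L = n then LW Λ L * φ L else 0)
      ≤ ∑' L1, (if fp ht A L1 ∧ HT ht L1 ≤ A + i0 then LW Λ L1 *
          ∑' L2, (if fp ht T L2 ∧ HT ht L2 ≤ T + i0 then LW Λ L2 * ψ L1 L2 else 0) else 0)
        + 2 * ∑' k, tail Λ ht (i0 + k) := by
  set τ : ℝ≥0∞ := ∑' k, tail Λ ht (i0 + k) with hτ
  set S : List B → ℝ≥0∞ := fun L1 =>
    ∑' L2, (if fp ht T L2 ∧ HT ht L2 ≤ T + i0 then LW Λ L2 * ψ L1 L2 else 0) with hS
  have e0 : ∑' L, (if HT ht L = n then LW Λ L * φ L else 0)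
      = ∑' L, (if A ≤ HT ht L then LW Λ L * (if HT ht L = n then φ L else 0) else 0) := by
    refine tsum_congr fun L => ?_
    by_cases hL : HT ht L = n
    · rw [if_pos hL, if_pos hL, if_pos (by omega)]
    · rw [if_neg hL, if_neg hL, mul_zero, ite_self]
  rw [e0, split Λ ht h1 A (fun L => if HT ht L = n then φ L else 0)]
  set R1 : List B → ℝ≥0∞ := fun L1 =>
    ∑' L2, LW Λ L2 * (if HT ht (L1 ++ L2) = n then φ (L1 ++ L2) else 0) with hR1
  have hR1le : ∀ L1, R1 L1 ≤ 1 := by
    intro L1
    have := rest_le Λ ht hU1 (HT ht L1) n (fun L2 => φ (L1 ++ L2)) 1 (fun L _ => hφ _)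
    simp only [hR1, HT_append]
    exact this
  have hR1S : ∀ L1, fp ht A L1 → HT ht L1 ≤ A + i0 → R1 L1 ≤ S L1 + τ := by
    intro L1 hf hL1
    have e1 : R1 L1 = ∑' L', (if T ≤ HT ht L' then LW Λ L' *
        (if HT ht (L1 ++ L') = n then φ (L1 ++ L') else 0) else 0) := by
      refine tsum_congr fun L' => ?_
      by_cases h' : HT ht (L1 ++ L') = n
      · rw [if_pos h', if_pos (by rw [HT_append] at h'; omega)]
      · rw [if_neg h', mul_zero, ite_self]
    rw [e1, split Λ ht h1 T (fun L' => if HT ht (L1 ++ L') = n then φ (L1 ++ L') else 0)]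
    calc ∑' L2, (if fp ht T L2 then LW Λ L2 * ∑' L3, LW Λ L3 *
          (if HT ht (L1 ++ (L2 ++ L3)) = n then φ (L1 ++ (L2 ++ L3)) else 0) else 0)
        ≤ ∑' L2, ((if fp ht T L2 ∧ HT ht L2 ≤ T + i0 then LW Λ L2 * ψ L1 L2 else 0)
            + (if fp ht T L2 ∧ T + i0 < HT ht L2 then LW Λ L2 else 0)) := by
          refine ENNReal.tsum_le_tsum fun L2 => ?_
          by_cases h2 : fp ht T L2
          · have e3 : ∀ L3, HT ht (L1 ++ (L2 ++ L3)) = (HT ht L1 + HT ht L2) + HT ht L3 := by
              intro L3; rw [HT_append, HT_append]; omega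
            simp only [e3]
            by_cases h3 : HT ht L2 ≤ T + i0
            · rw [if_pos h2, if_pos ⟨h2, h3⟩]
              refine le_add_right (mul_le_mul_right ?_ _)
              refine rest_le Λ ht hU1 (HT ht L1 + HT ht L2) n
                (fun L3 => φ (L1 ++ (L2 ++ L3))) _ (fun L3 h4 => ?_)
              exact h L1 L2 L3 hf h2 hL1 h3 (by omega)
            · rw [if_pos h2, if_neg (fun hh => h3 hh.2), if_pos ⟨h2, by omega⟩, zero_add]
              calc _ ≤ LW Λ L2 * 1 := by
                    refine mul_le_mul_right ?_ _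
                    exact rest_le Λ ht hU1 (HT ht L1 + HT ht L2) n
                      (fun L3 => φ (L1 ++ (L2 ++ L3))) 1 (fun L3 _ => hφ _)
                _ = _ := mul_one _
          · rw [if_neg h2]; exact zero_le
      _ = S L1 + ∑' L2, (if fp ht T L2 ∧ T + i0 < HT ht L2 then LW Λ L2 else 0) := by
          rw [ENNReal.tsum_add]
      _ ≤ S L1 + τ := by
          gcongr
          exact overshoot Λ ht h1 hU1 i0 T
  calc ∑' L1, (if fp ht A L1 then LW Λ L1 * R1 L1 else 0)
      ≤ ∑' L1, (((if fp ht A L1 ∧ HT ht L1 ≤ A + i0 then LW Λ L1 * S L1 else 0)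
          + (if fp ht A L1 then LW Λ L1 else 0) * τ)
          + (if fp ht A L1 ∧ A + i0 < HT ht L1 then LW Λ L1 else 0)) := by
        refine ENNReal.tsum_le_tsum fun L1 => ?_
        by_cases hf : fp ht A L1
        · by_cases hL1 : HT ht L1 ≤ A + i0
          · rw [if_pos hf, if_pos ⟨hf, hL1⟩, if_pos hf]
            refine le_add_right ?_
            rw [← mul_add]
            exact mul_le_mul_right (hR1S L1 hf hL1) _
          · rw [if_pos hf, if_pos (c := fp ht A L1 ∧ A + i0 < HT ht L1) ⟨hf, by omega⟩]
            refine le_add_left ?_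
            calc LW Λ L1 * R1 L1 ≤ LW Λ L1 * 1 := mul_le_mul_right (hR1le L1) _
              _ = _ := mul_one _
        · rw [if_neg hf]; exact zero_le
    _ = (∑' L1, (if fp ht A L1 ∧ HT ht L1 ≤ A + i0 then LW Λ L1 * S L1 else 0)
          + (∑' L1, (if fp ht A L1 then LW Λ L1 else 0)) * τ)
          + ∑' L1, (if fp ht A L1 ∧ A + i0 < HT ht L1 then LW Λ L1 else 0) := by
        rw [ENNReal.tsum_add, ENNReal.tsum_add, ENNReal.tsum_mul_right]
    _ ≤ (∑' L1, (if fp ht A L1 ∧ HT ht L1 ≤ A + i0 then LW Λ L1 * S L1 else 0)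
          + 1 * τ) + τ := by
        gcongr
        · exact sum_FP Λ ht h1 hΛ A
        · exact overshoot Λ ht h1 hU1 i0 A
    _ = _ := by rw [one_mul, add_assoc, two_mul]

section dens

variable {G : Type*} [AddCommGroup G]

/-- **density of a first passage** (`F r j z`: first passage of `r`, overshoot `j`, displacement
`z`; `p i z`: one attempt). -/
theorem densF (p : ℕ → G → ℝ≥0∞) (F : ℕ → ℕ → G → ℝ≥0∞) (T i0 : ℕ) (th q ε Gm : ℝ≥0∞)
    (hrec : ∀ r, T + i0 ≤ r → ∃ b0 : ℕ → G → ℝ≥0∞, ∑' j, ∑' z, b0 j z ≤ ε ∧ ∀ j z, F r j z ≤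
      ∑ i ∈ Finset.range (i0 + 1), ∑' z', p i z' * F (r - T - i) j (z - z') + b0 j z)
    (hf : ∀ r, ∑' j, ∑' z, F r j z ≤ 1)
    (hq : ∑ i ∈ Finset.range (i0 + 1), ∑' z', (if th < p i z' then p i z' else 0) ≤ q)
    (hq1 : q ≤ 1) (hG : (i0 + 1 : ℕ) * th + q * Gm ≤ Gm) :
    ∀ J r, J * (T + i0) ≤ r → ∃ b : ℕ → G → ℝ≥0∞, (∑' j, ∑' z, b j z ≤ q ^ J + J * ε) ∧
      ∀ j z, F r j z ≤ Gm + b j z := by
  intro J
  induction J with
  | zero =>
    intro r _
    exact ⟨F r, by simpa using hf r, fun j z => le_add_self⟩
  | succ J ih =>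
    intro r hr
    have hTr : T + i0 ≤ r := by nlinarith
    have hrem : ∀ i, i ≤ i0 → J * (T + i0) ≤ r - T - i := by
      intro i hi
      have : J * (T + i0) + (T + i0) ≤ r := by nlinarith
      omega
    obtain ⟨b0, hb01, hb02⟩ := hrec r hTr
    choose! b hb1 hb2 using fun i (hi : i ≤ i0) => ih (r - T - i) (hrem i hi)
    refine ⟨fun j z => (∑ i ∈ Finset.range (i0 + 1), ∑' z',
      (if th < p i z' then p i z' * b i j (z - z') else 0)) + b0 j z, ?_, ?_⟩
    · have e2 : ∑' j, ∑' z, ∑ i ∈ Finset.range (i0 + 1), ∑' z',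
          (if th < p i z' then p i z' * b i j (z - z') else 0) ≤ q * (q ^ J + J * ε) := by
        calc ∑' j, ∑' z, ∑ i ∈ Finset.range (i0 + 1), ∑' z',
              (if th < p i z' then p i z' * b i j (z - z') else 0)
            = ∑ i ∈ Finset.range (i0 + 1), ∑' z', ∑' j, ∑' z,
              (if th < p i z' then p i z' * b i j (z - z') else 0) := by
              simp_rw [fun j => Summable.tsum_finsetSum (s := Finset.range (i0 + 1))
                (f := fun i z => ∑' z', (if th < p i z' then p i z' * b i j (z - z') else 0))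
                (fun _ _ => ENNReal.summable)]
              rw [Summable.tsum_finsetSum (fun _ _ => ENNReal.summable)]
              refine Finset.sum_congr rfl fun i _ => ?_
              exact (tsum_congr fun j => ENNReal.tsum_comm).trans ENNReal.tsum_comm
          _ ≤ ∑ i ∈ Finset.range (i0 + 1), ∑' z',
              (if th < p i z' then p i z' else 0) * (q ^ J + J * ε) := by
              refine Finset.sum_le_sum fun i hi => ENNReal.tsum_le_tsum fun z' => ?_
              split_ifs with h
              · simp_rw [ENNReal.tsum_mul_left]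
                gcongr
                have : ∀ j, ∑' z, b i j (z - z') = ∑' z, b i j z := fun j =>
                  (Equiv.subRight z').tsum_eq fun z => b i j z
                simp_rw [this]
                exact hb1 i (by rw [Finset.mem_range] at hi; omega)
              · simp
          _ = (∑ i ∈ Finset.range (i0 + 1), ∑' z', (if th < p i z' then p i z' else 0))
                * (q ^ J + J * ε) := by
              simp_rw [ENNReal.tsum_mul_right]
              rw [Finset.sum_mul]
          _ ≤ _ := by gcongr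
      calc _ ≤ q * (q ^ J + J * ε) + ε := by
            simp_rw [ENNReal.tsum_add]
            exact add_le_add e2 hb01
        _ = q ^ (J + 1) + (q * (J * ε) + ε) := by ring
        _ ≤ q ^ (J + 1) + (1 * (J * ε) + ε) := by gcongr
        _ = q ^ (J + 1) + ((J + 1 : ℕ) : ℝ≥0∞) * ε := by push_cast; ring
    · intro j z
      refine (hb02 j z).trans ?_
      have hterm : ∀ i ∈ Finset.range (i0 + 1), ∑' z', p i z' * F (r - T - i) j (z - z')
          ≤ (th + (∑' z', (if th < p i z' then p i z' else 0)) * Gm) +
            ∑' z', (if th < p i z' then p i z' * b i j (z - z') else 0) := by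
        intro i hi
        have hi' : i ≤ i0 := by rw [Finset.mem_range] at hi; omega
        have hF1 : ∑' z', F (r - T - i) j (z - z') ≤ 1 := by
          have : ∑' z', F (r - T - i) j (z - z') = ∑' z', F (r - T - i) j z' :=
            (Equiv.subLeft z).tsum_eq fun z' => F (r - T - i) j z'
          rw [this]
          exact (ENNReal.le_tsum j).trans (hf (r - T - i))
        calc ∑' z', p i z' * F (r - T - i) j (z - z')
            ≤ ∑' z', ((th * F (r - T - i) j (z - z') +
                (if th < p i z' then p i z' else 0) * Gm) +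
                (if th < p i z' then p i z' * b i j (z - z') else 0)) := by
              refine ENNReal.tsum_le_tsum fun z' => ?_
              by_cases hp : th < p i z'
              · simp only [hp, if_true]
                calc p i z' * F (r - T - i) j (z - z')
                    ≤ p i z' * (Gm + b i j (z - z')) := by gcongr; exact hb2 i hi' _ _
                  _ = p i z' * Gm + p i z' * b i j (z - z') := by ring
                  _ ≤ _ := by gcongr; exact le_add_self
              · simp only [hp, if_false, zero_mul, add_zero]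
                gcongr
                exact not_lt.1 hp
          _ = (th * ∑' z', F (r - T - i) j (z - z') +
                (∑' z', (if th < p i z' then p i z' else 0)) * Gm) +
                ∑' z', (if th < p i z' then p i z' * b i j (z - z') else 0) := by
              rw [ENNReal.tsum_add, ENNReal.tsum_add, ENNReal.tsum_mul_left,
                ENNReal.tsum_mul_right]
          _ ≤ (th * 1 + (∑' z', (if th < p i z' then p i z' else 0)) * Gm) +
                ∑' z', (if th < p i z' then p i z' * b i j (z - z') else 0) := by gcongr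
          _ = _ := by rw [mul_one]
      calc ∑ i ∈ Finset.range (i0 + 1), ∑' z', p i z' * F (r - T - i) j (z - z') + b0 j z
          ≤ ∑ i ∈ Finset.range (i0 + 1), ((th + (∑' z', (if th < p i z' then p i z' else 0)) * Gm)
            + ∑' z', (if th < p i z' then p i z' * b i j (z - z') else 0)) + b0 j z := by
            gcongr with i hi
            exact hterm i hi
        _ = (((i0 + 1 : ℕ) * th + (∑ i ∈ Finset.range (i0 + 1),
              ∑' z', (if th < p i z' then p i z' else 0)) * Gm)
            + ∑ i ∈ Finset.range (i0 + 1),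
              ∑' z', (if th < p i z' then p i z' * b i j (z - z') else 0)) + b0 j z := by
            rw [Finset.sum_add_distrib, Finset.sum_add_distrib, Finset.sum_const,
              Finset.card_range, nsmul_eq_mul, Finset.sum_mul]
        _ ≤ (((i0 + 1 : ℕ) * th + q * Gm)
            + ∑ i ∈ Finset.range (i0 + 1),
              ∑' z', (if th < p i z' then p i z' * b i j (z - z') else 0)) + b0 j z := by gcongr
        _ ≤ (Gm + ∑ i ∈ Finset.range (i0 + 1),
              ∑' z', (if th < p i z' then p i z' * b i j (z - z') else 0)) + b0 j z := by gcongr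
        _ = _ := by rw [add_assoc]

end dens

end Crest.Agent.R154.Asm942
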