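import Crest.Agent.R154.B5Rec_566

/-! Row 154, ROAD 801: first passage lists, overshoot tail, smooth density of the first passage law (helper959). -/

set_option autoImplicit false

namespace Crest.Agent.R154.AsmA959

open scoped ENNReal Classical
open Crest.Agent.R154.B5A

section general

/-- sum bounded by a covering family -/
lemma tsum_le_cover {α β : Type*} (e : α → β) (F : β → ℝ≥0∞) (f : α → ℝ≥0∞)
    (h : ∀ b, F b ≠ 0 → ∃ a, e a = b ∧ F b ≤ f a) : ∑' b, F b ≤ ∑' a, f a := by
  rcases isEmpty_or_nonempty α with hα | hα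
  · have : ∀ b, F b = 0 := fun b => by
      by_contra hb
      obtain ⟨a, -⟩ := h b hb
      exact hα.elim a
    simp [this]
  choose! g hg using h
  have h1 : ∑' b, F b = ∑' b : Function.support F, F b := (tsum_subtype_support F).symm
  rw [h1]
  have hinj : Function.Injective (fun b : Function.support F => g (b : β)) := by
    intro b b' hb
    have e1 := (hg b b.2).1
    have e2 := (hg b' b'.2).1
    apply Subtype.ext
    rw [← e1, ← e2]
    exact congrArg e hb
  refine le_trans (ENNReal.tsum_le_tsum fun b => (hg b b.2).2) ?_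
  exact ENNReal.tsum_comp_le_tsum_of_injective hinj f

end general

variable {B G : Type*} [AddCommGroup G]

/-- trace of a list of blocks read from the tie down -/
def TR (h : B → ℕ) (z : B → G) (s : B → Set (G × ℕ)) : List B → G → ℕ → Set (G × ℕ)
  | [], _, _ => ∅
  | b :: L, x, a => {q | ∃ y k, (y, k) ∈ s b ∧ q = (x + y, a + k)} ∪ TR h z s L (x + z b) (a + h b)

/-- displacement -/
def Dp (z : B → G) (L : List B) : G := (L.map z).sum

lemma Dp_nil (z : B → G) : Dp z [] = 0 := by simp [Dp]
lemma Dp_cons (z : B → G) (b : B) (L : List B) : Dp z (b :: L) = z b + Dp z L := by simp [Dp]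
lemma Dp_append (z : B → G) (L L' : List B) : Dp z (L ++ L') = Dp z L + Dp z L' := by simp [Dp]

lemma TR_append (h : B → ℕ) (z : B → G) (s : B → Set (G × ℕ)) (L L' : List B) (x : G) (a : ℕ) :
    TR h z s (L ++ L') x a = TR h z s L x a ∪ TR h z s L' (x + Dp z L) (a + HT h L) := by
  induction L generalizing x a with
  | nil => simp [TR, Dp, HT]
  | cons b L ih =>
    simp only [List.cons_append, TR, ih, Dp_cons, HT_cons, Set.union_assoc, add_assoc]

lemma TR_depth (h : B → ℕ) (z : B → G) (s : B → Set (G × ℕ))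
    (hs : ∀ b y k, (y, k) ∈ s b → 1 ≤ k ∧ k ≤ h b) (L : List B) (x : G) (a : ℕ) (y : G) (k : ℕ)
    (hk : (y, k) ∈ TR h z s L x a) : a + 1 ≤ k ∧ k ≤ a + HT h L := by
  induction L generalizing x a with
  | nil => simp [TR] at hk
  | cons b L ih =>
    rw [HT_cons]
    rcases hk with ⟨y', k', hk', he⟩ | hk
    · have := hs b y' k' hk'
      simp only [Prod.mk.injEq] at he
      omega
    · have := ih _ _ hk; omega

lemma TR_shift (h : B → ℕ) (z : B → G) (s : B → Set (G × ℕ)) (L : List B) (x v : G) (a : ℕ)
    (y : G) (k : ℕ) : (y, k) ∈ TR h z s L (x + v) a ↔ (y - v, k) ∈ TR h z s L x a := by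
  induction L generalizing x a with
  | nil => simp [TR]
  | cons b L ih =>
    simp only [TR, Set.mem_union, Set.mem_setOf_eq]
    rw [show x + v + z b = x + z b + v by abel, ih]
    refine or_congr ?_ Iff.rfl
    constructor
    · rintro ⟨y', k', h1, h2⟩
      simp only [Prod.mk.injEq] at h2
      exact ⟨y', k', h1, by rw [h2.1, h2.2]; simp only [Prod.mk.injEq, and_true]; abel⟩
    · rintro ⟨y', k', h1, h2⟩
      simp only [Prod.mk.injEq] at h2
      refine ⟨y', k', h1, ?_⟩
      rw [h2.2]
      simp only [Prod.mk.injEq, and_true]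
      rw [sub_eq_iff_eq_add.1 h2.1]; abel

/-! ### first passage -/

/-- `L` is the first passage list of height `a` -/
def SP (h : B → ℕ) : List B → ℕ → Prop
  | [], a => a = 0
  | b :: L, a => 0 < a ∧ SP h L (a - h b)

lemma SP_le (h : B → ℕ) (L : List B) (a : ℕ) (hL : SP h L a) : a ≤ HT h L := by
  induction L generalizing a with
  | nil => simp only [SP] at hL; omega
  | cons b L ih => rw [HT_cons]; have := ih _ hL.2; omega

lemma SP_exists (h : B → ℕ) (L : List B) (a : ℕ) (hL : a ≤ HT h L) :
    ∃ A R, L = A ++ R ∧ SP h A a := by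
  induction L generalizing a with
  | nil =>
    refine ⟨[], [], rfl, ?_⟩
    simpa [SP, HT] using hL
  | cons b L ih =>
    rcases Nat.eq_zero_or_pos a with h0 | h0
    · exact ⟨[], b :: L, rfl, h0⟩
    · rw [HT_cons] at hL
      obtain ⟨A, R, h1, h2⟩ := ih (a - h b) (by omega)
      exact ⟨b :: A, R, by rw [h1]; rfl, h0, h2⟩

/-- composition of first passages: `SP (P ++ A) (h)` for `SP P s`, `SP A (h - HT P)`. -/
lemma SP_split (h : B → ℕ) (h1 : ∀ b, 1 ≤ h b) (L : List B) (s a : ℕ) (hsa : s ≤ a)
    (hL : SP h L a) : ∃ P R, L = P ++ R ∧ SP h P s ∧ SP h R (a - HT h P) := by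
  induction L generalizing s a with
  | nil =>
    simp only [SP] at hL
    subst hL
    have hs : s = 0 := by omega
    subst hs
    exact ⟨[], [], rfl, rfl, by simp [SP]⟩
  | cons b L ih =>
    rcases Nat.eq_zero_or_pos s with h0 | h0
    · exact ⟨[], b :: L, rfl, h0, by simpa [HT] using hL⟩
    · obtain ⟨P, R, e1, e2, e3⟩ := ih (s - h b) (a - h b) (by omega) hL.2
      refine ⟨b :: P, R, by rw [e1]; rfl, ⟨h0, e2⟩, ?_⟩
      rw [HT_cons, Nat.sub_add_eq] 
      exact e3

variable (Λ : B → ℝ≥0∞) (h : B → ℕ)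

lemma tsum_SP (h1 : ∀ b, 1 ≤ h b) (hΛ : ∑' b, Λ b = 1) (a : ℕ) :
    ∑' L, (if SP h L a then LW Λ L else 0) = 1 := by
  induction a using Nat.strong_induction_on with
  | _ a ih =>
    rw [tsum_list]
    rcases Nat.eq_zero_or_pos a with h0 | h0
    · subst h0
      simp [SP, LW_nil]
    · have e1 : ∀ b, ∑' L, (if SP h (b :: L) a then LW Λ (b :: L) else 0) = Λ b := by
        intro b
        have hb := h1 b
        have e2 : ∀ L, (if SP h (b :: L) a then LW Λ (b :: L) else 0)
            = Λ b * (if SP h L (a - h b) then LW Λ L else 0) := by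
          intro L
          simp only [SP, h0, true_and, LW_cons, mul_ite, mul_zero]
        rw [tsum_congr e2, ENNReal.tsum_mul_left, ih (a - h b) (by omega), mul_one]
      rw [tsum_congr e1, hΛ]
      simp [SP, h0.ne']

lemma U_le_one (h1 : ∀ b, 1 ≤ h b) (hΛ : ∑' b, Λ b = 1) (n : ℕ) :
    ∑' L, (if HT h L = n then LW Λ L else 0) ≤ 1 := by
  have h2 := renewal_one Λ h h1 hΛ n
  have ht0 : tail Λ h 0 = 1 := by
    rw [← hΛ, tail]
    refine tsum_congr fun b => ?_
    rw [if_pos (by have := h1 b; omega)]
  rw [Finset.sum_range_succ'] at h2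
  simp only [Nat.sub_zero, ht0, mul_one] at h2
  calc _ = U Λ h n := rfl
    _ ≤ _ := le_add_self
    _ = 1 := h2

/-- overshoot tail -/
noncomputable def tl (r : ℕ) : ℝ≥0∞ := ∑' k, tail Λ h (k + r)

lemma tl_tendsto (hΛ : ∑' b, Λ b = 1) (hm : ∑' b, Λ b * (h b : ℝ≥0∞) ≠ ⊤) :
    Filter.Tendsto (tl Λ h) Filter.atTop (nhds 0) := by
  rw [sum_tail Λ h hΛ] at hm
  exact ENNReal.tendsto_sum_nat_add _ hm

lemma SP_last (L : List B) (b : B) (a : ℕ) (hL : SP h (L ++ [b]) a) : HT h L < a := by
  induction L generalizing a with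
  | nil => simpa [HT] using hL.1
  | cons c L ih => rw [HT_cons]; have := ih _ hL.2; omega

lemma over_le (h1 : ∀ b, 1 ≤ h b) (hΛ : ∑' b, Λ b = 1) (a r : ℕ) :
    ∑' L, (if SP h L a ∧ a + r < HT h L then LW Λ L else 0) ≤ tl Λ h r := by
  have s1 : ∑' L, (if SP h L a ∧ a + r < HT h L then LW Λ L else 0)
      ≤ ∑' q : List B × B, (if HT h q.1 < a ∧ a + r < HT h q.1 + h q.2
          then LW Λ q.1 * Λ q.2 else 0) := by
    refine tsum_le_cover (fun q : List B × B => q.1 ++ [q.2]) _ _ fun L hL => ?_
    by_cases hc : SP h L a ∧ a + r < HT h L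
    · have hne : L ≠ [] := by
        rintro rfl
        simp [HT] at hc
      obtain ⟨L0, b, rfl⟩ : ∃ L0 b, L = L0 ++ [b] := ⟨L.dropLast, L.getLast hne,
        (List.dropLast_append_getLast hne).symm⟩
      refine ⟨(L0, b), rfl, ?_⟩
      rw [if_pos hc, if_pos]
      · rw [LW_append]; simp [LW]
      · refine ⟨SP_last h L0 b a hc.1, ?_⟩
        have := hc.2
        rw [HT_append] at this
        simpa [HT] using this
    · rw [if_neg hc] at hL; exact absurd rfl hL
  refine s1.trans ?_
  rw [ENNReal.tsum_prod']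
  have s2 : ∀ L0 : List B, ∑' b, (if HT h L0 < a ∧ a + r < HT h L0 + h b
      then LW Λ L0 * Λ b else 0)
      = ∑ j ∈ Finset.range a, (if HT h L0 = j then LW Λ L0 else 0) * tail Λ h (a + r - j) := by
    intro L0
    by_cases hL : HT h L0 < a
    · rw [Finset.sum_eq_single (HT h L0)]
      · rw [if_pos rfl, tail, ← ENNReal.tsum_mul_left]
        refine tsum_congr fun b => ?_
        by_cases hb : a + r < HT h L0 + h b
        · rw [if_pos ⟨hL, hb⟩, if_pos (by omega)]
        · rw [if_neg (fun hh => hb hh.2), if_neg (by omega), mul_zero]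
      · intro j _ hj
        rw [if_neg (fun hh => hj hh.symm), zero_mul]
      · intro hh
        exact absurd (Finset.mem_range.2 hL) hh
    · rw [Finset.sum_eq_zero]
      · simp [hL]
      · intro j hj
        rw [if_neg (fun hh => hL (by have := Finset.mem_range.1 hj; omega)), zero_mul]
  rw [tsum_congr s2, Summable.tsum_finsetSum (fun _ _ => ENNReal.summable)]
  calc _ ≤ ∑ j ∈ Finset.range a, tail Λ h (a + r - j) := by
        refine Finset.sum_le_sum fun j _ => ?_
        rw [ENNReal.tsum_mul_right]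
        calc _ ≤ 1 * tail Λ h (a + r - j) := by gcongr; exact U_le_one Λ h h1 hΛ j
          _ = _ := one_mul _
    _ = ∑ j ∈ Finset.range a, tail Λ h (j + 1 + r) := by
        rw [← Finset.sum_range_reflect]
        refine Finset.sum_congr rfl fun j hj => ?_
        have := Finset.mem_range.1 hj
        congr 1
        omega
    _ ≤ ∑' k, tail Λ h (k + 1 + r) := ENNReal.sum_le_tsum _
    _ ≤ tl Λ h r := by
        rw [tl]
        have : (fun k => tail Λ h (k + 1 + r)) = fun k => (fun j => tail Λ h (j + r)) (k + 1) := rfl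
        rw [this]
        exact ENNReal.tsum_comp_le_tsum_of_injective (fun a b hab => by simpa using hab)
          (fun j => tail Λ h (j + r))

variable (z : B → G)

/-- law of (overshoot, displacement) at the first passage of height `a` -/
noncomputable def V (a i : ℕ) (x : G) : ℝ≥0∞ :=
  ∑' L, if SP h L a ∧ HT h L = a + i ∧ Dp z L = x then LW Λ L else 0

lemma V_int (a : ℕ) (F : ℕ → G → ℝ≥0∞) :
    ∑' i, ∑' x, V Λ h z a i x * F i x
      = ∑' L, if SP h L a then LW Λ L * F (HT h L - a) (Dp z L) else 0 := by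
  have e1 : ∀ i x, V Λ h z a i x * F i x
      = ∑' L, if SP h L a ∧ HT h L = a + i ∧ Dp z L = x then LW Λ L * F i x else 0 := by
    intro i x
    rw [V, ← ENNReal.tsum_mul_right]
    refine tsum_congr fun L => ?_
    rw [ite_mul, zero_mul]
  simp_rw [e1]
  have e2 : ∀ i, (∑' x, ∑' L, if SP h L a ∧ HT h L = a + i ∧ Dp z L = x
      then LW Λ L * F i x else 0) = ∑' L, ∑' x, if SP h L a ∧ HT h L = a + i ∧ Dp z L = x
      then LW Λ L * F i x else 0 := fun i => ENNReal.tsum_comm
  rw [tsum_congr e2, ENNReal.tsum_comm]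
  refine tsum_congr fun L => ?_
  by_cases hL : SP h L a
  · have hle := SP_le h L a hL
    rw [if_pos hL, tsum_eq_single (HT h L - a), tsum_eq_single (Dp z L)]
    · rw [if_pos ⟨hL, by omega, rfl⟩]
    · intro x hx
      rw [if_neg (fun hh => hx hh.2.2.symm)]
    · intro i hi
      have : ∀ x, (if SP h L a ∧ HT h L = a + i ∧ Dp z L = x then LW Λ L * F i x else 0) = 0 := by
        intro x
        rw [if_neg (fun hh => hi (by omega))]
      simp [this]
  · simp [hL]

lemma V_sum (h1 : ∀ b, 1 ≤ h b) (hΛ : ∑' b, Λ b = 1) (a : ℕ) :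
    ∑' i, ∑' x, V Λ h z a i x = 1 := by
  have := V_int Λ h z a (fun _ _ => 1)
  simp only [mul_one] at this
  rw [this, tsum_SP Λ h h1 hΛ]

lemma V_row (h1 : ∀ b, 1 ≤ h b) (hΛ : ∑' b, Λ b = 1) (a i : ℕ) :
    ∑' x, V Λ h z a i x ≤ 1 :=
  (ENNReal.le_tsum i).trans (V_sum Λ h z h1 hΛ a).le

lemma tsum_sub' (f : G → ℝ≥0∞) (x : G) : ∑' y, f (x - y) = ∑' y, f y :=
  (Equiv.subLeft x).tsum_eq f

/-- recursion for the first passage law -/
lemma V_rec (h1 : ∀ b, 1 ≤ h b) (hΛ : ∑' b, Λ b = 1) (S i0 a : ℕ) (ha : S + i0 ≤ a) :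
    ∃ far : ℕ → G → ℝ≥0∞, (∑' i, ∑' x, far i x ≤ tl Λ h i0) ∧
      ∀ i x, V Λ h z a i x ≤ (∑' i', ∑' y, V Λ h z S i' y *
        (if i' ≤ i0 then V Λ h z (a - (S + i')) i (x - y) else 0)) + far i x := by
  set g : List B → List B → ℕ → G → ℝ≥0∞ := fun P R i x =>
    if SP h P S ∧ SP h R (a - HT h P) ∧ HT h P + HT h R = a + i ∧ Dp z P + Dp z R = x
      then LW Λ P * LW Λ R else 0 with hg
  refine ⟨fun i x => ∑' P, ∑' R, if S + i0 < HT h P then g P R i x else 0, ?_, ?_⟩
  · calc ∑' i, ∑' x, ∑' P, ∑' R, (if S + i0 < HT h P then g P R i x else 0)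
        = ∑' P, ∑' R, ∑' i, ∑' x, (if S + i0 < HT h P then g P R i x else 0) := by
          have e1 : ∀ i, (∑' x, ∑' P, ∑' R, if S + i0 < HT h P then g P R i x else 0)
              = ∑' P, ∑' R, ∑' x, if S + i0 < HT h P then g P R i x else 0 := by
            intro i
            rw [ENNReal.tsum_comm]
            exact tsum_congr fun P => ENNReal.tsum_comm
          rw [tsum_congr e1, ENNReal.tsum_comm]
          exact tsum_congr fun P => ENNReal.tsum_comm
      _ ≤ ∑' P, ∑' R, (if SP h P S ∧ S + i0 < HT h P then LW Λ P else 0) *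
            (if SP h R (a - HT h P) then LW Λ R else 0) := by
          refine ENNReal.tsum_le_tsum fun P => ENNReal.tsum_le_tsum fun R => ?_
          by_cases hc : SP h P S ∧ S + i0 < HT h P ∧ SP h R (a - HT h P)
          · rw [if_pos ⟨hc.1, hc.2.1⟩, if_pos hc.2.2]
            rw [tsum_eq_single (HT h P + HT h R - a), tsum_eq_single (Dp z P + Dp z R)]
            · rw [if_pos hc.2.1]
              simp only [hg]
              split_ifs
              · exact le_rfl
              · exact bot_le
            · intro x hx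
              simp only [hg]
              rw [if_neg (fun hh : _ ∧ _ ∧ _ ∧ _ => hx hh.2.2.2.symm), ite_self]
            · intro i hi
              have : ∀ x, (if S + i0 < HT h P then g P R i x else 0) = 0 := by
                intro x
                simp only [hg]
                rw [if_neg (fun hh : _ ∧ _ ∧ _ ∧ _ => hi (by omega)), ite_self]
              simp [this]
          · have : ∀ i x, (if S + i0 < HT h P then g P R i x else 0) = 0 := by
              intro i x
              simp only [hg]
              by_cases h3 : S + i0 < HT h P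
              · rw [if_pos h3, if_neg (fun hh : _ ∧ _ ∧ _ ∧ _ => hc ⟨hh.1, h3, hh.2.1⟩)]
              · rw [if_neg h3]
            simp [this]
      _ = ∑' P, (if SP h P S ∧ S + i0 < HT h P then LW Λ P else 0) := by
          refine tsum_congr fun P => ?_
          rw [ENNReal.tsum_mul_left, tsum_SP Λ h h1 hΛ, mul_one]
      _ ≤ _ := over_le Λ h h1 hΛ S i0
  · intro i x
    rw [V_int Λ h z S (fun i' y => if i' ≤ i0 then V Λ h z (a - (S + i')) i (x - y) else 0)]
    have s1 : V Λ h z a i x ≤ ∑' q : List B × List B, g q.1 q.2 i x := by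
      rw [V]
      refine tsum_le_cover (fun q : List B × List B => q.1 ++ q.2) _ _ fun L hL => ?_
      by_cases hc : SP h L a ∧ HT h L = a + i ∧ Dp z L = x
      · obtain ⟨P, R, rfl, h2, h3⟩ := SP_split h h1 L S a (by omega) hc.1
        refine ⟨(P, R), rfl, ?_⟩
        simp only [hg]
        rw [if_pos hc, if_pos, LW_append]
        refine ⟨h2, h3, ?_, ?_⟩
        · rw [← HT_append]; exact hc.2.1
        · rw [← Dp_append]; exact hc.2.2
      · rw [if_neg hc] at hL; exact absurd rfl hL
    refine s1.trans ?_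
    rw [ENNReal.tsum_prod', ← ENNReal.tsum_add]
    refine ENNReal.tsum_le_tsum fun P => ?_
    by_cases hP : S + i0 < HT h P
    · refine le_trans ?_ le_add_self
      exact ENNReal.tsum_le_tsum fun R => by rw [if_pos hP]
    · refine le_trans ?_ le_self_add
      by_cases hS : SP h P S
      · have hle := SP_le h P S hS
        rw [if_pos hS, if_pos (by omega), show S + (HT h P - S) = HT h P by omega, V,
          ← ENNReal.tsum_mul_left]
        refine ENNReal.tsum_le_tsum fun R => ?_
        simp only [hg]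
        by_cases hc : SP h P S ∧ SP h R (a - HT h P) ∧ HT h P + HT h R = a + i ∧
            Dp z P + Dp z R = x
        · rw [if_pos hc, if_pos]
          refine ⟨hc.2.1, by omega, ?_⟩
          rw [← hc.2.2.2]; abel
        · rw [if_neg hc]; exact bot_le
      · simp only [hg]
        have : ∀ R, (if SP h P S ∧ SP h R (a - HT h P) ∧ HT h P + HT h R = a + i ∧
            Dp z P + Dp z R = x then LW Λ P * LW Λ R else 0) = 0 := fun R => by
          rw [if_neg (fun hh : _ ∧ _ ∧ _ ∧ _ => hS hh.1)]
        simp [this]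

/-- **smooth density of the first passage law** -/
lemma dens (h1 : ∀ b, 1 ≤ h b) (hΛ : ∑' b, Λ b = 1) (S i0 : ℕ) (th q : ℝ≥0∞)
    (hq : ∑' i, ∑' x, (if th < V Λ h z S i x then V Λ h z S i x else 0) ≤ q) (J : ℕ) :
    ∀ a, J * (S + i0) ≤ a → ∃ Ag Bb : ℕ → G → ℝ≥0∞,
      (∀ i x, V Λ h z a i x ≤ Ag i x + Bb i x) ∧
      (∀ i x, Ag i x ≤ ((i0 : ℝ≥0∞) + 1) * th * ∑ j ∈ Finset.range J, q ^ j) ∧
      ∑' i, ∑' x, Bb i x ≤ q ^ J + tl Λ h i0 * ∑ j ∈ Finset.range J, q ^ j := by
  induction J with
  | zero =>
    intro a _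
    refine ⟨fun _ _ => 0, V Λ h z a, fun i x => by simp, fun i x => by simp, ?_⟩
    rw [V_sum Λ h z h1 hΛ]; simp
  | succ J ih =>
    intro a ha
    have ha0 : S + i0 ≤ a := by nlinarith
    obtain ⟨far, hfar, hrec⟩ := V_rec Λ h z h1 hΛ S i0 a ha0
    have hex : ∀ i', i' ≤ i0 → J * (S + i0) ≤ a - (S + i') := by
      intro i' hi'
      have : (J + 1) * (S + i0) = J * (S + i0) + (S + i0) := by ring
      omega
    choose! Ag Bb hAB hA hBm using ih
    set pg : ℕ → G → ℝ≥0∞ := fun i' y => if th < V Λ h z S i' y then V Λ h z S i' y else 0 with hpg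
    set bd : ℝ≥0∞ := ((i0 : ℝ≥0∞) + 1) * th * ∑ j ∈ Finset.range J, q ^ j with hbd
    refine ⟨fun i x => ((i0 : ℝ≥0∞) + 1) * th + ∑' i', ∑' y, pg i' y *
        (if i' ≤ i0 then Ag (a - (S + i')) i (x - y) else 0),
      fun i x => (∑' i', ∑' y, pg i' y *
        (if i' ≤ i0 then Bb (a - (S + i')) i (x - y) else 0)) + far i x, ?_, ?_, ?_⟩
    · intro i x
      refine (hrec i x).trans ?_
      have low : ∑' i', ∑' y, (th * (if i' ≤ i0 then V Λ h z (a - (S + i')) i (x - y) else 0))
          ≤ ((i0 : ℝ≥0∞) + 1) * th := by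
        have e1 : ∀ i', (∑' y, (th * (if i' ≤ i0 then V Λ h z (a - (S + i')) i (x - y) else 0)))
            ≤ if i' ∈ Finset.range (i0 + 1) then th else 0 := by
          intro i'
          by_cases hi' : i' ≤ i0
          · rw [if_pos (Finset.mem_range.2 (by omega))]
            simp only [if_pos hi']
            rw [ENNReal.tsum_mul_left, tsum_sub' (fun y => V Λ h z (a - (S + i')) i y)]
            calc _ ≤ th * 1 := by gcongr; exact V_row Λ h z h1 hΛ _ _
              _ = th := mul_one _
          · simp [hi']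
        refine (ENNReal.tsum_le_tsum e1).trans ?_
        rw [tsum_eq_sum (s := Finset.range (i0 + 1)) (fun b hb => if_neg hb),
          Finset.sum_congr rfl (fun b hb => if_pos hb)]
        simp
      have split : ∀ i' y, V Λ h z S i' y *
          (if i' ≤ i0 then V Λ h z (a - (S + i')) i (x - y) else 0)
          ≤ th * (if i' ≤ i0 then V Λ h z (a - (S + i')) i (x - y) else 0)
            + (pg i' y * (if i' ≤ i0 then Ag (a - (S + i')) i (x - y) else 0)
              + pg i' y * (if i' ≤ i0 then Bb (a - (S + i')) i (x - y) else 0)) := by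
        intro i' y
        by_cases hi' : i' ≤ i0
        · simp only [if_pos hi']
          by_cases ht : th < V Λ h z S i' y
          · refine le_trans ?_ le_add_self
            simp only [hpg, if_pos ht]
            rw [← mul_add]
            gcongr
            exact hAB _ (hex i' hi') i (x - y)
          · refine le_trans ?_ le_self_add
            gcongr
            exact not_lt.1 ht
        · simp [hi']
      have s2 := ENNReal.tsum_le_tsum fun i' => ENNReal.tsum_le_tsum fun y => split i' y
      simp only [ENNReal.tsum_add] at s2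
      refine (add_le_add s2 le_rfl).trans ?_
      refine (add_le_add (add_le_add low le_rfl) le_rfl).trans (le_of_eq ?_)
      simp only []
      ring
    · intro i x
      have e1 : ∑' i', ∑' y, pg i' y * (if i' ≤ i0 then Ag (a - (S + i')) i (x - y) else 0)
          ≤ q * bd := by
        calc _ ≤ ∑' i', ∑' y, pg i' y * bd := by
              refine ENNReal.tsum_le_tsum fun i' => ENNReal.tsum_le_tsum fun y => ?_
              gcongr
              by_cases hi' : i' ≤ i0
              · rw [if_pos hi']; exact hA _ (hex i' hi') i (x - y)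
              · simp [hi']
          _ = (∑' i', ∑' y, pg i' y) * bd := by
              simp_rw [ENNReal.tsum_mul_right]
          _ ≤ q * bd := mul_le_mul_left hq bd
      calc _ ≤ ((i0 : ℝ≥0∞) + 1) * th + q * bd := add_le_add le_rfl e1
        _ = ((i0 : ℝ≥0∞) + 1) * th * ∑ j ∈ Finset.range (J + 1), q ^ j := by
            rw [Finset.sum_range_succ', hbd]
            simp_rw [pow_succ]
            rw [← Finset.sum_mul]; ring
    · simp_rw [ENNReal.tsum_add]
      have e1 : ∑' i, ∑' x, ∑' i', ∑' y, pg i' y *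
          (if i' ≤ i0 then Bb (a - (S + i')) i (x - y) else 0)
          ≤ q * (q ^ J + tl Λ h i0 * ∑ j ∈ Finset.range J, q ^ j) := by
        calc _ = ∑' i', ∑' y, ∑' i, ∑' x, pg i' y *
              (if i' ≤ i0 then Bb (a - (S + i')) i (x - y) else 0) := by
              have c1 : ∀ i, (∑' x, ∑' i', ∑' y, pg i' y *
                  (if i' ≤ i0 then Bb (a - (S + i')) i (x - y) else 0))
                  = ∑' i', ∑' y, ∑' x, pg i' y *
                  (if i' ≤ i0 then Bb (a - (S + i')) i (x - y) else 0) := by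
                intro i
                rw [ENNReal.tsum_comm]
                exact tsum_congr fun i' => ENNReal.tsum_comm
              rw [tsum_congr c1, ENNReal.tsum_comm]
              exact tsum_congr fun i' => ENNReal.tsum_comm
          _ ≤ ∑' i', ∑' y, pg i' y * (q ^ J + tl Λ h i0 * ∑ j ∈ Finset.range J, q ^ j) := by
              refine ENNReal.tsum_le_tsum fun i' => ENNReal.tsum_le_tsum fun y => ?_
              simp_rw [ENNReal.tsum_mul_left]
              gcongr
              by_cases hi' : i' ≤ i0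
              · simp only [if_pos hi']
                refine le_trans (le_of_eq ?_) (hBm _ (hex i' hi'))
                refine tsum_congr fun i => ?_
                exact (Equiv.subRight y).tsum_eq (fun x => Bb (a - (S + i')) i x)
              · simp [hi']
          _ = (∑' i', ∑' y, pg i' y) * (q ^ J + tl Λ h i0 * ∑ j ∈ Finset.range J, q ^ j) := by
              simp_rw [ENNReal.tsum_mul_right]
          _ ≤ _ := mul_le_mul_left hq _
      calc _ ≤ q * (q ^ J + tl Λ h i0 * ∑ j ∈ Finset.range J, q ^ j) + tl Λ h i0 :=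
            add_le_add e1 hfar
        _ = q ^ (J + 1) + tl Λ h i0 * ∑ j ∈ Finset.range (J + 1), q ^ j := by
            rw [Finset.sum_range_succ']
            simp_rw [pow_succ]
            rw [← Finset.sum_mul]; ring

end Crest.Agent.R154.AsmA959
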