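import Crest.Agent.R154.FP_178
import Crest.Agent.R154.Dens_616
import Crest.Agent.R154.KU_823

/-! Row 154 (helper97), ROAD 801: first passage sums, attempts, smooth density (one walker). -/

set_option autoImplicit false

namespace Crest.Agent.R154.Asm97

open scoped ENNReal
open Crest.Agent.R154.B5A Crest.Agent.R154.FP178

section one
variable {B G : Type*} [AddCommGroup G] (Λ : B → ℝ≥0∞) (ht : B → ℕ) (z : B → G)

/-- displacement -/
def Dp (L : List B) : G := (L.map z).sum

lemma Dp_append (L L' : List B) : Dp z (L ++ L') = Dp z L + Dp z L' := by simp [Dp]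

open Classical in
/-- first passage sum -/
noncomputable def S (a : ℕ) (f : List B → ℝ≥0∞) : ℝ≥0∞ :=
  ∑' L, if fp ht a L then LW Λ L * f L else 0

lemma S_mono (a : ℕ) {f g : List B → ℝ≥0∞} (h : ∀ L, fp ht a L → f L ≤ g L) :
    S Λ ht a f ≤ S Λ ht a g := by
  classical
  refine ENNReal.tsum_le_tsum fun L => ?_
  by_cases hL : fp ht a L
  · rw [if_pos hL, if_pos hL]; exact mul_le_mul_right (h L hL) _
  · rw [if_neg hL, if_neg hL]

lemma S_add (a : ℕ) (f g : List B → ℝ≥0∞) :
    S Λ ht a (fun L => f L + g L) = S Λ ht a f + S Λ ht a g := by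
  classical
  rw [S, S, S, ← ENNReal.tsum_add]
  refine tsum_congr fun L => ?_
  by_cases hL : fp ht a L
  · simp only [if_pos hL, mul_add]
  · simp only [if_neg hL, add_zero]

lemma S_const_mul (a : ℕ) (c : ℝ≥0∞) (f : List B → ℝ≥0∞) :
    S Λ ht a (fun L => c * f L) = c * S Λ ht a f := by
  classical
  rw [S, S, ← ENNReal.tsum_mul_left]
  refine tsum_congr fun L => ?_
  by_cases hL : fp ht a L
  · simp only [if_pos hL, mul_left_comm]
  · simp only [if_neg hL, mul_zero]

lemma S_tsum {ι : Type*} (a : ℕ) (f : ι → List B → ℝ≥0∞) :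
    S Λ ht a (fun L => ∑' i, f i L) = ∑' i, S Λ ht a (f i) := by
  classical
  simp only [S]
  rw [ENNReal.tsum_comm]
  refine tsum_congr fun L => ?_
  by_cases hL : fp ht a L
  · simp only [if_pos hL, ENNReal.tsum_mul_left]
  · simp only [if_neg hL, tsum_zero]

lemma S_zero (f : List B → ℝ≥0∞) : S Λ ht 0 f = f [] := sum_fp_zero Λ ht f

lemma S_step (a : ℕ) (ha : 0 < a) (f : List B → ℝ≥0∞) :
    S Λ ht a f = ∑' b, Λ b * S Λ ht (a - ht b) (fun L => f (b :: L)) := sum_fp_step Λ ht a ha f

lemma S_one (h1 : ∀ b, 1 ≤ ht b) (hΛ : ∑' b, Λ b = 1) (a : ℕ) : S Λ ht a (fun _ => 1) = 1 := by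
  induction a using Nat.strong_induction_on with
  | _ a ih =>
    rcases Nat.eq_zero_or_pos a with rfl | ha
    · rw [S_zero]
    · refine (S_step Λ ht a ha _).trans (Eq.trans (tsum_congr fun b => ?_) hΛ)
      rw [ih (a - ht b) (by have := h1 b; omega), mul_one]

lemma S_const (h1 : ∀ b, 1 ≤ ht b) (hΛ : ∑' b, Λ b = 1) (a : ℕ) (c : ℝ≥0∞) :
    S Λ ht a (fun _ => c) = c := by
  have := S_const_mul Λ ht a c (fun _ => 1)
  simp only [mul_one] at this
  rw [this, S_one Λ ht h1 hΛ, mul_one]

lemma S_le_one (h1 : ∀ b, 1 ≤ ht b) (hΛ : ∑' b, Λ b = 1) (a : ℕ) {f : List B → ℝ≥0∞}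
    (hf : ∀ L, f L ≤ 1) : S Λ ht a f ≤ 1 :=
  (S_mono Λ ht a fun L _ => hf L).trans (S_one Λ ht h1 hΛ a).le

lemma S_split (h1 : ∀ b, 1 ≤ ht b) (τ a : ℕ) (hτ : τ ≤ a) (f : List B → ℝ≥0∞) :
    S Λ ht a f = S Λ ht τ (fun A => S Λ ht (a - HT ht A) (fun L => f (A ++ L))) :=
  fp_split Λ ht h1 τ a hτ f

open Classical in
/-- law of (height, displacement) of an attempt -/
noncomputable def p (τ : ℕ) (x : ℕ × G) : ℝ≥0∞ :=
  S Λ ht τ (fun P => if (HT ht P, Dp z P) = x then 1 else 0)

lemma S_push (τ : ℕ) (φ : ℕ × G → ℝ≥0∞) :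
    S Λ ht τ (fun P => φ (HT ht P, Dp z P)) = ∑' x, p Λ ht z τ x * φ x := by
  classical
  have : ∀ P : List B, φ (HT ht P, Dp z P)
      = ∑' x, φ x * (if (HT ht P, Dp z P) = x then 1 else 0) := by
    intro P
    rw [tsum_eq_single (HT ht P, Dp z P)]
    · simp
    · intro x hx; rw [if_neg hx.symm, mul_zero]
  simp_rw [this]
  rw [S_tsum]
  refine tsum_congr fun x => ?_
  rw [S_const_mul, p, mul_comm]

lemma p_sum (h1 : ∀ b, 1 ≤ ht b) (hΛ : ∑' b, Λ b = 1) (τ : ℕ) : ∑' x, p Λ ht z τ x = 1 := by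
  have := S_push Λ ht z τ (fun _ => 1)
  simp only [mul_one] at this
  rw [← this, S_one Λ ht h1 hΛ]

lemma fp_unique {τ : ℕ} {P P' A A' : List B} (h : fp ht τ P) (h' : fp ht τ P')
    (he : P ++ A = P' ++ A') : P = P' ∧ A = A' := by
  induction P generalizing τ P' with
  | nil =>
    rw [fp_nil] at h
    subst h
    rw [fp_zero] at h'
    subst h'
    exact ⟨rfl, he⟩
  | cons b P ih =>
    cases P' with
    | nil =>
      rw [fp_nil] at h'
      rw [fp_cons] at h
      omega
    | cons b' P' =>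
      rw [fp_cons] at h h'
      simp only [List.cons_append, List.cons.injEq] at he
      obtain ⟨rfl, he⟩ := he
      obtain ⟨h1, h2⟩ := ih h.2 h'.2 he
      exact ⟨by rw [h1], h2⟩

/-- one of the first `J` attempts is special -/
def Sm (τ i0 : ℕ) (th : ℝ≥0∞) : ℕ → List B → Prop
  | 0, _ => False
  | J + 1, A => ∃ P A', A = P ++ A' ∧ fp ht τ P ∧ HT ht P ≤ τ + i0 ∧
      (p Λ ht z τ (HT ht P, Dp z P) ≤ th ∨ Sm τ i0 th J A')

lemma Sm_iff {τ i0 : ℕ} {th : ℝ≥0∞} {J : ℕ} {P A' : List B} (hP : fp ht τ P) :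
    Sm Λ ht z τ i0 th (J + 1) (P ++ A') ↔ HT ht P ≤ τ + i0 ∧
      (p Λ ht z τ (HT ht P, Dp z P) ≤ th ∨ Sm Λ ht z τ i0 th J A') := by
  constructor
  · rintro ⟨Q, A'', he, hQ, h1, h2⟩
    obtain ⟨rfl, rfl⟩ := fp_unique ht hP hQ he
    exact ⟨h1, h2⟩
  · rintro ⟨h1, h2⟩
    exact ⟨P, A', rfl, hP, h1, h2⟩

open Classical in
/-- overshoot mass -/
noncomputable def ov (i0 a : ℕ) : ℝ≥0∞ := S Λ ht a (fun A => if a + i0 < HT ht A then 1 else 0)

open Classical in
lemma ov_le (h1 : ∀ b, 1 ≤ ht b) (hU1 : ∀ n, U Λ ht n ≤ 1) (i0 a : ℕ) :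
    ov Λ ht i0 a ≤ ∑' k, tail Λ ht (i0 + k) := by
  refine le_trans (le_of_eq ?_) (overshoot Λ ht h1 hU1 i0 a)
  rw [ov, S]
  refine tsum_congr fun L => ?_
  by_cases h : fp ht a L <;> by_cases h' : a + i0 < HT ht L <;> simp [h, h']

open Classical in
/-- **failure of all the attempts** (once for all heights) -/
lemma bad_le (h1 : ∀ b, 1 ≤ ht b) (hΛ : ∑' b, Λ b = 1) (τ i0 : ℕ) (th q δ : ℝ≥0∞)
    (hq : S Λ ht τ (fun P => if th < p Λ ht z τ (HT ht P, Dp z P) then 1 else 0) ≤ q)
    (hq1 : q ≤ 1)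
    (hδ : ov Λ ht i0 τ ≤ δ) (J : ℕ) : ∀ a, J * (τ + i0) ≤ a →
      S Λ ht a (fun A => if Sm Λ ht z τ i0 th J A then 0 else 1) ≤ q ^ J + J * δ := by
  induction J with
  | zero =>
    intro a _
    simpa using S_le_one Λ ht h1 hΛ a (f := fun A => if Sm Λ ht z τ i0 th 0 A then 0 else 1)
      (fun L => by split_ifs <;> simp)
  | succ J ih =>
    intro a ha
    have hτ : τ ≤ a := by nlinarith
    rw [S_split Λ ht h1 τ a hτ]
    have hstep : ∀ P, fp ht τ P → S Λ ht (a - HT ht P)
        (fun L => if Sm Λ ht z τ i0 th (J + 1) (P ++ L) then 0 else 1)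
        ≤ (if τ + i0 < HT ht P then 1 else 0)
          + (q ^ J + J * δ) * (if th < p Λ ht z τ (HT ht P, Dp z P) then 1 else 0) := by
      intro P hP
      by_cases hH : τ + i0 < HT ht P
      · rw [if_pos hH]
        refine le_trans (S_le_one Λ ht h1 hΛ _ (fun L => by split_ifs <;> simp)) le_self_add
      · rw [if_neg hH, zero_add]
        by_cases hp : th < p Λ ht z τ (HT ht P, Dp z P)
        · rw [if_pos hp, mul_one]
          refine le_trans (S_mono Λ ht _ fun L _ => ?_) (ih (a - HT ht P) ?_)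
          · by_cases hs : Sm Λ ht z τ i0 th J L
            · rw [if_pos hs, if_pos ((Sm_iff Λ ht z hP).2 ⟨by omega, Or.inr hs⟩)]
            · rw [if_neg hs]; split_ifs <;> simp
          · have : (J + 1) * (τ + i0) = J * (τ + i0) + (τ + i0) := by ring
            omega
        · rw [if_neg hp, mul_zero]
          refine le_trans (S_mono Λ ht _ (g := fun _ => 0) fun L _ => ?_) ?_
          · rw [if_pos ((Sm_iff Λ ht z hP).2 ⟨by omega, Or.inl (not_lt.1 hp)⟩)]
          · rw [S_const Λ ht h1 hΛ]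
    refine le_trans (S_mono Λ ht τ hstep) ?_
    rw [S_add, S_const_mul]
    calc _ ≤ δ + (q ^ J + J * δ) * q := by
          refine add_le_add hδ ?_
          gcongr
      _ = q ^ (J + 1) + (q * (J * δ) + δ) := by ring
      _ ≤ q ^ (J + 1) + (1 * (J * δ) + δ) := by gcongr
      _ = q ^ (J + 1) + ((J + 1 : ℕ) : ℝ≥0∞) * δ := by push_cast; ring

open Classical in
/-- **smooth density** -/
lemma good_le (h1 : ∀ b, 1 ≤ ht b) (hΛ : ∑' b, Λ b = 1) (τ i0 : ℕ) (th : ℝ≥0∞)
    (J : ℕ) : ∀ a, J * (τ + i0) ≤ a → ∀ (α : ℕ) (y : G),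
      S Λ ht a (fun A => if Sm Λ ht z τ i0 th J A ∧ Dp z A = y ∧ HT ht A = α then 1 else 0)
        ≤ J * ((i0 + 1 : ℕ) * th) := by
  induction J with
  | zero =>
    intro a _ α y
    refine le_trans (S_mono Λ ht _ (g := fun _ => 0) fun L _ => ?_) ?_
    · rw [if_neg (fun h => h.1)]
    · rw [S_const Λ ht h1 hΛ]; simp
  | succ J ih =>
    intro a ha α y
    have hτ : τ ≤ a := by nlinarith
    rw [S_split Λ ht h1 τ a hτ]
    obtain ⟨φ, hφ⟩ : ∃ φ : ℕ × G → ℝ≥0∞, φ = fun x =>
      if x.1 ≤ τ + i0 ∧ τ ≤ x.1 ∧ p Λ ht z τ x ≤ th then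
            S Λ ht (a - x.1) (fun L => if Dp z L = y - x.2 then 1 else 0) else 0 := ⟨_, rfl⟩
    have hstep : ∀ P, fp ht τ P → S Λ ht (a - HT ht P)
        (fun L => if Sm Λ ht z τ i0 th (J + 1) (P ++ L) ∧ Dp z (P ++ L) = y ∧ HT ht (P ++ L) = α
          then 1 else 0)
        ≤ φ (HT ht P, Dp z P) + J * ((i0 + 1 : ℕ) * th) := by
      intro P hP
      rw [hφ]
      by_cases hH : HT ht P ≤ τ + i0
      · by_cases hp : p Λ ht z τ (HT ht P, Dp z P) ≤ th
        · simp only
          rw [if_pos ⟨hH, le_HT_of_fp ht hP, hp⟩]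
          refine le_trans (S_mono Λ ht _ fun L _ => ?_) le_self_add
          by_cases hD : Dp z (P ++ L) = y
          · rw [Dp_append] at hD
            rw [if_pos (show Dp z L = y - Dp z P by rw [← hD]; abel)]
            split_ifs <;> simp
          · rw [if_neg (fun h => hD h.2.1)]; exact zero_le
        · refine le_trans ?_ le_add_self
          refine le_trans (S_mono Λ ht _ fun L _ => ?_)
            (ih (a - HT ht P) ?_ (α - HT ht P) (y - Dp z P))
          · by_cases hs : Sm Λ ht z τ i0 th (J + 1) (P ++ L) ∧ Dp z (P ++ L) = y ∧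
              HT ht (P ++ L) = α
            · rw [if_pos hs]
              obtain ⟨h2, h3, h4⟩ := hs
              rw [Sm_iff Λ ht z hP] at h2
              rw [if_pos]
              refine ⟨h2.2.resolve_left hp, ?_, ?_⟩
              · rw [← h3, Dp_append]; abel
              · rw [← h4, HT_append]; omega
            · rw [if_neg hs]; exact zero_le
          · have : (J + 1) * (τ + i0) = J * (τ + i0) + (τ + i0) := by ring
            omega
      · refine le_trans (S_mono Λ ht _ (g := fun _ => 0) fun L _ => ?_) ?_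
        · rw [if_neg]
          rintro ⟨h2, -⟩
          rw [Sm_iff Λ ht z hP] at h2
          exact hH h2.1
        · rw [S_const Λ ht h1 hΛ]; exact zero_le
    refine le_trans (S_mono Λ ht τ hstep) ?_
    rw [S_add Λ ht τ (fun P => φ (HT ht P, Dp z P)), S_push, S_const Λ ht h1 hΛ]
    have hmain : ∑' x : ℕ × G, p Λ ht z τ x * (if x.1 ≤ τ + i0 ∧ τ ≤ x.1 ∧ p Λ ht z τ x ≤ th then
            S Λ ht (a - x.1) (fun L => if Dp z L = y - x.2 then 1 else 0) else 0)
        ≤ (i0 + 1 : ℕ) * th := by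
      rw [ENNReal.tsum_prod' (f := fun x : ℕ × G => p Λ ht z τ x * (if x.1 ≤ τ + i0 ∧ τ ≤ x.1 ∧ p Λ ht z τ x ≤ th then
            S Λ ht (a - x.1) (fun L => if Dp z L = y - x.2 then 1 else 0) else 0))]
      calc _ ≤ ∑' h : ℕ, (if h ∈ Finset.Icc τ (τ + i0) then th else 0) := by
            refine ENNReal.tsum_le_tsum fun h => ?_
            by_cases hh : h ∈ Finset.Icc τ (τ + i0)
            · rw [if_pos hh]
              calc _ ≤ ∑' y' : G, th * S Λ ht (a - h)
                    (fun L => if Dp z L = y - y' then 1 else 0) := by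
                    refine ENNReal.tsum_le_tsum fun y' => ?_
                    split_ifs with hc
                    · exact mul_le_mul_left hc.2.2 _
                    · rw [mul_zero]; exact zero_le
                _ = th * S Λ ht (a - h) (fun L => ∑' y' : G, if Dp z L = y - y' then 1 else 0) := by
                    rw [ENNReal.tsum_mul_left, S_tsum]
                _ = th * 1 := by
                    have e : (fun L : List B => ∑' y' : G, if Dp z L = y - y' then (1 : ℝ≥0∞) else 0)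
                        = fun _ => 1 := by
                      funext L
                      rw [tsum_eq_single (y - Dp z L)]
                      · rw [if_pos (by abel)]
                      · intro y' hy'
                        rw [if_neg]
                        intro he
                        apply hy'
                        rw [he]; abel
                    rw [e, S_one Λ ht h1 hΛ]
                _ = th := mul_one _
            · rw [if_neg hh]
              rw [Finset.mem_Icc] at hh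
              refine le_of_eq ?_
              rw [ENNReal.tsum_eq_zero]
              intro y'
              rw [if_neg (fun hc => hh ⟨hc.2.1, hc.1⟩), mul_zero]
        _ = ∑ h ∈ Finset.Icc τ (τ + i0), th := by
            rw [tsum_eq_sum (s := Finset.Icc τ (τ + i0))]
            · exact Finset.sum_congr rfl fun h hh => if_pos hh
            · intro h hh; exact if_neg hh
        _ = (i0 + 1 : ℕ) * th := by
            rw [Finset.sum_const, Nat.card_Icc, nsmul_eq_mul]
            congr 2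
            omega
    rw [hφ]
    calc _ ≤ (i0 + 1 : ℕ) * th + J * ((i0 + 1 : ℕ) * th) := by gcongr
      _ = ((J + 1 : ℕ) : ℝ≥0∞) * ((i0 + 1 : ℕ) * th) := by push_cast; ring

end one

end Crest.Agent.R154.Asm97
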