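import Crest.Agent.R154.B5Abs_566

/-! Row 154, road 801 (helper976): first passage lists, splitting, smoothing. -/

set_option autoImplicit false

namespace Crest.Agent.R154.Asm976

open B5A
open scoped ENNReal
open Classical

variable {B G : Type*}

/-- first passage lists of depth `T` -/
def FP (h : B → ℕ) : ℕ → List B → Prop
  | T, [] => T = 0
  | T, b :: L => T ≠ 0 ∧ FP h (T - h b) L

lemma FP_le (h : B → ℕ) (L : List B) (T : ℕ) (hL : FP h T L) : T ≤ HT h L := by
  induction L generalizing T with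
  | nil => simp only [FP] at hL; omega
  | cons b L ih =>
    obtain ⟨_, h2⟩ := hL
    have := ih _ h2
    rw [HT_cons]; omega

lemma FP_exists (h : B → ℕ) (L : List B) (T : ℕ) (hT : T ≤ HT h L) :
    ∃ A R, L = A ++ R ∧ FP h T A := by
  induction L generalizing T with
  | nil =>
    rw [HT_nil] at hT
    exact ⟨[], [], rfl, by simp only [FP]; omega⟩
  | cons b L ih =>
    by_cases h0 : T = 0
    · exact ⟨[], b :: L, rfl, h0⟩
    · rw [HT_cons] at hT
      obtain ⟨A, R, h1, h2⟩ := ih (T - h b) (by omega)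
      exact ⟨b :: A, R, by rw [h1]; rfl, h0, h2⟩

/-- total mass of the first passage lists -/
lemma FP_mass (Λ : B → ℝ≥0∞) (h : B → ℕ) (h1 : ∀ b, 1 ≤ h b) (hΛ : ∑' b, Λ b = 1) (T : ℕ) :
    ∑' L, (if FP h T L then LW Λ L else 0) = 1 := by
  induction T using Nat.strong_induction_on with
  | _ T ih =>
    rw [tsum_list]
    by_cases h0 : T = 0
    · subst h0
      simp [FP, LW_nil]
    · have e : ∀ b, (∑' L, (if FP h T (b :: L) then LW Λ (b :: L) else 0)) = Λ b := by
        intro b
        have : ∀ L, (if FP h T (b :: L) then LW Λ (b :: L) else 0)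
            = Λ b * (if FP h (T - h b) L then LW Λ L else 0) := by
          intro L
          by_cases hh : FP h (T - h b) L
          · rw [if_pos ⟨h0, hh⟩, if_pos hh, LW_cons]
          · rw [if_neg (fun h => hh h.2), if_neg hh, mul_zero]
        simp_rw [this]
        rw [ENNReal.tsum_mul_left, ih _ (by have := h1 b; omega), mul_one]
      simp_rw [e]
      rw [hΛ, if_neg (by simp only [FP]; exact h0), zero_add]

/-- sums over lists whose support splits -/
lemma tsum_split_le (P : List B → Prop) (F : List B → ℝ≥0∞)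
    (hP : ∀ L, F L ≠ 0 → ∃ A R, L = A ++ R ∧ P A) :
    ∑' L, F L ≤ ∑' A, ∑' R, (if P A then F (A ++ R) else 0) := by
  calc ∑' L, F L ≤ ∑' L, ∑' A, ∑' R, (if P A ∧ A ++ R = L then F L else 0) := by
        refine ENNReal.tsum_le_tsum fun L => ?_
        by_cases h0 : F L = 0
        · rw [h0]; exact zero_le
        · obtain ⟨A, R, h1, h2⟩ := hP L h0
          refine le_trans ?_ (ENNReal.le_tsum A)
          refine le_trans ?_ (ENNReal.le_tsum R)
          rw [if_pos ⟨h2, h1.symm⟩]
    _ = ∑' A, ∑' R, ∑' L, (if P A ∧ A ++ R = L then F L else 0) := by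
        rw [ENNReal.tsum_comm]
        refine tsum_congr fun A => ?_
        rw [ENNReal.tsum_comm]
    _ = _ := by
        refine tsum_congr fun A => tsum_congr fun R => ?_
        rw [tsum_eq_single (A ++ R)]
        · by_cases hA : P A <;> simp [hA]
        · intro L hL
          rw [if_neg (fun h => hL h.2.symm)]

/-- law of the first passage (height, displacement) -/
noncomputable def al (Λ : B → ℝ≥0∞) (h : B → ℕ) (dp : List B → G) (T : ℕ) (q : ℕ × G) : ℝ≥0∞ :=
  ∑' L, (if FP h T L ∧ HT h L = q.1 ∧ dp L = q.2 then LW Λ L else 0)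

lemma tsum_fiber (Λ : B → ℝ≥0∞) (h : B → ℕ) (dp : List B → G) (T : ℕ) (f : ℕ × G → ℝ≥0∞) :
    ∑' L, (if FP h T L then LW Λ L * f (HT h L, dp L) else 0)
      = ∑' q, al Λ h dp T q * f q := by
  simp only [al]
  simp_rw [← ENNReal.tsum_mul_right]
  rw [ENNReal.tsum_comm]
  refine tsum_congr fun L => ?_
  rw [tsum_eq_single (HT h L, dp L)]
  · by_cases hL : FP h T L
    · simp [hL]
    · simp [hL]
  · intro q hq
    rw [if_neg, zero_mul]
    rintro ⟨_, h2, h3⟩
    exact hq (Prod.ext h2.symm h3.symm)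

lemma al_mass (Λ : B → ℝ≥0∞) (h : B → ℕ) (h1 : ∀ b, 1 ≤ h b) (hΛ : ∑' b, Λ b = 1)
    (dp : List B → G) (T : ℕ) : ∑' q, al Λ h dp T q = 1 := by
  have := tsum_fiber Λ h dp T (fun _ => 1)
  simp only [mul_one] at this
  rw [← this, FP_mass Λ h h1 hΛ]

end Crest.Agent.R154.Asm976
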