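import Crest.Agent.R154.B5Abs_566

/-! Row 154 (helper583), ROAD 801: extension of crossings from height `n` to height `n + N`
(block lists read from the tie down), at the price `U N` for each walker. -/

set_option autoImplicit false

namespace Crest.Agent.R154.Ext583

open Crest.Agent.R154.B5A
open scoped ENNReal

variable {B : Type*}

lemma append_inj_ht (ht : B → ℕ) (h1 : ∀ b, 1 ≤ ht b) {L R L' R' : List B}
    (h : L ++ R = L' ++ R') (hh : HT ht L = HT ht L') : L = L' ∧ R = R' := by
  have hnil : ∀ A : List B, HT ht A = 0 → A = [] := by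
    intro A hA
    have := length_le_HT ht h1 A
    exact List.length_eq_zero_iff.1 (by omega)
  rcases List.append_eq_append_iff.1 h with ⟨A, h2, h3⟩ | ⟨A, h2, h3⟩
  · have hA : HT ht A = 0 := by
      rw [h2, HT_append] at hh
      omega
    rw [hnil A hA] at h2 h3
    simp only [List.append_nil, List.nil_append] at h2 h3
    exact ⟨h2.symm, h3⟩
  · have hA : HT ht A = 0 := by
      rw [h2, HT_append] at hh
      omega
    rw [hnil A hA] at h2 h3
    simp only [List.append_nil, List.nil_append] at h2 h3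
    exact ⟨h2, h3.symm⟩

open Classical in
/-- extension of one walker -/
theorem ext_one (Λ : B → ℝ≥0∞) (ht : B → ℕ) (h1 : ∀ b, 1 ≤ ht b) (n N : ℕ)
    (f g : List B → ℝ≥0∞)
    (hfg : ∀ L R, HT ht L = n → HT ht R = N → f L ≤ g (L ++ R)) :
    (∑' L : List B, if HT ht L = n then LW Λ L * f L else 0) * U Λ ht N
      ≤ ∑' L : List B, if HT ht L = n + N then LW Λ L * g L else 0 := by
  set S : Set (List B × List B) := {p | HT ht p.1 = n ∧ HT ht p.2 = N} with hS
  have hinj : Function.Injective (fun p : S => p.1.1 ++ p.1.2) := by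
    rintro ⟨⟨L, R⟩, hL, hR⟩ ⟨⟨L', R'⟩, hL', hR'⟩ h
    simp only at h hL hR hL' hR'
    obtain ⟨h2, h3⟩ := append_inj_ht ht h1 h (hL.trans hL'.symm)
    subst h2; subst h3; rfl
  calc (∑' L : List B, if HT ht L = n then LW Λ L * f L else 0) * U Λ ht N
      = ∑' p : List B × List B, (if HT ht p.1 = n then LW Λ p.1 * f p.1 else 0)
          * (if HT ht p.2 = N then LW Λ p.2 else 0) := by
        rw [ENNReal.tsum_prod', U, ← ENNReal.tsum_mul_right]
        refine tsum_congr fun L => ?_
        exact ENNReal.tsum_mul_left.symm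
    _ ≤ ∑' p : List B × List B, S.indicator
          (fun p => LW Λ (p.1 ++ p.2) * g (p.1 ++ p.2)) p := by
        refine ENNReal.tsum_le_tsum fun p => ?_
        by_cases h2 : HT ht p.1 = n
        · by_cases h3 : HT ht p.2 = N
          · rw [if_pos h2, if_pos h3, Set.indicator_of_mem (show p ∈ S from ⟨h2, h3⟩), LW_append]
            calc LW Λ p.1 * f p.1 * LW Λ p.2 = LW Λ p.1 * LW Λ p.2 * f p.1 := by ring
              _ ≤ LW Λ p.1 * LW Λ p.2 * g (p.1 ++ p.2) := mul_le_mul_right (hfg _ _ h2 h3) _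
          · rw [if_neg h3, mul_zero]; exact zero_le
        · rw [if_neg h2, zero_mul]; exact zero_le
    _ = ∑' p : S, LW Λ (p.1.1 ++ p.1.2) * g (p.1.1 ++ p.1.2) := by
        rw [← tsum_subtype]
    _ = ∑' p : S, (fun L => if HT ht L = n + N then LW Λ L * g L else 0) (p.1.1 ++ p.1.2) := by
        refine tsum_congr fun p => ?_
        have h2 : HT ht (p.1.1 ++ p.1.2) = n + N := by rw [HT_append, p.2.1, p.2.2]
        simp only
        rw [if_pos h2]
    _ ≤ _ := ENNReal.tsum_comp_le_tsum_of_injective hinj _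

open Classical in
/-- **extension of the pair** -/
theorem ext_le {BX BY : Type*} (ΛX : BX → ℝ≥0∞) (hX : BX → ℕ) (ΛY : BY → ℝ≥0∞) (hY : BY → ℕ)
    (h1X : ∀ b, 1 ≤ hX b) (h1Y : ∀ b, 1 ≤ hY b) (n N : ℕ) (P : List BX → List BY → Prop)
    (hP : ∀ LX LY RX RY, HT hX LX = n → HT hY LY = n → P LX LY → P (LX ++ RX) (LY ++ RY)) :
    (∑' LX : List BX, ∑' LY : List BY,
        if HT hX LX = n ∧ HT hY LY = n ∧ P LX LY then LW ΛX LX * LW ΛY LY else 0)
        * (U ΛX hX N * U ΛY hY N)
      ≤ ∑' LX : List BX, ∑' LY : List BY,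
        if HT hX LX = n + N ∧ HT hY LY = n + N ∧ P LX LY then LW ΛX LX * LW ΛY LY else 0 := by
  have hre : ∀ k : ℕ, ∀ LX : List BX, (∑' LY : List BY,
        if HT hX LX = k ∧ HT hY LY = k ∧ P LX LY then LW ΛX LX * LW ΛY LY else 0)
      = if HT hX LX = k then LW ΛX LX *
          (∑' LY : List BY, if HT hY LY = k then LW ΛY LY * (if P LX LY then 1 else 0) else 0)
        else 0 := by
    intro k LX
    by_cases h : HT hX LX = k
    · rw [if_pos h, ← ENNReal.tsum_mul_left]
      refine tsum_congr fun LY => ?_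
      by_cases h2 : HT hY LY = k <;> by_cases h3 : P LX LY <;> simp [h, h2, h3]
    · rw [if_neg h]
      simp [h]
  simp only [hre]
  rw [← mul_assoc, mul_right_comm, ← ENNReal.tsum_mul_right]
  have e1 : ∀ LX : List BX, (if HT hX LX = n then LW ΛX LX *
          (∑' LY : List BY, if HT hY LY = n then LW ΛY LY * (if P LX LY then 1 else 0) else 0)
        else 0) * U ΛY hY N
      = if HT hX LX = n then LW ΛX LX *
          ((∑' LY : List BY, if HT hY LY = n then LW ΛY LY * (if P LX LY then 1 else 0) else 0)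
            * U ΛY hY N) else 0 := by
    intro LX
    by_cases h : HT hX LX = n
    · rw [if_pos h, if_pos h, mul_assoc]
    · rw [if_neg h, if_neg h, zero_mul]
  simp only [e1]
  refine ext_one ΛX hX h1X n N _ _ ?_
  intro LX RX hLX _
  refine ext_one ΛY hY h1Y n N _ _ ?_
  intro LY RY hLY _
  by_cases h : P LX LY
  · rw [if_pos h, if_pos (hP LX LY RX RY hLX hLY h)]
  · rw [if_neg h]; exact zero_le

end Crest.Agent.R154.Ext583
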