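import Crest.Agent.R154.FP_178
import Crest.Agent.R154.Ext_583
import Crest.Agent.R154.Dens_616

/-! Row 154, ROAD 801 (helper990): assembly, part A (lists, first passages, pieces). -/

set_option autoImplicit false

namespace Crest.Agent.R154.Asm990

open scoped ENNReal
open Crest.Agent.R154.B5A Crest.Agent.R154.FP178

variable {B G : Type*} [AddCommGroup G]

/-- displacement -/
def Dp (z : B → G) (L : List B) : G := (L.map z).sum

/-- trace of a list placed with its top at `(x, a)` -/
def TX (h : B → ℕ) (z : B → G) (s : B → Set (G × ℕ)) : List B → G → ℕ → Set (G × ℕ)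
  | [], _, _ => ∅
  | b :: L, x, a => {p | ∃ q ∈ s b, p = (x + q.1, a + q.2)} ∪ TX h z s L (x + z b) (a + h b)

variable (Λ : B → ℝ≥0∞) (h : B → ℕ) (z : B → G) (s : B → Set (G × ℕ))

lemma Dp_nil : Dp z [] = 0 := rfl

lemma Dp_cons (b : B) (L : List B) : Dp z (b :: L) = z b + Dp z L := by simp [Dp]

lemma Dp_append (L L' : List B) : Dp z (L ++ L') = Dp z L + Dp z L' := by simp [Dp]

lemma TX_append (L L' : List B) (x : G) (a : ℕ) :
    TX h z s (L ++ L') x a = TX h z s L x a ∪ TX h z s L' (x + Dp z L) (a + HT h L) := by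
  induction L generalizing x a with
  | nil => simp [TX, Dp_nil, HT_nil]
  | cons b L ih =>
    simp only [List.cons_append, TX]
    rw [ih, Set.union_assoc, Dp_cons, HT_cons, add_assoc, add_assoc]

lemma TX_depth (hs : ∀ b p, p ∈ s b → 1 ≤ p.2 ∧ p.2 ≤ h b) (L : List B) (x : G) (a : ℕ)
    (y : G) (k : ℕ) (hk : (y, k) ∈ TX h z s L x a) : a < k ∧ k ≤ a + HT h L := by
  induction L generalizing x a with
  | nil => simp [TX] at hk
  | cons b L ih =>
    rw [HT_cons]
    rcases hk with ⟨q, hq, he⟩ | hk
    · have := hs b q hq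
      have e2 : k = a + q.2 := congrArg Prod.snd he
      omega
    · have := ih _ _ hk; omega

lemma TX_shift (L : List B) (x c : G) (a : ℕ) (y : G) (k : ℕ) :
    (y, k) ∈ TX h z s L x a ↔ (y + c, k) ∈ TX h z s L (x + c) a := by
  induction L generalizing x a with
  | nil => simp [TX]
  | cons b L ih =>
    simp only [TX, Set.mem_union, Set.mem_setOf_eq, Prod.mk.injEq]
    rw [ih (x + z b) (a + h b), add_right_comm x (z b) c]
    refine or_congr ?_ Iff.rfl
    refine exists_congr fun q => and_congr Iff.rfl (and_congr ?_ Iff.rfl)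
    constructor
    · rintro rfl; abel
    · intro e
      have : y + c = (x + q.1) + c := by rw [e]; abel
      exact add_right_cancel this

lemma fiber {α κ : Type*} (key : α → κ) (F : α → ℝ≥0∞) :
    ∑' a, F a = ∑' k, ∑' a, (open Classical in if key a = k then F a else 0) := by
  classical
  rw [ENNReal.tsum_comm]
  refine tsum_congr fun a => ?_
  rw [tsum_eq_single (key a)]
  · simp
  · intro k hk; rw [if_neg (fun e => hk e.symm)]

open Classical in
lemma sum_FP_eq (h1 : ∀ b, 1 ≤ h b) (hΛ : ∑' b, Λ b = 1) (a : ℕ) :
    ∑' L, (if fp h a L then LW Λ L else 0) = 1 := by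
  induction a using Nat.strong_induction_on with
  | _ a ih =>
    rcases Nat.eq_zero_or_pos a with rfl | ha
    · have := sum_fp_zero Λ h (fun _ => 1)
      simp only [mul_one] at this
      exact this
    · have := sum_fp_step Λ h a ha (fun _ => 1)
      simp only [mul_one] at this
      rw [this]
      rw [← hΛ]
      refine tsum_congr fun b => ?_
      rw [ih (a - h b) (by have := h1 b; omega), mul_one]

open Classical in
lemma sum_HT_le (hU1 : ∀ n, U Λ h n ≤ 1) (A : List B) (n : ℕ) (Φ : List B → ℝ≥0∞)
    (hΦ : ∀ L, Φ L ≤ 1) :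
    ∑' L, LW Λ L * (if HT h (A ++ L) = n then Φ L else 0) ≤ 1 := by
  by_cases hA : HT h A ≤ n
  · refine le_trans ?_ (hU1 (n - HT h A))
    rw [U]
    refine ENNReal.tsum_le_tsum fun L => ?_
    rw [HT_append]
    by_cases e : HT h L = n - HT h A
    · rw [if_pos e]
      calc _ ≤ LW Λ L * 1 := by
            gcongr
            split_ifs
            · exact hΦ L
            · exact zero_le
        _ = _ := mul_one _
    · rw [if_neg (by omega), if_neg e, mul_zero]
  · refine le_trans (le_of_eq ?_) zero_le_one
    rw [ENNReal.tsum_eq_zero]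
    intro L
    rw [HT_append, if_neg (by omega), mul_zero]

open Classical in
/-- one walker: decomposition in top / piece / rest -/
theorem walk1 (h1 : ∀ b, 1 ≤ h b) (hΛ : ∑' b, Λ b ≤ 1) (hU1 : ∀ n, U Λ h n ≤ 1) (i0 : ℕ)
    (e : ℝ≥0∞) (he : ∀ a, ∑' L, (if fp h a L ∧ a + i0 < HT h L then LW Λ L else 0) ≤ e)
    (D T n : ℕ) (hn : D + i0 + T ≤ n) (Φ : List B → ℝ≥0∞) (hΦ1 : ∀ L, Φ L ≤ 1)
    (Φ' : List B → List B → ℝ≥0∞)
    (hΦ : ∀ A P R, fp h D A → HT h A ≤ D + i0 → fp h T P → HT h P ≤ T + i0 →
      HT h (A ++ (P ++ R)) = n → Φ (A ++ (P ++ R)) ≤ Φ' A P) :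
    ∑' L, (if HT h L = n then LW Λ L * Φ L else 0) ≤
      2 * e + ∑' A, ∑' P, (if (fp h D A ∧ HT h A ≤ D + i0) ∧ (fp h T P ∧ HT h P ≤ T + i0) then
        LW Λ A * (LW Λ P * Φ' A P) else 0) := by
  set f : List B → ℝ≥0∞ := fun L => if HT h L = n then Φ L else 0 with hf
  have e1 : ∑' L, (if HT h L = n then LW Λ L * Φ L else 0)
      = ∑' L, (if D ≤ HT h L then LW Λ L * f L else 0) := by
    refine tsum_congr fun L => ?_
    by_cases hL : HT h L = n
    · rw [if_pos hL, if_pos (by omega), hf]; simp only [hL, if_true]
    · rw [if_neg hL]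
      split_ifs
      · rw [hf]; simp only [hL, if_false, mul_zero]
      · rfl
  rw [e1, split Λ h h1 D f]
  -- bound for each `A`
  have key : ∀ A : List B, fp h D A → HT h A ≤ D + i0 →
      ∑' L2, LW Λ L2 * f (A ++ L2) ≤ e + ∑' P, (if fp h T P ∧ HT h P ≤ T + i0 then
        LW Λ P * Φ' A P else 0) := by
    intro A hA hA2
    have e2 : ∑' L2, LW Λ L2 * f (A ++ L2)
        = ∑' L2, (if T ≤ HT h L2 then LW Λ L2 * f (A ++ L2) else 0) := by
      refine tsum_congr fun L2 => ?_
      by_cases hT : T ≤ HT h L2
      · rw [if_pos hT]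
      · rw [if_neg hT, hf]
        simp only
        rw [HT_append, if_neg (by omega), mul_zero]
    rw [e2, split Λ h h1 T (fun L2 => f (A ++ L2))]
    calc ∑' P, (if fp h T P then LW Λ P * ∑' R, LW Λ R * f (A ++ (P ++ R)) else 0)
        ≤ ∑' P, ((if fp h T P ∧ T + i0 < HT h P then LW Λ P else 0)
            + (if fp h T P ∧ HT h P ≤ T + i0 then LW Λ P * Φ' A P else 0)) := by
          refine ENNReal.tsum_le_tsum fun P => ?_
          by_cases hP : fp h T P
          · rw [if_pos hP]
            by_cases hP2 : HT h P ≤ T + i0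
            · rw [if_pos (show fp h T P ∧ HT h P ≤ T + i0 from ⟨hP, hP2⟩)]
              refine le_add_left ?_
              gcongr
              calc ∑' R, LW Λ R * f (A ++ (P ++ R))
                  ≤ ∑' R, LW Λ R * (if HT h ((A ++ P) ++ R) = n then 1 else 0) * Φ' A P := by
                    refine ENNReal.tsum_le_tsum fun R => ?_
                    rw [hf]
                    simp only
                    rw [List.append_assoc]
                    by_cases hR : HT h (A ++ (P ++ R)) = n
                    · rw [if_pos hR, if_pos hR, mul_one]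
                      gcongr
                      exact hΦ A P R hA hA2 hP hP2 hR
                    · rw [if_neg hR, if_neg hR, mul_zero, zero_mul]
                _ = (∑' R, LW Λ R * (if HT h ((A ++ P) ++ R) = n then 1 else 0)) * Φ' A P :=
                    ENNReal.tsum_mul_right
                _ ≤ 1 * Φ' A P := by
                    gcongr
                    exact sum_HT_le Λ h hU1 (A ++ P) n (fun _ => 1) (fun _ => le_rfl)
                _ = Φ' A P := one_mul _
            · rw [if_pos (show fp h T P ∧ T + i0 < HT h P from ⟨hP, by omega⟩)]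
              refine le_add_right ?_
              calc LW Λ P * ∑' R, LW Λ R * f (A ++ (P ++ R)) ≤ LW Λ P * 1 := by
                    gcongr
                    have := sum_HT_le Λ h hU1 (A ++ P) n (fun R => Φ (A ++ (P ++ R)))
                      (fun R => hΦ1 _)
                    refine le_trans (le_of_eq ?_) this
                    refine tsum_congr fun R => ?_
                    rw [hf]
                    simp only
                    rw [List.append_assoc]
                _ = LW Λ P := mul_one _
          · rw [if_neg hP]; exact zero_le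
      _ = (∑' P, (if fp h T P ∧ T + i0 < HT h P then LW Λ P else 0))
            + ∑' P, (if fp h T P ∧ HT h P ≤ T + i0 then LW Λ P * Φ' A P else 0) :=
          ENNReal.tsum_add
      _ ≤ _ := by gcongr; exact he T
  calc ∑' A, (if fp h D A then LW Λ A * ∑' L2, LW Λ L2 * f (A ++ L2) else 0)
      ≤ ∑' A, ((if fp h D A ∧ D + i0 < HT h A then LW Λ A else 0)
          + ((if fp h D A then LW Λ A else 0) * e
            + ∑' P, (if (fp h D A ∧ HT h A ≤ D + i0) ∧ (fp h T P ∧ HT h P ≤ T + i0) then
              LW Λ A * (LW Λ P * Φ' A P) else 0))) := by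
        refine ENNReal.tsum_le_tsum fun A => ?_
        by_cases hA : fp h D A
        · rw [if_pos hA, if_pos hA]
          by_cases hA2 : HT h A ≤ D + i0
          · refine le_add_left ?_
            calc LW Λ A * ∑' L2, LW Λ L2 * f (A ++ L2)
                ≤ LW Λ A * (e + ∑' P, (if fp h T P ∧ HT h P ≤ T + i0 then
                    LW Λ P * Φ' A P else 0)) := by gcongr; exact key A hA hA2
              _ = LW Λ A * e + ∑' P, LW Λ A * (if fp h T P ∧ HT h P ≤ T + i0 then
                    LW Λ P * Φ' A P else 0) := by rw [mul_add, ENNReal.tsum_mul_left]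
              _ = _ := by
                  congr 1
                  refine tsum_congr fun P => ?_
                  by_cases hP : fp h T P ∧ HT h P ≤ T + i0
                  · rw [if_pos hP, if_pos ⟨⟨hA, hA2⟩, hP⟩]
                  · rw [if_neg hP, if_neg (fun hh => hP hh.2), mul_zero]
          · rw [if_pos (show fp h D A ∧ D + i0 < HT h A from ⟨hA, by omega⟩)]
            refine le_add_right ?_
            calc LW Λ A * ∑' L2, LW Λ L2 * f (A ++ L2) ≤ LW Λ A * 1 := by
                  gcongr
                  have := sum_HT_le Λ h hU1 A n (fun R => Φ (A ++ R)) (fun R => hΦ1 _)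
                  exact this
              _ = LW Λ A := mul_one _
        · rw [if_neg hA]; exact zero_le
    _ = (∑' A, (if fp h D A ∧ D + i0 < HT h A then LW Λ A else 0))
          + ((∑' A, (if fp h D A then LW Λ A else 0)) * e
            + ∑' A, ∑' P, (if (fp h D A ∧ HT h A ≤ D + i0) ∧ (fp h T P ∧ HT h P ≤ T + i0) then
              LW Λ A * (LW Λ P * Φ' A P) else 0)) := by
        rw [ENNReal.tsum_add, ENNReal.tsum_add, ENNReal.tsum_mul_right]
    _ ≤ e + (1 * e + _) := by
        gcongr
        · exact he D
        · exact sum_FP Λ h h1 hΛ D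
    _ = _ := by rw [← add_assoc, one_mul, two_mul]

end Crest.Agent.R154.Asm990
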