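import Crest.Agent.R154.B5Abs_566

/-! Row 154, ROAD 801, assembly part A (helper999): density of sums of pieces, window term. -/

set_option autoImplicit false

namespace Crest.Agent.R154.Asm999

open scoped ENNReal
open Crest.Agent.R154.B5A

section SLtools
variable {B : Type*} (Λ : B → ℝ≥0∞)

lemma SL_tsum {ι : Type*} (j : ℕ) (F : ι → List B → ℝ≥0∞) :
    ∑' i, SL Λ j (F i) = SL Λ j (fun L => ∑' i, F i L) := by
  unfold SL
  rw [ENNReal.tsum_comm]
  refine tsum_congr fun L => ?_
  by_cases h : L.length = j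
  · simp [h, ENNReal.tsum_mul_left]
  · simp [h]

lemma SL_mul_const (j : ℕ) (a : ℝ≥0∞) (F : List B → ℝ≥0∞) :
    SL Λ j (fun L => F L * a) = SL Λ j F * a := by
  simp_rw [mul_comm _ a]
  exact SL_const_mul Λ j a F

lemma SL_le_one (hΛ : ∑' b, Λ b ≤ 1) (j : ℕ) : SL Λ j (fun _ => 1) ≤ 1 := by
  rw [SL_pow]
  exact pow_le_one₀ zero_le hΛ

lemma SL_const_le (hΛ : ∑' b, Λ b ≤ 1) (j : ℕ) (a : ℝ≥0∞) : SL Λ j (fun _ => a) ≤ a := by
  have := SL_const_mul Λ j a (fun _ => 1)
  simp only [mul_one] at this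
  rw [this]
  calc a * SL Λ j (fun _ => 1) ≤ a * 1 := by gcongr; exact SL_le_one Λ hΛ j
    _ = a := mul_one a

lemma SL_mono' (j : ℕ) {F F' : List B → ℝ≥0∞}
    (h : ∀ L, L.length = j → (∀ b ∈ L, Λ b ≠ 0) → F L ≤ F' L) : SL Λ j F ≤ SL Λ j F' := by
  refine ENNReal.tsum_le_tsum fun L => ?_
  by_cases hL : L.length = j
  · simp only [hL, if_true]
    by_cases h0 : ∀ b ∈ L, Λ b ≠ 0
    · exact mul_le_mul_right (h L hL h0) _
    · push Not at h0
      obtain ⟨b, hb, hb0⟩ := h0
      have : LW Λ L = 0 := by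
        unfold LW
        exact List.prod_eq_zero (List.mem_map.2 ⟨b, hb, hb0⟩)
      rw [this, zero_mul, zero_mul]
  · simp [hL]

end SLtools

section conv
variable {α S : Type*} [AddCancelCommMonoid S] (Λ : α → ℝ≥0∞) (g : α → S)

open Classical in
/-- density of a sum of `j` pieces one of which is small -/
lemma conv (hΛ : ∑' a, Λ a ≤ 1) (Sm : α → Prop) (th q : ℝ≥0∞)
    (hSm : ∀ s, ∑' a, (if Sm a ∧ g a = s then Λ a else 0) ≤ th)
    (hq : ∑' a, (if Sm a then 0 else Λ a) ≤ q) (j : ℕ) (s : S) :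
    SL Λ j (fun L => if (L.map g).sum = s ∧ ∃ a ∈ L, Sm a then 1 else 0)
      ≤ th * ∑ l ∈ Finset.range j, q ^ l := by
  induction j generalizing s with
  | zero => rw [SL_zero]; simp
  | succ j ih =>
    rw [SL_succ]
    set R := th * ∑ l ∈ Finset.range j, q ^ l with hR
    have key : ∀ b, Λ b * SL Λ j (fun L => if ((b :: L).map g).sum = s ∧ ∃ a ∈ b :: L, Sm a
        then 1 else 0) ≤ SL Λ j (fun L => if Sm b ∧ g b + (L.map g).sum = s then Λ b else 0)
          + (if Sm b then 0 else Λ b) * R := by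
      intro b
      by_cases hb : Sm b
      · refine le_add_right ?_
        rw [← SL_const_mul]
        refine SL_mono Λ j fun L _ => ?_
        simp only [List.map_cons, List.sum_cons, hb, true_and]
        split_ifs <;> simp_all
      · refine le_add_left ?_
        rw [if_neg hb]
        refine mul_le_mul_right ?_ _
        by_cases hex : ∃ L0 : List α, g b + (L0.map g).sum = s
        · obtain ⟨L0, hL0⟩ := hex
          refine le_trans (SL_mono Λ j fun L _ => ?_) (ih (L0.map g).sum)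
          simp only [List.map_cons, List.sum_cons, List.mem_cons, exists_eq_or_imp, hb, false_or]
          by_cases h1 : (L.map g).sum = (L0.map g).sum
          · rw [h1]; simp [hL0]
          · rw [if_neg]
            · exact zero_le
            · rintro ⟨h2, _⟩
              exact h1 (add_left_cancel (h2.trans hL0.symm))
        · refine le_trans (le_of_eq ?_) zero_le
          push Not at hex
          have : (fun L : List α => if ((b :: L).map g).sum = s ∧ ∃ a ∈ b :: L, Sm a
              then (1 : ℝ≥0∞) else 0) = fun _ => 0 := by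
            funext L
            rw [if_neg]
            rintro ⟨h2, _⟩
            exact hex L (by simpa using h2)
          rw [this]
          simp [SL]
    refine (ENNReal.tsum_le_tsum key).trans ?_
    rw [ENNReal.tsum_add, SL_tsum, ENNReal.tsum_mul_right]
    have h1 : SL Λ j (fun L => ∑' b, (if Sm b ∧ g b + (L.map g).sum = s then Λ b else 0)) ≤ th := by
      refine (SL_mono Λ j fun L _ => ?_).trans (SL_const_le Λ hΛ j th)
      by_cases hex : ∃ b0, g b0 + (L.map g).sum = s
      · obtain ⟨b0, hb0⟩ := hex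
        refine le_trans (ENNReal.tsum_le_tsum fun b => ?_) (hSm (g b0))
        by_cases h : Sm b ∧ g b + (L.map g).sum = s
        · rw [if_pos h, if_pos ⟨h.1, add_right_cancel (h.2.trans hb0.symm)⟩]
        · rw [if_neg h]; exact zero_le
      · push Not at hex
        have : ∀ b, (if Sm b ∧ g b + (L.map g).sum = s then Λ b else 0) = 0 := fun b =>
          if_neg fun h => hex b h.2
        simp only [this, tsum_zero]
        exact zero_le
    calc _ ≤ th + q * R := add_le_add h1 (by gcongr)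
      _ = th * ∑ l ∈ Finset.range (j + 1), q ^ l := by
        rw [Finset.sum_range_succ', hR, pow_zero, mul_add, mul_one, add_comm]
        congr 1
        simp_rw [pow_succ]
        rw [← Finset.sum_mul]
        ring

open Classical in
lemma nosmall (Sm : α → Prop) (q : ℝ≥0∞) (hq : ∑' a, (if Sm a then 0 else Λ a) ≤ q) (j : ℕ) :
    SL Λ j (fun L => if ∃ a ∈ L, Sm a then 0 else 1) ≤ q ^ j := by
  induction j with
  | zero => rw [SL_zero]; simp
  | succ j ih =>
    rw [SL_succ, pow_succ]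
    have : ∀ b, Λ b * SL Λ j (fun L => if ∃ a ∈ b :: L, Sm a then 0 else 1)
        ≤ (if Sm b then 0 else Λ b) * q ^ j := by
      intro b
      by_cases hb : Sm b
      · have h0 : (fun L : List α => if ∃ a ∈ b :: L, Sm a then (0 : ℝ≥0∞) else 1)
            = fun _ => 0 := by
          funext L
          rw [if_pos ⟨b, List.mem_cons_self, hb⟩]
        rw [h0]
        simp [SL]
      · rw [if_neg hb]
        refine mul_le_mul_right (le_trans (SL_mono Λ j fun L _ => ?_) ih) _
        simp only [List.mem_cons, exists_eq_or_imp, hb, false_or]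
        exact le_rfl
    refine (ENNReal.tsum_le_tsum this).trans ?_
    rw [ENNReal.tsum_mul_right, mul_comm]
    gcongr

end conv

section term
variable {α β G : Type*} [AddCommGroup G]

lemma sum_pair (hA : α → ℕ) (zA : α → G) (L : List α) :
    (L.map fun a => (hA a, zA a)).sum = ((L.map hA).sum, (L.map zA).sum) := by
  induction L with
  | nil => rfl
  | cons b L ih => simp only [List.map_cons, List.sum_cons, ih, Prod.mk_add_mk]

open Classical in
/-- window term, local walker = `α` -/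
theorem term (ΛA : α → ℝ≥0∞) (ΛB : β → ℝ≥0∞) (hA : α → ℕ) (zA : α → G) (hB : β → ℕ)
    (hΛA : ∑' a, ΛA a ≤ 1) (T i0 j : ℕ)
    (hA1 : ∀ a, ΛA a ≠ 0 → T ≤ hA a ∧ hA a ≤ T + i0)
    (hB1 : ∀ b, ΛB b ≠ 0 → T ≤ hB b ∧ hB b ≤ T + i0)
    (θ th q : ℝ≥0∞) (hθ : θ ≠ 0)
    (loc Sm : α → Prop)
    (hloc : ∀ a, loc a → θ ≤ ∑' a', (if hA a' = hA a ∧ zA a' = zA a then ΛA a' else 0))
    (hSm : ∀ s : ℕ × G, ∑' a, (if Sm a ∧ (hA a, zA a) = s then ΛA a else 0) ≤ th)
    (hq : ∑' a, (if Sm a then 0 else ΛA a) ≤ q)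
    (P : α → β → G → ℕ → Prop) (σ : G ≃ G) (R : ℝ≥0∞)
    (Hwin : ∀ c h h' : ℕ, j * T ≤ c → c ≤ j * T + j * i0 → T ≤ h → h ≤ T + i0 → T ≤ h' →
      h' ≤ T + i0 → ∀ (E : Finset G) (μ : G → ℝ≥0∞),
      (E.card : ℝ≥0∞) * θ ≤ 1 → ∑' x, μ x ≤ 1 → (∀ x, μ x ≤ th * ∑ l ∈ Finset.range j, q ^ l) →
      ∑' x, μ x * ∑' V, ∑' V', (if hA V = h ∧ zA V ∈ E ∧ hB V' = h' ∧ P V V' x c
        then ΛA V * ΛB V' else 0) ≤ R) :
    SL ΛA j (fun L => (if ∃ a ∈ L, Sm a then 1 else 0) * ∑' V, ∑' V',
        (if loc V ∧ P V V' (σ (L.map zA).sum) (L.map hA).sum then ΛA V * ΛB V' else 0))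
      ≤ ((j * i0 + 1 : ℕ) : ℝ≥0∞) * (((i0 + 1 : ℕ) : ℝ≥0∞) * ((i0 + 1 : ℕ) : ℝ≥0∞) * R) := by
  set f : List α → ℝ≥0∞ := fun L => if ∃ a ∈ L, Sm a then 1 else 0 with hf
  set Φ : G → ℕ → ℝ≥0∞ := fun x c => ∑' V, ∑' V',
        (if loc V ∧ P V V' x c then ΛA V * ΛB V' else 0) with hΦ
  set m : ℕ → G → ℝ≥0∞ := fun c z => SL ΛA j (fun L => if (L.map hA).sum = c ∧ (L.map zA).sum = z
    then f L else 0) with hm
  have hf1 : ∀ L, f L ≤ 1 := fun L => by simp only [hf]; split_ifs <;> simp
  -- step A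
  have hAeq : SL ΛA j (fun L => f L * Φ (σ (L.map zA).sum) (L.map hA).sum)
      = ∑' c, ∑' z, m c z * Φ (σ z) c := by
    have : ∀ c z, m c z * Φ (σ z) c = SL ΛA j (fun L => (if (L.map hA).sum = c ∧
        (L.map zA).sum = z then f L else 0) * Φ (σ z) c) := fun c z => by rw [SL_mul_const]
    simp_rw [this, SL_tsum]
    refine SL_congr ΛA j fun L _ => ?_
    rw [tsum_eq_single (L.map hA).sum, tsum_eq_single (L.map zA).sum]
    · simp
    · intro z hz
      rw [if_neg (fun h => hz h.2.symm), zero_mul]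
    · intro c hc
      rw [ENNReal.tsum_eq_zero]
      intro z
      rw [if_neg (fun h => hc h.1.symm), zero_mul]
  have hm0 : ∀ c, c ∉ Finset.Icc (j * T) (j * T + j * i0) → ∀ z, m c z = 0 := by
    intro c hc z
    refine le_antisymm ?_ zero_le
    refine (SL_mono' ΛA j (F' := fun _ => 0) fun L hL hL0 => ?_).trans (by simp [SL])
    rw [if_neg]
    rintro ⟨h1, -⟩
    apply hc
    rw [← h1, Finset.mem_Icc]
    clear h1 hc
    have : ∀ L : List α, (∀ b ∈ L, ΛA b ≠ 0) → L.length * T ≤ (L.map hA).sum ∧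
        (L.map hA).sum ≤ L.length * T + L.length * i0 := by
      intro L
      induction L with
      | nil => intro _; simp
      | cons b L ih =>
        intro h
        have h2 := ih fun b hb => h b (List.mem_cons_of_mem _ hb)
        have h3 := hA1 b (h b List.mem_cons_self)
        simp only [List.map_cons, List.sum_cons, List.length_cons]
        constructor <;> nlinarith
    have h4 := this L hL0
    rw [hL] at h4
    exact h4
  have hm1 : ∀ c, ∑' z, m c z ≤ 1 := by
    intro c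
    rw [hm, SL_tsum]
    refine (SL_mono ΛA j fun L _ => ?_).trans (SL_le_one ΛA hΛA j)
    rw [tsum_eq_single (L.map zA).sum]
    · split_ifs
      · exact hf1 L
      · exact zero_le
    · intro z hz
      rw [if_neg (fun h => hz h.2.symm)]
  have hmM : ∀ c z, m c z ≤ th * ∑ l ∈ Finset.range j, q ^ l := by
    intro c z
    refine le_trans (SL_mono ΛA j fun L _ => ?_)
      (conv ΛA (fun a => (hA a, zA a)) hΛA Sm th q (fun s => by convert hSm s) hq j (c, z))
    have e1 := sum_pair hA zA L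
    simp only [e1, hf, Prod.mk.injEq]
    by_cases h1 : (L.map hA).sum = c ∧ (L.map zA).sum = z
    · simp [h1]
    · simp [h1]
  rw [hAeq, tsum_eq_sum (s := Finset.Icc (j * T) (j * T + j * i0))
    (fun c hc => by simp [hm0 c hc])]
  have hcard : (Finset.Icc (j * T) (j * T + j * i0)).card = j * i0 + 1 := by
    rw [Nat.card_Icc]; omega
  refine (Finset.sum_le_card_nsmul _ _ (((i0 + 1 : ℕ) : ℝ≥0∞) * ((i0 + 1 : ℕ) : ℝ≥0∞) * R)
    fun c hc => ?_).trans (by rw [hcard, nsmul_eq_mul])
  rw [Finset.mem_Icc] at hc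
  -- step C
  have hpA : ∀ h : ℕ, ∑' z, (∑' a', (if hA a' = h ∧ zA a' = z then ΛA a' else 0)) ≤ 1 := by
    intro h
    rw [ENNReal.tsum_comm]
    refine (ENNReal.tsum_le_tsum fun a => ?_).trans hΛA
    rw [tsum_eq_single (zA a)]
    · split_ifs
      · exact le_rfl
      · exact zero_le
    · intro z hz
      rw [if_neg (fun h => hz h.2.symm)]
  have hfin : ∀ h : ℕ, {z | θ ≤ ∑' a', (if hA a' = h ∧ zA a' = z then ΛA a' else 0)}.Finite :=
    fun h => ENNReal.finite_const_le_of_tsum_ne_top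
      (ne_top_of_le_ne_top ENNReal.one_ne_top (hpA h)) hθ
  set E : ℕ → Finset G := fun h => (hfin h).toFinset with hE
  have hEc : ∀ h, ((E h).card : ℝ≥0∞) * θ ≤ 1 := by
    intro h
    calc ((E h).card : ℝ≥0∞) * θ = ∑ _z ∈ E h, θ := by simp
      _ ≤ ∑ z ∈ E h, ∑' a', (if hA a' = h ∧ zA a' = z then ΛA a' else 0) :=
        Finset.sum_le_sum fun z hz => by
          rw [hE, Set.Finite.mem_toFinset] at hz
          exact hz
      _ ≤ _ := (ENNReal.sum_le_tsum _).trans (hpA h)
  rw [← σ.symm.tsum_eq (fun z => m c z * Φ (σ z) c)]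
  simp only [Equiv.apply_symm_apply]
  have hΦle : ∀ x, Φ x c ≤ ∑ h ∈ Finset.Icc T (T + i0), ∑ h' ∈ Finset.Icc T (T + i0),
      ∑' V, ∑' V', (if hA V = h ∧ zA V ∈ E h ∧ hB V' = h' ∧ P V V' x c
        then ΛA V * ΛB V' else 0) := by
    intro x
    simp_rw [← Summable.tsum_finsetSum (fun _ _ => ENNReal.summable)]
    refine ENNReal.tsum_le_tsum fun V => ENNReal.tsum_le_tsum fun V' => ?_
    by_cases h : loc V ∧ P V V' x c
    · rw [if_pos h]
      by_cases h0 : ΛA V * ΛB V' = 0
      · rw [h0]; exact zero_le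
      · have hV : ΛA V ≠ 0 := fun h1 => h0 (by rw [h1, zero_mul])
        have hV' : ΛB V' ≠ 0 := fun h1 => h0 (by rw [h1, mul_zero])
        have g1 := hA1 V hV
        have g2 := hB1 V' hV'
        refine le_trans ?_ (Finset.single_le_sum (f := fun h => ∑ h' ∈ Finset.Icc T (T + i0),
          (if hA V = h ∧ zA V ∈ E h ∧ hB V' = h' ∧ P V V' x c then ΛA V * ΛB V' else 0))
          (fun _ _ => zero_le) (Finset.mem_Icc.2 g1))
        refine le_trans ?_ (Finset.single_le_sum (f := fun h' =>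
          (if hA V = hA V ∧ zA V ∈ E (hA V) ∧ hB V' = h' ∧ P V V' x c then ΛA V * ΛB V' else 0))
          (fun _ _ => zero_le) (Finset.mem_Icc.2 g2))
        rw [if_pos]
        refine ⟨rfl, ?_, rfl, h.2⟩
        rw [hE, Set.Finite.mem_toFinset]
        exact hloc V h.1
    · rw [if_neg h]; exact zero_le
  calc ∑' x, m c (σ.symm x) * Φ x c
      ≤ ∑' x, m c (σ.symm x) * ∑ h ∈ Finset.Icc T (T + i0), ∑ h' ∈ Finset.Icc T (T + i0),
      ∑' V, ∑' V', (if hA V = h ∧ zA V ∈ E h ∧ hB V' = h' ∧ P V V' x c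
        then ΛA V * ΛB V' else 0) := ENNReal.tsum_le_tsum fun x => mul_le_mul_right (hΦle x) _
    _ = ∑ h ∈ Finset.Icc T (T + i0), ∑ h' ∈ Finset.Icc T (T + i0), ∑' x, m c (σ.symm x) *
      ∑' V, ∑' V', (if hA V = h ∧ zA V ∈ E h ∧ hB V' = h' ∧ P V V' x c
        then ΛA V * ΛB V' else 0) := by
        simp_rw [Finset.mul_sum]
        rw [Summable.tsum_finsetSum (fun _ _ => ENNReal.summable)]
        refine Finset.sum_congr rfl fun h _ => ?_
        rw [Summable.tsum_finsetSum (fun _ _ => ENNReal.summable)]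
    _ ≤ ∑ _h ∈ Finset.Icc T (T + i0), ∑ _h' ∈ Finset.Icc T (T + i0), R := by
        refine Finset.sum_le_sum fun h hh => Finset.sum_le_sum fun h' hh' => ?_
        rw [Finset.mem_Icc] at hh hh'
        refine Hwin c h h' hc.1 hc.2 hh.1 hh.2 hh'.1 hh'.2 (E h) (fun x => m c (σ.symm x)) (hEc h)
          ?_ (fun x => hmM _ _)
        rw [σ.symm.tsum_eq (fun z => m c z)]
        exact hm1 c
    _ = _ := by
        rw [Finset.sum_const, Finset.sum_const, Nat.card_Icc,
          show T + i0 + 1 - T = i0 + 1 by omega, nsmul_eq_mul, nsmul_eq_mul]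
        ring

end term

end Crest.Agent.R154.Asm999
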