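import Crest.Agent.R154.AsmA_10

/-! Row 154, ROAD 801, abstract assembly, part B (helper10): overshoot, quantile, density. -/

set_option autoImplicit false

namespace Crest.Agent.R154.Asm10

open scoped ENNReal Topology
open Filter Crest.Agent.R154.B5A

section One

variable {B : Type*} (Λ : B → ℝ≥0∞) (ht : B → ℕ)

lemma mass_fp_ge (h1 : ∀ b, 1 ≤ ht b) (hΛ : ∑' b, Λ b = 1) (T : ℕ) :
    1 ≤ ∑' P : Pc ht T, LP Λ ht T P := by
  classical
  have h0 := SL_one Λ hΛ (T + 1)
  rw [SL] at h0
  have h2 : ∑' L : List B, (if L.length = T + 1 then LW Λ L else 0) = 1 := by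
    rw [← h0]; exact tsum_congr fun L => by split_ifs <;> simp
  rw [← h2]
  refine (peel ht T (fun L : List B => if L.length = T + 1 then LW Λ L else 0) ?_).trans ?_
  · intro L hL
    have := length_le_HT ht h1 L
    exact if_neg (by omega)
  · refine ENNReal.tsum_le_tsum fun P => ?_
    have hl := fp_length ht h1 T P.1 P.2
    have h3 := SL_one Λ hΛ (T + 1 - P.1.length)
    rw [SL] at h3
    rw [LP, ← mul_one (LW Λ P.1), ← h3, ← ENNReal.tsum_mul_left]
    refine le_of_eq (tsum_congr fun R => ?_)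
    rw [List.length_append, LW_append]
    by_cases h : R.length = T + 1 - P.1.length
    · rw [if_pos h, if_pos (by omega), mul_one]
    · rw [if_neg h, if_neg (by omega), mul_zero]

lemma mass_fp_eq (h1 : ∀ b, 1 ≤ ht b) (hΛ : ∑' b, Λ b = 1) (T : ℕ) :
    ∑' P : Pc ht T, LP Λ ht T P = 1 :=
  le_antisymm (mass_fp Λ ht h1 hΛ T) (mass_fp_ge Λ ht h1 hΛ T)

lemma ov_le (hU1 : ∀ n, U Λ ht n ≤ 1) (T i0 : ℕ) :
    ov Λ ht T i0 ≤ ∑' k, tail Λ ht (k + i0) := by
  classical
  have h1 : ov Λ ht T i0 = ∑' P : {P : Pc ht T // T + i0 < HP ht T P}, LP Λ ht T P.1 := by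
    rw [ov]
    rw [← tsum_subtype_eq_of_support_subset (s := {P : Pc ht T | T + i0 < HP ht T P})]
    · exact tsum_congr fun P => if_pos P.2
    · intro P hP
      by_contra hcon
      exact hP (if_neg hcon)
  have hch : ∀ P : {P : Pc ht T // T + i0 < HP ht T P},
      ∃ q : List B × B, q.1 ++ [q.2] = P.1.1 := by
    rintro ⟨⟨P, hP⟩, hP2⟩
    rcases List.eq_nil_or_concat P with h | ⟨L, b, h⟩
    · subst h
      simp [HP, HT_nil] at hP2
    · exact ⟨(L, b), by change L ++ [b] = P; rw [h, List.concat_eq_append]⟩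
  choose f hf using hch
  have hinj : Function.Injective f := by
    intro P P' h
    apply Subtype.ext
    apply Subtype.ext
    rw [← hf P, ← hf P', h]
  have hlt : ∀ P, HT ht (f P).1 < T := fun P => P.1.2.2 _ _ (hf P).symm (by simp)
  have h2 : ov Λ ht T i0 ≤ ∑' q : List B × B,
      (if HT ht q.1 < T ∧ T + i0 < HT ht q.1 + ht q.2 then LW Λ q.1 * Λ q.2 else 0) := by
    rw [h1]
    calc ∑' P : {P : Pc ht T // T + i0 < HP ht T P}, LP Λ ht T P.1
        = ∑' P : {P : Pc ht T // T + i0 < HP ht T P}, (fun q : List B × B =>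
          (if HT ht q.1 < T ∧ T + i0 < HT ht q.1 + ht q.2 then LW Λ q.1 * Λ q.2 else 0)) (f P) := by
          refine tsum_congr fun P => ?_
          have e := hf P
          have hh : HT ht (f P).1 + ht (f P).2 = HP ht T P.1 := by
            rw [HP, ← e, HT_append, HT_cons, HT_nil, add_zero]
          simp only
          rw [if_pos ⟨hlt P, by rw [hh]; exact P.2⟩, LP, ← e, LW_append, LW_cons, LW_nil, mul_one]
      _ ≤ _ := ENNReal.tsum_comp_le_tsum_of_injective hinj _
  refine h2.trans ?_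
  rw [ENNReal.tsum_prod']
  have h3 : ∀ L : List B, (∑' b, if HT ht L < T ∧ T + i0 < HT ht L + ht b then LW Λ L * Λ b else 0)
      ≤ ∑ j ∈ Finset.range T, (if HT ht L = j then LW Λ L else 0) * tail Λ ht (T - j + i0) := by
    intro L
    by_cases hL : HT ht L < T
    · rw [Finset.sum_eq_single (HT ht L)]
      · rw [if_pos rfl, tail, ← ENNReal.tsum_mul_left]
        refine ENNReal.tsum_le_tsum fun b => ?_
        by_cases hb : T + i0 < HT ht L + ht b
        · rw [if_pos ⟨hL, hb⟩, if_pos (by omega)]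
        · rw [if_neg (fun h => hb h.2)]; exact zero_le
      · intro j _ hj; rw [if_neg hj.symm, zero_mul]
      · intro h; exact absurd (Finset.mem_range.2 hL) h
    · have : ∀ b, ¬ (HT ht L < T ∧ T + i0 < HT ht L + ht b) := fun b h => hL h.1
      simp only [if_neg (this _), tsum_zero]; exact zero_le
  refine (ENNReal.tsum_le_tsum h3).trans ?_
  rw [Summable.tsum_finsetSum (fun _ _ => ENNReal.summable)]
  calc ∑ j ∈ Finset.range T, ∑' L : List B, (if HT ht L = j then LW Λ L else 0)
        * tail Λ ht (T - j + i0)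
      ≤ ∑ j ∈ Finset.range T, tail Λ ht (T - j + i0) := by
        refine Finset.sum_le_sum fun j _ => ?_
        rw [ENNReal.tsum_mul_right]
        calc _ ≤ 1 * tail Λ ht (T - j + i0) := mul_le_mul_left (hU1 j) _
          _ = _ := one_mul _
    _ = ∑ j ∈ Finset.range T, tail Λ ht (j + 1 + i0) := by
        rw [← Finset.sum_range_reflect]
        refine Finset.sum_congr rfl fun j hj => ?_
        have := Finset.mem_range.1 hj
        congr 1; omega
    _ ≤ ∑ j ∈ Finset.range (T + 1), tail Λ ht (j + i0) := by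
        rw [Finset.sum_range_succ']
        exact le_self_add
    _ ≤ ∑' k, tail Λ ht (k + i0) := ENNReal.sum_le_tsum _

lemma ov_small (hΛ : ∑' b, Λ b = 1) (hU1 : ∀ n, U Λ ht n ≤ 1)
    (hE : ∑' b, Λ b * (ht b : ℝ≥0∞) ≠ ⊤) {ε : ℝ≥0∞} (hε : ε ≠ 0) :
    ∃ I, ∀ i0, I ≤ i0 → ∀ T, ov Λ ht T i0 ≤ ε := by
  rw [sum_tail Λ ht hΛ] at hE
  have h := ENNReal.tendsto_sum_nat_add (fun k => tail Λ ht k) hE
  have h2 := (ENNReal.tendsto_nhds_zero.1 h) ε (pos_iff_ne_zero.2 hε)
  obtain ⟨I, hI⟩ := eventually_atTop.1 h2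
  exact ⟨I, fun i0 hi T => (ov_le Λ ht hU1 T i0).trans (hI i0 hi)⟩

/-- dyadic quantile -/
lemma quant {ι : Type*} (p : ι → ℝ≥0∞) {u : ℝ≥0∞} (hu : u ≠ 0) (hu1 : u ≤ 1)
    (hp : ∑' i, p i = 1) : ∃ θ : ℝ≥0∞, θ ≠ 0 ∧ θ ≤ 1 ∧
      (∑' i, if p i < θ then p i else 0) ≤ u ∧ u ≤ (∑' i, if p i < 2 * θ then p i else 0) := by
  classical
  have hex : ∃ k : ℕ, (∑' i, if p i < (2⁻¹ : ℝ≥0∞) ^ k then p i else 0) ≤ u := by
    have hsum : ∑' i, p i ≠ ⊤ := by rw [hp]; exact ENNReal.one_ne_top
    have h1 := ENNReal.tendsto_tsum_compl_atTop_zero hsum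
    have h2 := (ENNReal.tendsto_nhds_zero.1 h1) u (pos_iff_ne_zero.2 hu)
    obtain ⟨s, hs⟩ := (eventually_atTop.1 h2)
    have hs := hs s le_rfl
    have h3 : ∀ i ∈ s, ∃ k : ℕ, p i ≠ 0 → (2⁻¹ : ℝ≥0∞) ^ k ≤ p i := by
      intro i _
      by_cases hi : p i = 0
      · exact ⟨0, fun h => absurd hi h⟩
      · obtain ⟨k, hk⟩ := ENNReal.exists_inv_two_pow_lt hi
        exact ⟨k, fun _ => hk.le⟩
    choose! k hk using h3
    refine ⟨s.sup k, le_trans ?_ hs⟩
    have h4 : ∀ i, (if p i < (2⁻¹ : ℝ≥0∞) ^ (s.sup k) then p i else 0)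
        ≤ Set.indicator {x | x ∉ s} p i := by
      intro i
      by_cases hi : i ∈ s
      · by_cases h0 : p i = 0
        · simp [h0]
        · rw [if_neg]
          · exact zero_le
          · rw [not_lt]
            exact (pow_le_pow_right_of_le_one' (by norm_num) (Finset.le_sup hi)).trans (hk i hi h0)
      · rw [Set.indicator_of_mem (show i ∈ {x | x ∉ s} from hi)]
        split_ifs <;> simp
    calc _ ≤ ∑' i, Set.indicator {x | x ∉ s} p i := ENNReal.tsum_le_tsum h4
      _ = _ := (tsum_subtype {x | x ∉ s} p).symm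
      _ ≤ _ := le_rfl
  set k := Nat.find hex with hk
  have hk1 := Nat.find_spec hex
  have h2n : (2 : ℝ≥0∞) ≠ 0 := by norm_num
  have h2t : (2 : ℝ≥0∞) ≠ ⊤ := by norm_num
  refine ⟨(2⁻¹ : ℝ≥0∞) ^ k, pow_ne_zero _ (by norm_num), pow_le_one₀ zero_le (by norm_num), hk1, ?_⟩
  rcases Nat.eq_zero_or_pos k with h0 | hpos
  · rw [h0, pow_zero, mul_one]
    have hle : ∀ i, p i < 2 := fun i => by
      have : p i ≤ 1 := hp ▸ ENNReal.le_tsum i
      exact this.trans_lt (by norm_num)
    simp only [if_pos (hle _)]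
    rw [hp]; exact hu1
  · obtain ⟨k', hk'⟩ : ∃ k', k = k' + 1 := ⟨k - 1, by omega⟩
    have h5 := Nat.find_min hex (m := k') (by omega)
    rw [not_le] at h5
    rw [hk', pow_succ, mul_comm (2⁻¹ ^ k' : ℝ≥0∞), ← mul_assoc, ENNReal.mul_inv_cancel h2n h2t,
      one_mul]
    exact h5.le

end One

section Dens

variable {B : Type*} {G : Type*} [AddCommGroup G] (Λ : B → ℝ≥0∞) (z : B → G)

open Classical in
lemma dens (hΛ : ∑' b, Λ b = 1) (S : B → Prop) (M : ℝ≥0∞)
    (hM : ∀ x, ∑' b, (if S b ∧ z b = x then Λ b else 0) ≤ M) (j : ℕ) :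
    ∀ x, SL Λ j (fun L => if (∃ b ∈ L, S b) ∧ (L.map z).sum = x then 1 else 0) ≤ j * M := by
  induction j with
  | zero => intro x; rw [SL_zero]; simp
  | succ j ih =>
    intro x
    rw [SL_succ]
    have h1 : ∀ b, Λ b * SL Λ j (fun L => if (∃ b' ∈ b :: L, S b') ∧ ((b :: L).map z).sum = x
        then 1 else 0) ≤ Λ b * SL Λ j (fun L => if (∃ b' ∈ L, S b') ∧ (L.map z).sum = x - z b
        then 1 else 0) + Λ b * SL Λ j (fun L => if S b ∧ z b = x - (L.map z).sum then 1 else 0) := by
      intro b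
      rw [← mul_add, ← SL_add_fun]
      refine mul_le_mul_right (SL_mono Λ j fun L _ => ?_) _
      by_cases hc : (∃ b' ∈ b :: L, S b') ∧ ((b :: L).map z).sum = x
      · rw [if_pos hc]
        obtain ⟨⟨b', hb', hS⟩, hsum⟩ := hc
        rw [List.map_cons, List.sum_cons] at hsum
        rcases List.mem_cons.1 hb' with rfl | hb'
        · rw [if_pos (c := S b' ∧ z b' = x - (L.map z).sum) ⟨hS, eq_sub_of_add_eq hsum⟩]
          exact le_add_self
        · rw [if_pos (c := (∃ b' ∈ L, S b') ∧ (L.map z).sum = x - z b)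
            ⟨⟨b', hb', hS⟩, eq_sub_of_add_eq' hsum⟩]
          exact le_self_add
      · rw [if_neg hc]; exact zero_le
    refine (ENNReal.tsum_le_tsum h1).trans ?_
    rw [ENNReal.tsum_add]
    have h2 : ∑' b, Λ b * SL Λ j (fun L => if (∃ b' ∈ L, S b') ∧ (L.map z).sum = x - z b
        then 1 else 0) ≤ j * M := by
      calc _ ≤ ∑' b, Λ b * (j * M) := ENNReal.tsum_le_tsum fun b => mul_le_mul_right (ih _) _
        _ = _ := by rw [ENNReal.tsum_mul_right, hΛ, one_mul]
    have h3 : ∑' b, Λ b * SL Λ j (fun L => if S b ∧ z b = x - (L.map z).sum then 1 else 0) ≤ M := by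
      have e : ∀ b, Λ b * SL Λ j (fun L => if S b ∧ z b = x - (L.map z).sum then 1 else 0)
          = ∑' L : List B, (if L.length = j then LW Λ L *
            (if S b ∧ z b = x - (L.map z).sum then Λ b else 0) else 0) := by
        intro b
        rw [SL, ← ENNReal.tsum_mul_left]
        refine tsum_congr fun L => ?_
        by_cases hL : L.length = j
        · rw [if_pos hL, if_pos hL]
          split_ifs
          · ring
          · ring
        · rw [if_neg hL, if_neg hL, mul_zero]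
      simp_rw [e]
      rw [ENNReal.tsum_comm]
      calc _ ≤ ∑' L : List B, (if L.length = j then LW Λ L * M else 0) := by
            refine ENNReal.tsum_le_tsum fun L => ?_
            by_cases hL : L.length = j
            · simp only [if_pos hL]
              rw [ENNReal.tsum_mul_left]
              exact mul_le_mul_right (hM _) _
            · simp [if_neg hL]
        _ = SL Λ j (fun _ => M) := rfl
        _ = M := SL_const Λ hΛ j M
    calc _ ≤ j * M + M := add_le_add h2 h3
      _ = _ := by push_cast; ring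

open Classical in
lemma nosmall (S : B → Prop) (j : ℕ) :
    SL Λ j (fun L => if ∃ b ∈ L, S b then 0 else 1) = (∑' b, if S b then 0 else Λ b) ^ j := by
  induction j with
  | zero => rw [SL_zero]; simp
  | succ j ih =>
    rw [SL_succ, pow_succ, mul_comm, ← ENNReal.tsum_mul_right]
    refine tsum_congr fun b => ?_
    by_cases hb : S b
    · rw [if_pos hb, zero_mul]
      have : ∀ L : List B, (∃ b' ∈ b :: L, S b') := fun L => ⟨b, List.mem_cons_self, hb⟩
      simp only [if_pos (this _)]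
      have h0 := SL_const_mul Λ j 0 (fun _ => 0)
      simp only [zero_mul] at h0
      rw [h0, mul_zero]
    · rw [if_neg hb, ← ih]
      congr 1
      refine SL_congr Λ j fun L _ => ?_
      have : (∃ b' ∈ b :: L, S b') ↔ ∃ b' ∈ L, S b' := by
        constructor
        · rintro ⟨b', h, h'⟩
          rcases List.mem_cons.1 h with rfl | h
          · exact absurd h' hb
          · exact ⟨b', h, h'⟩
        · rintro ⟨b', h, h'⟩
          exact ⟨b', List.mem_cons_of_mem _ h, h'⟩
      by_cases hh : ∃ b' ∈ L, S b'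
      · rw [if_pos hh, if_pos (this.2 hh)]
      · rw [if_neg hh, if_neg (fun h => hh (this.1 h))]

end Dens

end Crest.Agent.R154.Asm10
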