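import Crest.Agent.R154.AsmA_12
import Crest.Agent.R154.Bind801_12

/-! Row 154, ROAD 801 (helper12): quantiles and the total weight of one window. -/

set_option autoImplicit false

namespace Crest.Agent.R154.AsmB12

open scoped ENNReal
open Crest.Agent.R154.B5A (LW HT LW_append HT_append)
open Crest.Agent.R154.FP178
open Crest.Agent.R154.Hit12
open Crest.Agent.R154.AsmA12
open Crest.Agent.R154.Bind12 (TT)

section one

variable {B G : Type*} [AddCommGroup G]

open Classical in
/-- law of a first passage piece -/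
noncomputable def pl (Λ : B → ℝ≥0∞) (ht : B → ℕ) (z : B → G) (T : ℕ) (k : ℕ × G) : ℝ≥0∞ :=
  ∑' A, if fp ht T A ∧ (HT ht A, Dp z A) = k then LW Λ A else 0

open Classical in
lemma fp_mass (Λ : B → ℝ≥0∞) (ht : B → ℕ) (h1 : ∀ b, 1 ≤ ht b) (hΛ : ∑' b, Λ b = 1) (a : ℕ) :
    ∑' L, (if fp ht a L then LW Λ L else 0) = 1 := by
  induction a using Nat.strong_induction_on with
  | _ a ih =>
    rcases Nat.eq_zero_or_pos a with rfl | ha
    · have := sum_fp_zero Λ ht (fun _ => 1)
      simpa only [mul_one] using this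
    · have := sum_fp_step Λ ht a ha (fun _ => 1)
      simp only [mul_one] at this
      rw [this]
      have e : ∀ b, ∑' L, (if fp ht (a - ht b) L then LW Λ L else 0) = 1 := fun b =>
        ih _ (by have := h1 b; omega)
      simp only [e, mul_one]
      exact hΛ

open Classical in
lemma pl_sum (Λ : B → ℝ≥0∞) (ht : B → ℕ) (z : B → G) (T : ℕ) (R : ℝ≥0∞ → Prop)
    [DecidablePred R] :
    ∑' A, (if fp ht T A ∧ R (pl Λ ht z T (HT ht A, Dp z A)) then LW Λ A else 0)
      = ∑' k, (if R (pl Λ ht z T k) then pl Λ ht z T k else 0) := by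
  have h := tsum_fiber (fun A : List B => if fp ht T A then LW Λ A else 0)
    (fun A => (HT ht A, Dp z A)) (fun k => if R (pl Λ ht z T k) then (1 : ℝ≥0∞) else 0)
  have e1 : ∀ A, (if fp ht T A ∧ R (pl Λ ht z T (HT ht A, Dp z A)) then LW Λ A else 0)
      = (if fp ht T A then LW Λ A else 0)
        * (if R (pl Λ ht z T (HT ht A, Dp z A)) then (1 : ℝ≥0∞) else 0) := by
    intro A
    by_cases h1 : fp ht T A <;> by_cases h2 : R (pl Λ ht z T (HT ht A, Dp z A)) <;> simp [h1, h2]
  simp only [e1]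
  refine h.trans (tsum_congr fun k => ?_)
  have e2 : (∑' A, (@ite _ ((HT ht A, Dp z A) = k) (Classical.propDecidable _)
      (if fp ht T A then LW Λ A else 0) 0)) = pl Λ ht z T k := by
    rw [pl]
    refine tsum_congr fun A => ?_
    by_cases h1 : fp ht T A
    · by_cases h2 : (HT ht A, Dp z A) = k
      · rw [if_pos h2, if_pos h1, if_pos ⟨h1, h2⟩]
      · rw [if_neg h2, if_neg (fun hc => h2 hc.2)]
    · by_cases h2 : (HT ht A, Dp z A) = k
      · rw [if_pos h2, if_neg h1, if_neg (fun hc => h1 hc.1)]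
      · rw [if_neg h2, if_neg (fun hc => h1 hc.1)]
  rw [e2]
  by_cases h2 : R (pl Λ ht z T k) <;> simp [h2]

open Classical in
/-- quantile of the piece law -/
lemma quant (Λ : B → ℝ≥0∞) (ht : B → ℕ) (z : B → G) (h1 : ∀ b, 1 ≤ ht b) (hΛ : ∑' b, Λ b = 1)
    (T : ℕ) {u : ℝ≥0∞} (hu0 : u ≠ 0) (hu1 : u ≤ 1) :
    ∃ (th : ℝ≥0∞) (Ef : ℕ → Finset G), th ≠ 0 ∧ th ≤ 1 ∧
      ∑' A, (if fp ht T A ∧ pl Λ ht z T (HT ht A, Dp z A) < th then LW Λ A else 0) ≤ u ∧
      ∑' A, (if fp ht T A ∧ th < pl Λ ht z T (HT ht A, Dp z A) then LW Λ A else 0) ≤ 1 - u ∧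
      (∀ h y, th ≤ pl Λ ht z T (h, y) → y ∈ Ef h) ∧
      ∀ h, ((Ef h).card : ℝ≥0∞) ≤ th⁻¹ := by
  have htot : ∑' k, pl Λ ht z T k = 1 := by
    have := pl_sum Λ ht z T (fun _ => True)
    simp only [and_true, if_true] at this
    rw [← this]
    exact fp_mass Λ ht h1 hΛ T
  obtain ⟨th, h0, h1', h2, h3⟩ := Dens903.quantile (pl Λ ht z T) htot hu0 hu1
  have hfin : {k | th ≤ pl Λ ht z T k}.Finite :=
    Dens903.finite_level (pl Λ ht z T) (by rw [htot]; exact ENNReal.one_ne_top) h0
  have hcard := Dens903.card_le (pl Λ ht z T) th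
  rw [htot] at hcard
  have hthT : th ≠ ⊤ := ne_top_of_le_ne_top ENNReal.one_ne_top h1'
  refine ⟨th, fun h => (hfin.toFinset.filter (fun k => k.1 = h)).image Prod.snd, h0, h1', ?_, ?_,
    ?_, ?_⟩
  · rw [pl_sum Λ ht z T (fun x => x < th)]; exact h2
  · rw [pl_sum Λ ht z T (fun x => th < x)]
    have hsplit : ∑' k, (if pl Λ ht z T k ≤ th then pl Λ ht z T k else 0)
        + ∑' k, (if th < pl Λ ht z T k then pl Λ ht z T k else 0) = 1 := by
      rw [← ENNReal.tsum_add, ← htot]
      refine tsum_congr fun k => ?_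
      by_cases hk : pl Λ ht z T k ≤ th
      · rw [if_pos hk, if_neg (not_lt.2 hk), add_zero]
      · rw [if_neg hk, if_pos (not_le.1 hk), zero_add]
    have hAle : ∑' k, (if pl Λ ht z T k ≤ th then pl Λ ht z T k else 0) ≠ ⊤ := by
      refine ne_top_of_le_ne_top ENNReal.one_ne_top ?_
      rw [← hsplit]; exact le_self_add
    have : ∑' k, (if th < pl Λ ht z T k then pl Λ ht z T k else 0)
        = 1 - ∑' k, (if pl Λ ht z T k ≤ th then pl Λ ht z T k else 0) := by
      rw [← hsplit, ENNReal.add_sub_cancel_left hAle]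
    rw [this]
    exact tsub_le_tsub_left h3 1
  · intro h y hy
    rw [Finset.mem_image]
    refine ⟨(h, y), ?_, rfl⟩
    rw [Finset.mem_filter]
    exact ⟨(Set.Finite.mem_toFinset hfin).2 hy, rfl⟩
  · intro h
    have hc1 : (((hfin.toFinset.filter (fun k => k.1 = h)).image Prod.snd).card : ℝ≥0∞)
        ≤ (hfin.toFinset.card : ℝ≥0∞) := by
      exact_mod_cast Finset.card_image_le.trans (Finset.card_filter_le _ _)
    have hc2 : (hfin.toFinset.card : ℝ≥0∞) = ∑' k, (if th ≤ pl Λ ht z T k then 1 else 0) := by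
      rw [tsum_eq_sum (s := hfin.toFinset)]
      · rw [Finset.sum_congr rfl (g := fun _ => (1 : ℝ≥0∞))]
        · simp
        · intro k hk
          rw [if_pos]
          exact (Set.Finite.mem_toFinset hfin).1 hk
      · intro k hk
        rw [if_neg]
        intro hc
        exact hk ((Set.Finite.mem_toFinset hfin).2 hc)
    refine hc1.trans ?_
    rw [hc2, ← one_div, ENNReal.le_div_iff_mul_le (Or.inl h0) (Or.inl hthT), mul_comm]
    exact hcard

end one

end Crest.Agent.R154.AsmB12
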