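import Crest.Agent.R154.AsmA_129

/-! Row 154, KAPPA' (801 #38888): the window sum (helper129). -/

set_option autoImplicit false

namespace Crest.Agent.R154.Asm129

open scoped ENNReal
open Crest.Agent.R154.B5A
open Classical

section one
variable {B G : Type*} [AddCommGroup G] (Λ : B → ℝ≥0∞) (ht : B → ℕ) (z : B → G)

/-- sum over first passage lists -/
noncomputable def FS (T : ℕ) (f : List B → ℝ≥0∞) : ℝ≥0∞ :=
  ∑' A, if fp ht T A then LW Λ A * f A else 0

lemma FS_mono (T : ℕ) {f g : List B → ℝ≥0∞} (h : ∀ A, fp ht T A → f A ≤ g A) :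
    FS Λ ht T f ≤ FS Λ ht T g := by
  refine ENNReal.tsum_le_tsum fun A => ?_
  by_cases hA : fp ht T A
  · rw [if_pos hA, if_pos hA]; exact mul_le_mul_right (h A hA) _
  · rw [if_neg hA, if_neg hA]

lemma FS_congr (T : ℕ) {f g : List B → ℝ≥0∞} (h : ∀ A, fp ht T A → f A = g A) :
    FS Λ ht T f = FS Λ ht T g :=
  le_antisymm (FS_mono Λ ht T fun A hA => (h A hA).le) (FS_mono Λ ht T fun A hA => (h A hA).ge)

lemma FS_const (h1 : ∀ b, 1 ≤ ht b) (hΛ : ∑' b, Λ b = 1) (T : ℕ) (c : ℝ≥0∞) :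
    FS Λ ht T (fun _ => c) = c := by
  have : FS Λ ht T (fun _ => c) = (∑' A, if fp ht T A then LW Λ A else 0) * c := by
    rw [FS, ← ENNReal.tsum_mul_right]
    refine tsum_congr fun A => ?_
    split_ifs <;> simp
  rw [this, fp_mass Λ ht h1 hΛ, one_mul]

lemma FS_add (T : ℕ) (f g : List B → ℝ≥0∞) :
    FS Λ ht T (fun A => f A + g A) = FS Λ ht T f + FS Λ ht T g := by
  rw [FS, FS, FS, ← ENNReal.tsum_add]
  refine tsum_congr fun A => ?_
  split_ifs <;> simp [mul_add]

lemma FS_mul (T : ℕ) (c : ℝ≥0∞) (f : List B → ℝ≥0∞) :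
    FS Λ ht T (fun A => c * f A) = c * FS Λ ht T f := by
  rw [FS, FS, ← ENNReal.tsum_mul_left]
  refine tsum_congr fun A => ?_
  split_ifs
  · ring
  · simp

lemma FS_push (T : ℕ) (Φ : ℕ → G → ℝ≥0∞) :
    FS Λ ht T (fun A => Φ (HT ht A) (Dp z A)) = ∑' x : ℕ × G, fl Λ ht z T x * Φ (T + x.1) x.2 :=
  push Λ ht z T Φ

lemma U_step (hU : ∀ n, U Λ ht n ≤ 1) (A : List B) (n : ℕ) :
    ∑' R, (if HT ht (A ++ R) = n then LW Λ R else 0) ≤ 1 := by
  refine le_trans ?_ (hU (n - HT ht A))
  rw [U]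
  refine ENNReal.tsum_le_tsum fun R => ?_
  by_cases h : HT ht (A ++ R) = n
  · rw [if_pos h, if_pos]
    rw [HT_append] at h; omega
  · rw [if_neg h]; exact zero_le

lemma step (h1 : ∀ b, 1 ≤ ht b) (hU : ∀ n, U Λ ht n ≤ 1) (D i0 n : ℕ) (hD : D ≤ n)
    (Φ F : List B → ℝ≥0∞) (hΦ : ∀ L, Φ L ≤ 1)
    (hF : ∀ A, fp ht D A → HT ht A ≤ D + i0 →
      ∑' R, (if HT ht (A ++ R) = n then LW Λ R * Φ (A ++ R) else 0) ≤ F A) :
    ∑' L, (if HT ht L = n then LW Λ L * Φ L else 0) ≤ ep Λ ht i0 + FS Λ ht D F := by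
  have e1 : ∑' L, (if HT ht L = n then LW Λ L * Φ L else 0)
      = ∑' A, ∑' R, if fp ht D A then (if HT ht (A ++ R) = n then LW Λ (A ++ R) * Φ (A ++ R)
        else 0) else 0 := by
    rw [← fp_split ht h1 D (fun L => if HT ht L = n then LW Λ L * Φ L else 0)]
    refine tsum_congr fun L => ?_
    by_cases h : HT ht L = n
    · rw [if_pos h, if_pos (by omega)]
    · rw [if_neg h]; simp
  rw [e1]
  refine le_trans ?_ (add_le_add (over_le Λ ht hU D i0) le_rfl)
  rw [FS, ← ENNReal.tsum_add]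
  refine ENNReal.tsum_le_tsum fun A => ?_
  by_cases hA : fp ht D A
  · have e2 : (∑' R, if fp ht D A then (if HT ht (A ++ R) = n then LW Λ (A ++ R) * Φ (A ++ R)
        else 0) else 0) = LW Λ A * ∑' R, (if HT ht (A ++ R) = n then LW Λ R * Φ (A ++ R)
        else 0) := by
      rw [← ENNReal.tsum_mul_left]
      refine tsum_congr fun R => ?_
      rw [if_pos hA]
      split_ifs
      · rw [LW_append, mul_assoc]
      · simp
    rw [e2, if_pos hA]
    by_cases hh : HT ht A ≤ D + i0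
    · exact le_add_left (mul_le_mul_right (hF A hA hh) _)
    · refine le_add_right ?_
      rw [if_pos ⟨hA, by omega⟩]
      calc _ ≤ LW Λ A * 1 := by
            refine mul_le_mul_right (le_trans (ENNReal.tsum_le_tsum fun R => ?_)
              (U_step Λ ht hU A n)) _
            split_ifs
            · calc LW Λ R * Φ (A ++ R) ≤ LW Λ R * 1 := mul_le_mul_right (hΦ _) _
                _ = _ := mul_one _
            · exact le_rfl
        _ = _ := mul_one _
  · simp [hA]

lemma side (h1 : ∀ b, 1 ≤ ht b) (hΛ : ∑' b, Λ b = 1) (hU : ∀ n, U Λ ht n ≤ 1)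
    (D T i0 n : ℕ) (hn : D + i0 + T ≤ n)
    (Φ : List B → ℝ≥0∞) (F : List B → List B → ℝ≥0∞) (hΦ : ∀ L, Φ L ≤ 1)
    (hF : ∀ A P R, fp ht D A → HT ht A ≤ D + i0 → fp ht T P → HT ht P ≤ T + i0 →
      Φ (A ++ (P ++ R)) ≤ F A P) :
    ∑' L, (if HT ht L = n then LW Λ L * Φ L else 0)
      ≤ 2 * ep Λ ht i0 + FS Λ ht D (fun A => FS Λ ht T (fun P => F A P)) := by
  have h := step Λ ht h1 hU D i0 n (by omega) Φ
    (fun A => ep Λ ht i0 + FS Λ ht T (fun P => F A P)) hΦ ?_
  · rw [FS_add, FS_const Λ ht h1 hΛ] at h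
    rw [two_mul, add_assoc]; exact h
  · intro A hA hAh
    have h' := step Λ ht h1 hU T i0 (n - HT ht A) (by omega) (fun R => Φ (A ++ R))
      (fun P => F A P) (fun L => hΦ _) ?_
    · refine le_trans (ENNReal.tsum_le_tsum fun R => ?_) h'
      by_cases h3 : HT ht (A ++ R) = n
      · rw [if_pos h3, if_pos]
        rw [HT_append] at h3; omega
      · rw [if_neg h3]; exact zero_le
    · intro P hP hPh
      calc _ ≤ ∑' R, F A P * (if HT ht (P ++ R) = n - HT ht A then LW Λ R else 0) := by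
            refine ENNReal.tsum_le_tsum fun R => ?_
            split_ifs
            · rw [mul_comm]; exact mul_le_mul_left (hF A P R hA hAh hP hPh) _
            · simp
        _ ≤ F A P * 1 := by
            rw [ENNReal.tsum_mul_left]; exact mul_le_mul_right (U_step Λ ht hU P _) _
        _ = _ := mul_one _

lemma fl_finite (h1 : ∀ b, 1 ≤ ht b) (hΛ : ∑' b, Λ b = 1) (T : ℕ) (th : ℝ≥0∞) (hth : th ≠ 0)
    (i : ℕ) : ∃ E : Finset G, (∀ y, th ≤ fl Λ ht z T (i, y) → y ∈ E) ∧
      (E.card : ℝ≥0∞) * th ≤ 1 := by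
  have hs : ∑' y, fl Λ ht z T (i, y) ≤ 1 := by
    rw [← fl_mass Λ ht z h1 hΛ T]
    exact ENNReal.tsum_comp_le_tsum_of_injective (f := fun y : G => (i, y))
      (fun y y' h => by simpa using h) _
  have hfin := Dens616.finite_local (fun y => fl Λ ht z T (i, y))
    (ne_top_of_le_ne_top ENNReal.one_ne_top hs) hth
  refine ⟨hfin.toFinset, fun y hy => hfin.mem_toFinset.2 hy, ?_⟩
  exact (Dens616.card_mul_le (fun y => fl Λ ht z T (i, y)) th _
    (fun y hy => hfin.mem_toFinset.1 hy)).trans hs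

end one

section two
variable {BX BY G : Type*} [AddCommGroup G] (ΛX : BX → ℝ≥0∞) (hX : BX → ℕ) (zX : BX → G)
  (ΛY : BY → ℝ≥0∞) (hY : BY → ℕ) (zY : BY → G)

lemma FS_comm (T T' : ℕ) (f : List BX → List BY → ℝ≥0∞) :
    FS ΛX hX T (fun A => FS ΛY hY T' (fun A' => f A A'))
      = FS ΛY hY T' (fun A' => FS ΛX hX T (fun A => f A A')) := by
  have e1 : ∀ A, (if fp hX T A then LW ΛX A * FS ΛY hY T' (fun A' => f A A') else 0)
      = ∑' A', if fp hX T A ∧ fp hY T' A' then LW ΛX A * (LW ΛY A' * f A A') else 0 := by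
    intro A
    by_cases hA : fp hX T A
    · rw [if_pos hA, FS, ← ENNReal.tsum_mul_left]
      refine tsum_congr fun A' => ?_
      simp [hA]
    · simp [hA]
  have e2 : ∀ A', (if fp hY T' A' then LW ΛY A' * FS ΛX hX T (fun A => f A A') else 0)
      = ∑' A, if fp hX T A ∧ fp hY T' A' then LW ΛX A * (LW ΛY A' * f A A') else 0 := by
    intro A'
    by_cases hA : fp hY T' A'
    · rw [if_pos hA, FS, ← ENNReal.tsum_mul_left]
      refine tsum_congr fun A => ?_
      simp only [hA, and_true]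
      split_ifs
      · ring
      · simp
    · simp [hA]
  rw [FS, FS]
  simp only [e1, e2]
  rw [ENNReal.tsum_comm]

/-- the smoothed double sum -/
lemma dens_pair (f g : ℕ × G → ℝ≥0∞) (hf : ∑' x, f x ≤ 1) (hg : ∑' x, g x ≤ 1)
    (M : ℝ≥0∞) (hfg : (∀ x, f x ≤ M) ∨ (∀ x, g x ≤ M)) (i0 : ℕ) (K : ℕ → ℕ → G → ℝ≥0∞)
    (hK0 : ∀ i i' x, ¬ (i ≤ i0 ∧ i' ≤ i0) → K i i' x = 0) (κ : ℝ≥0∞)
    (hK : ∀ i i', i ≤ i0 → i' ≤ i0 → ∀ μ : G → ℝ≥0∞, ∑' x, μ x ≤ 1 → (∀ x, μ x ≤ M) →
      ∑' x, μ x * K i i' x ≤ κ) (w : G) :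
    ∑' x : ℕ × G, ∑' x' : ℕ × G, f x * g x' * K x.1 x'.1 (w + x'.2 - x.2)
      ≤ ((i0 + 1 : ℕ) : ℝ≥0∞) * ((i0 + 1 : ℕ) * κ) := by
  have hfi : ∀ i, ∑' y, f (i, y) ≤ 1 := fun i =>
    (ENNReal.tsum_comp_le_tsum_of_injective (f := fun y : G => (i, y))
      (fun y y' h => by simpa using h) _).trans hf
  have hgi : ∀ i, ∑' y, g (i, y) ≤ 1 := fun i =>
    (ENNReal.tsum_comp_le_tsum_of_injective (f := fun y : G => (i, y))
      (fun y y' h => by simpa using h) _).trans hg
  have key : ∀ i i', ∑' y, ∑' y', f (i, y) * g (i', y') * K i i' (w + y' - y)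
      ≤ if i ≤ i0 ∧ i' ≤ i0 then κ else 0 := by
    intro i i'
    by_cases hi : i ≤ i0 ∧ i' ≤ i0
    · rw [if_pos hi]
      have e1 : ∑' y, ∑' y', f (i, y) * g (i', y') * K i i' (w + y' - y)
          = ∑' x, (∑' y', f (i, w + y' - x) * g (i', y')) * K i i' x := by
        rw [ENNReal.tsum_comm]
        have : ∀ y', ∑' y, f (i, y) * g (i', y') * K i i' (w + y' - y)
            = ∑' x, f (i, w + y' - x) * g (i', y') * K i i' x := by
          intro y'
          rw [← Equiv.tsum_eq (Equiv.subLeft (w + y'))]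
          refine tsum_congr fun x => ?_
          simp only [Equiv.subLeft_apply, sub_sub_cancel]
        simp only [this]
        rw [ENNReal.tsum_comm]
        refine tsum_congr fun x => ?_
        rw [ENNReal.tsum_mul_right]
      rw [e1]
      refine hK i i' hi.1 hi.2 _ ?_ ?_
      · rw [ENNReal.tsum_comm]
        calc ∑' y', ∑' x, f (i, w + y' - x) * g (i', y') ≤ ∑' y', 1 * g (i', y') := by
              refine ENNReal.tsum_le_tsum fun y' => ?_
              rw [ENNReal.tsum_mul_right]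
              refine mul_le_mul_left (le_trans ?_ (hfi i)) _
              exact ENNReal.tsum_comp_le_tsum_of_injective (f := fun x : G => w + y' - x)
                (fun x x' h => by simpa using h) (fun y => f (i, y))
          _ ≤ 1 := by simpa using hgi i'
      · intro x
        rcases hfg with h | h
        · calc ∑' y', f (i, w + y' - x) * g (i', y') ≤ ∑' y', M * g (i', y') :=
                ENNReal.tsum_le_tsum fun y' => mul_le_mul_left (h _) _
            _ ≤ M * 1 := by rw [ENNReal.tsum_mul_left]; exact mul_le_mul_right (hgi i') _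
            _ = M := mul_one _
        · calc ∑' y', f (i, w + y' - x) * g (i', y') ≤ ∑' y', f (i, w + y' - x) * M :=
                ENNReal.tsum_le_tsum fun y' => mul_le_mul_right (h _) _
            _ ≤ 1 * M := by
                rw [ENNReal.tsum_mul_right]
                refine mul_le_mul_left (le_trans ?_ (hfi i)) _
                exact ENNReal.tsum_comp_le_tsum_of_injective (f := fun y' : G => w + y' - x)
                  (fun x x' h => by simpa using h) (fun y => f (i, y))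
            _ = M := one_mul _
    · rw [if_neg hi]
      simp [hK0 i i' _ hi]
  calc ∑' x : ℕ × G, ∑' x' : ℕ × G, f x * g x' * K x.1 x'.1 (w + x'.2 - x.2)
      = ∑' i, ∑' i', ∑' y, ∑' y', f (i, y) * g (i', y') * K i i' (w + y' - y) := by
        rw [ENNReal.tsum_prod (f := fun i y => ∑' x' : ℕ × G, f (i, y) * g x' *
          K i x'.1 (w + x'.2 - y))]
        refine tsum_congr fun i => ?_
        have : ∀ y, ∑' x' : ℕ × G, f (i, y) * g x' * K i x'.1 (w + x'.2 - y)
            = ∑' i', ∑' y', f (i, y) * g (i', y') * K i i' (w + y' - y) := fun y => by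
          rw [ENNReal.tsum_prod (f := fun i' y' => f (i, y) * g (i', y') * K i i' (w + y' - y))]
        simp only [this]
        rw [ENNReal.tsum_comm]
    _ ≤ ∑' i, ∑' i', if i ≤ i0 ∧ i' ≤ i0 then κ else 0 :=
        ENNReal.tsum_le_tsum fun i => ENNReal.tsum_le_tsum fun i' => key i i'
    _ = ∑ i ∈ Finset.range (i0 + 1), ∑ i' ∈ Finset.range (i0 + 1), κ := by
        rw [tsum_eq_sum (s := Finset.range (i0 + 1))]
        · refine Finset.sum_congr rfl fun i hi => ?_
          have hi' : i ≤ i0 := by rw [Finset.mem_range] at hi; omega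
          rw [tsum_eq_sum (s := Finset.range (i0 + 1))]
          · refine Finset.sum_congr rfl fun i' hi2 => ?_
            rw [if_pos ⟨hi', by rw [Finset.mem_range] at hi2; omega⟩]
          · intro i' hi2
            rw [if_neg]
            rintro ⟨_, h⟩
            apply hi2; rw [Finset.mem_range]; omega
        · intro i hi
          have hi' : ¬ i ≤ i0 := by rw [Finset.mem_range] at hi; omega
          simp [hi']
    _ = _ := by simp

/-- heights of the pieces -/
lemma Kbd (T i0 : ℕ) (p : List BX → List BY → Prop) :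
    FS ΛX hX T (fun P => FS ΛY hY T (fun P' =>
      if (HT hX P ≤ T + i0 ∧ HT hY P' ≤ T + i0) ∧ p P P' then 1 else 0))
    ≤ ∑ i ∈ Finset.range (i0 + 1), ∑ i' ∈ Finset.range (i0 + 1), ∑' P, ∑' P',
      if HT hX P = T + i ∧ HT hY P' = T + i' ∧ p P P' then LW ΛX P * LW ΛY P' else 0 := by
  have e : ∑ i ∈ Finset.range (i0 + 1), ∑ i' ∈ Finset.range (i0 + 1), ∑' P, ∑' P',
      (if HT hX P = T + i ∧ HT hY P' = T + i' ∧ p P P' then LW ΛX P * LW ΛY P' else 0)
      = ∑' P, ∑' P', ∑ i ∈ Finset.range (i0 + 1), ∑ i' ∈ Finset.range (i0 + 1),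
      (if HT hX P = T + i ∧ HT hY P' = T + i' ∧ p P P' then LW ΛX P * LW ΛY P' else 0) := by
    simp only [Summable.tsum_finsetSum (fun _ _ => ENNReal.summable)]
  rw [e, FS]
  refine ENNReal.tsum_le_tsum fun P => ?_
  by_cases hP : fp hX T P
  · rw [if_pos hP, FS, ← ENNReal.tsum_mul_left]
    refine ENNReal.tsum_le_tsum fun P' => ?_
    by_cases hP' : fp hY T P'
    · rw [if_pos hP']
      by_cases h : (HT hX P ≤ T + i0 ∧ HT hY P' ≤ T + i0) ∧ p P P'
      · rw [if_pos h, mul_one]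
        have h2 := fp_HT hX P T hP
        have h3 := fp_HT hY P' T hP'
        refine le_trans ?_ (Finset.single_le_sum (f := fun i => ∑ i' ∈ Finset.range (i0 + 1),
          (if HT hX P = T + i ∧ HT hY P' = T + i' ∧ p P P' then LW ΛX P * LW ΛY P' else 0))
          (fun _ _ => zero_le) (show HT hX P - T ∈ Finset.range (i0 + 1) by
            rw [Finset.mem_range]; omega))
        refine le_trans ?_ (Finset.single_le_sum (f := fun i' =>
          (if HT hX P = T + (HT hX P - T) ∧ HT hY P' = T + i' ∧ p P P'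
            then LW ΛX P * LW ΛY P' else 0))
          (fun _ _ => zero_le) (show HT hY P' - T ∈ Finset.range (i0 + 1) by
            rw [Finset.mem_range]; omega))
        rw [if_pos ⟨by omega, by omega, h.2⟩]
      · rw [if_neg h, mul_zero, mul_zero]; exact zero_le
    · rw [if_neg hP', mul_zero]; exact zero_le
  · rw [if_neg hP]; exact zero_le

end two

end Crest.Agent.R154.Asm129
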