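import Crest.Agent.R154.AsmA_13

/-! Row 154 (helper13): one window of the assembly (ROAD 801). -/

set_option autoImplicit false
set_option linter.unusedVariables false

namespace Crest.Agent.R154.Asm13

open Crest.Agent.R154.B5A Crest.Agent.R154.Mid562
open scoped ENNReal Classical

/-- abstract trace of a list of blocks -/
structure IsTr {B G : Type*} [AddCommGroup G] (ht : B → ℕ) (z : B → G)
    (T : List B → G → ℕ → Set (G × ℕ)) : Prop where
  app : ∀ A L x a, T (A ++ L) x a = T A x a ∪ T L (x + DG z A) (a + HT ht A)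
  dep : ∀ L x a p, p ∈ T L x a → a < p.2 ∧ p.2 ≤ a + HT ht L
  sh : ∀ L x a c y k, (y, k) ∈ T L x a → (y - c, k) ∈ T L (x - c) a

lemma peel {B : Type*} (Λ : B → ℝ≥0∞) (ht : B → ℕ) (h1 : ∀ b, 1 ≤ ht b) (hΛ : ∑' b, Λ b = 1)
    {T i0 : ℕ} {f g : List B → ℝ≥0∞} {c : ℝ≥0∞}
    (h : ∀ A, FR ht T A → HT ht A ≤ T + i0 → f A ≤ c + g A) (hf : ∀ A, f A ≤ 1) :
    FS Λ ht T f ≤ ep Λ ht i0 + (c + FS Λ ht T g) := by
  calc FS Λ ht T f ≤ FS Λ ht T (fun A => (if T + i0 < HT ht A then 1 else 0) + (c + g A)) := by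
        refine FS_mono Λ ht fun A hA => ?_
        by_cases hh : HT ht A ≤ T + i0
        · exact (h A hA hh).trans le_add_self
        · rw [if_pos (not_le.1 hh)]
          exact (hf A).trans le_self_add
    _ = Ov Λ ht T i0 + (FS Λ ht T (fun _ => c) + FS Λ ht T g) := by
        rw [FS_add, FS_add]; rfl
    _ ≤ _ := by
        rw [FS_const Λ ht h1 hΛ]
        exact add_le_add (Ov_le_ep Λ ht h1 hΛ i0 T) le_rfl

section window

variable {BX BY G : Type*} [AddCommGroup G]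
variable (ΛX : BX → ℝ≥0∞) (hX : BX → ℕ) (zX : BX → G) (ΛY : BY → ℝ≥0∞) (hY : BY → ℕ) (zY : BY → G)
variable (TX : List BX → G → ℕ → Set (G × ℕ)) (TY : List BY → G → ℕ → Set (G × ℕ))

/-- two pieces have a common site, and all common sites have depth in `[lo, hi]` -/
def Ev (lo hi : ℕ) (P : List BX) (P' : List BY) (x : G) (a : ℕ) (y : G) (b : ℕ) : Prop :=
  (∃ p, p ∈ TX P x a ∧ p ∈ TY P' y b) ∧ ∀ p, p ∈ TX P x a → p ∈ TY P' y b → lo ≤ p.2 ∧ p.2 ≤ hi

/-- event for the full lists -/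
def EvF (α lo hi top lo' hi' : ℕ) (w : G) (LX : List BX) (LY : List BY) (x : G) (a : ℕ)
    (y : G) (b : ℕ) : Prop :=
  (∃ p, p ∈ TX LX x a ∧ p ∈ TY LY y b ∧ lo' < p.2 ∧ p.2 ≤ hi') ∧
    ∀ p, p ∈ TX LX x a → p ∈ TY LY y b → ¬ (α < p.2 ∧ p.2 < lo) ∧ ¬ (hi < p.2 ∧ p.2 ≤ top)

variable {TX TY}

lemma EvF_X (hTX : IsTr hX zX TX) {α τ i0 lo hi top lo' hi' : ℕ} {w : G} {A P R : List BX}
    {LY : List BY} (hA : HT hX A ≤ α + i0) (hAP : α + τ ≤ HT hX A + HT hX P) (h1 : α + i0 ≤ lo')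
    (h2 : hi' ≤ α + τ) (y : G) (b : ℕ)
    (h : EvF TX TY α lo hi top lo' hi' w (A ++ (P ++ R)) LY 0 0 y b) :
    EvF TX TY α lo hi top lo' hi' w P LY (DG zX A) (HT hX A) y b := by
  obtain ⟨⟨p, hp1, hp2, hp3, hp4⟩, hall⟩ := h
  have hsub : TX P (DG zX A) (HT hX A) ⊆ TX (A ++ (P ++ R)) 0 0 := by
    rw [hTX.app, hTX.app, zero_add, zero_add]
    exact fun q hq => Or.inr (Or.inl hq)
  refine ⟨⟨p, ?_, hp2, hp3, hp4⟩, fun q hq hq' => hall q (hsub hq) hq'⟩
  rw [hTX.app, hTX.app, zero_add, zero_add] at hp1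
  rcases hp1 with hp1 | hp1 | hp1
  · have := (hTX.dep _ _ _ _ hp1).2; omega
  · exact hp1
  · have := (hTX.dep _ _ _ _ hp1).1; omega

lemma EvF_Y (hTY : IsTr hY zY TY) {α α' τ i0 lo hi top lo' hi' : ℕ} {w : G} {A P R : List BY}
    {LX : List BX} (hA : HT hY A ≤ α' + i0) (hAP : α' + τ ≤ HT hY A + HT hY P)
    (h1 : α' + i0 ≤ lo') (h2 : hi' ≤ α' + τ) (x : G) (a : ℕ)
    (h : EvF TX TY α lo hi top lo' hi' w LX (A ++ (P ++ R)) x a w 0) :
    EvF TX TY α lo hi top lo' hi' w LX P x a (w + DG zY A) (HT hY A) := by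
  obtain ⟨⟨p, hp1, hp2, hp3, hp4⟩, hall⟩ := h
  have hsub : TY P (w + DG zY A) (HT hY A) ⊆ TY (A ++ (P ++ R)) w 0 := by
    rw [hTY.app, hTY.app, zero_add]
    exact fun q hq => Or.inr (Or.inl hq)
  refine ⟨⟨p, hp1, ?_, hp3, hp4⟩, fun q hq hq' => hall q hq (hsub hq')⟩
  rw [hTY.app, hTY.app, zero_add] at hp2
  rcases hp2 with hp2 | hp2 | hp2
  · have := (hTY.dep _ _ _ _ hp2).2; omega
  · exact hp2
  · have := (hTY.dep _ _ _ _ hp2).1; omega

/-- peeling the two lists -/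
theorem window1 (h1X : ∀ b, 1 ≤ hX b) (hΛX : ∑' b, ΛX b = 1) (h1Y : ∀ b, 1 ≤ hY b)
    (hΛY : ∑' b, ΛY b = 1) (hTX : IsTr hX zX TX) (hTY : IsTr hY zY TY)
    (α τ i0 s n lo' hi' : ℕ) (w : G) (hs : s ≤ τ) (hn : α + τ + 3 * i0 ≤ n)
    (hlo : α + 2 * i0 ≤ lo') (hhi : hi' ≤ α + τ) :
    ∑' LX : List BX, ∑' LY : List BY, (if HT hX LX = n ∧ HT hY LY = n ∧
        EvF TX TY α (α + 2 * i0 + s) (α + τ - s) (α + τ + 2 * i0) lo' hi' w LX LY 0 0 w 0
        then LW ΛX LX * LW ΛY LY else 0)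
      ≤ (ep ΛX hX i0 + (ep ΛX hX i0 + (ep ΛY hY i0 + ep ΛY hY i0))) +
        FS ΛX hX α (fun A => FS ΛX hX τ (fun P => FS ΛY hY (α + i0) (fun A' =>
          FS ΛY hY (τ + i0) (fun P' => if HT hX A ≤ α + i0 ∧ HT hX P ≤ τ + i0 ∧
            HT hY A' ≤ α + i0 + i0 ∧ HT hY P' ≤ τ + i0 + i0 ∧
            Ev TX TY (α + 2 * i0 + s) (α + τ - s) P P' (DG zX A) (HT hX A) (w + DG zY A')
              (HT hY A') then 1 else 0)))) := by
  set lo := α + 2 * i0 + s with hlo_def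
  set hi := α + τ - s with hhi_def
  set top := α + τ + 2 * i0 with htop
  have e0 : ∑' LX : List BX, ∑' LY : List BY, (if HT hX LX = n ∧ HT hY LY = n ∧
        EvF TX TY α lo hi top lo' hi' w LX LY 0 0 w 0 then LW ΛX LX * LW ΛY LY else 0)
      = NS ΛX hX n (fun LX => NS ΛY hY n (fun LY =>
          if EvF TX TY α lo hi top lo' hi' w LX LY 0 0 w 0 then 1 else 0)) := by
    unfold NS
    refine tsum_congr fun LX => ?_
    by_cases h : HT hX LX = n
    · rw [if_pos h, ← ENNReal.tsum_mul_left]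
      refine tsum_congr fun LY => ?_
      by_cases h' : HT hY LY = n
      · rw [if_pos h']
        by_cases h'' : EvF TX TY α lo hi top lo' hi' w LX LY 0 0 w 0
        · beta_reduce
          rw [if_pos ⟨h, h', h''⟩, if_pos h'', mul_one]
        · beta_reduce
          rw [if_neg (fun hh => h'' hh.2.2), if_neg h'', mul_zero, mul_zero]
      · rw [if_neg (fun hh => h' hh.2.1), if_neg h', mul_zero]
    · rw [if_neg h]
      simp [h]
  rw [e0]
  -- the `X` list
  have hFX : ∀ LX, NS ΛY hY n (fun LY =>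
      if EvF TX TY α lo hi top lo' hi' w LX LY 0 0 w 0 then 1 else 0) ≤ 1 := by
    intro LX
    refine NS_le_one ΛY hY h1Y hΛY n fun LY => ?_
    split_ifs <;> simp
  refine (NS_three ΛX hX h1X hΛX (T := α) (T' := τ) (i := i0) (n := n) (by omega) _ hFX
    (fun A P => if HT hX P ≤ τ + i0 then NS ΛY hY n (fun LY =>
      if EvF TX TY α lo hi top lo' hi' w P LY (DG zX A) (HT hX A) w 0 then 1 else 0) else 1)
    ?_).trans ?_
  · intro A P R hA hA' hP
    by_cases hP' : HT hX P ≤ τ + i0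
    · rw [if_pos hP']
      refine ENNReal.tsum_le_tsum fun LY => ?_
      by_cases hL : HT hY LY = n
      · rw [if_pos hL, if_pos hL]
        refine mul_le_mul_right ?_ _
        beta_reduce
        by_cases hE : EvF TX TY α lo hi top lo' hi' w (A ++ (P ++ R)) LY 0 0 w 0
        · rw [if_pos hE, if_pos (EvF_X hX zX hTX hA' (by
            have := FR_le hX h1X hA
            have := FR_le hX h1X hP
            omega) (by omega) hhi w 0 hE)]
        · rw [if_neg hE]; exact zero_le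
      · rw [if_neg hL, if_neg hL]
    · rw [if_neg hP']; exact hFX _
  rw [add_assoc]
  refine peel ΛX hX h1X hΛX (fun A hA hgA => ?_) (fun A => ?_)
  swap
  · beta_reduce
    split_ifs with h
    · refine FS_le_one ΛX hX h1X hΛX τ fun P => ?_
      split_ifs with h2
      · refine NS_le_one ΛY hY h1Y hΛY n fun LY => ?_
        split_ifs <;> simp
      · exact le_rfl
    · exact le_rfl
  rw [if_pos hgA, add_assoc]
  refine peel ΛX hX h1X hΛX (fun P hP hgP => ?_) (fun P => ?_)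
  swap
  · beta_reduce
    split_ifs with h2
    · refine NS_le_one ΛY hY h1Y hΛY n fun LY => ?_
      split_ifs <;> simp
    · exact le_rfl
  rw [if_pos hgP]
  -- the `Y` list
  have hFY : ∀ LY, (if EvF TX TY α lo hi top lo' hi' w P LY (DG zX A) (HT hX A) w 0
      then (1 : ℝ≥0∞) else 0) ≤ 1 := fun LY => by split_ifs <;> simp
  refine (NS_three ΛY hY h1Y hΛY (T := α + i0) (T' := τ + i0) (i := i0) (n := n) (by omega) _ hFY
    (fun A' P' => if HT hY P' ≤ τ + i0 + i0 then (if EvF TX TY α lo hi top lo' hi' w P P'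
      (DG zX A) (HT hX A) (w + DG zY A') (HT hY A') then 1 else 0) else 1) ?_).trans ?_
  · intro A' P' R' hA' hgA' hP'
    by_cases hgP' : HT hY P' ≤ τ + i0 + i0
    · rw [if_pos hgP']
      by_cases hE : EvF TX TY α lo hi top lo' hi' w P (A' ++ (P' ++ R')) (DG zX A) (HT hX A) w 0
      · rw [if_pos hE, if_pos (EvF_Y hY zY hTY (α' := α + i0) (τ := τ + i0) hgA' (by
            have := FR_le hY h1Y hA'
            have := FR_le hY h1Y hP'
            omega) (by omega) (by omega) _ _ hE)]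
      · rw [if_neg hE]; exact zero_le
    · rw [if_neg hgP']; exact hFY _
  rw [add_assoc (ep ΛY hY i0)]
  refine peel ΛY hY h1Y hΛY (fun A' hA' hgA' => ?_) (fun A' => ?_)
  swap
  · beta_reduce
    split_ifs with h
    · refine FS_le_one ΛY hY h1Y hΛY _ fun P' => ?_
      split_ifs <;> simp
    · exact le_rfl
  rw [if_pos hgA']
  refine (peel ΛY hY h1Y hΛY (i0 := i0) (c := 0) (g := fun P' => if HT hX A ≤ α + i0 ∧
    HT hX P ≤ τ + i0 ∧ HT hY A' ≤ α + i0 + i0 ∧ HT hY P' ≤ τ + i0 + i0 ∧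
            Ev TX TY lo hi P P' (DG zX A) (HT hX A) (w + DG zY A')
              (HT hY A') then 1 else 0) (fun P' hP' hgP' => ?_) (fun P' => ?_)).trans
    (by rw [zero_add])
  swap
  · beta_reduce
    split_ifs <;> simp
  rw [zero_add]
  beta_reduce
  rw [if_pos hgP']
  by_cases hE : EvF TX TY α lo hi top lo' hi' w P P' (DG zX A) (HT hX A) (w + DG zY A') (HT hY A')
  · rw [if_pos hE, if_pos]
    refine ⟨hgA, hgP, hgA', hgP', ?_, ?_⟩
    · obtain ⟨⟨q, hq1, hq2, _⟩, _⟩ := hE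
      exact ⟨q, hq1, hq2⟩
    · intro q hq1 hq2
      have h3 := hE.2 q hq1 hq2
      have h4 := hTX.dep _ _ _ _ hq1
      have h5 := hTY.dep _ _ _ _ hq2
      have h6 := FR_le hX h1X hA
      omega
  · rw [if_neg hE]; exact zero_le

end window

end Crest.Agent.R154.Asm13
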