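import Crest.Agent.R154.AsmA_15

/-! Row 154, ROAD 801 (helper15): law of (overshoot, displacement), density, traces. -/

set_option autoImplicit false

namespace Crest.Agent.R154.Asm15

open scoped ENNReal Classical
open Finset
open Crest.Agent.R154.B5A Crest.Agent.R154.FP178

lemma swap3 {α β γ : Type*} (f : α → β → γ → ℝ≥0∞) :
    ∑' a, ∑' b, ∑' c, f a b c = ∑' c, ∑' a, ∑' b, f a b c := by
  calc _ = ∑' a, ∑' c, ∑' b, f a b c := tsum_congr fun a => ENNReal.tsum_comm
    _ = _ := ENNReal.tsum_comm

section law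

variable {B G : Type*} [AddCommGroup G] (Λ : B → ℝ≥0∞) (ht : B → ℕ) (dz : B → G)

/-- total displacement -/
def Dp (dz : B → G) (L : List B) : G := (L.map dz).sum

lemma Dp_append (L L' : List B) : Dp dz (L ++ L') = Dp dz L + Dp dz L' := by simp [Dp]

/-- law of (overshoot, displacement) of the first passage of `a` -/
noncomputable def law (a i : ℕ) (z : G) : ℝ≥0∞ :=
  ∑' L, if fp ht a L ∧ HT ht L = a + i ∧ Dp dz L = z then LW Λ L else 0

lemma fiber (a : ℕ) (f : ℕ → G → ℝ≥0∞) :
    ∑' L, (if fp ht a L then LW Λ L * f (HT ht L - a) (Dp dz L) else 0)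
      = ∑' i, ∑' z, law Λ ht dz a i z * f i z := by
  have e : ∀ L, (if fp ht a L then LW Λ L * f (HT ht L - a) (Dp dz L) else 0)
      = ∑' i, ∑' z, (if fp ht a L ∧ HT ht L = a + i ∧ Dp dz L = z then LW Λ L else 0) * f i z := by
    intro L
    by_cases h : fp ht a L
    · have h' := le_HT_of_fp ht h
      rw [if_pos h, tsum_eq_single (HT ht L - a), tsum_eq_single (Dp dz L)]
      · rw [if_pos ⟨h, by omega, rfl⟩]
      · intro z hz; rw [if_neg (fun h' => hz h'.2.2.symm), zero_mul]
      · intro i hi
        rw [ENNReal.tsum_eq_zero]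
        intro z
        rw [if_neg (fun h' => hi (by omega)), zero_mul]
    · simp [h]
  rw [tsum_congr e, ENNReal.tsum_comm]
  refine tsum_congr fun i => ?_
  rw [ENNReal.tsum_comm]
  refine tsum_congr fun z => ?_
  rw [ENNReal.tsum_mul_right, law]

lemma fiber0 (a i0 : ℕ) (f : ℕ → G → ℝ≥0∞) :
    ∑' L, (if fp ht a L ∧ HT ht L ≤ a + i0 then LW Λ L * f (HT ht L - a) (Dp dz L) else 0)
      = ∑ i ∈ range (i0 + 1), ∑' z, law Λ ht dz a i z * f i z := by
  have e := fiber Λ ht dz a (fun i z => if i ≤ i0 then f i z else 0)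
  have e1 : ∑' L, (if fp ht a L ∧ HT ht L ≤ a + i0 then LW Λ L * f (HT ht L - a) (Dp dz L) else 0)
      = ∑' L, (if fp ht a L then LW Λ L * (fun i z => if i ≤ i0 then f i z else 0)
        (HT ht L - a) (Dp dz L) else 0) := by
    refine tsum_congr fun L => ?_
    by_cases h : fp ht a L
    · have h' := le_HT_of_fp ht h
      by_cases h2 : HT ht L ≤ a + i0
      · rw [if_pos ⟨h, h2⟩, if_pos h]
        simp only []
        rw [if_pos (by omega)]
      · rw [if_neg (fun h' => h2 h'.2), if_pos h]
        simp only []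
        rw [if_neg (by omega), mul_zero]
    · simp [h]
  rw [e1, e, tsum_eq_sum (s := range (i0 + 1))]
  · refine sum_congr rfl fun i hi => ?_
    have := mem_range.1 hi
    simp only [show i ≤ i0 by omega, if_true]
  · intro i hi
    have : ¬ i < i0 + 1 := by simpa using hi
    simp only [show ¬ i ≤ i0 by omega, if_false, mul_zero, tsum_zero]

lemma sum_FP_eq (h1 : ∀ b, 1 ≤ ht b) (hΛ : ∑' b, Λ b = 1) (a : ℕ) :
    ∑' L, (if fp ht a L then LW Λ L else 0) = 1 := by
  induction a using Nat.strong_induction_on with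
  | _ a ih =>
    rcases Nat.eq_zero_or_pos a with rfl | ha
    · have := sum_fp_zero Λ ht (fun _ => 1)
      simp only [mul_one] at this
      exact this
    · have := sum_fp_step Λ ht a ha (fun _ => 1)
      simp only [mul_one] at this
      rw [this]
      calc ∑' b, Λ b * ∑' L, (if fp ht (a - ht b) L then LW Λ L else 0)
          = ∑' b, Λ b * 1 := by
            refine tsum_congr fun b => ?_
            rw [ih (a - ht b) (by have := h1 b; omega)]
        _ = 1 := by simpa using hΛ

lemma law_sum (h1 : ∀ b, 1 ≤ ht b) (hΛ : ∑' b, Λ b = 1) (a : ℕ) :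
    ∑' i, ∑' z, law Λ ht dz a i z = 1 := by
  have := fiber Λ ht dz a (fun _ _ => 1)
  simp only [mul_one] at this
  rw [← this, sum_FP_eq Λ ht h1 hΛ a]

lemma law_sum_z (h1 : ∀ b, 1 ≤ ht b) (hΛ : ∑' b, Λ b = 1) (a i : ℕ) :
    ∑' z, law Λ ht dz a i z ≤ 1 :=
  (ENNReal.le_tsum i).trans (law_sum Λ ht dz h1 hΛ a).le

/-- the displacement law of the first passage of `a` is smooth off a small mass -/
theorem law_dens (h1 : ∀ b, 1 ≤ ht b) (hΛ : ∑' b, Λ b = 1) (τ i0 : ℕ) (th q ε : ℝ≥0∞)
    (hε : ∑' L, (if fp ht τ L ∧ τ + i0 < HT ht L then LW Λ L else 0) ≤ ε)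
    (hNG : ∑ i ∈ range (i0 + 1), ∑' z,
      (if th < law Λ ht dz τ i z then law Λ ht dz τ i z else 0) ≤ q) (J : ℕ) :
    ∀ a, J * (τ + i0) ≤ a → ∃ g b : ℕ → G → ℝ≥0∞, (∀ l z, law Λ ht dz a l z ≤ g l z + b l z) ∧
      (∀ l z, g l z ≤ (i0 + 1) * th * ∑ j ∈ range J, q ^ j) ∧
      ∑' l, ∑' z, b l z ≤ q ^ J + ε * ∑ j ∈ range J, q ^ j := by
  refine dens (law Λ ht dz) (law Λ ht dz τ) τ i0 th q ε ?_
    (fun h => (law_sum Λ ht dz h1 hΛ h).le) hNG J
  intro h hh
  set φ : ℕ → G → List B → ℝ≥0∞ := fun l z L => if HT ht L = h + l ∧ Dp dz L = z then 1 else 0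
    with hφ
  have hlaw : ∀ l z, law Λ ht dz h l z
      = ∑' A, (if fp ht τ A then LW Λ A * ∑' L, (if fp ht (h - HT ht A) L then
        LW Λ L * φ l z (A ++ L) else 0) else 0) := by
    intro l z
    rw [← fp_split Λ ht h1 τ h (by omega) (φ l z), law]
    refine tsum_congr fun L => ?_
    simp only [hφ]
    by_cases h2 : fp ht h L <;> by_cases h3 : HT ht L = h + l ∧ Dp dz L = z
    · rw [if_pos ⟨h2, h3⟩, if_pos h2, if_pos h3, mul_one]
    · rw [if_neg (fun h' => h3 h'.2), if_pos h2, if_neg h3, mul_zero]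
    · rw [if_neg (fun h' => h2 h'.1), if_neg h2]
    · rw [if_neg (fun h' => h2 h'.1), if_neg h2]
  refine ⟨fun l z => ∑' A, (if fp ht τ A ∧ τ + i0 < HT ht A then LW Λ A *
    ∑' L, (if fp ht (h - HT ht A) L then LW Λ L * φ l z (A ++ L) else 0) else 0), ?_, ?_⟩
  · refine le_trans ?_ hε
    rw [swap3]
    refine ENNReal.tsum_le_tsum fun A => ?_
    by_cases hA : fp ht τ A ∧ τ + i0 < HT ht A
    · simp only [if_pos hA]
      simp_rw [ENNReal.tsum_mul_left]
      calc _ ≤ LW Λ A * 1 := by
            refine mul_le_mul_right ?_ _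
            rw [swap3]
            refine le_trans (ENNReal.tsum_le_tsum fun L => ?_)
              (sum_FP Λ ht h1 hΛ.le (h - HT ht A))
            by_cases hL : fp ht (h - HT ht A) L
            · simp only [if_pos hL]
              simp_rw [ENNReal.tsum_mul_left]
              calc _ ≤ LW Λ L * 1 := by
                    refine mul_le_mul_right ?_ _
                    rw [tsum_eq_single (HT ht (A ++ L) - h)]
                    · rw [tsum_eq_single (Dp dz (A ++ L))]
                      · simp only [hφ]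
                        split_ifs <;> simp
                      · intro z hz
                        simp only [hφ]
                        rw [if_neg (fun h' => hz h'.2.symm)]
                    · intro l hl
                      rw [ENNReal.tsum_eq_zero]
                      intro z
                      simp only [hφ]
                      rw [if_neg (fun h' => hl (by omega))]
                _ = _ := mul_one _
            · simp only [if_neg hL, tsum_zero]; exact le_rfl
        _ = _ := mul_one _
    · simp only [if_neg hA, tsum_zero]; exact le_rfl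
  · intro l z
    have e3 : ∑ i ∈ range (i0 + 1), ∑' z', law Λ ht dz τ i z' * law Λ ht dz (h - τ - i) l (z - z')
        = ∑' A, (if fp ht τ A ∧ HT ht A ≤ τ + i0 then
          LW Λ A * law Λ ht dz (h - τ - (HT ht A - τ)) l (z - Dp dz A) else 0) :=
      (fiber0 Λ ht dz τ i0 (fun i z' => law Λ ht dz (h - τ - i) l (z - z'))).symm
    rw [e3, hlaw l z, ← ENNReal.tsum_add]
    refine ENNReal.tsum_le_tsum fun A => ?_
    by_cases hA : fp ht τ A
    · have hA' := le_HT_of_fp ht hA
      rw [if_pos hA]
      by_cases hB : τ + i0 < HT ht A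
      · rw [if_pos ⟨hA, hB⟩]; exact le_self_add
      · rw [if_neg (fun h' => hB h'.2), if_pos ⟨hA, not_lt.1 hB⟩, zero_add]
        refine mul_le_mul_right ?_ _
        rw [law]
        refine ENNReal.tsum_le_tsum fun L => ?_
        rw [show h - τ - (HT ht A - τ) = h - HT ht A by omega]
        by_cases hL : fp ht (h - HT ht A) L
        · rw [if_pos hL]
          simp only [hφ]
          by_cases h3 : HT ht (A ++ L) = h + l ∧ Dp dz (A ++ L) = z
          · rw [if_pos h3, mul_one, if_pos ⟨hL, by have := h3.1; rw [HT_append] at this; omega, by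
              rw [← h3.2, Dp_append]; abel⟩]
          · rw [if_neg h3, mul_zero]; exact zero_le
        · rw [if_neg hL]; exact zero_le
    · rw [if_neg hA]; exact zero_le

end law

/-! ### traces -/

section trace

variable {B G : Type*} [AddCommGroup G] (h : B → ℕ) (z : B → G) (s : B → Set (G × ℕ))

/-- positions and depths read by a list of blocks hung at `(x, a)` -/
def TT (h : B → ℕ) (z : B → G) (s : B → Set (G × ℕ)) : List B → G → ℕ → Set (G × ℕ)
  | [], _, _ => ∅
  | b :: L, x, a => {p | ∃ q ∈ s b, p = (x + q.1, a + q.2)} ∪ TT h z s L (x + z b) (a + h b)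

lemma TT_append (L L' : List B) (x : G) (a : ℕ) :
    TT h z s (L ++ L') x a = TT h z s L x a ∪ TT h z s L' (x + Dp z L) (a + HT h L) := by
  induction L generalizing x a with
  | nil => simp [TT, Dp, HT]
  | cons b L ih =>
    simp only [List.cons_append, TT]
    rw [ih, Set.union_assoc, HT_cons, show Dp z (b :: L) = z b + Dp z L by simp [Dp],
      add_assoc, add_assoc]

lemma TT_depth (hs : ∀ b, ∀ q ∈ s b, 1 ≤ q.2 ∧ q.2 ≤ h b) (L : List B) (x : G) (a : ℕ)
    (p : G × ℕ) (hp : p ∈ TT h z s L x a) : a < p.2 ∧ p.2 ≤ a + HT h L := by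
  induction L generalizing x a with
  | nil => simp [TT] at hp
  | cons b L ih =>
    rw [HT_cons]
    rcases hp with ⟨q, hq, rfl⟩ | hp
    · have := hs b q hq
      simp only
      omega
    · have := ih _ _ hp
      omega

lemma TT_shift (L : List B) (x y : G) (a : ℕ) (p : G) (k : ℕ) :
    (p + y, k) ∈ TT h z s L (x + y) a ↔ (p, k) ∈ TT h z s L x a := by
  induction L generalizing x a with
  | nil => simp [TT]
  | cons b L ih =>
    simp only [TT, Set.mem_union, Set.mem_ofPred_eq, Prod.mk.injEq]
    rw [show x + y + z b = (x + z b) + y by abel, ih]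
    refine or_congr_left ?_
    refine exists_congr fun q => and_congr_right fun _ => and_congr_left fun _ => ?_
    rw [show x + y + q.1 = (x + q.1) + y by abel]
    exact add_left_inj y

end trace

end Crest.Agent.R154.Asm15
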