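import Crest.Agent.R154.AsmA_151

/-! Row 154, ROAD 801 (helper151): law of the first passage, smooth part. -/

set_option autoImplicit false

namespace Crest.Agent.R154.X151

open scoped ENNReal
open Crest.Agent.R154.B5A

variable {B G : Type*} [AddCommGroup G] (Λ : B → ℝ≥0∞) (ht : B → ℕ) (z : B → G)

/-- displacement -/
def Dp (L : List B) : G := (L.map z).sum

lemma Dp_nil : Dp z ([] : List B) = 0 := by simp [Dp]
lemma Dp_append (L L' : List B) : Dp z (L ++ L') = Dp z L + Dp z L' := by simp [Dp]

open Classical in
/-- law of (overshoot, displacement) at the first passage -/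
noncomputable def law (a j : ℕ) (y : G) : ℝ≥0∞ :=
  FPE Λ ht a (fun L => if HT ht L = a + j ∧ Dp z L = y then 1 else 0)

lemma law_expand (a : ℕ) (φ : ℕ → G → ℝ≥0∞) :
    FPE Λ ht a (fun L => φ (HT ht L) (Dp z L))
      = ∑' p : ℕ × G, law Λ ht z a p.1 p.2 * φ (a + p.1) p.2 := by
  classical
  have e1 : FPE Λ ht a (fun L => φ (HT ht L) (Dp z L))
      = FPE Λ ht a (fun L => ∑' p : ℕ × G, φ (a + p.1) p.2 *
        (if HT ht L = a + p.1 ∧ Dp z L = p.2 then 1 else 0)) := by
    refine FPE_congr Λ ht a fun L hL => ?_
    rw [tsum_eq_single (HT ht L - a, Dp z L)]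
    · simp only
      rw [if_pos ⟨by omega, trivial⟩, mul_one, show a + (HT ht L - a) = HT ht L by omega]
    · rintro ⟨j, y⟩ hne
      simp only
      rw [if_neg, mul_zero]
      rintro ⟨h1, h2⟩
      apply hne
      rw [Prod.mk.injEq]
      exact ⟨by omega, h2.symm⟩
  rw [e1, FPE_tsum]
  refine tsum_congr fun p => ?_
  rw [FPE_mul, mul_comm]
  rfl

variable (h1 : ∀ b, 1 ≤ ht b) (hΛ : ∑' b, Λ b = 1)
include h1 hΛ

lemma law_sum (a : ℕ) : ∑' p : ℕ × G, law Λ ht z a p.1 p.2 = 1 := by
  have := law_expand Λ ht z a (fun _ _ => 1)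
  simp only [mul_one] at this
  rw [← this, FPE_one Λ ht h1 hΛ]

lemma law_row (a j : ℕ) : ∑' y, law Λ ht z a j y ≤ 1 := by
  rw [← law_sum Λ ht z h1 hΛ a, ENNReal.tsum_prod]
  exact ENNReal.le_tsum j

lemma law_row' (a j : ℕ) (y : G) : ∑' y', law Λ ht z a j (y - y') ≤ 1 := by
  exact (le_of_eq ((Equiv.subLeft y).tsum_eq (fun y' => law Λ ht z a j y'))).trans
    (law_row Λ ht z h1 hΛ a j)

open Classical in
/-- **smooth part of the first passage law** -/
theorem smooth (l i0 : ℕ) (th r ov : ℝ≥0∞)
    (hr : FPE Λ ht l (fun P => if HT ht P ≤ l + i0 ∧ ¬ law Λ ht z l (HT ht P - l) (Dp z P) ≤ th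
      then 1 else 0) ≤ r)
    (hov : FPE Λ ht l (fun P => if l + i0 < HT ht P then 1 else 0) ≤ ov) (N : ℕ) :
    ∀ T, N * (l + i0) ≤ T → ∃ g b : ℕ → G → ℝ≥0∞,
      (∀ j y, law Λ ht z T j y = g j y + b j y) ∧
      (∀ j y, g j y ≤ ∑ k ∈ Finset.range N, r ^ k * ((i0 + 1 : ℕ) * th)) ∧
      ∑' p : ℕ × G, b p.1 p.2 ≤ r ^ N + ∑ k ∈ Finset.range N, r ^ k * ov := by
  induction N with
  | zero =>
    intro T _
    refine ⟨fun _ _ => 0, law Λ ht z T, fun j y => (zero_add _).symm, fun j y => by simp, ?_⟩
    rw [law_sum Λ ht z h1 hΛ]; simp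
  | succ N ih =>
    intro T hT
    have hlT : l + i0 ≤ T := by
      rw [Nat.succ_mul] at hT; omega
    choose! g' b' hgb hg hb using ih
    set inner : List B → ℕ → G → ℝ≥0∞ := fun P j y =>
      FPE Λ ht (T - HT ht P) (fun L => if HT ht (P ++ L) = T + j ∧ Dp z (P ++ L) = y then 1 else 0)
      with hinner
    have hlaw : ∀ j y, law Λ ht z T j y = FPE Λ ht l (fun P => inner P j y) := by
      intro j y
      rw [law, markov Λ ht h1 l T (by omega)]
    have hin : ∀ P, HT ht P ≤ T → ∀ j y, inner P j y = law Λ ht z (T - HT ht P) j (y - Dp z P) := by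
      intro P hP j y
      simp only [hinner, law]
      refine FPE_congr Λ ht _ fun L _ => ?_
      rw [HT_append, Dp_append]
      refine if_congr ?_ rfl rfl
      constructor
      · rintro ⟨h, h'⟩; exact ⟨by omega, by rw [← h']; abel⟩
      · rintro ⟨h, h'⟩; exact ⟨by omega, by rw [h']; abel⟩
    have hin1 : ∀ P, ∑' p : ℕ × G, inner P p.1 p.2 ≤ 1 := by
      intro P
      simp only [hinner]
      rw [← FPE_tsum]
      refine FPE_le_one Λ ht h1 hΛ _ _ fun L _ => ?_
      by_cases hh : T ≤ HT ht (P ++ L)
      · rw [tsum_eq_single (HT ht (P ++ L) - T, Dp z (P ++ L))]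
        · split_ifs <;> simp
        · rintro ⟨j, y⟩ hne
          rw [if_neg]
          rintro ⟨h2, h3⟩
          apply hne
          simp only at h2 h3
          rw [Prod.mk.injEq]
          exact ⟨by omega, h3.symm⟩
      · have : ∀ p : ℕ × G, (if HT ht (P ++ L) = T + p.1 ∧ Dp z (P ++ L) = p.2
            then (1 : ℝ≥0∞) else 0) = 0 := fun p => if_neg fun h => hh (by omega)
        simp_rw [this]; simp
    refine ⟨fun j y => FPE Λ ht l (fun P => if l + i0 < HT ht P then 0 else
        if law Λ ht z l (HT ht P - l) (Dp z P) ≤ th then inner P j y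
        else g' (T - HT ht P) j (y - Dp z P)),
      fun j y => FPE Λ ht l (fun P => if l + i0 < HT ht P then inner P j y else
        if law Λ ht z l (HT ht P - l) (Dp z P) ≤ th then 0
        else b' (T - HT ht P) j (y - Dp z P)), ?_, ?_, ?_⟩
    · intro j y
      rw [hlaw, ← FPE_add]
      refine FPE_congr Λ ht _ fun P hP => ?_
      by_cases ho : l + i0 < HT ht P
      · simp [ho]
      · simp only [ho, if_false]
        by_cases hgd : law Λ ht z l (HT ht P - l) (Dp z P) ≤ th
        · simp [hgd]
        · simp only [hgd, if_false]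
          rw [hin P (by omega), hgb _ (by rw [Nat.succ_mul] at hT; omega)]
    · intro j y
      set GN := ∑ k ∈ Finset.range N, r ^ k * ((i0 + 1 : ℕ) * th) with hGN
      have step : FPE Λ ht l (fun P => if l + i0 < HT ht P then 0 else
          if law Λ ht z l (HT ht P - l) (Dp z P) ≤ th then inner P j y
          else g' (T - HT ht P) j (y - Dp z P))
          ≤ FPE Λ ht l (fun P => (fun (n : ℕ) (y' : G) => if n ≤ l + i0 ∧
              law Λ ht z l (n - l) y' ≤ th then law Λ ht z (T - n) j (y - y') else 0)
              (HT ht P) (Dp z P))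
            + GN * FPE Λ ht l (fun P => if HT ht P ≤ l + i0 ∧
              ¬ law Λ ht z l (HT ht P - l) (Dp z P) ≤ th then 1 else 0) := by
        rw [← FPE_mul, ← FPE_add]
        refine FPE_mono Λ ht _ fun P hP => ?_
        by_cases ho : l + i0 < HT ht P
        · simp [ho]
        · simp only [ho, if_false]
          by_cases hgd : law Λ ht z l (HT ht P - l) (Dp z P) ≤ th
          · rw [if_pos hgd, if_pos (show HT ht P ≤ l + i0 ∧
              law Λ ht z l (HT ht P - l) (Dp z P) ≤ th from ⟨by omega, hgd⟩), hin P (by omega)]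
            exact le_self_add
          · rw [if_neg hgd, if_neg (show ¬ (HT ht P ≤ l + i0 ∧
              law Λ ht z l (HT ht P - l) (Dp z P) ≤ th) from fun h => hgd h.2),
              if_pos (show HT ht P ≤ l + i0 ∧ ¬
              law Λ ht z l (HT ht P - l) (Dp z P) ≤ th from ⟨by omega, hgd⟩), mul_one, zero_add]
            exact hg _ (by rw [Nat.succ_mul] at hT; omega) _ _
      refine step.trans ?_
      rw [law_expand Λ ht z l (fun (n : ℕ) (y' : G) => if n ≤ l + i0 ∧
              law Λ ht z l (n - l) y' ≤ th then law Λ ht z (T - n) j (y - y') else 0)]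
      rw [Finset.sum_range_succ', pow_zero, one_mul, add_comm]
      refine add_le_add ?_ ?_
      · calc GN * FPE Λ ht l (fun P => if HT ht P ≤ l + i0 ∧
              ¬ law Λ ht z l (HT ht P - l) (Dp z P) ≤ th then 1 else 0) ≤ GN * r :=
              mul_le_mul_right hr _
          _ = ∑ k ∈ Finset.range N, r ^ (k + 1) * ((i0 + 1 : ℕ) * th) := by
              rw [hGN, Finset.sum_mul]
              refine Finset.sum_congr rfl fun k _ => ?_
              ring
      · calc ∑' p : ℕ × G, law Λ ht z l p.1 p.2 * (if l + p.1 ≤ l + i0 ∧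
              law Λ ht z l (l + p.1 - l) p.2 ≤ th then law Λ ht z (T - (l + p.1)) j (y - p.2) else 0)
            ≤ ∑' p : ℕ × G, (if p.1 ∈ Finset.range (i0 + 1) then
                th * law Λ ht z (T - (l + p.1)) j (y - p.2) else 0) := by
              refine ENNReal.tsum_le_tsum fun p => ?_
              by_cases hp : l + p.1 ≤ l + i0 ∧ law Λ ht z l (l + p.1 - l) p.2 ≤ th
              · rw [if_pos hp, if_pos (Finset.mem_range.2 (by omega))]
                refine mul_le_mul_left ?_ _
                have := hp.2
                rwa [Nat.add_sub_cancel_left] at this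
              · rw [if_neg hp, mul_zero]; exact zero_le
          _ = ∑' i : ℕ, (if i ∈ Finset.range (i0 + 1) then
                th * ∑' y', law Λ ht z (T - (l + i)) j (y - y') else 0) := by
              rw [ENNReal.tsum_prod']
              refine tsum_congr fun i => ?_
              split_ifs
              · rw [ENNReal.tsum_mul_left]
              · simp
          _ ≤ ∑' i : ℕ, (if i ∈ Finset.range (i0 + 1) then th else 0) := by
              refine ENNReal.tsum_le_tsum fun i => ?_
              split_ifs
              · calc _ ≤ th * 1 := mul_le_mul_right (law_row' Λ ht z h1 hΛ _ _ _) _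
                  _ = th := mul_one _
              · exact le_rfl
          _ = ((i0 + 1 : ℕ) : ℝ≥0∞) * th := by
              rw [tsum_eq_sum (s := Finset.range (i0 + 1))]
              · rw [Finset.sum_congr rfl (fun i hi => if_pos hi)]
                simp
              · intro i hi; rw [if_neg hi]
    · set BN := r ^ N + ∑ k ∈ Finset.range N, r ^ k * ov with hBN
      rw [← FPE_tsum]
      calc FPE Λ ht l (fun P => ∑' p : ℕ × G, (if l + i0 < HT ht P then inner P p.1 p.2 else
            if law Λ ht z l (HT ht P - l) (Dp z P) ≤ th then 0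
            else b' (T - HT ht P) p.1 (p.2 - Dp z P)))
          ≤ FPE Λ ht l (fun P => (if l + i0 < HT ht P then 1 else 0) +
            BN * (if HT ht P ≤ l + i0 ∧
              ¬ law Λ ht z l (HT ht P - l) (Dp z P) ≤ th then 1 else 0)) := by
            refine FPE_mono Λ ht _ fun P hP => ?_
            by_cases ho : l + i0 < HT ht P
            · simp only [ho, if_true]
              exact (hin1 P).trans le_self_add
            · simp only [ho, if_false]
              by_cases hgd : law Λ ht z l (HT ht P - l) (Dp z P) ≤ th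
              · simp [hgd]
              · simp only [hgd, if_false, not_false_eq_true, and_true]
                rw [if_pos (by omega), mul_one, zero_add]
                refine le_trans (le_of_eq ?_) (hb (T - HT ht P) (by rw [Nat.succ_mul] at hT; omega))
                rw [ENNReal.tsum_prod', ENNReal.tsum_prod']
                refine tsum_congr fun j => ?_
                exact (Equiv.subRight (Dp z P)).tsum_eq (fun y => b' (T - HT ht P) j y)
        _ = FPE Λ ht l (fun P => if l + i0 < HT ht P then 1 else 0) +
            BN * FPE Λ ht l (fun P => if HT ht P ≤ l + i0 ∧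
              ¬ law Λ ht z l (HT ht P - l) (Dp z P) ≤ th then 1 else 0) := by
            rw [FPE_add Λ ht l (fun P => if l + i0 < HT ht P then 1 else 0), FPE_mul]
        _ ≤ ov + BN * r := add_le_add hov (mul_le_mul_right hr _)
        _ = _ := by
            rw [hBN, Finset.sum_range_succ', pow_zero, one_mul, add_mul, Finset.sum_mul, pow_succ]
            have : ∑ k ∈ Finset.range N, r ^ k * ov * r = ∑ k ∈ Finset.range N, r ^ (k + 1) * ov :=
              Finset.sum_congr rfl fun k _ => by ring
            rw [this]
            ring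

end Crest.Agent.R154.X151
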