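import Crest.Agent.R154.AsmA_177
import Crest.Agent.R154.KWBind_419

/-! Row 154, ROAD 801 (helper177): one window. -/

set_option autoImplicit false

namespace Crest.Agent.R154.Asm177

open scoped ENNReal Classical
open Crest.Agent.R154.B5A Crest.Agent.R154.FP178
open Crest.Agent.R154.KWB419 (TT)

section trace

variable {B G : Type*} [AddCommGroup G] (s : B → Set (G × ℕ)) (h : B → ℕ) (z : B → G)

lemma TT_append (L L' : List B) (x : G) (a : ℕ) :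
    TT s h z (L ++ L') x a = TT s h z L x a ∪ TT s h z L' (x + Dp z L) (a + HT h L) := by
  induction L generalizing x a with
  | nil => simp [TT, Dp, HT]
  | cons b L ih =>
    simp only [List.cons_append, TT]
    rw [ih, Set.union_assoc, HT_cons, show Dp z (b :: L) = z b + Dp z L by simp [Dp],
      ← add_assoc, ← add_assoc]

lemma TT_shift (L : List B) (x c : G) (a : ℕ) (y : G) (k : ℕ) :
    (y, k) ∈ TT s h z L (x + c) a ↔ (y - c, k) ∈ TT s h z L x a := by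
  induction L generalizing x a with
  | nil => simp [TT]
  | cons b L ih =>
    simp only [TT, Set.mem_union, Set.mem_setOf_eq]
    rw [show x + c + z b = (x + z b) + c by abel, ih]
    refine or_congr_left ?_
    constructor
    · rintro ⟨q, hq, e⟩
      refine ⟨q, hq, ?_⟩
      rw [Prod.mk.injEq] at e ⊢
      exact ⟨by rw [e.1]; abel, e.2⟩
    · rintro ⟨q, hq, e⟩
      refine ⟨q, hq, ?_⟩
      rw [Prod.mk.injEq] at e ⊢
      refine ⟨?_, e.2⟩
      have := e.1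
      rw [sub_eq_iff_eq_add] at this
      rw [this]; abel

lemma TT_depth (hs : ∀ b q, q ∈ s b → 1 ≤ q.2 ∧ q.2 ≤ h b) (L : List B) (x : G) (a : ℕ)
    {y : G} {k : ℕ} (hy : (y, k) ∈ TT s h z L x a) : a < k ∧ k ≤ a + HT h L := by
  induction L generalizing x a with
  | nil => simp [TT] at hy
  | cons b L ih =>
    simp only [TT, Set.mem_union, Set.mem_setOf_eq] at hy
    rw [HT_cons]
    rcases hy with ⟨q, hq, e⟩ | hy
    · have := hs b q hq
      rw [Prod.mk.injEq] at e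
      omega
    · have := ih _ _ hy
      omega

end trace

section two

variable {BX BY G : Type*} [AddCommGroup G] (ΛX : BX → ℝ≥0∞) (ΛY : BY → ℝ≥0∞)
  (hX : BX → ℕ) (hY : BY → ℕ) (zX : BX → G) (zY : BY → G)
  (sX : BX → Set (G × ℕ)) (sY : BY → Set (G × ℕ))

/-- contact depths of two placed lists -/
def CT (L : List BX) (a : ℕ) (L' : List BY) (x : G) (a' : ℕ) : Set ℕ :=
  {k | ∃ y, (y, k) ∈ TT sX hX zX L 0 a ∧ (y, k) ∈ TT sY hY zY L' x a'}

/-- window lemma, `X` local -/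
def H2 (C : ℝ≥0∞) (us : ℕ → ℝ≥0∞) : Prop :=
  ∀ (s h h' a a' lo : ℕ) (E : Finset G) (μ : G → ℝ≥0∞) (M lam : ℝ≥0∞), ∑' x, μ x ≤ 1 →
    (∀ x, μ x ≤ M) → lam ≠ 0 → lam ≠ ⊤ → a ≤ a' → a + s ≤ lo → a' + s ≤ lo →
    ∑' x, μ x * (∑' L : List BX, ∑' L' : List BY,
      if HT hX L = h ∧ Dp zX L ∈ E ∧ HT hY L' = h' ∧
          (∃ k, k ∈ CT hX hY zX zY sX sY L a L' x a') ∧
          (∀ k ∈ CT hX hY zX zY sX sY L a L' x a', lo ≤ k) then LW ΛX L * LW ΛY L' else 0)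
      ≤ C * (lam + M * E.card * us s / lam + us s)

/-- window lemma, `Y` local -/
def H3 (C : ℝ≥0∞) (us : ℕ → ℝ≥0∞) : Prop :=
  ∀ (s h h' a a' hi : ℕ) (E : Finset G) (μ : G → ℝ≥0∞) (M lam : ℝ≥0∞), ∑' x, μ x ≤ 1 →
    (∀ x, μ x ≤ M) → lam ≠ 0 → lam ≠ ⊤ → a + h ≤ a' + h' → hi + s ≤ a + h → hi + s ≤ a' + h' →
    ∑' x, μ x * (∑' L : List BX, ∑' L' : List BY,
      if HT hX L = h ∧ HT hY L' = h' ∧ Dp zY L' ∈ E ∧
          (∃ k, k ∈ CT hX hY zX zY sX sY L a L' x a') ∧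
          (∀ k ∈ CT hX hY zX zY sX sY L a L' x a', k ≤ hi) then LW ΛX L * LW ΛY L' else 0)
      ≤ C * (lam + M * E.card * us s / lam + us s)

/-- thin slab -/
def H5 : Prop := ∀ (s : ℕ) (η : ℝ≥0∞), η ≠ 0 → ∃ T : ℕ, ∀ a, T ≤ a → ∀ (n : ℕ) (x : G),
  ∑' L : List BX, ∑' L' : List BY, (if HT hX L = n ∧ HT hY L' = n ∧
    (∃ k, k ∈ CT hX hY zX zY sX sY L 0 L' x 0 ∧ a ≤ k ∧ k < a + s)
      then LW ΛX L * LW ΛY L' else 0) ≤ η

/-- placed pieces: contact iff contact after translation -/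
lemma CT_shift (P : List BX) (P' : List BY) (α α' : ℕ) (x x' : G) (k : ℕ) :
    (∃ y, (y, k) ∈ TT sX hX zX P x α ∧ (y, k) ∈ TT sY hY zY P' x' α')
      ↔ k ∈ CT hX hY zX zY sX sY P α P' (x' - x) α' := by
  unfold CT
  constructor
  · rintro ⟨y, h, h'⟩
    refine ⟨y - x, ?_, ?_⟩
    · have := (TT_shift sX hX zX P 0 x α y k).1 (by rwa [zero_add])
      exact this
    · exact (TT_shift sY hY zY P' (x' - x) x α' y k).1 (by rwa [sub_add_cancel])
  · rintro ⟨y, h, h'⟩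
    refine ⟨y + x, ?_, ?_⟩
    · have := (TT_shift sX hX zX P 0 x α (y + x) k).2 (by rwa [add_sub_cancel_right])
      rwa [zero_add] at this
    · have := (TT_shift sY hY zY P' (x' - x) x α' (y + x) k).2 (by rwa [add_sub_cancel_right])
      rwa [sub_add_cancel] at this

/-- everything about one placed pair of pieces -/
def K0 (a T i0 lo hi : ℕ) (w : G) (α : ℕ) (x : G) (P : List BX) (α' : ℕ) (x' : G)
    (P' : List BY) : Prop :=
  (a ≤ α ∧ α ≤ a + i0) ∧ (3 * T ≤ HT hX P ∧ HT hX P ≤ 3 * T + i0) ∧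
  (a + 2 * i0 ≤ α' ∧ α' ≤ a + 2 * i0 + i0) ∧ (3 * T ≤ HT hY P' ∧ HT hY P' ≤ 3 * T + i0) ∧
  (∃ k, k ∈ CT hX hY zX zY sX sY P α P' (w + x' - x) α') ∧
  (∀ k ∈ CT hX hY zX zY sX sY P α P' (w + x' - x) α', lo ≤ k ∧ k ≤ hi)

/-- the window event -/
def Ev (a T i0 s : ℕ) (w : G) (L : List BX) (L' : List BY) : Prop :=
  (∀ k ∈ CT hX hY zX zY sX sY L 0 L' w 0, a + T < k) ∧
  (∃ k ∈ CT hX hY zX zY sX sY L 0 L' w 0, k ≤ a + 2 * T) ∧
  (∀ k ∈ CT hX hY zX zY sX sY L 0 L' w 0, ¬ (a + 3 * T - s + 1 ≤ k ∧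
    k < a + 3 * T - s + 1 + (s + 2 * i0)))

variable (hsX : ∀ b q, q ∈ sX b → 1 ≤ q.2 ∧ q.2 ≤ hX b)
  (hsY : ∀ b q, q ∈ sY b → 1 ≤ q.2 ∧ q.2 ≤ hY b)

include hsX hsY in
lemma ev_K0 {a T i0 s : ℕ} (hT : 3 * i0 + s ≤ T) {w : G} {A P R : List BX} {A' P' R' : List BY}
    (hA : fp hX a A) (hP : fp hX (3 * T) P) (hA1 : HT hX A ≤ a + i0) (hP1 : HT hX P ≤ 3 * T + i0)
    (hA' : fp hY (a + 2 * i0) A') (hP' : fp hY (3 * T) P') (hA1' : HT hY A' ≤ a + 2 * i0 + i0)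
    (hP1' : HT hY P' ≤ 3 * T + i0)
    (hE : Ev hX hY zX zY sX sY a T i0 s w (A ++ (P ++ R)) (A' ++ (P' ++ R'))) :
    K0 hX hY zX zY sX sY a T i0 (a + T + 1) (a + 3 * T - s) w (HT hX A) (Dp zX A) P
      (HT hY A') (Dp zY A') P' := by
  have b1 := le_HT_of_fp hX hA
  have b2 := le_HT_of_fp hX hP
  have b3 := le_HT_of_fp hY hA'
  have b4 := le_HT_of_fp hY hP'
  obtain ⟨e1, ⟨k0, hk0, hk1⟩, e3⟩ := hE
  -- pieces inside the lists
  have inX : ∀ y k, (y, k) ∈ TT sX hX zX P (Dp zX A) (HT hX A) →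
      (y, k) ∈ TT sX hX zX (A ++ (P ++ R)) 0 0 := by
    intro y k h
    rw [TT_append, TT_append]
    right; left
    rwa [zero_add, zero_add]
  have inY : ∀ y k, (y, k) ∈ TT sY hY zY P' (w + Dp zY A') (HT hY A') →
      (y, k) ∈ TT sY hY zY (A' ++ (P' ++ R')) w 0 := by
    intro y k h
    rw [TT_append, TT_append]
    right; left
    rwa [zero_add]
  have sub : ∀ k, k ∈ CT hX hY zX zY sX sY P (HT hX A) P' (w + Dp zY A' - Dp zX A) (HT hY A') →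
      k ∈ CT hX hY zX zY sX sY (A ++ (P ++ R)) 0 (A' ++ (P' ++ R')) w 0
        ∧ k ≤ HT hX A + HT hX P := by
    intro k hk
    obtain ⟨y, h, h'⟩ := (CT_shift hX hY zX zY sX sY P P' (HT hX A) (HT hY A') (Dp zX A)
      (w + Dp zY A') k).2 hk
    exact ⟨⟨y, inX y k h, inY y k h'⟩, (TT_depth sX hX zX hsX P _ _ h).2⟩
  refine ⟨⟨b1, hA1⟩, ⟨b2, hP1⟩, ⟨b3, hA1'⟩, ⟨b4, hP1'⟩, ⟨k0, ?_⟩, ?_⟩
  · refine (CT_shift hX hY zX zY sX sY P P' (HT hX A) (HT hY A') (Dp zX A)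
      (w + Dp zY A') k0).1 ?_
    obtain ⟨y, h, h'⟩ := hk0
    have hk0' := e1 k0 ⟨y, h, h'⟩
    refine ⟨y, ?_, ?_⟩
    · rw [TT_append, TT_append] at h
      rcases h with h | h | h
      · have := (TT_depth sX hX zX hsX A _ _ h).2; omega
      · rwa [zero_add, zero_add] at h
      · have := (TT_depth sX hX zX hsX R _ _ h).1; omega
    · rw [TT_append, TT_append] at h'
      rcases h' with h | h | h
      · have := (TT_depth sY hY zY hsY A' _ _ h).2; omega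
      · rwa [zero_add] at h
      · have := (TT_depth sY hY zY hsY R' _ _ h).1; omega
  · intro k hk
    obtain ⟨hk', hk2⟩ := sub k hk
    have h1 := e1 k hk'
    have h3 := e3 k hk'
    omega

variable (h1X : ∀ b, 1 ≤ hX b) (h1Y : ∀ b, 1 ≤ hY b)
  (hΛX : ∑' b, ΛX b = 1) (hΛY : ∑' b, ΛY b = 1)
  (hUX : ∀ n, U ΛX hX n ≤ 1) (hUY : ∀ n, U ΛY hY n ≤ 1)

include hsX hsY h1X h1Y hΛX hΛY hUX hUY in
lemma win_split (a T i0 s n : ℕ) (hT : 3 * i0 + s ≤ T) (hn : a + 3 * T + 5 * i0 ≤ n) (x : G)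
    (εX εY : ℝ≥0∞)
    (hεX : ∀ a, ∑' L, (if fp hX a L ∧ a + i0 < HT hX L then LW ΛX L else 0) ≤ εX)
    (hεY : ∀ a, ∑' L, (if fp hY a L ∧ a + i0 < HT hY L then LW ΛY L else 0) ≤ εY) :
    ∑' L, v ΛX hX n L * ∑' L', v ΛY hY n L' *
      (if Ev hX hY zX zY sX sY a T i0 s x L L' then 1 else 0)
      ≤ 2 * εX + (2 * εY + ∑' A, w ΛX hX a A * ∑' P, w ΛX hX (3 * T) P *
        ∑' A', w ΛY hY (a + 2 * i0) A' * ∑' P', w ΛY hY (3 * T) P' *
        (if K0 hX hY zX zY sX sY a T i0 (a + T + 1) (a + 3 * T - s) x (HT hX A) (Dp zX A) P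
          (HT hY A') (Dp zY A') P' then 1 else 0)) := by
  refine (lemD ΛX hX h1X hΛX.le hUX a (3 * T) i0 n (by omega) εX hεX _ ?_
    (fun A P => 2 * εY + ∑' A', w ΛY hY (a + 2 * i0) A' * ∑' P', w ΛY hY (3 * T) P' *
        (if K0 hX hY zX zY sX sY a T i0 (a + T + 1) (a + 3 * T - s) x (HT hX A) (Dp zX A) P
          (HT hY A') (Dp zY A') P' then 1 else 0)) ?_).trans ?_
  · intro L
    refine le_trans (ENNReal.tsum_le_tsum fun L' => ?_) (sum_v ΛY hY hUY n)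
    split_ifs
    · rw [mul_one]
    · rw [mul_zero]; exact zero_le
  · intro A P R hA hP hA1 hP1
    refine lemD ΛY hY h1Y hΛY.le hUY (a + 2 * i0) (3 * T) i0 n (by omega) εY hεY _ ?_ _ ?_
    · intro L'
      split_ifs
      · exact le_rfl
      · exact zero_le
    · intro A' P' R' hA' hP' hA1' hP1'
      by_cases hE : Ev hX hY zX zY sX sY a T i0 s x (A ++ (P ++ R)) (A' ++ (P' ++ R'))
      · rw [if_pos hE, if_pos (ev_K0 hX hY zX zY sX sY hsX hsY hT hA hP hA1 hP1 hA' hP' hA1' hP1'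
          hE)]
      · rw [if_neg hE]; exact zero_le
  · refine add_le_add_right ?_ _
    calc ∑' A, w ΛX hX a A * ∑' P, w ΛX hX (3 * T) P * (2 * εY + ∑' A',
          w ΛY hY (a + 2 * i0) A' * ∑' P', w ΛY hY (3 * T) P' *
        (if K0 hX hY zX zY sX sY a T i0 (a + T + 1) (a + 3 * T - s) x (HT hX A) (Dp zX A) P
          (HT hY A') (Dp zY A') P' then 1 else 0))
        = (∑' A, w ΛX hX a A) * ((∑' P, w ΛX hX (3 * T) P) * (2 * εY)) +
          ∑' A, w ΛX hX a A * ∑' P, w ΛX hX (3 * T) P * ∑' A',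
          w ΛY hY (a + 2 * i0) A' * ∑' P', w ΛY hY (3 * T) P' *
        (if K0 hX hY zX zY sX sY a T i0 (a + T + 1) (a + 3 * T - s) x (HT hX A) (Dp zX A) P
          (HT hY A') (Dp zY A') P' then 1 else 0) := by
          simp only [mul_add, ENNReal.tsum_add, ENNReal.tsum_mul_right]
      _ ≤ 1 * (1 * (2 * εY)) + _ := by
          refine add_le_add_left ?_ _
          exact mul_le_mul' (sum_w ΛX hX h1X hΛX.le a)
            (mul_le_mul_left (sum_w ΛX hX h1X hΛX.le _) _)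
      _ = _ := by rw [one_mul, one_mul]

end two

end Crest.Agent.R154.Asm177
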