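import Crest.Agent.R154.AsmA_201

/-! Row 154, ROAD 801: smooth density for first passage lists (helper201). -/

set_option autoImplicit false

namespace Crest.Agent.R154.Asm201

open scoped ENNReal Classical
open Filter Topology Crest.Agent.R154.B5A

section abs

variable {W : Type*} [AddCommGroup W]

lemma conv_sum (w : W → ℝ≥0∞) (K : W → W → ℝ≥0∞) :
    ∑' v, ∑' c, w c * K c (v - c) = ∑' c, w c * ∑' v, K c v := by
  rw [ENNReal.tsum_comm]
  refine tsum_congr fun c => ?_
  rw [ENNReal.tsum_mul_left]
  congr 1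
  exact (Equiv.subRight c).tsum_eq (K c)

lemma sub_sum (f : W → ℝ≥0∞) (v : W) : ∑' c, f (v - c) = ∑' c, f c :=
  (Equiv.subLeft v).tsum_eq f

/-- smooth density -/
theorem dens (lev : W → ℕ) (V : ℕ → W → ℝ≥0∞) (p : W → ℝ≥0∞) (l : ℕ)
    (hconv : ∀ h, l ≤ h → ∀ v, V h v ≤ ∑' c, p c * V (h - lev c) (v - c))
    (hl : ∀ c, p c ≠ 0 → l ≤ lev c) (hV : ∀ h, ∑' v, V h v ≤ 1) (i0 : ℕ) (th q ε : ℝ≥0∞)
    (hp1 : ∑' c, (if lev c ≤ l + i0 ∧ th < p c then p c else 0) ≤ q) (hq1 : q ≤ 1)
    (hε : ∑' c, (if l + i0 < lev c then p c else 0) ≤ ε) (J : ℕ) :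
    ∀ h, J * (l + i0) ≤ h → ∃ Ag Bb : W → ℝ≥0∞, (∀ v, V h v ≤ Ag v + Bb v) ∧
      (∀ v, Ag v ≤ J * ((i0 + 1) * th)) ∧ ∑' v, Bb v ≤ q ^ J + J * ε := by
  induction J with
  | zero =>
    intro h _
    refine ⟨fun _ => 0, V h, fun v => by simp, fun v => by simp, ?_⟩
    simpa using hV h
  | succ J ih =>
    intro h hh
    have hJ : (J + 1) * (l + i0) = J * (l + i0) + (l + i0) := by ring
    have hs : l ≤ h := by
      have := Nat.zero_le (J * (l + i0))
      omega
    have hch : ∀ k, ∃ Ag Bb : W → ℝ≥0∞, k ≤ l + i0 → (∀ v, V (h - k) v ≤ Ag v + Bb v) ∧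
        (∀ v, Ag v ≤ J * ((i0 + 1) * th)) ∧ ∑' v, Bb v ≤ q ^ J + J * ε := by
      intro k
      by_cases hk : k ≤ l + i0
      · obtain ⟨a, b, h1⟩ := ih (h - k) (by omega)
        exact ⟨a, b, fun _ => h1⟩
      · exact ⟨0, 0, fun h => absurd h hk⟩
    choose A Bd hAB using hch
    set f : W → ℝ≥0∞ := fun c => if l + i0 < lev c then p c else 0 with hf
    set sm : W → ℝ≥0∞ := fun c => if lev c ≤ l + i0 ∧ ¬ th < p c then p c else 0 with hsm
    set g : W → ℝ≥0∞ := fun c => if lev c ≤ l + i0 ∧ th < p c then p c else 0 with hg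
    refine ⟨fun v => ∑' c, sm c * V (h - lev c) (v - c) + ∑' c, g c * A (lev c) (v - c),
      fun v => ∑' c, f c * V (h - lev c) (v - c) + ∑' c, g c * Bd (lev c) (v - c), ?_, ?_, ?_⟩
    · intro v
      refine (hconv h hs v).trans ?_
      simp only
      rw [← ENNReal.tsum_add, ← ENNReal.tsum_add, ← ENNReal.tsum_add]
      refine ENNReal.tsum_le_tsum fun c => ?_
      by_cases hi : lev c ≤ l + i0
      · by_cases ht : th < p c
        · have e1 : g c = p c := by simp [hg, hi, ht]
          have e2 : sm c = 0 := by simp [hsm, ht]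
          have e3 : f c = 0 := by simp [hf, not_lt.2 hi]
          rw [e1, e2, e3]
          simp only [zero_mul, zero_add]
          rw [← mul_add]
          gcongr
          exact (hAB _ hi).1 _
        · have e2 : sm c = p c := by simp [hsm, ht, hi]
          rw [e2]
          exact le_add_right (le_add_right le_rfl)
      · have e3 : f c = p c := by simp [hf, not_le.1 hi]
        rw [e3]
        exact le_add_left (le_add_right le_rfl)
    · intro v
      have h1 : ∑' c, sm c * V (h - lev c) (v - c) ≤ (i0 + 1) * th := by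
        calc _ ≤ ∑' c, ∑ j ∈ Finset.range (i0 + 1), th * V (h - (l + j)) (v - c) := by
              refine ENNReal.tsum_le_tsum fun c => ?_
              by_cases hi : lev c ≤ l + i0 ∧ ¬ th < p c
              swap
              · rw [show sm c = 0 from if_neg hi, zero_mul]; exact zero_le
              rw [show sm c = p c from if_pos hi]
              by_cases h0 : p c = 0
              · rw [h0, zero_mul]; exact zero_le
              have hle := hl c h0
              refine le_trans ?_ (Finset.single_le_sum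
                (f := fun j => th * V (h - (l + j)) (v - c)) (fun _ _ => zero_le)
                (Finset.mem_range.2 (show lev c - l < i0 + 1 by omega)))
              rw [show l + (lev c - l) = lev c by omega]
              gcongr
              exact not_lt.1 hi.2
          _ = ∑ j ∈ Finset.range (i0 + 1), th * ∑' c, V (h - (l + j)) c := by
              rw [Summable.tsum_finsetSum fun _ _ => ENNReal.summable]
              refine Finset.sum_congr rfl fun j _ => ?_
              rw [ENNReal.tsum_mul_left, sub_sum]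
          _ ≤ ∑ j ∈ Finset.range (i0 + 1), th * 1 := by
              gcongr
              exact hV _
          _ = _ := by simp
      have h2 : ∑' c, g c * A (lev c) (v - c) ≤ J * ((i0 + 1) * th) := by
        calc _ ≤ ∑' c, g c * (J * ((i0 + 1) * th)) := by
              refine ENNReal.tsum_le_tsum fun c => ?_
              by_cases hi : lev c ≤ l + i0
              · gcongr
                exact (hAB _ hi).2.1 _
              · rw [show g c = 0 from if_neg (fun h => hi h.1), zero_mul]; exact zero_le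
          _ = (∑' c, g c) * (J * ((i0 + 1) * th)) := ENNReal.tsum_mul_right
          _ ≤ 1 * (J * ((i0 + 1) * th)) := by
              gcongr
              exact hp1.trans hq1
          _ = _ := one_mul _
      calc _ ≤ (i0 + 1) * th + J * ((i0 + 1) * th) := add_le_add h1 h2
        _ = _ := by push_cast; ring
    · rw [ENNReal.tsum_add, conv_sum f (fun c v => V (h - lev c) v),
        conv_sum g (fun c v => Bd (lev c) v)]
      have h1 : ∑' c, f c * ∑' v, V (h - lev c) v ≤ ε := by
        refine le_trans (ENNReal.tsum_le_tsum fun c => ?_) hε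
        calc _ ≤ f c * 1 := by gcongr; exact hV _
          _ = _ := mul_one _
      have h2 : ∑' c, g c * ∑' v, Bd (lev c) v ≤ q * (q ^ J + J * ε) := by
        calc _ ≤ ∑' c, g c * (q ^ J + J * ε) := by
              refine ENNReal.tsum_le_tsum fun c => ?_
              by_cases hi : lev c ≤ l + i0
              · gcongr
                exact (hAB _ hi).2.2
              · rw [show g c = 0 from if_neg (fun h => hi h.1), zero_mul]; exact zero_le
          _ = (∑' c, g c) * (q ^ J + J * ε) := ENNReal.tsum_mul_right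
          _ ≤ _ := by gcongr
      calc _ ≤ ε + q * (q ^ J + J * ε) := add_le_add h1 h2
        _ = q ^ (J + 1) + (ε + q * (J * ε)) := by ring
        _ ≤ q ^ (J + 1) + (ε + 1 * (J * ε)) := by gcongr
        _ = _ := by push_cast; ring

omit [AddCommGroup W] in
lemma group {α : Type*} (w : α → ℝ≥0∞) (φ : α → W) (f : W → ℝ≥0∞) :
    ∑' a, w a * f (φ a) = ∑' c, (∑' a, if φ a = c then w a else 0) * f c := by
  simp_rw [← ENNReal.tsum_mul_right]
  rw [ENNReal.tsum_comm]
  refine tsum_congr fun a => ?_
  rw [tsum_eq_single (φ a) (fun c hc => by rw [if_neg (Ne.symm hc), zero_mul])]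
  simp

end abs

variable {B G : Type*} [AddCommGroup G] (ht : B → ℕ) (Λ : B → ℝ≥0∞) (z : B → G)

/-- total displacement -/
def Dp (L : List B) : G := (L.map z).sum

lemma Dp_append (L L' : List B) : Dp z (L ++ L') = Dp z L + Dp z L' := by simp [Dp]

/-- height and displacement -/
def dd (L : List B) : ℤ × G := ((HT ht L : ℤ), Dp z L)

lemma dd_append (L L' : List B) : dd ht z (L ++ L') = dd ht z L + dd ht z L' := by
  simp [dd, Dp_append, HT_append]

/-- law of the first passage at `a` -/
noncomputable def V (a : ℕ) (v : ℤ × G) : ℝ≥0∞ :=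
  ∑' T, if dd ht z T = v then (if FP ht a T then LW Λ T else 0) else 0

lemma V_group (a : ℕ) (f : ℤ × G → ℝ≥0∞) :
    ∑' T, (if FP ht a T then LW Λ T else 0) * f (dd ht z T) = ∑' v, V ht Λ z a v * f v := by
  unfold V
  convert group (fun T => if FP ht a T then LW Λ T else 0) (dd ht z) f

lemma V_sum (h1 : ∀ b, 1 ≤ ht b) (hΛ : ∑' b, Λ b = 1) (a : ℕ) : ∑' v, V ht Λ z a v = 1 := by
  have := V_group ht Λ z a (fun _ => 1)
  simp only [mul_one] at this
  rw [← this, fp_mass ht Λ h1 hΛ]

lemma V_lev (a : ℕ) (v : ℤ × G) (hv : V ht Λ z a v ≠ 0) : a ≤ v.1.toNat := by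
  by_contra h
  apply hv
  rw [V, ENNReal.tsum_eq_zero]
  intro T
  by_cases h1 : dd ht z T = v
  · rw [if_pos h1]
    by_cases h2 : FP ht a T
    · exfalso
      apply h
      have := FP_le ht h2
      rw [← h1, dd]
      simpa using this
    · rw [if_neg h2]
  · rw [if_neg h1]

lemma V_conv (h1 : ∀ b, 1 ≤ ht b) (l h : ℕ) (hl : l ≤ h) (v : ℤ × G) :
    V ht Λ z h v ≤ ∑' c, V ht Λ z l c * V ht Λ z (h - c.1.toNat) (v - c) := by
  rw [← V_group ht Λ z l (fun c => V ht Λ z (h - c.1.toNat) (v - c))]
  calc V ht Λ z h v = ∑' T, (if l ≤ HT ht T then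
        (if dd ht z T = v then (if FP ht h T then LW Λ T else 0) else 0) else 0) := by
        rw [V]
        refine tsum_congr fun T => ?_
        by_cases hT : FP ht h T
        · rw [if_pos (show l ≤ HT ht T from hl.trans (FP_le ht hT))]
        · simp [hT]
    _ = ∑' C, (if FP ht l C then ∑' R, (if dd ht z (C ++ R) = v then
          (if FP ht h (C ++ R) then LW Λ (C ++ R) else 0) else 0) else 0) := split ht h1 l _
    _ ≤ _ := by
        refine ENNReal.tsum_le_tsum fun C => ?_
        by_cases hC : FP ht l C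
        swap
        · simp [hC]
        rw [if_pos hC, if_pos hC, V, ← ENNReal.tsum_mul_left]
        refine ENNReal.tsum_le_tsum fun R => ?_
        have e : (dd ht z C).1.toNat = HT ht C := by simp [dd]
        rw [e, dd_append, FP_append ht C R l h hC hl, LW_append]
        by_cases h2 : dd ht z C + dd ht z R = v
        · rw [if_pos h2, if_pos (eq_sub_of_add_eq' h2)]
          by_cases h3 : FP ht (h - HT ht C) R
          · simp [h3]
          · simp [h3]
        · rw [if_neg h2]; exact zero_le

lemma V_over (h1 : ∀ b, 1 ≤ ht b) (hΛ : ∑' b, Λ b = 1) (a i0 : ℕ) :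
    ∑' c : ℤ × G, (if a + i0 < c.1.toNat then V ht Λ z a c else 0) ≤ e1 ht Λ i0 := by
  calc _ = ∑' c : ℤ × G, V ht Λ z a c * (if a + i0 < c.1.toNat then 1 else 0) := by
        refine tsum_congr fun c => ?_
        split_ifs <;> simp
    _ = _ := (V_group ht Λ z a (fun c => if a + i0 < c.1.toNat then 1 else 0)).symm
    _ ≤ _ := by
        refine le_trans (ENNReal.tsum_le_tsum fun T => ?_) (overs ht Λ h1 hΛ a i0)
        have e : (dd ht z T).1.toNat = HT ht T := by simp [dd]
        rw [e]
        by_cases h2 : FP ht a T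
        · by_cases h3 : a + i0 < HT ht T
          · simp [h2, h3]
          · simp [h3]
        · simp [h2]

/-- density of the first passage at `A` when it is made of `J` pieces -/
theorem V_dens (h1 : ∀ b, 1 ≤ ht b) (hΛ : ∑' b, Λ b = 1) (l i0 : ℕ) (th u : ℝ≥0∞)
    (hu1 : u ≤ 1) (hth : u ≤ ∑' c, (if V ht Λ z l c ≤ th then V ht Λ z l c else 0)) (J A : ℕ)
    (hA : J * (l + i0) ≤ A) :
    ∃ Ag Bb : ℤ × G → ℝ≥0∞, (∀ v, V ht Λ z A v ≤ Ag v + Bb v) ∧ (∀ v, Ag v ≤ V ht Λ z A v) ∧
      (∀ v, Ag v ≤ J * ((i0 + 1) * th)) ∧ ∑' v, Bb v ≤ (1 - u) ^ J + J * e1 ht Λ i0 := by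
  obtain ⟨Ag, Bb, a1, a2, a3⟩ := dens (fun c : ℤ × G => c.1.toNat) (V ht Λ z) (V ht Λ z l) l
    (fun h hh v => V_conv ht Λ z h1 l h hh v) (fun c hc => V_lev ht Λ z l c hc)
    (fun h => (V_sum ht Λ z h1 hΛ h).le) i0 th (1 - u) (e1 ht Λ i0)
    (by
      refine ENNReal.le_sub_of_add_le_right (ne_top_of_le_ne_top ENNReal.one_ne_top hu1) ?_
      refine (add_le_add le_rfl hth).trans ?_
      rw [← ENNReal.tsum_add, ← V_sum ht Λ z h1 hΛ l]
      refine ENNReal.tsum_le_tsum fun c => ?_
      by_cases h : V ht Λ z l c ≤ th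
      · simp [h, not_lt.2 h]
      · rw [if_neg h, add_zero]
        split_ifs
        · exact le_rfl
        · exact zero_le)
    tsub_le_self (V_over ht Λ z h1 hΛ l i0) J A hA
  refine ⟨fun v => min (Ag v) (V ht Λ z A v), Bb, fun v => ?_, fun v => min_le_right _ _,
    fun v => (min_le_left _ _).trans (a2 v), a3⟩
  rcases le_total (Ag v) (V ht Λ z A v) with h | h
  · simp only [min_eq_left h]; exact a1 v
  · simp only [min_eq_right h]; exact le_add_right le_rfl

end Crest.Agent.R154.Asm201
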