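import Crest.Agent.R154.AsmA_207
import Crest.Agent.R154.Dens_903

/-! Row 154 (helper207), ROAD 801, assembly part B: law of the first passage place, smooth
density. -/

set_option autoImplicit false

namespace Crest.Agent.R154.Asm207

open scoped ENNReal Topology
open Crest.Agent.R154.B5A

variable {B : Type*} {G : Type*} [AddCommGroup G]

/-- displacement of a list -/
def Dp (z : B → G) (L : List B) : G := (L.map z).sum

lemma Dp_nil (z : B → G) : Dp z [] = 0 := by simp [Dp]

lemma Dp_cons (z : B → G) (b : B) (L : List B) : Dp z (b :: L) = z b + Dp z L := by simp [Dp]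

lemma Dp_append (z : B → G) (L L' : List B) : Dp z (L ++ L') = Dp z L + Dp z L' := by simp [Dp]

variable (Λ : B → ℝ≥0∞) (ht : B → ℕ) (z : B → G)

open Classical in
/-- law of (overshoot, displacement) at the first passage of `n` -/
noncomputable def D (n : ℕ) (q : ℕ × G) : ℝ≥0∞ :=
  FPS Λ ht n (fun L => if HT ht L = n + q.1 ∧ Dp z L = q.2 then 1 else 0)

lemma push (n : ℕ) (Φ : ℕ × G → ℝ≥0∞) :
    FPS Λ ht n (fun L => Φ (HT ht L - n, Dp z L)) = ∑' q, D Λ ht z n q * Φ q := by
  classical
  have e : ∀ q, D Λ ht z n q * Φ q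
      = FPS Λ ht n (fun L => Φ q * (if HT ht L = n + q.1 ∧ Dp z L = q.2 then 1 else 0)) := by
    intro q
    rw [FPS_const_mul, mul_comm, D]
  rw [tsum_congr e, ← FPS_tsum]
  refine FPS_congr Λ ht n fun L hL => ?_
  have h := FP_le ht hL
  rw [tsum_eq_single (HT ht L - n, Dp z L)]
  · rw [if_pos ⟨by simp only; omega, rfl⟩, mul_one]
  · rintro ⟨i, x⟩ hne
    rw [if_neg, mul_zero]
    rintro ⟨h1, h2⟩
    simp only at h1 h2
    apply hne
    rw [h1, h2]
    simp

lemma D_sum (h1 : ∀ b, 1 ≤ ht b) (hΛ : ∑' b, Λ b = 1) (n : ℕ) : ∑' q, D Λ ht z n q = 1 := by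
  have h := push Λ ht z n (fun _ => 1)
  rw [FPS_one Λ ht h1 hΛ] at h
  simp only [mul_one] at h
  exact h.symm

lemma D_sum_z (h1 : ∀ b, 1 ≤ ht b) (hΛ : ∑' b, Λ b = 1) (n i : ℕ) :
    ∑' x, D Λ ht z n (i, x) ≤ 1 := by
  rw [← D_sum Λ ht z h1 hΛ n, ENNReal.tsum_prod']
  exact ENNReal.le_tsum i

lemma D_over (h1 : ∀ b, 1 ≤ ht b) (hU1 : ∀ n, U Λ ht n ≤ 1) (n i0 : ℕ) :
    ∑' q : ℕ × G, (if i0 < q.1 then D Λ ht z n q else 0) ≤ ov Λ ht i0 := by
  classical
  have h := push Λ ht z n (fun q => if i0 < q.1 then 1 else 0)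
  have e : ∑' q : ℕ × G, (if i0 < q.1 then D Λ ht z n q else 0)
      = ∑' q, D Λ ht z n q * (if i0 < q.1 then 1 else 0) := tsum_congr fun q => by
    split_ifs <;> simp
  rw [e, ← h]
  refine le_trans ?_ (FPS_over Λ ht h1 hU1 n i0)
  refine FPS_mono Λ ht n fun L hL => ?_
  by_cases hh : i0 < HT ht L - n
  · have : n + i0 < HT ht L := by omega
    simp [hh, this]
  · simp [hh]

lemma tsum_sub_left (f : G → ℝ≥0∞) (y : G) : ∑' x, f (y - x) = ∑' x, f x :=
  Equiv.tsum_eq (Equiv.subLeft y) f

lemma tsum_sub_right (f : G → ℝ≥0∞) (y : G) : ∑' x, f (x - y) = ∑' x, f x :=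
  Equiv.tsum_eq (Equiv.subRight y) f

lemma tsum_shift2 (f : ℕ × G → ℝ≥0∞) (y : G) :
    ∑' x : ℕ × G, f (x.1, x.2 - y) = ∑' x : ℕ × G, f x := by
  rw [ENNReal.tsum_prod', ENNReal.tsum_prod']
  exact tsum_congr fun i => tsum_sub_right (fun x => f (i, x)) y

/-- **smooth density** -/
theorem dens (h1 : ∀ b, 1 ≤ ht b) (hΛ : ∑' b, Λ b = 1) (hU1 : ∀ n, U Λ ht n ≤ 1)
    (T i0 : ℕ) (th q : ℝ≥0∞)
    (hq : ∑' x, (if th < D Λ ht z T x then D Λ ht z T x else 0) ≤ q) (J : ℕ) :
    ∀ n, J * (T + i0) ≤ n → ∃ Ag Bb : ℕ × G → ℝ≥0∞, (∀ x, D Λ ht z n x ≤ Ag x + Bb x) ∧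
      (∀ x, Ag x ≤ (i0 + 1 : ℕ) * th * ∑ j ∈ Finset.range J, q ^ j) ∧
      ∑' x, Bb x ≤ q ^ J + ov Λ ht i0 * ∑ j ∈ Finset.range J, q ^ j := by
  classical
  induction J with
  | zero =>
    intro n _
    refine ⟨fun _ => 0, D Λ ht z n, fun x => by simp, fun x => by simp, ?_⟩
    rw [D_sum Λ ht z h1 hΛ]
    simp
  | succ J ih =>
    intro n hn
    have hn0 : T + i0 ≤ n := by nlinarith
    have ih' : ∀ i : ℕ, ∃ Ag Bb : ℕ × G → ℝ≥0∞, i ≤ i0 →
        (∀ x, D Λ ht z (n - T - i) x ≤ Ag x + Bb x) ∧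
        (∀ x, Ag x ≤ (i0 + 1 : ℕ) * th * ∑ j ∈ Finset.range J, q ^ j) ∧
        ∑' x, Bb x ≤ q ^ J + ov Λ ht i0 * ∑ j ∈ Finset.range J, q ^ j := by
      intro i
      by_cases hi : i ≤ i0
      · have hJ : J * (T + i0) ≤ n - T - i := by
          have : (J + 1) * (T + i0) = J * (T + i0) + (T + i0) := by ring
          omega
        obtain ⟨Ag, Bb, h⟩ := ih (n - T - i) hJ
        exact ⟨Ag, Bb, fun _ => h⟩
      · exact ⟨fun _ => 0, fun _ => 0, fun h => absurd h hi⟩
    choose Ag Bb hAB using ih'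
    -- the remainder
    set R : ℕ × G → ℝ≥0∞ := fun x => FPS Λ ht T (fun A => if T + i0 < HT ht A then
      FPS Λ ht (n - HT ht A) (fun L => if HT ht (A ++ L) = n + x.1 ∧ Dp z (A ++ L) = x.2
        then 1 else 0) else 0) with hR
    have hRsum : ∑' x, R x ≤ ov Λ ht i0 := by
      rw [hR]
      rw [← FPS_tsum]
      refine le_trans ?_ (FPS_over Λ ht h1 hU1 T i0)
      refine FPS_mono Λ ht T fun A _ => ?_
      by_cases hA : T + i0 < HT ht A
      · simp only [if_pos hA]
        rw [← FPS_tsum]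
        refine FPS_le_one Λ ht h1 hΛ _ fun L => ?_
        by_cases hL : n ≤ HT ht (A ++ L)
        · rw [tsum_eq_single (HT ht (A ++ L) - n, Dp z (A ++ L))]
          · split_ifs <;> simp
          · rintro ⟨i, x⟩ hne
            rw [if_neg]
            rintro ⟨h2, h3⟩
            simp only at h2 h3
            apply hne
            rw [h2, h3]
            simp
        · rw [ENNReal.tsum_eq_zero.2]
          · exact zero_le
          · rintro ⟨i, x⟩
            rw [if_neg]
            rintro ⟨h2, _⟩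
            simp only at h2
            omega
      · simp [hA]
    have hrec : ∀ x, D Λ ht z n x ≤ ∑' p : ℕ × G, (if p.1 ≤ i0 then
        D Λ ht z T p * D Λ ht z (n - T - p.1) (x.1, x.2 - p.2) else 0) + R x := by
      intro x
      rw [D, FPS_mul Λ ht h1 T n (by omega)]
      have e2 : ∑' p : ℕ × G, (if p.1 ≤ i0 then
        D Λ ht z T p * D Λ ht z (n - T - p.1) (x.1, x.2 - p.2) else 0)
          = FPS Λ ht T (fun A => if HT ht A - T ≤ i0 then
              D Λ ht z (n - T - (HT ht A - T)) (x.1, x.2 - Dp z A) else 0) := by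
        rw [push Λ ht z T (fun p => if p.1 ≤ i0 then
          D Λ ht z (n - T - p.1) (x.1, x.2 - p.2) else 0)]
        refine tsum_congr fun p => ?_
        split_ifs <;> simp
      rw [e2, hR, ← FPS_add]
      refine FPS_mono Λ ht T fun A hA => ?_
      have hTA := FP_le ht hA
      by_cases hA2 : T + i0 < HT ht A
      · rw [if_pos hA2]
        exact le_add_self
      · have h5 : HT ht A - T ≤ i0 := by omega
        rw [if_pos h5]
        refine le_trans ?_ le_self_add
        rw [show n - T - (HT ht A - T) = n - HT ht A by omega, D]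
        refine FPS_mono Λ ht _ fun L _ => ?_
        by_cases h6 : HT ht (A ++ L) = n + x.1 ∧ Dp z (A ++ L) = x.2
        · rw [if_pos h6]
          rw [HT_append, Dp_append] at h6
          have h7 : HT ht L = n - HT ht A + x.1 ∧ Dp z L = x.2 - Dp z A :=
            ⟨by omega, by rw [← h6.2]; abel⟩
          rw [if_pos h7]
        · rw [if_neg h6]; exact zero_le
    refine ⟨fun x => ∑' p : ℕ × G, (if p.1 ≤ i0 ∧ D Λ ht z T p ≤ th then
        th * D Λ ht z (n - T - p.1) (x.1, x.2 - p.2) else 0)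
        + ∑' p : ℕ × G, (if p.1 ≤ i0 ∧ th < D Λ ht z T p then
        D Λ ht z T p * Ag p.1 (x.1, x.2 - p.2) else 0),
      fun x => ∑' p : ℕ × G, (if p.1 ≤ i0 ∧ th < D Λ ht z T p then
        D Λ ht z T p * Bb p.1 (x.1, x.2 - p.2) else 0) + R x, ?_, ?_, ?_⟩
    · intro x
      refine (hrec x).trans ?_
      rw [← add_assoc]
      refine add_le_add ?_ le_rfl
      rw [add_assoc, ← ENNReal.tsum_add, ← ENNReal.tsum_add]
      refine ENNReal.tsum_le_tsum fun p => ?_
      by_cases hp : p.1 ≤ i0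
      · rw [if_pos hp]
        by_cases hp2 : D Λ ht z T p ≤ th
        · rw [if_pos ⟨hp, hp2⟩]
          exact le_trans (mul_le_mul_left hp2 _) le_self_add
        · have hp3 : th < D Λ ht z T p := lt_of_not_ge hp2
          rw [if_neg (fun h => hp2 h.2), zero_add, if_pos ⟨hp, hp3⟩, if_pos ⟨hp, hp3⟩, ← mul_add]
          exact mul_le_mul_right ((hAB p.1 hp).1 _) _
      · rw [if_neg hp]; exact zero_le
    · intro x
      have b1 : ∑' p : ℕ × G, (if p.1 ≤ i0 ∧ D Λ ht z T p ≤ th then
        th * D Λ ht z (n - T - p.1) (x.1, x.2 - p.2) else 0) ≤ (i0 + 1 : ℕ) * th := by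
        calc _ ≤ ∑' p : ℕ × G, (if p.1 ≤ i0 then
              th * D Λ ht z (n - T - p.1) (x.1, x.2 - p.2) else 0) := by
              refine ENNReal.tsum_le_tsum fun p => ?_
              by_cases hp : p.1 ≤ i0
              · rw [if_pos hp]; split_ifs <;> simp
              · rw [if_neg hp, if_neg (fun h => hp h.1)]
          _ = ∑' i : ℕ, (if i ≤ i0 then th * ∑' y, D Λ ht z (n - T - i) (x.1, x.2 - y) else 0) := by
              rw [ENNReal.tsum_prod']
              refine tsum_congr fun i => ?_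
              by_cases hi : i ≤ i0
              · simp only [if_pos hi]; rw [ENNReal.tsum_mul_left]
              · simp only [if_neg hi, tsum_zero]
          _ ≤ ∑' i : ℕ, (if i ≤ i0 then th else 0) := by
              refine ENNReal.tsum_le_tsum fun i => ?_
              by_cases hi : i ≤ i0
              · rw [if_pos hi, if_pos hi, tsum_sub_left (fun y => D Λ ht z (n - T - i) (x.1, y))]
                exact mul_le_of_le_one_right zero_le (D_sum_z Λ ht z h1 hΛ _ _)
              · rw [if_neg hi, if_neg hi]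
          _ = (i0 + 1 : ℕ) * th := by
              rw [tsum_eq_sum (s := Finset.range (i0 + 1)) (fun i hi => by
                rw [Finset.mem_range] at hi; rw [if_neg (by omega)])]
              rw [Finset.sum_congr rfl (g := fun _ => th) (fun i hi => by
                rw [Finset.mem_range] at hi; rw [if_pos (by omega)])]
              rw [Finset.sum_const, Finset.card_range, nsmul_eq_mul]
      have b2 : ∑' p : ℕ × G, (if p.1 ≤ i0 ∧ th < D Λ ht z T p then
        D Λ ht z T p * Ag p.1 (x.1, x.2 - p.2) else 0)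
          ≤ q * ((i0 + 1 : ℕ) * th * ∑ j ∈ Finset.range J, q ^ j) := by
        calc _ ≤ ∑' p : ℕ × G, (if th < D Λ ht z T p then D Λ ht z T p else 0)
              * ((i0 + 1 : ℕ) * th * ∑ j ∈ Finset.range J, q ^ j) := by
              refine ENNReal.tsum_le_tsum fun p => ?_
              by_cases hp : p.1 ≤ i0 ∧ th < D Λ ht z T p
              · rw [if_pos hp, if_pos hp.2]
                exact mul_le_mul_right ((hAB p.1 hp.1).2.1 _) _
              · rw [if_neg hp]; exact zero_le
          _ ≤ _ := by rw [ENNReal.tsum_mul_right]; exact mul_le_mul_left hq _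
      refine (add_le_add b1 b2).trans ?_
      rw [Finset.sum_range_succ']
      simp only [pow_zero, pow_succ]
      rw [← Finset.sum_mul]
      apply le_of_eq
      ring
    · rw [ENNReal.tsum_add]
      have b3 : ∑' x : ℕ × G, ∑' p : ℕ × G, (if p.1 ≤ i0 ∧ th < D Λ ht z T p then
        D Λ ht z T p * Bb p.1 (x.1, x.2 - p.2) else 0)
          ≤ q * (q ^ J + ov Λ ht i0 * ∑ j ∈ Finset.range J, q ^ j) := by
        rw [ENNReal.tsum_comm]
        calc _ ≤ ∑' p : ℕ × G, (if th < D Λ ht z T p then D Λ ht z T p else 0)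
              * (q ^ J + ov Λ ht i0 * ∑ j ∈ Finset.range J, q ^ j) := by
              refine ENNReal.tsum_le_tsum fun p => ?_
              by_cases hp : p.1 ≤ i0 ∧ th < D Λ ht z T p
              · simp only [if_pos hp]
                rw [if_pos hp.2, ENNReal.tsum_mul_left, tsum_shift2]
                exact mul_le_mul_right (hAB p.1 hp.1).2.2 _
              · simp only [if_neg hp, tsum_zero]; exact zero_le
          _ ≤ _ := by rw [ENNReal.tsum_mul_right]; exact mul_le_mul_left hq _
      refine (add_le_add b3 hRsum).trans ?_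
      rw [Finset.sum_range_succ']
      simp only [pow_zero, pow_succ]
      rw [← Finset.sum_mul]
      apply le_of_eq
      ring

end Crest.Agent.R154.Asm207
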