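import Crest.Agent.R154.AsmA_789
import Crest.Agent.R154.FP_178

/-! Row 154, ROAD 801 (helper217): chain of first-passage pieces, abstract one-walker bound. -/

set_option autoImplicit false

namespace Crest.Agent.R154.Asm217

open scoped ENNReal
open Crest.Agent.R154.B5A Crest.Agent.R154.AsmA789 Crest.Agent.R154.FP178

section chain

variable {B : Type*} (Λ : B → ℝ≥0∞) (ht : B → ℕ)

open Classical in
/-- weight of a piece -/
noncomputable def PW (T : ℕ) (A : List B) : ℝ≥0∞ := if fp ht T A then LW Λ A else 0

open Classical in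
/-- rest sum -/
noncomputable def RS (n c : ℕ) (F : List B → ℝ≥0∞) : ℝ≥0∞ :=
  ∑' R, if c + HT ht R = n then LW Λ R * F R else 0

lemma RS_mono (n c : ℕ) {F G : List B → ℝ≥0∞} (h : ∀ R, F R ≤ G R) :
    RS Λ ht n c F ≤ RS Λ ht n c G := by
  refine ENNReal.tsum_le_tsum fun R => ?_
  split_ifs
  · exact mul_le_mul_right (h R) _
  · exact le_rfl

lemma RS_le (hU1 : ∀ n, U Λ ht n ≤ 1) (n c : ℕ) (F : List B → ℝ≥0∞) (M : ℝ≥0∞)
    (hF : ∀ R, F R ≤ M) : RS Λ ht n c F ≤ M := by
  classical
  by_cases hc : c ≤ n
  · calc RS Λ ht n c F ≤ ∑' R, (if HT ht R = n - c then LW Λ R else 0) * M := by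
          refine ENNReal.tsum_le_tsum fun R => ?_
          by_cases h : c + HT ht R = n
          · rw [if_pos h, if_pos (by omega)]
            exact mul_le_mul_right (hF R) _
          · rw [if_neg h]; exact zero_le
      _ = U Λ ht (n - c) * M := by rw [ENNReal.tsum_mul_right]; rfl
      _ ≤ 1 * M := mul_le_mul_left (hU1 _) _
      _ = M := one_mul M
  · have : RS Λ ht n c F = 0 := by
      refine ENNReal.tsum_eq_zero.2 fun R => ?_
      rw [if_neg (by omega)]
    rw [this]; exact zero_le

lemma sum_PW (h1 : ∀ b, 1 ≤ ht b) (hΛ : ∑' b, Λ b ≤ 1) (T : ℕ) : ∑' A, PW Λ ht T A ≤ 1 :=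
  sum_FP Λ ht h1 hΛ T

lemma SL_le {A : Type*} (P : A → ℝ≥0∞) (hP : ∑' a, P a ≤ 1) (j : ℕ) (F : List A → ℝ≥0∞)
    (M : ℝ≥0∞) (hF : ∀ L, L.length = j → F L ≤ M) : SL P j F ≤ M := by
  calc SL P j F ≤ SL P j (fun _ => M * 1) := SL_mono P j fun L hL => by rw [mul_one]; exact hF L hL
    _ = M * SL P j (fun _ => 1) := SL_const_mul P j M _
    _ = M * (∑' a, P a) ^ j := by rw [SL_pow]
    _ ≤ M * 1 := mul_le_mul_right (pow_le_one' hP j) _
    _ = M := mul_one M

lemma SL_take {A : Type*} (P : A → ℝ≥0∞) (hP : ∑' a, P a ≤ 1) (j J : ℕ) (hj : j ≤ J)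
    (F : List A → ℝ≥0∞) : SL P J (fun L => F (L.take j)) ≤ SL P j F := by
  obtain ⟨k, rfl⟩ := Nat.exists_eq_add_of_le hj
  rw [SL_add]
  refine SL_mono P j fun L hL => ?_
  refine SL_le P hP k _ _ fun L' _ => ?_
  rw [List.take_append_of_le_length (by omega), List.take_of_length_le (by omega)]

lemma SL_snoc {A : Type*} (P : A → ℝ≥0∞) (j : ℕ) (F : List A → ℝ≥0∞) :
    SL P (j + 1) F = SL P j (fun L => ∑' a, P a * F (L ++ [a])) := by
  rw [SL_add]
  refine SL_congr P j fun L _ => ?_
  rw [SL_succ]
  refine tsum_congr fun a => ?_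
  rw [SL_zero]

open Classical in
/-- **chain of pieces** -/
theorem chain (h1 : ∀ b, 1 ≤ ht b) (hΛ : ∑' b, Λ b ≤ 1) (hU1 : ∀ n, U Λ ht n ≤ 1) (T i0 : ℕ)
    (e1 : ℝ≥0∞)
    (he : ∑' L, (if fp ht T L ∧ T + i0 < HT ht L then LW Λ L else 0) ≤ e1) (j : ℕ) :
    ∀ (n : ℕ) (_ : j * (T + i0) ≤ n) (F : List B → ℝ≥0∞) (_ : ∀ L, F L ≤ 1),
    (∑' L, if HT ht L = n then LW Λ L * F L else 0) ≤ j * e1 +
      SL (PW Λ ht T) j (fun As => if ∀ A ∈ As, T ≤ HT ht A ∧ HT ht A ≤ T + i0 then
        RS Λ ht n (HT ht As.flatten) (fun R => F (As.flatten ++ R)) else 0) := by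
  induction j with
  | zero =>
    intro n _ F _
    rw [SL_zero]
    simp only [List.not_mem_nil, false_imp_iff, implies_true, if_true, List.flatten_nil,
      HT_nil, List.nil_append]
    refine le_add_left (le_of_eq ?_)
    refine tsum_congr fun L => ?_
    rw [zero_add]
  | succ j ih =>
    intro n hn F hF
    have hn' : j * (T + i0) + (T + i0) ≤ n := by rw [Nat.succ_mul] at hn; exact hn
    have hmain : (∑' L, if HT ht L = n then LW Λ L * F L else 0)
        = ∑' A, PW Λ ht T A * RS Λ ht n (HT ht A) (fun R => F (A ++ R)) := by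
      have e := split Λ ht h1 T (fun L => if HT ht L = n then F L else 0)
      calc (∑' L, if HT ht L = n then LW Λ L * F L else 0)
          = ∑' L, (if T ≤ HT ht L then LW Λ L * (if HT ht L = n then F L else 0) else 0) := by
            refine tsum_congr fun L => ?_
            by_cases h : HT ht L = n
            · rw [if_pos h, if_pos (by omega), if_pos h]
            · rw [if_neg h, if_neg h]; simp
        _ = _ := e
        _ = _ := by
            refine tsum_congr fun A => ?_
            unfold PW RS
            by_cases hA : fp ht T A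
            · rw [if_pos hA, if_pos hA]
              congr 1
              refine tsum_congr fun R => ?_
              rw [HT_append]
              split_ifs <;> simp
            · rw [if_neg hA, if_neg hA, zero_mul]
    rw [hmain, SL_succ]
    calc ∑' A, PW Λ ht T A * RS Λ ht n (HT ht A) (fun R => F (A ++ R))
        ≤ ∑' A, ((if fp ht T A ∧ T + i0 < HT ht A then LW Λ A else 0) + (PW Λ ht T A * (j * e1)
          + PW Λ ht T A * SL (PW Λ ht T) j (fun As => if ∀ A' ∈ A :: As, T ≤ HT ht A' ∧ HT ht A' ≤ T + i0 then
            RS Λ ht n (HT ht (A :: As).flatten) (fun R => F ((A :: As).flatten ++ R)) else 0))) := by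
          refine ENNReal.tsum_le_tsum fun A => ?_
          by_cases hA : fp ht T A
          · by_cases hh : T + i0 < HT ht A
            · rw [if_pos ⟨hA, hh⟩]
              refine le_add_right ?_
              rw [PW, if_pos hA]
              calc LW Λ A * RS Λ ht n (HT ht A) (fun R => F (A ++ R)) ≤ LW Λ A * 1 :=
                    mul_le_mul_right (RS_le Λ ht hU1 _ _ _ _ fun R => hF _) _
                _ = _ := mul_one _
            · refine le_add_left ?_
              rw [← mul_add]
              refine mul_le_mul_right ?_ _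
              have hle : HT ht A ≤ T + i0 := not_lt.1 hh
              have hi := ih (n - HT ht A) (by omega) (fun R => F (A ++ R)) (fun R => hF _)
              have e0 : RS Λ ht n (HT ht A) (fun R => F (A ++ R))
                  = ∑' L, if HT ht L = n - HT ht A then LW Λ L * F (A ++ L) else 0 := by
                unfold RS
                refine tsum_congr fun R => ?_
                by_cases h : HT ht A + HT ht R = n
                · rw [if_pos h, if_pos (by omega)]
                · rw [if_neg h, if_neg (by omega)]
              rw [e0]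
              refine hi.trans (add_le_add le_rfl (SL_mono _ j fun As _ => ?_))
              by_cases hAs : ∀ A' ∈ As, T ≤ HT ht A' ∧ HT ht A' ≤ T + i0
              · have hAs' : ∀ A' ∈ A :: As, T ≤ HT ht A' ∧ HT ht A' ≤ T + i0 := by
                  intro A' hA'
                  rcases List.mem_cons.1 hA' with rfl | h
                  · exact ⟨le_HT_of_fp ht hA, hle⟩
                  · exact hAs A' h
                rw [if_pos hAs, if_pos hAs']
                unfold RS
                refine ENNReal.tsum_le_tsum fun R => ?_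
                rw [List.flatten_cons, HT_append]
                simp only [List.append_assoc]
                by_cases h : HT ht As.flatten + HT ht R = n - HT ht A
                · rw [if_pos h, if_pos (by omega)]
                · rw [if_neg h]; exact zero_le
              · rw [if_neg hAs]; exact zero_le
          · have : PW Λ ht T A = 0 := by rw [PW, if_neg hA]
            rw [this]; simp
      _ ≤ e1 + (j * e1 + ∑' A, PW Λ ht T A * SL (PW Λ ht T) j (fun As =>
            if ∀ A' ∈ A :: As, T ≤ HT ht A' ∧ HT ht A' ≤ T + i0 then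
            RS Λ ht n (HT ht (A :: As).flatten) (fun R => F ((A :: As).flatten ++ R)) else 0)) := by
          rw [ENNReal.tsum_add, ENNReal.tsum_add, ENNReal.tsum_mul_right]
          refine add_le_add he (add_le_add ?_ le_rfl)
          calc (∑' A, PW Λ ht T A) * (j * e1) ≤ 1 * (j * e1) :=
                mul_le_mul_left (sum_PW Λ ht h1 hΛ T) _
            _ = _ := one_mul _
      _ = _ := by
          rw [← add_assoc]
          congr 1
          push_cast
          ring

end chain

/-! ### one walker: density at the top, the failure paid once -/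

section one

variable {A G : Type*} [AddCommGroup G]

open Classical in
/-- For a walker with iid pieces of law `P` and a functional `Q ≤ 1` of the top. -/
theorem one_walker (P : A → ℝ≥0∞) (hP : ∑' a, P a = 1) (z : A → ℤ × G) (M u : ℝ≥0∞)
    (S : A → Prop) (hu : u ≤ ∑' a, (if S a then P a else 0))
    (hM : ∀ x, ∑' b, (if S b ∧ z b = x then P b else 0) ≤ M)
    (j : ℕ) (I : Finset ℤ) (OK : List A → Prop) (hOK : ∀ L, L.length = j → OK L → (L.map z).sum.1 ∈ I)
    (Q : ℤ → G → ℝ≥0∞) (hQ : ∀ c x, Q c x ≤ 1) (Bd : ℝ≥0∞)
    (hB : ∀ c ∈ I, ∀ μ : G → ℝ≥0∞, ∑' x, μ x ≤ 1 → (∀ x, μ x ≤ j * M) →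
      ∑' x, μ x * Q c x ≤ Bd) :
    SL P j (fun L => if OK L then Q (L.map z).sum.1 (L.map z).sum.2 else 0)
      ≤ (1 - u) ^ j + I.card * Bd := by
  have hd : ∀ x, SL P j (fun L => if (∃ b ∈ L, S b) ∧ (L.map z).sum = x then 1 else 0)
      ≤ j * M := by
    intro x
    have := dens P hP.le z S M (fun x => by convert hM x) j x
    convert this
  have hns : SL P j (fun L => if ∃ b ∈ L, S b then 0 else 1)
      = (∑' b, if S b then 0 else P b) ^ j := nosmall P S j
  have hlarge : (∑' b, if S b then 0 else P b) ≤ 1 - u := by
    have hadd : (∑' b, if S b then P b else 0) + (∑' b, if S b then 0 else P b) = 1 := by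
      rw [← ENNReal.tsum_add, ← hP]
      refine tsum_congr fun b => ?_
      split_ifs <;> simp
    have hfin : (∑' b, if S b then P b else 0) ≠ ⊤ := by
      refine ne_top_of_le_ne_top ENNReal.one_ne_top ?_
      rw [← hadd]; exact le_self_add
    have : (∑' b, if S b then 0 else P b) = 1 - (∑' b, if S b then P b else 0) := by
      rw [← hadd, ENNReal.add_sub_cancel_left hfin]
    rw [this]
    exact tsub_le_tsub_left hu _
  calc SL P j (fun L => if OK L then Q (L.map z).sum.1 (L.map z).sum.2 else 0)
      ≤ SL P j (fun L => (if ∃ b ∈ L, S b then 0 else 1)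
          + ∑ c ∈ I, ∑' x, (if (∃ b ∈ L, S b) ∧ (L.map z).sum = (c, x) then 1 else 0) * Q c x) := by
        refine SL_mono P j fun L hL => ?_
        by_cases hok : OK L
        · rw [if_pos hok]
          by_cases hs : ∃ b ∈ L, S b
          · refine le_add_left ?_
            calc Q (L.map z).sum.1 (L.map z).sum.2
                ≤ ∑' x, (if (∃ b ∈ L, S b) ∧ (L.map z).sum = ((L.map z).sum.1, x) then 1 else 0)
                    * Q (L.map z).sum.1 x := by
                  refine le_trans ?_ (ENNReal.le_tsum (L.map z).sum.2)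
                  rw [if_pos ⟨hs, rfl⟩, one_mul]
              _ ≤ _ := Finset.single_le_sum (f := fun c => ∑' x, (if (∃ b ∈ L, S b) ∧
                    (L.map z).sum = (c, x) then (1 : ℝ≥0∞) else 0) * Q c x)
                    (fun _ _ => zero_le) (hOK L hL hok)
          · rw [if_neg hs]
            exact le_add_right (hQ _ _)
        · rw [if_neg hok]; exact zero_le
    _ = (∑' b, if S b then 0 else P b) ^ j + ∑ c ∈ I, ∑' x,
          SL P j (fun L => if (∃ b ∈ L, S b) ∧ (L.map z).sum = (c, x) then 1 else 0) * Q c x := by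
        rw [SL_add_fun, hns]
        congr 1
        have e1 : ∀ c ∈ I, (∑' x,
          SL P j (fun L => if (∃ b ∈ L, S b) ∧ (L.map z).sum = (c, x) then 1 else 0) * Q c x)
            = ∑' L : List A, if L.length = j then LW P L *
              ∑' x, (if (∃ b ∈ L, S b) ∧ (L.map z).sum = (c, x) then 1 else 0) * Q c x else 0 := by
          intro c _
          simp only [SL]
          simp_rw [← ENNReal.tsum_mul_right]
          rw [ENNReal.tsum_comm]
          refine tsum_congr fun L => ?_
          by_cases hL : L.length = j
          · simp only [hL, if_true]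
            rw [← ENNReal.tsum_mul_left]
            exact tsum_congr fun x => by ring
          · simp [hL]
        rw [Finset.sum_congr rfl e1, ← Summable.tsum_finsetSum (fun _ _ => ENNReal.summable)]
        rw [SL]
        refine tsum_congr fun L => ?_
        by_cases hL : L.length = j
        · simp only [hL, if_true]; rw [Finset.mul_sum]
        · simp [hL]
    _ ≤ (1 - u) ^ j + ∑ _c ∈ I, Bd := by
        refine add_le_add (pow_le_pow_left' hlarge j) (Finset.sum_le_sum fun c hc => ?_)
        refine hB c hc _ ?_ fun x => hd (c, x)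
        calc ∑' x, SL P j (fun L => if (∃ b ∈ L, S b) ∧ (L.map z).sum = (c, x) then 1 else 0)
            = ∑' L : List A, if L.length = j then LW P L *
              ∑' x, (if (∃ b ∈ L, S b) ∧ (L.map z).sum = (c, x) then 1 else 0) else 0 := by
              simp only [SL]
              rw [ENNReal.tsum_comm]
              refine tsum_congr fun L => ?_
              by_cases hL : L.length = j
              · simp only [hL, if_true]
                rw [← ENNReal.tsum_mul_left]
              · simp [hL]
          _ = SL P j (fun L =>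
              ∑' x : G, (if (∃ b ∈ L, S b) ∧ (L.map z).sum = (c, x) then 1 else 0)) := rfl
          _ ≤ 1 := by
              refine SL_le P hP.le j _ _ fun L _ => ?_
              calc (∑' x : G, if (∃ b ∈ L, S b) ∧ (L.map z).sum = (c, x) then (1 : ℝ≥0∞) else 0)
                  ≤ ∑' x : G, if x = (L.map z).sum.2 then (1 : ℝ≥0∞) else 0 := by
                    refine ENNReal.tsum_le_tsum fun x => ?_
                    by_cases h : (L.map z).sum = (c, x)
                    · rw [if_pos (by rw [h] : x = (L.map z).sum.2)]
                      split_ifs <;> simp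
                    · rw [if_neg (fun hh => h hh.2)]; exact zero_le
                _ = 1 := by rw [tsum_ite_eq]
    _ = _ := by rw [Finset.sum_const, nsmul_eq_mul]

end one

end Crest.Agent.R154.Asm217
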