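import Crest.Agent.R154.AsmA_222

/-! Row 154, road 801 (helper222): overshoot, attempts, density (smooth lists). -/

set_option autoImplicit false
set_option linter.unusedSectionVars false

namespace Crest.Agent.R154.Asm222

open scoped ENNReal
open Crest.Agent.R154.B5A

variable {B G : Type*} [AddCommGroup G] (Λ : B → ℝ≥0∞) (h : B → ℕ)

/-! ### overshoot -/

open Classical in
lemma over_aux (h1 : ∀ b, 1 ≤ h b) (i0 a : ℕ) :
    SF Λ h a (fun A => if a + i0 < HT h A then 1 else 0)
      ≤ ∑' A : List B, LW Λ A * (if HT h A < a then
          ∑' b, (if a + i0 < HT h A + h b then Λ b else 0) else 0) := by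
  induction a using Nat.strong_induction_on with
  | _ a ih =>
    by_cases ha : a = 0
    · subst ha
      rw [SF_zero]; simp [HT_nil]
    · rw [SF_succ Λ h a ha, tsum_list, LW_nil, HT_nil, if_pos (by omega), one_mul,
        ← ENNReal.tsum_add]
      refine ENNReal.tsum_le_tsum fun b => ?_
      by_cases hb : h b < a
      · refine le_add_left ?_
        have e := ih (a - h b) (by have := h1 b; omega)
        have e1 : SF Λ h (a - h b) (fun A => if a + i0 < HT h (b :: A) then 1 else 0)
            = SF Λ h (a - h b) (fun A => if a - h b + i0 < HT h A then 1 else 0) := by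
          congr 1
          funext A
          rw [HT_cons]
          by_cases hh : a + i0 < h b + HT h A
          · rw [if_pos hh, if_pos (by omega)]
          · rw [if_neg hh, if_neg (by omega)]
        rw [e1]
        refine (mul_le_mul_right e (Λ b)).trans ?_
        rw [← ENNReal.tsum_mul_left]
        refine ENNReal.tsum_le_tsum fun A => ?_
        rw [LW_cons, HT_cons, mul_assoc]
        refine mul_le_mul_right (mul_le_mul_right ?_ _) _
        by_cases hA : HT h A < a - h b
        · rw [if_pos hA, if_pos (by omega)]
          refine ENNReal.tsum_le_tsum fun b' => ?_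
          by_cases hh : a - h b + i0 < HT h A + h b'
          · rw [if_pos hh, if_pos (by omega)]
          · rw [if_neg hh]; exact zero_le
        · rw [if_neg hA]; exact zero_le
      · refine le_add_right ?_
        have e0 : a - h b = 0 := by omega
        rw [e0, SF_zero, HT_cons, HT_nil, add_zero]
        by_cases hh : a + i0 < h b
        · rw [if_pos hh, if_pos (by omega), mul_one]
        · rw [if_neg hh, mul_zero]; exact zero_le

/-- tail of the mean height -/
noncomputable def ep (i0 : ℕ) : ℝ≥0∞ := ∑' j, tail Λ h (j + i0)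

open Classical in
lemma over_le (h1 : ∀ b, 1 ≤ h b) (hU : ∀ n, U Λ h n ≤ 1) (i0 a : ℕ) :
    SF Λ h a (fun A => if a + i0 < HT h A then 1 else 0) ≤ ep Λ h i0 := by
  refine (over_aux Λ h h1 i0 a).trans ?_
  calc ∑' A : List B, LW Λ A * (if HT h A < a then
          ∑' b, (if a + i0 < HT h A + h b then Λ b else 0) else 0)
      = ∑' A : List B, ∑ r ∈ Finset.range a,
          (if HT h A = r then LW Λ A else 0) * tail Λ h (a + i0 - r) := by
        refine tsum_congr fun A => ?_
        by_cases hA : HT h A < a
        · rw [if_pos hA, Finset.sum_eq_single (HT h A)]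
          · rw [if_pos rfl, tail]
            congr 1
            refine tsum_congr fun b => ?_
            by_cases hh : a + i0 < HT h A + h b
            · rw [if_pos hh, if_pos (by omega)]
            · rw [if_neg hh, if_neg (by omega)]
          · intro r _ hr; rw [if_neg hr.symm, zero_mul]
          · intro hr; exact absurd (Finset.mem_range.2 hA) hr
        · rw [if_neg hA, mul_zero]
          symm
          refine Finset.sum_eq_zero fun r hr => ?_
          rw [if_neg (by have := Finset.mem_range.1 hr; omega), zero_mul]
    _ = ∑ r ∈ Finset.range a, U Λ h r * tail Λ h (a + i0 - r) := by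
        rw [Summable.tsum_finsetSum (fun _ _ => ENNReal.summable)]
        refine Finset.sum_congr rfl fun r _ => ?_
        rw [U, ENNReal.tsum_mul_right]
    _ ≤ ∑ r ∈ Finset.range a, tail Λ h (a + i0 - r) :=
        Finset.sum_le_sum fun r _ => mul_le_of_le_one_left zero_le (hU r)
    _ = ∑ r ∈ Finset.range a, tail Λ h (r + 1 + i0) := by
        rw [← Finset.sum_range_reflect]
        refine Finset.sum_congr rfl fun r hr => ?_
        have := Finset.mem_range.1 hr
        congr 1
        omega
    _ ≤ ∑ r ∈ Finset.range (a + 1), tail Λ h (r + i0) := by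
        rw [Finset.sum_range_succ']
        exact le_self_add
    _ ≤ ep Λ h i0 := ENNReal.sum_le_tsum _

lemma ep_tendsto (hΛ : ∑' b, Λ b = 1) (hE : ∑' b, Λ b * (h b : ℝ≥0∞) ≠ ⊤) :
    Filter.Tendsto (ep Λ h) Filter.atTop (nhds 0) := by
  rw [sum_tail Λ h hΛ] at hE
  exact ENNReal.tendsto_sum_nat_add _ hE

/-! ### smooth lists -/

/-- one of the first `J` attempts of height `T` (overshoot at most `i0`) is special -/
def Sm (z : B → G) (T i0 : ℕ) (S : ℕ → G → Prop) : ℕ → List B → Prop
  | 0, _ => False
  | J + 1, L => ∃ P A, L = P ++ A ∧ FP h T P ∧ HT h P ≤ T + i0 ∧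
      (S (HT h P) (Dp z P) ∨ (¬ S (HT h P) (Dp z P) ∧ Sm z T i0 S J A))

open Classical in
/-- a sum over lists which split, at most the sum over the splittings -/
lemma tsum_split_le (Q : List B → List B → Prop) (f : List B → ℝ≥0∞) :
    ∑' L, (if ∃ P A, L = P ++ A ∧ Q P A then f L else 0)
      ≤ ∑' P, ∑' A, (if Q P A then f (P ++ A) else 0) := by
  calc ∑' L, (if ∃ P A, L = P ++ A ∧ Q P A then f L else 0)
      ≤ ∑' L, ∑' p : List B × List B, (if L = p.1 ++ p.2 ∧ Q p.1 p.2 then f L else 0) := by
        refine ENNReal.tsum_le_tsum fun L => ?_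
        by_cases hL : ∃ P A, L = P ++ A ∧ Q P A
        · rw [if_pos hL]
          obtain ⟨P, A, h1, h2⟩ := hL
          refine le_trans ?_ (ENNReal.le_tsum (P, A))
          rw [if_pos ⟨h1, h2⟩]
        · rw [if_neg hL]; exact zero_le
    _ = ∑' p : List B × List B, ∑' L, (if L = p.1 ++ p.2 ∧ Q p.1 p.2 then f L else 0) :=
        ENNReal.tsum_comm
    _ = ∑' p : List B × List B, (if Q p.1 p.2 then f (p.1 ++ p.2) else 0) := by
        refine tsum_congr fun p => ?_
        rw [tsum_eq_single (p.1 ++ p.2)]
        · simp
        · intro L hL; rw [if_neg (fun hh => hL hh.1)]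
    _ = _ := ENNReal.tsum_prod (f := fun P A => (if Q P A then f (P ++ A) else 0))

open Classical in
/-- (D2) non smooth lists are rare -/
lemma Sm_rare (h1 : ∀ b, 1 ≤ h b) (hΛ : ∑' b, Λ b = 1) (z : B → G) (T i0 : ℕ)
    (S : ℕ → G → Prop) (q ε : ℝ≥0∞) (hq1 : q ≤ 1)
    (hq : SF Λ h T (fun P => if HT h P ≤ T + i0 ∧ ¬ S (HT h P) (Dp z P) then 1 else 0) ≤ q)
    (hε : SF Λ h T (fun P => if T + i0 < HT h P then 1 else 0) ≤ ε) (J : ℕ) :
    ∀ c, J * (T + i0) ≤ c →
      SF Λ h c (fun A => if Sm h z T i0 S J A then 0 else 1) ≤ q ^ J + J * ε := by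
  induction J with
  | zero =>
    intro c _
    simp only [pow_zero, Nat.cast_zero, zero_mul, add_zero]
    exact SF_le_const Λ h h1 hΛ c 1 fun L _ => by split_ifs <;> simp
  | succ J ih =>
    intro c hc
    rw [Nat.succ_mul] at hc
    rw [SF_split Λ h h1 T c (by omega)]
    calc _ ≤ SF Λ h T (fun P => (if T + i0 < HT h P then 1 else 0)
          + (q ^ J + J * ε) * (if HT h P ≤ T + i0 ∧ ¬ S (HT h P) (Dp z P) then 1 else 0)) := by
          refine SF_mono Λ h T fun P hP => ?_
          by_cases hb : T + i0 < HT h P
          · refine le_add_right ?_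
            rw [if_pos hb]
            exact SF_le_const Λ h h1 hΛ _ 1 fun L _ => by split_ifs <;> simp
          · rw [if_neg hb, zero_add]
            by_cases hS : S (HT h P) (Dp z P)
            · refine le_trans (SF_le_const Λ h h1 hΛ _ 0 fun A _ => ?_) zero_le
              rw [if_pos]
              exact ⟨P, A, rfl, hP, by omega, Or.inl hS⟩
            · rw [if_pos ⟨by omega, hS⟩, mul_one]
              refine le_trans (SF_mono Λ h _ fun A _ => ?_) (ih (c - HT h P) (by omega))
              by_cases hA : Sm h z T i0 S J A
              · rw [if_pos, if_pos hA]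
                exact ⟨P, A, rfl, hP, by omega, Or.inr ⟨hS, hA⟩⟩
              · rw [if_neg hA]; split_ifs <;> simp
      _ = SF Λ h T (fun P => (if T + i0 < HT h P then 1 else 0))
          + (q ^ J + J * ε) * SF Λ h T (fun P =>
            (if HT h P ≤ T + i0 ∧ ¬ S (HT h P) (Dp z P) then 1 else 0)) := by
          rw [SF_add, SF_const_mul]
      _ ≤ ε + (q ^ J + J * ε) * q := by gcongr
      _ ≤ q ^ (J + 1) + (J + 1 : ℕ) * ε := by
          rw [add_mul, pow_succ, add_comm]
          have : (J : ℝ≥0∞) * ε * q ≤ J * ε := mul_le_of_le_one_right zero_le hq1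
          push_cast
          rw [add_mul, one_mul, add_assoc]
          gcongr

open Classical in
/-- (D1) smooth lists have a bounded density -/
lemma Sm_dens (hU : ∀ n, U Λ h n ≤ 1) (z : B → G) (T i0 : ℕ) (S : ℕ → G → Prop)
    (q th Gd : ℝ≥0∞)
    (hq : SF Λ h T (fun P => if HT h P ≤ T + i0 ∧ ¬ S (HT h P) (Dp z P) then 1 else 0) ≤ q)
    (hS : ∀ r y, S r y → ∑' P, (if FP h T P ∧ HT h P = r ∧ Dp z P = y then LW Λ P else 0) ≤ th)
    (hG : (i0 + 1 : ℕ) * th + q * Gd ≤ Gd) (J : ℕ) :
    ∀ a y, ∑' A, (if HT h A = a ∧ Dp z A = y ∧ Sm h z T i0 S J A then LW Λ A else 0) ≤ Gd := by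
  induction J with
  | zero => intro a y; simp [Sm]
  | succ J ih =>
    intro a y
    set Q : List B → List B → Prop := fun P A => (HT h (P ++ A) = a ∧ Dp z (P ++ A) = y) ∧
      FP h T P ∧ HT h P ≤ T + i0 ∧
      (S (HT h P) (Dp z P) ∨ (¬ S (HT h P) (Dp z P) ∧ Sm h z T i0 S J A)) with hQ
    have e1 : ∑' A, (if HT h A = a ∧ Dp z A = y ∧ Sm h z T i0 S (J + 1) A then LW Λ A else 0)
        ≤ ∑' L, (if ∃ P A, L = P ++ A ∧ Q P A then LW Λ L else 0) := by
      refine ENNReal.tsum_le_tsum fun L => ?_
      by_cases hL : HT h L = a ∧ Dp z L = y ∧ Sm h z T i0 S (J + 1) L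
      · rw [if_pos hL, if_pos]
        obtain ⟨h1, h2, P, A, rfl, h3⟩ := hL
        exact ⟨P, A, rfl, ⟨h1, h2⟩, h3⟩
      · rw [if_neg hL]; exact zero_le
    refine e1.trans ((tsum_split_le Q _).trans ?_)
    -- split the two cases
    have e2 : ∀ P A, (if Q P A then LW Λ (P ++ A) else 0)
        ≤ (∑ r ∈ Finset.Icc T (T + i0), (if FP h T P ∧ HT h P = r ∧ S r (Dp z P) then LW Λ P else 0)
            * (if HT h A = a - r ∧ Dp z A = y - Dp z P then LW Λ A else 0))
          + (if FP h T P ∧ HT h P ≤ T + i0 ∧ ¬ S (HT h P) (Dp z P) then LW Λ P else 0)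
            * (if HT h A = a - HT h P ∧ Dp z A = y - Dp z P ∧ Sm h z T i0 S J A then LW Λ A else 0)
          := by
      intro P A
      by_cases hPA : Q P A
      · rw [if_pos hPA, LW_append]
        obtain ⟨⟨g1, g2⟩, g3, g4, g5⟩ := hPA
        rw [HT_append] at g1
        rw [Dp_append] at g2
        have g6 : Dp z A = y - Dp z P := by rw [← g2]; abel
        have g7 := FP_le h P T g3
        rcases g5 with g5 | ⟨g5, g8⟩
        · refine le_add_right (le_trans ?_ (Finset.single_le_sum (f := fun r =>
            (if FP h T P ∧ HT h P = r ∧ S r (Dp z P) then LW Λ P else 0)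
            * (if HT h A = a - r ∧ Dp z A = y - Dp z P then LW Λ A else 0))
            (fun _ _ => zero_le) (Finset.mem_Icc.2 ⟨g7, g4⟩)))
          rw [if_pos ⟨g3, rfl, g5⟩, if_pos ⟨by omega, g6⟩]
        · refine le_add_left ?_
          rw [if_pos ⟨g3, g4, g5⟩, if_pos ⟨by omega, g6, g8⟩]
      · rw [if_neg hPA]; exact zero_le
    refine (ENNReal.tsum_le_tsum fun P => ENNReal.tsum_le_tsum fun A =>
      (le_of_eq (by congr)).trans (e2 P A)).trans ?_
    simp only [ENNReal.tsum_add]
    refine le_trans (add_le_add ?_ ?_) hG
    · -- special attempts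
      calc ∑' P, ∑' A, ∑ r ∈ Finset.Icc T (T + i0),
            (if FP h T P ∧ HT h P = r ∧ S r (Dp z P) then LW Λ P else 0)
            * (if HT h A = a - r ∧ Dp z A = y - Dp z P then LW Λ A else 0)
          = ∑ r ∈ Finset.Icc T (T + i0), ∑' P, ∑' A,
            (if FP h T P ∧ HT h P = r ∧ S r (Dp z P) then LW Λ P else 0)
            * (if HT h A = a - r ∧ Dp z A = y - Dp z P then LW Λ A else 0) := by
            simp_rw [Summable.tsum_finsetSum (fun _ _ => ENNReal.summable)]
        _ ≤ ∑ r ∈ Finset.Icc T (T + i0), th := by
            refine Finset.sum_le_sum fun r _ => ?_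
            calc ∑' P, ∑' A, (if FP h T P ∧ HT h P = r ∧ S r (Dp z P) then LW Λ P else 0)
                  * (if HT h A = a - r ∧ Dp z A = y - Dp z P then LW Λ A else 0)
                = ∑' A, ∑' P, (if FP h T P ∧ HT h P = r ∧ S r (Dp z P) then LW Λ P else 0)
                  * (if HT h A = a - r ∧ Dp z A = y - Dp z P then LW Λ A else 0) :=
                  ENNReal.tsum_comm
              _ ≤ ∑' A, (if HT h A = a - r then LW Λ A else 0) * th := by
                  refine ENNReal.tsum_le_tsum fun A => ?_
                  by_cases hA : HT h A = a - r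
                  · rw [if_pos hA]
                    by_cases hSr : S r (y - Dp z A)
                    · calc _ ≤ ∑' P, LW Λ A * (if FP h T P ∧ HT h P = r ∧ Dp z P = y - Dp z A
                            then LW Λ P else 0) := by
                            refine ENNReal.tsum_le_tsum fun P => ?_
                            by_cases hD : Dp z A = y - Dp z P
                            · have hD' : Dp z P = y - Dp z A := by rw [hD]; abel
                              have i1 : (if HT h A = a - r ∧ Dp z A = y - Dp z P
                                  then LW Λ A else 0) = LW Λ A := if_pos ⟨hA, hD⟩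
                              rw [i1, mul_comm]
                              refine mul_le_mul_right ?_ _
                              by_cases hP : FP h T P ∧ HT h P = r ∧ S r (Dp z P)
                              · rw [if_pos hP, if_pos ⟨hP.1, hP.2.1, hD'⟩]
                              · rw [if_neg hP]; exact zero_le
                            · have i1 : (if HT h A = a - r ∧ Dp z A = y - Dp z P
                                  then LW Λ A else 0) = 0 := if_neg (fun hh => hD hh.2)
                              rw [i1, mul_zero]; exact zero_le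
                        _ = LW Λ A * ∑' P, (if FP h T P ∧ HT h P = r ∧ Dp z P = y - Dp z A
                            then LW Λ P else 0) := ENNReal.tsum_mul_left
                        _ ≤ _ := mul_le_mul_right (hS r _ hSr) _
                    · refine le_trans (le_of_eq ?_) zero_le
                      rw [ENNReal.tsum_eq_zero]
                      intro P
                      by_cases hD : Dp z A = y - Dp z P
                      · have hD' : Dp z P = y - Dp z A := by rw [hD]; abel
                        rw [if_neg (fun hh => hSr (by rw [← hD']; exact hh.2.2)), zero_mul]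
                      · have i1 : (if HT h A = a - r ∧ Dp z A = y - Dp z P
                                  then LW Λ A else 0) = 0 := if_neg (fun hh => hD hh.2)
                        rw [i1, mul_zero]
                  · rw [if_neg hA, zero_mul]
                    refine le_of_eq ?_
                    rw [ENNReal.tsum_eq_zero]
                    intro P
                    have i1 : (if HT h A = a - r ∧ Dp z A = y - Dp z P
                                  then LW Λ A else 0) = 0 := if_neg (fun hh => hA hh.1)
                    rw [i1, mul_zero]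
              _ = U Λ h (a - r) * th := by rw [ENNReal.tsum_mul_right, U]
              _ ≤ th := mul_le_of_le_one_left zero_le (hU _)
        _ = (i0 + 1 : ℕ) * th := by
            rw [Finset.sum_const, Nat.card_Icc, nsmul_eq_mul]
            congr 2
            omega
    · calc ∑' P, ∑' A, (if FP h T P ∧ HT h P ≤ T + i0 ∧ ¬ S (HT h P) (Dp z P) then LW Λ P else 0)
            * (if HT h A = a - HT h P ∧ Dp z A = y - Dp z P ∧ Sm h z T i0 S J A
                then LW Λ A else 0)
          ≤ ∑' P, (if FP h T P then LW Λ P *
              (if HT h P ≤ T + i0 ∧ ¬ S (HT h P) (Dp z P) then 1 else 0) else 0) * Gd := by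
            refine ENNReal.tsum_le_tsum fun P => ?_
            rw [ENNReal.tsum_mul_left]
            refine mul_le_mul' (le_of_eq ?_) (ih _ _)
            by_cases h3 : FP h T P
            · by_cases h4 : HT h P ≤ T + i0 ∧ ¬ S (HT h P) (Dp z P)
              · simp [h3, h4]
              · rw [if_neg (fun hh => h4 hh.2), if_pos h3, if_neg h4, mul_zero]
            · simp [h3]
        _ = _ * Gd := ENNReal.tsum_mul_right
        _ ≤ q * Gd := mul_le_mul_left hq _

end Crest.Agent.R154.Asm222
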