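import Crest.Agent.R154.AsmA_224

/-! Row 154, ROAD 801 (helper224): density lemma for the first passage law. -/

set_option autoImplicit false

namespace Crest.Agent.R154.Asm224

open scoped ENNReal
open Crest.Agent.R154.B5A

section dens

variable {V : Type*} [AddCommGroup V]

/-- density lemma (after 616's `Dens616.dens`), first passage form. `hgt v` = height. -/
theorem densF (P : V → ℝ≥0∞) (F : ℕ → V → ℝ≥0∞) (hgt : V → ℕ) (T i0 : ℕ) (th q ε Gc : ℝ≥0∞)
    (hPT : ∀ v, P v ≠ 0 → T ≤ hgt v)
    (hrec : ∀ r, T ≤ r → ∀ v, F r v ≤ ∑' v1, P v1 * F (r - hgt v1) (v - v1))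
    (hF : ∀ r, ∑' v, F r v ≤ 1)
    (hs : ∀ r h, ∀ v, ∑' v1, (if hgt v1 = h then F r (v - v1) else 0) ≤ 1)
    (hε : ∑' v, (if T + i0 < hgt v then P v else 0) ≤ ε)
    (hq : ∑' v, (if th < P v then P v else 0) ≤ q) (hq1 : q ≤ 1)
    (hG : (i0 + 1 : ℕ) * th + q * Gc ≤ Gc) :
    ∀ J r, J * (T + i0) ≤ r → ∃ b : V → ℝ≥0∞, (∑' v, b v ≤ q ^ J + J * ε) ∧
      ∀ v, F r v ≤ Gc + b v := by
  intro J
  induction J with
  | zero =>
    intro r _
    exact ⟨F r, by simpa using hF r, fun z => le_add_self⟩
  | succ J ih =>
    intro r hr
    have hTr : T ≤ r := by nlinarith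
    have hrem : ∀ h, h ≤ T + i0 → J * (T + i0) ≤ r - h := by
      intro h hh
      have : J * (T + i0) + (T + i0) ≤ r := by nlinarith
      omega
    choose! b hb1 hb2 using fun h (hh : h ≤ T + i0) => ih (r - h) (hrem h hh)
    refine ⟨fun v => (∑' v1, if T + i0 < hgt v1 then P v1 * F (r - hgt v1) (v - v1) else 0) +
      ∑' v1, if hgt v1 ≤ T + i0 ∧ th < P v1 then P v1 * b (hgt v1) (v - v1) else 0, ?_, ?_⟩
    · rw [ENNReal.tsum_add]
      have hsub : ∀ (g : V → ℝ≥0∞) (v1 : V), ∑' v, g (v - v1) = ∑' v, g v := fun g v1 =>
        (Equiv.subRight v1).tsum_eq fun v => g v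
      have e1 : ∑' v, ∑' v1, (if T + i0 < hgt v1 then P v1 * F (r - hgt v1) (v - v1) else 0)
          ≤ ε := by
        rw [ENNReal.tsum_comm]
        refine le_trans (ENNReal.tsum_le_tsum fun v1 => ?_) hε
        split_ifs with h
        · rw [ENNReal.tsum_mul_left, hsub]
          calc P v1 * ∑' v, F (r - hgt v1) v ≤ P v1 * 1 := by gcongr; exact hF _
            _ = P v1 := mul_one _
        · simp
      have e2 : ∑' v, ∑' v1, (if hgt v1 ≤ T + i0 ∧ th < P v1 then P v1 * b (hgt v1) (v - v1)
          else 0) ≤ q * (q ^ J + J * ε) := by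
        rw [ENNReal.tsum_comm]
        calc ∑' v1, ∑' v, (if hgt v1 ≤ T + i0 ∧ th < P v1 then P v1 * b (hgt v1) (v - v1) else 0)
            ≤ ∑' v1, (if th < P v1 then P v1 else 0) * (q ^ J + J * ε) := by
              refine ENNReal.tsum_le_tsum fun v1 => ?_
              split_ifs with h1 h2 h2
              · rw [ENNReal.tsum_mul_left, hsub]
                gcongr
                exact hb1 _ h1.1
              · exact absurd h1.2 h2
              · simp
              · simp
          _ = (∑' v1, (if th < P v1 then P v1 else 0)) * (q ^ J + J * ε) := ENNReal.tsum_mul_right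
          _ ≤ _ := by gcongr
      calc _ ≤ ε + q * (q ^ J + J * ε) := add_le_add e1 e2
        _ = q ^ (J + 1) + (ε + q * (J * ε)) := by ring
        _ ≤ q ^ (J + 1) + (ε + 1 * (J * ε)) := by gcongr
        _ = q ^ (J + 1) + ((J + 1 : ℕ) : ℝ≥0∞) * ε := by push_cast; ring
    · intro v
      have hterm : ∀ v1, P v1 * F (r - hgt v1) (v - v1) ≤
          ((if T + i0 < hgt v1 then P v1 * F (r - hgt v1) (v - v1) else 0) +
            (if T ≤ hgt v1 ∧ hgt v1 ≤ T + i0 then th * F (r - hgt v1) (v - v1) else 0)) +
          ((if hgt v1 ≤ T + i0 ∧ th < P v1 then P v1 * b (hgt v1) (v - v1) else 0) +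
            (if th < P v1 then P v1 else 0) * Gc) := by
        intro v1
        by_cases hP0 : P v1 = 0
        · simp [hP0]
        have hT1 := hPT v1 hP0
        by_cases hi : hgt v1 ≤ T + i0
        · have hi' : ¬ T + i0 < hgt v1 := by omega
          simp only [hi, hi', hT1, if_false, if_true, true_and, and_true, zero_add]
          by_cases hp : th < P v1
          · simp only [hp, if_true]
            calc _ ≤ P v1 * (Gc + b (hgt v1) (v - v1)) := by gcongr; exact hb2 _ hi _
              _ = P v1 * b (hgt v1) (v - v1) + P v1 * Gc := by ring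
              _ ≤ _ := le_add_self
          · simp only [hp, if_false, zero_mul, add_zero]
            gcongr
            exact not_lt.1 hp
        · have hi' : T + i0 < hgt v1 := by omega
          simp only [hi', if_true]
          rw [add_assoc]
          exact le_self_add
      calc F r v ≤ ∑' v1, P v1 * F (r - hgt v1) (v - v1) := hrec r hTr v
        _ ≤ ∑' v1, (((if T + i0 < hgt v1 then P v1 * F (r - hgt v1) (v - v1) else 0) +
            (if T ≤ hgt v1 ∧ hgt v1 ≤ T + i0 then th * F (r - hgt v1) (v - v1) else 0)) +
          ((if hgt v1 ≤ T + i0 ∧ th < P v1 then P v1 * b (hgt v1) (v - v1) else 0) +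
            (if th < P v1 then P v1 else 0) * Gc)) := ENNReal.tsum_le_tsum hterm
        _ = ((∑' v1, (if T + i0 < hgt v1 then P v1 * F (r - hgt v1) (v - v1) else 0)) +
            (∑' v1, (if T ≤ hgt v1 ∧ hgt v1 ≤ T + i0 then th * F (r - hgt v1) (v - v1) else 0))) +
          ((∑' v1, (if hgt v1 ≤ T + i0 ∧ th < P v1 then P v1 * b (hgt v1) (v - v1) else 0)) +
            (∑' v1, (if th < P v1 then P v1 else 0)) * Gc) := by
            simp_rw [ENNReal.tsum_add, ENNReal.tsum_mul_right]
        _ ≤ ((∑' v1, (if T + i0 < hgt v1 then P v1 * F (r - hgt v1) (v - v1) else 0)) +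
            ((i0 + 1 : ℕ) * th)) +
          ((∑' v1, (if hgt v1 ≤ T + i0 ∧ th < P v1 then P v1 * b (hgt v1) (v - v1) else 0)) +
            q * Gc) := by
            gcongr
            calc ∑' v1, (if T ≤ hgt v1 ∧ hgt v1 ≤ T + i0 then th * F (r - hgt v1) (v - v1) else 0)
                = ∑' v1, ∑ h ∈ Finset.Icc T (T + i0),
                    (if hgt v1 = h then th * F (r - h) (v - v1) else 0) := by
                  refine tsum_congr fun v1 => ?_
                  by_cases hh : T ≤ hgt v1 ∧ hgt v1 ≤ T + i0
                  · rw [if_pos hh, Finset.sum_eq_single (hgt v1)]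
                    · simp
                    · intro h _ hne; rw [if_neg hne.symm]
                    · intro hn; exact absurd (Finset.mem_Icc.2 hh) hn
                  · rw [if_neg hh, Finset.sum_eq_zero]
                    intro h hm
                    rw [if_neg]
                    rintro rfl
                    exact hh (Finset.mem_Icc.1 hm)
              _ = ∑ h ∈ Finset.Icc T (T + i0), ∑' v1,
                    (if hgt v1 = h then th * F (r - h) (v - v1) else 0) :=
                  Summable.tsum_finsetSum (fun _ _ => ENNReal.summable)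
              _ ≤ ∑ _h ∈ Finset.Icc T (T + i0), th := by
                  refine Finset.sum_le_sum fun h _ => ?_
                  calc ∑' v1, (if hgt v1 = h then th * F (r - h) (v - v1) else 0)
                      = th * ∑' v1, (if hgt v1 = h then F (r - h) (v - v1) else 0) := by
                        rw [← ENNReal.tsum_mul_left]
                        refine tsum_congr fun v1 => ?_
                        split_ifs <;> simp
                    _ ≤ th * 1 := by gcongr; exact hs _ _ _
                    _ = th := mul_one _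
              _ = _ := by
                  rw [Finset.sum_const, Nat.card_Icc]
                  simp only [nsmul_eq_mul]
                  congr 2
                  omega
        _ = ((i0 + 1 : ℕ) * th + q * Gc) +
            ((∑' v1, (if T + i0 < hgt v1 then P v1 * F (r - hgt v1) (v - v1) else 0)) +
            ∑' v1, (if hgt v1 ≤ T + i0 ∧ th < P v1 then P v1 * b (hgt v1) (v - v1) else 0)) := by
            ring
        _ ≤ _ := by gcongr

end dens

end Crest.Agent.R154.Asm224
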