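import Crest.Agent.R154.AsmA_239

/-! Row 154 (helper239): one window of the list assembly. -/

set_option autoImplicit false

namespace Crest.Agent.R154.Asm239

open scoped ENNReal
open scoped Classical
open B5A

section one
variable {B G : Type*}

/-- weight of a first passage with overshoot at most `i0` -/
noncomputable def qq (Λ : B → ℝ≥0∞) (ht : B → ℕ) (i0 a : ℕ) (T : List B) : ℝ≥0∞ :=
  if SP ht a T ∧ HT ht T ≤ a + i0 then LW Λ T else 0

lemma qq_sum (Λ : B → ℝ≥0∞) (ht : B → ℕ) (h1 : ∀ b, 1 ≤ ht b) (hΛ : ∑' b, Λ b = 1)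
    (i0 a : ℕ) : ∑' T, qq Λ ht i0 a T ≤ 1 := by
  rw [← mass_SP Λ ht h1 hΛ a]
  apply ENNReal.tsum_le_tsum
  intro T
  unfold qq
  split_ifs with h h' h'
  · exact le_refl _
  · exact absurd h.1 h'
  · exact zero_le
  · exact le_refl _

lemma cut (Λ : B → ℝ≥0∞) (ht : B → ℕ) (h1 : ∀ b, 1 ≤ ht b) (hΛ : ∑' b, Λ b = 1)
    (hU : ∀ n, U Λ ht n ≤ 1) (a c i0 n : ℕ) (hn : a + i0 + c ≤ n)
    (F : List B → ℝ≥0∞) (hF1 : ∀ L, F L ≤ 1) (F' : List B → List B → ℝ≥0∞)
    (hFF : ∀ T P R, SP ht a T → HT ht T ≤ a + i0 → SP ht c P → HT ht P ≤ c + i0 →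
      F (T ++ (P ++ R)) ≤ F' T P) :
    ∑' L, (if HT ht L = n then LW Λ L * F L else 0)
      ≤ ∑' T, qq Λ ht i0 a T * ∑' P, qq Λ ht i0 c P * F' T P + 2 * ov Λ ht i0 := by
  have hR : ∀ k : ℕ, ∑' R : List B, (if k + HT ht R = n then LW Λ R else 0) ≤ 1 := by
    intro k
    refine le_trans ?_ (hU (n - k))
    unfold U
    apply ENNReal.tsum_le_tsum
    intro R
    by_cases h : k + HT ht R = n
    · rw [if_pos h, if_pos (by omega)]
    · rw [if_neg h]; exact zero_le
  have hT : ∀ T : List B, ∑' R : List B, (if SP ht a T then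
      (if HT ht (T ++ R) = n then LW Λ (T ++ R) * F (T ++ R) else 0) else 0)
      ≤ (qq Λ ht i0 a T * ∑' P, qq Λ ht i0 c P * F' T P
        + (if SP ht a T then LW Λ T else 0) * ov Λ ht i0)
        + (if SP ht a T ∧ a + i0 < HT ht T then LW Λ T else 0) := by
    intro T
    by_cases hS : SP ht a T
    · by_cases hi : HT ht T ≤ a + i0
      · refine le_trans ?_ le_self_add
        simp only [hS, if_true]
        calc ∑' R : List B, (if HT ht (T ++ R) = n then LW Λ (T ++ R) * F (T ++ R) else 0)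
            ≤ ∑' P, ∑' R, (if SP ht c P then (if HT ht (T ++ (P ++ R)) = n then
                LW Λ (T ++ (P ++ R)) * F (T ++ (P ++ R)) else 0) else 0) := by
              apply split_le ht c
              intro R hR0
              by_contra hc
              apply hR0
              rw [if_neg]
              rw [HT_append]
              omega
          _ ≤ ∑' P, (LW Λ T * (qq Λ ht i0 c P * F' T P) +
                LW Λ T * (if SP ht c P ∧ c + i0 < HT ht P then LW Λ P else 0)) := by
              apply ENNReal.tsum_le_tsum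
              intro P
              by_cases hP : SP ht c P
              · by_cases hPi : HT ht P ≤ c + i0
                · refine le_trans ?_ le_self_add
                  calc _ ≤ ∑' R, (LW Λ T * (qq Λ ht i0 c P * F' T P)) *
                        (if (HT ht T + HT ht P) + HT ht R = n then LW Λ R else 0) := by
                        apply ENNReal.tsum_le_tsum
                        intro R
                        rw [if_pos hP, HT_append, HT_append]
                        by_cases hh : HT ht T + (HT ht P + HT ht R) = n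
                        · rw [if_pos hh, if_pos (by omega), LW_append, LW_append]
                          unfold qq
                          rw [if_pos ⟨hP, hPi⟩]
                          calc LW Λ T * (LW Λ P * LW Λ R) * F (T ++ (P ++ R))
                              ≤ LW Λ T * (LW Λ P * LW Λ R) * F' T P := by
                                gcongr
                                exact hFF T P R hS hi hP hPi
                            _ = _ := by ring
                        · rw [if_neg hh]; exact zero_le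
                    _ ≤ (LW Λ T * (qq Λ ht i0 c P * F' T P)) * 1 := by
                        rw [ENNReal.tsum_mul_left]
                        gcongr
                        exact hR _
                    _ = _ := mul_one _
                · refine le_trans ?_ le_add_self
                  rw [if_pos (⟨hP, by omega⟩ : SP ht c P ∧ c + i0 < HT ht P)]
                  calc _ ≤ ∑' R, (LW Λ T * LW Λ P) *
                        (if (HT ht T + HT ht P) + HT ht R = n then LW Λ R else 0) := by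
                        apply ENNReal.tsum_le_tsum
                        intro R
                        rw [if_pos hP, HT_append, HT_append]
                        by_cases hh : HT ht T + (HT ht P + HT ht R) = n
                        · rw [if_pos hh, if_pos (by omega), LW_append, LW_append]
                          calc LW Λ T * (LW Λ P * LW Λ R) * F (T ++ (P ++ R))
                              ≤ LW Λ T * (LW Λ P * LW Λ R) * 1 := by
                                gcongr
                                exact hF1 _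
                            _ = _ := by ring
                        · rw [if_neg hh]; exact zero_le
                    _ ≤ (LW Λ T * LW Λ P) * 1 := by
                        rw [ENNReal.tsum_mul_left]
                        gcongr
                        exact hR _
                    _ = _ := mul_one _
              · simp [hP]
          _ ≤ qq Λ ht i0 a T * ∑' P, qq Λ ht i0 c P * F' T P + LW Λ T * ov Λ ht i0 := by
              rw [ENNReal.tsum_add, ENNReal.tsum_mul_left, ENNReal.tsum_mul_left]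
              have : qq Λ ht i0 a T = LW Λ T := by unfold qq; rw [if_pos ⟨hS, hi⟩]
              rw [this]
              gcongr
              exact over_le Λ ht hU c i0
      · refine le_trans ?_ le_add_self
        rw [if_pos (⟨hS, by omega⟩ : SP ht a T ∧ a + i0 < HT ht T)]
        calc _ ≤ ∑' R, LW Λ T * (if HT ht T + HT ht R = n then LW Λ R else 0) := by
              apply ENNReal.tsum_le_tsum
              intro R
              rw [if_pos hS, HT_append]
              by_cases hh : HT ht T + HT ht R = n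
              · rw [if_pos hh, if_pos hh, LW_append]
                calc LW Λ T * LW Λ R * F (T ++ R) ≤ LW Λ T * LW Λ R * 1 := by
                      gcongr
                      exact hF1 _
                  _ = _ := mul_one _
              · rw [if_neg hh]; exact zero_le
          _ ≤ LW Λ T * 1 := by
              rw [ENNReal.tsum_mul_left]
              gcongr
              exact hR _
          _ = _ := mul_one _
    · simp [hS]
  calc ∑' L, (if HT ht L = n then LW Λ L * F L else 0)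
      ≤ ∑' T, ∑' R, (if SP ht a T then
      (if HT ht (T ++ R) = n then LW Λ (T ++ R) * F (T ++ R) else 0) else 0) := by
        apply split_le ht a
        intro L hL
        by_contra hc
        apply hL
        rw [if_neg]
        omega
    _ ≤ ∑' T, ((qq Λ ht i0 a T * ∑' P, qq Λ ht i0 c P * F' T P
        + (if SP ht a T then LW Λ T else 0) * ov Λ ht i0)
        + (if SP ht a T ∧ a + i0 < HT ht T then LW Λ T else 0)) :=
        ENNReal.tsum_le_tsum hT
    _ ≤ _ := by
        rw [ENNReal.tsum_add, ENNReal.tsum_add, ENNReal.tsum_mul_right, mass_SP Λ ht h1 hΛ,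
          one_mul, two_mul, ← add_assoc]
        gcongr
        exact over_le Λ ht hU a i0

variable [AddCommGroup G]

lemma top_le (Λ : B → ℝ≥0∞) (ht : B → ℕ) (z : B → G) (h1 : ∀ b, 1 ≤ ht b)
    (hΛ : ∑' b, Λ b = 1) (a i0 : ℕ) (Gc δ : ℝ≥0∞) (b : ℕ × G → ℝ≥0∞)
    (hb : ∀ y, fp Λ ht z a y ≤ Gc + b y) (hbs : ∑' y, b y ≤ δ)
    (Ψ : ℕ → G → ℝ≥0∞) (hΨ1 : ∀ α x, Ψ α x ≤ 1) (Bd : ℝ≥0∞)
    (hΨ : ∀ α, a ≤ α → α ≤ a + i0 → ∀ μ : G → ℝ≥0∞, ∑' x, μ x ≤ 1 → (∀ x, μ x ≤ Gc) →
      ∑' x, μ x * Ψ α x ≤ Bd) :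
    ∑' T, qq Λ ht i0 a T * Ψ (HT ht T) (Dp z T) ≤ ((i0 + 1 : ℕ) : ℝ≥0∞) * Bd + δ := by
  let ψ : ℕ × G → ℝ≥0∞ := fun y => if y.1 ≤ i0 then Ψ (a + y.1) y.2 else 0
  have h2 : ∑' T, qq Λ ht i0 a T * Ψ (HT ht T) (Dp z T) ≤ ∑' y, fp Λ ht z a y * ψ y := by
    rw [← fiber_fp]
    apply ENNReal.tsum_le_tsum
    intro T
    unfold qq
    by_cases hS : SP ht a T
    · by_cases hi : HT ht T ≤ a + i0
      · rw [if_pos ⟨hS, hi⟩, if_pos hS]
        gcongr
        simp only [ψ]
        rw [if_pos (by omega)]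
        have := hS.1
        rw [show a + (HT ht T - a) = HT ht T by omega]
      · rw [if_neg (fun h => hi h.2)]
        simp
    · rw [if_neg (fun h => hS h.1)]
      simp
  refine h2.trans ?_
  have h3 : ∀ y, fp Λ ht z a y * ψ y ≤ min (fp Λ ht z a y) Gc * ψ y + b y := by
    intro y
    have hψ : ψ y ≤ 1 := by
      simp only [ψ]
      split_ifs
      · exact hΨ1 _ _
      · exact zero_le
    by_cases h : fp Λ ht z a y ≤ Gc
    · rw [min_eq_left h]
      exact le_self_add
    · push Not at h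
      rw [min_eq_right h.le]
      calc fp Λ ht z a y * ψ y ≤ (Gc + b y) * ψ y := by gcongr; exact hb y
        _ = Gc * ψ y + b y * ψ y := by ring
        _ ≤ Gc * ψ y + b y * 1 := by gcongr
        _ = _ := by rw [mul_one]
  calc ∑' y, fp Λ ht z a y * ψ y ≤ ∑' y, (min (fp Λ ht z a y) Gc * ψ y + b y) :=
        ENNReal.tsum_le_tsum h3
    _ = ∑' y, min (fp Λ ht z a y) Gc * ψ y + ∑' y, b y := ENNReal.tsum_add
    _ ≤ ((i0 + 1 : ℕ) : ℝ≥0∞) * Bd + δ := by
        gcongr
        rw [ENNReal.tsum_prod (f := fun i x => min (fp Λ ht z a (i, x)) Gc * ψ (i, x))]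
        calc ∑' i, ∑' x, min (fp Λ ht z a (i, x)) Gc * ψ (i, x)
            ≤ ∑' i : ℕ, (if i ∈ Finset.range (i0 + 1) then Bd else 0) := by
              apply ENNReal.tsum_le_tsum
              intro i
              by_cases hi : i ≤ i0
              · rw [if_pos (by rw [Finset.mem_range]; omega)]
                simp only [ψ, hi, if_true]
                refine hΨ (a + i) (by omega) (by omega)
                  (fun x => min (fp Λ ht z a (i, x)) Gc) ?_ (fun x => min_le_right _ _)
                calc ∑' x, min (fp Λ ht z a (i, x)) Gc ≤ ∑' x, fp Λ ht z a (i, x) :=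
                      ENNReal.tsum_le_tsum (fun x => min_le_left _ _)
                  _ ≤ ∑' y, fp Λ ht z a y :=
                      ENNReal.tsum_comp_le_tsum_of_injective
                        (f := fun x : G => ((i, x) : ℕ × G)) (fun x y h => by simpa using h) _
                  _ = 1 := sum_fp Λ ht z h1 hΛ a
              · simp [ψ, hi]
          _ = ((i0 + 1 : ℕ) : ℝ≥0∞) * Bd := by
              rw [tsum_eq_sum (s := Finset.range (i0 + 1))]
              · rw [Finset.sum_ite_mem, Finset.inter_self, Finset.sum_const, Finset.card_range,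
                  nsmul_eq_mul]
              · intro i hi'
                rw [if_neg hi']

end one

section two
variable {A B G : Type*} [AddCommGroup G]

/-- piece pairs of all heights, from fixed heights -/
lemma pieces_le (Λ : A → ℝ≥0∞) (ht : A → ℕ) (z : A → G) (Λ' : B → ℝ≥0∞) (ht' : B → ℕ)
    (c i0 : ℕ) (M Bd : ℝ≥0∞) (E : ℕ → Set G) (Q : G → List A → List B → Prop)
    (hH : ∀ h h', c ≤ h → h ≤ c + i0 → c ≤ h' → h' ≤ c + i0 → ∀ μ : G → ℝ≥0∞,
      ∑' x, μ x ≤ 1 → (∀ x, μ x ≤ M) →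
      ∑' x, μ x * ∑' P, ∑' P', (if HT ht P = h ∧ Dp z P ∈ E h ∧ HT ht' P' = h' ∧ Q x P P'
        then LW Λ P * LW Λ' P' else 0) ≤ Bd)
    (v : G) (μ : G → ℝ≥0∞) (hμ : ∑' x, μ x ≤ 1) (hM : ∀ x, μ x ≤ M) :
    ∑' x, μ x * ∑' P, qq Λ ht i0 c P * ∑' P', qq Λ' ht' i0 c P' *
      (if Dp z P ∈ E (HT ht P) ∧ Q (v - x) P P' then 1 else 0)
      ≤ ((i0 + 1 : ℕ) : ℝ≥0∞) ^ 2 * Bd := by
  let I := Finset.Icc c (c + i0)
  have hI : I.card = i0 + 1 := by simp [I]; omega
  let S : ℕ → ℕ → G → ℝ≥0∞ := fun h h' x =>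
    ∑' P, ∑' P', (if HT ht P = h ∧ Dp z P ∈ E h ∧ HT ht' P' = h' ∧ Q x P P'
        then LW Λ P * LW Λ' P' else 0)
  have h1 : ∀ x, ∑' P, qq Λ ht i0 c P * ∑' P', qq Λ' ht' i0 c P' *
      (if Dp z P ∈ E (HT ht P) ∧ Q (v - x) P P' then 1 else 0)
      ≤ ∑ h ∈ I, ∑ h' ∈ I, S h h' (v - x) := by
    intro x
    simp only [S]
    simp_rw [← Summable.tsum_finsetSum (fun _ _ => ENNReal.summable)]
    apply ENNReal.tsum_le_tsum
    intro P
    rw [← ENNReal.tsum_mul_left]
    apply ENNReal.tsum_le_tsum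
    intro P'
    by_cases hc : (SP ht c P ∧ HT ht P ≤ c + i0) ∧ (SP ht' c P' ∧ HT ht' P' ≤ c + i0) ∧
        (Dp z P ∈ E (HT ht P) ∧ Q (v - x) P P')
    · have hm1 : HT ht P ∈ I := Finset.mem_Icc.mpr ⟨hc.1.1.1, hc.1.2⟩
      have hm2 : HT ht' P' ∈ I := Finset.mem_Icc.mpr ⟨hc.2.1.1.1, hc.2.1.2⟩
      refine le_trans ?_ (Finset.single_le_sum (f := fun h => ∑ h' ∈ I,
        (if HT ht P = h ∧ Dp z P ∈ E h ∧ HT ht' P' = h' ∧ Q (v - x) P P'
        then LW Λ P * LW Λ' P' else 0)) (fun _ _ => zero_le) hm1)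
      refine le_trans ?_ (Finset.single_le_sum (f := fun h' =>
        (if HT ht P = HT ht P ∧ Dp z P ∈ E (HT ht P) ∧ HT ht' P' = h' ∧ Q (v - x) P P'
        then LW Λ P * LW Λ' P' else 0)) (fun _ _ => zero_le) hm2)
      rw [if_pos hc.2.2, mul_one, if_pos ⟨rfl, hc.2.2.1, rfl, hc.2.2.2⟩]
      unfold qq
      rw [if_pos hc.1, if_pos hc.2.1]
    · have : qq Λ ht i0 c P * (qq Λ' ht' i0 c P' *
          (if Dp z P ∈ E (HT ht P) ∧ Q (v - x) P P' then 1 else 0)) = 0 := by
        unfold qq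
        by_cases h2 : SP ht c P ∧ HT ht P ≤ c + i0
        · by_cases h3 : SP ht' c P' ∧ HT ht' P' ≤ c + i0
          · rw [if_neg (fun h4 => hc ⟨h2, h3, h4⟩)]
            simp
          · rw [if_neg h3]
            simp
        · rw [if_neg h2]
          simp
      rw [this]
      exact zero_le
  calc _ ≤ ∑' x, μ x * ∑ h ∈ I, ∑ h' ∈ I, S h h' (v - x) := by
        apply ENNReal.tsum_le_tsum
        intro x
        gcongr
        exact h1 x
    _ = ∑ h ∈ I, ∑ h' ∈ I, ∑' x, μ x * S h h' (v - x) := by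
        simp_rw [← Summable.tsum_finsetSum (fun _ _ => ENNReal.summable), Finset.mul_sum]
    _ ≤ ∑ h ∈ I, ∑ h' ∈ I, Bd := by
        apply Finset.sum_le_sum
        intro h hh
        apply Finset.sum_le_sum
        intro h' hh'
        rw [Finset.mem_Icc] at hh hh'
        have h5 := (Equiv.subLeft v).tsum_eq (fun x => μ (v - x) * S h h' x)
        simp only [Equiv.subLeft_apply, sub_sub_cancel] at h5
        rw [h5]
        refine hH h h' hh.1 hh.2 hh'.1 hh'.2 (fun x => μ (v - x)) ?_ (fun x => hM _)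
        exact le_trans (le_of_eq ((Equiv.subLeft v).tsum_eq μ)) hμ
    _ = _ := by
        rw [Finset.sum_const, Finset.sum_const, hI]
        simp only [nsmul_eq_mul]
        ring

/-- one walker local -/
lemma loc_le (Λ : A → ℝ≥0∞) (ht : A → ℕ) (z : A → G) (h1 : ∀ b, 1 ≤ ht b)
    (hΛ : ∑' b, Λ b = 1) (Λ' : B → ℝ≥0∞) (ht' : B → ℕ) (z' : B → G) (h1' : ∀ b, 1 ≤ ht' b)
    (hΛ' : ∑' b, Λ' b = 1)
    (a a' c i0 : ℕ) (Gc δ Bd : ℝ≥0∞) (b : ℕ × G → ℝ≥0∞)
    (hb : ∀ y, fp Λ ht z a y ≤ Gc + b y) (hbs : ∑' y, b y ≤ δ)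
    (E : ℕ → Set G) (Q : ℕ → ℕ → G → List A → List B → Prop) (w : G)
    (hH : ∀ α β h h', a ≤ α → α ≤ a + i0 → a' ≤ β → β ≤ a' + i0 →
      c ≤ h → h ≤ c + i0 → c ≤ h' → h' ≤ c + i0 → ∀ μ : G → ℝ≥0∞,
      ∑' x, μ x ≤ 1 → (∀ x, μ x ≤ Gc) →
      ∑' x, μ x * ∑' P, ∑' P', (if HT ht P = h ∧ Dp z P ∈ E h ∧ HT ht' P' = h' ∧ Q α β x P P'
        then LW Λ P * LW Λ' P' else 0) ≤ Bd) :
    ∑' T', qq Λ' ht' i0 a' T' * ∑' T, qq Λ ht i0 a T * ∑' P, qq Λ ht i0 c P *
      ∑' P', qq Λ' ht' i0 c P' * (if Dp z P ∈ E (HT ht P) ∧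
        Q (HT ht T) (HT ht' T') (w + Dp z' T' - Dp z T) P P' then 1 else 0)
      ≤ ((i0 + 1 : ℕ) : ℝ≥0∞) ^ 3 * Bd + δ := by
  have hT' : ∀ T', qq Λ' ht' i0 a' T' * ∑' T, qq Λ ht i0 a T * ∑' P, qq Λ ht i0 c P *
      ∑' P', qq Λ' ht' i0 c P' * (if Dp z P ∈ E (HT ht P) ∧
        Q (HT ht T) (HT ht' T') (w + Dp z' T' - Dp z T) P P' then 1 else 0)
      ≤ qq Λ' ht' i0 a' T' * (((i0 + 1 : ℕ) : ℝ≥0∞) ^ 3 * Bd + δ) := by
    intro T'
    by_cases hS : SP ht' a' T' ∧ HT ht' T' ≤ a' + i0
    · gcongr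
      have h2 := top_le Λ ht z h1 hΛ a i0 Gc δ b hb hbs
        (fun α x => ∑' P, qq Λ ht i0 c P *
          ∑' P', qq Λ' ht' i0 c P' * (if Dp z P ∈ E (HT ht P) ∧
          Q α (HT ht' T') (w + Dp z' T' - x) P P' then 1 else 0)) ?_
        (((i0 + 1 : ℕ) : ℝ≥0∞) ^ 2 * Bd) ?_
      · refine h2.trans (le_of_eq ?_)
        ring
      · intro α x
        calc ∑' P, qq Λ ht i0 c P *
          ∑' P', qq Λ' ht' i0 c P' * (if Dp z P ∈ E (HT ht P) ∧
          Q α (HT ht' T') (w + Dp z' T' - x) P P' then 1 else 0)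
            ≤ ∑' P, qq Λ ht i0 c P * 1 := by
              apply ENNReal.tsum_le_tsum
              intro P
              gcongr
              calc _ ≤ ∑' P', qq Λ' ht' i0 c P' * 1 := by
                    apply ENNReal.tsum_le_tsum
                    intro P'
                    gcongr
                    split_ifs
                    · exact le_refl _
                    · exact zero_le
                _ ≤ 1 := by simpa using qq_sum Λ' ht' h1' hΛ' i0 c
          _ ≤ 1 := by simpa using qq_sum Λ ht h1 hΛ i0 c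
      · intro α hα1 hα2 μ hμ hM
        exact pieces_le Λ ht z Λ' ht' c i0 Gc Bd E (Q α (HT ht' T'))
          (fun h h' e1 e2 e3 e4 μ' hμ' hM' => hH α (HT ht' T') h h' hα1 hα2 hS.1.1 hS.2
            e1 e2 e3 e4 μ' hμ' hM') (w + Dp z' T') μ hμ hM
    · have : qq Λ' ht' i0 a' T' = 0 := by unfold qq; rw [if_neg hS]
      rw [this]
      simp
  calc _ ≤ ∑' T', qq Λ' ht' i0 a' T' * (((i0 + 1 : ℕ) : ℝ≥0∞) ^ 3 * Bd + δ) :=
        ENNReal.tsum_le_tsum hT'
    _ = (∑' T', qq Λ' ht' i0 a' T') * (((i0 + 1 : ℕ) : ℝ≥0∞) ^ 3 * Bd + δ) :=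
        ENNReal.tsum_mul_right
    _ ≤ 1 * (((i0 + 1 : ℕ) : ℝ≥0∞) ^ 3 * Bd + δ) := by
        gcongr
        exact qq_sum Λ' ht' h1' hΛ' i0 a'
    _ = _ := one_mul _

/-- both walkers nonlocal -/
lemma nonloc_le (Λ : A → ℝ≥0∞) (ht : A → ℕ) (Λ' : B → ℝ≥0∞) (ht' : B → ℕ)
    (c i0 : ℕ) (u : ℝ≥0∞) (N : List A → Prop) (N' : List B → Prop)
    (hN : ∑' P, (if SP ht c P ∧ N P then LW Λ P else 0) ≤ u)
    (hN' : ∑' P, (if SP ht' c P ∧ N' P then LW Λ' P else 0) ≤ u) :
    ∑' P, qq Λ ht i0 c P * ∑' P', qq Λ' ht' i0 c P' * (if N P ∧ N' P' then 1 else 0) ≤ u * u := by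
  calc ∑' P, qq Λ ht i0 c P * ∑' P', qq Λ' ht' i0 c P' * (if N P ∧ N' P' then 1 else 0)
      ≤ ∑' P, (if SP ht c P ∧ N P then LW Λ P else 0) *
          ∑' P', (if SP ht' c P' ∧ N' P' then LW Λ' P' else 0) := by
        apply ENNReal.tsum_le_tsum
        intro P
        by_cases h1 : SP ht c P ∧ N P
        · rw [if_pos h1]
          unfold qq
          gcongr with P'
          · split_ifs
            · exact le_refl _
            · exact zero_le
          · by_cases h2 : SP ht' c P' ∧ N' P'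
            · rw [if_pos h2]
              split_ifs <;> simp
            · rw [if_neg h2]
              by_cases h3 : SP ht' c P'
              · rw [if_neg (fun h : N P ∧ N' P' => h2 ⟨h3, h.2⟩)]
                simp
              · rw [if_neg (fun h : SP ht' c P' ∧ HT ht' P' ≤ c + i0 => h3 h.1)]
                simp
        · rw [if_neg h1]
          by_cases h3 : SP ht c P
          · have : ∀ P', ¬ (N P ∧ N' P') := fun P' h => h1 ⟨h3, h.1⟩
            simp [this]
          · unfold qq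
            rw [if_neg (fun h : SP ht c P ∧ HT ht P ≤ c + i0 => h3 h.1)]
            simp
    _ ≤ u * u := by
        rw [ENNReal.tsum_mul_right]
        gcongr

lemma swp {ι κ : Type*} (f : ι → ℝ≥0∞) (g : κ → ℝ≥0∞) (φ : ι → κ → ℝ≥0∞) :
    ∑' x, f x * ∑' y, g y * φ x y = ∑' y, g y * ∑' x, f x * φ x y := by
  simp_rw [← ENNReal.tsum_mul_left]
  rw [ENNReal.tsum_comm]
  simp_rw [mul_left_comm]

/-- one window -/
theorem window_le (Λ : A → ℝ≥0∞) (ht : A → ℕ) (z : A → G) (h1 : ∀ b, 1 ≤ ht b)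
    (hΛ : ∑' b, Λ b = 1) (hU : ∀ n, U Λ ht n ≤ 1)
    (Λ' : B → ℝ≥0∞) (ht' : B → ℕ) (z' : B → G) (h1' : ∀ b, 1 ≤ ht' b)
    (hΛ' : ∑' b, Λ' b = 1) (hU' : ∀ n, U Λ' ht' n ≤ 1)
    (a a' c i0 n : ℕ) (hn : a + i0 + c ≤ n) (hn' : a' + i0 + c ≤ n)
    (Ev : List A → List B → Prop) (Q : ℕ → ℕ → G → List A → List B → Prop) (w : G)
    (hEv : ∀ T P R T' P' R', SP ht a T → HT ht T ≤ a + i0 → SP ht c P → HT ht P ≤ c + i0 →
      SP ht' a' T' → HT ht' T' ≤ a' + i0 → SP ht' c P' → HT ht' P' ≤ c + i0 →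
      Ev (T ++ (P ++ R)) (T' ++ (P' ++ R')) →
      Q (HT ht T) (HT ht' T') (w + Dp z' T' - Dp z T) P P')
    (E E' : ℕ → Set G) (u Gc δ Gc' δ' Bd : ℝ≥0∞)
    (hN : ∑' P, (if SP ht c P ∧ Dp z P ∉ E (HT ht P) then LW Λ P else 0) ≤ u)
    (hN' : ∑' P, (if SP ht' c P ∧ Dp z' P ∉ E' (HT ht' P) then LW Λ' P else 0) ≤ u)
    (b : ℕ × G → ℝ≥0∞) (hb : ∀ y, fp Λ ht z a y ≤ Gc + b y) (hbs : ∑' y, b y ≤ δ)
    (b' : ℕ × G → ℝ≥0∞) (hb' : ∀ y, fp Λ' ht' z' a' y ≤ Gc' + b' y) (hbs' : ∑' y, b' y ≤ δ')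
    (hH : ∀ α β h h', a ≤ α → α ≤ a + i0 → a' ≤ β → β ≤ a' + i0 →
      c ≤ h → h ≤ c + i0 → c ≤ h' → h' ≤ c + i0 → ∀ μ : G → ℝ≥0∞,
      ∑' x, μ x ≤ 1 → (∀ x, μ x ≤ Gc) →
      ∑' x, μ x * ∑' P, ∑' P', (if HT ht P = h ∧ Dp z P ∈ E h ∧ HT ht' P' = h' ∧ Q α β x P P'
        then LW Λ P * LW Λ' P' else 0) ≤ Bd)
    (hH' : ∀ α β h h', a ≤ α → α ≤ a + i0 → a' ≤ β → β ≤ a' + i0 →
      c ≤ h → h ≤ c + i0 → c ≤ h' → h' ≤ c + i0 → ∀ μ : G → ℝ≥0∞,
      ∑' x, μ x ≤ 1 → (∀ x, μ x ≤ Gc') →
      ∑' x, μ x * ∑' P, ∑' P', (if HT ht P = h ∧ Dp z' P' ∈ E' h' ∧ HT ht' P' = h' ∧ Q α β x P P'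
        then LW Λ P * LW Λ' P' else 0) ≤ Bd) :
    ∑' L, ∑' L', (if HT ht L = n ∧ HT ht' L' = n ∧ Ev L L' then LW Λ L * LW Λ' L' else 0)
      ≤ u * u + (((i0 + 1 : ℕ) : ℝ≥0∞) ^ 3 * Bd + δ) + (((i0 + 1 : ℕ) : ℝ≥0∞) ^ 3 * Bd + δ')
        + (2 * ov Λ' ht' i0 + 2 * ov Λ ht i0) := by
  -- the cut event
  let QQ : List A → List A → List B → List B → Prop := fun T P T' P' =>
    Q (HT ht T) (HT ht' T') (w + Dp z' T' - Dp z T) P P'
  have hqs := qq_sum Λ ht h1 hΛ i0
  have hqs' := qq_sum Λ' ht' h1' hΛ' i0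
  -- E1
  have e1 : ∑' L, ∑' L', (if HT ht L = n ∧ HT ht' L' = n ∧ Ev L L' then LW Λ L * LW Λ' L' else 0)
      ≤ ∑' T, qq Λ ht i0 a T * ∑' P, qq Λ ht i0 c P * (∑' T', qq Λ' ht' i0 a' T' *
        ∑' P', qq Λ' ht' i0 c P' * (if QQ T P T' P' then 1 else 0) + 2 * ov Λ' ht' i0)
        + 2 * ov Λ ht i0 := by
    let F : List A → ℝ≥0∞ := fun L => ∑' L', (if HT ht' L' = n then LW Λ' L' *
      (if Ev L L' then 1 else 0) else 0)
    have hF : ∀ L, F L ≤ 1 := by
      intro L
      refine le_trans ?_ (hU' n)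
      unfold U
      apply ENNReal.tsum_le_tsum
      intro L'
      split_ifs <;> simp
    refine le_trans (le_of_eq ?_) (cut Λ ht h1 hΛ hU a c i0 n hn F hF
      (fun T P => ∑' T', qq Λ' ht' i0 a' T' *
        ∑' P', qq Λ' ht' i0 c P' * (if QQ T P T' P' then 1 else 0) + 2 * ov Λ' ht' i0) ?_)
    · apply tsum_congr
      intro L
      by_cases hL : HT ht L = n
      · simp only [F, hL, true_and, if_true]
        rw [← ENNReal.tsum_mul_left]
        apply tsum_congr
        intro L'
        by_cases hL' : HT ht' L' = n <;> by_cases hE : Ev L L' <;> simp [hL', hE]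
      · simp [hL]
    · intro T P R hT hTi hP hPi
      refine cut Λ' ht' h1' hΛ' hU' a' c i0 n hn'
        (fun L' => if Ev (T ++ (P ++ R)) L' then 1 else 0) ?_
        (fun T' P' => if QQ T P T' P' then 1 else 0) ?_ |>.trans' ?_
      · intro L'
        split_ifs <;> simp
      · intro T' P' R' hT' hTi' hP' hPi'
        by_cases hE : Ev (T ++ (P ++ R)) (T' ++ (P' ++ R'))
        · rw [if_pos hE, if_pos (hEv T P R T' P' R' hT hTi hP hPi hT' hTi' hP' hPi' hE)]
        · rw [if_neg hE]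
          exact zero_le
      · exact le_refl _
  refine e1.trans ?_
  rw [← add_assoc]
  gcongr
  -- normal form
  have nf : ∑' T, qq Λ ht i0 a T * ∑' P, qq Λ ht i0 c P * (∑' T', qq Λ' ht' i0 a' T' *
        ∑' P', qq Λ' ht' i0 c P' * (if QQ T P T' P' then 1 else 0) + 2 * ov Λ' ht' i0)
      ≤ ∑' T, qq Λ ht i0 a T * ∑' T', qq Λ' ht' i0 a' T' * ∑' P, qq Λ ht i0 c P *
        ∑' P', qq Λ' ht' i0 c P' * (if QQ T P T' P' then 1 else 0) + 2 * ov Λ' ht' i0 := by
    simp_rw [mul_add, ENNReal.tsum_add, mul_add, ENNReal.tsum_add]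
    gcongr ?_ + ?_
    · apply ENNReal.tsum_le_tsum
      intro T
      gcongr
      rw [swp]
    · simp_rw [ENNReal.tsum_mul_right]
      calc (∑' T, qq Λ ht i0 a T) * ((∑' P, qq Λ ht i0 c P) * (2 * ov Λ' ht' i0))
          ≤ 1 * (1 * (2 * ov Λ' ht' i0)) := by
            gcongr
            · exact hqs a
            · exact hqs c
        _ = _ := by simp
  refine nf.trans ?_
  gcongr
  -- split of the indicator
  have hind : ∀ T P T' P', (if QQ T P T' P' then (1:ℝ≥0∞) else 0) ≤
      (if Dp z P ∉ E (HT ht P) ∧ Dp z' P' ∉ E' (HT ht' P') then 1 else 0)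
      + ((if Dp z P ∈ E (HT ht P) ∧ QQ T P T' P' then 1 else 0)
      + (if Dp z' P' ∈ E' (HT ht' P') ∧ QQ T P T' P' then 1 else 0)) := by
    intro T P T' P'
    by_cases hq : QQ T P T' P' <;> by_cases h2 : Dp z P ∈ E (HT ht P) <;>
      by_cases h3 : Dp z' P' ∈ E' (HT ht' P') <;> simp [hq, h2, h3]
  calc ∑' T, qq Λ ht i0 a T * ∑' T', qq Λ' ht' i0 a' T' * ∑' P, qq Λ ht i0 c P *
        ∑' P', qq Λ' ht' i0 c P' * (if QQ T P T' P' then 1 else 0)
      ≤ ∑' T, qq Λ ht i0 a T * ∑' T', qq Λ' ht' i0 a' T' * ∑' P, qq Λ ht i0 c P *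
        ∑' P', qq Λ' ht' i0 c P' * ((if Dp z P ∉ E (HT ht P) ∧ Dp z' P' ∉ E' (HT ht' P') then 1 else 0)
      + ((if Dp z P ∈ E (HT ht P) ∧ QQ T P T' P' then 1 else 0)
      + (if Dp z' P' ∈ E' (HT ht' P') ∧ QQ T P T' P' then 1 else 0))) := by
        gcongr with T T' P P'
        exact hind T P T' P'
    _ = (∑' T, qq Λ ht i0 a T * ∑' T', qq Λ' ht' i0 a' T' * ∑' P, qq Λ ht i0 c P *
        ∑' P', qq Λ' ht' i0 c P' *
          (if Dp z P ∉ E (HT ht P) ∧ Dp z' P' ∉ E' (HT ht' P') then 1 else 0))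
      + ((∑' T, qq Λ ht i0 a T * ∑' T', qq Λ' ht' i0 a' T' * ∑' P, qq Λ ht i0 c P *
        ∑' P', qq Λ' ht' i0 c P' * (if Dp z P ∈ E (HT ht P) ∧ QQ T P T' P' then 1 else 0))
      + (∑' T, qq Λ ht i0 a T * ∑' T', qq Λ' ht' i0 a' T' * ∑' P, qq Λ ht i0 c P *
        ∑' P', qq Λ' ht' i0 c P' * (if Dp z' P' ∈ E' (HT ht' P') ∧ QQ T P T' P' then 1 else 0))) := by
        simp_rw [mul_add, ENNReal.tsum_add, mul_add, ENNReal.tsum_add, mul_add, ENNReal.tsum_add,
          mul_add, ENNReal.tsum_add]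
    _ ≤ u * u + ((((i0 + 1 : ℕ) : ℝ≥0∞) ^ 3 * Bd + δ) + (((i0 + 1 : ℕ) : ℝ≥0∞) ^ 3 * Bd + δ')) := by
        gcongr ?_ + (?_ + ?_)
        · calc _ ≤ ∑' T, qq Λ ht i0 a T * ∑' T', qq Λ' ht' i0 a' T' * (u * u) := by
                gcongr with T T'
                have key := nonloc_le Λ ht Λ' ht' c i0 u (fun P => Dp z P ∉ E (HT ht P))
                  (fun P' => Dp z' P' ∉ E' (HT ht' P'))
                  (le_trans (le_of_eq (by
                    apply tsum_congr; intro P
                    by_cases q0 : SP ht c P <;> by_cases q1 : Dp z P ∈ E (HT ht P) <;>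
                      simp [q0, q1])) hN)
                  (le_trans (le_of_eq (by
                    apply tsum_congr; intro P
                    by_cases q0 : SP ht' c P <;> by_cases q1 : Dp z' P ∈ E' (HT ht' P) <;>
                      simp [q0, q1])) hN')
                refine le_trans (le_of_eq ?_) key
                apply tsum_congr; intro P
                congr 1
                apply tsum_congr; intro P'
                congr 1
                by_cases q1 : Dp z P ∈ E (HT ht P) <;> by_cases q2 : Dp z' P' ∈ E' (HT ht' P') <;>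
                  simp [q1, q2]
            _ ≤ ∑' T, qq Λ ht i0 a T * (1 * (u * u)) := by
                gcongr with T
                rw [ENNReal.tsum_mul_right]
                gcongr
                exact hqs' a'
            _ ≤ 1 * (1 * (u * u)) := by
                rw [ENNReal.tsum_mul_right]
                gcongr
                exact hqs a
            _ = u * u := by simp
        · rw [swp]
          exact loc_le Λ ht z h1 hΛ Λ' ht' z' h1' hΛ' a a' c i0 Gc δ Bd b hb hbs E Q w hH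
        · have h9 := loc_le Λ' ht' z' h1' hΛ' Λ ht z h1 hΛ a' a c i0 Gc' δ' Bd b' hb' hbs' E'
            (fun α β x P P' => Q β α (-x) P' P) (-w) ?_
          · refine le_trans (le_of_eq ?_) h9
            apply tsum_congr
            intro T
            congr 1
            apply tsum_congr
            intro T'
            congr 1
            rw [swp]
            apply tsum_congr
            intro P'
            congr 1
            apply tsum_congr
            intro P
            congr 1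
            have : w + Dp z' T' - Dp z T = -(-w + Dp z T - Dp z' T') := by abel
            simp only [QQ, this]
          · intro α β h h' e1 e2 e3 e4 e5 e6 e7 e8 μ hμ hM
            have h10 := hH' β α h' h e3 e4 e1 e2 e7 e8 e5 e6 (fun x => μ (-x))
              (le_trans (le_of_eq ((Equiv.neg G).tsum_eq μ)) hμ) (fun x => hM _)
            refine le_trans (le_of_eq ?_) h10
            rw [← (Equiv.neg G).tsum_eq]
            apply tsum_congr
            intro x
            simp only [Equiv.neg_apply, neg_neg]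
            congr 1
            rw [ENNReal.tsum_comm]
            apply tsum_congr
            intro P
            apply tsum_congr
            intro P'
            by_cases q1 : HT ht' P' = h <;> by_cases q2 : HT ht P = h' <;>
              by_cases q3 : Dp z' P' ∈ E' h <;> by_cases q4 : Q β α x P P' <;>
              simp [q1, q2, q3, q4, mul_comm]
    _ = _ := by ring

end two

end Crest.Agent.R154.Asm239
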