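import Crest.Agent.R154.AsmA_251
import Crest.Agent.R154.Dens_616

/-! Row 154, ROAD 801 (helper251): first passage lists, part B (attempts, density, quantile). -/

set_option autoImplicit false

namespace Crest.Agent.R154.Asm251

open scoped ENNReal
open Crest.Agent.R154.B5A

variable {B B' : Type*} (Λ : B → ℝ≥0∞) (ht : B → ℕ) (Λ' : B' → ℝ≥0∞) (ht' : B' → ℕ)

open Classical in
lemma PS_eq (a : ℕ) (F : List B → ℝ≥0∞) :
    PS Λ ht a F = ∑' L : List B, (if FP ht a L then LW Λ L else 0) * F L := by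
  rw [PS]
  refine tsum_congr fun L => ?_
  by_cases h : FP ht a L <;> simp [h]

lemma PS_comm (a b : ℕ) (F : List B → List B' → ℝ≥0∞) :
    PS Λ ht a (fun A => PS Λ' ht' b (fun A' => F A A'))
      = PS Λ' ht' b (fun A' => PS Λ ht a (fun A => F A A')) := by
  classical
  simp only [PS_eq]
  simp_rw [← ENNReal.tsum_mul_left]
  rw [ENNReal.tsum_comm]
  refine tsum_congr fun A' => tsum_congr fun A => ?_
  ring

variable {G : Type*} [AddCommGroup G] (z : B → G)

/-- displacement of a list -/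
def Dp (L : List B) : G := (L.map z).sum

lemma Dp_append (L L' : List B) : Dp z (L ++ L') = Dp z L + Dp z L' := by
  simp [Dp]

open Classical in
/-- law of one piece -/
noncomputable def pp (T : ℕ) (h : ℕ) (x : G) : ℝ≥0∞ :=
  PS Λ ht T (fun P => if HT ht P = h ∧ Dp z P = x then 1 else 0)

/-- one of the first `J` attempts is special -/
def Sm (T i0 : ℕ) (th : ℝ≥0∞) : ℕ → List B → Prop
  | 0, _ => False
  | J + 1, A => ∃ P A1, A = P ++ A1 ∧ FP ht T P ∧ HT ht P ≤ T + i0 ∧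
      (pp Λ ht z T (HT ht P) (Dp z P) ≤ th ∨ Sm T i0 th J A1)

lemma Sm_succ (T i0 : ℕ) (th : ℝ≥0∞) (J : ℕ) (P A1 : List B) (hP : FP ht T P) :
    Sm Λ ht z T i0 th (J + 1) (P ++ A1) ↔ HT ht P ≤ T + i0 ∧
      (pp Λ ht z T (HT ht P) (Dp z P) ≤ th ∨ Sm Λ ht z T i0 th J A1) := by
  constructor
  · rintro ⟨P', A1', he, hP', h1, h2⟩
    obtain ⟨rfl, rfl⟩ := FP_unique ht hP hP' he
    exact ⟨h1, h2⟩
  · rintro ⟨h1, h2⟩
    exact ⟨P, A1, rfl, hP, h1, h2⟩

open Classical in
lemma dens (h1 : ∀ b, 1 ≤ ht b) (hΛ : ∑' b, Λ b = 1) (T i0 : ℕ) (th : ℝ≥0∞) (J : ℕ) :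
    ∀ (c : ℕ), J * (T + i0) ≤ c → ∀ (r : ℕ) (x : G),
    PS Λ ht c (fun A => if Sm Λ ht z T i0 th J A ∧ HT ht A = r ∧ Dp z A = x then 1 else 0)
      ≤ J * ((i0 + 1 : ℕ) * th) := by
  induction J with
  | zero =>
    intro c _ r x
    have : (fun A : List B => if Sm Λ ht z T i0 th 0 A ∧ HT ht A = r ∧ Dp z A = x
        then (1 : ℝ≥0∞) else 0) = fun _ => 0 := by
      funext A
      rw [if_neg]
      rintro ⟨h, _⟩
      exact h
    rw [this, PS_const Λ ht h1 hΛ]
    simp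
  | succ J ih =>
    intro c hc r x
    have hc' : (J + 1) * (T + i0) = J * (T + i0) + (T + i0) := by ring
    have hTc : T ≤ c := by
      have := Nat.zero_le (J * (T + i0)); omega
    rw [PS_comp Λ ht h1 T c hTc]
    -- split
    have hsplit : PS Λ ht T (fun P => PS Λ ht (c - HT ht P) (fun A1 =>
        if Sm Λ ht z T i0 th (J + 1) (P ++ A1) ∧ HT ht (P ++ A1) = r ∧ Dp z (P ++ A1) = x
          then (1 : ℝ≥0∞) else 0))
        ≤ PS Λ ht T (fun P => (∑ i ∈ Finset.range (i0 + 1), PS Λ ht (c - (T + i)) (fun A1 =>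
            if HT ht P = T + i ∧ pp Λ ht z T (T + i) (Dp z P) ≤ th ∧ Dp z P = x - Dp z A1
              then (1 : ℝ≥0∞) else 0)) + (J * ((i0 + 1 : ℕ) * th) : ℝ≥0∞)) := by
      refine PS_mono Λ ht fun P hP => ?_
      by_cases hPi : HT ht P ≤ T + i0
      · obtain ⟨i, hi⟩ : ∃ i, HT ht P = T + i := ⟨HT ht P - T, by have := FP_le ht hP; omega⟩
        have hi0 : i ∈ Finset.range (i0 + 1) := Finset.mem_range.2 (by omega)
        have hstep : PS Λ ht (c - HT ht P) (fun A1 =>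
            if Sm Λ ht z T i0 th (J + 1) (P ++ A1) ∧ HT ht (P ++ A1) = r ∧ Dp z (P ++ A1) = x
              then (1 : ℝ≥0∞) else 0)
            ≤ PS Λ ht (c - HT ht P) (fun A1 => (if HT ht P = T + i ∧
                pp Λ ht z T (T + i) (Dp z P) ≤ th ∧ Dp z P = x - Dp z A1 then (1 : ℝ≥0∞) else 0)
              + (if Sm Λ ht z T i0 th J A1 ∧ HT ht A1 = r - HT ht P ∧ Dp z A1 = x - Dp z P
                then 1 else 0)) := by
          refine PS_mono Λ ht fun A1 _ => ?_
          by_cases hcond : Sm Λ ht z T i0 th (J + 1) (P ++ A1) ∧ HT ht (P ++ A1) = r ∧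
              Dp z (P ++ A1) = x
          · rw [if_pos hcond]
            obtain ⟨hs, hr, hx⟩ := hcond
            rw [HT_append] at hr
            rw [Dp_append] at hx
            rcases ((Sm_succ Λ ht z T i0 th J P A1 hP).1 hs).2 with h | h
            · refine le_trans ?_ le_self_add
              rw [if_pos ⟨hi, by rw [← hi]; exact h, by rw [← hx]; abel⟩]
            · refine le_trans ?_ le_add_self
              rw [if_pos ⟨h, by omega, by rw [← hx]; abel⟩]
          · rw [if_neg hcond]; exact zero_le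
        refine hstep.trans ?_
        rw [PS_add]
        refine add_le_add ?_ (ih _ (by omega) _ _)
        rw [hi]
        exact Finset.single_le_sum (f := fun i => PS Λ ht (c - (T + i)) (fun A1 =>
            if T + _ = T + i ∧ pp Λ ht z T (T + i) (Dp z P) ≤ th ∧ Dp z P = x - Dp z A1
              then (1 : ℝ≥0∞) else 0)) (fun _ _ => zero_le) hi0
      · refine le_trans (le_of_eq ?_) zero_le
        have : (fun A1 : List B =>
            if Sm Λ ht z T i0 th (J + 1) (P ++ A1) ∧ HT ht (P ++ A1) = r ∧ Dp z (P ++ A1) = x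
              then (1 : ℝ≥0∞) else 0) = fun _ => 0 := by
          funext A1
          rw [if_neg]
          rintro ⟨hs, _⟩
          exact hPi ((Sm_succ Λ ht z T i0 th J P A1 hP).1 hs).1
        rw [this, PS_const Λ ht h1 hΛ]
    refine hsplit.trans ?_
    rw [PS_add, PS_const Λ ht h1 hΛ, PS_sum]
    have hfirst : ∀ i ∈ Finset.range (i0 + 1), PS Λ ht T (fun P => PS Λ ht (c - (T + i))
        (fun A1 => if HT ht P = T + i ∧ pp Λ ht z T (T + i) (Dp z P) ≤ th ∧
          Dp z P = x - Dp z A1 then (1 : ℝ≥0∞) else 0)) ≤ th := by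
      intro i _
      rw [PS_comm]
      refine le_trans (PS_mono Λ ht (F' := fun _ => th) fun A1 _ => ?_)
        (le_of_eq (PS_const Λ ht h1 hΛ _ th))
      by_cases hth : pp Λ ht z T (T + i) (x - Dp z A1) ≤ th
      · refine le_trans ?_ hth
        refine PS_mono Λ ht fun P _ => ?_
        by_cases hh : HT ht P = T + i ∧ pp Λ ht z T (T + i) (Dp z P) ≤ th ∧ Dp z P = x - Dp z A1
        · rw [if_pos hh, if_pos ⟨hh.1, hh.2.2⟩]
        · rw [if_neg hh]; exact zero_le
      · have : (fun P : List B => if HT ht P = T + i ∧ pp Λ ht z T (T + i) (Dp z P) ≤ th ∧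
            Dp z P = x - Dp z A1 then (1 : ℝ≥0∞) else 0) = fun _ => 0 := by
          funext P
          rw [if_neg]
          rintro ⟨_, h2, h3⟩
          rw [h3] at h2
          exact hth h2
        rw [this, PS_const Λ ht h1 hΛ]
        exact zero_le
    refine (add_le_add (Finset.sum_le_sum hfirst) le_rfl).trans (le_of_eq ?_)
    rw [Finset.sum_const, Finset.card_range, nsmul_eq_mul]
    push_cast
    ring

open Classical in
lemma nonsp (h1 : ∀ b, 1 ≤ ht b) (hΛ : ∑' b, Λ b = 1) (T i0 : ℕ) (th : ℝ≥0∞) (q : ℝ≥0∞)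
    (hq1 : q ≤ 1)
    (hq : PS Λ ht T (fun P => if pp Λ ht z T (HT ht P) (Dp z P) ≤ th then 0 else 1) ≤ q)
    (J : ℕ) : ∀ (c : ℕ), J * (T + i0) ≤ c →
    PS Λ ht c (fun A => if Sm Λ ht z T i0 th J A then 0 else 1) ≤ q ^ J + J * ov Λ ht i0 := by
  induction J with
  | zero =>
    intro c _
    refine le_trans (PS_mono Λ ht (F' := fun _ => 1) fun A _ => ?_)
      (le_trans (le_of_eq (PS_one Λ ht h1 hΛ c)) (by simp))
    split_ifs <;> simp
  | succ J ih =>
    intro c hc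
    have hc' : (J + 1) * (T + i0) = J * (T + i0) + (T + i0) := by ring
    have hTc : T ≤ c := by
      have := Nat.zero_le (J * (T + i0)); omega
    rw [PS_comp Λ ht h1 T c hTc]
    have hsplit : PS Λ ht T (fun P => PS Λ ht (c - HT ht P) (fun A1 =>
        if Sm Λ ht z T i0 th (J + 1) (P ++ A1) then (0 : ℝ≥0∞) else 1))
        ≤ PS Λ ht T (fun P => (if T + i0 < HT ht P then (1 : ℝ≥0∞) else 0)
          + (q ^ J + J * ov Λ ht i0) * (if pp Λ ht z T (HT ht P) (Dp z P) ≤ th then 0 else 1)) := by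
      refine PS_mono Λ ht fun P hP => ?_
      by_cases hPi : T + i0 < HT ht P
      · rw [if_pos hPi]
        refine le_trans ?_ le_self_add
        refine le_trans (PS_mono Λ ht (F' := fun _ => 1) fun A _ => ?_)
          (le_of_eq (PS_one Λ ht h1 hΛ _))
        split_ifs <;> simp
      · rw [if_neg hPi, zero_add]
        by_cases hs : pp Λ ht z T (HT ht P) (Dp z P) ≤ th
        · rw [if_pos hs, mul_zero]
          have : (fun A1 : List B => if Sm Λ ht z T i0 th (J + 1) (P ++ A1) then (0 : ℝ≥0∞)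
              else 1) = fun _ => 0 := by
            funext A1
            rw [if_pos ((Sm_succ Λ ht z T i0 th J P A1 hP).2 ⟨by omega, Or.inl hs⟩)]
          rw [this, PS_const Λ ht h1 hΛ]
        · rw [if_neg hs, mul_one]
          refine le_trans (PS_mono Λ ht fun A1 _ => ?_) (ih (c - HT ht P) (by omega))
          by_cases hJ : Sm Λ ht z T i0 th J A1
          · rw [if_pos hJ, if_pos ((Sm_succ Λ ht z T i0 th J P A1 hP).2 ⟨by omega, Or.inr hJ⟩)]
          · rw [if_neg hJ]; split_ifs <;> simp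
    refine hsplit.trans ?_
    rw [PS_add, PS_mul]
    refine (add_le_add (PS_over Λ ht h1 hΛ i0 T) (mul_le_mul_right hq _)).trans ?_
    rw [add_mul]
    have e1 : (J : ℝ≥0∞) * ov Λ ht i0 * q ≤ J * ov Λ ht i0 := by
      calc _ ≤ (J : ℝ≥0∞) * ov Λ ht i0 * 1 := mul_le_mul_right hq1 _
        _ = _ := mul_one _
    calc ov Λ ht i0 + (q ^ J * q + J * ov Λ ht i0 * q)
        ≤ ov Λ ht i0 + (q ^ J * q + J * ov Λ ht i0) := by gcongr
      _ = q ^ (J + 1) + ((J + 1 : ℕ) : ℝ≥0∞) * ov Λ ht i0 := by push_cast; rw [pow_succ]; ring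

/-! ### fibers and quantile -/

lemma PS_fiber (T : ℕ) (K : ℕ → G → ℝ≥0∞) :
    PS Λ ht T (fun P => K (HT ht P) (Dp z P)) = ∑' hx : ℕ × G, K hx.1 hx.2 * pp Λ ht z T hx.1 hx.2 := by
  classical
  simp only [pp]
  simp_rw [← PS_mul]
  rw [← PS_tsum]
  refine PS_congr Λ ht fun P _ => ?_
  rw [tsum_eq_single (HT ht P, Dp z P)]
  · simp
  · rintro ⟨h, x⟩ hne
    rw [if_neg, mul_zero]
    rintro ⟨rfl, rfl⟩
    exact hne rfl

lemma pp_sum (h1 : ∀ b, 1 ≤ ht b) (hΛ : ∑' b, Λ b = 1) (T : ℕ) :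
    ∑' hx : ℕ × G, pp Λ ht z T hx.1 hx.2 = 1 := by
  have := PS_fiber Λ ht z T (fun _ _ => 1)
  rw [PS_one Λ ht h1 hΛ] at this
  simpa using this.symm

open Classical in
/-- quantile of the law of a piece -/
lemma quant (h1 : ∀ b, 1 ≤ ht b) (hΛ : ∑' b, Λ b = 1) (T : ℕ) (u : ℝ≥0∞) (hu0 : u ≠ 0)
    (hu1 : u < 1) : ∃ th : ℝ≥0∞, th ≠ 0 ∧ th ≤ 1 ∧
      PS Λ ht T (fun P => if pp Λ ht z T (HT ht P) (Dp z P) < th then 1 else 0) ≤ u ∧
      PS Λ ht T (fun P => if pp Λ ht z T (HT ht P) (Dp z P) ≤ th then 0 else 1) ≤ 1 - u ∧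
      ∀ h, {x : G | th ≤ pp Λ ht z T h x}.Finite ∧
        ∀ s : Finset G, (∀ x ∈ s, th ≤ pp Λ ht z T h x) → (s.card : ℝ≥0∞) * th ≤ 1 := by
  obtain ⟨th, h2, h3, h4, h5⟩ := Dens616.quantile (fun hx : ℕ × G => pp Λ ht z T hx.1 hx.2)
    (pp_sum Λ ht z h1 hΛ T) hu0 hu1
  refine ⟨th, h2, h3, ?_, ?_, fun h => ?_⟩
  · rw [PS_fiber Λ ht z T (fun h x => if pp Λ ht z T h x < th then 1 else 0)]
    refine le_trans (le_of_eq (tsum_congr fun hx => ?_)) h4
    split_ifs <;> simp
  · rw [PS_fiber Λ ht z T (fun h x => if pp Λ ht z T h x ≤ th then 0 else 1)]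
    have hsum : (∑' hx : ℕ × G, (if pp Λ ht z T hx.1 hx.2 ≤ th then (0 : ℝ≥0∞) else 1) *
        pp Λ ht z T hx.1 hx.2) + (∑' hx : ℕ × G, if pp Λ ht z T hx.1 hx.2 ≤ th then
          pp Λ ht z T hx.1 hx.2 else 0) = 1 := by
      rw [← ENNReal.tsum_add]
      refine Eq.trans (tsum_congr fun hx => ?_) (pp_sum Λ ht z h1 hΛ T)
      split_ifs <;> simp
    refine ENNReal.le_sub_of_add_le_right (ne_top_of_lt hu1) ?_
    exact (add_le_add le_rfl h5).trans (le_of_eq hsum)
  · have hle : ∑' x : G, pp Λ ht z T h x ≤ 1 := by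
      rw [← pp_sum Λ ht z h1 hΛ T]
      exact ENNReal.tsum_comp_le_tsum_of_injective (f := fun x : G => ((h, x) : ℕ × G))
        (fun x y hxy => (Prod.mk.inj hxy).2) (fun hx : ℕ × G => pp Λ ht z T hx.1 hx.2)
    refine ⟨Dens616.finite_local (fun x => pp Λ ht z T h x) (ne_top_of_le_ne_top ENNReal.one_ne_top hle)
      h2, fun s hs => ?_⟩
    exact (Dens616.card_mul_le (fun x => pp Λ ht z T h x) th s hs).trans hle

end Crest.Agent.R154.Asm251
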