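import Crest.Agent.R154.NBDefs_28
import Crest.Agent.R154.B5Abs_566

/-! Row 154, ROAD 801: binder (helper761).  From lists of single-walker blocks (540's letters, `G := Site d`,
full positions) to words (28's letters). -/

set_option autoImplicit false

namespace Crest.Agent.R154.Bind761

open MeasureTheory ProbabilityTheory Crest.ProbabilityR.RandomEnvironment Crest.Agent.R154
open Crest.Agent.R154.Flux132 (lev opp)
open Crest.Agent.R154.Flux566 (lw endp sitesL endp_append endp_eq_add measurable_lw locOn_lw)
open Crest.Agent.R154.NB28 (IsUp IsDn aw Cm KW KappaW)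
open Crest.Agent.R154.B5A (LW HT LW_nil LW_cons HT_nil HT_cons)
open scoped ENNReal

variable {d : ℕ}

lemma lev_add (u : Step d) (x y : Site d) : lev u (x + y) = lev u x + lev u y := by
  unfold lev; split_ifs <;> simp; ring

lemma lev_neg (u : Step d) (x : Site d) : lev u (-x) = - lev u x := by
  unfold lev; split_ifs <;> simp

lemma lev_zero (u : Step d) : lev u (0 : Site d) = 0 := by unfold lev; simp

lemma lev_sub (u : Step d) (x y : Site d) : lev u (x - y) = lev u x - lev u y := by
  rw [sub_eq_add_neg, lev_add, lev_neg]; ring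

lemma lev_opp (u : Step d) : lev u (stepVec (opp u)) = -1 := by
  unfold lev stepVec opp
  rcases u with ⟨i, b⟩
  cases b <;> simp

/-! ### words -/

lemma lw_append (ω : Environment d) (l l' : List (Step d)) (x : Site d) :
    lw ω x (l ++ l') = lw ω x l * lw ω (endp x l) l' := by
  induction l generalizing x with
  | nil => simp [lw, endp]
  | cons e l ih => simp only [List.cons_append, lw, endp]; rw [ih, mul_assoc]

lemma sitesL_append (l l' : List (Step d)) (x : Site d) :
    sitesL x (l ++ l') = sitesL x l ++ sitesL (endp x l) l' := by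
  induction l generalizing x with
  | nil => rfl
  | cons e l ih => simp only [List.cons_append, sitesL, endp]; rw [ih]

lemma mem_sitesL_add (l : List (Step d)) (x z y : Site d) :
    y + z ∈ sitesL (x + z) l ↔ y ∈ sitesL x l := by
  induction l generalizing x with
  | nil => simp [sitesL]
  | cons e l ih =>
    simp only [sitesL, List.mem_cons]
    rw [show x + z + stepVec e = (x + stepVec e) + z by abel, ih]
    simp

lemma mem_sitesL_iff (l : List (Step d)) (x y : Site d) :
    y ∈ sitesL x l ↔ y - x ∈ sitesL 0 l := by
  rw [← mem_sitesL_add l 0 x (y - x)]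
  simp

lemma lw_shift (ω : Environment d) (z : Site d) (l : List (Step d)) (x : Site d) :
    lw ω (x + z) l = lw (shiftEnv z ω) x l := by
  induction l generalizing x with
  | nil => rfl
  | cons e l ih =>
    simp only [lw]
    rw [show x + z + stepVec e = (x + stepVec e) + z by abel, ih]
    rfl

lemma aw_at (ν : Measure (Row d)) [IsProbabilityMeasure ν] (x : Site d) (l : List (Step d)) :
    ∫⁻ ω, lw ω x l ∂(iidEnvironmentLaw ν) = aw ν l := by
  unfold aw
  have h : ∀ ω : Environment d, lw ω x l = lw (shiftEnv x ω) 0 l := fun ω => by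
    rw [← lw_shift, zero_add]
  simp only [h]
  exact (Q561.iid_shift ν x).lintegral_comp (measurable_lw 0 l)

lemma aw_append (ν : Measure (Row d)) [IsProbabilityMeasure ν] (l l' : List (Step d))
    (h : ∀ y ∈ sitesL 0 l, y ∉ sitesL (endp 0 l) l') : aw ν (l ++ l') = aw ν l * aw ν l' := by
  rw [← aw_at ν (endp 0 l) l']
  unfold aw
  rw [← Q561.iid_lintegral_mul ν (S := {y | y ∈ sitesL 0 l}) (T := {y | y ∈ sitesL (endp 0 l) l'})
    (Set.disjoint_left.2 fun y hy hy' => h y hy hy') (measurable_lw 0 l) (measurable_lw _ l')
    (locOn_lw 0 l) (locOn_lw _ l')]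
  refine lintegral_congr fun ω => ?_
  rw [lw_append]

lemma aw_nil (ν : Measure (Row d)) [IsProbabilityMeasure ν] : aw ν [] = 1 := by
  simp [aw, lw]

/-! ### crossings -/

lemma isUp_sites {u : Step d} {n : ℕ} {l : List (Step d)} (h : IsUp u n l) {x y : Site d}
    (hy : y ∈ sitesL x l) : lev u x ≤ lev u y ∧ lev u y < lev u x + n := by
  have h1 := h.1 _ ((mem_sitesL_iff l x y).1 hy)
  rw [lev_sub] at h1
  omega

lemma isDn_sites {u : Step d} {n : ℕ} {l : List (Step d)} (h : IsDn u n l) {x y : Site d}
    (hy : y ∈ sitesL x l) : lev u x - n < lev u y ∧ lev u y ≤ lev u x := by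
  have h1 := h.1 _ ((mem_sitesL_iff l x y).1 hy)
  rw [lev_sub] at h1
  omega

lemma isUp_append {u : Step d} {n n' : ℕ} {l l' : List (Step d)} (h : IsUp u n l)
    (h' : IsUp u n' l') : IsUp u (n + n') (l ++ l') := by
  refine ⟨fun y hy => ?_, ?_⟩
  · rw [sitesL_append, List.mem_append] at hy
    rcases hy with hy | hy
    · have := h.1 y hy; push_cast; omega
    · have := isUp_sites h' hy
      have h2 := h.2
      push_cast; omega
  · rw [endp_append, endp_eq_add, lev_add, h.2, h'.2]; push_cast; ring

lemma isDn_append {u : Step d} {n n' : ℕ} {l l' : List (Step d)} (h : IsDn u n l)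
    (h' : IsDn u n' l') : IsDn u (n + n') (l ++ l') := by
  refine ⟨fun y hy => ?_, ?_⟩
  · rw [sitesL_append, List.mem_append] at hy
    rcases hy with hy | hy
    · have := h.1 y hy; push_cast; omega
    · have := isDn_sites h' hy
      have h2 := h.2
      push_cast; omega
  · rw [endp_append, endp_eq_add, lev_add, h.2, h'.2]; push_cast; ring

lemma aw_up_append (ν : Measure (Row d)) [IsProbabilityMeasure ν] {u : Step d} {n n' : ℕ}
    {l l' : List (Step d)} (h : IsUp u n l) (h' : IsUp u n' l') :
    aw ν (l ++ l') = aw ν l * aw ν l' := by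
  refine aw_append ν l l' fun y hy hy' => ?_
  have h1 := h.1 y hy
  have h2 := isUp_sites h' hy'
  rw [h.2] at h2
  omega

lemma aw_dn_append (ν : Measure (Row d)) [IsProbabilityMeasure ν] {u : Step d} {n n' : ℕ}
    {l l' : List (Step d)} (h : IsDn u n l) (h' : IsDn u n' l') :
    aw ν (l ++ l') = aw ν l * aw ν l' := by
  refine aw_append ν l l' fun y hy hy' => ?_
  have h1 := h.1 y hy
  have h2 := isDn_sites h' hy'
  rw [h.2] at h2
  omega

/-! ### lists of blocks, traces (540's letters) -/

/-- trace of a list of blocks: `s b` = (position, depth) read by the block relative to its top -/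
def TT {B G : Type*} [Add G] (s : B → Set (G × ℕ)) (z : B → G) (h : B → ℕ) :
    List B → G → ℕ → Set (G × ℕ)
  | [], _, _ => ∅
  | b :: L, x, a => {q | ∃ p ∈ s b, q = (x + p.1, a + p.2)} ∪ TT s z h L (x + z b) (a + h b)

section up
variable (u : Step d) {B : Type*} (wd : B → List (Step d)) (ht : B → ℕ)

/-- word of a list, top block first, up crossings -/
def catU : List B → List (Step d)
  | [] => []
  | b :: L => catU L ++ wd b

/-- word of a list, top block first, down crossings -/
def catD : List B → List (Step d)
  | [] => []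
  | b :: L => wd b ++ catD L

/-- sites of an up block hung at `0` -/
def sU (b : B) : Set (Site d × ℕ) :=
  {q | q.1 ∈ sitesL (-endp 0 (wd b)) (wd b) ∧ lev u q.1 = -(q.2 : ℤ)}

/-- sites of a down block, top at `0` -/
def sD (b : B) : Set (Site d × ℕ) :=
  {q | q.1 ∈ sitesL (stepVec (opp u)) (wd b) ∧ lev u q.1 = -(q.2 : ℤ)}

/-- displacement from top to bottom -/
def zU (b : B) : Site d := -endp 0 (wd b)

def zD (b : B) : Site d := endp 0 (wd b)

variable {u wd ht}

lemma catU_isUp (h : ∀ b, IsUp u (ht b) (wd b)) (L : List B) : IsUp u (HT ht L) (catU wd L) := by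
  induction L with
  | nil => exact ⟨fun y hy => by simp [catU, sitesL] at hy, by simp [catU, endp, HT, lev_zero]⟩
  | cons b L ih =>
    rw [HT_cons, catU, Nat.add_comm]
    exact isUp_append ih (h b)

lemma catD_isDn (h : ∀ b, IsDn u (ht b) (wd b)) (L : List B) : IsDn u (HT ht L) (catD wd L) := by
  induction L with
  | nil => exact ⟨fun y hy => by simp [catD, sitesL] at hy, by simp [catD, endp, HT, lev_zero]⟩
  | cons b L ih =>
    rw [HT_cons, catD]
    exact isDn_append (h b) ih

lemma LW_catU (ν : Measure (Row d)) [IsProbabilityMeasure ν] (h : ∀ b, IsUp u (ht b) (wd b))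
    (L : List B) : LW (fun b => aw ν (wd b)) L = aw ν (catU wd L) := by
  induction L with
  | nil => rw [LW_nil, catU, aw_nil]
  | cons b L ih => rw [LW_cons, catU, aw_up_append ν (catU_isUp h L) (h b), ih, mul_comm]

lemma LW_catD (ν : Measure (Row d)) [IsProbabilityMeasure ν] (h : ∀ b, IsDn u (ht b) (wd b))
    (L : List B) : LW (fun b => aw ν (wd b)) L = aw ν (catD wd L) := by
  induction L with
  | nil => rw [LW_nil, catD, aw_nil]
  | cons b L ih => rw [LW_cons, catD, aw_dn_append ν (h b) (catD_isDn h L), ih]

lemma mem_TU (h : ∀ b, IsUp u (ht b) (wd b)) (L : List B) (x y : Site d) (a k : ℕ) :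
    (y, k) ∈ TT (sU u wd) (zU wd) ht L x a ↔
      y ∈ sitesL (x - endp 0 (catU wd L)) (catU wd L) ∧ (k : ℤ) = a + lev u x - lev u y := by
  induction L generalizing x a with
  | nil => simp [TT, catU, sitesL]
  | cons b L ih =>
    have hlb : lev u (endp 0 (wd b)) = ht b := (h b).2
    simp only [TT, Set.mem_union, Set.mem_ofPred_eq]
    rw [ih]
    have e1 : endp 0 (catU wd (b :: L)) = endp 0 (catU wd L) + endp 0 (wd b) := by
      rw [catU, endp_append, endp_eq_add]
    have e2 : sitesL (x - endp 0 (catU wd (b :: L))) (catU wd (b :: L))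
        = sitesL (x + zU wd b - endp 0 (catU wd L)) (catU wd L)
          ++ sitesL (x - endp 0 (wd b)) (wd b) := by
      rw [e1, catU, sitesL_append]
      have e3 : x - (endp 0 (catU wd L) + endp 0 (wd b))
          = x + zU wd b - endp 0 (catU wd L) := by unfold zU; abel
      rw [e3, endp_eq_add (catU wd L) (x + zU wd b - endp 0 (catU wd L))]
      congr 2
      unfold zU; abel
    rw [e2, List.mem_append]
    have e4 : lev u (x + zU wd b) = lev u x - ht b := by
      unfold zU; rw [lev_add, lev_neg, hlb]; ring
    rw [e4]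
    constructor
    · rintro (⟨⟨z, k0⟩, ⟨hz, hk⟩, hq⟩ | ⟨hy, hk⟩)
      · simp only [Prod.mk.injEq] at hq
        obtain ⟨rfl, rfl⟩ := hq
        refine ⟨Or.inr ?_, ?_⟩
        · rw [mem_sitesL_iff] at hz ⊢
          simp only at hz
          convert hz using 1
          abel
        · simp only at hk ⊢
          rw [lev_add, hk]; push_cast; ring
      · exact ⟨Or.inl hy, by push_cast at hk; rw [hk]; ring⟩
    · rintro ⟨hy | hy, hk⟩
      · exact Or.inr ⟨hy, by push_cast; rw [hk]; ring⟩
      · refine Or.inl ⟨(y - x, k - a), ⟨?_, ?_⟩, ?_⟩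
        · simp only
          rw [mem_sitesL_iff] at hy ⊢
          convert hy using 1
          abel
        · have := isUp_sites (h b) hy
          rw [lev_sub, hlb] at this
          simp only
          rw [lev_sub]
          omega
        · have := isUp_sites (h b) hy
          rw [lev_sub, hlb] at this
          refine Prod.ext (by simp) ?_
          simp only
          omega

lemma mem_TD (h : ∀ b, IsDn u (ht b) (wd b)) (L : List B) (x y : Site d) (a k : ℕ) :
    (y, k) ∈ TT (sD u wd) (zD wd) ht L x a ↔
      y ∈ sitesL (x + stepVec (opp u)) (catD wd L) ∧ (k : ℤ) = a + lev u x - lev u y := by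
  induction L generalizing x a with
  | nil => simp [TT, catD, sitesL]
  | cons b L ih =>
    have hlb : lev u (endp 0 (wd b)) = -(ht b : ℤ) := (h b).2
    simp only [TT, Set.mem_union, Set.mem_ofPred_eq]
    rw [ih]
    have e2 : sitesL (x + stepVec (opp u)) (catD wd (b :: L))
        = sitesL (x + stepVec (opp u)) (wd b)
          ++ sitesL (x + zD wd b + stepVec (opp u)) (catD wd L) := by
      rw [catD, sitesL_append, endp_eq_add (wd b) (x + stepVec (opp u))]
      congr 2
      unfold zD; abel
    rw [e2, List.mem_append]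
    have e4 : lev u (x + zD wd b) = lev u x - ht b := by
      unfold zD; rw [lev_add, hlb]; ring
    rw [e4]
    constructor
    · rintro (⟨⟨z, k0⟩, ⟨hz, hk⟩, hq⟩ | ⟨hy, hk⟩)
      · simp only [Prod.mk.injEq] at hq
        obtain ⟨rfl, rfl⟩ := hq
        refine ⟨Or.inl ?_, ?_⟩
        · rw [mem_sitesL_iff] at hz ⊢
          simp only at hz
          convert hz using 1
          abel
        · simp only at hk ⊢
          rw [lev_add, hk]; push_cast; ring
      · exact ⟨Or.inr hy, by push_cast at hk; rw [hk]; ring⟩
    · rintro ⟨hy | hy, hk⟩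
      · refine Or.inl ⟨(y - x, k - a), ⟨?_, ?_⟩, ?_⟩
        · simp only
          rw [mem_sitesL_iff] at hy ⊢
          convert hy using 1
          abel
        · have := isDn_sites (h b) hy
          rw [lev_add, lev_opp] at this
          simp only
          rw [lev_sub]
          omega
        · have := isDn_sites (h b) hy
          rw [lev_add, lev_opp] at this
          refine Prod.ext (by simp) ?_
          simp only
          omega
      · exact Or.inr ⟨hy, by push_cast; rw [hk]; ring⟩

end up

end Crest.Agent.R154.Bind761
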