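import Crest.Agent.R154.AsmA_262
import Crest.Agent.R154.Bind_761

/-! Row 154 (helper262), ROAD 801: one window. -/

set_option autoImplicit false

namespace Crest.Agent.R154.Asm262

open scoped ENNReal
open Crest.Agent.R154.B5A Crest.Agent.R154.FP178
open Crest.Agent.R154.Bind761 (TT)

section trace
variable {B G : Type*} [AddCommGroup G] (s : B → Set (G × ℕ)) (z : B → G) (h : B → ℕ)

lemma TT_append (L L' : List B) (x : G) (a : ℕ) :
    TT s z h (L ++ L') x a = TT s z h L x a ∪ TT s z h L' (x + Dp z L) (a + HT h L) := by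
  induction L generalizing x a with
  | nil => simp [TT, Dp_nil, HT_nil]
  | cons b L ih =>
    simp only [List.cons_append, TT]
    rw [ih, Dp_cons, HT_cons, Set.union_assoc, add_assoc, add_assoc]

lemma TT_depth (hs : ∀ b p, p ∈ s b → 1 ≤ p.2 ∧ p.2 ≤ h b) (L : List B) (x y : G) (a k : ℕ)
    (hk : (y, k) ∈ TT s z h L x a) : a + 1 ≤ k ∧ k ≤ a + HT h L := by
  induction L generalizing x a with
  | nil => simp [TT] at hk
  | cons b L ih =>
    rw [HT_cons]
    simp only [TT] at hk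
    rcases hk with ⟨p, hp, hq⟩ | hk
    · have := hs b p hp
      simp only [Prod.mk.injEq] at hq
      omega
    · have := ih _ _ hk
      omega

lemma TT_shift (L : List B) (x y v : G) (a k : ℕ) :
    (y, k) ∈ TT s z h L (x + v) a ↔ (y - v, k) ∈ TT s z h L x a := by
  induction L generalizing x a with
  | nil => simp [TT]
  | cons b L ih =>
    simp only [TT]
    have e : x + v + z b = (x + z b) + v := by abel
    rw [e]
    constructor
    · rintro (⟨p, hp, hq⟩ | hk)
      · refine Or.inl ⟨p, hp, ?_⟩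
        simp only [Prod.mk.injEq] at hq ⊢
        exact ⟨by rw [hq.1]; abel, hq.2⟩
      · exact Or.inr ((ih _ _).1 hk)
    · rintro (⟨p, hp, hq⟩ | hk)
      · refine Or.inl ⟨p, hp, ?_⟩
        simp only [Prod.mk.injEq] at hq ⊢
        refine ⟨?_, hq.2⟩
        rw [← sub_add_cancel y v, hq.1]; abel
      · exact Or.inr ((ih _ _).2 hk)

end trace

section weights
variable {B G : Type*} [AddCommGroup G] (Λ : B → ℝ≥0∞) (ht : B → ℕ) (z : B → G)

open Classical in
/-- weight of a good first passage -/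
noncomputable def ga (c i0 : ℕ) (A : List B) : ℝ≥0∞ :=
  if fp ht c A ∧ HT ht A ≤ c + i0 then LW Λ A else 0

lemma ga_le (h1 : ∀ b, 1 ≤ ht b) (hΛ : ∑' b, Λ b = 1) (c i0 : ℕ) : ∑' A, ga Λ ht c i0 A ≤ 1 := by
  classical
  rw [← sum_FP_eq Λ ht h1 hΛ c]
  refine ENNReal.tsum_le_tsum fun A => ?_
  rw [ga]
  by_cases h : fp ht c A
  · simp only [h, true_and, if_true]; split_ifs <;> simp
  · simp [h]

open Classical in
theorem cut' (h1 : ∀ b, 1 ≤ ht b) (hΛ : ∑' b, Λ b = 1) (c T i0 n : ℕ) (hn : c + T + i0 ≤ n)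
    (δ : ℝ≥0∞) (hδ : ∀ a, ∑' L, (if fp ht a L ∧ a + i0 < HT ht L then LW Λ L else 0) ≤ δ)
    (f : List B → ℝ≥0∞) (hf : ∀ L, f L ≤ 1) (φ : List B → List B → ℝ≥0∞)
    (hφ : ∀ A P R, fp ht c A → HT ht A ≤ c + i0 → fp ht T P → HT ht P ≤ T + i0 →
      f (A ++ (P ++ R)) ≤ φ A P) :
    ∑' L, (if HT ht L = n then LW Λ L * f L else 0) ≤ δ + δ +
      ∑' A, ga Λ ht c i0 A * ∑' P, ga Λ ht T i0 P * φ A P := by
  refine (cut Λ ht h1 hΛ c T i0 n hn δ hδ f hf).trans ?_
  gcongr with A
  rw [← ENNReal.tsum_mul_left]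
  refine ENNReal.tsum_le_tsum fun P => ?_
  by_cases h : (fp ht c A ∧ HT ht A ≤ c + i0) ∧ (fp ht T P ∧ HT ht P ≤ T + i0)
  · rw [if_pos h, ga, ga, if_pos h.1, if_pos h.2, mul_assoc]
    gcongr
    calc ∑' R, (if HT ht A + HT ht P + HT ht R = n then LW Λ R * f (A ++ (P ++ R)) else 0)
        ≤ ∑' R, (if HT ht R = n - HT ht A - HT ht P then LW Λ R else 0) * φ A P := by
          refine ENNReal.tsum_le_tsum fun R => ?_
          split_ifs with h3 h4 h4
          · gcongr
            exact hφ A P R h.1.1 h.1.2 h.2.1 h.2.2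
          · omega
          · simp
          · simp
      _ ≤ 1 * φ A P := by
          rw [ENNReal.tsum_mul_right]
          gcongr
          exact U_le_one Λ ht h1 hΛ _
      _ = _ := one_mul _
  · rw [if_neg h]; exact zero_le

lemma sum_ga (c i0 : ℕ) (f : ℕ → G → ℝ≥0∞) :
    ∑' A, ga Λ ht c i0 A * f (HT ht A - c) (Dp z A)
      = ∑' e, ∑' x, F Λ ht z c e x * (if e ≤ i0 then f e x else 0) := by
  classical
  rw [← sum_F Λ ht z c (fun e x => if e ≤ i0 then f e x else 0)]
  refine tsum_congr fun A => ?_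
  rw [ga]
  by_cases h : fp ht c A
  · have := le_HT_of_fp ht h
    by_cases h2 : HT ht A ≤ c + i0
    · rw [if_pos ⟨h, h2⟩, if_pos h, if_pos (by omega)]
    · rw [if_neg (fun h' => h2 h'.2), if_pos h, if_neg (by omega)]; simp
  · simp [h]

end weights

section part
variable {G : Type*}

/-- one order -/
theorem part (F1 F2 : ℕ → G → ℝ≥0∞) (h1 : ∑' e, ∑' x, F1 e x ≤ 1) (h2 : ∑' e, ∑' x, F2 e x ≤ 1)
    (M β κ : ℝ≥0∞) (b : ℕ → G → ℝ≥0∞) (hb : ∀ e x, F1 e x ≤ M + b e x)
    (hβ : ∑' e, ∑' x, b e x ≤ β) (i0 : ℕ) (Ψ : ℕ → ℕ → G → ℝ≥0∞) (hΨ : ∀ e e' y, Ψ e e' y ≤ 1)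
    (ρ : G → G ≃ G)
    (hH : ∀ e e', e ≤ i0 → e' ≤ i0 → ∀ μ : G → ℝ≥0∞, ∑' y, μ y ≤ 1 → (∀ y, μ y ≤ M) →
      ∑' y, μ y * Ψ e e' y ≤ κ) :
    ∑' e, ∑' x, F1 e x * (if e ≤ i0 then ∑' e', ∑' x', F2 e' x' *
      (if e' ≤ i0 then Ψ e e' (ρ x' x) else 0) else 0) ≤ ((i0 + 1 : ℕ) * (i0 + 1 : ℕ)) * κ + β := by
  have hF1 : ∀ e, ∑' x, F1 e x ≤ 1 := fun e => (ENNReal.le_tsum e).trans h1
  have hF2 : ∀ e, ∑' x, F2 e x ≤ 1 := fun e => (ENNReal.le_tsum e).trans h2
  have key : ∀ e e', e ≤ i0 → e' ≤ i0 → ∑' x, F1 e x * ∑' x', F2 e' x' * Ψ e e' (ρ x' x)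
      ≤ κ + (∑' x, b e x) * ∑' x', F2 e' x' := by
    intro e e' he he'
    set μ : G → ℝ≥0∞ := fun y => ∑' x', F2 e' x' * F1 e ((ρ x').symm y) with hμ
    set βy : G → ℝ≥0∞ := fun y => ∑' x', F2 e' x' * b e ((ρ x').symm y) with hβy
    have s1 : ∑' x, F1 e x * ∑' x', F2 e' x' * Ψ e e' (ρ x' x) = ∑' y, μ y * Ψ e e' y := by
      calc ∑' x, F1 e x * ∑' x', F2 e' x' * Ψ e e' (ρ x' x)
          = ∑' x', ∑' x, F2 e' x' * F1 e x * Ψ e e' (ρ x' x) := by
            rw [ENNReal.tsum_comm]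
            refine tsum_congr fun x => ?_
            rw [← ENNReal.tsum_mul_left]
            refine tsum_congr fun x' => ?_
            ring
        _ = ∑' x', ∑' y, F2 e' x' * F1 e ((ρ x').symm y) * Ψ e e' y := by
            refine tsum_congr fun x' => ?_
            rw [← (ρ x').symm.tsum_eq (fun x => F2 e' x' * F1 e x * Ψ e e' (ρ x' x))]
            refine tsum_congr fun y => ?_
            simp
        _ = _ := by
            rw [ENNReal.tsum_comm]
            refine tsum_congr fun y => ?_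
            rw [ENNReal.tsum_mul_right]
    have hμ1 : ∑' y, μ y ≤ 1 := by
      simp only [hμ]
      rw [ENNReal.tsum_comm]
      calc ∑' x', ∑' y, F2 e' x' * F1 e ((ρ x').symm y) ≤ ∑' x', F2 e' x' * 1 := by
            refine ENNReal.tsum_le_tsum fun x' => ?_
            rw [ENNReal.tsum_mul_left, (ρ x').symm.tsum_eq (fun x => F1 e x)]
            gcongr
            exact hF1 e
        _ ≤ 1 := by simpa using hF2 e'
    have hμM : ∀ y, μ y ≤ M + βy y := by
      intro y
      calc μ y ≤ ∑' x', F2 e' x' * (M + b e ((ρ x').symm y)) := by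
            simp only [hμ]
            gcongr with x'
            exact hb e _
        _ = (∑' x', F2 e' x') * M + βy y := by
            simp_rw [mul_add]
            rw [ENNReal.tsum_add, ENNReal.tsum_mul_right]
        _ ≤ 1 * M + βy y := by gcongr; exact hF2 e'
        _ = _ := by rw [one_mul]
    have hβsum : ∑' y, βy y = (∑' x, b e x) * ∑' x', F2 e' x' := by
      simp only [hβy]
      rw [ENNReal.tsum_comm, mul_comm, ← ENNReal.tsum_mul_right]
      refine tsum_congr fun x' => ?_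
      rw [ENNReal.tsum_mul_left, (ρ x').symm.tsum_eq (fun x => b e x)]
    rw [s1]
    calc ∑' y, μ y * Ψ e e' y ≤ ∑' y, (min (μ y) M * Ψ e e' y + βy y) := by
          refine ENNReal.tsum_le_tsum fun y => ?_
          have : μ y ≤ min (μ y) M + βy y := by
            rcases le_total (μ y) M with h | h
            · rw [min_eq_left h]; exact le_self_add
            · rw [min_eq_right h]; exact hμM y
          calc μ y * Ψ e e' y ≤ (min (μ y) M + βy y) * Ψ e e' y := by gcongr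
            _ = min (μ y) M * Ψ e e' y + βy y * Ψ e e' y := by ring
            _ ≤ min (μ y) M * Ψ e e' y + βy y * 1 := by gcongr; exact hΨ e e' y
            _ = _ := by rw [mul_one]
      _ = (∑' y, min (μ y) M * Ψ e e' y) + ∑' y, βy y := ENNReal.tsum_add
      _ ≤ κ + (∑' x, b e x) * ∑' x', F2 e' x' := by
          rw [hβsum]
          gcongr
          refine hH e e' he he' _ ?_ fun y => min_le_right _ _
          exact (ENNReal.tsum_le_tsum fun y => min_le_left _ _).trans hμ1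
  have hfin : ∀ f : ℕ → ℝ≥0∞, ∑' e, (if e ≤ i0 then f e else 0)
      = ∑ e ∈ Finset.range (i0 + 1), f e := by
    intro f
    rw [tsum_eq_sum (s := Finset.range (i0 + 1))]
    · refine Finset.sum_congr rfl fun i hi => ?_
      rw [if_pos (by have := Finset.mem_range.1 hi; omega)]
    · intro i hi
      rw [if_neg (by intro h; exact hi (Finset.mem_range.2 (by omega)))]
  have e1 : ∑' e, ∑' x, F1 e x * (if e ≤ i0 then ∑' e', ∑' x', F2 e' x' *
      (if e' ≤ i0 then Ψ e e' (ρ x' x) else 0) else 0)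
      = ∑ e ∈ Finset.range (i0 + 1), ∑ e' ∈ Finset.range (i0 + 1),
        ∑' x, F1 e x * ∑' x', F2 e' x' * Ψ e e' (ρ x' x) := by
    rw [← hfin]
    refine tsum_congr fun e => ?_
    by_cases he : e ≤ i0
    · simp only [he, if_true]
      rw [← hfin]
      have : ∀ x, F1 e x * ∑' e', ∑' x', F2 e' x' * (if e' ≤ i0 then Ψ e e' (ρ x' x) else 0)
          = ∑' e', F1 e x * ∑' x', F2 e' x' * (if e' ≤ i0 then Ψ e e' (ρ x' x) else 0) :=
        fun x => ENNReal.tsum_mul_left.symm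
      simp_rw [this]
      rw [ENNReal.tsum_comm]
      refine tsum_congr fun e' => ?_
      by_cases he' : e' ≤ i0 <;> simp [he']
    · simp [he]
  rw [e1]
  calc ∑ e ∈ Finset.range (i0 + 1), ∑ e' ∈ Finset.range (i0 + 1),
        ∑' x, F1 e x * ∑' x', F2 e' x' * Ψ e e' (ρ x' x)
      ≤ ∑ e ∈ Finset.range (i0 + 1), ∑ e' ∈ Finset.range (i0 + 1),
        (κ + (∑' x, b e x) * ∑' x', F2 e' x') := by
        refine Finset.sum_le_sum fun e he => Finset.sum_le_sum fun e' he' => ?_
        exact key e e' (by have := Finset.mem_range.1 he; omega)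
          (by have := Finset.mem_range.1 he'; omega)
    _ = ((i0 + 1 : ℕ) * (i0 + 1 : ℕ)) * κ + (∑ e ∈ Finset.range (i0 + 1), ∑' x, b e x) *
        ∑ e' ∈ Finset.range (i0 + 1), ∑' x', F2 e' x' := by
        simp_rw [Finset.sum_add_distrib]
        rw [Finset.sum_mul_sum]
        simp [mul_assoc]
    _ ≤ ((i0 + 1 : ℕ) * (i0 + 1 : ℕ)) * κ + β * 1 := by
        gcongr
        · exact (ENNReal.sum_le_tsum _).trans hβ
        · exact (ENNReal.sum_le_tsum _).trans h2
    _ = _ := by rw [mul_one]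

end part

end Crest.Agent.R154.Asm262
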