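import Mathlib

/-! Row 154, KAPPA' (801), list assembly, part B (helper295): joint density lemma (adapted from
helper616's `Dens616.dens`: the overshoot index `α` is carried along, extra remainder `c`). -/

set_option autoImplicit false

namespace Crest.Agent.R154.Asm295

open scoped ENNReal

variable {Z : Type*} [AddCommGroup Z]

theorem dens (p : ℕ → Z → ℝ≥0∞) (f c : ℕ → ℕ → Z → ℝ≥0∞) (T i0 : ℕ) (th q ε G : ℝ≥0∞)
    (hrec : ∀ r, T ≤ r → ∀ α z, f r α z ≤
      (∑' i, ∑' z', if T + i ≤ r then p i z' * f (r - T - i) α (z - z') else 0) + c r α z)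
    (hf : ∀ r, ∑' α, ∑' z, f r α z ≤ 1)
    (hc : ∀ r, T + i0 ≤ r → ∑' α, ∑' z, c r α z ≤ ε)
    (hε : ∑' i, ∑' z', (if i0 < i then p i z' else 0) ≤ ε)
    (hq : ∑' i, ∑' z', (if i ≤ i0 ∧ th < p i z' then p i z' else 0) ≤ q) (hq1 : q ≤ 1)
    (hG : (i0 + 1 : ℕ) * th + q * G ≤ G) :
    ∀ J r, J * (T + i0) ≤ r → ∃ b : ℕ → Z → ℝ≥0∞,
      (∑' α, ∑' z, b α z ≤ q ^ J + J * (2 * ε)) ∧ ∀ α z, f r α z ≤ G + b α z := by
  have hsh : ∀ (g : ℕ → Z → ℝ≥0∞) (z' : Z), ∑' α, ∑' z, g α (z - z') = ∑' α, ∑' z, g α z :=
    fun g z' => tsum_congr fun α => (Equiv.subRight z').tsum_eq fun z => g α z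
  have hsw : ∀ F : ℕ → Z → ℕ → Z → ℝ≥0∞, ∑' α, ∑' z, ∑' i, ∑' z', F α z i z'
      = ∑' i, ∑' z', ∑' α, ∑' z, F α z i z' := by
    intro F
    have e1 : ∀ α, ∑' z, ∑' i, ∑' z', F α z i z' = ∑' i, ∑' z', ∑' z, F α z i z' := by
      intro α
      rw [ENNReal.tsum_comm]
      exact tsum_congr fun i => ENNReal.tsum_comm
    simp_rw [e1]
    rw [ENNReal.tsum_comm]
    exact tsum_congr fun i => ENNReal.tsum_comm
  intro J
  induction J with
  | zero =>
    intro r _
    exact ⟨f r, by simpa using hf r, fun α z => le_add_self⟩
  | succ J ih =>
    intro r hr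
    have hTr0 : T + i0 ≤ r := by nlinarith
    have hTr : T ≤ r := by omega
    have hrem : ∀ i, i ≤ i0 → J * (T + i0) ≤ r - T - i := by
      intro i hi
      have : J * (T + i0) + (T + i0) ≤ r := by nlinarith
      omega
    choose! b hb1 hb2 using fun i (hi : i ≤ i0) => ih (r - T - i) (hrem i hi)
    refine ⟨fun α z => ((∑' i, ∑' z', if i0 < i then p i z' * f (r - T - i) α (z - z') else 0) +
      ∑' i, ∑' z', if i ≤ i0 ∧ th < p i z' then p i z' * b i α (z - z') else 0) + c r α z, ?_, ?_⟩
    · have e1 : ∑' α, ∑' z, ∑' i, ∑' z', (if i0 < i then p i z' * f (r - T - i) α (z - z') else 0)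
          ≤ ε := by
        rw [hsw]
        refine le_trans (ENNReal.tsum_le_tsum fun i => ENNReal.tsum_le_tsum fun z' => ?_) hε
        split_ifs with h
        · simp_rw [ENNReal.tsum_mul_left]
          rw [hsh (fun α z => f (r - T - i) α z) z']
          calc p i z' * ∑' α, ∑' z, f (r - T - i) α z ≤ p i z' * 1 := by gcongr; exact hf _
            _ = p i z' := mul_one _
        · simp
      have e2 : ∑' α, ∑' z, ∑' i, ∑' z',
          (if i ≤ i0 ∧ th < p i z' then p i z' * b i α (z - z') else 0)
          ≤ q * (q ^ J + J * (2 * ε)) := by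
        rw [hsw]
        calc ∑' i, ∑' z', ∑' α, ∑' z, (if i ≤ i0 ∧ th < p i z' then p i z' * b i α (z - z') else 0)
            ≤ ∑' i, ∑' z', (if i ≤ i0 ∧ th < p i z' then p i z' else 0) *
              (q ^ J + J * (2 * ε)) := by
              refine ENNReal.tsum_le_tsum fun i => ENNReal.tsum_le_tsum fun z' => ?_
              split_ifs with h
              · simp_rw [ENNReal.tsum_mul_left]
                rw [hsh (fun α z => b i α z) z']
                gcongr
                exact hb1 i h.1
              · simp
          _ = (∑' i, ∑' z', (if i ≤ i0 ∧ th < p i z' then p i z' else 0)) *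
              (q ^ J + J * (2 * ε)) := by
              simp_rw [ENNReal.tsum_mul_right]
          _ ≤ _ := by gcongr
      have e3 := hc r hTr0
      simp_rw [ENNReal.tsum_add]
      calc _ ≤ (ε + q * (q ^ J + J * (2 * ε))) + ε := add_le_add (add_le_add e1 e2) e3
        _ = q ^ (J + 1) + (2 * ε + q * (J * (2 * ε))) := by ring
        _ ≤ q ^ (J + 1) + (2 * ε + 1 * (J * (2 * ε))) := by gcongr
        _ = q ^ (J + 1) + ((J + 1 : ℕ) : ℝ≥0∞) * (2 * ε) := by push_cast; ring
    · intro α z
      have hterm : ∀ i z', (if T + i ≤ r then p i z' * f (r - T - i) α (z - z') else 0) ≤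
          ((if i0 < i then p i z' * f (r - T - i) α (z - z') else 0) +
            (if i ≤ i0 then th * f (r - T - i) α (z - z') else 0)) +
          ((if i ≤ i0 ∧ th < p i z' then p i z' * b i α (z - z') else 0) +
            (if i ≤ i0 ∧ th < p i z' then p i z' else 0) * G) := by
        intro i z'
        by_cases hi : i ≤ i0
        · have hi' : ¬ i0 < i := by omega
          simp only [hi, hi', if_false, if_true, true_and, zero_add]
          by_cases hp : th < p i z'
          · simp only [hp, if_true]
            have h1 : (if T + i ≤ r then p i z' * f (r - T - i) α (z - z') else 0) ≤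
                p i z' * f (r - T - i) α (z - z') := by split_ifs <;> simp
            calc _ ≤ p i z' * f (r - T - i) α (z - z') := h1
              _ ≤ p i z' * (G + b i α (z - z')) := by gcongr; exact hb2 i hi _ _
              _ = p i z' * b i α (z - z') + p i z' * G := by ring
              _ ≤ _ := le_add_self
          · simp only [hp, if_false, zero_mul, add_zero]
            have h1 : (if T + i ≤ r then p i z' * f (r - T - i) α (z - z') else 0) ≤
                p i z' * f (r - T - i) α (z - z') := by split_ifs <;> simp
            refine h1.trans ?_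
            gcongr
            exact not_lt.1 hp
        · have hi' : i0 < i := by omega
          simp only [hi, hi', if_false, if_true, false_and, zero_mul, add_zero]
          split_ifs <;> simp
      calc f r α z ≤ (∑' i, ∑' z', (if T + i ≤ r then p i z' * f (r - T - i) α (z - z') else 0))
              + c r α z := hrec r hTr α z
        _ ≤ (∑' i, ∑' z', (((if i0 < i then p i z' * f (r - T - i) α (z - z') else 0) +
            (if i ≤ i0 then th * f (r - T - i) α (z - z') else 0)) +
          ((if i ≤ i0 ∧ th < p i z' then p i z' * b i α (z - z') else 0) +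
            (if i ≤ i0 ∧ th < p i z' then p i z' else 0) * G))) + c r α z := by
            gcongr with i z'
            exact hterm i z'
        _ = (((∑' i, ∑' z', (if i0 < i then p i z' * f (r - T - i) α (z - z') else 0)) +
            (∑' i, ∑' z', (if i ≤ i0 then th * f (r - T - i) α (z - z') else 0))) +
          ((∑' i, ∑' z', (if i ≤ i0 ∧ th < p i z' then p i z' * b i α (z - z') else 0)) +
            (∑' i, ∑' z', (if i ≤ i0 ∧ th < p i z' then p i z' else 0)) * G)) + c r α z := by
            simp_rw [ENNReal.tsum_add, ENNReal.tsum_mul_right]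
        _ ≤ (((∑' i, ∑' z', (if i0 < i then p i z' * f (r - T - i) α (z - z') else 0)) +
            ((i0 + 1 : ℕ) * th)) +
          ((∑' i, ∑' z', (if i ≤ i0 ∧ th < p i z' then p i z' * b i α (z - z') else 0)) + q * G))
            + c r α z := by
            gcongr
            calc ∑' i, ∑' z', (if i ≤ i0 then th * f (r - T - i) α (z - z') else 0)
                ≤ ∑' i, (if i ≤ i0 then th else 0) := by
                  refine ENNReal.tsum_le_tsum fun i => ?_
                  split_ifs with h
                  · rw [ENNReal.tsum_mul_left]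
                    have : ∑' z', f (r - T - i) α (z - z') = ∑' z', f (r - T - i) α z' :=
                      (Equiv.subLeft z).tsum_eq fun z' => f (r - T - i) α z'
                    rw [this]
                    calc th * ∑' z', f (r - T - i) α z' ≤ th * 1 := by
                          gcongr
                          exact (ENNReal.le_tsum (f := fun α => ∑' z', f (r - T - i) α z') α).trans
                            (hf _)
                      _ = th := mul_one _
                  · simp
              _ = ∑ i ∈ Finset.range (i0 + 1), th := by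
                  rw [tsum_eq_sum (s := Finset.range (i0 + 1))]
                  · refine Finset.sum_congr rfl fun i hi => ?_
                    rw [if_pos (by have := Finset.mem_range.1 hi; omega)]
                  · intro i hi
                    rw [if_neg (by intro h; exact hi (Finset.mem_range.2 (by omega)))]
              _ = _ := by simp
        _ = ((i0 + 1 : ℕ) * th + q * G) +
            (((∑' i, ∑' z', (if i0 < i then p i z' * f (r - T - i) α (z - z') else 0)) +
            ∑' i, ∑' z', (if i ≤ i0 ∧ th < p i z' then p i z' * b i α (z - z') else 0))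
              + c r α z) := by ring
        _ ≤ _ := by gcongr

end Crest.Agent.R154.Asm295
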