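import Crest.Agent.R154.AsmA_307
import Crest.Agent.R154.Bind801_12

set_option autoImplicit false

namespace Crest.Agent.R154.Asm307

open scoped ENNReal
open Crest.Agent.R154.B5A
open Crest.Agent.R154.Bind12 (TT)

section tt
variable {B G : Type*} [AddCommGroup G] (s : B → Set (G × ℕ)) (z : B → G) (h : B → ℕ)

lemma TT_append (L L' : List B) (x : G) (a : ℕ) :
    TT s z h (L ++ L') x a = TT s z h L x a ∪ TT s z h L' (x + Dp z L) (a + HT h L) := by
  induction L generalizing x a with
  | nil => simp [TT, Dp, HT]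
  | cons b L ih =>
    simp only [List.cons_append, TT]
    rw [ih, Set.union_assoc]
    congr 2
    rw [HT_cons, Dp, Dp, List.map_cons, List.sum_cons]
    congr 1
    · abel
    · omega

lemma TT_depth (hs : ∀ b q, q ∈ s b → 1 ≤ q.2 ∧ q.2 ≤ h b) (L : List B) (x : G) (a : ℕ)
    (p : G × ℕ) (hp : p ∈ TT s z h L x a) : a < p.2 ∧ p.2 ≤ a + HT h L := by
  induction L generalizing x a with
  | nil => exact hp.elim
  | cons b L ih =>
    rw [HT_cons]
    rcases hp with ⟨q, hq, rfl⟩ | hp
    · have := hs b q hq; simp only; omega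
    · have := ih _ _ hp; omega

lemma TT_shift (L : List B) (x y : G) (a : ℕ) (p : G × ℕ) :
    p ∈ TT s z h L (x + y) a ↔ (p.1 - y, p.2) ∈ TT s z h L x a := by
  induction L generalizing x a with
  | nil => exact Iff.rfl
  | cons b L ih =>
    simp only [TT, Set.mem_union, Set.mem_setOf_eq]
    rw [show x + y + z b = (x + z b) + y by abel, ih]
    refine or_congr ?_ Iff.rfl
    constructor
    · rintro ⟨q, hq, rfl⟩
      refine ⟨q, hq, ?_⟩
      simp only [Prod.mk.injEq, and_true]; abel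
    · rintro ⟨q, hq, hp⟩
      refine ⟨q, hq, ?_⟩
      simp only [Prod.mk.injEq] at hp
      refine Prod.ext ?_ hp.2
      have := hp.1
      simp only
      rw [sub_eq_iff_eq_add] at this
      rw [this]; abel

end tt

section one
variable {B G : Type*} [AddCommGroup G] (Λ : B → ℝ≥0∞) (ht : B → ℕ)

/-- no overshoot -/
def Nov (a T i0 : ℕ) (L : List B) : Prop :=
  HT ht (cut ht L a).1 ≤ a + i0 ∧ HT ht (cut ht (cut ht L a).2 T).1 ≤ T + i0

noncomputable def ep (i0 : ℕ) : ℝ≥0∞ := ∑' b, Λ b * ((ht b - i0 : ℕ) : ℝ≥0∞)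

open Classical in
lemma ov1 (h1 : ∀ b, 1 ≤ ht b) (hΛ : ∑' b, Λ b = 1) (a i0 n : ℕ) (hn : a ≤ n) :
    ∑' L : List B, (if HT ht L = n ∧ a + i0 < HT ht (cut ht L a).1 then LW Λ L else 0) ≤ ep Λ ht i0 := by
  refine le_trans (sum_cut ht _ a) (le_trans ?_ (overS Λ ht h1 hΛ a i0))
  refine ENNReal.tsum_le_tsum fun A => ?_
  by_cases hA : FP ht A a ∧ a + i0 < HT ht A
  · rw [if_pos hA]
    calc _ ≤ ∑' R, LW Λ A * (if HT ht R = n - HT ht A then LW Λ R else 0) := by
          refine ENNReal.tsum_le_tsum fun R => ?_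
          by_cases hc : cut ht (A ++ R) a = (A, R)
          · rw [if_pos hc]
            by_cases hh : HT ht (A ++ R) = n ∧ a + i0 < HT ht (cut ht (A ++ R) a).1
            · rw [if_pos hh]
              have := hh.1
              rw [HT_append] at this
              rw [if_pos (by omega), LW_append]
            · rw [if_neg hh]; exact zero_le'
          · rw [if_neg hc]; exact zero_le'
      _ ≤ LW Λ A * 1 := by
          rw [ENNReal.tsum_mul_left]; gcongr; exact U_le Λ ht h1 hΛ _
      _ = LW Λ A := mul_one _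
  · rw [if_neg hA]
    refine le_of_eq (ENNReal.tsum_eq_zero.2 fun R => ?_)
    by_cases hc : cut ht (A ++ R) a = (A, R)
    · rw [if_pos hc, if_neg]
      rintro ⟨h2, h3⟩
      have := cut_fp ht (A ++ R) a (by omega)
      rw [hc] at this h3
      exact hA ⟨this, h3⟩
    · rw [if_neg hc]

open Classical in
lemma ov2 (h1 : ∀ b, 1 ≤ ht b) (hΛ : ∑' b, Λ b = 1) (a T i0 n : ℕ) (hn : a + i0 + T ≤ n) :
    ∑' L : List B, (if HT ht L = n ∧ ¬ Nov ht a T i0 L then LW Λ L else 0) ≤ 2 * ep Λ ht i0 := by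
  have e : ∀ L : List B, (if HT ht L = n ∧ ¬ Nov ht a T i0 L then LW Λ L else 0)
      ≤ (if HT ht L = n ∧ a + i0 < HT ht (cut ht L a).1 then LW Λ L else 0)
        + (if HT ht L = n ∧ HT ht (cut ht L a).1 ≤ a + i0 ∧ T + i0 < HT ht (cut ht (cut ht L a).2 T).1 then LW Λ L else 0) := by
    intro L
    by_cases hL : HT ht L = n ∧ ¬ Nov ht a T i0 L
    · rw [if_pos hL]
      by_cases h2 : a + i0 < HT ht (cut ht L a).1
      · rw [if_pos ⟨hL.1, h2⟩]; exact le_self_add
      · have h3 : T + i0 < HT ht (cut ht (cut ht L a).2 T).1 := by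
          by_contra h4
          exact hL.2 ⟨by omega, by omega⟩
        rw [if_pos (⟨hL.1, by omega, h3⟩ : HT ht L = n ∧ HT ht (cut ht L a).1 ≤ a + i0 ∧ T + i0 < HT ht (cut ht (cut ht L a).2 T).1)]
        exact le_add_self
    · rw [if_neg hL]; exact zero_le'
  refine le_trans (ENNReal.tsum_le_tsum e) ?_
  rw [ENNReal.tsum_add, two_mul]
  refine add_le_add (ov1 Λ ht h1 hΛ a i0 n (by omega)) ?_
  refine le_trans (sum_cut ht _ a) ?_
  calc _ ≤ ∑' A : List B, (if FP ht A a then LW Λ A else 0) * ep Λ ht i0 := by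
        refine ENNReal.tsum_le_tsum fun A => ?_
        by_cases hA : FP ht A a ∧ HT ht A ≤ a + i0
        · rw [if_pos hA.1]
          calc _ ≤ ∑' R, LW Λ A * (if HT ht R = n - HT ht A ∧ T + i0 < HT ht (cut ht R T).1 then LW Λ R else 0) := by
                refine ENNReal.tsum_le_tsum fun R => ?_
                by_cases hc : cut ht (A ++ R) a = (A, R)
                · rw [if_pos hc]
                  by_cases hh : HT ht (A ++ R) = n ∧ HT ht (cut ht (A ++ R) a).1 ≤ a + i0 ∧ T + i0 < HT ht (cut ht (cut ht (A ++ R) a).2 T).1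
                  · rw [if_pos hh]
                    have h5 := hh.1
                    have h6 := hh.2.2
                    rw [hc] at h6
                    rw [HT_append] at h5
                    rw [if_pos ⟨by omega, h6⟩, LW_append]
                  · rw [if_neg hh]; exact zero_le'
                · rw [if_neg hc]; exact zero_le'
            _ ≤ LW Λ A * ep Λ ht i0 := by
                rw [ENNReal.tsum_mul_left]; gcongr; exact ov1 Λ ht h1 hΛ T i0 _ (by omega)
        · refine le_of_eq_of_le (ENNReal.tsum_eq_zero.2 fun R => ?_) zero_le'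
          by_cases hc : cut ht (A ++ R) a = (A, R)
          · rw [if_pos hc, if_neg]
            rintro ⟨h2, h3, _⟩
            have := cut_fp ht (A ++ R) a (by omega)
            rw [hc] at this h3
            exact hA ⟨this, h3⟩
          · rw [if_neg hc]
    _ = ep Λ ht i0 := by rw [ENNReal.tsum_mul_right, fp_mass Λ ht h1 hΛ a, one_mul]

open Classical in
/-- three pieces -/
lemma three (h1 : ∀ b, 1 ≤ ht b) (hΛ : ∑' b, Λ b = 1) (a T i0 n : ℕ) (hn : a + i0 + T ≤ n)
    (f : List B → ℝ≥0∞) (Φ : List B → List B → ℝ≥0∞)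
    (hf : ∀ A P R, FP ht A a → HT ht A ≤ a + i0 → FP ht P T → HT ht P ≤ T + i0 →
      f (A ++ (P ++ R)) ≤ LW Λ (A ++ (P ++ R)) * Φ A P) :
    ∑' L, (if HT ht L = n ∧ Nov ht a T i0 L then f L else 0) ≤
      ∑' A, ∑' P, if (FP ht A a ∧ HT ht A ≤ a + i0) ∧ (FP ht P T ∧ HT ht P ≤ T + i0) then
        LW Λ A * LW Λ P * Φ A P else 0 := by
  refine le_trans (sum_cut ht _ a) (ENNReal.tsum_le_tsum fun A => ?_)
  by_cases hA : FP ht A a ∧ HT ht A ≤ a + i0
  · refine le_trans (ENNReal.tsum_le_tsum (g := fun R => if HT ht R = n - HT ht A ∧ HT ht (cut ht R T).1 ≤ T + i0 then f (A ++ R) else 0) fun R => ?_) ?_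
    · by_cases hc : cut ht (A ++ R) a = (A, R)
      · rw [if_pos hc]
        by_cases hh : HT ht (A ++ R) = n ∧ Nov ht a T i0 (A ++ R)
        · rw [if_pos hh]
          have h5 := hh.1
          have h6 := hh.2.2
          rw [hc] at h6
          rw [HT_append] at h5
          rw [if_pos ⟨by omega, h6⟩]
        · rw [if_neg hh]; exact zero_le'
      · rw [if_neg hc]; exact zero_le'
    · refine le_trans (sum_cut ht _ T) (ENNReal.tsum_le_tsum fun P => ?_)
      by_cases hP : FP ht P T ∧ HT ht P ≤ T + i0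
      · rw [if_pos ⟨hA, hP⟩]
        calc _ ≤ ∑' R, LW Λ A * LW Λ P * Φ A P * (if HT ht R = n - HT ht A - HT ht P then LW Λ R else 0) := by
              refine ENNReal.tsum_le_tsum fun R => ?_
              by_cases hc : cut ht (P ++ R) T = (P, R)
              · rw [if_pos hc]
                by_cases hh : HT ht (P ++ R) = n - HT ht A ∧ HT ht (cut ht (P ++ R) T).1 ≤ T + i0
                · rw [if_pos hh]
                  have h5 := hh.1
                  rw [HT_append] at h5
                  rw [if_pos (by omega)]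
                  refine le_trans (hf A P R hA.1 hA.2 hP.1 hP.2) (le_of_eq ?_)
                  rw [LW_append, LW_append]; ring
                · rw [if_neg hh]; exact zero_le'
              · rw [if_neg hc]; exact zero_le'
          _ ≤ LW Λ A * LW Λ P * Φ A P * 1 := by
              rw [ENNReal.tsum_mul_left]; gcongr; exact U_le Λ ht h1 hΛ _
          _ = _ := mul_one _
      · rw [if_neg (fun h => hP h.2)]
        refine le_of_eq (ENNReal.tsum_eq_zero.2 fun R => ?_)
        by_cases hc : cut ht (P ++ R) T = (P, R)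
        · rw [if_pos hc, if_neg]
          rintro ⟨h2, h3⟩
          have := cut_fp ht (P ++ R) T (by omega)
          rw [hc] at this h3
          exact hP ⟨this, h3⟩
        · rw [if_neg hc]
  · refine le_of_eq_of_le (ENNReal.tsum_eq_zero.2 fun R => ?_) zero_le'
    by_cases hc : cut ht (A ++ R) a = (A, R)
    · rw [if_pos hc, if_neg]
      rintro ⟨h2, h3, _⟩
      have := cut_fp ht (A ++ R) a (by omega)
      rw [hc] at this h3
      exact hA ⟨this, h3⟩
    · rw [if_neg hc]

open Classical in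
/-- the top part of one walker, smoothed -/
lemma top1 (h1 : ∀ b, 1 ≤ ht b) (hΛ : ∑' b, Λ b = 1) (z : B → G) (a i0 : ℕ) (Gd β Q : ℝ≥0∞)
    (hgb : ∃ b : ℕ → G → ℝ≥0∞, (∀ h g, V Λ ht z a h g ≤ Gd + b h g) ∧ ∑' h, ∑' g, b h g ≤ β)
    (Ψ : ℕ → G → ℝ≥0∞) (hΨ : ∀ h x, Ψ h x ≤ 1) (σ : G ≃ G)
    (H : ∀ h, a ≤ h → h ≤ a + i0 → ∀ μ : G → ℝ≥0∞, ∑' x, μ x ≤ 1 → (∀ x, μ x ≤ Gd) →
      ∑' x, μ x * Ψ h x ≤ Q) :
    ∑' A, (if FP ht A a ∧ HT ht A ≤ a + i0 then LW Λ A * Ψ (HT ht A) (σ (Dp z A)) else 0)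
      ≤ (i0 + 1 : ℕ) * Q + β := by
  obtain ⟨b, hb1, hb2⟩ := hgb
  have e : ∀ A : List B, (if FP ht A a ∧ HT ht A ≤ a + i0 then LW Λ A * Ψ (HT ht A) (σ (Dp z A)) else 0)
      = if FP ht A a then LW Λ A * (fun h g => if a ≤ h ∧ h ≤ a + i0 then Ψ h (σ g) else 0) (HT ht A) (Dp z A) else 0 := by
    intro A
    by_cases hA : FP ht A a
    · have := fp_le ht A a hA
      by_cases h2 : HT ht A ≤ a + i0 <;> simp [hA, h2, this]
    · simp [hA]
  simp only [e]
  rw [regroup Λ ht z a (fun h g => if a ≤ h ∧ h ≤ a + i0 then Ψ h (σ g) else 0)]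
  have hpt : ∀ h g, V Λ ht z a h g * (if a ≤ h ∧ h ≤ a + i0 then Ψ h (σ g) else 0)
      ≤ (if h ∈ Finset.Icc a (a + i0) then min (V Λ ht z a h g) Gd * Ψ h (σ g) else 0) + b h g := by
    intro h g
    by_cases hh : a ≤ h ∧ h ≤ a + i0
    · rw [if_pos hh, if_pos (Finset.mem_Icc.2 hh)]
      have hv : V Λ ht z a h g ≤ min (V Λ ht z a h g) Gd + b h g := by
        rcases le_total (V Λ ht z a h g) Gd with h3 | h3
        · rw [min_eq_left h3]; exact le_self_add
        · rw [min_eq_right h3]; exact hb1 h g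
      calc _ ≤ (min (V Λ ht z a h g) Gd + b h g) * Ψ h (σ g) := by gcongr
        _ = min (V Λ ht z a h g) Gd * Ψ h (σ g) + b h g * Ψ h (σ g) := add_mul _ _ _
        _ ≤ min (V Λ ht z a h g) Gd * Ψ h (σ g) + b h g * 1 := by gcongr; exact hΨ _ _
        _ = _ := by rw [mul_one]
    · rw [if_neg hh, mul_zero]; exact zero_le'
  refine le_trans (ENNReal.tsum_le_tsum fun h => ENNReal.tsum_le_tsum fun g => hpt h g) ?_
  simp only [ENNReal.tsum_add]
  refine add_le_add ?_ hb2
  have : ∀ h, ∑' g, (if h ∈ Finset.Icc a (a + i0) then min (V Λ ht z a h g) Gd * Ψ h (σ g) else 0)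
      ≤ if h ∈ Finset.Icc a (a + i0) then Q else 0 := by
    intro h
    by_cases hh : h ∈ Finset.Icc a (a + i0)
    · simp only [hh, if_true]
      have h2 := Finset.mem_Icc.1 hh
      have h3 := H h h2.1 h2.2 (fun x => min (V Λ ht z a h (σ.symm x)) Gd) (by
        refine le_trans (ENNReal.tsum_le_tsum fun x => min_le_left _ _) ?_
        refine le_trans (le_of_eq (σ.symm.tsum_eq (fun x => V Λ ht z a h x))) ?_
        exact V_mass1 Λ ht h1 hΛ z _ _) (fun x => min_le_right _ _)
      refine le_trans (le_of_eq ?_) h3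
      rw [← σ.tsum_eq (fun x => min (V Λ ht z a h (σ.symm x)) Gd * Ψ h x)]
      simp
    · simp [hh]
  refine le_trans (ENNReal.tsum_le_tsum this) ?_
  rw [tsum_eq_sum (s := Finset.Icc a (a + i0)) (fun k hk => if_neg hk)]
  rw [Finset.sum_congr rfl (fun k hk => if_pos hk), Finset.sum_const, nsmul_eq_mul, Nat.card_Icc]
  gcongr
  omega

end one

end Crest.Agent.R154.Asm307
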