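import Crest.Agent.R154.AsmA_309
import Crest.Agent.R154.Dens_903

/-! Row 154, ROAD 801 (helper309): overshoot, quantile, one window. -/

set_option autoImplicit false

namespace Crest.Agent.R154.Asm309

open scoped ENNReal Topology
open B5A Filter

variable {B G : Type*}

lemma FP_last (ht : B → ℕ) (L : List B) : ∀ a : ℕ, FP ht L a → L ≠ [] →
    ∃ L1 b, L = L1 ++ [b] ∧ HT ht L1 < a := by
  induction L with
  | nil => intro a _ h; exact absurd rfl h
  | cons b L ih =>
    intro a h _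
    have h0 : a ≠ 0 := h.1
    by_cases hL : L = []
    · subst hL
      exact ⟨[], b, rfl, by rw [HT_nil]; omega⟩
    · obtain ⟨L1, b', e, h1⟩ := ih _ h.2 hL
      exact ⟨b :: L1, b', by rw [e]; rfl, by rw [HT_cons]; omega⟩

/-- overshoot bound -/
noncomputable def ov (Λ : B → ℝ≥0∞) (ht : B → ℕ) (i : ℕ) : ℝ≥0∞ := ∑' j, tail Λ ht (j + i)

open Classical in
lemma over_le (Λ : B → ℝ≥0∞) (ht : B → ℕ) (hU1 : ∀ n, U Λ ht n ≤ 1) (a i : ℕ) :
    ∑' L, (if FP ht L a ∧ a + i < HT ht L then LW Λ L else 0) ≤ ov Λ ht i := by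
  have step : ∑' L, (if FP ht L a ∧ a + i < HT ht L then LW Λ L else 0)
      ≤ ∑' c : List B × B, (if HT ht c.1 < a then LW Λ c.1 else 0) *
        (if a + i - HT ht c.1 < ht c.2 then Λ c.2 else 0) := by
    refine tsum_le_cover _ _ (fun c => c.1 ++ [c.2]) ?_
    intro L hL
    by_cases hc : FP ht L a ∧ a + i < HT ht L
    · obtain ⟨L1, b, e, h1⟩ := FP_last ht L a hc.1 (by
        rintro rfl; rw [HT_nil] at hc; omega)
      refine ⟨(L1, b), e.symm, ?_⟩
      have h2 := hc.2
      rw [e, HT_append, HT_cons, HT_nil] at h2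
      rw [if_pos hc, e, LW_append, LW_cons, LW_nil, mul_one]
      simp only
      rw [if_pos h1, if_pos (by omega)]
    · exact absurd (if_neg hc) hL
  refine step.trans ?_
  rw [ENNReal.tsum_prod']
  simp only
  calc _ = ∑' L1 : List B, (if HT ht L1 < a then LW Λ L1 else 0) * tail Λ ht (a + i - HT ht L1) := by
        refine tsum_congr fun L1 => ?_
        rw [ENNReal.tsum_mul_left]; rfl
    _ = ∑' L1 : List B, ∑ g ∈ Finset.range a, (if HT ht L1 = g then LW Λ L1 else 0)
          * tail Λ ht (a + i - g) := by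
        refine tsum_congr fun L1 => ?_
        by_cases h : HT ht L1 < a
        · rw [if_pos h, Finset.sum_eq_single (HT ht L1)]
          · rw [if_pos rfl]
          · intro g _ hg; rw [if_neg (Ne.symm hg), zero_mul]
          · intro h'; exact absurd (Finset.mem_range.2 h) h'
        · rw [if_neg h, zero_mul, Finset.sum_eq_zero]
          intro g hg
          rw [if_neg (by have := Finset.mem_range.1 hg; omega), zero_mul]
    _ = ∑ g ∈ Finset.range a, U Λ ht g * tail Λ ht (a + i - g) := by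
        rw [Summable.tsum_finsetSum (fun _ _ => ENNReal.summable)]
        refine Finset.sum_congr rfl fun g _ => ?_
        rw [ENNReal.tsum_mul_right]; rfl
    _ ≤ ∑ g ∈ Finset.range a, tail Λ ht (a + i - g) := by
        refine Finset.sum_le_sum fun g _ => ?_
        calc _ ≤ 1 * tail Λ ht (a + i - g) := mul_le_mul_left (hU1 g) _
          _ = _ := one_mul _
    _ ≤ ov Λ ht i := by
        rw [← Finset.sum_range_reflect]
        calc _ ≤ ∑ g ∈ Finset.range a, tail Λ ht ((g + 1) + i) := by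
              refine Finset.sum_le_sum fun g hg => le_of_eq ?_
              have := Finset.mem_range.1 hg
              congr 1; omega
          _ ≤ ∑' g : ℕ, tail Λ ht ((g + 1) + i) := ENNReal.sum_le_tsum _
          _ ≤ ov Λ ht i :=
              ENNReal.tsum_comp_le_tsum_of_injective (f := fun g : ℕ => g + 1)
                (fun _ _ h => by simpa using h) (fun j => tail Λ ht (j + i))

lemma ov_tendsto (Λ : B → ℝ≥0∞) (ht : B → ℕ) (hΛ : ∑' b, Λ b = 1)
    (hE : ∑' b, Λ b * (ht b : ℝ≥0∞) ≠ ⊤) : Tendsto (ov Λ ht) atTop (𝓝 0) := by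
  refine ENNReal.tendsto_sum_nat_add (tail Λ ht) ?_
  rw [← sum_tail Λ ht hΛ]; exact hE

lemma geom_le {u : ℝ≥0∞} (hu1 : u ≤ 1) (J : ℕ) :
    ∑ j ∈ Finset.range J, (1 - u) ^ j ≤ u⁻¹ := by
  refine (ENNReal.sum_le_tsum _).trans ?_
  rw [ENNReal.tsum_geometric]
  have : 1 - (1 - u) = u := ENNReal.sub_sub_cancel ENNReal.one_ne_top hu1
  rw [this]

variable [AddCommGroup G]

open Classical in
/-- quantile facts for the attempt law, in list form -/
lemma quant (Λ : B → ℝ≥0∞) (ht : B → ℕ) (z : B → G) (h1 : ∀ b, 1 ≤ ht b) (hΛ : ∑' b, Λ b = 1)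
    (T : ℕ) {u : ℝ≥0∞} (hu0 : u ≠ 0) (hu1 : u ≤ 1) :
    ∃ th : ℝ≥0∞, th ≠ 0 ∧ th ≤ 1 ∧
      (∑' V, (if FP ht V T ∧ pp Λ ht z T (HT ht V) (Dp z V) < th then LW Λ V else 0) ≤ u) ∧
      (∀ i0, ∑' V, (if FP ht V T ∧ HT ht V ≤ T + i0 ∧ th < pp Λ ht z T (HT ht V) (Dp z V)
        then LW Λ V else 0) ≤ 1 - u) := by
  have hm := pp_mass Λ ht z h1 hΛ T
  obtain ⟨th, h0, h01, h2, h3⟩ := Dens903.quantile (fun c : ℕ × G => pp Λ ht z T c.1 c.2) hm hu0 hu1
  refine ⟨th, h0, h01, ?_, fun i0 => ?_⟩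
  · refine le_trans (le_of_eq ?_) h2
    have := tsum_fiber (fun V : List B => if FP ht V T then LW Λ V else 0)
      (fun V => (HT ht V, Dp z V)) (fun c => if pp Λ ht z T c.1 c.2 < th then 1 else 0)
    calc _ = ∑' v, (if FP ht v T then LW Λ v else 0) *
          (fun c : ℕ × G => if pp Λ ht z T c.1 c.2 < th then (1 : ℝ≥0∞) else 0) (HT ht v, Dp z v) := by
          refine tsum_congr fun V => ?_
          simp only
          by_cases hF : FP ht V T
          · by_cases hp : pp Λ ht z T (HT ht V) (Dp z V) < th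
            · rw [if_pos ⟨hF, hp⟩, if_pos hF, if_pos hp, mul_one]
            · rw [if_neg (fun h => hp h.2), if_neg hp, mul_zero]
          · rw [if_neg (fun h => hF h.1), if_neg hF, zero_mul]
      _ = _ := this
      _ = _ := by
          refine tsum_congr fun c => ?_
          by_cases hp : pp Λ ht z T c.1 c.2 < th
          · rw [if_pos hp, if_pos hp, mul_one]; rfl
          · rw [if_neg hp, if_neg hp, mul_zero]
  · have e : ∑' V, (if FP ht V T ∧ HT ht V ≤ T + i0 ∧ th < pp Λ ht z T (HT ht V) (Dp z V)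
        then LW Λ V else 0) ≤ ∑' c : ℕ × G, (if th < pp Λ ht z T c.1 c.2 then
          pp Λ ht z T c.1 c.2 else 0) := by
      have := tsum_fiber (fun V : List B => if FP ht V T then LW Λ V else 0)
        (fun V => (HT ht V, Dp z V)) (fun c => if th < pp Λ ht z T c.1 c.2 then 1 else 0)
      calc _ ≤ ∑' v, (if FP ht v T then LW Λ v else 0) *
          (fun c : ℕ × G => if th < pp Λ ht z T c.1 c.2 then (1 : ℝ≥0∞) else 0) (HT ht v, Dp z v) := by
            refine ENNReal.tsum_le_tsum fun V => ?_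
            by_cases hc : FP ht V T ∧ HT ht V ≤ T + i0 ∧ th < pp Λ ht z T (HT ht V) (Dp z V)
            · simp only
              rw [if_pos hc, if_pos hc.1, if_pos hc.2.2, mul_one]
            · rw [if_neg hc]; exact zero_le
        _ = _ := this
        _ = _ := by
            refine tsum_congr fun c => ?_
            by_cases hp : th < pp Λ ht z T c.1 c.2
            · rw [if_pos hp, if_pos hp, mul_one]; rfl
            · rw [if_neg hp, if_neg hp, mul_zero]
    refine e.trans ?_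
    have hs : (∑' c : ℕ × G, (if th < pp Λ ht z T c.1 c.2 then pp Λ ht z T c.1 c.2 else 0))
        + ∑' c : ℕ × G, (if pp Λ ht z T c.1 c.2 ≤ th then pp Λ ht z T c.1 c.2 else 0) = 1 := by
      rw [← ENNReal.tsum_add, ← hm]
      refine tsum_congr fun c => ?_
      by_cases hp : th < pp Λ ht z T c.1 c.2
      · rw [if_pos hp, if_neg (not_le.2 hp), add_zero]
      · rw [if_neg hp, if_pos (not_lt.1 hp), zero_add]
    refine ENNReal.le_sub_of_add_le_right (ne_top_of_le_ne_top ENNReal.one_ne_top hu1) ?_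
    rw [← hs]
    exact add_le_add le_rfl h3

open Classical in
/-- the set of local displacements at a given height -/
lemma locset (Λ : B → ℝ≥0∞) (ht : B → ℕ) (z : B → G) (h1 : ∀ b, 1 ≤ ht b) (hΛ : ∑' b, Λ b = 1)
    (T h : ℕ) {th : ℝ≥0∞} (hth : th ≠ 0) :
    ∃ E : Finset G, (∀ x, th ≤ pp Λ ht z T h x → x ∈ E) ∧ th * E.card ≤ 1 := by
  have hle : ∑' x : G, pp Λ ht z T h x ≤ 1 := by
    rw [← pp_mass Λ ht z h1 hΛ T]
    exact ENNReal.tsum_comp_le_tsum_of_injective (f := fun x : G => (h, x))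
      (fun x y hxy => congrArg Prod.snd hxy) (fun c : ℕ × G => pp Λ ht z T c.1 c.2)
  have hfin : {x : G | th ≤ pp Λ ht z T h x}.Finite :=
    ENNReal.finite_const_le_of_tsum_ne_top (ne_top_of_le_ne_top ENNReal.one_ne_top hle) hth
  refine ⟨hfin.toFinset, fun x hx => by simpa using hx, ?_⟩
  calc th * (hfin.toFinset.card : ℝ≥0∞) = ∑ _x ∈ hfin.toFinset, th := by
        rw [Finset.sum_const, nsmul_eq_mul, mul_comm]
    _ ≤ ∑ x ∈ hfin.toFinset, pp Λ ht z T h x :=
        Finset.sum_le_sum fun x hx => by simpa using hx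
    _ ≤ ∑' x, pp Λ ht z T h x := ENNReal.sum_le_tsum _
    _ ≤ 1 := hle

/-- good three-piece splitting -/
def Gd (ht : B → ℕ) (a T i0 : ℕ) (L : List B) : Prop :=
  ∃ A P R, L = A ++ (P ++ R) ∧ FP ht A a ∧ FP ht P T ∧ HT ht A ≤ a + i0 ∧ HT ht P ≤ T + i0

open Classical in
lemma bad3 (Λ : B → ℝ≥0∞) (ht : B → ℕ) (h1 : ∀ b, 1 ≤ ht b) (hΛ : ∑' b, Λ b = 1)
    (hU1 : ∀ n, U Λ ht n ≤ 1) (a T i0 n : ℕ) (hn : a + i0 + T ≤ n) :
    ∑' L, (if HT ht L = n ∧ ¬ Gd ht a T i0 L then LW Λ L else 0) ≤ 2 * ov Λ ht i0 := by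
  set F1 : List B → ℝ≥0∞ := fun L => if HT ht L = n ∧ ∃ A R, L = A ++ R ∧ FP ht A a ∧
    a + i0 < HT ht A then LW Λ L else 0 with hF1
  set F2 : List B → ℝ≥0∞ := fun L => if HT ht L = n ∧ ∃ A P R, L = A ++ (P ++ R) ∧ FP ht A a ∧
    FP ht P T ∧ T + i0 < HT ht P then LW Λ L else 0 with hF2
  have s0 : ∑' L, (if HT ht L = n ∧ ¬ Gd ht a T i0 L then LW Λ L else 0)
      ≤ ∑' L, F1 L + ∑' L, F2 L := by
    rw [← ENNReal.tsum_add]
    refine ENNReal.tsum_le_tsum fun L => ?_
    by_cases hc : HT ht L = n ∧ ¬ Gd ht a T i0 L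
    · rw [if_pos hc]
      obtain ⟨A, R1, e, hA⟩ := exists_FP ht L a (by omega)
      by_cases hAi : a + i0 < HT ht A
      · refine le_trans (le_of_eq ?_) le_self_add
        simp only [hF1]
        rw [if_pos ⟨hc.1, A, R1, e, hA, hAi⟩]
      · have hn2 := hc.1
        rw [e, HT_append] at hn2
        obtain ⟨P, R, e2, hP⟩ := exists_FP ht R1 T (by omega)
        have hPi : T + i0 < HT ht P := by
          by_contra h3
          exact hc.2 ⟨A, P, R, by rw [e, e2], hA, hP, by omega, by omega⟩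
        refine le_trans (le_of_eq ?_) le_add_self
        simp only [hF2]
        rw [if_pos ⟨hc.1, A, P, R, by rw [e, e2], hA, hP, hPi⟩]
    · rw [if_neg hc]; exact zero_le
  have b1 : ∑' L, F1 L ≤ ov Λ ht i0 := by
    refine (tsum_le_cover F1 (fun c : List B × List B => (if FP ht c.1 a ∧ a + i0 < HT ht c.1
      then LW Λ c.1 else 0) * (if HT ht c.2 = n - HT ht c.1 then LW Λ c.2 else 0))
      (fun c => c.1 ++ c.2) ?_).trans ?_
    · intro L hL
      by_cases hc : HT ht L = n ∧ ∃ A R, L = A ++ R ∧ FP ht A a ∧ a + i0 < HT ht A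
      · obtain ⟨hn2, A, R, e, hA, hAi⟩ := hc
        refine ⟨(A, R), e.symm, ?_⟩
        simp only [hF1]
        rw [if_pos ⟨hn2, A, R, e, hA, hAi⟩, if_pos ⟨hA, hAi⟩, if_pos (by
          rw [e, HT_append] at hn2; omega), e, LW_append]
      · exact absurd (if_neg hc) hL
    · rw [ENNReal.tsum_prod']
      simp only
      calc _ ≤ ∑' A, (if FP ht A a ∧ a + i0 < HT ht A then LW Λ A else 0) := by
            refine ENNReal.tsum_le_tsum fun A => ?_
            rw [ENNReal.tsum_mul_left]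
            calc _ ≤ (if FP ht A a ∧ a + i0 < HT ht A then LW Λ A else 0) * 1 :=
                  mul_le_mul_right (hU1 _) _
              _ = _ := mul_one _
        _ ≤ _ := over_le Λ ht hU1 a i0
  have b2 : ∑' L, F2 L ≤ ov Λ ht i0 := by
    refine (tsum_le_cover F2 (fun c : List B × List B × List B => (if FP ht c.1 a
      then LW Λ c.1 else 0) * ((if FP ht c.2.1 T ∧ T + i0 < HT ht c.2.1 then LW Λ c.2.1 else 0) *
      (if HT ht c.2.2 = n - HT ht c.1 - HT ht c.2.1 then LW Λ c.2.2 else 0)))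
      (fun c => c.1 ++ (c.2.1 ++ c.2.2)) ?_).trans ?_
    · intro L hL
      by_cases hc : HT ht L = n ∧ ∃ A P R, L = A ++ (P ++ R) ∧ FP ht A a ∧
        FP ht P T ∧ T + i0 < HT ht P
      · obtain ⟨hn2, A, P, R, e, hA, hP, hPi⟩ := hc
        refine ⟨(A, P, R), e.symm, ?_⟩
        simp only [hF2]
        rw [if_pos ⟨hn2, A, P, R, e, hA, hP, hPi⟩, if_pos hA, if_pos ⟨hP, hPi⟩, if_pos (by
          rw [e, HT_append, HT_append] at hn2; omega), e, LW_append, LW_append]
      · exact absurd (if_neg hc) hL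
    · rw [ENNReal.tsum_prod']
      simp_rw [ENNReal.tsum_prod']
      calc _ ≤ ∑' A, (if FP ht A a then LW Λ A else 0) * ov Λ ht i0 := by
            refine ENNReal.tsum_le_tsum fun A => ?_
            simp_rw [ENNReal.tsum_mul_left]
            refine mul_le_mul_right ?_ _
            calc _ ≤ ∑' P, (if FP ht P T ∧ T + i0 < HT ht P then LW Λ P else 0) := by
                  refine ENNReal.tsum_le_tsum fun P => ?_
                  calc _ ≤ (if FP ht P T ∧ T + i0 < HT ht P then LW Λ P else 0) * 1 :=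
                        mul_le_mul_right (hU1 _) _
                    _ = _ := mul_one _
              _ ≤ _ := over_le Λ ht hU1 T i0
        _ = _ := by rw [ENNReal.tsum_mul_right, FP_mass Λ ht h1 hΛ, one_mul]
  calc _ ≤ ov Λ ht i0 + ov Λ ht i0 := s0.trans (add_le_add b1 b2)
    _ = _ := by ring

end Crest.Agent.R154.Asm309
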