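import Crest.Agent.R154.Smooth_178

/-! Row 154 (T0219, road 801), helper325: abstract assembly, part B: sites of a hung list, the
splitting of a list at two first passages. -/

set_option autoImplicit false

namespace Crest.Agent.R154.Asm325

open scoped ENNReal Classical
open Crest.Agent.R154.B5A Crest.Agent.R154.FP178

variable {B G : Type*} [AddCommGroup G]

/-- (position, depth) read by a list hung at `x`, depth `a` -/
def TS (h : B → ℕ) (z : B → G) (s : B → Set (G × ℕ)) : List B → G → ℕ → Set (G × ℕ)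
  | [], _, _ => ∅
  | b :: L, x, a => {p | ∃ q ∈ s b, p = (x + q.1, a + q.2)} ∪ TS h z s L (x + z b) (a + h b)

variable (Λ : B → ℝ≥0∞) (h : B → ℕ) (z : B → G) (s : B → Set (G × ℕ))

lemma TS_append (L L' : List B) (x : G) (a : ℕ) :
    TS h z s (L ++ L') x a = TS h z s L x a ∪ TS h z s L' (x + dL z L) (a + HT h L) := by
  induction L generalizing x a with
  | nil => simp [TS, dL, HT]
  | cons b L ih =>
    simp only [List.cons_append, TS, ih, dL_cons, HT_cons, Set.union_assoc, add_assoc]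

lemma TS_depth (hs : ∀ b, ∀ q ∈ s b, 1 ≤ q.2 ∧ q.2 ≤ h b) (L : List B) (x : G) (a : ℕ)
    (p : G × ℕ) (hp : p ∈ TS h z s L x a) : a < p.2 ∧ p.2 ≤ a + HT h L := by
  induction L generalizing x a with
  | nil => simp [TS] at hp
  | cons b L ih =>
    rw [HT_cons]
    rcases hp with ⟨q, hq, rfl⟩ | hp
    · have := hs b q hq
      simp only
      omega
    · have := ih _ _ hp
      omega

lemma TS_shift (L : List B) (x y : G) (a : ℕ) (p : G × ℕ) :
    p ∈ TS h z s L (x + y) a ↔ (p.1 - y, p.2) ∈ TS h z s L x a := by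
  induction L generalizing x a with
  | nil => simp [TS]
  | cons b L ih =>
    simp only [TS, Set.mem_union, Set.mem_ofPred_eq]
    rw [show x + y + z b = (x + z b) + y by abel, ih]
    refine or_congr ?_ Iff.rfl
    constructor
    · rintro ⟨q, hq, rfl⟩
      exact ⟨q, hq, by simp only [Prod.mk.injEq, and_true]; abel⟩
    · rintro ⟨q, hq, he⟩
      refine ⟨q, hq, ?_⟩
      rw [Prod.ext_iff] at he ⊢
      refine ⟨?_, he.2⟩
      have := he.1
      simp only at this ⊢
      rw [sub_eq_iff_eq_add] at this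
      rw [this]; abel

/-- total mass of the first passage -/
lemma fp_one (h1 : ∀ b, 1 ≤ h b) (hΛ : ∑' b, Λ b = 1) (T : ℕ) :
    ∑' A : List B, (if fp h T A then LW Λ A else 0) = 1 := by
  induction T using Nat.strong_induction_on with
  | _ T ih =>
    rcases Nat.eq_zero_or_pos T with rfl | hT
    · have := sum_fp_zero Λ h (fun _ => 1)
      simpa using this
    · have := sum_fp_step Λ h T hT (fun _ => 1)
      simp only [mul_one] at this
      rw [this]
      calc _ = ∑' b, Λ b * 1 := by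
            refine tsum_congr fun b => ?_
            rw [ih (T - h b) (by have := h1 b; omega)]
        _ = 1 := by simpa using hΛ

/-- weight of a first passage without large overshoot -/
noncomputable def wt (T i0 : ℕ) (A : List B) : ℝ≥0∞ :=
  if fp h T A ∧ HT h A ≤ T + i0 then LW Λ A else 0

lemma wt_le (T i0 : ℕ) (A : List B) : wt Λ h T i0 A ≤ if fp h T A then LW Λ A else 0 := by
  unfold wt
  by_cases h1 : fp h T A
  · by_cases h2 : HT h A ≤ T + i0
    · simp [h1, h2]
    · simp [h1, h2]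
  · simp [h1]

lemma sum_wt_le (h1 : ∀ b, 1 ≤ h b) (hΛ : ∑' b, Λ b = 1) (T i0 : ℕ) :
    ∑' A, wt Λ h T i0 A ≤ 1 :=
  (ENNReal.tsum_le_tsum fun A => wt_le Λ h T i0 A).trans (fp_one Λ h h1 hΛ T).le

lemma U_le (hU1 : ∀ n, U Λ h n ≤ 1) (n : ℕ) (c : ℝ≥0∞) (f : List B → ℝ≥0∞) (hf : ∀ L, f L ≤ c) :
    ∑' L, (if HT h L = n then LW Λ L * f L else 0) ≤ c := by
  calc _ ≤ ∑' L, (if HT h L = n then LW Λ L else 0) * c := by
        refine ENNReal.tsum_le_tsum fun L => ?_
        by_cases hL : HT h L = n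
        · simp only [if_pos hL]; exact mul_le_mul_right (hf L) _
        · simp [hL]
    _ = U Λ h n * c := by rw [ENNReal.tsum_mul_right, U]
    _ ≤ 1 * c := mul_le_mul_left (hU1 n) _
    _ = c := one_mul _

lemma step1 (h1 : ∀ b, 1 ≤ h b) (hU1 : ∀ n, U Λ h n ≤ 1) (T i0 n : ℕ) (hn : T ≤ n)
    (e : ℝ≥0∞) (hov : ∑' A, (if fp h T A ∧ T + i0 < HT h A then LW Λ A else 0) ≤ e)
    (φ : List B → ℝ≥0∞) (hφ : ∀ L, φ L ≤ 1) :
    ∑' L, (if HT h L = n then LW Λ L * φ L else 0) ≤ e + ∑' A, wt Λ h T i0 A *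
      ∑' R, (if HT h R = n - HT h A then LW Λ R * φ (A ++ R) else 0) := by
  have e1 : ∑' L, (if HT h L = n then LW Λ L * φ L else 0)
      = ∑' L, (if T ≤ HT h L then LW Λ L * (if HT h L = n then φ L else 0) else 0) := by
    refine tsum_congr fun L => ?_
    by_cases hL : HT h L = n
    · rw [if_pos hL, if_pos (by omega), if_pos hL]
    · rw [if_neg hL]
      split_ifs <;> simp
  rw [e1, split Λ h h1]
  have e2 : ∀ A : List B, ∑' L2, LW Λ L2 * (if HT h (A ++ L2) = n then φ (A ++ L2) else 0)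
      ≤ ∑' R, (if HT h R = n - HT h A then LW Λ R * φ (A ++ R) else 0) := by
    intro A
    refine ENNReal.tsum_le_tsum fun R => ?_
    by_cases hL : HT h (A ++ R) = n
    · rw [if_pos hL]
      rw [HT_append] at hL
      rw [if_pos (by omega)]
    · rw [if_neg hL]; simp
  have e3 : ∀ A : List B, ∑' R, (if HT h R = n - HT h A then LW Λ R * φ (A ++ R) else 0) ≤ 1 :=
    fun A => U_le Λ h hU1 _ 1 _ fun R => hφ _
  calc _ ≤ ∑' A, ((if fp h T A ∧ T + i0 < HT h A then LW Λ A else 0) + wt Λ h T i0 A *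
      ∑' R, (if HT h R = n - HT h A then LW Λ R * φ (A ++ R) else 0)) := by
        refine ENNReal.tsum_le_tsum fun A => ?_
        by_cases hA : fp h T A
        · rw [if_pos hA]
          by_cases hB : HT h A ≤ T + i0
          · rw [if_neg (by omega), zero_add, wt, if_pos ⟨hA, hB⟩]
            exact mul_le_mul_right (e2 A) _
          · rw [if_pos ⟨hA, by omega⟩]
            calc _ ≤ LW Λ A * 1 := mul_le_mul_right ((e2 A).trans (e3 A)) _
              _ = LW Λ A := mul_one _
              _ ≤ _ := le_self_add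
        · rw [if_neg hA]; exact bot_le
    _ ≤ _ := by
        rw [ENNReal.tsum_add]
        exact add_le_add hov le_rfl

lemma triple (h1 : ∀ b, 1 ≤ h b) (hΛ : ∑' b, Λ b = 1) (hU1 : ∀ n, U Λ h n ≤ 1)
    (T S i0 n : ℕ) (hn : T + i0 + S + i0 ≤ n)
    (e : ℝ≥0∞) (hov : ∀ T, ∑' A, (if fp h T A ∧ T + i0 < HT h A then LW Λ A else 0) ≤ e)
    (φ : List B → ℝ≥0∞) (hφ : ∀ L, φ L ≤ 1) (Ψ : List B → List B → ℝ≥0∞)
    (hΨ : ∀ A P R, fp h T A → HT h A ≤ T + i0 → fp h S P → HT h P ≤ S + i0 →
      HT h (A ++ (P ++ R)) = n → φ (A ++ (P ++ R)) ≤ Ψ A P) :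
    ∑' L, (if HT h L = n then LW Λ L * φ L else 0) ≤ e + e +
      ∑' A, wt Λ h T i0 A * ∑' P, wt Λ h S i0 P * Ψ A P := by
  refine (step1 Λ h h1 hU1 T i0 n (by omega) e (hov T) φ hφ).trans ?_
  rw [add_assoc]
  refine add_le_add le_rfl ?_
  have key : ∀ A, fp h T A → HT h A ≤ T + i0 →
      ∑' R, (if HT h R = n - HT h A then LW Λ R * φ (A ++ R) else 0)
        ≤ e + ∑' P, wt Λ h S i0 P * Ψ A P := by
    intro A hA hA'
    refine (step1 Λ h h1 hU1 S i0 (n - HT h A) (by omega) e (hov S) (fun R => φ (A ++ R))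
      (fun R => hφ _)).trans ?_
    refine add_le_add le_rfl (ENNReal.tsum_le_tsum fun P => ?_)
    by_cases hP : fp h S P ∧ HT h P ≤ S + i0
    · refine mul_le_mul_right ?_ _
      have : ∀ R, (if HT h R = n - HT h A - HT h P then LW Λ R * φ (A ++ (P ++ R)) else 0)
          ≤ (if HT h R = n - HT h A - HT h P then LW Λ R * Ψ A P else 0) := by
        intro R
        by_cases hR : HT h R = n - HT h A - HT h P
        · rw [if_pos hR, if_pos hR]
          refine mul_le_mul_right (hΨ A P R hA hA' hP.1 hP.2 ?_) _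
          rw [HT_append, HT_append]
          omega
        · rw [if_neg hR, if_neg hR]
      refine (ENNReal.tsum_le_tsum this).trans ?_
      exact U_le Λ h hU1 _ (Ψ A P) (fun _ => Ψ A P) fun _ => le_rfl
    · rw [wt, if_neg hP, zero_mul, zero_mul]
  calc _ ≤ ∑' A, (wt Λ h T i0 A * e + wt Λ h T i0 A * ∑' P, wt Λ h S i0 P * Ψ A P) := by
        refine ENNReal.tsum_le_tsum fun A => ?_
        by_cases hA : fp h T A ∧ HT h A ≤ T + i0
        · rw [← mul_add]
          exact mul_le_mul_right (key A hA.1 hA.2) _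
        · rw [wt, if_neg hA]; simp
    _ = (∑' A, wt Λ h T i0 A) * e + _ := by rw [ENNReal.tsum_add, ENNReal.tsum_mul_right]
    _ ≤ 1 * e + _ := by
        refine add_le_add (mul_le_mul_left (sum_wt_le Λ h h1 hΛ T i0) _) le_rfl
    _ = _ := by rw [one_mul]

end Crest.Agent.R154.Asm325
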