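import Crest.Agent.R154.AsmA_329

/-! Row 154 (helper329), ROAD 801: the window step on lists. -/

set_option autoImplicit false

namespace Crest.Agent.R154.Asm329

open Crest.Agent.R154.B5A
open scoped ENNReal

section one

variable {B G : Type*} [AddCommGroup G]

/-- used (position, depth) pairs of a list hung at `x`, depth `a` -/
def TX (h : B → ℕ) (z : B → G) (s : B → Set (G × ℕ)) : List B → G → ℕ → Set (G × ℕ)
  | [], _, _ => ∅
  | b :: L, x, a => {q | ∃ p ∈ s b, q = (x + p.1, a + p.2)} ∪ TX h z s L (x + z b) (a + h b)

lemma TX_append (h : B → ℕ) (z : B → G) (s : B → Set (G × ℕ)) (L L' : List B) (x : G) (a : ℕ) :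
    TX h z s (L ++ L') x a = TX h z s L x a ∪ TX h z s L' (x + Dp z L) (a + HT h L) := by
  induction L generalizing x a with
  | nil => simp [TX, Dp_nil, HT_nil]
  | cons b L ih =>
    simp only [List.cons_append, TX]
    rw [ih, Dp_cons, HT_cons, Set.union_assoc, add_assoc, add_assoc]

lemma TX_depth (h : B → ℕ) (z : B → G) (s : B → Set (G × ℕ))
    (hs : ∀ b, ∀ p ∈ s b, 1 ≤ p.2 ∧ p.2 ≤ h b) (L : List B) (x : G) (a : ℕ) (q : G × ℕ)
    (hq : q ∈ TX h z s L x a) : a < q.2 ∧ q.2 ≤ a + HT h L := by
  induction L generalizing x a with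
  | nil => exact absurd hq (by simp [TX])
  | cons b L ih =>
    rw [HT_cons]
    rcases hq with ⟨p, hp, rfl⟩ | hq
    · have := hs b p hp
      simp only
      omega
    · have := ih _ _ hq
      omega

lemma TX_shift (h : B → ℕ) (z : B → G) (s : B → Set (G × ℕ)) (L : List B) (x v : G) (a : ℕ)
    (q : G × ℕ) : q ∈ TX h z s L (x + v) a ↔ (q.1 - v, q.2) ∈ TX h z s L x a := by
  induction L generalizing x a with
  | nil => simp [TX]
  | cons b L ih =>
    simp only [TX, Set.mem_union, Set.mem_setOf_eq]
    refine or_congr ⟨?_, ?_⟩ ?_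
    · rintro ⟨p, hp, rfl⟩
      exact ⟨p, hp, by simp only [Prod.mk.injEq, and_true]; abel⟩
    · rintro ⟨p, hp, e⟩
      refine ⟨p, hp, ?_⟩
      rw [Prod.mk.injEq] at e
      refine Prod.ext ?_ e.2
      have := e.1
      simp only
      rw [sub_eq_iff_eq_add] at this
      rw [this]; abel
    · rw [show x + v + z b = x + z b + v by abel]
      exact ih _ _

open Classical in
/-- split of one walker: top part, piece, rest -/
lemma split1 (Λ : B → ℝ≥0∞) (h : B → ℕ) (h1 : ∀ b, 1 ≤ h b) (hΛ : ∑' b, Λ b ≤ 1)
    (a0 S i0 n : ℕ) (hn : a0 + i0 + S ≤ n) (F : List B → ℝ≥0∞) (hF1 : ∀ L, F L ≤ 1)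
    (Fb : List B → List B → ℝ≥0∞)
    (hF : ∀ A P R, FP h a0 A → HT h A ≤ a0 + i0 → FP h S P → HT h P ≤ S + i0 →
      F (A ++ (P ++ R)) ≤ Fb A P) :
    ∑' L, (if HT h L = n then LW Λ L * F L else 0) ≤ ov Λ h a0 i0 + (ov Λ h S i0
      + ∑' A, ∑' P, (if (FP h a0 A ∧ HT h A ≤ a0 + i0) ∧ (FP h S P ∧ HT h P ≤ S + i0) then
        LW Λ A * (LW Λ P * Fb A P) else 0)) := by
  -- inner bound
  have inner : ∀ A, FP h a0 A → HT h A ≤ a0 + i0 →
      ∑' R, (if HT h A + HT h R = n then LW Λ R * F (A ++ R) else 0) ≤ ov Λ h S i0
        + ∑' P, (if FP h S P ∧ HT h P ≤ S + i0 then LW Λ P * Fb A P else 0) := by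
    intro A hA hA'
    calc ∑' R, (if HT h A + HT h R = n then LW Λ R * F (A ++ R) else 0)
        = ∑' R, (if S ≤ HT h R then (if HT h A + HT h R = n then LW Λ R * F (A ++ R) else 0)
          else 0) := by
          refine tsum_congr fun R => ?_
          by_cases hR : HT h A + HT h R = n
          · rw [if_pos hR, if_pos (by omega)]
          · simp [hR]
      _ ≤ ∑' P, ∑' R, (if FP h S P then (if HT h A + HT h (P ++ R) = n then
            LW Λ (P ++ R) * F (A ++ (P ++ R)) else 0) else 0) := fp_split h S _
      _ ≤ ∑' P, ((if FP h S P ∧ S + i0 < HT h P then LW Λ P else 0)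
          + (if FP h S P ∧ HT h P ≤ S + i0 then LW Λ P * Fb A P else 0)) := by
          refine ENNReal.tsum_le_tsum fun P => ?_
          by_cases hP : FP h S P
          · by_cases hP' : HT h P ≤ S + i0
            · rw [if_neg (fun hh => by have := hh.2; omega), if_pos ⟨hP, hP'⟩, zero_add]
              calc _ ≤ ∑' R, (LW Λ P * Fb A P) * (if HT h R = n - HT h A - HT h P then LW Λ R
                    else 0) := by
                    refine ENNReal.tsum_le_tsum fun R => ?_
                    rw [if_pos hP]
                    by_cases hR : HT h A + HT h (P ++ R) = n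
                    · rw [if_pos hR, if_pos (by rw [HT_append] at hR; omega), LW_append]
                      calc LW Λ P * LW Λ R * F (A ++ (P ++ R)) ≤ LW Λ P * LW Λ R * Fb A P := by
                            gcongr; exact hF A P R hA hA' hP hP'
                        _ = _ := by ring
                    · rw [if_neg hR]; exact zero_le
                _ = (LW Λ P * Fb A P) * ∑' R, (if HT h R = n - HT h A - HT h P then LW Λ R
                    else 0) := ENNReal.tsum_mul_left
                _ ≤ (LW Λ P * Fb A P) * 1 := by gcongr; exact u_le Λ h h1 hΛ _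
                _ = _ := mul_one _
            · rw [if_pos ⟨hP, by omega⟩, if_neg (fun hh => hP' hh.2), add_zero]
              calc _ ≤ ∑' R, LW Λ P * (if HT h R = n - HT h A - HT h P then LW Λ R else 0) := by
                    refine ENNReal.tsum_le_tsum fun R => ?_
                    rw [if_pos hP]
                    by_cases hR : HT h A + HT h (P ++ R) = n
                    · rw [if_pos hR, if_pos (by rw [HT_append] at hR; omega), LW_append]
                      calc LW Λ P * LW Λ R * F (A ++ (P ++ R)) ≤ LW Λ P * LW Λ R * 1 := by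
                            gcongr; exact hF1 _
                        _ = _ := mul_one _
                    · rw [if_neg hR]; exact zero_le
                _ = LW Λ P * ∑' R, (if HT h R = n - HT h A - HT h P then LW Λ R else 0) :=
                    ENNReal.tsum_mul_left
                _ ≤ LW Λ P * 1 := by gcongr; exact u_le Λ h h1 hΛ _
                _ = _ := mul_one _
          · simp [hP]
      _ = _ := by rw [ENNReal.tsum_add, ov]
  calc ∑' L, (if HT h L = n then LW Λ L * F L else 0)
      = ∑' L, (if a0 ≤ HT h L then (if HT h L = n then LW Λ L * F L else 0) else 0) := by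
        refine tsum_congr fun L => ?_
        by_cases hL : HT h L = n
        · rw [if_pos hL, if_pos (by omega)]
        · simp [hL]
    _ ≤ ∑' A, ∑' R, (if FP h a0 A then (if HT h (A ++ R) = n then
          LW Λ (A ++ R) * F (A ++ R) else 0) else 0) := fp_split h a0 _
    _ ≤ ∑' A, ((if FP h a0 A ∧ a0 + i0 < HT h A then LW Λ A else 0)
        + (if FP h a0 A ∧ HT h A ≤ a0 + i0 then LW Λ A * (ov Λ h S i0
          + ∑' P, (if FP h S P ∧ HT h P ≤ S + i0 then LW Λ P * Fb A P else 0)) else 0)) := by
        refine ENNReal.tsum_le_tsum fun A => ?_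
        by_cases hA : FP h a0 A
        · by_cases hA' : HT h A ≤ a0 + i0
          · rw [if_neg (fun hh => by have := hh.2; omega), if_pos ⟨hA, hA'⟩, zero_add]
            calc _ = LW Λ A * ∑' R, (if HT h A + HT h R = n then LW Λ R * F (A ++ R) else 0) := by
                  rw [← ENNReal.tsum_mul_left]
                  refine tsum_congr fun R => ?_
                  rw [if_pos hA, HT_append, LW_append]
                  split_ifs
                  · ring
                  · simp
              _ ≤ _ := by gcongr; exact inner A hA hA'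
          · rw [if_pos ⟨hA, by omega⟩, if_neg (fun hh => hA' hh.2), add_zero]
            calc _ ≤ ∑' R, LW Λ A * (if HT h R = n - HT h A then LW Λ R else 0) := by
                  refine ENNReal.tsum_le_tsum fun R => ?_
                  rw [if_pos hA]
                  by_cases hR : HT h (A ++ R) = n
                  · rw [if_pos hR, if_pos (by rw [HT_append] at hR; omega), LW_append]
                    calc LW Λ A * LW Λ R * F (A ++ R) ≤ LW Λ A * LW Λ R * 1 := by
                          gcongr; exact hF1 _
                      _ = _ := mul_one _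
                  · rw [if_neg hR]; exact zero_le
              _ = LW Λ A * ∑' R, (if HT h R = n - HT h A then LW Λ R else 0) :=
                  ENNReal.tsum_mul_left
              _ ≤ LW Λ A * 1 := by gcongr; exact u_le Λ h h1 hΛ _
              _ = _ := mul_one _
        · simp [hA]
    _ ≤ _ := by
        rw [ENNReal.tsum_add]
        refine add_le_add (le_of_eq (by rw [ov])) ?_
        calc _ ≤ ∑' A, ((if FP h a0 A then LW Λ A else 0) * ov Λ h S i0
              + ∑' P, (if (FP h a0 A ∧ HT h A ≤ a0 + i0) ∧ (FP h S P ∧ HT h P ≤ S + i0) then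
                LW Λ A * (LW Λ P * Fb A P) else 0)) := by
              refine ENNReal.tsum_le_tsum fun A => ?_
              by_cases hA : FP h a0 A ∧ HT h A ≤ a0 + i0
              · rw [if_pos hA, if_pos hA.1, mul_add, ← ENNReal.tsum_mul_left]
                refine add_le_add le_rfl (ENNReal.tsum_le_tsum fun P => ?_)
                by_cases hP : FP h S P ∧ HT h P ≤ S + i0
                · rw [if_pos hP, if_pos ⟨hA, hP⟩]
                · rw [if_neg hP, if_neg (fun hh => hP hh.2), mul_zero]
              · rw [if_neg hA]; exact zero_le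
          _ = (∑' A, (if FP h a0 A then LW Λ A else 0)) * ov Λ h S i0 + _ := by
              rw [ENNReal.tsum_add, ENNReal.tsum_mul_right]
          _ ≤ 1 * ov Λ h S i0 + _ := by
              gcongr
              exact fp_mass Λ h h1 hΛ a0
          _ = _ := by rw [one_mul]

/-- convolution -/
lemma conv (P Q Ψ : G → ℝ≥0∞) (e : G → G ≃ G) :
    ∑' a, ∑' b, P a * (Q b * Ψ (e a b)) = ∑' x, (∑' a, P a * Q ((e a).symm x)) * Ψ x := by
  calc ∑' a, ∑' b, P a * (Q b * Ψ (e a b))
      = ∑' a, ∑' x, P a * Q ((e a).symm x) * Ψ x := by
        refine tsum_congr fun a => ?_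
        rw [← (e a).symm.tsum_eq (fun b => P a * (Q b * Ψ (e a b)))]
        refine tsum_congr fun x => ?_
        simp only [Equiv.apply_symm_apply]
        ring
    _ = ∑' x, ∑' a, P a * Q ((e a).symm x) * Ψ x := ENNReal.tsum_comm
    _ = _ := tsum_congr fun x => ENNReal.tsum_mul_right

open Classical in
/-- the tie law: smooth part plus rough part -/
lemma mixb (i0 : ℕ) (lA lB g b : ℕ → G → ℝ≥0∞) (e : G → G ≃ G) (hA : ∑' i, ∑' x, lA i x ≤ 1)
    (hB : ∑' i, ∑' x, lB i x ≤ 1) (M β K : ℝ≥0∞) (hgb : ∀ i x, lB i x ≤ g i x + b i x)
    (hg : ∀ i x, g i x ≤ M) (hb : ∑' i, ∑' x, b i x ≤ β) (Ψ : ℕ → ℕ → G → ℝ≥0∞)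
    (hΨ : ∀ i i' x, Ψ i i' x ≤ 1)
    (hK : ∀ i, i ≤ i0 → ∀ i', i' ≤ i0 → ∀ μ : G → ℝ≥0∞, ∑' x, μ x ≤ 1 → (∀ x, μ x ≤ M) →
      ∑' x, μ x * Ψ i i' x ≤ K) :
    ∑' i, ∑' x, ∑' i', ∑' x', (if i ≤ i0 ∧ i' ≤ i0 then
      lA i x * (lB i' x' * Ψ i i' (e x x')) else 0) ≤ β + ((i0 + 1) * (i0 + 1)) * K := by
  set g2 : ℕ → G → ℝ≥0∞ := fun i x => min (lB i x) (g i x) with hg2
  have hle : ∀ i x, lB i x ≤ b i x + g2 i x := by
    intro i x
    rw [hg2]
    rcases le_total (lB i x) (g i x) with h | h
    · simp only [min_eq_left h]; exact le_add_self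
    · simp only [min_eq_right h]; rw [add_comm]; exact hgb i x
  calc _ ≤ ∑' i, ∑' x, ∑' i', ∑' x', (lA i x * b i' x' + (if i ≤ i0 ∧ i' ≤ i0 then
          lA i x * (g2 i' x' * Ψ i i' (e x x')) else 0)) := by
        refine ENNReal.tsum_le_tsum fun i => ENNReal.tsum_le_tsum fun x =>
          ENNReal.tsum_le_tsum fun i' => ENNReal.tsum_le_tsum fun x' => ?_
        split_ifs
        · calc lA i x * (lB i' x' * Ψ i i' (e x x'))
              ≤ lA i x * ((b i' x' + g2 i' x') * Ψ i i' (e x x')) := by
                gcongr; exact hle _ _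
            _ = lA i x * (b i' x' * Ψ i i' (e x x')) + lA i x * (g2 i' x' * Ψ i i' (e x x')) := by
                ring
            _ ≤ _ := by
                gcongr
                calc b i' x' * Ψ i i' (e x x') ≤ b i' x' * 1 := by gcongr; exact hΨ _ _ _
                  _ = _ := mul_one _
        · exact zero_le
    _ = (∑' i, ∑' x, ∑' i', ∑' x', lA i x * b i' x') + ∑' i, ∑' x, ∑' i', ∑' x',
          (if i ≤ i0 ∧ i' ≤ i0 then lA i x * (g2 i' x' * Ψ i i' (e x x')) else 0) := by
        simp_rw [ENNReal.tsum_add]
    _ ≤ β + ((i0 + 1) * (i0 + 1)) * K := by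
        refine add_le_add ?_ ?_
        · simp_rw [ENNReal.tsum_mul_left, ENNReal.tsum_mul_right]
          calc _ ≤ 1 * β := mul_le_mul' hA hb
            _ = β := one_mul _
        · calc _ = ∑' i, ∑' i', ∑' x, ∑' x', (if i ≤ i0 ∧ i' ≤ i0 then
                lA i x * (g2 i' x' * Ψ i i' (e x x')) else 0) :=
                tsum_congr fun i => ENNReal.tsum_comm
            _ ≤ ∑' i : ℕ, ∑' i' : ℕ, (if i ≤ i0 ∧ i' ≤ i0 then K else 0) := by
                refine ENNReal.tsum_le_tsum fun i => ENNReal.tsum_le_tsum fun i' => ?_
                by_cases hh : i ≤ i0 ∧ i' ≤ i0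
                · simp only [if_pos hh]
                  rw [conv (lA i) (g2 i') (Ψ i i') e]
                  have hAi : ∑' x, lA i x ≤ 1 :=
                    (ENNReal.le_tsum (f := fun i => ∑' x, lA i x) i).trans hA
                  refine hK i hh.1 i' hh.2 _ ?_ ?_
                  · calc ∑' x, ∑' a, lA i a * g2 i' ((e a).symm x)
                        = ∑' a, ∑' x, lA i a * g2 i' ((e a).symm x) := ENNReal.tsum_comm
                      _ = ∑' a, lA i a * ∑' x, g2 i' x := by
                        refine tsum_congr fun a => ?_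
                        rw [ENNReal.tsum_mul_left]
                        congr 1
                        exact (e a).symm.tsum_eq (fun y => g2 i' y)
                      _ = (∑' a, lA i a) * ∑' x, g2 i' x := ENNReal.tsum_mul_right
                      _ ≤ 1 * 1 := by
                        refine mul_le_mul' hAi ?_
                        calc ∑' x, g2 i' x ≤ ∑' x, lB i' x :=
                              ENNReal.tsum_le_tsum fun x => min_le_left _ _
                          _ ≤ 1 := (ENNReal.le_tsum (f := fun i => ∑' x, lB i x) i').trans hB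
                      _ = 1 := one_mul _
                  · intro x
                    calc ∑' a, lA i a * g2 i' ((e a).symm x) ≤ ∑' a, lA i a * M := by
                          refine ENNReal.tsum_le_tsum fun a => ?_
                          gcongr
                          exact (min_le_right _ _).trans (hg _ _)
                      _ = (∑' a, lA i a) * M := ENNReal.tsum_mul_right
                      _ ≤ 1 * M := by gcongr
                      _ = M := one_mul _
                · simp [if_neg hh]
            _ = ∑ i ∈ Finset.range (i0 + 1), ∑ i' ∈ Finset.range (i0 + 1), K := by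
                rw [tsum_eq_sum (s := Finset.range (i0 + 1))]
                · refine Finset.sum_congr rfl fun i hi => ?_
                  have hi' := Finset.mem_range.1 hi
                  rw [tsum_eq_sum (s := Finset.range (i0 + 1))]
                  · refine Finset.sum_congr rfl fun i' hi2 => if_pos ⟨by omega, by
                      have := Finset.mem_range.1 hi2; omega⟩
                  · intro i' hi2
                    rw [if_neg (fun hh => hi2 (Finset.mem_range.2 (by omega)))]
                · intro i hi
                  have : ∀ i' : ℕ, ¬ (i ≤ i0 ∧ i' ≤ i0) := fun i' hh =>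
                    hi (Finset.mem_range.2 (by omega))
                  simp [this]
            _ = _ := by
                simp only [Finset.sum_const, Finset.card_range, nsmul_eq_mul]
                push_cast
                ring

end one

end Crest.Agent.R154.Asm329
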