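import Crest.Agent.R154.AsmA_344

/-! Row 154, ROAD 801, abstract assembly, part B (helper344): expansion at two first passages; the
mixing of the top laws. -/

set_option autoImplicit false

namespace Crest.Agent.R154.Asm344

open scoped ENNReal
open Crest.Agent.R154.B5A
open Crest.Agent.R154.FP178

section expand

variable {B : Type*} (Λ : B → ℝ≥0∞) (ht : B → ℕ)

open Classical in
lemma cont_le_one (hU1 : ∀ n, U Λ ht n ≤ 1) (c n : ℕ) (F : List B → ℝ≥0∞) (hF : ∀ L, F L ≤ 1) :
    ∑' L, LW Λ L * (if c + HT ht L = n then F L else 0) ≤ 1 := by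
  refine le_trans (ENNReal.tsum_le_tsum fun L => ?_) (hU1 (n - c))
  by_cases h : c + HT ht L = n
  · rw [if_pos h, if_pos (by omega)]
    calc LW Λ L * F L ≤ LW Λ L * 1 := by gcongr; exact hF L
      _ = _ := mul_one _
  · rw [if_neg h, mul_zero]; exact zero_le

open Classical in
lemma expand1 (h1 : ∀ b, 1 ≤ ht b) (hU1 : ∀ n, U Λ ht n ≤ 1)
    (c s i0 n : ℕ) (hn : c + s ≤ n) (F : List B → ℝ≥0∞) (hF : ∀ L, F L ≤ 1)
    (F' : List B → ℝ≥0∞) (hF' : ∀ P, fp ht s P → HT ht P ≤ s + i0 →
      ∑' R, LW Λ R * (if c + HT ht (P ++ R) = n then F (P ++ R) else 0) ≤ F' P) :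
    ∑' L, LW Λ L * (if c + HT ht L = n then F L else 0) ≤ ov ht Λ i0 +
      ∑' P, (if fp ht s P ∧ HT ht P ≤ s + i0 then LW Λ P * F' P else 0) := by
  have e0 : ∑' L, LW Λ L * (if c + HT ht L = n then F L else 0)
      = ∑' P, (if fp ht s P then LW Λ P * ∑' R, LW Λ R *
        (if c + HT ht (P ++ R) = n then F (P ++ R) else 0) else 0) := by
    rw [← split Λ ht h1 s (fun L => if c + HT ht L = n then F L else 0)]
    refine tsum_congr fun L => ?_
    by_cases h : c + HT ht L = n
    · rw [if_pos (show s ≤ HT ht L by omega)]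
    · rw [if_neg h, mul_zero]; simp
  rw [e0]
  calc _ ≤ ∑' P, ((if fp ht s P ∧ s + i0 < HT ht P then LW Λ P else 0) +
        (if fp ht s P ∧ HT ht P ≤ s + i0 then LW Λ P * F' P else 0)) := by
        refine ENNReal.tsum_le_tsum fun P => ?_
        by_cases h : fp ht s P
        · by_cases h2 : HT ht P ≤ s + i0
          · rw [if_pos h, if_neg (by omega), if_pos ⟨h, h2⟩, zero_add]
            gcongr
            exact hF' P h h2
          · rw [if_pos h, if_pos ⟨h, by omega⟩, if_neg (fun hh => h2 hh.2), add_zero]
            calc _ ≤ LW Λ P * 1 := by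
                  gcongr
                  have := cont_le_one Λ ht hU1 (c + HT ht P) n (fun R => F (P ++ R))
                    (fun R => hF _)
                  simp only [HT_append]
                  simp only [add_assoc] at this
                  exact this
              _ = _ := mul_one _
        · rw [if_neg h]; exact zero_le
    _ = _ := ENNReal.tsum_add
    _ ≤ _ := add_le_add (overshoot Λ ht h1 hU1 i0 s) le_rfl

open Classical in
/-- expansion of a list of height `n` at two consecutive first passages -/
lemma expand (h1 : ∀ b, 1 ≤ ht b) (hΛ : ∑' b, Λ b ≤ 1) (hU1 : ∀ n, U Λ ht n ≤ 1)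
    (T s i0 n : ℕ) (hn : T + i0 + s ≤ n) (F : List B → ℝ≥0∞) (hF : ∀ L, F L ≤ 1)
    (F' : List B → List B → ℝ≥0∞)
    (hF' : ∀ A P R, fp ht T A → HT ht A ≤ T + i0 → fp ht s P → HT ht P ≤ s + i0 →
      F (A ++ (P ++ R)) ≤ F' A P) :
    ∑' L, (if HT ht L = n then LW Λ L * F L else 0) ≤ 2 * ov ht Λ i0 +
      ∑' A, (if fp ht T A ∧ HT ht A ≤ T + i0 then LW Λ A * ∑' P,
        (if fp ht s P ∧ HT ht P ≤ s + i0 then LW Λ P * F' A P else 0) else 0) := by
  have e0 : ∑' L, (if HT ht L = n then LW Λ L * F L else 0)
      = ∑' L, LW Λ L * (if 0 + HT ht L = n then F L else 0) := by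
    refine tsum_congr fun L => ?_
    rw [zero_add, mul_ite, mul_zero]
  rw [e0]
  have hstep := expand1 Λ ht h1 hU1 0 T i0 n (by omega) F hF
    (fun A => ov ht Λ i0 + ∑' P, (if fp ht s P ∧ HT ht P ≤ s + i0 then LW Λ P * F' A P else 0))
    (fun A hA hA' => by
      have := expand1 Λ ht h1 hU1 (HT ht A) s i0 n (by omega) (fun L => F (A ++ L))
        (fun L => hF _) (fun P => F' A P) (fun P hP hP' => by
          calc _ ≤ ∑' R, LW Λ R * (if (HT ht A + HT ht P) + HT ht R = n then F' A P else 0) := by
                refine ENNReal.tsum_le_tsum fun R => ?_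
                rw [HT_append, ← add_assoc]
                gcongr
                by_cases h : HT ht A + HT ht P + HT ht R = n
                · rw [if_pos h, if_pos h]
                  exact hF' A P R hA hA' hP hP'
                · rw [if_neg h, if_neg h]
            _ = (∑' R, LW Λ R * (if (HT ht A + HT ht P) + HT ht R = n then 1 else 0)) * F' A P := by
                rw [← ENNReal.tsum_mul_right]
                refine tsum_congr fun R => ?_
                split_ifs <;> simp
            _ ≤ 1 * F' A P := by
                gcongr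
                exact cont_le_one Λ ht hU1 _ n (fun _ => 1) (fun _ => le_rfl)
            _ = _ := one_mul _)
      refine le_trans (le_of_eq ?_) this
      refine tsum_congr fun R => ?_
      rw [HT_append, zero_add])
  refine hstep.trans ?_
  calc _ ≤ ov ht Λ i0 + ((∑' A, (if fp ht T A then LW Λ A else 0)) * ov ht Λ i0 +
        ∑' A, (if fp ht T A ∧ HT ht A ≤ T + i0 then LW Λ A * ∑' P,
        (if fp ht s P ∧ HT ht P ≤ s + i0 then LW Λ P * F' A P else 0) else 0)) := by
        gcongr
        rw [← ENNReal.tsum_mul_right, ← ENNReal.tsum_add]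
        refine ENNReal.tsum_le_tsum fun A => ?_
        by_cases h : fp ht T A ∧ HT ht A ≤ T + i0
        · rw [if_pos h, if_pos h, if_pos h.1, mul_add]
        · rw [if_neg h]; exact zero_le
    _ ≤ ov ht Λ i0 + (1 * ov ht Λ i0 +
        ∑' A, (if fp ht T A ∧ HT ht A ≤ T + i0 then LW Λ A * ∑' P,
        (if fp ht s P ∧ HT ht P ≤ s + i0 then LW Λ P * F' A P else 0) else 0)) := by
        gcongr
        exact sum_FP Λ ht h1 hΛ T
    _ = _ := by ring

end expand

section mix

variable {G : Type*}

/-- mixing of the two top laws: `f` has density `≤ D` up to a part of mass `β`. -/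
lemma mix (i0 : ℕ) (D β κ : ℝ≥0∞) (f b g : ℕ → G → ℝ≥0∞) (e : G → (G ≃ G))
    (Q : ℕ → ℕ → G → ℝ≥0∞)
    (hf : ∑' o, ∑' x, f o x ≤ 1) (hg : ∑' o, ∑' x, g o x ≤ 1) (hb : ∑' o, ∑' x, b o x ≤ β)
    (hfb : ∀ o x, f o x ≤ D + b o x) (hQ1 : ∀ o o' y, Q o o' y ≤ 1)
    (hQ0 : ∀ o o' y, ¬ (o ≤ i0 ∧ o' ≤ i0) → Q o o' y = 0)
    (hQ : ∀ o o', o ≤ i0 → o' ≤ i0 → ∀ μ : G → ℝ≥0∞, ∑' y, μ y ≤ 1 → (∀ y, μ y ≤ D) →
      ∑' y, μ y * Q o o' y ≤ κ) :
    ∑' o, ∑' x, f o x * ∑' o', ∑' x', g o' x' * Q o o' (e x' x)
      ≤ β + (i0 + 1 : ℕ) * ((i0 + 1 : ℕ) * κ) := by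
  set fg : ℕ → G → ℝ≥0∞ := fun o x => min (f o x) D with hfg
  have h1 : ∀ o x, f o x ≤ b o x + fg o x := by
    intro o x
    rcases le_total (f o x) D with h | h
    · rw [hfg]; simp only; rw [min_eq_left h]; exact le_add_self
    · rw [hfg]; simp only; rw [min_eq_right h, add_comm]; exact hfb o x
  have hg1 : ∀ o x, ∑' o', ∑' x', g o' x' * Q o o' (e x' x) ≤ 1 := by
    intro o x
    refine le_trans (ENNReal.tsum_le_tsum fun o' => ENNReal.tsum_le_tsum fun x' => ?_) hg
    calc g o' x' * Q o o' (e x' x) ≤ g o' x' * 1 := by gcongr; exact hQ1 _ _ _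
      _ = _ := mul_one _
  have hfg1 : ∀ o, ∑' x, fg o x ≤ 1 := fun o =>
    (ENNReal.tsum_le_tsum fun x => min_le_left _ _).trans ((ENNReal.le_tsum o).trans hf)
  calc ∑' o, ∑' x, f o x * ∑' o', ∑' x', g o' x' * Q o o' (e x' x)
      ≤ ∑' o, ∑' x, (b o x * 1 + fg o x * ∑' o', ∑' x', g o' x' * Q o o' (e x' x)) := by
        refine ENNReal.tsum_le_tsum fun o => ENNReal.tsum_le_tsum fun x => ?_
        calc _ ≤ (b o x + fg o x) * ∑' o', ∑' x', g o' x' * Q o o' (e x' x) := by
              gcongr; exact h1 o x
          _ = b o x * (∑' o', ∑' x', g o' x' * Q o o' (e x' x)) +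
              fg o x * ∑' o', ∑' x', g o' x' * Q o o' (e x' x) := add_mul _ _ _
          _ ≤ _ := by gcongr; exact hg1 o x
    _ = (∑' o, ∑' x, b o x) +
        ∑' o, ∑' x, fg o x * ∑' o', ∑' x', g o' x' * Q o o' (e x' x) := by
        simp_rw [ENNReal.tsum_add, mul_one]
    _ ≤ β + ∑' o, (if o ≤ i0 then (i0 + 1 : ℕ) * κ else 0) := by
        gcongr with o
        -- fixed `o`
        have e1 : ∑' x, fg o x * ∑' o', ∑' x', g o' x' * Q o o' (e x' x)
            = ∑' o', ∑' y, (∑' x', g o' x' * fg o ((e x').symm y)) * Q o o' y := by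
          calc ∑' x, fg o x * ∑' o', ∑' x', g o' x' * Q o o' (e x' x)
              = ∑' x, ∑' o', ∑' x', g o' x' * fg o x * Q o o' (e x' x) := by
                refine tsum_congr fun x => ?_
                rw [← ENNReal.tsum_mul_left]
                refine tsum_congr fun o' => ?_
                rw [← ENNReal.tsum_mul_left]
                refine tsum_congr fun x' => ?_
                ring
            _ = ∑' o', ∑' x', ∑' x, g o' x' * fg o x * Q o o' (e x' x) :=
                (swap3 (fun o' x' x => g o' x' * fg o x * Q o o' (e x' x))).symm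
            _ = ∑' o', ∑' x', ∑' y, g o' x' * fg o ((e x').symm y) * Q o o' y := by
                refine tsum_congr fun o' => tsum_congr fun x' => ?_
                rw [← (e x').tsum_eq (fun y => g o' x' * fg o ((e x').symm y) * Q o o' y)]
                refine tsum_congr fun x => ?_
                rw [Equiv.symm_apply_apply]
            _ = _ := by
                refine tsum_congr fun o' => ?_
                rw [ENNReal.tsum_comm]
                refine tsum_congr fun y => ?_
                rw [ENNReal.tsum_mul_right]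
        rw [e1]
        by_cases ho : o ≤ i0
        · rw [if_pos ho, tsum_eq_sum (s := Finset.range (i0 + 1))]
          · calc _ ≤ ∑ _o' ∈ Finset.range (i0 + 1), κ := by
                  refine Finset.sum_le_sum fun o' ho' => ?_
                  have ho'' : o' ≤ i0 := by have := Finset.mem_range.1 ho'; omega
                  refine hQ o o' ho ho'' _ ?_ ?_
                  · rw [ENNReal.tsum_comm]
                    simp_rw [ENNReal.tsum_mul_left]
                    calc ∑' x', g o' x' * ∑' y, fg o ((e x').symm y)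
                        ≤ ∑' x', g o' x' * 1 := by
                          gcongr with x'
                          rw [(e x').symm.tsum_eq (fun y => fg o y)]
                          exact hfg1 o
                      _ ≤ 1 := by
                          simp only [mul_one]
                          exact (ENNReal.le_tsum o').trans hg
                  · intro y
                    calc ∑' x', g o' x' * fg o ((e x').symm y) ≤ ∑' x', g o' x' * D := by
                          gcongr with x'
                          exact min_le_right _ _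
                      _ = (∑' x', g o' x') * D := ENNReal.tsum_mul_right
                      _ ≤ 1 * D := by
                          gcongr
                          exact (ENNReal.le_tsum o').trans hg
                      _ = D := one_mul _
              _ = _ := by simp
          · intro o' ho'
            refine ENNReal.tsum_eq_zero.2 fun y => ?_
            rw [hQ0 o o' y (fun hh => ho' (Finset.mem_range.2 (by omega))), mul_zero]
        · rw [if_neg ho]
          refine le_of_eq (ENNReal.tsum_eq_zero.2 fun o' => ENNReal.tsum_eq_zero.2 fun y => ?_)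
          rw [hQ0 o o' y (fun hh => ho hh.1), mul_zero]
    _ = β + (i0 + 1 : ℕ) * ((i0 + 1 : ℕ) * κ) := by
        congr 1
        rw [tsum_eq_sum (s := Finset.range (i0 + 1))]
        · rw [Finset.sum_congr rfl fun o ho => if_pos (by
            have := Finset.mem_range.1 ho; omega : o ≤ i0)]
          simp
        · intro o ho
          rw [if_neg (fun h => ho (Finset.mem_range.2 (by omega)))]

end mix

end Crest.Agent.R154.Asm344
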