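import Crest.Agent.R154.AsmA_354

/-! Row 154 (helper354), ROAD 801: assembly, part B: density of the first passage position. -/

set_option autoImplicit false

namespace Crest.Agent.R154.Asm354

open scoped ENNReal
open Crest.Agent.R154.B5A
open Crest.Agent.R154.FP178 (fp fp_nil fp_cons fp_zero le_HT_of_fp split sum_FP fp_split overshoot
  sum_fp_step sum_fp_zero)

variable {B G : Type*} [AddCommGroup G] (Λ : B → ℝ≥0∞) (ht : B → ℕ) (z : B → G)

open Classical in
/-- law of the first piece -/
noncomputable def pl (T : ℕ) (h : ℕ) (v : G) : ℝ≥0∞ :=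
  ∑' V, if fp ht T V ∧ HT ht V = h ∧ Dp z V = v then LW Λ V else 0

open Classical in
lemma sum_FP_eq (h1 : ∀ b, 1 ≤ ht b) (hΛ : ∑' b, Λ b = 1) (a : ℕ) :
    ∑' L, (if fp ht a L then LW Λ L else 0) = 1 := by
  induction a using Nat.strong_induction_on with
  | _ a ih =>
    rcases Nat.eq_zero_or_pos a with rfl | ha
    · have := sum_fp_zero Λ ht (fun _ => 1)
      simp only [mul_one] at this
      exact this
    · have := sum_fp_step Λ ht a ha (fun _ => 1)
      simp only [mul_one] at this
      rw [this, ← hΛ]
      refine tsum_congr fun b => ?_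
      rw [ih (a - ht b) (by have := h1 b; omega), mul_one]

open Classical in
lemma sum_pl (T : ℕ) (F : ℕ → G → ℝ≥0∞) :
    ∑' p : ℕ × G, pl Λ ht z T p.1 p.2 * F p.1 p.2
      = ∑' V, (if fp ht T V then LW Λ V * F (HT ht V) (Dp z V) else 0) := by
  have e : ∀ p : ℕ × G, pl Λ ht z T p.1 p.2 * F p.1 p.2
      = ∑' V, (if fp ht T V ∧ HT ht V = p.1 ∧ Dp z V = p.2 then LW Λ V else 0) * F p.1 p.2 :=
    fun p => by rw [pl, ENNReal.tsum_mul_right]
  rw [tsum_congr e, ENNReal.tsum_comm]
  refine tsum_congr fun V => ?_
  rw [tsum_eq_single (HT ht V, Dp z V)]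
  · by_cases h : fp ht T V
    · rw [if_pos ⟨h, rfl, rfl⟩, if_pos h]
    · rw [if_neg (fun h' => h h'.1), if_neg h, zero_mul]
  · intro p hp
    rw [if_neg, zero_mul]
    rintro ⟨_, h2, h3⟩
    exact hp (Prod.ext h2.symm h3.symm)

lemma sum_pl_one (h1 : ∀ b, 1 ≤ ht b) (hΛ : ∑' b, Λ b = 1) (T : ℕ) :
    ∑' p : ℕ × G, pl Λ ht z T p.1 p.2 = 1 := by
  have := sum_pl Λ ht z T (fun _ _ => 1)
  simp only [mul_one] at this
  rw [this, sum_FP_eq Λ ht h1 hΛ]

open Classical in
/-- density -/
theorem dens (h1 : ∀ b, 1 ≤ ht b) (hΛ : ∑' b, Λ b = 1) (i0 : ℕ) (η : ℝ≥0∞)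
    (hη : ∀ a, ∑' L, (if fp ht a L ∧ a + i0 < HT ht L then LW Λ L else 0) ≤ η)
    (T : ℕ) (th q M : ℝ≥0∞)
    (hq : ∑' V, (if fp ht T V ∧ th < pl Λ ht z T (HT ht V) (Dp z V) then LW Λ V else 0) ≤ q)
    (hq1 : q ≤ 1) (hM : (i0 + 1 : ℕ) * th + q * M ≤ M) :
    ∀ J a, J * (T + i0) ≤ a → ∃ Gd : List B → Prop,
      (∀ h v, ∑' L, (if fp ht a L ∧ Gd L ∧ HT ht L = h ∧ Dp z L = v then LW Λ L else 0) ≤ M) ∧
      ∑' L, (if fp ht a L ∧ ¬ Gd L then LW Λ L else 0) ≤ q ^ J + J * η := by
  intro J
  induction J with
  | zero =>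
    intro a _
    refine ⟨fun _ => False, fun h v => ?_, ?_⟩
    · simp
    · simp only [not_false_eq_true, and_true, pow_zero, Nat.cast_zero, zero_mul, add_zero]
      exact sum_FP Λ ht h1 hΛ.le a
  | succ J ih =>
    have ih' : ∀ a, ∃ Gd : List B → Prop, J * (T + i0) ≤ a →
      (∀ h v, ∑' L, (if fp ht a L ∧ Gd L ∧ HT ht L = h ∧ Dp z L = v then LW Λ L else 0) ≤ M) ∧
      ∑' L, (if fp ht a L ∧ ¬ Gd L then LW Λ L else 0) ≤ q ^ J + J * η := by
      intro a
      by_cases ha : J * (T + i0) ≤ a
      · obtain ⟨Gd, h⟩ := ih a ha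
        exact ⟨Gd, fun _ => h⟩
      · exact ⟨fun _ => False, fun h => absurd h ha⟩
    choose Gd hGd using ih'
    intro a ha
    have haT : T ≤ a := by
      have : T + i0 ≤ (J + 1) * (T + i0) := Nat.le_mul_of_pos_left _ (Nat.succ_pos J)
      omega
    have haJ : ∀ V : List B, HT ht V ≤ T + i0 → J * (T + i0) ≤ a - HT ht V := by
      intro V hV
      have : (J + 1) * (T + i0) = J * (T + i0) + (T + i0) := by ring
      omega
    let S : List B → Prop := fun V => pl Λ ht z T (HT ht V) (Dp z V) ≤ th
    let Q : List B → Prop := fun L => ∃ V L', L = V ++ L' ∧ fp ht T V ∧ HT ht V ≤ T + i0 ∧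
      (S V ∨ Gd (a - HT ht V) L')
    have hQ : ∀ V L', fp ht T V → Q (V ++ L') → HT ht V ≤ T + i0 ∧ (S V ∨ Gd (a - HT ht V) L') := by
      rintro V L' hV ⟨V2, L2, e, hV2, h⟩
      obtain ⟨rfl, rfl⟩ := fp_unique ht hV hV2 e
      exact h
    refine ⟨Q, fun h v => ?_, ?_⟩
    · have e1 : ∑' L, (if fp ht a L ∧ Q L ∧ HT ht L = h ∧ Dp z L = v then LW Λ L else 0)
          = ∑' L, (if fp ht a L then LW Λ L * (if Q L ∧ HT ht L = h ∧ Dp z L = v then 1 else 0)
            else 0) := by
        refine tsum_congr fun L => ?_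
        by_cases h1' : fp ht a L
        · by_cases h2' : Q L ∧ HT ht L = h ∧ Dp z L = v
          · rw [if_pos ⟨h1', h2'⟩, if_pos h1', if_pos h2', mul_one]
          · rw [if_neg (fun h => h2' h.2), if_pos h1', if_neg h2', mul_zero]
        · rw [if_neg (fun h => h1' h.1), if_neg h1']
      rw [e1, fp_split Λ ht h1 T a haT]
      refine le_trans (b := ∑' V, ((if fp ht T V then LW Λ V * (if HT ht V ≤ T + i0 ∧ S V then
          ∑' L', (if fp ht (a - HT ht V) L' ∧ Dp z V + Dp z L' = v then LW Λ L' else 0) else 0)
            else 0)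
        + (if fp ht T V ∧ th < pl Λ ht z T (HT ht V) (Dp z V) then LW Λ V else 0) * M)) ?_ ?_
      · refine ENNReal.tsum_le_tsum fun V => ?_
        by_cases hV : fp ht T V
        swap
        · rw [if_neg hV]; exact zero_le
        rw [if_pos hV, if_pos hV]
        by_cases hVh : HT ht V ≤ T + i0
        swap
        · have : ∀ L', (if fp ht (a - HT ht V) L' then LW Λ L' *
              (if Q (V ++ L') ∧ HT ht (V ++ L') = h ∧ Dp z (V ++ L') = v then 1 else 0) else 0)
              = (0 : ℝ≥0∞) := fun L' => by
            rw [if_neg (c := Q (V ++ L') ∧ HT ht (V ++ L') = h ∧ Dp z (V ++ L') = v)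
              (fun h' => hVh (hQ V L' hV h'.1).1), mul_zero, ite_self]
          rw [tsum_congr this, tsum_zero, mul_zero]; exact zero_le
        by_cases hS : S V
        · rw [if_pos ⟨hVh, hS⟩]
          refine le_add_right (mul_le_mul_right (ENNReal.tsum_le_tsum fun L' => ?_) _)
          by_cases hL' : fp ht (a - HT ht V) L'
          · rw [if_pos hL']
            by_cases hd : Dp z V + Dp z L' = v
            · rw [if_pos (c := fp ht (a - HT ht V) L' ∧ Dp z V + Dp z L' = v) ⟨hL', hd⟩]
              by_cases hc : Q (V ++ L') ∧ HT ht (V ++ L') = h ∧ Dp z (V ++ L') = v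
              · rw [if_pos hc, mul_one]
              · rw [if_neg hc, mul_zero]; exact zero_le
            · rw [if_neg (c := Q (V ++ L') ∧ HT ht (V ++ L') = h ∧ Dp z (V ++ L') = v)
                (fun h' => hd (by rw [← Dp_append]; exact h'.2.2)), mul_zero]
              exact zero_le
          · rw [if_neg hL']; exact zero_le
        · rw [if_neg (fun h' => hS h'.2), mul_zero, zero_add, if_pos ⟨hV, not_le.1 hS⟩]
          refine mul_le_mul_right ?_ _
          refine le_trans ?_ ((hGd (a - HT ht V) (haJ V hVh)).1 (h - HT ht V) (v - Dp z V))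
          refine ENNReal.tsum_le_tsum fun L' => ?_
          by_cases hL' : fp ht (a - HT ht V) L'
          · rw [if_pos hL']
            by_cases hc : Q (V ++ L') ∧ HT ht (V ++ L') = h ∧ Dp z (V ++ L') = v
            · rw [if_pos hc, mul_one, if_pos]
              refine ⟨hL', ?_, ?_, ?_⟩
              · exact (hQ V L' hV hc.1).2.resolve_left hS
              · have := hc.2.1; rw [HT_append] at this; omega
              · have := hc.2.2; rw [Dp_append] at this; rw [← this]; abel
            · rw [if_neg hc, mul_zero]; exact zero_le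
          · rw [if_neg hL']; exact zero_le
      · rw [ENNReal.tsum_add, ENNReal.tsum_mul_right]
        refine le_trans (add_le_add ?_ (mul_le_mul_left hq M)) hM
        rw [← sum_pl Λ ht z T (fun h' v' => if h' ≤ T + i0 ∧ pl Λ ht z T h' v' ≤ th then
          ∑' L', (if fp ht (a - h') L' ∧ v' + Dp z L' = v then LW Λ L' else 0) else 0)]
        rw [ENNReal.tsum_prod']
        have hz : ∀ h' : ℕ, h' ∉ Finset.Icc T (T + i0) → (∑' v', pl Λ ht z T h' v' *
            (if h' ≤ T + i0 ∧ pl Λ ht z T h' v' ≤ th then
          ∑' L', (if fp ht (a - h') L' ∧ v' + Dp z L' = v then LW Λ L' else 0) else 0)) = 0 := by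
          intro h' hh'
          rw [Finset.mem_Icc] at hh'
          have : ∀ v', pl Λ ht z T h' v' *
            (if h' ≤ T + i0 ∧ pl Λ ht z T h' v' ≤ th then
            ∑' L', (if fp ht (a - h') L' ∧ v' + Dp z L' = v then LW Λ L' else 0) else 0) = 0 := by
            intro v'
            by_cases hc : h' ≤ T + i0
            · have h0 : pl Λ ht z T h' v' = 0 := by
                rw [pl]
                refine ENNReal.tsum_eq_zero.2 fun V => ?_
                rw [if_neg]
                rintro ⟨hV, hV2, _⟩
                have := le_HT_of_fp ht hV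
                omega
              rw [h0, zero_mul]
            · rw [if_neg (fun h => hc h.1), mul_zero]
          rw [tsum_congr this, tsum_zero]
        rw [tsum_eq_sum (s := Finset.Icc T (T + i0)) (fun h' hh' => hz h' hh')]
        calc _ ≤ ∑ h' ∈ Finset.Icc T (T + i0), th := by
              refine Finset.sum_le_sum fun h' _ => ?_
              calc ∑' v', pl Λ ht z T h' v' * (if h' ≤ T + i0 ∧ pl Λ ht z T h' v' ≤ th then
                  ∑' L', (if fp ht (a - h') L' ∧ v' + Dp z L' = v then LW Λ L' else 0) else 0)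
                  ≤ ∑' v', th * ∑' L',
                    (if fp ht (a - h') L' ∧ v' + Dp z L' = v then LW Λ L' else 0) := by
                    refine ENNReal.tsum_le_tsum fun v' => ?_
                    by_cases hc : h' ≤ T + i0 ∧ pl Λ ht z T h' v' ≤ th
                    · rw [if_pos hc]; exact mul_le_mul_left hc.2 _
                    · rw [if_neg hc, mul_zero]; exact zero_le
                _ = th * ∑' L', ∑' v', (if fp ht (a - h') L' ∧ v' + Dp z L' = v then LW Λ L'
                    else 0) := by rw [ENNReal.tsum_mul_left, ENNReal.tsum_comm]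
                _ ≤ th * 1 := by
                    refine mul_le_mul_right (le_trans (ENNReal.tsum_le_tsum fun L' => ?_)
                      (sum_FP Λ ht h1 hΛ.le (a - h'))) _
                    rw [tsum_eq_single (v - Dp z L')]
                    · by_cases hf : fp ht (a - h') L'
                      · rw [if_pos ⟨hf, by abel⟩, if_pos hf]
                      · rw [if_neg (fun h => hf h.1)]; exact zero_le
                    · intro v' hv'
                      rw [if_neg]
                      rintro ⟨_, h2⟩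
                      exact hv' (by rw [← h2]; abel)
                _ = th := mul_one _
          _ = _ := by
              rw [Finset.sum_const, Nat.card_Icc, nsmul_eq_mul]
              congr 2
              omega
    · have e1 : ∑' L, (if fp ht a L ∧ ¬ Q L then LW Λ L else 0)
          = ∑' L, (if fp ht a L then LW Λ L * (if ¬ Q L then 1 else 0) else 0) := by
        refine tsum_congr fun L => ?_
        by_cases h1' : fp ht a L
        · by_cases h2' : Q L
          · rw [if_neg (fun h => h.2 h2'), if_pos h1', if_neg (not_not.2 h2'), mul_zero]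
          · rw [if_pos ⟨h1', h2'⟩, if_pos h1', if_pos h2', mul_one]
        · rw [if_neg (fun h => h1' h.1), if_neg h1']
      rw [e1, fp_split Λ ht h1 T a haT]
      refine le_trans (b := ∑' V, ((if fp ht T V ∧ T + i0 < HT ht V then LW Λ V else 0)
        + (if fp ht T V ∧ th < pl Λ ht z T (HT ht V) (Dp z V) then LW Λ V else 0)
          * (q ^ J + J * η))) ?_ ?_
      · refine ENNReal.tsum_le_tsum fun V => ?_
        by_cases hV : fp ht T V
        swap
        · rw [if_neg hV]; exact zero_le
        rw [if_pos hV]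
        by_cases hVh : HT ht V ≤ T + i0
        swap
        · rw [if_pos ⟨hV, by omega⟩]
          refine le_add_right ?_
          calc _ ≤ LW Λ V * 1 := by
                refine mul_le_mul_right (le_trans (ENNReal.tsum_le_tsum fun L' => ?_)
                  (sum_FP Λ ht h1 hΛ.le (a - HT ht V))) _
                by_cases hL' : fp ht (a - HT ht V) L'
                · rw [if_pos hL', if_pos hL']
                  split_ifs <;> simp
                · rw [if_neg hL', if_neg hL']
            _ = LW Λ V := mul_one _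
        rw [if_neg (by rintro ⟨_, h⟩; omega), zero_add]
        by_cases hS : S V
        · have : ∀ L', (if fp ht (a - HT ht V) L' then LW Λ L' * (if ¬ Q (V ++ L') then 1 else 0)
              else 0) = (0 : ℝ≥0∞) := fun L' => by
            rw [if_neg (c := ¬ Q (V ++ L')) (not_not.2 ⟨V, L', rfl, hV, hVh, Or.inl hS⟩), mul_zero,
              ite_self]
          rw [tsum_congr this, tsum_zero, mul_zero]; exact zero_le
        · rw [if_pos ⟨hV, not_le.1 hS⟩]
          refine mul_le_mul_right (le_trans (ENNReal.tsum_le_tsum fun L' => ?_)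
            (hGd (a - HT ht V) (haJ V hVh)).2) _
          by_cases hL' : fp ht (a - HT ht V) L'
          · rw [if_pos hL']
            by_cases hg : Gd (a - HT ht V) L'
            · rw [if_neg (c := ¬ Q (V ++ L')) (not_not.2 ⟨V, L', rfl, hV, hVh, Or.inr hg⟩), mul_zero]
              exact zero_le
            · rw [if_pos (c := fp ht (a - HT ht V) L' ∧ ¬ Gd (a - HT ht V) L') ⟨hL', hg⟩]
              split_ifs <;> simp
          · rw [if_neg hL']; exact zero_le
      · rw [ENNReal.tsum_add, ENNReal.tsum_mul_right]
        calc _ ≤ η + q * (q ^ J + J * η) := add_le_add (hη T) (mul_le_mul_left hq _)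
          _ ≤ q ^ (J + 1) + ((J + 1 : ℕ) : ℝ≥0∞) * η := by
            rw [mul_add, pow_succ', Nat.cast_add, Nat.cast_one, add_mul, one_mul]
            have : q * (J * η) ≤ J * η := by
              calc q * (J * η) ≤ 1 * (J * η) := mul_le_mul_left hq1 _
                _ = _ := one_mul _
            calc η + (q * q ^ J + q * (J * η)) ≤ η + (q * q ^ J + J * η) := by gcongr
              _ = _ := by ring

end Crest.Agent.R154.Asm354
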