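import Crest.Agent.R154.AsmA_366

/-! Row 154, ROAD 801, assembly (helper366), part B: joint law of overshoot and displacement,
the density lemma (616's proof, with the overshoot kept). -/

set_option autoImplicit false

namespace Crest.Agent.R154.Asm366

open scoped ENNReal
open Crest.Agent.R154.B5A

variable {B G : Type*} [AddCommGroup G]

/-- displacement of a list -/
def Dp (z : B → G) (L : List B) : G := (L.map z).sum

omit [AddCommGroup G] in
lemma Dp_nil [AddCommGroup G] (z : B → G) : Dp z [] = 0 := by simp [Dp]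

lemma Dp_append (z : B → G) (L L' : List B) : Dp z (L ++ L') = Dp z L + Dp z L' := by
  simp [Dp]

open Classical in
/-- joint law of overshoot and displacement of the first passage list -/
noncomputable def fz (Λ : B → ℝ≥0∞) (h : B → ℕ) (z : B → G) (r e : ℕ) (x : G) : ℝ≥0∞ :=
  ∑' P : List B, if FP h P r ∧ HT h P = r + e ∧ Dp z P = x then LW Λ P else 0

omit [AddCommGroup G] in
lemma FP_append_iff (h : B → ℕ) (P1 P2 : List B) (T r : ℕ) (h1 : FP h P1 T) (hT : T ≤ r) :
    FP h (P1 ++ P2) r ↔ FP h P2 (r - HT h P1) := by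
  induction P1 generalizing T r with
  | nil => simp [HT_nil]
  | cons b P1 ih =>
    rw [FP_cons] at h1
    rw [List.cons_append, FP_cons, ih (T - h b) (r - h b) h1.2 (by omega), HT_cons,
      Nat.sub_add_eq]
    constructor
    · exact fun hh => hh.2
    · exact fun hh => ⟨by omega, hh⟩

open Classical in
/-- grouping by height and displacement -/
lemma group_le (h : B → ℕ) (z : B → G) (T : ℕ) (φ : List B → ℝ≥0∞) :
    ∑' P : List B, (if FP h P T then φ P else 0)
      = ∑' i : ℕ, ∑' x : G, ∑' P : List B,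
        (if FP h P T ∧ HT h P = T + i ∧ Dp z P = x then φ P else 0) := by
  have : ∀ P : List B, (if FP h P T then φ P else 0)
      = ∑' i : ℕ, ∑' x : G, (if FP h P T ∧ HT h P = T + i ∧ Dp z P = x then φ P else 0) := by
    intro P
    by_cases hP : FP h P T
    · have h1 := le_HT_of_FP h P T hP
      rw [if_pos hP, tsum_eq_single (HT h P - T), tsum_eq_single (Dp z P)]
      · rw [if_pos ⟨hP, by omega, rfl⟩]
      · intro x hx
        rw [if_neg (fun hh => hx hh.2.2.symm)]
      · intro i hi
        rw [ENNReal.tsum_eq_zero]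
        intro x
        rw [if_neg (fun hh => hi (by omega))]
    · simp [hP]
  simp_rw [this]
  rw [ENNReal.tsum_comm]
  refine tsum_congr fun i => ?_
  rw [ENNReal.tsum_comm]

open Classical in
lemma fz_total (Λ : B → ℝ≥0∞) (hΛ : ∑' b, Λ b = 1) (h : B → ℕ) (h1 : ∀ b, 1 ≤ h b) (z : B → G)
    (r : ℕ) : ∑' e, ∑' x, fz Λ h z r e x = 1 := by
  rw [← mass_FP Λ hΛ h h1 r, group_le h z r (LW Λ)]
  rfl

open Classical in
/-- the remainder after an attempt -/
noncomputable def Fr (Λ : B → ℝ≥0∞) (h : B → ℕ) (z : B → G) (T r i : ℕ) (w : ℕ × G) : ℝ≥0∞ :=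
  ∑' P : List B, if FP h P (r - (T + i)) ∧ T + i + HT h P = r + w.1 ∧ Dp z P = w.2 then LW Λ P else 0

lemma Fr_eq (Λ : B → ℝ≥0∞) (h : B → ℕ) (z : B → G) (T r i : ℕ) (hi : T + i ≤ r) (w : ℕ × G) :
    Fr Λ h z T r i w = fz Λ h z (r - (T + i)) w.1 w.2 := by
  classical
  rw [Fr, fz]
  refine tsum_congr fun P => ?_
  have : (T + i + HT h P = r + w.1) ↔ (HT h P = r - (T + i) + w.1) := by omega
  simp only [this]

lemma Fr_mass (Λ : B → ℝ≥0∞) (hΛ : ∑' b, Λ b = 1) (h : B → ℕ) (h1 : ∀ b, 1 ≤ h b) (z : B → G)
    (T r i : ℕ) : ∑' w, Fr Λ h z T r i w ≤ 1 := by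
  classical
  simp only [Fr]
  rw [ENNReal.tsum_comm, ← mass_FP Λ hΛ h h1 (r - (T + i))]
  refine ENNReal.tsum_le_tsum fun P => ?_
  by_cases hP : FP h P (r - (T + i))
  · rw [if_pos hP, tsum_eq_single (T + i + HT h P - r, Dp z P)]
    · split_ifs <;> simp
    · rintro ⟨e, x⟩ hw
      rw [if_neg]
      rintro ⟨_, h2, h3⟩
      simp only at h2 h3
      apply hw
      rw [← h3]
      congr 1
      omega
  · rw [if_neg hP]
    simp [hP]

lemma fz_rec (Λ : B → ℝ≥0∞) (h : B → ℕ) (h1 : ∀ b, 1 ≤ h b) (z : B → G) (T r : ℕ) (hT : T ≤ r)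
    (w : ℕ × G) : fz Λ h z r w.1 w.2
      = ∑' i, ∑' x, fz Λ h z T i x * Fr Λ h z T r i (w.1, w.2 - x) := by
  classical
  have e1 : fz Λ h z r w.1 w.2 = ∑' L : List B, (if T ≤ HT h L then
      (if FP h L r ∧ HT h L = r + w.1 ∧ Dp z L = w.2 then LW Λ L else 0) else 0) := by
    rw [fz]
    refine tsum_congr fun L => ?_
    by_cases hL : T ≤ HT h L
    · rw [if_pos hL]
    · rw [if_neg hL, if_neg]
      rintro ⟨h2, h3, _⟩
      omega
  rw [e1, split_eq h h1 T]
  have e2 : ∀ P, (∑' R : List B, if FP h P T then (if FP h (P ++ R) r ∧ HT h (P ++ R) = r + w.1 ∧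
      Dp z (P ++ R) = w.2 then LW Λ (P ++ R) else 0) else 0)
      = if FP h P T then LW Λ P * (∑' R : List B, if FP h R (r - HT h P) ∧
        HT h P + HT h R = r + w.1 ∧ Dp z P + Dp z R = w.2 then LW Λ R else 0) else 0 := by
    intro P
    by_cases hP : FP h P T
    · simp only [hP, if_true]
      rw [← ENNReal.tsum_mul_left]
      refine tsum_congr fun R => ?_
      simp only [FP_append_iff h P R T r hP hT, HT_append, Dp_append, LW_append]
      split_ifs <;> simp
    · simp [hP]
  simp_rw [e2]
  rw [group_le h z T]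
  refine tsum_congr fun i => tsum_congr fun x => ?_
  rw [fz, ← ENNReal.tsum_mul_right]
  refine tsum_congr fun P => ?_
  by_cases hP : FP h P T ∧ HT h P = T + i ∧ Dp z P = x
  · rw [if_pos hP, if_pos hP, Fr]
    congr 1
    refine tsum_congr fun R => ?_
    rw [hP.2.1, hP.2.2]
    have : (x + Dp z R = w.2) ↔ (Dp z R = w.2 - x) := by
      constructor
      · intro hh; rw [← hh]; abel
      · intro hh; rw [hh]; abel
    simp only [this]
  · rw [if_neg hP, if_neg hP, zero_mul]

/-- **density lemma** with the overshoot kept. -/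
theorem densJ (Λ : B → ℝ≥0∞) (hΛ : ∑' b, Λ b = 1) (h : B → ℕ) (h1 : ∀ b, 1 ≤ h b) (z : B → G)
    (T i0 : ℕ) (th q ε M : ℝ≥0∞)
    (hε : ∑' i, ∑' x, (if i0 < i then fz Λ h z T i x else 0) ≤ ε)
    (hq : ∑' i, ∑' x, (if i ≤ i0 ∧ th < fz Λ h z T i x then fz Λ h z T i x else 0) ≤ q)
    (hq1 : q ≤ 1) (hG : (i0 + 1 : ℕ) * th + q * M ≤ M) :
    ∀ J r, J * (T + i0) ≤ r → ∃ b : ℕ × G → ℝ≥0∞, (∑' w, b w ≤ q ^ J + J * ε) ∧
      ∀ w, fz Λ h z r w.1 w.2 ≤ M + b w := by
  classical
  have hshift : ∀ (φ : ℕ × G → ℝ≥0∞) (x : G), ∑' w : ℕ × G, φ (w.1, w.2 - x) = ∑' w, φ w := by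
    intro φ x
    exact ((Equiv.refl ℕ).prodCongr (Equiv.subRight x)).tsum_eq φ
  have hf : ∀ r, ∑' w : ℕ × G, fz Λ h z r w.1 w.2 ≤ 1 := by
    intro r
    rw [ENNReal.tsum_prod (f := fun e x => fz Λ h z r e x), fz_total Λ hΛ h h1]
  intro J
  induction J with
  | zero =>
    intro r _
    exact ⟨fun w => fz Λ h z r w.1 w.2, by simpa using hf r, fun z => le_add_self⟩
  | succ J ih =>
    intro r hr
    have hTr : T ≤ r := by nlinarith
    have hrem : ∀ i, i ≤ i0 → J * (T + i0) ≤ r - (T + i) := by
      intro i hi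
      have : J * (T + i0) + (T + i0) ≤ r := by nlinarith
      omega
    have hTi : ∀ i, i ≤ i0 → T + i ≤ r := by
      intro i hi
      have : J * (T + i0) + (T + i0) ≤ r := by nlinarith
      have : 0 ≤ J * (T + i0) := Nat.zero_le _
      omega
    choose! b hb1 hb2 using fun i (hi : i ≤ i0) => ih (r - (T + i)) (hrem i hi)
    set p := fun i x => fz Λ h z T i x with hp
    set F := fun i w => Fr Λ h z T r i w with hFdef
    have hF1 : ∀ i, ∑' w, F i w ≤ 1 := fun i => Fr_mass Λ hΛ h h1 z T r i
    have hFle : ∀ i, i ≤ i0 → ∀ w, F i w ≤ M + b i w := by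
      intro i hi w
      simp only [hFdef]
      rw [Fr_eq Λ h z T r i (hTi i hi)]
      exact hb2 i hi w
    refine ⟨fun w => (∑' i, ∑' x, if i0 < i then p i x * F i (w.1, w.2 - x) else 0) +
      ∑' i, ∑' x, if i ≤ i0 ∧ th < p i x then p i x * b i (w.1, w.2 - x) else 0, ?_, ?_⟩
    · rw [ENNReal.tsum_add]
      have e1 : ∑' w : ℕ × G, ∑' i, ∑' x, (if i0 < i then p i x * F i (w.1, w.2 - x) else 0)
          ≤ ε := by
        calc ∑' w : ℕ × G, ∑' i, ∑' x, (if i0 < i then p i x * F i (w.1, w.2 - x) else 0)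
            = ∑' i, ∑' x, ∑' w : ℕ × G, (if i0 < i then p i x * F i (w.1, w.2 - x) else 0) := by
              rw [ENNReal.tsum_comm]
              refine tsum_congr fun i => ?_
              rw [ENNReal.tsum_comm]
          _ ≤ ∑' i, ∑' x, (if i0 < i then p i x else 0) := by
              refine ENNReal.tsum_le_tsum fun i => ENNReal.tsum_le_tsum fun x => ?_
              split_ifs with h
              · rw [ENNReal.tsum_mul_left, hshift (fun w => F i w) x]
                calc p i x * ∑' w, F i w ≤ p i x * 1 := by gcongr; exact hF1 i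
                  _ = p i x := mul_one _
              · simp
          _ ≤ ε := hε
      have e2 : ∑' w : ℕ × G, ∑' i, ∑' x,
          (if i ≤ i0 ∧ th < p i x then p i x * b i (w.1, w.2 - x) else 0)
          ≤ q * (q ^ J + J * ε) := by
        calc ∑' w : ℕ × G, ∑' i, ∑' x,
          (if i ≤ i0 ∧ th < p i x then p i x * b i (w.1, w.2 - x) else 0)
            = ∑' i, ∑' x, ∑' w : ℕ × G,
              (if i ≤ i0 ∧ th < p i x then p i x * b i (w.1, w.2 - x) else 0) := by
              rw [ENNReal.tsum_comm]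
              refine tsum_congr fun i => ?_
              rw [ENNReal.tsum_comm]
          _ ≤ ∑' i, ∑' x, (if i ≤ i0 ∧ th < p i x then p i x else 0) * (q ^ J + J * ε) := by
              refine ENNReal.tsum_le_tsum fun i => ENNReal.tsum_le_tsum fun x => ?_
              split_ifs with h
              · rw [ENNReal.tsum_mul_left, hshift (fun w => b i w) x]
                gcongr
                exact hb1 i h.1
              · simp
          _ = (∑' i, ∑' x, (if i ≤ i0 ∧ th < p i x then p i x else 0)) * (q ^ J + J * ε) := by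
              simp_rw [ENNReal.tsum_mul_right]
          _ ≤ _ := by gcongr
      calc _ ≤ ε + q * (q ^ J + J * ε) := add_le_add e1 e2
        _ = q ^ (J + 1) + (ε + q * (J * ε)) := by ring
        _ ≤ q ^ (J + 1) + (ε + 1 * (J * ε)) := by gcongr
        _ = q ^ (J + 1) + ((J + 1 : ℕ) : ℝ≥0∞) * ε := by push_cast; ring
    · intro w
      have hterm : ∀ i x, p i x * F i (w.1, w.2 - x) ≤
          ((if i0 < i then p i x * F i (w.1, w.2 - x) else 0) +
            (if i ≤ i0 then th * F i (w.1, w.2 - x) else 0)) +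
          ((if i ≤ i0 ∧ th < p i x then p i x * b i (w.1, w.2 - x) else 0) +
            (if i ≤ i0 ∧ th < p i x then p i x else 0) * M) := by
        intro i x
        by_cases hi : i ≤ i0
        · have hi' : ¬ i0 < i := by omega
          simp only [hi, hi', if_false, if_true, true_and, zero_add]
          by_cases hpx : th < p i x
          · simp only [hpx, if_true]
            calc _ ≤ p i x * (M + b i (w.1, w.2 - x)) := by gcongr; exact hFle i hi _
              _ = p i x * b i (w.1, w.2 - x) + p i x * M := by ring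
              _ ≤ _ := le_add_self
          · simp only [hpx, if_false, zero_mul, add_zero]
            gcongr
            exact not_lt.1 hpx
        · have hi' : i0 < i := by omega
          simp only [hi, hi', if_false, if_true, false_and, zero_mul, add_zero]
          exact le_rfl
      have hrec := fz_rec Λ h h1 z T r hTr w
      calc fz Λ h z r w.1 w.2 = ∑' i, ∑' x, p i x * F i (w.1, w.2 - x) := hrec
        _ ≤ ∑' i, ∑' x, (((if i0 < i then p i x * F i (w.1, w.2 - x) else 0) +
            (if i ≤ i0 then th * F i (w.1, w.2 - x) else 0)) +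
          ((if i ≤ i0 ∧ th < p i x then p i x * b i (w.1, w.2 - x) else 0) +
            (if i ≤ i0 ∧ th < p i x then p i x else 0) * M)) :=
            ENNReal.tsum_le_tsum fun i => ENNReal.tsum_le_tsum fun x => hterm i x
        _ = ((∑' i, ∑' x, (if i0 < i then p i x * F i (w.1, w.2 - x) else 0)) +
            (∑' i, ∑' x, (if i ≤ i0 then th * F i (w.1, w.2 - x) else 0))) +
          ((∑' i, ∑' x, (if i ≤ i0 ∧ th < p i x then p i x * b i (w.1, w.2 - x) else 0)) +
            (∑' i, ∑' x, (if i ≤ i0 ∧ th < p i x then p i x else 0)) * M) := by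
            simp_rw [ENNReal.tsum_add, ENNReal.tsum_mul_right]
        _ ≤ ((∑' i, ∑' x, (if i0 < i then p i x * F i (w.1, w.2 - x) else 0)) +
            ((i0 + 1 : ℕ) * th)) +
          ((∑' i, ∑' x, (if i ≤ i0 ∧ th < p i x then p i x * b i (w.1, w.2 - x) else 0)) +
            q * M) := by
            gcongr
            calc ∑' i, ∑' x, (if i ≤ i0 then th * F i (w.1, w.2 - x) else 0)
                ≤ ∑' i, (if i ≤ i0 then th else 0) := by
                  refine ENNReal.tsum_le_tsum fun i => ?_
                  split_ifs with h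
                  · rw [ENNReal.tsum_mul_left]
                    have e3 : ∑' x, F i (w.1, w.2 - x) ≤ 1 := by
                      calc ∑' x, F i (w.1, w.2 - x) = ∑' x, F i (w.1, x) :=
                            (Equiv.subLeft w.2).tsum_eq fun x => F i (w.1, x)
                        _ ≤ ∑' e, ∑' x, F i (e, x) :=
                            ENNReal.le_tsum (f := fun e => ∑' x, F i (e, x)) w.1
                        _ = ∑' w, F i w := (ENNReal.tsum_prod (f := fun e x => F i (e, x))).symm
                        _ ≤ 1 := hF1 i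
                    calc th * ∑' x, F i (w.1, w.2 - x) ≤ th * 1 := by gcongr
                      _ = th := mul_one _
                  · simp
              _ = ∑ i ∈ Finset.range (i0 + 1), th := by
                  rw [tsum_eq_sum (s := Finset.range (i0 + 1))]
                  · refine Finset.sum_congr rfl fun i hi => ?_
                    rw [if_pos (by have := Finset.mem_range.1 hi; omega)]
                  · intro i hi
                    rw [if_neg (by intro h; exact hi (Finset.mem_range.2 (by omega)))]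
              _ = _ := by simp
        _ = ((i0 + 1 : ℕ) * th + q * M) +
            ((∑' i, ∑' x, (if i0 < i then p i x * F i (w.1, w.2 - x) else 0)) +
            ∑' i, ∑' x, (if i ≤ i0 ∧ th < p i x then p i x * b i (w.1, w.2 - x) else 0)) := by ring
        _ ≤ _ := by gcongr

end Crest.Agent.R154.Asm366
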