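import Crest.Agent.R154.AsmA_392

/-! Row 154, ROAD 801 (helper392): one window, one local walker. -/

set_option autoImplicit false

namespace Crest.Agent.R154.Asm392

open scoped ENNReal
open Crest.Agent.R154.B5A Crest.Agent.R154.FP178

variable {B G : Type*} [AddCommGroup G]

/-- displacement of a list -/
def Dp (dz : B → G) (L : List B) : G := (L.map dz).sum

lemma Dp_append (dz : B → G) (L L' : List B) : Dp dz (L ++ L') = Dp dz L + Dp dz L' := by
  simp [Dp]

/-- value of a list -/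
def val (ht : B → ℕ) (dz : B → G) (L : List B) : ℤ × G := ((HT ht L : ℤ), Dp dz L)

lemma val_append (ht : B → ℕ) (dz : B → G) (L L' : List B) :
    val ht dz (L ++ L') = val ht dz L + val ht dz L' := by
  simp [val, HT_append, Dp_append]

open Classical in
lemma g_support (wt : List B → ℝ≥0∞) (ht : B → ℕ) (dz : B → G) (lo hi : ℕ)
    (hw : ∀ A, wt A ≠ 0 → lo ≤ HT ht A ∧ HT ht A ≤ hi) (j : ℕ) (v : ℤ × G)
    (hv : ¬ ∃ n ∈ Finset.Icc (j * lo) (j * hi), v.1 = (n : ℤ)) : g wt (val ht dz) j v = 0 := by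
  have h := It_mono wt ht lo hi hw j (F := fun P => @ite _ (val ht dz P = v) (Classical.propDecidable _) 1 0)
    (F' := fun _ => 0) (fun P h1 h2 => by
      rw [if_neg]
      intro h
      exact hv ⟨HT ht P, Finset.mem_Icc.2 ⟨h1, h2⟩, by rw [← h]; rfl⟩)
  have h0 : It wt j (fun _ => 0) = 0 := by
    have := It_mul wt j 0 (fun _ => 0)
    simpa using this
  rw [h0] at h
  exact le_antisymm h zero_le

lemma tsum_le_range (R : Finset ℕ) (f : ℤ × G → ℝ≥0∞)
    (hf : ∀ v, (¬ ∃ n ∈ R, v.1 = (n : ℤ)) → f v = 0) :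
    ∑' v, f v = ∑ n ∈ R, ∑' z, f ((n : ℤ), z) := by
  classical
  rw [ENNReal.tsum_prod']
  have h1 : ∀ a : ℤ, a ∉ R.image (fun n : ℕ => (n : ℤ)) → ∑' z, f (a, z) = 0 := by
    intro a ha
    rw [ENNReal.tsum_eq_zero]
    intro z
    refine hf (a, z) ?_
    rintro ⟨n, hn, h⟩
    exact ha (Finset.mem_image.2 ⟨n, hn, h.symm⟩)
  rw [tsum_eq_sum (s := R.image (fun n : ℕ => (n : ℤ))) (fun a ha => h1 a ha),
    Finset.sum_image (fun a _ b _ h => by exact_mod_cast h)]

variable {B' : Type*}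

open Classical in
/-- **one window, the first walker local** -/
theorem loc (w1 : List B → ℝ≥0∞) (w2 : List B' → ℝ≥0∞) (Λ1 : B → ℝ≥0∞) (Λ2 : B' → ℝ≥0∞)
    (ht1 : B → ℕ) (ht2 : B' → ℕ) (z1 : B → G) (z2 : B' → G) (T i0 j : ℕ)
    (hw1 : ∀ A, w1 A ≠ 0 → T ≤ HT ht1 A ∧ HT ht1 A ≤ T + i0)
    (hw2 : ∀ A, w2 A ≠ 0 → T ≤ HT ht2 A ∧ HT ht2 A ≤ T + i0)
    (hl1 : ∀ A, w1 A ≤ LW Λ1 A) (hl2 : ∀ A, w2 A ≤ LW Λ2 A)
    (hs1 : ∑' A, w1 A ≤ 1) (hs2 : ∑' A, w2 A ≤ 1)
    (ph : ℤ × G → ℝ≥0∞) (th q Gc Cst η : ℝ≥0∞)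
    (hp : ∀ v, p w1 (val ht1 z1) v ≤ ph v)
    (hq : ∑' v, (if ph v ≤ th then 0 else p w1 (val ht1 z1) v) ≤ q)
    (hG : th + q * Gc ≤ Gc) (E : ℕ → Finset G)
    (hE : ∀ (h : ℕ) (z : G), th ≤ ph ((h : ℤ), z) → z ∈ E h)
    (hE2 : ∀ h, Gc * (E h).card ≤ Cst)
    (Cn : ℕ → List B → ℕ → List B' → G → Prop)
    (hF : ∀ a ∈ Finset.Icc (j * T) (j * (T + i0)), ∀ a' ∈ Finset.Icc (j * T) (j * (T + i0)),
      ∀ h ∈ Finset.Icc T (T + i0), ∀ h' ∈ Finset.Icc T (T + i0),
      ∀ (E : Finset G) (μ : G → ℝ≥0∞) (M : ℝ≥0∞), ∑' x, μ x ≤ 1 → (∀ x, μ x ≤ M) →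
      M * E.card ≤ Cst →
      ∑' x, μ x * ∑' L, ∑' L', (if HT ht1 L = h ∧ Dp z1 L ∈ E ∧ HT ht2 L' = h' ∧ Cn a L a' L' x
        then LW Λ1 L * LW Λ2 L' else 0) ≤ η) (w : G) :
    It w1 j (fun P => It w2 j (fun Q => ∑' A, w1 A * ∑' A', w2 A' *
      (if th ≤ ph (val ht1 z1 A) ∧ Cn (HT ht1 P) A (HT ht2 Q) A' (w + Dp z2 Q - Dp z1 P)
        then 1 else 0)))
      ≤ q ^ j + ((j * i0 + 1 : ℕ) * ((j * i0 + 1 : ℕ) * ((i0 + 1 : ℕ) * ((i0 + 1 : ℕ) * η)))) := by
  set g1 := g w1 (val ht1 z1) j with hg1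
  set g2 := g w2 (val ht2 z2) j with hg2
  set Φ : ℤ × G → ℤ × G → ℝ≥0∞ := fun v v' => ∑' A, w1 A * ∑' A', w2 A' *
      (if th ≤ ph (val ht1 z1 A) ∧ Cn v.1.toNat A v'.1.toNat A' (w + v'.2 - v.2)
        then 1 else 0) with hΦ
  have hΦ1 : ∀ v v', Φ v v' ≤ 1 := by
    intro v v'
    calc Φ v v' ≤ ∑' A, w1 A * 1 := by
          refine ENNReal.tsum_le_tsum fun A => mul_le_mul_right ?_ _
          calc _ ≤ ∑' A', w2 A' * 1 := by
                refine ENNReal.tsum_le_tsum fun A' => mul_le_mul_right ?_ _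
                split_ifs <;> simp
            _ ≤ 1 := by simpa using hs2
      _ ≤ 1 := by simpa using hs1
  have e0 : It w1 j (fun P => It w2 j (fun Q => ∑' A, w1 A * ∑' A', w2 A' *
      (if th ≤ ph (val ht1 z1 A) ∧ Cn (HT ht1 P) A (HT ht2 Q) A' (w + Dp z2 Q - Dp z1 P)
        then 1 else 0))) = ∑' v, g1 v * ∑' v', g2 v' * Φ v v' := by
    rw [← It_law w1 (val ht1 z1) j (fun v => ∑' v', g2 v' * Φ v v')]
    congr 1
    funext P
    rw [← It_law w2 (val ht2 z2) j (fun v' => Φ (val ht1 z1 P) v')]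
    rfl
  rw [e0]
  obtain ⟨b, hb, hbm⟩ := smooth w1 (val ht1 z1) (val_append ht1 z1) hs1 (fun v => ph v ≤ th) th q Gc
    (fun v hv => (hp v).trans hv) (by convert hq) hG j
  set gs : ℤ × G → ℝ≥0∞ := fun v => g1 v - b v with hgs
  have hgs1 : ∀ v, gs v ≤ Gc := fun v => tsub_le_iff_right.2 (hb v)
  have hgs2 : ∀ v, gs v ≤ g1 v := fun v => tsub_le_self
  have hgs3 : ∀ v, g1 v ≤ gs v + b v := fun v => le_tsub_add
  have hg2s : ∑' v, g2 v ≤ 1 := g_sum w2 (val ht2 z2) hs2 j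
  have hg1s : ∑' v, g1 v ≤ 1 := g_sum w1 (val ht1 z1) hs1 j
  have hΦ2 : ∀ v, ∑' v', g2 v' * Φ v v' ≤ 1 := by
    intro v
    calc ∑' v', g2 v' * Φ v v' ≤ ∑' v', g2 v' * 1 :=
          ENNReal.tsum_le_tsum fun v' => mul_le_mul_right (hΦ1 v v') _
      _ ≤ 1 := by simpa using hg2s
  set R := Finset.Icc (j * T) (j * (T + i0)) with hR
  set H := Finset.Icc T (T + i0) with hH
  have hRc : R.card = j * i0 + 1 := by
    rw [hR, Nat.card_Icc, Nat.mul_add]; omega
  have hHc : H.card = i0 + 1 := by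
    rw [hH, Nat.card_Icc]; omega
  set Ψ : ℕ → ℕ → ℕ → ℕ → G → ℝ≥0∞ := fun a a' h h' x => ∑' L, ∑' L',
    (if HT ht1 L = h ∧ Dp z1 L ∈ E h ∧ HT ht2 L' = h' ∧ Cn a L a' L' x
        then LW Λ1 L * LW Λ2 L' else 0) with hΨ
  have hΦΨ : ∀ (a a' : ℕ) (z z' : G), Φ ((a : ℤ), z) ((a' : ℤ), z')
      ≤ ∑ h ∈ H, ∑ h' ∈ H, Ψ a a' h h' (w + z' - z) := by
    intro a a' z z'
    calc Φ ((a : ℤ), z) ((a' : ℤ), z') = ∑' A, ∑' A', w1 A * (w2 A' *
          (if th ≤ ph (val ht1 z1 A) ∧ Cn a A a' A' (w + z' - z) then 1 else 0)) := by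
          simp only [hΦ, Int.toNat_natCast]
          refine tsum_congr fun A => ?_
          rw [ENNReal.tsum_mul_left]
      _ ≤ ∑' A, ∑' A', ∑ h ∈ H, ∑ h' ∈ H, (if HT ht1 A = h ∧ Dp z1 A ∈ E h ∧ HT ht2 A' = h' ∧
            Cn a A a' A' (w + z' - z) then LW Λ1 A * LW Λ2 A' else 0) := by
          refine ENNReal.tsum_le_tsum fun A => ENNReal.tsum_le_tsum fun A' => ?_
          by_cases hA : w1 A = 0
          · simp [hA]
          by_cases hA' : w2 A' = 0
          · simp [hA']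
          by_cases hc : th ≤ ph (val ht1 z1 A) ∧ Cn a A a' A' (w + z' - z)
          · rw [if_pos hc, mul_one]
            have m1 : HT ht1 A ∈ H := Finset.mem_Icc.2 (hw1 A hA)
            have m2 : HT ht2 A' ∈ H := Finset.mem_Icc.2 (hw2 A' hA')
            calc w1 A * w2 A' ≤ LW Λ1 A * LW Λ2 A' := mul_le_mul' (hl1 A) (hl2 A')
              _ = (if HT ht1 A = HT ht1 A ∧ Dp z1 A ∈ E (HT ht1 A) ∧ HT ht2 A' = HT ht2 A' ∧
                    Cn a A a' A' (w + z' - z) then LW Λ1 A * LW Λ2 A' else 0) := by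
                  rw [if_pos ⟨rfl, hE _ _ hc.1, rfl, hc.2⟩]
              _ ≤ ∑ h' ∈ H, (if HT ht1 A = HT ht1 A ∧ Dp z1 A ∈ E (HT ht1 A) ∧ HT ht2 A' = h' ∧
                    Cn a A a' A' (w + z' - z) then LW Λ1 A * LW Λ2 A' else 0) :=
                  Finset.single_le_sum (f := fun h' => (if HT ht1 A = HT ht1 A ∧
                    Dp z1 A ∈ E (HT ht1 A) ∧ HT ht2 A' = h' ∧
                    Cn a A a' A' (w + z' - z) then LW Λ1 A * LW Λ2 A' else 0))
                    (fun _ _ => zero_le) m2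
              _ ≤ _ := Finset.single_le_sum (f := fun h => ∑ h' ∈ H, (if HT ht1 A = h ∧
                    Dp z1 A ∈ E h ∧ HT ht2 A' = h' ∧
                    Cn a A a' A' (w + z' - z) then LW Λ1 A * LW Λ2 A' else 0))
                    (fun _ _ => zero_le) m1
          · rw [if_neg hc, mul_zero, mul_zero]; exact zero_le
      _ = _ := by
          simp only [hΨ]
          have e1 : ∀ A, ∑' A', ∑ h ∈ H, ∑ h' ∈ H, (if HT ht1 A = h ∧ Dp z1 A ∈ E h ∧
              HT ht2 A' = h' ∧ Cn a A a' A' (w + z' - z) then LW Λ1 A * LW Λ2 A' else 0)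
              = ∑ h ∈ H, ∑ h' ∈ H, ∑' A', (if HT ht1 A = h ∧ Dp z1 A ∈ E h ∧
              HT ht2 A' = h' ∧ Cn a A a' A' (w + z' - z) then LW Λ1 A * LW Λ2 A' else 0) := by
            intro A
            rw [Summable.tsum_finsetSum (fun _ _ => ENNReal.summable)]
            refine Finset.sum_congr rfl fun h _ => ?_
            rw [Summable.tsum_finsetSum (fun _ _ => ENNReal.summable)]
          rw [tsum_congr e1, Summable.tsum_finsetSum (fun _ _ => ENNReal.summable)]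
          refine Finset.sum_congr rfl fun h _ => ?_
          rw [Summable.tsum_finsetSum (fun _ _ => ENNReal.summable)]
  -- one quadruple
  have hone : ∀ a ∈ R, ∀ a' ∈ R, ∀ h ∈ H, ∀ h' ∈ H,
      ∑' z, ∑' z', gs ((a : ℤ), z) * (g2 ((a' : ℤ), z') * Ψ a a' h h' (w + z' - z)) ≤ η := by
    intro a ha a' ha' h hh h' hh'
    have e1 : ∀ z, ∑' z', gs ((a : ℤ), z) * (g2 ((a' : ℤ), z') * Ψ a a' h h' (w + z' - z))
        = ∑' x, gs ((a : ℤ), z) * (g2 ((a' : ℤ), x + (z - w)) * Ψ a a' h h' x) := by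
      intro z
      rw [← (Equiv.addRight (z - w)).tsum_eq (fun z' => gs ((a : ℤ), z) *
        (g2 ((a' : ℤ), z') * Ψ a a' h h' (w + z' - z)))]
      refine tsum_congr fun x => ?_
      simp only [Equiv.coe_addRight]
      rw [show w + (x + (z - w)) - z = x by abel]
    rw [tsum_congr e1, ENNReal.tsum_comm]
    have e2 : ∀ x, ∑' z, gs ((a : ℤ), z) * (g2 ((a' : ℤ), x + (z - w)) * Ψ a a' h h' x)
        = (∑' z, gs ((a : ℤ), z) * g2 ((a' : ℤ), x + (z - w))) * Ψ a a' h h' x := by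
      intro x
      rw [← ENNReal.tsum_mul_right]
      exact tsum_congr fun z => by rw [mul_assoc]
    rw [tsum_congr e2]
    have i1 : ∑' z, gs ((a : ℤ), z) ≤ 1 :=
      (ENNReal.tsum_le_tsum fun z => hgs2 _).trans
        ((ENNReal.tsum_comp_le_tsum_of_injective (f := fun z : G => ((a : ℤ), z))
          (fun z z' h => (Prod.mk.inj h).2) g1).trans hg1s)
    have i2 : ∑' z, g2 ((a' : ℤ), z) ≤ 1 :=
      (ENNReal.tsum_comp_le_tsum_of_injective (f := fun z : G => ((a' : ℤ), z))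
          (fun z z' h => (Prod.mk.inj h).2) g2).trans hg2s
    refine hF a ha a' ha' h hh h' hh' (E h) _ Gc ?_ ?_ (hE2 h)
    · rw [ENNReal.tsum_comm]
      calc ∑' z, ∑' x, gs ((a : ℤ), z) * g2 ((a' : ℤ), x + (z - w))
          = ∑' z, gs ((a : ℤ), z) * ∑' x, g2 ((a' : ℤ), x) := by
            refine tsum_congr fun z => ?_
            rw [ENNReal.tsum_mul_left]
            congr 1
            exact (Equiv.addRight (z - w)).tsum_eq (fun x => g2 ((a' : ℤ), x))
        _ ≤ ∑' z, gs ((a : ℤ), z) * 1 :=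
            ENNReal.tsum_le_tsum fun z => mul_le_mul_right i2 _
        _ ≤ 1 := by simpa using i1
    · intro x
      calc ∑' z, gs ((a : ℤ), z) * g2 ((a' : ℤ), x + (z - w))
          ≤ ∑' z, Gc * g2 ((a' : ℤ), x + (z - w)) :=
            ENNReal.tsum_le_tsum fun z => mul_le_mul_left (hgs1 _) _
        _ = Gc * ∑' z, g2 ((a' : ℤ), x + (z - w)) := ENNReal.tsum_mul_left
        _ = Gc * ∑' z, g2 ((a' : ℤ), z) := by
            congr 1
            rw [← (Equiv.addLeft (x - w)).tsum_eq (fun z => g2 ((a' : ℤ), z))]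
            refine tsum_congr fun z => ?_
            simp only [Equiv.coe_addLeft]
            rw [show x - w + z = x + (z - w) by abel]
        _ ≤ Gc * 1 := mul_le_mul_right i2 _
        _ = Gc := mul_one _
  have hmain : ∑' v, gs v * ∑' v', g2 v' * Φ v v'
      ≤ (j * i0 + 1 : ℕ) * ((j * i0 + 1 : ℕ) * ((i0 + 1 : ℕ) * ((i0 + 1 : ℕ) * η))) := by
    have s1 : ∀ v : ℤ × G, (¬ ∃ n ∈ R, v.1 = (n : ℤ)) → gs v * ∑' v', g2 v' * Φ v v' = 0 := by
      intro v hv
      have : g1 v = 0 := g_support w1 ht1 z1 T (T + i0) hw1 j v hv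
      have h0 : gs v = 0 := le_antisymm ((hgs2 v).trans this.le) zero_le
      rw [h0, zero_mul]
    have s2 : ∀ (v : ℤ × G), ∑' v', g2 v' * Φ v v' = ∑ a' ∈ R, ∑' z', g2 ((a' : ℤ), z') *
        Φ v ((a' : ℤ), z') := by
      intro v
      refine tsum_le_range R (fun v' => g2 v' * Φ v v') ?_
      intro v' hv'
      have : g2 v' = 0 := g_support w2 ht2 z2 T (T + i0) hw2 j v' hv'
      simp only [this, zero_mul]
    rw [tsum_le_range R _ s1]
    calc ∑ a ∈ R, ∑' z, gs ((a : ℤ), z) * ∑' v', g2 v' * Φ ((a : ℤ), z) v'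
        ≤ ∑ a ∈ R, ((j * i0 + 1 : ℕ) * ((i0 + 1 : ℕ) * ((i0 + 1 : ℕ) * η))) := by
          refine Finset.sum_le_sum fun a ha => ?_
          calc ∑' z, gs ((a : ℤ), z) * ∑' v', g2 v' * Φ ((a : ℤ), z) v'
              ≤ ∑' z, ∑ a' ∈ R, ∑ h ∈ H, ∑ h' ∈ H, ∑' z', gs ((a : ℤ), z) *
                  (g2 ((a' : ℤ), z') * Ψ a a' h h' (w + z' - z)) := by
                refine ENNReal.tsum_le_tsum fun z => ?_
                rw [s2, Finset.mul_sum]
                refine Finset.sum_le_sum fun a' ha' => ?_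
                calc gs ((a : ℤ), z) * ∑' z', g2 ((a' : ℤ), z') * Φ ((a : ℤ), z) ((a' : ℤ), z')
                    ≤ gs ((a : ℤ), z) * ∑' z', g2 ((a' : ℤ), z') *
                      ∑ h ∈ H, ∑ h' ∈ H, Ψ a a' h h' (w + z' - z) :=
                      mul_le_mul_right (ENNReal.tsum_le_tsum fun z' =>
                        mul_le_mul_right (hΦΨ a a' z z') _) _
                  _ = _ := by
                      rw [← ENNReal.tsum_mul_left]
                      simp only [Finset.mul_sum]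
                      rw [Summable.tsum_finsetSum (fun _ _ => ENNReal.summable)]
                      refine Finset.sum_congr rfl fun h _ => ?_
                      rw [Summable.tsum_finsetSum (fun _ _ => ENNReal.summable)]
            _ = ∑ a' ∈ R, ∑ h ∈ H, ∑ h' ∈ H, ∑' z, ∑' z', gs ((a : ℤ), z) *
                  (g2 ((a' : ℤ), z') * Ψ a a' h h' (w + z' - z)) := by
                rw [Summable.tsum_finsetSum (fun _ _ => ENNReal.summable)]
                refine Finset.sum_congr rfl fun a' _ => ?_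
                rw [Summable.tsum_finsetSum (fun _ _ => ENNReal.summable)]
                refine Finset.sum_congr rfl fun h _ => ?_
                rw [Summable.tsum_finsetSum (fun _ _ => ENNReal.summable)]
            _ ≤ ∑ a' ∈ R, ∑ h ∈ H, ∑ h' ∈ H, η :=
                Finset.sum_le_sum fun a' ha' => Finset.sum_le_sum fun h hh =>
                  Finset.sum_le_sum fun h' hh' => hone a ha a' ha' h hh h' hh'
            _ = _ := by
                simp only [Finset.sum_const, nsmul_eq_mul, hRc, hHc]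
      _ = _ := by
          simp only [Finset.sum_const, nsmul_eq_mul, hRc]
  calc ∑' v, g1 v * ∑' v', g2 v' * Φ v v'
      ≤ ∑' v, (b v * 1 + gs v * ∑' v', g2 v' * Φ v v') := by
        refine ENNReal.tsum_le_tsum fun v => ?_
        calc g1 v * ∑' v', g2 v' * Φ v v' ≤ (gs v + b v) * ∑' v', g2 v' * Φ v v' :=
              mul_le_mul_left (hgs3 v) _
          _ = b v * ∑' v', g2 v' * Φ v v' + gs v * ∑' v', g2 v' * Φ v v' := by
              rw [add_mul, add_comm]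
          _ ≤ _ := add_le_add_left (mul_le_mul_right (hΦ2 v) _) _
    _ = ∑' v, b v + ∑' v, gs v * ∑' v', g2 v' * Φ v v' := by
        rw [ENNReal.tsum_add]; simp
    _ ≤ _ := add_le_add hbm hmain

end Crest.Agent.R154.Asm392
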