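import Crest.Agent.R154.AsmA_4

/-! Row 154 (helper4), ROAD 801, assembly part B: pieces and one window. -/

set_option autoImplicit false

namespace Crest.Agent.R154.Asm4

open scoped ENNReal
open Crest.Agent.R154.B5A Crest.Agent.R154.FP178

section one
variable {B G : Type*} [AddCommGroup G]

/-- (site, depth) pairs read by a list of blocks -/
def TT (h : B → ℕ) (zf : B → G) (s : B → Set (G × ℕ)) : List B → G → ℕ → Set (G × ℕ)
  | [], _, _ => ∅
  | b :: L, x, a => {p | ∃ q ∈ s b, p = (x + q.1, a + q.2)} ∪ TT h zf s L (x + zf b) (a + h b)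

variable (h : B → ℕ) (zf : B → G) (s : B → Set (G × ℕ))

lemma TT_append (L L' : List B) : ∀ (x : G) (a : ℕ),
    TT h zf s (L ++ L') x a = TT h zf s L x a ∪ TT h zf s L' (x + Dp zf L) (a + HT h L) := by
  induction L with
  | nil => intro x a; simp [TT, Dp, HT]
  | cons b L ih =>
    intro x a
    simp only [List.cons_append, TT, ih]
    rw [Set.union_assoc]
    congr 3
    · simp [Dp, add_assoc]
    · simp [HT, add_assoc]

lemma TT_depth (hs : ∀ b q, q ∈ s b → 1 ≤ q.2 ∧ q.2 ≤ h b) (L : List B) : ∀ (x : G) (a : ℕ)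
    (z : G) (k : ℕ), (z, k) ∈ TT h zf s L x a → a < k ∧ k ≤ a + HT h L := by
  induction L with
  | nil => intro x a z k hk; exact absurd hk (Set.notMem_empty _)
  | cons b L ih =>
    intro x a z k hk
    simp only [TT, Set.mem_union] at hk
    rw [HT_cons]
    rcases hk with ⟨q, hq, he⟩ | hk
    · have := hs b q hq
      have h2 : k = a + q.2 := (Prod.ext_iff.1 he).2
      omega
    · have := ih _ _ _ _ hk
      omega

lemma TT_shift (L : List B) (y : G) : ∀ (x : G) (a : ℕ) (z : G) (k : ℕ),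
    (z + y, k) ∈ TT h zf s L (x + y) a ↔ (z, k) ∈ TT h zf s L x a := by
  induction L with
  | nil => intro x a z k; simp [TT]
  | cons b L ih =>
    intro x a z k
    simp only [TT, Set.mem_union]
    have e : x + y + zf b = (x + zf b) + y := by abel
    rw [e, ih]
    constructor
    · rintro (⟨q, hq, he⟩ | hk)
      · left
        refine ⟨q, hq, ?_⟩
        have h1 := (Prod.ext_iff.1 he).1
        have h2 := (Prod.ext_iff.1 he).2
        simp only at h1 h2
        refine Prod.ext ?_ h2
        have : z + y = (x + q.1) + y := by rw [h1]; abel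
        exact add_right_cancel this
      · exact Or.inr hk
    · rintro (⟨q, hq, he⟩ | hk)
      · left
        refine ⟨q, hq, ?_⟩
        have h1 := (Prod.ext_iff.1 he).1
        have h2 := (Prod.ext_iff.1 he).2
        simp only at h1 h2
        refine Prod.ext ?_ h2
        show z + y = x + y + q.1
        rw [h1]; abel
      · exact Or.inr hk

variable (Λ : B → ℝ≥0∞) (ht : B → ℕ)

open Classical in
lemma sum_rest (hU : ∀ n, U Λ ht n ≤ 1) (n c : ℕ) (f : List B → ℝ≥0∞) (hf : ∀ L, f L ≤ 1) :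
    ∑' R, LW Λ R * (if c + HT ht R = n then f R else 0) ≤ 1 := by
  by_cases hc : c ≤ n
  · refine le_trans (ENNReal.tsum_le_tsum fun R => ?_) (hU (n - c))
    by_cases h : c + HT ht R = n
    · rw [if_pos h, if_pos (by omega)]
      calc LW Λ R * f R ≤ LW Λ R * 1 := mul_le_mul_right (hf R) _
        _ = LW Λ R := mul_one _
    · rw [if_neg h, mul_zero]; exact zero_le
  · have : ∀ R : List B, LW Λ R * (if c + HT ht R = n then f R else 0) = 0 := by
      intro R; rw [if_neg (by omega), mul_zero]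
    simp [this]

open Classical in
lemma sum_rest' (hU : ∀ n, U Λ ht n ≤ 1) (n c : ℕ) (f : List B → ℝ≥0∞) (g : ℝ≥0∞)
    (hf : ∀ L, f L ≤ g) :
    ∑' R, LW Λ R * (if c + HT ht R = n then f R else 0) ≤ g := by
  calc ∑' R, LW Λ R * (if c + HT ht R = n then f R else 0)
      ≤ ∑' R, g * (LW Λ R * (if c + HT ht R = n then 1 else 0)) := by
        refine ENNReal.tsum_le_tsum fun R => ?_
        by_cases h : c + HT ht R = n
        · rw [if_pos h, if_pos h, mul_one, mul_comm g]
          exact mul_le_mul_right (hf R) _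
        · rw [if_neg h, mul_zero]; exact zero_le
    _ = g * ∑' R, LW Λ R * (if c + HT ht R = n then 1 else 0) := ENNReal.tsum_mul_left
    _ ≤ g * 1 := mul_le_mul_right (sum_rest Λ ht hU n c (fun _ => 1) (fun _ => le_rfl)) _
    _ = g := mul_one _

open Classical in
/-- three pieces -/
theorem pieces (h1 : ∀ b, 1 ≤ ht b) (hΛ : ∑' b, Λ b = 1) (hU : ∀ n, U Λ ht n ≤ 1)
    (a0 H i0 n : ℕ) (hn : a0 + i0 + H ≤ n) (ε : ℝ≥0∞)
    (hε : ∀ a, ∑' L, (if fp ht a L ∧ a + i0 < HT ht L then LW Λ L else 0) ≤ ε)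
    (F : List B → ℝ≥0∞) (hF : ∀ L, F L ≤ 1) (g : List B → List B → ℝ≥0∞)
    (hg : ∀ A P R, fp ht a0 A → HT ht A ≤ a0 + i0 → fp ht H P → HT ht P ≤ H + i0 →
      F (A ++ P ++ R) ≤ g A P) :
    ∑' L, (if HT ht L = n then LW Λ L * F L else 0) ≤
      ∑' A, (if fp ht a0 A ∧ HT ht A ≤ a0 + i0 then LW Λ A *
        ∑' P, (if fp ht H P ∧ HT ht P ≤ H + i0 then LW Λ P * g A P else 0) else 0) + 2 * ε := by
  have e1 : ∀ L : List B, (if HT ht L = n then LW Λ L * F L else 0)
      = (if a0 ≤ HT ht L then LW Λ L * (if HT ht L = n then F L else 0) else 0) := by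
    intro L
    by_cases h : HT ht L = n
    · rw [if_pos h, if_pos h, if_pos (by omega)]
    · rw [if_neg h, if_neg h, mul_zero, ite_self]
  rw [tsum_congr e1, split Λ ht h1 a0 (fun L => if HT ht L = n then F L else 0)]
  set main : List B → ℝ≥0∞ := fun A =>
    ∑' P, (if fp ht H P ∧ HT ht P ≤ H + i0 then LW Λ P * g A P else 0) with hmain
  have key : ∀ A : List B, (if fp ht a0 A then LW Λ A * ∑' L2, LW Λ L2 *
        (if HT ht (A ++ L2) = n then F (A ++ L2) else 0) else 0)
      ≤ (if fp ht a0 A ∧ HT ht A ≤ a0 + i0 then LW Λ A * main A else 0)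
        + (if fp ht a0 A then LW Λ A else 0) * ε
        + (if fp ht a0 A ∧ a0 + i0 < HT ht A then LW Λ A else 0) := by
    intro A
    by_cases hA : fp ht a0 A
    swap
    · simp [hA]
    by_cases hov : HT ht A ≤ a0 + i0
    swap
    · refine le_trans ?_ le_add_self
      rw [if_pos hA, if_pos ⟨hA, by omega⟩]
      calc _ ≤ LW Λ A * 1 := by
            refine mul_le_mul_right ?_ _
            have := sum_rest Λ ht hU n (HT ht A) (fun L2 => F (A ++ L2)) (fun L2 => hF _)
            refine le_trans (le_of_eq (tsum_congr fun R => ?_)) this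
            rw [HT_append]
        _ = LW Λ A := mul_one _
    refine le_trans ?_ le_self_add
    rw [if_pos hA, if_pos ⟨hA, hov⟩, if_pos hA, ← mul_add]
    refine mul_le_mul_right ?_ _
    -- second split
    have e2 : ∀ R : List B, LW Λ R * (if HT ht (A ++ R) = n then F (A ++ R) else 0)
        = (if H ≤ HT ht R then LW Λ R * (if HT ht A + HT ht R = n then F (A ++ R) else 0) else 0) := by
      intro R
      rw [HT_append]
      by_cases h : HT ht A + HT ht R = n
      · rw [if_pos h, if_pos (by omega)]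
      · rw [if_neg h, mul_zero, ite_self]
    rw [tsum_congr e2, split Λ ht h1 H (fun R => if HT ht A + HT ht R = n then F (A ++ R) else 0)]
    have key2 : ∀ P : List B, (if fp ht H P then LW Λ P * ∑' L2, LW Λ L2 *
          (if HT ht A + HT ht (P ++ L2) = n then F (A ++ (P ++ L2)) else 0) else 0)
        ≤ (if fp ht H P ∧ HT ht P ≤ H + i0 then LW Λ P * g A P else 0)
          + (if fp ht H P ∧ H + i0 < HT ht P then LW Λ P else 0) := by
      intro P
      by_cases hP : fp ht H P
      swap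
      · simp [hP]
      have e3 : ∀ L2 : List B, LW Λ L2 * (if HT ht A + HT ht (P ++ L2) = n then
          F (A ++ (P ++ L2)) else 0) = LW Λ L2 * (if (HT ht A + HT ht P) + HT ht L2 = n then
          F (A ++ P ++ L2) else 0) := by
        intro L2
        rw [HT_append, ← add_assoc, List.append_assoc]
      rw [if_pos hP, tsum_congr e3]
      by_cases hov2 : HT ht P ≤ H + i0
      · refine le_trans ?_ le_self_add
        rw [if_pos ⟨hP, hov2⟩]
        refine mul_le_mul_right ?_ _
        exact sum_rest' Λ ht hU n (HT ht A + HT ht P) (fun L2 => F (A ++ P ++ L2)) (g A P)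
          (fun L2 => hg A P L2 hA hov hP hov2)
      · refine le_trans ?_ le_add_self
        rw [if_pos ⟨hP, by omega⟩]
        calc _ ≤ LW Λ P * 1 := mul_le_mul_right
              (sum_rest Λ ht hU n (HT ht A + HT ht P) (fun L2 => F (A ++ P ++ L2))
                (fun L2 => hF _)) _
          _ = LW Λ P := mul_one _
    refine (ENNReal.tsum_le_tsum key2).trans ?_
    rw [ENNReal.tsum_add]
    exact add_le_add le_rfl (hε H)
  refine (ENNReal.tsum_le_tsum key).trans ?_
  rw [ENNReal.tsum_add, ENNReal.tsum_add, ENNReal.tsum_mul_right, sum_FP_eq Λ ht h1 hΛ, one_mul,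
    add_assoc, two_mul]
  exact add_le_add le_rfl (add_le_add le_rfl (hε a0))

end one

section slice
variable {α β G : Type*}

open Classical in
lemma slice2 [AddCommGroup G] (WA : α → ℝ≥0∞) (WB : β → ℝ≥0∞) (hA : α → ℕ) (hB : β → ℕ) (xx : α → β → G)
    (I I' : Finset ℕ) (hI : ∀ A, WA A ≠ 0 → hA A ∈ I) (hI' : ∀ A, WB A ≠ 0 → hB A ∈ I')
    (Φ : ℕ → ℕ → G → ℝ≥0∞) (M bnd : ℝ≥0∞)
    (hΦ : ∀ a ∈ I, ∀ a' ∈ I', ∀ μ : G → ℝ≥0∞, (∑' x, μ x ≤ 1) → (∀ x, μ x ≤ M) →
      ∑' x, μ x * Φ a a' x ≤ bnd)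
    (h1 : ∑' A, WA A ≤ 1) (h1' : ∑' A, WB A ≤ 1)
    (hM : ∀ a a' x, ∑' A, ∑' A', (if hA A = a ∧ hB A' = a' ∧ xx A A' = x then WA A * WB A' else 0)
      ≤ M) :
    ∑' A, ∑' A', WA A * WB A' * Φ (hA A) (hB A') (xx A A') ≤ (I.card : ℝ≥0∞) * I'.card * bnd := by
  set μ : ℕ → ℕ → G → ℝ≥0∞ := fun a a' x =>
    ∑' A, ∑' A', (if hA A = a ∧ hB A' = a' ∧ xx A A' = x then WA A * WB A' else 0) with hμ
  have hμ1 : ∀ a a', ∑' x, μ a a' x ≤ 1 := by
    intro a a'
    calc ∑' x, μ a a' x = ∑' A, ∑' A', ∑' x,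
          (if hA A = a ∧ hB A' = a' ∧ xx A A' = x then WA A * WB A' else 0) := by
          rw [ENNReal.tsum_comm]
          exact tsum_congr fun A => ENNReal.tsum_comm
      _ ≤ ∑' A, ∑' A', WA A * WB A' := by
          refine ENNReal.tsum_le_tsum fun A => ENNReal.tsum_le_tsum fun A' => ?_
          rw [tsum_eq_single (xx A A')]
          · split_ifs <;> simp
          · intro x hx
            rw [if_neg (fun h => hx h.2.2.symm)]
      _ = (∑' A, WA A) * ∑' A', WB A' := by
          simp_rw [ENNReal.tsum_mul_left, ENNReal.tsum_mul_right]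
      _ ≤ 1 * 1 := mul_le_mul' h1 h1'
      _ = 1 := one_mul 1
  have hpt : ∀ A A', WA A * WB A' * Φ (hA A) (hB A') (xx A A') ≤
      ∑' a, ∑' a', ∑' x, (if a ∈ I ∧ a' ∈ I' then
        (if hA A = a ∧ hB A' = a' ∧ xx A A' = x then WA A * WB A' else 0) * Φ a a' x else 0) := by
    intro A A'
    by_cases h0 : WA A = 0
    · rw [h0, zero_mul, zero_mul]; exact zero_le
    by_cases h0' : WB A' = 0
    · rw [h0', mul_zero, zero_mul]; exact zero_le
    refine le_trans ?_ (ENNReal.le_tsum (hA A))
    refine le_trans ?_ (ENNReal.le_tsum (hB A'))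
    refine le_trans ?_ (ENNReal.le_tsum (xx A A'))
    rw [if_pos ⟨hI A h0, hI' A' h0'⟩, if_pos ⟨rfl, rfl, rfl⟩]
  calc ∑' A, ∑' A', WA A * WB A' * Φ (hA A) (hB A') (xx A A')
      ≤ ∑' A, ∑' A', ∑' a, ∑' a', ∑' x, (if a ∈ I ∧ a' ∈ I' then
        (if hA A = a ∧ hB A' = a' ∧ xx A A' = x then WA A * WB A' else 0) * Φ a a' x else 0) :=
        ENNReal.tsum_le_tsum fun A => ENNReal.tsum_le_tsum fun A' => hpt A A'
    _ = ∑' a, ∑' a', ∑' x, ∑' A, ∑' A', (if a ∈ I ∧ a' ∈ I' then
        (if hA A = a ∧ hB A' = a' ∧ xx A A' = x then WA A * WB A' else 0) * Φ a a' x else 0) := by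
        have s1 : ∀ A, ∑' A', ∑' a, ∑' a', ∑' x, (if a ∈ I ∧ a' ∈ I' then
            (if hA A = a ∧ hB A' = a' ∧ xx A A' = x then WA A * WB A' else 0) * Φ a a' x else 0)
            = ∑' a, ∑' a', ∑' x, ∑' A', (if a ∈ I ∧ a' ∈ I' then
            (if hA A = a ∧ hB A' = a' ∧ xx A A' = x then WA A * WB A' else 0) * Φ a a' x else 0) := by
          intro A
          rw [ENNReal.tsum_comm]
          refine tsum_congr fun a => ?_
          rw [ENNReal.tsum_comm]
          refine tsum_congr fun a' => ?_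
          rw [ENNReal.tsum_comm]
        rw [tsum_congr s1, ENNReal.tsum_comm]
        refine tsum_congr fun a => ?_
        rw [ENNReal.tsum_comm]
        refine tsum_congr fun a' => ?_
        rw [ENNReal.tsum_comm]
    _ ≤ ∑' a, ∑' a', (if a ∈ I ∧ a' ∈ I' then bnd else 0) := by
        refine ENNReal.tsum_le_tsum fun a => ENNReal.tsum_le_tsum fun a' => ?_
        by_cases h : a ∈ I ∧ a' ∈ I'
        · simp only [h, and_self, if_true]
          refine le_trans (le_of_eq ?_) (hΦ a h.1 a' h.2 (μ a a') (hμ1 a a') (hM a a'))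
          refine tsum_congr fun x => ?_
          rw [hμ]
          simp only
          rw [← ENNReal.tsum_mul_right]
          refine tsum_congr fun A => ?_
          rw [← ENNReal.tsum_mul_right]
        · simp [h]
    _ = (I.card : ℝ≥0∞) * I'.card * bnd := by
        have e1 : ∀ a, ∑' a', (if a ∈ I ∧ a' ∈ I' then bnd else 0)
            = if a ∈ I then (I'.card : ℝ≥0∞) * bnd else 0 := by
          intro a
          by_cases h : a ∈ I
          · simp only [h, true_and, if_true]
            rw [tsum_eq_sum (s := I') (fun b hb => if_neg hb),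
              Finset.sum_congr rfl (fun b hb => if_pos hb), Finset.sum_const, nsmul_eq_mul]
          · simp [h]
        rw [tsum_congr e1, tsum_eq_sum (s := I) (fun b hb => if_neg hb),
          Finset.sum_congr rfl (fun b hb => if_pos hb), Finset.sum_const, nsmul_eq_mul, mul_assoc]

end slice

end Crest.Agent.R154.Asm4
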