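import Mathlib

/-! Row 154 (helper873): the choice of `K, u` and the dyadic quantile for the window assembly. -/

set_option autoImplicit false

namespace Crest.Agent.R154.Num873

open scoped ENNReal Topology
open Filter

/-- real form of the choice of constants. -/
lemma num_real (c : ℕ) (hc : 1 ≤ c) (ε : ℝ) (hε : 0 < ε) :
    ∃ K0 : ℕ, ∀ K : ℕ, K0 ≤ K → ∃ u : ℝ, 0 < u ∧ u < 1 ∧
      ((c * (K + c) : ℕ) : ℝ) * u ^ 2 ≤ ε ∧ ((c * (K + c) : ℕ) : ℝ) * (1 - u) ^ (K / c) ≤ ε := by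
  -- u = δ / sqrt (K)
  obtain ⟨δ, hδ0, hδ1, hδ⟩ : ∃ δ : ℝ, 0 < δ ∧ δ < 1 ∧ (2 * c : ℝ) * δ ^ 2 ≤ ε := by
    refine ⟨min (1 / 2) (ε / (2 * c)), ?_, ?_, ?_⟩
    · have : (0 : ℝ) < c := by exact_mod_cast hc
      positivity
    · exact lt_of_le_of_lt (min_le_left _ _) (by norm_num)
    · have hc0 : (0 : ℝ) < c := by exact_mod_cast hc
      set δ := min (1 / 2 : ℝ) (ε / (2 * c)) with hδ
      have h1 : δ ≤ 1 / 2 := min_le_left _ _
      have h2 : δ ≤ ε / (2 * c) := min_le_right _ _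
      have h0 : 0 ≤ δ := by positivity
      have h3 : (2 * c : ℝ) * δ ≤ ε := by
        rw [le_div_iff₀ (by positivity)] at h2; linarith
      nlinarith
  -- the exponential term tends to zero
  have hlim : Tendsto (fun K : ℕ => ((c * (K + c) : ℕ) : ℝ) * Real.exp (-(δ / Real.sqrt K) * ((K / c : ℕ) : ℝ)))
      atTop (𝓝 0) := by
    have hc0 : (0 : ℝ) < c := by exact_mod_cast hc
    -- bound by C * K * exp(-a sqrt K)
    have hb : Tendsto (fun x : ℝ => (2 * c * x ^ 2 * Real.exp δ) * Real.exp (-(δ / c) * x)) atTop (𝓝 0) := by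
      have h := (Real.tendsto_pow_mul_exp_neg_atTop_nhds_zero 2)
      have h2 : Tendsto (fun x : ℝ => (δ / c) * x) atTop atTop :=
        Tendsto.const_mul_atTop (by positivity) tendsto_id
      have h3 := (h.comp h2).const_mul (2 * c * Real.exp δ * (c / δ) ^ 2)
      rw [mul_zero] at h3
      refine h3.congr fun x => ?_
      simp only [Function.comp]
      rw [neg_mul]
      field_simp
    have hs : Tendsto (fun K : ℕ => Real.sqrt K) atTop atTop :=
      Real.tendsto_sqrt_atTop.comp tendsto_natCast_atTop_atTop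
    have hb2 := hb.comp hs
    refine squeeze_zero' (Eventually.of_forall fun K => by positivity) ?_ hb2
    filter_upwards [eventually_ge_atTop (max c 1)] with K hK
    have hKc : c ≤ K := le_trans (le_max_left _ _) hK
    have hK1 : 1 ≤ K := le_trans (le_max_right _ _) hK
    have hK1' : (1 : ℝ) ≤ K := by exact_mod_cast hK1
    have hsq : Real.sqrt K ^ 2 = K := Real.sq_sqrt (by positivity)
    have hs1 : 1 ≤ Real.sqrt K := by rw [Real.one_le_sqrt]; exact hK1'
    simp only [Function.comp]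
    have e1 : ((c * (K + c) : ℕ) : ℝ) ≤ 2 * c * Real.sqrt K ^ 2 := by
      rw [hsq]; push_cast
      have : (c : ℝ) ≤ K := by exact_mod_cast hKc
      nlinarith
    have e2 : Real.exp (-(δ / Real.sqrt K) * ((K / c : ℕ) : ℝ))
        ≤ Real.exp δ * Real.exp (-(δ / c) * Real.sqrt K) := by
      rw [← Real.exp_add, Real.exp_le_exp]
      have hfl : (K : ℝ) / c - 1 ≤ ((K / c : ℕ) : ℝ) := by
        have := Nat.lt_div_mul_add (a := K) (b := c) (by omega)
        have h4 : (K : ℝ) < (K / c : ℕ) * c + c := by exact_mod_cast this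
        rw [sub_le_iff_le_add, div_le_iff₀ hc0]
        nlinarith
      have hd : 0 < δ / Real.sqrt K := by positivity
      have h5 : (δ / Real.sqrt K) * ((K : ℝ) / c - 1) ≤ (δ / Real.sqrt K) * ((K / c : ℕ) : ℝ) :=
        mul_le_mul_of_nonneg_left hfl hd.le
      have h6 : (δ / Real.sqrt K) * ((K : ℝ) / c) = (δ / c) * Real.sqrt K := by
        have : (K : ℝ) = Real.sqrt K * Real.sqrt K := by rw [← sq, hsq]
        have hne : Real.sqrt K ≠ 0 := by positivity
        calc (δ / Real.sqrt K) * ((K : ℝ) / c) = (δ / Real.sqrt K) * ((Real.sqrt K * Real.sqrt K) / c) := by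
              rw [← this]
          _ = _ := by field_simp
      have h7 : δ / Real.sqrt K ≤ δ := div_le_self hδ0.le hs1
      nlinarith
    calc ((c * (K + c) : ℕ) : ℝ) * Real.exp (-(δ / Real.sqrt K) * ((K / c : ℕ) : ℝ))
        ≤ (2 * c * Real.sqrt K ^ 2) * (Real.exp δ * Real.exp (-(δ / c) * Real.sqrt K)) :=
          mul_le_mul e1 e2 (by positivity) (by positivity)
      _ = _ := by ring
  have hev := (hlim.eventually (gt_mem_nhds hε)).and (eventually_ge_atTop (max c 1))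
  obtain ⟨K0, hK0⟩ := eventually_atTop.1 hev
  refine ⟨K0, fun K hK => ⟨δ / Real.sqrt K, ?_, ?_, ?_, ?_⟩⟩
  all_goals
    obtain ⟨h1, h2⟩ := hK0 K hK
    have hKc : c ≤ K := le_trans (le_max_left _ _) h2
    have hK1 : 1 ≤ K := le_trans (le_max_right _ _) h2
    have hK1' : (1 : ℝ) ≤ K := by exact_mod_cast hK1
    have hsq : Real.sqrt K ^ 2 = K := Real.sq_sqrt (by positivity)
    have hs1 : 1 ≤ Real.sqrt K := by rw [Real.one_le_sqrt]; exact hK1'
  · positivity
  · exact lt_of_le_of_lt (div_le_self hδ0.le hs1) hδ1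
  · rw [div_pow, hsq]
    have hc0 : (0 : ℝ) < c := by exact_mod_cast hc
    have e1 : ((c * (K + c) : ℕ) : ℝ) ≤ 2 * c * K := by
      push_cast
      have : (c : ℝ) ≤ K := by exact_mod_cast hKc
      nlinarith
    calc ((c * (K + c) : ℕ) : ℝ) * (δ ^ 2 / K) ≤ (2 * c * K) * (δ ^ 2 / K) :=
          mul_le_mul_of_nonneg_right e1 (by positivity)
      _ = 2 * c * δ ^ 2 := by field_simp
      _ ≤ ε := hδ
  · refine le_trans (mul_le_mul_of_nonneg_left ?_ (by positivity)) h1.le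
    have hu0 : 0 ≤ 1 - δ / Real.sqrt K := by
      have := (div_le_self hδ0.le hs1).trans hδ1.le
      linarith
    have h8 : 1 - δ / Real.sqrt K ≤ Real.exp (-(δ / Real.sqrt K)) := by
      have := Real.add_one_le_exp (-(δ / Real.sqrt K)); linarith
    calc (1 - δ / Real.sqrt K) ^ (K / c) ≤ Real.exp (-(δ / Real.sqrt K)) ^ (K / c) :=
          pow_le_pow_left₀ hu0 h8 _
      _ = _ := by rw [← Real.exp_nat_mul]; ring_nf

/-- choice of `K` and `u`. -/
theorem num (c : ℕ) (hc : 1 ≤ c) (ε : ℝ≥0∞) (hε : ε ≠ 0) :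
    ∃ K0 : ℕ, ∀ K : ℕ, K0 ≤ K → ∃ u : ℝ≥0∞, u ≠ 0 ∧ u < 1 ∧
      ((c * (K + c) : ℕ) : ℝ≥0∞) * u ^ 2 ≤ ε ∧
      ((c * (K + c) : ℕ) : ℝ≥0∞) * (1 - u) ^ (K / c) ≤ ε := by
  obtain ⟨ε', hε'0, hε'1⟩ : ∃ e : ℝ, 0 < e ∧ ENNReal.ofReal e ≤ ε := by
    by_cases h : ε = ⊤
    · exact ⟨1, one_pos, by rw [h]; exact le_top⟩
    · exact ⟨ε.toReal, ENNReal.toReal_pos hε h, by rw [ENNReal.ofReal_toReal h]⟩
  obtain ⟨K0, hK0⟩ := num_real c hc ε' hε'0
  refine ⟨K0, fun K hK => ?_⟩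
  obtain ⟨u, hu0, hu1, h1, h2⟩ := hK0 K hK
  refine ⟨ENNReal.ofReal u, by simpa using hu0, by simpa using hu1, ?_, ?_⟩
  · refine le_trans ?_ hε'1
    rw [← ENNReal.ofReal_natCast, ← ENNReal.ofReal_pow hu0.le, ← ENNReal.ofReal_mul (by positivity)]
    exact ENNReal.ofReal_le_ofReal h1
  · refine le_trans ?_ hε'1
    rw [← ENNReal.ofReal_one, ← ENNReal.ofReal_sub _ hu0.le, ← ENNReal.ofReal_natCast,
      ← ENNReal.ofReal_pow (by linarith), ← ENNReal.ofReal_mul (by positivity)]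
    exact ENNReal.ofReal_le_ofReal h2

open Classical in
/-- dyadic quantile. -/
theorem quant {ι : Type*} (p : ι → ℝ≥0∞) (hp : ∑' i, p i = 1) (u : ℝ≥0∞) (hu : u ≠ 0)
    (hu1 : u < 1) :
    ∃ th : ℝ≥0∞, th ≠ 0 ∧ th ≤ 1 ∧ (∑' i, (if p i < th then p i else 0)) ≤ u ∧
      u ≤ (∑' i, (if p i < 2 * th then p i else 0)) ∧ {i | th ≤ p i}.Finite ∧
      ({i | th ≤ p i}.ncard : ℝ≥0∞) * th ≤ 1 := by
  have hp1 : ∀ i, p i ≤ 1 := fun i => hp ▸ ENNReal.le_tsum i
  -- F k = mass of {p < 2^-k}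
  set F : ℕ → ℝ≥0∞ := fun k => ∑' i, (if p i < 2⁻¹ ^ k then p i else 0) with hF
  have hF0 : Tendsto F atTop (𝓝 0) := by
    have h := tendsto_tsum_of_dominated_convergence (𝓕 := atTop)
      (f := fun (k : ℕ) (i : ι) => ((if p i < 2⁻¹ ^ k then p i else 0 : ℝ≥0∞)).toReal)
      (g := fun _ => (0 : ℝ)) (bound := fun i => (p i).toReal)
      (ENNReal.summable_toReal (by rw [hp]; exact ENNReal.one_ne_top)) ?_ ?_
    · have h2 := (ENNReal.continuous_ofReal.tendsto _).comp h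
      simp only [tsum_zero, ENNReal.ofReal_zero] at h2
      refine h2.congr fun k => ?_
      simp only [Function.comp, hF]
      rw [ENNReal.ofReal_tsum_of_nonneg (fun _ => ENNReal.toReal_nonneg)]
      · refine tsum_congr fun i => ENNReal.ofReal_toReal ?_
        split_ifs
        · exact ne_top_of_le_ne_top ENNReal.one_ne_top (hp1 i)
        · exact ENNReal.zero_ne_top
      · refine ENNReal.summable_toReal (ne_top_of_le_ne_top ENNReal.one_ne_top ?_)
        rw [← hp]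
        exact ENNReal.tsum_le_tsum fun i => by split_ifs <;> simp
    · intro i
      by_cases hi : p i = 0
      · refine tendsto_const_nhds.congr fun k => ?_
        simp [hi]
      · have h3 : Tendsto (fun k : ℕ => (2⁻¹ : ℝ≥0∞) ^ k) atTop (𝓝 0) :=
          ENNReal.tendsto_pow_atTop_nhds_zero_of_lt_one (by
            rw [ENNReal.inv_lt_one]; norm_num)
        have h4 : ∀ᶠ k in atTop, (2⁻¹ : ℝ≥0∞) ^ k < p i :=
          h3.eventually (gt_mem_nhds (pos_iff_ne_zero.2 hi))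
        refine tendsto_const_nhds.congr' ?_
        filter_upwards [h4] with k hk
        rw [if_neg (not_lt.2 hk.le)]; simp
    · refine Eventually.of_forall fun k i => ?_
      rw [Real.norm_of_nonneg ENNReal.toReal_nonneg]
      refine ENNReal.toReal_mono (ne_top_of_le_ne_top ENNReal.one_ne_top (hp1 i)) ?_
      split_ifs <;> simp
  have hex : ∃ k, F k ≤ u := by
    have := hF0.eventually (gt_mem_nhds (pos_iff_ne_zero.2 hu))
    obtain ⟨k, hk⟩ := this.exists
    exact ⟨k, hk.le⟩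
  set k := Nat.find hex with hk
  have hk1 : F k ≤ u := Nat.find_spec hex
  have hth0 : (2⁻¹ : ℝ≥0∞) ^ k ≠ 0 := pow_ne_zero _ (by simp)
  have hth1 : (2⁻¹ : ℝ≥0∞) ^ k ≤ 1 := pow_le_one₀ (by simp) (by
    rw [ENNReal.inv_le_one]; norm_num)
  have hu2 : u ≤ ∑' i, (if p i < 2 * 2⁻¹ ^ k then p i else 0) := by
    rcases Nat.eq_zero_or_pos k with h0 | h0
    · rw [h0, pow_zero, mul_one]
      calc u ≤ 1 := hu1.le
        _ = ∑' i, p i := hp.symm
        _ = _ := tsum_congr fun i => by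
          rw [if_pos (lt_of_le_of_lt (hp1 i) (by norm_num))]
    · have h5 : ¬ F (k - 1) ≤ u := Nat.find_min hex (by omega)
      rw [not_le] at h5
      refine h5.le.trans (le_of_eq ?_)
      have e : (2 : ℝ≥0∞) * 2⁻¹ ^ k = 2⁻¹ ^ (k - 1) := by
        obtain ⟨j, hj⟩ : ∃ j, k = j + 1 := ⟨k - 1, by omega⟩
        rw [hj, Nat.add_sub_cancel, pow_succ, mul_comm _ (2⁻¹ : ℝ≥0∞), ← mul_assoc,
          ENNReal.mul_inv_cancel (by norm_num) (by norm_num), one_mul]
      simp only [hF, e]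
  have hfin : {i | (2⁻¹ : ℝ≥0∞) ^ k ≤ p i}.Finite :=
    ENNReal.finite_const_le_of_tsum_ne_top (by rw [hp]; exact ENNReal.one_ne_top) hth0
  refine ⟨2⁻¹ ^ k, hth0, hth1, hk1, hu2, hfin, ?_⟩
  rw [Set.ncard_eq_toFinset_card _ hfin]
  calc ((hfin.toFinset.card : ℕ) : ℝ≥0∞) * 2⁻¹ ^ k = ∑ _i ∈ hfin.toFinset, (2⁻¹ : ℝ≥0∞) ^ k := by
        rw [Finset.sum_const, nsmul_eq_mul]
    _ ≤ ∑ i ∈ hfin.toFinset, p i := Finset.sum_le_sum fun i hi => by
        simpa using hi
    _ ≤ ∑' i, p i := ENNReal.sum_le_tsum _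
    _ = 1 := hp

end Crest.Agent.R154.Num873
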