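import Crest.Agent.R154.AsmA_456
import Crest.Agent.R154.Num_873

/-! Row 154, ROAD 801 (helper456): abstract assembly, part B (traces, reduction to pieces). -/

set_option autoImplicit false

namespace Crest.Agent.R154.Asm456

open scoped ENNReal
open Crest.Agent.R154.B5A

section tr
variable {B G : Type*} [AddCommGroup G] (ht : B → ℕ) (z : B → G) (s : B → Set (G × ℕ))
variable (T : List B → G → ℕ → Set (G × ℕ))

/-- the trace recursion -/
def TRec : Prop := (∀ x a, T [] x a = ∅) ∧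
  ∀ b L x a, T (b :: L) x a = {p | ∃ q ∈ s b, p = (x + q.1, a + q.2)} ∪ T L (x + z b) (a + ht b)

variable {ht z s T}

lemma mem_app (hT : TRec ht z s T) (L L' : List B) : ∀ (x : G) (a : ℕ) (p : G × ℕ),
    p ∈ T (L ++ L') x a ↔ p ∈ T L x a ∨ p ∈ T L' (x + Dp z L) (a + HT ht L) := by
  induction L with
  | nil =>
    intro x a p
    rw [List.nil_append, hT.1, Dp_nil, HT_nil, add_zero, add_zero]
    simp
  | cons b L ih =>
    intro x a p
    rw [List.cons_append, hT.2, hT.2, Set.mem_union, Set.mem_union, ih, Dp_cons, HT_cons,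
      or_assoc, add_assoc, add_assoc]

lemma mem_shift (hT : TRec ht z s T) (L : List B) : ∀ (x y v : G) (a k : ℕ),
    (v, k) ∈ T L x a ↔ (v - y, k) ∈ T L (x - y) a := by
  induction L with
  | nil => intro x y v a k; rw [hT.1, hT.1]; simp
  | cons b L ih =>
    intro x y v a k
    rw [hT.2, hT.2, Set.mem_union, Set.mem_union, ih (x + z b) y v (a + ht b) k]
    have e : x - y + z b = x + z b - y := by abel
    rw [e]
    refine or_congr ⟨?_, ?_⟩ Iff.rfl
    · rintro ⟨q, hq, h⟩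
      simp only [Prod.mk.injEq] at h
      exact ⟨q, hq, by simp only [Prod.mk.injEq]; exact ⟨by rw [h.1]; abel, h.2⟩⟩
    · rintro ⟨q, hq, h⟩
      simp only [Prod.mk.injEq] at h
      have h1 : v = x + q.1 := by
        rw [sub_eq_iff_eq_add.1 h.1]; abel
      exact ⟨q, hq, by simp only [Prod.mk.injEq]; exact ⟨h1, h.2⟩⟩

lemma mem_dep (hT : TRec ht z s T) (hd : ∀ b q, q ∈ s b → 1 ≤ q.2 ∧ q.2 ≤ ht b) (L : List B) :
    ∀ (x v : G) (a k : ℕ), (v, k) ∈ T L x a → a < k ∧ k ≤ a + HT ht L := by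
  induction L with
  | nil => intro x v a k h; rw [hT.1] at h; simp at h
  | cons b L ih =>
    intro x v a k h
    rw [hT.2, Set.mem_union] at h
    rw [HT_cons]
    rcases h with ⟨q, hq, h⟩ | h
    · simp only [Prod.mk.injEq] at h
      have := hd b q hq
      omega
    · have := ih _ _ _ _ h
      omega

end tr

section half
variable {G : Type*}

open Classical in
lemma half (α b : ℤ × G → ℝ≥0∞) (M β Bd : ℝ≥0∞) (Ra : Finset ℤ)
    (hα : ∑' x, α x ≤ 1) (hb : ∀ x, α x ≤ M + b x) (hβ : ∑' x, b x ≤ β)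
    (hsup : ∀ x, x.1 ∉ Ra → α x = 0)
    (H : ℤ × G → ℝ≥0∞) (hH1 : ∀ x, H x ≤ 1)
    (hH : ∀ a ∈ Ra, ∀ μ : G → ℝ≥0∞, (∑' g, μ g ≤ 1) → (∀ g, μ g ≤ M) →
      ∑' g, μ g * H (a, g) ≤ Bd) :
    ∑' x, α x * H x ≤ β + Ra.card * Bd := by
  have h1 : ∀ x, α x * H x ≤ b x + (if x.1 ∈ Ra then min (α x) M * H x else 0) := by
    intro x
    by_cases hx : x.1 ∈ Ra
    · rw [if_pos hx]
      have : α x ≤ b x + min (α x) M := by
        rcases le_total (α x) M with h | h
        · rw [min_eq_left h]; exact le_add_self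
        · rw [min_eq_right h, add_comm]; exact hb x
      calc α x * H x ≤ (b x + min (α x) M) * H x := mul_le_mul_left this _
        _ = b x * H x + min (α x) M * H x := add_mul _ _ _
        _ ≤ b x * 1 + min (α x) M * H x := add_le_add (mul_le_mul_right (hH1 x) _) le_rfl
        _ = _ := by rw [mul_one]
    · rw [hsup x hx, zero_mul]; exact zero_le
  refine (ENNReal.tsum_le_tsum h1).trans ?_
  rw [ENNReal.tsum_add]
  refine add_le_add hβ ?_
  rw [ENNReal.tsum_prod']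
  calc ∑' a, ∑' g, (if a ∈ Ra then min (α (a, g)) M * H (a, g) else 0)
      ≤ ∑' a, (if a ∈ Ra then Bd else 0) := by
        refine ENNReal.tsum_le_tsum fun a => ?_
        by_cases ha : a ∈ Ra
        · simp only [if_pos ha]
          refine hH a ha _ ?_ (fun g => min_le_right _ _)
          refine le_trans ?_ hα
          rw [ENNReal.tsum_prod']
          exact (ENNReal.tsum_le_tsum fun g => min_le_left _ _).trans (ENNReal.le_tsum a)
        · simp only [if_neg ha, tsum_zero]; exact zero_le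
    _ = Ra.card * Bd := by
        rw [tsum_eq_sum (s := Ra) (fun a ha => if_neg ha)]
        rw [Finset.sum_congr rfl (fun a ha => if_pos ha), Finset.sum_const, nsmul_eq_mul]

end half

section red
variable {B G : Type*} [AddCommGroup G]
variable (Λ : B → ℝ≥0∞) (ht : B → ℕ) (z : B → G) (S i0 : ℕ)

lemma IJ_mono' (J : ℕ) : ∀ {F F' : List B → ℝ≥0∞},
    (∀ L, J * S ≤ HT ht L → HT ht L ≤ J * (S + i0) → F L ≤ F' L) →
    IJ Λ ht S i0 J F ≤ IJ Λ ht S i0 J F' := by
  classical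
  induction J with
  | zero => intro F F' h; exact h [] (by simp) (by rw [HT_nil]; exact Nat.zero_le _)
  | succ J ih =>
    intro F F' h
    simp only [IJ]
    refine ENNReal.tsum_le_tsum fun P => ?_
    by_cases hP : FP ht S P ∧ HT ht P ≤ S + i0
    · rw [if_pos hP, if_pos hP]
      refine mul_le_mul_right (ih fun Q h1 h2 => h _ ?_ ?_) _
      · have := FP_le ht P S hP.1
        rw [HT_append]
        have e : (J + 1) * S = J * S + S := by ring
        omega
      · have := hP.2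
        rw [HT_append]
        have e : (J + 1) * (S + i0) = J * (S + i0) + (S + i0) := by ring
        omega
    · rw [if_neg hP]; exact zero_le

open Classical in
lemma IJ_succ' (J : ℕ) : ∀ (F : List B → ℝ≥0∞),
    IJ Λ ht S i0 (J + 1) F = IJ Λ ht S i0 J (fun A => ∑' P, (if FP ht S P ∧ HT ht P ≤ S + i0 then
      LW Λ P * F (A ++ P) else 0)) := by
  induction J with
  | zero => intro F; simp only [IJ, List.append_nil, List.nil_append]
  | succ J ih =>
    intro F
    have e : IJ Λ ht S i0 (J + 1 + 1) F = ∑' P, (if FP ht S P ∧ HT ht P ≤ S + i0 then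
      LW Λ P * IJ Λ ht S i0 (J + 1) (fun Q => F (P ++ Q)) else 0) := rfl
    rw [e]
    have e2 : IJ Λ ht S i0 (J + 1) (fun A => ∑' P, (if FP ht S P ∧ HT ht P ≤ S + i0 then
      LW Λ P * F (A ++ P) else 0)) = ∑' P, (if FP ht S P ∧ HT ht P ≤ S + i0 then
      LW Λ P * IJ Λ ht S i0 J (fun Q => ∑' P', (if FP ht S P' ∧ HT ht P' ≤ S + i0 then
      LW Λ P' * F (P ++ Q ++ P') else 0)) else 0) := rfl
    rw [e2]
    refine tsum_congr fun P => ?_
    rw [ih (fun Q => F (P ++ Q))]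
    simp only [List.append_assoc]

/-- the good piece -/
def GP (P : List B) : Prop := FP ht S P ∧ HT ht P ≤ S + i0

open Classical in
lemma red1 (h1 : ∀ b, 1 ≤ ht b) (hΛ : ∑' b, Λ b = 1) (hU1 : ∀ n, U Λ ht n ≤ 1) (J n : ℕ)
    (hn : (J + 1) * (S + i0) ≤ n) (F : List B → ℝ≥0∞) (hF : ∀ L, F L ≤ 1)
    (Φ : ℤ × G → List B → ℝ≥0∞)
    (hΦ : ∀ A P R, J * S ≤ HT ht A → HT ht A ≤ J * (S + i0) → FP ht S P → HT ht P ≤ S + i0 →
      F (A ++ P ++ R) ≤ Φ (pos ht z A) P) :
    ∑' L, (if HT ht L = n then LW Λ L * F L else 0)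
      ≤ (J + 1 : ℕ) * (∑' b, Λ b * ((ht b - i0 : ℕ) : ℝ≥0∞))
        + ∑' x, (if x.1 ≤ ((J * (S + i0) : ℕ) : ℤ) ∧ ((J * S : ℕ) : ℤ) ≤ x.1 then
            ff Λ ht z S J x else 0) *
          ∑' P, (if FP ht S P ∧ HT ht P ≤ S + i0 then LW Λ P * Φ x P else 0) := by
  refine (att_le Λ ht S i0 h1 hΛ hU1 (J + 1) n F hF hn).trans (add_le_add le_rfl ?_)
  rw [IJ_succ']
  calc _ ≤ IJ Λ ht S i0 J (fun A => (fun x => ∑' P, (if FP ht S P ∧ HT ht P ≤ S + i0 then
        LW Λ P * Φ x P else 0)) (pos ht z A)) := by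
        refine IJ_mono' Λ ht S i0 J fun A hA1 hA2 => ENNReal.tsum_le_tsum fun P => ?_
        by_cases hP : FP ht S P ∧ HT ht P ≤ S + i0
        · rw [if_pos hP, if_pos hP]
          refine mul_le_mul_right ?_ _
          calc ∑' R, (if HT ht (A ++ P) + HT ht R = n then LW Λ R * F (A ++ P ++ R) else 0)
              ≤ ∑' R, (if HT ht R = n - HT ht (A ++ P) then LW Λ R else 0) * Φ (pos ht z A) P := by
                refine ENNReal.tsum_le_tsum fun R => ?_
                by_cases h : HT ht (A ++ P) + HT ht R = n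
                · rw [if_pos h, if_pos (by omega)]
                  exact mul_le_mul_right (hΦ A P R hA1 hA2 hP.1 hP.2) _
                · rw [if_neg h]; exact zero_le
            _ = U Λ ht (n - HT ht (A ++ P)) * Φ (pos ht z A) P := by
                rw [ENNReal.tsum_mul_right]; rfl
            _ ≤ 1 * Φ (pos ht z A) P := mul_le_mul_left (hU1 _) _
            _ = _ := one_mul _
        · rw [if_neg hP]; exact zero_le
    _ ≤ _ := by
        refine (IJ_le Λ ht z S i0 J (fun x => ∑' P, (if FP ht S P ∧ HT ht P ≤ S + i0 then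
          LW Λ P * Φ x P else 0))).trans (ENNReal.tsum_le_tsum fun x => ?_)
        by_cases h : x.1 ≤ ((J * (S + i0) : ℕ) : ℤ) ∧ ((J * S : ℕ) : ℤ) ≤ x.1
        · rw [if_pos h, if_pos h]
        · rw [if_neg h]; exact zero_le

open Classical in
/-- **reduction**: start piece of length `T0`, `J` attempts, then one piece -/
lemma red (h1 : ∀ b, 1 ≤ ht b) (hΛ : ∑' b, Λ b = 1) (hU1 : ∀ n, U Λ ht n ≤ 1) (T0 J : ℕ)
    (th u : ℝ≥0∞) (hu0 : u ≠ 0) (hu1 : u ≤ 1)
    (hth : u ≤ ∑' y, (if pp Λ ht z S y ≤ th then pp Λ ht z S y else 0)) :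
    ∃ α b : ℤ × G → ℝ≥0∞, (∑' x, α x ≤ 1) ∧ (∀ x, α x ≤ th / u + b x) ∧
      (∑' x, b x ≤ (1 - u) ^ J) ∧
      (∀ x, α x ≠ 0 → ((T0 + J * S : ℕ) : ℤ) ≤ x.1 ∧
        x.1 ≤ ((T0 + i0 + J * (S + i0) : ℕ) : ℤ)) ∧
      ∀ n, T0 + i0 + (J + 1) * (S + i0) ≤ n → ∀ (F : List B → ℝ≥0∞), (∀ L, F L ≤ 1) →
        ∀ (Φ : ℤ × G → List B → ℝ≥0∞),
        (∀ A P R, T0 + J * S ≤ HT ht A → HT ht A ≤ T0 + i0 + J * (S + i0) → FP ht S P →
          HT ht P ≤ S + i0 → F (A ++ P ++ R) ≤ Φ (pos ht z A) P) →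
        ∑' L, (if HT ht L = n then LW Λ L * F L else 0)
          ≤ (J + 2 : ℕ) * (∑' b, Λ b * ((ht b - i0 : ℕ) : ℝ≥0∞))
            + ∑' x, α x * ∑' P, (if FP ht S P ∧ HT ht P ≤ S + i0 then LW Λ P * Φ x P else 0) := by
  obtain ⟨b, hb1, hb2⟩ := ff_dens Λ ht z S h1 hΛ th u hu0 hu1 hth J
  set e := ∑' b, Λ b * ((ht b - i0 : ℕ) : ℝ≥0∞) with he
  set fr : ℤ × G → ℝ≥0∞ := fun x => (if x.1 ≤ ((J * (S + i0) : ℕ) : ℤ) ∧
    ((J * S : ℕ) : ℤ) ≤ x.1 then ff Λ ht z S J x else 0) with hfr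
  have hfr1 : ∀ x, fr x ≤ ff Λ ht z S J x := by
    intro x; simp only [hfr]; split_ifs; exacts [le_rfl, zero_le]
  set κ : List B → ℝ≥0∞ := fun Q => if FP ht T0 Q ∧ HT ht Q ≤ T0 + i0 then LW Λ Q else 0 with hκ
  have hκ1 : ∑' Q, κ Q ≤ 1 := by
    rw [← mass_one Λ ht h1 hΛ T0]
    refine ENNReal.tsum_le_tsum fun Q => ?_
    simp only [hκ]
    by_cases h : FP ht T0 Q ∧ HT ht Q ≤ T0 + i0
    · rw [if_pos h, if_pos h.1]
    · rw [if_neg h]; exact zero_le
  have hsh : ∀ (f : ℤ × G → ℝ≥0∞) (y : ℤ × G), ∑' x, f (x - y) = ∑' x, f x := fun f y =>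
    (Equiv.subRight y).tsum_eq f
  refine ⟨fun x => ∑' Q, κ Q * fr (x - pos ht z Q), fun x => ∑' Q, κ Q * b (x - pos ht z Q),
    ?_, ?_, ?_, ?_, ?_⟩
  · rw [ENNReal.tsum_comm]
    calc _ ≤ ∑' Q, κ Q * 1 := by
          refine ENNReal.tsum_le_tsum fun Q => ?_
          rw [ENNReal.tsum_mul_left, hsh]
          refine mul_le_mul_right ?_ _
          rw [← ff_mass Λ ht z S h1 hΛ J]
          exact ENNReal.tsum_le_tsum hfr1
      _ ≤ 1 := by simp only [mul_one]; exact hκ1
  · intro x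
    calc _ ≤ ∑' Q, (κ Q * (th / u) + κ Q * b (x - pos ht z Q)) := by
          refine ENNReal.tsum_le_tsum fun Q => ?_
          rw [← mul_add]
          exact mul_le_mul_right ((hfr1 _).trans (hb2 _)) _
      _ = (∑' Q, κ Q) * (th / u) + ∑' Q, κ Q * b (x - pos ht z Q) := by
          rw [ENNReal.tsum_add, ENNReal.tsum_mul_right]
      _ ≤ 1 * (th / u) + ∑' Q, κ Q * b (x - pos ht z Q) :=
          add_le_add (mul_le_mul_left hκ1 _) le_rfl
      _ = _ := by rw [one_mul]
  · rw [ENNReal.tsum_comm]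
    calc _ ≤ ∑' Q, κ Q * (1 - u) ^ J := by
          refine ENNReal.tsum_le_tsum fun Q => ?_
          rw [ENNReal.tsum_mul_left, hsh]
          exact mul_le_mul_right hb1 _
      _ = (∑' Q, κ Q) * (1 - u) ^ J := ENNReal.tsum_mul_right
      _ ≤ 1 * (1 - u) ^ J := mul_le_mul_left hκ1 _
      _ = _ := one_mul _
  · intro x hx
    obtain ⟨Q, hQ⟩ : ∃ Q, κ Q * fr (x - pos ht z Q) ≠ 0 := by
      by_contra hc
      push Not at hc
      exact hx (ENNReal.tsum_eq_zero.2 hc)
    have q1 : κ Q ≠ 0 := fun h => hQ (by rw [h, zero_mul])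
    have q2 : fr (x - pos ht z Q) ≠ 0 := fun h => hQ (by rw [h, mul_zero])
    have q3 : FP ht T0 Q ∧ HT ht Q ≤ T0 + i0 := by
      by_contra h; exact q1 (by simp only [hκ]; rw [if_neg h])
    have q4 : (x - pos ht z Q).1 ≤ ((J * (S + i0) : ℕ) : ℤ) ∧
        ((J * S : ℕ) : ℤ) ≤ (x - pos ht z Q).1 := by
      by_contra h; exact q2 (by simp only [hfr]; rw [if_neg h])
    have q5 := FP_le ht Q T0 q3.1
    have q6 : (x - pos ht z Q).1 = x.1 - (HT ht Q : ℤ) := rfl
    rw [q6] at q4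
    push_cast at q4 ⊢
    omega
  · intro n hn F hF Φ hΦ
    have hJ : (J + 1) * (S + i0) = J * (S + i0) + (S + i0) := by ring
    refine (att_le Λ ht T0 i0 h1 hΛ hU1 1 n F hF (by omega)).trans ?_
    simp only [IJ, List.append_nil, Nat.cast_one, one_mul]
    rw [← he]
    have s1 : ∀ Q, (if FP ht T0 Q ∧ HT ht Q ≤ T0 + i0 then
        LW Λ Q * ∑' R, (if HT ht Q + HT ht R = n then LW Λ R * F (Q ++ R) else 0) else 0)
        ≤ κ Q * ((J + 1 : ℕ) * e) + κ Q * ∑' x, fr x * ∑' P, (if FP ht S P ∧ HT ht P ≤ S + i0 then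
            LW Λ P * Φ (pos ht z Q + x) P else 0) := by
      intro Q
      by_cases hQ : FP ht T0 Q ∧ HT ht Q ≤ T0 + i0
      · have hk : κ Q = LW Λ Q := by simp only [hκ]; rw [if_pos hQ]
        rw [if_pos hQ, hk, ← mul_add]
        refine mul_le_mul_right ?_ _
        have q5 := FP_le ht Q T0 hQ.1
        have := red1 Λ ht z S i0 h1 hΛ hU1 J (n - HT ht Q) (by omega) (fun R => F (Q ++ R))
          (fun R => hF _) (fun x P => Φ (pos ht z Q + x) P) (by
            intro A P R a1 a2 a3 a4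
            have := hΦ (Q ++ A) P R (by rw [HT_append]; omega) (by rw [HT_append]; omega) a3 a4
            rw [pos_append] at this
            simpa only [List.append_assoc] using this)
        refine le_trans (le_of_eq ?_) this
        refine tsum_congr fun R => ?_
        by_cases h : HT ht Q + HT ht R = n
        · rw [if_pos h, if_pos (by omega)]
        · rw [if_neg h, if_neg (by omega)]
      · rw [if_neg hQ]; exact zero_le
    refine (add_le_add le_rfl (ENNReal.tsum_le_tsum s1)).trans ?_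
    rw [ENNReal.tsum_add, ENNReal.tsum_mul_right, ← add_assoc]
    refine add_le_add ?_ (le_of_eq ?_)
    · calc e + (∑' Q, κ Q) * ((J + 1 : ℕ) * e) ≤ e + 1 * ((J + 1 : ℕ) * e) :=
            add_le_add le_rfl (mul_le_mul_left hκ1 _)
        _ = (J + 2 : ℕ) * e := by push_cast; ring
    · set Ψ : ℤ × G → ℝ≥0∞ := fun x => ∑' P, (if FP ht S P ∧ HT ht P ≤ S + i0 then
            LW Λ P * Φ x P else 0) with hΨ
      calc ∑' Q, κ Q * ∑' x, fr x * Ψ (pos ht z Q + x)
          = ∑' Q, ∑' x, κ Q * fr (x - pos ht z Q) * Ψ x := by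
            refine tsum_congr fun Q => ?_
            rw [← hsh (fun x => κ Q * fr (x - pos ht z Q) * Ψ x) (-(pos ht z Q)),
              ← ENNReal.tsum_mul_left]
            refine tsum_congr fun x => ?_
            rw [sub_neg_eq_add, add_sub_cancel_right, add_comm (pos ht z Q) x, mul_assoc]
        _ = ∑' x, (∑' Q, κ Q * fr (x - pos ht z Q)) * Ψ x := by
            rw [ENNReal.tsum_comm]
            refine tsum_congr fun x => ENNReal.tsum_mul_right

end red

end Crest.Agent.R154.Asm456
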