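import Crest.Agent.R154.AsmA_470

/-! Row 154, ROAD 801 (helper470): first passage law, density lemma, quantile. -/

set_option autoImplicit false

namespace Crest.Agent.R154.Asm470

open scoped ENNReal
open Crest.Agent.R154.B5A (LW HT U tail)

variable {B G : Type*} [AddCommGroup G] (Λ : B → ℝ≥0∞) (h : B → ℕ) (z : B → G)

lemma Dp_append (L L' : List B) : Dp z (L ++ L') = Dp z L + Dp z L' := by simp [Dp]

open Classical in
/-- first passage law: overshoot and displacement -/
noncomputable def V (a j : ℕ) (x : G) : ℝ≥0∞ :=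
  FS Λ h a (fun A => if HT h A = a + j ∧ Dp z A = x then 1 else 0)

lemma FS_tsum {ι : Type*} (a : ℕ) (F : ι → List B → ℝ≥0∞) :
    ∑' i, FS Λ h a (F i) = FS Λ h a (fun A => ∑' i, F i A) := by
  simp only [FS]
  rw [ENNReal.tsum_comm]
  refine tsum_congr fun A => ?_
  split_ifs
  · rw [ENNReal.tsum_mul_left]
  · simp

lemma FS_sum {ι : Type*} (s : Finset ι) (a : ℕ) (F : ι → List B → ℝ≥0∞) :
    ∑ i ∈ s, FS Λ h a (F i) = FS Λ h a (fun A => ∑ i ∈ s, F i A) := by
  classical
  induction s using Finset.induction_on with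
  | empty => simp [FS]
  | insert i s hi ih =>
    rw [Finset.sum_insert hi, ih, ← FS_add]
    congr 1; funext A; rw [Finset.sum_insert hi]

open Classical in
lemma group (a i0 : ℕ) (F : ℕ → G → ℝ≥0∞) :
    FS Λ h a (fun A => if HT h A ≤ a + i0 then F (HT h A - a) (Dp z A) else 0)
      = ∑ j ∈ Finset.range (i0 + 1), ∑' x, V Λ h z a j x * F j x := by
  have e : ∀ j x, V Λ h z a j x * F j x
      = FS Λ h a (fun A => if HT h A = a + j ∧ Dp z A = x then F j x else 0) := by
    intro j x
    rw [V, ← FS_mul]
    congr 1; funext A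
    split_ifs <;> simp
  simp only [e]
  simp only [FS_tsum]
  rw [FS_sum]
  apply le_antisymm
  · refine FS_mono Λ h a fun A hA => ?_
    split_ifs with h1
    · have h2 := FP_le h A a hA
      refine le_trans ?_ (Finset.single_le_sum (f := fun j => ∑' x,
        (if HT h A = a + j ∧ Dp z A = x then F j x else 0)) (fun _ _ => zero_le)
        (Finset.mem_range.2 (show HT h A - a < i0 + 1 by omega)))
      refine le_trans ?_ (ENNReal.le_tsum (Dp z A))
      rw [if_pos ⟨by omega, rfl⟩]
    · exact zero_le
  · refine FS_mono Λ h a fun A hA => ?_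
    have h2 := FP_le h A a hA
    have hx : ∀ j, ∑' x, (if HT h A = a + j ∧ Dp z A = x then F j x else 0)
        = if HT h A = a + j then F j (Dp z A) else 0 := by
      intro j
      rw [tsum_eq_single (Dp z A)]
      · simp
      · intro x hx; rw [if_neg]; rintro ⟨-, h3⟩; exact hx h3.symm
    simp only [hx]
    by_cases h1 : HT h A ≤ a + i0
    · rw [if_pos h1, Finset.sum_eq_single (HT h A - a)]
      · rw [if_pos (by omega)]
      · intro j _ hj; rw [if_neg (by omega)]
      · intro hj; exact absurd (Finset.mem_range.2 (by omega)) hj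
    · rw [if_neg h1, Finset.sum_eq_zero]
      intro j hj
      have := Finset.mem_range.1 hj
      rw [if_neg (by omega)]

lemma V_sum (h1 : ∀ b, 1 ≤ h b) (hΛ : ∑' b, Λ b = 1) (a : ℕ) :
    ∑' j, ∑' x, V Λ h z a j x ≤ 1 := by
  classical
  simp only [V, FS_tsum]
  refine FS_le Λ h h1 hΛ a _ 1 fun A hA => ?_
  have hx : ∀ j, ∑' x, (if HT h A = a + j ∧ Dp z A = x then (1 : ℝ≥0∞) else 0)
        = if HT h A = a + j then 1 else 0 := by
      intro j
      rw [tsum_eq_single (Dp z A)]
      · simp
      · intro x hx; rw [if_neg]; rintro ⟨-, h3⟩; exact hx h3.symm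
  simp only [hx]
  rw [tsum_eq_single (HT h A - a)]
  · split_ifs <;> simp
  · intro j hj; rw [if_neg (by omega)]

lemma V_sum_x (h1 : ∀ b, 1 ≤ h b) (hΛ : ∑' b, Λ b = 1) (a j : ℕ) :
    ∑' x, V Λ h z a j x ≤ 1 :=
  (ENNReal.le_tsum j).trans (V_sum Λ h z h1 hΛ a)

/-- law of the piece seen from the list -/
noncomputable def pw (T : ℕ) (A : List B) : ℝ≥0∞ := V Λ h z T (HT h A - T) (Dp z A)

open Classical in
/-- the density lemma -/
lemma dens (h1 : ∀ b, 1 ≤ h b) (hΛ : ∑' b, Λ b = 1) (T i0 : ℕ) (th q os : ℝ≥0∞)
    (hq : FS Λ h T (fun A => if pw Λ h z T A < 2 * th then 0 else 1) ≤ q)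
    (hq1 : q ≤ 1)
    (hos : FS Λ h T (fun L => if T + i0 < HT h L then 1 else 0) ≤ os) (J : ℕ) :
    ∀ a, J * (T + i0) ≤ a → ∃ Ag Bb : ℕ → G → ℝ≥0∞,
      (∀ j x, V Λ h z a j x ≤ Ag j x + Bb j x) ∧
      (∀ j x, Ag j x ≤ J * ((i0 + 1) * (2 * th))) ∧ ∑' j, ∑' x, Bb j x ≤ q ^ J + J * os := by
  induction J with
  | zero =>
    intro a _
    refine ⟨fun _ _ => 0, fun j x => V Λ h z a j x, fun j x => by simp, fun j x => by simp, ?_⟩
    simpa using V_sum Λ h z h1 hΛ a
  | succ J ih =>
    intro a ha
    have ha' : J * (T + i0) + (T + i0) ≤ a := by rw [add_mul, one_mul] at ha; exact ha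
    -- choice for every smaller level
    have hch : ∀ c : ℕ, ∃ Ag Bb : ℕ → G → ℝ≥0∞, J * (T + i0) ≤ c →
      (∀ j x, V Λ h z c j x ≤ Ag j x + Bb j x) ∧
      (∀ j x, Ag j x ≤ J * ((i0 + 1) * (2 * th))) ∧ ∑' j, ∑' x, Bb j x ≤ q ^ J + J * os := by
      intro c
      by_cases hc : J * (T + i0) ≤ c
      · obtain ⟨Ag, Bb, hh⟩ := ih c hc; exact ⟨Ag, Bb, fun _ => hh⟩
      · exact ⟨fun _ _ => 0, fun _ _ => 0, fun h => absurd h hc⟩
    choose Ag0 Bb0 h0 using hch
    -- first attempt
    have hV : ∀ j x, V Λ h z a j x ≤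
        FS Λ h T (fun A => if HT h A ≤ T + i0 then V Λ h z (a - HT h A) j (x - Dp z A) else
          FS Λ h (a - HT h A) (fun R => if HT h A + HT h R = a + j ∧ Dp z A + Dp z R = x
            then 1 else 0)) := by
      intro j x
      rw [V, FS, FS]
      have e : (∑' A : List B, if FP h A T then LW Λ A * (if HT h A ≤ T + i0 then
            V Λ h z (a - HT h A) j (x - Dp z A) else
            FS Λ h (a - HT h A) (fun R => if HT h A + HT h R = a + j ∧ Dp z A + Dp z R = x
            then 1 else 0)) else 0)
          ≥ ∑' p : List B × List B, (if FP h p.1 T ∧ FP h p.2 (a - HT h p.1) ∧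
              HT h p.1 + HT h p.2 = a + j ∧ Dp z p.1 + Dp z p.2 = x then
              LW Λ p.1 * LW Λ p.2 else 0) := by
        rw [ge_iff_le, ENNReal.tsum_prod (f := fun A R => (if FP h A T ∧ FP h R (a - HT h A) ∧
              HT h A + HT h R = a + j ∧ Dp z A + Dp z R = x then LW Λ A * LW Λ R else 0))]
        refine ENNReal.tsum_le_tsum fun A => ?_
        by_cases hA : FP h A T
        · rw [if_pos hA]
          by_cases hA2 : HT h A ≤ T + i0
          · rw [if_pos hA2, V, FS, ← ENNReal.tsum_mul_left]
            refine ENNReal.tsum_le_tsum fun R => ?_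
            by_cases hR : FP h A T ∧ FP h R (a - HT h A) ∧
              HT h A + HT h R = a + j ∧ Dp z A + Dp z R = x
            · have g5 : HT h R = a - HT h A + j ∧ Dp z R = x - Dp z A :=
                ⟨by omega, by rw [← hR.2.2.2]; abel⟩
              rw [if_pos hR, if_pos hR.2.1, if_pos g5, mul_one]
            · rw [if_neg hR]; exact zero_le
          · rw [if_neg hA2, FS, ← ENNReal.tsum_mul_left]
            refine ENNReal.tsum_le_tsum fun R => ?_
            by_cases hR : FP h A T ∧ FP h R (a - HT h A) ∧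
              HT h A + HT h R = a + j ∧ Dp z A + Dp z R = x
            · rw [if_pos hR, if_pos hR.2.1, if_pos hR.2.2, mul_one]
            · rw [if_neg hR]; exact zero_le
        · rw [if_neg hA]
          simp [hA]
      refine le_trans ?_ e
      have hinj : Function.Injective (fun L : List B => cut h L T) := by
        intro L L' hLL
        have := congrArg (fun q : List B × List B => q.1 ++ q.2) hLL
        simpa [cut_app] using this
      refine le_trans (ENNReal.tsum_le_tsum fun L => ?_)
        (ENNReal.tsum_comp_le_tsum_of_injective hinj _)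
      by_cases hL : FP h L a
      · rw [if_pos hL]
        by_cases hL2 : HT h L = a + j ∧ Dp z L = x
        · have g1 : FP h (cut h L T).1 T := cut_FP_pre h L a T hL (by omega)
          have g2 : FP h (cut h L T).2 (a - HT h (cut h L T).1) := by
            apply FP_append; rw [cut_app]; exact hL
          rw [if_pos hL2, if_pos ⟨g1, g2, by rw [← B5A.HT_append, cut_app]; exact hL2.1,
            by rw [← Dp_append, cut_app]; exact hL2.2⟩, ← B5A.LW_append, cut_app, mul_one]
        · rw [if_neg hL2, mul_zero]; exact zero_le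
      · rw [if_neg hL]; exact zero_le
    -- the three parts
    refine ⟨fun j x => FS Λ h T (fun A => if HT h A ≤ T + i0 then
          (if pw Λ h z T A < 2 * th then V Λ h z (a - HT h A) j (x - Dp z A) else 0) else 0)
        + FS Λ h T (fun A => if HT h A ≤ T + i0 then (if pw Λ h z T A < 2 * th then 0 else
            Ag0 (a - HT h A) j (x - Dp z A)) else 0),
      fun j x => FS Λ h T (fun A => if HT h A ≤ T + i0 then (if pw Λ h z T A < 2 * th then 0 else
            Bb0 (a - HT h A) j (x - Dp z A)) else 0)
        + FS Λ h T (fun A => if HT h A ≤ T + i0 then 0 else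
          FS Λ h (a - HT h A) (fun R => if HT h A + HT h R = a + j ∧ Dp z A + Dp z R = x
            then 1 else 0)), ?_, ?_, ?_⟩
    · intro j x
      refine (hV j x).trans ?_
      beta_reduce
      rw [← FS_add, ← FS_add, ← FS_add]
      refine FS_mono Λ h T fun A _ => ?_
      by_cases hA : HT h A ≤ T + i0
      · simp only [if_pos hA]
        by_cases hp : pw Λ h z T A < 2 * th
        · simp [if_pos hp]
        · simp only [if_neg hp, zero_add, add_zero]
          exact (h0 (a - HT h A) (by omega)).1 j _
      · simp [if_neg hA]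
    · intro j x
      have e1 : FS Λ h T (fun A => if HT h A ≤ T + i0 then
          (if pw Λ h z T A < 2 * th then V Λ h z (a - HT h A) j (x - Dp z A) else 0) else 0)
          ≤ (i0 + 1) * (2 * th) := by
        have e2 := group Λ h z T i0 (fun k y => if V Λ h z T k y < 2 * th then
          V Λ h z (a - (T + k)) j (x - y) else 0)
        calc _ ≤ FS Λ h T (fun A => if HT h A ≤ T + i0 then (fun k y => if V Λ h z T k y < 2 * th
              then V Λ h z (a - (T + k)) j (x - y) else 0) (HT h A - T) (Dp z A) else 0) := by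
              refine FS_mono Λ h T fun A hA => ?_
              have h7 := FP_le h A T hA
              have e5 : T + (HT h A - T) = HT h A := by omega
              simp only [pw, e5]
              exact le_rfl
          _ = _ := e2
          _ ≤ ∑ k ∈ Finset.range (i0 + 1), 2 * th := by
              refine Finset.sum_le_sum fun k _ => ?_
              calc _ ≤ ∑' y, 2 * th * V Λ h z (a - (T + k)) j (x - y) := by
                    refine ENNReal.tsum_le_tsum fun y => ?_
                    split_ifs with hp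
                    · exact mul_le_mul_left hp.le _
                    · simp
                _ = 2 * th * ∑' y, V Λ h z (a - (T + k)) j y := by
                    rw [ENNReal.tsum_mul_left]
                    congr 1
                    exact (Equiv.subLeft x).tsum_eq (fun y => V Λ h z (a - (T + k)) j y)
                _ ≤ 2 * th * 1 := mul_le_mul_right (V_sum_x Λ h z h1 hΛ _ _) _
                _ = 2 * th := mul_one _
          _ = (i0 + 1) * (2 * th) := by
              rw [Finset.sum_const, Finset.card_range, nsmul_eq_mul]; push_cast; rfl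
      have e3 : FS Λ h T (fun A => if HT h A ≤ T + i0 then (if pw Λ h z T A < 2 * th then 0 else
            Ag0 (a - HT h A) j (x - Dp z A)) else 0) ≤ J * ((i0 + 1) * (2 * th)) := by
        refine FS_le Λ h h1 hΛ T _ _ fun A _ => ?_
        split_ifs with g1 g2
        · exact zero_le
        · exact (h0 (a - HT h A) (by omega)).2.1 j _
        · exact zero_le
      calc _ ≤ (i0 + 1) * (2 * th) + J * ((i0 + 1) * (2 * th)) := add_le_add e1 e3
        _ = _ := by push_cast; ring
    · simp only [ENNReal.tsum_add, FS_tsum]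
      have e1 : FS Λ h T (fun A => ∑' j, ∑' x, (if HT h A ≤ T + i0 then
          (if pw Λ h z T A < 2 * th then 0 else Bb0 (a - HT h A) j (x - Dp z A)) else 0))
          ≤ q * (q ^ J + J * os) := by
        calc _ ≤ FS Λ h T (fun A => (if pw Λ h z T A < 2 * th then 0 else 1)
              * (q ^ J + J * os)) := by
              refine FS_mono Λ h T fun A _ => ?_
              by_cases g1 : HT h A ≤ T + i0
              · by_cases g2 : pw Λ h z T A < 2 * th
                · simp [g2]
                · simp only [if_pos g1, if_neg g2, one_mul]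
                  refine le_trans (le_of_eq ?_) (h0 (a - HT h A) (by omega)).2.2
                  refine tsum_congr fun j => ?_
                  exact (Equiv.subRight (Dp z A)).tsum_eq (fun y => Bb0 (a - HT h A) j y)
              · simp [g1]
          _ = _ := FS_mul Λ h T _ _
          _ ≤ q * (q ^ J + J * os) := mul_le_mul_left hq _
      have e2 : FS Λ h T (fun A => ∑' j, ∑' x, (if HT h A ≤ T + i0 then 0 else
          FS Λ h (a - HT h A) (fun R => if HT h A + HT h R = a + j ∧ Dp z A + Dp z R = x
            then 1 else 0))) ≤ os := by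
        refine le_trans (FS_mono Λ h T fun A _ => ?_) hos
        by_cases g1 : HT h A ≤ T + i0
        · simp [g1]
        · rw [if_pos (by omega)]
          simp only [if_neg g1, FS_tsum]
          refine FS_le Λ h h1 hΛ _ _ 1 fun R _ => ?_
          have hx : ∀ j, ∑' x, (if HT h A + HT h R = a + j ∧ Dp z A + Dp z R = x
              then (1 : ℝ≥0∞) else 0) = if HT h A + HT h R = a + j then 1 else 0 := by
            intro j
            rw [tsum_eq_single (Dp z A + Dp z R)]
            · simp
            · intro x hx; rw [if_neg]; rintro ⟨-, h3⟩; exact hx h3.symm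
          simp only [hx]
          rw [tsum_eq_single (HT h A + HT h R - a)]
          · split_ifs <;> simp
          · intro j hj; rw [if_neg (by omega)]
      calc _ ≤ q * (q ^ J + J * os) + os := add_le_add e1 e2
        _ = q ^ (J + 1) + (q * (J * os) + os) := by ring
        _ ≤ q ^ (J + 1) + (1 * (J * os) + os) := by gcongr
        _ = _ := by push_cast; ring

open Classical in
/-- dyadic quantile -/
lemma quantile (h1 : ∀ b, 1 ≤ h b) (hΛ : ∑' b, Λ b = 1) (T : ℕ) (u : ℝ≥0∞) (hu : u ≠ 0)
    (hu1 : u ≤ 1) : ∃ th : ℝ≥0∞, th ≠ 0 ∧ th ≠ ⊤ ∧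
      FS Λ h T (fun A => if pw Λ h z T A < th then 1 else 0) ≤ u ∧
      u ≤ FS Λ h T (fun A => if pw Λ h z T A < 2 * th then 1 else 0) := by
  set Fn : ℕ → ℝ≥0∞ := fun k => FS Λ h T (fun A => if pw Λ h z T A < (2⁻¹ : ℝ≥0∞) ^ k
    then 1 else 0) with hFn
  have hpw : ∀ A, FP h A T → LW Λ A ≤ pw Λ h z T A := by
    intro A hA
    have := FP_le h A T hA
    rw [pw, V, FS]
    refine le_trans ?_ (ENNReal.le_tsum A)
    rw [if_pos hA, if_pos ⟨by omega, rfl⟩, mul_one]
  have hpw1 : ∀ A, pw Λ h z T A ≤ 1 := fun A =>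
    (ENNReal.le_tsum (Dp z A)).trans (V_sum_x Λ h z h1 hΛ T _)
  have hex : ∃ k, Fn k ≤ u := by
    have hsum : ∑' A : List B, (if FP h A T then LW Λ A else 0) ≠ ⊤ := by
      have := FS_one Λ h h1 hΛ T
      rw [FS] at this
      simp only [mul_one] at this
      rw [this]; exact ENNReal.one_ne_top
    obtain ⟨s, hs⟩ := ((ENNReal.tendsto_tsum_compl_atTop_zero hsum).eventually
      (Iic_mem_nhds (pos_iff_ne_zero.2 hu))).exists
    -- a power below all the positive weights in `s`
    have hk : ∃ k : ℕ, ∀ A ∈ s, LW Λ A ≠ 0 → (2⁻¹ : ℝ≥0∞) ^ k ≤ LW Λ A := by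
      have ht : Filter.Tendsto (fun k : ℕ => (2⁻¹ : ℝ≥0∞) ^ k) Filter.atTop (nhds 0) :=
        ENNReal.tendsto_pow_atTop_nhds_zero_of_lt_one (by norm_num)
      have : ∀ A ∈ s, ∀ᶠ k : ℕ in Filter.atTop, LW Λ A ≠ 0 → (2⁻¹ : ℝ≥0∞) ^ k ≤ LW Λ A := by
        intro A _
        by_cases hA : LW Λ A = 0
        · exact Filter.Eventually.of_forall fun k hk => absurd hA hk
        · exact (ht.eventually (Iic_mem_nhds (pos_iff_ne_zero.2 hA))).mono fun k hk _ => hk
      exact ((Filter.eventually_all_finset s).2 this).exists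
    obtain ⟨k, hk⟩ := hk
    refine ⟨k, le_trans ?_ hs⟩
    simp only [hFn, FS]
    have : ∀ A : List B, (if FP h A T then LW Λ A * (if pw Λ h z T A < (2⁻¹ : ℝ≥0∞) ^ k
        then (1 : ℝ≥0∞) else 0) else 0) ≤ Set.indicator ((s : Set (List B))ᶜ)
          (fun A => if FP h A T then LW Λ A else 0) A := by
      intro A
      by_cases hA : FP h A T
      · by_cases hAs : A ∈ s
        · rw [if_pos hA]
          by_cases h3 : pw Λ h z T A < (2⁻¹ : ℝ≥0∞) ^ k
          · have : LW Λ A = 0 := by
              by_contra h4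
              exact absurd (hk A hAs h4) (not_le.2 ((hpw A hA).trans_lt h3))
            rw [this, zero_mul]; exact zero_le
          · rw [if_neg h3, mul_zero]; exact zero_le
        · rw [Set.indicator_of_mem (by simpa using hAs), if_pos hA, if_pos hA]
          split_ifs <;> simp
      · rw [if_neg hA]; exact zero_le
    refine (ENNReal.tsum_le_tsum this).trans (le_of_eq ?_)
    exact (tsum_subtype ((s : Set (List B))ᶜ) (fun A => if FP h A T then LW Λ A else 0)).symm
  refine ⟨(2⁻¹ : ℝ≥0∞) ^ (Nat.find hex), ?_, ?_, Nat.find_spec hex, ?_⟩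
  · exact pow_ne_zero _ (by simp)
  · exact ENNReal.pow_ne_top (by simp)
  · rcases Nat.eq_zero_or_pos (Nat.find hex) with h0 | h0
    · rw [h0, pow_zero, mul_one]
      refine (hu1.trans (FS_one Λ h h1 hΛ T).ge).trans ?_
      refine FS_mono Λ h T fun A _ => ?_
      rw [if_pos ((hpw1 A).trans_lt (by norm_num))]
    · have h2 := Nat.find_min hex (show Nat.find hex - 1 < Nat.find hex by omega)
      have h3 : 2 * (2⁻¹ : ℝ≥0∞) ^ (Nat.find hex) = (2⁻¹ : ℝ≥0∞) ^ (Nat.find hex - 1) := by
        obtain ⟨k, hk⟩ : ∃ k, Nat.find hex = k + 1 := ⟨Nat.find hex - 1, by omega⟩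
        rw [hk, Nat.add_sub_cancel, pow_succ, mul_comm ((2⁻¹ : ℝ≥0∞) ^ k), ← mul_assoc,
          ENNReal.mul_inv_cancel (by norm_num) (by norm_num), one_mul]
      rw [h3]
      exact (not_le.1 h2).le

end Crest.Agent.R154.Asm470
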