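import Crest.Agent.R154.AsmA_471

/-! Row 154, T0219 (ROAD 801): windows (helper471). -/

set_option autoImplicit false
set_option linter.unusedSectionVars false

namespace Crest.Agent.R154.Asm471

open Crest.Agent.R154.B5A
open scoped ENNReal Classical
open Filter Topology

section geo
variable {B G : Type*} [AddCommGroup G] (ht : B → ℕ) (dz : B → G) (s : B → Set (G × ℕ))

/-- positions and depths of the sites of a list hung at `(x, a)` -/
def TS : List B → G → ℕ → Set (G × ℕ)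
  | [], _, _ => ∅
  | b :: L, x, a => {p | ∃ z k, (z, k) ∈ s b ∧ p = (x + z, a + k)} ∪ TS L (x + dz b) (a + ht b)

lemma TS_append (L L' : List B) (x : G) (a : ℕ) :
    TS ht dz s (L ++ L') x a = TS ht dz s L x a ∪ TS ht dz s L' (x + Dp dz L) (a + HT ht L) := by
  induction L generalizing x a with
  | nil => simp [TS, Dp_nil, HT_nil]
  | cons b L ih =>
    simp only [List.cons_append, TS]
    rw [ih, Dp_cons, HT_cons, Set.union_assoc, add_assoc, add_assoc]

lemma TS_range (hs : ∀ b z k, (z, k) ∈ s b → 1 ≤ k ∧ k ≤ ht b) (L : List B) (x : G) (a : ℕ)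
    (z : G) (k : ℕ) (h : (z, k) ∈ TS ht dz s L x a) : a < k ∧ k ≤ a + HT ht L := by
  induction L generalizing x a with
  | nil => simp [TS] at h
  | cons b L ih =>
    rw [HT_cons]
    rcases h with ⟨z', k', hk, he⟩ | h
    · have := hs b z' k' hk
      simp only [Prod.mk.injEq] at he
      omega
    · have := ih _ _ h
      omega

lemma TS_shift (L : List B) (x y : G) (a : ℕ) (z : G) (k : ℕ) :
    (z + y, k) ∈ TS ht dz s L (x + y) a ↔ (z, k) ∈ TS ht dz s L x a := by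
  induction L generalizing x a with
  | nil => simp [TS]
  | cons b L ih =>
    simp only [TS, Set.mem_union, Set.mem_ofPred_eq]
    rw [show x + y + dz b = x + dz b + y by abel, ih]
    refine or_congr ?_ Iff.rfl
    constructor
    · rintro ⟨z', k', h1, h2⟩
      refine ⟨z', k', h1, ?_⟩
      simp only [Prod.mk.injEq] at h2 ⊢
      refine ⟨?_, h2.2⟩
      have := h2.1
      have h3 : z + y = (x + z') + y := by rw [this]; abel
      exact add_right_cancel h3
    · rintro ⟨z', k', h1, h2⟩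
      refine ⟨z', k', h1, ?_⟩
      simp only [Prod.mk.injEq] at h2 ⊢
      exact ⟨by rw [h2.1]; abel, h2.2⟩

end geo

section split
variable {B G : Type*} [AddCommGroup G] (Λ : B → ℝ≥0∞) (ht : B → ℕ) (dz : B → G)
variable (h1 : ∀ b, 1 ≤ ht b)
include h1

/-- first passage of `α`, then piece of height `β`, then the rest. -/
lemma split2 (hΛ : ∑' b, Λ b = 1) (hU1 : ∀ n, U Λ ht n ≤ 1) (n α β i0 : ℕ) (hn : α + i0 + β ≤ n)
    (ε1 : ℝ≥0∞) (hα : N ht α (fun P => if α + i0 < HT ht P then LW Λ P else 0) ≤ ε1)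
    (hβ : N ht β (fun P => if β + i0 < HT ht P then LW Λ P else 0) ≤ ε1)
    (f : List B → ℝ≥0∞) (hf : ∀ L, f L ≤ 1) (g : List B → List B → ℝ≥0∞)
    (hg : ∀ A P R, FP ht α A → FP ht β P → HT ht A ≤ α + i0 → HT ht P ≤ β + i0 →
      HT ht (A ++ (P ++ R)) = n → f (A ++ (P ++ R)) ≤ g A P) :
    ∑' L, (if HT ht L = n then LW Λ L * f L else 0) ≤
      N ht α (fun A => N ht β (fun P => if HT ht A ≤ α + i0 ∧ HT ht P ≤ β + i0 then
        LW Λ A * (LW Λ P * g A P) else 0)) + 2 * ε1 := by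
  have hU : ∀ (A : List B), ∑' R, (if HT ht (A ++ R) = n then LW Λ R else 0) ≤ 1 := by
    intro A
    by_cases hA : HT ht A ≤ n
    · refine le_trans (le_of_eq ?_) (hU1 (n - HT ht A))
      rw [U]
      refine tsum_congr fun R => ?_
      rw [HT_append]
      by_cases h : HT ht A + HT ht R = n
      · rw [if_pos h, if_pos (by omega)]
      · rw [if_neg h, if_neg (by omega)]
    · rw [ENNReal.tsum_eq_zero.2 (fun R => by rw [HT_append, if_neg (by omega)])]
      exact zero_le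
  have e1 : ∑' L, (if HT ht L = n then LW Λ L * f L else 0)
      = ∑' L, (if α ≤ HT ht L then (if HT ht L = n then LW Λ L * f L else 0) else 0) := by
    refine tsum_congr fun L => ?_
    by_cases h : HT ht L = n
    · rw [if_pos h, if_pos (by omega)]
    · rw [if_neg h]; simp
  rw [e1, split_eq ht h1]
  calc _ ≤ N ht α (fun A => (if α + i0 < HT ht A then LW Λ A else 0) + (LW Λ A * ε1
        + N ht β (fun P => if HT ht A ≤ α + i0 ∧ HT ht P ≤ β + i0 then
        LW Λ A * (LW Λ P * g A P) else 0))) := by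
        refine N_mono ht α fun A hA => ?_
        by_cases hl : α + i0 < HT ht A
        · rw [if_pos hl]
          refine le_add_right ?_
          calc _ ≤ ∑' R, LW Λ A * (if HT ht (A ++ R) = n then LW Λ R else 0) := by
                refine ENNReal.tsum_le_tsum fun R => ?_
                by_cases h : HT ht (A ++ R) = n
                · rw [if_pos h, if_pos h, LW_append]
                  exact mul_le_of_le_one_right' (hf _)
                · rw [if_neg h]; exact zero_le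
            _ = LW Λ A * ∑' R, (if HT ht (A ++ R) = n then LW Λ R else 0) := ENNReal.tsum_mul_left
            _ ≤ LW Λ A * 1 := mul_le_mul_right (hU A) _
            _ = _ := mul_one _
        · refine le_add_left ?_
          have e2 : ∑' L2, (if HT ht (A ++ L2) = n then LW Λ (A ++ L2) * f (A ++ L2) else 0)
              = ∑' L2, (if β ≤ HT ht L2 then (if HT ht (A ++ L2) = n then
                LW Λ (A ++ L2) * f (A ++ L2) else 0) else 0) := by
            refine tsum_congr fun L => ?_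
            by_cases h : HT ht (A ++ L) = n
            · rw [if_pos h, if_pos (by rw [HT_append] at h; omega)]
            · rw [if_neg h]; simp
          refine (le_of_eq e2).trans ?_
          refine (le_of_eq (split_eq ht h1 β _)).trans ?_
          calc _ ≤ N ht β (fun P => LW Λ A * (if β + i0 < HT ht P then LW Λ P else 0)
                + (if HT ht A ≤ α + i0 ∧ HT ht P ≤ β + i0 then
                LW Λ A * (LW Λ P * g A P) else 0)) := by
                refine N_mono ht β fun P hP => ?_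
                have hR : ∀ c : ℝ≥0∞, (∀ R, HT ht (A ++ (P ++ R)) = n → f (A ++ (P ++ R)) ≤ c) →
                    ∑' R, (if HT ht (A ++ (P ++ R)) = n then
                    LW Λ (A ++ (P ++ R)) * f (A ++ (P ++ R)) else 0) ≤ LW Λ A * (LW Λ P * c) := by
                  intro c hc
                  calc _ ≤ ∑' R, LW Λ A * (LW Λ P * c) * (if HT ht ((A ++ P) ++ R) = n then LW Λ R else 0) := by
                        refine ENNReal.tsum_le_tsum fun R => ?_
                        rw [List.append_assoc]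
                        by_cases h : HT ht (A ++ (P ++ R)) = n
                        · rw [if_pos h, if_pos h, LW_append, LW_append]
                          calc _ ≤ LW Λ A * (LW Λ P * LW Λ R) * c := mul_le_mul_right (hc R h) _
                            _ = _ := by ring
                        · rw [if_neg h]; exact zero_le
                    _ = LW Λ A * (LW Λ P * c) * ∑' R, (if HT ht ((A ++ P) ++ R) = n then LW Λ R else 0) := ENNReal.tsum_mul_left
                    _ ≤ LW Λ A * (LW Λ P * c) * 1 := mul_le_mul_right (hU _) _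
                    _ = _ := mul_one _
                by_cases hlP : β + i0 < HT ht P
                · rw [if_pos hlP]
                  refine le_add_right ?_
                  refine (hR 1 (fun R _ => hf _)).trans ?_
                  rw [mul_one]
                · refine le_add_left ?_
                  rw [if_pos ⟨not_lt.1 hl, not_lt.1 hlP⟩]
                  exact hR _ (fun R h => hg A P R hA hP (not_lt.1 hl) (not_lt.1 hlP) h)
            _ = LW Λ A * N ht β (fun P => if β + i0 < HT ht P then LW Λ P else 0) + _ := by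
                rw [N_add, N_mul]
            _ ≤ _ := add_le_add (mul_le_mul_right hβ _) le_rfl
    _ = N ht α (fun A => if α + i0 < HT ht A then LW Λ A else 0) + (N ht α (LW Λ) * ε1 + _) := by
        rw [N_add, N_add]
        congr 2
        rw [mul_comm, ← N_mul]
        exact N_congr ht α fun A _ => mul_comm _ _
    _ ≤ ε1 + (1 * ε1 + _) := by
        refine add_le_add hα (add_le_add ?_ le_rfl)
        rw [N_mass Λ ht h1 hΛ]
    _ = _ := by ring

end split

section two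
variable {B1 B2 G : Type*} [AddCommGroup G]
variable (Λ1 : B1 → ℝ≥0∞) (h1 : B1 → ℕ) (z1 : B1 → G) (s1 : B1 → Set (G × ℕ))
variable (Λ2 : B2 → ℝ≥0∞) (h2 : B2 → ℕ) (z2 : B2 → G) (s2 : B2 → Set (G × ℕ))

/-- common site at depth `k` -/
def Ct (L : List B1) (x : G) (a : ℕ) (L' : List B2) (x' : G) (a' k : ℕ) : Prop :=
  ∃ z, (z, k) ∈ TS h1 z1 s1 L x a ∧ (z, k) ∈ TS h2 z2 s2 L' x' a'

lemma Ct_shift (L : List B1) (x y : G) (a : ℕ) (L' : List B2) (x' : G) (a' k : ℕ) :
    Ct h1 z1 s1 h2 z2 s2 L (x + y) a L' (x' + y) a' k ↔ Ct h1 z1 s1 h2 z2 s2 L x a L' x' a' k := by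
  constructor
  · rintro ⟨z, hz, hz'⟩
    refine ⟨z - y, ?_, ?_⟩
    · rw [← TS_shift h1 z1 s1 L x y, sub_add_cancel]; exact hz
    · rw [← TS_shift h2 z2 s2 L' x' y, sub_add_cancel]; exact hz'
  · rintro ⟨z, hz, hz'⟩
    exact ⟨z + y, (TS_shift h1 z1 s1 L x y a z k).2 hz, (TS_shift h2 z2 s2 L' x' y a' z k).2 hz'⟩

lemma Ct_symm (L : List B1) (x : G) (a : ℕ) (L' : List B2) (x' : G) (a' k : ℕ) :
    Ct h1 z1 s1 h2 z2 s2 L x a L' x' a' k ↔ Ct h2 z2 s2 h1 z1 s1 L' x' a' L x a k := by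
  constructor
  · rintro ⟨z, hz, hz'⟩; exact ⟨z, hz', hz⟩
  · rintro ⟨z, hz, hz'⟩; exact ⟨z, hz', hz⟩

/-- there is a contact, and all of them are at depth in `[lo, hi]` -/
def Q (lo hi : ℕ) (L : List B1) (x : G) (a : ℕ) (L' : List B2) (x' : G) (a' : ℕ) : Prop :=
  (∃ k, Ct h1 z1 s1 h2 z2 s2 L x a L' x' a' k) ∧
    ∀ k, Ct h1 z1 s1 h2 z2 s2 L x a L' x' a' k → lo ≤ k ∧ k ≤ hi

lemma Q_shift (lo hi : ℕ) (L : List B1) (x y : G) (a : ℕ) (L' : List B2) (x' : G) (a' : ℕ) :
    Q h1 z1 s1 h2 z2 s2 lo hi L (x + y) a L' (x' + y) a' ↔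
      Q h1 z1 s1 h2 z2 s2 lo hi L x a L' x' a' := by
  simp only [Q, Ct_shift]

lemma Q_symm (lo hi : ℕ) (L : List B1) (x : G) (a : ℕ) (L' : List B2) (x' : G) (a' : ℕ) :
    Q h1 z1 s1 h2 z2 s2 lo hi L x a L' x' a' ↔ Q h2 z2 s2 h1 z1 s1 lo hi L' x' a' L x a := by
  simp only [Q, Ct_symm h1 z1 s1 h2 z2 s2]

lemma N_comm (S T : ℕ) (Φ : List B1 → List B2 → ℝ≥0∞) :
    N h1 S (fun P => N h2 T (fun A => Φ P A)) = N h2 T (fun A => N h1 S (fun P => Φ P A)) := by
  simp only [N]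
  have : ∀ P, (if FP h1 S P then ∑' A, (if FP h2 T A then Φ P A else 0) else 0)
      = ∑' A, (if FP h2 T A then (if FP h1 S P then Φ P A else 0) else 0) := by
    intro P; by_cases h : FP h1 S P <;> simp [h]
  simp_rw [this]
  rw [ENNReal.tsum_comm]
  refine tsum_congr fun A => ?_
  by_cases h : FP h2 T A <;> simp [h]

/-- the fourfold sum -/
noncomputable def M4 (α1 β1 α2 β2 : ℕ) (I : List B1 → List B1 → List B2 → List B2 → ℝ≥0∞) : ℝ≥0∞ :=
  N h1 α1 (fun A => N h1 β1 (fun P => N h2 α2 (fun A' => N h2 β2 (fun P' =>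
    LW Λ1 A * (LW Λ1 P * (LW Λ2 A' * (LW Λ2 P' * I A P A' P')))))))

lemma M4_mono (α1 β1 α2 β2 : ℕ) {I I' : List B1 → List B1 → List B2 → List B2 → ℝ≥0∞}
    (h : ∀ A P A' P', FP h1 α1 A → FP h1 β1 P → FP h2 α2 A' → FP h2 β2 P' →
      I A P A' P' ≤ I' A P A' P') : M4 Λ1 h1 Λ2 h2 α1 β1 α2 β2 I ≤ M4 Λ1 h1 Λ2 h2 α1 β1 α2 β2 I' := by
  refine N_mono h1 α1 fun A hA => N_mono h1 β1 fun P hP => N_mono h2 α2 fun A' hA' =>
    N_mono h2 β2 fun P' hP' => ?_
  gcongr
  exact h A P A' P' hA hP hA' hP'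

lemma M4_add (α1 β1 α2 β2 : ℕ) (I I' : List B1 → List B1 → List B2 → List B2 → ℝ≥0∞) :
    M4 Λ1 h1 Λ2 h2 α1 β1 α2 β2 (fun A P A' P' => I A P A' P' + I' A P A' P')
      = M4 Λ1 h1 Λ2 h2 α1 β1 α2 β2 I + M4 Λ1 h1 Λ2 h2 α1 β1 α2 β2 I' := by
  simp only [M4, mul_add, N_add]

lemma M4_swap (α1 β1 α2 β2 : ℕ) (I : List B1 → List B1 → List B2 → List B2 → ℝ≥0∞) :
    M4 Λ1 h1 Λ2 h2 α1 β1 α2 β2 I = M4 Λ2 h2 Λ1 h1 α2 β2 α1 β1 (fun A' P' A P => I A P A' P') := by
  unfold M4
  calc _ = N h1 α1 (fun A => N h2 α2 (fun A' => N h1 β1 (fun P => N h2 β2 (fun P' =>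
        LW Λ1 A * (LW Λ1 P * (LW Λ2 A' * (LW Λ2 P' * I A P A' P'))))))) :=
        N_congr h1 α1 fun A _ => N_comm h1 h2 β1 α2 _
    _ = N h2 α2 (fun A' => N h1 α1 (fun A => N h1 β1 (fun P => N h2 β2 (fun P' =>
        LW Λ1 A * (LW Λ1 P * (LW Λ2 A' * (LW Λ2 P' * I A P A' P'))))))) := N_comm h1 h2 α1 α2 _
    _ = N h2 α2 (fun A' => N h1 α1 (fun A => N h2 β2 (fun P' => N h1 β1 (fun P =>
        LW Λ1 A * (LW Λ1 P * (LW Λ2 A' * (LW Λ2 P' * I A P A' P'))))))) :=
        N_congr h2 α2 fun A' _ => N_congr h1 α1 fun A _ => N_comm h1 h2 β1 β2 _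
    _ = N h2 α2 (fun A' => N h2 β2 (fun P' => N h1 α1 (fun A => N h1 β1 (fun P =>
        LW Λ1 A * (LW Λ1 P * (LW Λ2 A' * (LW Λ2 P' * I A P A' P'))))))) :=
        N_congr h2 α2 fun A' _ => N_comm h1 h2 α1 β2 _
    _ = _ := by
        refine N_congr h2 α2 fun A' _ => N_congr h2 β2 fun P' _ => N_congr h1 α1 fun A _ =>
          N_congr h1 β1 fun P _ => ?_
        ring

variable (hh1 : ∀ b, 1 ≤ h1 b) (hh2 : ∀ b, 1 ≤ h2 b) (hΛ1 : ∑' b, Λ1 b = 1) (hΛ2 : ∑' b, Λ2 b = 1)
include hh1 hh2 hΛ1 hΛ2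

/-- product bound -/
lemma M4_prod (α1 β1 α2 β2 : ℕ) (f : List B1 → ℝ≥0∞) (f' : List B2 → ℝ≥0∞) (u u' : ℝ≥0∞)
    (hf : N h1 β1 (fun P => LW Λ1 P * f P) ≤ u) (hf' : N h2 β2 (fun P => LW Λ2 P * f' P) ≤ u') :
    M4 Λ1 h1 Λ2 h2 α1 β1 α2 β2 (fun _ P _ P' => f P * f' P') ≤ u * u' := by
  unfold M4
  calc _ = N h1 α1 (fun A => N h1 β1 (fun P => (N h2 α2 (LW Λ2) * N h2 β2 (fun P' => LW Λ2 P' * f' P')) *
        (LW Λ1 A * (LW Λ1 P * f P)))) := by
        refine N_congr h1 α1 fun A _ => N_congr h1 β1 fun P _ => ?_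
        calc _ = N h2 α2 (fun A' => (LW Λ1 A * (LW Λ1 P * f P)) *
              (N h2 β2 (fun P' => LW Λ2 P' * f' P') * LW Λ2 A')) := by
              refine N_congr h2 α2 fun A' _ => ?_
              rw [mul_comm (N h2 β2 _), ← mul_assoc, ← N_mul]
              refine N_congr h2 β2 fun P' _ => ?_
              ring
          _ = (LW Λ1 A * (LW Λ1 P * f P)) * (N h2 β2 (fun P' => LW Λ2 P' * f' P') *
              N h2 α2 (LW Λ2)) := by rw [N_mul, N_mul]
          _ = _ := by ring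
    _ = (N h2 α2 (LW Λ2) * N h2 β2 (fun P' => LW Λ2 P' * f' P')) *
        N h1 α1 (fun A => LW Λ1 A * N h1 β1 (fun P => LW Λ1 P * f P)) := by
        simp_rw [N_mul]
    _ = N h1 β1 (fun P => LW Λ1 P * f P) * N h2 β2 (fun P' => LW Λ2 P' * f' P') := by
        rw [N_mass Λ2 h2 hh2 hΛ2, one_mul, mul_comm]
        congr 1
        simp_rw [mul_comm (LW Λ1 _) (N h1 β1 _)]
        rw [N_mul, N_mass Λ1 h1 hh1 hΛ1, mul_one]
    _ ≤ _ := mul_le_mul' hf hf'

/-- **System 1 local.** -/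
theorem local_part (α1 β1 α2 β2 i0 lo hi : ℕ) (w : G) (E : ℕ → Finset G) (M κ ρ : ℝ≥0∞)
    (g r : ℕ → G → ℝ≥0∞) (hgr : ∀ a z, pl Λ1 h1 z1 α1 a z ≤ g a z + r a z) (hg : ∀ a z, g a z ≤ M)
    (hr : ∑' a, ∑' z, r a z ≤ ρ)
    (hW : ∀ a ∈ Finset.Icc α1 (α1 + i0), ∀ a' ∈ Finset.Icc α2 (α2 + i0),
      ∀ h ∈ Finset.Icc β1 (β1 + i0), ∀ h' ∈ Finset.Icc β2 (β2 + i0),
      ∀ μ : G → ℝ≥0∞, ∑' x, μ x ≤ 1 → (∀ x, μ x ≤ M) →
      ∑' x, μ x * ∑' L, ∑' L', (if HT h1 L = h ∧ Dp z1 L ∈ E h ∧ HT h2 L' = h' ∧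
        Q h1 z1 s1 h2 z2 s2 lo hi L 0 a L' x a' then LW Λ1 L * LW Λ2 L' else 0) ≤ κ) :
    M4 Λ1 h1 Λ2 h2 α1 β1 α2 β2 (fun A P A' P' =>
      if (HT h1 A ≤ α1 + i0 ∧ HT h2 A' ≤ α2 + i0) ∧ (HT h1 P ≤ β1 + i0 ∧ HT h2 P' ≤ β2 + i0) ∧
        Dp z1 P ∈ E (HT h1 P) ∧
        Q h1 z1 s1 h2 z2 s2 lo hi P (Dp z1 A) (HT h1 A) P' (w + Dp z2 A') (HT h2 A') then 1 else 0)
      ≤ ρ + (i0 + 1) ^ 4 * κ := by
  set Ψ : ℕ → ℕ → ℕ → ℕ → G → ℝ≥0∞ := fun h h' a a' x => ∑' L, ∑' L',
    (if HT h1 L = h ∧ Dp z1 L ∈ E h ∧ HT h2 L' = h' ∧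
        Q h1 z1 s1 h2 z2 s2 lo hi L 0 a L' x a' then LW Λ1 L * LW Λ2 L' else 0) with hΨ
  set K : ℕ → ℕ → G → ℝ≥0∞ := fun a a' x => if a ≤ α1 + i0 ∧ a' ≤ α2 + i0 then
    N h1 β1 (fun P => N h2 β2 (fun P' => if (HT h1 P ≤ β1 + i0 ∧ HT h2 P' ≤ β2 + i0) ∧
      Dp z1 P ∈ E (HT h1 P) ∧ Q h1 z1 s1 h2 z2 s2 lo hi P 0 a P' x a' then
      LW Λ1 P * LW Λ2 P' else 0)) else 0 with hK
  have hK1 : ∀ a a' x, K a a' x ≤ 1 := by
    intro a a' x
    rw [hK]
    simp only
    split_ifs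
    · calc _ ≤ N h1 β1 (fun P => N h2 β2 (fun P' => LW Λ1 P * LW Λ2 P')) := by
            refine N_mono h1 β1 fun P _ => N_mono h2 β2 fun P' _ => ?_
            split_ifs
            · exact le_rfl
            · exact zero_le
        _ = 1 := by
            simp_rw [N_mul]
            rw [N_mass Λ2 h2 hh2 hΛ2]
            simp only [mul_one]
            exact N_mass Λ1 h1 hh1 hΛ1 β1
    · exact zero_le
  have hK2 : ∀ a a' x, K a a' x ≤ ∑ h ∈ Finset.Icc β1 (β1 + i0), ∑ h' ∈ Finset.Icc β2 (β2 + i0),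
      Ψ h h' a a' x := by
    intro a a' x
    rw [hK]
    simp only
    split_ifs with hc
    · rw [hΨ]
      simp only
      simp_rw [← Summable.tsum_finsetSum (fun _ _ => ENNReal.summable)]
      rw [N]
      refine ENNReal.tsum_le_tsum fun P => ?_
      by_cases hP : FP h1 β1 P
      · rw [if_pos hP, N]
        refine ENNReal.tsum_le_tsum fun P' => ?_
        by_cases hP' : FP h2 β2 P'
        · rw [if_pos hP']
          split_ifs with h3
          · have m1 : HT h1 P ∈ Finset.Icc β1 (β1 + i0) :=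
              Finset.mem_Icc.2 ⟨FP_le h1 β1 P hP, h3.1.1⟩
            have m2 : HT h2 P' ∈ Finset.Icc β2 (β2 + i0) :=
              Finset.mem_Icc.2 ⟨FP_le h2 β2 P' hP', h3.1.2⟩
            refine le_trans ?_ (Finset.single_le_sum (f := fun h => ∑ h' ∈ Finset.Icc β2 (β2 + i0),
              (if HT h1 P = h ∧ Dp z1 P ∈ E h ∧ HT h2 P' = h' ∧
              Q h1 z1 s1 h2 z2 s2 lo hi P 0 a P' x a' then LW Λ1 P * LW Λ2 P' else 0))
              (fun _ _ => zero_le) m1)
            refine le_trans ?_ (Finset.single_le_sum (f := fun h' =>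
              (if HT h1 P = HT h1 P ∧ Dp z1 P ∈ E (HT h1 P) ∧ HT h2 P' = h' ∧
              Q h1 z1 s1 h2 z2 s2 lo hi P 0 a P' x a' then LW Λ1 P * LW Λ2 P' else 0))
              (fun _ _ => zero_le) m2)
            simp only
            rw [if_pos ⟨trivial, h3.2.1, trivial, h3.2.2⟩]
          · exact zero_le
        · rw [if_neg hP']; exact zero_le
      · rw [if_neg hP]; exact zero_le
    · exact zero_le
  -- rewrite the fourfold sum
  have e1 : M4 Λ1 h1 Λ2 h2 α1 β1 α2 β2 (fun A P A' P' =>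
      if (HT h1 A ≤ α1 + i0 ∧ HT h2 A' ≤ α2 + i0) ∧ (HT h1 P ≤ β1 + i0 ∧ HT h2 P' ≤ β2 + i0) ∧
        Dp z1 P ∈ E (HT h1 P) ∧
        Q h1 z1 s1 h2 z2 s2 lo hi P (Dp z1 A) (HT h1 A) P' (w + Dp z2 A') (HT h2 A') then 1 else 0)
      = N h1 α1 (fun A => LW Λ1 A * N h2 α2 (fun A' => LW Λ2 A' *
        K (HT h1 A) (HT h2 A') (w + Dp z2 A' - Dp z1 A))) := by
    unfold M4
    refine N_congr h1 α1 fun A _ => ?_
    rw [N_comm h1 h2, ← N_mul]
    refine N_congr h2 α2 fun A' _ => ?_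
    rw [hK]
    simp only
    by_cases hc : HT h1 A ≤ α1 + i0 ∧ HT h2 A' ≤ α2 + i0
    · rw [if_pos hc, ← N_mul, ← N_mul]
      refine N_congr h1 β1 fun P _ => ?_
      rw [← N_mul, ← N_mul]
      refine N_congr h2 β2 fun P' _ => ?_
      have hq : Q h1 z1 s1 h2 z2 s2 lo hi P (Dp z1 A) (HT h1 A) P' (w + Dp z2 A') (HT h2 A') ↔
          Q h1 z1 s1 h2 z2 s2 lo hi P 0 (HT h1 A) P' (w + Dp z2 A' - Dp z1 A) (HT h2 A') := by
        have := Q_shift h1 z1 s1 h2 z2 s2 lo hi P 0 (Dp z1 A) (HT h1 A) P'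
          (w + Dp z2 A' - Dp z1 A) (HT h2 A')
        rw [zero_add, sub_add_cancel] at this
        exact this
      by_cases h5 : (HT h1 P ≤ β1 + i0 ∧ HT h2 P' ≤ β2 + i0) ∧ Dp z1 P ∈ E (HT h1 P) ∧
          Q h1 z1 s1 h2 z2 s2 lo hi P 0 (HT h1 A) P' (w + Dp z2 A' - Dp z1 A) (HT h2 A')
      · rw [if_pos ⟨hc, h5.1, h5.2.1, hq.2 h5.2.2⟩, if_pos h5]; ring
      · rw [if_neg (fun h6 => h5 ⟨h6.2.1, h6.2.2.1, hq.1 h6.2.2.2⟩), if_neg h5]; ring
    · rw [if_neg hc, mul_zero, mul_zero]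
      refine le_antisymm ?_ zero_le
      calc _ ≤ N h1 β1 (fun _ => 0) := by
            refine N_mono h1 β1 fun P _ => ?_
            calc _ ≤ N h2 β2 (fun _ => 0) := by
                  refine N_mono h2 β2 fun P' _ => ?_
                  rw [if_neg (fun h6 => hc h6.1)]; simp
              _ = 0 := by simp [N]
        _ = 0 := by simp [N]
  rw [e1]
  have e2 : N h1 α1 (fun A => LW Λ1 A * N h2 α2 (fun A' => LW Λ2 A' *
        K (HT h1 A) (HT h2 A') (w + Dp z2 A' - Dp z1 A)))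
      = ∑' a, ∑' z, pl Λ1 h1 z1 α1 a z * ∑' a', ∑' z', pl Λ2 h2 z2 α2 a' z' * K a a' (w + z' - z) := by
    rw [pl_slice Λ1 h1 z1 α1]
    refine N_congr h1 α1 fun A _ => ?_
    rw [pl_slice Λ2 h2 z2 α2 (fun a' z' => K (HT h1 A) a' (w + z' - Dp z1 A))]
  rw [e2]
  have hF1 : ∀ a z, ∑' a', ∑' z', pl Λ2 h2 z2 α2 a' z' * K a a' (w + z' - z) ≤ 1 := by
    intro a z
    rw [← pl_mass Λ2 h2 z2 hh2 hΛ2 α2]
    refine ENNReal.tsum_le_tsum fun a' => ENNReal.tsum_le_tsum fun z' => ?_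
    exact mul_le_of_le_one_right' (hK1 _ _ _)
  calc _ ≤ ∑' a, ∑' z, (r a z + min (pl Λ1 h1 z1 α1 a z) (g a z) *
        ∑' a', ∑' z', pl Λ2 h2 z2 α2 a' z' * K a a' (w + z' - z)) := by
        refine ENNReal.tsum_le_tsum fun a => ENNReal.tsum_le_tsum fun z => ?_
        have hmin : pl Λ1 h1 z1 α1 a z ≤ r a z + min (pl Λ1 h1 z1 α1 a z) (g a z) := by
          rcases le_total (pl Λ1 h1 z1 α1 a z) (g a z) with h | h
          · rw [min_eq_left h]; exact le_add_self
          · rw [min_eq_right h, add_comm]; exact hgr a z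
        calc _ ≤ (r a z + min (pl Λ1 h1 z1 α1 a z) (g a z)) * _ := mul_le_mul_left hmin _
          _ = r a z * _ + min (pl Λ1 h1 z1 α1 a z) (g a z) * _ := add_mul _ _ _
          _ ≤ _ := add_le_add (mul_le_of_le_one_right' (hF1 a z)) le_rfl
    _ = ∑' a, ∑' z, r a z + ∑' a, ∑' z, min (pl Λ1 h1 z1 α1 a z) (g a z) *
        ∑' a', ∑' z', pl Λ2 h2 z2 α2 a' z' * K a a' (w + z' - z) := by
        simp_rw [ENNReal.tsum_add]
    _ ≤ ρ + ∑ a ∈ Finset.Icc α1 (α1 + i0), ∑ a' ∈ Finset.Icc α2 (α2 + i0),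
        ∑ h ∈ Finset.Icc β1 (β1 + i0), ∑ h' ∈ Finset.Icc β2 (β2 + i0), κ := by
        refine add_le_add hr ?_
        -- restrict to `a`, `a'` in the range
        have hz : ∀ a, a ∉ Finset.Icc α1 (α1 + i0) → ∀ z, min (pl Λ1 h1 z1 α1 a z) (g a z) *
            ∑' a', ∑' z', pl Λ2 h2 z2 α2 a' z' * K a a' (w + z' - z) = 0 := by
          intro a ha z
          by_cases h7 : a < α1
          · rw [pl_zero_of_lt Λ1 h1 z1 hh1 α1 a z h7]; simp
          · have h8 : ¬ (a ≤ α1 + i0) := fun h9 => ha (Finset.mem_Icc.2 ⟨not_lt.1 h7, h9⟩)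
            have : ∀ a' x, K a a' x = 0 := by
              intro a' x; rw [hK]; simp only; rw [if_neg (fun h => h8 h.1)]
            simp [this]
        rw [tsum_eq_sum (s := Finset.Icc α1 (α1 + i0)) (fun a ha => by
          rw [ENNReal.tsum_eq_zero]; exact hz a ha)]
        refine Finset.sum_le_sum fun a ha => ?_
        have hz' : ∀ a', a' ∉ Finset.Icc α2 (α2 + i0) → ∀ z', ∀ x, pl Λ2 h2 z2 α2 a' z' * K a a' x = 0 := by
          intro a' ha' z' x
          by_cases h7 : a' < α2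
          · rw [pl_zero_of_lt Λ2 h2 z2 hh2 α2 a' z' h7, zero_mul]
          · have h8 : ¬ (a' ≤ α2 + i0) := fun h9 => ha' (Finset.mem_Icc.2 ⟨not_lt.1 h7, h9⟩)
            rw [hK]; simp only; rw [if_neg (fun h => h8 h.2), mul_zero]
        have e3 : ∀ z, ∑' a', ∑' z', pl Λ2 h2 z2 α2 a' z' * K a a' (w + z' - z)
            = ∑ a' ∈ Finset.Icc α2 (α2 + i0), ∑' z', pl Λ2 h2 z2 α2 a' z' * K a a' (w + z' - z) := by
          intro z
          exact tsum_eq_sum (fun a' ha' => by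
            rw [ENNReal.tsum_eq_zero]; exact fun z' => hz' a' ha' z' _)
        simp_rw [e3, Finset.mul_sum]
        rw [Summable.tsum_finsetSum (fun _ _ => ENNReal.summable)]
        refine Finset.sum_le_sum fun a' ha' => ?_
        -- the law of the relative position
        set μ : G → ℝ≥0∞ := fun x => ∑' z', min (pl Λ1 h1 z1 α1 a (w + z' - x)) (g a (w + z' - x)) *
          pl Λ2 h2 z2 α2 a' z' with hμ
        have hμ1 : ∑' x, μ x ≤ 1 := by
          rw [hμ]
          simp only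
          rw [ENNReal.tsum_comm]
          calc _ ≤ ∑' z', 1 * pl Λ2 h2 z2 α2 a' z' := by
                refine ENNReal.tsum_le_tsum fun z' => ?_
                rw [ENNReal.tsum_mul_right]
                refine mul_le_mul_left ?_ _
                calc _ ≤ ∑' x, pl Λ1 h1 z1 α1 a (w + z' - x) :=
                      ENNReal.tsum_le_tsum fun x => min_le_left _ _
                  _ = ∑' x, pl Λ1 h1 z1 α1 a x :=
                      (Equiv.subLeft (w + z')).tsum_eq (fun x => pl Λ1 h1 z1 α1 a x)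
                  _ ≤ 1 := pl_mass_h Λ1 h1 z1 hh1 hΛ1 α1 a
            _ = ∑' z', pl Λ2 h2 z2 α2 a' z' := by simp
            _ ≤ 1 := pl_mass_h Λ2 h2 z2 hh2 hΛ2 α2 a'
        have hμM : ∀ x, μ x ≤ M := by
          intro x
          calc _ ≤ ∑' z', M * pl Λ2 h2 z2 α2 a' z' := by
                refine ENNReal.tsum_le_tsum fun z' => ?_
                exact mul_le_mul_left ((min_le_right _ _).trans (hg _ _)) _
            _ = M * ∑' z', pl Λ2 h2 z2 α2 a' z' := ENNReal.tsum_mul_left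
            _ ≤ M * 1 := mul_le_mul_right (pl_mass_h Λ2 h2 z2 hh2 hΛ2 α2 a') _
            _ = M := mul_one _
        calc ∑' z, min (pl Λ1 h1 z1 α1 a z) (g a z) * ∑' z', pl Λ2 h2 z2 α2 a' z' * K a a' (w + z' - z)
            = ∑' x, μ x * K a a' x := by
              rw [hμ]
              simp only
              simp_rw [← ENNReal.tsum_mul_left, ← ENNReal.tsum_mul_right]
              rw [ENNReal.tsum_comm]
              rw [ENNReal.tsum_comm (f := fun x z' => min (pl Λ1 h1 z1 α1 a (w + z' - x)) (g a (w + z' - x)) *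
                pl Λ2 h2 z2 α2 a' z' * K a a' x)]
              refine tsum_congr fun z' => ?_
              rw [← (Equiv.subLeft (w + z')).tsum_eq]
              refine tsum_congr fun x => ?_
              simp only [Equiv.subLeft_apply, sub_sub_cancel]
              ring
          _ ≤ ∑' x, ∑ h ∈ Finset.Icc β1 (β1 + i0), ∑ h' ∈ Finset.Icc β2 (β2 + i0), μ x * Ψ h h' a a' x := by
              refine ENNReal.tsum_le_tsum fun x => ?_
              simp_rw [← Finset.mul_sum]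
              exact mul_le_mul_right (hK2 a a' x) _
          _ = ∑ h ∈ Finset.Icc β1 (β1 + i0), ∑ h' ∈ Finset.Icc β2 (β2 + i0), ∑' x, μ x * Ψ h h' a a' x := by
              rw [Summable.tsum_finsetSum (fun _ _ => ENNReal.summable)]
              refine Finset.sum_congr rfl fun h _ => ?_
              rw [Summable.tsum_finsetSum (fun _ _ => ENNReal.summable)]
          _ ≤ _ := Finset.sum_le_sum fun h hh => Finset.sum_le_sum fun h' hh' =>
              hW a ha a' ha' h hh h' hh' μ hμ1 hμM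
    _ = ρ + (i0 + 1) ^ 4 * κ := by
        simp only [Finset.sum_const, Nat.card_Icc, nsmul_eq_mul]
        rw [show α1 + i0 + 1 - α1 = i0 + 1 by omega, show α2 + i0 + 1 - α2 = i0 + 1 by omega, show β1 + i0 + 1 - β1 = i0 + 1 by omega, show β2 + i0 + 1 - β2 = i0 + 1 by omega]
        push_cast
        ring

end two

end Crest.Agent.R154.Asm471
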