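import Crest.Agent.R154.AsmA_474
import Crest.Agent.R154.KWBind_419

/-! Row 154, ROAD 801 (helper474): abstract assembly, part B: one window. -/

set_option autoImplicit false
set_option linter.unusedVariables false
set_option linter.unusedSectionVars false

namespace Crest.Agent.R154.Asm474

open scoped ENNReal
open Crest.Agent.R154.B5A Crest.Agent.R154.FP178
open Crest.Agent.R154.KWB419 (TT)
open Classical

variable {BX BY G : Type*} [AddCommGroup G] (ΛX : BX → ℝ≥0∞) (ΛY : BY → ℝ≥0∞)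
  (hX : BX → ℕ) (hY : BY → ℕ) (zX : BX → G) (zY : BY → G)
  (sX : BX → Set (G × ℕ)) (sY : BY → Set (G × ℕ))

/-- event of a pair of pieces: there is a contact and all contacts are in `[lo, hi]` -/
def Ev (L : List BX) (L' : List BY) (x : G) (a a' lo hi : ℕ) : Prop :=
  (∃ z k, (z, k) ∈ TT sX hX zX L 0 a ∧ (z, k) ∈ TT sY hY zY L' x a') ∧
  (∀ z k, (z, k) ∈ TT sX hX zX L 0 a → (z, k) ∈ TT sY hY zY L' x a' → lo ≤ k ∧ k ≤ hi)

lemma swap4 {A B C D ι : Type*} (R : Finset ι) (f : A → B → C → D → ι → ℝ≥0∞) (g : A → B → ℝ≥0∞) :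
    ∑' a, ∑' b, g a b * ∑' c, ∑' d, ∑ i ∈ R, f a b c d i
      = ∑ i ∈ R, ∑' a, ∑' b, g a b * ∑' c, ∑' d, f a b c d i := by
  have h1 : ∀ a b, ∑' c, ∑' d, ∑ i ∈ R, f a b c d i = ∑ i ∈ R, ∑' c, ∑' d, f a b c d i := by
    intro a b
    have : ∀ c, ∑' d, ∑ i ∈ R, f a b c d i = ∑ i ∈ R, ∑' d, f a b c d i := fun c =>
      Summable.tsum_finsetSum fun _ _ => ENNReal.summable
    rw [tsum_congr this, Summable.tsum_finsetSum fun _ _ => ENNReal.summable]
  have h2 : ∀ a b, g a b * ∑' c, ∑' d, ∑ i ∈ R, f a b c d i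
      = ∑ i ∈ R, g a b * ∑' c, ∑' d, f a b c d i := by
    intro a b; rw [h1, Finset.mul_sum]
  have h3 : ∀ a, ∑' b, ∑ i ∈ R, g a b * ∑' c, ∑' d, f a b c d i
      = ∑ i ∈ R, ∑' b, g a b * ∑' c, ∑' d, f a b c d i := fun a =>
    Summable.tsum_finsetSum fun _ _ => ENNReal.summable
  rw [tsum_congr fun a => tsum_congr fun b => h2 a b, tsum_congr h3,
    Summable.tsum_finsetSum fun _ _ => ENNReal.summable]

lemma conv_one (g g' : ℤ × G → ℝ≥0∞) (a a' : ℤ) (w : G) (q : G → ℝ≥0∞) :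
    ∑' v : ℤ × G, ∑' v' : ℤ × G, g v * g' v' *
        (if v.1 = a ∧ v'.1 = a' then q (w + v'.2 - v.2) else 0)
      = ∑' x, (∑' z, g (a, z) * g' (a', x + z - w)) * q x := by
  rw [ENNReal.tsum_prod']
  rw [tsum_eq_single a]
  swap
  · intro b hb
    refine ENNReal.tsum_eq_zero.2 fun z => ENNReal.tsum_eq_zero.2 fun v' => ?_
    simp [hb]
  have e1 : ∀ z, ∑' v' : ℤ × G, g (a, z) * g' v' *
      (if (a, z).1 = a ∧ v'.1 = a' then q (w + v'.2 - (a, z).2) else 0)
      = ∑' x, g (a, z) * g' (a', x + z - w) * q x := by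
    intro z
    rw [ENNReal.tsum_prod', tsum_eq_single a']
    · have := (Equiv.addRight (z - w)).tsum_eq (fun z' => g (a, z) * g' (a', z') * q (w + z' - z))
      simp only [true_and, if_true]
      rw [← this]
      refine tsum_congr fun x => ?_
      simp only [Equiv.coe_addRight]
      congr 3
      · rw [add_sub_assoc]
      · abel
    · intro b hb
      refine ENNReal.tsum_eq_zero.2 fun z' => ?_
      simp [hb]
  rw [tsum_congr e1, ENNReal.tsum_comm]
  refine tsum_congr fun x => ?_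
  rw [ENNReal.tsum_mul_right]

lemma sum_fst_le (g : ℤ × G → ℝ≥0∞) (a : ℤ) : ∑' z, g (a, z) ≤ ∑' v, g v := by
  rw [ENNReal.tsum_prod']
  exact ENNReal.le_tsum (f := fun k : ℤ => ∑' z, g (k, z)) a

theorem win_loc (g g' : ℤ × G → ℝ≥0∞) (R H : Finset ℕ) (w : G) (lo hi : ℕ)
    (cnd : ℕ → ℕ → ℕ → ℕ → Prop) (Lc : ℕ → ℕ → List BX → List BY → Prop) (M B0 : ℝ≥0∞)
    (hg : ∑' v, g v ≤ 1) (hg' : ∑' v, g' v ≤ 1) (hM : (∀ v, g v ≤ M) ∨ (∀ v, g' v ≤ M))
    (hB : ∀ (a a' h h' : ℕ) (μ : G → ℝ≥0∞), cnd a a' h h' → ∑' x, μ x ≤ 1 → (∀ x, μ x ≤ M) →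
      ∑' x, μ x * ∑' L, ∑' L', (if HT hX L = h ∧ HT hY L' = h' ∧ Lc h h' L L' ∧
        Ev hX hY zX zY sX sY L L' x a a' lo hi then LW ΛX L * LW ΛY L' else 0) ≤ B0)
    (Ψ : ℤ × G → List BX → ℤ × G → List BY → ℝ≥0∞)
    (hΨ1 : ∀ v P v' P', Ψ v P v' P' ≤ 1)
    (hΨ2 : ∀ v P v' P', Ψ v P v' P' ≠ 0 → ∃ a ∈ R, ∃ a' ∈ R, ∃ h ∈ H, ∃ h' ∈ H,
      v.1 = (a : ℤ) ∧ v'.1 = (a' : ℤ) ∧ HT hX P = h ∧ HT hY P' = h' ∧ cnd a a' h h' ∧
      Lc h h' P P' ∧ Ev hX hY zX zY sX sY P P' (w + v'.2 - v.2) a a' lo hi)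
    (T : ℕ) :
    ∑' v, ∑' v', g v * g' v' * ∑' P, ∑' P', F1 ΛX hX T P * F1 ΛY hY T P' * Ψ v P v' P'
      ≤ ((R.card * (R.card * (H.card * H.card)) : ℕ) : ℝ≥0∞) * B0 := by
  set R4 : Finset (ℕ × ℕ × ℕ × ℕ) := R ×ˢ (R ×ˢ (H ×ˢ H)) with hR4
  set qq : ℤ × G → ℤ × G → List BX → List BY → (ℕ × ℕ × ℕ × ℕ) → ℝ≥0∞ := fun v v' P P' τ =>
    if (v.1 = (τ.1 : ℤ) ∧ v'.1 = (τ.2.1 : ℤ)) ∧ cnd τ.1 τ.2.1 τ.2.2.1 τ.2.2.2 ∧
      HT hX P = τ.2.2.1 ∧ HT hY P' = τ.2.2.2 ∧ Lc τ.2.2.1 τ.2.2.2 P P' ∧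
      Ev hX hY zX zY sX sY P P' (w + v'.2 - v.2) τ.1 τ.2.1 lo hi then LW ΛX P * LW ΛY P' else 0
    with hqq
  have step1 : ∀ v v' P P', F1 ΛX hX T P * F1 ΛY hY T P' * Ψ v P v' P'
      ≤ ∑ τ ∈ R4, qq v v' P P' τ := by
    intro v v' P P'
    by_cases h0 : Ψ v P v' P' = 0
    · rw [h0, mul_zero]; exact zero_le
    · obtain ⟨a, ha, a', ha', h, hh, h', hh', e1, e2, e3, e4, e5, e6, e7⟩ := hΨ2 v P v' P' h0
      have hmem : (a, a', h, h') ∈ R4 := by
        simp only [hR4, Finset.mem_product]; exact ⟨ha, ha', hh, hh'⟩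
      refine le_trans ?_ (Finset.single_le_sum (f := fun τ => qq v v' P P' τ)
        (fun _ _ => zero_le) hmem)
      simp only [hqq]
      rw [if_pos ⟨⟨e1, e2⟩, e5, e3, e4, e6, e7⟩]
      calc F1 ΛX hX T P * F1 ΛY hY T P' * Ψ v P v' P' ≤ LW ΛX P * LW ΛY P' * 1 := by
            refine mul_le_mul' (mul_le_mul' ?_ ?_) (hΨ1 _ _ _ _)
            · unfold F1; split_ifs <;> simp
            · unfold F1; split_ifs <;> simp
        _ = _ := mul_one _
  calc ∑' v, ∑' v', g v * g' v' * ∑' P, ∑' P', F1 ΛX hX T P * F1 ΛY hY T P' * Ψ v P v' P'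
      ≤ ∑' v, ∑' v', g v * g' v' * ∑' P, ∑' P', ∑ τ ∈ R4, qq v v' P P' τ := by
        refine ENNReal.tsum_le_tsum fun v => ENNReal.tsum_le_tsum fun v' => mul_le_mul_right ?_ _
        exact ENNReal.tsum_le_tsum fun P => ENNReal.tsum_le_tsum fun P' => step1 v v' P P'
    _ = ∑ τ ∈ R4, ∑' v, ∑' v', g v * g' v' * ∑' P, ∑' P', qq v v' P P' τ :=
        swap4 R4 (fun v v' P P' τ => qq v v' P P' τ) (fun v v' => g v * g' v')
    _ ≤ ∑ τ ∈ R4, B0 := by
        refine Finset.sum_le_sum fun τ _ => ?_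
        by_cases hc : cnd τ.1 τ.2.1 τ.2.2.1 τ.2.2.2
        · set Q2 : G → ℝ≥0∞ := fun x => ∑' L, ∑' L', (if HT hX L = τ.2.2.1 ∧ HT hY L' = τ.2.2.2 ∧
                Lc τ.2.2.1 τ.2.2.2 L L' ∧ Ev hX hY zX zY sX sY L L' x τ.1 τ.2.1 lo hi then
                LW ΛX L * LW ΛY L' else 0) with hQ2
          have e : ∀ v v', ∑' P, ∑' P', qq v v' P P' τ
              = if v.1 = (τ.1 : ℤ) ∧ v'.1 = (τ.2.1 : ℤ) then Q2 (w + v'.2 - v.2) else 0 := by
            intro v v'
            by_cases hv : v.1 = (τ.1 : ℤ) ∧ v'.1 = (τ.2.1 : ℤ)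
            · rw [if_pos hv]
              refine tsum_congr fun P => tsum_congr fun P' => ?_
              simp only [hqq]
              refine if_congr ?_ rfl rfl
              tauto
            · rw [if_neg hv]
              refine ENNReal.tsum_eq_zero.2 fun P => ENNReal.tsum_eq_zero.2 fun P' => ?_
              simp only [hqq]
              exact if_neg fun h => hv h.1
          simp only [e]
          refine (le_of_eq (conv_one g g' (τ.1 : ℤ) (τ.2.1 : ℤ) w Q2)).trans ?_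
          refine hB _ _ _ _ _ hc ?_ ?_
          · rw [ENNReal.tsum_comm]
            calc ∑' z, ∑' x, g ((τ.1 : ℤ), z) * g' ((τ.2.1 : ℤ), x + z - w)
                = ∑' z, g ((τ.1 : ℤ), z) * ∑' x, g' ((τ.2.1 : ℤ), x) := by
                  refine tsum_congr fun z => ?_
                  rw [ENNReal.tsum_mul_left]
                  congr 1
                  have := (Equiv.addRight (z - w)).tsum_eq (fun x => g' ((τ.2.1 : ℤ), x))
                  rw [← this]
                  refine tsum_congr fun x => ?_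
                  simp only [Equiv.coe_addRight]
                  rw [add_sub_assoc]
              _ ≤ 1 := by
                  rw [ENNReal.tsum_mul_right]
                  exact mul_le_one' ((sum_fst_le g _).trans hg) ((sum_fst_le g' _).trans hg')
          · intro x
            rcases hM with hM | hM
            · calc ∑' z, g ((τ.1 : ℤ), z) * g' ((τ.2.1 : ℤ), x + z - w)
                  ≤ ∑' z, M * g' ((τ.2.1 : ℤ), x + z - w) :=
                    ENNReal.tsum_le_tsum fun z => mul_le_mul_left (hM _) _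
                _ = M * ∑' z, g' ((τ.2.1 : ℤ), z) := by
                    rw [ENNReal.tsum_mul_left]
                    congr 1
                    have := (Equiv.addLeft (x - w)).tsum_eq (fun x => g' ((τ.2.1 : ℤ), x))
                    rw [← this]
                    refine tsum_congr fun z => ?_
                    simp only [Equiv.coe_addLeft]
                    congr 2
                    abel
                _ ≤ M := mul_le_of_le_one_right' ((sum_fst_le g' _).trans hg')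
            · calc ∑' z, g ((τ.1 : ℤ), z) * g' ((τ.2.1 : ℤ), x + z - w)
                  ≤ ∑' z, g ((τ.1 : ℤ), z) * M :=
                    ENNReal.tsum_le_tsum fun z => mul_le_mul_right (hM _) _
                _ ≤ M := by
                    rw [ENNReal.tsum_mul_right]
                    exact mul_le_of_le_one_left' ((sum_fst_le g _).trans hg)
        · have : ∀ v v', ∑' P, ∑' P', qq v v' P P' τ = 0 := by
            intro v v'
            refine ENNReal.tsum_eq_zero.2 fun P => ENNReal.tsum_eq_zero.2 fun P' => ?_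
            simp only [hqq]
            exact if_neg fun h => hc h.2.1
          simp [this]
    _ = _ := by
        rw [Finset.sum_const, nsmul_eq_mul, hR4]
        simp only [Finset.card_product]

end Crest.Agent.R154.Asm474
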