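import Crest.Agent.R154.AsmA_478

/-! Row 154, NBProp (S0219), ROAD 801, second source of the abstract assembly (helper478), part B:
traces, decomposition of a pair of lists at one window. -/

set_option autoImplicit false

namespace Crest.Agent.R154.Asm478

open Crest.Agent.R154.B5A
open scoped ENNReal Classical

variable {B G : Type*} (ht : B → ℕ) (Λ : B → ℝ≥0∞)

lemma FP_of_HT (h1 : ∀ b, 1 ≤ ht b) (L : List B) : FP ht L (HT ht L) := by
  induction L with
  | nil => simp [FP, HT]
  | cons b L ih =>
    rw [HT_cons]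
    refine ⟨by have := h1 b; omega, ?_⟩
    rwa [Nat.add_sub_cancel_left]

lemma U_le_one (h1 : ∀ b, 1 ≤ ht b) (hΛ : ∑' b, Λ b ≤ 1) (m : ℕ) :
    ∑' L : List B, (if HT ht L = m then LW Λ L else 0) ≤ 1 := by
  refine le_trans (ENNReal.tsum_le_tsum fun L => ?_) (SF_le ht Λ h1 hΛ m)
  by_cases h : HT ht L = m
  · rw [if_pos h, if_pos (by rw [← h]; exact FP_of_HT ht h1 L), mul_one]
  · rw [if_neg h]; exact zero_le

lemma tail_sum_le (h1 : ∀ b, 1 ≤ ht b) (hΛ : ∑' b, Λ b ≤ 1) (c n : ℕ) (F : List B → ℝ≥0∞)
    (v : ℝ≥0∞) (hF : ∀ L, F L ≤ v) :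
    ∑' L : List B, LW Λ L * (if c + HT ht L = n then F L else 0) ≤ v := by
  calc ∑' L : List B, LW Λ L * (if c + HT ht L = n then F L else 0)
      ≤ ∑' L : List B, (if HT ht L = n - c then LW Λ L else 0) * v := by
        refine ENNReal.tsum_le_tsum fun L => ?_
        by_cases h : c + HT ht L = n
        · rw [if_pos h, if_pos (by omega)]; exact mul_le_mul_right (hF L) _
        · rw [if_neg h, mul_zero]; exact zero_le
    _ = (∑' L : List B, (if HT ht L = n - c then LW Λ L else 0)) * v := ENNReal.tsum_mul_right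
    _ ≤ 1 * v := mul_le_mul_left (U_le_one ht Λ h1 hΛ _) _
    _ = v := one_mul _

/-- decomposition of the lists of height `n` at depth `A`, piece of `t` levels -/
lemma dec (h1 : ∀ b, 1 ≤ ht b) (hΛ : ∑' b, Λ b ≤ 1) {A t i0 n : ℕ} (hn : A + i0 + t ≤ n)
    (F : List B → ℝ≥0∞) (F' : List B → List B → ℝ≥0∞) (hF1 : ∀ L, F L ≤ 1)
    (hF : ∀ U P Q, FP ht U A → FP ht P t → HT ht U ≤ A + i0 → F (U ++ (P ++ Q)) ≤ F' U P) :
    ∑' L, (if HT ht L = n then LW Λ L * F L else 0)
      ≤ SF ht Λ A (fun U => (if A + i0 < HT ht U then 1 else 0) +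
          (if A + i0 < HT ht U then 0 else SF ht Λ t (fun P => F' U P))) := by
  calc ∑' L, (if HT ht L = n then LW Λ L * F L else 0)
      ≤ ∑' L, (if A ≤ HT ht L then LW Λ L * (if HT ht L = n then F L else 0) else 0) := by
        refine ENNReal.tsum_le_tsum fun L => ?_
        by_cases h : HT ht L = n
        · rw [if_pos h, if_pos (by omega), if_pos h]
        · rw [if_neg h]; exact zero_le
    _ ≤ SF ht Λ A (fun U => ∑' L2, LW Λ L2 * (if HT ht (U ++ L2) = n then F (U ++ L2) else 0)) :=
        tsum_le_SF ht Λ A _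
    _ ≤ _ := by
        refine SF_mono ht Λ fun U hU => ?_
        simp only [HT_append]
        by_cases hb : A + i0 < HT ht U
        · rw [if_pos hb, if_pos hb, add_zero]
          exact tail_sum_le ht Λ h1 hΛ _ n (fun L2 => F (U ++ L2)) 1 fun L => hF1 _
        · rw [if_neg hb, if_neg hb, zero_add]
          calc ∑' L2, LW Λ L2 * (if HT ht U + HT ht L2 = n then F (U ++ L2) else 0)
              ≤ ∑' L2, (if t ≤ HT ht L2 then LW Λ L2 *
                  (if HT ht U + HT ht L2 = n then F (U ++ L2) else 0) else 0) := by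
                refine ENNReal.tsum_le_tsum fun L2 => ?_
                by_cases h : HT ht U + HT ht L2 = n
                · rw [if_pos h, if_pos (by omega)]
                · rw [if_neg h, mul_zero]; exact zero_le
            _ ≤ SF ht Λ t (fun P => ∑' Q, LW Λ Q * (if HT ht U + HT ht (P ++ Q) = n
                  then F (U ++ (P ++ Q)) else 0)) := tsum_le_SF ht Λ t _
            _ ≤ _ := by
                refine SF_mono ht Λ fun P hP => ?_
                simp only [HT_append, ← add_assoc]
                exact tail_sum_le ht Λ h1 hΛ _ n (fun Q => F (U ++ (P ++ Q))) _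
                  fun Q => hF U P Q hU hP (by omega)

/-! ### traces -/

section trace

variable [AddCommGroup G] (z : B → G) (s : B → Set (G × ℕ))

/-- sites read by a list placed at lateral position `x` and depth `a` -/
def TT : List B → G → ℕ → Set (G × ℕ)
  | [], _, _ => ∅
  | b :: L, x, a => {q | ∃ y k, (y, k) ∈ s b ∧ q = (x + y, a + k)} ∪ TT L (x + z b) (a + ht b)

lemma TT_append (L L' : List B) (x : G) (a : ℕ) :
    TT ht z s (L ++ L') x a = TT ht z s L x a ∪ TT ht z s L' (x + Dp z L) (a + HT ht L) := by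
  induction L generalizing x a with
  | nil => simp [TT, Dp, HT]
  | cons b L ih =>
    simp only [List.cons_append, TT]
    rw [ih, Set.union_assoc, HT_cons]
    simp only [Dp, List.map_cons, List.sum_cons, add_assoc]

lemma TT_depth (hs : ∀ b y k, (y, k) ∈ s b → 1 ≤ k ∧ k ≤ ht b) (L : List B) (x : G) (a : ℕ)
    (y : G) (k : ℕ) (h : (y, k) ∈ TT ht z s L x a) : a < k ∧ k ≤ a + HT ht L := by
  induction L generalizing x a with
  | nil => simp [TT] at h
  | cons b L ih =>
    rw [HT_cons]
    rcases h with ⟨y', k', hm, he⟩ | h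
    · have := hs b y' k' hm
      simp only [Prod.mk.injEq] at he
      omega
    · have := ih _ _ h
      omega

lemma TT_shift (L : List B) (x v : G) (a : ℕ) (y : G) (k : ℕ) :
    (y, k) ∈ TT ht z s L x a ↔ (y + v, k) ∈ TT ht z s L (x + v) a := by
  induction L generalizing x a with
  | nil => simp [TT]
  | cons b L ih =>
    simp only [TT, Set.mem_union, Set.mem_ofPred_eq, Prod.mk.injEq]
    rw [ih (x + z b) (a + ht b)]
    have e1 : x + z b + v = x + v + z b := by abel
    rw [e1]
    refine or_congr ?_ Iff.rfl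
    constructor
    · rintro ⟨y', k', h1, h2, h3⟩
      exact ⟨y', k', h1, by rw [h2]; abel, h3⟩
    · rintro ⟨y', k', h1, h2, h3⟩
      refine ⟨y', k', h1, ?_, h3⟩
      have : y + v = (x + y') + v := by rw [h2]; abel
      exact add_right_cancel this

end trace

/-! ### two systems -/

variable {BX BY : Type*} (hX : BX → ℕ) (ΛX : BX → ℝ≥0∞) (hY : BY → ℕ) (ΛY : BY → ℝ≥0∞)

lemma SF_comm (a b : ℕ) (F : List BX → List BY → ℝ≥0∞) :
    SF hX ΛX a (fun L => SF hY ΛY b (fun L' => F L L'))
      = SF hY ΛY b (fun L' => SF hX ΛX a (fun L => F L L')) := by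
  simp only [SF, ← ENNReal.tsum_mul_left]
  have e1 : ∀ L : List BX, (if FP hX L a then ∑' L' : List BY, LW ΛX L *
      (if FP hY L' b then LW ΛY L' * F L L' else 0) else 0)
      = ∑' L' : List BY, (if FP hY L' b then LW ΛY L' * (if FP hX L a then LW ΛX L * F L L'
        else 0) else 0) := by
    intro L
    by_cases h : FP hX L a
    · simp only [h, if_true]
      refine tsum_congr fun L' => ?_
      by_cases h' : FP hY L' b
      · simp only [h', if_true]; ring
      · simp [h']
    · simp [h]
  have e2 : ∀ L' : List BY, (if FP hY L' b then ∑' L : List BX, LW ΛY L' *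
      (if FP hX L a then LW ΛX L * F L L' else 0) else 0)
      = ∑' L : List BX, (if FP hY L' b then LW ΛY L' * (if FP hX L a then LW ΛX L * F L L'
        else 0) else 0) := by
    intro L'
    by_cases h' : FP hY L' b
    · simp only [h', if_true]
    · simp [h']
  rw [tsum_congr e1, tsum_congr e2, ENNReal.tsum_comm]

lemma SF_le_tsum (a h : ℕ) (F : List B → ℝ≥0∞) :
    SF ht Λ a (fun L => if HT ht L = h then F L else 0)
      ≤ ∑' L, (if HT ht L = h then LW Λ L * F L else 0) := by
  refine ENNReal.tsum_le_tsum fun L => ?_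
  by_cases h1 : FP ht L a
  · rw [if_pos h1]
    change LW Λ L * (if HT ht L = h then F L else 0) ≤ _
    by_cases h2 : HT ht L = h
    · rw [if_pos h2, if_pos h2]
    · rw [if_neg h2, mul_zero]; exact zero_le
  · rw [if_neg h1]; exact zero_le

/-- disintegration along a map into `G` -/
lemma disint (a b : ℕ) (g : List BX → List BY → ℝ≥0∞) (X : List BX → List BY → G)
    (Ψ : G → ℝ≥0∞) :
    SF hX ΛX a (fun U => SF hY ΛY b (fun U' => g U U' * Ψ (X U U')))
      = ∑' x, SF hX ΛX a (fun U => SF hY ΛY b (fun U' => if X U U' = x then g U U' else 0))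
          * Ψ x := by
  have e : ∀ U U', g U U' * Ψ (X U U') = ∑' x, (if X U U' = x then g U U' else 0) * Ψ x := by
    intro U U'
    rw [tsum_eq_single (X U U')]
    · rw [if_pos rfl]
    · intro x hx; rw [if_neg (Ne.symm hx), zero_mul]
  simp only [e]
  simp only [SF_tsum, SF_mul_const]

end Crest.Agent.R154.Asm478
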