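import Crest.Agent.R154.AsmA_508

/-! Row 154, ROAD 801 (helper498): smooth density of the first passage law, on `AsmA_508`. -/

set_option autoImplicit false

namespace Crest.Agent.R154.Asm498

open Crest.Agent.R154.B5A
open Crest.Agent.R154.Asm508
open scoped ENNReal

variable {B G : Type*} [AddCommGroup G] (Λ : B → ℝ≥0∞) (h : B → ℕ) (z : B → G)

lemma fpS_const_le (h1 : ∀ b, 1 ≤ h b) (hΛ : ∑' b, Λ b = 1) (a : ℕ) (c : ℝ≥0∞) :
    fpS Λ h a (fun _ => c) ≤ c := fpS_le Λ h h1 hΛ a fun _ _ => le_rfl

open Classical in
/-- the bad part of the density -/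
noncomputable def bbf (t i0 : ℕ) (θ : ℝ≥0∞) : ℕ → ℕ → ℕ × G → ℝ≥0∞
  | 0, a, p => V Λ h z a p
  | J + 1, a, p =>
    fpS Λ h t (fun A => if t + i0 < HT h A then
      fpS Λ h (a - HT h A) (fun R => if HT h (A ++ R) = a + p.1 ∧ Dp z (A ++ R) = p.2 then 1 else 0)
      else 0)
    + fpS Λ h t (fun A => if θ ≤ V Λ h z t (HT h A - t, Dp z A) then
      bbf t i0 θ J (a - HT h A) (p.1, p.2 - Dp z A) else 0)

lemma tsum_bbf (h1 : ∀ b, 1 ≤ h b) (hΛ : ∑' b, Λ b = 1) (t i0 : ℕ) (θ q : ℝ≥0∞) (hq1 : q ≤ 1)
    (hq : ∑' p, (open Classical in if θ ≤ V Λ h z t p then V Λ h z t p else 0) ≤ q) (J : ℕ) :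
    ∀ a, ∑' p, bbf Λ h z t i0 θ J a p ≤ q ^ J + J * ov Λ h i0 := by
  classical
  induction J with
  | zero => intro a; simpa [bbf] using V_sum Λ h z h1 hΛ a
  | succ J ih =>
    intro a
    have e1 : ∑' p : ℕ × G, fpS Λ h t (fun A => if t + i0 < HT h A then
        fpS Λ h (a - HT h A) (fun R => if HT h (A ++ R) = a + p.1 ∧ Dp z (A ++ R) = p.2 then 1 else 0)
        else 0) ≤ ov Λ h i0 := by
      rw [← fpS_tsum]
      refine le_trans (fpS_mono Λ h t fun A _ => ?_) (over_le Λ h h1 hΛ t i0)
      by_cases hA : t + i0 < HT h A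
      · simp only [hA, if_true]
        rw [← fpS_tsum]
        refine fpS_le Λ h h1 hΛ _ fun R _ => ?_
        by_cases hj : ∃ j, HT h (A ++ R) = a + j
        · obtain ⟨j, hj⟩ := hj
          rw [tsum_eq_single (j, Dp z (A ++ R))]
          · split_ifs <;> simp
          · rintro ⟨j', x⟩ hne
            rw [if_neg]
            rintro ⟨h2, h3⟩
            apply hne
            simp only at h2 h3
            ext
            · simp only; omega
            · exact h3.symm
        · have : ∀ p : ℕ × G, (if HT h (A ++ R) = a + p.1 ∧ Dp z (A ++ R) = p.2 then (1 : ℝ≥0∞) else 0)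
              = 0 := fun p => if_neg fun hh => hj ⟨p.1, hh.1⟩
          simp [this]
      · simp [hA]
    have e2 : ∑' p : ℕ × G, fpS Λ h t (fun A => if θ ≤ V Λ h z t (HT h A - t, Dp z A) then
        bbf Λ h z t i0 θ J (a - HT h A) (p.1, p.2 - Dp z A) else 0)
        ≤ q * (q ^ J + J * ov Λ h i0) := by
      rw [← fpS_tsum]
      have e3 : ∀ A, ∑' p : ℕ × G, (if θ ≤ V Λ h z t (HT h A - t, Dp z A) then
          bbf Λ h z t i0 θ J (a - HT h A) (p.1, p.2 - Dp z A) else 0)
          ≤ (q ^ J + J * ov Λ h i0) *
            (fun p : ℕ × G => if θ ≤ V Λ h z t p then (1 : ℝ≥0∞) else 0) (HT h A - t, Dp z A) := by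
        intro A
        by_cases hA : θ ≤ V Λ h z t (HT h A - t, Dp z A)
        · simp only [hA, if_true, mul_one]
          refine le_trans (le_of_eq ?_) (ih (a - HT h A))
          exact ((Equiv.refl ℕ).prodCongr (Equiv.subRight (Dp z A))).tsum_eq
            (fun p => bbf Λ h z t i0 θ J (a - HT h A) p)
        · simp [hA]
      refine (fpS_mono Λ h t fun A _ => e3 A).trans ?_
      rw [fpS_mul, mul_comm]
      refine mul_le_mul_left (le_trans (le_of_eq ?_) hq) _
      refine (V_push Λ h z t (fun p : ℕ × G => if θ ≤ V Λ h z t p then (1 : ℝ≥0∞) else 0)).trans ?_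
      refine tsum_congr fun p => ?_
      split_ifs <;> simp
    calc ∑' p, bbf Λ h z t i0 θ (J + 1) a p ≤ ov Λ h i0 + q * (q ^ J + J * ov Λ h i0) := by
          simp only [bbf]
          rw [ENNReal.tsum_add]
          exact add_le_add e1 e2
      _ ≤ ov Λ h i0 + (q ^ (J + 1) + J * ov Λ h i0) := by
          gcongr
          rw [mul_add, ← pow_succ']
          have : q * (J * ov Λ h i0) ≤ 1 * (J * ov Λ h i0) := by gcongr
          rw [one_mul] at this
          exact add_le_add le_rfl this
      _ = _ := by push_cast; ring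

lemma dens (h1 : ∀ b, 1 ≤ h b) (hΛ : ∑' b, Λ b = 1) (t i0 : ℕ) (θ : ℝ≥0∞) (J : ℕ) :
    ∀ a, J * (t + i0) ≤ a → ∀ p, V Λ h z a p ≤ J * ((i0 + 1) * θ) + bbf Λ h z t i0 θ J a p := by
  classical
  induction J with
  | zero => intro a _ p; simp [bbf]
  | succ J ih =>
    intro a ha p
    obtain ⟨j, x⟩ := p
    have hta : t ≤ a := by
      have : (J + 1) * (t + i0) = J * (t + i0) + (t + i0) := by ring
      omega
    have e0 : V Λ h z a (j, x) = fpS Λ h t (fun A => fpS Λ h (a - HT h A)
        (fun R => if HT h (A ++ R) = a + j ∧ Dp z (A ++ R) = x then 1 else 0)) := by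
      rw [V, fpS_comp Λ h h1 t a hta]
    have small : fpS Λ h t (fun A => (fun p : ℕ × G => if p.1 ≤ i0 ∧ V Λ h z t p < θ then
        V Λ h z (a - (t + p.1)) (j, x - p.2) else 0) (HT h A - t, Dp z A)) ≤ (i0 + 1) * θ := by
      refine le_trans (le_of_eq (V_push Λ h z t (fun p : ℕ × G => if p.1 ≤ i0 ∧ V Λ h z t p < θ then
        V Λ h z (a - (t + p.1)) (j, x - p.2) else 0))) ?_
      calc _ ≤ ∑' p : ℕ × G, (if p.1 ∈ Finset.range (i0 + 1) then
            θ * V Λ h z (a - (t + p.1)) (j, x - p.2) else 0) := by
            refine ENNReal.tsum_le_tsum fun p => ?_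
            by_cases hp : p.1 ≤ i0 ∧ V Λ h z t p < θ
            · rw [if_pos hp, if_pos (by simpa using Nat.lt_succ_of_le hp.1)]
              exact mul_le_mul_left hp.2.le _
            · simp [hp]
        _ = ∑' i : ℕ, (if i ∈ Finset.range (i0 + 1) then
              θ * ∑' y, V Λ h z (a - (t + i)) (j, x - y) else 0) := by
            rw [ENNReal.tsum_prod']
            refine tsum_congr fun i => ?_
            by_cases hi : i ∈ Finset.range (i0 + 1)
            · simp only [hi, if_true]; rw [ENNReal.tsum_mul_left]
            · simp [hi]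
        _ = ∑ i ∈ Finset.range (i0 + 1), θ * ∑' y, V Λ h z (a - (t + i)) (j, x - y) := by
            rw [tsum_eq_sum (s := Finset.range (i0 + 1)) (fun i hi => if_neg hi)]
            exact Finset.sum_congr rfl fun i hi => if_pos hi
        _ ≤ ∑ i ∈ Finset.range (i0 + 1), θ * 1 := by
            refine Finset.sum_le_sum fun i _ => mul_le_mul_right ?_ _
            refine le_trans ?_ (V_sum Λ h z h1 hΛ (a - (t + i)))
            refine ENNReal.tsum_comp_le_tsum_of_injective (f := fun y => (j, x - y)) ?_ _
            intro y y' hy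
            simpa using hy
        _ = _ := by simp
    have key : V Λ h z a (j, x) ≤ (i0 + 1) * θ + (J * ((i0 + 1) * θ) +
        bbf Λ h z t i0 θ (J + 1) a (j, x)) := by
      rw [e0]
      calc _ ≤ fpS Λ h t (fun A =>
              ((fun p : ℕ × G => if p.1 ≤ i0 ∧ V Λ h z t p < θ then
                V Λ h z (a - (t + p.1)) (j, x - p.2) else 0) (HT h A - t, Dp z A))
              + (J * ((i0 + 1) * θ) +
              ((if t + i0 < HT h A then fpS Λ h (a - HT h A)
                (fun R => if HT h (A ++ R) = a + j ∧ Dp z (A ++ R) = x then 1 else 0) else 0)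
              + (if θ ≤ V Λ h z t (HT h A - t, Dp z A) then
                bbf Λ h z t i0 θ J (a - HT h A) (j, x - Dp z A) else 0)))) := by
            refine fpS_mono Λ h t fun A hA => ?_
            have hge := FP_ge h A t hA
            by_cases hA1 : t + i0 < HT h A
            · simp only [hA1, if_true]
              exact le_trans le_self_add (le_trans le_add_self le_add_self)
            · have hA2 : HT h A ≤ a := by
                have : (J + 1) * (t + i0) = J * (t + i0) + (t + i0) := by ring
                omega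
              have e4 : fpS Λ h (a - HT h A)
                  (fun R => if HT h (A ++ R) = a + j ∧ Dp z (A ++ R) = x then 1 else 0)
                  = V Λ h z (a - HT h A) (j, x - Dp z A) := by
                rw [V]
                refine fpS_congr Λ h _ fun R _ => ?_
                rw [HT_append, Dp_append]
                simp only
                have c1 : (HT h A + HT h R = a + j ↔ HT h R = a - HT h A + j) := by omega
                have c2 : (Dp z A + Dp z R = x ↔ Dp z R = x - Dp z A) :=
                  ⟨fun hh => by rw [← hh]; abel, fun hh => by rw [hh]; abel⟩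
                simp only [c1, c2]
              rw [e4]
              by_cases hs : V Λ h z t (HT h A - t, Dp z A) < θ
              · refine le_trans (le_of_eq ?_) le_self_add
                simp only [show HT h A - t ≤ i0 by omega, hs, and_self, if_true]
                rw [show t + (HT h A - t) = HT h A by omega]
              · have hs' : θ ≤ V Λ h z t (HT h A - t, Dp z A) := not_lt.1 hs
                simp only [hs', if_true, hA1, if_false, zero_add]
                refine le_trans (ih (a - HT h A) ?_ (j, x - Dp z A)) le_add_self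
                have : (J + 1) * (t + i0) = J * (t + i0) + (t + i0) := by ring
                omega
        _ ≤ _ := by
            rw [fpS_add, fpS_add, fpS_add]
            refine add_le_add small (add_le_add (fpS_const_le Λ h h1 hΛ t _) ?_)
            rw [bbf]
    refine key.trans (le_of_eq ?_)
    push_cast; ring

end Crest.Agent.R154.Asm498
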