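import Crest.Agent.R154.AsmA_508

/-! Row 154, ROAD 801 (helper508): smooth density of the first-passage law, quantile. -/

set_option autoImplicit false

namespace Crest.Agent.R154.Asm508

open Crest.Agent.R154.B5A
open scoped ENNReal

variable {B : Type*} (Λ : B → ℝ≥0∞) (h : B → ℕ) {G : Type*} [AddCommGroup G] (z : B → G)

lemma fpS_one' (h1 : ∀ b, 1 ≤ h b) (hΛ : ∑' b, Λ b = 1) (a : ℕ) :
    fpS Λ h a (fun _ => 1) = 1 := by
  induction a using Nat.strong_induction_on with
  | _ a ih =>
    rcases Nat.eq_zero_or_pos a with rfl | ha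
    · rw [fpS_zero]
    · rw [fpS_pos Λ h a ha]
      calc _ = ∑' b, Λ b * 1 := tsum_congr fun b => by
            rw [ih _ (by have := h1 b; omega)]
        _ = 1 := by simpa using hΛ

lemma V_sum' (h1 : ∀ b, 1 ≤ h b) (hΛ : ∑' b, Λ b = 1) (a : ℕ) : ∑' p, V Λ h z a p = 1 := by
  have := V_push Λ h z a (fun _ => 1)
  simp only [mul_one] at this
  rw [← this]
  exact fpS_one' Λ h h1 hΛ a

lemma tsum_shift (F : ℕ × G → ℝ≥0∞) (c : G) :
    ∑' p : ℕ × G, F (p.1, p.2 - c) = ∑' p, F p :=
  (Equiv.prodCongr (Equiv.refl ℕ) (Equiv.subRight c)).tsum_eq F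

open Classical in
lemma dens (h1 : ∀ b, 1 ≤ h b) (hΛ : ∑' b, Λ b = 1) (t i0 : ℕ) (th q M ε : ℝ≥0∞)
    (hq1 : q ≤ 1)
    (hε : fpS Λ h t (fun L => if t + i0 < HT h L then 1 else 0) ≤ ε)
    (hq : ∑' p, (if th < V Λ h z t p then V Λ h z t p else 0) ≤ q)
    (hM : (i0 + 1 : ℕ) * th + q * M ≤ M) (J : ℕ) :
    ∀ a, J * (t + i0) ≤ a → ∑' p, (V Λ h z a p - M) ≤ q ^ J + J * ε := by
  induction J with
  | zero =>
    intro a _
    calc _ ≤ ∑' p, V Λ h z a p := ENNReal.tsum_le_tsum fun p => tsub_le_self
      _ ≤ 1 := V_sum Λ h z h1 hΛ a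
      _ ≤ _ := by simp
  | succ J ih =>
    intro a ha
    have hta : t ≤ a := by nlinarith
    have ha' : J * (t + i0) + (t + i0) ≤ a := by nlinarith
    set X : List B → ℕ × G → ℝ≥0∞ := fun A p => fpS Λ h (a - HT h A)
      (fun R => if HT h (A ++ R) = a + p.1 ∧ Dp z (A ++ R) = p.2 then 1 else 0) with hX
    set far : ℕ × G → ℝ≥0∞ := fun p => fpS Λ h t
      (fun A => if t + i0 < HT h A then X A p else 0) with hfar
    set c : ℕ × G → ℝ≥0∞ := fun r => if th < V Λ h z t r then V Λ h z t r else 0 with hc
    set rest : ℕ × G → ℝ≥0∞ := fun p => ∑' r : ℕ × G, c r *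
      (if r.1 ≤ i0 then V Λ h z (a - (t + r.1)) (p.1, p.2 - r.2) - M else 0) with hrest
    -- pointwise
    have hV : ∀ p, V Λ h z a p ≤ far p + ((i0 + 1 : ℕ) * th + (q * M + rest p)) := by
      intro p
      have e1 : V Λ h z a p = fpS Λ h t (fun A => X A p) := by
        rw [V, fpS_comp Λ h h1 t a hta]
      have e2 : fpS Λ h t (fun A => X A p)
          ≤ far p + fpS Λ h t (fun A => (fun r : ℕ × G => if r.1 ≤ i0 then
            V Λ h z (a - (t + r.1)) (p.1, p.2 - r.2) else 0) (HT h A - t, Dp z A)) := by
        rw [hfar, ← fpS_add]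
        refine fpS_mono Λ h t fun A hA => ?_
        have hge := FP_ge h A t hA
        by_cases hh : t + i0 < HT h A
        · rw [if_pos hh]; exact le_self_add
        · rw [if_neg hh, zero_add]
          simp only
          rw [if_pos (by omega), hX, V]
          have e3 : a - (t + (HT h A - t)) = a - HT h A := by omega
          rw [e3]
          refine fpS_mono Λ h _ fun R _ => ?_
          simp only [HT_append, Dp_append]
          by_cases hR : HT h A + HT h R = a + p.1 ∧ Dp z A + Dp z R = p.2
          · rw [if_pos hR, if_pos ⟨by omega, by rw [← hR.2]; abel⟩]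
          · rw [if_neg hR]; exact zero_le
      rw [e1]
      refine e2.trans (add_le_add le_rfl ?_)
      refine (le_of_eq (V_push Λ h z t (fun r : ℕ × G => if r.1 ≤ i0 then
            V Λ h z (a - (t + r.1)) (p.1, p.2 - r.2) else 0))).trans ?_
      have e4 : ∀ r : ℕ × G, V Λ h z t r * (if r.1 ≤ i0 then
            V Λ h z (a - (t + r.1)) (p.1, p.2 - r.2) else 0)
          ≤ (if r.1 ≤ i0 then th * V Λ h z (a - (t + r.1)) (p.1, p.2 - r.2) else 0)
            + (c r * M + c r * (if r.1 ≤ i0 then
              V Λ h z (a - (t + r.1)) (p.1, p.2 - r.2) - M else 0)) := by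
        intro r
        by_cases hr : r.1 ≤ i0
        · simp only [if_pos hr]
          by_cases hth : th < V Λ h z t r
          · refine le_trans ?_ le_add_self
            rw [hc]
            simp only [if_pos hth]
            rw [← mul_add]
            exact mul_le_mul_right le_add_tsub _
          · refine le_trans ?_ le_self_add
            exact mul_le_mul_left (not_lt.1 hth) _
        · simp [hr]
      refine (ENNReal.tsum_le_tsum e4).trans ?_
      rw [ENNReal.tsum_add, ENNReal.tsum_add]
      refine add_le_add ?_ (add_le_add ?_ le_rfl)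
      · rw [ENNReal.tsum_prod']
        calc _ ≤ ∑' i : ℕ, (if i ≤ i0 then th else 0) := by
              refine ENNReal.tsum_le_tsum fun i => ?_
              by_cases hi : i ≤ i0
              · simp only [if_pos hi]
                rw [ENNReal.tsum_mul_left]
                calc th * ∑' x, V Λ h z (a - (t + i)) (p.1, p.2 - x) ≤ th * 1 := by
                      refine mul_le_mul_right ?_ _
                      calc _ = ∑' x, V Λ h z (a - (t + i)) (p.1, x) :=
                            (Equiv.subLeft p.2).tsum_eq (fun x => V Λ h z (a - (t + i)) (p.1, x))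
                        _ ≤ ∑' r : ℕ × G, V Λ h z (a - (t + i)) r :=
                            ENNReal.tsum_comp_le_tsum_of_injective
                              (f := fun x : G => (p.1, x)) (fun x y hxy => by simpa using hxy) _
                        _ ≤ 1 := V_sum Λ h z h1 hΛ _
                  _ = th := mul_one _
              · simp [hi]
          _ = ∑ i ∈ Finset.range (i0 + 1), th := by
              rw [tsum_eq_sum (s := Finset.range (i0 + 1))]
              · exact Finset.sum_congr rfl fun i hi =>
                  if_pos (by have := Finset.mem_range.1 hi; omega)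
              · intro i hi
                rw [if_neg (by simpa using hi)]
          _ = (i0 + 1 : ℕ) * th := by simp
          _ ≤ _ := le_rfl
      · rw [ENNReal.tsum_mul_right]
        exact mul_le_mul_left hq _
    have hV2 : ∀ p, V Λ h z a p - M ≤ far p + rest p := by
      intro p
      rw [tsub_le_iff_right]
      refine (hV p).trans ?_
      calc far p + ((i0 + 1 : ℕ) * th + (q * M + rest p))
          = far p + rest p + ((i0 + 1 : ℕ) * th + q * M) := by ring
        _ ≤ _ := add_le_add le_rfl hM
    refine (ENNReal.tsum_le_tsum hV2).trans ?_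
    rw [ENNReal.tsum_add]
    have hfar1 : ∑' p, far p ≤ ε := by
      rw [hfar, ← fpS_tsum]
      refine (fpS_mono Λ h t fun A _ => ?_).trans hε
      by_cases hh : t + i0 < HT h A
      · simp only [if_pos hh]
        rw [hX, ← fpS_tsum]
        refine fpS_le Λ h h1 hΛ _ fun R _ => ?_
        calc ∑' p : ℕ × G, (if HT h (A ++ R) = a + p.1 ∧ Dp z (A ++ R) = p.2 then (1 : ℝ≥0∞) else 0)
            ≤ ∑' p : ℕ × G, (if p = (HT h (A ++ R) - a, Dp z (A ++ R)) then 1 else 0) := by
              refine ENNReal.tsum_le_tsum fun p => ?_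
              by_cases hp : HT h (A ++ R) = a + p.1 ∧ Dp z (A ++ R) = p.2
              · rw [if_pos hp, if_pos (Prod.ext (by simp only; omega) hp.2.symm)]
              · rw [if_neg hp]; exact zero_le
          _ = 1 := tsum_ite_eq _ _
      · simp [hh]
    have hrest1 : ∑' p, rest p ≤ q * (q ^ J + J * ε) := by
      rw [hrest, ENNReal.tsum_comm]
      calc _ ≤ ∑' r, c r * (q ^ J + J * ε) := by
            refine ENNReal.tsum_le_tsum fun r => ?_
            rw [ENNReal.tsum_mul_left]
            refine mul_le_mul_right ?_ _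
            by_cases hr : r.1 ≤ i0
            · simp only [if_pos hr]
              rw [tsum_shift (fun p => V Λ h z (a - (t + r.1)) p - M)]
              exact ih _ (by omega)
            · simp [hr]
        _ = (∑' r, c r) * (q ^ J + J * ε) := ENNReal.tsum_mul_right
        _ ≤ _ := mul_le_mul_left hq _
    calc _ ≤ ε + q * (q ^ J + J * ε) := add_le_add hfar1 hrest1
      _ = q ^ (J + 1) + (q * (J * ε) + ε) := by rw [pow_succ]; ring
      _ ≤ q ^ (J + 1) + (1 * (J * ε) + ε) :=
          add_le_add le_rfl (add_le_add (mul_le_mul_left hq1 _) le_rfl)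
      _ = _ := by push_cast; ring

open Classical in
lemma quantile {ι : Type*} (p : ι → ℝ≥0∞) (hp : ∑' i, p i = 1) (u : ℝ≥0∞) (hu : u ≠ 0)
    (hu1 : u ≤ 1) : ∃ th : ℝ≥0∞, th ≠ 0 ∧ ∑' i, (if p i < th then p i else 0) ≤ u ∧
      ∑' i, (if th < p i then p i else 0) ≤ 1 - u := by
  set f : ℝ≥0∞ → ℝ≥0∞ := fun θ => ∑' i, (if θ < p i then p i else 0) with hf
  set S : Set ℝ≥0∞ := {θ | f θ ≤ 1 - u} with hS
  have hfanti : Antitone f := by
    intro a b hab
    refine ENNReal.tsum_le_tsum fun i => ?_
    by_cases hb : b < p i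
    · rw [if_pos hb, if_pos (hab.trans_lt hb)]
    · rw [if_neg hb]; exact zero_le
  have hfin : ∀ θ, f θ ≤ 1 := fun θ => hp ▸ ENNReal.tsum_le_tsum fun i => by split_ifs <;> simp
  refine ⟨sInf S, ?_, ?_, ?_⟩
  rotate_left 1
  · -- below
    have e : ∀ s : Finset ι, ∑ i ∈ s, (if p i < sInf S then p i else 0) ≤ u := by
      intro s
      by_cases hne : (s.filter fun i => p i < sInf S).Nonempty
      · set θ := (s.filter fun i => p i < sInf S).sup p with hθ
        have hθ1 : θ < sInf S := by
          rw [hθ, Finset.sup_lt_iff]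
          · intro i hi; exact (Finset.mem_filter.1 hi).2
          · obtain ⟨i, hi⟩ := hne
            exact lt_of_le_of_lt bot_le (Finset.mem_filter.1 hi).2
        have hθ2 : ¬ f θ ≤ 1 - u := fun hh => absurd (sInf_le (show θ ∈ S from hh)) (not_le.2 hθ1)
        rw [not_le] at hθ2
        have hsum : ∑ i ∈ s, (if p i < sInf S then p i else 0) + f θ ≤ 1 := by
          rw [← hp]
          calc _ ≤ ∑' i, (if p i ≤ θ then p i else 0) + f θ := by
                refine add_le_add ?_ le_rfl
                refine le_trans (Finset.sum_le_sum fun i hi => ?_) (ENNReal.sum_le_tsum s)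
                by_cases hh : p i < sInf S
                · rw [if_pos hh, if_pos]
                  exact Finset.le_sup (f := p) (Finset.mem_filter.2 ⟨hi, hh⟩)
                · rw [if_neg hh]; exact zero_le
            _ = ∑' i, p i := by
                rw [hf, ← ENNReal.tsum_add]
                refine tsum_congr fun i => ?_
                by_cases hh : p i ≤ θ
                · rw [if_pos hh, if_neg (not_lt.2 hh), add_zero]
                · rw [if_neg hh, if_pos (not_le.1 hh), zero_add]
        have h2 : ∑ i ∈ s, (if p i < sInf S then p i else 0) ≤ 1 - f θ :=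
          ENNReal.le_sub_of_add_le_right (ne_top_of_le_ne_top ENNReal.one_ne_top (hfin θ)) hsum
        refine h2.trans ?_
        rw [tsub_le_iff_right]
        calc (1 : ℝ≥0∞) = u + (1 - u) := (add_tsub_cancel_of_le hu1).symm
          _ ≤ _ := add_le_add le_rfl hθ2.le
      · rw [Finset.not_nonempty_iff_eq_empty, Finset.filter_eq_empty_iff] at hne
        rw [Finset.sum_eq_zero fun i hi => if_neg (hne hi)]
        exact zero_le
    rw [ENNReal.tsum_eq_iSup_sum]
    exact iSup_le e
  · -- above
    rw [ENNReal.tsum_eq_iSup_sum]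
    refine iSup_le fun s => ?_
    by_cases hne : (s.filter fun i => sInf S < p i).Nonempty
    · obtain ⟨j, hj, hjm⟩ := Finset.exists_min_image _ p hne
      have hj' := (Finset.mem_filter.1 hj).2
      obtain ⟨θ, hθS, hθ⟩ := sInf_lt_iff.1 hj'
      refine le_trans ?_ hθS
      refine le_trans (Finset.sum_le_sum fun i hi => ?_) (ENNReal.sum_le_tsum s)
      by_cases hh : sInf S < p i
      · rw [if_pos hh, if_pos]
        exact hθ.trans_le (hjm i (Finset.mem_filter.2 ⟨hi, hh⟩))
      · rw [if_neg hh]; exact zero_le
    · rw [Finset.not_nonempty_iff_eq_empty, Finset.filter_eq_empty_iff] at hne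
      rw [Finset.sum_eq_zero fun i hi => if_neg (hne hi)]
      exact zero_le
  · -- not zero
    intro h0
    have hab : f (sInf S) ≤ 1 - u := by
      rw [hf]
      simp only
      rw [ENNReal.tsum_eq_iSup_sum]
      refine iSup_le fun s => ?_
      by_cases hne : (s.filter fun i => sInf S < p i).Nonempty
      · obtain ⟨j, hj, hjm⟩ := Finset.exists_min_image _ p hne
        have hj' := (Finset.mem_filter.1 hj).2
        obtain ⟨θ, hθS, hθ⟩ := sInf_lt_iff.1 hj'
        refine le_trans ?_ hθS
        refine le_trans (Finset.sum_le_sum fun i hi => ?_) (ENNReal.sum_le_tsum s)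
        by_cases hh : sInf S < p i
        · rw [if_pos hh, if_pos]
          exact hθ.trans_le (hjm i (Finset.mem_filter.2 ⟨hi, hh⟩))
        · rw [if_neg hh]; exact zero_le
      · rw [Finset.not_nonempty_iff_eq_empty, Finset.filter_eq_empty_iff] at hne
        rw [Finset.sum_eq_zero fun i hi => if_neg (hne hi)]
        exact zero_le
    rw [h0] at hab
    have : f 0 = 1 := by
      rw [← hp, hf]
      refine tsum_congr fun i => ?_
      by_cases hi : 0 < p i
      · rw [if_pos hi]
      · rw [if_neg hi]; exact (by simpa using hi : p i = 0).symm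
    rw [this] at hab
    have h3 : (1 : ℝ≥0∞) - u < 1 := ENNReal.sub_lt_self ENNReal.one_ne_top one_ne_zero hu
    exact absurd hab (not_le.2 h3)

end Crest.Agent.R154.Asm508
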