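import Crest.Agent.R154.AsmA_52

/-! Row 154 (helper52): the window inequality. -/

set_option autoImplicit false

namespace Crest.Agent.R154.Asm52

open Crest.Agent.R154.B5A Crest.Agent.R154.FP52
open scoped ENNReal Classical
open Finset

section one

variable {B : Type*} (Λ : B → ℝ≥0∞) (h : B → ℕ)

lemma sum_R (hU1 : ∀ n, U Λ h n ≤ 1) (X : List B) (n : ℕ) (g : List B → ℝ≥0∞)
    (hg0 : ∀ L, HT h L ≠ n → g L = 0) (a : ℝ≥0∞) (ha : ∀ R, g (X ++ R) ≤ a) :
    ∑' R, LW Λ R * g (X ++ R) ≤ a := by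
  calc ∑' R, LW Λ R * g (X ++ R)
      ≤ ∑' R, (if HT h R = n - HT h X then LW Λ R else 0) * a := by
        refine ENNReal.tsum_le_tsum fun R => ?_
        by_cases hR : HT h X + HT h R = n
        · rw [if_pos (by omega)]
          gcongr
          exact ha R
        · rw [hg0 (X ++ R) (by rw [HT_append]; exact hR), mul_zero]
          exact zero_le
    _ = U Λ h (n - HT h X) * a := by rw [ENNReal.tsum_mul_right]; rfl
    _ ≤ 1 * a := by gcongr; exact hU1 _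
    _ = a := one_mul a

lemma piece (h1 : ∀ b, 1 ≤ h b) (hΛ : ∑' b, Λ b = 1) (hU1 : ∀ n, U Λ h n ≤ 1)
    (g : List B → ℝ≥0∞) (gh : List B → List B → ℝ≥0∞) (n c S i0 : ℕ) (hn : c + i0 + S ≤ n)
    (hg0 : ∀ L, HT h L ≠ n → g L = 0) (hg1 : ∀ L, g L ≤ 1)
    (hgh : ∀ A P R, FP h c A → FP h S P → HT h A ≤ c + i0 → HT h P ≤ S + i0 →
      g (A ++ (P ++ R)) ≤ gh A P) :
    ∑' L, LW Λ L * g L ≤ eo Λ h i0 + (eo Λ h i0 + EF Λ h c (fun A => EF Λ h S (fun P =>
      if HT h A ≤ c + i0 ∧ HT h P ≤ S + i0 then gh A P else 0))) := by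
  have e1 : ∑' L, LW Λ L * g L = EF Λ h c (fun A => ∑' R, LW Λ R * g (A ++ R)) := by
    rw [← dec Λ h h1 c g]
    refine tsum_congr fun L => ?_
    by_cases hL : c ≤ HT h L
    · rw [if_pos hL]
    · rw [if_neg hL, hg0 L (by omega), mul_zero]
  rw [e1]
  have e2 : ∀ A, FP h c A → ∑' R, LW Λ R * g (A ++ R) ≤ (if c + i0 < HT h A then 1 else 0) +
      EF Λ h S (fun P => (if S + i0 < HT h P then 1 else 0) +
        (if HT h A ≤ c + i0 ∧ HT h P ≤ S + i0 then gh A P else 0)) := by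
    intro A hA
    by_cases hA2 : HT h A ≤ c + i0
    · rw [if_neg (by omega), zero_add]
      have e3 : ∑' R, LW Λ R * g (A ++ R)
          = EF Λ h S (fun P => ∑' R, LW Λ R * g (A ++ (P ++ R))) := by
        rw [← dec Λ h h1 S (fun L => g (A ++ L))]
        refine tsum_congr fun L => ?_
        by_cases hL : S ≤ HT h L
        · rw [if_pos hL]
        · rw [if_neg hL, hg0 (A ++ L) (by rw [HT_append]; omega), mul_zero]
      rw [e3]
      refine EF_mono _ _ _ fun P hP => ?_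
      by_cases hP2 : HT h P ≤ S + i0
      · rw [if_neg (by omega), zero_add, if_pos ⟨hA2, hP2⟩]
        have := sum_R Λ h hU1 (A ++ P) n g hg0 (gh A P) (fun R => by
          rw [List.append_assoc]; exact hgh A P R hA hP hA2 hP2)
        simpa only [List.append_assoc] using this
      · rw [if_pos (by omega)]
        refine le_trans ?_ le_self_add
        have := sum_R Λ h hU1 (A ++ P) n g hg0 1 (fun R => hg1 _)
        simpa only [List.append_assoc] using this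
    · rw [if_pos (by omega)]
      refine le_trans ?_ le_self_add
      exact sum_R Λ h hU1 A n g hg0 1 (fun R => hg1 _)
  refine (EF_mono Λ h c e2).trans ?_
  rw [EF_add]
  refine add_le_add (far_le Λ h hU1 c i0) ?_
  simp_rw [EF_add]
  refine add_le_add ?_ le_rfl
  exact EF_le_const Λ h h1 hΛ _ _ fun A _ => far_le Λ h hU1 S i0

lemma EF_comm {B' : Type*} (Λ' : B' → ℝ≥0∞) (h' : B' → ℕ) (c c' : ℕ)
    (F : List B → List B' → ℝ≥0∞) :
    EF Λ h c (fun A => EF Λ' h' c' (fun A' => F A A'))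
      = EF Λ' h' c' (fun A' => EF Λ h c (fun A => F A A')) := by
  rw [EF, EF]
  have e : ∀ A, (if FP h c A then LW Λ A * EF Λ' h' c' (fun A' => F A A') else 0)
      = ∑' A', (if FP h' c' A' then LW Λ' A' * (if FP h c A then LW Λ A * F A A' else 0) else 0) := by
    intro A
    by_cases hA : FP h c A
    · rw [if_pos hA, EF, ← ENNReal.tsum_mul_left]
      refine tsum_congr fun A' => ?_
      by_cases hA' : FP h' c' A'
      · simp only [hA, hA', if_true]; ring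
      · simp [hA']
    · simp [hA]
  simp_rw [e]
  rw [ENNReal.tsum_comm]
  refine tsum_congr fun A' => ?_
  by_cases hA' : FP h' c' A'
  · simp only [hA', if_true]
    rw [ENNReal.tsum_mul_left]
    rfl
  · simp [hA']

end one

section two

variable {BX BY G : Type*} [AddCommGroup G]
  (ΛX : BX → ℝ≥0∞) (hX : BX → ℕ) (zX : BX → G) (sX : BX → Set (G × ℕ))
  (ΛY : BY → ℝ≥0∞) (hY : BY → ℕ) (zY : BY → G) (sY : BY → Set (G × ℕ))

/-- pairs of crossings of height `n` with a common site at depth in `(lo, hi]` -/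
noncomputable def Kw (n lo hi : ℕ) (w : G) : ℝ≥0∞ :=
  ∑' LX : List BX, ∑' LY : List BY, if HT hX LX = n ∧ HT hY LY = n ∧
    (∃ y k, lo < k ∧ k ≤ hi ∧ (y, k) ∈ TR hX zX sX LX 0 0 ∧ (y, k) ∈ TR hY zY sY LY w 0)
    then LW ΛX LX * LW ΛY LY else 0

/-- pairs of crossings of height `n` with a common site at depth `k` -/
noncomputable def Pt (n k : ℕ) (w : G) : ℝ≥0∞ :=
  ∑' LX : List BX, ∑' LY : List BY, if HT hX LX = n ∧ HT hY LY = n ∧
    (∃ y, (y, k) ∈ TR hX zX sX LX 0 0 ∧ (y, k) ∈ TR hY zY sY LY w 0)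
    then LW ΛX LX * LW ΛY LY else 0

/-- the contact event of two pieces -/
def ev (lo hi : ℕ) (P : List BX) (P' : List BY) (x : G) (a a' : ℕ) : Prop :=
  (∃ y k, (y, k) ∈ TR hX zX sX P 0 a ∧ (y, k) ∈ TR hY zY sY P' x a') ∧
    ∀ y k, (y, k) ∈ TR hX zX sX P 0 a → (y, k) ∈ TR hY zY sY P' x a' → lo ≤ k ∧ k ≤ hi

/-- the slab depths -/
def Kset (c S i0 s : ℕ) : Finset ℕ :=
  Finset.Ico c (c + i0 + i0 + s) ∪ Finset.Ioc (c + S - s) (c + S + 2 * i0)

/-- the sum over the pieces -/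
noncomputable def Good (c S i0 s : ℕ) (w : G) : ℝ≥0∞ :=
  EF ΛX hX c (fun A => EF ΛX hX S (fun P => if HT hX A ≤ c + i0 ∧ HT hX P ≤ S + i0 then
    EF ΛY hY (c + i0) (fun A' => EF ΛY hY (S + i0) (fun P' =>
      if HT hY A' ≤ c + i0 + i0 ∧ HT hY P' ≤ S + i0 + i0 then
      (if ev hX zX sX hY zY sY (c + i0 + i0 + s) (c + S - s) P P' (w + Dp zY A' - Dp zX A)
        (HT hX A) (HT hY A') then 1 else 0) else 0)) else 0))

lemma ev_of (hsX : ∀ b r, r ∈ sX b → 1 ≤ r.2 ∧ r.2 ≤ hX b)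
    (hsY : ∀ b r, r ∈ sY b → 1 ≤ r.2 ∧ r.2 ≤ hY b)
    (lo hi c S i0 s : ℕ) (hlo : c + i0 + i0 ≤ lo) (hhi : hi ≤ c + S) (w : G)
    (A P R : List BX) (A' P' R' : List BY) (hA : FP hX c A) (hP : FP hX S P)
    (hA' : FP hY (c + i0) A') (hP' : FP hY (S + i0) P') (h1 : HT hX A ≤ c + i0)
    (h2 : HT hX P ≤ S + i0) (h3 : HT hY A' ≤ c + i0 + i0)
    (hwin : ∃ y k, lo < k ∧ k ≤ hi ∧ (y, k) ∈ TR hX zX sX (A ++ (P ++ R)) 0 0 ∧
      (y, k) ∈ TR hY zY sY (A' ++ (P' ++ R')) w 0)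
    (hno : ∀ k ∈ Kset c S i0 s, ¬ ∃ y, (y, k) ∈ TR hX zX sX (A ++ (P ++ R)) 0 0 ∧
      (y, k) ∈ TR hY zY sY (A' ++ (P' ++ R')) w 0) :
    ev hX zX sX hY zY sY (c + i0 + i0 + s) (c + S - s) P P' (w + Dp zY A' - Dp zX A)
        (HT hX A) (HT hY A') := by
  have a1 := FP_le hX c A hA
  have a2 := FP_le hX S P hP
  have a3 := FP_le hY (c + i0) A' hA'
  have a4 := FP_le hY (S + i0) P' hP'
  have keyX : ∀ y k, (y, k) ∈ TR hX zX sX P 0 (HT hX A) →
      (y + Dp zX A, k) ∈ TR hX zX sX (A ++ (P ++ R)) 0 0 := by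
    intro y k hy
    rw [TR_append, TR_append]
    right; left
    rw [zero_add, zero_add]
    have := (TR_shift hX zX sX P 0 (Dp zX A) (HT hX A) y k).2 hy
    rwa [zero_add] at this
  have keyY : ∀ y k, (y, k) ∈ TR hY zY sY P' (w + Dp zY A' - Dp zX A) (HT hY A') →
      (y + Dp zX A, k) ∈ TR hY zY sY (A' ++ (P' ++ R')) w 0 := by
    intro y k hy
    rw [TR_append, TR_append]
    right; left
    rw [zero_add]
    have := (TR_shift hY zY sY P' (w + Dp zY A' - Dp zX A) (Dp zX A) (HT hY A') y k).2 hy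
    rwa [sub_add_cancel] at this
  refine ⟨?_, ?_⟩
  · obtain ⟨y, k, hk1, hk2, hx, hy⟩ := hwin
    refine ⟨y - Dp zX A, k, ?_, ?_⟩
    · rw [TR_append, TR_append] at hx
      rcases hx with hx | hx | hx
      · have := TR_depth hX zX sX hsX _ _ _ _ _ hx; omega
      · rw [zero_add, zero_add] at hx
        rw [← TR_shift hX zX sX P 0 (Dp zX A), zero_add, sub_add_cancel]
        exact hx
      · have := TR_depth hX zX sX hsX _ _ _ _ _ hx; omega
    · rw [TR_append, TR_append] at hy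
      rcases hy with hy | hy | hy
      · have := TR_depth hY zY sY hsY _ _ _ _ _ hy; omega
      · rw [zero_add] at hy
        rw [← TR_shift hY zY sY P' _ (Dp zX A), sub_add_cancel, sub_add_cancel]
        exact hy
      · have := TR_depth hY zY sY hsY _ _ _ _ _ hy; omega
  · intro y k hx hy
    have d1 := TR_depth hX zX sX hsX _ _ _ _ _ hx
    have hX' := keyX y k hx
    have hY' := keyY y k hy
    constructor
    · by_contra hcon
      refine hno k ?_ ⟨_, hX', hY'⟩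
      rw [Kset, Finset.mem_union, Finset.mem_Ico]
      left; omega
    · by_contra hcon
      refine hno k ?_ ⟨_, hX', hY'⟩
      rw [Kset, Finset.mem_union, Finset.mem_Ioc]
      right; omega

theorem window (h1X : ∀ b, 1 ≤ hX b) (h1Y : ∀ b, 1 ≤ hY b) (hΛX : ∑' b, ΛX b = 1)
    (hΛY : ∑' b, ΛY b = 1) (hU1X : ∀ n, U ΛX hX n ≤ 1) (hU1Y : ∀ n, U ΛY hY n ≤ 1)
    (hsX : ∀ b r, r ∈ sX b → 1 ≤ r.2 ∧ r.2 ≤ hX b)
    (hsY : ∀ b r, r ∈ sY b → 1 ≤ r.2 ∧ r.2 ≤ hY b)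
    (n lo hi c S i0 s : ℕ) (hlo : c + i0 + i0 ≤ lo) (hhi : hi ≤ c + S)
    (hn : c + S + 3 * i0 ≤ n) (w : G) :
    Kw ΛX hX zX sX ΛY hY zY sY n lo hi w
      ≤ (∑ k ∈ Kset c S i0 s, Pt ΛX hX zX sX ΛY hY zY sY n k w)
        + (2 * eo ΛX hX i0 + (2 * eo ΛY hY i0 + Good ΛX hX zX sX ΛY hY zY sY c S i0 s w)) := by
  set g2 : List BX → List BY → ℝ≥0∞ := fun LX LY => if HT hX LX = n ∧ HT hY LY = n ∧
    (∃ y k, lo < k ∧ k ≤ hi ∧ (y, k) ∈ TR hX zX sX LX 0 0 ∧ (y, k) ∈ TR hY zY sY LY w 0) ∧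
    (∀ k ∈ Kset c S i0 s, ¬ ∃ y, (y, k) ∈ TR hX zX sX LX 0 0 ∧ (y, k) ∈ TR hY zY sY LY w 0)
    then 1 else 0 with hg2
  set g : List BX → ℝ≥0∞ := fun LX => ∑' LY, LW ΛY LY * g2 LX LY with hg
  have s1 : Kw ΛX hX zX sX ΛY hY zY sY n lo hi w
      ≤ (∑ k ∈ Kset c S i0 s, Pt ΛX hX zX sX ΛY hY zY sY n k w) + ∑' LX, LW ΛX LX * g LX := by
    have e1 : (∑ k ∈ Kset c S i0 s, Pt ΛX hX zX sX ΛY hY zY sY n k w)
        = ∑' LX : List BX, ∑' LY : List BY, ∑ k ∈ Kset c S i0 s, (if HT hX LX = n ∧ HT hY LY = n ∧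
          (∃ y, (y, k) ∈ TR hX zX sX LX 0 0 ∧ (y, k) ∈ TR hY zY sY LY w 0)
          then LW ΛX LX * LW ΛY LY else 0) := by
      simp only [Pt]
      rw [← Summable.tsum_finsetSum (fun _ _ => ENNReal.summable)]
      refine tsum_congr fun LX => ?_
      rw [← Summable.tsum_finsetSum (fun _ _ => ENNReal.summable)]
    rw [e1, ← ENNReal.tsum_add, Kw]
    refine ENNReal.tsum_le_tsum fun LX => ?_
    simp only [hg]
    rw [← ENNReal.tsum_mul_left, ← ENNReal.tsum_add]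
    refine ENNReal.tsum_le_tsum fun LY => ?_
    by_cases hc : HT hX LX = n ∧ HT hY LY = n ∧
      (∃ y k, lo < k ∧ k ≤ hi ∧ (y, k) ∈ TR hX zX sX LX 0 0 ∧ (y, k) ∈ TR hY zY sY LY w 0)
    · rw [if_pos hc]
      by_cases hn2 : ∀ k ∈ Kset c S i0 s,
          ¬ ∃ y, (y, k) ∈ TR hX zX sX LX 0 0 ∧ (y, k) ∈ TR hY zY sY LY w 0
      · refine le_trans ?_ le_add_self
        simp only [hg2]
        rw [if_pos ⟨hc.1, hc.2.1, hc.2.2, hn2⟩, mul_one]
      · push Not at hn2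
        obtain ⟨k, hk, y, hy⟩ := hn2
        refine le_trans ?_ le_self_add
        refine le_trans ?_ (Finset.single_le_sum (fun _ _ => zero_le) hk)
        rw [if_pos ⟨hc.1, hc.2.1, y, hy⟩]
    · rw [if_neg hc]; exact zero_le
  refine s1.trans (add_le_add le_rfl ?_)
  have hg2_0 : ∀ LX LY, HT hY LY ≠ n → g2 LX LY = 0 := by
    intro LX LY hne
    simp only [hg2]
    rw [if_neg (fun hh => hne hh.2.1)]
  have hg2_1 : ∀ LX LY, g2 LX LY ≤ 1 := by
    intro LX LY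
    simp only [hg2]
    split_ifs <;> simp
  have hg_0 : ∀ LX, HT hX LX ≠ n → g LX = 0 := by
    intro LX hne
    simp only [hg]
    rw [ENNReal.tsum_eq_zero]
    intro LY
    simp only [hg2]
    rw [if_neg (fun hh => hne hh.1), mul_zero]
  have hg_1 : ∀ LX, g LX ≤ 1 := by
    intro LX
    have := sum_R ΛY hY hU1Y [] n (g2 LX) (hg2_0 LX) 1 (fun R => hg2_1 _ _)
    simpa using this
  have := piece ΛX hX h1X hΛX hU1X g (fun A P => 2 * eo ΛY hY i0 +
    EF ΛY hY (c + i0) (fun A' => EF ΛY hY (S + i0) (fun P' =>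
      if HT hY A' ≤ c + i0 + i0 ∧ HT hY P' ≤ S + i0 + i0 then
      (if ev hX zX sX hY zY sY (c + i0 + i0 + s) (c + S - s) P P' (w + Dp zY A' - Dp zX A)
        (HT hX A) (HT hY A') then 1 else 0) else 0))) n c S i0 (by omega) hg_0 hg_1 ?_
  · refine this.trans ?_
    rw [← add_assoc, ← two_mul]
    refine add_le_add le_rfl ?_
    calc _ ≤ EF ΛX hX c (fun A => EF ΛX hX S (fun P => 2 * eo ΛY hY i0 +
          (if HT hX A ≤ c + i0 ∧ HT hX P ≤ S + i0 then
          EF ΛY hY (c + i0) (fun A' => EF ΛY hY (S + i0) (fun P' =>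
          if HT hY A' ≤ c + i0 + i0 ∧ HT hY P' ≤ S + i0 + i0 then
          (if ev hX zX sX hY zY sY (c + i0 + i0 + s) (c + S - s) P P' (w + Dp zY A' - Dp zX A)
            (HT hX A) (HT hY A') then 1 else 0) else 0)) else 0))) := by
          refine EF_mono _ _ _ fun A _ => EF_mono _ _ _ fun P _ => ?_
          by_cases hc : HT hX A ≤ c + i0 ∧ HT hX P ≤ S + i0
          · rw [if_pos hc, if_pos hc]
          · rw [if_neg hc]; exact zero_le
      _ = _ := by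
          simp_rw [EF_add]
          rw [EF_const ΛX hX h1X hΛX, EF_const ΛX hX h1X hΛX]
          rfl
  · intro A P R hA hP hA2 hP2
    have := piece ΛY hY h1Y hΛY hU1Y (g2 (A ++ (P ++ R))) (fun A' P' =>
      (if ev hX zX sX hY zY sY (c + i0 + i0 + s) (c + S - s) P P' (w + Dp zY A' - Dp zX A)
        (HT hX A) (HT hY A') then 1 else 0)) n (c + i0) (S + i0) i0 (by omega)
        (hg2_0 _) (hg2_1 _) ?_
    · simp only [hg]
      refine this.trans ?_
      rw [← add_assoc, ← two_mul]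
    · intro A' P' R' hA' hP' hA2' hP2'
      by_cases hc : HT hX (A ++ (P ++ R)) = n ∧ HT hY (A' ++ (P' ++ R')) = n ∧
        (∃ y k, lo < k ∧ k ≤ hi ∧ (y, k) ∈ TR hX zX sX (A ++ (P ++ R)) 0 0 ∧
          (y, k) ∈ TR hY zY sY (A' ++ (P' ++ R')) w 0) ∧
        (∀ k ∈ Kset c S i0 s, ¬ ∃ y, (y, k) ∈ TR hX zX sX (A ++ (P ++ R)) 0 0 ∧
          (y, k) ∈ TR hY zY sY (A' ++ (P' ++ R')) w 0)
      · have he := ev_of hX zX sX hY zY sY hsX hsY lo hi c S i0 s hlo hhi w A P R A' P' R' hA hP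
          hA' hP' hA2 hP2 hA2' hc.2.2.1 hc.2.2.2
        rw [if_pos he]
        exact hg2_1 _ _
      · simp only [hg2]
        rw [if_neg hc]; exact zero_le

end two

end Crest.Agent.R154.Asm52
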