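import Crest.Agent.R154.AsmA_53
import Crest.Agent.R154.AsmD_540

/-! Row 154 (helper53), ROAD 801: abstract assembly of KAPPA', part B: one window. -/

set_option autoImplicit false

namespace Crest.Agent.R154.Asm53

open scoped ENNReal Topology
open Crest.Agent.R154.B5A Crest.Agent.R154.FP178
open Filter

section gen2

variable {A I G : Type*} [AddCommGroup G]

lemma tsum_fs (s : Finset I) (f : I → A → ℝ≥0∞) :
    ∑' a, ∑ i ∈ s, f i a = ∑ i ∈ s, ∑' a, f i a :=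
  Summable.tsum_finsetSum (fun _ _ => ENNReal.summable)

lemma tsum_fin (f : ℕ → ℝ≥0∞) (i : ℕ) (Bd : ℝ≥0∞) (h : ∀ j, f j ≤ if j ≤ i then Bd else 0) :
    ∑' j, f j ≤ (i + 1 : ℕ) * Bd := by
  calc ∑' j, f j ≤ ∑' j, (if j ≤ i then Bd else 0) := ENNReal.tsum_le_tsum h
    _ = ∑ j ∈ Finset.range (i + 1), (if j ≤ i then Bd else 0) := by
        refine tsum_eq_sum fun j hj => ?_
        rw [Finset.mem_range] at hj
        rw [if_neg (by omega)]
    _ ≤ ∑ j ∈ Finset.range (i + 1), Bd := Finset.sum_le_sum fun j _ => by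
        split_ifs
        · exact le_rfl
        · exact zero_le
    _ = (i + 1 : ℕ) * Bd := by rw [Finset.sum_const, Finset.card_range, nsmul_eq_mul]

/-- double sum over pieces, one of the laws bounded -/
lemma core0 (gX gY : ℕ × G → ℝ≥0∞) (i : ℕ) (hsX : ∀ p : ℕ × G, i < p.1 → gX p = 0)
    (hsY : ∀ p : ℕ × G, i < p.1 → gY p = 0) (htX : ∑' p, gX p ≤ 1) (htY : ∑' p, gY p ≤ 1)
    (Gd : ℝ≥0∞) (hG : (∀ p, gX p ≤ Gd) ∨ (∀ p, gY p ≤ Gd)) (w : G)
    (H : G → ℕ → ℕ → ℝ≥0∞) (Bd : ℝ≥0∞)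
    (hH : ∀ j j', j ≤ i → j' ≤ i → ∀ μ : G → ℝ≥0∞, ∑' x, μ x ≤ 1 → (∀ x, μ x ≤ Gd) →
      ∑' x, μ x * H x j j' ≤ Bd) :
    ∑' p : ℕ × G, gX p * ∑' r : ℕ × G, gY r * H (w + r.2 - p.2) p.1 r.1
      ≤ (i + 1 : ℕ) * ((i + 1 : ℕ) * Bd) := by
  have e1 : ∑' p : ℕ × G, gX p * ∑' r : ℕ × G, gY r * H (w + r.2 - p.2) p.1 r.1
      = ∑' j : ℕ, ∑' j' : ℕ, ∑' z : G, gX (j, z) * ∑' z' : G, gY (j', z') *
          H (w + z' - z) j j' := by
    rw [ENNReal.tsum_prod (f := fun (j : ℕ) (z : G) =>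
      gX (j, z) * ∑' r : ℕ × G, gY r * H (w + r.2 - z) j r.1)]
    refine tsum_congr fun j => ?_
    have e2 : ∀ z : G, gX (j, z) * ∑' r : ℕ × G, gY r * H (w + r.2 - z) j r.1
        = ∑' j' : ℕ, gX (j, z) * ∑' z' : G, gY (j', z') * H (w + z' - z) j j' := by
      intro z
      rw [ENNReal.tsum_mul_left]
      congr 1
      exact ENNReal.tsum_prod (f := fun (j' : ℕ) (z' : G) => gY (j', z') * H (w + z' - z) j j')
    rw [tsum_congr e2, ENNReal.tsum_comm]
  rw [e1]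
  have slX : ∀ j, ∑' z, gX (j, z) ≤ 1 := fun j => le_trans
    (ENNReal.tsum_comp_le_tsum_of_injective (f := fun y : G => ((j, y) : ℕ × G))
      (fun y y' h => (Prod.mk.inj h).2) gX) htX
  have slY : ∀ j, ∑' z, gY (j, z) ≤ 1 := fun j => le_trans
    (ENNReal.tsum_comp_le_tsum_of_injective (f := fun y : G => ((j, y) : ℕ × G))
      (fun y y' h => (Prod.mk.inj h).2) gY) htY
  refine tsum_fin _ i _ fun j => ?_
  by_cases hj : j ≤ i
  · rw [if_pos hj]
    refine tsum_fin _ i _ fun j' => ?_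
    by_cases hj' : j' ≤ i
    · rw [if_pos hj']
      exact conv (fun z => gX (j, z)) (fun z => gY (j', z)) (fun x => H x j j') w Gd Bd
        (slX j) (slY j') (hG.imp (fun h z => h _) (fun h z => h _)) (hH j j' hj hj')
    · rw [if_neg hj']
      have : ∀ z : G, gX (j, z) * ∑' z' : G, gY (j', z') * H (w + z' - z) j j' = 0 := by
        intro z
        have : ∀ z' : G, gY (j', z') * H (w + z' - z) j j' = 0 := by
          intro z'
          rw [hsY (j', z') (by simpa using hj'), zero_mul]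
        rw [tsum_congr this, tsum_zero, mul_zero]
      rw [tsum_congr this, tsum_zero]
  · rw [if_neg hj]
    have : ∀ j' : ℕ, ∑' z : G, gX (j, z) * ∑' z' : G, gY (j', z') * H (w + z' - z) j j' = 0 := by
      intro j'
      have : ∀ z : G, gX (j, z) * ∑' z' : G, gY (j', z') * H (w + z' - z) j j' = 0 := by
        intro z
        rw [hsX (j, z) (by simpa using hj), zero_mul]
      rw [tsum_congr this, tsum_zero]
    rw [tsum_congr this, tsum_zero]

/-- X smooth or Y smooth -/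
lemma core1 (PX PY : ℕ × G → ℝ≥0∞) (i : ℕ) (hsX : ∀ p : ℕ × G, i < p.1 → PX p = 0)
    (hsY : ∀ p : ℕ × G, i < p.1 → PY p = 0) (htX : ∑' p, PX p ≤ 1) (htY : ∑' p, PY p ≤ 1)
    (Gd ρ : ℝ≥0∞) (hG : ∑' p, (PX p - Gd) ≤ ρ ∨ ∑' p, (PY p - Gd) ≤ ρ) (w : G)
    (H : G → ℕ → ℕ → ℝ≥0∞) (H1 : ∀ x j j', H x j j' ≤ 1) (Bd : ℝ≥0∞)
    (hH : ∀ j j', j ≤ i → j' ≤ i → ∀ μ : G → ℝ≥0∞, ∑' x, μ x ≤ 1 → (∀ x, μ x ≤ Gd) →
      ∑' x, μ x * H x j j' ≤ Bd) :
    ∑' p : ℕ × G, PX p * ∑' r : ℕ × G, PY r * H (w + r.2 - p.2) p.1 r.1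
      ≤ (i + 1 : ℕ) * ((i + 1 : ℕ) * Bd) + ρ := by
  have hmin : ∀ a : ℝ≥0∞, a ≤ min a Gd + (a - Gd) := by
    intro a
    rcases le_total a Gd with h | h
    · rw [min_eq_left h]; exact le_self_add
    · rw [min_eq_right h]; exact le_add_tsub
  rcases hG with hG | hG
  · have h0 := core0 (fun p => min (PX p) Gd) PY i
      (fun p hp => by simp only [hsX p hp, zero_le, inf_of_le_left]) hsY
      ((ENNReal.tsum_le_tsum fun p => min_le_left _ _).trans htX) htY Gd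
      (Or.inl fun p => min_le_right _ _) w H Bd hH
    have hA : ∀ p : ℕ × G, ∑' r : ℕ × G, PY r * H (w + r.2 - p.2) p.1 r.1 ≤ 1 := by
      intro p
      calc ∑' r : ℕ × G, PY r * H (w + r.2 - p.2) p.1 r.1 ≤ ∑' r : ℕ × G, PY r * 1 :=
            ENNReal.tsum_le_tsum fun r => mul_le_mul_right (H1 _ _ _) _
        _ ≤ 1 := by simpa using htY
    calc ∑' p : ℕ × G, PX p * ∑' r : ℕ × G, PY r * H (w + r.2 - p.2) p.1 r.1
        ≤ ∑' p : ℕ × G, (min (PX p) Gd * ∑' r : ℕ × G, PY r * H (w + r.2 - p.2) p.1 r.1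
            + (PX p - Gd)) := by
          refine ENNReal.tsum_le_tsum fun p => ?_
          calc PX p * ∑' r : ℕ × G, PY r * H (w + r.2 - p.2) p.1 r.1
              ≤ (min (PX p) Gd + (PX p - Gd)) *
                  ∑' r : ℕ × G, PY r * H (w + r.2 - p.2) p.1 r.1 := mul_le_mul_left (hmin _) _
            _ = min (PX p) Gd * ∑' r : ℕ × G, PY r * H (w + r.2 - p.2) p.1 r.1
                + (PX p - Gd) * ∑' r : ℕ × G, PY r * H (w + r.2 - p.2) p.1 r.1 := add_mul _ _ _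
            _ ≤ _ := add_le_add_right
                ((mul_le_mul_right (hA p) _).trans (mul_one _).le) _
      _ ≤ _ := by
          rw [ENNReal.tsum_add]
          exact add_le_add h0 hG
  · have h0 := core0 PX (fun p => min (PY p) Gd) i hsX
      (fun p hp => by simp only [hsY p hp, zero_le, inf_of_le_left]) htX
      ((ENNReal.tsum_le_tsum fun p => min_le_left _ _).trans htY) Gd
      (Or.inr fun p => min_le_right _ _) w H Bd hH
    have hin : ∀ p : ℕ × G, ∑' r : ℕ × G, PY r * H (w + r.2 - p.2) p.1 r.1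
        ≤ ∑' r : ℕ × G, min (PY r) Gd * H (w + r.2 - p.2) p.1 r.1 + ρ := by
      intro p
      refine le_trans ?_ (add_le_add_right hG _)
      rw [← ENNReal.tsum_add]
      refine ENNReal.tsum_le_tsum fun r => ?_
      calc PY r * H (w + r.2 - p.2) p.1 r.1
          ≤ (min (PY r) Gd + (PY r - Gd)) * H (w + r.2 - p.2) p.1 r.1 :=
            mul_le_mul_left (hmin _) _
        _ = min (PY r) Gd * H (w + r.2 - p.2) p.1 r.1
              + (PY r - Gd) * H (w + r.2 - p.2) p.1 r.1 := add_mul _ _ _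
        _ ≤ _ := add_le_add_right ((mul_le_mul_right (H1 _ _ _) _).trans (mul_one _).le) _
    calc ∑' p : ℕ × G, PX p * ∑' r : ℕ × G, PY r * H (w + r.2 - p.2) p.1 r.1
        ≤ ∑' p : ℕ × G, (PX p * ∑' r : ℕ × G, min (PY r) Gd * H (w + r.2 - p.2) p.1 r.1
            + PX p * ρ) := by
          refine ENNReal.tsum_le_tsum fun p => ?_
          rw [← mul_add]
          exact mul_le_mul_right (hin p) _
      _ ≤ _ := by
          rw [ENNReal.tsum_add, ENNReal.tsum_mul_right]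
          exact add_le_add h0 ((mul_le_mul_left htX _).trans (one_mul _).le)

end gen2

end Crest.Agent.R154.Asm53
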