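import Crest.Agent.R154.AsmA_540

/-! Row 154, KAPPA' (road 801), helper540: attempts, density of the sum, quantile. -/

set_option autoImplicit false

namespace Crest.Agent.R154.Asm540

open scoped ENNReal
open Crest.Agent.R154.B5A

variable {B G : Type*} [AddCommGroup G]

/-- displacement -/
def Dp (z : B → G) (L : List B) : G := (L.map z).sum

lemma Dp_append (z : B → G) (L L' : List B) : Dp z (L ++ L') = Dp z L + Dp z L' := by
  simp [Dp]

variable (Λ : B → ℝ≥0∞) (ht : B → ℕ) (z : B → G)

lemma pre_suf (r : ℕ) (A : List B) : pre ht r A ++ suf ht r A = A := by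
  induction A generalizing r with
  | nil => rfl
  | cons b A ih =>
    simp only [pre, suf]
    split_ifs with h
    · rfl
    · rw [List.cons_append, ih]

open Classical in
/-- law of the piece -/
noncomputable def pp (r0 h : ℕ) (x : G) : ℝ≥0∞ :=
  ∑' P : List B, if FP ht r0 P ∧ HT ht P = h ∧ Dp z P = x then LW Λ P else 0

/-- one of the first `J` pieces is `low` -/
def Sm (r0 : ℕ) (low : List B → Prop) : ℕ → List B → Prop
  | 0, _ => False
  | J + 1, A => FP ht r0 (pre ht r0 A) ∧ (low (pre ht r0 A) ∨ Sm r0 low J (suf ht r0 A))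

lemma sm_app {r0 : ℕ} {low : List B → Prop} {J : ℕ} {P A : List B} (h : FP ht r0 P) :
    Sm ht r0 low (J+1) (P ++ A) ↔ (low P ∨ Sm ht r0 low J A) := by
  simp only [Sm]
  rw [pre_app ht h, suf_app ht h]
  simp [h]

lemma sm_HT {r0 : ℕ} {low : List B → Prop} {J : ℕ} {A : List B} (h : Sm ht r0 low J A) :
    r0 ≤ HT ht A := by
  cases J with
  | zero => exact absurd h (by simp [Sm])
  | succ J =>
    simp only [Sm] at h
    have h2 := fp_HT ht h.1
    have h3 := pre_suf ht r0 A
    have h4 : HT ht A = HT ht (pre ht r0 A) + HT ht (suf ht r0 A) := by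
      conv_lhs => rw [← h3, HT_append]
    omega

open Classical in
/-- density of the position at height `a`, one low attempt -/
noncomputable def DD (r0 : ℕ) (low : List B → Prop) (J a : ℕ) (x : G) : ℝ≥0∞ :=
  ∑' A : List B, if HT ht A = a ∧ Dp z A = x ∧ Sm ht r0 low J A then LW Λ A else 0

open Classical in
/-- mass at height `a`, position `x` -/
noncomputable def WW (a : ℕ) (x : G) : ℝ≥0∞ :=
  ∑' A : List B, if HT ht A = a ∧ Dp z A = x then LW Λ A else 0

open Classical in
lemma sum_WW_le (a : ℕ) : ∑' x : G, WW Λ ht z a x ≤ U Λ ht a := by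
  simp only [WW]
  rw [ENNReal.tsum_comm, U]
  refine ENNReal.tsum_le_tsum fun A => ?_
  rw [tsum_eq_single (Dp z A)]
  · by_cases h : HT ht A = a
    · simp [h]
    · simp [h]
  · intro x hx
    rw [if_neg (fun h => hx h.2.symm)]

open Classical in
theorem dens (h1 : ∀ b, 1 ≤ ht b) (hU1 : ∀ n, U Λ ht n ≤ 1) (r0 i0 : ℕ) (th v : ℝ≥0∞)
    (low : List B → Prop)
    (hlow : ∀ P, FP ht r0 P → low P → HT ht P ≤ r0 + i0 ∧ pp Λ ht z r0 (HT ht P) (Dp z P) ≤ th)
    (hnl : ∑' P, (if FP ht r0 P ∧ ¬ low P then LW Λ P else 0) ≤ v)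
    (J a : ℕ) (x : G) :
    DD Λ ht z r0 low J a x ≤ ((i0 + 1 : ℕ) * th) * ∑ j ∈ Finset.range J, v ^ j := by
  induction J generalizing a x with
  | zero => simp [DD, Sm]
  | succ J ih =>
    rw [Finset.sum_range_succ', pow_zero]
    set K : ℝ≥0∞ := (i0 + 1 : ℕ) * th with hK
    have hsplit : DD Λ ht z r0 low (J + 1) a x
        ≤ ∑' P, (if FP ht r0 P then ∑' A, (if HT ht (P ++ A) = a ∧ Dp z (P ++ A) = x ∧
            Sm ht r0 low (J+1) (P ++ A) then LW Λ (P ++ A) else 0) else 0) := by
      refine le_trans ?_ (split_le ht h1 r0 (fun A => if HT ht A = a ∧ Dp z A = x ∧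
            Sm ht r0 low (J+1) A then LW Λ A else 0))
      refine ENNReal.tsum_le_tsum fun A => ?_
      by_cases h : HT ht A = a ∧ Dp z A = x ∧ Sm ht r0 low (J+1) A
      · rw [if_pos h, if_pos (sm_HT ht h.2.2)]
      · rw [if_neg h]; exact zero_le
    have hterm : ∀ P : List B, (if FP ht r0 P then ∑' A, (if HT ht (P ++ A) = a ∧
          Dp z (P ++ A) = x ∧ Sm ht r0 low (J+1) (P ++ A) then LW Λ (P ++ A) else 0) else 0)
        ≤ (if FP ht r0 P ∧ low P then LW Λ P * WW Λ ht z (a - HT ht P) (x - Dp z P) else 0)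
          + (if FP ht r0 P ∧ ¬ low P then LW Λ P
              * (K * ∑ j ∈ Finset.range J, v ^ j) else 0) := by
      intro P
      by_cases hP : FP ht r0 P
      · rw [if_pos hP]
        by_cases hl : low P
        · rw [if_pos ⟨hP, hl⟩]
          refine le_trans ?_ le_self_add
          rw [WW, ← ENNReal.tsum_mul_left]
          refine ENNReal.tsum_le_tsum fun A => ?_
          by_cases h : HT ht (P ++ A) = a ∧ Dp z (P ++ A) = x ∧ Sm ht r0 low (J+1) (P ++ A)
          · have e1' : HT ht A = a - HT ht P ∧ Dp z A = x - Dp z P := by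
              rw [HT_append, Dp_append] at h
              exact ⟨by omega, by rw [← h.2.1]; abel⟩
            rw [if_pos h, if_pos e1', LW_append]
          · rw [if_neg h]; exact zero_le
        · rw [if_neg (fun h => hl h.2), zero_add, if_pos ⟨hP, hl⟩]
          refine le_trans ?_ (mul_le_mul_right (ih (a - HT ht P) (x - Dp z P)) _)
          rw [DD, ← ENNReal.tsum_mul_left]
          refine ENNReal.tsum_le_tsum fun A => ?_
          by_cases h : HT ht (P ++ A) = a ∧ Dp z (P ++ A) = x ∧ Sm ht r0 low (J+1) (P ++ A)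
          · have e1' : HT ht A = a - HT ht P ∧ Dp z A = x - Dp z P ∧ Sm ht r0 low J A := by
              have h3 := ((sm_app ht hP).1 h.2.2).resolve_left hl
              rw [HT_append, Dp_append] at h
              exact ⟨by omega, by rw [← h.2.1]; abel, h3⟩
            rw [if_pos h, if_pos e1', LW_append]
          · rw [if_neg h]; exact zero_le
      · rw [if_neg hP]; exact zero_le
    have ht2 : ∑' P : List B, (if FP ht r0 P ∧ ¬ low P then LW Λ P
              * (K * ∑ j ∈ Finset.range J, v ^ j) else 0) ≤ v * (K * ∑ j ∈ Finset.range J, v ^ j) := by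
      refine le_trans (le_of_eq ?_) (mul_le_mul_left hnl _)
      rw [← ENNReal.tsum_mul_right]
      refine tsum_congr fun P => ?_
      split_ifs <;> simp
    have ht1 : ∑' P : List B, (if FP ht r0 P ∧ low P then
        LW Λ P * WW Λ ht z (a - HT ht P) (x - Dp z P) else 0) ≤ K := by
      calc _ ≤ ∑' P : List B, ∑ h ∈ Finset.Icc r0 (r0 + i0), ∑' y : G,
              (if FP ht r0 P ∧ low P ∧ HT ht P = h ∧ Dp z P = y then LW Λ P else 0)
                * WW Λ ht z (a - h) (x - y) := by
            refine ENNReal.tsum_le_tsum fun P => ?_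
            split_ifs with hP
            · refine le_trans ?_ (Finset.single_le_sum
                (f := fun h => ∑' y : G,
                  (if FP ht r0 P ∧ low P ∧ HT ht P = h ∧ Dp z P = y then LW Λ P else 0)
                    * WW Λ ht z (a - h) (x - y)) (fun _ _ => zero_le)
                (Finset.mem_Icc.2 ⟨fp_HT ht hP.1, (hlow P hP.1 hP.2).1⟩))
              refine le_trans ?_ (ENNReal.le_tsum (Dp z P))
              rw [if_pos ⟨hP.1, hP.2, rfl, rfl⟩]
            · exact zero_le
        _ = ∑ h ∈ Finset.Icc r0 (r0 + i0), ∑' y : G, (∑' P : List B,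
              (if FP ht r0 P ∧ low P ∧ HT ht P = h ∧ Dp z P = y then LW Λ P else 0))
                * WW Λ ht z (a - h) (x - y) := by
            rw [Summable.tsum_finsetSum (fun _ _ => ENNReal.summable)]
            refine Finset.sum_congr rfl fun h _ => ?_
            rw [ENNReal.tsum_comm]
            refine tsum_congr fun y => ?_
            rw [ENNReal.tsum_mul_right]
        _ ≤ ∑ h ∈ Finset.Icc r0 (r0 + i0), ∑' y : G, th * WW Λ ht z (a - h) (x - y) := by
            refine Finset.sum_le_sum fun h _ => ENNReal.tsum_le_tsum fun y => ?_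
            refine mul_le_mul_left ?_ _
            by_cases hex : ∃ P, FP ht r0 P ∧ low P ∧ HT ht P = h ∧ Dp z P = y
            · obtain ⟨P0, hP0⟩ := hex
              have h5 := (hlow P0 hP0.1 hP0.2.1).2
              rw [hP0.2.2.1, hP0.2.2.2] at h5
              refine le_trans ?_ h5
              rw [pp]
              refine ENNReal.tsum_le_tsum fun P => ?_
              by_cases hP : FP ht r0 P ∧ low P ∧ HT ht P = h ∧ Dp z P = y
              · rw [if_pos hP, if_pos ⟨hP.1, hP.2.2⟩]
              · rw [if_neg hP]; exact zero_le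
            · rw [ENNReal.tsum_eq_zero.2]
              · exact zero_le
              · intro P
                rw [if_neg (fun hP => hex ⟨P, hP⟩)]
        _ ≤ ∑ h ∈ Finset.Icc r0 (r0 + i0), th := by
            refine Finset.sum_le_sum fun h _ => ?_
            rw [ENNReal.tsum_mul_left]
            refine le_trans (mul_le_mul_right ?_ _) (mul_one _).le
            have ee := (Equiv.subLeft x).tsum_eq (fun y => WW Λ ht z (a - h) y)
            simp only [Equiv.subLeft_apply] at ee
            rw [ee]
            exact (sum_WW_le Λ ht z (a - h)).trans (hU1 _)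
        _ = K := by
            rw [Finset.sum_const, Nat.card_Icc, hK, nsmul_eq_mul]
            congr 2
            omega
    calc _ ≤ _ := hsplit
      _ ≤ _ := ENNReal.tsum_le_tsum hterm
      _ = _ := ENNReal.tsum_add
      _ ≤ K + v * (K * ∑ j ∈ Finset.range J, v ^ j) := add_le_add ht1 ht2
      _ = K * (∑ j ∈ Finset.range J, v ^ (j+1) + 1) := by
          rw [mul_add, mul_one, add_comm]
          congr 1
          simp_rw [pow_succ]
          rw [← Finset.sum_mul]
          ring

open Classical in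
theorem nonsm (h1 : ∀ b, 1 ≤ ht b) (hΛ : ∑' b, Λ b ≤ 1) (hU1 : ∀ n, U Λ ht n ≤ 1)
    (r0 i0 : ℕ) (v : ℝ≥0∞) (hv : v ≤ 1) (low : List B → Prop)
    (hnl : ∑' P, (if FP ht r0 P ∧ ¬ low P then LW Λ P else 0) ≤ v)
    (J r : ℕ) (hr : J * (r0 + i0) ≤ r) :
    ∑' A, (if FP ht r A ∧ ¬ Sm ht r0 low J A then LW Λ A else 0) ≤ v ^ J + J * e1 Λ ht i0 := by
  induction J generalizing r with
  | zero =>
    simp only [pow_zero, Nat.cast_zero, zero_mul, add_zero]
    refine le_trans (ENNReal.tsum_le_tsum fun A => ?_) (fp_mass Λ ht hΛ r h1)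
    split_ifs with h h2 <;> simp_all
  | succ J ih =>
    have hr0 : r0 ≤ r := by nlinarith
    have hs : ∑' A, (if FP ht r A ∧ ¬ Sm ht r0 low (J+1) A then LW Λ A else 0)
        ≤ ∑' P, (if FP ht r0 P then ∑' A, (if FP ht (r - HT ht P) A then
            (if ¬ Sm ht r0 low (J+1) (P ++ A) then LW Λ (P ++ A) else 0) else 0) else 0) := by
      refine le_trans (le_of_eq ?_) (fp_comp ht h1 hr0
        (fun A => if ¬ Sm ht r0 low (J+1) A then LW Λ A else 0))
      refine tsum_congr fun A => ?_
      by_cases h : FP ht r A <;> simp [h]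
    refine hs.trans ?_
    calc _ ≤ ∑' P, ((if FP ht r0 P ∧ ¬ low P then LW Λ P else 0) * (v ^ J + J * e1 Λ ht i0)
              + (if FP ht r0 P ∧ r0 + i0 < HT ht P then LW Λ P else 0)) := by
          refine ENNReal.tsum_le_tsum fun P => ?_
          by_cases hP : FP ht r0 P
          · rw [if_pos hP]
            by_cases hbig : r0 + i0 < HT ht P
            · have e2 : (if FP ht r0 P ∧ r0 + i0 < HT ht P then LW Λ P else 0) = LW Λ P :=
                if_pos ⟨hP, hbig⟩
              rw [e2]
              refine le_trans ?_ le_add_self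
              calc _ ≤ ∑' A, LW Λ P * (if FP ht (r - HT ht P) A then LW Λ A else 0) := by
                    refine ENNReal.tsum_le_tsum fun A => ?_
                    split_ifs with h2 h3
                    · exact zero_le
                    · rw [LW_append]
                    · exact zero_le
                _ = LW Λ P * ∑' A, (if FP ht (r - HT ht P) A then LW Λ A else 0) :=
                    ENNReal.tsum_mul_left
                _ ≤ LW Λ P * 1 := mul_le_mul_right (fp_mass Λ ht hΛ _ h1) _
                _ = _ := mul_one _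
            · have e2 : (if FP ht r0 P ∧ r0 + i0 < HT ht P then LW Λ P else 0) = 0 :=
                if_neg (fun h => hbig h.2)
              rw [e2, add_zero]
              by_cases hl : low P
              · refine le_trans (le_of_eq ?_) zero_le
                rw [ENNReal.tsum_eq_zero]
                intro A
                have : Sm ht r0 low (J+1) (P ++ A) := (sm_app ht hP).2 (Or.inl hl)
                simp [this]
              · rw [if_pos ⟨hP, hl⟩]
                have h3 : J * (r0 + i0) ≤ r - HT ht P := by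
                  have : (J + 1) * (r0 + i0) = J * (r0 + i0) + (r0 + i0) := by ring
                  omega
                refine le_trans ?_ (mul_le_mul_right (ih (r - HT ht P) h3) _)
                rw [← ENNReal.tsum_mul_left]
                refine ENNReal.tsum_le_tsum fun A => ?_
                by_cases h4 : FP ht (r - HT ht P) A
                · rw [if_pos h4]
                  by_cases h5 : Sm ht r0 low J A
                  · have : Sm ht r0 low (J+1) (P ++ A) := (sm_app ht hP).2 (Or.inr h5)
                    simp [this]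
                  · have : ¬ Sm ht r0 low (J+1) (P ++ A) := by
                      rw [sm_app ht hP]; tauto
                    rw [if_pos this, if_pos ⟨h4, h5⟩, LW_append]
                · rw [if_neg h4]; exact zero_le
          · rw [if_neg hP]; exact zero_le
      _ = _ := ENNReal.tsum_add
      _ ≤ v * (v ^ J + J * e1 Λ ht i0) + e1 Λ ht i0 := by
          refine add_le_add ?_ (over_le Λ ht hU1 r0 i0)
          rw [ENNReal.tsum_mul_right]
          exact mul_le_mul_left hnl _
      _ ≤ v ^ (J+1) + J * e1 Λ ht i0 + e1 Λ ht i0 := by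
          rw [mul_add, ← pow_succ']
          refine add_le_add_left (add_le_add_right ?_ _) _
          calc v * (J * e1 Λ ht i0) ≤ 1 * (J * e1 Λ ht i0) := mul_le_mul_left hv _
            _ = _ := one_mul _
      _ = _ := by push_cast; ring

open Classical in
/-- quantile of the piece law -/
theorem quant (h1 : ∀ b, 1 ≤ ht b) (hΛ : ∑' b, Λ b ≤ 1) (r0 : ℕ) {u : ℝ≥0∞} (hu : u ≠ 0) (hu1 : u ≤ 1) :
    ∃ th : ℝ≥0∞, th ≠ 0 ∧ th ≠ ⊤ ∧
      ∑' P : List B, (if FP ht r0 P ∧ pp Λ ht z r0 (HT ht P) (Dp z P) < th then LW Λ P else 0) ≤ u ∧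
      ∑' P : List B, (if FP ht r0 P ∧ 2 * th ≤ pp Λ ht z r0 (HT ht P) (Dp z P) then LW Λ P else 0)
        ≤ 1 - u := by
  have hm := fp_mass Λ ht hΛ r0 h1
  have hmt : ∑' L, (if FP ht r0 L then LW Λ L else 0) ≠ ⊤ := ne_top_of_le_ne_top ENNReal.one_ne_top hm
  have hpp1 : ∀ h x, pp Λ ht z r0 h x ≤ 1 := by
    intro h x
    refine le_trans (ENNReal.tsum_le_tsum fun P => ?_) hm
    by_cases hP : FP ht r0 P ∧ HT ht P = h ∧ Dp z P = x
    · rw [if_pos hP, if_pos hP.1]
    · rw [if_neg hP]; exact zero_le
  have hppP : ∀ P, FP ht r0 P → LW Λ P ≤ pp Λ ht z r0 (HT ht P) (Dp z P) := by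
    intro P hP
    rw [pp]
    refine le_trans ?_ (ENNReal.le_tsum P)
    rw [if_pos ⟨hP, rfl, rfl⟩]
  set S : ℕ → ℝ≥0∞ := fun j => ∑' P : List B,
    (if FP ht r0 P ∧ pp Λ ht z r0 (HT ht P) (Dp z P) < (2⁻¹ : ℝ≥0∞) ^ j then LW Λ P else 0) with hS
  have hj : ∀ F : Finset (List B), ∃ j : ℕ, ∀ P ∈ F, LW Λ P ≠ 0 → (2⁻¹ : ℝ≥0∞) ^ j ≤ LW Λ P := by
    intro F
    induction F using Finset.induction_on with
    | empty => exact ⟨0, by simp⟩
    | insert a s _ ih =>
      obtain ⟨j, hj⟩ := ih
      by_cases h0 : LW Λ a = 0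
      · refine ⟨j, fun P hP hP0 => ?_⟩
        rcases Finset.mem_insert.1 hP with rfl | h
        · exact absurd h0 hP0
        · exact hj P h hP0
      · obtain ⟨k, hk⟩ := ENNReal.exists_inv_two_pow_lt h0
        refine ⟨max j k, fun P hP hP0 => ?_⟩
        have hle : ∀ i, i ≤ max j k → (2⁻¹ : ℝ≥0∞) ^ (max j k) ≤ (2⁻¹ : ℝ≥0∞) ^ i := fun i hi =>
          pow_le_pow_right_of_le_one' (by rw [ENNReal.inv_le_one]; norm_num) hi
        rcases Finset.mem_insert.1 hP with rfl | h
        · exact (hle k (le_max_right _ _)).trans hk.le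
        · exact (hle j (le_max_left _ _)).trans (hj P h hP0)
  have hex : ∃ j, S j ≤ u := by
    have h := ENNReal.tendsto_tsum_compl_atTop_zero hmt
    obtain ⟨F, hF⟩ := (h.eventually (gt_mem_nhds (pos_iff_ne_zero.2 hu))).exists
    obtain ⟨j, hj⟩ := hj F
    refine ⟨j, ?_⟩
    simp only [hS]
    rw [← ENNReal.sum_add_tsum_compl F, Finset.sum_eq_zero, zero_add]
    · refine le_trans (ENNReal.tsum_le_tsum fun P => ?_) hF.le
      by_cases h2 : FP ht r0 (P : List B)
      · rw [if_pos h2]
        split_ifs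
        · exact le_rfl
        · exact zero_le
      · rw [if_neg (fun h3 => h2 h3.1)]; exact zero_le
    · intro P hP
      by_cases h0 : LW Λ P = 0
      · simp [h0]
      · rw [if_neg]
        rintro ⟨h2, h3⟩
        exact absurd h3 (not_lt.2 ((hj P hP h0).trans (hppP P h2)))
  classical
  have hfs := Nat.find_spec hex
  have hfm := fun k hk => Nat.find_min hex (m := k) hk
  set j := Nat.find hex with hjdef
  refine ⟨(2⁻¹ : ℝ≥0∞) ^ j, pow_ne_zero _ (by simp), ENNReal.pow_ne_top (by simp), hfs, ?_⟩
  rcases Nat.eq_zero_or_pos j with hj0 | hj0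
  · rw [hj0, ENNReal.tsum_eq_zero.2]
    · exact zero_le
    · intro P
      rw [if_neg]
      rintro ⟨_, h⟩
      have := h.trans (hpp1 _ _)
      rw [pow_zero, mul_one] at this
      exact absurd this (by norm_num)
  · have h6 : u < S (j - 1) := not_le.1 (hfm (j - 1) (by omega))
    have h7 : (2 : ℝ≥0∞) * (2⁻¹ : ℝ≥0∞) ^ j = (2⁻¹ : ℝ≥0∞) ^ (j - 1) := by
      conv_lhs => rw [show j = (j - 1) + 1 by omega, pow_succ, mul_comm, mul_assoc]
      rw [ENNReal.inv_mul_cancel (by norm_num) (by norm_num), mul_one]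
    rw [h7]
    have h8 : ∑' P : List B, (if FP ht r0 P ∧ (2⁻¹ : ℝ≥0∞) ^ (j-1) ≤ pp Λ ht z r0 (HT ht P) (Dp z P)
        then LW Λ P else 0) + S (j - 1) ≤ 1 := by
      rw [hS, ← ENNReal.tsum_add]
      refine le_trans (ENNReal.tsum_le_tsum fun P => ?_) hm
      by_cases h2 : FP ht r0 P
      · by_cases h3 : (2⁻¹ : ℝ≥0∞) ^ (j-1) ≤ pp Λ ht z r0 (HT ht P) (Dp z P)
        · rw [if_pos ⟨h2, h3⟩, if_neg (fun h4 => absurd h4.2 (not_lt.2 h3)), if_pos h2, add_zero]
        · rw [if_neg (fun h4 => h3 h4.2), if_pos ⟨h2, not_le.1 h3⟩, if_pos h2, zero_add]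
      · rw [if_neg (fun h4 => h2 h4.1), if_neg (fun h4 => h2 h4.1)]; simp
    have h9 : S (j - 1) ≠ ⊤ := ne_top_of_le_ne_top ENNReal.one_ne_top (le_trans le_add_self h8)
    exact (ENNReal.le_sub_of_add_le_right h9 h8).trans (tsub_le_tsub_left h6.le 1)

end Crest.Agent.R154.Asm540
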