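import Crest.Agent.R154.AsmA_557

/-! Row 154 (helper557), ROAD 801, assembly: tie law and two-walker split. -/

set_option autoImplicit false
set_option maxHeartbeats 1000000

namespace Crest.Agent.R154.Asm557

open scoped ENNReal
open Crest.Agent.R154.B5A Crest.Agent.R154.FP178

open Classical in
lemma group {I G : Type*} (F : I → ℝ≥0∞) (H : I → ℕ) (D : I → G) (ψ : ℕ → G → ℝ≥0∞) :
    ∑' A, F A * ψ (H A) (D A)
      = ∑' a, ∑' z, (∑' A, if H A = a ∧ D A = z then F A else 0) * ψ a z := by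
  have e1 : ∀ a z, (∑' A, if H A = a ∧ D A = z then F A else 0) * ψ a z
      = ∑' A, (if H A = a ∧ D A = z then F A * ψ a z else 0) := by
    intro a z
    rw [← ENNReal.tsum_mul_right]
    refine tsum_congr fun A => ?_
    split_ifs <;> simp
  simp_rw [e1]
  have e2 : ∀ a, ∑' z, ∑' A, (if H A = a ∧ D A = z then F A * ψ a z else 0)
      = ∑' A, (if H A = a then F A * ψ a (D A) else 0) := by
    intro a
    rw [ENNReal.tsum_comm]
    refine tsum_congr fun A => ?_
    by_cases hA : H A = a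
    · rw [tsum_eq_single (D A)]
      · rw [if_pos ⟨hA, rfl⟩, if_pos hA]
      · intro z hz
        rw [if_neg (fun h => hz h.2.symm)]
    · rw [if_neg hA]
      rw [ENNReal.tsum_eq_zero]
      intro z
      rw [if_neg (fun h => hA h.1)]
  simp_rw [e2]
  rw [ENNReal.tsum_comm]
  refine tsum_congr fun A => ?_
  rw [tsum_eq_single (H A)]
  · rw [if_pos rfl]
  · intro a ha
    rw [if_neg (fun h => ha h.symm)]

open Classical in
lemma tie {I1 I2 G : Type*} (F1 : I1 → ℝ≥0∞) (F2 : I2 → ℝ≥0∞) (H1 : I1 → ℕ) (D1 : I1 → G)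
    (H2 : I2 → ℕ) (e : I2 → G ≃ G) (Φ : ℕ → ℕ → G → ℝ≥0∞) (hΦ : ∀ a a' x, Φ a a' x ≤ 1)
    (S1 S2 : Finset ℕ) (hS1 : ∀ A, F1 A ≠ 0 → H1 A ∈ S1) (hS2 : ∀ A, F2 A ≠ 0 → H2 A ∈ S2)
    (hF1 : ∑' A, F1 A ≤ 1) (hF2 : ∑' A, F2 A ≤ 1) (g b : ℕ → G → ℝ≥0∞)
    (hgb : ∀ a z, (∑' A, if H1 A = a ∧ D1 A = z then F1 A else 0) = g a z + b a z)
    (M β r : ℝ≥0∞) (hg : ∀ a z, g a z ≤ M) (hb : ∑' a, ∑' z, b a z ≤ β)
    (hr : ∀ a ∈ S1, ∀ a' ∈ S2, ∀ μ : G → ℝ≥0∞, ∑' x, μ x ≤ 1 → (∀ x, μ x ≤ M) →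
      ∑' x, μ x * Φ a a' x ≤ r) :
    ∑' A1, ∑' A2, F1 A1 * F2 A2 * Φ (H1 A1) (H2 A2) (e A2 (D1 A1))
      ≤ β + S1.card * S2.card * r := by
  have hgm : ∀ a, ∑' z, g a z ≤ 1 := by
    intro a
    calc ∑' z, g a z ≤ ∑' z, (∑' A, if H1 A = a ∧ D1 A = z then F1 A else 0) :=
          ENNReal.tsum_le_tsum fun z => by rw [hgb]; exact le_self_add
      _ ≤ ∑' a', ∑' z, (∑' A, if H1 A = a' ∧ D1 A = z then F1 A else 0) * 1 := by
          simp only [mul_one]
          exact ENNReal.le_tsum (f := fun a' => ∑' z, (∑' A, if H1 A = a' ∧ D1 A = z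
            then F1 A else 0)) a
      _ = ∑' A, F1 A * 1 := (group F1 H1 D1 (fun _ _ => 1)).symm
      _ ≤ 1 := by simpa using hF1
  have hg0 : ∀ a, a ∉ S1 → ∀ z, g a z = 0 := by
    intro a ha z
    have h0 : (∑' A, if H1 A = a ∧ D1 A = z then F1 A else 0) = 0 := by
      rw [ENNReal.tsum_eq_zero]
      intro A
      by_cases h : H1 A = a ∧ D1 A = z
      · rw [if_pos h]
        by_contra hne
        exact ha (h.1 ▸ hS1 A hne)
      · rw [if_neg h]
    rw [hgb] at h0
    exact (add_eq_zero.1 h0).1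
  have step1 : ∀ A2, ∑' A1, F1 A1 * Φ (H1 A1) (H2 A2) (e A2 (D1 A1))
      ≤ β + ∑ a ∈ S1, ∑' z, g a z * Φ a (H2 A2) (e A2 z) := by
    intro A2
    rw [group F1 H1 D1 (fun a z => Φ a (H2 A2) (e A2 z))]
    have e1 : ∀ a z, (∑' A, if H1 A = a ∧ D1 A = z then F1 A else 0)
        * Φ a (H2 A2) (e A2 z) ≤ b a z + g a z * Φ a (H2 A2) (e A2 z) := by
      intro a z
      rw [hgb, add_mul, add_comm]
      refine add_le_add ?_ le_rfl
      calc b a z * Φ a (H2 A2) (e A2 z) ≤ b a z * 1 := mul_le_mul_right (hΦ _ _ _) _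
        _ = _ := mul_one _
    refine (ENNReal.tsum_le_tsum fun a => ENNReal.tsum_le_tsum fun z => e1 a z).trans ?_
    simp_rw [ENNReal.tsum_add]
    refine add_le_add hb ?_
    rw [tsum_eq_sum (s := S1)]
    intro a ha
    rw [ENNReal.tsum_eq_zero]
    intro z
    rw [hg0 a ha z, zero_mul]
  have e0 : ∑' A1, ∑' A2, F1 A1 * F2 A2 * Φ (H1 A1) (H2 A2) (e A2 (D1 A1))
      = ∑' A2, F2 A2 * ∑' A1, F1 A1 * Φ (H1 A1) (H2 A2) (e A2 (D1 A1)) := by
    rw [ENNReal.tsum_comm]
    refine tsum_congr fun A2 => ?_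
    rw [← ENNReal.tsum_mul_left]
    refine tsum_congr fun A1 => ?_
    ring
  rw [e0]
  refine (ENNReal.tsum_le_tsum fun A2 => mul_le_mul_right (step1 A2) (F2 A2)).trans ?_
  simp_rw [mul_add]
  rw [ENNReal.tsum_add]
  refine add_le_add ?_ ?_
  · rw [ENNReal.tsum_mul_right]
    calc _ ≤ 1 * β := mul_le_mul_left hF2 _
      _ = β := one_mul _
  · simp_rw [Finset.mul_sum]
    rw [Summable.tsum_finsetSum (fun _ _ => ENNReal.summable)]
    have key : ∀ a ∈ S1, ∑' A2, F2 A2 * ∑' z, g a z * Φ a (H2 A2) (e A2 z) ≤ S2.card * r := by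
      intro a ha
      set μ : ℕ → G → ℝ≥0∞ := fun a' x => ∑' A2, (if H2 A2 = a' then F2 A2 else 0)
        * g a ((e A2).symm x) with hμ
      have hμ1 : ∀ a', ∑' x, μ a' x ≤ 1 := by
        intro a'
        simp only [hμ]
        rw [ENNReal.tsum_comm]
        calc _ ≤ ∑' A2, F2 A2 * 1 := by
              refine ENNReal.tsum_le_tsum fun A2 => ?_
              rw [ENNReal.tsum_mul_left]
              have h1 : (if H2 A2 = a' then F2 A2 else 0) ≤ F2 A2 := by
                split_ifs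
                · exact le_rfl
                · exact zero_le
              have h2 : ∑' x, g a ((e A2).symm x) ≤ 1 := by
                rw [(e A2).symm.tsum_eq (g a)]
                exact hgm a
              exact mul_le_mul' h1 h2
          _ ≤ 1 := by simpa using hF2
      have hμM : ∀ a' x, μ a' x ≤ M := by
        intro a' x
        simp only [hμ]
        calc _ ≤ ∑' A2, F2 A2 * M := by
              refine ENNReal.tsum_le_tsum fun A2 => ?_
              have h1 : (if H2 A2 = a' then F2 A2 else 0) ≤ F2 A2 := by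
                split_ifs
                · exact le_rfl
                · exact zero_le
              exact mul_le_mul' h1 (hg _ _)
          _ = (∑' A2, F2 A2) * M := ENNReal.tsum_mul_right
          _ ≤ 1 * M := mul_le_mul_left hF2 _
          _ = M := one_mul _
      have e2 : ∀ A2, F2 A2 * ∑' z, g a z * Φ a (H2 A2) (e A2 z)
          = ∑ a' ∈ S2, (if H2 A2 = a' then F2 A2 else 0)
            * ∑' x, g a ((e A2).symm x) * Φ a a' x := by
        intro A2
        have e3 : ∑' z, g a z * Φ a (H2 A2) (e A2 z)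
            = ∑' x, g a ((e A2).symm x) * Φ a (H2 A2) x := by
          rw [← (e A2).tsum_eq (fun x => g a ((e A2).symm x) * Φ a (H2 A2) x)]
          simp
        rw [e3]
        by_cases hA : F2 A2 = 0
        · simp [hA]
        · rw [Finset.sum_eq_single (H2 A2)]
          · rw [if_pos rfl]
          · intro a' _ ha'
            rw [if_neg ha'.symm, zero_mul]
          · intro hn
            exact absurd (hS2 A2 hA) hn
      rw [tsum_congr e2, Summable.tsum_finsetSum (fun _ _ => ENNReal.summable)]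
      have e4 : ∀ a' ∈ S2, ∑' A2, (if H2 A2 = a' then F2 A2 else 0)
            * ∑' x, g a ((e A2).symm x) * Φ a a' x ≤ r := by
        intro a' ha'
        refine le_trans (le_of_eq ?_) (hr a ha a' ha' (μ a') (hμ1 a') (hμM a'))
        simp only [hμ]
        simp_rw [← ENNReal.tsum_mul_left, ← ENNReal.tsum_mul_right]
        rw [ENNReal.tsum_comm]
        refine tsum_congr fun x => tsum_congr fun A2 => ?_
        ring
      calc _ ≤ ∑ a' ∈ S2, r := Finset.sum_le_sum e4
        _ = S2.card * r := by rw [Finset.sum_const, nsmul_eq_mul]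
    calc _ ≤ ∑ a ∈ S1, (S2.card * r : ℝ≥0∞) := Finset.sum_le_sum key
      _ = S1.card * S2.card * r := by rw [Finset.sum_const, nsmul_eq_mul]; ring

section two
variable {BX BY G : Type*} [AddCommGroup G]
  (ΛX : BX → ℝ≥0∞) (hX : BX → ℕ) (zX : BX → G) (sX : BX → Set (G × ℕ))
  (ΛY : BY → ℝ≥0∞) (hY : BY → ℕ) (zY : BY → G) (sY : BY → Set (G × ℕ))

/-- contact depths of two hung lists -/
def pc (P : List BX) (x : G) (a : ℕ) (P' : List BY) (x' : G) (a' : ℕ) : Set ℕ :=
  {k | ∃ v, (v, k) ∈ T hX zX sX P x a ∧ (v, k) ∈ T hY zY sY P' x' a'}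

open Classical in
lemma win_two (h1X : ∀ b, 1 ≤ hX b) (hUX : ∀ n, U ΛX hX n ≤ 1)
    (h1Y : ∀ b, 1 ≤ hY b) (hUY : ∀ n, U ΛY hY n ≤ 1) (a a' τ τ' i n : ℕ)
    (hn : a + i + τ ≤ n) (hn' : a' + i + τ' ≤ n) (good : List BX → List BY → Prop)
    (g2 : List BX → List BX → List BY → List BY → ℝ≥0∞)
    (hg2 : ∀ A P R A' P' R', fp hX a A → HT hX A ≤ a + i → fp hX τ P → HT hX P ≤ τ + i →
      fp hY a' A' → HT hY A' ≤ a' + i → fp hY τ' P' → HT hY P' ≤ τ' + i →
      good (A ++ (P ++ R)) (A' ++ (P' ++ R')) → 1 ≤ g2 A P A' P') :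
    ∑' LX, ∑' LY, (if HT hX LX = n ∧ HT hY LY = n ∧ good LX LY
        then LW ΛX LX * LW ΛY LY else 0)
      ≤ 2 * ep ΛX hX i + 2 * ep ΛY hY i +
        ∑' A, ∑' A', nu ΛX hX a i A * nu ΛY hY a' i A' *
          ∑' P, nu ΛX hX τ i P * ∑' P', nu ΛY hY τ' i P' * g2 A P A' P' := by
  set gX : List BY → List BX → List BX → ℝ≥0∞ := fun LY A P =>
    if fp hX a A ∧ HT hX A ≤ a + i ∧ fp hX τ P ∧ HT hX P ≤ τ + i ∧
      ∃ R, good (A ++ (P ++ R)) LY then 1 else 0 with hgX
  have hgX1 : ∀ LY A P, gX LY A P ≤ 1 := by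
    intro LY A P
    simp only [hgX]
    split_ifs
    · exact le_rfl
    · exact zero_le
  have s1 : ∀ LY, ∑' LX, (if HT hX LX = n then LW ΛX LX * (if good LX LY then 1 else 0) else 0)
      ≤ 2 * ep ΛX hX i + ∑' A, nu ΛX hX a i A * ∑' P, nu ΛX hX τ i P * gX LY A P := by
    intro LY
    refine win_one ΛX hX h1X hUX a τ i n hn (fun LX => if good LX LY then 1 else 0)
      (fun L => by split_ifs; exacts [le_rfl, zero_le]) (gX LY) ?_
    intro A P R hA hA' hP hP' _
    simp only [hgX]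
    by_cases h : good (A ++ (P ++ R)) LY
    · rw [if_pos h, if_pos ⟨hA, hA', hP, hP', R, h⟩]
    · rw [if_neg h]; exact zero_le
  have s2 : ∀ A P, ∑' LY, (if HT hY LY = n then LW ΛY LY * gX LY A P else 0)
      ≤ 2 * ep ΛY hY i + ∑' A', nu ΛY hY a' i A' * ∑' P', nu ΛY hY τ' i P' * g2 A P A' P' := by
    intro A P
    refine win_one ΛY hY h1Y hUY a' τ' i n hn' (fun LY => gX LY A P)
      (fun L => hgX1 _ _ _) (g2 A P) ?_
    intro A' P' R' hA hA' hP hP' _
    simp only [hgX]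
    by_cases h : fp hX a A ∧ HT hX A ≤ a + i ∧ fp hX τ P ∧ HT hX P ≤ τ + i ∧
        ∃ R, good (A ++ (P ++ R)) (A' ++ (P' ++ R'))
    · rw [if_pos h]
      obtain ⟨q1, q2, q3, q4, R, hR⟩ := h
      exact hg2 A P R A' P' R' q1 q2 q3 q4 hA hA' hP hP' hR
    · rw [if_neg h]; exact zero_le
  have e0 : ∑' LX, ∑' LY, (if HT hX LX = n ∧ HT hY LY = n ∧ good LX LY
        then LW ΛX LX * LW ΛY LY else 0)
      = ∑' LY, (if HT hY LY = n then LW ΛY LY *
        ∑' LX, (if HT hX LX = n then LW ΛX LX * (if good LX LY then 1 else 0) else 0)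
          else 0) := by
    rw [ENNReal.tsum_comm]
    refine tsum_congr fun LY => ?_
    by_cases hL : HT hY LY = n
    · rw [if_pos hL, ← ENNReal.tsum_mul_left]
      refine tsum_congr fun LX => ?_
      by_cases h1 : HT hX LX = n <;> by_cases h2 : good LX LY <;>
        simp [h1, h2, hL, mul_comm]
    · rw [if_neg hL, ENNReal.tsum_eq_zero]
      intro LX
      rw [if_neg (fun h => hL h.2.1)]
  rw [e0]
  have e1 : ∀ LY : List BY, (if HT hY LY = n then LW ΛY LY *
        ∑' LX, (if HT hX LX = n then LW ΛX LX * (if good LX LY then 1 else 0) else 0)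
          else 0)
      ≤ (if HT hY LY = n then LW ΛY LY else 0) * (2 * ep ΛX hX i)
        + ∑' A, nu ΛX hX a i A * ∑' P, nu ΛX hX τ i P *
          (if HT hY LY = n then LW ΛY LY * gX LY A P else 0) := by
    intro LY
    by_cases hL : HT hY LY = n
    · simp only [if_pos hL]
      refine (mul_le_mul_right (s1 LY) _).trans (le_of_eq ?_)
      rw [mul_add]
      congr 1
      simp_rw [← ENNReal.tsum_mul_left]
      refine tsum_congr fun A => tsum_congr fun P => ?_
      ring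
    · simp only [if_neg hL]
      exact zero_le
  refine (ENNReal.tsum_le_tsum e1).trans ?_
  rw [ENNReal.tsum_add, ENNReal.tsum_mul_right, add_assoc]
  refine add_le_add ?_ ?_
  · calc _ ≤ 1 * (2 * ep ΛX hX i) := mul_le_mul_left (hUY n) _
      _ = _ := one_mul _
  · have e2 : ∑' LY : List BY, ∑' A, nu ΛX hX a i A * ∑' P, nu ΛX hX τ i P *
          (if HT hY LY = n then LW ΛY LY * gX LY A P else 0)
        = ∑' A, nu ΛX hX a i A * ∑' P, nu ΛX hX τ i P *
          ∑' LY : List BY, (if HT hY LY = n then LW ΛY LY * gX LY A P else 0) := by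
      rw [ENNReal.tsum_comm]
      refine tsum_congr fun A => ?_
      rw [ENNReal.tsum_mul_left, ENNReal.tsum_comm]
      congr 1
      refine tsum_congr fun P => ?_
      rw [ENNReal.tsum_mul_left]
    rw [e2]
    refine (ENNReal.tsum_le_tsum fun A => mul_le_mul_right
      (ENNReal.tsum_le_tsum fun P => mul_le_mul_right (s2 A P) _) _).trans ?_
    simp_rw [mul_add]
    simp_rw [ENNReal.tsum_add, mul_add]
    rw [ENNReal.tsum_add]
    refine add_le_add ?_ (le_of_eq ?_)
    · simp_rw [ENNReal.tsum_mul_right, ← mul_assoc]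
      have q1 := nu_sum ΛX hX h1X hUX a i
      have q2 := nu_sum ΛX hX h1X hUX τ i
      rw [mul_assoc]
      calc _ ≤ (1 * 1) * (2 * ep ΛY hY i) := mul_le_mul_left (mul_le_mul' q1 q2) _
        _ = _ := by rw [one_mul, one_mul]
    · refine tsum_congr fun A => ?_
      have e3 : ∑' P, nu ΛX hX τ i P *
            ∑' A', nu ΛY hY a' i A' * ∑' P', nu ΛY hY τ' i P' * g2 A P A' P'
          = ∑' A', nu ΛY hY a' i A' *
            ∑' P, nu ΛX hX τ i P * ∑' P', nu ΛY hY τ' i P' * g2 A P A' P' := by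
        simp_rw [← ENNReal.tsum_mul_left]
        rw [ENNReal.tsum_comm]
        refine tsum_congr fun A' => tsum_congr fun P => tsum_congr fun P' => ?_
        ring
      rw [e3, ← ENNReal.tsum_mul_left]
      refine tsum_congr fun A' => ?_
      ring

end two

end Crest.Agent.R154.Asm557
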