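import Crest.Agent.R154.AsmA_580

/-! Row 154, ROAD 801, abstract assembly, part B: one window (helper580). -/

set_option autoImplicit false

namespace Crest.Agent.R154.Asm580

open scoped ENNReal
open Crest.Agent.R154.B5A
open Crest.Agent.R154.Ren396 (FR FR_le split_FR mass_FR over_le TS tendsto_TS FR_zero)

lemma tsum_fiber {α β : Type*} (f : α → β) (W : α → ℝ≥0∞) (Φ : β → ℝ≥0∞) [DecidableEq β] :
    ∑' x, (∑' a, if f a = x then W a else 0) * Φ x = ∑' a, W a * Φ (f a) := by
  simp_rw [← ENNReal.tsum_mul_right]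
  rw [ENNReal.tsum_comm]
  refine tsum_congr fun a => ?_
  rw [tsum_eq_single (f a)]
  · simp
  · intro x hx
    rw [if_neg (fun h => hx h.symm), zero_mul]

section op

variable {AX AY : Type*} (lX : AX → ℝ≥0∞) (lY : AY → ℝ≥0∞)

noncomputable def wj {A : Type*} (lm : A → ℝ≥0∞) (j : ℕ) (L : List A) : ℝ≥0∞ :=
  if L.length = j then LW lm L else 0

lemma SL_wj {A : Type*} (lm : A → ℝ≥0∞) (j : ℕ) (F : List A → ℝ≥0∞) :
    SL lm j F = ∑' L, wj lm j L * F L := by
  rw [SL]
  refine tsum_congr fun L => ?_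
  rw [wj]; split_ifs <;> simp

lemma tsum_wj_le {A : Type*} (lm : A → ℝ≥0∞) (hl : ∑' b, lm b ≤ 1) (j : ℕ) :
    ∑' L, wj lm j L ≤ 1 := by
  have := SL_le_const lm hl j 1
  rw [SL_wj] at this
  simpa using this

noncomputable def Op (j : ℕ) (F : List AX → AX → List AY → AY → ℝ≥0∞) : ℝ≥0∞ :=
  ∑' p : List AX × List AY, ∑' q : AX × AY,
    wj lX j p.1 * wj lY j p.2 * (lX q.1 * lY q.2) * F p.1 q.1 p.2 q.2

lemma Op_eq (j : ℕ) (F : List AX → AX → List AY → AY → ℝ≥0∞) :
    SL lX j (fun A => ∑' P, lX P * SL lY j (fun C => ∑' Q, lY Q * F A P C Q)) = Op lX lY j F := by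
  rw [SL_wj, Op, ENNReal.tsum_prod']
  refine tsum_congr fun A => ?_
  calc _ = ∑' P, ∑' C, ∑' Q, wj lX j A * wj lY j C * (lX P * lY Q) * F A P C Q := by
        rw [← ENNReal.tsum_mul_left]
        refine tsum_congr fun P => ?_
        rw [SL_wj, ← mul_assoc, ← ENNReal.tsum_mul_left]
        refine tsum_congr fun C => ?_
        rw [← mul_assoc, ← ENNReal.tsum_mul_left]
        refine tsum_congr fun Q => ?_
        ring
    _ = ∑' C, ∑' P, ∑' Q, wj lX j A * wj lY j C * (lX P * lY Q) * F A P C Q := by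
        rw [ENNReal.tsum_comm]
    _ = _ := by
        refine tsum_congr fun C => ?_
        rw [ENNReal.tsum_prod']

lemma wj_ne {A : Type*} (lm : A → ℝ≥0∞) {j : ℕ} {L : List A} (h : wj lm j L ≠ 0) :
    L.length = j ∧ ∀ b ∈ L, lm b ≠ 0 := by
  rw [wj] at h
  split_ifs at h with h1
  · refine ⟨h1, fun b hb hb0 => h ?_⟩
    rw [LW]
    exact List.prod_eq_zero (List.mem_map.2 ⟨b, hb, hb0⟩)
  · exact absurd rfl h

lemma Op_mono (j : ℕ) {F F' : List AX → AX → List AY → AY → ℝ≥0∞}
    (hF : ∀ A P C Q, A.length = j → (∀ b ∈ A, lX b ≠ 0) → lX P ≠ 0 → C.length = j →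
      (∀ b ∈ C, lY b ≠ 0) → lY Q ≠ 0 → F A P C Q ≤ F' A P C Q) : Op lX lY j F ≤ Op lX lY j F' := by
  refine ENNReal.tsum_le_tsum fun p => ENNReal.tsum_le_tsum fun q => ?_
  by_cases h0 : wj lX j p.1 * wj lY j p.2 * (lX q.1 * lY q.2) = 0
  · rw [h0, zero_mul, zero_mul]
  · refine mul_le_mul_right ?_ _
    have h1 : wj lX j p.1 * wj lY j p.2 ≠ 0 := fun h => h0 (by rw [h, zero_mul])
    have h2 : lX q.1 * lY q.2 ≠ 0 := fun h => h0 (by rw [h, mul_zero])
    have h3 := wj_ne lX (fun h => h1 (by rw [h, zero_mul]) : wj lX j p.1 ≠ 0)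
    have h4 := wj_ne lY (fun h => h1 (by rw [h, mul_zero]) : wj lY j p.2 ≠ 0)
    exact hF _ _ _ _ h3.1 h3.2 (fun h => h2 (by rw [h, zero_mul])) h4.1 h4.2
      (fun h => h2 (by rw [h, mul_zero]))

lemma Op_add (j : ℕ) (F F' : List AX → AX → List AY → AY → ℝ≥0∞) :
    Op lX lY j (fun A P C Q => F A P C Q + F' A P C Q) = Op lX lY j F + Op lX lY j F' := by
  rw [Op, Op, Op, ← ENNReal.tsum_add]
  refine tsum_congr fun p => ?_
  rw [← ENNReal.tsum_add]
  refine tsum_congr fun q => ?_
  rw [mul_add]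

lemma Op_fin {ι : Type*} (S : Finset ι) (j : ℕ) (F : ι → List AX → AX → List AY → AY → ℝ≥0∞) :
    Op lX lY j (fun A P C Q => ∑ i ∈ S, F i A P C Q) = ∑ i ∈ S, Op lX lY j (F i) := by
  classical
  induction S using Finset.induction_on with
  | empty =>
    simp only [Finset.sum_empty]
    rw [Op]; simp
  | insert a S ha ih =>
    simp only [Finset.sum_insert ha]
    rw [Op_add, ih]

/-- products -/
lemma Op_prod_le (hX : ∑' b, lX b ≤ 1) (hY : ∑' b, lY b ≤ 1) (j : ℕ)
    (f : AX → ℝ≥0∞) (g : AY → ℝ≥0∞) (uX uY : ℝ≥0∞) (hf : ∑' P, lX P * f P ≤ uX)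
    (hg : ∑' P, lY P * g P ≤ uY) :
    Op lX lY j (fun _ P _ Q => f P * g Q) ≤ uX * uY := by
  rw [← Op_eq]
  refine le_trans ?_ (SL_le_const lX hX j _)
  refine SL_mono lX j fun A _ => ?_
  calc _ ≤ ∑' P, lX P * f P * uY := by
        refine ENNReal.tsum_le_tsum fun P => ?_
        rw [mul_assoc]
        refine mul_le_mul_right ?_ _
        refine le_trans ?_ (SL_le_const lY hY j _)
        refine SL_mono lY j fun C _ => ?_
        calc _ = f P * ∑' Q, lY Q * g Q := by
              rw [← ENNReal.tsum_mul_left]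
              refine tsum_congr fun Q => ?_
              ring
          _ ≤ _ := mul_le_mul_right hg _
    _ ≤ _ := by
        rw [ENNReal.tsum_mul_right]
        exact mul_le_mul_left hf _

lemma Op_left_le (hX : ∑' b, lX b ≤ 1) (hY : ∑' b, lY b ≤ 1) (j : ℕ) (f : List AX → ℝ≥0∞) :
    Op lX lY j (fun A _ _ _ => f A) ≤ SL lX j f := by
  rw [← Op_eq]
  refine SL_mono lX j fun A _ => ?_
  calc _ ≤ ∑' P, lX P * f A := by
        refine ENNReal.tsum_le_tsum fun P => mul_le_mul_right ?_ _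
        refine le_trans ?_ (SL_le_const lY hY j _)
        refine SL_mono lY j fun C _ => ?_
        rw [ENNReal.tsum_mul_right]
        exact mul_le_of_le_one_left' hY
    _ ≤ _ := by
        rw [ENNReal.tsum_mul_right]
        exact mul_le_of_le_one_left' hX

lemma Op_right_le (hX : ∑' b, lX b ≤ 1) (hY : ∑' b, lY b ≤ 1) (j : ℕ) (f : List AY → ℝ≥0∞) :
    Op lX lY j (fun _ _ C _ => f C) ≤ SL lY j f := by
  rw [← Op_eq]
  refine le_trans ?_ (SL_le_const lX hX j _)
  refine SL_mono lX j fun A _ => ?_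
  calc _ ≤ ∑' P, lX P * SL lY j f := by
        refine ENNReal.tsum_le_tsum fun P => mul_le_mul_right ?_ _
        refine SL_mono lY j fun C _ => ?_
        rw [ENNReal.tsum_mul_right]
        exact mul_le_of_le_one_left' hY
    _ ≤ _ := by
        rw [ENNReal.tsum_mul_right]
        exact mul_le_of_le_one_left' hX

open Classical in
/-- the five-way split of a window -/
theorem split5 (hX : ∑' b, lX b ≤ 1) (hY : ∑' b, lY b ≤ 1) (j : ℕ)
    (Ev : List AX → AX → List AY → AY → Prop) (NX SX : AX → Prop) (NY SY : AY → Prop)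
    (uX uY bX bY : ℝ≥0∞)
    (huX : ∑' P, lX P * (if NX P then 1 else 0) ≤ uX)
    (huY : ∑' P, lY P * (if NY P then 1 else 0) ≤ uY)
    (hbX : SL lX j (fun A => if ∃ b ∈ A, SX b then 0 else 1) ≤ bX)
    (hbY : SL lY j (fun A => if ∃ b ∈ A, SY b then 0 else 1) ≤ bY) :
    Op lX lY j (fun A P C Q => if Ev A P C Q then 1 else 0) ≤ uX * uY + bX + bY
      + Op lX lY j (fun A P C Q => if Ev A P C Q ∧ ¬ NX P ∧ ∃ b ∈ A, SX b then 1 else 0)
      + Op lX lY j (fun A P C Q => if Ev A P C Q ∧ ¬ NY Q ∧ ∃ b ∈ C, SY b then 1 else 0) := by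
  calc _ ≤ Op lX lY j (fun A P C Q =>
        (((((if NX P then 1 else 0) * (if NY Q then 1 else 0)) + (if ∃ b ∈ A, SX b then 0 else 1))
          + (if ∃ b ∈ C, SY b then 0 else 1))
          + (if Ev A P C Q ∧ ¬ NX P ∧ ∃ b ∈ A, SX b then 1 else 0))
          + (if Ev A P C Q ∧ ¬ NY Q ∧ ∃ b ∈ C, SY b then 1 else 0)) := by
        refine Op_mono lX lY j fun A P C Q _ _ _ _ _ _ => ?_
        by_cases h1 : ∃ b ∈ A, SX b
        · by_cases h2 : ∃ b ∈ C, SY b
          · by_cases h3 : NX P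
            · by_cases h4 : NY Q
              · simp only [h1, h2, h3, h4, if_true, not_true, false_and, and_false, if_false,
                  mul_one, add_zero]
                split_ifs <;> simp
              · simp only [h1, h2, h3, h4, if_true, not_true, false_and, and_false, if_false,
                  not_false_iff, and_true, mul_zero, add_zero, zero_add]
                exact le_rfl
            · simp only [h1, h2, h3, if_true, not_false_iff, and_true, if_false, zero_mul,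
                zero_add]
              exact le_add_right le_rfl
          · simp only [h2, if_false]
            refine le_trans (b := 1) (by split_ifs <;> simp) ?_
            refine le_add_right (le_add_right (le_add_left le_rfl))
        · simp only [h1, if_false]
          refine le_trans (b := 1) (by split_ifs <;> simp) ?_
          refine le_add_right (le_add_right (le_add_right (le_add_left le_rfl)))
    _ ≤ _ := by
        rw [Op_add, Op_add, Op_add, Op_add]
        refine add_le_add (add_le_add (add_le_add (add_le_add ?_ ?_) ?_) le_rfl) le_rfl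
        · exact Op_prod_le lX lY hX hY j _ _ uX uY huX huY
        · exact (Op_left_le lX lY hX hY j _).trans hbX
        · exact (Op_right_le lX lY hX hY j _).trans hbY

end op

/-! ### quantile for a sub-probability -/

open Classical in
theorem quant' {ι : Type*} (p : ι → ℝ≥0∞) (hp : ∑' i, p i ≤ 1) {u : ℝ≥0∞} (hu : u ≠ 0)
    (hu1 : u ≤ ∑' i, p i) : ∃ θ : ℝ≥0∞, θ ≠ 0 ∧ θ ≤ 1 ∧ (∑' i, if p i < θ then p i else 0) ≤ u ∧
      u ≤ (∑' i, if p i < 2 * θ then p i else 0) := by
  have hex := AsmA789.exists_small p hp hu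
  set P : ℕ → Prop := fun q => (∑' i, if p i < (2 : ℝ≥0∞)⁻¹ ^ q then p i else 0) ≤ u with hP
  have hex' : ∃ q, P q := hex
  have hq := Nat.find_spec hex'
  refine ⟨(2 : ℝ≥0∞)⁻¹ ^ Nat.find hex', ?_, ?_, hq, ?_⟩
  · exact pow_ne_zero _ (by simp)
  · exact pow_le_one' (by simp) _
  · rcases Nat.eq_zero_or_pos (Nat.find hex') with h0 | hpos
    · rw [h0, pow_zero, mul_one]
      have : ∀ i, p i < 2 := by
        intro i
        calc p i ≤ ∑' i, p i := ENNReal.le_tsum i
          _ ≤ 1 := hp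
          _ < 2 := by norm_num
      simp only [this, if_true]
      exact hu1
    · obtain ⟨r, hr⟩ := Nat.exists_eq_succ_of_ne_zero hpos.ne'
      have hnot : ¬ P r := Nat.find_min hex' (by omega)
      have e : 2 * (2 : ℝ≥0∞)⁻¹ ^ Nat.find hex' = (2 : ℝ≥0∞)⁻¹ ^ r := by
        rw [hr, Nat.succ_eq_add_one, pow_succ, mul_comm ((2 : ℝ≥0∞)⁻¹ ^ r), ← mul_assoc,
          ENNReal.mul_inv_cancel (by norm_num) (by norm_num), one_mul]
      rw [e]
      exact (not_le.1 hnot).le

section law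

variable {A Z : Type*} (lm : A → ℝ≥0∞) (zz : A → Z)

open Classical in
/-- law of `zz` -/
noncomputable def lawp (a : Z) : ℝ≥0∞ := ∑' P, if zz P = a then lm P else 0

lemma tsum_lawp : ∑' a, lawp lm zz a = ∑' P, lm P := by
  classical
  have := tsum_fiber zz lm (fun _ => 1)
  simpa [lawp] using this

open Classical in
lemma lawp_mass (c : ℝ≥0∞) :
    ∑' P, lm P * (if lawp lm zz (zz P) < c then 1 else 0)
      = ∑' a, if lawp lm zz a < c then lawp lm zz a else 0 := by
  have := tsum_fiber zz lm (fun a => if lawp lm zz a < c then (1 : ℝ≥0∞) else 0)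
  rw [← this]
  refine tsum_congr fun a => ?_
  have e : (∑' P, if zz P = a then lm P else 0) = lawp lm zz a := rfl
  rw [e]
  split_ifs <;> simp

open Classical in
/-- quantile data: nonlocal mass, smooth mass -/
theorem quant_data (hl : ∑' P, lm P ≤ 1) {u : ℝ≥0∞} (hu : u ≠ 0) (hu1 : u ≤ ∑' P, lm P) :
    ∃ θ : ℝ≥0∞, θ ≠ 0 ∧ θ ≤ 1 ∧
      ∑' P, lm P * (if lawp lm zz (zz P) < θ then 1 else 0) ≤ u ∧
      (∑' P, if lawp lm zz (zz P) < 2 * θ then 0 else lm P) ≤ 1 - u := by
  obtain ⟨θ, h0, h1, h2, h3⟩ := quant' (lawp lm zz) (by rw [tsum_lawp]; exact hl) hu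
    (by rw [tsum_lawp]; exact hu1)
  refine ⟨θ, h0, h1, ?_, ?_⟩
  · rw [lawp_mass]; exact h2
  · rw [← lawp_mass] at h3
    have hu2 : u ≠ ⊤ := ne_top_of_le_ne_top ENNReal.one_ne_top (hu1.trans hl)
    refine ENNReal.le_sub_of_add_le_left hu2 ?_
    refine le_trans (add_le_add_left h3 _) ?_
    rw [← ENNReal.tsum_add]
    refine le_trans (ENNReal.tsum_le_tsum fun P => ?_) hl
    split_ifs <;> simp

end law

end Crest.Agent.R154.Asm580
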