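import Crest.Agent.R154.AsmA_594

/-! Row 154, ROAD 801 (helper594): the two-walker grouping lemma. Pure sums. -/

set_option autoImplicit false

namespace Crest.Agent.R154.Asm594

open scoped ENNReal
open Crest.Agent.R154.B5A

section expand

variable {C G : Type*} [AddCommGroup G] (π : C → ℝ≥0∞) (h : C → ℕ) (z : C → G)

/-- the value of a letter -/
def vv (c : C) : ℤ × G := ((h c : ℤ), z c)

lemma sum_v (L : List C) : (L.map (vv h z)).sum = ((HT h L : ℤ), (L.map z).sum) := by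
  induction L with
  | nil => simp only [List.map_nil, List.sum_nil, HT_nil]; rfl
  | cons c L ih =>
    rw [List.map_cons, List.sum_cons, ih, HT_cons, List.map_cons, List.sum_cons]
    simp only [vv]
    ext
    · simp
    · simp

open Classical in
/-- joint law of total height and displacement -/
noncomputable def NN (j a : ℕ) (x : G) : ℝ≥0∞ :=
  SL π j (fun L => if HT h L = a ∧ (L.map z).sum = x then 1 else 0)

lemma NN_eq (j a : ℕ) (x : G) : NN π h z j a x = PJ π (vv h z) j ((a : ℤ), x) := by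
  classical
  unfold NN PJ
  refine SL_congr π j fun L _ => ?_
  rw [sum_v]
  have : (((HT h L : ℤ), (L.map z).sum) = ((a : ℤ), x)) ↔ (HT h L = a ∧ (L.map z).sum = x) := by
    rw [Prod.mk.injEq]
    simp
  by_cases hh : HT h L = a ∧ (L.map z).sum = x
  · rw [if_pos hh, if_pos (this.2 hh)]
  · rw [if_neg hh, if_neg (fun h' => hh (this.1 h'))]

open Classical in
lemma SL_expand (j : ℕ) (R : Finset ℕ) (F : ℕ → G → ℝ≥0∞) :
    SL π j (fun L => if HT h L ∈ R then F (HT h L) (L.map z).sum else 0)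
      = ∑ a ∈ R, ∑' x, NN π h z j a x * F a x := by
  unfold NN SL
  simp_rw [← ENNReal.tsum_mul_right]
  have e1 : ∀ a ∈ R, ∑' x, ∑' L : List C, (if L.length = j then LW π L *
      (if HT h L = a ∧ (L.map z).sum = x then 1 else 0) else 0) * F a x
      = ∑' L : List C, ∑' x, (if L.length = j then LW π L *
      (if HT h L = a ∧ (L.map z).sum = x then 1 else 0) else 0) * F a x := fun a _ => ENNReal.tsum_comm
  rw [Finset.sum_congr rfl e1, ← Summable.tsum_finsetSum (fun i _ => ENNReal.summable)]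
  refine tsum_congr fun L => ?_
  by_cases hL : L.length = j
  · simp only [hL, if_true]
    have e2 : ∀ a ∈ R, ∑' x, LW π L * (if HT h L = a ∧ (L.map z).sum = x then 1 else 0) * F a x
        = if HT h L = a then LW π L * F a (L.map z).sum else 0 := by
      intro a _
      rw [tsum_eq_single (L.map z).sum]
      · by_cases h' : HT h L = a
        · simp [h']
        · simp [h']
      · intro x hx
        rw [if_neg (fun hh => hx hh.2.symm)]
        simp
    rw [Finset.sum_congr rfl e2, Finset.sum_ite_eq]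
    split_ifs <;> simp
  · simp [hL]

lemma SL_le_one (hπ : ∑' c, π c ≤ 1) (j : ℕ) : SL π j (fun _ => 1) ≤ 1 := by
  rw [SL_pow]; exact pow_le_one' hπ j

lemma NN_total (hπ : ∑' c, π c ≤ 1) (j : ℕ) (R : Finset ℕ) :
    ∑ a ∈ R, ∑' x, NN π h z j a x ≤ 1 := by
  classical
  have := SL_expand π h z j R (fun _ _ => 1)
  simp only [mul_one] at this
  rw [← this]
  refine le_trans (SL_mono π j fun L _ => ?_) (SL_le_one π hπ j)
  split_ifs
  · exact le_rfl
  · exact zero_le

end expand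

section two

variable {C1 C2 G : Type*} [AddCommGroup G] (π1 : C1 → ℝ≥0∞) (π2 : C2 → ℝ≥0∞)
  (h1 : C1 → ℕ) (z1 : C1 → G) (h2 : C2 → ℕ) (z2 : C2 → G)

open Classical in
/-- grouping: one walker smooths the relative position -/
lemma win_sum (hπ1 : ∑' c, π1 c ≤ 1) (hπ2 : ∑' c, π2 c ≤ 1) (th q M D : ℝ≥0∞)
    (hq : ∑' c, (if th < pp π1 (vv h1 z1) (vv h1 z1 c) then π1 c else 0) ≤ q)
    (hM : th + q * M ≤ M) (j j' : ℕ) (R1 R2 : Finset ℕ) (K : ℕ → ℕ → G → ℝ≥0∞)
    (hK1 : ∀ a a' x, K a a' x ≤ 1) (w : G)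
    (hD : ∀ a ∈ R1, ∀ a' ∈ R2, ∀ μ : G → ℝ≥0∞, ∑' x, μ x ≤ 1 → (∀ x, μ x ≤ M) →
      ∑' x, μ x * K a a' x ≤ D) :
    SL π1 j (fun L => SL π2 j' (fun L' => if HT h1 L ∈ R1 ∧ HT h2 L' ∈ R2 then
      K (HT h1 L) (HT h2 L') (w + (L'.map z2).sum - (L.map z1).sum) else 0))
      ≤ q ^ j + R1.card * R2.card * D := by
  set F : ℕ → G → ℝ≥0∞ := fun a z => ∑ a' ∈ R2, ∑' x', NN π2 h2 z2 j' a' x' *
    K a a' (w + x' - z) with hF
  have hF1 : ∀ a z, F a z ≤ 1 := by
    intro a z
    refine le_trans ?_ (NN_total π2 h2 z2 hπ2 j' R2)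
    exact Finset.sum_le_sum fun a' _ => ENNReal.tsum_le_tsum fun x' =>
      mul_le_of_le_one_right' (hK1 _ _ _)
  have e1 : SL π1 j (fun L => SL π2 j' (fun L' => if HT h1 L ∈ R1 ∧ HT h2 L' ∈ R2 then
      K (HT h1 L) (HT h2 L') (w + (L'.map z2).sum - (L.map z1).sum) else 0))
      = ∑ a ∈ R1, ∑' z, NN π1 h1 z1 j a z * F a z := by
    rw [← SL_expand π1 h1 z1 j R1 F]
    refine SL_congr π1 j fun L _ => ?_
    by_cases hL : HT h1 L ∈ R1
    · simp only [hL, true_and, if_true]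
      rw [SL_expand π2 h2 z2 j' R2 (fun a' x' => K (HT h1 L) a' (w + x' - (L.map z1).sum))]
    · simp only [hL, false_and, if_false]
      have := SL_const_mul π2 j' 0 (fun _ => 0)
      simpa using this
  rw [e1]
  obtain ⟨Ag, Ab, g1, g2, g3⟩ := dens π1 (vv h1 z1) hπ1 th q M hq hM j
  have e2 : ∀ a z, NN π1 h1 z1 j a z = Ag ((a : ℤ), z) + Ab ((a : ℤ), z) := by
    intro a z; rw [NN_eq, g1]
  have e3 : ∑ a ∈ R1, ∑' z, NN π1 h1 z1 j a z * F a z
      = ∑ a ∈ R1, ∑' z, Ab ((a : ℤ), z) * F a z + ∑ a ∈ R1, ∑' z, Ag ((a : ℤ), z) * F a z := by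
    rw [← Finset.sum_add_distrib]
    refine Finset.sum_congr rfl fun a _ => ?_
    rw [← ENNReal.tsum_add]
    refine tsum_congr fun z => ?_
    rw [e2, ← add_mul, add_comm]
  rw [e3]
  refine add_le_add ?_ ?_
  · calc ∑ a ∈ R1, ∑' z, Ab ((a : ℤ), z) * F a z
        ≤ ∑ a ∈ R1, ∑' z, Ab ((a : ℤ), z) :=
          Finset.sum_le_sum fun a _ => ENNReal.tsum_le_tsum fun z =>
            mul_le_of_le_one_right' (hF1 _ _)
      _ ≤ ∑' a : ℕ, ∑' z, Ab ((a : ℤ), z) := ENNReal.sum_le_tsum _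
      _ = ∑' p : ℕ × G, Ab ((p.1 : ℤ), p.2) := (ENNReal.tsum_prod).symm
      _ ≤ ∑' x, Ab x := by
          refine ENNReal.tsum_comp_le_tsum_of_injective (f := fun p : ℕ × G => ((p.1 : ℤ), p.2)) ?_ Ab
          rintro ⟨a, b⟩ ⟨c, e⟩ hh
          simp only [Prod.mk.injEq, Nat.cast_inj] at hh
          rw [hh.1, hh.2]
      _ ≤ q ^ j := g3
  · have key : ∀ a ∈ R1, ∀ a' ∈ R2, ∑' z, Ag ((a : ℤ), z) * ∑' x', NN π2 h2 z2 j' a' x' *
        K a a' (w + x' - z) ≤ D := by
      intro a ha a' ha'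
      set μ : G → ℝ≥0∞ := fun x => ∑' x', NN π2 h2 z2 j' a' x' * Ag ((a : ℤ), w + x' - x) with hμ
      have hN2 : ∑' x', NN π2 h2 z2 j' a' x' ≤ 1 := by
        simpa using NN_total π2 h2 z2 hπ2 j' {a'}
      have hAg1 : ∑' z, Ag ((a : ℤ), z) ≤ 1 := by
        have h3 : ∑' z, NN π1 h1 z1 j a z ≤ 1 := by
          simpa using NN_total π1 h1 z1 hπ1 j {a}
        refine le_trans (ENNReal.tsum_le_tsum fun z => ?_) h3
        rw [e2]; exact le_self_add
      have m1 : ∑' x, μ x ≤ 1 := by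
        simp only [hμ]
        rw [ENNReal.tsum_comm]
        refine le_trans (ENNReal.tsum_le_tsum fun x' => ?_) hN2
        rw [ENNReal.tsum_mul_left, tsum_sub' (fun y => Ag ((a : ℤ), y)) (w + x')]
        exact mul_le_of_le_one_right' hAg1
      have m2 : ∀ x, μ x ≤ M := by
        intro x
        simp only [hμ]
        calc ∑' x', NN π2 h2 z2 j' a' x' * Ag ((a : ℤ), w + x' - x)
            ≤ ∑' x', NN π2 h2 z2 j' a' x' * M :=
              ENNReal.tsum_le_tsum fun x' => mul_le_mul_right (g2 _) _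
          _ = (∑' x', NN π2 h2 z2 j' a' x') * M := ENNReal.tsum_mul_right
          _ ≤ 1 * M := mul_le_mul_left hN2 _
          _ = M := one_mul _
      refine le_trans (le_of_eq ?_) (hD a ha a' ha' μ m1 m2)
      simp only [hμ]
      simp_rw [← ENNReal.tsum_mul_left, ← ENNReal.tsum_mul_right]
      rw [ENNReal.tsum_comm]
      rw [ENNReal.tsum_comm (f := fun x x' => NN π2 h2 z2 j' a' x' * Ag ((a : ℤ), w + x' - x) * K a a' x)]
      refine tsum_congr fun x' => ?_
      rw [← (Equiv.subLeft (w + x')).tsum_eq (fun z => Ag ((a : ℤ), z) * (NN π2 h2 z2 j' a' x' *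
        K a a' (w + x' - z)))]
      refine tsum_congr fun x => ?_
      simp only [Equiv.subLeft_apply]
      rw [sub_sub_cancel]
      ring
    calc ∑ a ∈ R1, ∑' z, Ag ((a : ℤ), z) * F a z
        = ∑ a ∈ R1, ∑ a' ∈ R2, ∑' z, Ag ((a : ℤ), z) * ∑' x', NN π2 h2 z2 j' a' x' *
          K a a' (w + x' - z) := by
          refine Finset.sum_congr rfl fun a _ => ?_
          rw [← Summable.tsum_finsetSum (fun i _ => ENNReal.summable)]
          refine tsum_congr fun z => ?_
          simp only [hF]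
          rw [Finset.mul_sum]
      _ ≤ ∑ a ∈ R1, ∑ a' ∈ R2, D :=
          Finset.sum_le_sum fun a ha => Finset.sum_le_sum fun a' ha' => key a ha a' ha'
      _ = R1.card * R2.card * D := by
          simp only [Finset.sum_const, nsmul_eq_mul]
          ring

end two

end Crest.Agent.R154.Asm594
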