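import Crest.Agent.R154.FP_178

/-! Row 154 (helper178), ROAD 801 line (1): the law of the displacement of a first passage has a
small sup density, directly on lists of blocks. -/

set_option autoImplicit false

namespace Crest.Agent.R154.FP178

open scoped ENNReal
open Crest.Agent.R154.B5A

variable {B G : Type*} [AddCommGroup G] (Λ : B → ℝ≥0∞) (ht : B → ℕ) (dsp : B → G)

/-- displacement of a list -/
def dL (L : List B) : G := (L.map dsp).sum

lemma dL_nil : dL dsp ([] : List B) = 0 := by simp [dL]

lemma dL_cons (b : B) (L : List B) : dL dsp (b :: L) = dsp b + dL dsp L := by simp [dL]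

lemma dL_append (A L : List B) : dL dsp (A ++ L) = dL dsp A + dL dsp L := by simp [dL]

open Classical in
/-- law of the displacement of the first passage of depth `a` -/
noncomputable def mL (a : ℕ) (z : G) : ℝ≥0∞ :=
  ∑' L, (if fp ht a L then LW Λ L * (if dL dsp L = z then 1 else 0) else 0)

open Classical in
/-- law (overshoot, displacement) of one attempt -/
noncomputable def pL (τ i : ℕ) (z : G) : ℝ≥0∞ :=
  ∑' L, (if fp ht τ L then LW Λ L * (if HT ht L = τ + i ∧ dL dsp L = z then 1 else 0) else 0)

open Classical in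
lemma sum_mL_eq (a : ℕ) : ∑' z, mL Λ ht dsp a z = ∑' L, (if fp ht a L then LW Λ L else 0) := by
  simp only [mL]
  rw [ENNReal.tsum_comm]
  refine tsum_congr fun L => ?_
  by_cases h : fp ht a L
  · simp only [if_pos h]
    rw [ENNReal.tsum_mul_left, tsum_eq_single (dL dsp L), if_pos rfl, mul_one]
    intro z hz
    rw [if_neg (fun hh => hz hh.symm)]
  · simp only [if_neg h, tsum_zero]

lemma sum_mL (h1 : ∀ b, 1 ≤ ht b) (hΛ : ∑' b, Λ b ≤ 1) (a : ℕ) : ∑' z, mL Λ ht dsp a z ≤ 1 := by
  rw [sum_mL_eq]
  exact sum_FP Λ ht h1 hΛ a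

lemma tsum_shift (F : G → ℝ≥0∞) (c : G) : ∑' z, F (z - c) = ∑' z, F z :=
  (Equiv.subRight c).tsum_eq F

lemma tsum_shift' (F : G → ℝ≥0∞) (c : G) : ∑' z, F (c - z) = ∑' z, F z :=
  (Equiv.subLeft c).tsum_eq F

open Classical in
lemma mL_split (h1 : ∀ b, 1 ≤ ht b) (τ a : ℕ) (hτ : τ ≤ a) (z : G) :
    mL Λ ht dsp a z = ∑' A, (if fp ht τ A then LW Λ A *
      mL Λ ht dsp (a - HT ht A) (z - dL dsp A) else 0) := by
  rw [mL, fp_split Λ ht h1 τ a hτ (fun L => if dL dsp L = z then 1 else 0)]
  refine tsum_congr fun A => ?_
  have : ∀ L : List B, (dL dsp (A ++ L) = z) = (dL dsp L = z - dL dsp A) := by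
    intro L
    rw [dL_append, eq_sub_iff_add_eq, add_comm]
  simp only [mL, this]

open Classical in
/-- regrouping by (overshoot, displacement) -/
lemma regroup (τ i0 : ℕ) (F : ℕ → G → ℝ≥0∞) :
    ∑' A, (if fp ht τ A then LW Λ A * (if HT ht A ≤ τ + i0 then F (HT ht A - τ) (dL dsp A) else 0)
      else 0) = ∑ i ∈ Finset.range (i0 + 1), ∑' z, pL Λ ht dsp τ i z * F i z := by
  have e1 : ∀ i z, pL Λ ht dsp τ i z * F i z = ∑' A, (if fp ht τ A then
      LW Λ A * (if HT ht A = τ + i ∧ dL dsp A = z then F i z else 0) else 0) := by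
    intro i z
    rw [pL, ← ENNReal.tsum_mul_right]
    refine tsum_congr fun A => ?_
    by_cases h : fp ht τ A
    · rw [if_pos h, if_pos h, mul_assoc]
      congr 1
      by_cases h' : HT ht A = τ + i ∧ dL dsp A = z
      · rw [if_pos h', if_pos h', one_mul]
      · rw [if_neg h', if_neg h', zero_mul]
    · rw [if_neg h, if_neg h, zero_mul]
  simp only [e1]
  have e2 : ∀ i, (∑' z, ∑' A, (if fp ht τ A then
      LW Λ A * (if HT ht A = τ + i ∧ dL dsp A = z then F i z else 0) else 0))
      = ∑' A, (if fp ht τ A then LW Λ A * (if HT ht A = τ + i then F i (dL dsp A) else 0)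
        else 0) := by
    intro i
    rw [ENNReal.tsum_comm]
    refine tsum_congr fun A => ?_
    by_cases h : fp ht τ A
    · simp only [if_pos h]
      rw [ENNReal.tsum_mul_left]
      congr 1
      by_cases h' : HT ht A = τ + i
      · rw [if_pos h', tsum_eq_single (dL dsp A)]
        · rw [if_pos ⟨h', rfl⟩]
        · intro z hz
          rw [if_neg (fun hh => hz hh.2.symm)]
      · rw [if_neg h']
        simp [h']
    · simp only [if_neg h, tsum_zero]
  simp only [e2]
  rw [← Summable.tsum_finsetSum (fun _ _ => ENNReal.summable)]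
  refine tsum_congr fun A => ?_
  by_cases h : fp ht τ A
  · simp only [if_pos h]
    rw [← Finset.mul_sum]
    congr 1
    have hle := le_HT_of_fp ht h
    by_cases h' : HT ht A ≤ τ + i0
    · rw [if_pos h', Finset.sum_eq_single (HT ht A - τ)]
      · rw [if_pos (by omega)]
      · intro i _ hi
        rw [if_neg (by omega)]
      · intro hn
        exact absurd (Finset.mem_range.2 (by omega)) hn
    · rw [if_neg h', Finset.sum_eq_zero]
      intro i hi
      have := Finset.mem_range.1 hi
      rw [if_neg (by omega)]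
  · simp only [if_neg h, Finset.sum_const_zero]

open Classical in
/-- **801 line (1) on block lists.** -/
theorem smooth (h1 : ∀ b, 1 ≤ ht b) (hΛ : ∑' b, Λ b ≤ 1) (τ i0 : ℕ) (θ r ε : ℝ≥0∞)
    (hr1 : r ≤ 1)
    (hr : ∑ i ∈ Finset.range (i0 + 1), ∑' z, (if θ < pL Λ ht dsp τ i z then pL Λ ht dsp τ i z
      else 0) ≤ r)
    (hε : ∑' L, (if fp ht τ L ∧ τ + i0 < HT ht L then LW Λ L else 0) ≤ ε) (J : ℕ) :
    ∀ a : ℕ, J * (τ + i0) ≤ a → ∃ g b : G → ℝ≥0∞, (∀ z, mL Λ ht dsp a z = g z + b z) ∧
      (∀ z, g z ≤ θ * (i0 + 1) * ∑ j ∈ Finset.range J, r ^ j) ∧ ∑' z, b z ≤ r ^ J + J * ε := by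
  induction J with
  | zero =>
    intro a _
    refine ⟨fun _ => 0, mL Λ ht dsp a, fun z => by simp, fun z => by simp, ?_⟩
    simpa using sum_mL Λ ht dsp h1 hΛ a
  | succ J ih =>
    intro a ha
    choose! g b hgb hg hb using ih
    have hτa : τ ≤ a := by
      have : (J + 1) * (τ + i0) = J * (τ + i0) + (τ + i0) := by ring
      omega
    have hai : ∀ i, i ≤ i0 → J * (τ + i0) ≤ a - (τ + i) := by
      intro i hi
      have : (J + 1) * (τ + i0) = J * (τ + i0) + (τ + i0) := by ring
      omega
    set M : ℝ≥0∞ := θ * (i0 + 1) * ∑ j ∈ Finset.range J, r ^ j with hM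
    -- the four pieces as functions of (overshoot, displacement)
    set F1 : G → ℕ → G → ℝ≥0∞ := fun z i z' =>
      if θ < pL Λ ht dsp τ i z' then 0 else mL Λ ht dsp (a - (τ + i)) (z - z') with hF1
    set F2 : G → ℕ → G → ℝ≥0∞ := fun z i z' =>
      if θ < pL Λ ht dsp τ i z' then g (a - (τ + i)) (z - z') else 0 with hF2
    set F3 : G → ℕ → G → ℝ≥0∞ := fun z i z' =>
      if θ < pL Λ ht dsp τ i z' then b (a - (τ + i)) (z - z') else 0 with hF3
    set bO : G → ℝ≥0∞ := fun z => ∑' A, (if fp ht τ A then LW Λ A *
      (if HT ht A ≤ τ + i0 then 0 else mL Λ ht dsp (a - HT ht A) (z - dL dsp A)) else 0) with hbO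
    set S : (ℕ → G → ℝ≥0∞) → ℝ≥0∞ := fun F =>
      ∑ i ∈ Finset.range (i0 + 1), ∑' z', pL Λ ht dsp τ i z' * F i z' with hS
    refine ⟨fun z => S (F1 z) + S (F2 z), fun z => S (F3 z) + bO z, ?_, ?_, ?_⟩
    · intro z
      rw [mL_split Λ ht dsp h1 τ a hτa z]
      have hS' : ∀ F, S F = ∑' A, (if fp ht τ A then LW Λ A *
          (if HT ht A ≤ τ + i0 then F (HT ht A - τ) (dL dsp A) else 0) else 0) := fun F =>
        (regroup Λ ht dsp τ i0 F).symm
      show _ = (S (F1 z) + S (F2 z)) + (S (F3 z) + bO z)
      rw [hS' (F1 z), hS' (F2 z), hS' (F3 z), hbO, ← ENNReal.tsum_add]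
      simp only
      rw [← ENNReal.tsum_add, ← ENNReal.tsum_add]
      refine tsum_congr fun A => ?_
      by_cases h : fp ht τ A
      · have hle := le_HT_of_fp ht h
        simp only [if_pos h]
        rw [← mul_add, ← mul_add, ← mul_add]
        congr 1
        by_cases h' : HT ht A ≤ τ + i0
        · simp only [if_pos h', add_zero, hF1, hF2, hF3]
          rw [show τ + (HT ht A - τ) = HT ht A by omega]
          by_cases hp : θ < pL Λ ht dsp τ (HT ht A - τ) (dL dsp A)
          · simp only [if_pos hp, zero_add]
            refine hgb _ ?_ _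
            have := hai (HT ht A - τ) (by omega)
            rwa [show τ + (HT ht A - τ) = HT ht A by omega] at this
          · simp only [if_neg hp, add_zero]
        · simp only [if_neg h', zero_add]
      · simp only [if_neg h, add_zero]
    · intro z
      have hA1 : S (F1 z) ≤ θ * (i0 + 1) := by
        calc S (F1 z) ≤ ∑ i ∈ Finset.range (i0 + 1), θ * 1 := by
              refine Finset.sum_le_sum fun i _ => ?_
              calc ∑' z', pL Λ ht dsp τ i z' * F1 z i z'
                  ≤ ∑' z', θ * mL Λ ht dsp (a - (τ + i)) (z - z') := by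
                    refine ENNReal.tsum_le_tsum fun z' => ?_
                    by_cases hp : θ < pL Λ ht dsp τ i z'
                    · simp only [hF1, if_pos hp, mul_zero]; exact zero_le
                    · simp only [hF1, if_neg hp]
                      exact mul_le_mul_left (not_lt.1 hp) _
                _ = θ * ∑' z', mL Λ ht dsp (a - (τ + i)) (z - z') := ENNReal.tsum_mul_left
                _ ≤ θ * 1 := by
                    rw [tsum_shift' (mL Λ ht dsp (a - (τ + i))) z]
                    exact mul_le_mul_right (sum_mL Λ ht dsp h1 hΛ _) _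
          _ = θ * (i0 + 1) := by
              rw [Finset.sum_const, Finset.card_range, nsmul_eq_mul, mul_one, mul_comm]
              push_cast
              ring
      have hA2 : S (F2 z) ≤ r * M := by
        calc S (F2 z) ≤ ∑ i ∈ Finset.range (i0 + 1), ∑' z', (if θ < pL Λ ht dsp τ i z' then
              pL Λ ht dsp τ i z' else 0) * M := by
              refine Finset.sum_le_sum fun i hi => ENNReal.tsum_le_tsum fun z' => ?_
              have hi' := Finset.mem_range.1 hi
              by_cases hp : θ < pL Λ ht dsp τ i z'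
              · simp only [hF2, if_pos hp]
                exact mul_le_mul_right (hg _ (hai i (by omega)) _) _
              · simp only [hF2, if_neg hp, mul_zero]; exact zero_le
          _ = (∑ i ∈ Finset.range (i0 + 1), ∑' z', (if θ < pL Λ ht dsp τ i z' then
              pL Λ ht dsp τ i z' else 0)) * M := by
              rw [Finset.sum_mul]
              refine Finset.sum_congr rfl fun i _ => ?_
              rw [ENNReal.tsum_mul_right]
          _ ≤ r * M := mul_le_mul_left hr _
      calc S (F1 z) + S (F2 z) ≤ θ * (i0 + 1) + r * M := add_le_add hA1 hA2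
        _ = θ * (i0 + 1) * ∑ j ∈ Finset.range (J + 1), r ^ j := by
            rw [Finset.sum_range_succ', pow_zero, hM]
            simp only [pow_succ]
            rw [← Finset.sum_mul]
            ring
    · have hB1 : ∑' z, S (F3 z) ≤ r * (r ^ J + J * ε) := by
        calc ∑' z, S (F3 z) = ∑ i ∈ Finset.range (i0 + 1), ∑' z', pL Λ ht dsp τ i z' *
              ∑' z, F3 z i z' := by
              simp only [hS]
              rw [Summable.tsum_finsetSum (fun _ _ => ENNReal.summable)]
              refine Finset.sum_congr rfl fun i _ => ?_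
              rw [ENNReal.tsum_comm]
              refine tsum_congr fun z' => ?_
              rw [ENNReal.tsum_mul_left]
          _ ≤ ∑ i ∈ Finset.range (i0 + 1), ∑' z', (if θ < pL Λ ht dsp τ i z' then
              pL Λ ht dsp τ i z' else 0) * (r ^ J + J * ε) := by
              refine Finset.sum_le_sum fun i hi => ENNReal.tsum_le_tsum fun z' => ?_
              have hi' := Finset.mem_range.1 hi
              by_cases hp : θ < pL Λ ht dsp τ i z'
              · simp only [hF3, if_pos hp]
                rw [tsum_shift (b (a - (τ + i))) z']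
                exact mul_le_mul_right (hb _ (hai i (by omega))) _
              · simp only [hF3, if_neg hp, tsum_zero, mul_zero]; exact zero_le
          _ = (∑ i ∈ Finset.range (i0 + 1), ∑' z', (if θ < pL Λ ht dsp τ i z' then
              pL Λ ht dsp τ i z' else 0)) * (r ^ J + J * ε) := by
              rw [Finset.sum_mul]
              refine Finset.sum_congr rfl fun i _ => ?_
              rw [ENNReal.tsum_mul_right]
          _ ≤ r * (r ^ J + J * ε) := mul_le_mul_left hr _
      have hB2 : ∑' z, bO z ≤ ε := by
        rw [hbO]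
        simp only
        rw [ENNReal.tsum_comm]
        refine le_trans (ENNReal.tsum_le_tsum fun A => ?_) hε
        by_cases h : fp ht τ A
        · simp only [if_pos h]
          by_cases h' : HT ht A ≤ τ + i0
          · simp only [if_pos h', mul_zero, tsum_zero]; exact zero_le
          · simp only [if_neg h']
            rw [if_pos ⟨h, by omega⟩, ENNReal.tsum_mul_left,
              tsum_shift (mL Λ ht dsp (a - HT ht A)) (dL dsp A)]
            calc LW Λ A * ∑' z, mL Λ ht dsp (a - HT ht A) z ≤ LW Λ A * 1 :=
                  mul_le_mul_right (sum_mL Λ ht dsp h1 hΛ _) _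
              _ = LW Λ A := mul_one _
        · simp only [if_neg h, tsum_zero]; exact zero_le
      calc ∑' z, (S (F3 z) + bO z) = ∑' z, S (F3 z) + ∑' z, bO z := ENNReal.tsum_add
        _ ≤ r * (r ^ J + J * ε) + ε := add_le_add hB1 hB2
        _ ≤ r ^ (J + 1) + (J + 1 : ℕ) * ε := by
            rw [mul_add, pow_succ', add_assoc]
            refine add_le_add le_rfl ?_
            push_cast
            rw [add_mul, one_mul]
            refine add_le_add ?_ le_rfl
            calc r * (J * ε) ≤ 1 * (J * ε) := mul_le_mul_left hr1 _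
              _ = J * ε := one_mul _

end Crest.Agent.R154.FP178
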