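import Crest.Agent.R154.Asm_635
import Crest.Agent.R154.Smooth_178

/-! Row 154 (S0219, ROAD 801), helper635: the assembly, one side of a window. -/

set_option autoImplicit false

namespace Crest.Agent.R154.Asm635

open Crest.Agent.R154.B5A
open Crest.Agent.R154.FP178
open scoped ENNReal
open Classical

section side

variable {B : Type*} (Λ : B → ℝ≥0∞) (ht : B → ℕ)

/-- weight of a first passage with overshoot at most `i0` -/
noncomputable def wf (T i0 : ℕ) (A : List B) : ℝ≥0∞ :=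
  if fp ht T A ∧ HT ht A ≤ T + i0 then LW Λ A else 0

lemma sum_wf (h1 : ∀ b, 1 ≤ ht b) (hΛ : ∑' b, Λ b ≤ 1) (T i0 : ℕ) :
    ∑' A, wf Λ ht T i0 A ≤ 1 := by
  refine le_trans (ENNReal.tsum_le_tsum fun A => ?_) (sum_FP Λ ht h1 hΛ T)
  unfold wf
  split_ifs with h h'
  · exact le_rfl
  · exact absurd h.1 h'
  · exact zero_le
  · exact le_rfl

/-- splitting by the height -/
lemma wf_le_sum (T i0 : ℕ) (A : List B) (F : ℕ → ℝ≥0∞) :
    wf Λ ht T i0 A * F (HT ht A) ≤ ∑ i ∈ Finset.range (i0 + 1),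
      (if fp ht T A ∧ HT ht A = T + i then LW Λ A else 0) * F (T + i) := by
  unfold wf
  by_cases h : fp ht T A ∧ HT ht A ≤ T + i0
  · rw [if_pos h]
    have h2 := le_HT_of_fp ht h.1
    obtain ⟨i, hi⟩ := Nat.exists_eq_add_of_le h2
    have hi0 : i ∈ Finset.range (i0 + 1) := by rw [Finset.mem_range]; omega
    refine le_trans (le_of_eq ?_) (Finset.single_le_sum (f := fun i =>
      (if fp ht T A ∧ HT ht A = T + i then LW Λ A else 0) * F (T + i)) (fun _ _ => zero_le) hi0)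
    rw [if_pos ⟨h.1, hi⟩, hi]
  · rw [if_neg h, zero_mul]; exact zero_le

end side

variable {B1 B2 G : Type*} [AddCommGroup G] (Λ1 : B1 → ℝ≥0∞) (ht1 : B1 → ℕ) (z1 : B1 → G)
  (Λ2 : B2 → ℝ≥0∞) (ht2 : B2 → ℕ) (z2 : B2 → G)

/-- displacement and height -/
def zh {B G : Type*} (zd : B → G) (ht : B → ℕ) (b : B) : G × ℤ := (zd b, (ht b : ℤ))

lemma dL_zh {B G : Type*} [AddCommGroup G] (zd : B → G) (ht : B → ℕ) (L : List B) :
    dL (zh zd ht) L = (Dp zd L, (HT ht L : ℤ)) := by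
  induction L with
  | nil => rw [dL_nil, Dp_nil, HT_nil]; rfl
  | cons b L ih =>
    rw [dL_cons, ih, Dp_cons, HT_cons]
    simp [zh]

/-- grouping by the displacement and the height -/
lemma group_le (T i0 : ℕ) (Ψ : G → ℕ → ℝ≥0∞) :
    ∑' A, wf Λ1 ht1 T i0 A * Ψ (Dp z1 A) (HT ht1 A)
      ≤ ∑ i ∈ Finset.range (i0 + 1), ∑' z, mL Λ1 ht1 (zh z1 ht1) T (z, ((T + i : ℕ) : ℤ))
          * Ψ z (T + i) := by
  calc ∑' A, wf Λ1 ht1 T i0 A * Ψ (Dp z1 A) (HT ht1 A)
      ≤ ∑' A, ∑ i ∈ Finset.range (i0 + 1),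
          (if fp ht1 T A ∧ HT ht1 A = T + i then LW Λ1 A else 0) * Ψ (Dp z1 A) (T + i) :=
        ENNReal.tsum_le_tsum fun A => wf_le_sum Λ1 ht1 T i0 A (Ψ (Dp z1 A))
    _ = ∑ i ∈ Finset.range (i0 + 1), ∑' A,
          (if fp ht1 T A ∧ HT ht1 A = T + i then LW Λ1 A else 0) * Ψ (Dp z1 A) (T + i) :=
        Summable.tsum_finsetSum fun _ _ => ENNReal.summable
    _ ≤ _ := by
        refine Finset.sum_le_sum fun i _ => ?_
        simp only [mL]
        simp_rw [← ENNReal.tsum_mul_right]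
        rw [ENNReal.tsum_comm]
        refine ENNReal.tsum_le_tsum fun A => ?_
        refine le_trans ?_ (ENNReal.le_tsum (Dp z1 A))
        by_cases h : fp ht1 T A ∧ HT ht1 A = T + i
        · rw [if_pos h, if_pos h.1, dL_zh, h.2, if_pos rfl, mul_one]
        · rw [if_neg h, zero_mul]; exact zero_le

/-- **one side of a window**: walker `1` is smooth (law `g + b` at its renewal), walker `2` is
arbitrary, `R x a P a' P'` any relation depending on the relative position `x` only. -/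
theorem side (h11 : ∀ b, 1 ≤ ht1 b) (hΛ1 : ∑' b, Λ1 b ≤ 1) (h12 : ∀ b, 1 ≤ ht2 b)
    (hΛ2 : ∑' b, Λ2 b ≤ 1) (T W i0 : ℕ) (Gd η bad : ℝ≥0∞) (g b : G × ℤ → ℝ≥0∞)
    (hgb : ∀ z, mL Λ1 ht1 (zh z1 ht1) T z = g z + b z) (hg : ∀ z, g z ≤ Gd)
    (hb : ∑' z, b z ≤ bad) (R : G → ℕ → List B1 → ℕ → List B2 → Prop)
    (hR : ∀ i j i' j', i ≤ i0 → j ≤ i0 → i' ≤ i0 → j' ≤ i0 → ∀ μ : G → ℝ≥0∞, ∑' x, μ x ≤ 1 →
      (∀ x, μ x ≤ Gd) → ∑' x, μ x * ∑' P1, ∑' P2,
        (if HT ht1 P1 = W + j ∧ HT ht2 P2 = W + j' ∧ R x (T + i) P1 (T + i') P2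
          then LW Λ1 P1 * LW Λ2 P2 else 0) ≤ η) :
    ∑' A1, wf Λ1 ht1 T i0 A1 * ∑' P1, wf Λ1 ht1 W i0 P1 * ∑' A2, wf Λ2 ht2 T i0 A2 *
      ∑' P2, wf Λ2 ht2 W i0 P2 *
        (if R (Dp z2 A2 - Dp z1 A1) (HT ht1 A1) P1 (HT ht2 A2) P2 then 1 else 0)
      ≤ bad + (i0 + 1 : ℕ) ^ 4 * η := by
  set Ψ : G → ℕ → ℝ≥0∞ := fun z a => ∑' P1, wf Λ1 ht1 W i0 P1 * ∑' A2, wf Λ2 ht2 T i0 A2 *
      ∑' P2, wf Λ2 ht2 W i0 P2 *
        (if R (Dp z2 A2 - z) a P1 (HT ht2 A2) P2 then 1 else 0) with hΨ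
  have hΨ1 : ∀ z a, Ψ z a ≤ 1 := by
    intro z a
    have e1 : ∀ P1 A2, ∑' P2, wf Λ2 ht2 W i0 P2 *
        (if R (Dp z2 A2 - z) a P1 (HT ht2 A2) P2 then (1 : ℝ≥0∞) else 0) ≤ 1 := by
      intro P1 A2
      refine le_trans (ENNReal.tsum_le_tsum fun P2 => ?_) (sum_wf Λ2 ht2 h12 hΛ2 W i0)
      split_ifs <;> simp
    have e2 : ∀ P1, ∑' A2, wf Λ2 ht2 T i0 A2 * ∑' P2, wf Λ2 ht2 W i0 P2 *
        (if R (Dp z2 A2 - z) a P1 (HT ht2 A2) P2 then (1 : ℝ≥0∞) else 0) ≤ 1 := by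
      intro P1
      refine le_trans (ENNReal.tsum_le_tsum fun A2 => ?_) (sum_wf Λ2 ht2 h12 hΛ2 T i0)
      exact (mul_le_mul_right (e1 P1 A2) _).trans (mul_one _).le
    refine le_trans (ENNReal.tsum_le_tsum fun P1 => ?_) (sum_wf Λ1 ht1 h11 hΛ1 W i0)
    exact (mul_le_mul_right (e2 P1) _).trans (mul_one _).le
  have hg1 : ∀ a : ℤ, ∑' z, g (z, a) ≤ 1 := by
    intro a
    calc ∑' z, g (z, a) ≤ ∑' z, mL Λ1 ht1 (zh z1 ht1) T (z, a) :=
          ENNReal.tsum_le_tsum fun z => by rw [hgb]; exact le_self_add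
      _ ≤ ∑' p : G × ℤ, mL Λ1 ht1 (zh z1 ht1) T p := by
          refine ENNReal.tsum_comp_le_tsum_of_injective (f := fun z : G => (z, a)) ?_ _
          intro x y h; exact (Prod.mk.inj h).1
      _ ≤ 1 := sum_mL Λ1 ht1 _ h11 hΛ1 T
  have main : ∀ i, i ≤ i0 → ∑' z, g (z, ((T + i : ℕ) : ℤ)) * Ψ z (T + i)
      ≤ (i0 + 1 : ℕ) ^ 3 * η := by
    intro i hi
    -- expand `Ψ`
    have ex : ∀ z, Ψ z (T + i) ≤ ∑ j ∈ Finset.range (i0 + 1), ∑ i' ∈ Finset.range (i0 + 1),
        ∑ j' ∈ Finset.range (i0 + 1), ∑' A2, (if fp ht2 T A2 ∧ HT ht2 A2 = T + i' then LW Λ2 A2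
          else 0) * ∑' P1, ∑' P2, (if HT ht1 P1 = W + j ∧ HT ht2 P2 = W + j' ∧
            R (Dp z2 A2 - z) (T + i) P1 (T + i') P2 then LW Λ1 P1 * LW Λ2 P2 else 0) := by
      intro z
      simp only [hΨ]
      calc ∑' P1, wf Λ1 ht1 W i0 P1 * ∑' A2, wf Λ2 ht2 T i0 A2 *
            ∑' P2, wf Λ2 ht2 W i0 P2 *
              (if R (Dp z2 A2 - z) (T + i) P1 (HT ht2 A2) P2 then (1 : ℝ≥0∞) else 0)
          ≤ ∑' P1, ∑ j ∈ Finset.range (i0 + 1),
            (if fp ht1 W P1 ∧ HT ht1 P1 = W + j then LW Λ1 P1 else 0) *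
              ∑' A2, ∑ i' ∈ Finset.range (i0 + 1),
              (if fp ht2 T A2 ∧ HT ht2 A2 = T + i' then LW Λ2 A2 else 0) *
                ∑' P2, ∑ j' ∈ Finset.range (i0 + 1),
                (if fp ht2 W P2 ∧ HT ht2 P2 = W + j' then LW Λ2 P2 else 0) *
                  (if R (Dp z2 A2 - z) (T + i) P1 (T + i') P2 then 1 else 0) := by
            refine ENNReal.tsum_le_tsum fun P1 => ?_
            refine le_trans (mul_le_mul_right ?_ _)
              (wf_le_sum Λ1 ht1 W i0 P1 (fun _ => ∑' A2, ∑ i' ∈ Finset.range (i0 + 1),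
              (if fp ht2 T A2 ∧ HT ht2 A2 = T + i' then LW Λ2 A2 else 0) *
                ∑' P2, ∑ j' ∈ Finset.range (i0 + 1),
                (if fp ht2 W P2 ∧ HT ht2 P2 = W + j' then LW Λ2 P2 else 0) *
                  (if R (Dp z2 A2 - z) (T + i) P1 (T + i') P2 then 1 else 0)))
            refine ENNReal.tsum_le_tsum fun A2 => ?_
            refine le_trans (mul_le_mul_right ?_ _) (wf_le_sum Λ2 ht2 T i0 A2 (fun a' => ∑' P2,
              ∑ j' ∈ Finset.range (i0 + 1),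
                (if fp ht2 W P2 ∧ HT ht2 P2 = W + j' then LW Λ2 P2 else 0) *
                  (if R (Dp z2 A2 - z) (T + i) P1 a' P2 then 1 else 0)))
            refine ENNReal.tsum_le_tsum fun P2 => ?_
            exact wf_le_sum Λ2 ht2 W i0 P2 (fun _ =>
              (if R (Dp z2 A2 - z) (T + i) P1 (HT ht2 A2) P2 then 1 else 0))
        _ ≤ ∑' P1, ∑ j ∈ Finset.range (i0 + 1), ∑' A2, ∑ i' ∈ Finset.range (i0 + 1),
              ∑' P2, ∑ j' ∈ Finset.range (i0 + 1),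
              (if fp ht2 T A2 ∧ HT ht2 A2 = T + i' then LW Λ2 A2 else 0) *
              (if HT ht1 P1 = W + j ∧ HT ht2 P2 = W + j' ∧
            R (Dp z2 A2 - z) (T + i) P1 (T + i') P2 then LW Λ1 P1 * LW Λ2 P2 else 0) := by
            refine ENNReal.tsum_le_tsum fun P1 => Finset.sum_le_sum fun j _ => ?_
            rw [← ENNReal.tsum_mul_left]
            refine ENNReal.tsum_le_tsum fun A2 => ?_
            rw [Finset.mul_sum]
            refine Finset.sum_le_sum fun i' _ => ?_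
            rw [← mul_assoc, ← ENNReal.tsum_mul_left]
            refine ENNReal.tsum_le_tsum fun P2 => ?_
            rw [Finset.mul_sum]
            refine Finset.sum_le_sum fun j' _ => ?_
            by_cases c1 : fp ht1 W P1 ∧ HT ht1 P1 = W + j
            · by_cases c2 : fp ht2 W P2 ∧ HT ht2 P2 = W + j'
              · by_cases c3 : R (Dp z2 A2 - z) (T + i) P1 (T + i') P2
                · have c4 : HT ht1 P1 = W + j ∧ HT ht2 P2 = W + j' ∧
                      R (Dp z2 A2 - z) (T + i) P1 (T + i') P2 := ⟨c1.2, c2.2, c3⟩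
                  simp only [if_pos c1, if_pos c2, if_pos c3, if_pos c4]
                  exact le_of_eq (by ring)
                · simp only [if_neg c3, mul_zero]; exact zero_le
              · simp only [if_neg c2, zero_mul, mul_zero]; exact zero_le
            · simp only [if_neg c1, zero_mul]; exact zero_le
        _ = _ := by
            rw [Summable.tsum_finsetSum fun _ _ => ENNReal.summable]
            refine Finset.sum_congr rfl fun j _ => ?_
            rw [ENNReal.tsum_comm]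
            simp_rw [fun (A2 : List B2) => Summable.tsum_finsetSum (f := fun (i' : ℕ)
              (P1 : List B1) => ∑' P2, ∑ j' ∈ Finset.range (i0 + 1),
              (if fp ht2 T A2 ∧ HT ht2 A2 = T + i' then LW Λ2 A2 else 0) *
              (if HT ht1 P1 = W + j ∧ HT ht2 P2 = W + j' ∧
            R (Dp z2 A2 - z) (T + i) P1 (T + i') P2 then LW Λ1 P1 * LW Λ2 P2 else 0))
              (s := Finset.range (i0 + 1)) (fun _ _ => ENNReal.summable)]
            rw [Summable.tsum_finsetSum fun _ _ => ENNReal.summable]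
            refine Finset.sum_congr rfl fun i' _ => ?_
            rw [← Summable.tsum_finsetSum fun _ _ => ENNReal.summable]
            refine tsum_congr fun A2 => ?_
            simp_rw [← ENNReal.tsum_mul_left]
            rw [← Summable.tsum_finsetSum fun _ _ => ENNReal.summable]
            refine tsum_congr fun P1 => ?_
            rw [← Summable.tsum_finsetSum fun _ _ => ENNReal.summable]
    have one' : ∀ j i' j', j ≤ i0 → i' ≤ i0 → j' ≤ i0 →
        ∑' z, g (z, ((T + i : ℕ) : ℤ)) * ∑' A2, (if fp ht2 T A2 ∧ HT ht2 A2 = T + i' then LW Λ2 A2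
          else 0) * ∑' P1, ∑' P2, (if HT ht1 P1 = W + j ∧ HT ht2 P2 = W + j' ∧
            R (Dp z2 A2 - z) (T + i) P1 (T + i') P2 then LW Λ1 P1 * LW Λ2 P2 else 0) ≤ η := by
      intro j i' j' hj hi' hj'
      set Q : G → ℝ≥0∞ := fun x => ∑' P1, ∑' P2, (if HT ht1 P1 = W + j ∧ HT ht2 P2 = W + j' ∧
            R x (T + i) P1 (T + i') P2 then LW Λ1 P1 * LW Λ2 P2 else 0) with hQ
      set c : List B2 → ℝ≥0∞ := fun A2 => (if fp ht2 T A2 ∧ HT ht2 A2 = T + i' then LW Λ2 A2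
          else 0) with hc
      set g' : G → ℝ≥0∞ := fun z => g (z, ((T + i : ℕ) : ℤ)) with hg'
      have hcs : ∑' A2, c A2 ≤ 1 := by
        refine le_trans (ENNReal.tsum_le_tsum fun A => ?_) (sum_FP Λ2 ht2 h12 hΛ2 T)
        simp only [hc]
        split_ifs with h h'
        · exact le_rfl
        · exact absurd h.1 h'
        · exact zero_le
        · exact le_rfl
      have e1 : ∑' z, g' z * ∑' A2, c A2 * Q (Dp z2 A2 - z)
          = ∑' x, (∑' A2, c A2 * g' (Dp z2 A2 - x)) * Q x := by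
        simp_rw [← ENNReal.tsum_mul_left, ← ENNReal.tsum_mul_right]
        rw [ENNReal.tsum_comm, ENNReal.tsum_comm (α := G)]
        refine tsum_congr fun A2 => ?_
        rw [← (Equiv.subLeft (Dp z2 A2)).tsum_eq]
        refine tsum_congr fun x => ?_
        simp only [Equiv.subLeft_apply, sub_sub_cancel]
        ring
      refine e1.trans_le ?_
      refine hR i j i' j' hi hj hi' hj' _ ?_ ?_
      · rw [ENNReal.tsum_comm]
        calc ∑' A2, ∑' x, c A2 * g' (Dp z2 A2 - x)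
            = ∑' A2, c A2 * ∑' x, g' x := by
              refine tsum_congr fun A2 => ?_
              rw [ENNReal.tsum_mul_left, tsum_shift' g' (Dp z2 A2)]
          _ = (∑' A2, c A2) * ∑' x, g' x := ENNReal.tsum_mul_right
          _ ≤ 1 * 1 := mul_le_mul' hcs (hg1 _)
          _ = 1 := one_mul 1
      · intro x
        calc ∑' A2, c A2 * g' (Dp z2 A2 - x) ≤ ∑' A2, c A2 * Gd :=
              ENNReal.tsum_le_tsum fun A2 => mul_le_mul_right (hg _) _
          _ = (∑' A2, c A2) * Gd := ENNReal.tsum_mul_right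
          _ ≤ 1 * Gd := mul_le_mul_left hcs _
          _ = Gd := one_mul _
    calc ∑' z, g (z, ((T + i : ℕ) : ℤ)) * Ψ z (T + i)
        ≤ ∑' z, g (z, ((T + i : ℕ) : ℤ)) * ∑ j ∈ Finset.range (i0 + 1),
          ∑ i' ∈ Finset.range (i0 + 1), ∑ j' ∈ Finset.range (i0 + 1),
          ∑' A2, (if fp ht2 T A2 ∧ HT ht2 A2 = T + i' then LW Λ2 A2
          else 0) * ∑' P1, ∑' P2, (if HT ht1 P1 = W + j ∧ HT ht2 P2 = W + j' ∧
            R (Dp z2 A2 - z) (T + i) P1 (T + i') P2 then LW Λ1 P1 * LW Λ2 P2 else 0) :=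
          ENNReal.tsum_le_tsum fun z => mul_le_mul_right (ex z) _
      _ = ∑ j ∈ Finset.range (i0 + 1),
          ∑ i' ∈ Finset.range (i0 + 1), ∑ j' ∈ Finset.range (i0 + 1),
          ∑' z, g (z, ((T + i : ℕ) : ℤ)) *
          ∑' A2, (if fp ht2 T A2 ∧ HT ht2 A2 = T + i' then LW Λ2 A2
          else 0) * ∑' P1, ∑' P2, (if HT ht1 P1 = W + j ∧ HT ht2 P2 = W + j' ∧
            R (Dp z2 A2 - z) (T + i) P1 (T + i') P2 then LW Λ1 P1 * LW Λ2 P2 else 0) := by
          simp_rw [Finset.mul_sum]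
          rw [Summable.tsum_finsetSum fun _ _ => ENNReal.summable]
          refine Finset.sum_congr rfl fun j _ => ?_
          rw [Summable.tsum_finsetSum fun _ _ => ENNReal.summable]
          refine Finset.sum_congr rfl fun i' _ => ?_
          rw [Summable.tsum_finsetSum fun _ _ => ENNReal.summable]
      _ ≤ ∑ j ∈ Finset.range (i0 + 1),
          ∑ i' ∈ Finset.range (i0 + 1), ∑ j' ∈ Finset.range (i0 + 1), η := by
          refine Finset.sum_le_sum fun j hj => Finset.sum_le_sum fun i' hi' =>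
            Finset.sum_le_sum fun j' hj' => one' j i' j' ?_ ?_ ?_
          · have := Finset.mem_range.1 hj; omega
          · have := Finset.mem_range.1 hi'; omega
          · have := Finset.mem_range.1 hj'; omega
      _ = _ := by
          simp only [Finset.sum_const, Finset.card_range, nsmul_eq_mul]
          ring
  calc ∑' A1, wf Λ1 ht1 T i0 A1 * ∑' P1, wf Λ1 ht1 W i0 P1 * ∑' A2, wf Λ2 ht2 T i0 A2 *
      ∑' P2, wf Λ2 ht2 W i0 P2 *
        (if R (Dp z2 A2 - Dp z1 A1) (HT ht1 A1) P1 (HT ht2 A2) P2 then 1 else 0)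
      = ∑' A1, wf Λ1 ht1 T i0 A1 * Ψ (Dp z1 A1) (HT ht1 A1) := rfl
    _ ≤ ∑ i ∈ Finset.range (i0 + 1), ∑' z, mL Λ1 ht1 (zh z1 ht1) T (z, ((T + i : ℕ) : ℤ))
          * Ψ z (T + i) := group_le Λ1 ht1 z1 T i0 Ψ
    _ ≤ ∑ i ∈ Finset.range (i0 + 1), (∑' z, b (z, ((T + i : ℕ) : ℤ))
          + (i0 + 1 : ℕ) ^ 3 * η) := by
        refine Finset.sum_le_sum fun i hi => ?_
        have hi' : i ≤ i0 := by have := Finset.mem_range.1 hi; omega
        calc ∑' z, mL Λ1 ht1 (zh z1 ht1) T (z, ((T + i : ℕ) : ℤ)) * Ψ z (T + i)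
            ≤ ∑' z, (b (z, ((T + i : ℕ) : ℤ)) + g (z, ((T + i : ℕ) : ℤ)) * Ψ z (T + i)) := by
              refine ENNReal.tsum_le_tsum fun z => ?_
              rw [hgb, add_mul, add_comm]
              exact add_le_add ((mul_le_mul_right (hΨ1 _ _) _).trans (mul_one _).le) le_rfl
          _ = _ := ENNReal.tsum_add
          _ ≤ _ := add_le_add le_rfl (main i hi')
    _ = (∑ i ∈ Finset.range (i0 + 1), ∑' z, b (z, ((T + i : ℕ) : ℤ)))
        + (i0 + 1 : ℕ) ^ 4 * η := by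
        rw [Finset.sum_add_distrib]
        congr 1
        simp only [Finset.sum_const, Finset.card_range, nsmul_eq_mul]
        ring
    _ ≤ bad + (i0 + 1 : ℕ) ^ 4 * η := by
        refine add_le_add (le_trans ?_ hb) le_rfl
        rw [ENNReal.tsum_prod', ENNReal.tsum_comm]
        calc ∑ i ∈ Finset.range (i0 + 1), ∑' z, b (z, ((T + i : ℕ) : ℤ))
            ≤ ∑' i : ℕ, ∑' z, b (z, ((T + i : ℕ) : ℤ)) := ENNReal.sum_le_tsum _
          _ ≤ ∑' a : ℤ, ∑' z, b (z, a) := by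
              refine ENNReal.tsum_comp_le_tsum_of_injective
                (f := fun i : ℕ => ((T + i : ℕ) : ℤ)) ?_ (fun a : ℤ => ∑' z, b (z, a))
              intro x y h
              have : ((T + x : ℕ) : ℤ) = ((T + y : ℕ) : ℤ) := h
              omega

end Crest.Agent.R154.Asm635
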