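import Mathlib

/-! Row 154, KAPPA' (801 #38888), line (1): smooth density of the first-passage list, TOTAL version
(one exceptional function for all overshoots `j`); the proof is helper616's `Dens616.dens` with an
overshoot index and an error term (helper280). -/

set_option autoImplicit false

namespace Crest.Agent.R154.Dens280

open scoped ENNReal

variable {Z : Type*} [AddCommGroup Z] {ι : Type*}

/-- **density lemma, total version**: `f r j z` = weight of the first-passage lists to height `≥ r`
with overshoot `j` and displacement `z`; `p i z` = law of one attempt (`T + i` levels,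
displacement `z`); `e r j z` = weight of the attempts which jump over `r` themselves. -/
theorem dens (p : ℕ → Z → ℝ≥0∞) (f e : ℕ → ι → Z → ℝ≥0∞) (T i0 : ℕ) (th q ε G : ℝ≥0∞)
    (hrec : ∀ r, T ≤ r → ∀ j z, f r j z ≤
      (∑' i, ∑' z', if T + i ≤ r then p i z' * f (r - T - i) j (z - z') else 0) + e r j z)
    (hf : ∀ r, ∑' j, ∑' z, f r j z ≤ 1)
    (he : ∀ r, T + i0 ≤ r → (∑' i, ∑' z', (if i0 < i ∧ T + i ≤ r then p i z' else 0))
      + ∑' j, ∑' z, e r j z ≤ ε)
    (hq : ∑' i, ∑' z', (if i ≤ i0 ∧ th < p i z' then p i z' else 0) ≤ q) (hq1 : q ≤ 1)
    (hG : (i0 + 1 : ℕ) * th + q * G ≤ G) :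
    ∀ J r, J * (T + i0) ≤ r → ∃ b : ι → Z → ℝ≥0∞, (∑' j, ∑' z, b j z ≤ q ^ J + J * ε) ∧
      ∀ j z, f r j z ≤ G + b j z := by
  intro J
  induction J with
  | zero =>
    intro r _
    exact ⟨f r, by simpa using hf r, fun j z => le_add_self⟩
  | succ J ih =>
    intro r hr
    have hTi : T + i0 ≤ r := by nlinarith
    have hTr : T ≤ r := by omega
    -- remaining levels after an attempt with overshoot `i ≤ i0`
    have hrem : ∀ i, i ≤ i0 → J * (T + i0) ≤ r - T - i := by
      intro i hi
      have : J * (T + i0) + (T + i0) ≤ r := by nlinarith
      omega
    choose! b hb1 hb2 using fun i (hi : i ≤ i0) => ih (r - T - i) (hrem i hi)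
    refine ⟨fun j z => ((∑' i, ∑' z', if i0 < i ∧ T + i ≤ r then
        p i z' * f (r - T - i) j (z - z') else 0) + e r j z) +
      ∑' i, ∑' z', if i ≤ i0 ∧ th < p i z' then p i z' * b i j (z - z') else 0, ?_, ?_⟩
    · -- total mass of the bad part
      simp_rw [ENNReal.tsum_add]
      have e1 : ∑' j, ∑' z, ∑' i, ∑' z',
          (if i0 < i ∧ T + i ≤ r then p i z' * f (r - T - i) j (z - z') else 0)
          ≤ ∑' i, ∑' z', (if i0 < i ∧ T + i ≤ r then p i z' else 0) := by
        calc ∑' j, ∑' z, ∑' i, ∑' z',
              (if i0 < i ∧ T + i ≤ r then p i z' * f (r - T - i) j (z - z') else 0)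
            = ∑' i, ∑' z', ∑' j, ∑' z,
              (if i0 < i ∧ T + i ≤ r then p i z' * f (r - T - i) j (z - z') else 0) := by
              calc _ = ∑' j, ∑' i, ∑' z', ∑' z,
                    (if i0 < i ∧ T + i ≤ r then p i z' * f (r - T - i) j (z - z') else 0) := by
                    refine tsum_congr fun j => ?_
                    rw [ENNReal.tsum_comm]
                    refine tsum_congr fun i => ?_
                    rw [ENNReal.tsum_comm]
                _ = _ := by
                    rw [ENNReal.tsum_comm]
                    refine tsum_congr fun i => ?_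
                    rw [ENNReal.tsum_comm]
          _ ≤ ∑' i, ∑' z', (if i0 < i ∧ T + i ≤ r then p i z' else 0) := by
              refine ENNReal.tsum_le_tsum fun i => ENNReal.tsum_le_tsum fun z' => ?_
              split_ifs with h
              · simp_rw [ENNReal.tsum_mul_left]
                have : ∀ j, ∑' z, f (r - T - i) j (z - z') = ∑' z, f (r - T - i) j z := fun j =>
                  (Equiv.subRight z').tsum_eq fun z => f (r - T - i) j z
                simp_rw [this]
                calc p i z' * ∑' j, ∑' z, f (r - T - i) j z ≤ p i z' * 1 := by gcongr; exact hf _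
                  _ = p i z' := mul_one _
              · simp
      have e2 : ∑' j, ∑' z, ∑' i, ∑' z',
          (if i ≤ i0 ∧ th < p i z' then p i z' * b i j (z - z') else 0)
          ≤ q * (q ^ J + J * ε) := by
        calc ∑' j, ∑' z, ∑' i, ∑' z',
              (if i ≤ i0 ∧ th < p i z' then p i z' * b i j (z - z') else 0)
            = ∑' i, ∑' z', ∑' j, ∑' z,
              (if i ≤ i0 ∧ th < p i z' then p i z' * b i j (z - z') else 0) := by
              calc _ = ∑' j, ∑' i, ∑' z', ∑' z,
                    (if i ≤ i0 ∧ th < p i z' then p i z' * b i j (z - z') else 0) := by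
                    refine tsum_congr fun j => ?_
                    rw [ENNReal.tsum_comm]
                    refine tsum_congr fun i => ?_
                    rw [ENNReal.tsum_comm]
                _ = _ := by
                    rw [ENNReal.tsum_comm]
                    refine tsum_congr fun i => ?_
                    rw [ENNReal.tsum_comm]
          _ ≤ ∑' i, ∑' z', (if i ≤ i0 ∧ th < p i z' then p i z' else 0) * (q ^ J + J * ε) := by
              refine ENNReal.tsum_le_tsum fun i => ENNReal.tsum_le_tsum fun z' => ?_
              split_ifs with h
              · simp_rw [ENNReal.tsum_mul_left]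
                have : ∀ j, ∑' z, b i j (z - z') = ∑' z, b i j z := fun j =>
                  (Equiv.subRight z').tsum_eq fun z => b i j z
                simp_rw [this]
                gcongr
                exact hb1 i h.1
              · simp
          _ = (∑' i, ∑' z', (if i ≤ i0 ∧ th < p i z' then p i z' else 0)) * (q ^ J + J * ε) := by
              simp_rw [ENNReal.tsum_mul_right]
          _ ≤ _ := by gcongr
      have e3 := he r hTi
      calc _ ≤ ((∑' i, ∑' z', (if i0 < i ∧ T + i ≤ r then p i z' else 0))
            + ∑' j, ∑' z, e r j z) + q * (q ^ J + J * ε) := by gcongr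
        _ ≤ ε + q * (q ^ J + J * ε) := by gcongr
        _ = q ^ (J + 1) + (ε + q * (J * ε)) := by ring
        _ ≤ q ^ (J + 1) + (ε + 1 * (J * ε)) := by gcongr
        _ = q ^ (J + 1) + ((J + 1 : ℕ) : ℝ≥0∞) * ε := by push_cast; ring
    · intro j z
      -- pointwise splitting
      have hterm : ∀ i z', (if T + i ≤ r then p i z' * f (r - T - i) j (z - z') else 0) ≤
          ((if i0 < i ∧ T + i ≤ r then p i z' * f (r - T - i) j (z - z') else 0) +
            (if i ≤ i0 then th * f (r - T - i) j (z - z') else 0)) +
          ((if i ≤ i0 ∧ th < p i z' then p i z' * b i j (z - z') else 0) +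
            (if i ≤ i0 ∧ th < p i z' then p i z' else 0) * G) := by
        intro i z'
        by_cases hi : i ≤ i0
        · have hi' : ¬ i0 < i := by omega
          simp only [hi, hi', if_false, if_true, true_and, false_and, zero_add]
          by_cases hp : th < p i z'
          · simp only [hp, if_true]
            have h1 : (if T + i ≤ r then p i z' * f (r - T - i) j (z - z') else 0) ≤
                p i z' * f (r - T - i) j (z - z') := by split_ifs <;> simp
            calc _ ≤ p i z' * f (r - T - i) j (z - z') := h1
              _ ≤ p i z' * (G + b i j (z - z')) := by gcongr; exact hb2 i hi _ _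
              _ = p i z' * b i j (z - z') + p i z' * G := by ring
              _ ≤ _ := le_add_self
          · simp only [hp, if_false, zero_mul, add_zero]
            have h1 : (if T + i ≤ r then p i z' * f (r - T - i) j (z - z') else 0) ≤
                p i z' * f (r - T - i) j (z - z') := by split_ifs <;> simp
            refine h1.trans ?_
            gcongr
            exact not_lt.1 hp
        · have hi' : i0 < i := by omega
          simp only [hi, hi', if_false, true_and, false_and, zero_mul, add_zero]
          exact le_rfl
      calc f r j z ≤ (∑' i, ∑' z', (if T + i ≤ r then p i z' * f (r - T - i) j (z - z') else 0))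
            + e r j z := hrec r hTr j z
        _ ≤ (∑' i, ∑' z', (((if i0 < i ∧ T + i ≤ r then p i z' * f (r - T - i) j (z - z') else 0) +
            (if i ≤ i0 then th * f (r - T - i) j (z - z') else 0)) +
          ((if i ≤ i0 ∧ th < p i z' then p i z' * b i j (z - z') else 0) +
            (if i ≤ i0 ∧ th < p i z' then p i z' else 0) * G))) + e r j z := by
            gcongr with i z'
            exact hterm i z'
        _ = (((∑' i, ∑' z', (if i0 < i ∧ T + i ≤ r then
              p i z' * f (r - T - i) j (z - z') else 0)) +
            (∑' i, ∑' z', (if i ≤ i0 then th * f (r - T - i) j (z - z') else 0))) +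
          ((∑' i, ∑' z', (if i ≤ i0 ∧ th < p i z' then p i z' * b i j (z - z') else 0)) +
            (∑' i, ∑' z', (if i ≤ i0 ∧ th < p i z' then p i z' else 0)) * G)) + e r j z := by
            simp_rw [ENNReal.tsum_add, ENNReal.tsum_mul_right]
        _ ≤ (((∑' i, ∑' z', (if i0 < i ∧ T + i ≤ r then
              p i z' * f (r - T - i) j (z - z') else 0)) +
            ((i0 + 1 : ℕ) * th)) +
          ((∑' i, ∑' z', (if i ≤ i0 ∧ th < p i z' then p i z' * b i j (z - z') else 0)) + q * G))
            + e r j z := by
            gcongr
            calc ∑' i, ∑' z', (if i ≤ i0 then th * f (r - T - i) j (z - z') else 0)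
                ≤ ∑' i, (if i ≤ i0 then th else 0) := by
                  refine ENNReal.tsum_le_tsum fun i => ?_
                  split_ifs with h
                  · rw [ENNReal.tsum_mul_left]
                    have : ∑' z', f (r - T - i) j (z - z') = ∑' z', f (r - T - i) j z' :=
                      (Equiv.subLeft z).tsum_eq fun z' => f (r - T - i) j z'
                    rw [this]
                    calc th * ∑' z', f (r - T - i) j z' ≤ th * 1 := by
                          gcongr
                          exact (ENNReal.le_tsum j).trans (hf _)
                      _ = th := mul_one _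
                  · simp
              _ = ∑ i ∈ Finset.range (i0 + 1), th := by
                  rw [tsum_eq_sum (s := Finset.range (i0 + 1))]
                  · refine Finset.sum_congr rfl fun i hi => ?_
                    rw [if_pos (by have := Finset.mem_range.1 hi; omega)]
                  · intro i hi
                    rw [if_neg (by intro h; exact hi (Finset.mem_range.2 (by omega)))]
              _ = _ := by simp
        _ = ((i0 + 1 : ℕ) * th + q * G) +
            (((∑' i, ∑' z', (if i0 < i ∧ T + i ≤ r then
              p i z' * f (r - T - i) j (z - z') else 0)) + e r j z) +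
            ∑' i, ∑' z', (if i ≤ i0 ∧ th < p i z' then p i z' * b i j (z - z') else 0)) := by ring
        _ ≤ _ := by gcongr

end Crest.Agent.R154.Dens280
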