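import Crest.Agent.R154.AsmA_636
import Crest.Agent.R154.Dens_280
import Crest.Agent.R154.Dens_616

/-! Row 154, ROAD 801, abstract assembly (helper636), part B: density of the first passage lists. -/

set_option autoImplicit false

namespace Crest.Agent.R154.Asm636

open scoped ENNReal
open Crest.Agent.R154.B5A Crest.Agent.R154.FP178

variable {B G : Type*} [AddCommGroup G]

open Classical in
lemma fiber {A : Type*} (φ : A → ℝ≥0∞) (k : A → ℕ) (ζ : A → G) (Φ : ℕ → G → ℝ≥0∞) :
    ∑' L, φ L * Φ (k L) (ζ L)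
      = ∑' i, ∑' z, (∑' L, if k L = i ∧ ζ L = z then φ L else 0) * Φ i z := by
  have e1 : ∀ L, φ L * Φ (k L) (ζ L)
      = ∑' i, ∑' z, (if k L = i ∧ ζ L = z then φ L else 0) * Φ i z := by
    intro L
    rw [tsum_eq_single (k L) (fun i hi => by
      have : ∀ z, (if k L = i ∧ ζ L = z then φ L else 0) * Φ i z = 0 := fun z => by
        rw [if_neg (fun h => hi h.1.symm), zero_mul]
      simp [this])]
    rw [tsum_eq_single (ζ L) (fun z hz => by
      rw [if_neg (fun h => hz h.2.symm), zero_mul])]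
    rw [if_pos ⟨rfl, rfl⟩]
  rw [tsum_congr e1, ENNReal.tsum_comm]
  refine tsum_congr fun i => ?_
  rw [ENNReal.tsum_comm]
  refine tsum_congr fun z => ?_
  rw [ENNReal.tsum_mul_right]

variable (Λ : B → ℝ≥0∞) (h : B → ℕ) (z : B → G)

open Classical in
/-- law of (overshoot, displacement) of the first passage of depth `a` -/
noncomputable def fd (a j : ℕ) (x : G) : ℝ≥0∞ :=
  ∑' L : List B, if HT h L - a = j ∧ Dp z L = x then (if fp h a L then LW Λ L else 0) else 0

open Classical in
lemma fd_fiber (a : ℕ) (Φ : ℕ → G → ℝ≥0∞) :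
    ∑' L : List B, (if fp h a L then LW Λ L else 0) * Φ (HT h L - a) (Dp z L)
      = ∑' j, ∑' x, fd Λ h z a j x * Φ j x :=
  fiber (fun L : List B => if fp h a L then LW Λ L else 0) (fun L => HT h L - a) (Dp z) Φ

open Classical in
lemma fd_sum (h1 : ∀ b, 1 ≤ h b) (hΛ : ∑' b, Λ b ≤ 1) (a : ℕ) :
    ∑' j, ∑' x, fd Λ h z a j x ≤ 1 := by
  have := fd_fiber Λ h z a (fun _ _ => 1)
  simp only [mul_one] at this
  rw [← this]
  exact sum_FP Λ h h1 hΛ a

open Classical in
lemma sum_FP_eq (h1 : ∀ b, 1 ≤ h b) (hΛ : ∑' b, Λ b = 1) (a : ℕ) :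
    ∑' L, (if fp h a L then LW Λ L else 0) = 1 := by
  induction a using Nat.strong_induction_on with
  | _ a ih =>
    rcases Nat.eq_zero_or_pos a with rfl | ha
    · have := sum_fp_zero Λ h (fun _ => 1)
      simp only [mul_one] at this
      exact this
    · have := sum_fp_step Λ h a ha (fun _ => 1)
      simp only [mul_one] at this
      rw [this]
      calc ∑' b, Λ b * ∑' L, (if fp h (a - h b) L then LW Λ L else 0)
          = ∑' b, Λ b * 1 := by
            refine tsum_congr fun b => ?_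
            rw [ih (a - h b) (by have := h1 b; omega)]
        _ = 1 := by simpa using hΛ

open Classical in
lemma fd_sum_eq (h1 : ∀ b, 1 ≤ h b) (hΛ : ∑' b, Λ b = 1) (a : ℕ) :
    ∑' j, ∑' x, fd Λ h z a j x = 1 := by
  have := fd_fiber Λ h z a (fun _ _ => 1)
  simp only [mul_one] at this
  rw [← this]
  exact sum_FP_eq Λ h h1 hΛ a

lemma Dp_append (L L' : List B) : Dp z (L ++ L') = Dp z L + Dp z L' := by simp [Dp]

open Classical in
lemma fd_rec (h1 : ∀ b, 1 ≤ h b) (T r : ℕ) (hT : T ≤ r) (j : ℕ) (x : G) :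
    fd Λ h z r j x ≤
      (∑' i, ∑' x', if T + i ≤ r then fd Λ h z T i x' * fd Λ h z (r - T - i) j (x - x') else 0)
      + ∑' A : List B, (if HT h A - r = j ∧ Dp z A = x then
          (if fp h T A ∧ r < HT h A then LW Λ A else 0) else 0) := by
  have e0 : fd Λ h z r j x = ∑' L : List B, (if fp h r L then
      LW Λ L * (if HT h L - r = j ∧ Dp z L = x then 1 else 0) else 0) := by
    unfold fd
    refine tsum_congr fun L => ?_
    by_cases h2 : fp h r L <;> by_cases h3 : HT h L - r = j ∧ Dp z L = x <;> simp [h2, h3]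
  rw [e0, fp_split Λ h h1 T r hT]
  have e1 : (∑' i, ∑' x', if T + i ≤ r then
      fd Λ h z T i x' * fd Λ h z (r - T - i) j (x - x') else 0)
      = ∑' A : List B, (if fp h T A then LW Λ A else 0) *
        (if T + (HT h A - T) ≤ r then fd Λ h z (r - T - (HT h A - T)) j (x - Dp z A) else 0) := by
    rw [fd_fiber Λ h z T (fun i x' => if T + i ≤ r then fd Λ h z (r - T - i) j (x - x') else 0)]
    refine tsum_congr fun i => tsum_congr fun x' => ?_
    split_ifs
    · rfl
    · rw [mul_zero]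
  rw [e1, ← ENNReal.tsum_add]
  refine ENNReal.tsum_le_tsum fun A => ?_
  by_cases hA : fp h T A
  · have hTA := le_HT_of_fp h hA
    rw [if_pos hA, if_pos hA]
    by_cases hr : HT h A ≤ r
    · refine le_trans ?_ le_self_add
      rw [if_pos (by omega), show r - T - (HT h A - T) = r - HT h A by omega]
      refine mul_le_mul_right (le_of_eq ?_) _
      unfold fd
      refine tsum_congr fun L => ?_
      rw [HT_append, Dp_append]
      by_cases h2 : fp h (r - HT h A) L
      · rw [if_pos h2, if_pos h2]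
        have h3 := le_HT_of_fp h h2
        have h4 : (HT h A + HT h L - r = j ∧ Dp z A + Dp z L = x) ↔
            (HT h L - (r - HT h A) = j ∧ Dp z L = x - Dp z A) := by
          refine and_congr ?_ ?_
          · rw [show HT h A + HT h L - r = HT h L - (r - HT h A) by omega]
          · rw [eq_sub_iff_add_eq, add_comm]
        by_cases h5 : HT h L - (r - HT h A) = j ∧ Dp z L = x - Dp z A
        · rw [if_pos h5, if_pos (h4.2 h5), mul_one]
        · rw [if_neg h5, if_neg (fun h6 => h5 (h4.1 h6)), mul_zero]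
      · rw [if_neg h2, if_neg h2, ite_self]
    · refine le_trans ?_ le_add_self
      have e2 : r - HT h A = 0 := by omega
      rw [e2, sum_fp_zero Λ h (fun L => if HT h (A ++ L) - r = j ∧ Dp z (A ++ L) = x then 1 else 0)]
      rw [List.append_nil]
      by_cases h5 : HT h A - r = j ∧ Dp z A = x
      · rw [if_pos h5, if_pos h5, if_pos ⟨hA, by omega⟩, mul_one]
      · rw [if_neg h5, if_neg h5, mul_zero]
  · rw [if_neg hA]; exact zero_le

open Classical in
/-- **density of the first passage lists** -/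
theorem dens (h1 : ∀ b, 1 ≤ h b) (hΛ : ∑' b, Λ b ≤ 1) (T i0 : ℕ) (ε : ℝ≥0∞)
    (hov : ∀ a, ∑' L, (if fp h a L ∧ a + i0 < HT h L then LW Λ L else 0) ≤ ε)
    (th q Gd : ℝ≥0∞)
    (hq : ∑' i, ∑' x, (if i ≤ i0 ∧ th < fd Λ h z T i x then fd Λ h z T i x else 0) ≤ q)
    (hq1 : q ≤ 1) (hG : (i0 + 1 : ℕ) * th + q * Gd ≤ Gd) (J a : ℕ) (ha : J * (T + i0) ≤ a) :
    ∃ b : ℕ → G → ℝ≥0∞, (∑' j, ∑' x, b j x ≤ q ^ J + J * ε) ∧
      ∀ j x, fd Λ h z a j x ≤ Gd + b j x := by
  refine Dens280.dens (fd Λ h z T) (fd Λ h z) (fun r j x => ∑' A : List B,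
    (if HT h A - r = j ∧ Dp z A = x then (if fp h T A ∧ r < HT h A then LW Λ A else 0) else 0))
    T i0 th q ε Gd (fun r hr j x => fd_rec Λ h z h1 T r hr j x) (fd_sum Λ h z h1 hΛ) ?_ hq hq1 hG
    J a ha
  intro r hr
  have e1 : (∑' i, ∑' x', (if i0 < i ∧ T + i ≤ r then fd Λ h z T i x' else 0))
      = ∑' A : List B, (if fp h T A then LW Λ A else 0) *
        (if i0 < HT h A - T ∧ T + (HT h A - T) ≤ r then 1 else 0) := by
    rw [fd_fiber Λ h z T (fun i _ => if i0 < i ∧ T + i ≤ r then 1 else 0)]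
    refine tsum_congr fun i => tsum_congr fun x' => ?_
    split_ifs
    · rw [mul_one]
    · rw [mul_zero]
  have e2 := fiber (G := G) (fun A : List B => (if fp h T A ∧ r < HT h A then LW Λ A else 0))
    (fun A => HT h A - r) (Dp z) (fun _ _ => 1)
  simp only [mul_one] at e2
  rw [e1, ← e2, ← ENNReal.tsum_add]
  refine le_trans (ENNReal.tsum_le_tsum fun A => ?_) (hov T)
  by_cases hA : fp h T A
  · have hTA := le_HT_of_fp h hA
    rw [if_pos hA]
    by_cases hr' : r < HT h A
    · rw [if_neg (by omega), mul_zero, zero_add, if_pos ⟨hA, hr'⟩, if_pos ⟨hA, by omega⟩]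
    · by_cases h3 : T + i0 < HT h A
      · rw [if_pos (by omega), if_neg (fun hh => hr' hh.2), if_pos ⟨hA, h3⟩, add_zero, mul_one]
      · rw [if_neg (by omega), if_neg (fun hh => hr' hh.2), mul_zero, add_zero]
        exact zero_le
  · rw [if_neg hA, zero_mul, zero_add, if_neg (fun hh => hA hh.1)]; exact zero_le

end Crest.Agent.R154.Asm636
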