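import Crest.Agent.R154.AsmA_647

/-! Row 154, ROAD 801, list assembly (helper647), part B: first passage decomposition of two walkers. -/

set_option autoImplicit false

namespace Crest.Agent.R154.Asm647

open scoped ENNReal
open Crest.Agent.R154.B5A Crest.Agent.R154.FP178

section one

variable {B : Type*} (Λ : B → ℝ≥0∞) (ht : B → ℕ)

open Classical in
/-- first passages of `r` with overshoot at most `i0` -/
noncomputable def w1 (r i0 : ℕ) (L : List B) : ℝ≥0∞ :=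
  if fp ht r L ∧ HT ht L ≤ r + i0 then LW Λ L else 0

lemma w1_sum (h1 : ∀ b, 1 ≤ ht b) (hΛ : ∑' b, Λ b ≤ 1) (r i0 : ℕ) : ∑' L, w1 Λ ht r i0 L ≤ 1 := by
  classical
  refine le_trans (ENNReal.tsum_le_tsum fun L => ?_) (sum_FP Λ ht h1 hΛ r)
  unfold w1
  by_cases h : fp ht r L
  · by_cases h' : HT ht L ≤ r + i0
    · rw [if_pos ⟨h, h'⟩, if_pos h]
    · rw [if_neg (fun h'' => h' h''.2)]; exact bot_le
  · rw [if_neg (fun h'' => h h''.1)]; exact bot_le

open Classical in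
lemma U_shift (hU1 : ∀ n, U Λ ht n ≤ 1) (L1 : List B) (n : ℕ) :
    ∑' L2, LW Λ L2 * (if HT ht (L1 ++ L2) = n then 1 else 0) ≤ 1 := by
  by_cases h : HT ht L1 ≤ n
  · refine le_trans (le_of_eq ?_) (hU1 (n - HT ht L1))
    unfold U
    refine tsum_congr fun L2 => ?_
    by_cases h2 : HT ht L2 = n - HT ht L1
    · rw [if_pos (by rw [HT_append]; omega), if_pos h2, mul_one]
    · rw [if_neg (by rw [HT_append]; omega), if_neg h2, mul_zero]
  · have : ∀ L2 : List B, LW Λ L2 * (if HT ht (L1 ++ L2) = n then (1 : ℝ≥0∞) else 0) = 0 := by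
      intro L2
      rw [if_neg (by rw [HT_append]; omega), mul_zero]
    simp [this]

open Classical in
lemma one_step (h1 : ∀ b, 1 ≤ ht b) (hU1 : ∀ n, U Λ ht n ≤ 1) (r i0 n : ℕ) (hn : r ≤ n)
    (f : List B → ℝ≥0∞) (hf : ∀ L, f L ≤ if HT ht L = n then 1 else 0) :
    ∑' L, LW Λ L * f L ≤ ∑' L1, w1 Λ ht r i0 L1 * ∑' L2, LW Λ L2 * f (L1 ++ L2)
      + ∑' k, tail Λ ht (i0 + k) := by
  have e1 : ∑' L, LW Λ L * f L = ∑' L, (if r ≤ HT ht L then LW Λ L * f L else 0) := by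
    refine tsum_congr fun L => ?_
    by_cases h : r ≤ HT ht L
    · rw [if_pos h]
    · rw [if_neg h]
      have := hf L
      rw [if_neg (by omega)] at this
      rw [le_antisymm this bot_le]
      exact mul_zero _
  rw [e1, split Λ ht h1 r f]
  calc ∑' L1, (if fp ht r L1 then LW Λ L1 * ∑' L2, LW Λ L2 * f (L1 ++ L2) else 0)
      ≤ ∑' L1, (w1 Λ ht r i0 L1 * ∑' L2, LW Λ L2 * f (L1 ++ L2)
        + (if fp ht r L1 ∧ r + i0 < HT ht L1 then LW Λ L1 else 0)) := by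
        refine ENNReal.tsum_le_tsum fun L1 => ?_
        by_cases h : fp ht r L1
        · rw [if_pos h]
          by_cases h' : HT ht L1 ≤ r + i0
          · unfold w1
            rw [if_pos ⟨h, h'⟩]
            exact le_self_add
          · rw [if_pos ⟨h, not_le.1 h'⟩]
            refine le_add_left ?_
            calc LW Λ L1 * ∑' L2, LW Λ L2 * f (L1 ++ L2) ≤ LW Λ L1 * 1 := by
                  gcongr
                  refine le_trans (ENNReal.tsum_le_tsum fun L2 => ?_) (U_shift Λ ht hU1 L1 n)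
                  gcongr
                  exact hf _
              _ = _ := mul_one _
        · rw [if_neg h]; exact bot_le
    _ = ∑' L1, w1 Λ ht r i0 L1 * ∑' L2, LW Λ L2 * f (L1 ++ L2)
        + ∑' L1, (if fp ht r L1 ∧ r + i0 < HT ht L1 then LW Λ L1 else 0) := ENNReal.tsum_add
    _ ≤ _ := by
        gcongr
        exact overshoot Λ ht h1 hU1 i0 r

open Classical in
lemma one_walker (h1 : ∀ b, 1 ≤ ht b) (hΛ : ∑' b, Λ b ≤ 1) (hU1 : ∀ n, U Λ ht n ≤ 1)
    (r i0 ℓ n : ℕ) (hn : r + i0 + ℓ ≤ n)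
    (f : List B → ℝ≥0∞) (hf : ∀ L, f L ≤ if HT ht L = n then 1 else 0) :
    ∑' L, LW Λ L * f L ≤ ∑' L1, w1 Λ ht r i0 L1 * ∑' L2, w1 Λ ht ℓ i0 L2 *
      ∑' L3, LW Λ L3 * f (L1 ++ (L2 ++ L3)) + 2 * ∑' k, tail Λ ht (i0 + k) := by
  set τ := ∑' k, tail Λ ht (i0 + k) with hτ
  refine (one_step Λ ht h1 hU1 r i0 n (by omega) f hf).trans ?_
  calc ∑' L1, w1 Λ ht r i0 L1 * ∑' L2, LW Λ L2 * f (L1 ++ L2) + τ
      ≤ ∑' L1, (w1 Λ ht r i0 L1 * ∑' L2, w1 Λ ht ℓ i0 L2 *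
          ∑' L3, LW Λ L3 * f (L1 ++ (L2 ++ L3)) + w1 Λ ht r i0 L1 * τ) + τ := by
        gcongr with L1
        rw [← mul_add]
        by_cases h' : fp ht r L1 ∧ HT ht L1 ≤ r + i0
        · gcongr
          refine one_step Λ ht h1 hU1 ℓ i0 (n - HT ht L1) (by omega) (fun L => f (L1 ++ L)) ?_
          intro L
          refine (hf _).trans (le_of_eq ?_)
          by_cases h2 : HT ht L = n - HT ht L1
          · rw [if_pos (by rw [HT_append]; omega), if_pos h2]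
          · rw [if_neg (by rw [HT_append]; omega), if_neg h2]
        · simp only [w1, if_neg h', zero_mul]; exact bot_le
    _ = (∑' L1, w1 Λ ht r i0 L1 * ∑' L2, w1 Λ ht ℓ i0 L2 *
          ∑' L3, LW Λ L3 * f (L1 ++ (L2 ++ L3))) + (∑' L1, w1 Λ ht r i0 L1) * τ + τ := by
        rw [ENNReal.tsum_add, ENNReal.tsum_mul_right]
    _ ≤ (∑' L1, w1 Λ ht r i0 L1 * ∑' L2, w1 Λ ht ℓ i0 L2 *
          ∑' L3, LW Λ L3 * f (L1 ++ (L2 ++ L3))) + 1 * τ + τ := by
        gcongr; exact w1_sum Λ ht h1 hΛ r i0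
    _ = _ := by ring

end one

section two

variable {BX BY : Type*} (ΛX : BX → ℝ≥0∞) (hX : BX → ℕ) (ΛY : BY → ℝ≥0∞) (hY : BY → ℕ)

open Classical in
theorem two_walker (h1X : ∀ b, 1 ≤ hX b) (hΛX : ∑' b, ΛX b ≤ 1) (hUX : ∀ n, U ΛX hX n ≤ 1)
    (h1Y : ∀ b, 1 ≤ hY b) (hΛY : ∑' b, ΛY b ≤ 1) (hUY : ∀ n, U ΛY hY n ≤ 1)
    (r i0 ℓ n : ℕ) (hn : r + i0 + ℓ ≤ n)
    (F : List BX → List BY → ℝ≥0∞) (Q : List BX → List BX → List BY → List BY → ℝ≥0∞)
    (hF1 : ∀ LX LY, F LX LY ≤ if HT hX LX = n ∧ HT hY LY = n then 1 else 0)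
    (hFQ : ∀ L1 L2 L3 L1' L2' L3', fp hX r L1 → HT hX L1 ≤ r + i0 → fp hX ℓ L2 →
      HT hX L2 ≤ ℓ + i0 → fp hY r L1' → HT hY L1' ≤ r + i0 → fp hY ℓ L2' →
      HT hY L2' ≤ ℓ + i0 →
      F (L1 ++ (L2 ++ L3)) (L1' ++ (L2' ++ L3')) ≤ Q L1 L2 L1' L2') :
    ∑' LX, ∑' LY, LW ΛX LX * LW ΛY LY * F LX LY ≤
      ∑' L1, w1 ΛX hX r i0 L1 * ∑' L2, w1 ΛX hX ℓ i0 L2 *
        ∑' L1', w1 ΛY hY r i0 L1' * ∑' L2', w1 ΛY hY ℓ i0 L2' * Q L1 L2 L1' L2'
      + 2 * ∑' k, tail ΛX hX (i0 + k) + 2 * ∑' k, tail ΛY hY (i0 + k) := by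
  set τX := ∑' k, tail ΛX hX (i0 + k)
  set τY := ∑' k, tail ΛY hY (i0 + k)
  have e0 : ∑' LX, ∑' LY, LW ΛX LX * LW ΛY LY * F LX LY
      = ∑' LX, LW ΛX LX * ∑' LY, LW ΛY LY * F LX LY := by
    refine tsum_congr fun LX => ?_
    rw [← ENNReal.tsum_mul_left]
    exact tsum_congr fun LY => by ring
  rw [e0]
  have hfX : ∀ LX, ∑' LY, LW ΛY LY * F LX LY ≤ if HT hX LX = n then 1 else 0 := by
    intro LX
    by_cases h : HT hX LX = n
    · rw [if_pos h]
      refine le_trans (ENNReal.tsum_le_tsum fun LY => ?_) (U_shift ΛY hY hUY [] n)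
      rw [List.nil_append]
      gcongr
      refine (hF1 LX LY).trans ?_
      split_ifs with h2 h3
      · exact le_rfl
      · exact absurd h2.2 h3
      · exact zero_le_one
      · exact le_rfl
    · rw [if_neg h]
      have : ∀ LY, LW ΛY LY * F LX LY = 0 := by
        intro LY
        have := hF1 LX LY
        rw [if_neg (fun h' => h h'.1)] at this
        rw [le_antisymm this bot_le]; exact mul_zero _
      simp [this]
  refine (one_walker ΛX hX h1X hΛX hUX r i0 ℓ n hn _ hfX).trans ?_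
  -- the inner sums
  have inner : ∀ L1 L2, fp hX r L1 → HT hX L1 ≤ r + i0 → fp hX ℓ L2 → HT hX L2 ≤ ℓ + i0 →
      ∑' L3, LW ΛX L3 * ∑' LY, LW ΛY LY * F (L1 ++ (L2 ++ L3)) LY
      ≤ (∑' L1', w1 ΛY hY r i0 L1' * ∑' L2', w1 ΛY hY ℓ i0 L2' * Q L1 L2 L1' L2') + 2 * τY := by
    intro L1 L2 a1 a2 a3 a4
    set S := (∑' L1', w1 ΛY hY r i0 L1' * ∑' L2', w1 ΛY hY ℓ i0 L2' * Q L1 L2 L1' L2') + 2 * τY
      with hS
    have hL3 : ∀ L3, ∑' LY, LW ΛY LY * F (L1 ++ (L2 ++ L3)) LY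
        ≤ (if HT hX ((L1 ++ L2) ++ L3) = n then 1 else 0) * S := by
      intro L3
      by_cases h : HT hX ((L1 ++ L2) ++ L3) = n
      · rw [if_pos h, one_mul]
        refine (one_walker ΛY hY h1Y hΛY hUY r i0 ℓ n hn (fun LY => F (L1 ++ (L2 ++ L3)) LY) ?_).trans ?_
        · intro LY
          refine (hF1 _ LY).trans ?_
          split_ifs with h2 h3
          · exact le_rfl
          · exact absurd h2.2 h3
          · exact zero_le_one
          · exact le_rfl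
        · rw [hS]
          refine add_le_add ?_ le_rfl
          refine ENNReal.tsum_le_tsum fun L1' => ?_
          by_cases b1 : fp hY r L1' ∧ HT hY L1' ≤ r + i0
          · refine mul_le_mul' le_rfl (ENNReal.tsum_le_tsum fun L2' => ?_)
            by_cases b2 : fp hY ℓ L2' ∧ HT hY L2' ≤ ℓ + i0
            · refine mul_le_mul' le_rfl ?_
              calc ∑' L3', LW ΛY L3' * F (L1 ++ (L2 ++ L3)) (L1' ++ (L2' ++ L3'))
                  ≤ ∑' L3', (LW ΛY L3' * (if HT hY ((L1' ++ L2') ++ L3') = n then 1 else 0))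
                      * Q L1 L2 L1' L2' := by
                    refine ENNReal.tsum_le_tsum fun L3' => ?_
                    by_cases h4 : HT hY ((L1' ++ L2') ++ L3') = n
                    · rw [if_pos h4, mul_one]
                      gcongr
                      exact hFQ _ _ _ _ _ _ a1 a2 a3 a4 b1.1 b1.2 b2.1 b2.2
                    · have h5 := hF1 (L1 ++ (L2 ++ L3)) (L1' ++ (L2' ++ L3'))
                      rw [if_neg (fun h' => h4 (by rw [List.append_assoc]; exact h'.2))] at h5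
                      have h6 : F (L1 ++ (L2 ++ L3)) (L1' ++ (L2' ++ L3')) = 0 :=
                        le_antisymm h5 bot_le
                      rw [h6, mul_zero]; exact bot_le
                _ = (∑' L3', LW ΛY L3' * (if HT hY ((L1' ++ L2') ++ L3') = n then 1 else 0))
                      * Q L1 L2 L1' L2' := ENNReal.tsum_mul_right
                _ ≤ 1 * Q L1 L2 L1' L2' := by
                    gcongr; exact U_shift ΛY hY hUY (L1' ++ L2') n
                _ = _ := one_mul _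
            · simp only [w1, if_neg b2, zero_mul]; exact le_rfl
          · simp only [w1, if_neg b1, zero_mul]; exact le_rfl
      · rw [if_neg h, zero_mul]
        have := hfX (L1 ++ (L2 ++ L3))
        rwa [if_neg (by rwa [← List.append_assoc])] at this
    calc ∑' L3, LW ΛX L3 * ∑' LY, LW ΛY LY * F (L1 ++ (L2 ++ L3)) LY
        ≤ ∑' L3, (LW ΛX L3 * (if HT hX ((L1 ++ L2) ++ L3) = n then 1 else 0)) * S := by
          refine ENNReal.tsum_le_tsum fun L3 => ?_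
          rw [mul_assoc]
          gcongr
          exact hL3 L3
      _ = (∑' L3, LW ΛX L3 * (if HT hX ((L1 ++ L2) ++ L3) = n then 1 else 0)) * S :=
          ENNReal.tsum_mul_right
      _ ≤ 1 * S := by gcongr; exact U_shift ΛX hX hUX (L1 ++ L2) n
      _ = S := one_mul _
  have main : ∑' L1, w1 ΛX hX r i0 L1 * ∑' L2, w1 ΛX hX ℓ i0 L2 *
      ∑' L3, LW ΛX L3 * ∑' LY, LW ΛY LY * F (L1 ++ (L2 ++ L3)) LY
      ≤ ∑' L1, w1 ΛX hX r i0 L1 * ∑' L2, w1 ΛX hX ℓ i0 L2 *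
        ∑' L1', w1 ΛY hY r i0 L1' * ∑' L2', w1 ΛY hY ℓ i0 L2' * Q L1 L2 L1' L2' + 2 * τY := by
    calc _ ≤ ∑' L1, (w1 ΛX hX r i0 L1 * ∑' L2, w1 ΛX hX ℓ i0 L2 *
          ∑' L1', w1 ΛY hY r i0 L1' * ∑' L2', w1 ΛY hY ℓ i0 L2' * Q L1 L2 L1' L2'
          + w1 ΛX hX r i0 L1 * (2 * τY)) := by
          refine ENNReal.tsum_le_tsum fun L1 => ?_
          rw [← mul_add]
          by_cases a : fp hX r L1 ∧ HT hX L1 ≤ r + i0
          · refine mul_le_mul' le_rfl ?_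
            calc ∑' L2, w1 ΛX hX ℓ i0 L2 *
                ∑' L3, LW ΛX L3 * ∑' LY, LW ΛY LY * F (L1 ++ (L2 ++ L3)) LY
                ≤ ∑' L2, (w1 ΛX hX ℓ i0 L2 *
                    ∑' L1', w1 ΛY hY r i0 L1' * ∑' L2', w1 ΛY hY ℓ i0 L2' * Q L1 L2 L1' L2'
                    + w1 ΛX hX ℓ i0 L2 * (2 * τY)) := by
                  refine ENNReal.tsum_le_tsum fun L2 => ?_
                  rw [← mul_add]
                  by_cases a' : fp hX ℓ L2 ∧ HT hX L2 ≤ ℓ + i0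
                  · refine mul_le_mul' le_rfl ?_
                    exact inner L1 L2 a.1 a.2 a'.1 a'.2
                  · simp only [w1, if_neg a', zero_mul]; exact le_rfl
              _ = ∑' L2, w1 ΛX hX ℓ i0 L2 *
                    ∑' L1', w1 ΛY hY r i0 L1' * ∑' L2', w1 ΛY hY ℓ i0 L2' * Q L1 L2 L1' L2'
                    + (∑' L2, w1 ΛX hX ℓ i0 L2) * (2 * τY) := by
                  rw [ENNReal.tsum_add, ENNReal.tsum_mul_right]
              _ ≤ ∑' L2, w1 ΛX hX ℓ i0 L2 *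
                    ∑' L1', w1 ΛY hY r i0 L1' * ∑' L2', w1 ΛY hY ℓ i0 L2' * Q L1 L2 L1' L2'
                    + 1 * (2 * τY) := by
                  gcongr; exact w1_sum ΛX hX h1X hΛX ℓ i0
              _ = _ := by rw [one_mul]
          · simp only [w1, if_neg a, zero_mul]; exact le_rfl
      _ = (∑' L1, w1 ΛX hX r i0 L1 * ∑' L2, w1 ΛX hX ℓ i0 L2 *
          ∑' L1', w1 ΛY hY r i0 L1' * ∑' L2', w1 ΛY hY ℓ i0 L2' * Q L1 L2 L1' L2')
          + (∑' L1, w1 ΛX hX r i0 L1) * (2 * τY) := by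
          rw [ENNReal.tsum_add, ENNReal.tsum_mul_right]
      _ ≤ (∑' L1, w1 ΛX hX r i0 L1 * ∑' L2, w1 ΛX hX ℓ i0 L2 *
          ∑' L1', w1 ΛY hY r i0 L1' * ∑' L2', w1 ΛY hY ℓ i0 L2' * Q L1 L2 L1' L2')
          + 1 * (2 * τY) := by gcongr; exact w1_sum ΛX hX h1X hΛX r i0
      _ = _ := by rw [one_mul]
  calc _ ≤ (∑' L1, w1 ΛX hX r i0 L1 * ∑' L2, w1 ΛX hX ℓ i0 L2 *
        ∑' L1', w1 ΛY hY r i0 L1' * ∑' L2', w1 ΛY hY ℓ i0 L2' * Q L1 L2 L1' L2' + 2 * τY)
        + 2 * τX := by gcongr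
    _ = _ := by ring

end two

end Crest.Agent.R154.Asm647
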