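import Crest.Agent.R154.AsmA_650

/-! Row 154, ROAD 801 (helper650): smooth density of the first passage position (density lemma of
helper616, with first passages). -/

set_option autoImplicit false

namespace Crest.Agent.R154.Asm650

open Crest.Agent.R154.B5A
open scoped ENNReal

section dens
variable {Z : Type*} [AddCommGroup Z]

/-- **density lemma**: `f r z` = weight of the part above the window (`r` levels to go, displacement
`z`), `p i z` = law of one attempt (`T + i` levels, displacement `z`). -/
theorem dens2 (p f : ℕ → Z → ℝ≥0∞) (T i0 : ℕ) (th q ε G : ℝ≥0∞)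
    (hrec : ∀ r, T ≤ r → ∀ z, f r z ≤
      ∑' i, ∑' z', p i z' * f (r - T - i) (z - z'))
    (hf : ∀ r, ∑' z, f r z ≤ 1)
    (hε : ∑' i, ∑' z', (if i0 < i then p i z' else 0) ≤ ε)
    (hq : ∑' i, ∑' z', (if i ≤ i0 ∧ th < p i z' then p i z' else 0) ≤ q) (hq1 : q ≤ 1)
    (hG : (i0 + 1 : ℕ) * th + q * G ≤ G) :
    ∀ J r, J * (T + i0) ≤ r → ∃ b : Z → ℝ≥0∞, (∑' z, b z ≤ q ^ J + J * ε) ∧
      ∀ z, f r z ≤ G + b z := by
  intro J
  induction J with
  | zero =>
    intro r _
    exact ⟨f r, by simpa using hf r, fun z => le_add_self⟩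
  | succ J ih =>
    intro r hr
    have hTr : T ≤ r := by nlinarith
    -- remaining levels after an attempt with overshoot `i ≤ i0`
    have hrem : ∀ i, i ≤ i0 → J * (T + i0) ≤ r - T - i := by
      intro i hi
      have : J * (T + i0) + (T + i0) ≤ r := by nlinarith
      omega
    choose! b hb1 hb2 using fun i (hi : i ≤ i0) => ih (r - T - i) (hrem i hi)
    refine ⟨fun z => (∑' i, ∑' z', if i0 < i then p i z' * f (r - T - i) (z - z') else 0) +
      ∑' i, ∑' z', if i ≤ i0 ∧ th < p i z' then p i z' * b i (z - z') else 0, ?_, ?_⟩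
    · -- total mass of the bad part
      rw [ENNReal.tsum_add]
      have e1 : ∑' z, ∑' i, ∑' z', (if i0 < i then p i z' * f (r - T - i) (z - z') else 0) ≤ ε := by
        calc ∑' z, ∑' i, ∑' z', (if i0 < i then p i z' * f (r - T - i) (z - z') else 0)
            = ∑' i, ∑' z', ∑' z, (if i0 < i then p i z' * f (r - T - i) (z - z') else 0) := by
              rw [ENNReal.tsum_comm]
              refine tsum_congr fun i => ?_
              rw [ENNReal.tsum_comm]
          _ ≤ ∑' i, ∑' z', (if i0 < i then p i z' else 0) := by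
              refine ENNReal.tsum_le_tsum fun i => ENNReal.tsum_le_tsum fun z' => ?_
              split_ifs with h
              · rw [ENNReal.tsum_mul_left]
                have : ∑' z, f (r - T - i) (z - z') = ∑' z, f (r - T - i) z :=
                  (Equiv.subRight z').tsum_eq fun z => f (r - T - i) z
                rw [this]
                calc p i z' * ∑' z, f (r - T - i) z ≤ p i z' * 1 := by gcongr; exact hf _
                  _ = p i z' := mul_one _
              · simp
          _ ≤ ε := hε
      have e2 : ∑' z, ∑' i, ∑' z', (if i ≤ i0 ∧ th < p i z' then p i z' * b i (z - z') else 0)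
          ≤ q * (q ^ J + J * ε) := by
        calc ∑' z, ∑' i, ∑' z', (if i ≤ i0 ∧ th < p i z' then p i z' * b i (z - z') else 0)
            = ∑' i, ∑' z', ∑' z, (if i ≤ i0 ∧ th < p i z' then p i z' * b i (z - z') else 0) := by
              rw [ENNReal.tsum_comm]
              refine tsum_congr fun i => ?_
              rw [ENNReal.tsum_comm]
          _ ≤ ∑' i, ∑' z', (if i ≤ i0 ∧ th < p i z' then p i z' else 0) * (q ^ J + J * ε) := by
              refine ENNReal.tsum_le_tsum fun i => ENNReal.tsum_le_tsum fun z' => ?_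
              split_ifs with h
              · rw [ENNReal.tsum_mul_left]
                have : ∑' z, b i (z - z') = ∑' z, b i z :=
                  (Equiv.subRight z').tsum_eq fun z => b i z
                rw [this]
                gcongr
                exact hb1 i h.1
              · simp
          _ = (∑' i, ∑' z', (if i ≤ i0 ∧ th < p i z' then p i z' else 0)) * (q ^ J + J * ε) := by
              simp_rw [ENNReal.tsum_mul_right]
          _ ≤ _ := by gcongr
      calc _ ≤ ε + q * (q ^ J + J * ε) := add_le_add e1 e2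
        _ = q ^ (J + 1) + (ε + q * (J * ε)) := by ring
        _ ≤ q ^ (J + 1) + (ε + 1 * (J * ε)) := by gcongr
        _ = q ^ (J + 1) + ((J + 1 : ℕ) : ℝ≥0∞) * ε := by push_cast; ring
    · intro z
      -- pointwise splitting
      have hterm : ∀ i z', p i z' * f (r - T - i) (z - z') ≤
          ((if i0 < i then p i z' * f (r - T - i) (z - z') else 0) +
            (if i ≤ i0 then th * f (r - T - i) (z - z') else 0)) +
          ((if i ≤ i0 ∧ th < p i z' then p i z' * b i (z - z') else 0) +
            (if i ≤ i0 ∧ th < p i z' then p i z' else 0) * G) := by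
        intro i z'
        by_cases hi : i ≤ i0
        · have hi' : ¬ i0 < i := by omega
          simp only [hi, hi', if_false, if_true, true_and, zero_add]
          by_cases hp : th < p i z'
          · simp only [hp, if_true]
            calc _ ≤ p i z' * (G + b i (z - z')) := by gcongr; exact hb2 i hi _
              _ = p i z' * b i (z - z') + p i z' * G := by ring
              _ ≤ _ := le_add_self
          · simp only [hp, if_false, zero_mul, add_zero]
            gcongr
            exact not_lt.1 hp
        · have hi' : i0 < i := by omega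
          simp only [hi, hi', if_false, if_true, false_and, zero_mul, add_zero]
          exact le_rfl
      calc f r z ≤ ∑' i, ∑' z', p i z' * f (r - T - i) (z - z') :=
            hrec r hTr z
        _ ≤ ∑' i, ∑' z', (((if i0 < i then p i z' * f (r - T - i) (z - z') else 0) +
            (if i ≤ i0 then th * f (r - T - i) (z - z') else 0)) +
          ((if i ≤ i0 ∧ th < p i z' then p i z' * b i (z - z') else 0) +
            (if i ≤ i0 ∧ th < p i z' then p i z' else 0) * G)) :=
            ENNReal.tsum_le_tsum fun i => ENNReal.tsum_le_tsum fun z' => hterm i z'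
        _ = ((∑' i, ∑' z', (if i0 < i then p i z' * f (r - T - i) (z - z') else 0)) +
            (∑' i, ∑' z', (if i ≤ i0 then th * f (r - T - i) (z - z') else 0))) +
          ((∑' i, ∑' z', (if i ≤ i0 ∧ th < p i z' then p i z' * b i (z - z') else 0)) +
            (∑' i, ∑' z', (if i ≤ i0 ∧ th < p i z' then p i z' else 0)) * G) := by
            simp_rw [ENNReal.tsum_add, ENNReal.tsum_mul_right]
        _ ≤ ((∑' i, ∑' z', (if i0 < i then p i z' * f (r - T - i) (z - z') else 0)) +
            ((i0 + 1 : ℕ) * th)) +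
          ((∑' i, ∑' z', (if i ≤ i0 ∧ th < p i z' then p i z' * b i (z - z') else 0)) + q * G) := by
            gcongr
            calc ∑' i, ∑' z', (if i ≤ i0 then th * f (r - T - i) (z - z') else 0)
                ≤ ∑' i, (if i ≤ i0 then th else 0) := by
                  refine ENNReal.tsum_le_tsum fun i => ?_
                  split_ifs with h
                  · rw [ENNReal.tsum_mul_left]
                    have : ∑' z', f (r - T - i) (z - z') = ∑' z', f (r - T - i) z' :=
                      (Equiv.subLeft z).tsum_eq fun z' => f (r - T - i) z'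
                    rw [this]
                    calc th * ∑' z', f (r - T - i) z' ≤ th * 1 := by gcongr; exact hf _
                      _ = th := mul_one _
                  · simp
              _ = ∑ i ∈ Finset.range (i0 + 1), th := by
                  rw [tsum_eq_sum (s := Finset.range (i0 + 1))]
                  · refine Finset.sum_congr rfl fun i hi => ?_
                    rw [if_pos (by have := Finset.mem_range.1 hi; omega)]
                  · intro i hi
                    rw [if_neg (by intro h; exact hi (Finset.mem_range.2 (by omega)))]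
              _ = _ := by simp
        _ = ((i0 + 1 : ℕ) * th + q * G) +
            ((∑' i, ∑' z', (if i0 < i then p i z' * f (r - T - i) (z - z') else 0)) +
            ∑' i, ∑' z', (if i ≤ i0 ∧ th < p i z' then p i z' * b i (z - z') else 0)) := by ring
        _ ≤ _ := by gcongr


end dens

variable {B G : Type*} [AddCommGroup G] (Λ : B → ℝ≥0∞) (ht : B → ℕ) (dz : B → G)

/-- displacement of a list -/
def Dp (L : List B) : G := (L.map dz).sum

lemma Dp_append (L L' : List B) : Dp dz (L ++ L') = Dp dz L + Dp dz L' := by simp [Dp]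

open Classical in
/-- law of the first passage: overshoot and displacement -/
noncomputable def att (T : ℕ) (i : ℕ) (z : G) : ℝ≥0∞ :=
  EF Λ ht T (fun L => if HT ht L = T + i ∧ Dp dz L = z then 1 else 0)

open Classical in
lemma EF_law (T : ℕ) (Γ : ℕ → G → ℝ≥0∞) :
    EF Λ ht T (fun L => Γ (HT ht L) (Dp dz L)) = ∑' i, ∑' z, att Λ ht dz T i z * Γ (T + i) z := by
  have h : ∀ i z, att Λ ht dz T i z * Γ (T + i) z = ∑' L, (if FP ht T L then LW Λ L *
      ((if HT ht L = T + i ∧ Dp dz L = z then 1 else 0) * Γ (T + i) z) else 0) := by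
    intro i z
    rw [att, EF, ← ENNReal.tsum_mul_right]
    refine tsum_congr fun L => ?_
    by_cases hL : FP ht T L <;> simp [hL, mul_assoc]
  simp_rw [h]
  have h2 : ∀ i, (∑' z, ∑' L, (if FP ht T L then LW Λ L *
      ((if HT ht L = T + i ∧ Dp dz L = z then 1 else 0) * Γ (T + i) z) else 0)) =
      ∑' L, ∑' z, (if FP ht T L then LW Λ L *
      ((if HT ht L = T + i ∧ Dp dz L = z then 1 else 0) * Γ (T + i) z) else 0) := fun i =>
    ENNReal.tsum_comm
  simp_rw [h2]
  rw [ENNReal.tsum_comm, EF]
  refine tsum_congr fun L => ?_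
  by_cases hL : FP ht T L
  · have hT := FP_le ht T L hL
    rw [tsum_eq_single (HT ht L - T), tsum_eq_single (Dp dz L)]
    · rw [if_pos hL, if_pos hL, if_pos ⟨by omega, rfl⟩, one_mul, Nat.add_sub_cancel' hT]
    · intro z hz
      rw [if_pos hL, if_neg (fun h => hz h.2.symm), zero_mul, mul_zero]
    · intro i hi
      rw [ENNReal.tsum_eq_zero]
      intro z
      rw [if_pos hL, if_neg (fun h => hi (by omega)), zero_mul, mul_zero]
  · simp [hL]

open Classical in
/-- law of the first passage of `r` with the absolute height -/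
noncomputable def fl (r : ℕ) (x : G × ℤ) : ℝ≥0∞ :=
  EF Λ ht r (fun L => if (HT ht L : ℤ) = x.2 ∧ Dp dz L = x.1 then 1 else 0)

lemma fl_sum (h1 : ∀ b, 1 ≤ ht b) (hΛ : ∑' b, Λ b ≤ 1) (r : ℕ) : ∑' x, fl Λ ht dz r x ≤ 1 := by
  classical
  have e : ∑' x, fl Λ ht dz r x = EF Λ ht r (fun _ => 1) := by
    simp only [fl, EF]
    rw [ENNReal.tsum_comm]
    refine tsum_congr fun L => ?_
    by_cases hL : FP ht r L
    · simp only [hL, if_true]
      rw [tsum_eq_single ((Dp dz L, (HT ht L : ℤ)) : G × ℤ)]
      · simp
      · intro x hx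
        rw [if_neg (fun h => hx (Prod.ext h.2.symm h.1.symm)), mul_zero]
    · simp [hL]
  rw [e]
  exact EF_one_le Λ ht h1 hΛ r

lemma fl_rec (h1 : ∀ b, 1 ≤ ht b) (T r : ℕ) (hr : T ≤ r) (x : G × ℤ) :
    fl Λ ht dz r x ≤ ∑' i, ∑' x' : G × ℤ, (if x'.2 = (T + i : ℕ) then att Λ ht dz T i x'.1 else 0)
      * fl Λ ht dz (r - T - i) (x - x') := by
  classical
  obtain ⟨z, h⟩ := x
  have e : fl Λ ht dz r (z, h) = EF Λ ht T (fun L1 =>
      fl Λ ht dz (r - HT ht L1) (z - Dp dz L1, h - HT ht L1)) := by
    rw [fl, EF_EF Λ ht h1 T r hr]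
    congr 1
    funext L1
    rw [fl]
    congr 1
    funext L2
    rw [HT_append, Dp_append]
    refine if_congr ?_ rfl rfl
    simp only [Nat.cast_add]
    constructor
    · rintro ⟨h1, h2⟩; exact ⟨by omega, by rw [← h2]; abel⟩
    · rintro ⟨h1, h2⟩; exact ⟨by omega, by rw [h2]; abel⟩
  rw [e]
  rw [EF_law Λ ht dz T (fun k y => fl Λ ht dz (r - k) (z - y, h - k))]
  refine ENNReal.tsum_le_tsum fun i => ?_
  rw [ENNReal.tsum_prod']
  refine ENNReal.tsum_le_tsum fun y => ?_
  refine le_trans ?_ (ENNReal.le_tsum ((T + i : ℕ) : ℤ))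
  simp only [if_true, Prod.mk_sub_mk, Nat.sub_sub]
  exact le_rfl

/-- **smooth density of the first passage** -/
theorem fl_dens (h1 : ∀ b, 1 ≤ ht b) (hΛ : ∑' b, Λ b ≤ 1) (T i0 : ℕ) (th q ε Gc : ℝ≥0∞)
    (hε : EF Λ ht T (fun L => open Classical in if T + i0 < HT ht L then 1 else 0) ≤ ε)
    (hq : ∑' i, ∑' z, (if i ≤ i0 ∧ th < att Λ ht dz T i z then att Λ ht dz T i z else 0) ≤ q)
    (hq1 : q ≤ 1) (hG : (i0 + 1 : ℕ) * th + q * Gc ≤ Gc) (J r : ℕ) (hr : J * (T + i0) ≤ r) :
    ∃ b : G × ℤ → ℝ≥0∞, (∑' x, b x ≤ q ^ J + J * ε) ∧ ∀ x, fl Λ ht dz r x ≤ Gc + b x := by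
  classical
  refine dens2 (fun i (x' : G × ℤ) => if x'.2 = (T + i : ℕ) then att Λ ht dz T i x'.1 else 0)
    (fl Λ ht dz) T i0 th q ε Gc (fun r hr x => fl_rec Λ ht dz h1 T r hr x)
    (fun r => fl_sum Λ ht dz h1 hΛ r) ?_ ?_ hq1 hG J r hr
  · refine le_trans (le_of_eq ?_) hε
    rw [EF_law Λ ht dz T (fun k _ => if T + i0 < k then 1 else 0)]
    refine tsum_congr fun i => ?_
    rw [ENNReal.tsum_prod']
    refine tsum_congr fun z => ?_
    rw [tsum_eq_single ((T + i : ℕ) : ℤ)]
    · by_cases hi : i0 < i
      · simp [hi]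
      · simp [hi]
    · intro k hk
      simp only [if_neg hk, ite_self]
  · refine le_trans (le_of_eq ?_) hq
    refine tsum_congr fun i => ?_
    rw [ENNReal.tsum_prod']
    refine tsum_congr fun z => ?_
    rw [tsum_eq_single ((T + i : ℕ) : ℤ)]
    · simp
    · intro k hk
      simp only [if_neg hk, ite_self]

lemma att_sum (h1 : ∀ b, 1 ≤ ht b) (hΛ : ∑' b, Λ b = 1) (T : ℕ) :
    ∑' x : ℕ × G, att Λ ht dz T x.1 x.2 = 1 := by
  rw [ENNReal.tsum_prod', ← EF_one Λ ht h1 hΛ T]
  have := EF_law Λ ht dz T (fun _ _ => 1)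
  rw [this]
  simp

end Crest.Agent.R154.Asm650
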