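import Mathlib

/-! Row 154 (helper334), ROAD 801: the choice of the parameters in the assembly. -/

set_option autoImplicit false

namespace Crest.Agent.R154.Num334

open scoped ENNReal Topology
open Filter

/-- a constant times a null sequence gets small -/
lemma small_mul {f : ℕ → ℝ≥0∞} (hf : Tendsto f atTop (𝓝 0)) {c : ℝ≥0∞} (hc : c ≠ ⊤)
    {δ : ℝ≥0∞} (hδ : δ ≠ 0) : ∀ᶠ n in atTop, c * f n ≤ δ := by
  have h : Tendsto (fun n => c * f n) atTop (𝓝 (c * 0)) :=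
    ENNReal.Tendsto.const_mul hf (Or.inr hc)
  rw [mul_zero] at h
  exact h.eventually (ge_mem_nhds (pos_iff_ne_zero.2 hδ))

/-- a constant times a small constant -/
lemma small_const {c : ℝ≥0∞} (hc : c ≠ ⊤) {δ : ℝ≥0∞} (hδ : δ ≠ 0) (hδ' : δ ≠ ⊤) :
    ∃ x : ℝ≥0∞, x ≠ 0 ∧ x ≠ ⊤ ∧ c * x ≤ δ := by
  refine ⟨δ / (c + 1), ?_, ?_, ?_⟩
  · rw [Ne, ENNReal.div_eq_zero_iff, not_or]
    exact ⟨hδ, ENNReal.add_ne_top.2 ⟨hc, ENNReal.one_ne_top⟩⟩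
  · exact ENNReal.div_ne_top hδ' (by simp)
  · calc c * (δ / (c + 1)) ≤ (c + 1) * (δ / (c + 1)) := by gcongr; exact le_self_add
      _ = δ := ENNReal.mul_div_cancel (by simp) (ENNReal.add_ne_top.2 ⟨hc, ENNReal.one_ne_top⟩)

lemma real_lim : Tendsto (fun N : ℕ => (32 * (N : ℝ) ^ 3 + 8) *
    (((N : ℝ) ^ 2)⁻¹ ^ 2 + 2 * Real.exp (-(N : ℝ)))) atTop (𝓝 0) := by
  have h1 : Tendsto (fun N : ℕ => (N : ℝ)) atTop atTop := tendsto_natCast_atTop_atTop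
  have e3 : Tendsto (fun N : ℕ => (N : ℝ) ^ 3 * Real.exp (-(N : ℝ))) atTop (𝓝 0) :=
    (Real.tendsto_pow_mul_exp_neg_atTop_nhds_zero 3).comp h1
  have e0 : Tendsto (fun N : ℕ => (N : ℝ) ^ 0 * Real.exp (-(N : ℝ))) atTop (𝓝 0) :=
    (Real.tendsto_pow_mul_exp_neg_atTop_nhds_zero 0).comp h1
  have i1 : Tendsto (fun N : ℕ => ((N : ℝ))⁻¹) atTop (𝓝 0) := tendsto_inv_atTop_zero.comp h1
  have i4 : Tendsto (fun N : ℕ => (((N : ℝ) ^ 2)⁻¹ ^ 2)) atTop (𝓝 0) := by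
    have := i1.pow 4
    rw [zero_pow (by norm_num)] at this
    refine this.congr fun N => ?_
    rw [← inv_pow, ← pow_mul]
  have h := (((i1.const_mul 32).add (i4.const_mul 8)).add (e3.const_mul 64)).add (e0.const_mul 16)
  simp only [mul_zero, add_zero] at h
  refine (h.congr' ?_)
  filter_upwards [eventually_ge_atTop 1] with N hN
  have hN' : (N : ℝ) ≠ 0 := by positivity
  field_simp
  ring

lemma pow_le_exp (N : ℕ) (hN : 1 ≤ N) :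
    (1 - ((N : ℝ≥0∞) ^ 2)⁻¹) ^ (N ^ 3) ≤ ENNReal.ofReal (Real.exp (-(N : ℝ))) := by
  have hN' : (0 : ℝ) < N := by exact_mod_cast hN
  have e : (1 - ((N : ℝ≥0∞) ^ 2)⁻¹) = ENNReal.ofReal (1 - ((N : ℝ) ^ 2)⁻¹) := by
    rw [ENNReal.ofReal_sub _ (by positivity), ENNReal.ofReal_one,
      ENNReal.ofReal_inv_of_pos (by positivity), ENNReal.ofReal_pow hN'.le, ENNReal.ofReal_natCast]
  have h1 : ((N : ℝ) ^ 2)⁻¹ ≤ 1 := by
    apply inv_le_one_of_one_le₀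
    have : (1 : ℝ) ≤ N := by exact_mod_cast hN
    nlinarith
  rw [e, ← ENNReal.ofReal_pow (by linarith)]
  apply ENNReal.ofReal_le_ofReal
  have h2 : 1 - ((N : ℝ) ^ 2)⁻¹ ≤ Real.exp (-((N : ℝ) ^ 2)⁻¹) := by
    have := Real.add_one_le_exp (-((N : ℝ) ^ 2)⁻¹)
    linarith
  calc (1 - ((N : ℝ) ^ 2)⁻¹) ^ (N ^ 3) ≤ (Real.exp (-((N : ℝ) ^ 2)⁻¹)) ^ (N ^ 3) :=
        pow_le_pow_left₀ (by linarith) h2 _
    _ = Real.exp (-(N : ℝ)) := by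
        rw [← Real.exp_nat_mul]
        congr 1
        push_cast
        field_simp

/-- choice of `K = 8 N^3`, `u = 1 / N^2` -/
lemma choose_K {δ : ℝ≥0∞} (hδ : δ ≠ 0) : ∃ N : ℕ, 1 ≤ N ∧
    (32 * (N : ℝ≥0∞) ^ 3 + 8) * ((((N : ℝ≥0∞) ^ 2)⁻¹) ^ 2
      + 2 * (1 - ((N : ℝ≥0∞) ^ 2)⁻¹) ^ (N ^ 3)) ≤ δ := by
  have h : Tendsto (fun N : ℕ => ENNReal.ofReal ((32 * (N : ℝ) ^ 3 + 8) *
      (((N : ℝ) ^ 2)⁻¹ ^ 2 + 2 * Real.exp (-(N : ℝ))))) atTop (𝓝 0) := by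
    have := ENNReal.tendsto_ofReal real_lim
    rwa [ENNReal.ofReal_zero] at this
  obtain ⟨N, hN1, hN⟩ := ((eventually_ge_atTop 1).and
    (h.eventually (ge_mem_nhds (pos_iff_ne_zero.2 hδ)))).exists
  refine ⟨N, hN1, le_trans ?_ hN⟩
  have hN' : (0 : ℝ) < N := by exact_mod_cast hN1
  rw [ENNReal.ofReal_mul (by positivity), ENNReal.ofReal_add (by positivity) (by positivity),
    ENNReal.ofReal_mul (by norm_num), ENNReal.ofReal_pow hN'.le, ENNReal.ofReal_natCast,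
    ENNReal.ofReal_add (by positivity) (by positivity), ENNReal.ofReal_mul (by norm_num),
    ENNReal.ofReal_pow (by positivity), ENNReal.ofReal_inv_of_pos (by positivity),
    ENNReal.ofReal_pow hN'.le, ENNReal.ofReal_natCast]
  have e32 : ENNReal.ofReal 32 = 32 := by simp
  have e8 : ENNReal.ofReal 8 = 8 := by simp
  have e2 : ENNReal.ofReal 2 = 2 := by simp
  rw [e32, e8, e2]
  gcongr
  exact pow_le_exp N hN1

/-- **the parameters of ROAD 801** in the order `ε | K, u | i0 | η, lam | s` -/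
theorem num {C : ℝ≥0∞} (hC : C ≠ ⊤) {us ov : ℕ → ℝ≥0∞} (hus : Tendsto us atTop (𝓝 0))
    (hov : Tendsto ov atTop (𝓝 0)) {ε : ℝ≥0∞} (hε : ε ≠ 0) :
    ∃ K : ℕ, 8 ≤ K ∧ ∃ u : ℝ≥0∞, u ≠ 0 ∧ u ≤ 1 ∧ ∃ i0 : ℕ, ∃ lam η : ℝ≥0∞, lam ≠ 0 ∧ lam ≠ ⊤ ∧
      η ≠ 0 ∧ ∃ s : ℕ,
      (4 * (K : ℝ≥0∞) + 8) * (4 * ov i0 + 4 * η + u ^ 2
        + 2 * ((1 - u) ^ (K / 8) + K * ov i0 / u)
        + 2 * ((i0 : ℝ≥0∞) + 1) ^ 4 * (C * (lam + (K * ((i0 : ℝ≥0∞) + 1) / u) * us s / lam + us s)))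
        ≤ ε := by
  -- work with a finite `ε`
  obtain ⟨δ, hδ0, hδt, hδε⟩ : ∃ δ : ℝ≥0∞, δ ≠ 0 ∧ δ ≠ ⊤ ∧ 6 * δ ≤ ε := by
    rcases eq_or_ne ε ⊤ with rfl | h
    · exact ⟨1, one_ne_zero, ENNReal.one_ne_top, le_top⟩
    · refine ⟨ε / 6, ?_, ENNReal.div_ne_top h (by norm_num), ?_⟩
      · rw [Ne, ENNReal.div_eq_zero_iff, not_or]; exact ⟨hε, by norm_num⟩
      · rw [ENNReal.mul_div_cancel (by norm_num) (by norm_num)]
  obtain ⟨N, hN1, hN⟩ := choose_K hδ0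
  set K : ℕ := 8 * N ^ 3 with hK
  set u : ℝ≥0∞ := ((N : ℝ≥0∞) ^ 2)⁻¹ with hu
  have hN0 : (N : ℝ≥0∞) ≠ 0 := by
    simp only [ne_eq, Nat.cast_eq_zero]; omega
  have hu0 : u ≠ 0 := by
    rw [hu, Ne, ENNReal.inv_eq_zero]
    exact ENNReal.pow_ne_top (ENNReal.natCast_ne_top N)
  have hu1 : u ≤ 1 := by
    rw [hu, ENNReal.inv_le_one]
    exact one_le_pow₀ (by exact_mod_cast hN1)
  have hut : u ≠ ⊤ := ne_top_of_le_ne_top ENNReal.one_ne_top hu1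
  have hK8 : K / 8 = N ^ 3 := by rw [hK]; omega
  have hKc : 4 * (K : ℝ≥0∞) + 8 = 32 * (N : ℝ≥0∞) ^ 3 + 8 := by
    rw [hK]; push_cast; ring
  set c : ℝ≥0∞ := 4 * (K : ℝ≥0∞) + 8 with hc
  have hct : c ≠ ⊤ := by
    rw [hc]
    exact ENNReal.add_ne_top.2 ⟨ENNReal.mul_ne_top (by norm_num) (ENNReal.natCast_ne_top _),
      by norm_num⟩
  have hKt : (K : ℝ≥0∞) ≠ ⊤ := ENNReal.natCast_ne_top _
  -- `i0`
  have hct1 : c * (4 + 2 * (K / u)) ≠ ⊤ :=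
    ENNReal.mul_ne_top hct (ENNReal.add_ne_top.2 ⟨by norm_num,
      ENNReal.mul_ne_top (by norm_num) (ENNReal.div_ne_top hKt hu0)⟩)
  obtain ⟨i0, hi0⟩ := (small_mul hov hct1 hδ0).exists
  -- `η`
  obtain ⟨η, hη0, -, hη⟩ := small_const (c := c * 4) (ENNReal.mul_ne_top hct (by norm_num)) hδ0 hδt
  -- `lam`
  set D : ℝ≥0∞ := c * (2 * ((i0 : ℝ≥0∞) + 1) ^ 4 * C) with hD
  have hi : ((i0 : ℝ≥0∞) + 1) ≠ ⊤ :=
    ENNReal.add_ne_top.2 ⟨ENNReal.natCast_ne_top _, ENNReal.one_ne_top⟩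
  have hDt : D ≠ ⊤ := ENNReal.mul_ne_top hct
    (ENNReal.mul_ne_top (ENNReal.mul_ne_top (by norm_num) (ENNReal.pow_ne_top hi)) hC)
  obtain ⟨lam, hl0, hlt, hl⟩ := small_const hDt hδ0 hδt
  -- `s`
  set F : ℝ≥0∞ := D * ((K * ((i0 : ℝ≥0∞) + 1) / u) / lam + 1) with hF
  have hFt : F ≠ ⊤ := by
    refine ENNReal.mul_ne_top hDt (ENNReal.add_ne_top.2 ⟨ENNReal.div_ne_top
      (ENNReal.div_ne_top (ENNReal.mul_ne_top hKt hi) hu0) hl0, ENNReal.one_ne_top⟩)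
  obtain ⟨s, hs⟩ := (small_mul hus hFt hδ0).exists
  refine ⟨K, ?_, u, hu0, hu1, i0, lam, η, hl0, hlt, hη0, s, ?_⟩
  · rw [hK]
    have : 1 ≤ N ^ 3 := Nat.one_le_pow _ _ hN1
    omega
  rw [hK8]
  have e : c * (4 * ov i0 + 4 * η + u ^ 2 + 2 * ((1 - u) ^ (N ^ 3) + K * ov i0 / u)
        + 2 * ((i0 : ℝ≥0∞) + 1) ^ 4 * (C * (lam + (K * ((i0 : ℝ≥0∞) + 1) / u) * us s / lam + us s)))
      = c * (u ^ 2 + 2 * (1 - u) ^ (N ^ 3)) + c * (4 + 2 * (K / u)) * ov i0 + c * 4 * η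
        + D * lam + F * us s := by
    rw [hF, hD]
    simp only [div_eq_mul_inv]
    ring
  rw [e]
  calc _ ≤ δ + δ + δ + δ + δ := by
        gcongr
        rw [hKc]; exact hN
    _ ≤ 6 * δ := by
        have : δ + δ + δ + δ + δ = 5 * δ := by ring
        rw [this]
        gcongr
        norm_num
    _ ≤ ε := hδε

end Crest.Agent.R154.Num334
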