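import Crest.Agent.R154.AsmA_667
import Crest.Agent.R154.NumAsm_334

/-! Row 154, ROAD 801 (helper667): abstract assembly, window. -/

set_option autoImplicit false

namespace Crest.Agent.R154.AsmR667

open scoped ENNReal Classical Topology
open Filter
open Crest.Agent.R154.B5A (LW HT LW_nil LW_cons LW_append HT_nil HT_cons HT_append tsum_list U tail)

section one

variable {B : Type*} (Λ : B → ℝ≥0∞) (ht : B → ℕ)

/-- two cuts of one walker -/
lemma cut2 (h1 : ∀ b, 1 ≤ ht b) (hΛ : ∑' b, Λ b = 1) (n ℓ T i0 : ℕ) (hn : ℓ + i0 + T ≤ n)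
    (Φ : List B → ℝ≥0∞) (hΦ : ∀ L, Φ L ≤ 1) (g : List B → List B → ℝ≥0∞)
    (hg : ∀ A P R, FP ht ℓ A → HT ht A ≤ ℓ + i0 → FP ht T P → HT ht P ≤ T + i0 →
      Φ (A ++ (P ++ R)) ≤ g A P) :
    EB Λ ht 0 n Φ ≤ 2 * rho Λ ht i0 + EA Λ ht ℓ (fun A => (if HT ht A ≤ ℓ + i0 then 1 else 0) *
      EA Λ ht T (fun P => (if HT ht P ≤ T + i0 then 1 else 0) * g A P)) := by
  refine (EB_split Λ ht h1 ℓ 0 n (by omega) Φ).trans ?_
  simp only [zero_add]
  have key : ∀ A, FP ht ℓ A → EB Λ ht (HT ht A) n (fun L => Φ (A ++ L)) ≤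
      (if ℓ + i0 < HT ht A then 1 else 0) + (rho Λ ht i0 +
        (if HT ht A ≤ ℓ + i0 then 1 else 0) *
        EA Λ ht T (fun P => (if HT ht P ≤ T + i0 then 1 else 0) * g A P)) := by
    intro A hA
    by_cases hnear : HT ht A ≤ ℓ + i0
    · rw [if_neg (by omega), if_pos hnear, one_mul, zero_add]
      refine (EB_split Λ ht h1 T (HT ht A) n (by omega) _).trans ?_
      have key2 : ∀ P, FP ht T P → EB Λ ht (HT ht A + HT ht P) n
          (fun L => Φ (A ++ (P ++ L))) ≤ (if T + i0 < HT ht P then 1 else 0)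
            + (if HT ht P ≤ T + i0 then 1 else 0) * g A P := by
        intro P hP
        by_cases hP' : HT ht P ≤ T + i0
        · rw [if_neg (by omega), if_pos hP', one_mul, zero_add]
          exact EB_le Λ ht h1 hΛ _ _ _ fun R _ => hg A P R hA hnear hP hP'
        · rw [if_pos (by omega), if_neg hP', zero_mul, add_zero]
          exact EB_le Λ ht h1 hΛ _ _ _ fun R _ => hΦ _
      refine (EA_mono Λ ht T key2).trans ?_
      rw [EA_add]
      exact add_le_add (over_le' Λ ht h1 hΛ i0 T) le_rfl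
    · rw [if_pos (by omega), if_neg hnear, zero_mul, add_zero]
      refine le_trans ?_ (le_add_right le_rfl)
      exact EB_le Λ ht h1 hΛ _ _ _ fun R _ => hΦ _
  refine (EA_mono Λ ht ℓ key).trans ?_
  rw [EA_add, EA_add, EA_const Λ ht h1 hΛ]
  calc _ ≤ rho Λ ht i0 + (rho Λ ht i0 + _) := add_le_add (over_le' Λ ht h1 hΛ i0 ℓ) le_rfl
    _ = _ := by rw [← add_assoc, two_mul]

end one

lemma EA_comm {B B' : Type*} (Λ : B → ℝ≥0∞) (ht : B → ℕ) (Λ' : B' → ℝ≥0∞) (ht' : B' → ℕ)
    (T T' : ℕ) (f : List B → List B' → ℝ≥0∞) :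
    EA Λ ht T (fun P => EA Λ' ht' T' (fun A => f P A))
      = EA Λ' ht' T' (fun A => EA Λ ht T (fun P => f P A)) := by
  have e1 : EA Λ ht T (fun P => EA Λ' ht' T' (fun A => f P A))
      = ∑' P, ∑' A, if FP ht T P ∧ FP ht' T' A then LW Λ P * (LW Λ' A * f P A) else 0 := by
    rw [EA]
    refine tsum_congr fun P => ?_
    by_cases hP : FP ht T P
    · rw [if_pos hP, EA, ← ENNReal.tsum_mul_left]
      refine tsum_congr fun A => ?_
      by_cases hA : FP ht' T' A
      · rw [if_pos hA, if_pos ⟨hP, hA⟩]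
      · rw [if_neg hA, if_neg (fun h => hA h.2), mul_zero]
    · rw [if_neg hP]
      symm
      refine ENNReal.tsum_eq_zero.2 fun A => ?_
      rw [if_neg (fun h => hP h.1)]
  have e2 : EA Λ' ht' T' (fun A => EA Λ ht T (fun P => f P A))
      = ∑' A, ∑' P, if FP ht T P ∧ FP ht' T' A then LW Λ P * (LW Λ' A * f P A) else 0 := by
    rw [EA]
    refine tsum_congr fun A => ?_
    by_cases hA : FP ht' T' A
    · rw [if_pos hA, EA, ← ENNReal.tsum_mul_left]
      refine tsum_congr fun P => ?_
      by_cases hP : FP ht T P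
      · rw [if_pos hP, if_pos ⟨hP, hA⟩]; ring
      · rw [if_neg hP, if_neg (fun h => hP h.1), mul_zero]
    · rw [if_neg hA]
      symm
      refine ENNReal.tsum_eq_zero.2 fun P => ?_
      rw [if_neg (fun h => hA h.2)]
  rw [e1, e2, ENNReal.tsum_comm]

/-! ### traces -/

section trace

variable {B G : Type*} [AddCommGroup G]

/-- trace of a list of blocks placed at `(x, a)` -/
def TT (s : B → Set (G × ℕ)) (h : B → ℕ) (z : B → G) : List B → G → ℕ → Set (G × ℕ)
  | [], _, _ => ∅
  | b :: L, x, a => {p | ∃ q ∈ s b, p = (x + q.1, a + q.2)} ∪ TT s h z L (x + z b) (a + h b)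

variable (s : B → Set (G × ℕ)) (h : B → ℕ) (z : B → G)

lemma TT_append (L L' : List B) (x : G) (a : ℕ) :
    TT s h z (L ++ L') x a = TT s h z L x a ∪ TT s h z L' (x + Dp z L) (a + HT h L) := by
  induction L generalizing x a with
  | nil => simp [TT, Dp_nil, HT_nil]
  | cons b L ih =>
    rw [List.cons_append, TT, ih, TT, Dp_cons, HT_cons, Set.union_assoc, add_assoc, add_assoc]

lemma TT_depth (hs : ∀ b, ∀ q ∈ s b, 1 ≤ q.2 ∧ q.2 ≤ h b) (L : List B) (x : G) (a : ℕ)
    (p : G × ℕ) (hp : p ∈ TT s h z L x a) : a < p.2 ∧ p.2 ≤ a + HT h L := by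
  induction L generalizing x a with
  | nil => simp [TT] at hp
  | cons b L ih =>
    rw [HT_cons]
    rcases hp with ⟨q, hq, rfl⟩ | hp
    · have := hs b q hq; simp only; omega
    · have := ih _ _ hp; omega

lemma TT_shift (L : List B) (x v : G) (a : ℕ) (y : G) (k : ℕ) :
    (y, k) ∈ TT s h z L (x + v) a ↔ (y - v, k) ∈ TT s h z L x a := by
  induction L generalizing x a with
  | nil => simp [TT]
  | cons b L ih =>
    simp only [TT, Set.mem_union, Set.mem_setOf_eq, Prod.mk.injEq]
    rw [add_right_comm, ih]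
    refine or_congr (exists_congr fun q => and_congr_right fun _ => and_congr_left fun _ => ?_)
      Iff.rfl
    constructor
    · rintro rfl; abel
    · intro e; rw [← sub_eq_zero] at e ⊢; rw [← e]; abel

end trace

/-! ### mixing over the tops -/

lemma mix {G : Type*} [AddCommGroup G] (f g Ag Bb : ℕ → G → ℝ≥0∞)
    (hf : ∀ i y, f i y ≤ Ag i y + Bb i y) (M : ℝ≥0∞) (hAg : ∀ i y, Ag i y ≤ M)
    (hf1 : ∀ i, ∑' y, f i y ≤ 1) (hg1 : ∑' i, ∑' y, g i y ≤ 1) (i0 : ℕ) (w : G)
    (Ψ : ℕ → ℕ → G → ℝ≥0∞) (hΨ : ∀ i i' x, Ψ i i' x ≤ 1) (Q : ℝ≥0∞)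
    (hQ : ∀ i i', i ≤ i0 → i' ≤ i0 → ∀ μ : G → ℝ≥0∞, ∑' x, μ x ≤ 1 → (∀ x, μ x ≤ M) →
      ∑' x, μ x * Ψ i i' x ≤ Q) :
    ∑' i, ∑' y, f i y * ((if i ≤ i0 then 1 else 0) * ∑' i', ∑' y', g i' y' *
      ((if i' ≤ i0 then 1 else 0) * Ψ i i' (w + y' - y)))
      ≤ (∑' i, ∑' y, Bb i y) + (i0 + 1) ^ 2 * Q := by
  set Am : ℕ → G → ℝ≥0∞ := fun i y => min (f i y) (Ag i y) with hAm
  have hsplit : ∀ i y, f i y ≤ Bb i y + Am i y := by
    intro i y
    rcases le_total (f i y) (Ag i y) with h | h
    · simp only [hAm, min_eq_left h]; exact le_add_self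
    · simp only [hAm, min_eq_right h]; rw [add_comm]; exact hf i y
  have hφ : ∀ i y, ((if i ≤ i0 then (1 : ℝ≥0∞) else 0) * ∑' i', ∑' y', g i' y' *
      ((if i' ≤ i0 then 1 else 0) * Ψ i i' (w + y' - y))) ≤ 1 := by
    intro i y
    have h1 : (∑' i', ∑' y', g i' y' * ((if i' ≤ i0 then 1 else 0) * Ψ i i' (w + y' - y))) ≤ 1 := by
      refine le_trans ?_ hg1
      refine ENNReal.tsum_le_tsum fun i' => ENNReal.tsum_le_tsum fun y' => ?_
      calc _ ≤ g i' y' * (1 * 1) := by
            gcongr
            · split_ifs <;> simp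
            · exact hΨ _ _ _
        _ = _ := by simp
    calc _ ≤ (1 : ℝ≥0∞) * 1 := by
          gcongr
          split_ifs <;> simp
      _ = 1 := one_mul 1
  calc _ ≤ ∑' i, ∑' y, (Bb i y + Am i y * ((if i ≤ i0 then 1 else 0) * ∑' i', ∑' y', g i' y' *
      ((if i' ≤ i0 then 1 else 0) * Ψ i i' (w + y' - y)))) := by
        refine ENNReal.tsum_le_tsum fun i => ENNReal.tsum_le_tsum fun y => ?_
        calc _ ≤ (Bb i y + Am i y) * _ := mul_le_mul_left (hsplit i y) _
          _ = Bb i y * _ + Am i y * _ := add_mul _ _ _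
          _ ≤ Bb i y * 1 + Am i y * _ := by
              gcongr
              exact hφ i y
          _ = _ := by rw [mul_one]
    _ = (∑' i, ∑' y, Bb i y) + ∑' i, ∑' y, Am i y * ((if i ≤ i0 then 1 else 0) *
        ∑' i', ∑' y', g i' y' * ((if i' ≤ i0 then 1 else 0) * Ψ i i' (w + y' - y))) := by
        simp only [ENNReal.tsum_add]
    _ ≤ _ := by
        refine add_le_add le_rfl ?_
        have e : ∀ i, (∑' y, Am i y * ((if i ≤ i0 then 1 else 0) *
            ∑' i', ∑' y', g i' y' * ((if i' ≤ i0 then 1 else 0) * Ψ i i' (w + y' - y))))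
            = if i ≤ i0 then (∑' i', if i' ≤ i0 then
              (∑' x, (∑' y', g i' y' * Am i (w + y' - x)) * Ψ i i' x) else 0) else 0 := by
          intro i
          by_cases hi : i ≤ i0
          · simp only [if_pos hi, one_mul]
            simp_rw [← ENNReal.tsum_mul_left]
            rw [ENNReal.tsum_comm]
            refine tsum_congr fun i' => ?_
            by_cases hi' : i' ≤ i0
            · simp only [if_pos hi', one_mul]
              rw [ENNReal.tsum_comm]
              simp_rw [← ENNReal.tsum_mul_right]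
              rw [ENNReal.tsum_comm (f := fun x y' => g i' y' * Am i (w + y' - x) * Ψ i i' x)]
              refine tsum_congr fun y' => ?_
              rw [← shift_sum' (fun y => Am i y * (g i' y' * Ψ i i' (w + y' - y))) (w + y')]
              refine tsum_congr fun x => ?_
              rw [sub_sub_cancel]; ring
            · simp only [if_neg hi', zero_mul, mul_zero, tsum_zero]
          · simp only [if_neg hi, zero_mul, mul_zero, tsum_zero]
        simp_rw [e]
        have hterm : ∀ i i', i ≤ i0 → i' ≤ i0 →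
            (∑' x, (∑' y', g i' y' * Am i (w + y' - x)) * Ψ i i' x) ≤ Q := by
          intro i i' hi hi'
          have hgi : ∑' y', g i' y' ≤ 1 := (ENNReal.le_tsum i').trans hg1
          refine hQ i i' hi hi' _ ?_ ?_
          · rw [ENNReal.tsum_comm]
            calc _ = ∑' y', g i' y' * ∑' x, Am i x := by
                  refine tsum_congr fun y' => ?_
                  rw [ENNReal.tsum_mul_left, shift_sum' (fun x => Am i x) (w + y')]
              _ ≤ ∑' y', g i' y' * 1 := by
                  refine ENNReal.tsum_le_tsum fun y' => mul_le_mul_right ?_ _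
                  exact (ENNReal.tsum_le_tsum fun x => min_le_left _ _).trans (hf1 i)
              _ ≤ 1 := by simpa using hgi
          · intro x
            calc _ ≤ ∑' y', g i' y' * M := ENNReal.tsum_le_tsum fun y' =>
                  mul_le_mul_right ((min_le_right _ _).trans (hAg _ _)) _
              _ = (∑' y', g i' y') * M := ENNReal.tsum_mul_right
              _ ≤ 1 * M := mul_le_mul_left hgi _
              _ = M := one_mul M
        have hfin : ∀ q : ℝ≥0∞, (∑' i' : ℕ, if i' ≤ i0 then q else 0) = (i0 + 1) * q := by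
          intro q
          rw [tsum_eq_sum (s := Finset.range (i0 + 1))]
          · rw [Finset.sum_congr rfl (fun i' hi' => if_pos
              (by have := Finset.mem_range.1 hi'; omega : i' ≤ i0))]
            simp
          · intro i' hi'
            rw [if_neg (by rw [Finset.mem_range] at hi'; omega)]
        calc _ ≤ ∑' i : ℕ, (if i ≤ i0 then (∑' i' : ℕ, if i' ≤ i0 then Q else 0) else 0) := by
              refine ENNReal.tsum_le_tsum fun i => ?_
              by_cases hi : i ≤ i0
              · rw [if_pos hi, if_pos hi]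
                refine ENNReal.tsum_le_tsum fun i' => ?_
                by_cases hi' : i' ≤ i0
                · rw [if_pos hi', if_pos hi']; exact hterm i i' hi hi'
                · rw [if_neg hi', if_neg hi']
              · rw [if_neg hi, if_neg hi]
          _ = (i0 + 1) * ((i0 + 1) * Q) := by rw [hfin, hfin]
          _ = _ := by ring

end Crest.Agent.R154.AsmR667
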