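import Crest.Agent.R154.AsmA_738
import Crest.Agent.R154.Dens_616

/-! Row 154, ROAD 801: the abstract assembly, part 2 (helper738): laws of first passages, density. -/

set_option autoImplicit false

open scoped ENNReal
open Crest.Agent.R154.B5A (LW HT LW_nil LW_cons LW_append HT_nil HT_cons HT_append tsum_list U)

namespace Crest.Agent.R154.Asm738

variable {B Z : Type*} [AddCommGroup Z]

open Classical in
/-- law of the first passage at height `a` -/
noncomputable def fl (Λ : B → ℝ≥0∞) (h : B → ℕ) (zz : B → Z) (a : ℕ) (ζ : Z) : ℝ≥0∞ :=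
  ∑' A, if FP h A a ∧ Dp zz A = ζ then LW Λ A else 0

open Classical in
lemma push (Λ : B → ℝ≥0∞) (h : B → ℕ) (zz : B → Z) (a : ℕ) (F : Z → ℝ≥0∞) :
    ∑' A, (if FP h A a then LW Λ A * F (Dp zz A) else 0) = ∑' ζ, fl Λ h zz a ζ * F ζ := by
  simp only [fl]
  simp_rw [← ENNReal.tsum_mul_right]
  rw [ENNReal.tsum_comm]
  refine tsum_congr fun A => ?_
  rw [tsum_eq_single (Dp zz A)]
  · by_cases hA : FP h A a
    · rw [if_pos hA, if_pos ⟨hA, rfl⟩]
    · rw [if_neg hA, if_neg (fun hh => hA hh.1), zero_mul]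
  · intro ζ hζ
    rw [if_neg (fun hh => hζ hh.2.symm), zero_mul]

lemma sum_fl (Λ : B → ℝ≥0∞) (h : B → ℕ) (h1 : ∀ b, 1 ≤ h b) (hΛ : ∑' b, Λ b = 1) (zz : B → Z)
    (a : ℕ) : ∑' ζ, fl Λ h zz a ζ = 1 := by
  have h2 := push Λ h zz a (fun _ => 1)
  simp only [mul_one] at h2
  rw [← h2, sum_FP Λ h h1 hΛ]

open Classical in
lemma fl_rec (Λ : B → ℝ≥0∞) (h : B → ℕ) (zz : B → Z) (η : Z → ℕ) (hη : ∀ L, η (Dp zz L) = HT h L)
    (T a : ℕ) (hT : T ≤ a) (ζ : Z) :
    fl Λ h zz a ζ ≤ ∑' ζ', fl Λ h zz T ζ' * fl Λ h zz (a - η ζ') (ζ - ζ') := by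
  rw [← push Λ h zz T (fun ζ' => fl Λ h zz (a - η ζ') (ζ - ζ'))]
  calc fl Λ h zz a ζ
      ≤ ∑' A, (if ∃ t : List B × List B, t.1 ++ t.2 = A ∧
          (FP h t.1 T ∧ FP h t.2 (a - HT h t.1) ∧ Dp zz t.2 = ζ - Dp zz t.1)
          then LW Λ A else 0) := by
        refine ENNReal.tsum_le_tsum fun A => ?_
        by_cases hA : FP h A a ∧ Dp zz A = ζ
        · obtain ⟨P, A', e, hP, hA'⟩ := FP_mid h A a T hT hA.1
          rw [if_pos hA, if_pos ⟨(P, A'), e.symm, hP, hA', by
            rw [← hA.2, e, Dp_append]; abel⟩]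
        · rw [if_neg hA]; exact zero_le
    _ ≤ ∑' t : List B × List B, (if (FP h t.1 T ∧ FP h t.2 (a - HT h t.1)
          ∧ Dp zz t.2 = ζ - Dp zz t.1) then LW Λ (t.1 ++ t.2) else 0) :=
        tsum_exists_le (fun t : List B × List B => t.1 ++ t.2)
          (fun t => FP h t.1 T ∧ FP h t.2 (a - HT h t.1) ∧ Dp zz t.2 = ζ - Dp zz t.1) _
    _ = _ := by
        rw [ENNReal.tsum_prod']
        refine tsum_congr fun P => ?_
        by_cases hP : FP h P T
        · rw [if_pos hP, hη, fl, ← ENNReal.tsum_mul_left]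
          refine tsum_congr fun A => ?_
          simp only [hP, true_and]
          by_cases hA : FP h A (a - HT h P) ∧ Dp zz A = ζ - Dp zz P
          · rw [if_pos hA, if_pos hA, LW_append]
          · rw [if_neg hA, if_neg hA, mul_zero]
        · simp [hP]

open Classical in
/-- **density lemma** for first passages -/
lemma dens (π : Z → ℝ≥0∞) (f : ℕ → Z → ℝ≥0∞) (η : Z → ℕ) (T i0 : ℕ) (th q ε Gd : ℝ≥0∞)
    (hrec : ∀ a, T ≤ a → ∀ ζ, f a ζ ≤ ∑' ζ', π ζ' * f (a - η ζ') (ζ - ζ'))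
    (hf : ∀ a, ∑' ζ, f a ζ ≤ 1) (hπ : ∀ ζ, π ζ ≠ 0 → T ≤ η ζ)
    (hε : ∑' ζ, (if T + i0 < η ζ then π ζ else 0) ≤ ε)
    (hq : ∑' ζ, (if th < π ζ then π ζ else 0) ≤ q) (hq1 : q ≤ 1)
    (hG : ((i0 + 1 : ℕ) : ℝ≥0∞) * th + q * Gd ≤ Gd) (J : ℕ) :
    ∀ a, J * (T + i0) ≤ a → ∃ b : Z → ℝ≥0∞, ∑' ζ, b ζ ≤ q ^ J + J * ε ∧
      ∀ ζ, f a ζ ≤ Gd + b ζ := by
  induction J with
  | zero =>
    intro a _
    refine ⟨f a, ?_, fun ζ => le_add_self⟩
    simpa using hf a
  | succ J ih =>
    intro a ha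
    have ha' : J * (T + i0) + (T + i0) ≤ a := by
      have : (J + 1) * (T + i0) = J * (T + i0) + (T + i0) := by ring
      omega
    have ih' : ∀ r, ∃ b : Z → ℝ≥0∞, r ≤ T + i0 → (∑' ζ, b ζ ≤ q ^ J + J * ε ∧
        ∀ ζ, f (a - r) ζ ≤ Gd + b ζ) := by
      intro r
      by_cases hr : r ≤ T + i0
      · obtain ⟨b, hb⟩ := ih (a - r) (by omega)
        exact ⟨b, fun _ => hb⟩
      · exact ⟨0, fun hh => absurd hh hr⟩
    choose b' hb' using ih'
    have shift : ∀ (g : Z → ℝ≥0∞) (ζ' : Z), ∑' ζ, g (ζ - ζ') = ∑' ζ, g ζ :=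
      fun g ζ' => (Equiv.subRight ζ').tsum_eq g
    refine ⟨fun ζ => (∑' ζ', if T + i0 < η ζ' then π ζ' * f (a - η ζ') (ζ - ζ') else 0)
      + ∑' ζ', (if η ζ' ≤ T + i0 ∧ th < π ζ' then π ζ' * b' (η ζ') (ζ - ζ') else 0), ?_, ?_⟩
    · rw [ENNReal.tsum_add]
      have e1 : (∑' ζ, ∑' ζ', if T + i0 < η ζ' then π ζ' * f (a - η ζ') (ζ - ζ') else 0) ≤ ε := by
        rw [ENNReal.tsum_comm]
        refine le_trans (ENNReal.tsum_le_tsum fun ζ' => ?_) hε
        by_cases hh : T + i0 < η ζ'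
        · simp only [hh, if_true]
          rw [ENNReal.tsum_mul_left, shift]
          exact (mul_le_mul_right (hf _) _).trans (mul_one _).le
        · simp [hh]
      have e2 : (∑' ζ, ∑' ζ', if η ζ' ≤ T + i0 ∧ th < π ζ' then π ζ' * b' (η ζ') (ζ - ζ') else 0)
          ≤ q * (q ^ J + J * ε) := by
        rw [ENNReal.tsum_comm]
        calc _ ≤ ∑' ζ', (if th < π ζ' then π ζ' else 0) * (q ^ J + J * ε) := by
              refine ENNReal.tsum_le_tsum fun ζ' => ?_
              by_cases hh : η ζ' ≤ T + i0 ∧ th < π ζ'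
              · simp only [hh, and_self, if_true]
                rw [ENNReal.tsum_mul_left, shift]
                exact mul_le_mul_right (hb' _ hh.1).1 _
              · simp [hh]
          _ ≤ _ := by
              rw [ENNReal.tsum_mul_right]
              exact mul_le_mul_left hq _
      calc _ ≤ ε + q * (q ^ J + J * ε) := add_le_add e1 e2
        _ = q ^ (J + 1) + (ε + q * (J * ε)) := by rw [mul_add, pow_succ]; ring
        _ ≤ q ^ (J + 1) + (ε + 1 * (J * ε)) := by gcongr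
        _ = _ := by push_cast; ring
    · intro ζ
      have hT : T ≤ a := by omega
      have key : ∀ ζ', π ζ' * f (a - η ζ') (ζ - ζ')
          ≤ (if T + i0 < η ζ' then π ζ' * f (a - η ζ') (ζ - ζ') else 0)
            + ((if η ζ' ≤ T + i0 ∧ th < π ζ' then π ζ' * b' (η ζ') (ζ - ζ') else 0)
              + ((if th < π ζ' then π ζ' else 0) * Gd
                + th * ∑ r ∈ Finset.Icc T (T + i0),
                    (if η ζ' = r then f (a - r) (ζ - ζ') else 0))) := by
        intro ζ'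
        by_cases h1 : T + i0 < η ζ'
        · rw [if_pos h1]; exact le_self_add
        · rw [if_neg h1, zero_add]
          by_cases h2 : th < π ζ'
          · rw [if_pos ⟨by omega, h2⟩, if_pos h2, ← add_assoc]
            refine le_trans ?_ le_self_add
            rw [← mul_add]
            refine mul_le_mul_right ?_ _
            rw [add_comm]
            exact (hb' _ (by omega)).2 _
          · rw [if_neg (fun hh => h2 hh.2), if_neg h2, zero_mul, zero_add, zero_add,
              Finset.sum_ite_eq]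
            by_cases h3 : π ζ' = 0
            · rw [h3, zero_mul]; exact zero_le
            · rw [if_pos (Finset.mem_Icc.2 ⟨hπ _ h3, by omega⟩)]
              exact mul_le_mul_left (not_lt.1 h2) _
      calc f a ζ ≤ ∑' ζ', π ζ' * f (a - η ζ') (ζ - ζ') := hrec a hT ζ
        _ ≤ _ := ENNReal.tsum_le_tsum key
        _ = (∑' ζ', if T + i0 < η ζ' then π ζ' * f (a - η ζ') (ζ - ζ') else 0)
            + ((∑' ζ', (if η ζ' ≤ T + i0 ∧ th < π ζ' then π ζ' * b' (η ζ') (ζ - ζ') else 0))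
              + ((∑' ζ', (if th < π ζ' then π ζ' else 0)) * Gd
                + th * ∑ r ∈ Finset.Icc T (T + i0),
                    ∑' ζ', (if η ζ' = r then f (a - r) (ζ - ζ') else 0))) := by
            rw [ENNReal.tsum_add, ENNReal.tsum_add, ENNReal.tsum_add, ENNReal.tsum_mul_right,
              ENNReal.tsum_mul_left, Summable.tsum_finsetSum (fun _ _ => ENNReal.summable)]
        _ ≤ (∑' ζ', if T + i0 < η ζ' then π ζ' * f (a - η ζ') (ζ - ζ') else 0)
            + ((∑' ζ', (if η ζ' ≤ T + i0 ∧ th < π ζ' then π ζ' * b' (η ζ') (ζ - ζ') else 0))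
              + (q * Gd + th * ∑ r ∈ Finset.Icc T (T + i0), 1)) := by
            gcongr with r hr
            calc _ ≤ ∑' ζ', f (a - r) (ζ - ζ') := ENNReal.tsum_le_tsum fun ζ' => by
                  split_ifs
                  · exact le_rfl
                  · exact zero_le
              _ = ∑' ζ', f (a - r) ζ' := (Equiv.subLeft ζ).tsum_eq (f (a - r))
              _ ≤ 1 := hf _
        _ ≤ _ := by
            have e3 : q * Gd + th * ∑ r ∈ Finset.Icc T (T + i0), (1 : ℝ≥0∞) ≤ Gd := by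
              refine le_trans (le_of_eq ?_) hG
              simp only [Finset.sum_const, Nat.card_Icc, nsmul_eq_mul, mul_one]
              rw [show T + i0 + 1 - T = i0 + 1 by omega]
              ring
            calc _ ≤ _ + (_ + Gd) := by gcongr
              _ = _ := by ring

end Crest.Agent.R154.Asm738
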