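import Crest.Agent.R154.AsmA_746

/-! Row 154 (helper746): smoothing of the first passage law. -/

set_option autoImplicit false

namespace Crest.Agent.R154.Asm746

open scoped ENNReal
open Crest.Agent.R154.B5A

variable {B : Type*} (Λ : B → ℝ≥0∞) (ht : B → ℕ)

lemma EF_tsum {ι : Type*} (a : ℕ) (F : ι → List B → ℝ≥0∞) :
    EF Λ ht a (fun L => ∑' i, F i L) = ∑' i, EF Λ ht a (F i) := by
  classical
  simp only [EF]
  rw [ENNReal.tsum_comm]
  refine tsum_congr fun L => ?_
  by_cases hL : FP ht a L
  · simp only [hL, if_true, ENNReal.tsum_mul_left]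
  · simp [hL]

open Classical in
lemma EF_fiber {Y : Type*} (a : ℕ) (g : List B → Y) (F : Y → ℝ≥0∞) :
    EF Λ ht a (fun L => F (g L)) = ∑' y, EF Λ ht a (fun L => if g L = y then 1 else 0) * F y := by
  have : ∀ L : List B, F (g L) = ∑' y, (if g L = y then 1 else 0) * F y := by
    intro L
    rw [tsum_eq_single (g L)]
    · simp
    · intro y hy; rw [if_neg hy.symm, zero_mul]
  calc EF Λ ht a (fun L => F (g L)) = EF Λ ht a (fun L => ∑' y, (if g L = y then 1 else 0) * F y) := by
        congr 1; funext L; exact this L
    _ = ∑' y, EF Λ ht a (fun L => (if g L = y then 1 else 0) * F y) := EF_tsum Λ ht a _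
    _ = _ := tsum_congr fun y => by
        rw [mul_comm, ← EF_const_mul]
        congr 1; funext L; rw [mul_comm]

variable {G : Type*} [AddCommGroup G] (z : B → G)

/-- total height and displacement -/
def HD (L : List B) : ℕ × G := (HT ht L, (L.map z).sum)

lemma HD_append (L L' : List B) : HD ht z (L ++ L') = HD ht z L + HD ht z L' := by
  simp only [HD, HT_append, List.map_append, List.sum_append, Prod.mk_add_mk]

open Classical in
/-- first passage law -/
noncomputable def Law (s : ℕ) (y : ℕ × G) : ℝ≥0∞ :=
  EF Λ ht s (fun L => if HD ht z L = y then 1 else 0)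

lemma EF_law (s : ℕ) (F : ℕ × G → ℝ≥0∞) :
    EF Λ ht s (fun L => F (HD ht z L)) = ∑' y, Law Λ ht z s y * F y := by
  rw [EF_fiber Λ ht s (HD ht z) F]
  refine tsum_congr fun y => ?_
  unfold Law
  congr!

lemma Law_sum (h1 : ∀ b, 1 ≤ ht b) (hΛ : ∑' b, Λ b = 1) (s : ℕ) :
    ∑' y, Law Λ ht z s y = 1 := by
  have := EF_law Λ ht z s (fun _ => 1)
  simp only [mul_one] at this
  rw [← this, EF_one Λ ht h1 hΛ]

lemma Law_zero (s : ℕ) (y : ℕ × G) (hy : y.1 < s) : Law Λ ht z s y = 0 := by
  classical
  rw [Law, EF]
  refine ENNReal.tsum_eq_zero.2 fun L => ?_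
  by_cases hL : FP ht s L
  · rw [if_pos hL, if_neg, mul_zero]
    rintro rfl
    have := FP_le_HT ht L s hL
    simp only [HD] at hy; omega
  · rw [if_neg hL]

open Classical in
theorem smooth (h1 : ∀ b, 1 ≤ ht b) (hΛ : ∑' b, Λ b = 1)
    (F : ℕ × G → ℝ≥0∞) (hF1 : ∀ y, F y ≤ 1) (s i0 : ℕ) (th q e R : ℝ≥0∞) (hq1 : q ≤ 1)
    (hq : ∑' y, (if th < Law Λ ht z s y then Law Λ ht z s y else 0) ≤ q)
    (he : EF Λ ht s (fun L => if s + i0 < HT ht L then 1 else 0) ≤ e)
    (hR : ∀ μ : ℕ × G → ℝ≥0∞, (∀ k, ∑' x, μ (k, x) ≤ 1) → (∀ y, μ y ≤ th) →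
      ∑' y, μ y * F y ≤ R) (J : ℕ) :
    ∀ (h : ℕ) (y0 : ℕ × G), J * (s + i0) ≤ h →
      EF Λ ht h (fun L => F (y0 + HD ht z L)) ≤ q ^ J + J * (e + (i0 + 1 : ℕ) * R) := by
  induction J with
  | zero =>
    intro h y0 _
    rw [pow_zero]
    refine le_trans (EF_le_const Λ ht h1 hΛ h 1 _ fun L _ => hF1 _) ?_
    simp
  | succ J ih =>
    intro h y0 hJ
    have hsh : s ≤ h := by nlinarith [Nat.zero_le i0]
    set X : ℝ≥0∞ := e + (i0 + 1 : ℕ) * R with hX
    rw [EF_split Λ ht h1 s h hsh]
    set inner : ℕ × G → ℝ≥0∞ := fun y1 =>
      EF Λ ht (h - y1.1) (fun L2 => F (y0 + (y1 + HD ht z L2))) with hinner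
    have hin1 : ∀ y1, inner y1 ≤ 1 := fun y1 =>
      EF_le_const Λ ht h1 hΛ _ 1 _ fun L _ => hF1 _
    have hinJ : ∀ y1 : ℕ × G, y1.1 ≤ s + i0 → inner y1 ≤ q ^ J + J * X := by
      intro y1 hy1
      have := ih (h - y1.1) (y0 + y1) (by
        have : (J + 1) * (s + i0) = J * (s + i0) + (s + i0) := by ring
        omega)
      refine le_trans (le_of_eq ?_) this
      simp only [hinner, add_assoc]
    have hbound : ∀ L1 : List B, FP ht s L1 →
        EF Λ ht (h - HT ht L1) (fun L2 => F (y0 + HD ht z (L1 ++ L2)))
        ≤ ((if s + i0 < HT ht L1 then 1 else 0)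
          + (fun y1 => if th < Law Λ ht z s y1 then (q ^ J + J * X) else 0) (HD ht z L1))
          + (fun y1 : ℕ × G => if s ≤ y1.1 ∧ y1.1 ≤ s + i0 ∧ Law Λ ht z s y1 ≤ th then inner y1 else 0)
            (HD ht z L1) := by
      intro L1 hL1
      have e1 : EF Λ ht (h - HT ht L1) (fun L2 => F (y0 + HD ht z (L1 ++ L2)))
          = inner (HD ht z L1) := by
        simp only [hinner, HD_append]; rfl
      rw [e1]
      have hs1 := FP_le_HT ht L1 s hL1
      by_cases c1 : s + i0 < HT ht L1
      · rw [if_pos c1]
        exact (hin1 _).trans (le_self_add.trans le_self_add)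
      · by_cases c2 : th < Law Λ ht z s (HD ht z L1)
        · simp only [if_pos c2]
          refine (hinJ _ (by simp only [HD]; omega)).trans ?_
          exact le_add_self.trans le_self_add
        · have c3 : s ≤ (HD ht z L1).1 ∧ (HD ht z L1).1 ≤ s + i0 ∧
              Law Λ ht z s (HD ht z L1) ≤ th :=
            ⟨hs1, by simp only [HD]; omega, not_lt.1 c2⟩
          simp only [if_pos c3]
          exact le_add_self
    refine (EF_mono Λ ht s hbound).trans ?_
    rw [EF_add, EF_add, EF_law Λ ht z s (fun y1 => if th < Law Λ ht z s y1 then (q ^ J + J * X) else 0),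
      EF_law Λ ht z s (fun y1 : ℕ × G => if s ≤ y1.1 ∧ y1.1 ≤ s + i0 ∧ Law Λ ht z s y1 ≤ th
        then inner y1 else 0)]
    have t2 : ∑' y, Law Λ ht z s y * (if th < Law Λ ht z s y then (q ^ J + J * X) else 0)
        ≤ q * (q ^ J + J * X) := by
      calc _ = ∑' y, (if th < Law Λ ht z s y then Law Λ ht z s y else 0) * (q ^ J + J * X) :=
            tsum_congr fun y => by split_ifs <;> simp
        _ = (∑' y, (if th < Law Λ ht z s y then Law Λ ht z s y else 0)) * (q ^ J + J * X) :=
            ENNReal.tsum_mul_right
        _ ≤ _ := mul_le_mul_left hq _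
    have t3 : ∑' y : ℕ × G, Law Λ ht z s y * (if s ≤ y.1 ∧ y.1 ≤ s + i0 ∧ Law Λ ht z s y ≤ th
        then inner y else 0) ≤ (i0 + 1 : ℕ) * R := by
      rw [ENNReal.tsum_prod' ]
      calc _ ≤ ∑' i1 : ℕ, (if i1 ∈ Finset.Icc s (s + i0) then R else 0) := by
            refine ENNReal.tsum_le_tsum fun i1 => ?_
            by_cases hi : i1 ∈ Finset.Icc s (s + i0)
            · rw [if_pos hi]
              rw [Finset.mem_Icc] at hi
              set c : G → ℝ≥0∞ := fun z1 => if Law Λ ht z s (i1, z1) ≤ th
                then Law Λ ht z s (i1, z1) else 0 with hc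
              have hcth : ∀ z1, c z1 ≤ th := by
                intro z1; simp only [hc]; split_ifs with hh
                · exact hh
                · exact zero_le
              have hc1 : ∑' z1, c z1 ≤ 1 := by
                rw [← Law_sum Λ ht z h1 hΛ s]
                calc ∑' z1, c z1 ≤ ∑' z1, Law Λ ht z s (i1, z1) := by
                      refine ENNReal.tsum_le_tsum fun z1 => ?_
                      simp only [hc]; split_ifs
                      · exact le_rfl
                      · exact zero_le
                  _ ≤ _ := ENNReal.tsum_comp_le_tsum_of_injective (f := fun z1 : G => (i1, z1))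
                      (fun x y h => by simpa using h) _
              set μ : ℕ × G → ℝ≥0∞ := fun y => ∑' z1, c z1 *
                EF Λ ht (h - i1) (fun L2 => if y0 + ((i1, z1) + HD ht z L2) = y then 1 else 0)
                with hμ
              have e2 : ∑' z1, Law Λ ht z s (i1, z1) * (if s ≤ ((i1, z1) : ℕ × G).1 ∧
                  ((i1, z1) : ℕ × G).1 ≤ s + i0 ∧ Law Λ ht z s (i1, z1) ≤ th
                  then inner (i1, z1) else 0) = ∑' y, μ y * F y := by
                simp only [hμ, ← ENNReal.tsum_mul_right]
                rw [ENNReal.tsum_comm]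
                refine tsum_congr fun z1 => ?_
                have e3 : inner (i1, z1) = ∑' y, EF Λ ht (h - i1)
                    (fun L2 => if y0 + ((i1, z1) + HD ht z L2) = y then 1 else 0) * F y :=
                  (EF_fiber Λ ht (h - i1) (fun L2 => y0 + ((i1, z1) + HD ht z L2)) F).trans
                    (tsum_congr fun y => by congr!)
                simp only [mul_assoc]
                rw [ENNReal.tsum_mul_left, ← e3]
                simp only [hc]
                by_cases hh : Law Λ ht z s (i1, z1) ≤ th
                · rw [if_pos ⟨hi.1, hi.2, hh⟩, if_pos hh]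
                · rw [if_neg (fun h => hh h.2.2), if_neg hh, mul_zero, zero_mul]
              rw [e2]
              refine hR μ ?_ ?_
              · intro k
                calc ∑' x, μ (k, x) = ∑' z1, c z1 * ∑' x, EF Λ ht (h - i1)
                      (fun L2 => if y0 + ((i1, z1) + HD ht z L2) = (k, x) then 1 else 0) := by
                      simp only [hμ]
                      rw [ENNReal.tsum_comm]
                      exact tsum_congr fun z1 => ENNReal.tsum_mul_left
                  _ ≤ ∑' z1, c z1 * 1 := by
                      refine ENNReal.tsum_le_tsum fun z1 => mul_le_mul_right ?_ _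
                      rw [← EF_tsum]
                      refine EF_le_const Λ ht h1 hΛ _ 1 _ fun L2 _ => ?_
                      calc ∑' x : G, (if y0 + ((i1, z1) + HD ht z L2) = (k, x) then (1 : ℝ≥0∞) else 0)
                          ≤ ∑' x : G, (if x = (y0 + ((i1, z1) + HD ht z L2)).2 then 1 else 0) := by
                            refine ENNReal.tsum_le_tsum fun x => ?_
                            split_ifs with h3 h4 h4
                            · exact le_rfl
                            · exact absurd (by rw [h3]) h4
                            · exact zero_le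
                            · exact le_rfl
                        _ = 1 := tsum_ite_eq _ _
                  _ ≤ 1 := by simpa using hc1
              · intro y
                calc μ y ≤ ∑' z1, th * EF Λ ht (h - i1)
                      (fun L2 => if y0 + ((i1, z1) + HD ht z L2) = y then 1 else 0) :=
                      ENNReal.tsum_le_tsum fun z1 => mul_le_mul_left (hcth z1) _
                  _ = th * EF Λ ht (h - i1) (fun L2 => ∑' z1 : G,
                      if y0 + ((i1, z1) + HD ht z L2) = y then 1 else 0) := by
                      rw [ENNReal.tsum_mul_left, EF_tsum]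
                  _ ≤ th * 1 := by
                      refine mul_le_mul_right ?_ _
                      refine EF_le_const Λ ht h1 hΛ _ 1 _ fun L2 _ => ?_
                      calc ∑' z1 : G, (if y0 + ((i1, z1) + HD ht z L2) = y then (1 : ℝ≥0∞) else 0)
                          ≤ ∑' z1 : G, (if z1 = y.2 - y0.2 - (HD ht z L2).2 then 1 else 0) := by
                            refine ENNReal.tsum_le_tsum fun z1 => ?_
                            split_ifs with h3 h4 h4
                            · exact le_rfl
                            · refine absurd ?_ h4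
                              rw [← h3]
                              simp only [Prod.snd_add]
                              abel
                            · exact zero_le
                            · exact le_rfl
                        _ = 1 := tsum_ite_eq _ _
                  _ = th := mul_one _
            · rw [if_neg hi]
              rw [Finset.mem_Icc] at hi
              refine le_of_eq (ENNReal.tsum_eq_zero.2 fun z1 => ?_)
              rw [if_neg (fun h => hi ⟨h.1, h.2.1⟩), mul_zero]
        _ = (i0 + 1 : ℕ) * R := by
            rw [tsum_eq_sum (s := Finset.Icc s (s + i0)) (fun i hi => if_neg hi)]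
            rw [Finset.sum_congr rfl (fun i hi => if_pos hi), Finset.sum_const, Nat.card_Icc,
              nsmul_eq_mul]
            congr 2; omega
    calc _ ≤ (e + q * (q ^ J + J * X)) + (i0 + 1 : ℕ) * R :=
          add_le_add (add_le_add he t2) t3
      _ = q ^ (J + 1) + (q * (J * X) + X) := by rw [hX]; ring
      _ ≤ q ^ (J + 1) + (1 * (J * X) + X) := by gcongr
      _ = q ^ (J + 1) + ((J + 1 : ℕ) : ℝ≥0∞) * X := by push_cast; ring

end Crest.Agent.R154.Asm746
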