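import Crest.Agent.R154.FP_178
import Crest.Agent.R154.AsmA_789

/-! Row 154, ROAD 801, assembly, part B (helper789): attempts as blocks. -/

set_option autoImplicit false

namespace Crest.Agent.R154.AsmB789

open scoped ENNReal
open Crest.Agent.R154.B5A Crest.Agent.R154.FP178 Crest.Agent.R154.AsmA789

variable {B : Type*} (Λ : B → ℝ≥0∞) (ht : B → ℕ)

/-- attempts of length `P` -/
abbrev At (P : ℕ) := {A : List B // fp ht P A}

/-- weight, height of an attempt -/
noncomputable def aL (P : ℕ) (A : At ht P) : ℝ≥0∞ := LW Λ A.1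
def aH (P : ℕ) (A : At ht P) : ℕ := HT ht A.1

/-- concatenation -/
def flat {P : ℕ} : List (At ht P) → List B
  | [] => []
  | A :: l => A.1 ++ flat l

open Classical in
lemma tsum_at (P : ℕ) (f : List B → ℝ≥0∞) :
    ∑' A : At ht P, f A.1 = ∑' L, (if fp ht P L then f L else 0) := by
  rw [show (∑' A : At ht P, f A.1) = ∑' L, Set.indicator {L | fp ht P L} f L from
    tsum_subtype {L | fp ht P L} f]
  refine tsum_congr fun L => ?_
  by_cases h : fp ht P L
  · rw [if_pos h, Set.indicator_of_mem (by exact h)]
  · rw [if_neg h, Set.indicator_of_notMem (by exact h)]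

open Classical in
/-- the attempts form a probability -/
theorem sum_at (h1 : ∀ b, 1 ≤ ht b) (hΛ : ∑' b, Λ b = 1) (P : ℕ) :
    ∑' A : At ht P, aL Λ ht P A = 1 := by
  have key : ∀ a : ℕ, ∑' L, (if fp ht a L then LW Λ L else 0) = 1 := by
    intro a
    induction a using Nat.strong_induction_on with
    | _ a ih =>
      rcases Nat.eq_zero_or_pos a with rfl | ha
      · have := sum_fp_zero Λ ht (fun _ => 1)
        simpa only [mul_one] using this
      · have := sum_fp_step Λ ht a ha (fun _ => 1)
        simp only [mul_one] at this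
        rw [this]
        calc ∑' b, Λ b * ∑' L, (if fp ht (a - ht b) L then LW Λ L else 0)
            = ∑' b, Λ b * 1 := by
              refine tsum_congr fun b => ?_
              rw [ih (a - ht b) (by have := h1 b; omega)]
          _ = 1 := by simpa using hΛ
  rw [← key P]
  exact tsum_at ht P (LW Λ)

/-- overshoot mass -/
noncomputable def ov (P i0 : ℕ) : ℝ≥0∞ := by
  classical exact ∑' A : At ht P, (if P + i0 < aH ht P A then aL Λ ht P A else 0)

open Classical in
lemma ov_le (h1 : ∀ b, 1 ≤ ht b) (hU1 : ∀ n, U Λ ht n ≤ 1) (P i0 : ℕ) :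
    ov Λ ht P i0 ≤ ∑' k, tail Λ ht (i0 + k) := by
  refine le_trans (le_of_eq ?_) (overshoot Λ ht h1 hU1 i0 P)
  rw [ov]
  have := tsum_at ht P (fun L => if P + i0 < HT ht L then LW Λ L else 0)
  refine Eq.trans ?_ (this.trans ?_)
  · rfl
  · refine tsum_congr fun L => ?_
    by_cases h : fp ht P L <;> simp [h]

open Classical in
lemma step (h1 : ∀ b, 1 ≤ ht b) (P n : ℕ) (hP : P ≤ n) (g : List B → ℝ≥0∞) :
    ∑' L, (if HT ht L = n then LW Λ L * g L else 0)
      = ∑' A : At ht P, aL Λ ht P A *
        ∑' R, (if HT ht A.1 + HT ht R = n then LW Λ R * g (A.1 ++ R) else 0) := by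
  have e1 : ∑' L, (if HT ht L = n then LW Λ L * g L else 0)
      = ∑' L, (if P ≤ HT ht L then LW Λ L * (if HT ht L = n then g L else 0) else 0) := by
    refine tsum_congr fun L => ?_
    by_cases h : HT ht L = n
    · rw [if_pos h, if_pos (by omega), if_pos h]
    · simp [h]
  rw [e1, split Λ ht h1 P (fun L => if HT ht L = n then g L else 0)]
  rw [← tsum_at ht P (fun L1 => LW Λ L1 *
    ∑' L2, LW Λ L2 * (if HT ht (L1 ++ L2) = n then g (L1 ++ L2) else 0))]
  refine tsum_congr fun A => ?_
  rw [aL]
  congr 1
  refine tsum_congr fun R => ?_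
  rw [HT_append]
  by_cases h : HT ht A.1 + HT ht R = n
  · rw [if_pos h, if_pos h]
  · rw [if_neg h, if_neg h, mul_zero]

open Classical in
/-- **J attempts** -/
theorem iter (h1 : ∀ b, 1 ≤ ht b) (hΛ : ∑' b, Λ b = 1) (hU1 : ∀ n, U Λ ht n ≤ 1) (P i0 : ℕ)
    (J : ℕ) : ∀ (n : ℕ) (g : List B → ℝ≥0∞), (∀ L, g L ≤ 1) → J * (P + i0) ≤ n →
    ∑' L, (if HT ht L = n then LW Λ L * g L else 0)
      ≤ J * ov Λ ht P i0 + SL (aL Λ ht P) J (fun l => if ∀ A ∈ l, aH ht P A ≤ P + i0 then
        ∑' R, (if HT ht (flat ht l) + HT ht R = n then LW Λ R * g (flat ht l ++ R) else 0)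
        else 0) := by
  induction J with
  | zero =>
    intro n g _ _
    rw [SL_zero]
    simp [flat, HT_nil]
  | succ J ih =>
    intro n g hg hn
    have hPn : P + i0 ≤ n := by
      calc P + i0 ≤ (J + 1) * (P + i0) := Nat.le_mul_of_pos_left _ (by omega)
        _ ≤ n := hn
    rw [step Λ ht h1 P n (by omega) g, SL_succ]
    have hA : ∀ A : At ht P, aL Λ ht P A *
        ∑' R, (if HT ht A.1 + HT ht R = n then LW Λ R * g (A.1 ++ R) else 0)
        ≤ (if P + i0 < aH ht P A then aL Λ ht P A else 0) + (aL Λ ht P A * (J * ov Λ ht P i0)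
          + aL Λ ht P A * SL (aL Λ ht P) J (fun l => if ∀ A_1 ∈ A :: l, aH ht P A_1 ≤ P + i0 then
            ∑' R, (if HT ht (flat ht (A :: l)) + HT ht R = n
              then LW Λ R * g (flat ht (A :: l) ++ R) else 0) else 0)) := by
      intro A
      by_cases hov : P + i0 < aH ht P A
      · rw [if_pos hov]
        refine le_add_right ?_
        calc aL Λ ht P A * ∑' R, (if HT ht A.1 + HT ht R = n then LW Λ R * g (A.1 ++ R) else 0)
            ≤ aL Λ ht P A * 1 := by
              refine mul_le_mul_right ?_ _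
              refine le_trans ?_ (hU1 (n - HT ht A.1))
              rw [U]
              refine ENNReal.tsum_le_tsum fun R => ?_
              by_cases hR : HT ht A.1 + HT ht R = n
              · rw [if_pos hR, if_pos (by omega)]
                calc LW Λ R * g (A.1 ++ R) ≤ LW Λ R * 1 := mul_le_mul_right (hg _) _
                  _ = _ := mul_one _
              · rw [if_neg hR]; exact zero_le
          _ = _ := mul_one _
      · rw [if_neg hov, zero_add, ← mul_add]
        refine mul_le_mul_right ?_ _
        have hle : aH ht P A ≤ P + i0 := not_lt.1 hov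
        have hle' : HT ht A.1 ≤ P + i0 := hle
        have hn' : J * (P + i0) ≤ n - HT ht A.1 := by
          have : (J + 1) * (P + i0) = J * (P + i0) + (P + i0) := by ring
          omega
        have h2 := ih (n - HT ht A.1) (fun R => g (A.1 ++ R)) (fun R => hg _) hn'
        have e0 : ∑' R, (if HT ht A.1 + HT ht R = n then LW Λ R * g (A.1 ++ R) else 0)
            = ∑' L, (if HT ht L = n - HT ht A.1 then LW Λ L * g (A.1 ++ L) else 0) := by
          refine tsum_congr fun R => ?_
          by_cases hR : HT ht A.1 + HT ht R = n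
          · rw [if_pos hR, if_pos (by omega)]
          · rw [if_neg hR, if_neg (by omega)]
        rw [e0]
        refine h2.trans (add_le_add le_rfl (SL_mono _ J fun l _ => ?_))
        by_cases hl : ∀ A_1 ∈ l, aH ht P A_1 ≤ P + i0
        · rw [if_pos hl, if_pos]
          · refine ENNReal.tsum_le_tsum fun R => ?_
            rw [flat, HT_append, List.append_assoc]
            by_cases hR : HT ht (flat ht l) + HT ht R = n - HT ht A.1
            · rw [if_pos hR, if_pos (by omega)]
            · rw [if_neg hR]; exact zero_le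
          · intro C hC
            rcases List.mem_cons.1 hC with rfl | hC
            · exact hle
            · exact hl C hC
        · rw [if_neg hl]; exact zero_le
    refine (ENNReal.tsum_le_tsum hA).trans ?_
    rw [ENNReal.tsum_add, ENNReal.tsum_add, ENNReal.tsum_mul_right, sum_at Λ ht h1 hΛ P, one_mul,
      ← add_assoc]
    refine add_le_add ?_ le_rfl
    rw [ov]
    push_cast
    rw [add_mul, one_mul, add_comm]

end Crest.Agent.R154.AsmB789
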