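import Crest.Agent.R154.AsmA_790
import Crest.Agent.R154.Dens_903

/-! Row 154, ROAD 801 (helper790): abstract assembly, part B: density of the sum of `j` pieces. -/

set_option autoImplicit false

namespace Crest.Agent.R154.Asm790

open scoped ENNReal
open Crest.Agent.R154.B5A

section dens

variable {β Γ : Type*} [AddCommGroup Γ] (lam : β → ℝ≥0∞) (δ : β → Γ)

open Classical in
/-- law of the sum of `j` letters -/
noncomputable def Dj (j : ℕ) (g : Γ) : ℝ≥0∞ :=
  SL lam j (fun Q => if (Q.map δ).sum = g then 1 else 0)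

lemma Dj_zero (g : Γ) [Decidable ((0 : Γ) = g)] : Dj lam δ 0 g = if (0 : Γ) = g then 1 else 0 := by
  rw [Dj, SL_zero]; simp

lemma Dj_succ (j : ℕ) (g : Γ) : Dj lam δ (j + 1) g = ∑' b, lam b * Dj lam δ j (g - δ b) := by
  classical
  rw [Dj, SL_succ]
  refine tsum_congr fun b => ?_
  congr 1
  rw [Dj]
  refine SL_congr _ j fun Q _ => ?_
  simp only [List.map_cons, List.sum_cons]
  by_cases h : δ b + (Q.map δ).sum = g
  · rw [if_pos h, if_pos (by rw [← h]; abel)]
  · rw [if_neg h, if_neg (fun h2 => h (by rw [h2]; abel))]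

/-- the law integrates functionals of the sum -/
lemma law (j : ℕ) (Φ : Γ → ℝ≥0∞) :
    SL lam j (fun Q => Φ ((Q.map δ).sum)) = ∑' g, Dj lam δ j g * Φ g := by
  classical
  simp only [Dj, SL]
  simp_rw [← ENNReal.tsum_mul_right]
  rw [ENNReal.tsum_comm]
  refine tsum_congr fun Q => ?_
  by_cases hQ : Q.length = j
  · simp only [hQ, if_true]
    rw [tsum_eq_single (Q.map δ).sum]
    · simp
    · intro g hg
      rw [if_neg hg.symm]; simp
  · simp [hQ]

lemma sum_Dj (hl : ∑' b, lam b ≤ 1) (j : ℕ) : ∑' g, Dj lam δ j g ≤ 1 := by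
  have := law lam δ j (fun _ => 1)
  simp only [mul_one] at this
  rw [← this, SL_pow]
  exact pow_le_one₀ zero_le hl

lemma tsum_sub_right (f : Γ → ℝ≥0∞) (c : Γ) : ∑' g, f (g - c) = ∑' g, f g :=
  (Equiv.subRight c).tsum_eq f

open Classical in
/-- **density of the sum of `j` letters** -/
lemma dens (hl : ∑' b, lam b ≤ 1) (S : β → Prop) (th q M : ℝ≥0∞)
    (hS : ∀ g, ∑' b, (if S b ∧ δ b = g then lam b else 0) ≤ th)
    (hq : ∑' b, (if S b then 0 else lam b) ≤ q) (hM : th + q * M ≤ M) (j : ℕ) :
    ∃ A Bb : Γ → ℝ≥0∞, (∀ g, Dj lam δ j g ≤ A g + Bb g) ∧ (∀ g, A g ≤ M) ∧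
      ∑' g, A g ≤ 1 ∧ ∑' g, Bb g ≤ q ^ j := by
  induction j with
  | zero =>
    refine ⟨fun _ => 0, Dj lam δ 0, fun g => by simp, fun g => zero_le, by simp, ?_⟩
    rw [pow_zero]; exact sum_Dj lam δ hl 0
  | succ j ih =>
    obtain ⟨A, Bb, h1, h2, h3, h4⟩ := ih
    refine ⟨fun g => ∑' b, (if S b then lam b else 0) * Dj lam δ j (g - δ b) +
        ∑' b, (if S b then 0 else lam b) * A (g - δ b),
      fun g => ∑' b, (if S b then 0 else lam b) * Bb (g - δ b), fun g => ?_, fun g => ?_, ?_, ?_⟩
    · rw [Dj_succ, add_assoc, ← ENNReal.tsum_add, ← ENNReal.tsum_add]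
      refine ENNReal.tsum_le_tsum fun b => ?_
      by_cases hb : S b
      · simp [hb]
      · simp only [hb, if_false, zero_mul, zero_add]
        rw [← mul_add]
        exact mul_le_mul_right (h1 _) _
    · refine le_trans (add_le_add ?_ ?_) hM
      · calc ∑' b, (if S b then lam b else 0) * Dj lam δ j (g - δ b)
            = ∑' b, ∑' g', (if S b ∧ δ b = g - g' then lam b else 0) * Dj lam δ j g' := by
              refine tsum_congr fun b => ?_
              rw [tsum_eq_single (g - δ b)]
              · by_cases hb : S b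
                · rw [if_pos hb, if_pos ⟨hb, by abel⟩]
                · rw [if_neg hb, if_neg (fun h => hb h.1)]
              · intro g' hg'
                rw [if_neg, zero_mul]
                rintro ⟨_, h⟩
                exact hg' (by rw [h]; abel)
          _ = ∑' g', (∑' b, (if S b ∧ δ b = g - g' then lam b else 0)) * Dj lam δ j g' := by
              rw [ENNReal.tsum_comm]
              exact tsum_congr fun g' => ENNReal.tsum_mul_right
          _ ≤ ∑' g', th * Dj lam δ j g' :=
              ENNReal.tsum_le_tsum fun g' => mul_le_mul_left (hS _) _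
          _ ≤ th := by
              rw [ENNReal.tsum_mul_left]
              calc th * ∑' g', Dj lam δ j g' ≤ th * 1 := mul_le_mul_right (sum_Dj lam δ hl j) _
                _ = th := mul_one _
      · calc ∑' b, (if S b then 0 else lam b) * A (g - δ b)
            ≤ ∑' b, (if S b then 0 else lam b) * M :=
              ENNReal.tsum_le_tsum fun b => mul_le_mul_right (h2 _) _
          _ ≤ q * M := by
              rw [ENNReal.tsum_mul_right]
              exact mul_le_mul_left hq _
    · rw [ENNReal.tsum_add, ENNReal.tsum_comm,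
        ENNReal.tsum_comm (f := fun g b => (if S b then 0 else lam b) * A (g - δ b)),
        ← ENNReal.tsum_add]
      refine le_trans (ENNReal.tsum_le_tsum fun b => ?_) hl
      rw [ENNReal.tsum_mul_left, ENNReal.tsum_mul_left, tsum_sub_right (Dj lam δ j),
        tsum_sub_right A]
      by_cases hb : S b
      · simp only [hb, if_true, zero_mul, add_zero]
        calc lam b * ∑' g, Dj lam δ j g ≤ lam b * 1 := mul_le_mul_right (sum_Dj lam δ hl j) _
          _ = lam b := mul_one _
      · simp only [hb, if_false, zero_mul, zero_add]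
        calc lam b * ∑' g, A g ≤ lam b * 1 := mul_le_mul_right h3 _
          _ = lam b := mul_one _
    · rw [ENNReal.tsum_comm]
      calc ∑' b, ∑' g, (if S b then 0 else lam b) * Bb (g - δ b)
          = ∑' b, (if S b then 0 else lam b) * ∑' g, Bb g := by
            refine tsum_congr fun b => ?_
            rw [ENNReal.tsum_mul_left, tsum_sub_right Bb]
        _ = (∑' b, (if S b then 0 else lam b)) * ∑' g, Bb g := ENNReal.tsum_mul_right
        _ ≤ q * q ^ j := mul_le_mul' hq h4
        _ = q ^ (j + 1) := by rw [pow_succ, mul_comm]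

end dens

end Crest.Agent.R154.Asm790
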