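import Crest.Agent.R154.AsmA_817
import Crest.Agent.R154.Dens_616

/-! Row 154, ROAD 801, assembly part B (helper817): density of the first passage tops. -/

set_option autoImplicit false

namespace Crest.Agent.R154.Asm817

open scoped ENNReal
open B5A

section pure

variable {G O : Type*} [AddCommGroup G]

omit [AddCommGroup G] in
lemma comm4 {I J : Type*} (F : I → J → O → G → ℝ≥0∞) :
    ∑' o, ∑' z, ∑' i, ∑' j, F i j o z = ∑' i, ∑' j, ∑' o, ∑' z, F i j o z := by
  calc ∑' o, ∑' z, ∑' i, ∑' j, F i j o z
      = ∑' o, ∑' i, ∑' z, ∑' j, F i j o z := tsum_congr fun o => ENNReal.tsum_comm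
    _ = ∑' i, ∑' o, ∑' z, ∑' j, F i j o z := ENNReal.tsum_comm
    _ = ∑' i, ∑' o, ∑' j, ∑' z, F i j o z :=
        tsum_congr fun i => tsum_congr fun o => ENNReal.tsum_comm
    _ = _ := tsum_congr fun i => ENNReal.tsum_comm

omit [AddCommGroup G] in
lemma comm3 {I : Type*} (F : I → O → G → ℝ≥0∞) :
    ∑' o, ∑' z, ∑' i, F i o z = ∑' i, ∑' o, ∑' z, F i o z := by
  calc ∑' o, ∑' z, ∑' i, F i o z
      = ∑' o, ∑' i, ∑' z, F i o z := tsum_congr fun o => ENNReal.tsum_comm
    _ = _ := ENNReal.tsum_comm

lemma shift_sum (g : O → G → ℝ≥0∞) (z' : G) :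
    ∑' o, ∑' z, g o (z - z') = ∑' o, ∑' z, g o z :=
  tsum_congr fun o => (Equiv.subRight z').tsum_eq (g o)

/-- density lemma with an extra index `o` and an error term -/
theorem dens2 (p : ℕ → G → ℝ≥0∞) (f e : ℕ → O → G → ℝ≥0∞) (T i0 : ℕ) (th q ε D : ℝ≥0∞)
    (hrec : ∀ r, T + i0 ≤ r → ∀ o z, f r o z ≤
      (∑' i, ∑' z', if T + i ≤ r then p i z' * f (r - T - i) o (z - z') else 0) + e r o z)
    (he : ∀ r, T + i0 ≤ r → ∑' o, ∑' z, e r o z ≤ ε)
    (hf : ∀ r, ∑' o, ∑' z, f r o z ≤ 1)
    (hε : ∑' i, ∑' z', (if i0 < i then p i z' else 0) ≤ ε)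
    (hq : ∑' i, ∑' z', (if i ≤ i0 ∧ th < p i z' then p i z' else 0) ≤ q) (hq1 : q ≤ 1)
    (hG : (i0 + 1 : ℕ) * th + q * D ≤ D) :
    ∀ J r, J * (T + i0) ≤ r → ∃ b : O → G → ℝ≥0∞,
      (∑' o, ∑' z, b o z ≤ q ^ J + J * (ε + ε)) ∧ ∀ o z, f r o z ≤ D + b o z := by
  intro J
  induction J with
  | zero =>
    intro r _
    exact ⟨f r, by simpa using hf r, fun o z => le_add_self⟩
  | succ J ih =>
    intro r hr
    have hTr : T + i0 ≤ r := by nlinarith
    have hrem : ∀ i, i ≤ i0 → J * (T + i0) ≤ r - T - i := by
      intro i hi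
      have : J * (T + i0) + (T + i0) ≤ r := by nlinarith
      omega
    choose! b hb1 hb2 using fun i (hi : i ≤ i0) => ih (r - T - i) (hrem i hi)
    refine ⟨fun o z => (e r o z +
      (∑' i, ∑' z', if i0 < i then p i z' * f (r - T - i) o (z - z') else 0)) +
      ∑' i, ∑' z', if i ≤ i0 ∧ th < p i z' then p i z' * b i o (z - z') else 0, ?_, ?_⟩
    · simp_rw [ENNReal.tsum_add]
      have e1 : ∑' o, ∑' z, ∑' i, ∑' z',
          (if i0 < i then p i z' * f (r - T - i) o (z - z') else 0) ≤ ε := by
        rw [comm4 (fun i z' o z => if i0 < i then p i z' * f (r - T - i) o (z - z') else 0)]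
        calc _ ≤ ∑' i, ∑' z', (if i0 < i then p i z' else 0) := by
              refine ENNReal.tsum_le_tsum fun i => ENNReal.tsum_le_tsum fun z' => ?_
              split_ifs with h
              · simp_rw [ENNReal.tsum_mul_left]
                rw [shift_sum (fun o z => f (r - T - i) o z) z']
                calc p i z' * ∑' o, ∑' z, f (r - T - i) o z ≤ p i z' * 1 := by gcongr; exact hf _
                  _ = p i z' := mul_one _
              · simp
          _ ≤ ε := hε
      have e2 : ∑' o, ∑' z, ∑' i, ∑' z',
          (if i ≤ i0 ∧ th < p i z' then p i z' * b i o (z - z') else 0)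
          ≤ q * (q ^ J + J * (ε + ε)) := by
        rw [comm4 (fun i z' o z => if i ≤ i0 ∧ th < p i z' then p i z' * b i o (z - z') else 0)]
        calc _ ≤ ∑' i, ∑' z', (if i ≤ i0 ∧ th < p i z' then p i z' else 0) *
                  (q ^ J + J * (ε + ε)) := by
              refine ENNReal.tsum_le_tsum fun i => ENNReal.tsum_le_tsum fun z' => ?_
              split_ifs with h
              · simp_rw [ENNReal.tsum_mul_left]
                rw [shift_sum (fun o z => b i o z) z']
                gcongr
                exact hb1 i h.1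
              · simp
          _ = (∑' i, ∑' z', (if i ≤ i0 ∧ th < p i z' then p i z' else 0)) *
                (q ^ J + J * (ε + ε)) := by
              simp_rw [ENNReal.tsum_mul_right]
          _ ≤ _ := by gcongr
      calc _ ≤ (ε + ε) + q * (q ^ J + J * (ε + ε)) :=
            add_le_add (add_le_add (he r hTr) e1) e2
        _ = q ^ (J + 1) + ((ε + ε) + q * (J * (ε + ε))) := by ring
        _ ≤ q ^ (J + 1) + ((ε + ε) + 1 * (J * (ε + ε))) := by gcongr
        _ = q ^ (J + 1) + ((J + 1 : ℕ) : ℝ≥0∞) * (ε + ε) := by push_cast; ring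
    · intro o z
      have hterm : ∀ i z', (if T + i ≤ r then p i z' * f (r - T - i) o (z - z') else 0) ≤
          ((if i0 < i then p i z' * f (r - T - i) o (z - z') else 0) +
            (if i ≤ i0 then th * f (r - T - i) o (z - z') else 0)) +
          ((if i ≤ i0 ∧ th < p i z' then p i z' * b i o (z - z') else 0) +
            (if i ≤ i0 ∧ th < p i z' then p i z' else 0) * D) := by
        intro i z'
        by_cases hi : i ≤ i0
        · have hi' : ¬ i0 < i := by omega
          simp only [hi, hi', if_false, if_true, true_and, zero_add]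
          by_cases hp : th < p i z'
          · simp only [hp, if_true]
            have h1 : (if T + i ≤ r then p i z' * f (r - T - i) o (z - z') else 0) ≤
                p i z' * f (r - T - i) o (z - z') := by split_ifs <;> simp
            calc _ ≤ p i z' * f (r - T - i) o (z - z') := h1
              _ ≤ p i z' * (D + b i o (z - z')) := by gcongr; exact hb2 i hi _ _
              _ = p i z' * b i o (z - z') + p i z' * D := by ring
              _ ≤ _ := le_add_self
          · simp only [hp, if_false, zero_mul, add_zero]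
            have h1 : (if T + i ≤ r then p i z' * f (r - T - i) o (z - z') else 0) ≤
                p i z' * f (r - T - i) o (z - z') := by split_ifs <;> simp
            refine h1.trans ?_
            gcongr
            exact not_lt.1 hp
        · have hi' : i0 < i := by omega
          simp only [hi, hi', if_false, if_true, false_and, zero_mul, add_zero]
          split_ifs <;> simp
      calc f r o z ≤ (∑' i, ∑' z', (if T + i ≤ r then p i z' * f (r - T - i) o (z - z') else 0))
              + e r o z := hrec r hTr o z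
        _ ≤ (∑' i, ∑' z', (((if i0 < i then p i z' * f (r - T - i) o (z - z') else 0) +
            (if i ≤ i0 then th * f (r - T - i) o (z - z') else 0)) +
          ((if i ≤ i0 ∧ th < p i z' then p i z' * b i o (z - z') else 0) +
            (if i ≤ i0 ∧ th < p i z' then p i z' else 0) * D))) + e r o z := by
            gcongr with i z'
            exact hterm i z'
        _ = (((∑' i, ∑' z', (if i0 < i then p i z' * f (r - T - i) o (z - z') else 0)) +
            (∑' i, ∑' z', (if i ≤ i0 then th * f (r - T - i) o (z - z') else 0))) +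
          ((∑' i, ∑' z', (if i ≤ i0 ∧ th < p i z' then p i z' * b i o (z - z') else 0)) +
            (∑' i, ∑' z', (if i ≤ i0 ∧ th < p i z' then p i z' else 0)) * D)) + e r o z := by
            simp_rw [ENNReal.tsum_add, ENNReal.tsum_mul_right]
        _ ≤ (((∑' i, ∑' z', (if i0 < i then p i z' * f (r - T - i) o (z - z') else 0)) +
            ((i0 + 1 : ℕ) * th)) +
          ((∑' i, ∑' z', (if i ≤ i0 ∧ th < p i z' then p i z' * b i o (z - z') else 0)) + q * D))
            + e r o z := by
            gcongr
            calc ∑' i, ∑' z', (if i ≤ i0 then th * f (r - T - i) o (z - z') else 0)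
                ≤ ∑' i, (if i ≤ i0 then th else 0) := by
                  refine ENNReal.tsum_le_tsum fun i => ?_
                  split_ifs with h
                  · rw [ENNReal.tsum_mul_left]
                    have : ∑' z', f (r - T - i) o (z - z') = ∑' z', f (r - T - i) o z' :=
                      (Equiv.subLeft z).tsum_eq fun z' => f (r - T - i) o z'
                    rw [this]
                    calc th * ∑' z', f (r - T - i) o z' ≤ th * 1 := by
                          gcongr
                          exact (ENNReal.le_tsum o).trans (hf _)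
                      _ = th := mul_one _
                  · simp
              _ = ∑ i ∈ Finset.range (i0 + 1), th := by
                  rw [tsum_eq_sum (s := Finset.range (i0 + 1))]
                  · refine Finset.sum_congr rfl fun i hi => ?_
                    rw [if_pos (by have := Finset.mem_range.1 hi; omega)]
                  · intro i hi
                    rw [if_neg (by intro h; exact hi (Finset.mem_range.2 (by omega)))]
              _ = _ := by simp
        _ = ((i0 + 1 : ℕ) * th + q * D) +
            ((e r o z + (∑' i, ∑' z', (if i0 < i then p i z' * f (r - T - i) o (z - z') else 0))) +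
            ∑' i, ∑' z', (if i ≤ i0 ∧ th < p i z' then p i z' * b i o (z - z') else 0)) := by ring
        _ ≤ _ := by gcongr

end pure

variable {B G : Type*} [AddCommGroup G] (Λ : B → ℝ≥0∞) (ht : B → ℕ) (z : B → G)

lemma FP_append_right (r : ℕ) (P R : List B) (h : FP ht r (P ++ R)) (hP : HT ht P ≤ r) :
    FP ht (r - HT ht P) R := by
  obtain ⟨h1, h2⟩ := h
  rw [HT_append] at h1
  refine ⟨by omega, fun L1 L2 hL hne => ?_⟩
  have := h2 (P ++ L1) L2 (by rw [hL, List.append_assoc]) hne
  rw [HT_append] at this
  omega

open Classical in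
lemma split_FP2 (F : List B → ℝ≥0∞) (T r : ℕ) (h : T ≤ r) :
    ∑' A, (if FP ht r A then F A else 0) ≤
      (∑' P, ∑' R, (if FP ht T P ∧ FP ht (r - HT ht P) R ∧ HT ht P ≤ r then F (P ++ R) else 0)) +
      ∑' A, (if FP ht T A ∧ r < HT ht A then F A else 0) := by
  have hex : ∀ L : List B, FP ht r L → ∃ p : List B × List B, L = p.1 ++ p.2 ∧ FP ht T p.1 := by
    intro L hL
    obtain ⟨A, R, h1, h2⟩ := exists_FP ht L T (h.trans hL.1)
    exact ⟨(A, R), h1, h2⟩
  choose! p hp1 hp2 using hex
  set i : List B → List B × List B := fun L => if FP ht r L then p L else (L, []) with hi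
  have happ : ∀ L, (i L).1 ++ (i L).2 = L := by
    intro L
    by_cases hL : FP ht r L
    · simp only [hi, hL, if_true]; exact (hp1 L hL).symm
    · simp [hi, hL]
  have hinj : Function.Injective i := by
    intro L L' h
    rw [← happ L, ← happ L', h]
  rw [← ENNReal.tsum_prod]
  calc ∑' L, (if FP ht r L then F L else 0)
      ≤ ∑' L, ((fun q : List B × List B =>
          if FP ht T q.1 ∧ FP ht (r - HT ht q.1) q.2 ∧ HT ht q.1 ≤ r then F (q.1 ++ q.2) else 0)
          (i L) + (if FP ht T L ∧ r < HT ht L then F L else 0)) := by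
        refine ENNReal.tsum_le_tsum fun L => ?_
        by_cases hL : FP ht r L
        · have hT : FP ht T (i L).1 := by
            simp only [hi, hL, if_true]; exact hp2 L hL
          rw [if_pos hL]
          by_cases hr : HT ht (i L).1 ≤ r
          · refine le_trans ?_ le_self_add
            simp only [happ]
            rw [if_pos ⟨hT, FP_append_right ht r _ _ (by rw [happ]; exact hL) hr, hr⟩]
          · refine le_trans ?_ le_add_self
            have hnil : (i L).2 = [] := by
              by_contra hne
              have := hL.2 (i L).1 (i L).2 (happ L).symm hne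
              omega
            have hLe : (i L).1 = L := by
              have := happ L
              rw [hnil, List.append_nil] at this
              exact this
            rw [hLe] at hT hr
            rw [if_pos ⟨hT, by omega⟩]
        · rw [if_neg hL]; exact zero_le
    _ = _ := ENNReal.tsum_add
    _ ≤ _ := by
        gcongr
        exact ENNReal.tsum_comp_le_tsum_of_injective hinj _

open Classical in
/-- law of the first passage list of height `r`: overshoot `o`, displacement `g` -/
noncomputable def fp (Λ : B → ℝ≥0∞) (ht : B → ℕ) (z : B → G) (r o : ℕ) (g : G) : ℝ≥0∞ :=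
  ∑' A, if FP ht r A ∧ HT ht A = r + o ∧ Dp z A = g then LW Λ A else 0

open Classical in
lemma fp_sum (r : ℕ) (φ : ℕ → G → ℝ≥0∞) :
    ∑' o, ∑' g, fp Λ ht z r o g * φ o g =
      ∑' A, (if FP ht r A then LW Λ A * φ (HT ht A - r) (Dp z A) else 0) := by
  simp only [fp]
  simp_rw [← ENNReal.tsum_mul_right]
  calc ∑' o, ∑' g, ∑' A, (if FP ht r A ∧ HT ht A = r + o ∧ Dp z A = g then LW Λ A else 0) * φ o g
      = ∑' A, ∑' o, ∑' g,
          (if FP ht r A ∧ HT ht A = r + o ∧ Dp z A = g then LW Λ A else 0) * φ o g :=
        comm3 (fun A o g =>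
          (if FP ht r A ∧ HT ht A = r + o ∧ Dp z A = g then LW Λ A else 0) * φ o g)
    _ = _ := by
        refine tsum_congr fun A => ?_
        by_cases hA : FP ht r A
        · have h1 := hA.1
          rw [tsum_eq_single (HT ht A - r), tsum_eq_single (Dp z A)]
          · rw [if_pos ⟨hA, by omega, rfl⟩, if_pos hA]
          · intro g hg
            rw [if_neg (fun h => hg h.2.2.symm), zero_mul]
          · intro o ho
            have : ∀ g, (if FP ht r A ∧ HT ht A = r + o ∧ Dp z A = g then LW Λ A else 0) * φ o g
                = 0 := by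
              intro g
              rw [if_neg (fun h => ho (by have := h.2.1; omega)), zero_mul]
            simp [this]
        · have : ∀ o g, (if FP ht r A ∧ HT ht A = r + o ∧ Dp z A = g then LW Λ A else 0) * φ o g
                = 0 := by
              intro o g
              rw [if_neg (fun h => hA h.1), zero_mul]
          simp [this, hA]

lemma fp_total (h1 : ∀ b, 1 ≤ ht b) (hΛ : ∑' b, Λ b = 1) (r : ℕ) :
    ∑' o, ∑' g, fp Λ ht z r o g = 1 := by
  have := fp_sum Λ ht z r (fun _ _ => 1)
  simp only [mul_one] at this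
  rw [this]
  exact FP_mass Λ ht h1 hΛ r

open Classical in
lemma fp_over (h1 : ∀ b, 1 ≤ ht b) (hΛ : ∑' b, Λ b = 1) (r i0 : ℕ) :
    ∑' o, ∑' g, (if i0 < o then fp Λ ht z r o g else 0) ≤ ov Λ ht i0 := by
  have := fp_sum Λ ht z r (fun o _ => if i0 < o then 1 else 0)
  calc _ = ∑' o, ∑' g, fp Λ ht z r o g * (if i0 < o then 1 else 0) := by
        refine tsum_congr fun o => tsum_congr fun g => ?_
        split_ifs <;> simp
    _ = _ := this
    _ ≤ ∑' L, (if FP ht r L ∧ r + i0 < HT ht L then LW Λ L else 0) := by
        refine ENNReal.tsum_le_tsum fun L => ?_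
        by_cases hL : FP ht r L
        · by_cases h2 : i0 < HT ht L - r
          · rw [if_pos hL, if_pos h2, if_pos ⟨hL, by omega⟩, mul_one]
          · rw [if_pos hL, if_neg h2, mul_zero]; exact zero_le
        · rw [if_neg hL]; exact zero_le
    _ ≤ _ := over_le Λ ht h1 hΛ r i0

open Classical in
lemma fp_rec (T r : ℕ) (hTr : T ≤ r) (o : ℕ) (g : G) :
    fp Λ ht z r o g ≤
      (∑' i, ∑' g', if T + i ≤ r then fp Λ ht z T i g' * fp Λ ht z (r - T - i) o (g - g') else 0) +
      ∑' A, (if FP ht T A ∧ r < HT ht A then
        (if HT ht A = r + o ∧ Dp z A = g then LW Λ A else 0) else 0) := by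
  have h0 : fp Λ ht z r o g = ∑' A, (if FP ht r A then
      (fun A => if HT ht A = r + o ∧ Dp z A = g then LW Λ A else 0) A else 0) := by
    rw [fp]
    refine tsum_congr fun A => ?_
    by_cases hA : FP ht r A <;> simp [hA]
  rw [h0]
  refine (split_FP2 ht _ T r hTr).trans ?_
  gcongr
  have e1 : (∑' i, ∑' g', if T + i ≤ r then
      fp Λ ht z T i g' * fp Λ ht z (r - T - i) o (g - g') else 0) =
      ∑' i, ∑' g', fp Λ ht z T i g' *
        (if T + i ≤ r then fp Λ ht z (r - T - i) o (g - g') else 0) := by
    refine tsum_congr fun i => tsum_congr fun g' => ?_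
    split_ifs <;> simp
  rw [e1, fp_sum Λ ht z T (fun i g' => if T + i ≤ r then fp Λ ht z (r - T - i) o (g - g') else 0)]
  refine ENNReal.tsum_le_tsum fun P => ?_
  by_cases hP : FP ht T P
  · rw [if_pos hP]
    have hTP := hP.1
    by_cases hr : HT ht P ≤ r
    · rw [if_pos (by omega), show r - T - (HT ht P - T) = r - HT ht P by omega, fp,
        ← ENNReal.tsum_mul_left]
      refine ENNReal.tsum_le_tsum fun R => ?_
      by_cases hR : FP ht (r - HT ht P) R
      · rw [if_pos ⟨hP, hR, hr⟩, HT_append, Dp_append, LW_append]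
        by_cases h3 : HT ht P + HT ht R = r + o ∧ Dp z P + Dp z R = g
        · rw [if_pos h3, if_pos ⟨hR, by omega, by rw [← h3.2]; abel⟩]
        · rw [if_neg h3]; exact zero_le
      · rw [if_neg (fun h => hR h.2.1)]; exact zero_le
    · have : ∀ R, (if FP ht T P ∧ FP ht (r - HT ht P) R ∧ HT ht P ≤ r then
          (fun A => if HT ht A = r + o ∧ Dp z A = g then LW Λ A else 0) (P ++ R) else 0) = 0 :=
        fun R => if_neg (fun h => hr h.2.2)
      simp only [this, tsum_zero]
      exact zero_le
  · have : ∀ R, (if FP ht T P ∧ FP ht (r - HT ht P) R ∧ HT ht P ≤ r then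
          (fun A => if HT ht A = r + o ∧ Dp z A = g then LW Λ A else 0) (P ++ R) else 0) = 0 :=
        fun R => if_neg (fun h => hP h.1)
    simp only [this, tsum_zero]
    exact zero_le

open Classical in
/-- **density of the first passage tops** -/
theorem top_dens (h1 : ∀ b, 1 ≤ ht b) (hΛ : ∑' b, Λ b = 1) (T i0 : ℕ) (th u : ℝ≥0∞)
    (hu0 : u ≠ 0) (hu1 : u ≤ 1)
    (hth : u ≤ ∑' o, ∑' g, (if fp Λ ht z T o g ≤ th then fp Λ ht z T o g else 0)) (J r : ℕ)
    (hJ : J * (T + i0) ≤ r) :
    ∃ b : ℕ → G → ℝ≥0∞, (∑' o, ∑' g, b o g ≤ (1 - u) ^ J + J * (ov Λ ht i0 + ov Λ ht i0)) ∧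
      ∀ o g, fp Λ ht z r o g ≤ ((i0 + 1 : ℕ) * th) / u + b o g := by
  have hut : u ≠ ⊤ := ne_top_of_le_ne_top ENNReal.one_ne_top hu1
  refine dens2 (fp Λ ht z T) (fun r o g => fp Λ ht z r o g)
    (fun r o g => ∑' A, (if FP ht T A ∧ r < HT ht A then
        (if HT ht A = r + o ∧ Dp z A = g then LW Λ A else 0) else 0)) T i0 th (1 - u)
    (ov Λ ht i0) _ ?_ ?_ ?_ ?_ ?_ tsub_le_self ?_ J r hJ
  · intro r hr o g
    exact fp_rec Λ ht z T r (by omega) o g
  · intro r hr
    refine le_trans ?_ (over_le Λ ht h1 hΛ T i0)
    calc _ = ∑' A, ∑' o, ∑' g, (if FP ht T A ∧ r < HT ht A then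
          (if HT ht A = r + o ∧ Dp z A = g then LW Λ A else 0) else 0) :=
          comm3 (fun A o g => if FP ht T A ∧ r < HT ht A then
            (if HT ht A = r + o ∧ Dp z A = g then LW Λ A else 0) else 0)
      _ ≤ _ := by
          refine ENNReal.tsum_le_tsum fun A => ?_
          by_cases hA : FP ht T A ∧ r < HT ht A
          · rw [tsum_eq_single (HT ht A - r), tsum_eq_single (Dp z A)]
            · rw [if_pos hA]
              rw [if_pos (show FP ht T A ∧ T + i0 < HT ht A from ⟨hA.1, by omega⟩)]
              split_ifs <;> simp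
            · intro g hg
              rw [if_pos hA, if_neg (fun h => hg h.2.symm)]
            · intro o ho
              have : ∀ g, (if FP ht T A ∧ r < HT ht A then
                  (if HT ht A = r + o ∧ Dp z A = g then LW Λ A else 0) else 0) = (0 : ℝ≥0∞) := by
                intro g
                rw [if_pos hA, if_neg (fun h => ho (by have := h.1; omega))]
              simp only [this, tsum_zero]
          · simp [hA]
  · intro r
    exact (fp_total Λ ht z h1 hΛ r).le
  · exact fp_over Λ ht z h1 hΛ T i0
  · -- big part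
    have htot := fp_total Λ ht z h1 hΛ T
    have hsplit : (∑' o, ∑' g, (if fp Λ ht z T o g ≤ th then fp Λ ht z T o g else 0)) +
        (∑' o, ∑' g, (if th < fp Λ ht z T o g then fp Λ ht z T o g else 0)) = 1 := by
      rw [← htot, ← ENNReal.tsum_add]
      refine tsum_congr fun o => ?_
      rw [← ENNReal.tsum_add]
      refine tsum_congr fun g => ?_
      by_cases h : fp Λ ht z T o g ≤ th
      · simp [h, not_lt.2 h]
      · simp [h, not_le.1 h]
    calc _ ≤ ∑' o, ∑' g, (if th < fp Λ ht z T o g then fp Λ ht z T o g else 0) := by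
          refine ENNReal.tsum_le_tsum fun o => ENNReal.tsum_le_tsum fun g => ?_
          by_cases h : th < fp Λ ht z T o g
          · rw [if_pos h]; split_ifs <;> simp
          · rw [if_neg (fun h' => h h'.2)]; exact zero_le
      _ ≤ 1 - u := by
          refine ENNReal.le_sub_of_add_le_left hut ?_
          rw [← hsplit]
          gcongr
  · -- the constant
    have hD : u * (((i0 + 1 : ℕ) * th) / u) = (i0 + 1 : ℕ) * th := by
      rw [ENNReal.mul_div_cancel hu0 hut]
    calc ((i0 + 1 : ℕ) : ℝ≥0∞) * th + (1 - u) * (((i0 + 1 : ℕ) * th) / u)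
        = u * (((i0 + 1 : ℕ) * th) / u) + (1 - u) * (((i0 + 1 : ℕ) * th) / u) := by rw [hD]
      _ = (u + (1 - u)) * (((i0 + 1 : ℕ) * th) / u) := by rw [add_mul]
      _ = _ := by rw [add_tsub_cancel_of_le hu1, one_mul]
      _ ≤ _ := le_rfl

end Crest.Agent.R154.Asm817
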