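import Crest.Agent.R154.AsmA_819
import Crest.Agent.R154.KWBind_419

/-! Row 154, road 801: quantile, local sets, one-walker splitting, traces (helper819). -/

set_option autoImplicit false

namespace Crest.Agent.R154.Asm819

open Crest.Agent.R154.B5A
open Crest.Agent.R154.KWB419 (TT)
open scoped ENNReal
open Classical

variable {B G : Type*} [AddCommGroup G]

section one

variable (Λ : B → ℝ≥0∞) (ht : B → ℕ) (z : B → G)

lemma HT_FP (h1 : ∀ b, 1 ≤ ht b) : ∀ (L : List B), FP ht (HT ht L) L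
  | [] => by simp [FP, HT_nil]
  | x :: L => by
      have := h1 x
      refine ⟨by rw [HT_cons]; omega, ?_⟩
      rw [HT_cons]
      rw [Nat.add_sub_cancel_left]
      exact HT_FP h1 L

lemma U_le_one (h1 : ∀ b, 1 ≤ ht b) (hΛ : ∑' b, Λ b = 1) (n : ℕ) : U Λ ht n ≤ 1 := by
  rw [← FP_mass Λ ht h1 hΛ n, U]
  refine ENNReal.tsum_le_tsum fun L => ?_
  by_cases h : HT ht L = n
  · rw [if_pos h, if_pos (by rw [← h]; exact HT_FP ht h1 L)]
  · rw [if_neg h]; exact zero_le

/-- mass of the pieces of density at most `th` -/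
noncomputable def lm (h0 : ℕ) (th : ℝ≥0∞) : ℝ≥0∞ :=
  ∑' P : List B, (if FP ht h0 P ∧ pl Λ ht z h0 (HT ht P) (Dp z P) ≤ th then LW Λ P else 0)

lemma le_pl (h0 : ℕ) (P : List B) (hP : FP ht h0 P) :
    LW Λ P ≤ pl Λ ht z h0 (HT ht P) (Dp z P) := by
  rw [pl]
  refine le_trans ?_ (ENNReal.le_tsum P)
  rw [if_pos ⟨hP, rfl, rfl⟩]

lemma pl_sum (h1 : ∀ b, 1 ≤ ht b) (hΛ : ∑' b, Λ b = 1) (h0 k : ℕ) :
    ∑' x, pl Λ ht z h0 k x ≤ 1 := by
  simp only [pl]
  rw [ENNReal.tsum_comm, ← FP_mass Λ ht h1 hΛ h0]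
  refine ENNReal.tsum_le_tsum fun P => ?_
  rw [tsum_eq_single (Dp z P)]
  · by_cases h : FP ht h0 P
    · rw [if_pos h]; split_ifs <;> simp
    · rw [if_neg h, if_neg (fun h' => h h'.1)]
  · intro x hx
    rw [if_neg (fun h' => hx h'.2.2.symm)]

lemma pl_le_one (h1 : ∀ b, 1 ≤ ht b) (hΛ : ∑' b, Λ b = 1) (h0 k : ℕ) (x : G) :
    pl Λ ht z h0 k x ≤ 1 := (ENNReal.le_tsum x).trans (pl_sum Λ ht z h1 hΛ h0 k)

lemma lm_small (h1 : ∀ b, 1 ≤ ht b) (hΛ : ∑' b, Λ b = 1) (h0 : ℕ) (u : ℝ≥0∞) (hu : u ≠ 0) :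
    ∃ k : ℕ, lm Λ ht z h0 (2⁻¹ ^ k) < u := by
  set f : List B → ℝ≥0∞ := fun P => if FP ht h0 P then LW Λ P else 0 with hf
  have hsum : ∑' P, f P = 1 := FP_mass Λ ht h1 hΛ h0
  have h := ENNReal.tendsto_tsum_compl_atTop_zero (f := f) (by rw [hsum]; exact ENNReal.one_ne_top)
  have h2 := h.eventually_lt_const (pos_iff_ne_zero.2 hu)
  obtain ⟨S, hS⟩ := h2.exists
  have hk : ∀ P : List B, ∃ k : ℕ, LW Λ P ≠ 0 → (2⁻¹ : ℝ≥0∞) ^ k < LW Λ P := by
    intro P
    by_cases hP : LW Λ P = 0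
    · exact ⟨0, fun h => absurd hP h⟩
    · obtain ⟨k, hk⟩ := ENNReal.exists_inv_two_pow_lt hP
      exact ⟨k, fun _ => hk⟩
  choose g hg using hk
  refine ⟨S.sup g, lt_of_le_of_lt ?_ hS⟩
  have e := tsum_subtype ({x | x ∉ S} : Set (List B)) f
  refine le_trans ?_ e.symm.le
  rw [lm]
  refine ENNReal.tsum_le_tsum fun P => ?_
  by_cases hP : FP ht h0 P ∧ pl Λ ht z h0 (HT ht P) (Dp z P) ≤ 2⁻¹ ^ S.sup g
  swap
  · rw [if_neg hP]; exact zero_le
  rw [if_pos hP]
  by_cases hS' : P ∈ S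
  · have : LW Λ P = 0 := by
      by_contra hne
      have h3 := hg P hne
      have h4 : (2⁻¹ : ℝ≥0∞) ^ S.sup g ≤ 2⁻¹ ^ g P :=
        pow_le_pow_of_le_one zero_le (by norm_num) (Finset.le_sup hS')
      exact absurd ((le_pl Λ ht z h0 P hP.1).trans (hP.2.trans h4)) (not_le.2 h3)
    rw [this]; exact zero_le
  · rw [Set.indicator_of_mem (by exact hS')]
    simp [hf, hP.1]

lemma quant (h1 : ∀ b, 1 ≤ ht b) (hΛ : ∑' b, Λ b = 1) (h0 : ℕ) (u : ℝ≥0∞) (hu : u ≠ 0)
    (hu1 : u ≤ 1) : ∃ k : ℕ, 1 ≤ k ∧ lm Λ ht z h0 (2⁻¹ ^ k) ≤ u ∧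
      u ≤ lm Λ ht z h0 (2⁻¹ ^ (k - 1)) := by
  have hex := lm_small Λ ht z h1 hΛ h0 u hu
  have hk := Nat.find_spec hex
  have h0' : ¬ lm Λ ht z h0 (2⁻¹ ^ 0) < u := by
    rw [pow_zero, not_lt]
    refine hu1.trans ((FP_mass Λ ht h1 hΛ h0).symm.le.trans ?_)
    rw [lm]
    refine ENNReal.tsum_le_tsum fun P => ?_
    by_cases h : FP ht h0 P
    · rw [if_pos h, if_pos ⟨h, pl_le_one Λ ht z h1 hΛ _ _ _⟩]
    · rw [if_neg h]; exact zero_le
  have hk1 : 1 ≤ Nat.find hex := by
    rcases Nat.eq_zero_or_pos (Nat.find hex) with h | h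
    · rw [h] at hk; exact absurd hk h0'
    · exact h
  refine ⟨Nat.find hex, hk1, hk.le, ?_⟩
  have := Nat.find_min hex (m := Nat.find hex - 1) (by omega)
  exact not_lt.1 this

lemma high_mass (h1 : ∀ b, 1 ≤ ht b) (hΛ : ∑' b, Λ b = 1) (h0 : ℕ) (u th : ℝ≥0∞)
    (hu1 : u ≤ 1) (hu : u ≤ lm Λ ht z h0 th) :
    ∑' P : List B, (if FP ht h0 P ∧ ¬ pl Λ ht z h0 (HT ht P) (Dp z P) ≤ th
      then LW Λ P else 0) ≤ 1 - u := by
  refine ENNReal.le_sub_of_add_le_right (ne_top_of_le_ne_top ENNReal.one_ne_top hu1) ?_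
  refine (add_le_add_right hu _).trans ?_
  rw [lm, ← ENNReal.tsum_add, ← FP_mass Λ ht h1 hΛ h0]
  refine ENNReal.tsum_le_tsum fun P => ?_
  by_cases h : FP ht h0 P
  · by_cases h2 : pl Λ ht z h0 (HT ht P) (Dp z P) ≤ th
    · simp [h, h2]
    · simp [h, h2]
  · simp [h]

lemma loc_fin (h1 : ∀ b, 1 ≤ ht b) (hΛ : ∑' b, Λ b = 1) (h0 h k : ℕ) :
    ∃ E : Finset G, (∀ x, 2⁻¹ ^ k < pl Λ ht z h0 h x → x ∈ E) ∧
      (E.card : ℝ≥0∞) ≤ 2 ^ k := by
  have hne : (2⁻¹ : ℝ≥0∞) ^ k ≠ 0 := by simp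
  obtain ⟨hf, hc⟩ := ENNReal.finset_card_const_le_le_of_tsum_le (a := pl Λ ht z h0 h)
    ENNReal.one_ne_top (pl_sum Λ ht z h1 hΛ h0 h) hne
  refine ⟨hf.toFinset, fun x hx => ?_, hc.trans ?_⟩
  · rw [Set.Finite.mem_toFinset]
    exact hx.le
  · rw [one_div, ENNReal.inv_pow, inv_inv]

/-- good top part -/
def OKA (b h0 i0 J : ℕ) (th : ℝ≥0∞) (A : List B) : Prop :=
  FP ht b A ∧ HT ht A ≤ b + i0 ∧ Good Λ ht z h0 i0 th J A

/-- good piece -/
def OKP (h0 i0 : ℕ) (P : List B) : Prop := FP ht h0 P ∧ HT ht P ≤ h0 + i0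

lemma rest_le (h1 : ∀ b, 1 ≤ ht b) (hΛ : ∑' b, Λ b = 1) (n : ℕ) (f : List B → ℝ≥0∞)
    (hf : ∀ L, f L ≤ 1) :
    ∑' R : List B, (if HT ht R = n then LW Λ R * f R else 0) ≤ 1 := by
  refine le_trans (ENNReal.tsum_le_tsum fun R => ?_) (U_le_one Λ ht h1 hΛ n)
  by_cases h : HT ht R = n
  · rw [if_pos h, if_pos h]
    calc LW Λ R * f R ≤ LW Λ R * 1 := mul_le_mul_right (hf R) _
      _ = _ := mul_one _
  · rw [if_neg h, if_neg h]

lemma ow (h1 : ∀ b, 1 ≤ ht b) (hΛ : ∑' b, Λ b = 1) (b h0 i0 J : ℕ) (th q : ℝ≥0∞)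
    (hq : ∑' P : List B, (if FP ht h0 P ∧ ¬ pl Λ ht z h0 (HT ht P) (Dp z P) ≤ th
      then LW Λ P else 0) ≤ q) (hq1 : q ≤ 1) (hJ : J * (h0 + i0) ≤ b)
    (n : ℕ) (hn : b + i0 + h0 ≤ n) (f : List B → ℝ≥0∞) (hf : ∀ L, f L ≤ 1) :
    ∑' L : List B, (if HT ht L = n then LW Λ L * f L else 0) ≤
      (ov Λ ht i0 + (q ^ J + J * ov Λ ht i0) + ov Λ ht i0)
      + ∑' A : List B, ∑' P : List B, (if OKA Λ ht z b h0 i0 J th A ∧ OKP ht h0 i0 P then
          LW Λ A * LW Λ P * (∑' R : List B, if HT ht R = n - HT ht A - HT ht P then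
            LW Λ R * f (A ++ (P ++ R)) else 0) else 0) := by
  set e := ov Λ ht i0 with he
  have hs1 : ∑' L : List B, (if HT ht L = n then LW Λ L * f L else 0)
      ≤ ∑' A : List B, ∑' R : List B, (if FP ht b A then
        (if HT ht (A ++ R) = n then LW Λ (A ++ R) * f (A ++ R) else 0) else 0) := by
    refine le_trans (ENNReal.tsum_le_tsum fun L => ?_) (split_le ht b
      (fun L => if HT ht L = n then LW Λ L * f L else 0))
    by_cases h : b ≤ HT ht L
    · rw [if_pos h]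
    · rw [if_neg h, if_neg]
      omega
  refine hs1.trans ?_
  have hA : ∀ A : List B, ∑' R : List B, (if FP ht b A then
        (if HT ht (A ++ R) = n then LW Λ (A ++ R) * f (A ++ R) else 0) else 0)
      ≤ (if FP ht b A ∧ b + i0 < HT ht A then LW Λ A else 0)
        + (if FP ht b A ∧ ¬ Good Λ ht z h0 i0 th J A then LW Λ A else 0)
        + (if FP ht b A then LW Λ A else 0) * e
        + ∑' P : List B, (if OKA Λ ht z b h0 i0 J th A ∧ OKP ht h0 i0 P then
          LW Λ A * LW Λ P * (∑' R : List B, if HT ht R = n - HT ht A - HT ht P then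
            LW Λ R * f (A ++ (P ++ R)) else 0) else 0) := by
    intro A
    by_cases hF : FP ht b A
    swap
    · simp only [if_neg hF, tsum_zero]; exact zero_le
    simp only [if_pos hF]
    have hre : ∀ R : List B, (if HT ht (A ++ R) = n then LW Λ (A ++ R) * f (A ++ R) else 0)
        ≤ LW Λ A * (if HT ht R = n - HT ht A then LW Λ R * f (A ++ R) else 0) := by
      intro R
      by_cases h : HT ht (A ++ R) = n
      · rw [if_pos h, if_pos (by rw [HT_append] at h; omega), LW_append, mul_assoc]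
      · rw [if_neg h]; exact zero_le
    refine (ENNReal.tsum_le_tsum hre).trans ?_
    rw [ENNReal.tsum_mul_left]
    by_cases hok : HT ht A ≤ b + i0 ∧ Good Λ ht z h0 i0 th J A
    swap
    · have hle : LW Λ A * (∑' R : List B, if HT ht R = n - HT ht A then LW Λ R * f (A ++ R)
          else 0) ≤ LW Λ A := by
        calc _ ≤ LW Λ A * 1 := mul_le_mul_right (rest_le Λ ht h1 hΛ _ (fun R => f (A ++ R))
              (fun R => hf _)) _
          _ = _ := mul_one _
      refine hle.trans ?_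
      rcases not_and_or.1 hok with h | h
      · rw [if_pos ⟨hF, not_le.1 h⟩]
        exact le_add_right (le_add_right (le_add_right le_rfl))
      · rw [if_pos (⟨hF, h⟩ : FP ht b A ∧ ¬ Good Λ ht z h0 i0 th J A)]
        exact le_add_right (le_add_right (le_add_left le_rfl))
    · -- split the rest
      have hOKA : OKA Λ ht z b h0 i0 J th A := ⟨hF, hok.1, hok.2⟩
      have hs2 : ∑' R : List B, (if HT ht R = n - HT ht A then LW Λ R * f (A ++ R) else 0)
          ≤ ∑' P : List B, ∑' R : List B, (if FP ht h0 P then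
            (if HT ht (P ++ R) = n - HT ht A then LW Λ (P ++ R) * f (A ++ (P ++ R)) else 0)
            else 0) := by
        refine le_trans (ENNReal.tsum_le_tsum fun L => ?_) (split_le ht h0
          (fun R => if HT ht R = n - HT ht A then LW Λ R * f (A ++ R) else 0))
        by_cases h : h0 ≤ HT ht L
        · rw [if_pos h]
        · rw [if_neg h, if_neg]
          omega
      have hP : ∀ P : List B, ∑' R : List B, (if FP ht h0 P then
            (if HT ht (P ++ R) = n - HT ht A then LW Λ (P ++ R) * f (A ++ (P ++ R)) else 0)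
            else 0)
          ≤ (if FP ht h0 P ∧ h0 + i0 < HT ht P then LW Λ P else 0)
            + (if OKP ht h0 i0 P then LW Λ P * (∑' R : List B,
              if HT ht R = n - HT ht A - HT ht P then
                LW Λ R * f (A ++ (P ++ R)) else 0) else 0) := by
        intro P
        by_cases hFP : FP ht h0 P
        swap
        · simp only [if_neg hFP, tsum_zero]; exact zero_le
        simp only [if_pos hFP]
        have hre : ∀ R : List B, (if HT ht (P ++ R) = n - HT ht A then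
            LW Λ (P ++ R) * f (A ++ (P ++ R)) else 0)
            ≤ LW Λ P * (if HT ht R = n - HT ht A - HT ht P then LW Λ R * f (A ++ (P ++ R))
              else 0) := by
          intro R
          by_cases h : HT ht (P ++ R) = n - HT ht A
          · rw [if_pos h, if_pos (by rw [HT_append] at h; omega), LW_append, mul_assoc]
          · rw [if_neg h]; exact zero_le
        refine (ENNReal.tsum_le_tsum hre).trans ?_
        rw [ENNReal.tsum_mul_left]
        by_cases h : HT ht P ≤ h0 + i0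
        · rw [if_pos (show OKP ht h0 i0 P from ⟨hFP, h⟩)]
          exact le_add_left le_rfl
        · rw [if_pos ⟨hFP, not_le.1 h⟩]
          refine le_add_right ?_
          calc _ ≤ LW Λ P * 1 := mul_le_mul_right (rest_le Λ ht h1 hΛ _
                (fun R => f (A ++ (P ++ R))) (fun R => hf _)) _
            _ = _ := mul_one _
      calc LW Λ A * (∑' R : List B, if HT ht R = n - HT ht A then LW Λ R * f (A ++ R) else 0)
          ≤ LW Λ A * (∑' P : List B, ((if FP ht h0 P ∧ h0 + i0 < HT ht P then LW Λ P else 0)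
            + (if OKP ht h0 i0 P then LW Λ P * (∑' R : List B,
              if HT ht R = n - HT ht A - HT ht P then
                LW Λ R * f (A ++ (P ++ R)) else 0) else 0))) :=
            mul_le_mul_right (hs2.trans (ENNReal.tsum_le_tsum hP)) _
        _ ≤ LW Λ A * e + ∑' P : List B, (if OKA Λ ht z b h0 i0 J th A ∧ OKP ht h0 i0 P then
          LW Λ A * LW Λ P * (∑' R : List B, if HT ht R = n - HT ht A - HT ht P then
            LW Λ R * f (A ++ (P ++ R)) else 0) else 0) := by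
            rw [ENNReal.tsum_add, mul_add]
            refine add_le_add (mul_le_mul_right (ov_le Λ ht h1 hΛ i0 h0) _) ?_
            rw [← ENNReal.tsum_mul_left]
            refine ENNReal.tsum_le_tsum fun P => ?_
            by_cases h : OKP ht h0 i0 P
            · rw [if_pos h, if_pos ⟨hOKA, h⟩, mul_assoc]
            · rw [if_neg h, mul_zero]; exact zero_le
        _ ≤ _ := by
            rw [add_assoc]
            exact le_add_left le_rfl
  refine (ENNReal.tsum_le_tsum hA).trans ?_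
  rw [ENNReal.tsum_add, ENNReal.tsum_add, ENNReal.tsum_add, ENNReal.tsum_mul_right,
    FP_mass Λ ht h1 hΛ, one_mul]
  refine add_le_add (add_le_add (add_le_add (ov_le Λ ht h1 hΛ i0 b)
    (good_mass Λ ht z h1 hΛ h0 i0 th q hq hq1 J b hJ)) le_rfl) le_rfl

end one

section tr

variable (s : B → Set (G × ℕ)) (ht : B → ℕ) (z : B → G)

lemma TT_append (L L' : List B) (x : G) (a : ℕ) :
    TT s ht z (L ++ L') x a = TT s ht z L x a ∪ TT s ht z L' (x + Dp z L) (a + HT ht L) := by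
  induction L generalizing x a with
  | nil => simp [TT, Dp, HT_nil]
  | cons b L ih =>
    simp only [List.cons_append, TT, ih, Set.union_assoc, HT_cons, Dp, List.map_cons,
      List.sum_cons, add_assoc]

lemma TT_depth (hs : ∀ b q, q ∈ s b → 1 ≤ q.2 ∧ q.2 ≤ ht b) (L : List B) (x : G) (a : ℕ)
    (p : G × ℕ) (h : p ∈ TT s ht z L x a) : a < p.2 ∧ p.2 ≤ a + HT ht L := by
  induction L generalizing x a with
  | nil => simp [TT] at h
  | cons b L ih =>
    rw [HT_cons]
    rcases h with ⟨q, hq, rfl⟩ | h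
    · have := hs b q hq
      simp only
      omega
    · have := ih _ _ h
      omega

lemma TT_shift (c : G) (L : List B) (x : G) (a : ℕ) (y : G) (k : ℕ)
    (h : (y, k) ∈ TT s ht z L (x + c) a) : (y - c, k) ∈ TT s ht z L x a := by
  induction L generalizing x a with
  | nil => simp [TT] at h
  | cons b L ih =>
    rcases h with ⟨q, hq, e⟩ | h
    · left
      refine ⟨q, hq, ?_⟩
      simp only [Prod.mk.injEq] at e ⊢
      exact ⟨by rw [e.1]; abel, e.2⟩
    · right
      refine ih _ _ ?_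
      rwa [show x + z b + c = x + c + z b by abel]

end tr

end Crest.Agent.R154.Asm819
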