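import Crest.Agent.R154.B5Abs_566

/-! Row 154 (helper480), ROAD 801: the single-walker renewal package on lists of blocks:
first renewal at or above a level, Markov property, overshoot, smoothing of the displacement,
dyadic quantile. -/

set_option autoImplicit false

namespace Crest.Agent.R154.Ren480

open scoped ENNReal Topology
open Crest.Agent.R154.B5A Filter

variable {B G : Type*} (Λ : B → ℝ≥0∞) (ht : B → ℕ)

/-- `L` stops at the first renewal `≥ T` (every proper prefix has height `< T`). -/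
def Stp : ℕ → List B → Prop
  | T, [] => T = 0
  | T, b :: L => 0 < T ∧ Stp (T - ht b) L

lemma Stp_nil (T : ℕ) : Stp ht T [] ↔ T = 0 := Iff.rfl

lemma Stp_cons (T : ℕ) (b : B) (L : List B) : Stp ht T (b :: L) ↔ 0 < T ∧ Stp ht (T - ht b) L :=
  Iff.rfl

lemma Stp_le : ∀ (L : List B) (T : ℕ), Stp ht T L → T ≤ HT ht L
  | [], T, h => by rw [Stp_nil] at h; omega
  | b :: L, T, h => by
    have := Stp_le L _ h.2
    rw [HT_cons]; omega

/-- a stopped list: heights of the proper prefixes are `< T` -/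
lemma Stp_prefix : ∀ (L1 L2 : List B) (T : ℕ), L2 ≠ [] → Stp ht T (L1 ++ L2) → HT ht L1 < T
  | [], L2, T, h2, h => by
    cases L2 with
    | nil => exact absurd rfl h2
    | cons b L => rw [HT_nil]; exact h.1
  | b :: L1, L2, T, h2, h => by
    have := Stp_prefix L1 L2 _ h2 h.2
    rw [HT_cons]; omega

/-- conversely -/
lemma Stp_of : ∀ (L : List B) (T : ℕ), T ≤ HT ht L →
    (∀ L1 L2 : List B, L = L1 ++ L2 → L2 ≠ [] → HT ht L1 < T) → Stp ht T L
  | [], T, h, _ => by rw [Stp_nil]; rw [HT_nil] at h; omega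
  | b :: L, T, h, hp => by
    have h0 : 0 < T := by
      have := hp [] (b :: L) rfl (by simp)
      rwa [HT_nil] at this
    refine ⟨h0, Stp_of L _ (by rw [HT_cons] at h; omega) fun L1 L2 he h2 => ?_⟩
    have := hp (b :: L1) L2 (by rw [he]; rfl) h2
    rw [HT_cons] at this
    rcases Nat.lt_or_ge (ht b) T with h' | h'
    · omega
    · omega

open Classical in
/-- expectation over the stopped lists -/
noncomputable def AT (T : ℕ) (F : List B → ℝ≥0∞) : ℝ≥0∞ :=
  ∑' L : List B, if Stp ht T L then LW Λ L * F L else 0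

lemma AT_zero (F : List B → ℝ≥0∞) : AT Λ ht 0 F = F [] := by
  rw [AT, tsum_list]
  simp [Stp, LW_nil]

lemma AT_pos {T : ℕ} (hT : 0 < T) (F : List B → ℝ≥0∞) :
    AT Λ ht T F = ∑' b, Λ b * AT Λ ht (T - ht b) (fun L => F (b :: L)) := by
  rw [AT, tsum_list]
  rw [if_neg (by rw [Stp_nil]; omega), zero_add]
  refine tsum_congr fun b => ?_
  rw [AT, ← ENNReal.tsum_mul_left]
  refine tsum_congr fun L => ?_
  rw [Stp_cons]
  by_cases h : Stp ht (T - ht b) L
  · rw [if_pos ⟨hT, h⟩, if_pos h, LW_cons, mul_assoc]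
  · rw [if_neg (fun h' => h h'.2), if_neg h, mul_zero]

lemma AT_mono (T : ℕ) {F F' : List B → ℝ≥0∞} (h : ∀ L, Stp ht T L → F L ≤ F' L) :
    AT Λ ht T F ≤ AT Λ ht T F' := by
  classical
  refine ENNReal.tsum_le_tsum fun L => ?_
  by_cases hL : Stp ht T L
  · rw [if_pos hL, if_pos hL]; exact mul_le_mul_right (h L hL) _
  · rw [if_neg hL, if_neg hL]

lemma AT_congr (T : ℕ) {F F' : List B → ℝ≥0∞} (h : ∀ L, Stp ht T L → F L = F' L) :
    AT Λ ht T F = AT Λ ht T F' :=
  le_antisymm (AT_mono Λ ht T fun L hL => (h L hL).le) (AT_mono Λ ht T fun L hL => (h L hL).ge)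

lemma AT_tsum {ι : Type*} (T : ℕ) (F : ι → List B → ℝ≥0∞) :
    AT Λ ht T (fun L => ∑' i, F i L) = ∑' i, AT Λ ht T (F i) := by
  classical
  simp only [AT]
  rw [ENNReal.tsum_comm]
  refine tsum_congr fun L => ?_
  by_cases hL : Stp ht T L
  · simp only [if_pos hL]; rw [ENNReal.tsum_mul_left]
  · simp only [if_neg hL]; simp

lemma AT_add (T : ℕ) (F F' : List B → ℝ≥0∞) :
    AT Λ ht T (fun L => F L + F' L) = AT Λ ht T F + AT Λ ht T F' := by
  classical
  simp only [AT]
  rw [← ENNReal.tsum_add]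
  refine tsum_congr fun L => ?_
  by_cases hL : Stp ht T L
  · simp only [if_pos hL]; rw [mul_add]
  · simp only [if_neg hL]; simp

lemma AT_mul (T : ℕ) (c : ℝ≥0∞) (F : List B → ℝ≥0∞) :
    AT Λ ht T (fun L => c * F L) = c * AT Λ ht T F := by
  classical
  simp only [AT]
  rw [← ENNReal.tsum_mul_left]
  refine tsum_congr fun L => ?_
  by_cases hL : Stp ht T L
  · simp only [if_pos hL]; ring
  · simp only [if_neg hL]; simp

lemma AT_one (hΛ : ∑' b, Λ b = 1) (h1 : ∀ b, 1 ≤ ht b) (T : ℕ) :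
    AT Λ ht T (fun _ => 1) = 1 := by
  induction T using Nat.strong_induction_on with
  | _ T ih =>
    rcases Nat.eq_zero_or_pos T with h | h
    · subst h; rw [AT_zero]
    · rw [AT_pos Λ ht h]
      have : ∀ b, Λ b * AT Λ ht (T - ht b) (fun _ => 1) = Λ b := fun b => by
        rw [ih _ (by have := h1 b; omega), mul_one]
      rw [tsum_congr this, hΛ]

/-- **Markov property**: stop first at `S`, then go on. -/
lemma AT_split (h1 : ∀ b, 1 ≤ ht b) : ∀ (S T : ℕ), S ≤ T → ∀ F : List B → ℝ≥0∞,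
    AT Λ ht T F = AT Λ ht S (fun L1 => AT Λ ht (T - HT ht L1) (fun L2 => F (L1 ++ L2))) := by
  intro S
  induction S using Nat.strong_induction_on with
  | _ S ih =>
    intro T hST F
    rcases Nat.eq_zero_or_pos S with h | h
    · subst h
      rw [AT_zero, HT_nil]
      rfl
    · rw [AT_pos Λ ht h, AT_pos Λ ht (lt_of_lt_of_le h hST)]
      refine tsum_congr fun b => ?_
      congr 1
      rw [ih (S - ht b) (by have := h1 b; omega) (T - ht b) (by omega)]
      refine AT_congr Λ ht _ fun L1 _ => ?_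
      rw [HT_cons, Nat.sub_sub]
      rfl

/-! ### overshoot -/

open Classical in
/-- **overshoot**: the first renewal `≥ T` is `> T + i0` with small probability -/
lemma overshoot (hΛ : ∑' b, Λ b = 1) (h1 : ∀ b, 1 ≤ ht b) (i0 : ℕ) (T : ℕ) :
    AT Λ ht T (fun L => if T + i0 < HT ht L then 1 else 0) ≤
      ∑ i ∈ Finset.range T, ∑' b, Λ b * (if (i + 1) + i0 < ht b then 1 else 0) := by
  induction T using Nat.strong_induction_on with
  | _ T ih =>
    rcases Nat.eq_zero_or_pos T with h | h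
    · subst h; rw [AT_zero]; simp [HT_nil]
    · obtain ⟨T', rfl⟩ : ∃ T', T = T' + 1 := ⟨T - 1, by omega⟩
      rw [AT_pos Λ ht h, Finset.sum_range_succ]
      have hb : ∀ b, Λ b * AT Λ ht (T' + 1 - ht b)
            (fun L => if T' + 1 + i0 < HT ht (b :: L) then 1 else 0)
          ≤ Λ b * (∑ i ∈ Finset.range T', ∑' b, Λ b * (if (i + 1) + i0 < ht b then 1 else 0))
            + Λ b * (if (T' + 1) + i0 < ht b then 1 else 0) := by
        intro b
        rw [← mul_add]
        refine mul_le_mul_right ?_ _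
        have h1b := h1 b
        rcases Nat.lt_or_ge (ht b) (T' + 1) with hlt | hge
        · refine le_trans ?_ le_self_add
          have e : (fun L : List B => if T' + 1 + i0 < HT ht (b :: L) then (1 : ℝ≥0∞) else 0)
              = fun L => if (T' + 1 - ht b) + i0 < HT ht L then 1 else 0 := by
            funext L
            rw [HT_cons]
            by_cases hh : (T' + 1 - ht b) + i0 < HT ht L
            · rw [if_pos hh, if_pos (by omega)]
            · rw [if_neg hh, if_neg (by omega)]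
          rw [e]
          refine (ih _ (by omega)).trans ?_
          exact Finset.sum_le_sum_of_subset (Finset.range_subset_range.2 (by omega))
        · have h0 : T' + 1 - ht b = 0 := by omega
          rw [h0, AT_zero, HT_cons, HT_nil, add_zero]
          exact le_add_self
      refine (ENNReal.tsum_le_tsum hb).trans ?_
      rw [ENNReal.tsum_add, ENNReal.tsum_mul_right, hΛ, one_mul]

/-- the overshoot bound `ε₁(i0)` -/
noncomputable def e1 (i0 : ℕ) : ℝ≥0∞ := ∑' b, Λ b * ((ht b - i0 : ℕ) : ℝ≥0∞)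

open Classical in
lemma range_le (i0 T b : ℕ) :
    ∑ i ∈ Finset.range T, (if (i + 1) + i0 < b then (1 : ℝ≥0∞) else 0) ≤ ((b - i0 : ℕ) : ℝ≥0∞) := by
  rw [← Finset.sum_filter, Finset.sum_const, nsmul_eq_mul, mul_one]
  have : (Finset.filter (fun i => (i + 1) + i0 < b) (Finset.range T)).card ≤ b - i0 := by
    calc _ ≤ (Finset.range (b - i0)).card := Finset.card_le_card (fun i hi => by
            rw [Finset.mem_filter] at hi; rw [Finset.mem_range]; omega)
      _ = b - i0 := Finset.card_range _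
  exact_mod_cast this

open Classical in
theorem overshoot_le (hΛ : ∑' b, Λ b = 1) (h1 : ∀ b, 1 ≤ ht b) (i0 : ℕ) (T : ℕ) :
    AT Λ ht T (fun L => if T + i0 < HT ht L then 1 else 0) ≤ e1 Λ ht i0 := by
  refine (overshoot Λ ht hΛ h1 i0 T).trans ?_
  rw [← Summable.tsum_finsetSum (fun i _ => ENNReal.summable), e1]
  refine ENNReal.tsum_le_tsum fun b => ?_
  rw [← Finset.mul_sum]
  exact mul_le_mul_right (range_le i0 T (ht b)) _

/-- `ε₁(i0) → 0` -/
theorem e1_small (hm : ∑' b, Λ b * (ht b : ℝ≥0∞) ≠ ⊤) {ε : ℝ≥0∞} (hε : ε ≠ 0) :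
    ∃ I : ℕ, ∀ i0, I ≤ i0 → e1 Λ ht i0 ≤ ε := by
  classical
  have h := ENNReal.tendsto_tsum_compl_atTop_zero hm
  have h2 := (h.eventually (gt_mem_nhds (pos_iff_ne_zero.2 hε))).exists
  obtain ⟨s, hs⟩ := h2
  refine ⟨s.sup ht, fun i0 hi => ?_⟩
  rw [e1]
  have hsupp : ∑' b, Λ b * ((ht b - i0 : ℕ) : ℝ≥0∞)
      = ∑' b : {x // x ∉ s}, Λ b * ((ht b - i0 : ℕ) : ℝ≥0∞) := by
    have e := (Subtype.val_injective (p := fun x => x ∉ s)).tsum_eq
      (f := fun b => Λ b * ((ht b - i0 : ℕ) : ℝ≥0∞)) (by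
        intro b hb
        refine ⟨⟨b, fun hbs => ?_⟩, rfl⟩
        have : ht b ≤ s.sup ht := Finset.le_sup hbs
        have h0 : ht b - i0 = 0 := by omega
        apply hb
        simp [h0])
    exact e.symm
  rw [hsupp]
  refine le_trans (ENNReal.tsum_le_tsum fun b => ?_) hs.le
  refine mul_le_mul_right ?_ _
  exact_mod_cast Nat.sub_le _ _

/-! ### displacement and smoothing -/

variable [AddCommGroup G] (dsp : B → G)

/-- displacement of a list -/
def DS (L : List B) : G := (L.map dsp).sum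

lemma DS_nil : DS dsp ([] : List B) = 0 := by simp [DS]

lemma DS_append (L L' : List B) : DS dsp (L ++ L') = DS dsp L + DS dsp L' := by simp [DS]

open Classical in
/-- law of (overshoot, displacement) at the first renewal `≥ T` -/
noncomputable def a (T : ℕ) (x : ℕ × G) : ℝ≥0∞ :=
  AT Λ ht T (fun L => if HT ht L = T + x.1 ∧ DS dsp L = x.2 then 1 else 0)

/-- any functional of (overshoot, displacement) -/
lemma AT_fun (T : ℕ) (H : ℕ × G → ℝ≥0∞) :
    AT Λ ht T (fun L => H (HT ht L - T, DS dsp L)) = ∑' x, a Λ ht dsp T x * H x := by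
  classical
  have e : ∀ x, a Λ ht dsp T x * H x
      = AT Λ ht T (fun L => if HT ht L = T + x.1 ∧ DS dsp L = x.2 then H x else 0) := by
    intro x
    rw [a, mul_comm, ← AT_mul]
    refine AT_congr Λ ht T fun L _ => ?_
    by_cases h : HT ht L = T + x.1 ∧ DS dsp L = x.2 <;> simp [h]
  simp_rw [e]
  rw [← AT_tsum]
  refine AT_congr Λ ht T fun L hL => ?_
  have hle := Stp_le ht L T hL
  rw [tsum_eq_single (HT ht L - T, DS dsp L)]
  · rw [if_pos ⟨by simp only; omega, rfl⟩]
  · rintro ⟨i, z⟩ hx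
    rw [if_neg]
    rintro ⟨h1, h2⟩
    apply hx
    simp only at h1 h2
    rw [h2]
    exact Prod.ext (by simp only; omega) rfl

lemma a_sum (hΛ : ∑' b, Λ b = 1) (h1 : ∀ b, 1 ≤ ht b) (T : ℕ) : ∑' x, a Λ ht dsp T x = 1 := by
  have := AT_fun Λ ht dsp T (fun _ => 1)
  simp only [mul_one] at this
  rw [← this, AT_one Λ ht hΛ h1]

/-- total mass at a fixed overshoot is at most one, over translates -/
lemma a_sum_le (hΛ : ∑' b, Λ b = 1) (h1 : ∀ b, 1 ≤ ht b) (T j : ℕ) (z : G) :
    ∑' z' : G, a Λ ht dsp T (j, z - z') ≤ 1 := by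
  rw [← a_sum Λ ht dsp hΛ h1 T]
  have hinj : Function.Injective (fun z' : G => ((j, z - z') : ℕ × G)) := by
    intro x y h
    simpa using h
  exact ENNReal.tsum_comp_le_tsum_of_injective hinj _

open Classical in
/-- Markov property for the law -/
lemma a_split (h1 : ∀ b, 1 ≤ ht b) {S T : ℕ} (hST : S ≤ T) (x : ℕ × G) :
    a Λ ht dsp T x = ∑' y : ℕ × G, a Λ ht dsp S y *
      AT Λ ht (T - (S + y.1)) (fun L => if S + y.1 + HT ht L = T + x.1 ∧
        y.2 + DS dsp L = x.2 then 1 else 0) := by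
  classical
  rw [← AT_fun Λ ht dsp S (fun y => AT Λ ht (T - (S + y.1)) (fun L =>
    if S + y.1 + HT ht L = T + x.1 ∧ y.2 + DS dsp L = x.2 then 1 else 0))]
  rw [a, AT_split Λ ht h1 S T hST]
  refine AT_congr Λ ht S fun L1 hL1 => ?_
  have hle := Stp_le ht L1 S hL1
  have e : S + (HT ht L1 - S) = HT ht L1 := by omega
  simp only [e]
  refine AT_congr Λ ht _ fun L2 _ => ?_
  rw [HT_append, DS_append]

open Classical in
/-- if the attempt ends at or below `T` the rest is again of the form `a` -/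
lemma rest_eq {S T : ℕ} (x y : ℕ × G) (h : S + y.1 ≤ T) :
    AT Λ ht (T - (S + y.1)) (fun L => if S + y.1 + HT ht L = T + x.1 ∧
        y.2 + DS dsp L = x.2 then (1 : ℝ≥0∞) else 0)
      = a Λ ht dsp (T - (S + y.1)) (x.1, x.2 - y.2) := by
  classical
  rw [a]
  refine AT_congr Λ ht _ fun L _ => ?_
  have : (S + y.1 + HT ht L = T + x.1 ∧ y.2 + DS dsp L = x.2) ↔
      (HT ht L = T - (S + y.1) + x.1 ∧ DS dsp L = x.2 - y.2) := by
    constructor
    · rintro ⟨h1, h2⟩
      exact ⟨by omega, by rw [← h2]; abel⟩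
    · rintro ⟨h1, h2⟩
      exact ⟨by omega, by rw [h2]; abel⟩
  by_cases hh : HT ht L = T - (S + y.1) + x.1 ∧ DS dsp L = x.2 - y.2
  · rw [if_pos (this.2 hh)]; simp only; rw [if_pos hh]
  · rw [if_neg (fun h' => hh (this.1 h'))]; simp only; rw [if_neg hh]

lemma AT_le_one (hΛ : ∑' b, Λ b = 1) (h1 : ∀ b, 1 ≤ ht b) (T : ℕ) {F : List B → ℝ≥0∞}
    (hF : ∀ L, F L ≤ 1) : AT Λ ht T F ≤ 1 := by
  rw [← AT_one Λ ht hΛ h1 T]
  exact AT_mono Λ ht T fun L _ => hF L

lemma geo (v : ℝ≥0∞) : (1 - v)⁻¹ = 1 + v * (1 - v)⁻¹ := by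
  have h : ∑' n : ℕ, v ^ n = 1 + v * ∑' n : ℕ, v ^ n := by
    rw [← ENNReal.tsum_mul_left]
    conv_lhs => rw [tsum_eq_zero_add' ENNReal.summable, pow_zero]
    congr 1
    exact tsum_congr fun n => by rw [pow_succ, mul_comm]
  rwa [ENNReal.tsum_geometric] at h

lemma shift_sum (f : ℕ × G → ℝ≥0∞) (z : G) : ∑' x : ℕ × G, f (x.1, x.2 - z) ≤ ∑' x, f x := by
  have hinj : Function.Injective (fun x : ℕ × G => ((x.1, x.2 - z) : ℕ × G)) := by
    rintro ⟨i, x⟩ ⟨j, y⟩ h
    simp only [Prod.mk.injEq] at h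
    exact Prod.ext h.1 (by simpa using h.2)
  exact ENNReal.tsum_comp_le_tsum_of_injective hinj _

open Classical in
lemma over_sum (hΛ : ∑' b, Λ b = 1) (h1 : ∀ b, 1 ≤ ht b) (S i0 : ℕ) :
    ∑' y : ℕ × G, (if y.1 ≤ i0 then 0 else a Λ ht dsp S y) ≤ e1 Λ ht i0 := by
  have h := AT_fun Λ ht dsp S (fun y => if y.1 ≤ i0 then 0 else 1)
  have e : ∑' y : ℕ × G, (if y.1 ≤ i0 then 0 else a Λ ht dsp S y)
      = ∑' y, a Λ ht dsp S y * (if y.1 ≤ i0 then 0 else 1) :=
    tsum_congr fun y => by by_cases hy : y.1 ≤ i0 <;> simp [hy]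
  rw [e, ← h]
  refine le_trans (AT_mono Λ ht S fun L hL => ?_) (overshoot_le Λ ht hΛ h1 i0 S)
  have := Stp_le ht L S hL
  simp only
  by_cases hh : HT ht L - S ≤ i0
  · rw [if_pos hh]; exact zero_le
  · rw [if_neg hh, if_pos (by omega)]

open Classical in
/-- **SMOOTHING** (line (1) of ROAD 801): after `N` attempts of height `S` the law of the
displacement has a bounded density up to a small mass. `th` = threshold, `v` bounds the mass of the
large atoms of the attempt law. -/
theorem smooth (hΛ : ∑' b, Λ b = 1) (h1 : ∀ b, 1 ≤ ht b) {S i0 : ℕ} {th v : ℝ≥0∞}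
    (hv : ∑' y : ℕ × G, (if y.1 ≤ i0 ∧ th < a Λ ht dsp S y then a Λ ht dsp S y else 0) ≤ v) :
    ∀ N T : ℕ, N * (S + i0) ≤ T → ∃ g b : ℕ × G → ℝ≥0∞,
      (∀ x, a Λ ht dsp T x ≤ g x + b x) ∧
      (∀ x, g x ≤ ((i0 + 1 : ℕ) : ℝ≥0∞) * th * (1 - v)⁻¹) ∧
      ∑' x, b x ≤ v ^ N + e1 Λ ht i0 * (1 - v)⁻¹ := by
  intro N
  induction N with
  | zero =>
    intro T _
    refine ⟨fun _ => 0, a Λ ht dsp T, fun x => by simp, fun x => zero_le, ?_⟩
    rw [a_sum Λ ht dsp hΛ h1, pow_zero]
    exact le_self_add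
  | succ N ih =>
    intro T hT
    have hT0 : S + i0 ≤ T := by
      refine le_trans ?_ hT
      rw [Nat.succ_mul]; omega
    have hT1 : ∀ i, i ≤ i0 → N * (S + i0) ≤ T - (S + i) := by
      intro i hi
      rw [Nat.succ_mul] at hT
      omega
    choose g' b' hab hg hb using ih
    set gg : ℕ → ℕ × G → ℝ≥0∞ := fun T' x => if h : N * (S + i0) ≤ T' then g' T' h x else 0 with hgg
    set bb : ℕ → ℕ × G → ℝ≥0∞ := fun T' x => if h : N * (S + i0) ≤ T' then b' T' h x else 0 with hbb
    set R : ℕ × G → ℕ × G → ℝ≥0∞ := fun x y =>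
      AT Λ ht (T - (S + y.1)) (fun L => if S + y.1 + HT ht L = T + x.1 ∧
        y.2 + DS dsp L = x.2 then (1 : ℝ≥0∞) else 0) with hR
    set gt : ℕ × G → ℕ × G → ℝ≥0∞ := fun x y =>
      if y.1 ≤ i0 then (if th < a Λ ht dsp S y then
        a Λ ht dsp S y * gg (T - (S + y.1)) (x.1, x.2 - y.2)
        else a Λ ht dsp S y * a Λ ht dsp (T - (S + y.1)) (x.1, x.2 - y.2)) else 0 with hgt
    set bt : ℕ × G → ℕ × G → ℝ≥0∞ := fun x y =>
      if y.1 ≤ i0 then (if th < a Λ ht dsp S y then
        a Λ ht dsp S y * bb (T - (S + y.1)) (x.1, x.2 - y.2) else 0)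
        else a Λ ht dsp S y * R x y with hbt
    refine ⟨fun x => ∑' y, gt x y, fun x => ∑' y, bt x y, fun x => ?_, fun x => ?_, ?_⟩
    · rw [a_split Λ ht dsp h1 (show S ≤ T by omega), ← ENNReal.tsum_add]
      refine ENNReal.tsum_le_tsum fun y => ?_
      simp only [hgt, hbt]
      by_cases hy : y.1 ≤ i0
      · rw [if_pos hy, if_pos hy, rest_eq Λ ht dsp x y (by omega)]
        by_cases hth : th < a Λ ht dsp S y
        · rw [if_pos hth, if_pos hth, ← mul_add]
          refine mul_le_mul_right ?_ _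
          have hh := hT1 y.1 hy
          simp only [hgg, hbb]
          rw [dif_pos hh, dif_pos hh]
          exact hab _ hh _
        · rw [if_neg hth, if_neg hth, add_zero]
      · rw [if_neg hy, if_neg hy, zero_add]
    · set c : ℝ≥0∞ := ((i0 + 1 : ℕ) : ℝ≥0∞) * th with hc
      have hsplit : ∑' y, gt x y ≤
          ∑' y : ℕ × G, (if y.1 ≤ i0 ∧ th < a Λ ht dsp S y then a Λ ht dsp S y else 0)
              * (c * (1 - v)⁻¹)
            + ∑' y : ℕ × G, (if y.1 ≤ i0 then
                th * a Λ ht dsp (T - (S + y.1)) (x.1, x.2 - y.2) else 0) := by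
        rw [← ENNReal.tsum_add]
        refine ENNReal.tsum_le_tsum fun y => ?_
        simp only [hgt]
        by_cases hy : y.1 ≤ i0
        · rw [if_pos hy, if_pos hy]
          by_cases hth : th < a Λ ht dsp S y
          · rw [if_pos hth, if_pos ⟨hy, hth⟩]
            refine le_trans (mul_le_mul_right ?_ _) le_self_add
            have hh := hT1 y.1 hy
            simp only [hgg]
            rw [dif_pos hh]
            exact hg _ hh _
          · rw [if_neg hth, if_neg (fun h => hth h.2), zero_mul, zero_add]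
            exact mul_le_mul_left (not_lt.1 hth) _
        · rw [if_neg hy]; exact zero_le
      refine hsplit.trans ?_
      rw [ENNReal.tsum_mul_right]
      have h2 : ∑' y : ℕ × G, (if y.1 ≤ i0 then
                th * a Λ ht dsp (T - (S + y.1)) (x.1, x.2 - y.2) else 0) ≤ c := by
        rw [ENNReal.tsum_prod']
        have h3 : ∀ i : ℕ, ∑' z : G, (if ((i, z) : ℕ × G).1 ≤ i0 then
                th * a Λ ht dsp (T - (S + ((i, z) : ℕ × G).1)) (x.1, x.2 - ((i, z) : ℕ × G).2) else 0)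
              ≤ if i ∈ Finset.range (i0 + 1) then th else 0 := by
          intro i
          simp only [Finset.mem_range]
          by_cases hi : i ≤ i0
          · simp only [if_pos hi, if_pos (show i < i0 + 1 by omega)]
            rw [ENNReal.tsum_mul_left]
            calc th * _ ≤ th * 1 := mul_le_mul_right (a_sum_le Λ ht dsp hΛ h1 _ _ _) _
              _ = th := mul_one _
          · simp only [if_neg hi]; simp
        refine (ENNReal.tsum_le_tsum h3).trans ?_
        rw [tsum_eq_sum (s := Finset.range (i0 + 1)) (fun i hi => if_neg hi),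
          Finset.sum_congr rfl (fun i hi => if_pos hi), Finset.sum_const, Finset.card_range,
          nsmul_eq_mul]
      calc _ ≤ v * (c * (1 - v)⁻¹) + c := add_le_add (mul_le_mul_left hv _) h2
        _ = c * (1 - v)⁻¹ := by
            conv_rhs => rw [geo v]
            ring
    · rw [ENNReal.tsum_comm]
      set e := e1 Λ ht i0 with he
      have hterm : ∀ y : ℕ × G, ∑' x, bt x y ≤
          (if y.1 ≤ i0 ∧ th < a Λ ht dsp S y then a Λ ht dsp S y else 0)
              * (v ^ N + e * (1 - v)⁻¹)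
            + (if y.1 ≤ i0 then 0 else a Λ ht dsp S y) := by
        intro y
        simp only [hbt]
        by_cases hy : y.1 ≤ i0
        · simp only [if_pos hy]
          by_cases hth : th < a Λ ht dsp S y
          · simp only [if_pos hth]
            rw [if_pos ⟨hy, hth⟩, ENNReal.tsum_mul_left, add_zero]
            refine mul_le_mul_right ?_ _
            refine (shift_sum (bb (T - (S + y.1))) y.2).trans ?_
            have hh := hT1 y.1 hy
            simp only [hbb]
            simp only [dif_pos hh]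
            exact hb _ hh
          · simp only [if_neg hth]; simp
        · simp only [if_neg hy]
          rw [if_neg (fun h => hy h.1), zero_mul, zero_add, ENNReal.tsum_mul_left]
          have hR1 : ∑' x, R x y ≤ 1 := by
            simp only [hR]
            rw [← AT_tsum]
            refine AT_le_one Λ ht hΛ h1 _ fun L => ?_
            by_cases hex : ∃ x : ℕ × G, S + y.1 + HT ht L = T + x.1 ∧ y.2 + DS dsp L = x.2
            · obtain ⟨x, hx⟩ := hex
              rw [tsum_eq_single x]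
              · rw [if_pos hx]
              · rintro x' hx'
                rw [if_neg]
                rintro ⟨h3, h4⟩
                apply hx'
                exact Prod.ext (by omega) (by rw [← h4, hx.2])
            · have : ∀ x : ℕ × G, (if S + y.1 + HT ht L = T + x.1 ∧ y.2 + DS dsp L = x.2
                  then (1 : ℝ≥0∞) else 0) = 0 := fun x => if_neg (fun h => hex ⟨x, h⟩)
              simp [this]
          calc a Λ ht dsp S y * ∑' x, R x y ≤ a Λ ht dsp S y * 1 := mul_le_mul_right hR1 _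
            _ = _ := mul_one _
      refine (ENNReal.tsum_le_tsum hterm).trans ?_
      rw [ENNReal.tsum_add, ENNReal.tsum_mul_right]
      calc _ ≤ v * (v ^ N + e * (1 - v)⁻¹) + e :=
            add_le_add (mul_le_mul_left hv _) (over_sum Λ ht dsp hΛ h1 S i0)
        _ = v ^ (N + 1) + e * (1 - v)⁻¹ := by
            conv_rhs => rw [geo v]
            ring

/-! ### dyadic quantile -/

open Classical in
/-- **quantile**: `P(p < th) ≤ u ≤ P(p < 2 th)`, and the large atoms are few. -/
theorem quantile {α : Type*} {p : α → ℝ≥0∞} (hp : ∑' x, p x = 1) {u : ℝ≥0∞} (hu : u ≠ 0)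
    (hu1 : u ≤ 1) :
    ∃ th : ℝ≥0∞, th ≠ 0 ∧ th ≤ 1 ∧ ∑' x, (if p x < th then p x else 0) ≤ u ∧
      u ≤ ∑' x, (if p x < 2 * th then p x else 0) := by
  have hpx : ∀ x, p x ≤ 1 := fun x => hp ▸ ENNReal.le_tsum x
  have hex : ∃ k : ℕ, ∑' x, (if p x < (2⁻¹ : ℝ≥0∞) ^ k then p x else 0) ≤ u := by
    have h := ENNReal.tendsto_tsum_compl_atTop_zero (f := p) (by rw [hp]; exact ENNReal.one_ne_top)
    obtain ⟨s, hs⟩ := (h.eventually (gt_mem_nhds (pos_iff_ne_zero.2 hu))).exists
    -- choose k with 2^-k below the nonzero atoms of s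
    have hk : ∃ k : ℕ, ∀ x ∈ s, p x ≠ 0 → (2⁻¹ : ℝ≥0∞) ^ k ≤ p x := by
      have h2 : ∀ x, p x ≠ 0 → ∃ k : ℕ, (2⁻¹ : ℝ≥0∞) ^ k ≤ p x := by
        intro x hx
        have ht := ENNReal.tendsto_pow_atTop_nhds_zero_of_lt_one
          (show (2⁻¹ : ℝ≥0∞) < 1 by exact ENNReal.one_half_lt_one)
        obtain ⟨k, hk⟩ := (ht.eventually (gt_mem_nhds (pos_iff_ne_zero.2 hx))).exists
        exact ⟨k, hk.le⟩
      choose! k hk using h2
      refine ⟨s.sup k, fun x hx h0 => ?_⟩
      refine le_trans ?_ (hk x h0)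
      exact pow_le_pow_of_le_one zero_le (by exact ENNReal.one_half_lt_one.le) (Finset.le_sup hx)
    obtain ⟨k, hk⟩ := hk
    refine ⟨k, le_trans ?_ hs.le⟩
    have hsupp : ∑' x, (if p x < (2⁻¹ : ℝ≥0∞) ^ k then p x else 0)
        = ∑' x : {x // x ∉ s}, (if p x < (2⁻¹ : ℝ≥0∞) ^ k then p x else 0) := by
      have e := (Subtype.val_injective (p := fun x => x ∉ s)).tsum_eq
        (f := fun x => (if p x < (2⁻¹ : ℝ≥0∞) ^ k then p x else 0)) (by
          intro x hx
          refine ⟨⟨x, fun hxs => ?_⟩, rfl⟩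
          by_cases h0 : p x = 0
          · apply hx; simp [h0]
          · have := hk x hxs h0
            apply hx
            simp only
            rw [if_neg (not_lt.2 this)])
      exact e.symm
    rw [hsupp]
    refine ENNReal.tsum_le_tsum fun x => ?_
    split_ifs
    · exact le_rfl
    · exact zero_le
  set k := Nat.find hex with hkdef
  have hk := Nat.find_spec hex
  rw [← hkdef] at hk
  refine ⟨(2⁻¹ : ℝ≥0∞) ^ k, pow_ne_zero _ (by simp), pow_le_one₀ zero_le
    ENNReal.one_half_lt_one.le, hk, ?_⟩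
  rcases Nat.eq_zero_or_pos k with h0 | hpos
  · rw [h0, pow_zero, mul_one]
    have : ∀ x, (if p x < 2 then p x else 0) = p x := fun x =>
      if_pos (lt_of_le_of_lt (hpx x) ENNReal.one_lt_two)
    rw [tsum_congr this, hp]
    exact hu1
  · have h1 := Nat.find_min hex (show k - 1 < Nat.find hex by omega)
    rw [not_le] at h1
    have e : (2 : ℝ≥0∞) * 2⁻¹ ^ k = 2⁻¹ ^ (k - 1) := by
      obtain ⟨j, hj⟩ : ∃ j, k = j + 1 := ⟨k - 1, by omega⟩
      rw [hj, pow_succ, Nat.add_sub_cancel, mul_comm (2⁻¹ ^ j), ← mul_assoc,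
        ENNReal.mul_inv_cancel (by norm_num) (by norm_num), one_mul]
    rw [e]
    exact h1.le

open Classical in
/-- the large atoms are few -/
theorem card_large {α : Type*} {p : α → ℝ≥0∞} (hp : ∑' x, p x ≤ 1) {th : ℝ≥0∞} (hth : th ≠ 0) :
    ∃ E : Finset α, (∀ x, x ∈ E ↔ th ≤ p x) ∧ (E.card : ℝ≥0∞) * th ≤ 1 := by
  have hfin : {x | th ≤ p x}.Finite :=
    ENNReal.finite_const_le_of_tsum_ne_top (ne_top_of_le_ne_top ENNReal.one_ne_top hp) hth
  refine ⟨hfin.toFinset, fun x => by rw [Set.Finite.mem_toFinset]; rfl, ?_⟩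
  calc (hfin.toFinset.card : ℝ≥0∞) * th = ∑ x ∈ hfin.toFinset, th := by
        rw [Finset.sum_const, nsmul_eq_mul]
    _ ≤ ∑ x ∈ hfin.toFinset, p x := Finset.sum_le_sum fun x hx => by
        rw [Set.Finite.mem_toFinset] at hx; exact hx
    _ ≤ ∑' x, p x := ENNReal.sum_le_tsum _
    _ ≤ 1 := hp

end Crest.Agent.R154.Ren480
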