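import Crest.Agent.R154.AsmA_834
import Crest.Agent.R154.Ren_480

/-! Row 154, T0219, ROAD 801 (helper834, hedge of 540's assembly): the window bound. -/

set_option autoImplicit false

namespace Crest.Agent.R154.Asm834

open scoped ENNReal
open Crest.Agent.R154.B5A
open Crest.Agent.R154.Ren480 (Stp AT DS e1)

section one

variable {B : Type*} {G : Type*} [AddCommGroup G] (Λ : B → ℝ≥0∞) (h : B → ℕ) (z : B → G)
  (s : B → Set (G × ℕ))

lemma FP_iff (L : List B) (T : ℕ) : FP h L T ↔ Stp h T L := by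
  induction L generalizing T with
  | nil => rfl
  | cons b L ih =>
    rw [Ren480.Stp_cons, ← ih, Nat.pos_iff_ne_zero]
    rfl

lemma AT_eq (T : ℕ) (F : List B → ℝ≥0∞) :
    AT Λ h T F = ∑' L, chi (FP h L T) * (LW Λ L * F L) := by
  rw [AT]
  refine tsum_congr fun L => ?_
  rw [ite_chi, chi_congr (FP_iff h L T)]

lemma tall_le (hΛ : ∑' b, Λ b = 1) (h1 : ∀ b, 1 ≤ h b) (T i0 : ℕ) : tall Λ h T i0 ≤ e1 Λ h i0 := by
  refine le_trans (le_of_eq ?_) (Ren480.overshoot_le Λ h hΛ h1 i0 T)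
  rw [AT_eq, tall]
  refine tsum_congr fun L => ?_
  rw [chi_and, ← mul_one (if T + i0 < HT h L then (1:ℝ≥0∞) else 0), ite_chi]
  ring

/-- trace of a list -/
def TR : List B → G → ℕ → Set (G × ℕ)
  | [], _, _ => ∅
  | b :: L, x, a => {q | ∃ p ∈ s b, q = (x + p.1, a + p.2)} ∪ TR L (x + z b) (a + h b)

lemma TR_append (L L' : List B) (x : G) (a : ℕ) :
    TR h z s (L ++ L') x a = TR h z s L x a ∪ TR h z s L' (x + DS z L) (a + HT h L) := by
  induction L generalizing x a with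
  | nil => simp [TR, DS, HT_nil]
  | cons b L ih =>
    simp only [List.cons_append, TR, HT_cons]
    rw [ih, Set.union_assoc]
    simp only [DS, List.map_cons, List.sum_cons, add_assoc]

lemma TR_shift (L : List B) (x v y : G) (a k : ℕ) :
    (y + v, k) ∈ TR h z s L (x + v) a ↔ (y, k) ∈ TR h z s L x a := by
  induction L generalizing x a with
  | nil => simp [TR]
  | cons b L ih =>
    simp only [TR, Set.mem_union, Set.mem_setOf_eq, Prod.mk.injEq]
    rw [show x + v + z b = x + z b + v by abel, ih]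
    refine or_congr ⟨?_, ?_⟩ Iff.rfl
    · rintro ⟨p, hp, h1, h2⟩
      exact ⟨p, hp, by
        have : y + v = (x + p.1) + v := by rw [h1]; abel
        exact add_right_cancel this, h2⟩
    · rintro ⟨p, hp, h1, h2⟩
      exact ⟨p, hp, by rw [h1]; abel, h2⟩

lemma TR_depth (hs : ∀ b, ∀ p ∈ s b, 1 ≤ p.2 ∧ p.2 ≤ h b) (L : List B) (x y : G) (a k : ℕ)
    (hk : (y, k) ∈ TR h z s L x a) : a < k ∧ k ≤ a + HT h L := by
  induction L generalizing x a with
  | nil => simp [TR] at hk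
  | cons b L ih =>
    rw [HT_cons]
    rcases hk with ⟨p, hp, he⟩ | hk
    · simp only [Prod.mk.injEq] at he
      have := hs b p hp
      omega
    · have := ih _ _ hk
      omega

end one

section two

variable {BX BY G : Type*} [AddCommGroup G]
  (ΛX : BX → ℝ≥0∞) (ΛY : BY → ℝ≥0∞) (hX : BX → ℕ) (hY : BY → ℕ) (zX : BX → G) (zY : BY → G)
  (sX : BX → Set (G × ℕ)) (sY : BY → Set (G × ℕ))

/-- some contact, and all contacts have depth in `[lo, hi]` -/
def CC (lo hi a a' : ℕ) (x : G) (P : List BX) (P' : List BY) : Prop :=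
  (∃ y k, (y, k) ∈ TR hX zX sX P 0 a ∧ (y, k) ∈ TR hY zY sY P' x a') ∧
    ∀ y k, (y, k) ∈ TR hX zX sX P 0 a → (y, k) ∈ TR hY zY sY P' x a' → lo ≤ k ∧ k ≤ hi

/-- some contact of depth in `(lo, hi]` -/
def CT (lo hi : ℕ) (w : G) (L : List BX) (L' : List BY) : Prop :=
  ∃ y k, lo < k ∧ k ≤ hi ∧ (y, k) ∈ TR hX zX sX L 0 0 ∧ (y, k) ∈ TR hY zY sY L' w 0

lemma CC_of (hsX : ∀ b, ∀ p ∈ sX b, 1 ≤ p.2 ∧ p.2 ≤ hX b)
    (hsY : ∀ b, ∀ p ∈ sY b, 1 ≤ p.2 ∧ p.2 ≤ hY b) (α T i0 s lo hi : ℕ)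
    (hlo : α + i0 + s ≤ lo) (hhi : hi + s ≤ α + T) (w : G)
    (A P R : List BX) (A' P' R' : List BY)
    (hA : FP hX A α) (hA2 : HT hX A ≤ α + i0) (hP : FP hX P T) (hP2 : HT hX P ≤ T + i0)
    (hA' : FP hY A' α) (hA2' : HT hY A' ≤ α + i0) (hP' : FP hY P' T) (hP2' : HT hY P' ≤ T + i0)
    (h1 : CT hX hY zX zY sX sY lo hi w (A ++ P ++ R) (A' ++ P' ++ R'))
    (h2 : ¬ CT hX hY zX zY sX sY α (α + i0 + s) w (A ++ P ++ R) (A' ++ P' ++ R'))
    (h3 : ¬ CT hX hY zX zY sX sY (α + T - s) (α + T + 2 * i0) w (A ++ P ++ R) (A' ++ P' ++ R')) :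
    CC hX hY zX zY sX sY (α + i0 + s) (α + T - s) (HT hX A) (HT hY A') (w + DS zY A' - DS zX A)
      P P' := by
  have hAl := FP_le hX A α hA
  have hPl := FP_le hX P T hP
  have hAl' := FP_le hY A' α hA'
  have hPl' := FP_le hY P' T hP'
  have eX : ∀ y k, (y, k) ∈ TR hX zX sX P 0 (HT hX A) ↔
      (y + DS zX A, k) ∈ TR hX zX sX P (DS zX A) (HT hX A) := fun y k => by
    have := TR_shift hX zX sX P 0 (DS zX A) y (HT hX A) k
    rw [zero_add] at this
    exact this.symm
  have eY : ∀ y k, (y, k) ∈ TR hY zY sY P' (w + DS zY A' - DS zX A) (HT hY A') ↔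
      (y + DS zX A, k) ∈ TR hY zY sY P' (w + DS zY A') (HT hY A') := fun y k => by
    have := TR_shift hY zY sY P' (w + DS zY A' - DS zX A) (DS zX A) y (HT hY A') k
    rw [sub_add_cancel] at this
    exact this.symm
  have mX : ∀ y k, (y, k) ∈ TR hX zX sX P (DS zX A) (HT hX A) →
      (y, k) ∈ TR hX zX sX (A ++ P ++ R) 0 0 := fun y k hk => by
    rw [TR_append, TR_append]
    left; right
    simpa using hk
  have mY : ∀ y k, (y, k) ∈ TR hY zY sY P' (w + DS zY A') (HT hY A') →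
      (y, k) ∈ TR hY zY sY (A' ++ P' ++ R') w 0 := fun y k hk => by
    rw [TR_append, TR_append]
    left; right
    simpa using hk
  refine ⟨?_, ?_⟩
  · obtain ⟨y, k, hk1, hk2, hkX, hkY⟩ := h1
    refine ⟨y - DS zX A, k, ?_, ?_⟩
    · rw [eX, sub_add_cancel]
      rw [TR_append, TR_append] at hkX
      rcases hkX with (hk | hk) | hk
      · have := TR_depth hX zX sX hsX _ _ _ _ _ hk
        omega
      · simpa using hk
      · have := TR_depth hX zX sX hsX _ _ _ _ _ hk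
        rw [HT_append] at this
        omega
    · rw [eY, sub_add_cancel]
      rw [TR_append, TR_append] at hkY
      rcases hkY with (hk | hk) | hk
      · have := TR_depth hY zY sY hsY _ _ _ _ _ hk
        omega
      · simpa using hk
      · have := TR_depth hY zY sY hsY _ _ _ _ _ hk
        rw [HT_append] at this
        omega
  · intro y k hkX hkY
    have d1 := TR_depth hX zX sX hsX _ _ _ _ _ hkX
    have d2 := TR_depth hY zY sY hsY _ _ _ _ _ hkY
    have m1 := mX _ _ ((eX y k).1 hkX)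
    have m2 := mY _ _ ((eY y k).1 hkY)
    constructor
    · by_contra hcon
      exact h2 ⟨_, k, by omega, by omega, m1, m2⟩
    · by_contra hcon
      exact h3 ⟨_, k, by omega, by omega, m1, m2⟩

end two

end Crest.Agent.R154.Asm834
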