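import Crest.Agent.R154.AsmA_857

/-! Row 154, ROAD 801 (helper857): one window of the assembly. -/

set_option autoImplicit false

namespace Crest.Agent.R154.Asm857

open Crest.Agent.R154.B5A
open scoped ENNReal Topology

noncomputable section

open Classical

section three

variable {B G : Type*} [AddCommGroup G] (Λ : B → ℝ≥0∞) (ht : B → ℕ) (zz : B → G)

/-- weight of a good first passage piece -/
def gw (τ i0 : ℕ) (L : List B) : ℝ≥0∞ := if FP ht τ L ∧ HT ht L ≤ τ + i0 then LW Λ L else 0

lemma gw_mass (h1 : ∀ b, 1 ≤ ht b) (hΛ : ∑' b, Λ b = 1) (τ i0 : ℕ) :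
    ∑' L, gw Λ ht τ i0 L ≤ 1 := by
  rw [← FP_mass Λ ht h1 hΛ τ]
  refine ENNReal.tsum_le_tsum fun L => ?_
  unfold gw
  by_cases h : FP ht τ L
  · rw [if_pos h]; split_ifs <;> simp
  · rw [if_neg (fun h' => h h'.1)]; exact zero_le

theorem split1 (h1 : ∀ b, 1 ≤ ht b) (hU1 : ∀ n, U Λ ht n ≤ 1) (F F1 : List B → ℝ≥0∞)
    (hF : ∀ L, F L ≤ 1) (α i0 n : ℕ) (hn : α ≤ n)
    (hF1 : ∀ A, FP ht α A → HT ht A ≤ α + i0 →
      ∑' R, (if HT ht R = n - HT ht A then LW Λ R * F (A ++ R) else 0) ≤ F1 A) :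
    ∑' L, (if HT ht L = n then LW Λ L * F L else 0)
      ≤ ovs Λ ht i0 + ∑' A, gw Λ ht α i0 A * F1 A := by
  have e : ∑' L, (if HT ht L = n then LW Λ L * F L else 0)
      = ∑' L, (if α ≤ HT ht L then (if HT ht L = n then LW Λ L * F L else 0) else 0) := by
    refine tsum_congr fun L => ?_
    by_cases h : HT ht L = n
    · rw [if_pos h, if_pos (by omega)]
    · rw [if_neg h]; simp
  rw [e, FP_split ht h1 α (fun L => if HT ht L = n then LW Λ L * F L else 0)]
  calc _ ≤ ∑' A, ((if FP ht α A ∧ α + i0 < HT ht A then LW Λ A else 0)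
        + gw Λ ht α i0 A * F1 A) := by
        refine ENNReal.tsum_le_tsum fun A => ?_
        by_cases hA : FP ht α A
        · rw [if_pos hA]
          by_cases ho : HT ht A ≤ α + i0
          · refine le_trans ?_ le_add_self
            unfold gw
            rw [if_pos ⟨hA, ho⟩]
            calc _ ≤ ∑' R, LW Λ A * (if HT ht R = n - HT ht A then LW Λ R * F (A ++ R) else 0) := by
                  refine ENNReal.tsum_le_tsum fun R => ?_
                  by_cases h : HT ht (A ++ R) = n
                  · rw [if_pos h]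
                    rw [HT_append] at h
                    rw [if_pos (by omega), LW_append, mul_assoc]
                  · rw [if_neg h]; exact zero_le
              _ ≤ LW Λ A * F1 A := by
                  rw [ENNReal.tsum_mul_left]
                  exact mul_le_mul_right (hF1 A hA ho) _
          · refine le_trans ?_ le_self_add
            rw [if_pos ⟨hA, by omega⟩]
            calc _ ≤ ∑' R, LW Λ A * (if HT ht R = n - HT ht A then LW Λ R else 0) := by
                  refine ENNReal.tsum_le_tsum fun R => ?_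
                  by_cases h : HT ht (A ++ R) = n
                  · rw [if_pos h]
                    rw [HT_append] at h
                    rw [if_pos (by omega), LW_append]
                    calc _ ≤ LW Λ A * LW Λ R * 1 := mul_le_mul_right (hF _) _
                      _ = _ := mul_one _
                  · rw [if_neg h]; exact zero_le
              _ = LW Λ A * U Λ ht (n - HT ht A) := by rw [ENNReal.tsum_mul_left]; rfl
              _ ≤ LW Λ A * 1 := mul_le_mul_right (hU1 _) _
              _ = LW Λ A := mul_one _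
        · rw [if_neg hA]; exact zero_le
    _ = _ := ENNReal.tsum_add
    _ ≤ _ := add_le_add (oversh Λ ht hU1 α i0) le_rfl

theorem split2 (h1 : ∀ b, 1 ≤ ht b) (hU1 : ∀ n, U Λ ht n ≤ 1) (hΛ : ∑' b, Λ b = 1)
    (F : List B → ℝ≥0∞) (F2 : List B → List B → ℝ≥0∞)
    (hF : ∀ L, F L ≤ 1) (α τ i0 n : ℕ) (hn : α + i0 + τ ≤ n)
    (hF2 : ∀ A P R, FP ht α A → HT ht A ≤ α + i0 → FP ht τ P → HT ht P ≤ τ + i0 →
      F (A ++ (P ++ R)) ≤ F2 A P) :
    ∑' L, (if HT ht L = n then LW Λ L * F L else 0)
      ≤ 2 * ovs Λ ht i0 + ∑' A, gw Λ ht α i0 A * ∑' P, gw Λ ht τ i0 P * F2 A P := by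
  have key := split1 Λ ht h1 hU1 F
    (fun A => ovs Λ ht i0 + ∑' P, gw Λ ht τ i0 P * F2 A P) hF α i0 n (by omega) ?_
  · refine key.trans ?_
    calc _ = ovs Λ ht i0 + ∑' A, (gw Λ ht α i0 A * ovs Λ ht i0
          + gw Λ ht α i0 A * ∑' P, gw Λ ht τ i0 P * F2 A P) := by
          congr 1
          exact tsum_congr fun A => mul_add _ _ _
      _ = ovs Λ ht i0 + ((∑' A, gw Λ ht α i0 A) * ovs Λ ht i0
          + ∑' A, gw Λ ht α i0 A * ∑' P, gw Λ ht τ i0 P * F2 A P) := by
          rw [ENNReal.tsum_add, ENNReal.tsum_mul_right]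
      _ ≤ ovs Λ ht i0 + (1 * ovs Λ ht i0
          + ∑' A, gw Λ ht α i0 A * ∑' P, gw Λ ht τ i0 P * F2 A P) := by
          gcongr
          exact gw_mass Λ ht h1 hΛ α i0
      _ = _ := by ring
  · intro A hA ho
    refine split1 Λ ht h1 hU1 (fun R => F (A ++ R)) (fun P => F2 A P) (fun R => hF _) τ i0
      (n - HT ht A) (by omega) ?_
    intro P hP hoP
    calc _ ≤ ∑' R, (if HT ht R = n - HT ht A - HT ht P then LW Λ R else 0) * F2 A P := by
          refine ENNReal.tsum_le_tsum fun R => ?_
          by_cases h : HT ht R = n - HT ht A - HT ht P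
          · rw [if_pos h, if_pos h]
            exact mul_le_mul_right (hF2 A P R hA ho hP hoP) _
          · rw [if_neg h]; exact zero_le
      _ = U Λ ht (n - HT ht A - HT ht P) * F2 A P := by rw [ENNReal.tsum_mul_right]; rfl
      _ ≤ 1 * F2 A P := mul_le_mul_left (hU1 _) _
      _ = _ := one_mul _

end three

section four

variable {BX BY : Type*} (ΛX : BX → ℝ≥0∞) (ΛY : BY → ℝ≥0∞) (hX : BX → ℕ) (hY : BY → ℕ)

theorem win4 (h1X : ∀ b, 1 ≤ hX b) (h1Y : ∀ b, 1 ≤ hY b) (hU1X : ∀ n, U ΛX hX n ≤ 1)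
    (hU1Y : ∀ n, U ΛY hY n ≤ 1) (hΛX : ∑' b, ΛX b = 1) (hΛY : ∑' b, ΛY b = 1)
    (g : List BX → List BY → Prop) (I : List BX → List BY → List BX → List BY → ℝ≥0∞)
    (α τ α' τ' i0 n : ℕ) (hn : α + i0 + τ ≤ n) (hn' : α' + i0 + τ' ≤ n)
    (hg : ∀ A P R A' P' R', FP hX α A → HT hX A ≤ α + i0 → FP hX τ P → HT hX P ≤ τ + i0 →
      FP hY α' A' → HT hY A' ≤ α' + i0 → FP hY τ' P' → HT hY P' ≤ τ' + i0 →
      g (A ++ (P ++ R)) (A' ++ (P' ++ R')) → 1 ≤ I A A' P P') :
    ∑' L : List BX, ∑' L' : List BY, (if HT hX L = n ∧ HT hY L' = n ∧ g L L'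
        then LW ΛX L * LW ΛY L' else 0)
      ≤ 2 * ovs ΛX hX i0 + 2 * ovs ΛY hY i0 +
        ∑' A, gw ΛX hX α i0 A * ∑' A', gw ΛY hY α' i0 A' * ∑' P, gw ΛX hX τ i0 P *
          ∑' P', gw ΛY hY τ' i0 P' * I A A' P P' := by
  have key := split2 ΛX hX h1X hU1X hΛX
    (fun L => ∑' L', (if HT hY L' = n then LW ΛY L' * (if g L L' then 1 else 0) else 0))
    (fun A P => 2 * ovs ΛY hY i0 + ∑' A', gw ΛY hY α' i0 A' * ∑' P', gw ΛY hY τ' i0 P' *
      I A A' P P') ?_ α τ i0 n hn ?_
  · calc _ = ∑' L, (if HT hX L = n then LW ΛX L *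
          (∑' L', (if HT hY L' = n then LW ΛY L' * (if g L L' then 1 else 0) else 0)) else 0) := by
          refine tsum_congr fun L => ?_
          by_cases h : HT hX L = n
          · rw [if_pos h, ← ENNReal.tsum_mul_left]
            refine tsum_congr fun L' => ?_
            by_cases h' : HT hY L' = n
            · by_cases h'' : g L L'
              · simp [h, h', h'']
              · simp [h, h', h'']
            · simp [h']
          · simp [h]
      _ ≤ _ := key
      _ = 2 * ovs ΛX hX i0 + ((∑' A, ∑' P, gw ΛX hX α i0 A * (gw ΛX hX τ i0 P * (2 * ovs ΛY hY i0)))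
          + ∑' A, gw ΛX hX α i0 A * ∑' A', gw ΛY hY α' i0 A' * ∑' P, gw ΛX hX τ i0 P *
          ∑' P', gw ΛY hY τ' i0 P' * I A A' P P') := by
          congr 1
          rw [← ENNReal.tsum_add]
          refine tsum_congr fun A => ?_
          rw [ENNReal.tsum_mul_left, ← mul_add]
          congr 1
          have e1 : ∀ P, gw ΛX hX τ i0 P * (2 * ovs ΛY hY i0 + ∑' A', gw ΛY hY α' i0 A' *
              ∑' P', gw ΛY hY τ' i0 P' * I A A' P P') = gw ΛX hX τ i0 P * (2 * ovs ΛY hY i0)
              + ∑' A', gw ΛX hX τ i0 P * (gw ΛY hY α' i0 A' *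
              ∑' P', gw ΛY hY τ' i0 P' * I A A' P P') := by
            intro P
            rw [mul_add, ENNReal.tsum_mul_left]
          simp only [e1]
          rw [ENNReal.tsum_add]
          congr 1
          rw [ENNReal.tsum_comm]
          refine tsum_congr fun A' => ?_
          rw [← ENNReal.tsum_mul_left]
          exact tsum_congr fun P => mul_left_comm _ _ _
      _ ≤ 2 * ovs ΛX hX i0 + (2 * ovs ΛY hY i0
          + ∑' A, gw ΛX hX α i0 A * ∑' A', gw ΛY hY α' i0 A' * ∑' P, gw ΛX hX τ i0 P *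
          ∑' P', gw ΛY hY τ' i0 P' * I A A' P P') := by
          gcongr
          calc _ = (∑' A, gw ΛX hX α i0 A) * ((∑' P, gw ΛX hX τ i0 P) * (2 * ovs ΛY hY i0)) := by
                simp_rw [ENNReal.tsum_mul_left, ENNReal.tsum_mul_right]
            _ ≤ 1 * (1 * (2 * ovs ΛY hY i0)) := by
                gcongr
                · exact gw_mass ΛX hX h1X hΛX α i0
                · exact gw_mass ΛX hX h1X hΛX τ i0
            _ = _ := by ring
      _ = _ := by ring
  · intro L
    refine le_trans ?_ (hU1Y n)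
    unfold U
    refine ENNReal.tsum_le_tsum fun L' => ?_
    split_ifs <;> simp
  · intro A P R hA hoA hP hoP
    refine split2 ΛY hY h1Y hU1Y hΛY (fun L' => if g (A ++ (P ++ R)) L' then 1 else 0)
      (fun A' P' => I A A' P P') (fun L' => by split_ifs <;> simp) α' τ' i0 n hn' ?_
    intro A' P' R' hA' hoA' hP' hoP'
    by_cases h : g (A ++ (P ++ R)) (A' ++ (P' ++ R'))
    · rw [if_pos h]
      exact hg A P R A' P' R' hA hoA hP hoP hA' hoA' hP' hoP' h
    · rw [if_neg h]; exact zero_le

end four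

/-- a smooth law against a bounded function -/
theorem core1 {G : Type*} (f b : ℕ × G → ℝ≥0∞) (Gc δ S : ℝ≥0∞) (i0 : ℕ)
    (hfb : ∀ x, f x ≤ Gc + b x) (hb : ∑' x, b x ≤ δ) (hf1 : ∑' x, f x ≤ 1)
    (Φ : ℕ → G → ℝ≥0∞) (hΦ : ∀ i x, Φ i x ≤ 1) (e : G ≃ G)
    (hS : ∀ i, i ≤ i0 → ∀ μ : G → ℝ≥0∞, ∑' x, μ x ≤ 1 → (∀ x, μ x ≤ Gc) →
      ∑' x, μ x * Φ i x ≤ S) :
    ∑' y : ℕ × G, (if y.1 ≤ i0 then f y * Φ y.1 (e y.2) else 0)
      ≤ δ + ((i0 + 1 : ℕ) : ℝ≥0∞) * S := by
  have h1 : ∀ y : ℕ × G, (if y.1 ≤ i0 then f y * Φ y.1 (e y.2) else 0)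
      ≤ b y + (if y.1 ≤ i0 then min (f y) Gc * Φ y.1 (e y.2) else 0) := by
    intro y
    by_cases hi : y.1 ≤ i0
    · rw [if_pos hi, if_pos hi]
      have h2 : f y ≤ b y + min (f y) Gc := by
        rcases le_total (f y) Gc with h | h
        · rw [min_eq_left h]; exact le_add_self
        · rw [min_eq_right h, add_comm]; exact hfb y
      calc _ ≤ (b y + min (f y) Gc) * Φ y.1 (e y.2) := mul_le_mul_left h2 _
        _ = b y * Φ y.1 (e y.2) + min (f y) Gc * Φ y.1 (e y.2) := add_mul _ _ _
        _ ≤ b y * 1 + _ := add_le_add (mul_le_mul_right (hΦ _ _) _) le_rfl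
        _ = _ := by rw [mul_one]
    · rw [if_neg hi]; exact zero_le
  calc _ ≤ ∑' y : ℕ × G, (b y + (if y.1 ≤ i0 then min (f y) Gc * Φ y.1 (e y.2) else 0)) :=
        ENNReal.tsum_le_tsum h1
    _ = ∑' y, b y + ∑' y : ℕ × G, (if y.1 ≤ i0 then min (f y) Gc * Φ y.1 (e y.2) else 0) :=
        ENNReal.tsum_add
    _ ≤ _ := by
        refine add_le_add hb ?_
        rw [ENNReal.tsum_prod']
        calc _ ≤ ∑' i : ℕ, (if i ≤ i0 then S else 0) := by
              refine ENNReal.tsum_le_tsum fun i => ?_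
              by_cases hi : i ≤ i0
              · simp only [hi, if_true]
                have h3 := hS i hi (fun x => min (f (i, e.symm x)) Gc) ?_ (fun x => min_le_right _ _)
                · refine le_trans (le_of_eq ?_) h3
                  rw [← e.tsum_eq (fun x => min (f (i, e.symm x)) Gc * Φ i x)]
                  refine tsum_congr fun z => ?_
                  rw [Equiv.symm_apply_apply]
                · calc ∑' x, min (f (i, e.symm x)) Gc ≤ ∑' x, f (i, e.symm x) :=
                        ENNReal.tsum_le_tsum fun x => min_le_left _ _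
                    _ = ∑' x, f (i, x) := e.symm.tsum_eq fun x => f (i, x)
                    _ ≤ ∑' x, f x := ENNReal.tsum_comp_le_tsum_of_injective
                        (f := fun z' : G => ((i, z') : ℕ × G)) (fun a b h => by simpa using h) _
                    _ ≤ 1 := hf1
              · simp only [hi, if_false, tsum_zero]; exact zero_le
          _ = ∑ i ∈ Finset.range (i0 + 1), S := by
              rw [tsum_eq_sum (s := Finset.range (i0 + 1))]
              · refine Finset.sum_congr rfl fun i hi => ?_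
                rw [if_pos (by have := Finset.mem_range.1 hi; omega)]
              · intro i hi
                rw [if_neg (by intro h; exact hi (Finset.mem_range.2 (by omega)))]
          _ = _ := by simp

end

end Crest.Agent.R154.Asm857
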