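import Crest.Agent.R154.AsmA_871

/-! Row 154 (helper871), ROAD 801: quantile of one piece, first passage split of one walker. -/

set_option autoImplicit false

namespace Crest.Agent.R154.Asm871

open scoped ENNReal
open Crest.Agent.R154.B5A Crest.Agent.R154.FP178

variable {B G : Type*} [AddCommGroup G] (Λ : B → ℝ≥0∞) (ht : B → ℕ) (dz : B → G)

open Classical in
/-- quantile of the law of one piece: local set, density -/
theorem quant (h1 : ∀ b, 1 ≤ ht b) (hΛ : ∑' b, Λ b = 1) (s i0 : ℕ) {u : ℝ≥0∞} (hu0 : u ≠ 0)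
    (hu1 : u ≤ 1) : ∃ (th M : ℝ≥0∞) (E : Finset G),
      (∑' P, (if fp ht s P ∧ Dp dz P ∉ E then LW Λ P else 0) ≤ u) ∧
      (∑' v, (if th < law Λ ht dz s v then law Λ ht dz s v else 0) ≤ 1 - u) ∧
      ((i0 + 1 : ℕ) * th + (1 - u) * M ≤ M) ∧ M * (E.card : ℝ≥0∞) ≤ (i0 + 1 : ℕ) * u⁻¹ := by
  set p := law Λ ht dz s with hp
  have hp1 : ∑' v, p v = 1 := law_eq_one Λ ht dz h1 hΛ s
  obtain ⟨th, hth0, hth1, hlo, hhi⟩ := Dens903.quantile p hp1 hu0 hu1
  have hfin : {v | th ≤ p v}.Finite := Dens903.finite_level p (by rw [hp1]; exact ENNReal.one_ne_top) hth0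
  have hutop : u ≠ ⊤ := ne_top_of_le_ne_top ENNReal.one_ne_top hu1
  set E : Finset G := hfin.toFinset.image Prod.snd with hE
  have hcard : th * (E.card : ℝ≥0∞) ≤ 1 := by
    calc th * (E.card : ℝ≥0∞) ≤ th * (hfin.toFinset.card : ℝ≥0∞) := by
          gcongr
          exact Finset.card_image_le
      _ = th * ∑' a, (if th ≤ p a then 1 else 0) := by
          congr 1
          rw [tsum_eq_sum (s := hfin.toFinset)]
          · rw [Finset.sum_congr rfl (fun a ha => if_pos (show th ≤ p a from hfin.mem_toFinset.1 ha))]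
            simp
          · intro a ha
            rw [if_neg]
            intro h
            exact ha (hfin.mem_toFinset.2 h)
      _ ≤ ∑' a, p a := Dens903.card_le p th
      _ = 1 := hp1
  refine ⟨th, (i0 + 1 : ℕ) * th * u⁻¹, E, ?_, ?_, ?_, ?_⟩
  · calc ∑' P, (if fp ht s P ∧ Dp dz P ∉ E then LW Λ P else 0)
        ≤ ∑' P, (if fp ht s P then LW Λ P * (if p (vL ht dz P) < th then 1 else 0) else 0) := by
          refine ENNReal.tsum_le_tsum fun P => ?_
          by_cases h : fp ht s P ∧ Dp dz P ∉ E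
          · rw [if_pos h, if_pos h.1, if_pos, mul_one]
            by_contra hc
            rw [not_lt] at hc
            apply h.2
            rw [hE, Finset.mem_image]
            exact ⟨vL ht dz P, hfin.mem_toFinset.2 hc, rfl⟩
          · rw [if_neg h]; exact zero_le
      _ = ∑' v, p v * (if p v < th then 1 else 0) :=
          law_sum Λ ht dz s (fun v => if p v < th then 1 else 0)
      _ = ∑' v, (if p v < th then p v else 0) := by
          refine tsum_congr fun v => ?_
          split_ifs <;> simp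
      _ ≤ u := hlo
  · have hsum : ∑' v, (if p v ≤ th then p v else 0) + ∑' v, (if th < p v then p v else 0) = 1 := by
      rw [← ENNReal.tsum_add, ← hp1]
      refine tsum_congr fun v => ?_
      by_cases h : p v ≤ th
      · simp [h, not_lt.2 h]
      · simp [h, not_le.1 h]
    refine ENNReal.le_sub_of_add_le_left hutop ?_
    calc u + ∑' v, (if th < p v then p v else 0)
        ≤ ∑' v, (if p v ≤ th then p v else 0) + ∑' v, (if th < p v then p v else 0) := by gcongr
      _ = 1 := hsum
  · have e1 : ((i0 + 1 : ℕ) : ℝ≥0∞) * th = u * ((i0 + 1 : ℕ) * th * u⁻¹) := by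
      calc ((i0 + 1 : ℕ) : ℝ≥0∞) * th = ((i0 + 1 : ℕ) * th) * (u * u⁻¹) := by
            rw [ENNReal.mul_inv_cancel hu0 hutop, mul_one]
        _ = _ := by ring
    calc ((i0 + 1 : ℕ) : ℝ≥0∞) * th + (1 - u) * ((i0 + 1 : ℕ) * th * u⁻¹)
        = u * ((i0 + 1 : ℕ) * th * u⁻¹) + (1 - u) * ((i0 + 1 : ℕ) * th * u⁻¹) := by rw [← e1]
      _ = (u + (1 - u)) * ((i0 + 1 : ℕ) * th * u⁻¹) := by ring
      _ = _ := by rw [add_tsub_cancel_of_le hu1, one_mul]
      _ ≤ _ := le_rfl
  · calc ((i0 + 1 : ℕ) : ℝ≥0∞) * th * u⁻¹ * (E.card : ℝ≥0∞)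
        = ((i0 + 1 : ℕ) * u⁻¹) * (th * (E.card : ℝ≥0∞)) := by ring
      _ ≤ ((i0 + 1 : ℕ) * u⁻¹) * 1 := by gcongr
      _ = _ := mul_one _

/-- tail sum of the overshoot -/
noncomputable def ov (i0 : ℕ) : ℝ≥0∞ := ∑' k, tail Λ ht (i0 + k)

open Classical in
/-- first passage split of one walker: top part, piece, rest -/
theorem split1 (h1 : ∀ b, 1 ≤ ht b) (hΛ : ∑' b, Λ b ≤ 1) (hU1 : ∀ n, U Λ ht n ≤ 1)
    (T s i0 n : ℕ) (hn : T + i0 + s ≤ n) (F : List B → ℝ≥0∞) (hF : ∀ L, F L ≤ 1)
    (K : List B → List B → ℝ≥0∞)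
    (hK : ∀ A P R, fp ht T A → HT ht A ≤ T + i0 → fp ht s P → HT ht P ≤ s + i0 →
      HT ht A + (HT ht P + HT ht R) = n → F (A ++ (P ++ R)) ≤ K A P) :
    ∑' L, (if HT ht L = n then LW Λ L * F L else 0) ≤ 2 * ov Λ ht i0 +
      ∑' A, (if fp ht T A ∧ HT ht A ≤ T + i0 then LW Λ A *
        ∑' P, (if fp ht s P ∧ HT ht P ≤ s + i0 then LW Λ P * K A P else 0) else 0) := by
  set f : List B → ℝ≥0∞ := fun L => if HT ht L = n then F L else 0 with hf
  -- mass of the rest
  have hrest : ∀ (c : ℕ) (g : List B → ℝ≥0∞) (k : ℝ≥0∞),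
      (∀ L, g L ≤ if c + HT ht L = n then k else 0) → ∑' L, LW Λ L * g L ≤ k := by
    intro c g k hg
    calc ∑' L, LW Λ L * g L ≤ ∑' L, (if HT ht L = n - c then LW Λ L else 0) * k := by
          refine ENNReal.tsum_le_tsum fun L => ?_
          by_cases h : c + HT ht L = n
          · have h' := hg L
            rw [if_pos h] at h'
            rw [if_pos (by omega)]
            gcongr
          · have h' := hg L
            rw [if_neg h] at h'
            have : g L = 0 := le_antisymm h' zero_le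
            rw [this, mul_zero]
            exact zero_le
      _ = U Λ ht (n - c) * k := by rw [ENNReal.tsum_mul_right]; rfl
      _ ≤ 1 * k := by gcongr; exact hU1 _
      _ = k := one_mul _
  have hsp := split Λ ht h1 T f
  have e0 : ∑' L, (if HT ht L = n then LW Λ L * F L else 0)
      = ∑' L, (if T ≤ HT ht L then LW Λ L * f L else 0) := by
    refine tsum_congr fun L => ?_
    by_cases h : HT ht L = n
    · rw [if_pos h, if_pos (by omega), hf]; simp only [if_pos h]
    · rw [if_neg h, hf]; simp only [if_neg h, mul_zero, ite_self]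
  rw [e0, hsp]
  -- inner sums
  have hin : ∀ A, fp ht T A → HT ht A ≤ T + i0 → ∑' L2, LW Λ L2 * f (A ++ L2) ≤ ov Λ ht i0 +
      ∑' P, (if fp ht s P ∧ HT ht P ≤ s + i0 then LW Λ P * K A P else 0) := by
    intro A hA hA'
    have e1 : ∑' L2, LW Λ L2 * f (A ++ L2)
        = ∑' L2, (if s ≤ HT ht L2 then LW Λ L2 * f (A ++ L2) else 0) := by
      refine tsum_congr fun L2 => ?_
      by_cases h : s ≤ HT ht L2
      · rw [if_pos h]
      · rw [if_neg h, hf]
        simp only
        rw [if_neg (by rw [HT_append]; omega), mul_zero]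
    rw [e1, split Λ ht h1 s (fun L2 => f (A ++ L2))]
    calc ∑' P, (if fp ht s P then LW Λ P * ∑' R, LW Λ R * f (A ++ (P ++ R)) else 0)
        ≤ ∑' P, ((if fp ht s P ∧ s + i0 < HT ht P then LW Λ P else 0) +
          (if fp ht s P ∧ HT ht P ≤ s + i0 then LW Λ P * K A P else 0)) := by
          refine ENNReal.tsum_le_tsum fun P => ?_
          by_cases hP : fp ht s P
          · rw [if_pos hP]
            by_cases hP' : HT ht P ≤ s + i0
            · rw [if_pos (⟨hP, hP'⟩ : fp ht s P ∧ HT ht P ≤ s + i0)]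
              refine le_trans ?_ le_add_self
              gcongr
              refine hrest (HT ht A + HT ht P) _ _ fun R => ?_
              simp only [hf, HT_append]
              by_cases hh : HT ht A + (HT ht P + HT ht R) = n
              · rw [if_pos hh, if_pos (by omega)]
                exact hK A P R hA hA' hP hP' hh
              · rw [if_neg hh]; exact zero_le
            · rw [if_pos (⟨hP, by omega⟩ : fp ht s P ∧ s + i0 < HT ht P)]
              refine le_trans ?_ le_self_add
              calc LW Λ P * ∑' R, LW Λ R * f (A ++ (P ++ R)) ≤ LW Λ P * 1 := by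
                    gcongr
                    refine hrest (HT ht A + HT ht P) _ _ fun R => ?_
                    simp only [hf, HT_append]
                    by_cases hh : HT ht A + (HT ht P + HT ht R) = n
                    · rw [if_pos hh, if_pos (by omega)]
                      exact hF _
                    · rw [if_neg hh]; exact zero_le
                _ = LW Λ P := mul_one _
          · rw [if_neg hP]; exact zero_le
      _ = _ := ENNReal.tsum_add
      _ ≤ _ := by
          gcongr
          exact overshoot Λ ht h1 hU1 i0 s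
  calc ∑' A, (if fp ht T A then LW Λ A * ∑' L2, LW Λ L2 * f (A ++ L2) else 0)
      ≤ ∑' A, ((if fp ht T A ∧ T + i0 < HT ht A then LW Λ A else 0) +
        ((if fp ht T A then LW Λ A else 0) * ov Λ ht i0 +
        (if fp ht T A ∧ HT ht A ≤ T + i0 then LW Λ A *
          ∑' P, (if fp ht s P ∧ HT ht P ≤ s + i0 then LW Λ P * K A P else 0) else 0))) := by
        refine ENNReal.tsum_le_tsum fun A => ?_
        by_cases hA : fp ht T A
        · rw [if_pos hA, if_pos hA]
          by_cases hA' : HT ht A ≤ T + i0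
          · rw [if_pos (⟨hA, hA'⟩ : fp ht T A ∧ HT ht A ≤ T + i0)]
            refine le_trans ?_ le_add_self
            rw [← mul_add]
            gcongr
            exact hin A hA hA'
          · rw [if_pos (⟨hA, by omega⟩ : fp ht T A ∧ T + i0 < HT ht A)]
            refine le_trans ?_ le_self_add
            calc LW Λ A * ∑' L2, LW Λ L2 * f (A ++ L2) ≤ LW Λ A * 1 := by
                  gcongr
                  refine hrest (HT ht A) _ _ fun R => ?_
                  simp only [hf, HT_append]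
                  by_cases hh : HT ht A + HT ht R = n
                  · rw [if_pos hh, if_pos hh]
                    exact hF _
                  · rw [if_neg hh]; exact zero_le
              _ = LW Λ A := mul_one _
        · rw [if_neg hA]; exact zero_le
    _ = (∑' A, (if fp ht T A ∧ T + i0 < HT ht A then LW Λ A else 0)) +
        ((∑' A, (if fp ht T A then LW Λ A else 0)) * ov Λ ht i0 +
        ∑' A, (if fp ht T A ∧ HT ht A ≤ T + i0 then LW Λ A *
          ∑' P, (if fp ht s P ∧ HT ht P ≤ s + i0 then LW Λ P * K A P else 0) else 0)) := by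
        rw [ENNReal.tsum_add, ENNReal.tsum_add, ENNReal.tsum_mul_right]
    _ ≤ ov Λ ht i0 + (1 * ov Λ ht i0 +
        ∑' A, (if fp ht T A ∧ HT ht A ≤ T + i0 then LW Λ A *
          ∑' P, (if fp ht s P ∧ HT ht P ≤ s + i0 then LW Λ P * K A P else 0) else 0)) := by
        gcongr
        · exact overshoot Λ ht h1 hU1 i0 T
        · exact sum_FP Λ ht h1 hΛ T
    _ = _ := by ring

open Classical in
/-- averaging a function of the top against the smooth law -/
theorem local_bound (h1 : ∀ b, 1 ≤ ht b) (T i0 : ℕ) (M κ δ : ℝ≥0∞)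
    (hΛ : ∑' b, Λ b ≤ 1)
    (b : ℤ × G → ℝ≥0∞) (hb : ∑' v, b v ≤ δ) (hbM : ∀ v, law Λ ht dz T v ≤ M + b v)
    (Θ : ℕ → G → ℝ≥0∞) (hΘ1 : ∀ a z, Θ a z ≤ 1)
    (hΘ : ∀ a, T ≤ a → a ≤ T + i0 → ∀ μ : G → ℝ≥0∞, ∑' z, μ z ≤ 1 → (∀ z, μ z ≤ M) →
      ∑' z, μ z * Θ a z ≤ κ) :
    ∑' A, (if fp ht T A ∧ HT ht A ≤ T + i0 then LW Λ A * Θ (HT ht A) (Dp dz A) else 0)
      ≤ δ + (i0 + 1 : ℕ) * κ := by
  set p := law Λ ht dz T with hp
  have e0 : ∑' A, (if fp ht T A ∧ HT ht A ≤ T + i0 then LW Λ A * Θ (HT ht A) (Dp dz A) else 0)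
      = ∑' v, p v * (if v.1.toNat ≤ T + i0 then Θ v.1.toNat v.2 else 0) := by
    rw [← law_sum Λ ht dz T (fun v => if v.1.toNat ≤ T + i0 then Θ v.1.toNat v.2 else 0)]
    refine tsum_congr fun A => ?_
    have e1 : (vL ht dz A).1.toNat = HT ht A := by simp [vL]
    have e2 : (vL ht dz A).2 = Dp dz A := rfl
    rw [e1, e2]
    by_cases h : fp ht T A <;> by_cases h' : HT ht A ≤ T + i0 <;> simp [h, h']
  rw [e0]
  have hterm : ∀ v, p v * (if v.1.toNat ≤ T + i0 then Θ v.1.toNat v.2 else 0) ≤ b v +
      (if v.1 ∈ Finset.Icc (T : ℤ) (T + i0 : ℕ) then min (p v) M * Θ v.1.toNat v.2 else 0) := by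
    intro v
    have hmin : p v ≤ b v + min (p v) M := by
      rcases le_total (p v) M with h | h
      · rw [min_eq_left h]; exact le_add_self
      · rw [min_eq_right h, add_comm]; exact hbM v
    by_cases h : v.1.toNat ≤ T + i0
    · rw [if_pos h]
      by_cases h0 : p v = 0
      · simp [h0]
      · have h2 := law_ne Λ ht dz T v h0
        have h3 : v.1 ∈ Finset.Icc (T : ℤ) (T + i0 : ℕ) := by
          rw [Finset.mem_Icc]; refine ⟨h2, ?_⟩; omega
        rw [if_pos h3]
        calc p v * Θ v.1.toNat v.2 ≤ (b v + min (p v) M) * Θ v.1.toNat v.2 := by gcongr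
          _ = b v * Θ v.1.toNat v.2 + min (p v) M * Θ v.1.toNat v.2 := by ring
          _ ≤ b v * 1 + min (p v) M * Θ v.1.toNat v.2 := by gcongr; exact hΘ1 _ _
          _ = _ := by rw [mul_one]
    · rw [if_neg h, mul_zero]; exact zero_le
  have hpr : ∑' v : ℤ × G, (if v.1 ∈ Finset.Icc (T : ℤ) (T + i0 : ℕ) then
      min (p v) M * Θ v.1.toNat v.2 else 0)
      = ∑' c : ℤ, ∑' z : G, (if c ∈ Finset.Icc (T : ℤ) (T + i0 : ℕ) then
        min (p (c, z)) M * Θ c.toNat z else 0) :=
    ENNReal.tsum_prod (f := fun (c : ℤ) (z : G) => if c ∈ Finset.Icc (T : ℤ) (T + i0 : ℕ) then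
        min (p (c, z)) M * Θ c.toNat z else 0)
  calc _ ≤ ∑' v, (b v + (if v.1 ∈ Finset.Icc (T : ℤ) (T + i0 : ℕ) then
          min (p v) M * Θ v.1.toNat v.2 else 0)) := ENNReal.tsum_le_tsum hterm
    _ = ∑' v, b v + ∑' v : ℤ × G, (if v.1 ∈ Finset.Icc (T : ℤ) (T + i0 : ℕ) then
          min (p v) M * Θ v.1.toNat v.2 else 0) := ENNReal.tsum_add
    _ ≤ δ + ∑ c ∈ Finset.Icc (T : ℤ) (T + i0 : ℕ), κ := by
        gcongr
        rw [hpr, tsum_eq_sum (s := Finset.Icc (T : ℤ) (T + i0 : ℕ))]
        · refine Finset.sum_le_sum fun c hc => ?_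
          simp only [if_pos hc]
          rw [Finset.mem_Icc] at hc
          refine hΘ c.toNat (by omega) (by omega) (fun z => min (p (c, z)) M) ?_ ?_
          · refine le_trans ?_ (law_le Λ ht dz h1 hΛ T)
            have hinj : Function.Injective (fun z : G => ((c, z) : ℤ × G)) := by
              intro z z' h
              exact congrArg Prod.snd h
            refine le_trans (ENNReal.tsum_le_tsum fun z => min_le_left _ _) ?_
            exact ENNReal.tsum_comp_le_tsum_of_injective hinj _
          · exact fun z => min_le_right _ _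
        · intro c hc
          simp only [if_neg hc, tsum_zero]
    _ = _ := by
        rw [Finset.sum_const, Int.card_Icc, nsmul_eq_mul]
        congr 3
        omega

end Crest.Agent.R154.Asm871
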