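import Crest.Agent.R154.AsmA_876

/-! Row 154 (helper876), ROAD 801: assembly, part B (one window). -/

set_option autoImplicit false

namespace Crest.Agent.R154.Asm876

open scoped ENNReal
open Crest.Agent.R154.B5A
open Crest.Agent.R154.FP178

section tr

variable {B G : Type*} [AddCommGroup G] (h : B → ℕ) (z : B → G) (s : B → Set (G × ℕ))

/-- sites of a list of blocks hung at `(x, a)` -/
def TR : List B → G → ℕ → Set (G × ℕ)
  | [], _, _ => ∅
  | b :: L, x, a => {q | ∃ y k, (y, k) ∈ s b ∧ q = (x + y, a + k)} ∪ TR L (x + z b) (a + h b)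

lemma TR_append (A L : List B) (x : G) (a : ℕ) :
    TR h z s (A ++ L) x a = TR h z s A x a ∪ TR h z s L (x + dL z A) (a + HT h A) := by
  induction A generalizing x a with
  | nil => simp [TR, dL, HT]
  | cons b A ih =>
    rw [List.cons_append, TR, TR, ih, dL_cons, HT_cons, Set.union_assoc, add_assoc, add_assoc]

lemma TR_depth (hs : ∀ b y k, (y, k) ∈ s b → 1 ≤ k ∧ k ≤ h b) (L : List B) (x : G) (a : ℕ)
    {y : G} {k : ℕ} (hq : (y, k) ∈ TR h z s L x a) : a + 1 ≤ k ∧ k ≤ a + HT h L := by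
  induction L generalizing x a with
  | nil => simp [TR] at hq
  | cons b L ih =>
    rw [HT_cons]
    rcases hq with ⟨y', k', h1, h2⟩ | hq
    · have := hs b y' k' h1
      simp only [Prod.mk.injEq] at h2
      omega
    · have := ih _ _ hq
      omega

lemma TR_shift (L : List B) (x c : G) (a : ℕ) (y : G) (k : ℕ) :
    (y, k) ∈ TR h z s L (x + c) a ↔ (y - c, k) ∈ TR h z s L x a := by
  induction L generalizing x a with
  | nil => simp [TR]
  | cons b L ih =>
    have e : x + c + z b = (x + z b) + c := by abel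
    simp only [TR, Set.mem_union, e, ih, Set.mem_ofPred_eq, Prod.mk.injEq]
    constructor
    · rintro (⟨y', k', h1, h2, h3⟩ | h')
      · exact Or.inl ⟨y', k', h1, by rw [h2]; abel, h3⟩
      · exact Or.inr h'
    · rintro (⟨y', k', h1, h2, h3⟩ | h')
      · refine Or.inl ⟨y', k', h1, ?_, h3⟩
        rw [sub_eq_iff_eq_add] at h2
        rw [h2]; abel
      · exact Or.inr h'

end tr

section sums

variable {B : Type*} (Λ : B → ℝ≥0∞) (ht : B → ℕ)

lemma FS_comm {B' : Type*} (Λ' : B' → ℝ≥0∞) (ht' : B' → ℕ) (a i0 a' i0' : ℕ)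
    (F : List B → List B' → ℝ≥0∞) :
    FS Λ ht a i0 (fun A => FS Λ' ht' a' i0' (fun A' => F A A'))
      = FS Λ' ht' a' i0' (fun A' => FS Λ ht a i0 (fun A => F A A')) := by
  classical
  have e1 : FS Λ ht a i0 (fun A => FS Λ' ht' a' i0' (fun A' => F A A'))
      = ∑' A, ∑' A', (if (fp ht a A ∧ HT ht A ≤ a + i0) ∧ (fp ht' a' A' ∧ HT ht' A' ≤ a' + i0')
        then LW Λ A * (LW Λ' A' * F A A') else 0) := by
    refine tsum_congr fun A => ?_
    by_cases hA : fp ht a A ∧ HT ht A ≤ a + i0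
    · rw [if_pos hA]
      beta_reduce
      rw [FS, ← ENNReal.tsum_mul_left]
      refine tsum_congr fun A' => ?_
      by_cases hA' : fp ht' a' A' ∧ HT ht' A' ≤ a' + i0'
      · rw [if_pos hA', if_pos ⟨hA, hA'⟩]
      · rw [if_neg hA', if_neg (fun hh => hA' hh.2), mul_zero]
    · rw [if_neg hA]
      symm
      rw [ENNReal.tsum_eq_zero]
      intro A'
      rw [if_neg (fun hh => hA hh.1)]
  rw [e1, ENNReal.tsum_comm]
  refine tsum_congr fun A' => ?_
  by_cases hA' : fp ht' a' A' ∧ HT ht' A' ≤ a' + i0'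
  · rw [if_pos hA']
    beta_reduce
    rw [FS, ← ENNReal.tsum_mul_left]
    refine tsum_congr fun A => ?_
    by_cases hA : fp ht a A ∧ HT ht A ≤ a + i0
    · rw [if_pos hA, if_pos ⟨hA, hA'⟩]; ring
    · rw [if_neg hA, if_neg (fun hh => hA hh.1), mul_zero]
  · rw [if_neg hA', ENNReal.tsum_eq_zero]
    intro A
    rw [if_neg (fun hh => hA' hh.2)]

lemma tsum_mul_FS {G : Type*} (g : G → ℝ≥0∞) (a i0 : ℕ) (f : G → List B → ℝ≥0∞) :
    ∑' z, g z * FS Λ ht a i0 (f z) = FS Λ ht a i0 (fun A => ∑' z, g z * f z A) := by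
  classical
  have e1 : ∀ z, g z * FS Λ ht a i0 (f z) = ∑' A, (if fp ht a A ∧ HT ht A ≤ a + i0 then
      LW Λ A * (g z * f z A) else 0) := by
    intro z
    rw [FS, ← ENNReal.tsum_mul_left]
    refine tsum_congr fun A => ?_
    by_cases hA : fp ht a A ∧ HT ht A ≤ a + i0
    · rw [if_pos hA, if_pos hA]; ring
    · rw [if_neg hA, if_neg hA, mul_zero]
  rw [tsum_congr e1, ENNReal.tsum_comm]
  refine tsum_congr fun A => ?_
  by_cases hA : fp ht a A ∧ HT ht A ≤ a + i0
  · simp only [if_pos hA]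
    rw [ENNReal.tsum_mul_left]
  · simp only [if_neg hA, tsum_zero]

open Classical in
/-- a sum over first passages with bounded overshoot, by heights, first passage dropped -/
lemma FS_le_heights (a i0 : ℕ) (Q : List B → Prop) (E : ℕ → List B → Prop)
    (hQ : ∀ A, fp ht a A → HT ht A ≤ a + i0 → Q A → E (HT ht A - a) A) (F : List B → ℝ≥0∞) :
    FS Λ ht a i0 (fun A => if Q A then F A else 0)
      ≤ ∑ i ∈ Finset.range (i0 + 1), ∑' L, (if HT ht L = a + i ∧ E i L then LW Λ L * F L else 0) := by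
  rw [← Summable.tsum_finsetSum (fun _ _ => ENNReal.summable)]
  refine ENNReal.tsum_le_tsum fun A => ?_
  by_cases hA : fp ht a A ∧ HT ht A ≤ a + i0
  · rw [if_pos hA]
    show LW Λ A * (if Q A then F A else 0) ≤ _
    by_cases hq : Q A
    · have hle := le_HT_of_fp ht hA.1
      rw [if_pos hq]
      refine le_trans ?_ (Finset.single_le_sum (f := fun i => if HT ht A = a + i ∧ E i A then
        LW Λ A * F A else 0) (fun _ _ => zero_le)
        (Finset.mem_range.2 (show HT ht A - a < i0 + 1 by omega)))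
      rw [if_pos ⟨by omega, hQ A hA.1 hA.2 hq⟩]
    · rw [if_neg hq, mul_zero]; exact zero_le
  · rw [if_neg hA]; exact zero_le

end sums

end Crest.Agent.R154.Asm876
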