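import Crest.Agent.R154.AsmA_879

/-! Row 154 (helper879), ROAD 801: one window. -/

set_option autoImplicit false

namespace Crest.Agent.R154.AsmB879

open scoped ENNReal
open Crest.Agent.R154.B5A Crest.Agent.R154.FP178 Crest.Agent.R154.AsmA879

variable {BX BY : Type*} (ΛX : BX → ℝ≥0∞) (hX : BX → ℕ) (ΛY : BY → ℝ≥0∞) (hY : BY → ℕ)

lemma Ex_comm (a a' : ℕ) (F : List BX → List BY → ℝ≥0∞) :
    Ex ΛX hX a (fun A => Ex ΛY hY a' (fun A' => F A A'))
      = Ex ΛY hY a' (fun A' => Ex ΛX hX a (fun A => F A A')) := by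
  classical
  simp only [Ex]
  have e1 : ∀ A : List BX, (if fp hX a A then LW ΛX A * ∑' A' : List BY, (if fp hY a' A' then
      LW ΛY A' * F A A' else 0) else 0)
      = ∑' A' : List BY, (if fp hX a A ∧ fp hY a' A' then LW ΛX A * (LW ΛY A' * F A A') else 0) := by
    intro A
    by_cases h : fp hX a A
    · rw [if_pos h, ← ENNReal.tsum_mul_left]
      refine tsum_congr fun A' => ?_
      by_cases h' : fp hY a' A' <;> simp [h, h']
    · rw [if_neg h]; simp [h]
  have e2 : ∀ A' : List BY, (if fp hY a' A' then LW ΛY A' * ∑' A : List BX, (if fp hX a A then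
      LW ΛX A * F A A' else 0) else 0)
      = ∑' A : List BX, (if fp hX a A ∧ fp hY a' A' then LW ΛX A * (LW ΛY A' * F A A') else 0) := by
    intro A'
    by_cases h : fp hY a' A'
    · rw [if_pos h, ← ENNReal.tsum_mul_left]
      refine tsum_congr fun A => ?_
      by_cases h' : fp hX a A
      · simp only [h, h', if_true, and_self]; rw [mul_left_comm]
      · simp [h']
    · rw [if_neg h]; simp [h]
  simp_rw [e1, e2]
  exact ENNReal.tsum_comm

open Classical in
/-- **whole lists → (top, piece) of both walkers** -/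
theorem red2 (h1X : ∀ b, 1 ≤ hX b) (h1Y : ∀ b, 1 ≤ hY b) (hUX : ∀ n, U ΛX hX n ≤ 1)
    (hUY : ∀ n, U ΛY hY n ≤ 1) (hΛX : ∑' b, ΛX b ≤ 1)
    (T τ i0 n : ℕ) (hn : T + i0 + τ ≤ n)
    (E : List BX → List BY → Prop) (C : List BX → List BX → List BY → List BY → Prop)
    (hEC : ∀ A P R A' P' R', fp hX T A → fp hX τ P → fp hY T A' → fp hY τ P' →
      HT hX A + (HT hX P + HT hX R) = n → HT hY A' + (HT hY P' + HT hY R') = n →
      E (A ++ (P ++ R)) (A' ++ (P' ++ R')) → C A P A' P') :
    ∑' LX, ∑' LY, (if HT hX LX = n ∧ HT hY LY = n ∧ E LX LY then LW ΛX LX * LW ΛY LY else 0)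
      ≤ Ex ΛX hX T (fun A => if T + i0 < HT hX A then 1 else 0)
        + (Ex ΛY hY T (fun A => if T + i0 < HT hY A then 1 else 0)
        + Ex ΛX hX T (fun A => Ex ΛX hX τ (fun P => Ex ΛY hY T (fun A' => Ex ΛY hY τ
          (fun P' => if C A P A' P' then 1 else 0))))) := by
  set oY := Ex ΛY hY T (fun A => if T + i0 < HT hY A then (1 : ℝ≥0∞) else 0) with hoY
  have e1 : ∀ LX : List BX, ∑' LY, (if HT hX LX = n ∧ HT hY LY = n ∧ E LX LY then
      LW ΛX LX * LW ΛY LY else 0) = if HT hX LX = n then LW ΛX LX *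
        (∑' LY, (if HT hY LY = n then LW ΛY LY * (if E LX LY then 1 else 0) else 0)) else 0 := by
    intro LX
    by_cases h : HT hX LX = n
    · rw [if_pos h, ← ENNReal.tsum_mul_left]
      refine tsum_congr fun LY => ?_
      by_cases h2 : HT hY LY = n <;> by_cases h3 : E LX LY <;> simp [h, h2, h3]
    · rw [if_neg h]
      refine ENNReal.tsum_eq_zero.2 fun LY => ?_
      rw [if_neg (fun h' => h h'.1)]
  simp_rw [e1]
  refine (red ΛX hX h1X hUX T τ i0 n hn _ (fun LX => ?_) (fun A P => oY + Ex ΛY hY T (fun A' =>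
    Ex ΛY hY τ (fun P' => if C A P A' P' then 1 else 0))) ?_).trans ?_
  · refine le_trans (ENNReal.tsum_le_tsum fun LY => ?_) (hUY n)
    by_cases h2 : HT hY LY = n <;> by_cases h3 : E LX LY <;> simp [h2, h3]
  · intro A P R hA hP hAP
    refine red ΛY hY h1Y hUY T τ i0 n hn (fun LY => if E (A ++ (P ++ R)) LY then 1 else 0)
      (fun LY => by split_ifs <;> simp) (fun A' P' => if C A P A' P' then 1 else 0) ?_
    intro A' P' R' hA' hP' hAP'
    by_cases h : E (A ++ (P ++ R)) (A' ++ (P' ++ R'))
    · rw [if_pos h, if_pos (hEC A P R A' P' R' hA hP hA' hP' hAP hAP' h)]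
    · rw [if_neg h]; exact zero_le
  · refine add_le_add le_rfl ?_
    calc Ex ΛX hX T (fun A => Ex ΛX hX τ (fun P => oY + Ex ΛY hY T (fun A' =>
          Ex ΛY hY τ (fun P' => if C A P A' P' then 1 else 0))))
        = Ex ΛX hX T (fun A => Ex ΛX hX τ (fun _ => oY)) + Ex ΛX hX T (fun A => Ex ΛX hX τ
          (fun P => Ex ΛY hY T (fun A' => Ex ΛY hY τ (fun P' => if C A P A' P' then 1 else 0)))) := by
          rw [← Ex_add]
          refine Ex_congr ΛX hX T fun A _ => ?_
          rw [← Ex_add]
      _ ≤ _ := by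
          refine add_le_add ?_ le_rfl
          exact Ex_const_le ΛX hX h1X hΛX T oY fun A _ => Ex_const_le ΛX hX h1X hΛX τ oY
            fun _ _ => le_rfl

variable {G : Type*} [AddCommGroup G] (zX : BX → G) (zY : BY → G)

/-- smearing: the relative position has a bounded density, up to a rough part -/
theorem smear (h1X : ∀ b, 1 ≤ hX b) (h1Y : ∀ b, 1 ≤ hY b) (hΛX : ∑' b, ΛX b ≤ 1)
    (hΛY : ∑' b, ΛY b ≤ 1) (T i0 : ℕ)
    (g b : ℕ → G → ℝ≥0∞) (M Bb : ℝ≥0∞)
    (hfg : ∀ r x, fl ΛX hX zX T r x ≤ g r x + b r x) (hgf : ∀ r x, g r x ≤ fl ΛX hX zX T r x)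
    (hgM : ∀ r x, g r x ≤ M) (hb : ∑' r, ∑' x, b r x ≤ Bb)
    (Φ : ℕ → ℕ → G → ℝ≥0∞) (hΦ1 : ∀ r r' x, Φ r r' x ≤ 1)
    (hΦ0 : ∀ r r' x, (T + i0 < r ∨ T + i0 < r') → Φ r r' x = 0) (w : G) (η : ℝ≥0∞)
    (H : ∀ r r', T ≤ r → r ≤ T + i0 → T ≤ r' → r' ≤ T + i0 → ∀ μ : G → ℝ≥0∞,
      ∑' x, μ x ≤ 1 → (∀ x, μ x ≤ M) → ∑' x, μ x * Φ r r' x ≤ η) :
    Ex ΛX hX T (fun A => Ex ΛY hY T (fun A' =>
      Φ (HT hX A) (HT hY A') (w + Dp zY A' - Dp zX A))) ≤ Bb + ((i0 : ℝ≥0∞) + 1) ^ 2 * η := by
  have hfY1 := fl_sum ΛY hY zY h1Y hΛY T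
  have e1 : Ex ΛX hX T (fun A => Ex ΛY hY T (fun A' =>
      Φ (HT hX A) (HT hY A') (w + Dp zY A' - Dp zX A)))
      = ∑' r, ∑' y, fl ΛX hX zX T r y * ∑' r', ∑' y', fl ΛY hY zY T r' y' *
        Φ r r' (w + y' - y) := by
    rw [← Ex_group ΛX hX zX T (fun r y => ∑' r', ∑' y', fl ΛY hY zY T r' y' *
      Φ r r' (w + y' - y))]
    refine Ex_congr ΛX hX T fun A _ => ?_
    exact Ex_group ΛY hY zY T (fun r' y' => Φ (HT hX A) r' (w + y' - Dp zX A))
  rw [e1]
  set I : ℕ → G → ℝ≥0∞ := fun r y => ∑' r', ∑' y', fl ΛY hY zY T r' y' *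
    Φ r r' (w + y' - y) with hI
  have hI1 : ∀ r y, I r y ≤ 1 := by
    intro r y
    refine le_trans (ENNReal.tsum_le_tsum fun r' => ENNReal.tsum_le_tsum fun y' => ?_) hfY1
    exact (mul_le_mul_right (hΦ1 _ _ _) _).trans (mul_one _).le
  calc ∑' r, ∑' y, fl ΛX hX zX T r y * I r y
      ≤ ∑' r, ∑' y, (b r y + g r y * I r y) := by
        refine ENNReal.tsum_le_tsum fun r => ENNReal.tsum_le_tsum fun y => ?_
        calc fl ΛX hX zX T r y * I r y ≤ (g r y + b r y) * I r y := mul_le_mul_left (hfg r y) _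
          _ = b r y * I r y + g r y * I r y := by ring
          _ ≤ b r y * 1 + g r y * I r y := by gcongr; exact hI1 r y
          _ = b r y + g r y * I r y := by rw [mul_one]
    _ = ∑' r, ∑' y, b r y + ∑' r, ∑' y, g r y * I r y := by
        rw [← ENNReal.tsum_add]; exact tsum_congr fun r => ENNReal.tsum_add
    _ ≤ Bb + ((i0 : ℝ≥0∞) + 1) ^ 2 * η := by
        refine add_le_add hb ?_
        have e2 : ∀ r, ∑' y, g r y * I r y = ∑' r', ∑' x, (∑' y', fl ΛY hY zY T r' y' *
            g r (w + y' - x)) * Φ r r' x := by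
          intro r
          calc ∑' y, g r y * I r y
              = ∑' y, ∑' r', ∑' y', g r y * (fl ΛY hY zY T r' y' * Φ r r' (w + y' - y)) := by
                refine tsum_congr fun y => ?_
                simp only [hI]
                rw [← ENNReal.tsum_mul_left]
                exact tsum_congr fun r' => ENNReal.tsum_mul_left.symm
            _ = ∑' r', ∑' y', ∑' y, g r y * (fl ΛY hY zY T r' y' * Φ r r' (w + y' - y)) := by
                rw [ENNReal.tsum_comm]
                exact tsum_congr fun r' => ENNReal.tsum_comm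
            _ = ∑' r', ∑' y', ∑' x, g r (w + y' - x) * (fl ΛY hY zY T r' y' * Φ r r' x) := by
                refine tsum_congr fun r' => tsum_congr fun y' => ?_
                rw [← tsum_subR (w + y') (fun x => g r (w + y' - x) *
                  (fl ΛY hY zY T r' y' * Φ r r' x))]
                refine tsum_congr fun y => ?_
                rw [sub_sub_cancel]
            _ = _ := by
                refine tsum_congr fun r' => ?_
                rw [ENNReal.tsum_comm]
                refine tsum_congr fun x => ?_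
                rw [← ENNReal.tsum_mul_right]
                refine tsum_congr fun y' => ?_
                ring
        have e3 : ∀ r r', ∑' x, (∑' y', fl ΛY hY zY T r' y' * g r (w + y' - x)) * Φ r r' x
            ≤ if r ∈ Finset.Icc T (T + i0) then
              (if r' ∈ Finset.Icc T (T + i0) then η else 0) else 0 := by
          intro r r'
          by_cases hr : r ∈ Finset.Icc T (T + i0)
          · by_cases hr' : r' ∈ Finset.Icc T (T + i0)
            · rw [if_pos hr, if_pos hr']
              rw [Finset.mem_Icc] at hr hr'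
              refine H r r' hr.1 hr.2 hr'.1 hr'.2 _ ?_ ?_
              · rw [ENNReal.tsum_comm]
                calc ∑' y', ∑' x, fl ΛY hY zY T r' y' * g r (w + y' - x)
                    ≤ ∑' y', fl ΛY hY zY T r' y' * 1 := by
                      refine ENNReal.tsum_le_tsum fun y' => ?_
                      rw [ENNReal.tsum_mul_left]
                      refine mul_le_mul_right ?_ _
                      rw [tsum_subR (w + y') (g r)]
                      exact (ENNReal.tsum_le_tsum fun x => hgf r x).trans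
                        (fl_sum1 ΛX hX zX h1X hΛX T r)
                  _ ≤ 1 := by
                      simp only [mul_one]
                      exact fl_sum1 ΛY hY zY h1Y hΛY T r'
              · intro x
                calc ∑' y', fl ΛY hY zY T r' y' * g r (w + y' - x)
                    ≤ ∑' y', fl ΛY hY zY T r' y' * M :=
                      ENNReal.tsum_le_tsum fun y' => mul_le_mul_right (hgM _ _) _
                  _ = (∑' y', fl ΛY hY zY T r' y') * M := ENNReal.tsum_mul_right
                  _ ≤ 1 * M := mul_le_mul_left (fl_sum1 ΛY hY zY h1Y hΛY T r') _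
                  _ = M := one_mul _
            · rw [if_pos hr, if_neg hr']
              refine le_of_eq (ENNReal.tsum_eq_zero.2 fun x => ?_)
              by_cases hlt : r' < T
              · have : ∑' y', fl ΛY hY zY T r' y' * g r (w + y' - x) = 0 :=
                  ENNReal.tsum_eq_zero.2 fun y' => by
                    rw [fl_zero_of_lt ΛY hY zY T r' y' hlt, zero_mul]
                rw [this, zero_mul]
              · rw [hΦ0 r r' x (Or.inr ?_), mul_zero]
                rw [Finset.mem_Icc] at hr'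
                omega
          · rw [if_neg hr]
            refine le_of_eq (ENNReal.tsum_eq_zero.2 fun x => ?_)
            by_cases hlt : r < T
            · have : ∑' y', fl ΛY hY zY T r' y' * g r (w + y' - x) = 0 :=
                ENNReal.tsum_eq_zero.2 fun y' => by
                  have h0 : g r (w + y' - x) = 0 := le_antisymm
                    ((hgf r _).trans (fl_zero_of_lt ΛX hX zX T r _ hlt).le) zero_le
                  rw [h0, mul_zero]
              rw [this, zero_mul]
            · rw [hΦ0 r r' x (Or.inl ?_), mul_zero]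
              rw [Finset.mem_Icc] at hr
              omega
        have hS : ∀ c : ℝ≥0∞, ∑' r : ℕ, (if r ∈ Finset.Icc T (T + i0) then c else 0)
            = ((i0 : ℝ≥0∞) + 1) * c := by
          intro c
          rw [tsum_eq_sum (s := Finset.Icc T (T + i0)) (fun h hh => if_neg hh)]
          rw [Finset.sum_congr rfl (fun h hh => if_pos hh), Finset.sum_const, Nat.card_Icc,
            nsmul_eq_mul]
          congr 1
          have : T + i0 + 1 - T = i0 + 1 := by omega
          rw [this]; push_cast; ring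
        calc ∑' r, ∑' y, g r y * I r y
            ≤ ∑' r, ∑' r', (if r ∈ Finset.Icc T (T + i0) then
              (if r' ∈ Finset.Icc T (T + i0) then η else 0) else 0) := by
              refine ENNReal.tsum_le_tsum fun r => ?_
              rw [e2 r]
              exact ENNReal.tsum_le_tsum fun r' => e3 r r'
          _ = ∑' r, (if r ∈ Finset.Icc T (T + i0) then ((i0 : ℝ≥0∞) + 1) * η else 0) := by
              refine tsum_congr fun r => ?_
              by_cases hr : r ∈ Finset.Icc T (T + i0)
              · simp only [if_pos hr]; exact hS η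
              · simp only [if_neg hr, tsum_zero]
          _ = ((i0 : ℝ≥0∞) + 1) ^ 2 * η := by rw [hS]; ring

open Classical in
/-- expansion of the two pieces over the heights -/
lemma pieces_le (τ i0 : ℕ) (Q : List BX → List BY → Prop) :
    Ex ΛX hX τ (fun P => Ex ΛY hY τ (fun P' =>
      if HT hX P ≤ τ + i0 ∧ HT hY P' ≤ τ + i0 ∧ Q P P' then 1 else 0))
      ≤ ∑ h ∈ Finset.Icc τ (τ + i0), ∑ h' ∈ Finset.Icc τ (τ + i0), ∑' P, ∑' P',
        (if HT hX P = h ∧ HT hY P' = h' ∧ Q P P' then LW ΛX P * LW ΛY P' else 0) := by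
  simp only [Ex]
  have e : ∀ F : ℕ → ℕ → List BX → List BY → ℝ≥0∞,
      ∑ h ∈ Finset.Icc τ (τ + i0), ∑ h' ∈ Finset.Icc τ (τ + i0), ∑' P, ∑' P', F h h' P P'
      = ∑' P, ∑' P', ∑ h ∈ Finset.Icc τ (τ + i0), ∑ h' ∈ Finset.Icc τ (τ + i0), F h h' P P' := by
    intro F
    calc _ = ∑ h ∈ Finset.Icc τ (τ + i0), ∑' P, ∑' P', ∑ h' ∈ Finset.Icc τ (τ + i0),
          F h h' P P' := by
          refine Finset.sum_congr rfl fun h _ => ?_
          rw [← Summable.tsum_finsetSum (fun i _ => ENNReal.summable)]
          refine tsum_congr fun P => ?_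
          rw [← Summable.tsum_finsetSum (fun i _ => ENNReal.summable)]
      _ = _ := by
          rw [← Summable.tsum_finsetSum (fun i _ => ENNReal.summable)]
          refine tsum_congr fun P => ?_
          rw [← Summable.tsum_finsetSum (fun i _ => ENNReal.summable)]
  rw [e]
  refine ENNReal.tsum_le_tsum fun P => ?_
  by_cases hP : fp hX τ P
  · rw [if_pos hP, ← ENNReal.tsum_mul_left]
    refine ENNReal.tsum_le_tsum fun P' => ?_
    by_cases hP' : fp hY τ P'
    · rw [if_pos hP']
      by_cases hc : HT hX P ≤ τ + i0 ∧ HT hY P' ≤ τ + i0 ∧ Q P P'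
      · rw [if_pos hc, mul_one]
        have m1 : HT hX P ∈ Finset.Icc τ (τ + i0) :=
          Finset.mem_Icc.2 ⟨le_HT_of_fp hX hP, hc.1⟩
        have m2 : HT hY P' ∈ Finset.Icc τ (τ + i0) :=
          Finset.mem_Icc.2 ⟨le_HT_of_fp hY hP', hc.2.1⟩
        refine le_trans ?_ (Finset.single_le_sum (fun _ _ => zero_le) m1)
        refine le_trans ?_ (Finset.single_le_sum (fun _ _ => zero_le) m2)
        rw [if_pos ⟨rfl, rfl, hc.2.2⟩]
      · rw [if_neg hc, mul_zero, mul_zero]; exact zero_le
    · rw [if_neg hP', mul_zero]; exact zero_le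
  · rw [if_neg hP]; exact zero_le

end Crest.Agent.R154.AsmB879
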