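import Crest.Agent.R154.AsmA_887
import Crest.Agent.R154.Dens_616

/-! Row 154, ROAD 801 (helper887): abstract assembly, part B: one walker: threshold, local sets,
smooth density. -/

set_option autoImplicit false

namespace Crest.Agent.R154.Asm887

open scoped ENNReal
open Crest.Agent.R154.B5A Crest.Agent.R154.FP178
open Crest.Agent.R154.KWB419 (TT)

/-- data of one walker -/
structure Sys (B G : Type*) [AddCommGroup G] where
  Λ : B → ℝ≥0∞
  h : B → ℕ
  z : B → G
  s : B → Set (G × ℕ)
  h1 : ∀ b, 1 ≤ h b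
  hΛ : ∑' b, Λ b = 1
  hU : ∀ n, U Λ h n ≤ 1
  hs : ∀ b p, p ∈ s b → 1 ≤ p.2 ∧ p.2 ≤ h b
  hmean : ∑' b, Λ b * (h b : ℝ≥0∞) ≠ ⊤

section

variable {B G : Type*} [AddCommGroup G] (S : Sys B G)

/-- joint displacement -/
def Sys.dz (b : B) : ℤ × G := ((S.h b : ℤ), S.z b)

lemma Sys.dL_dz (L : List B) : dL S.dz L = ((HT S.h L : ℤ), (L.map S.z).sum) := by
  induction L with
  | nil => rw [dL_nil]; rfl
  | cons b L ih =>
    rw [dL_cons, ih, HT_cons, List.map_cons, List.sum_cons]
    simp [Sys.dz]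

open Classical in
lemma sum_FP_eq (Λ : B → ℝ≥0∞) (ht : B → ℕ) (h1 : ∀ b, 1 ≤ ht b) (hΛ : ∑' b, Λ b = 1) (a : ℕ) :
    ∑' L, (if fp ht a L then LW Λ L else 0) = 1 := by
  induction a using Nat.strong_induction_on with
  | _ a ih =>
    rcases Nat.eq_zero_or_pos a with rfl | ha
    · have := sum_fp_zero Λ ht (fun _ => 1)
      simpa only [mul_one] using this
    · have := sum_fp_step Λ ht a ha (fun _ => 1)
      simp only [mul_one] at this
      rw [this, ← hΛ]
      refine tsum_congr fun b => ?_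
      rw [ih (a - ht b) (by have := h1 b; omega), mul_one]

/-- law of the joint displacement of a first passage of `τ` -/
noncomputable def Sys.p (τ : ℕ) (x : ℤ × G) : ℝ≥0∞ := mL S.Λ S.h S.dz τ x

lemma Sys.sum_p (τ : ℕ) : ∑' x, S.p τ x = 1 := by
  classical
  have := sum_mL_eq S.Λ S.h S.dz τ
  rw [sum_FP_eq S.Λ S.h S.h1 S.hΛ τ] at this
  exact this

open Classical in
lemma Sys.pL_eq (τ i : ℕ) (x : ℤ × G) :
    pL S.Λ S.h S.dz τ i x = if x.1 = ((τ + i : ℕ) : ℤ) then S.p τ x else 0 := by
  unfold pL Sys.p mL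
  by_cases hx : x.1 = ((τ + i : ℕ) : ℤ)
  · rw [if_pos hx]
    refine tsum_congr fun L => ?_
    by_cases hL : fp S.h τ L
    · rw [if_pos hL, if_pos hL]
      by_cases hd : dL S.dz L = x
      · have : HT S.h L = τ + i := by
          rw [Sys.dL_dz] at hd
          rw [← hd] at hx
          simp only at hx
          exact_mod_cast hx
        rw [if_pos ⟨this, hd⟩, if_pos hd]
      · rw [if_neg (fun h => hd h.2), if_neg hd]
    · rw [if_neg hL, if_neg hL]
  · rw [if_neg hx, ENNReal.tsum_eq_zero]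
    intro L
    by_cases hL : fp S.h τ L
    · rw [if_pos hL, if_neg, mul_zero]
      rintro ⟨h1, h2⟩
      apply hx
      rw [← h2, Sys.dL_dz]
      simp only
      exact_mod_cast h1
    · rw [if_neg hL]

open Classical in
/-- sum of a function of the joint displacement over first passages -/
lemma Sys.sum_fp_fun (τ : ℕ) (F : ℤ × G → ℝ≥0∞) :
    ∑' L, (if fp S.h τ L then LW S.Λ L * F (dL S.dz L) else 0) = ∑' x, S.p τ x * F x := by
  rw [tsum_fiber (fun L => dL S.dz L) (fun L => if fp S.h τ L then LW S.Λ L * F (dL S.dz L) else 0)]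
  refine tsum_congr fun x => ?_
  unfold Sys.p mL
  rw [← ENNReal.tsum_mul_right]
  refine tsum_congr fun L => ?_
  by_cases hd : dL S.dz L = x
  · rw [if_pos hd, if_pos hd]
    by_cases hL : fp S.h τ L
    · rw [if_pos hL, if_pos hL, mul_one, hd]
    · rw [if_neg hL, if_neg hL, zero_mul]
  · rw [if_neg hd, if_neg hd, mul_zero]
    simp

open Classical in
theorem sys_one {u : ℝ≥0∞} (hu0 : u ≠ 0) (hu1 : u < 1) (τ i0 J : ℕ) :
    ∃ (E : ℕ → Finset G) (θ : ℝ≥0∞), θ ≠ 0 ∧ θ ≤ 1 ∧ (∀ η, θ * (E η).card ≤ 1) ∧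
      (∑' P, (if (P.map S.z).sum ∈ E (HT S.h P) then 0 else wf S.Λ S.h τ i0 P) ≤ u) ∧
      ∀ a, J * (τ + i0) ≤ a → ∃ b : ℕ → G → ℝ≥0∞,
        (∑' α, ∑' z, b α z ≤ (1 - u) ^ J + J * ov S.Λ S.h i0) ∧
        ∀ α z, (∑' A, if HT S.h A = α ∧ (A.map S.z).sum = z then wf S.Λ S.h a i0 A else 0)
          ≤ θ * (i0 + 1) * J + b α z := by
  obtain ⟨θ, hθ0, hθ1, hlow, hhigh⟩ := Dens616.quantile (S.p τ) (S.sum_p τ) hu0 hu1
  have hfin : {x | θ ≤ S.p τ x}.Finite :=
    Dens616.finite_local (S.p τ) (by rw [S.sum_p]; exact ENNReal.one_ne_top) hθ0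
  set ES : Finset (ℤ × G) := hfin.toFinset with hES
  have hcard : (ES.card : ℝ≥0∞) * θ ≤ 1 := by
    rw [← S.sum_p τ]
    refine Dens616.card_mul_le (S.p τ) θ ES fun x hx => ?_
    simpa [hES] using hx
  set E : ℕ → Finset G := fun η => (ES.filter fun x => x.1 = (η : ℤ)).image Prod.snd with hE
  have hEmem : ∀ P : List B, θ ≤ S.p τ (dL S.dz P) → (P.map S.z).sum ∈ E (HT S.h P) := by
    intro P hP
    simp only [hE, Finset.mem_image, Finset.mem_filter]
    refine ⟨dL S.dz P, ⟨by simpa [hES] using hP, ?_⟩, ?_⟩ <;> rw [Sys.dL_dz]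
  refine ⟨E, θ, hθ0, hθ1, ?_, ?_, ?_⟩
  · intro η
    refine le_trans ?_ hcard
    rw [mul_comm]
    refine mul_le_mul_left ?_ _
    have : (E η).card ≤ ES.card := Finset.card_image_le.trans (Finset.card_filter_le _ _)
    exact_mod_cast this
  · calc ∑' P, (if (P.map S.z).sum ∈ E (HT S.h P) then 0 else wf S.Λ S.h τ i0 P)
        ≤ ∑' P, (if fp S.h τ P then LW S.Λ P *
            (if S.p τ (dL S.dz P) < θ then 1 else 0) else 0) := by
          refine ENNReal.tsum_le_tsum fun P => ?_
          by_cases hP : (P.map S.z).sum ∈ E (HT S.h P)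
          · rw [if_pos hP]; exact zero_le
          · rw [if_neg hP]
            have hlt : S.p τ (dL S.dz P) < θ := by
              by_contra hcon
              exact hP (hEmem P (not_lt.1 hcon))
            rw [if_pos hlt, mul_one, wf]
            by_cases hL : fp S.h τ P
            · rw [if_pos hL]; split_ifs <;> simp
            · rw [if_neg (fun h => hL h.1)]; exact zero_le
      _ = ∑' x, S.p τ x * (if S.p τ x < θ then 1 else 0) :=
          S.sum_fp_fun τ (fun x => if S.p τ x < θ then 1 else 0)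
      _ = ∑' x, (if S.p τ x < θ then S.p τ x else 0) := by
          refine tsum_congr fun x => ?_
          split_ifs <;> simp
      _ ≤ u := hlow
  · intro a ha
    have hr : ∑ i ∈ Finset.range (i0 + 1), ∑' x, (if θ < pL S.Λ S.h S.dz τ i x then
        pL S.Λ S.h S.dz τ i x else 0) ≤ 1 - u := by
      have e1 : ∑ i ∈ Finset.range (i0 + 1), ∑' x, (if θ < pL S.Λ S.h S.dz τ i x then
          pL S.Λ S.h S.dz τ i x else 0) ≤ ∑' x, (if θ < S.p τ x then S.p τ x else 0) := by
        rw [← Summable.tsum_finsetSum (fun _ _ => ENNReal.summable)]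
        refine ENNReal.tsum_le_tsum fun x => ?_
        by_cases hx : θ < S.p τ x
        · rw [if_pos hx]
          calc ∑ i ∈ Finset.range (i0 + 1), (if θ < pL S.Λ S.h S.dz τ i x then
                pL S.Λ S.h S.dz τ i x else 0)
              ≤ ∑ i ∈ Finset.range (i0 + 1), (if i = (x.1 - τ).toNat then S.p τ x else 0) := by
                refine Finset.sum_le_sum fun i _ => ?_
                rw [Sys.pL_eq]
                by_cases hxi : x.1 = ((τ + i : ℕ) : ℤ)
                · rw [if_pos hxi, if_pos hx, if_pos (by omega)]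
                · rw [if_neg hxi]; simp
            _ ≤ S.p τ x := by
                rw [Finset.sum_ite_eq']
                split_ifs <;> simp
        · rw [if_neg hx]
          refine le_of_eq (Finset.sum_eq_zero fun i _ => ?_)
          rw [Sys.pL_eq]
          by_cases hxi : x.1 = ((τ + i : ℕ) : ℤ)
          · rw [if_pos hxi, if_neg hx]
          · rw [if_neg hxi]; simp
      refine e1.trans ?_
      have hut : u ≠ ⊤ := ne_top_of_lt hu1
      refine ENNReal.le_sub_of_add_le_right hut ?_
      calc ∑' x, (if θ < S.p τ x then S.p τ x else 0) + u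
          ≤ ∑' x, (if θ < S.p τ x then S.p τ x else 0)
            + ∑' x, (if S.p τ x ≤ θ then S.p τ x else 0) := by gcongr
        _ = ∑' x, S.p τ x := by
            rw [← ENNReal.tsum_add]
            refine tsum_congr fun x => ?_
            by_cases hx : θ < S.p τ x
            · rw [if_pos hx, if_neg (not_le.2 hx), add_zero]
            · rw [if_neg hx, if_pos (not_lt.1 hx), zero_add]
        _ = 1 := S.sum_p τ
    obtain ⟨g, b, hgb, hg, hb⟩ := smooth S.Λ S.h S.dz S.h1 S.hΛ.le τ i0 θ (1 - u)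
      (ov S.Λ S.h i0) tsub_le_self hr (overshoot S.Λ S.h S.h1 S.hU i0 τ) J a ha
    refine ⟨fun α z => b ((α : ℤ), z), ?_, ?_⟩
    · refine le_trans ?_ hb
      rw [← ENNReal.tsum_prod (f := fun (α : ℕ) (z : G) => b ((α : ℤ), z))]
      have hinj : Function.Injective (fun k : ℕ × G => ((k.1 : ℤ), k.2)) := by
        rintro ⟨a1, z1⟩ ⟨a2, z2⟩ h
        simp only [Prod.mk.injEq] at h
        exact Prod.ext (by exact_mod_cast h.1) h.2
      exact ENNReal.tsum_comp_le_tsum_of_injective hinj b
    · intro α z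
      calc (∑' A, if HT S.h A = α ∧ (A.map S.z).sum = z then wf S.Λ S.h a i0 A else 0)
          ≤ mL S.Λ S.h S.dz a ((α : ℤ), z) := by
            unfold mL
            refine ENNReal.tsum_le_tsum fun A => ?_
            by_cases hA : HT S.h A = α ∧ (A.map S.z).sum = z
            · rw [if_pos hA, Sys.dL_dz, hA.1, hA.2, if_pos rfl, mul_one, wf]
              by_cases hL : fp S.h a A
              · rw [if_pos hL]; split_ifs <;> simp
              · rw [if_neg (fun h => hL h.1)]; exact zero_le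
            · rw [if_neg hA]; exact zero_le
        _ = g ((α : ℤ), z) + b ((α : ℤ), z) := hgb _
        _ ≤ θ * (i0 + 1) * J + b ((α : ℤ), z) := by
            gcongr
            refine (hg _).trans ?_
            gcongr
            calc ∑ j ∈ Finset.range J, (1 - u) ^ j ≤ ∑ _j ∈ Finset.range J, (1 : ℝ≥0∞) :=
                  Finset.sum_le_sum fun j _ => pow_le_one₀ zero_le tsub_le_self
              _ = J := by simp

end

end Crest.Agent.R154.Asm887
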