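import Crest.Agent.R154.AsmA_903
import Crest.Agent.R154.AsmA_789

/-! Row 154, ROAD 801 (helper903): contacts of lists cut in pieces; one window. -/

set_option autoImplicit false

namespace Crest.Agent.R154.Asm903

open scoped ENNReal Classical
open Finset
open Crest.Agent.R154.B5A Crest.Agent.R154.FP178

section contacts

variable {G B : Type*} [AddCommGroup G]

/-- sites read by a list of blocks, with depth -/
def TT (s : B → Set (G × ℕ)) (z : B → G) (h : B → ℕ) : List B → G → ℕ → Set (G × ℕ)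
  | [], _, _ => ∅
  | b :: L, x, a => {p | ∃ q ∈ s b, p = (x + q.1, a + q.2)} ∪ TT s z h L (x + z b) (a + h b)

/-- total displacement -/
def Dp (z : B → G) (L : List B) : G := (L.map z).sum

lemma Dp_nil (z : B → G) : Dp z [] = 0 := by simp [Dp]

lemma Dp_cons (z : B → G) (b : B) (L : List B) : Dp z (b :: L) = z b + Dp z L := by simp [Dp]

lemma Dp_append (z : B → G) (L L' : List B) : Dp z (L ++ L') = Dp z L + Dp z L' := by simp [Dp]

variable (s : B → Set (G × ℕ)) (z : B → G) (h : B → ℕ)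

lemma TT_append (L L' : List B) (x : G) (a : ℕ) :
    TT s z h (L ++ L') x a = TT s z h L x a ∪ TT s z h L' (x + Dp z L) (a + HT h L) := by
  induction L generalizing x a with
  | nil => simp [TT, Dp, HT]
  | cons b L ih =>
    simp only [List.cons_append, TT, ih, Dp_cons, HT_cons, Set.union_assoc, add_assoc]

lemma TT_depth (hs : ∀ b, ∀ q ∈ s b, 1 ≤ q.2 ∧ q.2 ≤ h b) (L : List B) (x : G) (a : ℕ) (y : G)
    (k : ℕ) (hk : (y, k) ∈ TT s z h L x a) : a < k ∧ k ≤ a + HT h L := by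
  induction L generalizing x a with
  | nil => simp [TT] at hk
  | cons b L ih =>
    rw [HT_cons]
    rcases hk with ⟨q, hq, he⟩ | hk
    · have h1 := hs b q hq
      have h2 : k = a + q.2 := congrArg Prod.snd he
      omega
    · have := ih _ _ hk; omega

lemma TT_shift (L : List B) (x v : G) (a : ℕ) (y : G) (k : ℕ) :
    (y, k) ∈ TT s z h L (x + v) a ↔ (y - v, k) ∈ TT s z h L x a := by
  induction L generalizing x a with
  | nil => simp [TT]
  | cons b L ih =>
    simp only [TT, Set.mem_union, Set.mem_setOf_eq]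
    have e : x + v + z b = x + z b + v := by abel
    rw [e, ih]
    constructor
    · rintro (⟨q, hq, he⟩ | hk)
      · refine Or.inl ⟨q, hq, ?_⟩
        have h1 : y = x + v + q.1 := congrArg Prod.fst he
        have h2 : k = a + q.2 := congrArg Prod.snd he
        rw [h1, h2]
        congr 1
        abel
      · exact Or.inr hk
    · rintro (⟨q, hq, he⟩ | hk)
      · refine Or.inl ⟨q, hq, ?_⟩
        have h1 : y - v = x + q.1 := congrArg Prod.fst he
        have h2 : k = a + q.2 := congrArg Prod.snd he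
        rw [h2, sub_eq_iff_eq_add.1 h1]
        congr 1
        abel
      · exact Or.inr hk

/-- height and displacement of a piece -/
def gg (P : List B) : ℕ × G := (HT h P, Dp z P)

lemma gg_sum (Ps : List (List B)) : (Ps.map (gg z h)).sum = (HT h Ps.flatten, Dp z Ps.flatten) := by
  induction Ps with
  | nil => simp [HT, Dp]; rfl
  | cons P Ps ih =>
    rw [List.map_cons, List.sum_cons, ih, List.flatten_cons, HT_append, Dp_append]
    rfl

lemma HT_pieces (T i0 : ℕ) (Ps : List (List B)) (hP : ∀ P ∈ Ps, T ≤ HT h P ∧ HT h P ≤ T + i0) :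
    Ps.length * T ≤ HT h Ps.flatten ∧ HT h Ps.flatten ≤ Ps.length * T + Ps.length * i0 := by
  induction Ps with
  | nil => simp [HT]
  | cons P Ps ih =>
    have h1 := ih fun Q hQ => hP Q (List.mem_cons_of_mem _ hQ)
    have h2 := hP P List.mem_cons_self
    rw [List.flatten_cons, HT_append, List.length_cons]
    constructor
    · nlinarith [h1.1, h2.1]
    · nlinarith [h1.2, h2.2]

/-- the piece of index `j` -/
def pc (j : ℕ) (Ps : List (List B)) : List B := (Ps.drop j).headD []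

lemma pc_spec (j : ℕ) (Ps : List (List B)) (hj : j < Ps.length) :
    ∃ rest, Ps = Ps.take j ++ pc j Ps :: rest ∧ pc j Ps ∈ Ps := by
  obtain ⟨P, rest, e⟩ : ∃ P rest, Ps.drop j = P :: rest := by
    apply List.exists_cons_of_ne_nil
    intro h0
    have := congrArg List.length h0
    rw [List.length_drop] at this
    simp at this
    omega
  have e2 : pc j Ps = P := by rw [pc, e]; rfl
  refine ⟨rest, ?_, ?_⟩
  · rw [e2, ← e, List.take_append_drop]
  · rw [e2]
    exact List.mem_of_mem_drop (i := j) (by rw [e]; exact List.mem_cons_self)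

lemma piece_mem (hs : ∀ b, ∀ q ∈ s b, 1 ≤ q.2 ∧ q.2 ≤ h b) (T i0 K : ℕ) (Ps : List (List B))
    (hlen : Ps.length = K) (hP : ∀ P ∈ Ps, T ≤ HT h P ∧ HT h P ≤ T + i0) (R : List B) (x : G)
    (j : ℕ) (hj : j < K) :
    (j * T ≤ HT h (Ps.take j).flatten ∧ HT h (Ps.take j).flatten ≤ j * T + K * i0) ∧
    ((j + 1) * T ≤ HT h (Ps.take j).flatten + HT h (pc j Ps) ∧
      HT h (Ps.take j).flatten + HT h (pc j Ps) ≤ (j + 1) * T + K * i0) ∧
    (∀ y k, j * T + K * i0 < k → k ≤ (j + 1) * T → (y, k) ∈ TT s z h (Ps.flatten ++ R) x 0 →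
      (y, k) ∈ TT s z h (pc j Ps) (x + Dp z (Ps.take j).flatten) (HT h (Ps.take j).flatten)) ∧
    (∀ y k, (y, k) ∈ TT s z h (pc j Ps) (x + Dp z (Ps.take j).flatten)
      (HT h (Ps.take j).flatten) → (y, k) ∈ TT s z h (Ps.flatten ++ R) x 0) := by
  obtain ⟨rest, e, hmem⟩ := pc_spec j Ps (by omega)
  have hpc := hP _ hmem
  have htk := HT_pieces h T i0 (Ps.take j) (fun P hP' => hP P (List.mem_of_mem_take hP'))
  have hl : (Ps.take j).length = j := by rw [List.length_take]; omega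
  rw [hl] at htk
  have hji : j * i0 + i0 ≤ K * i0 := by
    have : (j + 1) * i0 ≤ K * i0 := Nat.mul_le_mul_right _ hj
    linarith [this, Nat.succ_mul j i0]
  have hT1 : (j + 1) * T = j * T + T := Nat.succ_mul j T
  have hfl : Ps.flatten ++ R = (Ps.take j).flatten ++ (pc j Ps ++ (rest.flatten ++ R)) := by
    conv_lhs => rw [e]
    simp [List.append_assoc]
  refine ⟨⟨htk.1, by omega⟩, ⟨by omega, by omega⟩, ?_, ?_⟩
  · intro y k h1 h2 hk
    rw [hfl, TT_append, TT_append] at hk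
    rcases hk with hk | hk | hk
    · have := (TT_depth s z h hs _ _ _ _ _ hk).2; omega
    · rw [zero_add] at hk; exact hk
    · have := (TT_depth s z h hs _ _ _ _ _ hk).1; omega
  · intro y k hk
    rw [hfl, TT_append, TT_append]
    rw [zero_add]
    exact Or.inr (Or.inl hk)

end contacts

/-! ### quantile for subprobabilities -/

theorem quantile' {α : Type*} (p : α → ℝ≥0∞) (hp : ∑' a, p a ≤ 1) {u : ℝ≥0∞} (hu0 : u ≠ 0) :
    ∃ th : ℝ≥0∞, th ≠ 0 ∧ ∑' a, (if p a < th then p a else 0) ≤ u ∧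
      ∑' a, (if th < p a then p a else 0) ≤ 1 - u := by
  have hptop : ∑' a, p a ≠ ∞ := ne_top_of_le_ne_top ENNReal.one_ne_top hp
  have hle1 : ∀ a, p a ≤ 1 := fun a => (ENNReal.le_tsum a).trans hp
  rcases le_or_gt (∑' a, p a) u with htu | htu
  · refine ⟨1, one_ne_zero, ?_, ?_⟩
    · refine le_trans (ENNReal.tsum_le_tsum fun a => ?_) htu
      split_ifs
      · exact le_rfl
      · exact zero_le
    · have : ∀ a, (if 1 < p a then p a else 0) = 0 := fun a => if_neg (not_lt.2 (hle1 a))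
      simp [this]
  set t := ∑' a, p a with ht
  set T : Set ℝ≥0∞ := {v | v ≠ 0 ∧ (∃ a, p a = v) ∧
    t - u ≤ ∑' a, (if v ≤ p a then p a else 0)} with hT
  have key : ∀ c : ℝ≥0∞, (t - u < ∑' a, (if c < p a then p a else 0)) → ∃ v ∈ T, c < v := by
    intro c hc
    rw [ENNReal.tsum_eq_iSup_sum, lt_iSup_iff] at hc
    obtain ⟨s, hs⟩ := hc
    set s' := s.filter fun a => c < p a with hs'
    have e : ∑ a ∈ s, (if c < p a then p a else 0) = ∑ a ∈ s', p a := by
      rw [hs', Finset.sum_filter]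
    rw [e] at hs
    have hne : s'.Nonempty := by
      rw [Finset.nonempty_iff_ne_empty]
      rintro h0
      rw [h0] at hs
      simp at hs
    obtain ⟨a, ha, hmin⟩ := s'.exists_min_image p hne
    have hca : c < p a := (Finset.mem_filter.1 ha).2
    refine ⟨p a, ⟨(bot_le.trans_lt hca).ne', ⟨a, rfl⟩, ?_⟩, hca⟩
    refine hs.le.trans ?_
    calc ∑ b ∈ s', p b = ∑ b ∈ s', (if p a ≤ p b then p b else 0) :=
          Finset.sum_congr rfl fun b hb => by rw [if_pos (hmin b hb)]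
      _ ≤ _ := ENNReal.sum_le_tsum s'
  have hTne : T.Nonempty := by
    have h0 : t - u < ∑' a, (if 0 < p a then p a else 0) := by
      have : ∑' a, (if 0 < p a then p a else 0) = t := by
        rw [ht]
        refine tsum_congr fun a => ?_
        by_cases h : 0 < p a
        · simp [h]
        · simp only [h, if_false]
          exact (le_antisymm (not_lt.1 h) bot_le).symm
      rw [this]
      exact ENNReal.sub_lt_self hptop (bot_le.trans_lt htu).ne' hu0
    obtain ⟨v, hv, -⟩ := key 0 h0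
    exact ⟨v, hv⟩
  obtain ⟨v0, hv0⟩ := hTne
  have hfin : (T ∩ Set.Ici v0).Finite := by
    refine ((ENNReal.finite_const_le_of_tsum_ne_top hptop hv0.1).image p).subset ?_
    rintro v ⟨hv, hv'⟩
    obtain ⟨a, rfl⟩ := hv.2.1
    exact ⟨a, hv', rfl⟩
  obtain ⟨v, ⟨hvT, hvge⟩, hmax⟩ := Set.exists_max_image (T ∩ Set.Ici v0) id hfin
    ⟨v0, hv0, le_refl v0⟩
  refine ⟨v, hvT.1, ?_, ?_⟩
  · have hsplit : ∑' a, (if p a < v then p a else 0) + ∑' a, (if v ≤ p a then p a else 0) = t := by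
      rw [← ENNReal.tsum_add, ht]
      refine tsum_congr fun a => ?_
      by_cases h : p a < v
      · simp [h, not_le.2 h]
      · simp [h, not_lt.1 h]
    have h1 := hvT.2.2
    have h2 : ∑' a, (if p a < v then p a else 0) + (t - u) ≤ t :=
      (add_le_add le_rfl h1).trans hsplit.le
    have h3 : ∑' a, (if p a < v then p a else 0) ≤ t - (t - u) :=
      ENNReal.le_sub_of_add_le_right (ne_top_of_le_ne_top hptop tsub_le_self) h2
    rwa [ENNReal.sub_sub_cancel hptop htu.le] at h3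
  · have h1 : ∑' a, (if v < p a then p a else 0) ≤ t - u := by
      by_contra hc
      rw [not_le] at hc
      obtain ⟨v', hv', hlt⟩ := key v hc
      have := hmax v' ⟨hv', hvge.trans hlt.le⟩
      exact absurd hlt (not_lt.2 this)
    exact h1.trans (tsub_le_tsub_right hp u)

/-! ### mixing lemmas -/

section mix

variable {G : Type*} [AddCommGroup G]

lemma mix_le (φ ψ : G → ℝ≥0∞) (hφ : ∑' z, φ z ≤ 1) (hψ : ∑' z, ψ z ≤ 1) (M : ℝ≥0∞)
    (hM : ∀ z, φ z ≤ M) (w : G) (F : G → ℝ≥0∞) (κ : ℝ≥0∞)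
    (hF : ∀ μ : G → ℝ≥0∞, ∑' x, μ x ≤ 1 → (∀ x, μ x ≤ M) → ∑' x, μ x * F x ≤ κ) :
    ∑' z, φ z * ∑' z', ψ z' * F (w + z' - z) ≤ κ := by
  have e : ∑' z, φ z * ∑' z', ψ z' * F (w + z' - z)
      = ∑' x, (∑' z', ψ z' * φ (w + z' - x)) * F x := by
    simp only [← ENNReal.tsum_mul_left, ← ENNReal.tsum_mul_right]
    rw [ENNReal.tsum_comm, ENNReal.tsum_comm (f := fun x z' => ψ z' * φ (w + z' - x) * F x)]
    refine tsum_congr fun z' => ?_
    rw [← (Equiv.subLeft (w + z')).tsum_eq]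
    refine tsum_congr fun x => ?_
    rw [Equiv.subLeft_apply, sub_sub_cancel]
    ring
  rw [e]
  refine hF _ ?_ ?_
  · rw [ENNReal.tsum_comm]
    calc ∑' z', ∑' x, ψ z' * φ (w + z' - x) ≤ ∑' z', ψ z' * 1 := by
          refine ENNReal.tsum_le_tsum fun z' => ?_
          rw [ENNReal.tsum_mul_left]
          gcongr
          refine le_trans (le_of_eq ?_) hφ
          exact (Equiv.subLeft (w + z')).tsum_eq φ
      _ ≤ 1 := by simpa using hψ
  · intro x
    calc ∑' z', ψ z' * φ (w + z' - x) ≤ ∑' z', ψ z' * M := by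
          refine ENNReal.tsum_le_tsum fun z' => ?_
          gcongr
          exact hM _
      _ = (∑' z', ψ z') * M := ENNReal.tsum_mul_right
      _ ≤ 1 * M := by gcongr
      _ = M := one_mul M

lemma mix_le' (φ ψ : G → ℝ≥0∞) (hφ : ∑' z, φ z ≤ 1) (hψ : ∑' z, ψ z ≤ 1) (M : ℝ≥0∞)
    (hM : ∀ z, φ z ≤ M) (w : G) (F : G → ℝ≥0∞) (κ : ℝ≥0∞)
    (hF : ∀ μ : G → ℝ≥0∞, ∑' x, μ x ≤ 1 → (∀ x, μ x ≤ M) → ∑' x, μ x * F x ≤ κ) :
    ∑' z', φ z' * ∑' z, ψ z * F (w + z' - z) ≤ κ := by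
  have e : ∑' z', φ z' * ∑' z, ψ z * F (w + z' - z)
      = ∑' x, (∑' z, ψ z * φ (x + (z - w))) * F x := by
    simp only [← ENNReal.tsum_mul_left, ← ENNReal.tsum_mul_right]
    rw [ENNReal.tsum_comm, ENNReal.tsum_comm (f := fun x z => ψ z * φ (x + (z - w)) * F x)]
    refine tsum_congr fun z => ?_
    rw [← (Equiv.addRight (z - w)).tsum_eq]
    refine tsum_congr fun x => ?_
    have : w + (x + (z - w)) - z = x := by abel
    rw [Equiv.coe_addRight, this]
    ring
  rw [e]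
  refine hF _ ?_ ?_
  · rw [ENNReal.tsum_comm]
    calc ∑' z, ∑' x, ψ z * φ (x + (z - w)) ≤ ∑' z, ψ z * 1 := by
          refine ENNReal.tsum_le_tsum fun z => ?_
          rw [ENNReal.tsum_mul_left]
          gcongr
          refine le_trans (le_of_eq ?_) hφ
          exact (Equiv.addRight (z - w)).tsum_eq φ
      _ ≤ 1 := by simpa using hψ
  · intro x
    calc ∑' z, ψ z * φ (x + (z - w)) ≤ ∑' z, ψ z * M := by
          refine ENNReal.tsum_le_tsum fun z => ?_
          gcongr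
          exact hM _
      _ = (∑' z, ψ z) * M := ENNReal.tsum_mul_right
      _ ≤ 1 * M := by gcongr
      _ = M := one_mul M

lemma locsum (π₁ π₂ : ℕ × G → ℝ≥0∞) (h1 : ∑' σ, π₁ σ ≤ 1) (h2 : ∑' σ, π₂ σ ≤ 1)
    (I : Finset ℕ) (s1 : ∀ σ, σ.1 ∉ I → π₁ σ = 0) (s2 : ∀ σ, σ.1 ∉ I → π₂ σ = 0)
    (M δ : ℝ≥0∞) (b : ℕ × G → ℝ≥0∞) (hb : ∀ σ, π₁ σ ≤ M + b σ) (hb1 : ∑' σ, b σ ≤ δ)
    (Ξ : ℕ × G → ℕ × G → ℝ≥0∞) (hΞ : ∀ σ σ', Ξ σ σ' ≤ 1) (κ : ℝ≥0∞)
    (hκ : ∀ c ∈ I, ∀ c' ∈ I, ∀ φ ψ : G → ℝ≥0∞, ∑' z, φ z ≤ 1 → (∀ z, φ z ≤ M) → ∑' z, ψ z ≤ 1 →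
      ∑' z, φ z * ∑' z', ψ z' * Ξ (c, z) (c', z') ≤ κ) :
    ∑' σ, π₁ σ * ∑' σ', π₂ σ' * Ξ σ σ' ≤ δ + I.card * (I.card * κ) := by
  have hin : ∀ σ, ∑' σ', π₂ σ' * Ξ σ σ' ≤ 1 := fun σ => by
    calc ∑' σ', π₂ σ' * Ξ σ σ' ≤ ∑' σ', π₂ σ' * 1 := by
          refine ENNReal.tsum_le_tsum fun σ' => ?_
          gcongr
          exact hΞ _ _
      _ ≤ 1 := by simpa using h2
  set A : ℕ × G → ℝ≥0∞ := fun σ => min (π₁ σ) M with hA
  have hAb : ∀ σ, π₁ σ ≤ b σ + A σ := by
    intro σ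
    rcases le_total (π₁ σ) M with h | h
    · rw [hA]; simp only [min_eq_left h]; exact le_add_left le_rfl
    · rw [hA]; simp only [min_eq_right h]; rw [add_comm]; exact hb σ
  calc ∑' σ, π₁ σ * ∑' σ', π₂ σ' * Ξ σ σ'
      ≤ ∑' σ, (b σ + A σ * ∑' σ', π₂ σ' * Ξ σ σ') := by
        refine ENNReal.tsum_le_tsum fun σ => ?_
        calc π₁ σ * ∑' σ', π₂ σ' * Ξ σ σ' ≤ (b σ + A σ) * ∑' σ', π₂ σ' * Ξ σ σ' := by
              gcongr; exact hAb σ
          _ = b σ * ∑' σ', π₂ σ' * Ξ σ σ' + A σ * ∑' σ', π₂ σ' * Ξ σ σ' := add_mul _ _ _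
          _ ≤ b σ * 1 + A σ * ∑' σ', π₂ σ' * Ξ σ σ' := by gcongr; exact hin σ
          _ = _ := by rw [mul_one]
    _ = ∑' σ, b σ + ∑' σ, A σ * ∑' σ', π₂ σ' * Ξ σ σ' := ENNReal.tsum_add
    _ ≤ δ + I.card * (I.card * κ) := by
        gcongr
        rw [ENNReal.tsum_prod']
        have e1 : ∀ c, c ∉ I → ∑' z, A (c, z) * ∑' σ', π₂ σ' * Ξ (c, z) σ' = 0 := by
          intro c hc
          refine ENNReal.tsum_eq_zero.2 fun z => ?_
          have : A (c, z) = 0 := by rw [hA]; simp [s1 (c, z) hc]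
          rw [this, zero_mul]
        rw [tsum_eq_sum (s := I) (fun c hc => e1 c hc)]
        rw [← nsmul_eq_mul]
        refine Finset.sum_le_card_nsmul _ _ _ fun c hc => ?_
        have e2 : ∑' z, A (c, z) * ∑' σ', π₂ σ' * Ξ (c, z) σ'
            = ∑ c' ∈ I, ∑' z, A (c, z) * ∑' z', π₂ (c', z') * Ξ (c, z) (c', z') := by
          have : ∀ z, A (c, z) * ∑' σ', π₂ σ' * Ξ (c, z) σ'
              = ∑ c' ∈ I, A (c, z) * ∑' z', π₂ (c', z') * Ξ (c, z) (c', z') := by
            intro z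
            rw [ENNReal.tsum_prod', ← Finset.mul_sum]
            congr 1
            refine tsum_eq_sum fun c' hc' => ?_
            refine ENNReal.tsum_eq_zero.2 fun z' => ?_
            rw [s2 (c', z') hc', zero_mul]
          rw [tsum_congr this]
          exact Summable.tsum_finsetSum fun _ _ => ENNReal.summable
        rw [e2, ← nsmul_eq_mul]
        refine Finset.sum_le_card_nsmul _ _ _ fun c' hc' => ?_
        refine hκ c hc c' hc' (fun z => A (c, z)) (fun z' => π₂ (c', z')) ?_ ?_ ?_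
        · refine le_trans ?_ h1
          rw [ENNReal.tsum_prod']
          refine le_trans ?_ (ENNReal.le_tsum c)
          exact ENNReal.tsum_le_tsum fun z => min_le_left _ _
        · intro z; exact min_le_right _ _
        · refine le_trans ?_ h2
          rw [ENNReal.tsum_prod']
          exact ENNReal.le_tsum (f := fun c' => ∑' z', π₂ (c', z')) c'

end mix

end Crest.Agent.R154.Asm903
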