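import Crest.Agent.R154.AsmA_942
import Crest.Agent.R154.Dens_616

/-! Row 154, ROAD 801 (helper942): assembly, part B (one walker): laws of first passages,
attempts, local sets. -/

set_option autoImplicit false

namespace Crest.Agent.R154.Asm942

open scoped ENNReal
open Crest.Agent.R154.B5A Crest.Agent.R154.FP178

variable {B : Type*} (Λ : B → ℝ≥0∞) (ht : B → ℕ)
variable {G : Type*} [AddCommGroup G] (zz : B → G)

/-- total displacement -/
def Dp {B G : Type*} [AddMonoid G] (z : B → G) (L : List B) : G := (L.map z).sum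

lemma Dp_append (L L' : List B) : Dp zz (L ++ L') = Dp zz L + Dp zz L' := by
  simp [Dp]

open Classical in
/-- law of a first passage of `r`: overshoot `j`, displacement `z` -/
noncomputable def F (r j : ℕ) (z : G) : ℝ≥0∞ :=
  ∑' L, if fp ht r L ∧ HT ht L = r + j ∧ Dp zz L = z then LW Λ L else 0

open Classical in
lemma ind_le (r n : ℕ) (z0 : G) (c : ℝ≥0∞) :
    ∑' j, ∑' z, (if n = r + j ∧ z0 = z then c else 0) ≤ c := by
  have e1 : ∀ j : ℕ, ∑' z : G, (if n = r + j ∧ z0 = z then c else 0)
      = if n = r + j then c else 0 := by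
    intro j
    by_cases h : n = r + j
    · simp only [h, true_and, if_true]
      rw [tsum_eq_single z0 (fun z hz => by rw [if_neg (fun e => hz e.symm)]), if_pos rfl]
    · simp [h]
  simp_rw [e1]
  rw [tsum_eq_single (n - r)]
  · split_ifs <;> simp
  · intro j hj
    rw [if_neg (by omega)]

open Classical in
lemma ind_eq (r n : ℕ) (hn : r ≤ n) (z0 : G) (c : ℝ≥0∞) :
    ∑' j, ∑' z, (if n = r + j ∧ z0 = z then c else 0) = c := by
  have e1 : ∀ j : ℕ, ∑' z : G, (if n = r + j ∧ z0 = z then c else 0)
      = if n = r + j then c else 0 := by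
    intro j
    by_cases h : n = r + j
    · simp only [h, true_and, if_true]
      rw [tsum_eq_single z0 (fun z hz => by rw [if_neg (fun e => hz e.symm)]), if_pos rfl]
    · simp [h]
  simp_rw [e1]
  rw [tsum_eq_single (n - r)]
  · rw [if_pos (by omega)]
  · intro j hj
    rw [if_neg (by omega)]

open Classical in
/-- summing over overshoot and displacement -/
lemma sum_jz (r : ℕ) (P : List B → Prop) (g : List B → ℝ≥0∞) :
    ∑' j, ∑' z, ∑' L, (if P L ∧ HT ht L = r + j ∧ Dp zz L = z then g L else 0)
      ≤ ∑' L, (if P L then g L else 0) := by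
  calc ∑' j, ∑' z, ∑' L, (if P L ∧ HT ht L = r + j ∧ Dp zz L = z then g L else 0)
      = ∑' L, ∑' j, ∑' z, (if P L ∧ HT ht L = r + j ∧ Dp zz L = z then g L else 0) :=
        (tsum_congr fun j => ENNReal.tsum_comm).trans ENNReal.tsum_comm
    _ ≤ _ := by
        refine ENNReal.tsum_le_tsum fun L => ?_
        by_cases h : P L
        · simp only [h, true_and, if_true]
          exact ind_le r (HT ht L) (Dp zz L) (g L)
        · simp [h]

lemma F_sum (h1 : ∀ b, 1 ≤ ht b) (hΛ : ∑' b, Λ b ≤ 1) (r : ℕ) :
    ∑' j, ∑' z, F Λ ht zz r j z ≤ 1 := by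
  classical
  refine le_trans ?_ (sum_FP Λ ht h1 hΛ r)
  have := sum_jz ht zz r (fp ht r) (LW Λ)
  simpa [F] using this

lemma F_sum_eq (h1 : ∀ b, 1 ≤ ht b) (hΛ : ∑' b, Λ b = 1) (r : ℕ) :
    ∑' j, ∑' z, F Λ ht zz r j z = 1 := by
  classical
  rw [← sum_FP_eq Λ ht h1 hΛ r]
  calc ∑' j, ∑' z, F Λ ht zz r j z
      = ∑' L, ∑' j, ∑' z, (if fp ht r L ∧ HT ht L = r + j ∧ Dp zz L = z then LW Λ L else 0) :=
        (tsum_congr fun j => ENNReal.tsum_comm).trans ENNReal.tsum_comm
    _ = _ := by
        refine tsum_congr fun L => ?_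
        by_cases h : fp ht r L
        · simp only [h, true_and, if_true]
          have := ind_eq r (HT ht L) (le_HT_of_fp ht h) (Dp zz L) (LW Λ L)
          convert this
        · simp [h]

open Classical in
lemma fp_T (T : ℕ) (hT : 0 < T) : fp ht T ([] : List B) ↔ False := by
  rw [fp_nil]; constructor
  · intro h; omega
  · exact False.elim

open Classical in
/-- recursion of the first passage law at the first attempt -/
lemma F_rec (h1 : ∀ b, 1 ≤ ht b) (hΛ : ∑' b, Λ b ≤ 1) (hU1 : ∀ n, U Λ ht n ≤ 1) (T i0 r : ℕ)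
    (hr : T + i0 ≤ r) : ∃ b0 : ℕ → G → ℝ≥0∞, ∑' j, ∑' z, b0 j z ≤ ∑' k, tail Λ ht (i0 + k) ∧
      ∀ j z, F Λ ht zz r j z ≤ ∑ i ∈ Finset.range (i0 + 1),
        ∑' z', F Λ ht zz T i z' * F Λ ht zz (r - T - i) j (z - z') + b0 j z := by
  set In : ℕ → G → List B → ℝ≥0∞ := fun j z A => ∑' L, (if fp ht (r - HT ht A) L ∧
    HT ht (A ++ L) = r + j ∧ Dp zz (A ++ L) = z then LW Λ L else 0) with hIn
  have key : ∀ j z, F Λ ht zz r j z = ∑' A, (if fp ht T A then LW Λ A * In j z A else 0) := by
    intro j z
    have h2 := fp_split Λ ht h1 T r (by omega)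
      (fun L => if HT ht L = r + j ∧ Dp zz L = z then 1 else 0)
    have e1 : F Λ ht zz r j z = ∑' L, (if fp ht r L then LW Λ L *
        (if HT ht L = r + j ∧ Dp zz L = z then 1 else 0) else 0) := by
      refine tsum_congr fun L => ?_
      by_cases h3 : fp ht r L <;> by_cases h4 : HT ht L = r + j ∧ Dp zz L = z <;>
        simp [h3, h4]
    rw [e1, h2]
    refine tsum_congr fun A => ?_
    by_cases h3 : fp ht T A
    · rw [if_pos h3, if_pos h3]
      congr 1
      refine tsum_congr fun L => ?_
      by_cases h5 : fp ht (r - HT ht A) L <;>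
        by_cases h4 : HT ht (A ++ L) = r + j ∧ Dp zz (A ++ L) = z <;> simp [h5, h4]
    · rw [if_neg h3, if_neg h3]
  refine ⟨fun j z => ∑' A, (if fp ht T A ∧ T + i0 < HT ht A then LW Λ A * In j z A else 0),
    ?_, ?_⟩
  · calc ∑' j, ∑' z, ∑' A, (if fp ht T A ∧ T + i0 < HT ht A then LW Λ A * In j z A else 0)
        = ∑' A, ∑' j, ∑' z, (if fp ht T A ∧ T + i0 < HT ht A then LW Λ A * In j z A else 0) :=
          (tsum_congr fun j => ENNReal.tsum_comm).trans ENNReal.tsum_comm
      _ ≤ ∑' A, (if fp ht T A ∧ T + i0 < HT ht A then LW Λ A else 0) := by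
          refine ENNReal.tsum_le_tsum fun A => ?_
          by_cases h3 : fp ht T A ∧ T + i0 < HT ht A
          · simp only [if_pos h3]
            simp_rw [ENNReal.tsum_mul_left]
            calc LW Λ A * ∑' j, ∑' z, In j z A ≤ LW Λ A * 1 := by
                  refine mul_le_mul_right ?_ _
                  calc ∑' j, ∑' z, In j z A
                      = ∑' L, ∑' j, ∑' z, (if fp ht (r - HT ht A) L ∧
                        HT ht (A ++ L) = r + j ∧ Dp zz (A ++ L) = z then LW Λ L else 0) :=
                        (tsum_congr fun j => ENNReal.tsum_comm).trans ENNReal.tsum_comm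
                    _ ≤ ∑' L, (if fp ht (r - HT ht A) L then LW Λ L else 0) := by
                        refine ENNReal.tsum_le_tsum fun L => ?_
                        by_cases h5 : fp ht (r - HT ht A) L
                        · simp only [h5, true_and, if_true]
                          exact ind_le r (HT ht (A ++ L)) (Dp zz (A ++ L)) (LW Λ L)
                        · simp [h5]
                    _ ≤ 1 := sum_FP Λ ht h1 hΛ _
              _ = _ := mul_one _
          · simp [h3]
      _ ≤ _ := overshoot Λ ht h1 hU1 i0 T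
  · intro j z
    rw [key j z]
    calc ∑' A, (if fp ht T A then LW Λ A * In j z A else 0)
        ≤ ∑' A, ((∑ i ∈ Finset.range (i0 + 1), ∑' z', (if fp ht T A ∧ HT ht A = T + i ∧
            Dp zz A = z' then LW Λ A else 0) * F Λ ht zz (r - T - i) j (z - z'))
            + (if fp ht T A ∧ T + i0 < HT ht A then LW Λ A * In j z A else 0)) := by
          refine ENNReal.tsum_le_tsum fun A => ?_
          by_cases h3 : fp ht T A
          · rw [if_pos h3]
            by_cases h4 : T + i0 < HT ht A
            · rw [if_pos (c := fp ht T A ∧ T + i0 < HT ht A) ⟨h3, h4⟩]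
              exact le_add_self
            · refine le_add_right ?_
              have hTA : T ≤ HT ht A := le_HT_of_fp ht h3
              have hmem : HT ht A - T ∈ Finset.range (i0 + 1) := by
                rw [Finset.mem_range]; omega
              refine le_trans ?_ (Finset.single_le_sum (f := fun i => ∑' z', (if fp ht T A ∧
                HT ht A = T + i ∧ Dp zz A = z' then LW Λ A else 0) *
                F Λ ht zz (r - T - i) j (z - z')) (fun _ _ => zero_le) hmem)
              refine le_trans ?_ (ENNReal.le_tsum (Dp zz A))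
              rw [if_pos ⟨h3, by omega, rfl⟩]
              refine mul_le_mul_right ?_ _
              refine ENNReal.tsum_le_tsum fun L => ?_
              by_cases h5 : fp ht (r - HT ht A) L ∧ HT ht (A ++ L) = r + j ∧ Dp zz (A ++ L) = z
              · rw [if_pos h5, if_pos]
                obtain ⟨h6, h7, h8⟩ := h5
                rw [HT_append] at h7
                rw [Dp_append] at h8
                refine ⟨?_, by omega, ?_⟩
                · rw [show r - T - (HT ht A - T) = r - HT ht A by omega]; exact h6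
                · rw [← h8]; abel
              · rw [if_neg h5]; exact zero_le
          · rw [if_neg h3]; exact zero_le
      _ = _ := by
          rw [ENNReal.tsum_add, Summable.tsum_finsetSum (fun _ _ => ENNReal.summable)]
          congr 1
          refine Finset.sum_congr rfl fun i _ => ?_
          rw [ENNReal.tsum_comm]
          refine tsum_congr fun z' => ?_
          rw [ENNReal.tsum_mul_right]
          rfl

/-- **density**: after `J` attempts. -/
theorem F_dens (h1 : ∀ b, 1 ≤ ht b) (hΛ : ∑' b, Λ b = 1) (hU1 : ∀ n, U Λ ht n ≤ 1) (T i0 : ℕ)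
    (u q th Gm : ℝ≥0∞) (huq : u + q = 1)
    (hth : u ≤ ∑' x : ℕ × G, (open Classical in
      if F Λ ht zz T x.1 x.2 ≤ th then F Λ ht zz T x.1 x.2 else 0))
    (hG : (i0 + 1 : ℕ) * th ≤ u * Gm) (J r : ℕ) (hr : J * (T + i0) ≤ r) :
    ∃ b : ℕ → G → ℝ≥0∞, (∑' j, ∑' z, b j z ≤ q ^ J + J * ∑' k, tail Λ ht (i0 + k)) ∧
      ∀ j z, F Λ ht zz r j z ≤ Gm + b j z := by
  classical
  have hu1 : u ≤ 1 := huq ▸ le_self_add
  have hut : u ≠ ⊤ := ne_top_of_le_ne_top ENNReal.one_ne_top hu1
  refine densF (F Λ ht zz T) (F Λ ht zz) T i0 th q (∑' k, tail Λ ht (i0 + k)) Gm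
    (fun r hr => F_rec Λ ht zz h1 hΛ.le hU1 T i0 r hr) (F_sum Λ ht zz h1 hΛ.le) ?_
    (huq ▸ le_add_self) ?_ J r hr
  · have h2 : ∑ i ∈ Finset.range (i0 + 1), ∑' z', (if th < F Λ ht zz T i z' then
        F Λ ht zz T i z' else 0) ≤ ∑' x : ℕ × G, (if th < F Λ ht zz T x.1 x.2 then
        F Λ ht zz T x.1 x.2 else 0) := by
      rw [ENNReal.tsum_prod (f := fun i z => if th < F Λ ht zz T i z then F Λ ht zz T i z else 0)]
      exact ENNReal.sum_le_tsum _
    refine h2.trans ?_
    have h3 : u + ∑' x : ℕ × G, (if th < F Λ ht zz T x.1 x.2 then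
        F Λ ht zz T x.1 x.2 else 0) ≤ u + q := by
      rw [huq]
      calc _ ≤ (∑' x : ℕ × G, (if F Λ ht zz T x.1 x.2 ≤ th then F Λ ht zz T x.1 x.2 else 0))
            + ∑' x : ℕ × G, (if th < F Λ ht zz T x.1 x.2 then F Λ ht zz T x.1 x.2 else 0) := by
            gcongr
        _ = ∑' x : ℕ × G, F Λ ht zz T x.1 x.2 := by
            rw [← ENNReal.tsum_add]
            refine tsum_congr fun x => ?_
            by_cases h : F Λ ht zz T x.1 x.2 ≤ th
            · rw [if_pos h, if_neg (not_lt.2 h), add_zero]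
            · rw [if_neg h, if_pos (not_le.1 h), zero_add]
        _ = 1 := by
            rw [ENNReal.tsum_prod (f := fun i z => F Λ ht zz T i z)]
            exact F_sum_eq Λ ht zz h1 hΛ T
        _ ≤ 1 := le_rfl
    exact (ENNReal.add_le_add_iff_left hut).1 h3
  · calc (i0 + 1 : ℕ) * th + q * Gm ≤ u * Gm + q * Gm := by gcongr
      _ = Gm := by rw [← add_mul, huq, one_mul]

end Crest.Agent.R154.Asm942
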