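import Crest.Agent.R154.AsmA_959
import Crest.Agent.R154.Dens_903

/-! Row 154, ROAD 801: local set, density, split of a list at a window (helper959). -/

set_option autoImplicit false

namespace Crest.Agent.R154.AsmA959

open scoped ENNReal Classical
open Crest.Agent.R154.B5A

variable {B G : Type*} [AddCommGroup G] (Λ : B → ℝ≥0∞) (h : B → ℕ) (z : B → G)

lemma geom_le (u : ℝ≥0∞) (hu0 : u ≠ 0) (hu1 : u ≤ 1) (J : ℕ) :
    ∑ j ∈ Finset.range J, (1 - u) ^ j ≤ u⁻¹ := by
  refine (ENNReal.sum_le_tsum _).trans ?_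
  rw [ENNReal.tsum_geometric, ENNReal.sub_sub_cancel ENNReal.one_ne_top hu1]

lemma local_data (h1 : ∀ b, 1 ≤ h b) (hΛ : ∑' b, Λ b = 1) (S i0 J : ℕ) (u : ℝ≥0∞)
    (hu0 : u ≠ 0) (hu1 : u ≤ 1) : ∃ (E : Finset G) (M : ℝ≥0∞),
      M * E.card ≤ ((i0 : ℝ≥0∞) + 1) * u⁻¹ ∧
      ∑' P, (if SP h P S ∧ HT h P ≤ S + i0 ∧ Dp z P ∉ E then LW Λ P else 0) ≤ u ∧
      ∀ a, J * (S + i0) ≤ a → ∃ Ag Bb : ℕ → G → ℝ≥0∞,
        (∀ i x, V Λ h z a i x ≤ Ag i x + Bb i x) ∧ (∀ i x, Ag i x ≤ M) ∧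
        ∑' i, ∑' x, Bb i x ≤ (1 - u) ^ J + tl Λ h i0 * u⁻¹ := by
  set p : ℕ × G → ℝ≥0∞ := fun q => V Λ h z S q.1 q.2 with hp
  have hsum : ∑' q, p q = 1 := by
    rw [ENNReal.tsum_prod']
    exact V_sum Λ h z h1 hΛ S
  obtain ⟨th, hth0, hth1, hlt, hle⟩ := Dens903.quantile p hsum hu0 hu1
  have hfin : {q : ℕ × G | th ≤ p q}.Finite :=
    Dens903.finite_level p (by rw [hsum]; exact ENNReal.one_ne_top) hth0
  set E : Finset G := hfin.toFinset.image Prod.snd with hE
  have hcard : th * E.card ≤ 1 := by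
    calc th * (E.card : ℝ≥0∞) ≤ th * (hfin.toFinset.card : ℝ≥0∞) := by
          gcongr
          exact Finset.card_image_le
      _ = ∑ q ∈ hfin.toFinset, th := by simp [mul_comm]
      _ ≤ ∑ q ∈ hfin.toFinset, p q := Finset.sum_le_sum fun q hq => by
          simpa using hq
      _ ≤ ∑' q, p q := ENNReal.sum_le_tsum _
      _ = 1 := hsum
  refine ⟨E, ((i0 : ℝ≥0∞) + 1) * th * ∑ j ∈ Finset.range J, (1 - u) ^ j, ?_, ?_, ?_⟩
  · calc ((i0 : ℝ≥0∞) + 1) * th * (∑ j ∈ Finset.range J, (1 - u) ^ j) * E.card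
        = ((i0 : ℝ≥0∞) + 1) * (∑ j ∈ Finset.range J, (1 - u) ^ j) * (th * E.card) := by ring
      _ ≤ ((i0 : ℝ≥0∞) + 1) * u⁻¹ * 1 := by
          gcongr
          exact geom_le u hu0 hu1 J
      _ = _ := mul_one _
  · have e1 := V_int Λ h z S (fun i x => if S + i ≤ S + i0 ∧ x ∉ E then 1 else 0)
    have e2 : ∑' P, (if SP h P S ∧ HT h P ≤ S + i0 ∧ Dp z P ∉ E then LW Λ P else 0)
        = ∑' L, if SP h L S then LW Λ L *
          (if S + (HT h L - S) ≤ S + i0 ∧ Dp z L ∉ E then (1 : ℝ≥0∞) else 0) else 0 := by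
      refine tsum_congr fun P => ?_
      by_cases hS : SP h P S
      · have := SP_le h P S hS
        rw [show S + (HT h P - S) = HT h P by omega, if_pos hS]
        by_cases hc : HT h P ≤ S + i0 ∧ Dp z P ∉ E
        · rw [if_pos ⟨hS, hc⟩, if_pos hc, mul_one]
        · rw [if_neg (fun hh => hc hh.2), if_neg hc, mul_zero]
      · rw [if_neg (fun hh => hS hh.1), if_neg hS]
    rw [e2, ← e1]
    refine le_trans ?_ hlt
    rw [ENNReal.tsum_prod']
    refine ENNReal.tsum_le_tsum fun i => ENNReal.tsum_le_tsum fun x => ?_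
    by_cases hc : S + i ≤ S + i0 ∧ x ∉ E
    · have hn : ¬ th ≤ p (i, x) := by
        intro hh
        exact hc.2 (Finset.mem_image.2 ⟨(i, x), by simpa using hh, rfl⟩)
      rw [if_pos hc, mul_one, if_pos (not_le.1 hn)]
    · rw [if_neg hc, mul_zero]; exact bot_le
  · intro a ha
    have hq : ∑' i, ∑' x, (if th < V Λ h z S i x then V Λ h z S i x else 0) ≤ 1 - u := by
      have e1 : ∑' i, ∑' x, (if th < V Λ h z S i x then V Λ h z S i x else 0)
          = ∑' q, (if th < p q then p q else 0) := by rw [ENNReal.tsum_prod']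
      rw [e1]
      have e2 : ∑' q, (if th < p q then p q else 0) + ∑' q, (if p q ≤ th then p q else 0) = 1 := by
        rw [← ENNReal.tsum_add, ← hsum]
        refine tsum_congr fun q => ?_
        by_cases hc : th < p q
        · rw [if_pos hc, if_neg (not_le.2 hc), add_zero]
        · rw [if_neg hc, if_pos (not_lt.1 hc), zero_add]
      have hu : u ≠ ⊤ := (hu1.trans_lt ENNReal.one_lt_top).ne
      refine ENNReal.le_sub_of_add_le_right hu ?_
      rw [← e2]
      gcongr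
    obtain ⟨Ag, Bb, g1, g2, g3⟩ := dens Λ h z h1 hΛ S i0 th (1 - u) hq J a ha
    refine ⟨Ag, Bb, g1, g2, g3.trans ?_⟩
    gcongr
    exact geom_le u hu0 hu1 J

/-- smoothing the tie -/
lemma smooth (h1 : ∀ b, 1 ≤ h b) (hΛ : ∑' b, Λ b = 1) (b i0 : ℕ) (M X1 β : ℝ≥0∞)
    (Ag Bb : ℕ → G → ℝ≥0∞) (hV : ∀ i x, V Λ h z b i x ≤ Ag i x + Bb i x)
    (hA : ∀ i x, Ag i x ≤ M) (hB : ∑' i, ∑' x, Bb i x ≤ β)
    (K : ℕ → G → ℝ≥0∞) (hK1 : ∀ i x, K i x ≤ 1)
    (hK : ∀ i, i ≤ i0 → ∀ μ : G → ℝ≥0∞, ∑' x, μ x ≤ 1 → (∀ x, μ x ≤ M) →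
      ∑' x, μ x * K i x ≤ X1) :
    ∑' A, (if SP h A b ∧ HT h A ≤ b + i0 then LW Λ A * K (HT h A - b) (Dp z A) else 0)
      ≤ ((i0 : ℝ≥0∞) + 1) * X1 + β := by
  have e1 := V_int Λ h z b (fun i x => if i ≤ i0 then K i x else 0)
  have e2 : ∑' A, (if SP h A b ∧ HT h A ≤ b + i0 then LW Λ A * K (HT h A - b) (Dp z A) else 0)
      = ∑' L, if SP h L b then LW Λ L *
        (if HT h L - b ≤ i0 then K (HT h L - b) (Dp z L) else 0) else 0 := by
    refine tsum_congr fun A => ?_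
    by_cases hS : SP h A b
    · have := SP_le h A b hS
      rw [if_pos hS]
      by_cases hc : HT h A ≤ b + i0
      · rw [if_pos ⟨hS, hc⟩, if_pos (by omega)]
      · rw [if_neg (fun hh => hc hh.2), if_neg (by omega), mul_zero]
    · rw [if_neg (fun hh => hS hh.1), if_neg hS]
  rw [e2, ← e1]
  have hmin : ∀ i x, V Λ h z b i x ≤ min (Ag i x) (V Λ h z b i x) + Bb i x := by
    intro i x
    rcases le_total (Ag i x) (V Λ h z b i x) with hc | hc
    · rw [min_eq_left hc]; exact hV i x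
    · rw [min_eq_right hc]; exact le_self_add
  have s1 : ∀ i x, V Λ h z b i x * (if i ≤ i0 then K i x else 0)
      ≤ (if i ≤ i0 then min (Ag i x) (V Λ h z b i x) * K i x else 0) + Bb i x := by
    intro i x
    by_cases hi : i ≤ i0
    · simp only [if_pos hi]
      calc _ ≤ (min (Ag i x) (V Λ h z b i x) + Bb i x) * K i x := mul_le_mul_left (hmin i x) _
        _ = min (Ag i x) (V Λ h z b i x) * K i x + Bb i x * K i x := add_mul _ _ _
        _ ≤ _ := by
          refine add_le_add le_rfl ?_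
          calc Bb i x * K i x ≤ Bb i x * 1 := mul_le_mul_right (hK1 i x) _
            _ = _ := mul_one _
    · simp [hi]
  refine (ENNReal.tsum_le_tsum fun i => ENNReal.tsum_le_tsum fun x => s1 i x).trans ?_
  simp_rw [ENNReal.tsum_add]
  refine add_le_add ?_ hB
  have s2 : ∀ i, (∑' x, if i ≤ i0 then min (Ag i x) (V Λ h z b i x) * K i x else 0)
      ≤ if i ∈ Finset.range (i0 + 1) then X1 else 0 := by
    intro i
    by_cases hi : i ≤ i0
    · rw [if_pos (Finset.mem_range.2 (by omega))]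
      simp only [if_pos hi]
      refine hK i hi _ ?_ fun x => (min_le_left _ _).trans (hA i x)
      exact (ENNReal.tsum_le_tsum fun x => min_le_right _ _).trans (V_row Λ h z h1 hΛ b i)
    · simp [hi]
  refine (ENNReal.tsum_le_tsum s2).trans ?_
  rw [tsum_eq_sum (s := Finset.range (i0 + 1)) (fun b hb => if_neg hb),
    Finset.sum_congr rfl (fun b hb => if_pos hb)]
  simp

/-- weight with remaining height fixed -/
lemma rem_le (h1 : ∀ b, 1 ≤ h b) (hΛ : ∑' b, Λ b = 1) (c n : ℕ) :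
    ∑' R, (if c + HT h R = n then LW Λ R else 0) ≤ 1 := by
  by_cases hc : c ≤ n
  · refine le_trans (le_of_eq ?_) (U_le_one Λ h h1 hΛ (n - c))
    refine tsum_congr fun R => ?_
    by_cases h3 : c + HT h R = n
    · rw [if_pos h3, if_pos (by omega)]
    · rw [if_neg h3, if_neg (by omega)]
  · have : ∀ R, (if c + HT h R = n then LW Λ R else 0) = 0 := fun R => if_neg (by omega)
    simp [this]

/-- **split of a list of height `n` at the first passage of `b` and then of `S`** -/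
lemma split3 (h1 : ∀ b, 1 ≤ h b) (hΛ : ∑' b, Λ b = 1) (b S i0 n : ℕ) (hn : b + i0 + S ≤ n)
    (g : List B → ℝ≥0∞) (hg : ∀ L, g L ≤ 1) :
    ∑' L, (if HT h L = n then LW Λ L * g L else 0) ≤ 2 * tl Λ h i0 +
      ∑' A, ∑' P, (if (SP h A b ∧ HT h A ≤ b + i0) ∧ (SP h P S ∧ HT h P ≤ S + i0) then
        LW Λ A * LW Λ P * ∑' R, (if HT h A + HT h P + HT h R = n then
          LW Λ R * g (A ++ (P ++ R)) else 0) else 0) := by
  set C1 : List B → Prop := fun L => ∃ A R, L = A ++ R ∧ SP h A b ∧ b + i0 < HT h A with hC1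
  set C2 : List B → Prop := fun L => ∃ A P R, L = A ++ (P ++ R) ∧ SP h A b ∧ SP h P S ∧
    S + i0 < HT h P with hC2
  set C3 : List B → Prop := fun L => ∃ A P R, L = A ++ (P ++ R) ∧ (SP h A b ∧ HT h A ≤ b + i0) ∧
    (SP h P S ∧ HT h P ≤ S + i0) with hC3
  have hcases : ∀ L, HT h L = n → C1 L ∨ C2 L ∨ C3 L := by
    intro L hL
    obtain ⟨A, L1, rfl, hA⟩ := SP_exists h L b (by omega)
    by_cases hA2 : HT h A ≤ b + i0
    · rw [HT_append] at hL
      obtain ⟨P, R, rfl, hP⟩ := SP_exists h L1 S (by omega)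
      by_cases hP2 : HT h P ≤ S + i0
      · exact Or.inr (Or.inr ⟨A, P, R, rfl, ⟨hA, hA2⟩, ⟨hP, hP2⟩⟩)
      · exact Or.inr (Or.inl ⟨A, P, R, rfl, hA, hP, by omega⟩)
    · exact Or.inl ⟨A, L1, rfl, hA, by omega⟩
  have hpt : ∀ L, (if HT h L = n then LW Λ L * g L else 0)
      ≤ (if HT h L = n ∧ C1 L then LW Λ L else 0) + (if HT h L = n ∧ C2 L then LW Λ L else 0)
        + (if HT h L = n ∧ C3 L then LW Λ L * g L else 0) := by
    intro L
    by_cases hL : HT h L = n
    · rw [if_pos hL]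
      have hw : LW Λ L * g L ≤ LW Λ L := by
        calc _ ≤ LW Λ L * 1 := mul_le_mul_right (hg L) _
          _ = _ := mul_one _
      rcases hcases L hL with hc | hc | hc
      · rw [if_pos ⟨hL, hc⟩]
        exact hw.trans (le_self_add.trans le_self_add)
      · rw [if_pos (⟨hL, hc⟩ : HT h L = n ∧ C2 L)]
        exact hw.trans (le_add_self.trans le_self_add)
      · rw [if_pos (⟨hL, hc⟩ : HT h L = n ∧ C3 L)]
        exact le_add_self
    · simp [hL]
  refine (ENNReal.tsum_le_tsum hpt).trans ?_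
  rw [ENNReal.tsum_add, ENNReal.tsum_add, two_mul]
  refine add_le_add (add_le_add ?_ ?_) ?_
  · refine (tsum_le_cover (fun q : List B × List B => q.1 ++ q.2) _
      (fun q => (if SP h q.1 b ∧ b + i0 < HT h q.1 then LW Λ q.1 else 0) *
        (if HT h q.1 + HT h q.2 = n then LW Λ q.2 else 0)) fun L hL => ?_).trans ?_
    · by_cases hc : HT h L = n ∧ C1 L
      · obtain ⟨hn, A, R, rfl, hA, hA2⟩ := hc
        refine ⟨(A, R), rfl, ?_⟩
        rw [if_pos ⟨hn, A, R, rfl, hA, hA2⟩, if_pos ⟨hA, hA2⟩, if_pos (by rw [← HT_append]; exact hn),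
          LW_append]
      · rw [if_neg hc] at hL; exact absurd rfl hL
    · rw [ENNReal.tsum_prod']
      simp_rw [ENNReal.tsum_mul_left]
      refine (ENNReal.tsum_le_tsum fun A => mul_le_mul_right (rem_le Λ h h1 hΛ (HT h A) n) _).trans ?_
      simp_rw [mul_one]
      exact over_le Λ h h1 hΛ b i0
  · refine (tsum_le_cover (fun q : List B × List B × List B => q.1 ++ (q.2.1 ++ q.2.2)) _
      (fun q => (if SP h q.1 b then LW Λ q.1 else 0) *
        ((if SP h q.2.1 S ∧ S + i0 < HT h q.2.1 then LW Λ q.2.1 else 0) *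
        (if (HT h q.1 + HT h q.2.1) + HT h q.2.2 = n then LW Λ q.2.2 else 0))) fun L hL => ?_).trans ?_
    · by_cases hc : HT h L = n ∧ C2 L
      · obtain ⟨hn, A, P, R, rfl, hA, hP, hP2⟩ := hc
        refine ⟨(A, P, R), rfl, ?_⟩
        rw [if_pos ⟨hn, A, P, R, rfl, hA, hP, hP2⟩, if_pos hA, if_pos ⟨hP, hP2⟩,
          if_pos (by rw [← hn, HT_append, HT_append]; ring), LW_append, LW_append]
      · rw [if_neg hc] at hL; exact absurd rfl hL
    · rw [ENNReal.tsum_prod']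
      have e1 : ∀ A : List B, (∑' q : List B × List B, (if SP h A b then LW Λ A else 0) *
        ((if SP h q.1 S ∧ S + i0 < HT h q.1 then LW Λ q.1 else 0) *
        (if (HT h A + HT h q.1) + HT h q.2 = n then LW Λ q.2 else 0)))
          ≤ (if SP h A b then LW Λ A else 0) * tl Λ h i0 := by
        intro A
        rw [ENNReal.tsum_mul_left, ENNReal.tsum_prod']
        refine mul_le_mul_right ?_ _
        simp_rw [ENNReal.tsum_mul_left]
        refine (ENNReal.tsum_le_tsum fun P => mul_le_mul_right (rem_le Λ h h1 hΛ _ n) _).trans ?_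
        simp_rw [mul_one]
        exact over_le Λ h h1 hΛ S i0
      refine (ENNReal.tsum_le_tsum e1).trans ?_
      rw [ENNReal.tsum_mul_right, tsum_SP Λ h h1 hΛ, one_mul]
  · refine (tsum_le_cover (fun q : List B × List B × List B => q.1 ++ (q.2.1 ++ q.2.2)) _
      (fun q => if (SP h q.1 b ∧ HT h q.1 ≤ b + i0) ∧ (SP h q.2.1 S ∧ HT h q.2.1 ≤ S + i0) then
        LW Λ q.1 * LW Λ q.2.1 * (if HT h q.1 + HT h q.2.1 + HT h q.2.2 = n then
          LW Λ q.2.2 * g (q.1 ++ (q.2.1 ++ q.2.2)) else 0) else 0) fun L hL => ?_).trans ?_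
    · by_cases hc : HT h L = n ∧ C3 L
      · obtain ⟨hn, A, P, R, rfl, hA, hP⟩ := hc
        refine ⟨(A, P, R), rfl, ?_⟩
        rw [if_pos ⟨hn, A, P, R, rfl, hA, hP⟩, if_pos ⟨hA, hP⟩,
          if_pos (by rw [← hn, HT_append, HT_append]; ring), LW_append, LW_append]
        exact le_of_eq (by ring)
      · rw [if_neg hc] at hL; exact absurd rfl hL
    · rw [ENNReal.tsum_prod']
      refine ENNReal.tsum_le_tsum fun A => ?_
      rw [ENNReal.tsum_prod']
      refine ENNReal.tsum_le_tsum fun P => ?_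
      by_cases hc : (SP h A b ∧ HT h A ≤ b + i0) ∧ (SP h P S ∧ HT h P ≤ S + i0)
      · simp only [if_pos hc]
        rw [ENNReal.tsum_mul_left]
      · simp [if_neg hc]

end Crest.Agent.R154.AsmA959
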