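import Crest.Agent.R154.AsmA_97

/-! Row 154 (helper97), ROAD 801: assembly of the window lemmas, abstract (two walkers). -/

set_option autoImplicit false

namespace Crest.Agent.R154.Asm97

open scoped ENNReal
open Crest.Agent.R154.B5A Crest.Agent.R154.FP178

section cross
variable {B : Type*} (Λ : B → ℝ≥0∞) (ht : B → ℕ)

lemma S_nil (a : ℕ) : S Λ ht a (fun _ => 0) = 0 := by simp [S]

open Classical in
/-- crossings of height `n` -/
noncomputable def CR (n : ℕ) (f : List B → ℝ≥0∞) : ℝ≥0∞ :=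
  ∑' L, if HT ht L = n then LW Λ L * f L else 0

lemma CR_mono (n : ℕ) {f g : List B → ℝ≥0∞} (h : ∀ L, HT ht L = n → f L ≤ g L) :
    CR Λ ht n f ≤ CR Λ ht n g := by
  classical
  refine ENNReal.tsum_le_tsum fun L => ?_
  by_cases hL : HT ht L = n
  · rw [if_pos hL, if_pos hL]; exact mul_le_mul_right (h L hL) _
  · rw [if_neg hL, if_neg hL]

lemma CR_add (n : ℕ) (f g : List B → ℝ≥0∞) :
    CR Λ ht n (fun L => f L + g L) = CR Λ ht n f + CR Λ ht n g := by
  classical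
  rw [CR, CR, CR, ← ENNReal.tsum_add]
  refine tsum_congr fun L => ?_
  by_cases hL : HT ht L = n
  · simp only [if_pos hL, mul_add]
  · simp only [if_neg hL, add_zero]

lemma CR_one (n : ℕ) : CR Λ ht n (fun _ => 1) = U Λ ht n := by
  classical
  rw [CR, U]
  refine tsum_congr fun L => ?_
  by_cases hL : HT ht L = n
  · simp only [if_pos hL, mul_one]
  · simp only [if_neg hL]

lemma CR_le_one (hU1 : ∀ n, U Λ ht n ≤ 1) (n : ℕ) {f : List B → ℝ≥0∞} (hf : ∀ L, f L ≤ 1) :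
    CR Λ ht n f ≤ 1 :=
  (CR_mono Λ ht n fun L _ => hf L).trans ((CR_one Λ ht n).le.trans (hU1 n))

lemma CR_split (h1 : ∀ b, 1 ≤ ht b) (a n : ℕ) (han : a ≤ n) (f : List B → ℝ≥0∞) :
    CR Λ ht n f ≤ S Λ ht a (fun A => CR Λ ht (n - HT ht A) (fun R => f (A ++ R))) := by
  classical
  have h := FP178.split Λ ht h1 a (fun L => if HT ht L = n then f L else 0)
  have e : CR Λ ht n f
      = ∑' L, (if a ≤ HT ht L then LW Λ L * (if HT ht L = n then f L else 0) else 0) := by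
    rw [CR]
    refine tsum_congr fun L => ?_
    by_cases hL : HT ht L = n
    · rw [if_pos hL, if_pos hL, if_pos (by omega)]
    · rw [if_neg hL, if_neg hL]; simp
  rw [e, h]
  refine ENNReal.tsum_le_tsum fun A => ?_
  by_cases hA : fp ht a A
  · rw [if_pos hA, if_pos hA]
    refine mul_le_mul_right ?_ _
    refine ENNReal.tsum_le_tsum fun R => ?_
    by_cases hR : HT ht (A ++ R) = n
    · rw [if_pos hR, if_pos (by rw [HT_append] at hR; omega)]
    · rw [if_neg hR, mul_zero]; exact zero_le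
  · rw [if_neg hA, if_neg hA]

open Classical in
/-- two first passages, the rest summed out -/
lemma CR_two (h1 : ∀ b, 1 ≤ ht b) (hU1 : ∀ n, U Λ ht n ≤ 1) (a τ i0 n : ℕ)
    (hn : a + i0 + τ ≤ n) (f : List B → ℝ≥0∞) (hf : ∀ L, f L ≤ 1) (g : List B → List B → ℝ≥0∞)
    (hfg : ∀ A P R, fp ht a A → HT ht A ≤ a + i0 → fp ht τ P → f (A ++ (P ++ R)) ≤ g A P) :
    CR Λ ht n f ≤ ov Λ ht i0 a + S Λ ht a (fun A => S Λ ht τ (fun P => g A P)) := by
  refine (CR_split Λ ht h1 a n (by omega) f).trans ?_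
  rw [ov, ← S_add]
  refine S_mono Λ ht a fun A hA => ?_
  by_cases hH : a + i0 < HT ht A
  · rw [if_pos hH]
    exact (CR_le_one Λ ht hU1 _ fun R => hf _).trans le_self_add
  · rw [if_neg hH, zero_add]
    refine (CR_split Λ ht h1 τ (n - HT ht A) (by omega) _).trans ?_
    refine S_mono Λ ht τ fun P hP => ?_
    refine (CR_mono Λ ht _ (g := fun _ => g A P) fun R _ => hfg A P R hA (by omega) hP).trans ?_
    have : CR Λ ht (n - HT ht A - HT ht P) (fun _ => g A P)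
        = g A P * U Λ ht (n - HT ht A - HT ht P) := by
      rw [← CR_one, CR, CR, ← ENNReal.tsum_mul_left]
      refine tsum_congr fun L => ?_
      split_ifs
      · rw [mul_one, mul_comm]
      · rw [mul_zero]
    rw [this]
    calc g A P * U Λ ht _ ≤ g A P * 1 := mul_le_mul_right (hU1 _) _
      _ = g A P := mul_one _

end cross

section two

variable {BX BY G : Type*} [AddCommGroup G]
  (ΛX : BX → ℝ≥0∞) (hX : BX → ℕ) (zX : BX → G) (TX : List BX → G → ℕ → Set (G × ℕ))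
  (ΛY : BY → ℝ≥0∞) (hY : BY → ℕ) (zY : BY → G) (TY : List BY → G → ℕ → Set (G × ℕ))

/-- axioms of traces -/
structure Tr {B G : Type*} [AddCommGroup G] (h : B → ℕ) (z : B → G)
    (T : List B → G → ℕ → Set (G × ℕ)) : Prop where
  app : ∀ A L x a, T (A ++ L) x a = T A x a ∪ T L (x + Dp z A) (a + HT h A)
  dep : ∀ L x a y k, (y, k) ∈ T L x a → a < k ∧ k ≤ a + HT h L
  tra : ∀ L x y a v k, (v, k) ∈ T L (x + y) a ↔ (v - y, k) ∈ T L x a

open Classical in
/-- window lemma, `X` local -/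
def H2 (C : ℝ≥0∞) (us : ℕ → ℕ → ℝ≥0∞) : Prop :=
  ∀ (i s h h' a a' lo : ℕ) (E : Finset G) (μ : G → ℝ≥0∞) (M lam : ℝ≥0∞),
    ∑' x, μ x ≤ 1 → (∀ x, μ x ≤ M) → lam ≠ 0 → lam ≠ ⊤ → a + s ≤ lo → a' + s ≤ lo → a ≤ a' + i →
    a' ≤ a + i →
    ∑' x, μ x * ∑' L, ∑' L', (if HT hX L = h ∧ Dp zX L ∈ E ∧ HT hY L' = h' ∧
      (∃ z k, (z, k) ∈ TX L 0 a ∧ (z, k) ∈ TY L' x a') ∧
      (∀ z k, (z, k) ∈ TX L 0 a → (z, k) ∈ TY L' x a' → lo ≤ k) then LW ΛX L * LW ΛY L' else 0)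
      ≤ C * (lam + M * E.card * us i s / lam + us i s)

open Classical in
/-- window lemma, `Y` local -/
def H3 (C : ℝ≥0∞) (us : ℕ → ℕ → ℝ≥0∞) : Prop :=
  ∀ (i s h h' a a' hi : ℕ) (E : Finset G) (μ : G → ℝ≥0∞) (M lam : ℝ≥0∞),
    ∑' x, μ x ≤ 1 → (∀ x, μ x ≤ M) → lam ≠ 0 → lam ≠ ⊤ → hi + s ≤ a + h → hi + s ≤ a' + h' →
    a + h ≤ a' + h' + i → a' + h' ≤ a + h + i →
    ∑' x, μ x * ∑' L, ∑' L', (if HT hX L = h ∧ HT hY L' = h' ∧ Dp zY L' ∈ E ∧
      (∃ z k, (z, k) ∈ TX L 0 a ∧ (z, k) ∈ TY L' x a') ∧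
      (∀ z k, (z, k) ∈ TX L 0 a → (z, k) ∈ TY L' x a' → k ≤ hi) then LW ΛX L * LW ΛY L' else 0)
      ≤ C * (lam + M * E.card * us i s / lam + us i s)

open Classical in
/-- thin slab -/
def H5 : Prop :=
  ∀ s : ℕ, ∀ η : ℝ≥0∞, η ≠ 0 → ∃ T : ℕ, ∀ a, T ≤ a → ∀ n : ℕ, a + s ≤ n → ∀ w : G,
    ∑' L, ∑' L', (if HT hX L = n ∧ HT hY L' = n ∧
      (∃ z k, a ≤ k ∧ k < a + s ∧ (z, k) ∈ TX L 0 0 ∧ (z, k) ∈ TY L' w 0)
        then LW ΛX L * LW ΛY L' else 0) ≤ η

lemma S_comm (a b : ℕ) (f : List BX → List BY → ℝ≥0∞) :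
    S ΛX hX a (fun A => S ΛY hY b (fun A' => f A A'))
      = S ΛY hY b (fun A' => S ΛX hX a (fun A => f A A')) := by
  classical
  simp only [S]
  have e1 : ∀ A : List BX, (if fp hX a A then LW ΛX A *
      ∑' L : List BY, (if fp hY b L then LW ΛY L * f A L else 0) else 0)
      = ∑' L : List BY, (if fp hX a A then if fp hY b L then LW ΛX A * (LW ΛY L * f A L) else 0
        else 0) := by
    intro A
    by_cases hA : fp hX a A
    · simp only [if_pos hA]
      rw [← ENNReal.tsum_mul_left]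
      refine tsum_congr fun L => ?_
      split_ifs <;> simp
    · simp only [if_neg hA, tsum_zero]
  have e2 : ∀ L : List BY, (if fp hY b L then LW ΛY L *
      ∑' A : List BX, (if fp hX a A then LW ΛX A * f A L else 0) else 0)
      = ∑' A : List BX, (if fp hX a A then if fp hY b L then LW ΛX A * (LW ΛY L * f A L) else 0
        else 0) := by
    intro L
    by_cases hL : fp hY b L
    · simp only [if_pos hL]
      rw [← ENNReal.tsum_mul_left]
      refine tsum_congr fun A => ?_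
      split_ifs
      · ring
      · simp
    · simp only [if_neg hL]
      simp
  rw [tsum_congr e1, tsum_congr e2, ENNReal.tsum_comm]

/-- the four-fold sum -/
noncomputable def S4 (a τ : ℕ) (f : List BX → List BX → List BY → List BY → ℝ≥0∞) : ℝ≥0∞ :=
  S ΛX hX a (fun A => S ΛX hX τ (fun P => S ΛY hY a (fun A' => S ΛY hY τ (fun P' => f A P A' P'))))

lemma S4_mono (a τ : ℕ) {f g : List BX → List BX → List BY → List BY → ℝ≥0∞}
    (h : ∀ A P A' P', fp hX a A → fp hX τ P → fp hY a A' → fp hY τ P' → f A P A' P' ≤ g A P A' P') :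
    S4 ΛX hX ΛY hY a τ f ≤ S4 ΛX hX ΛY hY a τ g :=
  S_mono _ _ _ fun A hA => S_mono _ _ _ fun P hP => S_mono _ _ _ fun A' hA' =>
    S_mono _ _ _ fun P' hP' => h A P A' P' hA hP hA' hP'

lemma S4_add (a τ : ℕ) (f g : List BX → List BX → List BY → List BY → ℝ≥0∞) :
    S4 ΛX hX ΛY hY a τ (fun A P A' P' => f A P A' P' + g A P A' P')
      = S4 ΛX hX ΛY hY a τ f + S4 ΛX hX ΛY hY a τ g := by
  simp only [S4, S_add]

lemma S4_sum {ι : Type*} (s : Finset ι) (a τ : ℕ)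
    (f : ι → List BX → List BX → List BY → List BY → ℝ≥0∞) :
    S4 ΛX hX ΛY hY a τ (fun A P A' P' => ∑ i ∈ s, f i A P A' P')
      = ∑ i ∈ s, S4 ΛX hX ΛY hY a τ (f i) := by
  classical
  induction s using Finset.induction_on with
  | empty =>
    simp only [Finset.sum_empty]
    simp only [S4, S_nil]
  | insert i s hi ih =>
    simp only [Finset.sum_insert hi]
    rw [S4_add, ih]

end two

end Crest.Agent.R154.Asm97
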