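import Crest.Agent.R154.AsmA_976

/-! Row 154, road 801 (helper976): traces, splitting of pairs, the tie. -/

set_option autoImplicit false

namespace Crest.Agent.R154.Asm976

open B5A
open scoped ENNReal
open Classical

variable {B G : Type*} [AddCommGroup G]

/-- displacement -/
def Dp (z : B → G) (L : List B) : G := (L.map z).sum

/-- trace (position, depth) of a list hung at `x`, depth `a` -/
def TT (h : B → ℕ) (z : B → G) (s : B → Set (G × ℕ)) : List B → G → ℕ → Set (G × ℕ)
  | [], _, _ => ∅
  | b :: L, x, a => {q | ∃ p ∈ s b, q = (x + p.1, a + p.2)} ∪ TT h z s L (x + z b) (a + h b)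

lemma Dp_append (z : B → G) (L L' : List B) : Dp z (L ++ L') = Dp z L + Dp z L' := by
  simp [Dp]

lemma TT_append (h : B → ℕ) (z : B → G) (s : B → Set (G × ℕ)) (L L' : List B) (x : G) (a : ℕ) :
    TT h z s (L ++ L') x a = TT h z s L x a ∪ TT h z s L' (x + Dp z L) (a + HT h L) := by
  induction L generalizing x a with
  | nil => simp [TT, Dp, HT]
  | cons b L ih =>
    simp only [List.cons_append, TT, ih, Set.union_assoc]
    congr 2
    simp [Dp, HT, add_assoc]

lemma TT_depth (h : B → ℕ) (z : B → G) (s : B → Set (G × ℕ))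
    (hs : ∀ b, ∀ p ∈ s b, 1 ≤ p.2 ∧ p.2 ≤ h b) (L : List B) (x : G) (a : ℕ) (q : G × ℕ)
    (hq : q ∈ TT h z s L x a) : a < q.2 ∧ q.2 ≤ a + HT h L := by
  induction L generalizing x a with
  | nil => simp [TT] at hq
  | cons b L ih =>
    rw [HT_cons]
    rcases hq with ⟨p, hp, rfl⟩ | hq
    · have := hs b p hp
      simp only
      omega
    · have := ih _ _ hq
      omega

lemma TT_shift (h : B → ℕ) (z : B → G) (s : B → Set (G × ℕ)) (L : List B) (x v : G) (a : ℕ)
    (y : G) (k : ℕ) : (y, k) ∈ TT h z s L (x + v) a ↔ (y - v, k) ∈ TT h z s L x a := by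
  induction L generalizing x a with
  | nil => simp [TT]
  | cons b L ih =>
    simp only [TT, Set.mem_union, Set.mem_ofPred_eq]
    rw [show x + v + z b = (x + z b) + v by abel, ih]
    refine or_congr ?_ Iff.rfl
    constructor
    · rintro ⟨p, hp, e⟩
      refine ⟨p, hp, ?_⟩
      rw [Prod.mk.injEq] at e ⊢
      exact ⟨by rw [e.1]; abel, e.2⟩
    · rintro ⟨p, hp, e⟩
      refine ⟨p, hp, ?_⟩
      rw [Prod.mk.injEq] at e ⊢
      exact ⟨by rw [← sub_add_cancel y v, e.1]; abel, e.2⟩

/-- splitting of a double sum -/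
lemma pair_split {BX BY : Type*} (ΛX : BX → ℝ≥0∞) (hX : BX → ℕ) (ΛY : BY → ℝ≥0∞) (hY : BY → ℕ)
    (hUX : ∀ n, U ΛX hX n ≤ 1) (hUY : ∀ n, U ΛY hY n ≤ 1) (n : ℕ)
    (F : List BX → List BY → ℝ≥0∞) (H : (List BX × List BX) → (List BY × List BY) → ℝ≥0∞)
    (hF : ∀ LX LY, F LX LY ≠ 0 → ∃ A P R A' P' R', LX = A ++ P ++ R ∧ LY = A' ++ P' ++ R' ∧
      HT hX LX = n ∧ HT hY LY = n ∧ F LX LY ≤ LW ΛX LX * LW ΛY LY * H (A, P) (A', P')) :
    ∑' LX, ∑' LY, F LX LY ≤ ∑' u : List BX × List BX, ∑' u' : List BY × List BY,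
      (LW ΛX u.1 * LW ΛX u.2) * (LW ΛY u'.1 * LW ΛY u'.2) * H u u' := by
  have key : ∀ LX LY, F LX LY ≤ ∑' p : (List BX × List BX) × List BX,
      ∑' p' : (List BY × List BY) × List BY,
      (if p.1.1 ++ p.1.2 ++ p.2 = LX ∧ p'.1.1 ++ p'.1.2 ++ p'.2 = LY ∧ HT hX LX = n ∧ HT hY LY = n
        then LW ΛX LX * LW ΛY LY * H p.1 p'.1 else 0) := by
    intro LX LY
    by_cases h0 : F LX LY = 0
    · rw [h0]; exact zero_le
    · obtain ⟨A, P, R, A', P', R', h1, h2, h3, h4, h5⟩ := hF LX LY h0
      refine le_trans ?_ (ENNReal.le_tsum ((A, P), R))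
      refine le_trans ?_ (ENNReal.le_tsum ((A', P'), R'))
      rw [if_pos ⟨h1.symm, h2.symm, h3, h4⟩]
      exact h5
  calc ∑' LX, ∑' LY, F LX LY
      ≤ ∑' LX, ∑' LY, ∑' p : (List BX × List BX) × List BX,
      ∑' p' : (List BY × List BY) × List BY,
      (if p.1.1 ++ p.1.2 ++ p.2 = LX ∧ p'.1.1 ++ p'.1.2 ++ p'.2 = LY ∧ HT hX LX = n ∧ HT hY LY = n
        then LW ΛX LX * LW ΛY LY * H p.1 p'.1 else 0) :=
        ENNReal.tsum_le_tsum fun LX => ENNReal.tsum_le_tsum fun LY => key LX LY
    _ = ∑' p : (List BX × List BX) × List BX, ∑' p' : (List BY × List BY) × List BY,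
        ∑' LX, ∑' LY,
      (if p.1.1 ++ p.1.2 ++ p.2 = LX ∧ p'.1.1 ++ p'.1.2 ++ p'.2 = LY ∧ HT hX LX = n ∧ HT hY LY = n
        then LW ΛX LX * LW ΛY LY * H p.1 p'.1 else 0) := by
        have e1 : ∀ LX, (∑' LY, ∑' p : (List BX × List BX) × List BX,
          ∑' p' : (List BY × List BY) × List BY,
          (if p.1.1 ++ p.1.2 ++ p.2 = LX ∧ p'.1.1 ++ p'.1.2 ++ p'.2 = LY ∧ HT hX LX = n ∧
            HT hY LY = n then LW ΛX LX * LW ΛY LY * H p.1 p'.1 else 0))
          = ∑' p : (List BX × List BX) × List BX, ∑' p' : (List BY × List BY) × List BY, ∑' LY,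
          (if p.1.1 ++ p.1.2 ++ p.2 = LX ∧ p'.1.1 ++ p'.1.2 ++ p'.2 = LY ∧ HT hX LX = n ∧
            HT hY LY = n then LW ΛX LX * LW ΛY LY * H p.1 p'.1 else 0) := by
          intro LX
          rw [ENNReal.tsum_comm]
          exact tsum_congr fun p => ENNReal.tsum_comm
        simp_rw [e1]
        rw [ENNReal.tsum_comm]
        exact tsum_congr fun p => ENNReal.tsum_comm
    _ ≤ ∑' p : (List BX × List BX) × List BX, ∑' p' : (List BY × List BY) × List BY,
        (LW ΛX p.1.1 * LW ΛX p.1.2 *
          (if HT hX p.2 = n - HT hX (p.1.1 ++ p.1.2) then LW ΛX p.2 else 0)) *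
        (LW ΛY p'.1.1 * LW ΛY p'.1.2 *
          (if HT hY p'.2 = n - HT hY (p'.1.1 ++ p'.1.2) then LW ΛY p'.2 else 0)) *
          H p.1 p'.1 := by
        refine ENNReal.tsum_le_tsum fun p => ENNReal.tsum_le_tsum fun p' => ?_
        rw [tsum_eq_single (p.1.1 ++ p.1.2 ++ p.2), tsum_eq_single (p'.1.1 ++ p'.1.2 ++ p'.2)]
        · split_ifs with h1 h2 h3 h3 h2 h3
          · rw [LW_append, LW_append, LW_append, LW_append]
          · exfalso
            obtain ⟨_, _, _, h4⟩ := h1
            rw [HT_append] at h4; omega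
          · exfalso
            obtain ⟨_, _, h4, _⟩ := h1
            rw [HT_append] at h4; omega
          · exfalso
            obtain ⟨_, _, h4, _⟩ := h1
            rw [HT_append] at h4; omega
          all_goals exact zero_le
        · intro LY hLY
          rw [if_neg (fun h => hLY h.2.1.symm)]
        · intro LX hLX
          rw [ENNReal.tsum_eq_zero]
          intro LY
          rw [if_neg (fun h => hLX h.1.symm)]
    _ = ∑' u : List BX × List BX, ∑' u' : List BY × List BY,
        ((LW ΛX u.1 * LW ΛX u.2) * U ΛX hX (n - HT hX (u.1 ++ u.2))) *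
        ((LW ΛY u'.1 * LW ΛY u'.2) * U ΛY hY (n - HT hY (u'.1 ++ u'.2))) * H u u' := by
        rw [ENNReal.tsum_prod']
        refine tsum_congr fun u => ?_
        rw [ENNReal.tsum_comm, ENNReal.tsum_prod']
        refine tsum_congr fun u' => ?_
        simp only [U]
        simp_rw [ENNReal.tsum_mul_right, ENNReal.tsum_mul_left]
    _ ≤ _ := by
        refine ENNReal.tsum_le_tsum fun u => ENNReal.tsum_le_tsum fun u' => ?_
        refine mul_le_mul_left ?_ _
        refine mul_le_mul' ?_ ?_
        · calc _ ≤ LW ΛX u.1 * LW ΛX u.2 * 1 := mul_le_mul_right (hUX _) _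
            _ = _ := mul_one _
        · calc _ ≤ LW ΛY u'.1 * LW ΛY u'.2 * 1 := mul_le_mul_right (hUY _) _
            _ = _ := mul_one _

/-- the tie lemma -/
lemma tie (p r g b : ℕ × G → ℝ≥0∞) (W : ℕ → ℕ → G → ℝ≥0∞) (I I' : Finset ℕ) (v : G)
    (M D β : ℝ≥0∞) (hr : ∑' q, r q ≤ 1) (hp : ∑' q, p q ≤ 1) (hpg : ∀ q, p q ≤ g q + b q)
    (hgp : ∀ q, g q ≤ p q) (hgM : ∀ q, g q ≤ M) (hb : ∑' q, b q ≤ β)
    (hW1 : ∀ a a' x, W a a' x ≤ 1)
    (hW : ∀ a ∈ I, ∀ a' ∈ I', ∀ μ : G → ℝ≥0∞, ∑' x, μ x ≤ 1 → (∀ x, μ x ≤ M) →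
      ∑' x, μ x * W a a' x ≤ D) :
    ∑' q, ∑' q', p q * r q' * (if q.1 ∈ I ∧ q'.1 ∈ I' then W q.1 q'.1 (v + q'.2 - q.2) else 0)
      ≤ (I.card : ℝ≥0∞) * I'.card * D + β := by
  have hcoord : ∀ (f : ℕ × G → ℝ≥0∞) (a : ℕ), ∑' y, f (a, y) ≤ ∑' q, f q := fun f a =>
    ENNReal.tsum_comp_le_tsum_of_injective (fun y y' h => (Prod.ext_iff.1 h).2) f
  calc _ ≤ ∑' q, ∑' q', (g q * r q' * (if q.1 ∈ I ∧ q'.1 ∈ I' then W q.1 q'.1 (v + q'.2 - q.2)
        else 0) + b q * r q') := by
        refine ENNReal.tsum_le_tsum fun q => ENNReal.tsum_le_tsum fun q' => ?_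
        calc _ ≤ (g q + b q) * r q' * (if q.1 ∈ I ∧ q'.1 ∈ I' then W q.1 q'.1 (v + q'.2 - q.2)
              else 0) := mul_le_mul_left (mul_le_mul_left (hpg q) _) _
          _ ≤ _ := by
            rw [add_mul, add_mul]
            refine add_le_add le_rfl ?_
            split_ifs
            · calc _ ≤ b q * r q' * 1 := mul_le_mul_right (hW1 _ _ _) _
                _ = _ := mul_one _
            · simp
    _ = (∑' q, ∑' q', g q * r q' * (if q.1 ∈ I ∧ q'.1 ∈ I' then W q.1 q'.1 (v + q'.2 - q.2)
        else 0)) + ∑' q, ∑' q', b q * r q' := by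
        simp_rw [ENNReal.tsum_add]
    _ ≤ (I.card : ℝ≥0∞) * I'.card * D + β := by
        refine add_le_add ?_ ?_
        · calc (∑' q, ∑' q', g q * r q' * (if q.1 ∈ I ∧ q'.1 ∈ I'
                then W q.1 q'.1 (v + q'.2 - q.2) else 0))
              = ∑' a, ∑' y, ∑' a', ∑' y', g (a, y) * r (a', y') * (if a ∈ I ∧ a' ∈ I'
                then W a a' (v + y' - y) else 0) := by
                rw [ENNReal.tsum_prod']
                refine tsum_congr fun a => tsum_congr fun y => ?_
                rw [ENNReal.tsum_prod']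
            _ = ∑' a, ∑' a', ∑' y', ∑' y, g (a, y) * r (a', y') * (if a ∈ I ∧ a' ∈ I'
                then W a a' (v + y' - y) else 0) := by
                refine tsum_congr fun a => ?_
                rw [ENNReal.tsum_comm]
                exact tsum_congr fun a' => ENNReal.tsum_comm
            _ ≤ ∑' a, ∑' a', (if a ∈ I ∧ a' ∈ I' then D else 0) := by
                refine ENNReal.tsum_le_tsum fun a => ENNReal.tsum_le_tsum fun a' => ?_
                by_cases hI : a ∈ I ∧ a' ∈ I'
                · simp only [hI, and_self, if_true]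
                  have e : ∀ y', (∑' y, g (a, y) * r (a', y') * W a a' (v + y' - y))
                      = ∑' x, r (a', y') * g (a, v + y' - x) * W a a' x := by
                    intro y'
                    rw [← (Equiv.subLeft (v + y')).tsum_eq
                      (fun y => g (a, y) * r (a', y') * W a a' (v + y' - y))]
                    refine tsum_congr fun x => ?_
                    simp only [Equiv.subLeft_apply, sub_sub_cancel]
                    ring
                  simp_rw [e]
                  rw [ENNReal.tsum_comm]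
                  simp_rw [ENNReal.tsum_mul_right]
                  refine hW a hI.1 a' hI.2 _ ?_ ?_
                  · rw [ENNReal.tsum_comm]
                    simp_rw [ENNReal.tsum_mul_left]
                    calc _ ≤ ∑' y', r (a', y') * 1 := by
                          refine ENNReal.tsum_le_tsum fun y' => mul_le_mul_right ?_ _
                          rw [← (Equiv.subLeft (v + y')).tsum_eq
                            (fun x => g (a, v + y' - x))]
                          simp only [Equiv.subLeft_apply, sub_sub_cancel]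
                          exact ((hcoord g a).trans (ENNReal.tsum_le_tsum hgp)).trans hp
                      _ ≤ 1 := by
                          simp only [mul_one]
                          exact (hcoord r a').trans hr
                  · intro x
                    calc _ ≤ ∑' y', r (a', y') * M :=
                          ENNReal.tsum_le_tsum fun y' => mul_le_mul_right (hgM _) _
                      _ ≤ 1 * M := by
                          rw [ENNReal.tsum_mul_right]
                          exact mul_le_mul_left ((hcoord r a').trans hr) _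
                      _ = M := one_mul _
                · simp [hI]
            _ = (I.card : ℝ≥0∞) * I'.card * D := by
                have : ∀ a, (∑' a', (if a ∈ I ∧ a' ∈ I' then D else 0))
                    = if a ∈ I then (I'.card : ℝ≥0∞) * D else 0 := by
                  intro a
                  by_cases ha : a ∈ I
                  · simp only [ha, true_and, if_true]
                    rw [tsum_eq_sum (s := I') (fun x hx => if_neg hx),
                      Finset.sum_congr rfl (fun x hx => if_pos hx)]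
                    simp
                  · simp [ha]
                simp_rw [this]
                rw [tsum_eq_sum (s := I) (fun x hx => if_neg hx),
                  Finset.sum_congr rfl (fun x hx => if_pos hx)]
                simp [mul_assoc]
        · calc _ = ∑' q, b q * ∑' q', r q' := by simp_rw [ENNReal.tsum_mul_left]
            _ ≤ ∑' q, b q * 1 := ENNReal.tsum_le_tsum fun q => mul_le_mul_right hr _
            _ ≤ β := by simpa using hb

end Crest.Agent.R154.Asm976
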