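import Crest.Agent.R154.AsmA_990

/-! Row 154, ROAD 801 (helper990): assembly, part B (two walkers; density with overshoot index). -/

set_option autoImplicit false

namespace Crest.Agent.R154.Asm990

open scoped ENNReal
open Crest.Agent.R154.B5A Crest.Agent.R154.FP178

variable {G : Type*} [AddCommGroup G]

/-- top / piece with small overshoots -/
def sm {B : Type*} (h : B → ℕ) (D T i0 : ℕ) (A P : List B) : Prop :=
  (fp h D A ∧ HT h A ≤ D + i0) ∧ (fp h T P ∧ HT h P ≤ T + i0)

open Classical in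
lemma sm_mass {B : Type*} (Λ : B → ℝ≥0∞) (h : B → ℕ) (h1 : ∀ b, 1 ≤ h b)
    (hΛ : ∑' b, Λ b ≤ 1) (D T i0 : ℕ) :
    ∑' A, ∑' P, (if sm h D T i0 A P then LW Λ A * LW Λ P else 0) ≤ 1 := by
  calc ∑' A, ∑' P, (if sm h D T i0 A P then LW Λ A * LW Λ P else 0)
      ≤ ∑' A, ∑' P, (if fp h D A then LW Λ A else 0) * (if fp h T P then LW Λ P else 0) := by
        refine ENNReal.tsum_le_tsum fun A => ENNReal.tsum_le_tsum fun P => ?_
        by_cases hs : sm h D T i0 A P
        · rw [if_pos hs, if_pos hs.1.1, if_pos hs.2.1]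
        · rw [if_neg hs]; exact zero_le
    _ = ∑' A, (if fp h D A then LW Λ A else 0) * ∑' P, (if fp h T P then LW Λ P else 0) := by
        refine tsum_congr fun A => ENNReal.tsum_mul_left
    _ ≤ ∑' A, (if fp h D A then LW Λ A else 0) * 1 := by
        refine ENNReal.tsum_le_tsum fun A => ?_
        gcongr
        exact sum_FP Λ h h1 hΛ T
    _ ≤ 1 := by simpa using sum_FP Λ h h1 hΛ D

open Classical in
theorem walk2 {BX BY : Type*} (ΛX : BX → ℝ≥0∞) (hX : BX → ℕ) (ΛY : BY → ℝ≥0∞) (hY : BY → ℕ)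
    (h1X : ∀ b, 1 ≤ hX b) (h1Y : ∀ b, 1 ≤ hY b) (hΛX : ∑' b, ΛX b ≤ 1) (hΛY : ∑' b, ΛY b ≤ 1)
    (hU1X : ∀ n, U ΛX hX n ≤ 1) (hU1Y : ∀ n, U ΛY hY n ≤ 1) (i0 : ℕ) (eX eY : ℝ≥0∞)
    (heX : ∀ a, ∑' L, (if fp hX a L ∧ a + i0 < HT hX L then LW ΛX L else 0) ≤ eX)
    (heY : ∀ a, ∑' L, (if fp hY a L ∧ a + i0 < HT hY L then LW ΛY L else 0) ≤ eY)
    (D T D' T' n : ℕ) (hn : D + i0 + T ≤ n) (hn' : D' + i0 + T' ≤ n) (Q : List BX → List BY → Prop)
    (Q' : List BX → List BX → List BY → List BY → Prop)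
    (hQ : ∀ A P R A' P' R', sm hX D T i0 A P → sm hY D' T' i0 A' P' →
      HT hX (A ++ (P ++ R)) = n → HT hY (A' ++ (P' ++ R')) = n →
      Q (A ++ (P ++ R)) (A' ++ (P' ++ R')) → Q' A P A' P') :
    ∑' LX, ∑' LY, (if HT hX LX = n ∧ HT hY LY = n ∧ Q LX LY then LW ΛX LX * LW ΛY LY else 0)
      ≤ 2 * eX + 2 * eY + ∑' A, ∑' P, ∑' A', ∑' P',
        (if sm hX D T i0 A P ∧ sm hY D' T' i0 A' P' ∧ Q' A P A' P' then
          (LW ΛX A * LW ΛX P) * (LW ΛY A' * LW ΛY P') else 0) := by
  set S : List BX → List BX → ℝ≥0∞ := fun A P => ∑' A', ∑' P',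
    (if sm hY D' T' i0 A' P' then LW ΛY A' * (LW ΛY P' * (if Q' A P A' P' then 1 else 0)) else 0)
    with hS
  set Φ : List BX → ℝ≥0∞ := fun LX => ∑' LY, (if HT hY LY = n then
    LW ΛY LY * (if Q LX LY then 1 else 0) else 0) with hΦdef
  have hΦ1 : ∀ LX, Φ LX ≤ 1 := by
    intro LX
    refine le_trans ?_ (hU1Y n)
    rw [U, hΦdef]
    refine ENNReal.tsum_le_tsum fun LY => ?_
    by_cases e : HT hY LY = n
    · rw [if_pos e, if_pos e]
      split_ifs <;> simp
    · rw [if_neg e, if_neg e]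
  have e1 : ∑' LX, ∑' LY, (if HT hX LX = n ∧ HT hY LY = n ∧ Q LX LY then
      LW ΛX LX * LW ΛY LY else 0) = ∑' LX, (if HT hX LX = n then LW ΛX LX * Φ LX else 0) := by
    refine tsum_congr fun LX => ?_
    by_cases e : HT hX LX = n
    · rw [if_pos e, hΦdef]
      simp only
      rw [← ENNReal.tsum_mul_left]
      refine tsum_congr fun LY => ?_
      by_cases e' : HT hY LY = n
      · by_cases q : Q LX LY
        · rw [if_pos ⟨e, e', q⟩, if_pos e', if_pos q, mul_one]
        · rw [if_neg (fun hh => q hh.2.2), if_pos e', if_neg q, mul_zero, mul_zero]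
      · rw [if_neg (fun hh => e' hh.2.1), if_neg e', mul_zero]
    · rw [if_neg e, ENNReal.tsum_eq_zero]
      intro LY
      rw [if_neg (fun hh => e hh.1)]
  rw [e1]
  have hΦ : ∀ A P R, fp hX D A → HT hX A ≤ D + i0 → fp hX T P → HT hX P ≤ T + i0 →
      HT hX (A ++ (P ++ R)) = n → Φ (A ++ (P ++ R)) ≤ 2 * eY + S A P := by
    intro A P R hA hA2 hP hP2 hR
    have hw := walk1 ΛY hY h1Y hΛY hU1Y i0 eY heY D' T' n hn'
      (fun LY => if Q (A ++ (P ++ R)) LY then 1 else 0) (fun LY => by split_ifs <;> simp)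
      (fun A' P' => if Q' A P A' P' then 1 else 0) (by
        intro A' P' R' hA' hA2' hP' hP2' hR'
        by_cases q : Q (A ++ (P ++ R)) (A' ++ (P' ++ R'))
        · rw [if_pos q, if_pos (hQ A P R A' P' R' ⟨⟨hA, hA2⟩, ⟨hP, hP2⟩⟩
            ⟨⟨hA', hA2'⟩, ⟨hP', hP2'⟩⟩ hR hR' q)]
        · rw [if_neg q]; exact zero_le)
    refine hw.trans (add_le_add le_rfl (ENNReal.tsum_le_tsum fun A' =>
      ENNReal.tsum_le_tsum fun P' => ?_))
    by_cases hs : sm hY D' T' i0 A' P'
    · rw [if_pos hs, if_pos (show (fp hY D' A' ∧ HT hY A' ≤ D' + i0) ∧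
        (fp hY T' P' ∧ HT hY P' ≤ T' + i0) from hs)]
    · rw [if_neg hs, if_neg (show ¬ ((fp hY D' A' ∧ HT hY A' ≤ D' + i0) ∧
        (fp hY T' P' ∧ HT hY P' ≤ T' + i0)) from hs)]
  refine (walk1 ΛX hX h1X hΛX hU1X i0 eX heX D T n hn Φ hΦ1 (fun A P => 2 * eY + S A P)
    hΦ).trans ?_
  rw [add_assoc]
  gcongr
  calc ∑' A, ∑' P, (if (fp hX D A ∧ HT hX A ≤ D + i0) ∧ (fp hX T P ∧ HT hX P ≤ T + i0) then
        LW ΛX A * (LW ΛX P * (2 * eY + S A P)) else 0)
      = ∑' A, ∑' P, ((if sm hX D T i0 A P then LW ΛX A * LW ΛX P else 0) * (2 * eY)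
          + (if sm hX D T i0 A P then (LW ΛX A * LW ΛX P) * S A P else 0)) := by
        refine tsum_congr fun A => tsum_congr fun P => ?_
        by_cases hs : sm hX D T i0 A P
        · rw [if_pos hs, if_pos hs]
          rw [if_pos (show (fp hX D A ∧ HT hX A ≤ D + i0) ∧ (fp hX T P ∧ HT hX P ≤ T + i0)
            from hs)]
          ring
        · rw [if_neg hs, if_neg hs]
          rw [if_neg (show ¬ ((fp hX D A ∧ HT hX A ≤ D + i0) ∧
            (fp hX T P ∧ HT hX P ≤ T + i0)) from hs)]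
          simp
    _ = (∑' A, ∑' P, (if sm hX D T i0 A P then LW ΛX A * LW ΛX P else 0)) * (2 * eY)
          + ∑' A, ∑' P, (if sm hX D T i0 A P then (LW ΛX A * LW ΛX P) * S A P else 0) := by
        simp_rw [ENNReal.tsum_add, ENNReal.tsum_mul_right]
    _ ≤ 1 * (2 * eY) + ∑' A, ∑' P, ∑' A', ∑' P',
          (if sm hX D T i0 A P ∧ sm hY D' T' i0 A' P' ∧ Q' A P A' P' then
          (LW ΛX A * LW ΛX P) * (LW ΛY A' * LW ΛY P') else 0) := by
        gcongr with A P
        · exact sm_mass ΛX hX h1X hΛX D T i0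
        · by_cases hs : sm hX D T i0 A P
          · rw [if_pos hs, hS]
            simp only
            rw [← ENNReal.tsum_mul_left]
            refine ENNReal.tsum_le_tsum fun A' => ?_
            rw [← ENNReal.tsum_mul_left]
            refine ENNReal.tsum_le_tsum fun P' => ?_
            by_cases hs' : sm hY D' T' i0 A' P'
            · by_cases q : Q' A P A' P'
              · rw [if_pos hs', if_pos q, if_pos ⟨hs, hs', q⟩, mul_one]
              · rw [if_pos hs', if_neg q]; simp
            · rw [if_neg hs', mul_zero]; exact zero_le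
          · rw [if_neg hs]; exact zero_le
    _ = _ := by rw [one_mul]

lemma tsum_sub_left (f : G → ℝ≥0∞) (z : G) : ∑' z', f (z - z') = ∑' z', f z' :=
  (Equiv.subLeft z).tsum_eq f

lemma tsum_sub_right (f : G → ℝ≥0∞) (z' : G) : ∑' z, f (z - z') = ∑' z, f z :=
  (Equiv.subRight z').tsum_eq f

open Classical in
/-- density lemma with an index for the last overshoot -/
theorem dens' {ι : Type*} (p : ℕ → G → ℝ≥0∞) (F : ℕ → ι → G → ℝ≥0∞) (T i0 : ℕ)
    (th q ε Gm : ℝ≥0∞)
    (hrec : ∀ r, T + i0 ≤ r → ∃ Bd : ι → G → ℝ≥0∞, (∑' i, ∑' z, Bd i z ≤ ε) ∧ ∀ i z,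
      F r i z ≤ (∑ j ∈ Finset.range (i0 + 1), ∑' z', p j z' * F (r - T - j) i (z - z'))
        + Bd i z)
    (hF : ∀ r, ∑' i, ∑' z, F r i z ≤ 1)
    (hq : ∑ j ∈ Finset.range (i0 + 1), ∑' z', (if th < p j z' then p j z' else 0) ≤ q)
    (hq1 : q ≤ 1) (hG : (i0 + 1 : ℕ) * th + q * Gm ≤ Gm) :
    ∀ J r, J * (T + i0) ≤ r → ∃ b : ι → G → ℝ≥0∞, (∑' i, ∑' z, b i z ≤ q ^ J + J * ε) ∧
      ∀ i z, F r i z ≤ Gm + b i z := by
  intro J
  induction J with
  | zero =>
    intro r _
    exact ⟨F r, by simpa using hF r, fun i z => le_add_self⟩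
  | succ J ih =>
    intro r hr
    have hr1 : T + i0 ≤ r := by
      have : (J + 1) * (T + i0) = J * (T + i0) + (T + i0) := by ring
      omega
    obtain ⟨Bd, hBd, hFr⟩ := hrec r hr1
    have hb : ∀ j : ℕ, ∃ b : ι → G → ℝ≥0∞, j ≤ i0 → ((∑' i, ∑' z, b i z ≤ q ^ J + J * ε) ∧
        ∀ i z, F (r - T - j) i z ≤ Gm + b i z) := by
      intro j
      by_cases hj : j ≤ i0
      · obtain ⟨b, hb⟩ := ih (r - T - j) (by
          have : (J + 1) * (T + i0) = J * (T + i0) + (T + i0) := by ring
          omega)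
        exact ⟨b, fun _ => hb⟩
      · exact ⟨0, fun h => absurd h hj⟩
    choose b hb using hb
    set c : ℕ → G → ℝ≥0∞ := fun j z' => if th < p j z' then p j z' else 0 with hc
    refine ⟨fun i z => (∑ j ∈ Finset.range (i0 + 1), ∑' z', c j z' * b j i (z - z')) + Bd i z,
      ?_, ?_⟩
    · have e1 : ∀ j, ∑' i, ∑' z, ∑' z', c j z' * b j i (z - z')
          = (∑' z', c j z') * ∑' i, ∑' z, b j i z := by
        intro j
        calc ∑' i, ∑' z, ∑' z', c j z' * b j i (z - z')
            = ∑' i, ∑' z', ∑' z, c j z' * b j i (z - z') := by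
              refine tsum_congr fun i => ENNReal.tsum_comm
          _ = ∑' z', ∑' i, ∑' z, c j z' * b j i (z - z') := ENNReal.tsum_comm
          _ = ∑' z', c j z' * ∑' i, ∑' z, b j i z := by
              refine tsum_congr fun z' => ?_
              rw [← ENNReal.tsum_mul_left]
              refine tsum_congr fun i => ?_
              rw [ENNReal.tsum_mul_left, tsum_sub_right (b j i) z']
          _ = _ := ENNReal.tsum_mul_right
      calc ∑' i, ∑' z, ((∑ j ∈ Finset.range (i0 + 1), ∑' z', c j z' * b j i (z - z'))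
            + Bd i z)
          = (∑' i, ∑' z, ∑ j ∈ Finset.range (i0 + 1), ∑' z', c j z' * b j i (z - z'))
            + ∑' i, ∑' z, Bd i z := by simp_rw [ENNReal.tsum_add]
        _ = (∑ j ∈ Finset.range (i0 + 1), ∑' i, ∑' z, ∑' z', c j z' * b j i (z - z'))
            + ∑' i, ∑' z, Bd i z := by
            congr 1
            rw [← Summable.tsum_finsetSum (fun _ _ => ENNReal.summable)]
            refine tsum_congr fun i => ?_
            rw [Summable.tsum_finsetSum (fun _ _ => ENNReal.summable)]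
        _ ≤ (∑ j ∈ Finset.range (i0 + 1), (∑' z', c j z') * (q ^ J + J * ε)) + ε := by
            gcongr with j hj
            rw [e1 j]
            gcongr
            exact (hb j (by have := Finset.mem_range.1 hj; omega)).1
        _ = (∑ j ∈ Finset.range (i0 + 1), ∑' z', c j z') * (q ^ J + J * ε) + ε := by
            rw [Finset.sum_mul]
        _ ≤ q * (q ^ J + J * ε) + ε := by gcongr
        _ = q ^ (J + 1) + q * (J * ε) + ε := by ring
        _ ≤ q ^ (J + 1) + 1 * (J * ε) + ε := by gcongr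
        _ = q ^ (J + 1) + (J + 1 : ℕ) * ε := by push_cast; ring
    · intro i z
      have hsum : ∀ j, ∑' z', F (r - T - j) i (z - z') ≤ 1 := by
        intro j
        rw [tsum_sub_left (F (r - T - j) i) z]
        exact (ENNReal.le_tsum (f := fun i => ∑' z, F (r - T - j) i z) i).trans (hF _)
      have hterm : ∀ j ∈ Finset.range (i0 + 1), ∑' z', p j z' * F (r - T - j) i (z - z')
          ≤ th * 1 + (∑' z', c j z') * Gm + ∑' z', c j z' * b j i (z - z') := by
        intro j hj
        have hj' : j ≤ i0 := by have := Finset.mem_range.1 hj; omega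
        calc ∑' z', p j z' * F (r - T - j) i (z - z')
            ≤ ∑' z', (th * F (r - T - j) i (z - z') + c j z' * Gm
                + c j z' * b j i (z - z')) := by
              refine ENNReal.tsum_le_tsum fun z' => ?_
              by_cases ht : th < p j z'
              · have hcj : c j z' = p j z' := by rw [hc]; simp only [ht, if_true]
                rw [hcj]
                calc p j z' * F (r - T - j) i (z - z')
                    ≤ p j z' * (Gm + b j i (z - z')) := by
                      gcongr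
                      exact (hb j hj').2 i (z - z')
                  _ = p j z' * Gm + p j z' * b j i (z - z') := mul_add _ _ _
                  _ ≤ _ := by rw [add_assoc]; exact le_add_self
              · refine le_add_right (le_add_right ?_)
                gcongr
                exact not_lt.1 ht
          _ = th * (∑' z', F (r - T - j) i (z - z')) + (∑' z', c j z') * Gm
                + ∑' z', c j z' * b j i (z - z') := by
              rw [ENNReal.tsum_add, ENNReal.tsum_add, ENNReal.tsum_mul_left,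
                ENNReal.tsum_mul_right]
          _ ≤ _ := by gcongr; exact hsum j
      calc F r i z ≤ (∑ j ∈ Finset.range (i0 + 1), ∑' z', p j z' * F (r - T - j) i (z - z'))
            + Bd i z := hFr i z
        _ ≤ (∑ j ∈ Finset.range (i0 + 1), (th * 1 + (∑' z', c j z') * Gm
            + ∑' z', c j z' * b j i (z - z'))) + Bd i z := by
            gcongr with j hj
            exact hterm j hj
        _ = ((i0 + 1 : ℕ) * th + (∑ j ∈ Finset.range (i0 + 1), ∑' z', c j z') * Gm)
            + ((∑ j ∈ Finset.range (i0 + 1), ∑' z', c j z' * b j i (z - z')) + Bd i z) := by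
            rw [Finset.sum_add_distrib, Finset.sum_add_distrib, ← Finset.sum_mul,
              Finset.sum_const, Finset.card_range, nsmul_eq_mul, mul_one, add_assoc,
              Finset.sum_mul (Finset.range (i0 + 1)) (fun j => ∑' z', c j z') Gm]
        _ ≤ ((i0 + 1 : ℕ) * th + q * Gm)
            + ((∑ j ∈ Finset.range (i0 + 1), ∑' z', c j z' * b j i (z - z')) + Bd i z) := by
            gcongr
        _ ≤ Gm + _ := by gcongr

end Crest.Agent.R154.Asm990
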