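import Crest.Agent.R154.AsmA_999
import Crest.Agent.R154.AsmD_540

/-! Row 154, ROAD 801, assembly part B (helper999): cutting crossings into pieces, geometry. -/

set_option autoImplicit false

namespace Crest.Agent.R154.Asm999

open scoped ENNReal
open Crest.Agent.R154.B5A
open Crest.Agent.R154.Asm540 (FP split_le fp_mass over_le e1 wA wA_mass fp_HT TR TR_append TR_depth
  TR_shift Dp)

section pieces
variable {B : Type*} (Λ : B → ℝ≥0∞) (ht : B → ℕ)

open Classical in
lemma piece_step (h1 : ∀ b, 1 ≤ ht b) (hU1 : ∀ n, U Λ ht n ≤ 1) (T i0 n : ℕ) (hn : T + i0 ≤ n)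
    (F Φ : List B → ℝ≥0∞) (hF1 : ∀ L, F L ≤ 1)
    (hΦ : ∀ V, FP ht T V → HT ht V ≤ T + i0 →
      ∑' R, (if HT ht R = n - HT ht V then LW Λ R * F (V ++ R) else 0) ≤ Φ V) :
    ∑' L, (if HT ht L = n then LW Λ L * F L else 0)
      ≤ e1 Λ ht i0 + ∑' V, wA Λ ht T i0 V * Φ V := by
  have h2 : ∑' L, (if HT ht L = n then LW Λ L * F L else 0)
      = ∑' L, (if T ≤ HT ht L then (if HT ht L = n then LW Λ L * F L else 0) else 0) := by
    refine tsum_congr fun L => ?_
    by_cases h : HT ht L = n
    · rw [if_pos (show T ≤ HT ht L by omega)]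
    · simp [h]
  rw [h2]
  refine (split_le ht h1 T _).trans ?_
  refine le_trans (ENNReal.tsum_le_tsum (g := fun V =>
    (if FP ht T V ∧ T + i0 < HT ht V then LW Λ V else 0) + wA Λ ht T i0 V * Φ V) fun V => ?_) ?_
  · by_cases hV : FP ht T V
    · rw [if_pos hV]
      by_cases hV2 : HT ht V ≤ T + i0
      · refine le_add_left ?_
        rw [wA, if_pos ⟨hV, hV2⟩]
        refine le_trans ?_ (mul_le_mul_right (hΦ V hV hV2) _)
        rw [← ENNReal.tsum_mul_left]
        refine ENNReal.tsum_le_tsum fun R => ?_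
        rw [HT_append, LW_append]
        by_cases hR : HT ht V + HT ht R = n
        · rw [if_pos hR, if_pos (by omega), mul_assoc]
        · rw [if_neg hR]; exact zero_le
      · refine le_add_right ?_
        rw [if_pos ⟨hV, not_le.1 hV2⟩]
        calc ∑' R, (if HT ht (V ++ R) = n then LW Λ (V ++ R) * F (V ++ R) else 0)
            ≤ ∑' R, LW Λ V * (if HT ht R = n - HT ht V then LW Λ R else 0) := by
              refine ENNReal.tsum_le_tsum fun R => ?_
              rw [HT_append, LW_append]
              by_cases hR : HT ht V + HT ht R = n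
              · rw [if_pos hR, if_pos (by omega)]
                calc LW Λ V * LW Λ R * F (V ++ R) ≤ LW Λ V * LW Λ R * 1 :=
                      mul_le_mul_right (hF1 _) _
                  _ = _ := mul_one _
              · rw [if_neg hR]; exact zero_le
          _ ≤ LW Λ V * 1 := by
              rw [ENNReal.tsum_mul_left]
              exact mul_le_mul_right (hU1 _) _
          _ = LW Λ V := mul_one _
    · rw [if_neg hV]; exact zero_le
  · rw [ENNReal.tsum_add]
    gcongr
    exact over_le Λ ht hU1 T i0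

open Classical in
lemma pieces (h1 : ∀ b, 1 ≤ ht b) (hΛ : ∑' b, Λ b ≤ 1) (hU1 : ∀ n, U Λ ht n ≤ 1) (T i0 J : ℕ) :
    ∀ (n : ℕ) (F : List B → ℝ≥0∞) (Fh : List (List B) → ℝ≥0∞), J * (T + i0) ≤ n →
    (∀ L, F L ≤ 1) → (∀ VV R, (∀ V ∈ VV, T ≤ HT ht V ∧ HT ht V ≤ T + i0) → VV.length = J →
      F (VV.flatten ++ R) ≤ Fh VV) →
    ∑' L, (if HT ht L = n then LW Λ L * F L else 0)
      ≤ J * e1 Λ ht i0 + SL (wA Λ ht T i0) J Fh := by
  induction J with
  | zero =>
    intro n F Fh _ _ hF
    rw [SL_zero]
    refine le_add_left ?_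
    calc ∑' L, (if HT ht L = n then LW Λ L * F L else 0)
        ≤ ∑' L, (if HT ht L = n then LW Λ L else 0) * Fh [] := by
          refine ENNReal.tsum_le_tsum fun L => ?_
          split_ifs
          · exact mul_le_mul_right (by simpa using hF [] L (by simp) rfl) _
          · exact zero_le
      _ ≤ 1 * Fh [] := by
          rw [ENNReal.tsum_mul_right]
          exact mul_le_mul_left (hU1 n) _
      _ = Fh [] := one_mul _
  | succ J ih =>
    intro n F Fh hn hF1 hF
    have e0 : (J + 1) * (T + i0) = J * (T + i0) + (T + i0) := by ring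
    refine (piece_step Λ ht h1 hU1 T i0 n (by omega) F
      (fun V => J * e1 Λ ht i0 + SL (wA Λ ht T i0) J (fun L => Fh (V :: L))) hF1
      fun V hV hV2 => ?_).trans ?_
    · refine ih (n - HT ht V) (fun R => F (V ++ R)) (fun L => Fh (V :: L)) (by omega)
        (fun L => hF1 _) fun VV R hVV hl => ?_
      have := hF (V :: VV) R (by
        intro W hW
        rcases List.mem_cons.1 hW with rfl | hW
        · exact ⟨fp_HT ht hV, hV2⟩
        · exact hVV W hW) (by simp [hl])
      simpa using this
    · rw [SL_succ]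
      simp_rw [mul_add]
      rw [ENNReal.tsum_add, ← add_assoc]
      gcongr
      rw [ENNReal.tsum_mul_right]
      push_cast
      calc e1 Λ ht i0 + (∑' V, wA Λ ht T i0 V) * (J * e1 Λ ht i0)
          ≤ e1 Λ ht i0 + 1 * (J * e1 Λ ht i0) := by
            gcongr
            exact wA_mass Λ ht h1 hΛ T i0
        _ = (J + 1) * e1 Λ ht i0 := by ring

end pieces

lemma HT_flatten {B : Type*} (ht : B → ℕ) (A : List (List B)) :
    HT ht A.flatten = (A.map (HT ht)).sum := by
  induction A with
  | nil => simp [HT]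
  | cons V A ih => rw [List.flatten_cons, HT_append, ih]; simp

lemma Dp_flatten {B G : Type*} [AddCommGroup G] (z : B → G) (A : List (List B)) :
    Dp z A.flatten = (A.map (Dp z)).sum := by
  induction A with
  | nil => simp [Dp]
  | cons V A ih => rw [List.flatten_cons, Asm540.Dp_append, ih]; simp

open Classical in
lemma SL_pick {B : Type*} (Λ : B → ℝ≥0∞) (hΛ : ∑' b, Λ b ≤ 1) (j J : ℕ) (hj : j < J)
    (F : List B → ℝ≥0∞) (ψ : List B → B → ℝ≥0∞)
    (h : ∀ A V C, A.length = j → F (A ++ V :: C) ≤ ψ A V) :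
    SL Λ J F ≤ SL Λ j (fun A => ∑' V, Λ V * ψ A V) := by
  obtain ⟨r, rfl⟩ : ∃ r, J = j + (r + 1) := ⟨J - j - 1, by omega⟩
  rw [SL_add]
  refine SL_mono Λ j fun A hA => ?_
  rw [SL_succ]
  refine ENNReal.tsum_le_tsum fun V => mul_le_mul_right ?_ _
  exact (SL_mono Λ r fun C _ => h A V C hA).trans (SL_const_le Λ hΛ r _)

section geo
variable {BX BY G : Type*} [AddCommGroup G]
  (ΛX : BX → ℝ≥0∞) (ΛY : BY → ℝ≥0∞) (hX : BX → ℕ) (hY : BY → ℕ) (zX : BX → G) (zY : BY → G)
  (sX : BX → Set (G × ℕ)) (sY : BY → Set (G × ℕ))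

/-- contact of two placed pieces, all contacts in `[lo, hi]` -/
def PC (V : List BX) (V' : List BY) (x : G) (c d lo hi : ℕ) : Prop :=
  (∃ g k, Asm540.Cm hX hY zX zY sX sY V V' x c d g k) ∧
    ∀ g k, Asm540.Cm hX hY zX zY sX sY V V' x c d g k → lo ≤ k ∧ k ≤ hi

lemma sum_bd {α : Type*} (h : α → ℕ) (T i0 : ℕ) (L : List α)
    (hL : ∀ b ∈ L, T ≤ h b ∧ h b ≤ T + i0) :
    L.length * T ≤ (L.map h).sum ∧ (L.map h).sum ≤ L.length * T + L.length * i0 := by
  induction L with
  | nil => simp
  | cons b L ih =>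
    have h2 := ih fun b hb => hL b (List.mem_cons_of_mem _ hb)
    have h3 := hL b List.mem_cons_self
    simp only [List.map_cons, List.sum_cons, List.length_cons]
    constructor <;> nlinarith

lemma flat_split {B : Type*} (VV : List (List B)) (R : List B) (j : ℕ) (hj : j < VV.length) :
    VV.flatten ++ R = (VV.take j).flatten ++ (VV[j] ++ ((VV.drop (j + 1)).flatten ++ R)) := by
  have e : VV = VV.take j ++ VV[j] :: VV.drop (j+1) := by
    rw [List.getElem_cons_drop hj, List.take_append_drop]
  calc VV.flatten ++ R = (VV.take j ++ VV[j] :: VV.drop (j+1)).flatten ++ R :=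
        congrArg (fun l => l.flatten ++ R) e
    _ = _ := by rw [List.flatten_append, List.flatten_cons, List.append_assoc, List.append_assoc]

/-- the piece number `j` of the list contains the depth `k` -/
lemma piece_at {B : Type*} (ht : B → ℕ) (z : B → G) (s : B → Set (G × ℕ))
    (hs : ∀ b, ∀ p ∈ s b, 1 ≤ p.2 ∧ p.2 ≤ ht b) (VV : List (List B)) (R : List B)
    (j : ℕ) (hj : j < VV.length) (x : G) (a : ℕ) (g : G) (k : ℕ)
    (hk : (g, k) ∈ TR s z ht (VV.flatten ++ R) x a)
    (h1 : a + ((VV.take j).map (HT ht)).sum < k)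
    (h2 : k ≤ a + ((VV.take (j + 1)).map (HT ht)).sum) :
    ∃ A V C, VV = A ++ V :: C ∧ A.length = j ∧
      (g, k) ∈ TR s z ht V (x + (A.map (Dp z)).sum) (a + (A.map (HT ht)).sum) ∧
      ∀ g' k', (g', k') ∈ TR s z ht V (x + (A.map (Dp z)).sum) (a + (A.map (HT ht)).sum) →
        (g', k') ∈ TR s z ht (VV.flatten ++ R) x a := by
  refine ⟨VV.take j, VV[j], VV.drop (j + 1), ?_, ?_, ?_, ?_⟩
  · rw [List.getElem_cons_drop hj, List.take_append_drop]
  · rw [List.length_take]; omega
  · have hVV : VV.flatten ++ R = (VV.take j).flatten ++ (VV[j] ++ ((VV.drop (j + 1)).flatten ++ R)) := by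
      exact flat_split VV R j hj
    rw [hVV, TR_append] at hk
    rcases hk with hk | hk
    · have := (TR_depth _ _ _ hs _ _ _ _ hk).2
      rw [HT_flatten] at this
      simp only at this
      omega
    · rw [TR_append] at hk
      rcases hk with hk | hk
      · rw [Dp_flatten, HT_flatten] at hk
        exact hk
      · have := (TR_depth _ _ _ hs _ _ _ _ hk).1
        rw [HT_flatten] at this
        simp only at this
        rw [List.take_succ_eq_append_getElem hj, List.map_append, List.sum_append] at h2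
        simp only [List.map_cons, List.map_nil, List.sum_cons, List.sum_nil, add_zero] at h2
        omega
  · intro g' k' h'
    have hVV : VV.flatten ++ R = (VV.take j).flatten ++ (VV[j] ++ ((VV.drop (j + 1)).flatten ++ R)) := by
      exact flat_split VV R j hj
    rw [hVV, TR_append, TR_append, Dp_flatten, HT_flatten]
    exact Or.inr (Or.inl h')

end geo

end Crest.Agent.R154.Asm999
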