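import Crest.Agent.R154.AsmB_10

/-! Row 154, ROAD 801, abstract assembly, part C (helper10): traces, one window. -/

set_option autoImplicit false

namespace Crest.Agent.R154.Asm10

open scoped ENNReal Topology
open Filter Crest.Agent.R154.B5A

open Classical in
/-- indicator -/
noncomputable def I (p : Prop) : ℝ≥0∞ := if p then 1 else 0

lemma I_pos {p : Prop} (h : p) : I p = 1 := if_pos h
lemma I_neg {p : Prop} (h : ¬ p) : I p = 0 := if_neg h
lemma I_le (p : Prop) : I p ≤ 1 := by unfold I; split_ifs <;> simp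
lemma I_mono {p q : Prop} (h : p → q) : I p ≤ I q := by
  by_cases hp : p
  · rw [I_pos hp, I_pos (h hp)]
  · rw [I_neg hp]; exact zero_le
lemma I_or {p q r : Prop} (h : p → q ∨ r) : I p ≤ I q + I r := by
  by_cases hp : p
  · rcases h hp with h | h
    · rw [I_pos hp, I_pos h]; exact le_self_add
    · rw [I_pos hp, I_pos h]; exact le_add_self
  · rw [I_neg hp]; exact zero_le
lemma I_and {p q : Prop} : I (p ∧ q) = I p * I q := by
  by_cases hp : p <;> by_cases hq : q <;> simp [I, hp, hq]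
lemma I_exists {ι : Type*} (s : Finset ι) {p : Prop} {q : ι → Prop} (h : p → ∃ i ∈ s, q i) :
    I p ≤ ∑ i ∈ s, I (q i) := by
  by_cases hp : p
  · obtain ⟨i, hi, hq⟩ := h hp
    rw [I_pos hp]
    refine le_trans (le_of_eq (I_pos hq).symm) ?_
    exact Finset.single_le_sum (f := fun i => I (q i)) (fun _ _ => zero_le) hi
  · rw [I_neg hp]; exact zero_le

section Trace

variable {B G : Type*} [AddCommGroup G] (s : B → Set (G × ℕ)) (h : B → ℕ) (z : B → G)

/-- trace of a list of blocks -/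
def TT : List B → G → ℕ → Set (G × ℕ)
  | [], _, _ => ∅
  | b :: L, x, a => {p | ∃ q ∈ s b, p = (x + q.1, a + q.2)} ∪ TT L (x + z b) (a + h b)

lemma TT_append (L L' : List B) (x : G) (a : ℕ) :
    TT s h z (L ++ L') x a = TT s h z L x a ∪ TT s h z L' (x + (L.map z).sum) (a + HT h L) := by
  induction L generalizing x a with
  | nil => simp [TT, HT_nil]
  | cons b L ih =>
    simp only [List.cons_append, TT, ih, List.map_cons, List.sum_cons, HT_cons, Set.union_assoc,
      add_assoc]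

lemma TT_depth (hs : ∀ b q, q ∈ s b → 1 ≤ q.2 ∧ q.2 ≤ h b) (L : List B) (x : G) (a : ℕ) (y : G)
    (k : ℕ) (hk : (y, k) ∈ TT s h z L x a) : a + 1 ≤ k ∧ k ≤ a + HT h L := by
  induction L generalizing x a with
  | nil => simp [TT] at hk
  | cons b L ih =>
    rw [HT_cons]
    rcases hk with ⟨q, hq, he⟩ | hk
    · have := hs b q hq
      rw [Prod.mk.injEq] at he
      omega
    · have := ih _ _ hk; omega

lemma TT_trans (L : List B) (x v : G) (a : ℕ) (y : G) (k : ℕ) :
    (y, k) ∈ TT s h z L (x + v) a ↔ (y - v, k) ∈ TT s h z L x a := by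
  induction L generalizing x a with
  | nil => simp [TT]
  | cons b L ih =>
    simp only [TT, Set.mem_union, Set.mem_ofPred_eq, Prod.mk.injEq]
    rw [show x + v + z b = x + z b + v by abel, ih]
    refine or_congr ?_ Iff.rfl
    constructor
    · rintro ⟨q, hq, h1, h2⟩; exact ⟨q, hq, by rw [h1]; abel, h2⟩
    · rintro ⟨q, hq, h1, h2⟩; exact ⟨q, hq, by rw [sub_eq_iff_eq_add.1 h1]; abel, h2⟩

end Trace

section SLmore

variable {B : Type*} (Λ : B → ℝ≥0∞)

lemma SL_le_of (hΛ : ∑' b, Λ b = 1) (j : ℕ) (F : List B → ℝ≥0∞) (c : ℝ≥0∞)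
    (hF : ∀ L, L.length = j → F L ≤ c) : SL Λ j F ≤ c :=
  (SL_mono Λ j hF).trans (SL_const Λ hΛ j c).le

lemma SL_sum {ι : Type*} (t : Finset ι) (j : ℕ) (F : ι → List B → ℝ≥0∞) :
    SL Λ j (fun L => ∑ i ∈ t, F i L) = ∑ i ∈ t, SL Λ j (F i) := by
  classical
  induction t using Finset.induction_on with
  | empty =>
    simp only [Finset.sum_empty]
    simpa using SL_const_mul Λ j 0 (fun _ => 0)
  | insert a t ha ih =>
    simp only [Finset.sum_insert ha]
    rw [SL_add_fun, ih]

lemma SL_tsum {ι : Type*} (j : ℕ) (F : ι → List B → ℝ≥0∞) :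
    SL Λ j (fun L => ∑' i, F i L) = ∑' i, SL Λ j (F i) := by
  simp only [SL]
  rw [ENNReal.tsum_comm]
  refine tsum_congr fun L => ?_
  by_cases hL : L.length = j
  · simp only [if_pos hL]; rw [ENNReal.tsum_mul_left]
  · simp [if_neg hL]

lemma SL_comm {B' : Type*} (Λ' : B' → ℝ≥0∞) (j j' : ℕ) (F : List B → List B' → ℝ≥0∞) :
    SL Λ j (fun L => SL Λ' j' (fun L' => F L L')) = SL Λ' j' (fun L' => SL Λ j (fun L => F L L')) := by
  have : ∀ L, SL Λ' j' (fun L' => F L L')
      = ∑' L' : List B', (if L'.length = j' then LW Λ' L' * F L L' else 0) := fun L => rfl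
  simp only [this]
  rw [SL_tsum]
  rw [SL]
  refine tsum_congr fun L' => ?_
  by_cases hL : L'.length = j'
  · simp only [if_pos hL]; rw [SL_const_mul]
  · simp only [if_neg hL]
    simpa using SL_const_mul Λ j 0 (fun _ => 0)

/-- a function of the first `j + 1` letters -/
lemma SL_head (hΛ : ∑' b, Λ b = 1) (J j : ℕ) (hj : j < J) (F : List B → ℝ≥0∞)
    (g : List B → B → ℝ≥0∞)
    (hF : ∀ A P A3, A.length = j → F (A ++ P :: A3) ≤ g A P) :
    SL Λ J F ≤ SL Λ j (fun A => ∑' P, Λ P * g A P) := by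
  obtain ⟨r, rfl⟩ : ∃ r, J = j + (r + 1) := ⟨J - j - 1, by omega⟩
  rw [SL_add]
  refine SL_mono Λ j fun A hA => ?_
  rw [SL_succ]
  refine ENNReal.tsum_le_tsum fun P => mul_le_mul_right ?_ _
  exact SL_le_of Λ hΛ r _ _ fun A3 _ => hF A P A3 hA

end SLmore

end Crest.Agent.R154.Asm10
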