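import Crest.Agent.R154.B5Abs_566
import Crest.Agent.R154.FP_178
import Crest.Agent.R154.AsmA_789

/-! Row 154, ROAD 801, assembly in pieces from the tie (helper103), part 1. -/

set_option autoImplicit false

namespace Crest.Agent.R154.Asm103

open scoped ENNReal
open Crest.Agent.R154.B5A Crest.Agent.R154.FP178

section one
variable {B : Type*} (Λ : B → ℝ≥0∞) (ht : B → ℕ)

open Classical in
/-- weight of a piece (first passage of `T`) -/
noncomputable def PW (T : ℕ) (A : List B) : ℝ≥0∞ := if fp ht T A then LW Λ A else 0

lemma PW_sum (h1 : ∀ b, 1 ≤ ht b) (hΛ : ∑' b, Λ b = 1) (T : ℕ) : ∑' A, PW Λ ht T A = 1 := by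
  classical
  unfold PW
  induction T using Nat.strong_induction_on with
  | _ a ih =>
    rcases Nat.eq_zero_or_pos a with rfl | ha
    · have := sum_fp_zero Λ ht (fun _ => 1)
      simp only [mul_one] at this
      exact this
    · have := sum_fp_step Λ ht a ha (fun _ => 1)
      simp only [mul_one] at this
      rw [this]
      calc ∑' b, Λ b * ∑' L, (if fp ht (a - ht b) L then LW Λ L else 0)
          = ∑' b, Λ b * 1 := by
            refine tsum_congr fun b => ?_
            rw [ih (a - ht b) (by have := h1 b; omega)]
        _ = 1 := by simpa using hΛ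

open Classical in
theorem peel (h1 : ∀ b, 1 ≤ ht b) (hΛ : ∑' b, Λ b = 1) (hU1 : ∀ n, U Λ ht n ≤ 1) (T i0 : ℕ)
    (e : ℝ≥0∞) (he : ∑' k, tail Λ ht (i0 + k) ≤ e) (J : ℕ) : ∀ (n : ℕ) (F : List B → ℝ≥0∞),
    (∀ L, F L ≤ 1) → J * (T + i0) ≤ n →
    ∑' L, (if HT ht L = n then LW Λ L * F L else 0) ≤ J * e +
      SL (PW Λ ht T) J (fun Q => if (∀ A ∈ Q, HT ht A ≤ T + i0) then
        ∑' R, (if HT ht (Q.flatten ++ R) = n then LW Λ R * F (Q.flatten ++ R) else 0) else 0) := by
  induction J with
  | zero => intro n F hF hn; rw [SL_zero]; simp
  | succ J ih =>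
    intro n F hF hn
    have hT : T + i0 ≤ n := by nlinarith
    have hTJ : J * (T + i0) + (T + i0) ≤ n := by nlinarith
    have e1 : ∑' L, (if HT ht L = n then LW Λ L * F L else 0) = ∑' L, (if T ≤ HT ht L then
        LW Λ L * (if HT ht L = n then F L else 0) else 0) := by
      refine tsum_congr fun L => ?_
      by_cases h : HT ht L = n
      · rw [if_pos h, if_pos (by omega), if_pos h]
      · simp [h]
    rw [e1, split Λ ht h1 T]
    have key : ∀ A, (if fp ht T A then LW Λ A *
          ∑' R, LW Λ R * (if HT ht (A ++ R) = n then F (A ++ R) else 0) else 0)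
        ≤ ((if fp ht T A ∧ T + i0 < HT ht A then LW Λ A else 0) + PW Λ ht T A * (J * e))
          + PW Λ ht T A * SL (PW Λ ht T) J (fun Q =>
            if (∀ A' ∈ A :: Q, HT ht A' ≤ T + i0) then
              ∑' R, (if HT ht ((A :: Q).flatten ++ R) = n then
                LW Λ R * F ((A :: Q).flatten ++ R) else 0) else 0) := by
      intro A
      by_cases hA : fp ht T A
      · rw [if_pos hA]
        by_cases hg : HT ht A ≤ T + i0
        · have hI := ih (n - HT ht A) (fun L => F (A ++ L)) (fun L => hF _) (by omega)
          have e2 : ∑' R, LW Λ R * (if HT ht (A ++ R) = n then F (A ++ R) else 0)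
              = ∑' R, (if HT ht R = n - HT ht A then LW Λ R * F (A ++ R) else 0) := by
            refine tsum_congr fun R => ?_
            rw [HT_append]
            by_cases h : HT ht R = n - HT ht A
            · rw [if_pos h, if_pos (by omega)]
            · rw [if_neg h, if_neg (by omega), mul_zero]
          have hPW : PW Λ ht T A = LW Λ A := by simp [PW, hA]
          rw [e2, if_neg (by omega), zero_add, hPW, ← mul_add]
          refine mul_le_mul_right (hI.trans (add_le_add le_rfl ?_)) _
          refine SL_mono _ J fun Q _ => ?_
          by_cases hQ : ∀ A' ∈ Q, HT ht A' ≤ T + i0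
          · have hQ' : ∀ A' ∈ A :: Q, HT ht A' ≤ T + i0 := by
              intro A' hA'
              rcases List.mem_cons.1 hA' with rfl | h
              · exact hg
              · exact hQ _ h
            rw [if_pos hQ, if_pos hQ']
            refine ENNReal.tsum_le_tsum fun R => ?_
            rw [List.flatten_cons, List.append_assoc, HT_append ht A]
            by_cases h : HT ht (Q.flatten ++ R) = n - HT ht A
            · rw [if_pos h, if_pos (by omega)]
            · rw [if_neg h]; exact zero_le
          · rw [if_neg hQ]; exact zero_le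
        · have hPW : PW Λ ht T A = LW Λ A := by simp [PW, hA]
          rw [if_pos ⟨hA, by omega⟩, add_assoc]
          refine le_add_right ?_
          calc LW Λ A * ∑' R, LW Λ R * (if HT ht (A ++ R) = n then F (A ++ R) else 0)
              ≤ LW Λ A * 1 := by
                refine mul_le_mul_right (le_trans ?_ (hU1 (n - HT ht A))) _
                rw [U]
                refine ENNReal.tsum_le_tsum fun R => ?_
                rw [HT_append]
                by_cases h : HT ht A + HT ht R = n
                · rw [if_pos h, if_pos (by omega)]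
                  calc LW Λ R * F (A ++ R) ≤ LW Λ R * 1 := mul_le_mul_right (hF _) _
                    _ = _ := mul_one _
                · rw [if_neg h, mul_zero]; exact zero_le
            _ = _ := mul_one _
      · rw [if_neg hA]; exact zero_le
    refine (ENNReal.tsum_le_tsum key).trans ?_
    rw [ENNReal.tsum_add, ENNReal.tsum_add, ENNReal.tsum_mul_right, PW_sum Λ ht h1 hΛ, one_mul,
      SL_succ]
    refine add_le_add ?_ le_rfl
    have := (overshoot Λ ht h1 hU1 i0 T).trans he
    calc _ ≤ e + J * e := add_le_add this le_rfl
      _ = _ := by push_cast; ring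

end one

end Crest.Agent.R154.Asm103
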