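import Crest.Agent.R154.AsmB_12

/-! Row 154, ROAD 801 (helper12): the total weight of one window. -/

set_option autoImplicit false

namespace Crest.Agent.R154.AsmC12

open scoped ENNReal
open Crest.Agent.R154.B5A (LW HT LW_append HT_append)
open Crest.Agent.R154.FP178
open Crest.Agent.R154.Hit12
open Crest.Agent.R154.AsmA12
open Crest.Agent.R154.AsmB12

variable {BX BY G : Type*} [AddCommGroup G]

open Classical in
theorem win_total (ΛX : BX → ℝ≥0∞) (hX : BX → ℕ) (zX : BX → G) (ΛY : BY → ℝ≥0∞) (hY : BY → ℕ)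
    (zY : BY → G) (hbX : ∀ b, 1 ≤ hX b) (hbY : ∀ b, 1 ≤ hY b) (hΛX : ∑' b, ΛX b = 1)
    (hΛY : ∑' b, ΛY b = 1) (T i0 L J : ℕ) (hJX : J * (T + i0) ≤ L)
    (hJY : J * (T + i0 + i0) ≤ L + i0) (w : G)
    (Ev : ℕ → ℕ → G → List BX → List BY → Prop) (C lam us e u : ℝ≥0∞) (hC0 : C ≠ 0) (hCt : C ≠ ⊤)
    (hl0 : lam ≠ 0) (hlt : lam ≠ ⊤) (hus : us ≤ lam / 2) (hu0 : u ≠ 0) (hu1 : u ≤ 1)
    (heX : ∑' A, (if fp hX T A ∧ T + i0 < HT hX A then LW ΛX A else 0) ≤ e)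
    (heY : ∑' A, (if fp hY (T + i0) A ∧ T + i0 + i0 < HT hY A then LW ΛY A else 0) ≤ e)
    (HH2 : ∀ a a' : ℕ, L ≤ a → a ≤ L + i0 → L + i0 ≤ a' → a' ≤ L + i0 + i0 →
      ∀ h h' : ℕ, T ≤ h → h ≤ T + i0 → T + i0 ≤ h' → h' ≤ T + i0 + i0 →
      ∀ (E : Finset G) (μ : G → ℝ≥0∞) (M : ℝ≥0∞), ∑' x, μ x ≤ 1 → (∀ x, μ x ≤ M) →
      ∑' x, μ x * ∑' Q, ∑' Q', (if HT hX Q = h ∧ Dp zX Q ∈ E ∧ HT hY Q' = h' ∧
        Ev a a' x Q Q' then LW ΛX Q * LW ΛY Q' else 0) ≤ C * (lam + M * E.card * us / lam + us))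
    (HH3 : ∀ a a' : ℕ, L ≤ a → a ≤ L + i0 → L + i0 ≤ a' → a' ≤ L + i0 + i0 →
      ∀ h h' : ℕ, T + i0 ≤ h' → h' ≤ T + i0 + i0 → T ≤ h → h ≤ T + i0 →
      ∀ (E : Finset G) (μ : G → ℝ≥0∞) (M : ℝ≥0∞), ∑' x, μ x ≤ 1 → (∀ x, μ x ≤ M) →
      ∑' x, μ x * ∑' Q', ∑' Q, (if HT hY Q' = h' ∧ Dp zY Q' ∈ E ∧ HT hX Q = h ∧
        Ev a a' x Q Q' then LW ΛY Q' * LW ΛX Q else 0) ≤ C * (lam + M * E.card * us / lam + us)) :
    ∑' P, ∑' P', (if fp hX L P ∧ HT hX P ≤ L + i0 ∧ fp hY (L + i0) P' ∧ HT hY P' ≤ L + i0 + i0 then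
      LW ΛX P * LW ΛY P' * ∑' Q, ∑' Q', (if fp hX T Q ∧ HT hX Q ≤ T + i0 ∧ fp hY (T + i0) Q' ∧
        HT hY Q' ≤ T + i0 + i0 ∧ Ev (HT hX P) (HT hY P') (w + Dp zY P' - Dp zX P) Q Q' then
        LW ΛX Q * LW ΛY Q' else 0) else 0)
      ≤ u * u + 2 * (((i0 + 1) * (i0 + 1) : ℕ) * (2 * (C * lam)))
        + 2 * ((1 - u) ^ J + J * (e + (i0 + 1 : ℕ) *
          (((i0 + 1) * (i0 + 1) : ℕ) * (2 * (us / lam) / lam)))) := by
  obtain ⟨thX, EfX, hX0, hX1, hXnl, hXb, hXE, hXc⟩ := quant ΛX hX zX hbX hΛX T hu0 hu1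
  obtain ⟨thY, EfY, hY0, hY1, hYnl, hYb, hYE, hYc⟩ := quant ΛY hY zY hbY hΛY (T + i0) hu0 hu1
  have hXt : thX ≠ ⊤ := ne_top_of_le_ne_top ENNReal.one_ne_top hX1
  have hYt : thY ≠ ⊤ := ne_top_of_le_ne_top ENNReal.one_ne_top hY1
  set cc : ℝ≥0∞ := ((i0 + 1) * (i0 + 1) : ℕ) * (2 * (C * lam)) with hcc
  set NN : ℝ≥0∞ := ((i0 + 1) * (i0 + 1) : ℕ) * (2 * (us / lam) / lam) with hNN
  have hthN : ∀ th : ℝ≥0∞, th ≠ 0 → th ≠ ⊤ →
      th * (((i0 + 1) * (i0 + 1) : ℕ) * (2 * (th⁻¹ * us / lam) / lam)) = NN := by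
    intro th h0 h1
    rw [hNN]
    simp only [div_eq_mul_inv]
    calc th * (((i0 + 1) * (i0 + 1) : ℕ) * (2 * (th⁻¹ * us * lam⁻¹) * lam⁻¹))
        = (th * th⁻¹) * (((i0 + 1) * (i0 + 1) : ℕ) * (2 * (us * lam⁻¹) * lam⁻¹)) := by ring
      _ = _ := by rw [ENNReal.mul_inv_cancel h0 h1, one_mul]
  obtain ⟨LcX, hLcX⟩ : ∃ Lc : Set (ℕ × G), ∀ k, k ∈ Lc ↔ thX ≤ pl ΛX hX zX T k :=
    ⟨{k | thX ≤ pl ΛX hX zX T k}, fun k => Iff.rfl⟩
  obtain ⟨LcY, hLcY⟩ : ∃ Lc : Set (ℕ × G), ∀ k, k ∈ Lc ↔ thY ≤ pl ΛY hY zY (T + i0) k :=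
    ⟨{k | thY ≤ pl ΛY hY zY (T + i0) k}, fun k => Iff.rfl⟩
  -- exceptional sets
  have hS2 : ∀ a a' : ℕ, ∃ S : Set G, (∑' x, (if x ∈ S then (1 : ℝ≥0∞) else 0)
      ≤ ((i0 + 1) * (i0 + 1) : ℕ) * (2 * (thX⁻¹ * us / lam) / lam)) ∧
      (L ≤ a → a ≤ L + i0 → L + i0 ≤ a' → a' ≤ L + i0 + i0 →
      ∀ x, ∑' Q, ∑' Q', (if fp hX T Q ∧ HT hX Q ≤ T + i0 ∧
        (HT hX Q, Dp zX Q) ∈ LcX ∧ fp hY (T + i0) Q' ∧
        HT hY Q' ≤ T + i0 + i0 ∧ Ev a a' x Q Q' then LW ΛX Q * LW ΛY Q' else 0)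
        ≤ cc + (if x ∈ S then 1 else 0)) := by
    intro a a'
    by_cases hr : L ≤ a ∧ a ≤ L + i0 ∧ L + i0 ≤ a' ∧ a' ≤ L + i0 + i0
    · obtain ⟨S, hS1, hS2⟩ := loc ΛX hX zX ΛY hY hbX hbY hΛX.le hΛY.le T (T + i0) i0
        LcX EfX (fun h y hh => hXE h y ((hLcX _).1 hh)) thX⁻¹ hXc
        (fun x Q Q' => Ev a a' x Q Q') C lam us hC0 hCt hl0 hlt hus
        (HH2 a a' hr.1 hr.2.1 hr.2.2.1 hr.2.2.2)
      exact ⟨S, hS1, fun _ _ _ _ => hS2⟩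
    · refine ⟨∅, by simp, fun h1 h2 h3 h4 => absurd ⟨h1, h2, h3, h4⟩ hr⟩
  choose S2 hS2c hS2b using hS2
  have hS3 : ∀ a a' : ℕ, ∃ S : Set G, (∑' x, (if x ∈ S then (1 : ℝ≥0∞) else 0)
      ≤ ((i0 + 1) * (i0 + 1) : ℕ) * (2 * (thY⁻¹ * us / lam) / lam)) ∧
      (L ≤ a → a ≤ L + i0 → L + i0 ≤ a' → a' ≤ L + i0 + i0 →
      ∀ x, ∑' Q', ∑' Q, (if fp hY (T + i0) Q' ∧ HT hY Q' ≤ T + i0 + i0 ∧
        (HT hY Q', Dp zY Q') ∈ LcY ∧ fp hX T Q ∧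
        HT hX Q ≤ T + i0 ∧ Ev a a' x Q Q' then LW ΛY Q' * LW ΛX Q else 0)
        ≤ cc + (if x ∈ S then 1 else 0)) := by
    intro a a'
    by_cases hr : L ≤ a ∧ a ≤ L + i0 ∧ L + i0 ≤ a' ∧ a' ≤ L + i0 + i0
    · obtain ⟨S, hS1, hS2⟩ := loc ΛY hY zY ΛX hX hbY hbX hΛY.le hΛX.le (T + i0) T i0
        LcY EfY (fun h y hh => hYE h y ((hLcY _).1 hh)) thY⁻¹ hYc
        (fun x Q' Q => Ev a a' x Q Q') C lam us hC0 hCt hl0 hlt hus
        (fun h' h => HH3 a a' hr.1 hr.2.1 hr.2.2.1 hr.2.2.2 h h')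
      exact ⟨S, hS1, fun _ _ _ _ => hS2⟩
    · refine ⟨∅, by simp, fun h1 h2 h3 h4 => absurd ⟨h1, h2, h3, h4⟩ hr⟩
  choose S3 hS3c hS3b using hS3
  -- the inner sum
  have hin : ∀ (a a' : ℕ) (x : G), L ≤ a → a ≤ L + i0 → L + i0 ≤ a' → a' ≤ L + i0 + i0 →
      ∑' Q, ∑' Q', (if fp hX T Q ∧ HT hX Q ≤ T + i0 ∧ fp hY (T + i0) Q' ∧
        HT hY Q' ≤ T + i0 + i0 ∧ Ev a a' x Q Q' then LW ΛX Q * LW ΛY Q' else 0)
      ≤ (u * u + 2 * cc) + (if x ∈ S3 a a' then 1 else 0) + (if x ∈ S2 a a' then 1 else 0) := by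
    intro a a' x r1 r2 r3 r4
    have hsum : ∑' Q, ∑' Q', (if fp hX T Q ∧ HT hX Q ≤ T + i0 ∧ fp hY (T + i0) Q' ∧
        HT hY Q' ≤ T + i0 + i0 ∧ Ev a a' x Q Q' then LW ΛX Q * LW ΛY Q' else 0)
        ≤ ∑' Q, ∑' Q', (if fp hX T Q ∧ HT hX Q ≤ T + i0 ∧
          (HT hX Q, Dp zX Q) ∈ LcX ∧ fp hY (T + i0) Q' ∧
          HT hY Q' ≤ T + i0 + i0 ∧ Ev a a' x Q Q' then LW ΛX Q * LW ΛY Q' else 0)
        + ∑' Q, ∑' Q', (if fp hY (T + i0) Q' ∧ HT hY Q' ≤ T + i0 + i0 ∧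
          (HT hY Q', Dp zY Q') ∈ LcY ∧ fp hX T Q ∧
          HT hX Q ≤ T + i0 ∧ Ev a a' x Q Q' then LW ΛY Q' * LW ΛX Q else 0)
        + ∑' Q, ∑' Q', (if fp hX T Q ∧ pl ΛX hX zX T (HT hX Q, Dp zX Q) < thX then LW ΛX Q else 0)
          * (if fp hY (T + i0) Q' ∧ pl ΛY hY zY (T + i0) (HT hY Q', Dp zY Q') < thY then
            LW ΛY Q' else 0) := by
      rw [← ENNReal.tsum_add, ← ENNReal.tsum_add]
      refine ENNReal.tsum_le_tsum fun Q => ?_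
      rw [← ENNReal.tsum_add, ← ENNReal.tsum_add]
      refine ENNReal.tsum_le_tsum fun Q' => ?_
      by_cases hc : fp hX T Q ∧ HT hX Q ≤ T + i0 ∧ fp hY (T + i0) Q' ∧
        HT hY Q' ≤ T + i0 + i0 ∧ Ev a a' x Q Q'
      · obtain ⟨c1, c2, c3, c4, c5⟩ := hc
        rw [if_pos ⟨c1, c2, c3, c4, c5⟩]
        by_cases hx : thX ≤ pl ΛX hX zX T (HT hX Q, Dp zX Q)
        · refine le_trans ?_ (le_trans le_self_add le_self_add)
          rw [if_pos ⟨c1, c2, (hLcX _).2 hx, c3, c4, c5⟩]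
        · by_cases hy : thY ≤ pl ΛY hY zY (T + i0) (HT hY Q', Dp zY Q')
          · refine le_trans ?_ (le_trans le_add_self le_self_add)
            rw [if_pos ⟨c3, c4, (hLcY _).2 hy, c1, c2, c5⟩, mul_comm]
          · refine le_trans ?_ le_add_self
            rw [if_pos ⟨c1, not_le.1 hx⟩, if_pos ⟨c3, not_le.1 hy⟩]
      · rw [if_neg hc]; exact zero_le
    refine hsum.trans ?_
    have h1 := hS2b a a' r1 r2 r3 r4 x
    have h2 := hS3b a a' r1 r2 r3 r4 x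
    rw [ENNReal.tsum_comm] at h2
    have h3 : ∑' Q, ∑' Q', (if fp hX T Q ∧ pl ΛX hX zX T (HT hX Q, Dp zX Q) < thX then LW ΛX Q else 0)
          * (if fp hY (T + i0) Q' ∧ pl ΛY hY zY (T + i0) (HT hY Q', Dp zY Q') < thY then
            LW ΛY Q' else 0) ≤ u * u := by
      calc _ = (∑' Q, (if fp hX T Q ∧ pl ΛX hX zX T (HT hX Q, Dp zX Q) < thX then LW ΛX Q else 0))
          * ∑' Q', (if fp hY (T + i0) Q' ∧ pl ΛY hY zY (T + i0) (HT hY Q', Dp zY Q') < thY then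
            LW ΛY Q' else 0) := by
            rw [← ENNReal.tsum_mul_right]
            exact tsum_congr fun Q => ENNReal.tsum_mul_left
        _ ≤ _ := mul_le_mul' hXnl hYnl
    calc _ ≤ (cc + (if x ∈ S2 a a' then 1 else 0)) + (cc + (if x ∈ S3 a a' then 1 else 0)) + u * u :=
          add_le_add (add_le_add h1 h2) h3
      _ = _ := by rw [two_mul]; ring
  -- sum over the top parts
  set A : List BX → ℝ≥0∞ := fun P => if fp hX L P then LW ΛX P else 0 with hA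
  set A' : List BY → ℝ≥0∞ := fun P' => if fp hY (L + i0) P' then LW ΛY P' else 0 with hA'
  have hAs : ∑' P, A P = 1 := fp_mass ΛX hX hbX hΛX L
  have hAs' : ∑' P', A' P' = 1 := fp_mass ΛY hY hbY hΛY (L + i0)
  have hpt : ∀ P P', (if fp hX L P ∧ HT hX P ≤ L + i0 ∧ fp hY (L + i0) P' ∧ HT hY P' ≤ L + i0 + i0 then
      LW ΛX P * LW ΛY P' * ∑' Q, ∑' Q', (if fp hX T Q ∧ HT hX Q ≤ T + i0 ∧ fp hY (T + i0) Q' ∧
        HT hY Q' ≤ T + i0 + i0 ∧ Ev (HT hX P) (HT hY P') (w + Dp zY P' - Dp zX P) Q Q' then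
        LW ΛX Q * LW ΛY Q' else 0) else 0)
      ≤ A P * (A' P' * (u * u + 2 * cc))
        + A P * (A' P' * (if w + Dp zY P' - Dp zX P ∈ S3 (HT hX P) (HT hY P') then 1 else 0))
        + A' P' * (A P * (if w + Dp zY P' - Dp zX P ∈ S2 (HT hX P) (HT hY P') then 1 else 0)) := by
    intro P P'
    by_cases hc : fp hX L P ∧ HT hX P ≤ L + i0 ∧ fp hY (L + i0) P' ∧ HT hY P' ≤ L + i0 + i0
    · rw [if_pos hc]
      simp only [hA, hA']
      rw [if_pos hc.1, if_pos hc.2.2.1]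
      refine (mul_le_mul_right (hin (HT hX P) (HT hY P') _ (le_HT_of_fp hX hc.1) hc.2.1
        (le_HT_of_fp hY hc.2.2.1) hc.2.2.2) _).trans (le_of_eq ?_)
      ring
    · rw [if_neg hc]; exact zero_le
  refine (ENNReal.tsum_le_tsum fun P => ENNReal.tsum_le_tsum fun P' => hpt P P').trans ?_
  have hsp : ∑' P, ∑' P', (A P * (A' P' * (u * u + 2 * cc))
        + A P * (A' P' * (if w + Dp zY P' - Dp zX P ∈ S3 (HT hX P) (HT hY P') then 1 else 0))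
        + A' P' * (A P * (if w + Dp zY P' - Dp zX P ∈ S2 (HT hX P) (HT hY P') then 1 else 0)))
      = ∑' P, ∑' P', A P * (A' P' * (u * u + 2 * cc))
        + ∑' P, A P * ∑' P', (A' P' * (if w + Dp zY P' - Dp zX P ∈ S3 (HT hX P) (HT hY P') then 1 else 0))
        + ∑' P', A' P' * ∑' P, (A P * (if w + Dp zY P' - Dp zX P ∈ S2 (HT hX P) (HT hY P') then 1 else 0)) := by
    simp only [ENNReal.tsum_add, ENNReal.tsum_mul_left]
    congr 1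
    rw [ENNReal.tsum_comm]
    simp only [ENNReal.tsum_mul_left]
  rw [hsp]
  set BB : ℝ≥0∞ := (1 - u) ^ J + J * (e + (i0 + 1 : ℕ) * NN) with hBB
  have t1 : ∑' P, ∑' P', A P * (A' P' * (u * u + 2 * cc)) = u * u + 2 * cc := by
    simp only [ENNReal.tsum_mul_left, ENNReal.tsum_mul_right, hAs, hAs', one_mul]
  have t2 : ∑' P, A P * ∑' P', (A' P' *
      (if w + Dp zY P' - Dp zX P ∈ S3 (HT hX P) (HT hY P') then 1 else 0)) ≤ BB := by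
    calc _ ≤ ∑' P, A P * BB := by
          refine ENNReal.tsum_le_tsum fun P => mul_le_mul_right ?_ _
          have := Hit12.hit ΛY hY zY hbY hΛY.le (T + i0) i0 thY (1 - u) e _ tsub_le_self
            (pl ΛY hY zY (T + i0)) (fun k => rfl) hYb heY J (L + i0) hJY
            (fun k => {y | w + y - Dp zX P ∈ S3 (HT hX P) k}) (fun k => by
              refine le_trans (le_of_eq ?_) (hS3c (HT hX P) k)
              have := ((Equiv.addLeft w).trans (Equiv.subRight (Dp zX P))).tsum_eq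
                (fun x => if x ∈ S3 (HT hX P) k then (1 : ℝ≥0∞) else 0)
              exact this)
          rw [hthN thY hY0 hYt] at this
          refine le_trans (le_of_eq ?_) this
          refine tsum_congr fun P' => ?_
          simp only [hA', Set.mem_ofPred_eq]
          by_cases h : fp hY (L + i0) P'
          · rw [if_pos h, if_pos h]
          · rw [if_neg h, if_neg h, zero_mul]
      _ = BB := by rw [ENNReal.tsum_mul_right, hAs, one_mul]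
  have t3 : ∑' P', A' P' * ∑' P, (A P *
      (if w + Dp zY P' - Dp zX P ∈ S2 (HT hX P) (HT hY P') then 1 else 0)) ≤ BB := by
    calc _ ≤ ∑' P', A' P' * BB := by
          refine ENNReal.tsum_le_tsum fun P' => mul_le_mul_right ?_ _
          have := Hit12.hit ΛX hX zX hbX hΛX.le T i0 thX (1 - u) e _ tsub_le_self
            (pl ΛX hX zX T) (fun k => rfl) hXb heX J L hJX
            (fun k => {y | w + Dp zY P' - y ∈ S2 k (HT hY P')}) (fun k => by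
              refine le_trans (le_of_eq ?_) (hS2c k (HT hY P'))
              have := (Equiv.subLeft (w + Dp zY P')).tsum_eq
                (fun x => if x ∈ S2 k (HT hY P') then (1 : ℝ≥0∞) else 0)
              exact this)
          rw [hthN thX hX0 hXt] at this
          refine le_trans (le_of_eq ?_) this
          refine tsum_congr fun P => ?_
          simp only [hA, Set.mem_ofPred_eq]
          by_cases h : fp hX L P
          · rw [if_pos h, if_pos h]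
          · rw [if_neg h, if_neg h, zero_mul]
      _ = BB := by rw [ENNReal.tsum_mul_right, hAs', one_mul]
  calc _ ≤ (u * u + 2 * cc) + BB + BB := add_le_add (add_le_add t1.le t2) t3
    _ = _ := by rw [two_mul BB]; ring

end Crest.Agent.R154.AsmC12
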