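import Crest.Agent.R154.AsmB_129

/-! Row 154, KAPPA' (801 #38888): one window (helper129). -/

set_option autoImplicit false

namespace Crest.Agent.R154.Asm129

open scoped ENNReal
open Crest.Agent.R154.B5A
open Classical

variable {BX BY G : Type*} [AddCommGroup G]

/-- smooth part + bad part on one side -/
lemma pair_sum (f g : ℕ × G → ℝ≥0∞) (hf : ∑' x, f x ≤ 1) (hg : ∑' x, g x ≤ 1) (M δ : ℝ≥0∞)
    (h : (∃ b : ℕ × G → ℝ≥0∞, ∑' x, b x ≤ δ ∧ ∀ x, f x ≤ M + b x) ∨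
      (∃ b : ℕ × G → ℝ≥0∞, ∑' x, b x ≤ δ ∧ ∀ x, g x ≤ M + b x))
    (i0 : ℕ) (K : ℕ → ℕ → G → ℝ≥0∞) (hK1 : ∀ i i' x, K i i' x ≤ 1)
    (hK0 : ∀ i i' x, ¬ (i ≤ i0 ∧ i' ≤ i0) → K i i' x = 0) (κ : ℝ≥0∞)
    (hK : ∀ i i', i ≤ i0 → i' ≤ i0 → ∀ μ : G → ℝ≥0∞, ∑' x, μ x ≤ 1 → (∀ x, μ x ≤ M) →
      ∑' x, μ x * K i i' x ≤ κ) (w : G) :
    ∑' x : ℕ × G, ∑' x' : ℕ × G, f x * g x' * K x.1 x'.1 (w + x'.2 - x.2)
      ≤ ((i0 + 1 : ℕ) : ℝ≥0∞) * ((i0 + 1 : ℕ) * κ) + δ := by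
  rcases h with ⟨b, hb, hfb⟩ | ⟨b, hb, hgb⟩
  · have h1 : ∀ x, f x ≤ min (f x) M + b x := by
      intro x
      rcases le_total (f x) M with h | h
      · rw [min_eq_left h]; exact le_self_add
      · rw [min_eq_right h]; exact hfb x
    calc ∑' x : ℕ × G, ∑' x' : ℕ × G, f x * g x' * K x.1 x'.1 (w + x'.2 - x.2)
        ≤ ∑' x : ℕ × G, (∑' x' : ℕ × G, min (f x) M * g x' * K x.1 x'.1 (w + x'.2 - x.2)
          + b x) := by
          refine ENNReal.tsum_le_tsum fun x => ?_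
          calc ∑' x' : ℕ × G, f x * g x' * K x.1 x'.1 (w + x'.2 - x.2)
              ≤ ∑' x' : ℕ × G, (min (f x) M * g x' * K x.1 x'.1 (w + x'.2 - x.2)
                + b x * g x') := by
                refine ENNReal.tsum_le_tsum fun x' => ?_
                calc f x * g x' * K x.1 x'.1 (w + x'.2 - x.2)
                    ≤ (min (f x) M + b x) * g x' * K x.1 x'.1 (w + x'.2 - x.2) :=
                      mul_le_mul_left (mul_le_mul_left (h1 x) _) _
                  _ = min (f x) M * g x' * K x.1 x'.1 (w + x'.2 - x.2)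
                      + b x * g x' * K x.1 x'.1 (w + x'.2 - x.2) := by ring
                  _ ≤ _ := by
                      refine add_le_add le_rfl ?_
                      calc b x * g x' * K x.1 x'.1 (w + x'.2 - x.2) ≤ b x * g x' * 1 :=
                            mul_le_mul_right (hK1 _ _ _) _
                        _ = _ := mul_one _
            _ ≤ _ := by
                rw [ENNReal.tsum_add, ENNReal.tsum_mul_left]
                refine add_le_add le_rfl ?_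
                calc b x * _ ≤ b x * 1 := mul_le_mul_right hg _
                  _ = _ := mul_one _
      _ = _ := ENNReal.tsum_add
      _ ≤ _ := by
          refine add_le_add (dens_pair (fun x => min (f x) M) g
            ((ENNReal.tsum_le_tsum fun x => min_le_left _ _).trans hf) hg M
            (Or.inl fun x => min_le_right _ _) i0 K hK0 κ hK w) hb
  · have h1 : ∀ x, g x ≤ min (g x) M + b x := by
      intro x
      rcases le_total (g x) M with h | h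
      · rw [min_eq_left h]; exact le_self_add
      · rw [min_eq_right h]; exact hgb x
    calc ∑' x : ℕ × G, ∑' x' : ℕ × G, f x * g x' * K x.1 x'.1 (w + x'.2 - x.2)
        ≤ ∑' x : ℕ × G, (∑' x' : ℕ × G, f x * min (g x') M * K x.1 x'.1 (w + x'.2 - x.2)
          + f x * δ) := by
          refine ENNReal.tsum_le_tsum fun x => ?_
          calc ∑' x' : ℕ × G, f x * g x' * K x.1 x'.1 (w + x'.2 - x.2)
              ≤ ∑' x' : ℕ × G, (f x * min (g x') M * K x.1 x'.1 (w + x'.2 - x.2)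
                + f x * b x') := by
                refine ENNReal.tsum_le_tsum fun x' => ?_
                calc f x * g x' * K x.1 x'.1 (w + x'.2 - x.2)
                    ≤ f x * (min (g x') M + b x') * K x.1 x'.1 (w + x'.2 - x.2) :=
                      mul_le_mul_left (mul_le_mul_right (h1 x') _) _
                  _ = f x * min (g x') M * K x.1 x'.1 (w + x'.2 - x.2)
                      + f x * b x' * K x.1 x'.1 (w + x'.2 - x.2) := by ring
                  _ ≤ _ := by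
                      refine add_le_add le_rfl ?_
                      calc f x * b x' * K x.1 x'.1 (w + x'.2 - x.2) ≤ f x * b x' * 1 :=
                            mul_le_mul_right (hK1 _ _ _) _
                        _ = _ := mul_one _
            _ ≤ _ := by
                rw [ENNReal.tsum_add, ENNReal.tsum_mul_left]
                exact add_le_add le_rfl (mul_le_mul_right hb _)
      _ = _ := ENNReal.tsum_add
      _ ≤ _ := by
          refine add_le_add (dens_pair f (fun x => min (g x) M) hf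
            ((ENNReal.tsum_le_tsum fun x => min_le_left _ _).trans hg) M
            (Or.inr fun x => min_le_right _ _) i0 K hK0 κ hK w) ?_
          rw [ENNReal.tsum_mul_right]
          calc _ ≤ 1 * δ := mul_le_mul_left hf _
            _ = δ := one_mul _

variable (ΛX : BX → ℝ≥0∞) (hX : BX → ℕ) (zX : BX → G)
  (ΛY : BY → ℝ≥0∞) (hY : BY → ℕ) (zY : BY → G)
  (Ct : ℕ → ℕ → G → List BX → List BY → Set ℕ)

/-- X local -/
def H2 (C : ℝ≥0∞) (us : ℕ → ℝ≥0∞) : Prop :=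
  ∀ (s h h' a a' : ℕ) (E : Finset G) (μ : G → ℝ≥0∞) (M lam : ℝ≥0∞),
    ∑' x, μ x ≤ 1 → (∀ x, μ x ≤ M) → lam ≠ 0 → lam ≠ ⊤ → a ≤ a' →
    ∑' x, μ x * ∑' L, ∑' L', (if HT hX L = h ∧ HT hY L' = h' ∧ Dp zX L ∈ E ∧
      (Ct a a' x L L').Nonempty ∧ (∀ k ∈ Ct a a' x L L', a' + s ≤ k)
      then LW ΛX L * LW ΛY L' else 0) ≤ C * (lam + M * E.card * us s / lam + us s)

/-- Y local -/
def H3 (C : ℝ≥0∞) (us : ℕ → ℝ≥0∞) : Prop :=
  ∀ (s h h' a a' : ℕ) (E : Finset G) (μ : G → ℝ≥0∞) (M lam : ℝ≥0∞),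
    ∑' x, μ x ≤ 1 → (∀ x, μ x ≤ M) → lam ≠ 0 → lam ≠ ⊤ → a + h ≤ a' + h' →
    ∑' x, μ x * ∑' L, ∑' L', (if HT hX L = h ∧ HT hY L' = h' ∧ Dp zY L' ∈ E ∧
      (Ct a a' x L L').Nonempty ∧ (∀ k ∈ Ct a a' x L L', k + s ≤ a + h)
      then LW ΛX L * LW ΛY L' else 0) ≤ C * (lam + M * E.card * us s / lam + us s)

/-- thin slab -/
def H5 : Prop :=
  ∀ (s : ℕ) (η : ℝ≥0∞), η ≠ 0 → ∃ T0 : ℕ, ∀ a, T0 ≤ a → ∀ n, a + s ≤ n → ∀ w,
    ∑' L, ∑' L', (if HT hX L = n ∧ HT hY L' = n ∧ (∃ k ∈ Ct 0 0 w L L', a < k ∧ k ≤ a + s)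
      then LW ΛX L * LW ΛY L' else 0) ≤ η

lemma fssum (D D' T i0 : ℕ) (w : G) (p : ℕ → ℕ → G → List BX → List BY → Prop) :
    FS ΛX hX D (fun A => FS ΛX hX T (fun P => FS ΛY hY D' (fun A' => FS ΛY hY T (fun P' =>
      if (HT hX A ≤ D + i0 ∧ HT hY A' ≤ D' + i0) ∧ ((HT hX P ≤ T + i0 ∧ HT hY P' ≤ T + i0) ∧
        p (HT hX A) (HT hY A') (w + Dp zY A' - Dp zX A) P P') then 1 else 0))))
    = ∑' x : ℕ × G, ∑' x' : ℕ × G, fl ΛX hX zX D x * fl ΛY hY zY D' x' *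
      (if x.1 ≤ i0 ∧ x'.1 ≤ i0 then FS ΛX hX T (fun P => FS ΛY hY T (fun P' =>
        if (HT hX P ≤ T + i0 ∧ HT hY P' ≤ T + i0) ∧ p (D + x.1) (D' + x'.1)
          (w + x'.2 - x.2) P P' then 1 else 0)) else 0) := by
  have e0 : ∀ a a' y, FS ΛX hX T (fun P => FS ΛY hY T (fun P' =>
      if (a ≤ D + i0 ∧ a' ≤ D' + i0) ∧ ((HT hX P ≤ T + i0 ∧ HT hY P' ≤ T + i0) ∧
        p a a' y P P') then (1 : ℝ≥0∞) else 0))
      = if a ≤ D + i0 ∧ a' ≤ D' + i0 then FS ΛX hX T (fun P => FS ΛY hY T (fun P' =>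
        if (HT hX P ≤ T + i0 ∧ HT hY P' ≤ T + i0) ∧ p a a' y P P' then 1 else 0)) else 0 := by
    intro a a' y
    by_cases h : a ≤ D + i0 ∧ a' ≤ D' + i0
    · rw [if_pos h]; simp only [h, true_and, and_self]
    · rw [if_neg h]; simp only [h, false_and, if_false]
      simp [FS]
  have e1 : ∀ A, FS ΛX hX T (fun P => FS ΛY hY D' (fun A' => FS ΛY hY T (fun P' =>
      if (HT hX A ≤ D + i0 ∧ HT hY A' ≤ D' + i0) ∧ ((HT hX P ≤ T + i0 ∧ HT hY P' ≤ T + i0) ∧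
        p (HT hX A) (HT hY A') (w + Dp zY A' - Dp zX A) P P') then (1 : ℝ≥0∞) else 0)))
      = ∑' x' : ℕ × G, fl ΛY hY zY D' x' *
      (if HT hX A ≤ D + i0 ∧ D' + x'.1 ≤ D' + i0 then FS ΛX hX T (fun P => FS ΛY hY T (fun P' =>
        if (HT hX P ≤ T + i0 ∧ HT hY P' ≤ T + i0) ∧ p (HT hX A) (D' + x'.1)
          (w + x'.2 - Dp zX A) P P' then 1 else 0)) else 0) := by
    intro A
    rw [FS_comm ΛX hX ΛY hY T D' (fun P A' => FS ΛY hY T (fun P' =>
      if (HT hX A ≤ D + i0 ∧ HT hY A' ≤ D' + i0) ∧ ((HT hX P ≤ T + i0 ∧ HT hY P' ≤ T + i0) ∧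
        p (HT hX A) (HT hY A') (w + Dp zY A' - Dp zX A) P P') then (1 : ℝ≥0∞) else 0))]
    simp only [e0]
    exact FS_push ΛY hY zY D' (fun a' y => if HT hX A ≤ D + i0 ∧ a' ≤ D' + i0 then
      FS ΛX hX T (fun P => FS ΛY hY T (fun P' =>
        if (HT hX P ≤ T + i0 ∧ HT hY P' ≤ T + i0) ∧ p (HT hX A) a'
          (w + y - Dp zX A) P P' then 1 else 0)) else 0)
  simp only [e1]
  rw [FS_push ΛX hX zX D (fun a y => ∑' x' : ℕ × G, fl ΛY hY zY D' x' *
      (if a ≤ D + i0 ∧ D' + x'.1 ≤ D' + i0 then FS ΛX hX T (fun P => FS ΛY hY T (fun P' =>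
        if (HT hX P ≤ T + i0 ∧ HT hY P' ≤ T + i0) ∧ p a (D' + x'.1)
          (w + x'.2 - y) P P' then 1 else 0)) else 0))]
  refine tsum_congr fun x => ?_
  rw [← ENNReal.tsum_mul_left]
  refine tsum_congr fun x' => ?_
  rw [mul_assoc]
  simp only [add_le_add_iff_left]

lemma FS2_le_one (h1X : ∀ b, 1 ≤ hX b) (h1Y : ∀ b, 1 ≤ hY b) (hΛX : ∑' b, ΛX b = 1)
    (hΛY : ∑' b, ΛY b = 1) (T T' : ℕ) (f : List BX → List BY → ℝ≥0∞) (hf : ∀ P P', f P P' ≤ 1) :
    FS ΛX hX T (fun P => FS ΛY hY T' (fun P' => f P P')) ≤ 1 := by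
  calc _ ≤ FS ΛX hX T (fun _ => FS ΛY hY T' (fun _ => 1)) :=
        FS_mono ΛX hX T fun P _ => FS_mono ΛY hY T' fun P' _ => hf P P'
    _ = 1 := by rw [FS_const ΛY hY h1Y hΛY, FS_const ΛX hX h1X hΛX]

/-- `κ`-bound from an `H`-type bound at fixed heights -/
lemma Kmu (T i0 : ℕ) (p : G → List BX → List BY → Prop) (β : ℝ≥0∞) (μ : G → ℝ≥0∞)
    (hβ : ∀ i i', i ≤ i0 → i' ≤ i0 → ∑' x, μ x * ∑' P, ∑' P',
      (if HT hX P = T + i ∧ HT hY P' = T + i' ∧ p x P P' then LW ΛX P * LW ΛY P' else 0) ≤ β) :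
    ∑' x, μ x * FS ΛX hX T (fun P => FS ΛY hY T (fun P' =>
      if (HT hX P ≤ T + i0 ∧ HT hY P' ≤ T + i0) ∧ p x P P' then 1 else 0))
      ≤ ((i0 + 1 : ℕ) : ℝ≥0∞) * ((i0 + 1 : ℕ) * β) := by
  calc _ ≤ ∑' x, μ x * ∑ i ∈ Finset.range (i0 + 1), ∑ i' ∈ Finset.range (i0 + 1), ∑' P, ∑' P',
      (if HT hX P = T + i ∧ HT hY P' = T + i' ∧ p x P P' then LW ΛX P * LW ΛY P' else 0) :=
        ENNReal.tsum_le_tsum fun x => mul_le_mul_right (Kbd ΛX hX ΛY hY T i0 (p x)) _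
    _ = ∑ i ∈ Finset.range (i0 + 1), ∑ i' ∈ Finset.range (i0 + 1), ∑' x, μ x * ∑' P, ∑' P',
      (if HT hX P = T + i ∧ HT hY P' = T + i' ∧ p x P P' then LW ΛX P * LW ΛY P' else 0) := by
        simp only [Finset.mul_sum]
        rw [Summable.tsum_finsetSum (fun _ _ => ENNReal.summable)]
        refine Finset.sum_congr rfl fun i _ => ?_
        rw [Summable.tsum_finsetSum (fun _ _ => ENNReal.summable)]
    _ ≤ ∑ i ∈ Finset.range (i0 + 1), ∑ i' ∈ Finset.range (i0 + 1), β := by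
        refine Finset.sum_le_sum fun i hi => Finset.sum_le_sum fun i' hi' => ?_
        rw [Finset.mem_range] at hi hi'
        exact hβ i i' (by omega) (by omega)
    _ = _ := by simp

end Crest.Agent.R154.Asm129
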