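import Crest.Agent.R154.AsmB_13

/-! Row 154 (helper13): one window of the assembly (ROAD 801), local / nonlocal pieces. -/

set_option autoImplicit false
set_option linter.unusedVariables false

namespace Crest.Agent.R154.Asm13

open Crest.Agent.R154.B5A Crest.Agent.R154.Mid562
open scoped ENNReal Classical

variable {BX BY G : Type*} [AddCommGroup G]
variable (ΛX : BX → ℝ≥0∞) (hX : BX → ℕ) (zX : BX → G) (ΛY : BY → ℝ≥0∞) (hY : BY → ℕ) (zY : BY → G)
variable {TX : List BX → G → ℕ → Set (G × ℕ)} {TY : List BY → G → ℕ → Set (G × ℕ)}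

lemma sh_add {B : Type*} {ht : B → ℕ} {z : B → G} {T : List B → G → ℕ → Set (G × ℕ)}
    (hT : IsTr ht z T) {L : List B} {x c : G} {a : ℕ} {q : G × ℕ} (h : q ∈ T L (x - c) a) :
    (q.1 + c, q.2) ∈ T L x a := by
  have := hT.sh L (x - c) a (-c) q.1 q.2 h
  rwa [sub_neg_eq_add, sub_neg_eq_add, sub_add_cancel] at this

lemma Ev_sh (hTX : IsTr hX zX TX) (hTY : IsTr hY zY TY) {lo hi : ℕ} {P : List BX} {P' : List BY}
    {x y c : G} {a b : ℕ} (h : Ev TX TY lo hi P P' x a y b) :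
    Ev TX TY lo hi P P' (x - c) a (y - c) b := by
  obtain ⟨⟨p, hp1, hp2⟩, hall⟩ := h
  refine ⟨⟨(p.1 - c, p.2), hTX.sh _ _ _ _ _ _ hp1, hTY.sh _ _ _ _ _ _ hp2⟩, fun q hq hq' => ?_⟩
  exact hall (q.1 + c, q.2) (sh_add hTX hq) (sh_add hTY hq')

lemma Ev_zero (hTX : IsTr hX zX TX) (hTY : IsTr hY zY TY) {lo hi : ℕ} {P : List BX} {P' : List BY}
    {x y : G} {a b : ℕ} (h : Ev TX TY lo hi P P' x a y b) :
    Ev TX TY lo hi P P' 0 a (y - x) b := by
  have := Ev_sh hX zX hY zY hTX hTY (c := x) h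
  rwa [sub_self] at this

/-- the four-fold sum -/
theorem window2 (h1X : ∀ b, 1 ≤ hX b) (hΛX : ∑' b, ΛX b = 1) (h1Y : ∀ b, 1 ≤ hY b)
    (hΛY : ∑' b, ΛY b = 1) (hTX : IsTr hX zX TX) (hTY : IsTr hY zY TY)
    (α τ i0 lo hi J : ℕ) (w : G) (thX thY u v η : ℝ≥0∞)
    (hnlX : ∑' x, (if thX ≤ pl ΛX hX zX τ x then 0 else pl ΛX hX zX τ x) ≤ u)
    (hnlY : ∑' x, (if thY ≤ pl ΛY hY zY (τ + i0) x then 0 else pl ΛY hY zY (τ + i0) x) ≤ u)
    (hv : v ≤ 1)
    (huvX : ∑' x, (if pl ΛX hX zX τ x ≤ 2 * thX then 0 else pl ΛX hX zX τ x) ≤ v)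
    (huvY : ∑' x, (if pl ΛY hY zY (τ + i0) x ≤ 2 * thY then 0 else pl ΛY hY zY (τ + i0) x) ≤ v)
    (hJ : (τ + 2 * i0) * J ≤ α)
    (FX : ∀ a a' h h', a ≤ i0 → a' ≤ i0 → h ≤ i0 → h' ≤ i0 → ∀ μ : G → ℝ≥0∞, ∑' x, μ x ≤ 1 →
      (∀ x, μ x ≤ (J : ℝ≥0∞) * ((i0 + 1 : ℕ) * (2 * thX))) →
      ∑' x, μ x * ∑' P, ∑' P', (if HT hX P = τ + h ∧ HT hY P' = τ + i0 + h' ∧
        thX ≤ pl ΛX hX zX τ (h, DG zX P) ∧ Ev TX TY lo hi P P' 0 (α + a) x (α + i0 + a')
        then LW ΛX P * LW ΛY P' else 0) ≤ η)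
    (FY : ∀ a a' h h', a ≤ i0 → a' ≤ i0 → h ≤ i0 → h' ≤ i0 → ∀ μ : G → ℝ≥0∞, ∑' x, μ x ≤ 1 →
      (∀ x, μ x ≤ (J : ℝ≥0∞) * ((i0 + 1 : ℕ) * (2 * thY))) →
      ∑' x, μ x * ∑' P, ∑' P', (if HT hX P = τ + h ∧ HT hY P' = τ + i0 + h' ∧
        thY ≤ pl ΛY hY zY (τ + i0) (h', DG zY P') ∧ Ev TX TY lo hi P P' 0 (α + a) x (α + i0 + a')
        then LW ΛX P * LW ΛY P' else 0) ≤ η) :
    FS ΛX hX α (fun A => FS ΛX hX τ (fun P => FS ΛY hY (α + i0) (fun A' =>
          FS ΛY hY (τ + i0) (fun P' => if HT hX A ≤ α + i0 ∧ HT hX P ≤ τ + i0 ∧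
            HT hY A' ≤ α + i0 + i0 ∧ HT hY P' ≤ τ + i0 + i0 ∧
            Ev TX TY lo hi P P' (DG zX A) (HT hX A) (w + DG zY A')
              (HT hY A') then 1 else 0))))
      ≤ u * u + (((v ^ J + J * ep ΛX hX i0) + ((i0 : ℝ≥0∞) + 1) ^ 3 * η)
        + ((v ^ J + J * ep ΛY hY i0) + ((i0 : ℝ≥0∞) + 1) ^ 3 * η)) := by
  set lX : List BX → Prop := fun P => thX ≤ pl ΛX hX zX τ (HT hX P - τ, DG zX P) with hlX
  set lY : List BY → Prop := fun P' => thY ≤ pl ΛY hY zY (τ + i0) (HT hY P' - (τ + i0), DG zY P')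
    with hlY
  set cc : List BX → List BX → List BY → List BY → Prop := fun A P A' P' =>
    HT hX A ≤ α + i0 ∧ HT hX P ≤ τ + i0 ∧ HT hY A' ≤ α + i0 + i0 ∧ HT hY P' ≤ τ + i0 + i0 ∧
      Ev TX TY lo hi P P' (DG zX A) (HT hX A) (w + DG zY A') (HT hY A') with hcc
  have hsplit : FS ΛX hX α (fun A => FS ΛX hX τ (fun P => FS ΛY hY (α + i0) (fun A' =>
          FS ΛY hY (τ + i0) (fun P' => if cc A P A' P' then (1 : ℝ≥0∞) else 0))))
      ≤ FS ΛX hX α (fun A => FS ΛX hX τ (fun P => FS ΛY hY (α + i0) (fun A' =>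
          FS ΛY hY (τ + i0) (fun P' => (if lX P then 0 else 1) * (if lY P' then 0 else 1)))))
        + (FS ΛX hX α (fun A => FS ΛX hX τ (fun P => FS ΛY hY (α + i0) (fun A' =>
          FS ΛY hY (τ + i0) (fun P' => if lX P ∧ cc A P A' P' then (1 : ℝ≥0∞) else 0))))
        + FS ΛX hX α (fun A => FS ΛX hX τ (fun P => FS ΛY hY (α + i0) (fun A' =>
          FS ΛY hY (τ + i0) (fun P' => if lY P' ∧ cc A P A' P' then (1 : ℝ≥0∞) else 0))))) := by
    simp only [← FS_add]
    refine FS_mono ΛX hX fun A _ => FS_mono ΛX hX fun P _ => FS_mono ΛY hY fun A' _ =>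
      FS_mono ΛY hY fun P' _ => ?_
    by_cases h1 : cc A P A' P'
    · by_cases h2 : lX P
      · rw [if_pos h1, if_pos (show lX P ∧ cc A P A' P' from ⟨h2, h1⟩)]
        exact le_trans le_self_add le_add_self
      · by_cases h3 : lY P'
        · rw [if_pos h1, if_pos (show lY P' ∧ cc A P A' P' from ⟨h3, h1⟩)]
          exact le_trans le_add_self le_add_self
        · rw [if_pos h1, if_neg h2, if_neg h3, one_mul]
          exact le_self_add
    · rw [if_neg h1]; exact zero_le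
  refine hsplit.trans (add_le_add ?_ (add_le_add ?_ ?_))
  · -- both nonlocal
    have e1 : ∀ P : List BX, FS ΛY hY (α + i0) (fun A' =>
          FS ΛY hY (τ + i0) (fun P' => (if lX P then 0 else 1) * (if lY P' then 0 else (1:ℝ≥0∞))))
        = FS ΛY hY (τ + i0) (fun P' => if lY P' then 0 else (1:ℝ≥0∞)) * (if lX P then 0 else 1) := by
      intro P
      rw [FS_const ΛY hY h1Y hΛY, FS_mul_left, mul_comm]
    have e2 : FS ΛX hX τ (fun P => FS ΛY hY (α + i0) (fun A' =>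
          FS ΛY hY (τ + i0) (fun P' => (if lX P then 0 else 1) * (if lY P' then 0 else (1:ℝ≥0∞)))))
        = FS ΛY hY (τ + i0) (fun P' => if lY P' then 0 else (1:ℝ≥0∞)) *
          FS ΛX hX τ (fun P => if lX P then 0 else (1:ℝ≥0∞)) := by
      simp only [e1]
      rw [FS_mul_left]
    rw [e2, FS_const ΛX hX h1X hΛX]
    have hYn : FS ΛY hY (τ + i0) (fun P' => if lY P' then 0 else (1:ℝ≥0∞)) ≤ u := by
      refine le_trans (le_of_eq ?_) hnlY
      rw [FS_law ΛY hY zY h1Y (τ + i0)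
        (fun x => if thY ≤ pl ΛY hY zY (τ + i0) x then 0 else (1:ℝ≥0∞))]
      refine tsum_congr fun x => ?_
      split_ifs <;> simp
    have hXn : FS ΛX hX τ (fun P => if lX P then 0 else (1:ℝ≥0∞)) ≤ u := by
      refine le_trans (le_of_eq ?_) hnlX
      rw [FS_law ΛX hX zX h1X τ
        (fun x => if thX ≤ pl ΛX hX zX τ x then 0 else (1:ℝ≥0∞))]
      refine tsum_congr fun x => ?_
      split_ifs <;> simp
    exact mul_le_mul' hYn hXn
  · -- `X` local
    have e1 : FS ΛX hX α (fun A => FS ΛX hX τ (fun P => FS ΛY hY (α + i0) (fun A' =>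
          FS ΛY hY (τ + i0) (fun P' => if lX P ∧ cc A P A' P' then (1 : ℝ≥0∞) else 0))))
        = FS ΛY hY (α + i0) (fun A' => FS ΛX hX α (fun A => FS ΛX hX τ (fun P =>
          FS ΛY hY (τ + i0) (fun P' => if lX P ∧ cc A P A' P' then (1 : ℝ≥0∞) else 0)))) := by
      rw [← FS_comm ΛX hX ΛY hY α (α + i0)]
      congr 1
      funext A
      rw [FS_comm ΛX hX ΛY hY τ (α + i0)]
    rw [e1]
    refine (FS_mono ΛY hY (F' := fun _ => (v ^ J + J * ep ΛX hX i0) + ((i0 : ℝ≥0∞) + 1) ^ 3 * η)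
      fun A' hA' => ?_).trans (FS_const ΛY hY h1Y hΛY _ _).le
    by_cases hgA' : HT hY A' ≤ α + i0 + i0
    · have hle' := FR_le hY h1Y hA'
      refine le_trans ?_ (locS ΛX hX zX ΛY hY h1X hΛX h1Y hΛY α τ (τ + i0) i0 J thX v η hv huvX
        (le_trans (Nat.mul_le_mul_right _ (by omega)) hJ)
        (fun a x P P' => Ev TX TY lo hi P P' x (α + a) (w + DG zY A') (HT hY A')) ?_)
      · refine FS_mono ΛX hX fun A hA => ?_
        have hle := FR_le hX h1X hA
        by_cases hgA : HT hX A ≤ α + i0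
        · rw [if_pos hgA]
          refine FS_mono ΛX hX fun P _ => FS_mono ΛY hY fun P' _ => ?_
          by_cases h1 : lX P ∧ cc A P A' P'
          · rw [if_pos h1, if_pos]
            obtain ⟨g1, g2, g3, g4, g5, g6⟩ := h1
            refine ⟨g3, g5, g1, ?_⟩
            rwa [show α + (HT hX A - α) = HT hX A by omega]
          · rw [if_neg h1]; exact zero_le
        · rw [if_neg hgA]
          have : ∀ P P', ¬ (lX P ∧ cc A P A' P') := fun P P' h => hgA h.2.1
          simp only [this, if_false]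
          simp [FS]
      · intro a ha h hh h' hh' μ hμ1 hμM
        set c := w + DG zY A' with hc
        refine le_trans ?_ (FX a (HT hY A' - (α + i0)) h h' ha (by omega) hh hh'
          (fun x => μ (c - x)) (((Equiv.subLeft c).tsum_eq μ).le.trans hμ1) (fun x => hμM _))
        rw [← (Equiv.subLeft c).tsum_eq (fun x => μ x * ∑' P, ∑' P', (if HT hX P = τ + h ∧
          HT hY P' = τ + i0 + h' ∧ thX ≤ pl ΛX hX zX τ (h, DG zX P) ∧
          Ev TX TY lo hi P P' x (α + a) c (HT hY A') then LW ΛX P * LW ΛY P' else 0))]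
        refine ENNReal.tsum_le_tsum fun x => ?_
        rw [Equiv.subLeft_apply]
        refine mul_le_mul_right (ENNReal.tsum_le_tsum fun P => ENNReal.tsum_le_tsum fun P' => ?_) _
        by_cases h1 : HT hX P = τ + h ∧ HT hY P' = τ + i0 + h' ∧
          thX ≤ pl ΛX hX zX τ (h, DG zX P) ∧ Ev TX TY lo hi P P' (c - x) (α + a) c (HT hY A')
        · rw [if_pos h1, if_pos]
          refine ⟨h1.1, h1.2.1, h1.2.2.1, ?_⟩
          have h2 := Ev_zero hX zX hY zY hTX hTY h1.2.2.2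
          rw [sub_sub_cancel] at h2
          rwa [show α + i0 + (HT hY A' - (α + i0)) = HT hY A' by omega]
        · rw [if_neg h1]; exact zero_le
    · have : ∀ A P P', ¬ (lX P ∧ cc A P A' P') := fun A P P' h => hgA' h.2.2.2.1
      simp only [this, if_false]
      simp [FS]
  · -- `Y` local
    have e1 : FS ΛX hX α (fun A => FS ΛX hX τ (fun P => FS ΛY hY (α + i0) (fun A' =>
          FS ΛY hY (τ + i0) (fun P' => if lY P' ∧ cc A P A' P' then (1 : ℝ≥0∞) else 0))))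
        = FS ΛX hX α (fun A => FS ΛY hY (α + i0) (fun A' => FS ΛY hY (τ + i0) (fun P' =>
          FS ΛX hX τ (fun P => if lY P' ∧ cc A P A' P' then (1 : ℝ≥0∞) else 0)))) := by
      congr 1
      funext A
      rw [FS_comm ΛX hX ΛY hY τ (α + i0)]
      congr 1
      funext A'
      rw [FS_comm ΛX hX ΛY hY τ (τ + i0)]
    rw [e1]
    refine (FS_mono ΛX hX (F' := fun _ => (v ^ J + J * ep ΛY hY i0) + ((i0 : ℝ≥0∞) + 1) ^ 3 * η)
      fun A hA => ?_).trans (FS_const ΛX hX h1X hΛX _ _).le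
    by_cases hgA : HT hX A ≤ α + i0
    · have hle := FR_le hX h1X hA
      refine le_trans ?_ (locS ΛY hY zY ΛX hX h1Y hΛY h1X hΛX (α + i0) (τ + i0) τ i0 J thY v η hv
        huvY (le_trans (Nat.mul_le_mul_right _ (by omega)) (hJ.trans (by omega)))
        (fun a x P' P => Ev TX TY lo hi P P' (DG zX A) (HT hX A) (w + x) (α + i0 + a)) ?_)
      · refine FS_mono ΛY hY fun A' hA' => ?_
        have hle' := FR_le hY h1Y hA'
        by_cases hgA' : HT hY A' ≤ α + i0 + i0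
        · rw [if_pos hgA']
          refine FS_mono ΛY hY fun P' _ => FS_mono ΛX hX fun P _ => ?_
          by_cases h1 : lY P' ∧ cc A P A' P'
          · rw [if_pos h1, if_pos]
            obtain ⟨g1, g2, g3, g4, g5, g6⟩ := h1
            refine ⟨g5, g3, g1, ?_⟩
            rwa [show α + i0 + (HT hY A' - (α + i0)) = HT hY A' by omega]
          · rw [if_neg h1]; exact zero_le
        · rw [if_neg hgA']
          have : ∀ P P', ¬ (lY P' ∧ cc A P A' P') := fun P P' h => hgA' h.2.2.2.1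
          simp only [this, if_false]
          simp [FS]
      · intro a ha h hh h' hh' μ hμ1 hμM
        set c := w - DG zX A with hc
        refine le_trans ?_ (FY (HT hX A - α) a h' h (by omega) ha hh' hh
          (fun x => μ (x - c)) (((Equiv.subRight c).tsum_eq μ).le.trans hμ1) (fun x => hμM _))
        rw [← (Equiv.subRight c).tsum_eq (fun x => μ x * ∑' P', ∑' P, (if HT hY P' = τ + i0 + h ∧
          HT hX P = τ + h' ∧ thY ≤ pl ΛY hY zY (τ + i0) (h, DG zY P') ∧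
          Ev TX TY lo hi P P' (DG zX A) (HT hX A) (w + x) (α + i0 + a)
          then LW ΛY P' * LW ΛX P else 0))]
        refine ENNReal.tsum_le_tsum fun x => ?_
        rw [Equiv.subRight_apply, ENNReal.tsum_comm]
        refine mul_le_mul_right (ENNReal.tsum_le_tsum fun P => ENNReal.tsum_le_tsum fun P' => ?_) _
        by_cases h1 : HT hY P' = τ + i0 + h ∧ HT hX P = τ + h' ∧
          thY ≤ pl ΛY hY zY (τ + i0) (h, DG zY P') ∧
          Ev TX TY lo hi P P' (DG zX A) (HT hX A) (w + (x - c)) (α + i0 + a)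
        · rw [if_pos h1, if_pos, mul_comm]
          refine ⟨h1.2.1, h1.1, h1.2.2.1, ?_⟩
          have h2 := Ev_zero hX zX hY zY hTX hTY h1.2.2.2
          rw [show w + (x - c) - DG zX A = x by rw [hc]; abel] at h2
          rwa [show α + (HT hX A - α) = HT hX A by omega]
        · rw [if_neg h1]; exact zero_le
    · have : ∀ A' P P', ¬ (lY P' ∧ cc A P A' P') := fun A' P P' h => hgA h.2.1
      simp only [this, if_false]
      simp [FS]

end Crest.Agent.R154.Asm13
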