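import Crest.Agent.R154.AsmB_15

/-! Row 154, ROAD 801 (helper15): one window. -/

set_option autoImplicit false

namespace Crest.Agent.R154.Asm15

open scoped ENNReal Classical
open Finset
open Crest.Agent.R154.B5A Crest.Agent.R154.FP178

/-! ### abstract convolution estimates -/

section conv

variable {G : Type*} [AddCommGroup G]

lemma conv_le (A A' : G → ℝ≥0∞) (hA : ∑' z, A z ≤ 1) (hA' : ∑' z, A' z ≤ 1) (M : ℝ≥0∞)
    (hM : (∀ z, A z ≤ M) ∨ (∀ z, A' z ≤ M)) (Φ : G → ℝ≥0∞) (R : ℝ≥0∞)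
    (hΦ : ∀ μ : G → ℝ≥0∞, ∑' x, μ x ≤ 1 → (∀ x, μ x ≤ M) → ∑' x, μ x * Φ x ≤ R) (w : G) :
    ∑' z, ∑' z', A z * A' z' * Φ (w + z' - z) ≤ R := by
  set μ : G → ℝ≥0∞ := fun x => ∑' z, A z * A' (x - w + z) with hμ
  have e : ∑' z, ∑' z', A z * A' z' * Φ (w + z' - z) = ∑' x, μ x * Φ x := by
    have e1 : ∀ z, ∑' z', A z * A' z' * Φ (w + z' - z)
        = ∑' x, A z * A' (x - w + z) * Φ x := by
      intro z
      rw [← (Equiv.addRight (w - z)).tsum_eq (fun x => A z * A' (x - w + z) * Φ x)]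
      refine tsum_congr fun z' => ?_
      simp only [Equiv.coe_addRight]
      rw [show z' + (w - z) - w + z = z' by abel, show z' + (w - z) = w + z' - z by abel]
    simp_rw [e1]
    rw [ENNReal.tsum_comm]
    refine tsum_congr fun x => ?_
    rw [ENNReal.tsum_mul_right]
  rw [e]
  refine hΦ μ ?_ fun x => ?_
  · simp only [hμ]
    rw [ENNReal.tsum_comm]
    calc ∑' z, ∑' x, A z * A' (x - w + z) = ∑' z, A z * ∑' y, A' y := by
          refine tsum_congr fun z => ?_
          rw [ENNReal.tsum_mul_left]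
          congr 1
          rw [← (Equiv.addRight (z - w)).tsum_eq A']
          refine tsum_congr fun x => ?_
          simp only [Equiv.coe_addRight]
          rw [show x + (z - w) = x - w + z by abel]
      _ ≤ ∑' z, A z * 1 := ENNReal.tsum_le_tsum fun z => mul_le_mul_right hA' _
      _ ≤ 1 := by simpa using hA
  · simp only [hμ]
    rcases hM with h | h
    · calc ∑' z, A z * A' (x - w + z) ≤ ∑' z, M * A' (x - w + z) :=
            ENNReal.tsum_le_tsum fun z => mul_le_mul_left (h z) _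
        _ = M * ∑' z, A' z := by
            rw [ENNReal.tsum_mul_left]
            congr 1
            exact (Equiv.addLeft (x - w)).tsum_eq A'
        _ ≤ M * 1 := mul_le_mul_right hA' _
        _ = M := mul_one _
    · calc ∑' z, A z * A' (x - w + z) ≤ ∑' z, A z * M :=
            ENNReal.tsum_le_tsum fun z => mul_le_mul_right (h _) _
        _ = (∑' z, A z) * M := ENNReal.tsum_mul_right
        _ ≤ 1 * M := mul_le_mul_left hA _
        _ = M := one_mul _

/-- smooth + small mass decomposition of a labelled law -/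
def Sm (A : ℕ → G → ℝ≥0∞) (M δ : ℝ≥0∞) : Prop :=
  ∃ g b : ℕ → G → ℝ≥0∞, (∀ l z, A l z ≤ g l z + b l z) ∧ (∀ l z, g l z ≤ M) ∧
    ∑' l, ∑' z, b l z ≤ δ

lemma Sm.min {A : ℕ → G → ℝ≥0∞} {M δ : ℝ≥0∞} (h : Sm A M δ) :
    ∃ g b : ℕ → G → ℝ≥0∞, (∀ l z, A l z ≤ g l z + b l z) ∧ (∀ l z, g l z ≤ M) ∧
      (∀ l z, g l z ≤ A l z) ∧ ∑' l, ∑' z, b l z ≤ δ := by
  obtain ⟨g, b, h1, h2, h3⟩ := h
  refine ⟨fun l z => Min.min (g l z) (A l z), b, fun l z => ?_, fun l z =>
    (min_le_left _ _).trans (h2 l z), fun l z => min_le_right _ _, h3⟩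
  simp only []
  rcases le_total (g l z) (A l z) with h | h
  · rw [min_eq_left h]; exact h1 l z
  · rw [min_eq_right h]; exact le_self_add

lemma core (A A' : ℕ → G → ℝ≥0∞) (hA : ∑' i, ∑' z, A i z ≤ 1) (hA' : ∑' i, ∑' z, A' i z ≤ 1)
    (Ψ : ℕ → ℕ → G → ℝ≥0∞) (hΨ : ∀ i j x, Ψ i j x ≤ 1) (M δ R : ℝ≥0∞)
    (hsm : Sm A M δ ∨ Sm A' M δ) (i0 : ℕ)
    (hR : ∀ i ∈ range (i0 + 1), ∀ j ∈ range (i0 + 1), ∀ μ : G → ℝ≥0∞, ∑' x, μ x ≤ 1 →
      (∀ x, μ x ≤ M) → ∑' x, μ x * Ψ i j x ≤ R) (w : G) :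
    ∑ i ∈ range (i0 + 1), ∑ j ∈ range (i0 + 1), ∑' z, ∑' z',
      A i z * A' j z' * Ψ i j (w + z' - z) ≤ (i0 + 1) ^ 2 * R + δ := by
  have hAi : ∀ i, ∑' z, A i z ≤ 1 := fun i => (ENNReal.le_tsum i).trans hA
  have hAi' : ∀ i, ∑' z, A' i z ≤ 1 := fun i => (ENNReal.le_tsum i).trans hA'
  rcases hsm with hsm | hsm
  · obtain ⟨g, b, h1, h2, h3, h4⟩ := hsm.min
    have step : ∀ i ∈ range (i0 + 1), ∀ j ∈ range (i0 + 1),
        ∑' z, ∑' z', A i z * A' j z' * Ψ i j (w + z' - z)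
        ≤ R + (∑' z, b i z) * ∑' z', A' j z' := by
      intro i hi j hj
      calc _ ≤ ∑' z, ∑' z', (g i z * A' j z' * Ψ i j (w + z' - z) + b i z * A' j z') := by
            refine ENNReal.tsum_le_tsum fun z => ENNReal.tsum_le_tsum fun z' => ?_
            calc A i z * A' j z' * Ψ i j (w + z' - z)
                ≤ (g i z + b i z) * A' j z' * Ψ i j (w + z' - z) := by
                  gcongr; exact h1 i z
              _ = g i z * A' j z' * Ψ i j (w + z' - z)
                  + b i z * A' j z' * Ψ i j (w + z' - z) := by ring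
              _ ≤ _ := by
                  refine add_le_add le_rfl ?_
                  calc _ ≤ b i z * A' j z' * 1 := mul_le_mul_right (hΨ _ _ _) _
                    _ = _ := mul_one _
        _ = ∑' z, ∑' z', g i z * A' j z' * Ψ i j (w + z' - z)
            + (∑' z, b i z) * ∑' z', A' j z' := by
            simp_rw [ENNReal.tsum_add]
            congr 1
            rw [← ENNReal.tsum_mul_right]
            refine tsum_congr fun z => ?_
            rw [ENNReal.tsum_mul_left]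
        _ ≤ _ := by
            refine add_le_add ?_ le_rfl
            exact conv_le (g i) (A' j) ((ENNReal.tsum_le_tsum (h3 i)).trans (hAi i)) (hAi' j) M
              (Or.inl (h2 i)) (Ψ i j) R (hR i hi j hj) w
    calc _ ≤ ∑ i ∈ range (i0 + 1), ∑ j ∈ range (i0 + 1),
          (R + (∑' z, b i z) * ∑' z', A' j z') :=
          sum_le_sum fun i hi => sum_le_sum fun j hj => step i hi j hj
      _ = (i0 + 1) ^ 2 * R + ∑ i ∈ range (i0 + 1), (∑' z, b i z) *
          ∑ j ∈ range (i0 + 1), ∑' z', A' j z' := by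
          simp_rw [sum_add_distrib, ← mul_sum]
          simp only [sum_const, card_range, nsmul_eq_mul]
          push_cast
          ring
      _ ≤ _ := by
          refine add_le_add le_rfl ?_
          calc _ ≤ ∑ i ∈ range (i0 + 1), (∑' z, b i z) * 1 := by
                refine sum_le_sum fun i _ => mul_le_mul_right ?_ _
                exact (ENNReal.sum_le_tsum _).trans hA'
            _ ≤ ∑' i, ∑' z, b i z := by
                simp only [mul_one]
                exact ENNReal.sum_le_tsum _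
            _ ≤ δ := h4
  · obtain ⟨g, b, h1, h2, h3, h4⟩ := hsm.min
    have step : ∀ i ∈ range (i0 + 1), ∀ j ∈ range (i0 + 1),
        ∑' z, ∑' z', A i z * A' j z' * Ψ i j (w + z' - z)
        ≤ R + (∑' z, A i z) * ∑' z', b j z' := by
      intro i hi j hj
      calc _ ≤ ∑' z, ∑' z', (A i z * g j z' * Ψ i j (w + z' - z) + A i z * b j z') := by
            refine ENNReal.tsum_le_tsum fun z => ENNReal.tsum_le_tsum fun z' => ?_
            calc A i z * A' j z' * Ψ i j (w + z' - z)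
                ≤ A i z * (g j z' + b j z') * Ψ i j (w + z' - z) := by
                  gcongr; exact h1 j z'
              _ = A i z * g j z' * Ψ i j (w + z' - z)
                  + A i z * b j z' * Ψ i j (w + z' - z) := by ring
              _ ≤ _ := by
                  refine add_le_add le_rfl ?_
                  calc _ ≤ A i z * b j z' * 1 := mul_le_mul_right (hΨ _ _ _) _
                    _ = _ := mul_one _
        _ = ∑' z, ∑' z', A i z * g j z' * Ψ i j (w + z' - z)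
            + (∑' z, A i z) * ∑' z', b j z' := by
            simp_rw [ENNReal.tsum_add]
            congr 1
            rw [← ENNReal.tsum_mul_right]
            refine tsum_congr fun z => ?_
            rw [ENNReal.tsum_mul_left]
        _ ≤ _ := by
            refine add_le_add ?_ le_rfl
            exact conv_le (A i) (g j) (hAi i) ((ENNReal.tsum_le_tsum (h3 j)).trans (hAi' j)) M
              (Or.inr (h2 j)) (Ψ i j) R (hR i hi j hj) w
    calc _ ≤ ∑ i ∈ range (i0 + 1), ∑ j ∈ range (i0 + 1),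
          (R + (∑' z, A i z) * ∑' z', b j z') :=
          sum_le_sum fun i hi => sum_le_sum fun j hj => step i hi j hj
      _ = (i0 + 1) ^ 2 * R + (∑ i ∈ range (i0 + 1), ∑' z, A i z) *
          ∑ j ∈ range (i0 + 1), ∑' z', b j z' := by
          simp_rw [sum_add_distrib, ← mul_sum, ← sum_mul]
          simp only [sum_const, card_range, nsmul_eq_mul]
          push_cast
          ring
      _ ≤ _ := by
          refine add_le_add le_rfl ?_
          calc _ ≤ 1 * ∑' j, ∑' z', b j z' := by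
                refine mul_le_mul' ((ENNReal.sum_le_tsum _).trans hA) (ENNReal.sum_le_tsum _)
            _ ≤ δ := by rw [one_mul]; exact h4

end conv

/-- weight of a first passage list with small overshoot -/
noncomputable def pw {B : Type*} (Λ : B → ℝ≥0∞) (ht : B → ℕ) (i0 a : ℕ) (L : List B) : ℝ≥0∞ :=
  if fp ht a L ∧ HT ht L ≤ a + i0 then LW Λ L else 0

lemma pw_sum {B : Type*} (Λ : B → ℝ≥0∞) (ht : B → ℕ) (h1 : ∀ b, 1 ≤ ht b) (hΛ : ∑' b, Λ b = 1)
    (i0 a : ℕ) : ∑' L, pw Λ ht i0 a L ≤ 1 := by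
  refine le_trans (ENNReal.tsum_le_tsum fun L => ?_) (sum_FP Λ ht h1 hΛ.le a)
  rw [pw]
  by_cases h : fp ht a L
  · rw [if_pos h]; split_ifs <;> simp
  · rw [if_neg h, if_neg (fun h' => h h'.1)]

lemma two_fp' {B : Type*} (Λ : B → ℝ≥0∞) (ht : B → ℕ) (h1 : ∀ b, 1 ≤ ht b)
    (hΛ : ∑' b, Λ b = 1) (hU1 : ∀ n, U Λ ht n ≤ 1)
    (α τ i0 n : ℕ) (hn : α + i0 + τ ≤ n) (ov : ℝ≥0∞)
    (hov : ∀ a, ∑' L, (if fp ht a L ∧ a + i0 < HT ht L then LW Λ L else 0) ≤ ov)
    (f : List B → ℝ≥0∞) (hf1 : ∀ L, f L ≤ 1) (g : List B → List B → ℝ≥0∞)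
    (hg : ∀ L0 L1 L2, fp ht α L0 → HT ht L0 ≤ α + i0 → fp ht τ L1 → HT ht L1 ≤ τ + i0 →
      HT ht (L0 ++ (L1 ++ L2)) = n → f (L0 ++ (L1 ++ L2)) ≤ g L0 L1) :
    ∑' L, (if HT ht L = n then LW Λ L * f L else 0)
      ≤ 2 * ov + ∑' L0, ∑' L1, pw Λ ht i0 α L0 * pw Λ ht i0 τ L1 * g L0 L1 := by
  refine (two_fp Λ ht h1 hΛ.le hU1 α τ i0 n hn ov hov f hf1 g hg).trans ?_
  refine add_le_add le_rfl (ENNReal.tsum_le_tsum fun L0 => ENNReal.tsum_le_tsum fun L1 => ?_)
  rw [pw, pw]
  by_cases h : fp ht α L0 ∧ HT ht L0 ≤ α + i0 ∧ fp ht τ L1 ∧ HT ht L1 ≤ τ + i0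
  · rw [if_pos h, if_pos ⟨h.1, h.2.1⟩, if_pos h.2.2]
  · rw [if_neg h]; exact zero_le

lemma fiber_pw {B G : Type*} [AddCommGroup G] (Λ : B → ℝ≥0∞) (ht : B → ℕ) (dz : B → G)
    (a i0 : ℕ) (f : ℕ → G → ℝ≥0∞) :
    ∑' L, pw Λ ht i0 a L * f (HT ht L) (Dp dz L)
      = ∑ i ∈ range (i0 + 1), ∑' z, law Λ ht dz a i z * f (a + i) z := by
  rw [← fiber0 Λ ht dz a i0 (fun i z => f (a + i) z)]
  refine tsum_congr fun L => ?_
  rw [pw]
  by_cases h : fp ht a L ∧ HT ht L ≤ a + i0
  · have := le_HT_of_fp ht h.1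
    rw [if_pos h, if_pos h, show a + (HT ht L - a) = HT ht L by omega]
  · rw [if_neg h, if_neg h, zero_mul]

end Crest.Agent.R154.Asm15
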