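import Crest.Agent.R154.AsmB_151

/-! Row 154, ROAD 801 (helper151): traces of block lists, splitting a window. -/

set_option autoImplicit false

namespace Crest.Agent.R154.X151

open scoped ENNReal
open Crest.Agent.R154.B5A

section trace

variable {B G : Type*} [AddCommGroup G] (h : B → ℕ) (z : B → G) (s : B → Set (G × ℕ))

/-- trace (position, depth) of a block list placed at `x`, depth `a` -/
def TR : List B → G → ℕ → Set (G × ℕ)
  | [], _, _ => ∅
  | b :: L, x, a => (fun p : G × ℕ => (x + p.1, a + p.2)) '' s b ∪ TR L (x + z b) (a + h b)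

lemma TR_append (L L' : List B) (x : G) (a : ℕ) :
    TR h z s (L ++ L') x a = TR h z s L x a ∪ TR h z s L' (x + Dp z L) (a + HT h L) := by
  induction L generalizing x a with
  | nil => simp [TR, Dp, HT]
  | cons b L ih =>
    simp only [List.cons_append, TR]
    rw [ih, Set.union_assoc]
    congr 2
    rw [HT_cons, Dp, Dp, List.map_cons, List.sum_cons, add_assoc, add_assoc]

lemma TR_shift (L : List B) (x y : G) (a : ℕ) (p : G × ℕ) :
    p ∈ TR h z s L (x + y) a ↔ (p.1 - y, p.2) ∈ TR h z s L x a := by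
  induction L generalizing x a with
  | nil => simp [TR]
  | cons b L ih =>
    simp only [TR, Set.mem_union, Set.mem_image]
    rw [show x + y + z b = (x + z b) + y by abel, ih]
    refine or_congr ?_ Iff.rfl
    constructor
    · rintro ⟨q, hq, rfl⟩
      exact ⟨q, hq, by rw [Prod.mk.injEq]; exact ⟨by simp only; abel, rfl⟩⟩
    · rintro ⟨q, hq, hq2⟩
      rw [Prod.mk.injEq] at hq2
      refine ⟨q, hq, ?_⟩
      ext
      · simp only
        rw [show x + y + q.1 = (x + q.1) + y by abel, hq2.1]; abel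
      · exact hq2.2

lemma TR_depth (hs : ∀ b, ∀ p ∈ s b, 1 ≤ p.2 ∧ p.2 ≤ h b) (L : List B) (x : G) (a : ℕ)
    (p : G × ℕ) (hp : p ∈ TR h z s L x a) : a < p.2 ∧ p.2 ≤ a + HT h L := by
  induction L generalizing x a with
  | nil => simp [TR] at hp
  | cons b L ih =>
    rw [HT_cons]
    rcases hp with ⟨q, hq, rfl⟩ | hp
    · have := hs b q hq; simp only; omega
    · have := ih _ _ hp; omega

end trace

section cut

variable {B : Type*} (Λ : B → ℝ≥0∞) (ht : B → ℕ)
  (h1 : ∀ b, 1 ≤ ht b) (hΛ : ∑' b, Λ b = 1) (hU1 : ∀ n, U Λ ht n ≤ 1)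
include h1 hU1

open Classical in
/-- cutting a crossing of height `n` at the window -/
lemma cut3 (A l i0 n : ℕ) (hn : A + i0 + l ≤ n) (Ψ : List B → ℝ≥0∞) (hΨ1 : ∀ L, Ψ L ≤ 1)
    (Φ : List B → List B → ℝ≥0∞)
    (hΨ : ∀ L1 P R, A ≤ HT ht L1 → HT ht L1 ≤ A + i0 → l ≤ HT ht P →
      HT ht (L1 ++ (P ++ R)) = n → Ψ (L1 ++ (P ++ R)) ≤ Φ L1 P) :
    ∑' L : List B, (if HT ht L = n then LW Λ L * Ψ L else 0)
      ≤ FPE Λ ht A (fun L1 => if A + i0 < HT ht L1 then 1 else 0)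
        + FPE Λ ht A (fun L1 => FPE Λ ht l (fun P => if HT ht L1 ≤ A + i0 then Φ L1 P else 0)) := by
  have e1 : ∑' L : List B, (if HT ht L = n then LW Λ L * Ψ L else 0)
      = ∑' L : List B, (if A ≤ HT ht L then LW Λ L * (if HT ht L = n then Ψ L else 0) else 0) := by
    refine tsum_congr fun L => ?_
    by_cases h : HT ht L = n
    · rw [if_pos h, if_pos h, if_pos (by omega)]
    · rw [if_neg h, if_neg h, mul_zero]; simp
  rw [e1, split Λ ht h1, ← FPE_add]
  refine FPE_mono Λ ht A fun L1 hL1 => ?_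
  have hUb : ∀ (m : ℕ) (c : ℝ≥0∞) (F : List B → ℝ≥0∞), (∀ R, F R ≤ if HT ht R = m then c else 0) →
      ∑' R, LW Λ R * F R ≤ c := by
    intro m c F hF
    calc ∑' R, LW Λ R * F R ≤ ∑' R, (if HT ht R = m then LW Λ R else 0) * c := by
          refine ENNReal.tsum_le_tsum fun R => ?_
          refine (mul_le_mul_right (hF R) _).trans ?_
          split_ifs <;> simp
      _ = U Λ ht m * c := by rw [ENNReal.tsum_mul_right, U]
      _ ≤ 1 * c := mul_le_mul_left (hU1 m) _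
      _ = c := one_mul c
  by_cases ho : A + i0 < HT ht L1
  · rw [if_pos ho]
    refine le_trans ?_ le_self_add
    refine hUb (n - HT ht L1) 1 _ fun R => ?_
    rw [HT_append]
    by_cases h : HT ht L1 + HT ht R = n
    · rw [if_pos h, if_pos (by omega)]; exact hΨ1 _
    · rw [if_neg h]; exact zero_le
  · rw [if_neg ho, zero_add]
    have e2 : ∑' L2, LW Λ L2 * (if HT ht (L1 ++ L2) = n then Ψ (L1 ++ L2) else 0)
        = ∑' L2 : List B, (if l ≤ HT ht L2 then
          LW Λ L2 * (if HT ht (L1 ++ L2) = n then Ψ (L1 ++ L2) else 0) else 0) := by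
      refine tsum_congr fun L2 => ?_
      by_cases h : HT ht (L1 ++ L2) = n
      · rw [if_pos (show l ≤ HT ht L2 by rw [HT_append] at h; omega)]
      · rw [if_neg h, mul_zero]; simp
    rw [e2, split Λ ht h1]
    refine FPE_mono Λ ht l fun P hP => ?_
    rw [if_pos (by omega : HT ht L1 ≤ A + i0)]
    refine hUb (n - HT ht L1 - HT ht P) (Φ L1 P) _ fun R => ?_
    by_cases h : HT ht (L1 ++ (P ++ R)) = n
    · rw [if_pos h, if_pos (by rw [HT_append, HT_append] at h; omega)]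
      exact hΨ L1 P R hL1 (by omega) hP h
    · rw [if_neg h]; exact zero_le

end cut

section window

variable {BX BY G : Type*} [AddCommGroup G]
  (ΛX : BX → ℝ≥0∞) (ΛY : BY → ℝ≥0∞) (hX : BX → ℕ) (hY : BY → ℕ) (zX : BX → G) (zY : BY → G)
  (sX : BX → Set (G × ℕ)) (sY : BY → Set (G × ℕ))

/-- common sites of two pieces: `P` placed at `0`, depth `a`; `P'` placed at `δ`, depth `a'` -/
def Cp (P : List BX) (P' : List BY) (δ : G) (a a' : ℕ) : Set (G × ℕ) :=
  TR hX zX sX P 0 a ∩ TR hY zY sY P' δ a'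

/-- contact of the two pieces; all contacts at depth in `(lo, hi] ∪ (top, ∞)` -/
def Kp (lo hi top : ℕ) (P : List BX) (P' : List BY) (δ : G) (a a' : ℕ) : Prop :=
  (Cp hX hY zX zY sX sY P P' δ a a').Nonempty ∧
    ∀ p ∈ Cp hX hY zX zY sX sY P P' δ a a', lo < p.2 ∧ ¬ (hi < p.2 ∧ p.2 ≤ top)

/-- window event for the two crossings -/
def We (lo mid hi top : ℕ) (w : G) (LX : List BX) (LY : List BY) : Prop :=
  (∃ p ∈ Cp hX hY zX zY sX sY LX LY w 0 0, p.2 ≤ mid) ∧
    ∀ p ∈ Cp hX hY zX zY sX sY LX LY w 0 0, lo < p.2 ∧ ¬ (hi < p.2 ∧ p.2 ≤ top)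

variable (h1X : ∀ b, 1 ≤ hX b) (h1Y : ∀ b, 1 ≤ hY b)
  (hsX : ∀ b, ∀ p ∈ sX b, 1 ≤ p.2 ∧ p.2 ≤ hX b) (hsY : ∀ b, ∀ p ∈ sY b, 1 ≤ p.2 ∧ p.2 ≤ hY b)

include hsX hsY in
lemma We_Kp (lo mid hi top : ℕ) (w : G) (L1 P R : List BX) (L1' P' R' : List BY)
    (h1 : HT hX L1 ≤ lo) (h2 : mid ≤ HT hX L1 + HT hX P) (h1' : HT hY L1' ≤ lo)
    (h2' : mid ≤ HT hY L1' + HT hY P')
    (hW : We hX hY zX zY sX sY lo mid hi top w (L1 ++ (P ++ R)) (L1' ++ (P' ++ R'))) :
    Kp hX hY zX zY sX sY lo hi top P P' (w + Dp zY L1' - Dp zX L1) (HT hX L1) (HT hY L1') := by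
  obtain ⟨⟨p, hp, hpm⟩, hall⟩ := hW
  have key : ∀ q : G × ℕ, (q ∈ TR hX zX sX P 0 (HT hX L1) ∧
      q ∈ TR hY zY sY P' (w + Dp zY L1' - Dp zX L1) (HT hY L1')) ↔
      ((q.1 + Dp zX L1, q.2) ∈ TR hX zX sX P (0 + Dp zX L1) (0 + HT hX L1) ∧
      (q.1 + Dp zX L1, q.2) ∈ TR hY zY sY P' (w + Dp zY L1') (0 + HT hY L1')) := by
    intro q
    have e1 := TR_shift hX zX sX P 0 (Dp zX L1) (HT hX L1) (q.1 + Dp zX L1, q.2)
    have e2 := TR_shift hY zY sY P' (w + Dp zY L1' - Dp zX L1) (Dp zX L1) (HT hY L1')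
      (q.1 + Dp zX L1, q.2)
    simp only [add_sub_cancel_right] at e1 e2
    rw [sub_add_cancel] at e2
    rw [zero_add (HT hX L1), zero_add (HT hY L1'), e1, e2]
  constructor
  · have hpX := hp.1
    have hpY := hp.2
    have hlo := (hall p hp).1
    rw [TR_append, TR_append] at hpX hpY
    have hpX' : p ∈ TR hX zX sX P (0 + Dp zX L1) (0 + HT hX L1) := by
      rcases hpX with h | h | h
      · have := TR_depth hX zX sX hsX _ _ _ _ h; omega
      · exact h
      · have := TR_depth hX zX sX hsX _ _ _ _ h; omega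
    have hpY' : p ∈ TR hY zY sY P' (w + Dp zY L1') (0 + HT hY L1') := by
      rcases hpY with h | h | h
      · have := TR_depth hY zY sY hsY _ _ _ _ h; omega
      · exact h
      · have := TR_depth hY zY sY hsY _ _ _ _ h; omega
    refine ⟨(p.1 - Dp zX L1, p.2), (key _).2 ?_⟩
    simp only [sub_add_cancel]
    exact ⟨hpX', hpY'⟩
  · intro q hq
    have hq' := (key q).1 hq
    refine hall (q.1 + Dp zX L1, q.2) ⟨?_, ?_⟩
    · rw [TR_append, TR_append]; exact Or.inr (Or.inl hq'.1)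
    · rw [TR_append, TR_append]; exact Or.inr (Or.inl hq'.2)

end window

end Crest.Agent.R154.X151
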