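import Crest.Agent.R154.AsmB_177

/-! Row 154, ROAD 801 (helper177): the bound of one window. -/

set_option autoImplicit false

namespace Crest.Agent.R154.Asm177

open scoped ENNReal Classical
open Crest.Agent.R154.B5A Crest.Agent.R154.FP178
open Crest.Agent.R154.KWB419 (TT)

section one

variable {B G : Type*} [AddCommGroup G] (Λ : B → ℝ≥0∞) (ht : B → ℕ) (z : B → G)

/-- local data of one walker -/
theorem setup (h1 : ∀ b, 1 ≤ ht b) (hΛ : ∑' b, Λ b = 1) (τ i0 : ℕ) {u : ℝ≥0∞} (hu0 : u ≠ 0)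
    (hu1 : u ≤ 1) : ∃ (th Gd : ℝ≥0∞) (E : ℕ → Finset G),
      ((i0 + 1 : ℕ) * th + (1 - u) * Gd ≤ Gd) ∧
      (∑' L, (if m Λ ht z τ (HT ht L) (Dp z L) < th then w Λ ht τ L else 0) ≤ u) ∧
      (∑' L, (if th < m Λ ht z τ (HT ht L) (Dp z L) then w Λ ht τ L else 0) ≤ 1 - u) ∧
      (∀ L, th ≤ m Λ ht z τ (HT ht L) (Dp z L) → Dp z L ∈ E (HT ht L)) ∧
      (∀ β, Gd * (E β).card ≤ (i0 + 1 : ℕ) / u) := by
  obtain ⟨th, h0, hth1, ha, hb⟩ := thr Λ ht z h1 hΛ τ hu0 hu1
  have hut : u ≠ ⊤ := ne_top_of_le_ne_top ENNReal.one_ne_top hu1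
  have hle : ∀ β, ∑' x, m Λ ht z τ β x ≤ 1 := by
    intro β
    refine le_trans ?_ (sum_w Λ ht h1 hΛ.le τ)
    rw [← sum_m Λ ht z]
    exact ENNReal.le_tsum β
  have hfin : ∀ β, {x | th ≤ m Λ ht z τ β x}.Finite := fun β =>
    ENNReal.finite_const_le_of_tsum_ne_top
      (ne_top_of_le_ne_top ENNReal.one_ne_top (hle β)) h0
  refine ⟨th, (i0 + 1 : ℕ) * th / u, fun β => (hfin β).toFinset, ?_, ha, hb, ?_, ?_⟩
  · have e1 : ((i0 + 1 : ℕ) : ℝ≥0∞) * th = u * ((i0 + 1 : ℕ) * th / u) :=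
      (ENNReal.mul_div_cancel hu0 hut).symm
    calc ((i0 + 1 : ℕ) : ℝ≥0∞) * th + (1 - u) * ((i0 + 1 : ℕ) * th / u)
        = u * ((i0 + 1 : ℕ) * th / u) + (1 - u) * ((i0 + 1 : ℕ) * th / u) := by rw [← e1]
      _ = (u + (1 - u)) * ((i0 + 1 : ℕ) * th / u) := by rw [add_mul]
      _ = 1 * _ := by rw [add_tsub_cancel_of_le hu1]
      _ ≤ _ := (one_mul _).le
  · intro L hL
    rw [Set.Finite.mem_toFinset]
    exact hL
  · intro β
    have hc : th * ((hfin β).toFinset.card : ℝ≥0∞) ≤ 1 := by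
      refine le_trans ?_ (hle β)
      calc th * ((hfin β).toFinset.card : ℝ≥0∞) = ∑ x ∈ (hfin β).toFinset, th := by
            rw [Finset.sum_const, nsmul_eq_mul, mul_comm]
        _ ≤ ∑ x ∈ (hfin β).toFinset, m Λ ht z τ β x :=
            Finset.sum_le_sum fun x hx => by rw [Set.Finite.mem_toFinset] at hx; exact hx
        _ ≤ _ := ENNReal.sum_le_tsum _
    calc (i0 + 1 : ℕ) * th / u * ((hfin β).toFinset.card : ℝ≥0∞)
        = (i0 + 1 : ℕ) * (th * ((hfin β).toFinset.card : ℝ≥0∞)) / u := by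
          rw [div_eq_mul_inv, div_eq_mul_inv]; ring
      _ ≤ (i0 + 1 : ℕ) * 1 / u := by gcongr
      _ = _ := by rw [mul_one]

lemma sumF {G : Type*} (S : Finset (ℕ × ℕ)) (ν : G → ℝ≥0∞) (F : ℕ × ℕ → G → ℝ≥0∞)
    (Ψ : G → ℝ≥0∞) (e : G ≃ G) (hΨ : ∀ x, Ψ x ≤ ∑ p ∈ S, F p (e x)) (b : ℝ≥0∞)
    (hb : ∀ p ∈ S, ∑' y, ν (e.symm y) * F p y ≤ b) : ∑' x, ν x * Ψ x ≤ S.card * b := by
  calc ∑' x, ν x * Ψ x ≤ ∑' x, ∑ p ∈ S, ν x * F p (e x) := by
        refine ENNReal.tsum_le_tsum fun x => ?_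
        rw [← Finset.mul_sum]
        exact mul_le_mul_right (hΨ x) _
    _ = ∑ p ∈ S, ∑' x, ν x * F p (e x) := Summable.tsum_finsetSum (fun _ _ => ENNReal.summable)
    _ = ∑ p ∈ S, ∑' y, ν (e.symm y) * F p y := by
        refine Finset.sum_congr rfl fun p _ => ?_
        rw [← e.tsum_eq (fun y => ν (e.symm y) * F p y)]
        refine tsum_congr fun x => ?_
        rw [Equiv.symm_apply_apply]
    _ ≤ ∑ p ∈ S, b := Finset.sum_le_sum hb
    _ = S.card * b := by rw [Finset.sum_const, nsmul_eq_mul]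

end one

section two

variable {BX BY G : Type*} [AddCommGroup G] (ΛX : BX → ℝ≥0∞) (ΛY : BY → ℝ≥0∞)
  (hX : BX → ℕ) (hY : BY → ℕ) (zX : BX → G) (zY : BY → G)
  (sX : BX → Set (G × ℕ)) (sY : BY → Set (G × ℕ))
  (h1X : ∀ b, 1 ≤ hX b) (h1Y : ∀ b, 1 ≤ hY b)
  (hΛX : ∑' b, ΛX b = 1) (hΛY : ∑' b, ΛY b = 1)

include h1X h1Y hΛX hΛY in
lemma S2_le (C : ℝ≥0∞) (us : ℕ → ℝ≥0∞) (hH : H2 ΛX ΛY hX hY zX zY sX sY C us)
    (a T i0 s J : ℕ) (hT : 3 * i0 + s ≤ T) (hJ : J * (3 * T + i0) ≤ a) (x0 : G)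
    (ε : ℝ≥0∞) (hε : ∀ a, ∑' L, (if fp hX a L ∧ a + i0 < HT hX L then LW ΛX L else 0) ≤ ε)
    (u lam : ℝ≥0∞) (hl0 : lam ≠ 0) (hlt : lam ≠ ⊤) (hu1 : u ≤ 1)
    (th Gd : ℝ≥0∞) (E : ℕ → Finset G) (hG : (i0 + 1 : ℕ) * th + (1 - u) * Gd ≤ Gd)
    (hq : ∑' L, (if th < m ΛX hX zX (3 * T) (HT hX L) (Dp zX L) then w ΛX hX (3 * T) L else 0)
      ≤ 1 - u)
    (hE : ∀ L, th ≤ m ΛX hX zX (3 * T) (HT hX L) (Dp zX L) → Dp zX L ∈ E (HT hX L))
    (hc : ∀ β, Gd * (E β).card ≤ (i0 + 1 : ℕ) / u) :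
    ∑' A', w ΛY hY (a + 2 * i0) A' * ∑' A, w ΛX hX a A * ∑' P, w ΛX hX (3 * T) P *
        ∑' P', w ΛY hY (3 * T) P' *
        (if K0 hX hY zX zY sX sY a T i0 (a + T + 1) (a + 3 * T - s) x0 (HT hX A) (Dp zX A) P
          (HT hY A') (Dp zY A') P' ∧ th ≤ m ΛX hX zX (3 * T) (HT hX P) (Dp zX P) then 1 else 0)
      ≤ (i0 + 1 : ℕ) * (((i0 + 1) * (i0 + 1) : ℕ) *
          (C * (lam + (i0 + 1 : ℕ) / u * us s / lam + us s))) + ((1 - u) ^ J + J * ε) := by
  set bd : ℝ≥0∞ := (i0 + 1 : ℕ) * (((i0 + 1) * (i0 + 1) : ℕ) *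
          (C * (lam + (i0 + 1 : ℕ) / u * us s / lam + us s))) + ((1 - u) ^ J + J * ε) with hbd
  suffices h : ∀ A', ∑' A, w ΛX hX a A * ∑' P, w ΛX hX (3 * T) P *
        ∑' P', w ΛY hY (3 * T) P' *
        (if K0 hX hY zX zY sX sY a T i0 (a + T + 1) (a + 3 * T - s) x0 (HT hX A) (Dp zX A) P
          (HT hY A') (Dp zY A') P' ∧ th ≤ m ΛX hX zX (3 * T) (HT hX P) (Dp zX P) then 1 else 0)
      ≤ bd by
    calc _ ≤ ∑' A', w ΛY hY (a + 2 * i0) A' * bd :=
          ENNReal.tsum_le_tsum fun A' => mul_le_mul_right (h A') _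
      _ = (∑' A', w ΛY hY (a + 2 * i0) A') * bd := ENNReal.tsum_mul_right
      _ ≤ 1 * bd := mul_le_mul_left (sum_w ΛY hY h1Y hΛY.le _) _
      _ = bd := one_mul _
  intro A'
  let Ψ : ℕ → G → ℝ≥0∞ := fun α x => ∑' P, w ΛX hX (3 * T) P *
        ∑' P', w ΛY hY (3 * T) P' *
        (if K0 hX hY zX zY sX sY a T i0 (a + T + 1) (a + 3 * T - s) x0 α x P
          (HT hY A') (Dp zY A') P' ∧ th ≤ m ΛX hX zX (3 * T) (HT hX P) (Dp zX P) then 1 else 0)
  refine half ΛX hX zX h1X hΛX.le (3 * T) i0 th (1 - u) Gd ε ?_ hq tsub_le_self hG J a hJ Ψ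
    ?_ ?_ _ ?_
  · refine le_trans (le_of_eq ?_) (hε (3 * T))
    refine tsum_congr fun L => ?_
    unfold w
    by_cases h : fp hX (3 * T) L <;> by_cases h' : 3 * T + i0 < HT hX L <;> simp [h, h']
  · intro α x
    refine le_trans (ENNReal.tsum_le_tsum fun P => ?_) (sum_w ΛX hX h1X hΛX.le (3 * T))
    refine le_trans (mul_le_mul_right ?_ _) (mul_one _).le
    refine le_trans (ENNReal.tsum_le_tsum fun P' => ?_) (sum_w ΛY hY h1Y hΛY.le (3 * T))
    split_ifs
    · rw [mul_one]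
    · rw [mul_zero]; exact zero_le
  · intro α x hα
    simp only [Ψ]
    rw [ENNReal.tsum_eq_zero]
    intro P
    have : ∑' P', w ΛY hY (3 * T) P' *
        (if K0 hX hY zX zY sX sY a T i0 (a + T + 1) (a + 3 * T - s) x0 α x P
          (HT hY A') (Dp zY A') P' ∧ th ≤ m ΛX hX zX (3 * T) (HT hX P) (Dp zX P)
            then (1 : ℝ≥0∞) else 0) = 0 := by
      rw [ENNReal.tsum_eq_zero]
      intro P'
      rw [if_neg, mul_zero]
      rintro ⟨hK, -⟩
      have := hK.1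
      omega
    rw [this, mul_zero]
  · intro α hα1 hα2 ν hν1 hνG
    by_cases hA' : a + 2 * i0 ≤ HT hY A' ∧ HT hY A' ≤ a + 2 * i0 + i0
    swap
    · have : ∀ x, Ψ α x = 0 := by
        intro x
        simp only [Ψ]
        rw [ENNReal.tsum_eq_zero]
        intro P
        have : ∑' P', w ΛY hY (3 * T) P' *
            (if K0 hX hY zX zY sX sY a T i0 (a + T + 1) (a + 3 * T - s) x0 α x P
              (HT hY A') (Dp zY A') P' ∧ th ≤ m ΛX hX zX (3 * T) (HT hX P) (Dp zX P)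
                then (1 : ℝ≥0∞) else 0) = 0 := by
          rw [ENNReal.tsum_eq_zero]
          intro P'
          rw [if_neg, mul_zero]
          rintro ⟨hK, -⟩
          exact hA' hK.2.2.1
        rw [this, mul_zero]
      simp only [this, mul_zero, tsum_zero]
      exact zero_le
    let F : ℕ × ℕ → G → ℝ≥0∞ := fun p y => ∑' L : List BX, ∑' L' : List BY,
      if HT hX L = 3 * T + p.1 ∧ Dp zX L ∈ E (3 * T + p.1) ∧ HT hY L' = 3 * T + p.2 ∧
          (∃ k, k ∈ CT hX hY zX zY sX sY L α L' y (HT hY A')) ∧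
          (∀ k ∈ CT hX hY zX zY sX sY L α L' y (HT hY A'), a + T + 1 ≤ k)
        then LW ΛX L * LW ΛY L' else 0
    have hcard : ((Finset.range (i0 + 1) ×ˢ Finset.range (i0 + 1)).card : ℝ≥0∞)
        = ((i0 + 1) * (i0 + 1) : ℕ) := by
      rw [Finset.card_product, Finset.card_range]
    rw [← hcard]
    refine sumF _ ν F (Ψ α) (Equiv.subLeft (x0 + Dp zY A')) ?_ _ ?_
    · intro x
      have hswap : ∑ p ∈ Finset.range (i0 + 1) ×ˢ Finset.range (i0 + 1),
          F p (Equiv.subLeft (x0 + Dp zY A') x)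
          = ∑' L : List BX, ∑' L' : List BY,
            ∑ p ∈ Finset.range (i0 + 1) ×ˢ Finset.range (i0 + 1),
            (if HT hX L = 3 * T + p.1 ∧ Dp zX L ∈ E (3 * T + p.1) ∧ HT hY L' = 3 * T + p.2 ∧
              (∃ k, k ∈ CT hX hY zX zY sX sY L α L' (x0 + Dp zY A' - x) (HT hY A')) ∧
              (∀ k ∈ CT hX hY zX zY sX sY L α L' (x0 + Dp zY A' - x) (HT hY A'), a + T + 1 ≤ k)
            then LW ΛX L * LW ΛY L' else 0) := by
        simp only [F, Equiv.subLeft_apply]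
        rw [← Summable.tsum_finsetSum (fun _ _ => ENNReal.summable)]
        refine tsum_congr fun L => ?_
        rw [← Summable.tsum_finsetSum (fun _ _ => ENNReal.summable)]
      rw [hswap]
      refine ENNReal.tsum_le_tsum fun P => ?_
      rw [← ENNReal.tsum_mul_left]
      refine ENNReal.tsum_le_tsum fun P' => ?_
      by_cases hK : K0 hX hY zX zY sX sY a T i0 (a + T + 1) (a + 3 * T - s) x0 α x P
              (HT hY A') (Dp zY A') P' ∧ th ≤ m ΛX hX zX (3 * T) (HT hX P) (Dp zX P)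
      swap
      · rw [if_neg hK, mul_zero, mul_zero]; exact zero_le
      rw [if_pos hK, mul_one]
      obtain ⟨⟨k1, k2, k3, k4, k5, k6⟩, k7⟩ := hK
      have hmem : (HT hX P - 3 * T, HT hY P' - 3 * T) ∈
          Finset.range (i0 + 1) ×ˢ Finset.range (i0 + 1) := by
        rw [Finset.mem_product, Finset.mem_range, Finset.mem_range]
        constructor
        · show HT hX P - 3 * T < i0 + 1
          omega
        · show HT hY P' - 3 * T < i0 + 1
          omega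
      refine le_trans ?_ (Finset.single_le_sum (fun _ _ => zero_le) hmem)
      have e1 : 3 * T + (HT hX P - 3 * T) = HT hX P := by omega
      have e2 : 3 * T + (HT hY P' - 3 * T) = HT hY P' := by omega
      simp only [e1, e2]
      rw [if_pos ⟨trivial, hE P k7, trivial, k5, fun k hk => (k6 k hk).1⟩]
      refine mul_le_mul' ?_ ?_
      · unfold w
        split_ifs
        · exact le_rfl
        · exact zero_le
      · unfold w
        split_ifs
        · exact le_rfl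
        · exact zero_le
    · intro p hp
      refine le_trans (hH s (3 * T + p.1) (3 * T + p.2) α (HT hY A') (a + T + 1)
        (E (3 * T + p.1)) (fun y => ν ((Equiv.subLeft (x0 + Dp zY A')).symm y)) Gd lam ?_ ?_
        hl0 hlt (by omega) (by omega) (by omega)) ?_
      · rw [(Equiv.subLeft (x0 + Dp zY A')).symm.tsum_eq ν]
        exact hν1
      · intro y; exact hνG _
      · refine mul_le_mul_right ?_ _
        gcongr
        exact hc _

include h1X h1Y hΛX hΛY in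
lemma S3_le (C : ℝ≥0∞) (us : ℕ → ℝ≥0∞) (hH : H3 ΛX ΛY hX hY zX zY sX sY C us)
    (a T i0 s J : ℕ) (hT : 3 * i0 + s ≤ T) (hJ : J * (3 * T + i0) ≤ a) (x0 : G)
    (ε : ℝ≥0∞) (hε : ∀ a, ∑' L, (if fp hY a L ∧ a + i0 < HT hY L then LW ΛY L else 0) ≤ ε)
    (u lam : ℝ≥0∞) (hl0 : lam ≠ 0) (hlt : lam ≠ ⊤) (hu1 : u ≤ 1)
    (th Gd : ℝ≥0∞) (E : ℕ → Finset G) (hG : (i0 + 1 : ℕ) * th + (1 - u) * Gd ≤ Gd)
    (hq : ∑' L, (if th < m ΛY hY zY (3 * T) (HT hY L) (Dp zY L) then w ΛY hY (3 * T) L else 0)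
      ≤ 1 - u)
    (hE : ∀ L, th ≤ m ΛY hY zY (3 * T) (HT hY L) (Dp zY L) → Dp zY L ∈ E (HT hY L))
    (hc : ∀ β, Gd * (E β).card ≤ (i0 + 1 : ℕ) / u) :
    ∑' A, w ΛX hX a A * ∑' A', w ΛY hY (a + 2 * i0) A' * ∑' P, w ΛX hX (3 * T) P *
        ∑' P', w ΛY hY (3 * T) P' *
        (if K0 hX hY zX zY sX sY a T i0 (a + T + 1) (a + 3 * T - s) x0 (HT hX A) (Dp zX A) P
          (HT hY A') (Dp zY A') P' ∧ th ≤ m ΛY hY zY (3 * T) (HT hY P') (Dp zY P') then 1 else 0)
      ≤ (i0 + 1 : ℕ) * (((i0 + 1) * (i0 + 1) : ℕ) *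
          (C * (lam + (i0 + 1 : ℕ) / u * us s / lam + us s))) + ((1 - u) ^ J + J * ε) := by
  set bd : ℝ≥0∞ := (i0 + 1 : ℕ) * (((i0 + 1) * (i0 + 1) : ℕ) *
          (C * (lam + (i0 + 1 : ℕ) / u * us s / lam + us s))) + ((1 - u) ^ J + J * ε) with hbd
  suffices h : ∀ A, ∑' A', w ΛY hY (a + 2 * i0) A' * ∑' P, w ΛX hX (3 * T) P *
        ∑' P', w ΛY hY (3 * T) P' *
        (if K0 hX hY zX zY sX sY a T i0 (a + T + 1) (a + 3 * T - s) x0 (HT hX A) (Dp zX A) P
          (HT hY A') (Dp zY A') P' ∧ th ≤ m ΛY hY zY (3 * T) (HT hY P') (Dp zY P') then 1 else 0)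
      ≤ bd by
    calc _ ≤ ∑' A, w ΛX hX a A * bd :=
          ENNReal.tsum_le_tsum fun A' => mul_le_mul_right (h A') _
      _ = (∑' A, w ΛX hX a A) * bd := ENNReal.tsum_mul_right
      _ ≤ 1 * bd := mul_le_mul_left (sum_w ΛX hX h1X hΛX.le _) _
      _ = bd := one_mul _
  intro A
  let Ψ : ℕ → G → ℝ≥0∞ := fun α' x' => ∑' P, w ΛX hX (3 * T) P *
        ∑' P', w ΛY hY (3 * T) P' *
        (if K0 hX hY zX zY sX sY a T i0 (a + T + 1) (a + 3 * T - s) x0 (HT hX A) (Dp zX A) P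
          α' x' P' ∧ th ≤ m ΛY hY zY (3 * T) (HT hY P') (Dp zY P') then 1 else 0)
  refine half ΛY hY zY h1Y hΛY.le (3 * T) i0 th (1 - u) Gd ε ?_ hq tsub_le_self hG J
    (a + 2 * i0) (by omega) Ψ ?_ ?_ _ ?_
  · refine le_trans (le_of_eq ?_) (hε (3 * T))
    refine tsum_congr fun L => ?_
    unfold w
    by_cases h : fp hY (3 * T) L <;> by_cases h' : 3 * T + i0 < HT hY L <;> simp [h, h']
  · intro α x
    refine le_trans (ENNReal.tsum_le_tsum fun P => ?_) (sum_w ΛX hX h1X hΛX.le (3 * T))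
    refine le_trans (mul_le_mul_right ?_ _) (mul_one _).le
    refine le_trans (ENNReal.tsum_le_tsum fun P' => ?_) (sum_w ΛY hY h1Y hΛY.le (3 * T))
    split_ifs
    · rw [mul_one]
    · rw [mul_zero]; exact zero_le
  · intro α x hα
    simp only [Ψ]
    rw [ENNReal.tsum_eq_zero]
    intro P
    have : ∑' P', w ΛY hY (3 * T) P' *
        (if K0 hX hY zX zY sX sY a T i0 (a + T + 1) (a + 3 * T - s) x0 (HT hX A) (Dp zX A) P
          α x P' ∧ th ≤ m ΛY hY zY (3 * T) (HT hY P') (Dp zY P')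
            then (1 : ℝ≥0∞) else 0) = 0 := by
      rw [ENNReal.tsum_eq_zero]
      intro P'
      rw [if_neg, mul_zero]
      rintro ⟨hK, -⟩
      have := hK.2.2.1
      omega
    rw [this, mul_zero]
  · intro α' hα1 hα2 ν hν1 hνG
    by_cases hA : a ≤ HT hX A ∧ HT hX A ≤ a + i0
    swap
    · have : ∀ x, Ψ α' x = 0 := by
        intro x
        simp only [Ψ]
        rw [ENNReal.tsum_eq_zero]
        intro P
        have : ∑' P', w ΛY hY (3 * T) P' *
            (if K0 hX hY zX zY sX sY a T i0 (a + T + 1) (a + 3 * T - s) x0 (HT hX A) (Dp zX A) P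
              α' x P' ∧ th ≤ m ΛY hY zY (3 * T) (HT hY P') (Dp zY P')
                then (1 : ℝ≥0∞) else 0) = 0 := by
          rw [ENNReal.tsum_eq_zero]
          intro P'
          rw [if_neg, mul_zero]
          rintro ⟨hK, -⟩
          exact hA hK.1
        rw [this, mul_zero]
      simp only [this, mul_zero, tsum_zero]
      exact zero_le
    let F : ℕ × ℕ → G → ℝ≥0∞ := fun p y => ∑' L : List BX, ∑' L' : List BY,
      if HT hX L = 3 * T + p.1 ∧ HT hY L' = 3 * T + p.2 ∧ Dp zY L' ∈ E (3 * T + p.2) ∧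
          (∃ k, k ∈ CT hX hY zX zY sX sY L (HT hX A) L' y α') ∧
          (∀ k ∈ CT hX hY zX zY sX sY L (HT hX A) L' y α', k ≤ a + 3 * T - s)
        then LW ΛX L * LW ΛY L' else 0
    have hcard : ((Finset.range (i0 + 1) ×ˢ Finset.range (i0 + 1)).card : ℝ≥0∞)
        = ((i0 + 1) * (i0 + 1) : ℕ) := by
      rw [Finset.card_product, Finset.card_range]
    rw [← hcard]
    refine sumF _ ν F (Ψ α') ((Equiv.addLeft x0).trans (Equiv.subRight (Dp zX A))) ?_ _ ?_
    · intro x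
      have hswap : ∑ p ∈ Finset.range (i0 + 1) ×ˢ Finset.range (i0 + 1),
          F p (((Equiv.addLeft x0).trans (Equiv.subRight (Dp zX A))) x)
          = ∑' L : List BX, ∑' L' : List BY,
            ∑ p ∈ Finset.range (i0 + 1) ×ˢ Finset.range (i0 + 1),
            (if HT hX L = 3 * T + p.1 ∧ HT hY L' = 3 * T + p.2 ∧ Dp zY L' ∈ E (3 * T + p.2) ∧
              (∃ k, k ∈ CT hX hY zX zY sX sY L (HT hX A) L' (x0 + x - Dp zX A) α') ∧
              (∀ k ∈ CT hX hY zX zY sX sY L (HT hX A) L' (x0 + x - Dp zX A) α',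
                k ≤ a + 3 * T - s)
            then LW ΛX L * LW ΛY L' else 0) := by
        simp only [F, Equiv.trans_apply, Equiv.coe_addLeft, Equiv.subRight_apply]
        rw [← Summable.tsum_finsetSum (fun _ _ => ENNReal.summable)]
        refine tsum_congr fun L => ?_
        rw [← Summable.tsum_finsetSum (fun _ _ => ENNReal.summable)]
      rw [hswap]
      refine ENNReal.tsum_le_tsum fun P => ?_
      rw [← ENNReal.tsum_mul_left]
      refine ENNReal.tsum_le_tsum fun P' => ?_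
      by_cases hK : K0 hX hY zX zY sX sY a T i0 (a + T + 1) (a + 3 * T - s) x0 (HT hX A)
              (Dp zX A) P α' x P' ∧ th ≤ m ΛY hY zY (3 * T) (HT hY P') (Dp zY P')
      swap
      · rw [if_neg hK, mul_zero, mul_zero]; exact zero_le
      rw [if_pos hK, mul_one]
      obtain ⟨⟨k1, k2, k3, k4, k5, k6⟩, k7⟩ := hK
      have hmem : (HT hX P - 3 * T, HT hY P' - 3 * T) ∈
          Finset.range (i0 + 1) ×ˢ Finset.range (i0 + 1) := by
        rw [Finset.mem_product, Finset.mem_range, Finset.mem_range]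
        constructor
        · show HT hX P - 3 * T < i0 + 1
          omega
        · show HT hY P' - 3 * T < i0 + 1
          omega
      refine le_trans ?_ (Finset.single_le_sum (fun _ _ => zero_le) hmem)
      have e1 : 3 * T + (HT hX P - 3 * T) = HT hX P := by omega
      have e2 : 3 * T + (HT hY P' - 3 * T) = HT hY P' := by omega
      simp only [e1, e2]
      rw [if_pos ⟨trivial, trivial, hE P' k7, k5, fun k hk => (k6 k hk).2⟩]
      refine mul_le_mul' ?_ ?_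
      · unfold w
        split_ifs
        · exact le_rfl
        · exact zero_le
      · unfold w
        split_ifs
        · exact le_rfl
        · exact zero_le
    · intro p hp
      rw [Finset.mem_product, Finset.mem_range, Finset.mem_range] at hp
      refine le_trans (hH s (3 * T + p.1) (3 * T + p.2) (HT hX A) α' (a + 3 * T - s)
        (E (3 * T + p.2))
        (fun y => ν (((Equiv.addLeft x0).trans (Equiv.subRight (Dp zX A))).symm y)) Gd lam ?_ ?_
        hl0 hlt (by omega) (by omega) (by omega)) ?_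
      · rw [((Equiv.addLeft x0).trans (Equiv.subRight (Dp zX A))).symm.tsum_eq ν]
        exact hν1
      · intro y; exact hνG _
      · refine mul_le_mul_right ?_ _
        gcongr
        exact hc _

end two

end Crest.Agent.R154.Asm177
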