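import Crest.Agent.R154.AsmB_201

/-! Row 154, ROAD 801: traces of lists, the four pieces (helper201). -/

set_option autoImplicit false

namespace Crest.Agent.R154.Asm201

open scoped ENNReal Classical
open Filter Topology Crest.Agent.R154.B5A

section geo

variable {B G : Type*} [AddCommGroup G] (s : B → Set (G × ℕ)) (h : B → ℕ) (z : B → G)

/-- sites read by a list hung at `x`, depth `a` -/
def TX : List B → G → ℕ → Set (G × ℕ)
  | [], _, _ => ∅
  | b :: L, x, a => {p | ∃ q ∈ s b, p = (x + q.1, a + q.2)} ∪ TX L (x + z b) (a + h b)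

lemma TX_append (L L' : List B) (x : G) (a : ℕ) :
    TX s h z (L ++ L') x a = TX s h z L x a ∪ TX s h z L' (x + Dp z L) (a + HT h L) := by
  induction L generalizing x a with
  | nil => simp [TX, Dp, HT_nil]
  | cons b L ih =>
    rw [List.cons_append, TX, TX, ih, Set.union_assoc, HT_cons]
    congr 3
    · simp [Dp, add_assoc]
    · rw [add_assoc]

lemma TX_depth (hs : ∀ b, ∀ q ∈ s b, 1 ≤ q.2 ∧ q.2 ≤ h b) (L : List B) (x : G) (a : ℕ) (g : G)
    (k : ℕ) (hk : (g, k) ∈ TX s h z L x a) : a < k ∧ k ≤ a + HT h L := by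
  induction L generalizing x a with
  | nil => exact hk.elim
  | cons b L ih =>
    rw [HT_cons]
    rcases hk with ⟨q, hq, he⟩ | hk
    · have := hs b q hq
      have h2 := (Prod.ext_iff.1 he).2
      simp only at h2
      omega
    · have := ih _ _ hk
      omega

lemma TX_shift (L : List B) (x x0 : G) (a : ℕ) (g : G) (k : ℕ) :
    (g, k) ∈ TX s h z L (x + x0) a ↔ (g - x0, k) ∈ TX s h z L x a := by
  induction L generalizing x a with
  | nil => exact Iff.rfl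
  | cons b L ih =>
    rw [TX, TX, Set.mem_union, Set.mem_union, show x + x0 + z b = x + z b + x0 by abel, ih]
    refine or_congr ?_ Iff.rfl
    constructor
    · rintro ⟨q, hq, he⟩
      refine ⟨q, hq, ?_⟩
      rw [Prod.ext_iff] at he ⊢
      refine ⟨?_, he.2⟩
      have := he.1
      simp only at this ⊢
      rw [this]; abel
    · rintro ⟨q, hq, he⟩
      refine ⟨q, hq, ?_⟩
      rw [Prod.ext_iff] at he ⊢
      refine ⟨?_, he.2⟩
      have := he.1
      simp only at this ⊢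
      rw [sub_eq_iff_eq_add] at this
      rw [this]; abel

end geo

section two

variable {BX BY G : Type*} [AddCommGroup G]
  (ΛX : BX → ℝ≥0∞) (ΛY : BY → ℝ≥0∞) (hX : BX → ℕ) (hY : BY → ℕ) (zX : BX → G) (zY : BY → G)
  (sX : BX → Set (G × ℕ)) (sY : BY → Set (G × ℕ))

/-- common site -/
def Ct (L : List BX) (L' : List BY) (x : G) (a a' : ℕ) (g : G) (k : ℕ) : Prop :=
  (g, k) ∈ TX sX hX zX L 0 a ∧ (g, k) ∈ TX sY hY zY L' x a'

/-- the contacts of the middle pieces -/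
lemma deep (hsX : ∀ b, ∀ q ∈ sX b, 1 ≤ q.2 ∧ q.2 ≤ hX b)
    (hsY : ∀ b, ∀ q ∈ sY b, 1 ≤ q.2 ∧ q.2 ≤ hY b) (T P R : List BX) (T' P' R' : List BY) (w : G)
    (b t hi sl : ℕ)
    (h1 : ∀ g k, Ct hX hY zX zY sX sY (T ++ (P ++ R)) (T' ++ (P' ++ R')) w 0 0 g k →
      b < k ∧ ¬ (hi < k ∧ k ≤ hi + sl))
    (h2 : ∃ g k, Ct hX hY zX zY sX sY (T ++ (P ++ R)) (T' ++ (P' ++ R')) w 0 0 g k ∧ k ≤ b + t)
    (a1 : HT hX T ≤ b) (a2 : b + t ≤ HT hX T + HT hX P) (a3 : HT hX T + HT hX P ≤ hi + sl)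
    (b1 : HT hY T' ≤ b) (b2 : b + t ≤ HT hY T' + HT hY P') :
    (∃ g k, Ct hX hY zX zY sX sY P P' (w + Dp zY T' - Dp zX T) (HT hX T) (HT hY T') g k) ∧
    (∀ g k, Ct hX hY zX zY sX sY P P' (w + Dp zY T' - Dp zX T) (HT hX T) (HT hY T') g k →
      b < k ∧ k ≤ hi) := by
  have e1 : ∀ g k, (g, k) ∈ TX sX hX zX P 0 (HT hX T) ↔
      (g + Dp zX T, k) ∈ TX sX hX zX P (Dp zX T) (HT hX T) := by
    intro g k
    have := TX_shift sX hX zX P 0 (Dp zX T) (HT hX T) (g + Dp zX T) k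
    rw [zero_add, add_sub_cancel_right] at this
    exact this.symm
  have e2 : ∀ g k, (g, k) ∈ TX sY hY zY P' (w + Dp zY T' - Dp zX T) (HT hY T') ↔
      (g + Dp zX T, k) ∈ TX sY hY zY P' (w + Dp zY T') (HT hY T') := by
    intro g k
    have := TX_shift sY hY zY P' (w + Dp zY T' - Dp zX T) (Dp zX T) (HT hY T') (g + Dp zX T) k
    rw [sub_add_cancel, add_sub_cancel_right] at this
    exact this.symm
  constructor
  · obtain ⟨g, k, ⟨hg1, hg2⟩, hk⟩ := h2
    have hb := (h1 g k ⟨hg1, hg2⟩).1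
    refine ⟨g - Dp zX T, k, ?_, ?_⟩
    · rw [e1, sub_add_cancel]
      rw [TX_append, TX_append] at hg1
      simp only [zero_add] at hg1
      rcases hg1 with hg | hg | hg
      · have := TX_depth sX hX zX hsX _ _ _ _ _ hg; omega
      · exact hg
      · have := TX_depth sX hX zX hsX _ _ _ _ _ hg; omega
    · rw [e2, sub_add_cancel]
      rw [TX_append, TX_append] at hg2
      simp only [zero_add] at hg2
      rcases hg2 with hg | hg | hg
      · have := TX_depth sY hY zY hsY _ _ _ _ _ hg; omega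
      · exact hg
      · have := TX_depth sY hY zY hsY _ _ _ _ _ hg; omega
  · rintro g k ⟨hg1, hg2⟩
    have hd := TX_depth sX hX zX hsX _ _ _ _ _ hg1
    rw [e1] at hg1
    rw [e2] at hg2
    have := h1 (g + Dp zX T) k ⟨by
      rw [TX_append, TX_append]
      simp only [zero_add]
      exact Or.inr (Or.inl hg1), by
      rw [TX_append, TX_append]
      simp only [zero_add]
      exact Or.inr (Or.inl hg2)⟩
    refine ⟨this.1, ?_⟩
    by_contra hc
    exact this.2 ⟨by omega, by omega⟩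

/-- weight of the first two pieces -/
noncomputable def wt {B : Type*} (ht : B → ℕ) (Λ : B → ℝ≥0∞) (a l i0 : ℕ) (p : List B × List B) :
    ℝ≥0∞ :=
  if FP ht a p.1 ∧ HT ht p.1 ≤ a + i0 ∧ FP ht l p.2 ∧ HT ht p.2 ≤ l + i0
    then LW Λ p.1 * LW Λ p.2 else 0

lemma wt_mass {B : Type*} (ht : B → ℕ) (Λ : B → ℝ≥0∞) (h1 : ∀ b, 1 ≤ ht b)
    (hΛ : ∑' b, Λ b = 1) (a l i0 : ℕ) : ∑' p, wt ht Λ a l i0 p ≤ 1 := by
  rw [ENNReal.tsum_prod']
  calc _ ≤ ∑' T, (if FP ht a T then LW Λ T else 0) * ∑' P, (if FP ht l P then LW Λ P else 0) := by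
        refine ENNReal.tsum_le_tsum fun T => ?_
        rw [← ENNReal.tsum_mul_left]
        refine ENNReal.tsum_le_tsum fun P => ?_
        by_cases hc : FP ht a T ∧ HT ht T ≤ a + i0 ∧ FP ht l P ∧ HT ht P ≤ l + i0
        · rw [wt, if_pos hc, if_pos hc.1, if_pos hc.2.2.1]
        · rw [wt, if_neg hc]; exact zero_le
    _ = 1 := by simp_rw [fp_mass ht Λ h1 hΛ, mul_one]; exact fp_mass ht Λ h1 hΛ a

lemma piece' {B : Type*} (ht : B → ℕ) (Λ : B → ℝ≥0∞) (h1 : ∀ b, 1 ≤ ht b)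
    (hΛ : ∑' b, Λ b = 1) (a l n i0 : ℕ) (hn : a + i0 + l ≤ n) (E : List B → Prop) :
    ∑' L, (if HT ht L = n ∧ E L then LW Λ L else 0)
      ≤ 2 * e1 ht Λ i0 + ∑' p, wt ht Λ a l i0 p *
        (if ∃ R, E (p.1 ++ (p.2 ++ R)) then 1 else 0) := by
  refine (piece ht Λ h1 hΛ a l n i0 hn E).trans ?_
  rw [ENNReal.tsum_prod']
  gcongr with T P
  unfold wt
  simp only
  by_cases hc : FP ht a T ∧ HT ht T ≤ a + i0 ∧ FP ht l P ∧ HT ht P ≤ l + i0
  · by_cases hE : ∃ R, E (T ++ (P ++ R))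
    · rw [if_pos hc, if_pos hE, mul_one]
      split_ifs
      · exact le_rfl
      · exact zero_le
    · rw [if_neg hE, if_neg, mul_zero]
      rintro ⟨-, -, -, -, R, -, hR⟩
      exact hE ⟨R, hR⟩
  · rw [if_neg hc, if_neg, zero_mul]
    rintro ⟨x1, x2, x3, x4, -⟩
    exact hc ⟨x1, x2, x3, x4⟩

lemma two_piece (h1X : ∀ b, 1 ≤ hX b) (h1Y : ∀ b, 1 ≤ hY b) (hΛX : ∑' b, ΛX b = 1)
    (hΛY : ∑' b, ΛY b = 1) (a l a' l' n i0 : ℕ) (hn : a + i0 + l ≤ n) (hn' : a' + i0 + l' ≤ n)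
    (Ev : List BX → List BY → Prop) :
    ∑' L, ∑' L', (if HT hX L = n ∧ HT hY L' = n ∧ Ev L L' then LW ΛX L * LW ΛY L' else 0)
      ≤ 2 * e1 hX ΛX i0 + 2 * e1 hY ΛY i0 + ∑' p, ∑' q, wt hX ΛX a l i0 p *
        (wt hY ΛY a' l' i0 q *
        (if ∃ R R', Ev (p.1 ++ (p.2 ++ R)) (q.1 ++ (q.2 ++ R')) then 1 else 0)) := by
  calc _ ≤ ∑' L, (if HT hX L = n then LW ΛX L else 0) * (2 * e1 hY ΛY i0 +
        ∑' q, wt hY ΛY a' l' i0 q * (if ∃ R', Ev L (q.1 ++ (q.2 ++ R')) then 1 else 0)) := by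
        refine ENNReal.tsum_le_tsum fun L => ?_
        by_cases hL : HT hX L = n
        · rw [if_pos hL]
          refine le_trans (le_of_eq ?_) (mul_le_mul_right
            (piece' hY ΛY h1Y hΛY a' l' n i0 hn' (fun L' => Ev L L')) (LW ΛX L))
          rw [← ENNReal.tsum_mul_left]
          refine tsum_congr fun L' => ?_
          by_cases hc : HT hY L' = n ∧ Ev L L'
          · rw [if_pos ⟨hL, hc⟩, if_pos hc]
          · rw [if_neg (fun h => hc h.2), if_neg hc, mul_zero]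
        · simp [hL]
    _ = (∑' L, (if HT hX L = n then LW ΛX L else 0)) * (2 * e1 hY ΛY i0) +
        ∑' L, (if HT hX L = n then LW ΛX L else 0) *
        ∑' q, wt hY ΛY a' l' i0 q * (if ∃ R', Ev L (q.1 ++ (q.2 ++ R')) then 1 else 0) := by
        rw [← ENNReal.tsum_mul_right, ← ENNReal.tsum_add]
        exact tsum_congr fun L => mul_add _ _ _
    _ ≤ 1 * (2 * e1 hY ΛY i0) + ∑' q, wt hY ΛY a' l' i0 q * (2 * e1 hX ΛX i0 +
        ∑' p, wt hX ΛX a l i0 p *
        (if ∃ R R', Ev (p.1 ++ (p.2 ++ R)) (q.1 ++ (q.2 ++ R')) then 1 else 0)) := by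
        refine add_le_add (mul_le_mul_left (U_le hX ΛX h1X hΛX n) _) ?_
        simp_rw [← ENNReal.tsum_mul_left (a := (if HT hX _ = n then LW ΛX _ else 0))]
        rw [ENNReal.tsum_comm]
        refine ENNReal.tsum_le_tsum fun q => ?_
        refine le_trans (le_of_eq ?_) (mul_le_mul_right
          (piece' hX ΛX h1X hΛX a l n i0 hn (fun L => ∃ R', Ev L (q.1 ++ (q.2 ++ R'))))
          (wt hY ΛY a' l' i0 q))
        rw [← ENNReal.tsum_mul_left]
        refine tsum_congr fun L => ?_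
        by_cases hc : ∃ R', Ev L (q.1 ++ (q.2 ++ R'))
        · simp only [hc, and_true, if_true, mul_one]
          split_ifs <;> ring
        · simp only [hc, and_false, if_false, mul_zero]
    _ = 1 * (2 * e1 hY ΛY i0) + ((∑' q, wt hY ΛY a' l' i0 q) * (2 * e1 hX ΛX i0) +
        ∑' q, ∑' p, wt hX ΛX a l i0 p * (wt hY ΛY a' l' i0 q *
        (if ∃ R R', Ev (p.1 ++ (p.2 ++ R)) (q.1 ++ (q.2 ++ R')) then 1 else 0))) := by
        rw [← ENNReal.tsum_mul_right, ← ENNReal.tsum_add]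
        congr 1
        refine tsum_congr fun q => ?_
        rw [mul_add, ← ENNReal.tsum_mul_left]
        congr 1
        exact tsum_congr fun p => by ring
    _ ≤ _ := by
        rw [ENNReal.tsum_comm (f := fun q p => wt hX ΛX a l i0 p * (wt hY ΛY a' l' i0 q *
        (if ∃ R R', Ev (p.1 ++ (p.2 ++ R)) (q.1 ++ (q.2 ++ R')) then 1 else 0)))]
        have := wt_mass hY ΛY h1Y hΛY a' l' i0
        calc _ ≤ 1 * (2 * e1 hY ΛY i0) + (1 * (2 * e1 hX ΛX i0) + _) := by gcongr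
          _ = _ := by rw [one_mul, one_mul, ← add_assoc, add_comm (2 * e1 hY ΛY i0)]

end two

end Crest.Agent.R154.Asm201
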