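import Crest.Agent.R154.AsmB_207
import Crest.Agent.R154.KWBind_419

/-! Row 154 (helper207), ROAD 801, assembly part C: one window. -/

set_option autoImplicit false

namespace Crest.Agent.R154.Asm207

open scoped ENNReal Topology
open Crest.Agent.R154.B5A
open Crest.Agent.R154.KWB419 (TT)

section one

variable {B : Type*} (Λ : B → ℝ≥0∞) (ht : B → ℕ)

open Classical in
lemma split (h1 : ∀ b, 1 ≤ ht b) (hU1 : ∀ n, U Λ ht n ≤ 1)
    (F : List B → ℝ≥0∞) (hF1 : ∀ L, F L ≤ 1) (Gf : List B → List B → ℝ≥0∞)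
    (n t0 T i0 : ℕ) (hn : t0 + i0 + T ≤ n)
    (hG : ∀ U1 P U2, FP ht t0 U1 → HT ht U1 ≤ t0 + i0 → FP ht T P →
      HT ht (U1 ++ (P ++ U2)) = n → F (U1 ++ (P ++ U2)) ≤ Gf U1 P) :
    ∑' L : List B, (if HT ht L = n then LW Λ L * F L else 0)
      ≤ FPS Λ ht t0 (fun U1 => if HT ht U1 ≤ t0 + i0 then FPS Λ ht T (fun P => Gf U1 P) else 0)
        + ov Λ ht i0 := by
  have hrest : ∀ (A : List B) (c : ℝ≥0∞) (f : List B → ℝ≥0∞), (∀ L2, HT ht (A ++ L2) = n → f L2 ≤ c) →
      (∀ L2, HT ht (A ++ L2) ≠ n → f L2 = 0) → ∑' L2, LW Λ L2 * f L2 ≤ c := by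
    intro A c f hf hf0
    calc ∑' L2, LW Λ L2 * f L2
        ≤ ∑' L2, (if HT ht L2 = n - HT ht A then LW Λ L2 else 0) * c := by
          refine ENNReal.tsum_le_tsum fun L2 => ?_
          by_cases h : HT ht (A ++ L2) = n
          · have h' : HT ht L2 = n - HT ht A := by rw [HT_append] at h; omega
            rw [if_pos h']
            exact mul_le_mul_right (hf L2 h) _
          · rw [hf0 L2 h, mul_zero]; exact zero_le
      _ = U Λ ht (n - HT ht A) * c := by rw [ENNReal.tsum_mul_right]; rfl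
      _ ≤ c := mul_le_of_le_one_left zero_le (hU1 _)
  set F' : List B → ℝ≥0∞ := fun L => if HT ht L = n then F L else 0 with hF'
  have e1 : ∑' L : List B, (if HT ht L = n then LW Λ L * F L else 0)
      ≤ FPS Λ ht t0 (fun L1 => ∑' L2, LW Λ L2 * F' (L1 ++ L2)) := by
    refine le_trans ?_ (sum_le_FPS Λ ht h1 t0 F')
    refine ENNReal.tsum_le_tsum fun L => ?_
    by_cases h : HT ht L = n
    · rw [if_pos h, if_pos (by omega), hF']
      simp only [if_pos h]
      exact le_rfl
    · rw [if_neg h]; exact zero_le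
  refine e1.trans ?_
  have e2 : ∀ U1, FP ht t0 U1 → ∑' L2, LW Λ L2 * F' (U1 ++ L2)
      ≤ (if HT ht U1 ≤ t0 + i0 then FPS Λ ht T (fun P => Gf U1 P) else 0)
        + (if t0 + i0 < HT ht U1 then 1 else 0) := by
    intro U1 hU
    by_cases hle : HT ht U1 ≤ t0 + i0
    · rw [if_pos hle, if_neg (by omega), add_zero]
      have e3 : ∑' L2, LW Λ L2 * F' (U1 ++ L2)
          ≤ FPS Λ ht T (fun P => ∑' U2, LW Λ U2 * F' (U1 ++ (P ++ U2))) := by
        refine le_trans ?_ (sum_le_FPS Λ ht h1 T (fun L2 => F' (U1 ++ L2)))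
        refine ENNReal.tsum_le_tsum fun L2 => ?_
        by_cases h : HT ht (U1 ++ L2) = n
        · rw [HT_append] at h
          rw [if_pos (by omega)]
        · rw [hF']
          simp only [if_neg h, mul_zero]
          exact zero_le
      refine e3.trans (FPS_mono Λ ht T fun P hP => ?_)
      refine hrest (U1 ++ P) _ _ (fun U2 h => ?_) (fun U2 h => ?_)
      · rw [List.append_assoc] at h
        rw [hF']
        simp only [if_pos h]
        exact hG U1 P U2 hU hle hP h
      · rw [List.append_assoc] at h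
        rw [hF']
        simp only [if_neg h]
    · rw [if_neg hle, if_pos (by omega), zero_add]
      refine hrest U1 1 _ (fun U2 h => ?_) (fun U2 h => ?_)
      · rw [hF']
        simp only [if_pos h]
        exact hF1 _
      · rw [hF']
        simp only [if_neg h]
  refine (FPS_mono Λ ht t0 e2).trans ?_
  rw [FPS_add]
  exact add_le_add le_rfl (FPS_over Λ ht h1 hU1 t0 i0)

end one

section mix

variable {G : Type*} [AddCommGroup G]

/-- summation over tops: four bounded parameters -/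
lemma mix (P P' : ℕ × G → ℝ≥0∞) (R : ℕ × G → ℕ × G → ℝ≥0∞) (i0 : ℕ) (w : G)
    (S : ℕ → ℕ → ℕ → ℕ → G → ℝ≥0∞) (b : ℝ≥0∞)
    (hR : ∀ q q', R q q' ≤ if q.1 ≤ i0 ∧ q'.1 ≤ i0 then
      ∑ i2 ∈ Finset.range (i0 + 1), ∑ i3 ∈ Finset.range (i0 + 1),
        S q.1 q'.1 i2 i3 (w + q'.2 - q.2) else 0)
    (hb : ∀ i ≤ i0, ∀ i' ≤ i0, ∀ i2 ≤ i0, ∀ i3 ≤ i0,
      ∑' x, (∑' y', P' (i', y') * P (i, w + y' - x)) * S i i' i2 i3 x ≤ b) :
    ∑' q, ∑' q', P q * P' q' * R q q' ≤ ((i0 + 1 : ℕ) : ℝ≥0∞) ^ 4 * b := by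
  have key : ∀ i i' i2 i3, ∑' y, ∑' y', P (i, y) * P' (i', y') * S i i' i2 i3 (w + y' - y)
      = ∑' x, (∑' y', P' (i', y') * P (i, w + y' - x)) * S i i' i2 i3 x := by
    intro i i' i2 i3
    rw [ENNReal.tsum_comm]
    have e : ∀ y', ∑' y, P (i, y) * P' (i', y') * S i i' i2 i3 (w + y' - y)
        = ∑' x, P (i, w + y' - x) * P' (i', y') * S i i' i2 i3 x := by
      intro y'
      rw [← tsum_sub_left (fun y => P (i, y) * P' (i', y') * S i i' i2 i3 (w + y' - y)) (w + y')]
      refine tsum_congr fun x => ?_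
      rw [show w + y' - (w + y' - x) = x by abel]
    rw [tsum_congr e, ENNReal.tsum_comm]
    refine tsum_congr fun x => ?_
    rw [← ENNReal.tsum_mul_right]
    refine tsum_congr fun y' => ?_
    ring
  calc ∑' q, ∑' q', P q * P' q' * R q q'
      ≤ ∑' q : ℕ × G, ∑' q' : ℕ × G, ∑ i ∈ Finset.range (i0 + 1), ∑ i' ∈ Finset.range (i0 + 1),
          ∑ i2 ∈ Finset.range (i0 + 1), ∑ i3 ∈ Finset.range (i0 + 1),
          (if q.1 = i ∧ q'.1 = i' then P q * P' q' * S i i' i2 i3 (w + q'.2 - q.2) else 0) := by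
        refine ENNReal.tsum_le_tsum fun q => ENNReal.tsum_le_tsum fun q' => ?_
        refine (mul_le_mul_right (hR q q') _).trans ?_
        by_cases h : q.1 ≤ i0 ∧ q'.1 ≤ i0
        · rw [if_pos h]
          have a1 : q.1 ∈ Finset.range (i0 + 1) := Finset.mem_range.2 (by omega)
          have a2 : q'.1 ∈ Finset.range (i0 + 1) := Finset.mem_range.2 (by omega)
          refine le_trans ?_ (Finset.single_le_sum (f := fun i => ∑ i' ∈ Finset.range (i0 + 1),
            ∑ i2 ∈ Finset.range (i0 + 1), ∑ i3 ∈ Finset.range (i0 + 1),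
            (if q.1 = i ∧ q'.1 = i' then P q * P' q' * S i i' i2 i3 (w + q'.2 - q.2) else 0))
            (fun _ _ => zero_le) a1)
          refine le_trans ?_ (Finset.single_le_sum (f := fun i' =>
            ∑ i2 ∈ Finset.range (i0 + 1), ∑ i3 ∈ Finset.range (i0 + 1),
            (if q.1 = q.1 ∧ q'.1 = i' then P q * P' q' * S q.1 i' i2 i3 (w + q'.2 - q.2) else 0))
            (fun _ _ => zero_le) a2)
          simp only [and_self, if_true]
          rw [Finset.mul_sum]
          refine Finset.sum_le_sum fun i2 _ => ?_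
          rw [Finset.mul_sum]
        · rw [if_neg h, mul_zero]; exact zero_le
    _ = ∑ i ∈ Finset.range (i0 + 1), ∑ i' ∈ Finset.range (i0 + 1),
          ∑ i2 ∈ Finset.range (i0 + 1), ∑ i3 ∈ Finset.range (i0 + 1),
          ∑' q : ℕ × G, ∑' q' : ℕ × G,
          (if q.1 = i ∧ q'.1 = i' then P q * P' q' * S i i' i2 i3 (w + q'.2 - q.2) else 0) := by
        have sw : ∀ (f : ℕ → ℕ × G → ℕ × G → ℝ≥0∞), ∑' q, ∑' q', ∑ i ∈ Finset.range (i0 + 1), f i q q'
            = ∑ i ∈ Finset.range (i0 + 1), ∑' q, ∑' q', f i q q' := by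
          intro f
          rw [← Summable.tsum_finsetSum (fun _ _ => ENNReal.summable)]
          refine tsum_congr fun q => ?_
          rw [← Summable.tsum_finsetSum (fun _ _ => ENNReal.summable)]
        rw [sw]
        refine Finset.sum_congr rfl fun i _ => ?_
        rw [sw]
        refine Finset.sum_congr rfl fun i' _ => ?_
        rw [sw]
        refine Finset.sum_congr rfl fun i2 _ => ?_
        rw [sw]
    _ ≤ ∑ i ∈ Finset.range (i0 + 1), ∑ i' ∈ Finset.range (i0 + 1),
          ∑ i2 ∈ Finset.range (i0 + 1), ∑ i3 ∈ Finset.range (i0 + 1), b := by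
        refine Finset.sum_le_sum fun i hi => Finset.sum_le_sum fun i' hi' =>
          Finset.sum_le_sum fun i2 hi2 => Finset.sum_le_sum fun i3 hi3 => ?_
        rw [Finset.mem_range] at hi hi' hi2 hi3
        refine le_trans (le_of_eq ?_) (hb i (by omega) i' (by omega) i2 (by omega) i3 (by omega))
        rw [← key]
        rw [ENNReal.tsum_prod', tsum_eq_single i]
        · refine tsum_congr fun y => ?_
          rw [ENNReal.tsum_prod', tsum_eq_single i']
          · refine tsum_congr fun y' => ?_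
            simp
          · intro k hk
            simp [hk]
        · intro k hk
          simp [hk]
    _ = _ := by
        simp only [Finset.sum_const, Finset.card_range, nsmul_eq_mul]
        push_cast
        ring

end mix

end Crest.Agent.R154.Asm207
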