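import Crest.Agent.R154.AsmB_217

/-! Row 154, ROAD 801 (helper217): the bound of one window. -/

set_option autoImplicit false

namespace Crest.Agent.R154.Asm217

open scoped ENNReal
open Crest.Agent.R154.B5A Crest.Agent.R154.AsmA789 Crest.Agent.R154.FP178

/-! ### generalities on `SL` -/

lemma SL_comm {A A' : Type*} (P : A → ℝ≥0∞) (P' : A' → ℝ≥0∞) (j j' : ℕ)
    (F : List A → List A' → ℝ≥0∞) :
    SL P j (fun L => SL P' j' (fun L' => F L L')) = SL P' j' (fun L' => SL P j (fun L => F L L')) := by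
  simp only [SL]
  have e : ∀ L : List A, (if L.length = j then LW P L *
      ∑' L' : List A', (if L'.length = j' then LW P' L' * F L L' else 0) else 0)
      = ∑' L' : List A', (if L.length = j ∧ L'.length = j' then LW P L * LW P' L' * F L L' else 0) := by
    intro L
    by_cases h : L.length = j
    · rw [if_pos h, ← ENNReal.tsum_mul_left]
      refine tsum_congr fun L' => ?_
      by_cases h' : L'.length = j'
      · rw [if_pos h', if_pos ⟨h, h'⟩]; ring
      · rw [if_neg h', if_neg (fun hh => h' hh.2), mul_zero]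
    · rw [if_neg h]
      symm
      refine ENNReal.tsum_eq_zero.2 fun L' => ?_
      rw [if_neg (fun hh => h hh.1)]
  have e' : ∀ L' : List A', (if L'.length = j' then LW P' L' *
      ∑' L : List A, (if L.length = j then LW P L * F L L' else 0) else 0)
      = ∑' L : List A, (if L.length = j ∧ L'.length = j' then LW P L * LW P' L' * F L L' else 0) := by
    intro L'
    by_cases h' : L'.length = j'
    · rw [if_pos h', ← ENNReal.tsum_mul_left]
      refine tsum_congr fun L => ?_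
      by_cases h : L.length = j
      · rw [if_pos h, if_pos ⟨h, h'⟩]; ring
      · rw [if_neg h, if_neg (fun hh => h hh.1), mul_zero]
    · rw [if_neg h']
      symm
      refine ENNReal.tsum_eq_zero.2 fun L => ?_
      rw [if_neg (fun hh => h' hh.2)]
  rw [tsum_congr e, tsum_congr e', ENNReal.tsum_comm]

lemma tsum_SL {A A' : Type*} (P : A → ℝ≥0∞) (P' : A' → ℝ≥0∞) (j : ℕ)
    (F : A → List A' → ℝ≥0∞) :
    ∑' a, P a * SL P' j (F a) = SL P' j (fun L => ∑' a, P a * F a L) := by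
  simp only [SL]
  have e : ∀ a, P a * ∑' L : List A', (if L.length = j then LW P' L * F a L else 0)
      = ∑' L : List A', (if L.length = j then LW P' L * (P a * F a L) else 0) := by
    intro a
    rw [← ENNReal.tsum_mul_left]
    refine tsum_congr fun L => ?_
    split_ifs
    · ring
    · simp
  rw [tsum_congr e, ENNReal.tsum_comm]
  refine tsum_congr fun L => ?_
  by_cases h : L.length = j
  · simp only [h, if_true]; rw [ENNReal.tsum_mul_left]
  · simp [h]

/-! ### displacement -/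

variable {G : Type*} [AddCommGroup G]

/-- displacement of a list -/
def Dp {B : Type*} (z : B → G) (L : List B) : G := (L.map z).sum

lemma Dp_append {B : Type*} (z : B → G) (L L' : List B) : Dp z (L ++ L') = Dp z L + Dp z L' := by
  simp [Dp]

/-- height and displacement -/
def hz {B : Type*} (h : B → ℕ) (z : B → G) (L : List B) : ℤ × G := ((HT h L : ℤ), Dp z L)

lemma hz_flatten {B : Type*} (h : B → ℕ) (z : B → G) (As : List (List B)) :
    (As.map (hz h z)).sum = hz h z As.flatten := by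
  induction As with
  | nil => simp [hz, HT, Dp]; rfl
  | cons A As ih =>
    rw [List.map_cons, List.sum_cons, ih, List.flatten_cons]
    simp only [hz, HT_append, Dp_append, Prod.mk_add_mk]
    push_cast
    rfl

lemma sum_PW_one {B : Type*} (Λ : B → ℝ≥0∞) (ht : B → ℕ) (h1 : ∀ b, 1 ≤ ht b)
    (hΛ : ∑' b, Λ b = 1) (T : ℕ) : ∑' A, PW Λ ht T A = 1 := by
  induction T using Nat.strong_induction_on with
  | _ T ih =>
    rcases Nat.eq_zero_or_pos T with rfl | hT
    · have := sum_fp_zero Λ ht (fun _ => 1)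
      simp only [mul_one] at this
      exact this
    · have := sum_fp_step Λ ht T hT (fun _ => 1)
      simp only [mul_one] at this
      have e : ∑' A, PW Λ ht T A = ∑' b, Λ b * ∑' A, PW Λ ht (T - ht b) A := this
      rw [e, ← hΛ]
      refine tsum_congr fun b => ?_
      rw [ih (T - ht b) (by have := h1 b; omega), mul_one]

/-! ### the law of a piece, the quantile -/

section law

variable {A V : Type*} (P : A → ℝ≥0∞) (g : A → V)

open Classical in
/-- push-forward -/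
noncomputable def law (v : V) : ℝ≥0∞ := ∑' a, if g a = v then P a else 0

open Classical in
lemma push (F : V → ℝ≥0∞) : ∑' v, law P g v * F v = ∑' a, P a * F (g a) := by
  unfold law
  simp_rw [← ENNReal.tsum_mul_right]
  rw [ENNReal.tsum_comm]
  refine tsum_congr fun a => ?_
  rw [tsum_eq_single (g a)]
  · rw [if_pos rfl]
  · intro v hv
    rw [if_neg (fun h => hv h.symm), zero_mul]

lemma sum_law : ∑' v, law P g v = ∑' a, P a := by
  have := push P g (fun _ => 1)
  simpa using this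

open Classical in
lemma push_lt (θ : ℝ≥0∞) : (∑' v, if law P g v < θ then law P g v else 0)
    = ∑' a, if law P g (g a) < θ then P a else 0 := by
  have := push P g (fun v => if law P g v < θ then 1 else 0)
  calc (∑' v, if law P g v < θ then law P g v else 0)
      = ∑' v, law P g v * (if law P g v < θ then 1 else 0) :=
        tsum_congr fun v => by split_ifs <;> simp
    _ = _ := this
    _ = _ := tsum_congr fun a => by split_ifs <;> simp

open Classical in
lemma law_small (θ : ℝ≥0∞) (v : V) :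
    ∑' a, (if law P g (g a) < θ ∧ g a = v then P a else 0) ≤ θ := by
  by_cases hv : law P g v < θ
  · refine le_trans (ENNReal.tsum_le_tsum fun a => ?_) hv.le
    by_cases h : g a = v
    · rw [if_pos h]; split_ifs <;> simp
    · rw [if_neg h, if_neg (fun hh => h hh.2)]
  · have : ∀ a, ¬ (law P g (g a) < θ ∧ g a = v) := by
      rintro a ⟨h1, h2⟩
      rw [h2] at h1
      exact hv h1
    simp [this]

end law

/-! ### contact events -/

variable {B₁ B₂ : Type*}

/-- common site, all common sites with depth in `[lo, hi]` -/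
def Ev (T₁ : List B₁ → G → ℕ → Set (G × ℕ)) (T₂ : List B₂ → G → ℕ → Set (G × ℕ))
    (lo hi : ℕ) (L : List B₁) (x : G) (a : ℕ) (L' : List B₂) (y : G) (a' : ℕ) : Prop :=
  (∃ z k, (z, k) ∈ T₁ L x a ∧ (z, k) ∈ T₂ L' y a') ∧
    ∀ z k, (z, k) ∈ T₁ L x a → (z, k) ∈ T₂ L' y a' → lo ≤ k ∧ k ≤ hi

lemma Ev_shift (T₁ : List B₁ → G → ℕ → Set (G × ℕ)) (T₂ : List B₂ → G → ℕ → Set (G × ℕ))
    (ht₁ : ∀ L x a z k, (z, k) ∈ T₁ L x a ↔ (z - x, k) ∈ T₁ L 0 a)
    (ht₂ : ∀ L x a z k, (z, k) ∈ T₂ L x a ↔ (z - x, k) ∈ T₂ L 0 a)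
    (lo hi : ℕ) (L : List B₁) (x : G) (a : ℕ) (L' : List B₂) (y : G) (a' : ℕ) :
    Ev T₁ T₂ lo hi L x a L' y a' ↔ Ev T₁ T₂ lo hi L 0 a L' (y - x) a' := by
  have h1 : ∀ z k, (z, k) ∈ T₁ L x a ↔ (z - x, k) ∈ T₁ L 0 a := fun z k => ht₁ L x a z k
  have h2 : ∀ z k, (z, k) ∈ T₂ L' y a' ↔ (z - x, k) ∈ T₂ L' (y - x) a' := by
    intro z k
    rw [ht₂ L' y a' z k, ht₂ L' (y - x) a' (z - x) k]
    have : z - x - (y - x) = z - y := by abel
    rw [this]
  constructor
  · rintro ⟨⟨z, k, a1, a2⟩, h⟩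
    refine ⟨⟨z - x, k, (h1 z k).1 a1, (h2 z k).1 a2⟩, fun z' k' b1 b2 => ?_⟩
    have e : z' = (z' + x) - x := by abel
    rw [e] at b1 b2
    exact h (z' + x) k' ((h1 _ _).2 b1) ((h2 _ _).2 b2)
  · rintro ⟨⟨z, k, a1, a2⟩, h⟩
    have e : z = (z + x) - x := by abel
    rw [e] at a1 a2
    refine ⟨⟨z + x, k, (h1 _ _).2 a1, (h2 _ _).2 a2⟩, fun z' k' b1 b2 => ?_⟩
    exact h (z' - x) k' ((h1 _ _).1 b1) ((h2 _ _).1 b2)

lemma Ev_swap (T₁ : List B₁ → G → ℕ → Set (G × ℕ)) (T₂ : List B₂ → G → ℕ → Set (G × ℕ))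
    (lo hi : ℕ) (L : List B₁) (x : G) (a : ℕ) (L' : List B₂) (y : G) (a' : ℕ) :
    Ev T₁ T₂ lo hi L x a L' y a' ↔ Ev T₂ T₁ lo hi L' y a' L x a := by
  constructor
  · rintro ⟨⟨z, k, a1, a2⟩, h⟩
    exact ⟨⟨z, k, a2, a1⟩, fun z' k' b1 b2 => h z' k' b2 b1⟩
  · rintro ⟨⟨z, k, a1, a2⟩, h⟩
    exact ⟨⟨z, k, a2, a1⟩, fun z' k' b1 b2 => h z' k' b2 b1⟩

open Classical in
/-- the window lemma with walker 1 local (hypothesis of the assembly) -/
def HypL (Λ₁ : B₁ → ℝ≥0∞) (h₁ : B₁ → ℕ) (z₁ : B₁ → G) (T₁ : List B₁ → G → ℕ → Set (G × ℕ))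
    (Λ₂ : B₂ → ℝ≥0∞) (h₂ : B₂ → ℕ) (T₂ : List B₂ → G → ℕ → Set (G × ℕ))
    (us : ℕ → ℕ → ℝ≥0∞) (C : ℝ≥0∞) : Prop :=
  ∀ (r s h h' a a' lo hi : ℕ) (E : Finset G) (μ : G → ℝ≥0∞) (M lam : ℝ≥0∞),
    ∑' x, μ x ≤ 1 → (∀ x, μ x ≤ M) → lam ≠ 0 → lam ≠ ⊤ →
    a ≤ a' + r → a' ≤ a + r → a + h ≤ a' + h' + r → a' + h' ≤ a + h + r →
    a + s ≤ lo → a' + s ≤ lo → hi + s ≤ a + h → hi + s ≤ a' + h' →
    ∑' x, μ x * ∑' L, ∑' L', (if HT h₁ L = h ∧ Dp z₁ L ∈ E ∧ HT h₂ L' = h' ∧
      Ev T₁ T₂ lo hi L 0 a L' x a' then LW Λ₁ L * LW Λ₂ L' else 0)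
      ≤ C * (lam + M * E.card * us r s / lam + us r s)

end Crest.Agent.R154.Asm217
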