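import Crest.Agent.R154.AsmB_222

/-! Row 154, road 801 (helper222): the window inequality on block lists. -/

set_option autoImplicit false
set_option linter.unusedSectionVars false

namespace Crest.Agent.R154.Asm222

open scoped ENNReal
open Crest.Agent.R154.B5A

variable {BX BY G : Type*} [AddCommGroup G]
variable (ΛX : BX → ℝ≥0∞) (hX : BX → ℕ) (zX : BX → G) (sX : BX → Set (G × ℕ))
variable (ΛY : BY → ℝ≥0∞) (hY : BY → ℕ) (zY : BY → G) (sY : BY → Set (G × ℕ))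

/-- two traces meet, and all the common sites have depth in `[lo, hi]` -/
def Ev (U V : Set (G × ℕ)) (lo hi : ℕ) : Prop :=
  (∃ p, p ∈ U ∧ p ∈ V) ∧ ∀ p, p ∈ U → p ∈ V → lo ≤ p.2 ∧ p.2 ≤ hi

lemma Ev_shift (P : List BX) (P' : List BY) (x y : G) (a a' lo hi : ℕ)
    (hE : Ev (TT hX zX sX P x a) (TT hY zY sY P' y a') lo hi) :
    Ev (TT hX zX sX P 0 a) (TT hY zY sY P' (y - x) a') lo hi := by
  have e1 : ∀ p : G × ℕ, p ∈ TT hX zX sX P x a ↔ (p.1 - x, p.2) ∈ TT hX zX sX P 0 a := by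
    intro p
    have := TT_shift hX zX sX P 0 x a p
    rwa [zero_add] at this
  have e2 : ∀ p : G × ℕ, p ∈ TT hY zY sY P' y a' ↔
      (p.1 - x, p.2) ∈ TT hY zY sY P' (y - x) a' := by
    intro p
    have := TT_shift hY zY sY P' (y - x) x a' p
    rwa [sub_add_cancel] at this
  obtain ⟨⟨p, hp1, hp2⟩, h3⟩ := hE
  refine ⟨⟨(p.1 - x, p.2), (e1 p).1 hp1, (e2 p).1 hp2⟩, ?_⟩
  intro q hq1 hq2
  have h4 : ((q.1 + x, q.2) : G × ℕ) ∈ TT hX zX sX P x a := by
    rw [e1]; simpa using hq1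
  have h5 : ((q.1 + x, q.2) : G × ℕ) ∈ TT hY zY sY P' y a' := by
    rw [e2]; simpa using hq2
  exact h3 (q.1 + x, q.2) h4 h5

/-- the four-fold functional -/
noncomputable def S4 (c T c' T' : ℕ) (Φ : List BX → List BX → List BY → List BY → ℝ≥0∞) : ℝ≥0∞ :=
  SF ΛX hX c (fun A => SF ΛX hX T (fun P => SF ΛY hY c' (fun A' => SF ΛY hY T' (fun P' =>
    Φ A P A' P'))))

lemma S4_mono (c T c' T' : ℕ) {Φ Φ' : List BX → List BX → List BY → List BY → ℝ≥0∞}
    (hle : ∀ A P A' P', FP hX c A → FP hX T P → FP hY c' A' → FP hY T' P' →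
      Φ A P A' P' ≤ Φ' A P A' P') : S4 ΛX hX ΛY hY c T c' T' Φ ≤ S4 ΛX hX ΛY hY c T c' T' Φ' :=
  SF_mono _ _ _ fun A hA => SF_mono _ _ _ fun P hP => SF_mono _ _ _ fun A' hA' =>
    SF_mono _ _ _ fun P' hP' => hle A P A' P' hA hP hA' hP'

lemma S4_add (c T c' T' : ℕ) (Φ Φ' : List BX → List BX → List BY → List BY → ℝ≥0∞) :
    S4 ΛX hX ΛY hY c T c' T' (fun A P A' P' => Φ A P A' P' + Φ' A P A' P')
      = S4 ΛX hX ΛY hY c T c' T' Φ + S4 ΛX hX ΛY hY c T c' T' Φ' := by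
  simp only [S4, SF_add]

open Classical in
lemma S4_tsum (c T c' T' : ℕ) (Φ : List BX → List BX → List BY → List BY → ℝ≥0∞) :
    S4 ΛX hX ΛY hY c T c' T' Φ = ∑' A, ∑' A', ∑' P, ∑' P',
      (if FP hX c A ∧ FP hX T P ∧ FP hY c' A' ∧ FP hY T' P' then
        LW ΛX A * LW ΛY A' * (LW ΛX P * LW ΛY P') * Φ A P A' P' else 0) := by
  simp only [S4, SF]
  refine tsum_congr fun A => ?_
  rw [ENNReal.tsum_comm (f := fun A' P => _)]
  by_cases hA : FP hX c A
  · rw [if_pos hA, ← ENNReal.tsum_mul_left]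
    refine tsum_congr fun P => ?_
    by_cases hP : FP hX T P
    · rw [if_pos hP, ← mul_assoc, ← ENNReal.tsum_mul_left]
      refine tsum_congr fun A' => ?_
      by_cases hA' : FP hY c' A'
      · rw [if_pos hA', ← mul_assoc, ← ENNReal.tsum_mul_left]
        refine tsum_congr fun P' => ?_
        by_cases hP' : FP hY T' P'
        · rw [if_pos hP', if_pos ⟨hA, hP, hA', hP'⟩]; ring
        · rw [if_neg hP', if_neg (fun hh => hP' hh.2.2.2), mul_zero]
      · rw [if_neg hA', mul_zero]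
        symm
        rw [ENNReal.tsum_eq_zero]
        intro P'
        rw [if_neg (fun hh => hA' hh.2.2.1)]
    · rw [if_neg hP, mul_zero]
      symm
      rw [ENNReal.tsum_eq_zero]
      intro A'
      rw [ENNReal.tsum_eq_zero]
      intro P'
      rw [if_neg (fun hh => hP hh.2.1)]
  · rw [if_neg hA]
    symm
    rw [ENNReal.tsum_eq_zero]
    intro P
    rw [ENNReal.tsum_eq_zero]
    intro A'
    rw [ENNReal.tsum_eq_zero]
    intro P'
    rw [if_neg (fun hh => hA hh.1)]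

/-- pushing a sum forward -/
lemma push {ι : Type*} (f : ι → ℝ≥0∞) (φ : ι → G) (g : G → ℝ≥0∞) [DecidableEq G] :
    ∑' i, f i * g (φ i) = ∑' x, (∑' i, if φ i = x then f i else 0) * g x := by
  simp_rw [← ENNReal.tsum_mul_right]
  rw [ENNReal.tsum_comm]
  refine tsum_congr fun i => ?_
  rw [tsum_eq_single (φ i)]
  · simp
  · intro x hx; rw [if_neg hx.symm, zero_mul]

open Classical in
/-- the local part of the window -/
lemma local_part (hUX : ∀ n, U ΛX hX n ≤ 1) (hUY : ∀ n, U ΛY hY n ≤ 1)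
    (c T c' T' i0 lo hi : ℕ) (w : G)
    (SP : List BX → List BY → Prop) (Loc : List BX → List BY → Prop) (M β : ℝ≥0∞)
    (hM : ∀ a a' x, ∑' A, ∑' A', (if HT hX A = a ∧ HT hY A' = a' ∧ SP A A' ∧
      w + Dp zY A' - Dp zX A = x then LW ΛX A * LW ΛY A' else 0) ≤ M)
    (hβ : ∀ a a' h h', c ≤ a → a ≤ c + i0 → c' ≤ a' → a' ≤ c' + i0 → T ≤ h → h ≤ T + i0 →
      T' ≤ h' → h' ≤ T' + i0 → ∀ μ : G → ℝ≥0∞, ∑' x, μ x ≤ 1 → (∀ x, μ x ≤ M) →
      ∑' x, μ x * ∑' P, ∑' P', (if HT hX P = h ∧ HT hY P' = h' ∧ Loc P P' ∧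
        Ev (TT hX zX sX P 0 a) (TT hY zY sY P' x a') lo hi
        then LW ΛX P * LW ΛY P' else 0) ≤ β) :
    S4 ΛX hX ΛY hY c T c' T' (fun A P A' P' =>
      if (HT hX A ≤ c + i0 ∧ HT hX P ≤ T + i0 ∧ HT hY A' ≤ c' + i0 ∧ HT hY P' ≤ T' + i0) ∧
        SP A A' ∧ Loc P P' ∧
        Ev (TT hX zX sX P (Dp zX A) (HT hX A)) (TT hY zY sY P' (w + Dp zY A') (HT hY A')) lo hi
      then 1 else 0) ≤ ((i0 + 1 : ℕ) : ℝ≥0∞) ^ 4 * β := by
  set I1 := Finset.Icc c (c + i0) with hI1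
  set I2 := Finset.Icc T (T + i0) with hI2
  set I3 := Finset.Icc c' (c' + i0) with hI3
  set I4 := Finset.Icc T' (T' + i0) with hI4
  set Ix : Finset ((ℕ × ℕ) × (ℕ × ℕ)) := (I1 ×ˢ I3) ×ˢ (I2 ×ˢ I4) with hIx
  have hcard : (Ix.card : ℝ≥0∞) = ((i0 + 1 : ℕ) : ℝ≥0∞) ^ 4 := by
    rw [hIx, Finset.card_product, Finset.card_product, Finset.card_product, hI1, hI2, hI3, hI4,
      Nat.card_Icc, Nat.card_Icc, Nat.card_Icc, Nat.card_Icc]
    have e1 : c + i0 + 1 - c = i0 + 1 := by omega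
    have e2 : T + i0 + 1 - T = i0 + 1 := by omega
    have e3 : c' + i0 + 1 - c' = i0 + 1 := by omega
    have e4 : T' + i0 + 1 - T' = i0 + 1 := by omega
    rw [e1, e2, e3, e4]
    push_cast
    ring
  set K : (ℕ × ℕ) × (ℕ × ℕ) → List BX → List BY → List BX → List BY → ℝ≥0∞ :=
    fun v A A' P P' =>
      (if HT hX A = v.1.1 ∧ HT hY A' = v.1.2 ∧ SP A A' then LW ΛX A * LW ΛY A' else 0) *
      (if HT hX P = v.2.1 ∧ HT hY P' = v.2.2 ∧ Loc P P' ∧
        Ev (TT hX zX sX P 0 v.1.1) (TT hY zY sY P' (w + Dp zY A' - Dp zX A) v.1.2) lo hi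
        then LW ΛX P * LW ΛY P' else 0) with hK
  rw [S4_tsum]
  have step : ∀ A A' P P', (if FP hX c A ∧ FP hX T P ∧ FP hY c' A' ∧ FP hY T' P' then
        LW ΛX A * LW ΛY A' * (LW ΛX P * LW ΛY P') *
        (if (HT hX A ≤ c + i0 ∧ HT hX P ≤ T + i0 ∧ HT hY A' ≤ c' + i0 ∧ HT hY P' ≤ T' + i0) ∧
        SP A A' ∧ Loc P P' ∧
        Ev (TT hX zX sX P (Dp zX A) (HT hX A)) (TT hY zY sY P' (w + Dp zY A') (HT hY A')) lo hi
        then 1 else 0) else 0) ≤ ∑ v ∈ Ix, K v A A' P P' := by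
    intro A A' P P'
    by_cases h1 : FP hX c A ∧ FP hX T P ∧ FP hY c' A' ∧ FP hY T' P'
    · rw [if_pos h1]
      by_cases h2 : (HT hX A ≤ c + i0 ∧ HT hX P ≤ T + i0 ∧ HT hY A' ≤ c' + i0 ∧
        HT hY P' ≤ T' + i0) ∧ SP A A' ∧ Loc P P' ∧
        Ev (TT hX zX sX P (Dp zX A) (HT hX A)) (TT hY zY sY P' (w + Dp zY A') (HT hY A')) lo hi
      · rw [if_pos h2, mul_one]
        obtain ⟨g1, g2, g3, g4⟩ := h1
        obtain ⟨⟨k1, k2, k3, k4⟩, k5, k6, k7⟩ := h2
        have l1 := FP_le hX A c g1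
        have l2 := FP_le hX P T g2
        have l3 := FP_le hY A' c' g3
        have l4 := FP_le hY P' T' g4
        refine le_trans ?_ (Finset.single_le_sum (f := fun v => K v A A' P P')
          (fun _ _ => zero_le) (a := ((HT hX A, HT hY A'), (HT hX P, HT hY P'))) ?_)
        · simp only [hK]
          rw [if_pos ⟨trivial, trivial, k5⟩]
          have k8 := Ev_shift hX zX sX hY zY sY P P' _ _ _ _ lo hi k7
          have i1 : (if True ∧ True ∧ Loc P P' ∧
            Ev (TT hX zX sX P 0 (HT hX A)) (TT hY zY sY P' (w + Dp zY A' - Dp zX A) (HT hY A'))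
              lo hi then LW ΛX P * LW ΛY P' else 0) = LW ΛX P * LW ΛY P' :=
            if_pos ⟨trivial, trivial, k6, k8⟩
          simp only [i1, le_refl]
        · simp only [hIx, hI1, hI2, hI3, hI4, Finset.mem_product, Finset.mem_Icc]
          exact ⟨⟨⟨l1, k1⟩, l3, k3⟩, ⟨l2, k2⟩, l4, k4⟩
      · rw [if_neg h2, mul_zero]; exact zero_le
    · rw [if_neg h1]; exact zero_le
  refine (ENNReal.tsum_le_tsum fun A => ENNReal.tsum_le_tsum fun A' =>
    ENNReal.tsum_le_tsum fun P => ENNReal.tsum_le_tsum fun P' => step A A' P P').trans ?_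
  have swap : ∑' A, ∑' A', ∑' P, ∑' P', ∑ v ∈ Ix, K v A A' P P'
      = ∑ v ∈ Ix, ∑' A, ∑' A', ∑' P, ∑' P', K v A A' P P' := by
    simp_rw [Summable.tsum_finsetSum (fun _ _ => ENNReal.summable)]
  rw [swap]
  refine (Finset.sum_le_card_nsmul Ix _ β fun v hv => ?_).trans ?_
  · obtain ⟨⟨a, a'⟩, ⟨h, h'⟩⟩ := v
    simp only [hIx, hI1, hI2, hI3, hI4, Finset.mem_product, Finset.mem_Icc] at hv
    obtain ⟨⟨⟨l1, k1⟩, l3, k3⟩, ⟨l2, k2⟩, l4, k4⟩ := hv
    set g : G → ℝ≥0∞ := fun x => ∑' P, ∑' P', (if HT hX P = h ∧ HT hY P' = h' ∧ Loc P P' ∧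
        Ev (TT hX zX sX P 0 a) (TT hY zY sY P' x a') lo hi
        then LW ΛX P * LW ΛY P' else 0) with hg
    set f : List BX × List BY → ℝ≥0∞ := fun q =>
      (if HT hX q.1 = a ∧ HT hY q.2 = a' ∧ SP q.1 q.2 then LW ΛX q.1 * LW ΛY q.2 else 0) with hf
    have e1 : ∑' A, ∑' A', ∑' P, ∑' P', K ((a, a'), (h, h')) A A' P P'
        = ∑' q : List BX × List BY, f q * g (w + Dp zY q.2 - Dp zX q.1) := by
      rw [ENNReal.tsum_prod (f := fun A A' => f (A, A') * g (w + Dp zY A' - Dp zX A))]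
      refine tsum_congr fun A => tsum_congr fun A' => ?_
      simp only [hK, hf, hg]
      rw [← ENNReal.tsum_mul_left]
      refine tsum_congr fun P => ?_
      rw [← ENNReal.tsum_mul_left]
    rw [e1, push f (fun q => w + Dp zY q.2 - Dp zX q.1) g]
    refine hβ a a' h h' l1 k1 l3 k3 l2 k2 l4 k4 _ ?_ ?_
    · -- total mass
      rw [ENNReal.tsum_comm]
      calc ∑' q : List BX × List BY, ∑' x, (if w + Dp zY q.2 - Dp zX q.1 = x then f q else 0)
          = ∑' q : List BX × List BY, f q := by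
            refine tsum_congr fun q => ?_
            rw [tsum_eq_single (w + Dp zY q.2 - Dp zX q.1)]
            · simp
            · intro x hx; rw [if_neg hx.symm]
        _ = ∑' A, ∑' A', f (A, A') := ENNReal.tsum_prod (f := fun A A' => f (A, A'))
        _ ≤ ∑' A, ∑' A', (if HT hX A = a then LW ΛX A else 0) *
              (if HT hY A' = a' then LW ΛY A' else 0) := by
            refine ENNReal.tsum_le_tsum fun A => ENNReal.tsum_le_tsum fun A' => ?_
            simp only [hf]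
            by_cases hh : HT hX A = a ∧ HT hY A' = a' ∧ SP A A'
            · rw [if_pos hh, if_pos hh.1, if_pos hh.2.1]
            · rw [if_neg hh]; exact zero_le
        _ = U ΛX hX a * U ΛY hY a' := by
            simp_rw [ENNReal.tsum_mul_left]
            rw [ENNReal.tsum_mul_right]
            rfl
        _ ≤ 1 := mul_le_one' (hUX a) (hUY a')
    · intro x
      rw [ENNReal.tsum_prod (f := fun A A' => (if w + Dp zY A' - Dp zX A = x
        then f (A, A') else 0))]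
      refine le_trans (ENNReal.tsum_le_tsum fun A => ENNReal.tsum_le_tsum fun A' => ?_)
        (hM a a' x)
      simp only [hf]
      by_cases h5 : w + Dp zY A' - Dp zX A = x
      · rw [if_pos h5]
        by_cases h6 : HT hX A = a ∧ HT hY A' = a' ∧ SP A A'
        · rw [if_pos h6, if_pos ⟨h6.1, h6.2.1, h6.2.2, h5⟩]
        · rw [if_neg h6]; exact zero_le
      · rw [if_neg h5]; exact zero_le
  · rw [nsmul_eq_mul, hcard]

end Crest.Agent.R154.Asm222
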