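import Crest.Agent.R154.AsmB_224

/-! Row 154, ROAD 801 (helper224): traces, pieces, the tie. -/

set_option autoImplicit false

namespace Crest.Agent.R154.Asm224

open scoped ENNReal
open Crest.Agent.R154.B5A

variable {B G : Type*} [AddCommGroup G]

/-- trace of a list of blocks placed at lateral position `x`, depth `a` -/
def TR (h : B → ℕ) (z : B → G) (s : B → Set (G × ℕ)) : List B → G → ℕ → Set (G × ℕ)
  | [], _, _ => ∅
  | b :: L, x, a => {p | ∃ p0 ∈ s b, p = (x + p0.1, a + p0.2)} ∪ TR h z s L (x + z b) (a + h b)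

/-- lateral displacement -/
def Dp (z : B → G) (L : List B) : G := (L.map z).sum

lemma Dp_nil (z : B → G) : Dp z ([] : List B) = 0 := rfl

lemma Dp_cons (z : B → G) (b : B) (L : List B) : Dp z (b :: L) = z b + Dp z L := by simp [Dp]

lemma Dp_append (z : B → G) (L L' : List B) : Dp z (L ++ L') = Dp z L + Dp z L' := by simp [Dp]

lemma TR_append (h : B → ℕ) (z : B → G) (s : B → Set (G × ℕ)) (L L' : List B) (x : G) (a : ℕ) :
    TR h z s (L ++ L') x a = TR h z s L x a ∪ TR h z s L' (x + Dp z L) (a + HT h L) := by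
  induction L generalizing x a with
  | nil => simp [TR, Dp, HT]
  | cons b L ih =>
    simp only [List.cons_append, TR, ih, Dp_cons, HT_cons, Set.union_assoc, add_assoc]

lemma TR_shift (h : B → ℕ) (z : B → G) (s : B → Set (G × ℕ)) (L : List B) (x y p : G) (a k : ℕ) :
    (p + y, k) ∈ TR h z s L (x + y) a ↔ (p, k) ∈ TR h z s L x a := by
  induction L generalizing x a with
  | nil => simp [TR]
  | cons b L ih =>
    simp only [TR, Set.mem_union, Set.mem_ofPred_eq, Prod.mk.injEq]
    rw [show x + y + z b = (x + z b) + y by abel, ih]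
    refine or_congr ?_ Iff.rfl
    refine exists_congr fun p0 => and_congr_right fun _ => and_congr_left fun _ => ?_
    constructor
    · intro e
      have : p + y = (x + p0.1) + y := by rw [e]; abel
      exact add_right_cancel this
    · rintro rfl; abel

lemma TR_depth (h : B → ℕ) (z : B → G) (s : B → Set (G × ℕ))
    (hs : ∀ b, ∀ p ∈ s b, 1 ≤ p.2 ∧ p.2 ≤ h b) (L : List B) (x p : G) (a k : ℕ)
    (hp : (p, k) ∈ TR h z s L x a) : a + 1 ≤ k ∧ k ≤ a + HT h L := by
  induction L generalizing x a with
  | nil => simp [TR] at hp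
  | cons b L ih =>
    rw [HT_cons]
    rcases hp with ⟨p0, hp0, e⟩ | hp
    · have := hs b p0 hp0
      have e2 := congrArg Prod.snd e
      simp only at e2
      omega
    · have := ih _ _ hp
      omega

open Classical in
/-- decomposition of a first passage at an intermediate height -/
lemma fp_fp (ht : B → ℕ) (h1 : ∀ b, 1 ≤ ht b) (T : ℕ) : ∀ (r : ℕ) (g : List B → ℝ≥0∞), T ≤ r →
    ∑' A : List B, (if FP ht r A then g A else 0)
      ≤ ∑' A1 : List B, (if FP ht T A1 then
          ∑' A2 : List B, (if FP ht (r - HT ht A1) A2 then g (A1 ++ A2) else 0) else 0) := by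
  induction T using Nat.strong_induction_on with
  | _ T ih =>
    intro r g hTr
    by_cases hT : T = 0
    · subst hT
      rw [tsum_FP_zero]
      simp [HT]
    · rw [tsum_FP_pos ht T hT, tsum_FP_pos ht r (by omega)]
      refine ENNReal.tsum_le_tsum fun b => ?_
      have hlt : T - ht b < T := by have := h1 b; omega
      refine (ih _ hlt (r - ht b) (fun A => g (b :: A)) (by omega)).trans (le_of_eq ?_)
      refine tsum_congr fun A1 => ?_
      rw [HT_cons]
      have : r - ht b - HT ht A1 = r - (ht b + HT ht A1) := by omega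
      rw [this]
      rfl

variable (Λ : B → ℝ≥0∞) (ht : B → ℕ) (z : B → G)

/-- height and displacement -/
def vec (A : List B) : ℤ × G := ((HT ht A : ℤ), Dp z A)

lemma vec_append (A A' : List B) : vec ht z (A ++ A') = vec ht z A + vec ht z A' := by
  simp [vec, HT_append, Dp_append]

open Classical in
/-- law of the first passage -/
noncomputable def FL (r : ℕ) (v : ℤ × G) : ℝ≥0∞ :=
  ∑' A : List B, if FP ht r A ∧ vec ht z A = v then LW Λ A else 0

open Classical in
lemma FL_sum (r : ℕ) (Θ : ℤ × G → ℝ≥0∞) :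
    ∑' v, FL Λ ht z r v * Θ v = ∑' A : List B, if FP ht r A then LW Λ A * Θ (vec ht z A) else 0 := by
  simp only [FL, ← ENNReal.tsum_mul_right]
  rw [ENNReal.tsum_comm]
  refine tsum_congr fun A => ?_
  rw [tsum_eq_single (vec ht z A)]
  · by_cases h : FP ht r A <;> simp [h]
  · intro v hv
    rw [if_neg, zero_mul]
    rintro ⟨_, h⟩
    exact hv h.symm

lemma FL_mass (h1 : ∀ b, 1 ≤ ht b) (hΛ : ∑' b, Λ b = 1) (r : ℕ) : ∑' v, FL Λ ht z r v = 1 := by
  have := FL_sum Λ ht z r (fun _ => 1)
  simp only [mul_one] at this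
  rw [this, fp_mass Λ ht h1 hΛ]

lemma FL_height (r : ℕ) (v : ℤ × G) (hv : FL Λ ht z r v ≠ 0) : r ≤ v.1.toNat := by
  classical
  rw [FL, Ne, ENNReal.tsum_eq_zero, not_forall] at hv
  obtain ⟨A, hA⟩ := hv
  rw [ite_eq_right_iff, Classical.not_imp] at hA
  obtain ⟨⟨h1, h2⟩, _⟩ := hA
  have := FP_le ht A r h1
  rw [← h2]
  simpa [vec] using this

/-- density of the first passage law -/
theorem dens_FL (h1 : ∀ b, 1 ≤ ht b) (hΛ : ∑' b, Λ b = 1) (T i0 : ℕ) (th q ε Gc : ℝ≥0∞)
    (hε : ∑' A : List B, (open Classical in if FP ht T A ∧ T + i0 < HT ht A then LW Λ A else 0) ≤ ε)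
    (hq : ∑' v, (open Classical in if th < FL Λ ht z T v then FL Λ ht z T v else 0) ≤ q)
    (hq1 : q ≤ 1) (hG : (i0 + 1 : ℕ) * th + q * Gc ≤ Gc) (J r : ℕ) (hr : J * (T + i0) ≤ r) :
    ∃ b : ℤ × G → ℝ≥0∞, (∑' v, b v ≤ q ^ J + J * ε) ∧ ∀ v, FL Λ ht z r v ≤ Gc + b v := by
  classical
  refine densF (FL Λ ht z T) (FL Λ ht z) (fun v => v.1.toNat) T i0 th q ε Gc
    (fun v hv => FL_height Λ ht z T v hv) ?_ (fun r => (FL_mass Λ ht z h1 hΛ r).le) ?_ ?_ ?_ hq1 hG
    J r hr
  · intro r hTr v
    have e := FL_sum Λ ht z T (fun v1 => FL Λ ht z (r - v1.1.toNat) (v - v1))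
    rw [e, FL]
    calc ∑' A : List B, (if FP ht r A ∧ vec ht z A = v then LW Λ A else 0)
        = ∑' A : List B, (if FP ht r A then (if vec ht z A = v then LW Λ A else 0) else 0) := by
          refine tsum_congr fun A => ?_
          by_cases h : FP ht r A <;> simp [h]
      _ ≤ _ := fp_fp ht h1 T r _ hTr
      _ ≤ _ := by
          refine ENNReal.tsum_le_tsum fun A1 => ?_
          split_ifs with hA1
          · have hh : (vec ht z A1).1.toNat = HT ht A1 := by simp [vec]
            rw [hh, FL, ← ENNReal.tsum_mul_left]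
            refine ENNReal.tsum_le_tsum fun A2 => ?_
            by_cases hA2 : FP ht (r - HT ht A1) A2
            · rw [if_pos hA2]
              by_cases hv : vec ht z (A1 ++ A2) = v
              · rw [if_pos hv, if_pos ⟨hA2, by rw [← hv, vec_append]; abel⟩, LW_append]
              · rw [if_neg hv]; exact zero_le
            · rw [if_neg hA2]; exact zero_le
          · exact le_rfl
  · intro r h v
    calc ∑' v1 : ℤ × G, (if v1.1.toNat = h then FL Λ ht z r (v - v1) else 0)
        ≤ ∑' v1 : ℤ × G, FL Λ ht z r (v - v1) := by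
          refine ENNReal.tsum_le_tsum fun v1 => ?_
          split_ifs <;> simp
      _ = ∑' v1 : ℤ × G, FL Λ ht z r v1 := (Equiv.subLeft v).tsum_eq fun v1 => FL Λ ht z r v1
      _ = 1 := FL_mass Λ ht z h1 hΛ r
      _ ≤ 1 := le_rfl
  · refine le_trans (le_of_eq ?_) hε
    have e := FL_sum Λ ht z T (fun v => if T + i0 < v.1.toNat then 1 else 0)
    calc ∑' v : ℤ × G, (if T + i0 < v.1.toNat then FL Λ ht z T v else 0)
        = ∑' v : ℤ × G, FL Λ ht z T v * (if T + i0 < v.1.toNat then 1 else 0) := by
          refine tsum_congr fun v => ?_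
          split_ifs <;> simp
      _ = _ := e
      _ = _ := by
          refine tsum_congr fun A => ?_
          have hh : (vec ht z A).1.toNat = HT ht A := by simp [vec]
          rw [hh]
          by_cases h : FP ht T A <;> by_cases h' : T + i0 < HT ht A <;> simp [h, h']
  · exact hq

open Classical in
/-- the tie: split the law of the top part into a density `≤ Gc` and a small rest -/
lemma tie (a i0 : ℕ) (Gc δ : ℝ≥0∞) (b : ℤ × G → ℝ≥0∞) (hb : ∑' v, b v ≤ δ)
    (hFb : ∀ v, FL Λ ht z a v ≤ Gc + b v) (Θ : ℕ → G → ℝ≥0∞) (hΘ : ∀ α x, Θ α x ≤ 1) :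
    ∑' A : List B, (if FP ht a A ∧ HT ht A ≤ a + i0 then LW Λ A * Θ (HT ht A) (Dp z A) else 0)
      ≤ δ + ∑ α ∈ Finset.Icc a (a + i0), ∑' x : G, min (FL Λ ht z a ((α : ℤ), x)) Gc * Θ α x := by
  have e := FL_sum Λ ht z a (fun v => if v.1.toNat ≤ a + i0 then Θ v.1.toNat v.2 else 0)
  have hmin : ∀ v, FL Λ ht z a v ≤ min (FL Λ ht z a v) Gc + b v := by
    intro v
    rcases le_total (FL Λ ht z a v) Gc with h | h
    · rw [min_eq_left h]; exact le_self_add
    · rw [min_eq_right h]; exact hFb v
  calc ∑' A : List B, (if FP ht a A ∧ HT ht A ≤ a + i0 then LW Λ A * Θ (HT ht A) (Dp z A) else 0)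
      = ∑' v : ℤ × G, FL Λ ht z a v * (if v.1.toNat ≤ a + i0 then Θ v.1.toNat v.2 else 0) := by
        rw [e]
        refine tsum_congr fun A => ?_
        have hh : (vec ht z A).1.toNat = HT ht A := by simp [vec]
        have hh2 : (vec ht z A).2 = Dp z A := rfl
        rw [hh, hh2]
        by_cases h : FP ht a A <;> by_cases h' : HT ht A ≤ a + i0 <;> simp [h, h']
    _ ≤ ∑' v : ℤ × G, (b v + min (FL Λ ht z a v) Gc *
          (if v.1.toNat ≤ a + i0 then Θ v.1.toNat v.2 else 0)) := by
        refine ENNReal.tsum_le_tsum fun v => ?_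
        have h1 : (if v.1.toNat ≤ a + i0 then Θ v.1.toNat v.2 else 0) ≤ 1 := by
          split_ifs
          · exact hΘ _ _
          · exact zero_le
        calc _ ≤ (min (FL Λ ht z a v) Gc + b v) *
              (if v.1.toNat ≤ a + i0 then Θ v.1.toNat v.2 else 0) := by gcongr; exact hmin v
          _ = min (FL Λ ht z a v) Gc * (if v.1.toNat ≤ a + i0 then Θ v.1.toNat v.2 else 0)
              + b v * (if v.1.toNat ≤ a + i0 then Θ v.1.toNat v.2 else 0) := by ring
          _ ≤ min (FL Λ ht z a v) Gc * (if v.1.toNat ≤ a + i0 then Θ v.1.toNat v.2 else 0)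
              + b v * 1 := by gcongr
          _ = _ := by rw [mul_one, add_comm]
    _ = ∑' v, b v + ∑' v : ℤ × G, min (FL Λ ht z a v) Gc *
          (if v.1.toNat ≤ a + i0 then Θ v.1.toNat v.2 else 0) := ENNReal.tsum_add
    _ ≤ δ + ∑ α ∈ Finset.Icc a (a + i0), ∑' x : G, min (FL Λ ht z a ((α : ℤ), x)) Gc * Θ α x := by
        refine add_le_add hb ?_
        rw [ENNReal.tsum_prod']
        have hsupp : ∀ m : ℤ, (m ∉ (Finset.Icc a (a + i0)).map ⟨fun α : ℕ => (α : ℤ),
            Nat.cast_injective⟩) → ∑' x : G, min (FL Λ ht z a (m, x)) Gc *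
            (if m.toNat ≤ a + i0 then Θ m.toNat x else 0) = 0 := by
          intro m hm
          rw [ENNReal.tsum_eq_zero]
          intro x
          by_cases h0 : FL Λ ht z a (m, x) = 0
          · simp [h0]
          · have hge := FL_height Λ ht z a (m, x) h0
            simp only at hge
            have hne : ¬ m.toNat ≤ a + i0 := by
              intro hle
              by_cases hm0 : 0 ≤ m
              · apply hm
                rw [Finset.mem_map]
                exact ⟨m.toNat, Finset.mem_Icc.2 ⟨hge, hle⟩, by simp [hm0]⟩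
              · -- `m < 0` is impossible since the height is a natural number
                apply h0
                rw [FL, ENNReal.tsum_eq_zero]
                intro A
                rw [if_neg]
                rintro ⟨_, h⟩
                have := congrArg Prod.fst h
                simp only [vec] at this
                omega
            rw [if_neg hne, mul_zero]
        rw [tsum_eq_sum (fun m hm => hsupp m hm), Finset.sum_map]
        refine Finset.sum_le_sum fun α hα => ENNReal.tsum_le_tsum fun x => ?_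
        have := Finset.mem_Icc.1 hα
        simp only [Function.Embedding.coeFn_mk, Int.toNat_natCast]
        rw [if_pos this.2]

end Crest.Agent.R154.Asm224
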