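import Crest.Agent.R154.AsmB_239
import Crest.Agent.R154.KWBind_419
import Crest.Agent.R154.Dens_903

/-! Row 154 (helper239): traces, local sets, density per window. -/

set_option autoImplicit false

namespace Crest.Agent.R154.Asm239

open scoped ENNReal
open scoped Classical
open B5A
open KWB419 (TT)

section tr
variable {B G : Type*} [AddCommGroup G]

lemma TT_append (s : B → Set (G × ℕ)) (h : B → ℕ) (z : B → G) (L L' : List B) (x : G) (a : ℕ) :
    TT s h z (L ++ L') x a = TT s h z L x a ∪ TT s h z L' (x + Dp z L) (a + HT h L) := by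
  induction L generalizing x a with
  | nil => simp [TT, Dp, HT]
  | cons b L ih =>
    simp only [List.cons_append, TT]
    rw [ih, Set.union_assoc]
    congr 2
    · congr 1
      · simp [Dp, add_assoc]
      · simp [HT, add_assoc]

lemma TT_depth (s : B → Set (G × ℕ)) (h : B → ℕ) (z : B → G)
    (hs : ∀ b, ∀ p ∈ s b, 1 ≤ p.2 ∧ p.2 ≤ h b) (L : List B) (x : G) (a : ℕ) (y : G) (k : ℕ)
    (hy : (y, k) ∈ TT s h z L x a) : a < k ∧ k ≤ a + HT h L := by
  induction L generalizing x a with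
  | nil => exact absurd hy (by simp [TT])
  | cons b L ih =>
    simp only [TT, Set.mem_union, Set.mem_ofPred_eq] at hy
    rw [HT_cons]
    rcases hy with ⟨q, hq, hp⟩ | hy
    · have := hs b q hq
      simp only [Prod.mk.injEq] at hp
      omega
    · have := ih _ _ hy
      omega

lemma TT_shift (s : B → Set (G × ℕ)) (h : B → ℕ) (z : B → G) (L : List B) (x v : G) (a : ℕ)
    (y : G) (k : ℕ) : (y, k) ∈ TT s h z L (x + v) a ↔ (y - v, k) ∈ TT s h z L x a := by
  induction L generalizing x a with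
  | nil => simp [TT]
  | cons b L ih =>
    simp only [TT, Set.mem_union, Set.mem_ofPred_eq]
    rw [show x + v + z b = x + z b + v by abel, ih]
    refine or_congr ?_ Iff.rfl
    constructor
    · rintro ⟨q, hq, hp⟩
      refine ⟨q, hq, ?_⟩
      simp only [Prod.mk.injEq] at hp ⊢
      refine ⟨?_, hp.2⟩
      rw [hp.1]; abel
    · rintro ⟨q, hq, hp⟩
      refine ⟨q, hq, ?_⟩
      simp only [Prod.mk.injEq] at hp ⊢
      refine ⟨?_, hp.2⟩
      rw [← sub_add_cancel y v, hp.1]; abel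

/-- local sets and density of one walker -/
lemma oneside (Λ : B → ℝ≥0∞) (ht : B → ℕ) (z : B → G) (h1 : ∀ b, 1 ≤ ht b)
    (hΛ : ∑' b, Λ b = 1) (hU : ∀ n, U Λ ht n ≤ 1) (c i0 N a : ℕ) (u : ℝ≥0∞)
    (hu0 : u ≠ 0) (hu1 : u ≤ 1) (hN : N * (c + i0) ≤ a) :
    ∃ (EF : ℕ → Finset G) (Gc : ℝ≥0∞) (b : ℕ × G → ℝ≥0∞),
      (∀ h, Gc * (EF h).card ≤ ((i0 : ℝ≥0∞) + 1) / u) ∧
      (∑' P, (if SP ht c P ∧ Dp z P ∉ (EF (HT ht P) : Set G) then LW Λ P else 0) ≤ u) ∧
      (∀ y, fp Λ ht z a y ≤ Gc + b y) ∧ ∑' y, b y ≤ (1 - u) ^ N + N * ov Λ ht i0 := by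
  have hut : u ≠ ⊤ := ne_top_of_le_ne_top ENNReal.one_ne_top hu1
  obtain ⟨th, hth0, hth1, hlow, hup⟩ := Dens903.quantile (p := fp Λ ht z c)
    (sum_fp Λ ht z h1 hΛ c) hu0 hu1
  have htht : th ≠ ⊤ := ne_top_of_le_ne_top ENNReal.one_ne_top hth1
  have hfin : ∀ h : ℕ, ∃ hf : {x : G | th ≤ fp Λ ht z c (h - c, x)}.Finite,
      (hf.toFinset.card : ℝ≥0∞) ≤ 1 / th := by
    intro h
    refine ENNReal.finset_card_const_le_le_of_tsum_le ENNReal.one_ne_top ?_ hth0
    calc ∑' x, fp Λ ht z c (h - c, x) ≤ ∑' y, fp Λ ht z c y :=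
          ENNReal.tsum_comp_le_tsum_of_injective
            (f := fun x : G => ((h - c, x) : ℕ × G)) (fun x y h => by simpa using h) _
      _ = 1 := sum_fp Λ ht z h1 hΛ c
  choose hf hcard using hfin
  have hq1 : (1 - u : ℝ≥0∞) ≤ 1 := tsub_le_self
  have hhigh : ∑' A, (if SP ht c A ∧ ¬ (fp Λ ht z c (HT ht A - c, Dp z A) ≤ th)
        then LW Λ A else 0) ≤ 1 - u := ?_
  have hfix : ((i0 + 1 : ℕ) : ℝ≥0∞) * th + (1 - u) * (((i0 : ℝ≥0∞) + 1) * th / u)
      ≤ ((i0 : ℝ≥0∞) + 1) * th / u := ?_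
  obtain ⟨b, hb, hbs⟩ := dens Λ ht z h1 hΛ c i0 th (1 - u) (ov Λ ht i0)
    (((i0 : ℝ≥0∞) + 1) * th / u) (over_le Λ ht hU c i0) hq1 hhigh hfix N a hN
  · refine ⟨fun h => (hf h).toFinset, ((i0 : ℝ≥0∞) + 1) * th / u, b, ?_, ?_, hb, hbs⟩
    · intro h
      calc ((i0 : ℝ≥0∞) + 1) * th / u * ((hf h).toFinset.card : ℝ≥0∞)
          ≤ ((i0 : ℝ≥0∞) + 1) * th / u * (1 / th) := by gcongr; exact hcard h
        _ = ((i0 : ℝ≥0∞) + 1) / u * (th * (1 / th)) := by
            simp only [div_eq_mul_inv]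
            ring
        _ = ((i0 : ℝ≥0∞) + 1) / u := by
            rw [one_div, ENNReal.mul_inv_cancel hth0 htht, mul_one]
    · refine le_trans ?_ hlow
      have e := fiber_fp Λ ht z c (fun y => if fp Λ ht z c y < th then 1 else 0)
      simp only [mul_ite, mul_one, mul_zero] at e
      rw [← e]
      apply ENNReal.tsum_le_tsum
      intro P
      by_cases hP : SP ht c P ∧ Dp z P ∉ ((hf (HT ht P)).toFinset : Set G)
      · rw [if_pos hP]
        have h2 : fp Λ ht z c (HT ht P - c, Dp z P) < th := by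
          by_contra hcon
          apply hP.2
          rw [Set.Finite.coe_toFinset]
          exact not_lt.mp hcon
        rw [if_pos h2, if_pos hP.1]
      · rw [if_neg hP]; exact zero_le
  swap
  · -- high mass
    have e := fiber_fp Λ ht z c (fun y => if fp Λ ht z c y ≤ th then 1 else 0)
    have e' := fiber_fp Λ ht z c (fun y => if ¬ fp Λ ht z c y ≤ th then 1 else 0)
    simp only [mul_ite, mul_one, mul_zero] at e e'
    have hsum : (∑' y, (if fp Λ ht z c y ≤ th then fp Λ ht z c y else 0)) +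
        (∑' y, (if ¬ fp Λ ht z c y ≤ th then fp Λ ht z c y else 0)) = 1 := by
      rw [← ENNReal.tsum_add, ← sum_fp Λ ht z h1 hΛ c]
      apply tsum_congr
      intro y
      by_cases hy : fp Λ ht z c y ≤ th <;> simp [hy]
    have h3 : ∑' A, (if SP ht c A ∧ ¬ (fp Λ ht z c (HT ht A - c, Dp z A) ≤ th)
        then LW Λ A else 0) = ∑' y, (if ¬ fp Λ ht z c y ≤ th then fp Λ ht z c y else 0) := by
      rw [← e']
      apply tsum_congr
      intro A
      by_cases q1 : SP ht c A <;> by_cases q2 : fp Λ ht z c (HT ht A - c, Dp z A) ≤ th <;>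
        simp [q1, q2]
    rw [h3]
    refine ENNReal.le_sub_of_add_le_left hut ?_
    rw [← hsum]
    gcongr
  · -- the fixed point inequality
    push_cast
    have h5 : (1 : ℝ≥0∞) = u / u := (ENNReal.div_self hu0 hut).symm
    have h6 : ((i0 : ℝ≥0∞) + 1) * th = ((i0 : ℝ≥0∞) + 1) * th / u * u := by
      rw [ENNReal.div_mul_cancel hu0 hut]
    have h7 : ((i0 : ℝ≥0∞) + 1) * th + (1 - u) * (((i0 : ℝ≥0∞) + 1) * th / u)
        = ((i0 : ℝ≥0∞) + 1) * th / u * (u + (1 - u)) := by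
      rw [mul_add, ← h6, mul_comm (1 - u)]
    rw [h7, add_tsub_cancel_of_le hu1, mul_one]

end tr

end Crest.Agent.R154.Asm239
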