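import Crest.Agent.R154.AsmB_251
import Crest.Agent.R154.KWBind_419

/-! Row 154, ROAD 801 (helper251): assembly, part C (one window). -/

set_option autoImplicit false

namespace Crest.Agent.R154.Asm251

open scoped ENNReal
open Crest.Agent.R154.B5A
open Crest.Agent.R154.KWB419 (TT)

section Trace

variable {B G : Type*} [AddCommGroup G] (s : B → Set (G × ℕ)) (h : B → ℕ) (z : B → G)

lemma TT_append (L L' : List B) (x : G) (a : ℕ) :
    TT s h z (L ++ L') x a = TT s h z L x a ∪ TT s h z L' (x + Dp z L) (a + HT h L) := by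
  induction L generalizing x a with
  | nil => simp [TT, Dp, HT]
  | cons b L ih =>
    simp only [List.cons_append, TT]
    rw [ih, Set.union_assoc, HT_cons]
    have e : x + Dp z (b :: L) = x + z b + Dp z L := by simp [Dp, add_assoc]
    rw [e, ← add_assoc]

lemma TT_depth (hs : ∀ b q, q ∈ s b → 1 ≤ q.2 ∧ q.2 ≤ h b) (L : List B) (x : G) (a : ℕ)
    (p : G × ℕ) (hp : p ∈ TT s h z L x a) : a < p.2 ∧ p.2 ≤ a + HT h L := by
  induction L generalizing x a with
  | nil => simp [TT] at hp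
  | cons b L ih =>
    rw [HT_cons]
    simp only [TT] at hp
    rcases hp with ⟨q, hq, rfl⟩ | hp
    · have := hs b q hq
      simp only
      omega
    · have := ih _ _ hp
      omega

lemma TT_shift (L : List B) (x v : G) (a : ℕ) (g : G) (k : ℕ) :
    (g + v, k) ∈ TT s h z L (x + v) a ↔ (g, k) ∈ TT s h z L x a := by
  induction L generalizing x a with
  | nil => simp [TT]
  | cons b L ih =>
    simp only [TT, Set.mem_union]
    rw [show x + v + z b = (x + z b) + v by abel, ih]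
    refine or_congr ?_ Iff.rfl
    constructor
    · rintro ⟨q, hq, he⟩
      refine ⟨q, hq, ?_⟩
      simp only [Prod.mk.injEq] at he ⊢
      refine ⟨?_, he.2⟩
      have h1 := he.1
      have : g = x + v + q.1 - v := by rw [← h1]; abel
      rw [this]; abel
    · rintro ⟨q, hq, he⟩
      refine ⟨q, hq, ?_⟩
      simp only [Prod.mk.injEq] at he ⊢
      refine ⟨?_, he.2⟩
      rw [he.1]; abel

end Trace

variable {BX BY G : Type*} [AddCommGroup G]
  (ΛX : BX → ℝ≥0∞) (hX : BX → ℕ) (zX : BX → G) (sX : BX → Set (G × ℕ))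
  (ΛY : BY → ℝ≥0∞) (hY : BY → ℕ) (zY : BY → G) (sY : BY → Set (G × ℕ))

/-- contact event of two pieces -/
def Ev (P : List BX) (P' : List BY) (x : G) (a a' lo hi : ℕ) : Prop :=
  (∃ g k, (g, k) ∈ TT sX hX zX P 0 a ∧ (g, k) ∈ TT sY hY zY P' x a') ∧
    ∀ g k, (g, k) ∈ TT sX hX zX P 0 a → (g, k) ∈ TT sY hY zY P' x a' → lo ≤ k ∧ k ≤ hi

/-- the event of a window for the whole lists -/
def WE (w : G) (c t i0 s : ℕ) (L : List BX) (L' : List BY) : Prop :=
  (∃ g k, c + t < k ∧ k ≤ c + 2 * t ∧ (g, k) ∈ TT sX hX zX L 0 0 ∧ (g, k) ∈ TT sY hY zY L' w 0) ∧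
    ∀ g k, ((c < k ∧ k < c + 2 * i0 + s) ∨ (c + 3 * t < k + s ∧ k ≤ c + 3 * t + 2 * i0)) →
      (g, k) ∈ TT sX hX zX L 0 0 → (g, k) ∈ TT sY hY zY L' w 0 → False

lemma contact (hsX : ∀ b q, q ∈ sX b → 1 ≤ q.2 ∧ q.2 ≤ hX b)
    (hsY : ∀ b q, q ∈ sY b → 1 ≤ q.2 ∧ q.2 ≤ hY b) (w : G) (c t i0 s : ℕ) (ht : 2 * i0 ≤ t)
    (A P R : List BX) (A' P' R' : List BY)
    (a1 : c ≤ HT hX A) (a2 : HT hX A ≤ c + i0) (p1 : 3 * t ≤ HT hX P)
    (p2 : HT hX P ≤ 3 * t + i0)
    (a1' : c + i0 ≤ HT hY A') (a2' : HT hY A' ≤ c + i0 + i0) (p1' : 3 * t + i0 ≤ HT hY P')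
    (hW : WE hX zX sX hY zY sY w c t i0 s (A ++ (P ++ R)) (A' ++ (P' ++ R'))) :
    Ev hX zX sX hY zY sY P P' (w + Dp zY A' - Dp zX A) (HT hX A) (HT hY A')
      (c + 2 * i0 + s) (c + 3 * t - s) := by
  obtain ⟨⟨g, k, hk1, hk2, hgX, hgY⟩, hsl⟩ := hW
  have keyX : ∀ g k, (g, k) ∈ TT sX hX zX P 0 (HT hX A) →
      (g + Dp zX A, k) ∈ TT sX hX zX (A ++ (P ++ R)) 0 0 := by
    intro g k h
    rw [TT_append, TT_append]
    refine Or.inr (Or.inl ?_)
    rw [zero_add, Nat.zero_add]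
    have := (TT_shift sX hX zX P 0 (Dp zX A) (HT hX A) g k).2 h
    rwa [zero_add] at this
  have keyY : ∀ g k, (g, k) ∈ TT sY hY zY P' (w + Dp zY A' - Dp zX A) (HT hY A') →
      (g + Dp zX A, k) ∈ TT sY hY zY (A' ++ (P' ++ R')) w 0 := by
    intro g k h
    rw [TT_append, TT_append]
    refine Or.inr (Or.inl ?_)
    rw [Nat.zero_add]
    have := (TT_shift sY hY zY P' _ (Dp zX A) (HT hY A') g k).2 h
    rwa [sub_add_cancel] at this
  refine ⟨⟨g - Dp zX A, k, ?_, ?_⟩, fun g' k' h1 h2 => ?_⟩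
  · rw [TT_append, TT_append] at hgX
    rcases hgX with h | h | h
    · have := TT_depth sX hX zX hsX _ _ _ _ h
      simp only at this; omega
    · rw [zero_add, Nat.zero_add] at h
      have h' : (g - Dp zX A + Dp zX A, k) ∈ TT sX hX zX P (0 + Dp zX A) (HT hX A) := by
        rw [sub_add_cancel, zero_add]; exact h
      exact (TT_shift sX hX zX P 0 (Dp zX A) (HT hX A) _ k).1 h'
    · have := TT_depth sX hX zX hsX _ _ _ _ h
      simp only at this; omega
  · rw [TT_append, TT_append] at hgY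
    rcases hgY with h | h | h
    · have := TT_depth sY hY zY hsY _ _ _ _ h
      simp only at this; omega
    · rw [Nat.zero_add] at h
      have h' : (g - Dp zX A + Dp zX A, k) ∈ TT sY hY zY P'
          (w + Dp zY A' - Dp zX A + Dp zX A) (HT hY A') := by
        rw [sub_add_cancel, sub_add_cancel]; exact h
      exact (TT_shift sY hY zY P' _ (Dp zX A) (HT hY A') _ k).1 h'
    · have := TT_depth sY hY zY hsY _ _ _ _ h
      simp only at this; omega
  · have d1 := TT_depth sX hX zX hsX _ _ _ _ h1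
    simp only at d1
    have hX' := keyX g' k' h1
    have hY' := keyY g' k' h2
    have hn := fun hh => hsl (g' + Dp zX A) k' hh hX' hY'
    constructor
    · by_contra hlt
      exact hn (Or.inl ⟨by omega, by omega⟩)
    · by_contra hlt
      exact hn (Or.inr ⟨by omega, by omega⟩)

/-! ### one walker -/

section One

variable {B : Type*} (Λ : B → ℝ≥0∞) (ht : B → ℕ)

open Classical in
lemma split1 (h1 : ∀ b, 1 ≤ ht b) (hΛ : ∑' b, Λ b = 1) (n c T i0 : ℕ) (hn : c + i0 + T ≤ n)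
    (F : List B → ℝ≥0∞) (hF : ∀ L, F L ≤ 1) (Φ : List B → List B → ℝ≥0∞)
    (hΦ : ∀ A P R, FP ht c A → FP ht T P → HT ht A ≤ c + i0 → HT ht P ≤ T + i0 →
      F (A ++ (P ++ R)) ≤ Φ A P) :
    PS Λ ht n F ≤ 2 * ov Λ ht i0 + PS Λ ht c (fun A => PS Λ ht T (fun P =>
      if HT ht A ≤ c + i0 ∧ HT ht P ≤ T + i0 then Φ A P else 0)) := by
  rw [PS_comp Λ ht h1 c n (by omega)]
  have h2 : PS Λ ht c (fun A => PS Λ ht (n - HT ht A) (fun L => F (A ++ L)))
      ≤ PS Λ ht c (fun A => (if c + i0 < HT ht A then 1 else 0) + (ov Λ ht i0 +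
        PS Λ ht T (fun P => if HT ht A ≤ c + i0 ∧ HT ht P ≤ T + i0 then Φ A P else 0))) := by
    refine PS_mono Λ ht fun A hA => ?_
    by_cases hAi : c + i0 < HT ht A
    · rw [if_pos hAi]
      refine le_trans ?_ le_self_add
      refine le_trans (PS_mono Λ ht (F' := fun _ => 1) fun L _ => hF _)
        (le_of_eq (PS_one Λ ht h1 hΛ _))
    · refine le_trans ?_ le_add_self
      rw [PS_comp Λ ht h1 T (n - HT ht A) (by omega)]
      have h3 : PS Λ ht T (fun P => PS Λ ht (n - HT ht A - HT ht P) (fun R => F (A ++ (P ++ R))))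
          ≤ PS Λ ht T (fun P => (if T + i0 < HT ht P then 1 else 0) +
            (if HT ht A ≤ c + i0 ∧ HT ht P ≤ T + i0 then Φ A P else 0)) := by
        refine PS_mono Λ ht fun P hP => ?_
        by_cases hPi : T + i0 < HT ht P
        · rw [if_pos hPi]
          refine le_trans ?_ le_self_add
          exact le_trans (PS_mono Λ ht (F' := fun _ => 1) fun L _ => hF _)
            (le_of_eq (PS_one Λ ht h1 hΛ _))
        · refine le_trans ?_ le_add_self
          rw [if_pos ⟨by omega, by omega⟩]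
          exact le_trans (PS_mono Λ ht (F' := fun _ => Φ A P) fun R _ =>
            hΦ A P R hA hP (by omega) (by omega)) (le_of_eq (PS_const Λ ht h1 hΛ _ _))
      refine h3.trans ?_
      rw [PS_add]
      exact add_le_add (PS_over Λ ht h1 hΛ i0 T) le_rfl
  refine h2.trans ?_
  rw [PS_add, PS_add, PS_const Λ ht h1 hΛ]
  calc _ ≤ ov Λ ht i0 + (ov Λ ht i0 + _) := add_le_add (PS_over Λ ht h1 hΛ i0 c) le_rfl
    _ = _ := by rw [two_mul, add_assoc]

end One

/-! ### two walkers -/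

/-- four-fold sum -/
noncomputable def Q4 (c T c' T' : ℕ)
    (Φ : List BX → List BX → List BY → List BY → ℝ≥0∞) : ℝ≥0∞ :=
  PS ΛX hX c (fun A => PS ΛX hX T (fun P => PS ΛY hY c' (fun A' => PS ΛY hY T' (fun P' =>
    Φ A P A' P'))))

lemma Q4_mono {c T c' T' : ℕ} {Φ Ψ : List BX → List BX → List BY → List BY → ℝ≥0∞}
    (h : ∀ A P A' P', FP hX c A → FP hX T P → FP hY c' A' → FP hY T' P' →
      Φ A P A' P' ≤ Ψ A P A' P') :
    Q4 ΛX hX ΛY hY c T c' T' Φ ≤ Q4 ΛX hX ΛY hY c T c' T' Ψ :=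
  PS_mono _ _ fun A hA => PS_mono _ _ fun P hP => PS_mono _ _ fun A' hA' =>
    PS_mono _ _ fun P' hP' => h A P A' P' hA hP hA' hP'

lemma Q4_add (c T c' T' : ℕ) (Φ Ψ : List BX → List BX → List BY → List BY → ℝ≥0∞) :
    Q4 ΛX hX ΛY hY c T c' T' (fun A P A' P' => Φ A P A' P' + Ψ A P A' P')
      = Q4 ΛX hX ΛY hY c T c' T' Φ + Q4 ΛX hX ΛY hY c T c' T' Ψ := by
  simp only [Q4, PS_add]

lemma Q4_sum {ι : Type*} (S : Finset ι) (c T c' T' : ℕ)
    (Φ : ι → List BX → List BX → List BY → List BY → ℝ≥0∞) :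
    Q4 ΛX hX ΛY hY c T c' T' (fun A P A' P' => ∑ i ∈ S, Φ i A P A' P')
      = ∑ i ∈ S, Q4 ΛX hX ΛY hY c T c' T' (Φ i) := by
  simp only [Q4, PS_sum]

open Classical in
lemma two (h1X : ∀ b, 1 ≤ hX b) (hΛX : ∑' b, ΛX b = 1) (h1Y : ∀ b, 1 ≤ hY b)
    (hΛY : ∑' b, ΛY b = 1) (n c T c' T' i0 : ℕ) (hn : c + i0 + T ≤ n) (hn' : c' + i0 + T' ≤ n)
    (I : List BX → List BY → ℝ≥0∞) (hI : ∀ L L', I L L' ≤ 1)
    (Φ : List BX → List BX → List BY → List BY → ℝ≥0∞)
    (hΦ : ∀ A P R A' P' R', FP hX c A → FP hX T P → HT hX A ≤ c + i0 → HT hX P ≤ T + i0 →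
      FP hY c' A' → FP hY T' P' → HT hY A' ≤ c' + i0 → HT hY P' ≤ T' + i0 →
      I (A ++ (P ++ R)) (A' ++ (P' ++ R')) ≤ Φ A P A' P') :
    PS ΛX hX n (fun L => PS ΛY hY n (fun L' => I L L')) ≤ 2 * ov ΛX hX i0 + 2 * ov ΛY hY i0 +
      Q4 ΛX hX ΛY hY c T c' T' (fun A P A' P' => if HT hX A ≤ c + i0 ∧ HT hX P ≤ T + i0 ∧
        HT hY A' ≤ c' + i0 ∧ HT hY P' ≤ T' + i0 then Φ A P A' P' else 0) := by
  refine (split1 ΛX hX h1X hΛX n c T i0 hn (fun L => PS ΛY hY n (fun L' => I L L')) (fun L =>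
    (PS_mono ΛY hY (F' := fun _ => 1) fun L' _ => hI L L').trans
      (le_of_eq (PS_one ΛY hY h1Y hΛY n)))
    (fun A P => 2 * ov ΛY hY i0 + PS ΛY hY c' (fun A' => PS ΛY hY T' (fun P' =>
      if HT hY A' ≤ c' + i0 ∧ HT hY P' ≤ T' + i0 then Φ A P A' P' else 0))) ?_).trans ?_
  · intro A P R hA hP hAi hPi
    exact split1 ΛY hY h1Y hΛY n c' T' i0 hn' (fun L' => I (A ++ (P ++ R)) L')
      (fun L' => hI _ _) (fun A' P' => Φ A P A' P')
      (fun A' P' R' hA' hP' hAi' hPi' => hΦ A P R A' P' R' hA hP hAi hPi hA' hP' hAi' hPi')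
  · rw [add_assoc]
    refine add_le_add le_rfl ?_
    have : PS ΛX hX c (fun A => PS ΛX hX T (fun P => if HT hX A ≤ c + i0 ∧ HT hX P ≤ T + i0 then
        2 * ov ΛY hY i0 + PS ΛY hY c' (fun A' => PS ΛY hY T' (fun P' =>
          if HT hY A' ≤ c' + i0 ∧ HT hY P' ≤ T' + i0 then Φ A P A' P' else 0)) else 0))
        ≤ PS ΛX hX c (fun A => PS ΛX hX T (fun P => 2 * ov ΛY hY i0 +
          PS ΛY hY c' (fun A' => PS ΛY hY T' (fun P' => if HT hX A ≤ c + i0 ∧
            HT hX P ≤ T + i0 ∧ HT hY A' ≤ c' + i0 ∧ HT hY P' ≤ T' + i0 then Φ A P A' P'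
              else 0)))) := by
      refine PS_mono _ _ fun A _ => PS_mono _ _ fun P _ => ?_
      by_cases hc : HT hX A ≤ c + i0 ∧ HT hX P ≤ T + i0
      · rw [if_pos hc]
        refine add_le_add le_rfl (PS_mono _ _ fun A' _ => PS_mono _ _ fun P' _ => ?_)
        by_cases hc' : HT hY A' ≤ c' + i0 ∧ HT hY P' ≤ T' + i0
        · rw [if_pos hc', if_pos ⟨hc.1, hc.2, hc'.1, hc'.2⟩]
        · rw [if_neg hc']; exact zero_le
      · rw [if_neg hc]; exact zero_le
    refine this.trans ?_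
    simp only [PS_add]
    rw [PS_const ΛX hX h1X hΛX, PS_const ΛX hX h1X hΛX]
    rfl

end Crest.Agent.R154.Asm251
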