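import Crest.Agent.R154.AsmB_262

/-! Row 154 (helper262), ROAD 801: the sum over one window. -/

set_option autoImplicit false

namespace Crest.Agent.R154.Asm262

open scoped ENNReal
open Crest.Agent.R154.B5A Crest.Agent.R154.FP178
open Crest.Agent.R154.Bind761 (TT)

section win
variable {BX BY G : Type*} [AddCommGroup G]
  (ΛX : BX → ℝ≥0∞) (hX : BX → ℕ) (zX : BX → G) (sX : BX → Set (G × ℕ))
  (ΛY : BY → ℝ≥0∞) (hY : BY → ℕ) (zY : BY → G) (sY : BY → Set (G × ℕ))

/-- common sites of two placed lists -/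
def Co (LX : List BX) (x : G) (a : ℕ) (LY : List BY) (x' : G) (a' : ℕ) (y : G) (k : ℕ) : Prop :=
  (y, k) ∈ TT sX zX hX LX x a ∧ (y, k) ∈ TT sY zY hY LY x' a'

/-- window event for the whole lists -/
def EV (D t S : ℕ) (w : G) (LX : List BX) (LY : List BY) : Prop :=
  (∀ y k, Co hX zX sX hY zY sY LX 0 0 LY w 0 y k → D < k ∧ ¬ (D + t < k ∧ k ≤ D + t + S)) ∧
  (∃ y k, Co hX zX sX hY zY sY LX 0 0 LY w 0 y k ∧ k ≤ D + t)

/-- window event for the pieces -/
def PE (D t : ℕ) (P : List BX) (a : ℕ) (P' : List BY) (x : G) (a' : ℕ) : Prop :=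
  (∃ y k, Co hX zX sX hY zY sY P 0 a P' x a' y k) ∧
  (∀ y k, Co hX zX sX hY zY sY P 0 a P' x a' y k → D < k ∧ k ≤ D + t)

lemma EV_PE (hsX : ∀ b p, p ∈ sX b → 1 ≤ p.2 ∧ p.2 ≤ hX b)
    (hsY : ∀ b p, p ∈ sY b → 1 ≤ p.2 ∧ p.2 ≤ hY b) (D t S c T i0 : ℕ) (w : G)
    (hc : c + i0 ≤ D) (hT : D + t ≤ c + T) (hS : c + T + 2 * i0 ≤ D + t + S)
    (A P R : List BX) (A' P' R' : List BY) (hA : HT hX A ≤ c + i0) (hP : T ≤ HT hX P)
    (hA0 : c ≤ HT hX A) (hP1 : HT hX P ≤ T + i0)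
    (hA' : HT hY A' ≤ c + i0) (hP' : T ≤ HT hY P') (hA0' : c ≤ HT hY A')
    (h : EV hX zX sX hY zY sY D t S w (A ++ (P ++ R)) (A' ++ (P' ++ R'))) :
    PE hX zX sX hY zY sY D t P (HT hX A) P' (w + Dp zY A' - Dp zX A) (HT hY A') := by
  have sh : ∀ y k, Co hX zX sX hY zY sY P (Dp zX A) (HT hX A) P' (w + Dp zY A') (HT hY A') y k ↔
      Co hX zX sX hY zY sY P 0 (HT hX A) P' (w + Dp zY A' - Dp zX A) (HT hY A')
        (y - Dp zX A) k := by
    intro y k
    unfold Co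
    have e1 : Dp zX A = 0 + Dp zX A := (zero_add _).symm
    have e2 : w + Dp zY A' = (w + Dp zY A' - Dp zX A) + Dp zX A := by abel
    conv_lhs => rw [e2]
    rw [TT_shift]
    conv_lhs => arg 1; rw [e1]
    rw [TT_shift]
  have up : ∀ y k, Co hX zX sX hY zY sY P (Dp zX A) (HT hX A) P' (w + Dp zY A') (HT hY A') y k →
      Co hX zX sX hY zY sY (A ++ (P ++ R)) 0 0 (A' ++ (P' ++ R')) w 0 y k := by
    intro y k hk
    constructor
    · rw [TT_append, TT_append]
      refine Or.inr (Or.inl ?_)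
      rw [zero_add, zero_add]
      exact hk.1
    · rw [TT_append, TT_append]
      refine Or.inr (Or.inl ?_)
      rw [zero_add]
      exact hk.2
  constructor
  · obtain ⟨y, k, hk, hk2⟩ := h.2
    have hD := (h.1 y k hk).1
    refine ⟨y - Dp zX A, k, (sh y k).1 ⟨?_, ?_⟩⟩
    · have h3 := hk.1
      rw [TT_append, TT_append] at h3
      rcases h3 with h3 | h3 | h3
      · have := TT_depth sX zX hX hsX _ _ _ _ _ h3; omega
      · rw [zero_add, zero_add] at h3; exact h3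
      · have := TT_depth sX zX hX hsX _ _ _ _ _ h3; omega
    · have h3 := hk.2
      rw [TT_append, TT_append] at h3
      rcases h3 with h3 | h3 | h3
      · have := TT_depth sY zY hY hsY _ _ _ _ _ h3; omega
      · rw [zero_add] at h3; exact h3
      · have := TT_depth sY zY hY hsY _ _ _ _ _ h3; omega
  · intro y k hk
    have h4 : Co hX zX sX hY zY sY P (Dp zX A) (HT hX A) P' (w + Dp zY A') (HT hY A')
        (y + Dp zX A) k := by
      rw [sh, add_sub_cancel_right]; exact hk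
    have h5 := h.1 _ k (up _ k h4)
    refine ⟨h5.1, ?_⟩
    have := TT_depth sX zX hX hsX _ _ _ _ _ h4.1
    by_contra hcon
    exact h5.2 ⟨by omega, by omega⟩

open Classical in
/-- double cut -/
theorem cut2 (hX1 : ∀ b, 1 ≤ hX b) (hΛX : ∑' b, ΛX b = 1) (hY1 : ∀ b, 1 ≤ hY b)
    (hΛY : ∑' b, ΛY b = 1)
    (hsX : ∀ b p, p ∈ sX b → 1 ≤ p.2 ∧ p.2 ≤ hX b)
    (hsY : ∀ b p, p ∈ sY b → 1 ≤ p.2 ∧ p.2 ≤ hY b) (D t S c T i0 n : ℕ) (w : G)
    (hc : c + i0 ≤ D) (hT : D + t ≤ c + T) (hS : c + T + 2 * i0 ≤ D + t + S)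
    (hn : c + T + i0 ≤ n) (δ : ℝ≥0∞)
    (hδX : ∀ a, ∑' L, (if fp hX a L ∧ a + i0 < HT hX L then LW ΛX L else 0) ≤ δ)
    (hδY : ∀ a, ∑' L, (if fp hY a L ∧ a + i0 < HT hY L then LW ΛY L else 0) ≤ δ) :
    ∑' LX, ∑' LY, (if HT hX LX = n ∧ HT hY LY = n ∧ EV hX zX sX hY zY sY D t S w LX LY then
      LW ΛX LX * LW ΛY LY else 0) ≤ 4 * δ +
      ∑' A, ga ΛX hX c i0 A * ∑' P, ga ΛX hX T i0 P * ∑' A', ga ΛY hY c i0 A' *
        ∑' P', ga ΛY hY T i0 P' * (if PE hX zX sX hY zY sY D t P (HT hX A) P'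
          (w + Dp zY A' - Dp zX A) (HT hY A') then 1 else 0) := by
  have e1 : ∑' LX, ∑' LY, (if HT hX LX = n ∧ HT hY LY = n ∧
      EV hX zX sX hY zY sY D t S w LX LY then LW ΛX LX * LW ΛY LY else 0)
      = ∑' LX, (if HT hX LX = n then LW ΛX LX * (∑' LY, (if HT hY LY = n then LW ΛY LY *
        (if EV hX zX sX hY zY sY D t S w LX LY then 1 else 0) else 0)) else 0) := by
    refine tsum_congr fun LX => ?_
    by_cases h : HT hX LX = n
    · simp only [h, true_and, if_true]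
      rw [← ENNReal.tsum_mul_left]
      refine tsum_congr fun LY => ?_
      by_cases h2 : HT hY LY = n
      · by_cases h3 : EV hX zX sX hY zY sY D t S w LX LY <;> simp [h2, h3]
      · simp [h2]
    · simp [h]
  rw [e1]
  set Φ : List BX → List BX → ℝ≥0∞ := fun A P => ∑' A', ga ΛY hY c i0 A' *
        ∑' P', ga ΛY hY T i0 P' * (if PE hX zX sX hY zY sY D t P (HT hX A) P'
          (w + Dp zY A' - Dp zX A) (HT hY A') then 1 else 0) with hΦ
  refine (cut' ΛX hX hX1 hΛX c T i0 n hn δ hδX _ ?_ (fun A P => (δ + δ) + Φ A P) ?_).trans ?_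
  · intro LX
    calc _ ≤ ∑' LY, (if HT hY LY = n then LW ΛY LY else 0) := by
          refine ENNReal.tsum_le_tsum fun LY => ?_
          split_ifs <;> simp
      _ ≤ 1 := U_le_one ΛY hY hY1 hΛY n
  · intro A P R hA hA1 hP hP1
    have hA0 := le_HT_of_fp hX hA
    have hP0 := le_HT_of_fp hX hP
    refine (cut' ΛY hY hY1 hΛY c T i0 n hn δ hδY _ ?_ (fun A' P' =>
      (if PE hX zX sX hY zY sY D t P (HT hX A) P'
          (w + Dp zY A' - Dp zX A) (HT hY A') then 1 else 0)) ?_).trans ?_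
    · intro LY; split_ifs <;> simp
    · intro A' P' R' hA' hA1' hP' hP1'
      have hA0' := le_HT_of_fp hY hA'
      have hP0' := le_HT_of_fp hY hP'
      by_cases hE : EV hX zX sX hY zY sY D t S w (A ++ (P ++ R)) (A' ++ (P' ++ R'))
      · rw [if_pos hE, if_pos (EV_PE hX zX sX hY zY sY hsX hsY D t S c T i0 w hc hT hS A P R
          A' P' R' hA1 hP0 hA0 hP1 hA1' hP0' hA0' hE)]
      · rw [if_neg hE]; exact zero_le
    · exact le_rfl
  · have hsum : ∑' A, ga ΛX hX c i0 A * ∑' P, ga ΛX hX T i0 P * (δ + δ) ≤ δ + δ := by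
      simp_rw [ENNReal.tsum_mul_right]
      calc (∑' A, ga ΛX hX c i0 A) * ((∑' P, ga ΛX hX T i0 P) * (δ + δ))
          ≤ 1 * (1 * (δ + δ)) := by
            gcongr
            · exact ga_le ΛX hX hX1 hΛX c i0
            · exact ga_le ΛX hX hX1 hΛX T i0
        _ = _ := by rw [one_mul, one_mul]
    have hsplit : ∑' A, ga ΛX hX c i0 A * ∑' P, ga ΛX hX T i0 P * ((δ + δ) + Φ A P)
        = (∑' A, ga ΛX hX c i0 A * ∑' P, ga ΛX hX T i0 P * (δ + δ))
          + ∑' A, ga ΛX hX c i0 A * ∑' P, ga ΛX hX T i0 P * Φ A P := by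
      rw [← ENNReal.tsum_add]
      refine tsum_congr fun A => ?_
      rw [← mul_add, ← ENNReal.tsum_add]
      congr 1
      refine tsum_congr fun P => ?_
      rw [mul_add]
    rw [hsplit]
    calc _ ≤ δ + δ + ((δ + δ) + ∑' A, ga ΛX hX c i0 A * ∑' P, ga ΛX hX T i0 P * Φ A P) := by
          gcongr
      _ = _ := by ring

/-- window lemma, `lc` = which piece is local (the weakest form) -/
def HW (C : ℕ → ℝ≥0∞) (us : ℕ → ℕ → ℝ≥0∞) (lc : Finset G → List BX → List BY → Prop) : Prop :=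
  ∀ (i0 s h h' a a' lo hi : ℕ) (E : Finset G) (μ : G → ℝ≥0∞) (M lam : ℝ≥0∞),
    ∑' x, μ x ≤ 1 → (∀ x, μ x ≤ M) → M ≠ ⊤ → lam ≠ 0 → lam ≠ ⊤ →
    a ≤ a' + i0 → a' ≤ a + i0 → a + h ≤ a' + h' + i0 → a' + h' ≤ a + h + i0 →
    a + s ≤ lo → a' + s ≤ lo → hi + s ≤ a + h → hi + s ≤ a' + h' →
    ∑' x, μ x * ∑' L, ∑' L', (open Classical in
      if HT hX L = h ∧ HT hY L' = h' ∧ lc E L L' ∧
        (∃ y k, Co hX zX sX hY zY sY L 0 a L' x a' y k) ∧
        (∀ y k, Co hX zX sX hY zY sY L 0 a L' x a' y k → lo ≤ k ∧ k ≤ hi)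
      then LW ΛX L * LW ΛY L' else 0) ≤ C i0 * (lam + M * E.card * us i0 s / lam + us i0 s)

open Classical in
/-- pair weight of good pieces, placed with tops at depths `c + e`, `c + e'` -/
noncomputable def Ps (lc : Finset G → List BX → List BY → Prop) (E : ℕ → ℕ → Finset G)
    (c T i0 D t : ℕ) (e e' : ℕ) (y : G) : ℝ≥0∞ :=
  ∑' P, ga ΛX hX T i0 P * ∑' P', ga ΛY hY T i0 P' *
    (if lc (E (HT hX P - T) (HT hY P' - T)) P P' ∧
      PE hX zX sX hY zY sY D t P (c + e) P' y (c + e') then 1 else 0)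

lemma Ps_le (hX1 : ∀ b, 1 ≤ hX b) (hΛX : ∑' b, ΛX b = 1) (hY1 : ∀ b, 1 ≤ hY b)
    (hΛY : ∑' b, ΛY b = 1) (lc : Finset G → List BX → List BY → Prop) (E : ℕ → ℕ → Finset G)
    (c T i0 D t e e' : ℕ) (y : G) : Ps ΛX hX zX sX ΛY hY zY sY lc E c T i0 D t e e' y ≤ 1 := by
  classical
  calc Ps ΛX hX zX sX ΛY hY zY sY lc E c T i0 D t e e' y
      ≤ ∑' P, ga ΛX hX T i0 P * ∑' P', ga ΛY hY T i0 P' * 1 := by
        rw [Ps]
        gcongr
        split_ifs <;> simp
    _ ≤ ∑' P, ga ΛX hX T i0 P * 1 := by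
        gcongr
        simpa using ga_le ΛY hY hY1 hΛY T i0
    _ ≤ 1 := by simpa using ga_le ΛX hX hX1 hΛX T i0

theorem order (C : ℕ → ℝ≥0∞) (us : ℕ → ℕ → ℝ≥0∞) (lc : Finset G → List BX → List BY → Prop)
    (H : HW ΛX hX zX sX ΛY hY zY sY C us lc) (E : ℕ → ℕ → Finset G) (c T i0 D t s : ℕ)
    (hc : c + i0 + s ≤ D) (hT : D + t + s ≤ c + T) (M Bd lam : ℝ≥0∞) (hM : M ≠ ⊤)
    (hE : ∀ j j', M * ((E j j').card : ℝ≥0∞) ≤ Bd) (hl0 : lam ≠ 0) (hl1 : lam ≠ ⊤)
    (e e' : ℕ) (he : e ≤ i0) (he' : e' ≤ i0) (μ : G → ℝ≥0∞) (hμ : ∑' y, μ y ≤ 1)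
    (hμM : ∀ y, μ y ≤ M) :
    ∑' y, μ y * Ps ΛX hX zX sX ΛY hY zY sY lc E c T i0 D t e e' y
      ≤ ((i0 + 1 : ℕ) * (i0 + 1 : ℕ)) *
        (C (2 * i0) * (lam + Bd * us (2 * i0) s / lam + us (2 * i0) s)) := by
  classical
  set W : ℕ → ℕ → G → ℝ≥0∞ := fun j j' y => ∑' P, ∑' P', (
      if HT hX P = T + j ∧ HT hY P' = T + j' ∧ lc (E j j') P P' ∧
        (∃ z k, Co hX zX sX hY zY sY P 0 (c + e) P' y (c + e') z k) ∧
        (∀ z k, Co hX zX sX hY zY sY P 0 (c + e) P' y (c + e') z k → D + 1 ≤ k ∧ k ≤ D + t)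
      then LW ΛX P * LW ΛY P' else 0) with hW
  have hW1 : ∀ j j', j ≤ i0 → j' ≤ i0 → ∑' y, μ y * W j j' y ≤
      C (2 * i0) * (lam + Bd * us (2 * i0) s / lam + us (2 * i0) s) := by
    intro j j' hj hj'
    refine (H (2 * i0) s (T + j) (T + j') (c + e) (c + e') (D + 1) (D + t) (E j j') μ M lam hμ hμM
      hM hl0 hl1 (by omega) (by omega) (by omega) (by omega) (by omega) (by omega) (by omega)
      (by omega)).trans ?_
    gcongr
    exact hE j j'
  have hpt : ∀ y, Ps ΛX hX zX sX ΛY hY zY sY lc E c T i0 D t e e' y ≤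
      ∑' j, ∑' j', (if j ≤ i0 ∧ j' ≤ i0 then W j j' y else 0) := by
    intro y
    have h1 : ∀ P P', ga ΛX hX T i0 P * (ga ΛY hY T i0 P' *
        (if lc (E (HT hX P - T) (HT hY P' - T)) P P' ∧
          PE hX zX sX hY zY sY D t P (c + e) P' y (c + e') then 1 else 0)) ≤
        ∑' j, ∑' j', (if j ≤ i0 ∧ j' ≤ i0 then (
      if HT hX P = T + j ∧ HT hY P' = T + j' ∧ lc (E j j') P P' ∧
        (∃ z k, Co hX zX sX hY zY sY P 0 (c + e) P' y (c + e') z k) ∧
        (∀ z k, Co hX zX sX hY zY sY P 0 (c + e) P' y (c + e') z k → D + 1 ≤ k ∧ k ≤ D + t)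
      then LW ΛX P * LW ΛY P' else 0) else 0) := by
      intro P P'
      by_cases hP : fp hX T P ∧ HT hX P ≤ T + i0
      · by_cases hP' : fp hY T P' ∧ HT hY P' ≤ T + i0
        · have h3 := le_HT_of_fp hX hP.1
          have h4 := le_HT_of_fp hY hP'.1
          refine le_trans ?_ (ENNReal.le_tsum (HT hX P - T))
          refine le_trans ?_ (ENNReal.le_tsum (HT hY P' - T))
          rw [if_pos (show HT hX P - T ≤ i0 ∧ HT hY P' - T ≤ i0 from ⟨by omega, by omega⟩)]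
          have gP : ga ΛX hX T i0 P = LW ΛX P := by unfold ga; exact if_pos hP
          have gP' : ga ΛY hY T i0 P' = LW ΛY P' := by unfold ga; exact if_pos hP'
          rw [gP, gP']
          by_cases h5 : lc (E (HT hX P - T) (HT hY P' - T)) P P' ∧
            PE hX zX sX hY zY sY D t P (c + e) P' y (c + e')
          · have h6 : HT hX P = T + (HT hX P - T) ∧ HT hY P' = T + (HT hY P' - T) ∧
                lc (E (HT hX P - T) (HT hY P' - T)) P P' ∧
                (∃ z k, Co hX zX sX hY zY sY P 0 (c + e) P' y (c + e') z k) ∧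
                (∀ z k, Co hX zX sX hY zY sY P 0 (c + e) P' y (c + e') z k →
                  D + 1 ≤ k ∧ k ≤ D + t) :=
              ⟨by omega, by omega, h5.1, h5.2.1, fun z k hk => by
                have := h5.2.2 z k hk
                exact ⟨by omega, this.2⟩⟩
            rw [if_pos h6]
            simp only [h5, and_self, if_true, mul_one]
            exact le_rfl
          · simp only [h5, if_false, mul_zero]
            exact zero_le
        · have gP' : ga ΛY hY T i0 P' = 0 := by unfold ga; exact if_neg hP'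
          rw [gP', zero_mul, mul_zero]; exact zero_le
      · have gP : ga ΛX hX T i0 P = 0 := by unfold ga; exact if_neg hP
        rw [gP, zero_mul]; exact zero_le
    calc Ps ΛX hX zX sX ΛY hY zY sY lc E c T i0 D t e e' y
        = ∑' P, ∑' P', ga ΛX hX T i0 P * (ga ΛY hY T i0 P' *
        (if lc (E (HT hX P - T) (HT hY P' - T)) P P' ∧
          PE hX zX sX hY zY sY D t P (c + e) P' y (c + e') then 1 else 0)) := by
          rw [Ps]
          refine tsum_congr fun P => ENNReal.tsum_mul_left.symm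
      _ ≤ ∑' P, ∑' P', ∑' j, ∑' j', (if j ≤ i0 ∧ j' ≤ i0 then (
      if HT hX P = T + j ∧ HT hY P' = T + j' ∧ lc (E j j') P P' ∧
        (∃ z k, Co hX zX sX hY zY sY P 0 (c + e) P' y (c + e') z k) ∧
        (∀ z k, Co hX zX sX hY zY sY P 0 (c + e) P' y (c + e') z k → D + 1 ≤ k ∧ k ≤ D + t)
      then LW ΛX P * LW ΛY P' else 0) else 0) :=
          ENNReal.tsum_le_tsum fun P => ENNReal.tsum_le_tsum fun P' => h1 P P'
      _ = ∑' j, ∑' j', ∑' P, ∑' P', (if j ≤ i0 ∧ j' ≤ i0 then (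
      if HT hX P = T + j ∧ HT hY P' = T + j' ∧ lc (E j j') P P' ∧
        (∃ z k, Co hX zX sX hY zY sY P 0 (c + e) P' y (c + e') z k) ∧
        (∀ z k, Co hX zX sX hY zY sY P 0 (c + e) P' y (c + e') z k → D + 1 ≤ k ∧ k ≤ D + t)
      then LW ΛX P * LW ΛY P' else 0) else 0) := by
          have : ∀ P, ∑' P', ∑' j, ∑' j', (if j ≤ i0 ∧ j' ≤ i0 then (
      if HT hX P = T + j ∧ HT hY P' = T + j' ∧ lc (E j j') P P' ∧
        (∃ z k, Co hX zX sX hY zY sY P 0 (c + e) P' y (c + e') z k) ∧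
        (∀ z k, Co hX zX sX hY zY sY P 0 (c + e) P' y (c + e') z k → D + 1 ≤ k ∧ k ≤ D + t)
      then LW ΛX P * LW ΛY P' else 0) else 0) = ∑' j, ∑' j', ∑' P', (if j ≤ i0 ∧ j' ≤ i0 then (
      if HT hX P = T + j ∧ HT hY P' = T + j' ∧ lc (E j j') P P' ∧
        (∃ z k, Co hX zX sX hY zY sY P 0 (c + e) P' y (c + e') z k) ∧
        (∀ z k, Co hX zX sX hY zY sY P 0 (c + e) P' y (c + e') z k → D + 1 ≤ k ∧ k ≤ D + t)
      then LW ΛX P * LW ΛY P' else 0) else 0) := by
            intro P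
            rw [ENNReal.tsum_comm]
            refine tsum_congr fun j => ?_
            rw [ENNReal.tsum_comm]
          simp_rw [this]
          rw [ENNReal.tsum_comm]
          refine tsum_congr fun j => ?_
          rw [ENNReal.tsum_comm]
      _ = _ := by
          refine tsum_congr fun j => tsum_congr fun j' => ?_
          split_ifs with h
          · rfl
          · simp
  calc ∑' y, μ y * Ps ΛX hX zX sX ΛY hY zY sY lc E c T i0 D t e e' y
      ≤ ∑' y, μ y * ∑' j, ∑' j', (if j ≤ i0 ∧ j' ≤ i0 then W j j' y else 0) := by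
        gcongr with y
        exact hpt y
    _ = ∑' j, ∑' j', ∑' y, μ y * (if j ≤ i0 ∧ j' ≤ i0 then W j j' y else 0) := by
        have : ∀ y, μ y * ∑' j, ∑' j', (if j ≤ i0 ∧ j' ≤ i0 then W j j' y else 0)
            = ∑' j, ∑' j', μ y * (if j ≤ i0 ∧ j' ≤ i0 then W j j' y else 0) := by
          intro y
          rw [← ENNReal.tsum_mul_left]
          refine tsum_congr fun j => ?_
          rw [← ENNReal.tsum_mul_left]
        simp_rw [this]
        rw [ENNReal.tsum_comm]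
        refine tsum_congr fun j => ?_
        rw [ENNReal.tsum_comm]
    _ ≤ ∑' j, ∑' j', (if j ≤ i0 ∧ j' ≤ i0 then
        (C (2 * i0) * (lam + Bd * us (2 * i0) s / lam + us (2 * i0) s)) else 0) := by
        refine ENNReal.tsum_le_tsum fun j => ENNReal.tsum_le_tsum fun j' => ?_
        by_cases h : j ≤ i0 ∧ j' ≤ i0
        · simp only [h, and_self, if_true]
          exact hW1 j j' h.1 h.2
        · simp [h]
    _ = _ := by
        have hfin : ∀ f : ℕ → ℝ≥0∞, ∑' e, (if e ≤ i0 then f e else 0)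
            = ∑ e ∈ Finset.range (i0 + 1), f e := by
          intro f
          rw [tsum_eq_sum (s := Finset.range (i0 + 1))]
          · refine Finset.sum_congr rfl fun i hi => ?_
            rw [if_pos (by have := Finset.mem_range.1 hi; omega)]
          · intro i hi
            rw [if_neg (by intro h; exact hi (Finset.mem_range.2 (by omega)))]
        have : ∀ (j : ℕ) (X : ℝ≥0∞), ∑' j', (if j ≤ i0 ∧ j' ≤ i0 then X else 0)
            = if j ≤ i0 then (i0 + 1 : ℕ) * X else 0 := by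
          intro j X
          by_cases h : j ≤ i0
          · simp only [h, true_and, if_true]
            rw [hfin (fun _ => X)]; simp
          · simp [h]
        simp_rw [this]
        rw [hfin]
        simp [mul_assoc]

end win

end Crest.Agent.R154.Asm262
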