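import Crest.Agent.R154.AsmA_295
import Crest.Agent.R154.AsmB_295

/-! Row 154, KAPPA' (801), list assembly, part C (helper295). -/

set_option autoImplicit false

namespace Crest.Agent.R154.Asm295

open scoped ENNReal
open Crest.Agent.R154.B5A (LW HT LW_nil LW_cons LW_append HT_nil HT_cons HT_append tsum_list)

section one

variable {B G : Type*} {Λ : B → ℝ≥0∞} {h : B → ℕ}

open Classical in
lemma sumR (hU : ∀ n, ∑' L, (if HT h L = n then LW Λ L else 0) ≤ 1) (c n : ℕ) :
    ∑' R, (if c + HT h R = n then LW Λ R else 0) ≤ 1 := by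
  refine le_trans (ENNReal.tsum_le_tsum fun R => ?_) (hU (n - c))
  by_cases e : c + HT h R = n
  · rw [if_pos e, if_pos (by omega)]
  · rw [if_neg e]; exact bot_le

open Classical in
lemma two (hΛ : ∑' b, Λ b = 1) (h1 : ∀ b, 1 ≤ h b)
    (hU : ∀ n, ∑' L, (if HT h L = n then LW Λ L else 0) ≤ 1) (D T i0 n : ℕ)
    (hn : D + i0 + (T + i0) ≤ n) (tl : ℝ≥0∞)
    (htl : ∀ a, ∑' L, (if fp h L a ∧ a + i0 < HT h L then LW Λ L else 0) ≤ tl)
    (Φ : List B → ℝ≥0∞) (Ψ : List B → List B → ℝ≥0∞) (hΦ : ∀ L, Φ L ≤ 1)
    (hΨ : ∀ A W R, fp h A D → HT h A ≤ D + i0 → fp h W T → HT h W ≤ T + i0 →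
      Φ (A ++ (W ++ R)) ≤ Ψ A W) :
    ∑' L, (if HT h L = n then LW Λ L * Φ L else 0) ≤ 2 * tl +
      ∑' A, ∑' W, (if (fp h A D ∧ HT h A ≤ D + i0) ∧ (fp h W T ∧ HT h W ≤ T + i0)
        then LW Λ A * LW Λ W * Ψ A W else 0) := by
  have s1 := tsum_split (fun L => if HT h L = n then LW Λ L * Φ L else 0) (fun A _ => fp h A D)
    (fun L hL => by
      have : HT h L = n := by
        by_contra hcon
        exact hL (if_neg hcon)
      obtain ⟨A, R, e1, e2⟩ := fp_split (h := h) L D (by omega)
      exact ⟨A, R, e1, e2⟩)
  refine s1.trans ?_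
  have s2 : ∀ A, (∑' R, if fp h A D then (if HT h (A ++ R) = n then LW Λ (A ++ R) * Φ (A ++ R)
      else 0) else 0) ≤ ((if fp h A D ∧ D + i0 < HT h A then LW Λ A else 0) +
      (if fp h A D then LW Λ A else 0) * tl) +
      ∑' W, (if (fp h A D ∧ HT h A ≤ D + i0) ∧ (fp h W T ∧ HT h W ≤ T + i0)
        then LW Λ A * LW Λ W * Ψ A W else 0) := by
    intro A
    by_cases hA : fp h A D
    · simp only [hA, if_true, true_and]
      by_cases hA2 : D + i0 < HT h A
      · rw [if_pos hA2]
        refine le_trans ?_ (le_trans le_self_add le_self_add)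
        calc ∑' R, (if HT h (A ++ R) = n then LW Λ (A ++ R) * Φ (A ++ R) else 0)
            ≤ ∑' R, LW Λ A * (if HT h A + HT h R = n then LW Λ R else 0) := by
              refine ENNReal.tsum_le_tsum fun R => ?_
              rw [HT_append, LW_append]
              by_cases e : HT h A + HT h R = n
              · rw [if_pos e, if_pos e]
                exact (mul_le_mul_right (hΦ _) _).trans_eq (mul_one _)
              · rw [if_neg e]; exact bot_le
          _ = LW Λ A * ∑' R, (if HT h A + HT h R = n then LW Λ R else 0) := ENNReal.tsum_mul_left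
          _ ≤ LW Λ A * 1 := by gcongr; exact sumR hU _ _
          _ = LW Λ A := mul_one _
      · rw [if_neg hA2, zero_add]
        have hA3 : HT h A ≤ D + i0 := by omega
        simp only [hA3, true_and]
        have s3 := tsum_split (fun R => if HT h (A ++ R) = n then LW Λ (A ++ R) * Φ (A ++ R) else 0)
          (fun W _ => fp h W T) (fun R hR => by
            have : HT h (A ++ R) = n := by
              by_contra hcon
              exact hR (if_neg hcon)
            rw [HT_append] at this
            obtain ⟨W, R', e1, e2⟩ := fp_split (h := h) R T (by omega)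
            exact ⟨W, R', e1, e2⟩)
        refine s3.trans ?_
        have s4 : ∀ W, (∑' R, if fp h W T then (if HT h (A ++ (W ++ R)) = n then
            LW Λ (A ++ (W ++ R)) * Φ (A ++ (W ++ R)) else 0) else 0) ≤
            LW Λ A * (if fp h W T ∧ T + i0 < HT h W then LW Λ W else 0) +
            (if fp h W T ∧ HT h W ≤ T + i0 then LW Λ A * LW Λ W * Ψ A W else 0) := by
          intro W
          by_cases hW : fp h W T
          · simp only [hW, if_true, true_and]
            have key : ∀ t : ℝ≥0∞, (∀ R, Φ (A ++ (W ++ R)) ≤ t) →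
                (∑' R, if HT h (A ++ (W ++ R)) = n then
                LW Λ (A ++ (W ++ R)) * Φ (A ++ (W ++ R)) else 0) ≤ LW Λ A * LW Λ W * t := by
              intro t ht
              calc ∑' R, (if HT h (A ++ (W ++ R)) = n then
                LW Λ (A ++ (W ++ R)) * Φ (A ++ (W ++ R)) else 0)
                  ≤ ∑' R, LW Λ A * LW Λ W * t * (if (HT h A + HT h W) + HT h R = n then LW Λ R
                    else 0) := by
                    refine ENNReal.tsum_le_tsum fun R => ?_
                    rw [HT_append, HT_append, LW_append, LW_append, ← add_assoc]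
                    by_cases e : HT h A + HT h W + HT h R = n
                    · rw [if_pos e, if_pos e]
                      calc LW Λ A * (LW Λ W * LW Λ R) * Φ (A ++ (W ++ R))
                          ≤ LW Λ A * (LW Λ W * LW Λ R) * t := by gcongr; exact ht R
                        _ = _ := by ring
                    · rw [if_neg e]; exact bot_le
                _ = LW Λ A * LW Λ W * t * ∑' R, (if (HT h A + HT h W) + HT h R = n then LW Λ R
                    else 0) := ENNReal.tsum_mul_left
                _ ≤ LW Λ A * LW Λ W * t * 1 := by gcongr; exact sumR hU _ _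
                _ = _ := mul_one _
            by_cases hW2 : T + i0 < HT h W
            · rw [if_pos hW2, if_neg (by omega), add_zero]
              exact (key 1 fun R => hΦ _).trans_eq (mul_one _)
            · rw [if_neg hW2, if_pos (by omega), mul_zero, zero_add]
              exact key _ fun R => hΨ A W R hA hA3 hW (by omega)
          · simp [hW]
        refine (ENNReal.tsum_le_tsum s4).trans ?_
        rw [ENNReal.tsum_add, ENNReal.tsum_mul_left]
        gcongr
        exact htl T
    · simp [hA]
  refine (ENNReal.tsum_le_tsum s2).trans ?_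
  rw [ENNReal.tsum_add, ENNReal.tsum_add, ENNReal.tsum_mul_right, sum_fp hΛ h1, one_mul, two_mul]
  gcongr
  exact htl D

end one

section smear

variable {G : Type*} [AddCommGroup G]

open Classical in
lemma smear (N N' b : ℕ → G → ℝ≥0∞) (R : ℕ → ℕ → G → ℝ≥0∞) (i0 : ℕ) (M bnd e : ℝ≥0∞)
    (hN : ∑' α, ∑' x, N α x ≤ 1) (hN' : ∑' α, ∑' x, N' α x ≤ 1)
    (hNM : ∀ α x, N α x ≤ M + b α x) (hb : ∑' α, ∑' x, b α x ≤ e)
    (hR1 : ∀ α β δ, R α β δ ≤ 1)
    (hR : ∀ α β, α ≤ i0 → β ≤ i0 → ∀ μ : G → ℝ≥0∞, ∑' x, μ x ≤ 1 → (∀ x, μ x ≤ M) →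
      ∑' x, μ x * R α β x ≤ bnd) (w : G) :
    ∑' α, ∑' x, N α x * ∑' β, ∑' x', N' β x' * (if α ≤ i0 ∧ β ≤ i0 then R α β (w + x' - x) else 0)
      ≤ e + ((i0 + 1 : ℕ) : ℝ≥0∞) * ((i0 + 1 : ℕ) : ℝ≥0∞) * bnd := by
  have hone : ∀ α x, ∑' β, ∑' x', N' β x' * (if α ≤ i0 ∧ β ≤ i0 then R α β (w + x' - x) else 0)
      ≤ 1 := by
    intro α x
    refine le_trans (ENNReal.tsum_le_tsum fun β => ENNReal.tsum_le_tsum fun x' => ?_) hN'
    calc _ ≤ N' β x' * 1 := by
          gcongr
          split_ifs
          · exact hR1 _ _ _
          · exact bot_le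
      _ = _ := mul_one _
  have hmin : ∀ α x, N α x ≤ min (N α x) M + b α x := by
    intro α x
    rcases le_total (N α x) M with hle | hle
    · rw [min_eq_left hle]; exact le_self_add
    · rw [min_eq_right hle]; exact hNM α x
  calc _ ≤ ∑' α, ∑' x, (b α x * 1 + min (N α x) M * ∑' β, ∑' x', N' β x' *
          (if α ≤ i0 ∧ β ≤ i0 then R α β (w + x' - x) else 0)) := by
        refine ENNReal.tsum_le_tsum fun α => ENNReal.tsum_le_tsum fun x => ?_
        calc _ ≤ (min (N α x) M + b α x) * ∑' β, ∑' x', N' β x' *
              (if α ≤ i0 ∧ β ≤ i0 then R α β (w + x' - x) else 0) := by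
              gcongr; exact hmin α x
          _ = b α x * (∑' β, ∑' x', N' β x' *
              (if α ≤ i0 ∧ β ≤ i0 then R α β (w + x' - x) else 0)) + min (N α x) M *
              (∑' β, ∑' x', N' β x' *
              (if α ≤ i0 ∧ β ≤ i0 then R α β (w + x' - x) else 0)) := by rw [add_mul, add_comm]
          _ ≤ _ := by gcongr; exact hone α x
    _ = (∑' α, ∑' x, b α x) + ∑' α, ∑' x, min (N α x) M * ∑' β, ∑' x', N' β x' *
          (if α ≤ i0 ∧ β ≤ i0 then R α β (w + x' - x) else 0) := by
        simp_rw [mul_one, ENNReal.tsum_add]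
    _ ≤ e + ∑' α, ∑' β, (if α ≤ i0 ∧ β ≤ i0 then bnd else 0) := by
        refine add_le_add hb (ENNReal.tsum_le_tsum fun α => ?_)
        · have e1 : ∑' x, min (N α x) M * ∑' β, ∑' x', N' β x' *
              (if α ≤ i0 ∧ β ≤ i0 then R α β (w + x' - x) else 0) = ∑' β, ∑' x, min (N α x) M *
              ∑' x', N' β x' * (if α ≤ i0 ∧ β ≤ i0 then R α β (w + x' - x) else 0) := by
            simp_rw [← ENNReal.tsum_mul_left (a := min (N α _) M)]
            exact ENNReal.tsum_comm
          rw [e1]
          refine ENNReal.tsum_le_tsum fun β => ?_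
          by_cases hαβ : α ≤ i0 ∧ β ≤ i0
          · simp only [if_pos hαβ]
            set m : G → ℝ≥0∞ := fun x => min (N α x) M with hm
            have e2 : ∑' x, min (N α x) M * ∑' x', N' β x' * R α β (w + x' - x)
                = ∑' δ, (∑' x', N' β x' * m (w + x' - δ)) * R α β δ := by
              simp_rw [← ENNReal.tsum_mul_left, ← ENNReal.tsum_mul_right]
              rw [ENNReal.tsum_comm, ENNReal.tsum_comm (f := fun δ x' => N' β x' *
                m (w + x' - δ) * R α β δ)]
              refine tsum_congr fun x' => ?_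
              rw [← (Equiv.subLeft (w + x')).tsum_eq (fun δ => N' β x' * m (w + x' - δ) *
                R α β δ)]
              refine tsum_congr fun x => ?_
              simp only [Equiv.subLeft_apply, sub_sub_cancel, hm]
              ring
            rw [e2]
            refine hR α β hαβ.1 hαβ.2 _ ?_ ?_
            · rw [ENNReal.tsum_comm]
              calc ∑' x', ∑' δ, N' β x' * m (w + x' - δ)
                  = ∑' x', N' β x' * ∑' δ, m (w + x' - δ) := by simp_rw [ENNReal.tsum_mul_left]
                _ ≤ ∑' x', N' β x' * 1 := by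
                    gcongr with x'
                    rw [show ∑' δ, m (w + x' - δ) = ∑' δ, m δ from (Equiv.subLeft (w + x')).tsum_eq m]
                    calc ∑' x, m x ≤ ∑' x, N α x := ENNReal.tsum_le_tsum fun x => min_le_left _ _
                      _ ≤ 1 := (ENNReal.le_tsum (f := fun α => ∑' x, N α x) α).trans hN
                _ ≤ 1 := by
                    simp_rw [mul_one]
                    exact (ENNReal.le_tsum (f := fun α => ∑' x, N' α x) β).trans hN'
            · intro x
              calc ∑' x', N' β x' * m (w + x' - x) ≤ ∑' x', N' β x' * M := by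
                    gcongr; exact min_le_right _ _
                _ = (∑' x', N' β x') * M := ENNReal.tsum_mul_right
                _ ≤ 1 * M := by
                    gcongr
                    exact (ENNReal.le_tsum (f := fun α => ∑' x, N' α x) β).trans hN'
                _ = M := one_mul _
          · simp [if_neg hαβ]
    _ ≤ _ := by
        gcongr
        have hr : ∀ (c : ℝ≥0∞), ∑' i : ℕ, (if i ≤ i0 then c else 0) = ((i0 + 1 : ℕ) : ℝ≥0∞) * c := by
          intro c
          rw [tsum_eq_sum (s := Finset.range (i0 + 1))]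
          · rw [Finset.sum_congr rfl fun i hi => if_pos (by have := Finset.mem_range.1 hi; omega)]
            simp
          · intro i hi
            rw [if_neg (by intro h; exact hi (Finset.mem_range.2 (by omega)))]
        calc ∑' α, ∑' β, (if α ≤ i0 ∧ β ≤ i0 then bnd else 0)
            = ∑' α : ℕ, (if α ≤ i0 then ((i0 + 1 : ℕ) : ℝ≥0∞) * bnd else 0) := by
              refine tsum_congr fun α => ?_
              by_cases hα : α ≤ i0
              · simp only [hα, true_and, if_true]; exact hr bnd
              · simp [hα]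
          _ = _ := by rw [hr, mul_assoc]
          _ ≤ _ := le_rfl

end smear


end Crest.Agent.R154.Asm295
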