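import Crest.Agent.R154.AsmB_307

set_option autoImplicit false

namespace Crest.Agent.R154.Asm307

open scoped ENNReal
open Crest.Agent.R154.B5A
open Crest.Agent.R154.Bind12 (TT)

variable {BX BY G : Type*} [AddCommGroup G] (ΛX : BX → ℝ≥0∞) (ΛY : BY → ℝ≥0∞)
  (hX : BX → ℕ) (hY : BY → ℕ) (zX : BX → G) (zY : BY → G)
  (sX : BX → Set (G × ℕ)) (sY : BY → Set (G × ℕ))

/-- common site -/
def Cs (L : List BX) (L' : List BY) (x : G) (a a' : ℕ) (q : G × ℕ) : Prop :=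
  q ∈ TT sX zX hX L 0 a ∧ q ∈ TT sY zY hY L' x a'

open Classical in
/-- `X` local window lemma (FREEZE 1) -/
def H2 (C : ℝ≥0∞) (us : ℕ → ℝ≥0∞) : Prop :=
  ∀ (s h h' a a' lo : ℕ) (E : Finset G) (μ : G → ℝ≥0∞) (M lam : ℝ≥0∞), ∑' x, μ x ≤ 1 →
    (∀ x, μ x ≤ M) → lam ≠ 0 → lam ≠ ⊤ → a ≤ a' → a + s ≤ lo → a' + s ≤ lo →
    ∑' x, μ x * ∑' L : List BX, ∑' L' : List BY,
      (if HT hX L = h ∧ Dp zX L ∈ E ∧ HT hY L' = h' ∧
          (∃ g k, Cs hX hY zX zY sX sY L L' x a a' (g, k)) ∧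
          (∀ g k, Cs hX hY zX zY sX sY L L' x a a' (g, k) → lo ≤ k) then LW ΛX L * LW ΛY L' else 0)
      ≤ C * (lam + M * E.card * us s / lam + us s)

open Classical in
/-- `Y` local window lemma (FREEZE 1) -/
def H3 (C : ℝ≥0∞) (us : ℕ → ℝ≥0∞) : Prop :=
  ∀ (s h h' a a' hi : ℕ) (E : Finset G) (μ : G → ℝ≥0∞) (M lam : ℝ≥0∞), ∑' x, μ x ≤ 1 →
    (∀ x, μ x ≤ M) → lam ≠ 0 → lam ≠ ⊤ → a + h ≤ a' + h' → hi + s ≤ a + h → hi + s ≤ a' + h' →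
    ∑' x, μ x * ∑' L : List BX, ∑' L' : List BY,
      (if HT hX L = h ∧ HT hY L' = h' ∧ Dp zY L' ∈ E ∧
          (∃ g k, Cs hX hY zX zY sX sY L L' x a a' (g, k)) ∧
          (∀ g k, Cs hX hY zX zY sX sY L L' x a a' (g, k) → k ≤ hi) then LW ΛX L * LW ΛY L' else 0)
      ≤ C * (lam + M * E.card * us s / lam + us s)

open Classical in
/-- crossing pairs of height `n` having a common site with depth in `S` -/
noncomputable def KS (n : ℕ) (w : G) (S : Set ℕ) : ℝ≥0∞ :=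
  ∑' L : List BX, ∑' L' : List BY,
    (if HT hX L = n ∧ HT hY L' = n ∧ ∃ g k, k ∈ S ∧ Cs hX hY zX zY sX sY L L' w 0 0 (g, k)
      then LW ΛX L * LW ΛY L' else 0)

/-- thin slab -/
def H5 : Prop := ∀ (s : ℕ) (η : ℝ≥0∞), η ≠ 0 → ∃ T, ∀ a, T ≤ a → ∀ n w,
  KS ΛX ΛY hX hY zX zY sX sY n w (Set.Ico a (a + s)) ≤ η

/-- the event of a window -/
def Ev (w : G) (a T i0 lo hi : ℕ) (L : List BX) (L' : List BY) : Prop :=
  (∃ q, (lo ≤ q.2 ∧ q.2 ≤ hi) ∧ Cs hX hY zX zY sX sY L L' w 0 0 q) ∧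
  ∀ q, a ≤ q.2 → q.2 ≤ a + T + 2 * i0 → Cs hX hY zX zY sX sY L L' w 0 0 q → lo ≤ q.2 ∧ q.2 ≤ hi

/-- the event for the pieces -/
def EvP (lo hi : ℕ) (P : List BX) (P' : List BY) (x : G) (h h' : ℕ) : Prop :=
  (∃ q, Cs hX hY zX zY sX sY P P' x h h' q) ∧
  ∀ q, Cs hX hY zX zY sX sY P P' x h h' q → lo ≤ q.2 ∧ q.2 ≤ hi

lemma ev_imp (hsX : ∀ b q, q ∈ sX b → 1 ≤ q.2 ∧ q.2 ≤ hX b)
    (hsY : ∀ b q, q ∈ sY b → 1 ≤ q.2 ∧ q.2 ≤ hY b) (w : G) (a T i0 s lo hi : ℕ)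
    (hlo : lo = a + 3 * i0 + s) (hs : 1 ≤ s) (hhi : hi + s = a + T)
    (A P R : List BX) (A' P' R' : List BY)
    (hA : FP hX A a) (hA2 : HT hX A ≤ a + i0) (hP : FP hX P T) (hP2 : HT hX P ≤ T + i0)
    (hA' : FP hY A' (a + 2 * i0)) (hA2' : HT hY A' ≤ a + 2 * i0 + i0) (hP' : FP hY P' T)
    (h : Ev hX hY zX zY sX sY w a T i0 lo hi (A ++ (P ++ R)) (A' ++ (P' ++ R'))) :
    EvP hX hY zX zY sX sY lo hi P P' (w + Dp zY A' - Dp zX A) (HT hX A) (HT hY A') := by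
  have eA := fp_le _ _ _ hA
  have eP := fp_le _ _ _ hP
  have eA' := fp_le _ _ _ hA'
  have eP' := fp_le _ _ _ hP'
  obtain ⟨⟨q, ⟨hq1, hq2⟩, hqX, hqY⟩, hall⟩ := h
  refine ⟨⟨(q.1 - Dp zX A, q.2), ?_, ?_⟩, ?_⟩
  · rw [TT_append, TT_append] at hqX
    rcases hqX with h1 | h1 | h1
    · have := TT_depth _ _ _ hsX _ _ _ _ h1; omega
    · rw [TT_shift, zero_add] at h1
      exact h1
    · have := TT_depth _ _ _ hsX _ _ _ _ h1; omega
  · rw [TT_append, TT_append] at hqY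
    rcases hqY with h1 | h1 | h1
    · have := TT_depth _ _ _ hsY _ _ _ _ h1; omega
    · rw [show w + Dp zY A' = (w + Dp zY A' - Dp zX A) + Dp zX A by abel, TT_shift, zero_add] at h1
      exact h1
    · have := TT_depth _ _ _ hsY _ _ _ _ h1; omega
  · rintro ⟨g, k⟩ ⟨h1, h2⟩
    have d1 := TT_depth _ _ _ hsX _ _ _ _ h1
    have d2 := TT_depth _ _ _ hsY _ _ _ _ h2
    simp only at d1 d2
    refine hall (g + Dp zX A, k) (by simp only; omega) (by simp only; omega) ⟨?_, ?_⟩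
    · rw [TT_append, TT_append]
      refine Or.inr (Or.inl ?_)
      rw [TT_shift, zero_add]
      simpa using h1
    · rw [TT_append, TT_append]
      refine Or.inr (Or.inl ?_)
      rw [show w + Dp zY A' = (w + Dp zY A' - Dp zX A) + Dp zX A by abel, TT_shift, zero_add]
      simpa using h2

open Classical in
/-- total over pieces -/
noncomputable def Ψt (T i0 lo hi : ℕ) (h h' : ℕ) (x : G) : ℝ≥0∞ :=
  ∑' P : List BX, ∑' P' : List BY,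
    if (FP hX P T ∧ HT hX P ≤ T + i0) ∧ (FP hY P' T ∧ HT hY P' ≤ T + i0) ∧
      EvP hX hY zX zY sX sY lo hi P P' x h h' then LW ΛX P * LW ΛY P' else 0

/-- local pieces -/
noncomputable def ThL {B : Type*} (Λ : B → ℝ≥0∞) (ht : B → ℕ) (z : B → G) (T : ℕ) (th : ℝ≥0∞) (P : List B) : Prop :=
  th ≤ V Λ ht z T (HT ht P) (Dp z P)

open Classical in
noncomputable def Ψ2 (thX : ℝ≥0∞) (T i0 lo hi : ℕ) (h h' : ℕ) (x : G) : ℝ≥0∞ :=
  ∑' P : List BX, ∑' P' : List BY,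
    if (FP hX P T ∧ HT hX P ≤ T + i0 ∧ ThL ΛX hX zX T thX P) ∧ (FP hY P' T ∧ HT hY P' ≤ T + i0) ∧
      EvP hX hY zX zY sX sY lo hi P P' x h h' then LW ΛX P * LW ΛY P' else 0

open Classical in
noncomputable def Ψ3 (thY : ℝ≥0∞) (T i0 lo hi : ℕ) (h h' : ℕ) (x : G) : ℝ≥0∞ :=
  ∑' P : List BX, ∑' P' : List BY,
    if (FP hX P T ∧ HT hX P ≤ T + i0) ∧ (FP hY P' T ∧ HT hY P' ≤ T + i0 ∧ ThL ΛY hY zY T thY P') ∧
      EvP hX hY zX zY sX sY lo hi P P' x h h' then LW ΛX P * LW ΛY P' else 0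

section sp
variable {B : Type*} (Λ : B → ℝ≥0∞) (ht : B → ℕ)

open Classical in
lemma nonloc (z : B → G) (T : ℕ) (th u : ℝ≥0∞)
    (hu : ∑' h, ∑' g, (if V Λ ht z T h g < th then V Λ ht z T h g else 0) ≤ u) :
    ∑' P : List B, (if FP ht P T ∧ ¬ ThL Λ ht z T th P then LW Λ P else 0) ≤ u := by
  refine le_trans (le_of_eq ?_) hu
  have := regroup Λ ht z T (fun h g => if V Λ ht z T h g < th then 1 else 0)
  rw [show (∑' h, ∑' g, (if V Λ ht z T h g < th then V Λ ht z T h g else 0)) =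
    ∑' h, ∑' g, V Λ ht z T h g * (if V Λ ht z T h g < th then 1 else 0) from
    tsum_congr fun h => tsum_congr fun g => by
      by_cases hh : V Λ ht z T h g < th <;> simp [hh]]
  rw [← this]
  refine tsum_congr fun P => ?_
  by_cases hP : FP ht P T
  · by_cases hh : V Λ ht z T (HT ht P) (Dp z P) < th
    · simp [hP, ThL, hh]
    · simp [hP, ThL, hh]
  · simp [hP]

lemma fin_set (h1 : ∀ b, 1 ≤ ht b) (hΛ : ∑' b, Λ b = 1) (z : B → G) (T k : ℕ) (th : ℝ≥0∞) (hth : th ≠ 0) :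
    ∃ E : Finset G, (∀ g, g ∈ E ↔ th ≤ V Λ ht z T k g) ∧ th * E.card ≤ 1 := by
  have h2 := V_mass1 Λ ht h1 hΛ z T k
  have hf : {g | th ≤ V Λ ht z T k g}.Finite :=
    ENNReal.finite_const_le_of_tsum_ne_top (ne_top_of_le_ne_top ENNReal.one_ne_top h2) hth
  refine ⟨hf.toFinset, fun g => by simp, ?_⟩
  refine le_trans ?_ h2
  refine le_trans ?_ (ENNReal.sum_le_tsum hf.toFinset)
  calc th * (hf.toFinset.card : ℝ≥0∞) = ∑ g ∈ hf.toFinset, th := by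
        rw [Finset.sum_const, nsmul_eq_mul, mul_comm]
    _ ≤ _ := Finset.sum_le_sum fun g hg => by simpa using hg
end sp

open Classical in
lemma Ψ_split (thX thY uX uY : ℝ≥0∞) (T i0 lo hi h h' : ℕ) (x : G)
    (huX : ∑' h, ∑' g, (if V ΛX hX zX T h g < thX then V ΛX hX zX T h g else 0) ≤ uX)
    (huY : ∑' h, ∑' g, (if V ΛY hY zY T h g < thY then V ΛY hY zY T h g else 0) ≤ uY) :
    Ψt ΛX ΛY hX hY zX zY sX sY T i0 lo hi h h' x ≤
      Ψ2 ΛX ΛY hX hY zX zY sX sY thX T i0 lo hi h h' x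
      + Ψ3 ΛX ΛY hX hY zX zY sX sY thY T i0 lo hi h h' x + uX * uY := by
  have hn : ∑' P : List BX, ∑' P' : List BY, (if FP hX P T ∧ ¬ ThL ΛX hX zX T thX P then LW ΛX P else 0) *
      (if FP hY P' T ∧ ¬ ThL ΛY hY zY T thY P' then LW ΛY P' else 0) ≤ uX * uY := by
    simp only [ENNReal.tsum_mul_left, ENNReal.tsum_mul_right]
    exact mul_le_mul' (nonloc ΛX hX zX T thX uX huX) (nonloc ΛY hY zY T thY uY huY)
  refine le_trans ?_ (add_le_add_right hn _)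
  rw [Ψt, Ψ2, Ψ3, ← ENNReal.tsum_add, ← ENNReal.tsum_add]
  refine ENNReal.tsum_le_tsum fun P => ?_
  rw [← ENNReal.tsum_add, ← ENNReal.tsum_add]
  refine ENNReal.tsum_le_tsum fun P' => ?_
  by_cases h0 : (FP hX P T ∧ HT hX P ≤ T + i0) ∧ (FP hY P' T ∧ HT hY P' ≤ T + i0) ∧
      EvP hX hY zX zY sX sY lo hi P P' x h h'
  · rw [if_pos h0]
    by_cases h2 : ThL ΛX hX zX T thX P
    · rw [if_pos (⟨⟨h0.1.1, h0.1.2, h2⟩, h0.2⟩ : (FP hX P T ∧ HT hX P ≤ T + i0 ∧ ThL ΛX hX zX T thX P) ∧ (FP hY P' T ∧ HT hY P' ≤ T + i0) ∧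
        EvP hX hY zX zY sX sY lo hi P P' x h h')]
      exact le_trans le_self_add le_self_add
    · by_cases h3 : ThL ΛY hY zY T thY P'
      · rw [if_pos (⟨h0.1, ⟨h0.2.1.1, h0.2.1.2, h3⟩, h0.2.2⟩ : (FP hX P T ∧ HT hX P ≤ T + i0) ∧ (FP hY P' T ∧ HT hY P' ≤ T + i0 ∧ ThL ΛY hY zY T thY P') ∧
          EvP hX hY zX zY sX sY lo hi P P' x h h')]
        exact le_trans le_add_self le_self_add
      · rw [if_pos (⟨h0.1.1, h2⟩ : FP hX P T ∧ ¬ ThL ΛX hX zX T thX P),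
          if_pos (⟨h0.2.1.1, h3⟩ : FP hY P' T ∧ ¬ ThL ΛY hY zY T thY P')]
        exact le_add_self
  · rw [if_neg h0]; exact zero_le'

end Crest.Agent.R154.Asm307
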