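import Crest.Agent.R154.AsmB_309

/-! Row 154, ROAD 801 (helper309): one window of the assembly. -/

set_option autoImplicit false

namespace Crest.Agent.R154.Asm309

open scoped ENNReal Topology
open B5A Filter

lemma tsum_prod_mul {α β : Type*} (f : α → ℝ≥0∞) (g : β → ℝ≥0∞) :
    ∑' p : α × β, f p.1 * g p.2 = (∑' a, f a) * ∑' b, g b := by
  rw [ENNReal.tsum_prod']
  simp only
  simp_rw [ENNReal.tsum_mul_left]
  rw [ENNReal.tsum_mul_right]

section W

variable {BX BY G : Type*} [AddCommGroup G]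
variable (ΛX : BX → ℝ≥0∞) (hX : BX → ℕ) (zX : BX → G)
variable (ΛY : BY → ℝ≥0∞) (hY : BY → ℕ) (zY : BY → G)
variable (CX : List BX → G → ℕ → Set (G × ℕ)) (CY : List BY → G → ℕ → Set (G × ℕ))

open Classical in
/-- window lemma (2), list form (FREEZE 1 of 391) -/
def H2 (us : ℕ → ℝ≥0∞) (C : ℝ≥0∞) : Prop :=
  ∀ (s h h' a a' lo : ℕ) (E : Finset G) (μ : G → ℝ≥0∞) (M lam : ℝ≥0∞),
    ∑' x, μ x ≤ 1 → (∀ x, μ x ≤ M) → lam ≠ 0 → lam ≠ ⊤ → a ≤ a' → a + s ≤ lo → a' + s ≤ lo →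
    ∑' x, μ x * (∑' L : List BX, ∑' L' : List BY, if HT hX L = h ∧ Dp zX L ∈ E ∧ HT hY L' = h' ∧
        (∃ z k, (z, k) ∈ CX L 0 a ∧ (z, k) ∈ CY L' x a') ∧
        (∀ z k, (z, k) ∈ CX L 0 a → (z, k) ∈ CY L' x a' → lo ≤ k)
        then LW ΛX L * LW ΛY L' else 0)
      ≤ C * (lam + M * E.card * us s / lam + us s)

open Classical in
/-- window lemma (3), list form (FREEZE 1 of 391) -/
def H3 (us : ℕ → ℝ≥0∞) (C : ℝ≥0∞) : Prop :=
  ∀ (s h h' a a' hi : ℕ) (E : Finset G) (μ : G → ℝ≥0∞) (M lam : ℝ≥0∞),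
    ∑' x, μ x ≤ 1 → (∀ x, μ x ≤ M) → lam ≠ 0 → lam ≠ ⊤ → a + h ≤ a' + h' →
    hi + s ≤ a + h → hi + s ≤ a' + h' →
    ∑' x, μ x * (∑' L : List BX, ∑' L' : List BY, if HT hX L = h ∧ HT hY L' = h' ∧ Dp zY L' ∈ E ∧
        (∃ z k, (z, k) ∈ CX L 0 a ∧ (z, k) ∈ CY L' x a') ∧
        (∀ z k, (z, k) ∈ CX L 0 a → (z, k) ∈ CY L' x a' → k ≤ hi)
        then LW ΛX L * LW ΛY L' else 0)
      ≤ C * (lam + M * E.card * us s / lam + us s)

/-- pieces event at relative displacement `x` -/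
def PEx (lo hi α α' : ℕ) (x : G) (P : List BX) (P' : List BY) : Prop :=
  (∃ z k, (z, k) ∈ CX P 0 α ∧ (z, k) ∈ CY P' x α') ∧
    (∀ z k, (z, k) ∈ CX P 0 α → (z, k) ∈ CY P' x α' → lo ≤ k ∧ k ≤ hi)

/-- relative displacement of the tops -/
def rel (w : G) (p : List BX × List BY) : G := w + Dp zY p.2 - Dp zX p.1

open Classical in
lemma mu_mass (w : G) (m : List BX → ℝ≥0∞) (m' : List BY → ℝ≥0∞) (hm : ∑' A, m A ≤ 1)
    (hm' : ∑' A, m' A ≤ 1) :
    ∑' x, (∑' p : List BX × List BY, if rel zX zY w p = x then m p.1 * m' p.2 else 0) ≤ 1 := by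
  have h := tsum_fiber (fun p : List BX × List BY => m p.1 * m' p.2) (rel zX zY w) (fun _ => 1)
  simp only [mul_one] at h
  rw [← h, tsum_prod_mul]
  exact (mul_le_mul' hm hm').trans (by simp)

open Classical in
lemma mu_supX (w : G) (m : List BX → ℝ≥0∞) (m' : List BY → ℝ≥0∞) (M : ℝ≥0∞)
    (hM : ∀ y, ∑' A, (if Dp zX A = y then m A else 0) ≤ M)
    (hm' : ∑' A, m' A ≤ 1) (x : G) :
    (∑' p : List BX × List BY, if rel zX zY w p = x then m p.1 * m' p.2 else 0) ≤ M := by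
  rw [ENNReal.tsum_prod', ENNReal.tsum_comm]
  calc _ ≤ ∑' A' : List BY, M * m' A' := by
        refine ENNReal.tsum_le_tsum fun A' => ?_
        calc _ = ∑' A : List BX, (if Dp zX A = w + Dp zY A' - x then m A else 0) * m' A' := by
              refine tsum_congr fun A => ?_
              have e : rel zX zY w (A, A') = x ↔ Dp zX A = w + Dp zY A' - x := by
                unfold rel
                constructor
                · intro h; rw [← h]; abel
                · intro h; rw [h]; abel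
              by_cases h : rel zX zY w (A, A') = x
              · rw [if_pos h, if_pos (e.1 h)]
              · rw [if_neg h, if_neg (fun h' => h (e.2 h')), zero_mul]
          _ ≤ _ := by
              rw [ENNReal.tsum_mul_right]
              exact mul_le_mul_left (hM _) _
    _ ≤ M * 1 := by rw [ENNReal.tsum_mul_left]; exact mul_le_mul_right hm' _
    _ = M := mul_one _

open Classical in
lemma mu_supY (w : G) (m : List BX → ℝ≥0∞) (m' : List BY → ℝ≥0∞) (M : ℝ≥0∞)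
    (hM : ∀ y, ∑' A, (if Dp zY A = y then m' A else 0) ≤ M)
    (hm : ∑' A, m A ≤ 1) (x : G) :
    (∑' p : List BX × List BY, if rel zX zY w p = x then m p.1 * m' p.2 else 0) ≤ M := by
  rw [ENNReal.tsum_prod']
  calc _ ≤ ∑' A : List BX, m A * M := by
        refine ENNReal.tsum_le_tsum fun A => ?_
        calc _ = ∑' A' : List BY, m A * (if Dp zY A' = x + Dp zX A - w then m' A' else 0) := by
              refine tsum_congr fun A' => ?_
              have e : rel zX zY w (A, A') = x ↔ Dp zY A' = x + Dp zX A - w := by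
                unfold rel
                constructor
                · intro h; rw [← h]; abel
                · intro h; rw [h]; abel
              by_cases h : rel zX zY w (A, A') = x
              · rw [if_pos h, if_pos (e.1 h)]
              · rw [if_neg h, if_neg (fun h' => h (e.2 h')), mul_zero]
          _ ≤ _ := by
              rw [ENNReal.tsum_mul_left]
              exact mul_le_mul_right (hM _) _
    _ ≤ 1 * M := by rw [ENNReal.tsum_mul_right]; exact mul_le_mul_left hm _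
    _ = M := one_mul _

open Classical in
/-- the part with `X` local and smooth top, fixed heights -/
lemma partX {us : ℕ → ℝ≥0∞} {C : ℝ≥0∞} (H : H2 ΛX hX zX ΛY hY CX CY us C)
    (w : G) (m : List BX → ℝ≥0∞) (m' : List BY → ℝ≥0∞) (M lam : ℝ≥0∞)
    (hm : ∑' A, m A ≤ 1) (hm' : ∑' A, m' A ≤ 1)
    (hM : ∀ y, ∑' A, (if Dp zX A = y then m A else 0) ≤ M) (hl : lam ≠ 0) (hl' : lam ≠ ⊤)
    (E : Finset G) (s h h' α α' lo hi : ℕ) (h0 : α ≤ α') (h1 : α + s ≤ lo) (h2 : α' + s ≤ lo) :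
    ∑' p : List BX × List BY, (m p.1 * m' p.2) * (∑' q : List BX × List BY,
      if HT hX q.1 = h ∧ Dp zX q.1 ∈ E ∧ HT hY q.2 = h' ∧
        PEx CX CY lo hi α α' (rel zX zY w p) q.1 q.2 then LW ΛX q.1 * LW ΛY q.2 else 0)
      ≤ C * (lam + M * E.card * us s / lam + us s) := by
  refine le_trans ?_ (H s h h' α α' lo E
    (fun x => ∑' p : List BX × List BY, if rel zX zY w p = x then m p.1 * m' p.2 else 0) M lam
    (mu_mass zX zY w m m' hm hm') (mu_supX zX zY w m m' M hM hm') hl hl' h0 h1 h2)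
  rw [tsum_fiber (fun p : List BX × List BY => m p.1 * m' p.2) (rel zX zY w)
    (fun x => ∑' q : List BX × List BY,
      if HT hX q.1 = h ∧ Dp zX q.1 ∈ E ∧ HT hY q.2 = h' ∧
        PEx CX CY lo hi α α' x q.1 q.2 then LW ΛX q.1 * LW ΛY q.2 else 0)]
  refine ENNReal.tsum_le_tsum fun x => ?_
  refine mul_le_mul_right ?_ _
  rw [ENNReal.tsum_prod']
  refine ENNReal.tsum_le_tsum fun P => ENNReal.tsum_le_tsum fun P' => ?_
  simp only
  by_cases hc : HT hX P = h ∧ Dp zX P ∈ E ∧ HT hY P' = h' ∧ PEx CX CY lo hi α α' x P P'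
  · obtain ⟨c1, c2, c3, c4, c5⟩ := hc
    rw [if_pos ⟨c1, c2, c3, c4, c5⟩, if_pos ⟨c1, c2, c3, c4, fun z k hz hz' => (c5 z k hz hz').1⟩]
  · rw [if_neg hc]; exact zero_le

open Classical in
/-- the part with `Y` local and smooth top, fixed heights -/
lemma partY {us : ℕ → ℝ≥0∞} {C : ℝ≥0∞} (H : H3 ΛX hX ΛY hY zY CX CY us C)
    (w : G) (m : List BX → ℝ≥0∞) (m' : List BY → ℝ≥0∞) (M lam : ℝ≥0∞)
    (hm : ∑' A, m A ≤ 1) (hm' : ∑' A, m' A ≤ 1)
    (hM : ∀ y, ∑' A, (if Dp zY A = y then m' A else 0) ≤ M) (hl : lam ≠ 0) (hl' : lam ≠ ⊤)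
    (E : Finset G) (s h h' α α' lo hi : ℕ) (h0 : α + h ≤ α' + h') (h1 : hi + s ≤ α + h)
    (h2 : hi + s ≤ α' + h') :
    ∑' p : List BX × List BY, (m p.1 * m' p.2) * (∑' q : List BX × List BY,
      if HT hX q.1 = h ∧ HT hY q.2 = h' ∧ Dp zY q.2 ∈ E ∧
        PEx CX CY lo hi α α' (rel zX zY w p) q.1 q.2 then LW ΛX q.1 * LW ΛY q.2 else 0)
      ≤ C * (lam + M * E.card * us s / lam + us s) := by
  refine le_trans ?_ (H s h h' α α' hi E
    (fun x => ∑' p : List BX × List BY, if rel zX zY w p = x then m p.1 * m' p.2 else 0) M lam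
    (mu_mass zX zY w m m' hm hm') (mu_supY zX zY w m m' M hM hm) hl hl' h0 h1 h2)
  rw [tsum_fiber (fun p : List BX × List BY => m p.1 * m' p.2) (rel zX zY w)
    (fun x => ∑' q : List BX × List BY,
      if HT hX q.1 = h ∧ HT hY q.2 = h' ∧ Dp zY q.2 ∈ E ∧
        PEx CX CY lo hi α α' x q.1 q.2 then LW ΛX q.1 * LW ΛY q.2 else 0)]
  refine ENNReal.tsum_le_tsum fun x => ?_
  refine mul_le_mul_right ?_ _
  rw [ENNReal.tsum_prod']
  refine ENNReal.tsum_le_tsum fun P => ENNReal.tsum_le_tsum fun P' => ?_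
  simp only
  by_cases hc : HT hX P = h ∧ HT hY P' = h' ∧ Dp zY P' ∈ E ∧ PEx CX CY lo hi α α' x P P'
  · obtain ⟨c1, c2, c3, c4, c5⟩ := hc
    rw [if_pos ⟨c1, c2, c3, c4, c5⟩, if_pos ⟨c1, c2, c3, c4, fun z k hz hz' => (c5 z k hz hz').2⟩]
  · rw [if_neg hc]; exact zero_le

end W

end Crest.Agent.R154.Asm309
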