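import Crest.Agent.R154.AsmB_325

/-! Row 154 (T0219, road 801), helper325: abstract assembly, part C: reduction of a window to the
two pieces, law of the relative position of the tops. -/

set_option autoImplicit false

namespace Crest.Agent.R154.Asm325

open scoped ENNReal Classical
open Crest.Agent.R154.B5A Crest.Agent.R154.FP178

variable {BX BY G : Type*} [AddCommGroup G]
variable (ΛX : BX → ℝ≥0∞) (hX : BX → ℕ) (zX : BX → G) (sX : BX → Set (G × ℕ))
  (ΛY : BY → ℝ≥0∞) (hY : BY → ℕ) (zY : BY → G) (sY : BY → Set (G × ℕ))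

/-- common sites -/
def CM (P : List BX) (P' : List BY) (x : G) (a a' : ℕ) : Set (G × ℕ) :=
  {p | p ∈ TS hX zX sX P 0 a ∧ p ∈ TS hY zY sY P' x a'}

/-- contact, all common sites at depth in `[lo, hi]` -/
def Qc (lo hi : ℕ) (P : List BX) (P' : List BY) (x : G) (a a' : ℕ) : Prop :=
  (∃ p, p ∈ CM hX zX sX hY zY sY P P' x a a') ∧
    ∀ p ∈ CM hX zX sX hY zY sY P P' x a a', lo ≤ p.2 ∧ p.2 ≤ hi

/-- the window event -/
def Ev (lo hi hw top : ℕ) (w : G) (L : List BX) (L' : List BY) : Prop :=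
  (∃ p ∈ CM hX zX sX hY zY sY L L' w 0 0, p.2 ≤ hw) ∧
    (∀ p ∈ CM hX zX sX hY zY sY L L' w 0 0, lo ≤ p.2) ∧
    ∀ p ∈ CM hX zX sX hY zY sY L L' w 0 0, ¬ (hi < p.2 ∧ p.2 ≤ top)

lemma pair_reduce (hX1 : ∀ b, 1 ≤ hX b) (hY1 : ∀ b, 1 ≤ hY b) (hΛX : ∑' b, ΛX b = 1)
    (hΛY : ∑' b, ΛY b = 1) (hUX : ∀ n, U ΛX hX n ≤ 1) (hUY : ∀ n, U ΛY hY n ≤ 1)
    (hsX : ∀ b, ∀ q ∈ sX b, 1 ≤ q.2 ∧ q.2 ≤ hX b) (hsY : ∀ b, ∀ q ∈ sY b, 1 ≤ q.2 ∧ q.2 ≤ hY b)
    (T S T' S' i0 n lo hi hw : ℕ) (hn : T + i0 + S + i0 ≤ n) (hn' : T' + i0 + S' + i0 ≤ n)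
    (hlo : T + i0 < lo) (hlo' : T' + i0 < lo) (hhw : hw ≤ T + S) (hhw' : hw ≤ T' + S')
    (e : ℝ≥0∞) (hovX : ∀ T, ∑' A, (if fp hX T A ∧ T + i0 < HT hX A then LW ΛX A else 0) ≤ e)
    (hovY : ∀ T, ∑' A, (if fp hY T A ∧ T + i0 < HT hY A then LW ΛY A else 0) ≤ e) (w : G) :
    ∑' LX, ∑' LY, (if HT hX LX = n ∧ HT hY LY = n ∧
        Ev hX zX sX hY zY sY lo hi hw (T + S + 2 * i0) w LX LY
        then LW ΛX LX * LW ΛY LY else 0) ≤ 4 * e +
      ∑' A, wt ΛX hX T i0 A * ∑' P, wt ΛX hX S i0 P * ∑' A', wt ΛY hY T' i0 A' *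
        ∑' P', wt ΛY hY S' i0 P' *
          (if Qc hX zX sX hY zY sY lo hi P P' (w + dL zY A' - dL zX A) (HT hX A) (HT hY A')
            then 1 else 0) := by
  set Ev1 : List BX → List BX → List BY → Prop := fun A P LY =>
    (∃ p, p ∈ TS hX zX sX P (dL zX A) (HT hX A) ∧ p ∈ TS hY zY sY LY w 0 ∧ p.2 ≤ hw) ∧
      ∀ p, p ∈ TS hX zX sX P (dL zX A) (HT hX A) → p ∈ TS hY zY sY LY w 0 →
        lo ≤ p.2 ∧ p.2 ≤ hi with hEv1
  set φ : List BX → ℝ≥0∞ := fun LX => ∑' LY, (if HT hY LY = n then LW ΛY LY *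
    (if Ev hX zX sX hY zY sY lo hi hw (T + S + 2 * i0) w LX LY then 1 else 0) else 0) with hφ
  set Ψ : List BX → List BX → ℝ≥0∞ := fun A P => ∑' LY, (if HT hY LY = n then LW ΛY LY *
    (if Ev1 A P LY then 1 else 0) else 0) with hΨ
  have hφ1 : ∀ L, φ L ≤ 1 := fun L => U_le ΛY hY hUY n 1 _ fun L' => by split_ifs <;> simp
  have e1 : ∑' LX, ∑' LY, (if HT hX LX = n ∧ HT hY LY = n ∧
        Ev hX zX sX hY zY sY lo hi hw (T + S + 2 * i0) w LX LY
        then LW ΛX LX * LW ΛY LY else 0)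
      = ∑' LX, (if HT hX LX = n then LW ΛX LX * φ LX else 0) := by
    refine tsum_congr fun LX => ?_
    by_cases h1 : HT hX LX = n
    · rw [if_pos h1, hφ, ← ENNReal.tsum_mul_left]
      refine tsum_congr fun LY => ?_
      by_cases h2 : HT hY LY = n
      · by_cases h3 : Ev hX zX sX hY zY sY lo hi hw (T + S + 2 * i0) w LX LY
        · rw [if_pos ⟨h1, h2, h3⟩, if_pos h2, if_pos h3, mul_one]
        · rw [if_neg (fun hh => h3 hh.2.2), if_pos h2, if_neg h3]; simp
      · rw [if_neg (fun hh => h2 hh.2.1), if_neg h2]; simp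
    · rw [if_neg h1]
      simp [h1]
  rw [e1]
  refine (triple ΛX hX hX1 hΛX hUX T S i0 n hn e hovX φ hφ1 Ψ ?_).trans ?_
  · intro A P R hA hA' hP hP' hn'
    refine ENNReal.tsum_le_tsum fun LY => ?_
    by_cases h2 : HT hY LY = n
    · rw [if_pos h2, if_pos h2]
      refine mul_le_mul_right ?_ _
      by_cases h3 : Ev hX zX sX hY zY sY lo hi hw (T + S + 2 * i0) w (A ++ (P ++ R)) LY
      · rw [if_pos h3, if_pos]
        have hTA := le_HT_of_fp hX hA
        have hSP := le_HT_of_fp hX hP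
        have hmem : ∀ p, p ∈ TS hX zX sX P (dL zX A) (HT hX A) → p ∈ TS hY zY sY LY w 0 →
            p ∈ CM hX zX sX hY zY sY (A ++ (P ++ R)) LY w 0 0 := by
          intro p hp hp'
          refine ⟨?_, hp'⟩
          rw [TS_append, TS_append]
          refine Or.inr (Or.inl ?_)
          simpa using hp
        refine ⟨?_, ?_⟩
        · obtain ⟨p, hp, hpw⟩ := h3.1
          refine ⟨p, ?_, hp.2, hpw⟩
          have hplo := h3.2.1 p hp
          have hpX := hp.1
          rw [TS_append, TS_append] at hpX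
          rcases hpX with hpX | hpX | hpX
          · have := TS_depth hX zX sX hsX _ _ _ _ hpX
            omega
          · simpa using hpX
          · have := TS_depth hX zX sX hsX _ _ _ _ hpX
            omega
        · intro p hp hp'
          have hpm := hmem p hp hp'
          refine ⟨h3.2.1 p hpm, ?_⟩
          by_contra hcon
          refine h3.2.2 p hpm ⟨by omega, ?_⟩
          have := TS_depth hX zX sX hsX _ _ _ _ hp
          omega
      · rw [if_neg h3]; exact bot_le
    · rw [if_neg h2, if_neg h2]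
  · have hYY : ∀ A P, Ψ A P ≤ e + e + ∑' A', wt ΛY hY T' i0 A' *
        ∑' P', wt ΛY hY S' i0 P' *
          (if Qc hX zX sX hY zY sY lo hi P P' (w + dL zY A' - dL zX A) (HT hX A) (HT hY A')
            then 1 else 0) := by
      intro A P
      refine triple ΛY hY hY1 hΛY hUY T' S' i0 n hn' e hovY (fun LY => if Ev1 A P LY then 1 else 0)
        (fun L => by split_ifs <;> simp) _ ?_
      intro A' P' R' hA hA' hP hP' hn'
      by_cases h3 : Ev1 A P (A' ++ (P' ++ R'))
      · simp only [if_pos h3]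
        rw [if_pos]
        have hTA := le_HT_of_fp hY hA
        have hSP := le_HT_of_fp hY hP
        have hx : (0 : G) + dL zX A = dL zX A := zero_add _
        have hx' : (w + dL zY A' - dL zX A) + dL zX A = w + dL zY A' := by abel
        refine ⟨?_, ?_⟩
        · obtain ⟨p, hp, hp', hpw⟩ := h3.1
          have hplo := (h3.2 p hp hp').1
          rw [TS_append, TS_append] at hp'
          rcases hp' with hpX | hpX | hpX
          · have := TS_depth hY zY sY hsY _ _ _ _ hpX
            omega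
          · refine ⟨(p.1 - dL zX A, p.2), ?_, ?_⟩
            · rw [← TS_shift, hx]; exact hp
            · rw [← TS_shift, hx']
              simpa using hpX
          · have := TS_depth hY zY sY hsY _ _ _ _ hpX
            omega
        · intro p hp
          have := h3.2 (p.1 + dL zX A, p.2) ?_ ?_
          · exact this
          · rw [← hx, TS_shift]
            simpa using hp.1
          · rw [TS_append, TS_append]
            refine Or.inr (Or.inl ?_)
            rw [show (w + dL zY A' : G) = (w + dL zY A' - dL zX A) + dL zX A by abel, TS_shift]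
            simpa using hp.2
      · simp only [if_neg h3]
        exact bot_le
    set Z : List BX → List BX → ℝ≥0∞ := fun A P => ∑' A', wt ΛY hY T' i0 A' *
        ∑' P', wt ΛY hY S' i0 P' *
          (if Qc hX zX sX hY zY sY lo hi P P' (w + dL zY A' - dL zX A) (HT hX A) (HT hY A')
            then 1 else 0) with hZ
    have hs : ∑' A, wt ΛX hX T i0 A * ∑' P, wt ΛX hX S i0 P * Ψ A P
        ≤ (e + e) + ∑' A, wt ΛX hX T i0 A * ∑' P, wt ΛX hX S i0 P * Z A P := by
      calc _ ≤ ∑' A, (wt ΛX hX T i0 A * (e + e) + wt ΛX hX T i0 A *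
            ∑' P, wt ΛX hX S i0 P * Z A P) := by
            refine ENNReal.tsum_le_tsum fun A => ?_
            rw [← mul_add]
            refine mul_le_mul_right ?_ _
            calc _ ≤ ∑' P, (wt ΛX hX S i0 P * (e + e) + wt ΛX hX S i0 P * Z A P) := by
                  refine ENNReal.tsum_le_tsum fun P => ?_
                  rw [← mul_add]
                  exact mul_le_mul_right (hYY A P) _
              _ = (∑' P, wt ΛX hX S i0 P) * (e + e) + _ := by
                  rw [ENNReal.tsum_add, ENNReal.tsum_mul_right]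
              _ ≤ 1 * (e + e) + _ := add_le_add
                  (mul_le_mul_left (sum_wt_le ΛX hX hX1 hΛX S i0) _) le_rfl
              _ = _ := by rw [one_mul]
        _ = (∑' A, wt ΛX hX T i0 A) * (e + e) + _ := by
            rw [ENNReal.tsum_add, ENNReal.tsum_mul_right]
        _ ≤ 1 * (e + e) + _ := add_le_add
            (mul_le_mul_left (sum_wt_le ΛX hX hX1 hΛX T i0) _) le_rfl
        _ = _ := by rw [one_mul]
    calc _ ≤ e + e + ((e + e) + ∑' A, wt ΛX hX T i0 A * ∑' P, wt ΛX hX S i0 P * Z A P) :=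
          add_le_add le_rfl hs
      _ = _ := by ring

end Crest.Agent.R154.Asm325
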