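import Crest.Agent.R154.AsmB_329

/-! Row 154 (helper329), ROAD 801: one window on lists. -/

set_option autoImplicit false

namespace Crest.Agent.R154.Asm329

open Crest.Agent.R154.B5A
open scoped ENNReal

section two

variable {BX BY G : Type*} [AddCommGroup G]
variable (ΛX : BX → ℝ≥0∞) (ΛY : BY → ℝ≥0∞) (hX : BX → ℕ) (hY : BY → ℕ) (zX : BX → G)
  (zY : BY → G) (sX : BX → Set (G × ℕ)) (sY : BY → Set (G × ℕ))

/-- common (position, depth) pairs -/
def ct (L : List BX) (L' : List BY) (x : G) (a a' : ℕ) : Set (G × ℕ) :=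
  TX hX zX sX L 0 a ∩ TX hY zY sY L' x a'

/-- first contact in `(lo, lo + t]`, no contact in the slab `(hi, hi + σ]` -/
def Phi (lo t hi σ : ℕ) (w : G) (L : List BX) (L' : List BY) : Prop :=
  (∀ q ∈ ct hX hY zX zY sX sY L L' w 0 0, lo < q.2) ∧
  (∃ q ∈ ct hX hY zX zY sX sY L L' w 0 0, q.2 ≤ lo + t) ∧
  ∀ q ∈ ct hX hY zX zY sX sY L L' w 0 0, ¬ (hi < q.2 ∧ q.2 ≤ hi + σ)

/-- contact of the pieces -/
def ph (lo hi : ℕ) (P : List BX) (P' : List BY) (x : G) (a a' : ℕ) : Prop :=
  (ct hX hY zX zY sX sY P P' x a a').Nonempty ∧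
  (∀ q ∈ ct hX hY zX zY sX sY P P' x a a', lo ≤ q.2 ∧ q.2 ≤ hi)

variable (hsX : ∀ b, ∀ p ∈ sX b, 1 ≤ p.2 ∧ p.2 ≤ hX b) (hsY : ∀ b, ∀ p ∈ sY b, 1 ≤ p.2 ∧ p.2 ≤ hY b)

include hsX hsY in
lemma phi_piece {lo t hi σ : ℕ} {w : G} {A P R : List BX} {A' P' R' : List BY}
    (h1 : HT hX A ≤ lo) (h1' : HT hY A' ≤ lo) (h2 : lo + t ≤ HT hX A + HT hX P)
    (h2' : lo + t ≤ HT hY A' + HT hY P') (h3 : HT hX A + HT hX P ≤ hi + σ)
    (H : Phi hX hY zX zY sX sY lo t hi σ w (A ++ (P ++ R)) (A' ++ (P' ++ R'))) :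
    ph hX hY zX zY sX sY lo hi P P' (w + Dp zY A' - Dp zX A) (HT hX A) (HT hY A') := by
  obtain ⟨H1, H2, H3⟩ := H
  have back : ∀ q ∈ ct hX hY zX zY sX sY P P' (w + Dp zY A' - Dp zX A) (HT hX A) (HT hY A'),
      ((q.1 + Dp zX A, q.2) : G × ℕ) ∈
        ct hX hY zX zY sX sY (A ++ (P ++ R)) (A' ++ (P' ++ R')) w 0 0 ∧
      q.2 ≤ HT hX A + HT hX P := by
    intro q hq
    have d1 := TX_depth hX zX sX hsX _ _ _ _ hq.1
    refine ⟨⟨?_, ?_⟩, d1.2⟩
    · rw [TX_append, TX_append]
      refine Or.inr (Or.inl ?_)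
      rw [TX_shift, zero_add]
      simpa using hq.1
    · rw [TX_append, TX_append]
      refine Or.inr (Or.inl ?_)
      rw [show w + Dp zY A' = (w + Dp zY A' - Dp zX A) + Dp zX A by abel, TX_shift, zero_add]
      simpa using hq.2
  refine ⟨?_, fun q hq => ?_⟩
  · obtain ⟨q, hq, hq2⟩ := H2
    have hq1 := H1 q hq
    refine ⟨(q.1 - Dp zX A, q.2), ?_, ?_⟩
    · have h := hq.1
      rw [TX_append, TX_append] at h
      rcases h with h | h | h
      · have := TX_depth hX zX sX hsX _ _ _ _ h; omega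
      · rw [TX_shift, zero_add] at h
        exact h
      · have := TX_depth hX zX sX hsX _ _ _ _ h; omega
    · have h := hq.2
      rw [TX_append, TX_append] at h
      rcases h with h | h | h
      · have := TX_depth hY zY sY hsY _ _ _ _ h; omega
      · rw [show w + Dp zY A' = (w + Dp zY A' - Dp zX A) + Dp zX A by abel, TX_shift,
          zero_add] at h
        exact h
      · have := TX_depth hY zY sY hsY _ _ _ _ h; omega
  · obtain ⟨b1, b2⟩ := back q hq
    have c1 := H1 _ b1
    have c2 := H3 _ b1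
    simp only at c1 c2
    refine ⟨c1.le, ?_⟩
    by_contra hcon
    exact c2 ⟨by omega, by omega⟩

/-- good first passage -/
def good {B : Type*} (h : B → ℕ) (T i0 : ℕ) (L : List B) : Prop := FP h T L ∧ HT h L ≤ T + i0

open Classical in
/-- the sum over pieces -/
noncomputable def M4 (α β S i0 lo hi : ℕ) (w : G) : ℝ≥0∞ :=
  ∑' A, ∑' A', (if good hX α i0 A ∧ good hY β i0 A' then LW ΛX A * (LW ΛY A' *
    ∑' P, ∑' P', (if good hX S i0 P ∧ good hY S i0 P' ∧
      ph hX hY zX zY sX sY lo hi P P' (w + Dp zY A' - Dp zX A) (HT hX A) (HT hY A')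
      then LW ΛX P * LW ΛY P' else 0)) else 0)

variable (h1X : ∀ b, 1 ≤ hX b) (h1Y : ∀ b, 1 ≤ hY b) (hΛX : ∑' b, ΛX b ≤ 1) (hΛY : ∑' b, ΛY b ≤ 1)

open Classical in
include hsX hsY h1X h1Y hΛX hΛY in
theorem window4 (α β S i0 lo t hi σ n : ℕ) (w : G) (e1 : α + i0 ≤ lo) (e1' : β + i0 ≤ lo)
    (e2 : lo + t ≤ α + S) (e2' : lo + t ≤ β + S) (e3 : α + S + 2 * i0 ≤ hi + σ)
    (en : α + i0 + S ≤ n) (en' : β + i0 + S ≤ n) :
    ∑' L, ∑' L', (if HT hX L = n ∧ HT hY L' = n ∧ Phi hX hY zX zY sX sY lo t hi σ w L L' then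
      LW ΛX L * LW ΛY L' else 0) ≤ ov ΛX hX α i0 + ov ΛX hX S i0 + (ov ΛY hY β i0 + ov ΛY hY S i0)
      + M4 ΛX ΛY hX hY zX zY sX sY α β S i0 lo hi w := by
  set F : List BX → ℝ≥0∞ := fun L => ∑' L', (if HT hY L' = n then LW ΛY L' *
    (if Phi hX hY zX zY sX sY lo t hi σ w L L' then 1 else 0) else 0) with hF
  set Fb : List BX → List BX → ℝ≥0∞ := fun A P => ov ΛY hY β i0 + (ov ΛY hY S i0
    + ∑' A', ∑' P', (if (FP hY β A' ∧ HT hY A' ≤ β + i0) ∧ (FP hY S P' ∧ HT hY P' ≤ S + i0) then
      LW ΛY A' * (LW ΛY P' * (if ph hX hY zX zY sX sY lo hi P P' (w + Dp zY A' - Dp zX A)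
        (HT hX A) (HT hY A') then 1 else 0)) else 0)) with hFb
  have hF1 : ∀ L, F L ≤ 1 := by
    intro L
    refine le_trans (ENNReal.tsum_le_tsum fun L' => ?_) (u_le ΛY hY h1Y hΛY n)
    by_cases hL : HT hY L' = n
    · rw [if_pos hL, if_pos hL]
      split_ifs <;> simp
    · rw [if_neg hL, if_neg hL]
  have hFF : ∀ A P R, FP hX α A → HT hX A ≤ α + i0 → FP hX S P → HT hX P ≤ S + i0 →
      F (A ++ (P ++ R)) ≤ Fb A P := by
    intro A P R hA hA' hP hP'
    refine split1 ΛY hY h1Y hΛY β S i0 n en' _ (fun L => by split_ifs <;> simp) _ ?_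
    intro A' P' R' hB hB' hQ hQ'
    by_cases hPhi : Phi hX hY zX zY sX sY lo t hi σ w (A ++ (P ++ R)) (A' ++ (P' ++ R'))
    · have a1 := hA.1
      have a2 := hP.1
      have a3 := hB.1
      have a4 := hQ.1
      rw [if_pos hPhi, if_pos (phi_piece hX hY zX zY sX sY hsX hsY (by omega) (by omega)
        (by omega) (by omega) (by omega) hPhi)]
    · rw [if_neg hPhi]; exact zero_le
  have main := split1 ΛX hX h1X hΛX α S i0 n en F hF1 Fb hFF
  calc _ = ∑' L, (if HT hX L = n then LW ΛX L * F L else 0) := by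
        refine tsum_congr fun L => ?_
        by_cases hL : HT hX L = n
        · rw [if_pos hL, hF, ← ENNReal.tsum_mul_left]
          refine tsum_congr fun L' => ?_
          simp only [hL, true_and]
          by_cases hL' : HT hY L' = n
          · simp only [hL', true_and, if_true, mul_ite, mul_one, mul_zero]
          · simp [hL']
        · simp [hL]
    _ ≤ _ := main
    _ ≤ _ := by
        rw [← add_assoc, add_assoc (ov ΛX hX α i0 + ov ΛX hX S i0)]
        refine add_le_add le_rfl ?_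
        calc _ ≤ ∑' A, ∑' P, ((if FP hX α A then LW ΛX A else 0) * ((if FP hX S P then LW ΛX P else 0)
              * (ov ΛY hY β i0 + ov ΛY hY S i0)) + ∑' A', ∑' P', (if (good hX α i0 A ∧
                good hY β i0 A') ∧ (good hX S i0 P ∧ good hY S i0 P' ∧
                ph hX hY zX zY sX sY lo hi P P' (w + Dp zY A' - Dp zX A) (HT hX A) (HT hY A'))
                then LW ΛX A * (LW ΛY A' * (LW ΛX P * LW ΛY P')) else 0)) := by
              refine ENNReal.tsum_le_tsum fun A => ENNReal.tsum_le_tsum fun P => ?_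
              by_cases hh : (FP hX α A ∧ HT hX A ≤ α + i0) ∧ (FP hX S P ∧ HT hX P ≤ S + i0)
              · rw [if_pos hh, if_pos hh.1.1, if_pos hh.2.1, hFb]
                simp only []
                rw [← add_assoc, mul_add, mul_add]
                refine add_le_add le_rfl ?_
                rw [← ENNReal.tsum_mul_left, ← ENNReal.tsum_mul_left]
                refine ENNReal.tsum_le_tsum fun A' => ?_
                rw [← ENNReal.tsum_mul_left, ← ENNReal.tsum_mul_left]
                refine ENNReal.tsum_le_tsum fun P' => ?_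
                by_cases h2 : (FP hY β A' ∧ HT hY A' ≤ β + i0) ∧ (FP hY S P' ∧ HT hY P' ≤ S + i0)
                · rw [if_pos h2]
                  by_cases h3 : ph hX hY zX zY sX sY lo hi P P' (w + Dp zY A' - Dp zX A)
                      (HT hX A) (HT hY A')
                  · rw [if_pos h3, if_pos ⟨⟨hh.1, h2.1⟩, hh.2, h2.2, h3⟩]
                    exact le_of_eq (by ring)
                  · rw [if_neg h3]; simp
                · rw [if_neg h2]; simp
              · rw [if_neg hh]; exact zero_le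
          _ = (∑' A, ∑' P, (if FP hX α A then LW ΛX A else 0) * ((if FP hX S P then LW ΛX P else 0)
              * (ov ΛY hY β i0 + ov ΛY hY S i0))) + ∑' A, ∑' P, ∑' A', ∑' P', (if (good hX α i0 A ∧
                good hY β i0 A') ∧ (good hX S i0 P ∧ good hY S i0 P' ∧
                ph hX hY zX zY sX sY lo hi P P' (w + Dp zY A' - Dp zX A) (HT hX A) (HT hY A'))
                then LW ΛX A * (LW ΛY A' * (LW ΛX P * LW ΛY P')) else 0) := by
              simp_rw [ENNReal.tsum_add]
          _ ≤ _ := by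
              refine add_le_add ?_ ?_
              · simp_rw [ENNReal.tsum_mul_left, ENNReal.tsum_mul_right]
                calc _ ≤ 1 * (1 * (ov ΛY hY β i0 + ov ΛY hY S i0)) :=
                      mul_le_mul' (fp_mass ΛX hX h1X hΛX α)
                        (mul_le_mul' (fp_mass ΛX hX h1X hΛX S) le_rfl)
                  _ = _ := by rw [one_mul, one_mul]
              · unfold M4
                refine ENNReal.tsum_le_tsum fun A => ?_
                rw [ENNReal.tsum_comm]
                refine ENNReal.tsum_le_tsum fun A' => ?_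
                by_cases h2 : good hX α i0 A ∧ good hY β i0 A'
                · rw [if_pos h2, ← ENNReal.tsum_mul_left, ← ENNReal.tsum_mul_left]
                  refine ENNReal.tsum_le_tsum fun P => ?_
                  rw [← ENNReal.tsum_mul_left, ← ENNReal.tsum_mul_left]
                  refine ENNReal.tsum_le_tsum fun P' => ?_
                  simp only [h2, true_and, and_true]
                  split_ifs <;> simp
                · simp [h2]

end two

end Crest.Agent.R154.Asm329
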