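import Crest.Agent.R154.AsmB_344
import Crest.Agent.R154.Dens_616

/-! Row 154, ROAD 801, abstract assembly, part C (helper344): one window. -/

set_option autoImplicit false

namespace Crest.Agent.R154.Asm344

open scoped ENNReal
open Crest.Agent.R154.B5A
open Crest.Agent.R154.FP178

section one

variable {B G : Type*} [AddCommGroup G] (Λ : B → ℝ≥0∞) (ht : B → ℕ) (z : B → G)

open Classical in
/-- first passage weight with overshoot `≤ i0` -/
noncomputable def fw (s i0 : ℕ) (P : List B) : ℝ≥0∞ :=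
  if fp ht s P ∧ HT ht P ≤ s + i0 then LW Λ P else 0

lemma sum_fw_le (h1 : ∀ b, 1 ≤ ht b) (hΛ : ∑' b, Λ b ≤ 1) (s i0 : ℕ) :
    ∑' P, fw Λ ht s i0 P ≤ 1 := by
  classical
  refine le_trans (ENNReal.tsum_le_tsum fun P => ?_) (sum_FP Λ ht h1 hΛ s)
  unfold fw
  by_cases h : fp ht s P
  · rw [if_pos h]; split_ifs <;> simp
  · rw [if_neg h, if_neg (fun hh => h hh.1)]

open Classical in
lemma sum_fw (T i0 : ℕ) (H : ℕ → G → ℝ≥0∞) :
    ∑' A, fw Λ ht T i0 A * H (HT ht A) (Dp z A)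
      = ∑' o, ∑' x, att ht z Λ T o x * (if o ≤ i0 then H (T + o) x else 0) := by
  rw [← sum_att ht z Λ T (fun o x => if o ≤ i0 then H (T + o) x else 0)]
  refine tsum_congr fun A => ?_
  unfold fw
  by_cases h : fp ht T A
  · have h' := le_HT_of_fp ht h
    by_cases h2 : HT ht A ≤ T + i0
    · rw [if_pos ⟨h, h2⟩, if_pos h, if_pos (by omega), show T + (HT ht A - T) = HT ht A by omega]
    · rw [if_neg (fun hh => h2 hh.2), if_pos h, if_neg (by omega), zero_mul, mul_zero]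
  · rw [if_neg h, if_neg (fun hh => h hh.1), zero_mul]

end one

open Classical in
/-- threshold of a law -/
lemma quant_att {G : Type*} (p : ℕ → G → ℝ≥0∞) (hp : ∑' o, ∑' x, p o x = 1) {u : ℝ≥0∞}
    (hu0 : u ≠ 0) (hu1 : u < 1) : ∃ th : ℝ≥0∞, th ≠ 0 ∧ th ≤ 1 ∧
      (∑' o, ∑' x, (if p o x < th then p o x else 0) ≤ u) ∧
      (∀ i0 : ℕ, ∑ i ∈ Finset.range (i0 + 1), ∑' x, (if th < p i x then p i x else 0) ≤ 1 - u) ∧
      ∀ i, ∃ E : Finset G, (∀ x, x ∈ E ↔ th ≤ p i x) ∧ (E.card : ℝ≥0∞) * th ≤ 1 := by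
  have hp' : ∑' q : ℕ × G, p q.1 q.2 = 1 := by
    rw [ENNReal.tsum_prod (f := fun o x => p o x)]; exact hp
  obtain ⟨th, h0, h1, h2, h3⟩ := Dens616.quantile (fun q : ℕ × G => p q.1 q.2) hp' hu0 hu1
  refine ⟨th, h0, h1, ?_, ?_, ?_⟩
  · rw [← ENNReal.tsum_prod (f := fun o x => if p o x < th then p o x else 0)]
    exact h2
  · intro i0
    have e1 : ∑ i ∈ Finset.range (i0 + 1), ∑' x, (if th < p i x then p i x else 0)
        ≤ ∑' q : ℕ × G, (if th < p q.1 q.2 then p q.1 q.2 else 0) := by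
      rw [ENNReal.tsum_prod (f := fun o x => if th < p o x then p o x else 0)]
      exact ENNReal.sum_le_tsum _
    have e2 : (∑' q : ℕ × G, (if th < p q.1 q.2 then p q.1 q.2 else 0)) +
        (∑' q : ℕ × G, (if p q.1 q.2 ≤ th then p q.1 q.2 else 0)) = 1 := by
      rw [← ENNReal.tsum_add, ← hp']
      refine tsum_congr fun q => ?_
      by_cases h : th < p q.1 q.2
      · rw [if_pos h, if_neg (not_le.2 h), add_zero]
      · rw [if_neg h, if_pos (not_lt.1 h), zero_add]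
    refine e1.trans ?_
    refine ENNReal.le_sub_of_add_le_right (hu1.trans ENNReal.one_lt_top).ne ?_
    calc _ ≤ (∑' q : ℕ × G, (if th < p q.1 q.2 then p q.1 q.2 else 0)) +
        (∑' q : ℕ × G, (if p q.1 q.2 ≤ th then p q.1 q.2 else 0)) := by gcongr
      _ ≤ 1 := e2.le
  · intro i
    have hi : ∑' x, p i x ≤ 1 := (ENNReal.le_tsum i).trans hp.le
    have hfin := Dens616.finite_local (p i) (hi.trans_lt ENNReal.one_lt_top).ne h0
    refine ⟨hfin.toFinset, fun x => by simp, ?_⟩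
    exact (Dens616.card_mul_le (p i) th hfin.toFinset (fun x hx => by simpa using hx)).trans hi

section two

variable {BX BY G : Type*} [AddCommGroup G]
  (ΛX : BX → ℝ≥0∞) (hX : BX → ℕ) (zX : BX → G) (sX : BX → Set (G × ℕ))
  (ΛY : BY → ℝ≥0∞) (hY : BY → ℕ) (zY : BY → G) (sY : BY → Set (G × ℕ))

/-- there is a common site, and all of them have depth in `[lo, hi]` -/
def Ev (lo hi a : ℕ) (L : List BX) (x : G) (a' : ℕ) (L' : List BY) : Prop :=
  (∃ v k, (v, k) ∈ TT hX zX sX L 0 a ∧ (v, k) ∈ TT hY zY sY L' x a') ∧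
  ∀ v k, (v, k) ∈ TT hX zX sX L 0 a → (v, k) ∈ TT hY zY sY L' x a' → lo ≤ k ∧ k ≤ hi

open Classical in
/-- window input, X local -/
def H2 (C : ℝ≥0∞) (us : ℕ → ℕ → ℝ≥0∞) : Prop :=
  ∀ (i1 s h h' a a' lo hi : ℕ) (E : Finset G) (μ : G → ℝ≥0∞) (M lam : ℝ≥0∞),
    ∑' x, μ x ≤ 1 → (∀ x, μ x ≤ M) → lam ≠ 0 → lam ≠ ⊤ →
    a ≤ a' → a' ≤ a + i1 → a' + s ≤ lo → a + h ≤ a' + h' → a' + h' ≤ a + h + i1 →
    hi + s ≤ a + h →
    ∑' x, μ x * ∑' L, ∑' L', (if HT hX L = h ∧ Dp zX L ∈ E ∧ HT hY L' = h' ∧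
      (∃ v k, (v, k) ∈ TT hX zX sX L 0 a ∧ (v, k) ∈ TT hY zY sY L' x a') ∧
      (∀ v k, (v, k) ∈ TT hX zX sX L 0 a → (v, k) ∈ TT hY zY sY L' x a' → lo ≤ k ∧ k ≤ hi)
      then LW ΛX L * LW ΛY L' else 0) ≤ C * (lam + M * E.card * us i1 s / lam + us i1 s)

open Classical in
/-- window input, Y local -/
def H3 (C : ℝ≥0∞) (us : ℕ → ℕ → ℝ≥0∞) : Prop :=
  ∀ (i1 s h h' a a' lo hi : ℕ) (E : Finset G) (μ : G → ℝ≥0∞) (M lam : ℝ≥0∞),
    ∑' x, μ x ≤ 1 → (∀ x, μ x ≤ M) → lam ≠ 0 → lam ≠ ⊤ →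
    a ≤ a' → a' ≤ a + i1 → a' + s ≤ lo → a + h ≤ a' + h' → a' + h' ≤ a + h + i1 →
    hi + s ≤ a + h →
    ∑' x, μ x * ∑' L, ∑' L', (if HT hX L = h ∧ Dp zY L' ∈ E ∧ HT hY L' = h' ∧
      (∃ v k, (v, k) ∈ TT hX zX sX L 0 a ∧ (v, k) ∈ TT hY zY sY L' x a') ∧
      (∀ v k, (v, k) ∈ TT hX zX sX L 0 a → (v, k) ∈ TT hY zY sY L' x a' → lo ≤ k ∧ k ≤ hi)
      then LW ΛX L * LW ΛY L' else 0) ≤ C * (lam + M * E.card * us i1 s / lam + us i1 s)

open Classical in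
/-- thin slab input (540 #39752) -/
def H5 : Prop := ∀ s : ℕ, ∀ η : ℝ≥0∞, η ≠ 0 → ∃ T : ℕ, ∀ a, T ≤ a → ∀ n, ∀ w : G,
    ∑' LX, ∑' LY, (if HT hX LX = n ∧ HT hY LY = n ∧ (∃ v k, a ≤ k ∧ k < a + s ∧
      (v, k) ∈ TT hX zX sX LX 0 0 ∧ (v, k) ∈ TT hY zY sY LY w 0)
      then LW ΛX LX * LW ΛY LY else 0) ≤ η

open Classical in
/-- first contact in `(c, c']` -/
noncomputable def VV (c c' n : ℕ) (w : G) : ℝ≥0∞ :=
  ∑' LX, ∑' LY, (if HT hX LX = n ∧ HT hY LY = n ∧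
    (∀ v k, (v, k) ∈ TT hX zX sX LX 0 0 → (v, k) ∈ TT hY zY sY LY w 0 → c < k) ∧
    (∃ v k, (v, k) ∈ TT hX zX sX LX 0 0 ∧ (v, k) ∈ TT hY zY sY LY w 0 ∧ k ≤ c')
    then LW ΛX LX * LW ΛY LY else 0)

open Classical in
/-- the pieces -/
noncomputable def RR (kX : List BX → ℝ≥0∞) (kY : List BY → ℝ≥0∞) (sx sy i0 lo hi a a' : ℕ)
    (y : G) : ℝ≥0∞ :=
  ∑' P, fw ΛX hX sx i0 P * kX P * ∑' P', fw ΛY hY sy i0 P' * kY P' *
    (if Ev hX zX sX hY zY sY lo hi a P y a' P' then 1 else 0)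

/-- combinatorial key: the contact lies in the two pieces -/
lemma key (hsX : ∀ b q, q ∈ sX b → 1 ≤ q.2 ∧ q.2 ≤ hX b)
    (hsY : ∀ b q, q ∈ sY b → 1 ≤ q.2 ∧ q.2 ≤ hY b)
    (T t s i0 : ℕ) (hts : 2 * i0 + s ≤ t) (w : G) (A P R : List BX) (A' P' R' : List BY)
    (hA : fp hX T A) (hA2 : HT hX A ≤ T + i0) (hP : fp hX (3 * t) P) (hP2 : HT hX P ≤ 3 * t + i0)
    (hA' : fp hY (T + i0) A') (hA2' : HT hY A' ≤ T + i0 + i0) (hP' : fp hY (3 * t + i0) P')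
    (hall : ∀ v k, (v, k) ∈ TT hX zX sX (A ++ (P ++ R)) 0 0 →
      (v, k) ∈ TT hY zY sY (A' ++ (P' ++ R')) w 0 → T + t < k)
    (hex : ∃ v k, (v, k) ∈ TT hX zX sX (A ++ (P ++ R)) 0 0 ∧
      (v, k) ∈ TT hY zY sY (A' ++ (P' ++ R')) w 0 ∧ k ≤ T + 2 * t)
    (hslab : ¬ ∃ v k, T + 3 * t - s + 1 ≤ k ∧ k < T + 3 * t - s + 1 + (s + 2 * i0) ∧
      (v, k) ∈ TT hX zX sX (A ++ (P ++ R)) 0 0 ∧
      (v, k) ∈ TT hY zY sY (A' ++ (P' ++ R')) w 0) :
    Ev hX zX sX hY zY sY (T + t) (T + 3 * t - s) (HT hX A) P (w + Dp zY A' - Dp zX A)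
      (HT hY A') P' := by
  have q1 := le_HT_of_fp hX hA
  have q2 := le_HT_of_fp hX hP
  have q3 := le_HT_of_fp hY hA'
  have q4 := le_HT_of_fp hY hP'
  have c1 : ∀ v k, (v, k) ∈ TT hX zX sX P 0 (HT hX A) →
      (v + Dp zX A, k) ∈ TT hX zX sX (A ++ (P ++ R)) 0 0 := by
    intro v k h
    rw [TT_append, TT_append]
    refine Or.inr (Or.inl ?_)
    rw [zero_add (HT hX A), TT_shift, add_sub_cancel_right]
    exact h
  have c2 : ∀ v k, (v, k) ∈ TT hY zY sY P' (w + Dp zY A' - Dp zX A) (HT hY A') →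
      (v + Dp zX A, k) ∈ TT hY zY sY (A' ++ (P' ++ R')) w 0 := by
    intro v k h
    rw [TT_append, TT_append]
    refine Or.inr (Or.inl ?_)
    rw [zero_add, show w + Dp zY A' = (w + Dp zY A' - Dp zX A) + Dp zX A by abel, TT_shift,
      add_sub_cancel_right]
    exact h
  refine ⟨?_, ?_⟩
  · obtain ⟨v, k, hv, hv', hk⟩ := hex
    have hk' := hall v k hv hv'
    refine ⟨v - Dp zX A, k, ?_, ?_⟩
    · rw [TT_append, TT_append] at hv
      rcases hv with hv | hv | hv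
      · have := TT_depth hX zX sX hsX _ _ _ _ hv
        simp only at this
        omega
      · rw [zero_add (HT hX A)] at hv
        exact (TT_shift hX zX sX P 0 (Dp zX A) v (HT hX A) k).1 hv
      · have := TT_depth hX zX sX hsX _ _ _ _ hv
        simp only at this
        omega
    · rw [TT_append, TT_append] at hv'
      rcases hv' with hv | hv | hv
      · have := TT_depth hY zY sY hsY _ _ _ _ hv
        simp only at this
        omega
      · rw [zero_add] at hv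
        refine (TT_shift hY zY sY P' (w + Dp zY A' - Dp zX A) (Dp zX A) v (HT hY A') k).1 ?_
        rw [show (w + Dp zY A' - Dp zX A) + Dp zX A = w + Dp zY A' by abel]
        exact hv
      · have := TT_depth hY zY sY hsY _ _ _ _ hv
        simp only at this
        omega
  · intro v k hv hv'
    have h1 := hall _ _ (c1 v k hv) (c2 v k hv')
    have h2 := TT_depth hX zX sX hsX _ _ _ _ hv
    simp only at h2
    refine ⟨by omega, ?_⟩
    by_contra hcon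
    exact hslab ⟨v + Dp zX A, k, by omega, by omega, c1 v k hv, c2 v k hv'⟩

end two

end Crest.Agent.R154.Asm344
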