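import Crest.Agent.R154.AsmB_354

/-! Row 154 (helper354), ROAD 801: assembly, part C: one window. -/

set_option autoImplicit false

namespace Crest.Agent.R154.Asm354

open scoped ENNReal
open Crest.Agent.R154.B5A
open Crest.Agent.R154.FP178 (fp fp_nil fp_cons fp_zero le_HT_of_fp split sum_FP fp_split overshoot
  sum_fp_step sum_fp_zero)

section gen
variable {α β γ δ ι κ G : Type*}

lemma tsum_mul_prod (f : α → ℝ≥0∞) (g : β → ℝ≥0∞) :
    ∑' p : α × β, f p.1 * g p.2 = (∑' a, f a) * ∑' b, g b := by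
  rw [ENNReal.tsum_prod', ← ENNReal.tsum_mul_right]
  refine tsum_congr fun a => ?_
  change ∑' b, f a * g b = _
  exact ENNReal.tsum_mul_left

lemma reorder (f : α → β → γ → δ → ℝ≥0∞) :
    ∑' i : (α × β) × (γ × δ), f i.1.1 i.1.2 i.2.1 i.2.2
      = ∑' a, ∑' c, ∑' b, ∑' d, f a b c d := by
  rw [ENNReal.tsum_prod', ENNReal.tsum_prod']
  refine tsum_congr fun a => ?_
  rw [ENNReal.tsum_comm (f := fun c b => ∑' d, f a b c d)]
  refine tsum_congr fun b => ?_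
  rw [ENNReal.tsum_prod']

open Classical in
lemma fin_split (S : Finset κ) (g : ι → κ) (f : ι → ℝ≥0∞) (hf : ∀ i, f i ≠ 0 → g i ∈ S) :
    ∑' i, f i = ∑ c ∈ S, ∑' i, (if g i = c then f i else 0) := by
  rw [← Summable.tsum_finsetSum (fun _ _ => ENNReal.summable)]
  refine tsum_congr fun i => ?_
  by_cases h : f i = 0
  · simp [h]
  · rw [Finset.sum_ite_eq, if_pos (hf i h)]

variable [AddCommGroup G] (f : α → ℝ≥0∞) (g : β → ℝ≥0∞) (dx : α → G) (dy : β → G) (w : G)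

open Classical in
/-- law of the relative position -/
noncomputable def mu (x : G) : ℝ≥0∞ :=
  ∑' A, ∑' A', (if w + dy A' - dx A = x then f A * g A' else 0)

lemma mu_push (F : G → ℝ≥0∞) : ∑' x, mu f g dx dy w x * F x
    = ∑' A, ∑' A', f A * g A' * F (w + dy A' - dx A) := by
  classical
  simp only [mu]
  have e : ∀ x, (∑' A, ∑' A', (if w + dy A' - dx A = x then f A * g A' else 0)) * F x
      = ∑' A, ∑' A', (if w + dy A' - dx A = x then f A * g A' else 0) * F x := fun x => by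
    rw [← ENNReal.tsum_mul_right]
    exact tsum_congr fun A => ENNReal.tsum_mul_right.symm
  rw [tsum_congr e, ENNReal.tsum_comm]
  refine tsum_congr fun A => ?_
  rw [ENNReal.tsum_comm]
  refine tsum_congr fun A' => ?_
  rw [tsum_eq_single (w + dy A' - dx A)]
  · rw [if_pos rfl]
  · intro x hx
    rw [if_neg hx.symm, zero_mul]

lemma mu_sum (hf : ∑' A, f A ≤ 1) (hg : ∑' A', g A' ≤ 1) : ∑' x, mu f g dx dy w x ≤ 1 := by
  have := mu_push f g dx dy w (fun _ => 1)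
  simp only [mul_one] at this
  rw [this]
  calc ∑' A, ∑' A', f A * g A' = (∑' A, f A) * ∑' A', g A' := by
        rw [← ENNReal.tsum_mul_right]
        exact tsum_congr fun A => ENNReal.tsum_mul_left
    _ ≤ 1 * 1 := mul_le_mul' hf hg
    _ = 1 := one_mul 1

open Classical in
lemma mu_le_left (M : ℝ≥0∞) (hf : ∀ v, ∑' A, (if dx A = v then f A else 0) ≤ M)
    (hg : ∑' A', g A' ≤ 1) (x : G) : mu f g dx dy w x ≤ M := by
  rw [mu, ENNReal.tsum_comm]
  calc ∑' A', ∑' A, (if w + dy A' - dx A = x then f A * g A' else 0)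
      ≤ ∑' A', M * g A' := by
        refine ENNReal.tsum_le_tsum fun A' => ?_
        refine le_trans ?_ (mul_le_mul_left (hf (w + dy A' - x)) (g A'))
        rw [← ENNReal.tsum_mul_right]
        refine ENNReal.tsum_le_tsum fun A => ?_
        by_cases h : w + dy A' - dx A = x
        · rw [if_pos h, if_pos (by rw [← h]; abel)]
        · rw [if_neg h]; exact zero_le
    _ = M * ∑' A', g A' := ENNReal.tsum_mul_left
    _ ≤ M * 1 := mul_le_mul_right hg _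
    _ = M := mul_one M

open Classical in
lemma mu_le_right (M : ℝ≥0∞) (hf : ∑' A, f A ≤ 1)
    (hg : ∀ v, ∑' A', (if dy A' = v then g A' else 0) ≤ M) (x : G) : mu f g dx dy w x ≤ M := by
  rw [mu]
  calc ∑' A, ∑' A', (if w + dy A' - dx A = x then f A * g A' else 0)
      ≤ ∑' A, f A * M := by
        refine ENNReal.tsum_le_tsum fun A => ?_
        refine le_trans ?_ (mul_le_mul_right (hg (x - w + dx A)) (f A))
        rw [← ENNReal.tsum_mul_left]
        refine ENNReal.tsum_le_tsum fun A' => ?_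
        by_cases h : w + dy A' - dx A = x
        · rw [if_pos h, if_pos (by rw [← h]; abel)]
        · rw [if_neg h]; exact zero_le
    _ = (∑' A, f A) * M := ENNReal.tsum_mul_right
    _ ≤ 1 * M := mul_le_mul_left hf _
    _ = M := one_mul M

end gen

variable {BX BY G : Type*} [AddCommGroup G]
variable (ΛX : BX → ℝ≥0∞) (ΛY : BY → ℝ≥0∞) (hX : BX → ℕ) (hY : BY → ℕ) (zX : BX → G) (zY : BY → G)
variable (sX : BX → Set (G × ℕ)) (sY : BY → Set (G × ℕ))

/-- common site of two traces at depth `k` -/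
def cts (x : G) (P : List BX) (a : ℕ) (P' : List BY) (a' : ℕ) (k : ℕ) : Prop :=
  ∃ y, (y, k) ∈ TR zX hX sX P 0 a ∧ (y, k) ∈ TR zY hY sY P' x a'

open Classical in
/-- window lemma, X local -/
def H2 (C : ℝ≥0∞) (us : ℕ → ℝ≥0∞) : Prop :=
  ∀ (s h h' a a' : ℕ) (E : Finset G) (μ : G → ℝ≥0∞) (M lam : ℝ≥0∞), ∑' x, μ x ≤ 1 →
    (∀ x, μ x ≤ M) → lam ≠ 0 → lam ≠ ⊤ → a ≤ a' →
    ∑' x, μ x * ∑' P, ∑' P', (if HT hX P = h ∧ Dp zX P ∈ E ∧ HT hY P' = h' ∧
      (∃ k, cts hX hY zX zY sX sY x P a P' a' k) ∧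
      (∀ k, cts hX hY zX zY sX sY x P a P' a' k → a' + s ≤ k)
      then LW ΛX P * LW ΛY P' else 0) ≤ C * (lam + M * E.card * us s / lam + us s)

open Classical in
/-- window lemma, Y local -/
def H3 (C : ℝ≥0∞) (us : ℕ → ℝ≥0∞) : Prop :=
  ∀ (s h h' a a' : ℕ) (E : Finset G) (μ : G → ℝ≥0∞) (M lam : ℝ≥0∞), ∑' x, μ x ≤ 1 →
    (∀ x, μ x ≤ M) → lam ≠ 0 → lam ≠ ⊤ → a + h ≤ a' + h' →
    ∑' x, μ x * ∑' P, ∑' P', (if HT hX P = h ∧ Dp zY P' ∈ E ∧ HT hY P' = h' ∧
      (∃ k, cts hX hY zX zY sX sY x P a P' a' k) ∧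
      (∀ k, cts hX hY zX zY sX sY x P a P' a' k → k + s ≤ a + h)
      then LW ΛX P * LW ΛY P' else 0) ≤ C * (lam + M * E.card * us s / lam + us s)

/-- event of the window in full lists -/
def Ev (w : G) (i0 s α T : ℕ) (LX : List BX) (LY : List BY) : Prop :=
  (∃ k, α + 3 * i0 < k ∧ k ≤ α + T ∧ cts hX hY zX zY sX sY w LX 0 LY 0 k) ∧
  ∀ k, cts hX hY zX zY sX sY w LX 0 LY 0 k →
    (k ≤ α ∨ α + 3 * i0 + s ≤ k) ∧ (k + s ≤ α + T ∨ α + T + 2 * i0 < k)

/-- event of the pieces -/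
def pe (s : ℕ) (x : G) (P : List BX) (a : ℕ) (P' : List BY) (a' : ℕ) : Prop :=
  (∃ k, cts hX hY zX zY sX sY x P a P' a' k) ∧
  ∀ k, cts hX hY zX zY sX sY x P a P' a' k → a' + s ≤ k ∧ k + s ≤ a + HT hX P

variable {hX hY zX zY sX sY}

lemma cts_app (hsX : ∀ b, ∀ q ∈ sX b, 1 ≤ q.2 ∧ q.2 ≤ hX b)
    (hsY : ∀ b, ∀ q ∈ sY b, 1 ≤ q.2 ∧ q.2 ≤ hY b) (w : G) (A P R : List BX) (A' P' R' : List BY)
    (k : ℕ) : (cts hX hY zX zY sX sY (w + Dp zY A' - Dp zX A) P (HT hX A) P' (HT hY A') k →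
      cts hX hY zX zY sX sY w (A ++ (P ++ R)) 0 (A' ++ (P' ++ R')) 0 k) ∧
    (HT hX A < k → k ≤ HT hX A + HT hX P → HT hY A' < k → k ≤ HT hY A' + HT hY P' →
      cts hX hY zX zY sX sY w (A ++ (P ++ R)) 0 (A' ++ (P' ++ R')) 0 k →
      cts hX hY zX zY sX sY (w + Dp zY A' - Dp zX A) P (HT hX A) P' (HT hY A') k) := by
  constructor
  · rintro ⟨y, h1, h2⟩
    refine ⟨y + Dp zX A, ?_, ?_⟩
    · rw [TR_append, TR_append, Nat.zero_add]
      refine Or.inr (Or.inl ?_)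
      rw [TR_shift, add_sub_cancel_right]
      exact h1
    · rw [TR_append, TR_append, Nat.zero_add]
      refine Or.inr (Or.inl ?_)
      have e : w + Dp zY A' = (w + Dp zY A' - Dp zX A) + Dp zX A := by abel
      rw [e, TR_shift, add_sub_cancel_right]
      exact h2
  · rintro k1 k2 k3 k4 ⟨y, h1, h2⟩
    refine ⟨y - Dp zX A, ?_, ?_⟩
    · rw [TR_append, TR_append, Nat.zero_add] at h1
      rcases h1 with h1 | h1 | h1
      · have := TR_depth zX hX sX hsX _ _ _ _ _ h1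
        omega
      · rwa [TR_shift] at h1
      · have := TR_depth zX hX sX hsX _ _ _ _ _ h1
        omega
    · rw [TR_append, TR_append, Nat.zero_add] at h2
      rcases h2 with h2 | h2 | h2
      · have := TR_depth zY hY sY hsY _ _ _ _ _ h2
        omega
      · have e : w + Dp zY A' = (w + Dp zY A' - Dp zX A) + Dp zX A := by abel
        rw [e, TR_shift] at h2
        exact h2
      · have := TR_depth zY hY sY hsY _ _ _ _ _ h2
        omega

lemma pe_of_Ev (hsX : ∀ b, ∀ q ∈ sX b, 1 ≤ q.2 ∧ q.2 ≤ hX b)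
    (hsY : ∀ b, ∀ q ∈ sY b, 1 ≤ q.2 ∧ q.2 ≤ hY b) (w : G) (i0 s α T : ℕ)
    (A P R : List BX) (A' P' R' : List BY)
    (a1 : α ≤ HT hX A) (a2 : HT hX A ≤ α + i0) (p1 : T ≤ HT hX P) (p2 : HT hX P ≤ T + i0)
    (a1' : α + 2 * i0 ≤ HT hY A') (a2' : HT hY A' ≤ α + 2 * i0 + i0) (p1' : T ≤ HT hY P')
    (h : Ev hX hY zX zY sX sY w i0 s α T (A ++ (P ++ R)) (A' ++ (P' ++ R'))) :
    pe hX hY zX zY sX sY s (w + Dp zY A' - Dp zX A) P (HT hX A) P' (HT hY A') := by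
  obtain ⟨⟨k, k1, k2, hk⟩, h2⟩ := h
  refine ⟨⟨k, (cts_app hsX hsY w A P R A' P' R' k).2 (by omega) (by omega) (by omega) (by omega)
    hk⟩, fun k hk => ?_⟩
  have d1 : HT hX A < k ∧ k ≤ HT hX A + HT hX P := by
    obtain ⟨y, hy, _⟩ := hk
    exact TR_depth zX hX sX hsX _ _ _ _ _ hy
  have d2 : HT hY A' < k := by
    obtain ⟨y, _, hy⟩ := hk
    exact (TR_depth zY hY sY hsY _ _ _ _ _ hy).1
  have := h2 k ((cts_app hsX hsY w A P R A' P' R' k).1 hk)
  omega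

end Crest.Agent.R154.Asm354
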