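import Crest.Agent.R154.AsmB_366
import Crest.Agent.R154.KWBind_419

/-! Row 154, ROAD 801, assembly (helper366), part C: decomposition at a window, traces. -/

set_option autoImplicit false

namespace Crest.Agent.R154.Asm366

open scoped ENNReal
open Crest.Agent.R154.B5A
open Crest.Agent.R154.KWB419 (TT)

section tr

variable {B G : Type*} [AddCommGroup G] (s : B → Set (G × ℕ)) (h : B → ℕ) (z : B → G)

lemma TT_append (L L' : List B) (x : G) (a : ℕ) :
    TT s h z (L ++ L') x a = TT s h z L x a ∪ TT s h z L' (x + Dp z L) (a + HT h L) := by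
  induction L generalizing x a with
  | nil => simp [TT, Dp_nil, HT_nil]
  | cons b L ih =>
    rw [List.cons_append, TT, TT, ih, Set.union_assoc]
    congr 2
    rw [HT_cons, Dp, Dp, List.map_cons, List.sum_cons, add_assoc, add_assoc]

lemma TT_depth (hs : ∀ b q, q ∈ s b → 1 ≤ q.2 ∧ q.2 ≤ h b) (L : List B) (x : G) (a : ℕ)
    (p : G × ℕ) (hp : p ∈ TT s h z L x a) : a < p.2 ∧ p.2 ≤ a + HT h L := by
  induction L generalizing x a with
  | nil => simp [TT] at hp
  | cons b L ih =>
    rw [TT] at hp
    rw [HT_cons]
    rcases hp with ⟨q, hq, rfl⟩ | hp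
    · have := hs b q hq
      simp only
      omega
    · have := ih _ _ hp
      omega

lemma TT_shift (L : List B) (x c y : G) (a k : ℕ) :
    (y, k) ∈ TT s h z L (x + c) a ↔ (y - c, k) ∈ TT s h z L x a := by
  induction L generalizing x a with
  | nil => simp [TT]
  | cons b L ih =>
    rw [TT, TT, Set.mem_union, Set.mem_union, show x + c + z b = x + z b + c by abel, ih]
    refine or_congr ?_ Iff.rfl
    constructor
    · rintro ⟨q, hq, he⟩
      rw [Prod.mk.injEq] at he
      refine ⟨q, hq, ?_⟩
      rw [Prod.mk.injEq]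
      exact ⟨by rw [he.1]; abel, he.2⟩
    · rintro ⟨q, hq, he⟩
      rw [Prod.mk.injEq] at he
      refine ⟨q, hq, ?_⟩
      rw [Prod.mk.injEq]
      exact ⟨by rw [show y = y - c + c by abel, he.1]; abel, he.2⟩

end tr

section side

variable {B : Type*} (Λ : B → ℝ≥0∞) (h : B → ℕ)

open Classical in
lemma side (hΛ : ∑' b, Λ b = 1) (h1 : ∀ b, 1 ≤ h b) (hU : ∀ n, U Λ h n ≤ 1)
    (n a T i0 : ℕ) (hn : a + i0 + T ≤ n) (φ : List B → ℝ≥0∞) (hφ : ∀ L, φ L ≤ 1)
    (ψ : List B → List B → ℝ≥0∞)
    (hψ : ∀ P Q R, FP h P a → HT h P ≤ a + i0 → FP h Q T → HT h Q ≤ T + i0 →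
      φ (P ++ (Q ++ R)) ≤ ψ P Q) :
    ∑' L : List B, (if HT h L = n then LW Λ L * φ L else 0)
      ≤ 2 * ep Λ h i0 + ∑' P : List B, ∑' Q : List B,
        (if (FP h P a ∧ HT h P ≤ a + i0) ∧ (FP h Q T ∧ HT h Q ≤ T + i0)
          then LW Λ P * LW Λ Q * ψ P Q else 0) := by
  have hUm : ∀ (P : List B) (N : ℕ), ∑' S : List B, (if HT h (P ++ S) = N then LW Λ (P ++ S) else 0)
      ≤ LW Λ P := by
    intro P N
    calc ∑' S : List B, (if HT h (P ++ S) = N then LW Λ (P ++ S) else 0)
        ≤ ∑' S : List B, LW Λ P * (if HT h S = N - HT h P then LW Λ S else 0) := by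
          refine ENNReal.tsum_le_tsum fun S => ?_
          rw [HT_append, LW_append]
          by_cases hh : HT h P + HT h S = N
          · rw [if_pos hh, if_pos (by omega)]
          · rw [if_neg hh]; exact zero_le
      _ = LW Λ P * U Λ h (N - HT h P) := by rw [ENNReal.tsum_mul_left]; rfl
      _ ≤ LW Λ P * 1 := by gcongr; exact hU _
      _ = LW Λ P := mul_one _
  have e0 : ∑' L : List B, (if HT h L = n then LW Λ L * φ L else 0)
      = ∑' L : List B, (if a ≤ HT h L then (if HT h L = n then LW Λ L * φ L else 0) else 0) := by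
    refine tsum_congr fun L => ?_
    by_cases hh : HT h L = n
    · rw [if_pos (by omega : a ≤ HT h L)]
    · simp [hh]
  rw [e0, split_eq h h1 a]
  -- pointwise in `P`
  have key : ∀ P : List B, (∑' S : List B, if FP h P a then
      (if HT h (P ++ S) = n then LW Λ (P ++ S) * φ (P ++ S) else 0) else 0)
      ≤ (if FP h P a ∧ a + i0 < HT h P then LW Λ P else 0) +
        ((if FP h P a then LW Λ P * ep Λ h i0 else 0) +
        ∑' Q : List B, (if (FP h P a ∧ HT h P ≤ a + i0) ∧ (FP h Q T ∧ HT h Q ≤ T + i0)
          then LW Λ P * LW Λ Q * ψ P Q else 0)) := by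
    intro P
    by_cases hP : FP h P a
    · simp only [hP, if_true, true_and]
      by_cases hP2 : HT h P ≤ a + i0
      · refine le_add_left ?_
        have e1 : ∑' S : List B, (if HT h (P ++ S) = n then LW Λ (P ++ S) * φ (P ++ S) else 0)
            = ∑' S : List B, (if T ≤ HT h S then
              (if HT h (P ++ S) = n then LW Λ (P ++ S) * φ (P ++ S) else 0) else 0) := by
          refine tsum_congr fun S => ?_
          by_cases hh : HT h (P ++ S) = n
          · rw [if_pos (by rw [HT_append] at hh; omega : T ≤ HT h S)]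
          · simp [hh]
        rw [e1, split_eq h h1 T]
        have key2 : ∀ Q : List B, (∑' R : List B, if FP h Q T then
            (if HT h (P ++ (Q ++ R)) = n then LW Λ (P ++ (Q ++ R)) * φ (P ++ (Q ++ R)) else 0)
            else 0) ≤ LW Λ P * (if FP h Q T ∧ T + i0 < HT h Q then LW Λ Q else 0) +
            (if HT h P ≤ a + i0 ∧ FP h Q T ∧ HT h Q ≤ T + i0
              then LW Λ P * LW Λ Q * ψ P Q else 0) := by
          intro Q
          by_cases hQ : FP h Q T
          · simp only [hQ, if_true, true_and]
            by_cases hQ2 : HT h Q ≤ T + i0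
            · refine le_add_left ?_
              rw [if_pos ⟨hP2, hQ2⟩]
              calc ∑' R : List B, (if HT h (P ++ (Q ++ R)) = n then
                  LW Λ (P ++ (Q ++ R)) * φ (P ++ (Q ++ R)) else 0)
                  ≤ ∑' R : List B, (if HT h ((P ++ Q) ++ R) = n then
                    LW Λ ((P ++ Q) ++ R) else 0) * ψ P Q := by
                    refine ENNReal.tsum_le_tsum fun R => ?_
                    rw [List.append_assoc]
                    split_ifs with hh
                    · gcongr
                      exact hψ P Q R hP hP2 hQ hQ2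
                    · simp
                _ ≤ LW Λ (P ++ Q) * ψ P Q := by
                    rw [ENNReal.tsum_mul_right]
                    gcongr
                    exact hUm (P ++ Q) n
                _ = _ := by rw [LW_append]
            · refine le_add_right ?_
              rw [if_pos (by omega : T + i0 < HT h Q), ← LW_append]
              refine le_trans ?_ (hUm (P ++ Q) n)
              refine ENNReal.tsum_le_tsum fun R => ?_
              rw [List.append_assoc]
              split_ifs with hh
              · exact mul_le_of_le_one_right (zero_le) (hφ _)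
              · exact le_rfl
          · simp [hQ]
        refine (ENNReal.tsum_le_tsum key2).trans ?_
        rw [ENNReal.tsum_add, ENNReal.tsum_mul_left]
        gcongr
        exact overshoot Λ h h1 hU i0 T
      · refine le_add_right ?_
        rw [if_pos (by omega : a + i0 < HT h P)]
        refine le_trans ?_ (hUm P n)
        refine ENNReal.tsum_le_tsum fun S => ?_
        split_ifs with hh
        · exact mul_le_of_le_one_right (zero_le) (hφ _)
        · exact le_rfl
    · simp [hP]
  refine (ENNReal.tsum_le_tsum key).trans ?_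
  rw [ENNReal.tsum_add, ENNReal.tsum_add, two_mul, add_assoc]
  refine add_le_add (overshoot Λ h h1 hU i0 a) (add_le_add ?_ le_rfl)
  calc ∑' P : List B, (if FP h P a then LW Λ P * ep Λ h i0 else 0)
      = ∑' P : List B, (if FP h P a then LW Λ P else 0) * ep Λ h i0 := by
        refine tsum_congr fun P => ?_
        split_ifs <;> simp
    _ = 1 * ep Λ h i0 := by rw [ENNReal.tsum_mul_right, mass_FP Λ hΛ h h1]
    _ ≤ _ := by rw [one_mul]

end side

end Crest.Agent.R154.Asm366
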