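import Crest.Agent.R154.AsmB_392

/-! Row 154, ROAD 801 (helper392): the weights of the attempts and the expansion of a crossing of
height `n` into a chain of attempts. -/

set_option autoImplicit false

namespace Crest.Agent.R154.Asm392

open scoped ENNReal
open Crest.Agent.R154.B5A Crest.Agent.R154.FP178

section Wt

variable {B : Type*} (Λ : B → ℝ≥0∞) (ht : B → ℕ) (T i0 : ℕ)

open Classical in
/-- weight of an attempt (first passage of `T`) -/
noncomputable def wf (A : List B) : ℝ≥0∞ := if fp ht T A then LW Λ A else 0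

open Classical in
/-- weight of an attempt with overshoot at most `i0` -/
noncomputable def wt (A : List B) : ℝ≥0∞ :=
  if fp ht T A ∧ HT ht A ≤ T + i0 then LW Λ A else 0

lemma wt_le_wf (A : List B) : wt Λ ht T i0 A ≤ wf Λ ht T A := by
  unfold wt wf
  by_cases h : fp ht T A ∧ HT ht A ≤ T + i0
  · rw [if_pos h, if_pos h.1]
  · rw [if_neg h]; exact zero_le

lemma wf_le_LW (A : List B) : wf Λ ht T A ≤ LW Λ A := by
  unfold wf
  split_ifs
  · exact le_rfl
  · exact zero_le

lemma wt_le_LW (A : List B) : wt Λ ht T i0 A ≤ LW Λ A := (wt_le_wf Λ ht T i0 A).trans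
  (wf_le_LW Λ ht T A)

lemma wt_range (A : List B) (h : wt Λ ht T i0 A ≠ 0) : T ≤ HT ht A ∧ HT ht A ≤ T + i0 := by
  unfold wt at h
  by_cases h' : fp ht T A ∧ HT ht A ≤ T + i0
  · exact ⟨le_HT_of_fp ht h'.1, h'.2⟩
  · rw [if_neg h'] at h; exact absurd rfl h

lemma wf_sum (h1 : ∀ b, 1 ≤ ht b) (hΛ : ∑' b, Λ b = 1) : ∑' A, wf Λ ht T A = 1 := by
  classical
  induction T using Nat.strong_induction_on with
  | _ a ih =>
    rcases Nat.eq_zero_or_pos a with rfl | ha
    · have := sum_fp_zero Λ ht (fun _ => 1)
      simp only [mul_one] at this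
      unfold wf
      convert this
    · have := sum_fp_step Λ ht a ha (fun _ => 1)
      simp only [mul_one] at this
      have e : ∑' A, wf Λ ht a A = ∑' b, Λ b * ∑' L, wf Λ ht (a - ht b) L := by
        unfold wf
        convert this
      rw [e]
      calc ∑' b, Λ b * ∑' L, wf Λ ht (a - ht b) L = ∑' b, Λ b * 1 := by
            refine tsum_congr fun b => ?_
            rw [ih (a - ht b) (by have := h1 b; omega)]
        _ = 1 := by simpa using hΛ

lemma wt_sum (h1 : ∀ b, 1 ≤ ht b) (hΛ : ∑' b, Λ b = 1) : ∑' A, wt Λ ht T i0 A ≤ 1 :=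
  (ENNReal.tsum_le_tsum fun A => wt_le_wf Λ ht T i0 A).trans (wf_sum Λ ht T h1 hΛ).le

open Classical in
/-- crossing of height `n` = chain of `J` attempts and a rest, off the overshoots. -/
theorem expand (h1 : ∀ b, 1 ≤ ht b) (hΛ : ∑' b, Λ b = 1) (hU1 : ∀ n, U Λ ht n ≤ 1)
    (ε1 : ℝ≥0∞) (hε : ∑' L, (if fp ht T L ∧ T + i0 < HT ht L then LW Λ L else 0) ≤ ε1)
    (J : ℕ) : ∀ (n : ℕ), J * (T + i0) ≤ n → ∀ F : List B → ℝ≥0∞, (∀ L, F L ≤ 1) →
    ∑' L, (if HT ht L = n then LW Λ L * F L else 0)
      ≤ It (wt Λ ht T i0) J (fun P => ∑' R, (if HT ht P + HT ht R = n then LW Λ R * F (P ++ R)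
          else 0)) + J * ε1 := by
  induction J with
  | zero =>
    intro n _ F _
    rw [It_zero]
    simp [HT_nil]
  | succ J ih =>
    intro n hn F hF
    have hn1 : T + i0 ≤ n := le_trans (by nlinarith [Nat.zero_le (J * (T + i0))]) hn
    have e1 : ∑' L, (if HT ht L = n then LW Λ L * F L else 0)
        = ∑' L, (if T ≤ HT ht L then LW Λ L * (if HT ht L = n then F L else 0) else 0) := by
      refine tsum_congr fun L => ?_
      by_cases h : HT ht L = n
      · rw [if_pos h, if_pos (by omega), if_pos h]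
      · rw [if_neg h, if_neg h]; simp
    rw [e1, split Λ ht h1 T (fun L => if HT ht L = n then F L else 0)]
    have hA : ∀ A : List B, (if fp ht T A then LW Λ A * ∑' R, LW Λ R *
          (if HT ht (A ++ R) = n then F (A ++ R) else 0) else 0)
        ≤ wt Λ ht T i0 A * (It (wt Λ ht T i0) J (fun P => ∑' R,
            (if HT ht (A ++ P) + HT ht R = n then LW Λ R * F (A ++ P ++ R) else 0)) + J * ε1)
          + (if fp ht T A ∧ T + i0 < HT ht A then LW Λ A else 0) := by
      intro A
      by_cases hfp : fp ht T A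
      · rw [if_pos hfp]
        by_cases hle : HT ht A ≤ T + i0
        · rw [if_neg (fun h => by omega), add_zero]
          have hw : wt Λ ht T i0 A = LW Λ A := by unfold wt; rw [if_pos ⟨hfp, hle⟩]
          rw [hw]
          refine mul_le_mul_right ?_ _
          have hn2 : J * (T + i0) ≤ n - HT ht A := by
            have : (J + 1) * (T + i0) = J * (T + i0) + (T + i0) := by ring
            omega
          have := ih (n - HT ht A) hn2 (fun L => F (A ++ L)) (fun L => hF _)
          have e2 : ∀ R : List B, LW Λ R * (if HT ht (A ++ R) = n then F (A ++ R) else 0)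
              = (if HT ht R = n - HT ht A then LW Λ R * F (A ++ R) else 0) := by
            intro R
            rw [HT_append]
            by_cases h : HT ht R = n - HT ht A
            · rw [if_pos h, if_pos (by omega)]
            · rw [if_neg h, if_neg (by omega), mul_zero]
          rw [tsum_congr e2]
          refine this.trans (add_le_add_left (le_of_eq ?_) _)
          congr 1
          funext P
          refine tsum_congr fun R => ?_
          rw [HT_append, List.append_assoc]
          by_cases h : HT ht P + HT ht R = n - HT ht A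
          · rw [if_pos h, if_pos (by omega)]
          · rw [if_neg h, if_neg (by omega)]
        · have hlt : T + i0 < HT ht A := by omega
          refine le_add_left ?_
          rw [if_pos ⟨hfp, hlt⟩]
          calc LW Λ A * ∑' R, LW Λ R * (if HT ht (A ++ R) = n then F (A ++ R) else 0)
              ≤ LW Λ A * U Λ ht (n - HT ht A) := by
                refine mul_le_mul_right (ENNReal.tsum_le_tsum fun R => ?_) _
                rw [HT_append]
                by_cases h : HT ht A + HT ht R = n
                · rw [if_pos h, if_pos (by omega)]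
                  calc LW Λ R * F (A ++ R) ≤ LW Λ R * 1 := mul_le_mul_right (hF _) _
                    _ = _ := mul_one _
                · rw [if_neg h, mul_zero]; exact zero_le
            _ ≤ LW Λ A * 1 := mul_le_mul_right (hU1 _) _
            _ = LW Λ A := mul_one _
      · rw [if_neg hfp]; exact zero_le
    calc _ ≤ _ := ENNReal.tsum_le_tsum hA
      _ = ∑' A, wt Λ ht T i0 A * It (wt Λ ht T i0) J (fun P => ∑' R,
            (if HT ht (A ++ P) + HT ht R = n then LW Λ R * F (A ++ P ++ R) else 0))
          + (∑' A, wt Λ ht T i0 A) * (J * ε1)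
          + ∑' A, (if fp ht T A ∧ T + i0 < HT ht A then LW Λ A else 0) := by
          rw [ENNReal.tsum_add]
          congr 1
          rw [← ENNReal.tsum_mul_right, ← ENNReal.tsum_add]
          exact tsum_congr fun A => mul_add _ _ _
      _ ≤ It (wt Λ ht T i0) (J + 1) (fun P => ∑' R, (if HT ht P + HT ht R = n then
            LW Λ R * F (P ++ R) else 0)) + 1 * (J * ε1) + ε1 := by
          rw [It_succ]
          exact add_le_add (add_le_add_right (mul_le_mul_left (wt_sum Λ ht T i0 h1 hΛ) _) _) hε
      _ = _ := by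
          push_cast
          ring

end Wt

variable {BX BY : Type*} (ΛX : BX → ℝ≥0∞) (hX : BX → ℕ) (ΛY : BY → ℝ≥0∞) (hY : BY → ℕ)

open Classical in
/-- expansion of both walkers -/
theorem expand2 (h1X : ∀ b, 1 ≤ hX b) (h1Y : ∀ b, 1 ≤ hY b) (hΛX : ∑' b, ΛX b = 1)
    (hΛY : ∑' b, ΛY b = 1) (hUX : ∀ n, U ΛX hX n ≤ 1) (hUY : ∀ n, U ΛY hY n ≤ 1) (T i0 : ℕ)
    (ε1 : ℝ≥0∞) (hεX : ∑' L, (if fp hX T L ∧ T + i0 < HT hX L then LW ΛX L else 0) ≤ ε1)
    (hεY : ∑' L, (if fp hY T L ∧ T + i0 < HT hY L then LW ΛY L else 0) ≤ ε1)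
    (J nX nY : ℕ) (hnX : J * (T + i0) ≤ nX) (hnY : J * (T + i0) ≤ nY) (F F' : List BX → List BY → ℝ≥0∞)
    (hF1 : ∀ L L', F L L' ≤ 1)
    (hFF : ∀ P R Q R', J * T ≤ HT hX P → J * T ≤ HT hY Q → F (P ++ R) (Q ++ R') ≤ F' P Q) :
    ∑' LX, ∑' LY, (if HT hX LX = nX ∧ HT hY LY = nY then LW ΛX LX * LW ΛY LY * F LX LY else 0)
      ≤ It (wt ΛX hX T i0) J (fun P => It (wt ΛY hY T i0) J (fun Q => F' P Q))
        + (J * ε1 + J * ε1) := by
  set F1 : List BX → ℝ≥0∞ := fun LX => It (wt ΛY hY T i0) J (fun Q => ∑' R',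
    (if HT hY Q + HT hY R' = nY then LW ΛY R' * F LX (Q ++ R') else 0)) with hF1d
  have rest1 : ∀ (m : ℕ), ∑' R', (if m + HT hY R' = nY then LW ΛY R' else 0) ≤ 1 := by
    intro m
    refine le_trans ?_ (hUY (nY - m))
    refine ENNReal.tsum_le_tsum fun R' => ?_
    by_cases h : m + HT hY R' = nY
    · rw [if_pos h, if_pos (by omega)]
    · rw [if_neg h]; exact zero_le
  have rest2 : ∀ (m : ℕ), ∑' R', (if m + HT hX R' = nX then LW ΛX R' else 0) ≤ 1 := by
    intro m
    refine le_trans ?_ (hUX (nX - m))
    refine ENNReal.tsum_le_tsum fun R' => ?_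
    by_cases h : m + HT hX R' = nX
    · rw [if_pos h, if_pos (by omega)]
    · rw [if_neg h]; exact zero_le
  have hF1le : ∀ LX, F1 LX ≤ 1 := by
    intro LX
    refine le_trans (It_mono' _ J (F' := fun _ => 1) fun Q => ?_)
      (It_one _ (wt_sum ΛY hY T i0 h1Y hΛY) J)
    refine le_trans (ENNReal.tsum_le_tsum fun R' => ?_) (rest1 (HT hY Q))
    by_cases h : HT hY Q + HT hY R' = nY
    · rw [if_pos h, if_pos h]
      calc LW ΛY R' * F LX (Q ++ R') ≤ LW ΛY R' * 1 := mul_le_mul_right (hF1 _ _) _
        _ = _ := mul_one _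
    · rw [if_neg h, if_neg h]
  calc ∑' LX, ∑' LY, (if HT hX LX = nX ∧ HT hY LY = nY then LW ΛX LX * LW ΛY LY * F LX LY else 0)
      = ∑' LX, (if HT hX LX = nX then LW ΛX LX * ∑' LY, (if HT hY LY = nY then
          LW ΛY LY * F LX LY else 0) else 0) := by
        refine tsum_congr fun LX => ?_
        by_cases h : HT hX LX = nX
        · rw [if_pos h, ← ENNReal.tsum_mul_left]
          refine tsum_congr fun LY => ?_
          by_cases h' : HT hY LY = nY
          · rw [if_pos ⟨h, h'⟩, if_pos h', mul_assoc]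
          · rw [if_neg (fun hh => h' hh.2), if_neg h', mul_zero]
        · rw [if_neg h]
          simp [h]
    _ ≤ ∑' LX, (if HT hX LX = nX then LW ΛX LX * F1 LX + LW ΛX LX * (J * ε1) else 0) := by
        refine ENNReal.tsum_le_tsum fun LX => ?_
        by_cases h : HT hX LX = nX
        · rw [if_pos h, if_pos h, ← mul_add]
          exact mul_le_mul_right (expand ΛY hY T i0 h1Y hΛY hUY ε1 hεY J nY hnY (F LX) (hF1 LX)) _
        · rw [if_neg h, if_neg h]
    _ = ∑' LX, (if HT hX LX = nX then LW ΛX LX * F1 LX else 0)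
          + (∑' LX, (if HT hX LX = nX then LW ΛX LX else 0)) * (J * ε1) := by
        rw [← ENNReal.tsum_mul_right, ← ENNReal.tsum_add]
        refine tsum_congr fun LX => ?_
        by_cases h : HT hX LX = nX
        · simp [h]
        · simp [h]
    _ ≤ (It (wt ΛX hX T i0) J (fun P => ∑' R, (if HT hX P + HT hX R = nX then
            LW ΛX R * F1 (P ++ R) else 0)) + J * ε1) + 1 * (J * ε1) := by
        refine add_le_add (expand ΛX hX T i0 h1X hΛX hUX ε1 hεX J nX hnX F1 hF1le) ?_
        exact mul_le_mul_left (hUX nX) _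
    _ ≤ (It (wt ΛX hX T i0) J (fun P => It (wt ΛY hY T i0) J (fun Q => F' P Q))
          + J * ε1) + 1 * (J * ε1) := by
        refine add_le_add_left (add_le_add_left ?_ _) _
        refine It_mono _ hX T (T + i0) (wt_range ΛX hX T i0) J fun P hP _ => ?_
        have hQ : ∀ R, F1 (P ++ R) ≤ It (wt ΛY hY T i0) J (fun Q => F' P Q) := by
          intro R
          refine It_mono _ hY T (T + i0) (wt_range ΛY hY T i0) J fun Q hQ _ => ?_
          calc ∑' R', (if HT hY Q + HT hY R' = nY then LW ΛY R' * F (P ++ R) (Q ++ R') else 0)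
              ≤ ∑' R', (if HT hY Q + HT hY R' = nY then LW ΛY R' else 0) * F' P Q := by
                refine ENNReal.tsum_le_tsum fun R' => ?_
                by_cases h : HT hY Q + HT hY R' = nY
                · rw [if_pos h, if_pos h]
                  exact mul_le_mul_right (hFF P R Q R' hP hQ) _
                · rw [if_neg h]; exact zero_le
            _ = (∑' R', (if HT hY Q + HT hY R' = nY then LW ΛY R' else 0)) * F' P Q :=
                ENNReal.tsum_mul_right
            _ ≤ 1 * F' P Q := mul_le_mul_left (rest1 _) _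
            _ = F' P Q := one_mul _
        calc ∑' R, (if HT hX P + HT hX R = nX then LW ΛX R * F1 (P ++ R) else 0)
            ≤ ∑' R, (if HT hX P + HT hX R = nX then LW ΛX R else 0) *
                It (wt ΛY hY T i0) J (fun Q => F' P Q) := by
              refine ENNReal.tsum_le_tsum fun R => ?_
              by_cases h : HT hX P + HT hX R = nX
              · rw [if_pos h, if_pos h]
                exact mul_le_mul_right (hQ R) _
              · rw [if_neg h]; exact zero_le
          _ = (∑' R, (if HT hX P + HT hX R = nX then LW ΛX R else 0)) *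
                It (wt ΛY hY T i0) J (fun Q => F' P Q) := ENNReal.tsum_mul_right
          _ ≤ 1 * It (wt ΛY hY T i0) J (fun Q => F' P Q) := mul_le_mul_left (rest2 _) _
          _ = _ := one_mul _
    _ = _ := by rw [one_mul, add_assoc]

end Crest.Agent.R154.Asm392
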