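import Crest.Agent.R154.AsmB_4

/-! Row 154 (helper4), ROAD 801, assembly part C: one window. -/

set_option autoImplicit false

namespace Crest.Agent.R154.Asm4

open scoped ENNReal
open Crest.Agent.R154.B5A Crest.Agent.R154.FP178

variable {BX BY G : Type*} [AddCommGroup G]
  (ΛX : BX → ℝ≥0∞) (hX : BX → ℕ) (zX : BX → G) (sX : BX → Set (G × ℕ))
  (ΛY : BY → ℝ≥0∞) (hY : BY → ℕ) (zY : BY → G) (sY : BY → Set (G × ℕ))

/-- pieces `P`, `P'` with tops at depths `a`, `a'` and relative position `x` have a common site, and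
all common sites are at depths in `[lo, hi]` -/
def PE (lo hi a a' : ℕ) (x : G) (P : List BX) (P' : List BY) : Prop :=
  (∃ z k, (z, k) ∈ TT hX zX sX P 0 a ∧ (z, k) ∈ TT hY zY sY P' x a') ∧
  (∀ z k, (z, k) ∈ TT hX zX sX P 0 a → (z, k) ∈ TT hY zY sY P' x a' → lo ≤ k ∧ k ≤ hi)

open Classical in
/-- window lemma, X local -/
def H2L (C : ℝ≥0∞) (us : ℕ → ℝ≥0∞) : Prop :=
  ∀ (s h h' a a' lo hi : ℕ) (E : Finset G) (μ : G → ℝ≥0∞) (M lam : ℝ≥0∞),
    ∑' x, μ x ≤ 1 → (∀ x, μ x ≤ M) → lam ≠ 0 → lam ≠ ⊤ → a ≤ a' → a + h ≤ a' + h' →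
    a + s ≤ lo → a' + s ≤ lo → hi + s ≤ a + h → hi + s ≤ a' + h' →
    ∑' x, μ x * ∑' L : List BX, ∑' L' : List BY,
      (if HT hX L = h ∧ Dp zX L ∈ E ∧ HT hY L' = h' ∧ PE hX zX sX hY zY sY lo hi a a' x L L'
        then LW ΛX L * LW ΛY L' else 0) ≤ C * (lam + M * E.card * us s / lam + us s)

open Classical in
/-- window lemma, Y local -/
def H3L (C : ℝ≥0∞) (us : ℕ → ℝ≥0∞) : Prop :=
  ∀ (s h h' a a' lo hi : ℕ) (E : Finset G) (μ : G → ℝ≥0∞) (M lam : ℝ≥0∞),
    ∑' x, μ x ≤ 1 → (∀ x, μ x ≤ M) → lam ≠ 0 → lam ≠ ⊤ → a ≤ a' → a + h ≤ a' + h' →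
    a + s ≤ lo → a' + s ≤ lo → hi + s ≤ a + h → hi + s ≤ a' + h' →
    ∑' x, μ x * ∑' L : List BX, ∑' L' : List BY,
      (if HT hX L = h ∧ HT hY L' = h' ∧ Dp zY L' ∈ E ∧ PE hX zX sX hY zY sY lo hi a a' x L L'
        then LW ΛX L * LW ΛY L' else 0) ≤ C * (lam + M * E.card * us s / lam + us s)

/-- event of a window -/
def EvW (w : G) (lo hi b0 b1 : ℕ) (LX : List BX) (LY : List BY) : Prop :=
  (∃ z k, lo ≤ k ∧ k ≤ hi ∧ (z, k) ∈ TT hX zX sX LX 0 0 ∧ (z, k) ∈ TT hY zY sY LY w 0) ∧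
  (∀ z k, (z, k) ∈ TT hX zX sX LX 0 0 → (z, k) ∈ TT hY zY sY LY w 0 → b0 < k → k ≤ b1 →
    lo ≤ k ∧ k ≤ hi)

variable {ΛX hX zX sX ΛY hY zY sY}

open Classical in
/-- reduction of a window to four pieces -/
theorem window_red (h1X : ∀ b, 1 ≤ hX b) (hΛX : ∑' b, ΛX b = 1) (hUX : ∀ n, U ΛX hX n ≤ 1)
    (h1Y : ∀ b, 1 ≤ hY b) (hΛY : ∑' b, ΛY b = 1) (hUY : ∀ n, U ΛY hY n ≤ 1)
    (hsX : ∀ b q, q ∈ sX b → 1 ≤ q.2 ∧ q.2 ≤ hX b) (hsY : ∀ b q, q ∈ sY b → 1 ≤ q.2 ∧ q.2 ≤ hY b)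
    (a0 H i0 s n : ℕ) (hs1 : 1 ≤ s) (hn : a0 + H + 4 * i0 ≤ n) (hHs : s ≤ H) (εX εY : ℝ≥0∞)
    (hεX : ∀ a, ∑' L, (if fp hX a L ∧ a + i0 < HT hX L then LW ΛX L else 0) ≤ εX)
    (hεY : ∀ a, ∑' L, (if fp hY a L ∧ a + i0 < HT hY L then LW ΛY L else 0) ≤ εY) (w : G) :
    ∑' LX, ∑' LY, (if HT hX LX = n ∧ HT hY LY = n ∧
        EvW hX zX sX hY zY sY w (a0 + 2 * i0 + s) (a0 + H - s) a0 (a0 + H + 2 * i0) LX LY
        then LW ΛX LX * LW ΛY LY else 0)
      ≤ ∑' A, (if fp hX a0 A ∧ HT hX A ≤ a0 + i0 then LW ΛX A *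
          ∑' P, (if fp hX H P ∧ HT hX P ≤ H + i0 then LW ΛX P *
            ∑' A', (if fp hY (a0 + i0) A' ∧ HT hY A' ≤ (a0 + i0) + i0 then LW ΛY A' *
              ∑' P', (if fp hY (H + 2 * i0) P' ∧ HT hY P' ≤ (H + 2 * i0) + i0 then LW ΛY P' *
                (if PE hX zX sX hY zY sY (a0 + 2 * i0 + s) (a0 + H - s) (HT hX A) (HT hY A')
                  (w + Dp zY A' - Dp zX A) P P' then 1 else 0) else 0) else 0) else 0) else 0)
        + 2 * εY + 2 * εX := by
  set lo := a0 + 2 * i0 + s with hlo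
  set hi := a0 + H - s with hhi
  -- sum over LY first
  set F : List BX → ℝ≥0∞ := fun LX => ∑' LY, (if HT hY LY = n then LW ΛY LY *
    (if EvW hX zX sX hY zY sY w lo hi a0 (a0 + H + 2 * i0) LX LY then 1 else 0) else 0) with hFd
  have hF1 : ∀ LX, F LX ≤ 1 := by
    intro LX
    refine le_trans (ENNReal.tsum_le_tsum fun LY => ?_) (hUY n)
    by_cases h : HT hY LY = n
    · rw [if_pos h, if_pos h]
      split_ifs <;> simp
    · rw [if_neg h, if_neg h]
  have e0 : ∑' LX, ∑' LY, (if HT hX LX = n ∧ HT hY LY = n ∧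
        EvW hX zX sX hY zY sY w lo hi a0 (a0 + H + 2 * i0) LX LY
        then LW ΛX LX * LW ΛY LY else 0)
      = ∑' LX, (if HT hX LX = n then LW ΛX LX * F LX else 0) := by
    refine tsum_congr fun LX => ?_
    by_cases h : HT hX LX = n
    · rw [if_pos h, hFd]
      simp only
      rw [← ENNReal.tsum_mul_left]
      refine tsum_congr fun LY => ?_
      by_cases h2 : HT hY LY = n <;>
        by_cases h3 : EvW hX zX sX hY zY sY w lo hi a0 (a0 + H + 2 * i0) LX LY <;>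
        simp [h, h2, h3]
    · rw [if_neg h]
      have : ∀ LY : List BY, (if HT hX LX = n ∧ HT hY LY = n ∧
        EvW hX zX sX hY zY sY w lo hi a0 (a0 + H + 2 * i0) LX LY
        then LW ΛX LX * LW ΛY LY else 0) = 0 := fun LY => if_neg (fun h' => h h'.1)
      simp [this]
  rw [e0]
  -- intermediate event
  set Ev1 : List BX → List BX → List BY → Prop := fun A P LY =>
    (∃ z k, (z, k) ∈ TT hX zX sX P (Dp zX A) (HT hX A) ∧ (z, k) ∈ TT hY zY sY LY w 0 ∧
      lo ≤ k ∧ k ≤ hi) ∧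
    (∀ z k, (z, k) ∈ TT hX zX sX P (Dp zX A) (HT hX A) → (z, k) ∈ TT hY zY sY LY w 0 →
      lo ≤ k ∧ k ≤ hi) with hEv1
  set g : List BX → List BX → ℝ≥0∞ := fun A P => ∑' LY, (if HT hY LY = n then LW ΛY LY *
    (if Ev1 A P LY then 1 else 0) else 0) with hg
  have step1 := pieces ΛX hX h1X hΛX hUX a0 H i0 n (by omega) εX hεX F hF1 g (by
    intro A P R hA hA2 hP hP2
    rw [hFd, hg]
    refine ENNReal.tsum_le_tsum fun LY => ?_
    by_cases h : HT hY LY = n
    swap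
    · rw [if_neg h, if_neg h]
    rw [if_pos h, if_pos h]
    refine mul_le_mul_right ?_ _
    by_cases hE : EvW hX zX sX hY zY sY w lo hi a0 (a0 + H + 2 * i0) (A ++ P ++ R) LY
    swap
    · rw [if_neg hE]; exact zero_le
    rw [if_pos hE, if_pos]
    have hmem : ∀ z k, (z, k) ∈ TT hX zX sX (A ++ P ++ R) 0 0 ↔
        (z, k) ∈ TT hX zX sX A 0 0 ∨ (z, k) ∈ TT hX zX sX P (Dp zX A) (HT hX A) ∨
        (z, k) ∈ TT hX zX sX R (Dp zX (A ++ P)) (HT hX (A ++ P)) := by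
      intro z k
      rw [TT_append, TT_append]
      simp only [Set.mem_union, zero_add]
      tauto
    have hAle := le_HT_of_fp hX hA
    have hPle := le_HT_of_fp hX hP
    refine ⟨?_, ?_⟩
    · obtain ⟨z, k, h1, h2, h3, h4⟩ := hE.1
      rw [hmem] at h3
      rcases h3 with h3 | h3 | h3
      · have := TT_depth hX zX sX hsX A 0 0 z k h3
        omega
      · exact ⟨z, k, h3, h4, h1, h2⟩
      · have := TT_depth hX zX sX hsX R _ _ z k h3
        rw [HT_append] at this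
        omega
    · intro z k h3 h4
      have hd := TT_depth hX zX sX hsX P _ _ z k h3
      exact hE.2 z k ((hmem z k).2 (Or.inr (Or.inl h3))) h4 (by omega) (by omega))
  refine step1.trans ?_
  refine add_le_add ?_ le_rfl
  -- second reduction
  have step2 : ∀ A P, fp hX a0 A → HT hX A ≤ a0 + i0 → g A P ≤
      ∑' A', (if fp hY (a0 + i0) A' ∧ HT hY A' ≤ (a0 + i0) + i0 then LW ΛY A' *
              ∑' P', (if fp hY (H + 2 * i0) P' ∧ HT hY P' ≤ (H + 2 * i0) + i0 then LW ΛY P' *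
                (if PE hX zX sX hY zY sY lo hi (HT hX A) (HT hY A')
                  (w + Dp zY A' - Dp zX A) P P' then 1 else 0) else 0) else 0) + 2 * εY := by
    intro A P hA hA2
    refine pieces ΛY hY h1Y hΛY hUY (a0 + i0) (H + 2 * i0) i0 n (by omega) εY hεY
      (fun LY => if Ev1 A P LY then 1 else 0) (fun L => by split_ifs <;> simp)
      (fun A' P' => if PE hX zX sX hY zY sY lo hi (HT hX A) (HT hY A')
                  (w + Dp zY A' - Dp zX A) P P' then 1 else 0) ?_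
    intro A' P' R' hA' hA2' hP' hP2'
    by_cases hE : Ev1 A P (A' ++ P' ++ R')
    swap
    · simp only [hE, if_false]; exact zero_le
    simp only [hE, if_true]
    rw [if_pos]
    have hmem : ∀ z k, (z, k) ∈ TT hY zY sY (A' ++ P' ++ R') w 0 ↔
        (z, k) ∈ TT hY zY sY A' w 0 ∨ (z, k) ∈ TT hY zY sY P' (w + Dp zY A') (HT hY A') ∨
        (z, k) ∈ TT hY zY sY R' (w + Dp zY (A' ++ P')) (HT hY (A' ++ P')) := by
      intro z k
      rw [TT_append, TT_append]
      simp only [Set.mem_union, zero_add]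
      tauto
    have hAle := le_HT_of_fp hY hA'
    have hPle := le_HT_of_fp hY hP'
    have shX : ∀ z k, (z, k) ∈ TT hX zX sX P (Dp zX A) (HT hX A) ↔
        (z - Dp zX A, k) ∈ TT hX zX sX P 0 (HT hX A) := by
      intro z k
      have := TT_shift hX zX sX P (Dp zX A) 0 (HT hX A) (z - Dp zX A) k
      rwa [sub_add_cancel, zero_add] at this
    have shY : ∀ z k, (z, k) ∈ TT hY zY sY P' (w + Dp zY A') (HT hY A') ↔
        (z - Dp zX A, k) ∈ TT hY zY sY P' (w + Dp zY A' - Dp zX A) (HT hY A') := by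
      intro z k
      have := TT_shift hY zY sY P' (Dp zX A) (w + Dp zY A' - Dp zX A) (HT hY A') (z - Dp zX A) k
      rwa [sub_add_cancel, sub_add_cancel] at this
    refine ⟨?_, ?_⟩
    · obtain ⟨z, k, h1, h2, h3, h4⟩ := hE.1
      rw [hmem] at h2
      rcases h2 with h2 | h2 | h2
      · have := TT_depth hY zY sY hsY A' _ _ z k h2
        omega
      · exact ⟨z - Dp zX A, k, (shX z k).1 h1, (shY z k).1 h2⟩
      · have := TT_depth hY zY sY hsY R' _ _ z k h2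
        rw [HT_append] at this
        omega
    · intro z k h1 h2
      have h1' : (z + Dp zX A, k) ∈ TT hX zX sX P (Dp zX A) (HT hX A) := by
        rw [shX, add_sub_cancel_right]; exact h1
      have h2' : (z + Dp zX A, k) ∈ TT hY zY sY P' (w + Dp zY A') (HT hY A') := by
        rw [shY, add_sub_cancel_right]; exact h2
      exact hE.2 (z + Dp zX A) k h1' ((hmem _ _).2 (Or.inr (Or.inl h2')))
  set Ψ : List BX → List BX → ℝ≥0∞ := fun A P =>
      ∑' A', (if fp hY (a0 + i0) A' ∧ HT hY A' ≤ (a0 + i0) + i0 then LW ΛY A' *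
              ∑' P', (if fp hY (H + 2 * i0) P' ∧ HT hY P' ≤ (H + 2 * i0) + i0 then LW ΛY P' *
                (if PE hX zX sX hY zY sY lo hi (HT hX A) (HT hY A')
                  (w + Dp zY A' - Dp zX A) P P' then 1 else 0) else 0) else 0) with hΨ
  calc ∑' A, (if fp hX a0 A ∧ HT hX A ≤ a0 + i0 then LW ΛX A *
        ∑' P, (if fp hX H P ∧ HT hX P ≤ H + i0 then LW ΛX P * g A P else 0) else 0)
      ≤ ∑' A, ((if fp hX a0 A ∧ HT hX A ≤ a0 + i0 then LW ΛX A *
          ∑' P, (if fp hX H P ∧ HT hX P ≤ H + i0 then LW ΛX P * Ψ A P else 0) else 0)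
          + (if fp hX a0 A then LW ΛX A else 0) * (2 * εY)) := by
        refine ENNReal.tsum_le_tsum fun A => ?_
        by_cases hA : fp hX a0 A ∧ HT hX A ≤ a0 + i0
        swap
        · rw [if_neg hA]; exact zero_le
        rw [if_pos hA, if_pos hA, if_pos hA.1, ← mul_add]
        refine mul_le_mul_right ?_ _
        calc ∑' P, (if fp hX H P ∧ HT hX P ≤ H + i0 then LW ΛX P * g A P else 0)
            ≤ ∑' P, ((if fp hX H P ∧ HT hX P ≤ H + i0 then LW ΛX P * Ψ A P else 0)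
              + (if fp hX H P then LW ΛX P else 0) * (2 * εY)) := by
              refine ENNReal.tsum_le_tsum fun P => ?_
              by_cases hP : fp hX H P ∧ HT hX P ≤ H + i0
              · rw [if_pos hP, if_pos hP, if_pos hP.1, ← mul_add]
                exact mul_le_mul_right (step2 A P hA.1 hA.2) _
              · rw [if_neg hP]; exact zero_le
          _ ≤ ∑' P, (if fp hX H P ∧ HT hX P ≤ H + i0 then LW ΛX P * Ψ A P else 0) + 2 * εY := by
              rw [ENNReal.tsum_add, ENNReal.tsum_mul_right, sum_FP_eq ΛX hX h1X hΛX, one_mul]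
    _ = _ := by
        rw [ENNReal.tsum_add, ENNReal.tsum_mul_right, sum_FP_eq ΛX hX h1X hΛX, one_mul]

end Crest.Agent.R154.Asm4
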