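import Crest.Agent.R154.AsmB_456

/-! Row 154, ROAD 801 (helper456): abstract assembly, part C (one window). -/

set_option autoImplicit false

namespace Crest.Agent.R154.Asm456

open scoped ENNReal
open Crest.Agent.R154.B5A

section pairs
variable {BX BY : Type*} (ΛX : BX → ℝ≥0∞) (ΛY : BY → ℝ≥0∞)

open Classical in
/-- weight of a set of pairs of lists -/
noncomputable def DS (Q : List BX → List BY → Prop) : ℝ≥0∞ :=
  ∑' P, ∑' P', (if Q P P' then LW ΛX P * LW ΛY P' else 0)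

lemma DS_mono {Q Q' : List BX → List BY → Prop} (h : ∀ P P', Q P P' → Q' P P') :
    DS ΛX ΛY Q ≤ DS ΛX ΛY Q' := by
  classical
  refine ENNReal.tsum_le_tsum fun P => ENNReal.tsum_le_tsum fun P' => ?_
  by_cases hQ : Q P P'
  · rw [if_pos hQ, if_pos (h _ _ hQ)]
  · rw [if_neg hQ]; exact zero_le

lemma DS_or {Q Q1 Q2 : List BX → List BY → Prop} (h : ∀ P P', Q P P' → Q1 P P' ∨ Q2 P P') :
    DS ΛX ΛY Q ≤ DS ΛX ΛY Q1 + DS ΛX ΛY Q2 := by
  classical
  unfold DS
  rw [← ENNReal.tsum_add]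
  refine ENNReal.tsum_le_tsum fun P => ?_
  rw [← ENNReal.tsum_add]
  refine ENNReal.tsum_le_tsum fun P' => ?_
  by_cases hQ : Q P P'
  · rw [if_pos hQ]
    rcases h _ _ hQ with h1 | h1
    · rw [if_pos h1]; exact le_self_add
    · rw [if_pos h1]; exact le_add_self
  · rw [if_neg hQ]; exact zero_le

open Classical in
lemma DS_and (A : List BX → Prop) (A' : List BY → Prop) :
    DS ΛX ΛY (fun P P' => A P ∧ A' P') = (∑' P, if A P then LW ΛX P else 0) *
      (∑' P', if A' P' then LW ΛY P' else 0) := by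
  unfold DS
  rw [← ENNReal.tsum_mul_right]
  refine tsum_congr fun P => ?_
  rw [← ENNReal.tsum_mul_left]
  refine tsum_congr fun P' => ?_
  by_cases h1 : A P
  · by_cases h2 : A' P'
    · rw [if_pos ⟨h1, h2⟩, if_pos h1, if_pos h2]
    · rw [if_neg (fun h => h2 h.2), if_neg h2, mul_zero]
  · rw [if_neg (fun h => h1 h.1), if_neg h1, zero_mul]

lemma DS_fin {ι : Type*} (s : Finset ι) (Qi : ι → List BX → List BY → Prop)
    {Q : List BX → List BY → Prop} (h : ∀ P P', Q P P' → ∃ i ∈ s, Qi i P P') :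
    DS ΛX ΛY Q ≤ ∑ i ∈ s, DS ΛX ΛY (Qi i) := by
  classical
  unfold DS
  rw [← Summable.tsum_finsetSum (fun _ _ => ENNReal.summable)]
  refine ENNReal.tsum_le_tsum fun P => ?_
  rw [← Summable.tsum_finsetSum (fun _ _ => ENNReal.summable)]
  refine ENNReal.tsum_le_tsum fun P' => ?_
  by_cases hQ : Q P P'
  · rw [if_pos hQ]
    obtain ⟨i, hi, hq⟩ := h _ _ hQ
    calc LW ΛX P * LW ΛY P' = (if Qi i P P' then LW ΛX P * LW ΛY P' else 0) := by rw [if_pos hq]
      _ ≤ _ := Finset.single_le_sum (f := fun i => if Qi i P P' then LW ΛX P * LW ΛY P' else 0)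
          (fun _ _ => zero_le) hi
  · rw [if_neg hQ]; exact zero_le

end pairs

section win
variable {BX BY G : Type*} [AddCommGroup G]
variable (ΛX : BX → ℝ≥0∞) (hX : BX → ℕ) (zX : BX → G) (sX : BX → Set (G × ℕ))
variable (ΛY : BY → ℝ≥0∞) (hY : BY → ℕ) (zY : BY → G) (sY : BY → Set (G × ℕ))
variable (TX : List BX → G → ℕ → Set (G × ℕ)) (TY : List BY → G → ℕ → Set (G × ℕ))

/-- the event of two pieces -/
def EV (a a' lo hi : ℕ) (x : G) (P : List BX) (P' : List BY) : Prop :=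
  (∃ v k, (v, k) ∈ TX P 0 a ∧ (v, k) ∈ TY P' x a') ∧
    ∀ v k, (v, k) ∈ TX P 0 a → (v, k) ∈ TY P' x a' → lo ≤ k ∧ k ≤ hi

/-- the window input (`loc` = which walker is local) -/
def HW (loc : List BX → List BY → Finset G → Prop) : Prop :=
  ∀ D : ℕ, ∃ C : ℝ≥0∞, C ≠ ⊤ ∧ ∀ η : ℝ≥0∞, η ≠ 0 → ∃ s0 : ℕ, ∀ s, s0 ≤ s →
    ∀ (h h' a a' lo hi : ℕ) (E : Finset G) (μ : G → ℝ≥0∞) (M lam : ℝ≥0∞),
      a < a' → a + h < a' + h' → a' ≤ a + D → a' + h' ≤ a + h + D →
      a' + s + 1 ≤ lo → hi + s + 1 ≤ a + h →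
      (∑' x, μ x ≤ 1) → (∀ x, μ x ≤ M) → M ≠ ⊤ → lam ≠ 0 → lam ≠ ⊤ →
      ∑' x, μ x * DS ΛX ΛY (fun L L' => HT hX L = h ∧ HT hY L' = h' ∧ loc L L' E ∧
        EV TX TY a a' lo hi x L L') ≤ C * (lam + M * E.card * η / lam + η)

/-- `X` local -/
def LX (L : List BX) (_ : List BY) (E : Finset G) : Prop := Dp zX L ∈ E
/-- `Y` local -/
def LY (_ : List BX) (L' : List BY) (E : Finset G) : Prop := Dp zY L' ∈ E

/-- the window event of two full lists -/
def WE (n lo hi : ℕ) (bad : ℕ → Prop) (w : G) (L : List BX) (L' : List BY) : Prop :=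
  (∃ v k, lo ≤ k ∧ k ≤ hi ∧ (v, k) ∈ TX L 0 0 ∧ (v, k) ∈ TY L' w 0) ∧
    ∀ v k, (v, k) ∈ TX L 0 0 → (v, k) ∈ TY L' w 0 → ¬ bad k

lemma WE_EV (hTX : TRec hX zX sX TX) (hTY : TRec hY zY sY TY)
    (hdX : ∀ b q, q ∈ sX b → 1 ≤ q.2 ∧ q.2 ≤ hX b) (hdY : ∀ b q, q ∈ sY b → 1 ≤ q.2 ∧ q.2 ≤ hY b)
    (n lo hi : ℕ) (bad : ℕ → Prop) (w : G) (A P R : List BX) (A' P' R' : List BY)
    (hlo : HT hX A < lo) (hlo' : HT hY A' < lo) (hhi : hi ≤ HT hX A + HT hX P)
    (hhi' : hi ≤ HT hY A' + HT hY P')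
    (hbad : ∀ k, HT hY A' < k → k ≤ HT hX A + HT hX P → ¬ bad k → lo ≤ k ∧ k ≤ hi)
    (h : WE TX TY n lo hi bad w (A ++ P ++ R) (A' ++ P' ++ R')) :
    EV TX TY (HT hX A) (HT hY A') lo hi (w + Dp zY A' - Dp zX A) P P' := by
  obtain ⟨⟨v, k, h1, h2, h3, h4⟩, h5⟩ := h
  refine ⟨?_, ?_⟩
  · rw [mem_app hTX, mem_app hTX] at h3
    rw [mem_app hTY, mem_app hTY] at h4
    have h3' : (v, k) ∈ TX P (0 + Dp zX A) (0 + HT hX A) := by
      rcases h3 with (h3 | h3) | h3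
      · have := mem_dep hTX hdX A _ _ _ _ h3; omega
      · exact h3
      · have := mem_dep hTX hdX R _ _ _ _ h3; rw [HT_append] at this; omega
    have h4' : (v, k) ∈ TY P' (w + Dp zY A') (0 + HT hY A') := by
      rcases h4 with (h4 | h4) | h4
      · have := mem_dep hTY hdY A' _ _ _ _ h4; omega
      · exact h4
      · have := mem_dep hTY hdY R' _ _ _ _ h4; rw [HT_append] at this; omega
    refine ⟨v - Dp zX A, k, ?_, ?_⟩
    · rw [mem_shift hTX P _ (Dp zX A)] at h3'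
      simpa using h3'
    · rw [mem_shift hTY P' _ (Dp zX A)] at h4'
      simpa using h4'
  · intro v k hv hv'
    have d1 := mem_dep hTX hdX P _ _ _ _ hv
    have d2 := mem_dep hTY hdY P' _ _ _ _ hv'
    refine hbad k d2.1 d1.2 (h5 (v + Dp zX A) k ?_ ?_)
    · rw [mem_app hTX, mem_app hTX]
      left; right
      rw [mem_shift hTX P _ (Dp zX A)]
      simpa using hv
    · rw [mem_app hTY, mem_app hTY]
      left; right
      rw [mem_shift hTY P' _ (Dp zX A)]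
      simpa using hv'

/-- good piece pair -/
def GG (S i0 : ℕ) (P : List BX) (P' : List BY) : Prop :=
  (FP hX S P ∧ HT hX P ≤ S + i0) ∧ (FP hY S P' ∧ HT hY P' ≤ S + i0)

lemma GG_le_one (h1X : ∀ b, 1 ≤ hX b) (hΛX : ∑' b, ΛX b = 1) (h1Y : ∀ b, 1 ≤ hY b)
    (hΛY : ∑' b, ΛY b = 1) (S i0 : ℕ) : DS ΛX ΛY (GG hX hY S i0) ≤ 1 := by
  classical
  calc DS ΛX ΛY (GG hX hY S i0) ≤ DS ΛX ΛY (fun P P' => FP hX S P ∧ FP hY S P') :=
        DS_mono ΛX ΛY fun P P' h => ⟨h.1.1, h.2.1⟩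
    _ = 1 := by rw [DS_and, mass_one ΛX hX h1X hΛX, mass_one ΛY hY h1Y hΛY, one_mul]

open Classical in
/-- non local pieces have small mass -/
lemma nonlocal_le {B : Type*} (Λ : B → ℝ≥0∞) (ht : B → ℕ) (z : B → G) (S : ℕ) (th u : ℝ≥0∞)
    (h : (∑' y, if pp Λ ht z S y < th then pp Λ ht z S y else 0) ≤ u) :
    (∑' P, if FP ht S P ∧ pp Λ ht z S (pos ht z P) < th then LW Λ P else 0) ≤ u := by
  have e := sum_pos ht z (fun P => if FP ht S P then LW Λ P else 0)
    (fun y => if pp Λ ht z S y < th then 1 else 0)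
  refine le_trans (le_of_eq ?_) h
  calc _ = ∑' P, (if FP ht S P then LW Λ P else 0) *
        (if pp Λ ht z S (pos ht z P) < th then 1 else 0) := by
        refine tsum_congr fun P => ?_
        by_cases h1 : FP ht S P
        · by_cases h2 : pp Λ ht z S (pos ht z P) < th
          · rw [if_pos ⟨h1, h2⟩, if_pos h1, if_pos h2, mul_one]
          · rw [if_neg (fun h => h2 h.2), if_neg h2, mul_zero]
        · rw [if_neg (fun h => h1 h.1), if_neg h1, zero_mul]
    _ = _ := by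
        rw [e]
        refine tsum_congr fun y => ?_
        have : (∑' P, if pos ht z P = y then (if FP ht S P then LW Λ P else 0) else 0)
            = pp Λ ht z S y := by
          refine tsum_congr fun P => ?_
          by_cases h1 : pos ht z P = y
          · by_cases h2 : FP ht S P
            · rw [if_pos h1, if_pos h2, if_pos ⟨h2, h1⟩]
            · rw [if_pos h1, if_neg h2, if_neg (fun h => h2 h.1)]
          · rw [if_neg h1, if_neg (fun h => h1 h.2)]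
        rw [this]
        by_cases h2 : pp Λ ht z S y < th
        · rw [if_pos h2, if_pos h2, mul_one]
        · rw [if_neg h2, if_neg h2, mul_zero]

end win

end Crest.Agent.R154.Asm456
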