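import Crest.Agent.R154.AsmB_471

/-! Row 154, T0219 (ROAD 801): one window (helper471). -/

set_option autoImplicit false
set_option linter.unusedSectionVars false

namespace Crest.Agent.R154.Asm471

open Crest.Agent.R154.B5A
open scoped ENNReal Classical
open Filter Topology

section quant
variable {B G : Type*} [AddCommGroup G] (Λ : B → ℝ≥0∞) (ht : B → ℕ) (dz : B → G)
variable (h1 : ∀ b, 1 ≤ ht b) (hΛ : ∑' b, Λ b = 1)
include h1 hΛ

/-- dyadic quantile -/
lemma quant (T : ℕ) (u : ℝ≥0∞) (hu : u ≠ 0) (hu1 : u ≤ 1) : ∃ th : ℝ≥0∞, th ≠ 0 ∧ th ≠ ⊤ ∧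
    N ht T (fun P => if pl Λ ht dz T (HT ht P) (Dp dz P) < th then LW Λ P else 0) ≤ u ∧
    N ht T (fun P => if 2 * th < pl Λ ht dz T (HT ht P) (Dp dz P) then LW Λ P else 0) ≤ 1 - u := by
  -- a threshold with small mass below
  have hex : ∃ j : ℕ, N ht T (fun P => if pl Λ ht dz T (HT ht P) (Dp dz P) < (2⁻¹ : ℝ≥0∞) ^ j
      then LW Λ P else 0) ≤ u := by
    have hm := N_mass Λ ht h1 hΛ T
    have hlt : 1 - u < N ht T (LW Λ) := by
      rw [hm]; exact ENNReal.sub_lt_self ENNReal.one_ne_top one_ne_zero hu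
    rw [N, ENNReal.tsum_eq_iSup_sum, lt_iSup_iff] at hlt
    obtain ⟨F, hF⟩ := hlt
    -- a lower bound for the positive weights in `F`
    obtain ⟨j, hj⟩ : ∃ j : ℕ, ∀ L ∈ F, LW Λ L ≠ 0 → (2⁻¹ : ℝ≥0∞) ^ j ≤ LW Λ L := by
      induction F using Finset.induction_on with
      | empty => exact ⟨0, by simp⟩
      | insert L F hL ih => 
        clear hF
        have : ∀ F : Finset (List B), ∃ j : ℕ, ∀ L ∈ F, LW Λ L ≠ 0 → (2⁻¹ : ℝ≥0∞) ^ j ≤ LW Λ L := by
          intro F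
          induction F using Finset.induction_on with
          | empty => exact ⟨0, by simp⟩
          | insert L F hL ih =>
            obtain ⟨j, hj⟩ := ih
            by_cases h0 : LW Λ L = 0
            · exact ⟨j, fun L' hL' h => by
                rcases Finset.mem_insert.1 hL' with rfl | h'
                · exact absurd h0 h
                · exact hj L' h' h⟩
            · obtain ⟨i, hi⟩ := ENNReal.exists_inv_two_pow_lt h0
              refine ⟨max i j, fun L' hL' h => ?_⟩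
              rcases Finset.mem_insert.1 hL' with rfl | h'
              · exact (pow_le_pow_of_le_one zero_le (by norm_num) (le_max_left i j)).trans hi.le
              · exact (pow_le_pow_of_le_one zero_le (by norm_num) (le_max_right i j)).trans (hj L' h' h)
        exact this _
    refine ⟨j, ?_⟩
    have hpl : ∀ L, FP ht T L → LW Λ L ≤ pl Λ ht dz T (HT ht L) (Dp dz L) := by
      intro L hL
      rw [pl, N]
      refine le_trans ?_ (ENNReal.le_tsum L)
      rw [if_pos hL]; simp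
    have hsum : N ht T (fun P => if pl Λ ht dz T (HT ht P) (Dp dz P) < (2⁻¹ : ℝ≥0∞) ^ j
        then LW Λ P else 0) + ∑ L ∈ F, (if FP ht T L then LW Λ L else 0) ≤ 1 := by
      rw [← hm, N, N]
      have e : ∑ L ∈ F, (if FP ht T L then LW Λ L else 0)
          = ∑' L, (if L ∈ F then (if FP ht T L then LW Λ L else 0) else 0) := by
        rw [tsum_eq_sum (s := F) (fun L hL => if_neg hL)]
        exact Finset.sum_congr rfl fun L hL => (if_pos hL).symm
      rw [e, ← ENNReal.tsum_add]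
      refine ENNReal.tsum_le_tsum fun L => ?_
      by_cases hL : FP ht T L
      · simp only [hL, if_true]
        by_cases hF2 : L ∈ F
        · by_cases h0 : LW Λ L = 0
          · simp [h0]
          · rw [if_neg (not_lt.2 ((hj L hF2 h0).trans (hpl L hL)))]
            simp [hF2]
        · simp only [hF2, if_false, add_zero]
          split_ifs
          · exact le_rfl
          · exact zero_le
      · simp [hL]
    by_contra hcon
    rw [not_le] at hcon
    have : (1 : ℝ≥0∞) < 1 := by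
      calc (1 : ℝ≥0∞) = u + (1 - u) := (add_tsub_cancel_of_le hu1).symm
        _ < _ := ENNReal.add_lt_add hcon hF
        _ ≤ 1 := hsum
    exact lt_irrefl _ this
  set j := Nat.find hex with hjdef
  have hj := Nat.find_spec hex
  refine ⟨(2⁻¹ : ℝ≥0∞) ^ j, by simp, by simp, hj, ?_⟩
  by_cases h0 : j = 0
  · rw [h0, pow_zero, mul_one]
    refine le_trans (le_of_eq ?_) zero_le
    rw [N, ENNReal.tsum_eq_zero]
    intro P
    rw [if_neg (not_lt.2 ?_)]
    · simp
    · calc pl Λ ht dz T (HT ht P) (Dp dz P) ≤ ∑' z, pl Λ ht dz T (HT ht P) z := ENNReal.le_tsum _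
        _ ≤ 1 := pl_mass_h Λ ht dz h1 hΛ _ _
        _ ≤ 2 := by norm_num
  · have hlt := Nat.find_min hex (show j - 1 < Nat.find hex by omega)
    rw [not_le] at hlt
    have e2 : (2 : ℝ≥0∞) * (2⁻¹) ^ j = (2⁻¹) ^ (j - 1) := by
      obtain ⟨i, hi⟩ := Nat.exists_eq_succ_of_ne_zero h0
      rw [hi, Nat.succ_eq_add_one, Nat.add_sub_cancel, pow_succ, mul_comm _ (2⁻¹ : ℝ≥0∞),
        ← mul_assoc, ENNReal.mul_inv_cancel (by norm_num) (by norm_num), one_mul]
    rw [e2]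
    have hs : N ht T (fun P => if pl Λ ht dz T (HT ht P) (Dp dz P) < (2⁻¹ : ℝ≥0∞) ^ (j - 1)
        then LW Λ P else 0) + N ht T (fun P => if (2⁻¹ : ℝ≥0∞) ^ (j - 1) <
        pl Λ ht dz T (HT ht P) (Dp dz P) then LW Λ P else 0) ≤ 1 := by
      rw [← N_add, ← N_mass Λ ht h1 hΛ T]
      refine N_mono ht T fun P _ => ?_
      rcases lt_trichotomy (pl Λ ht dz T (HT ht P) (Dp dz P)) ((2⁻¹ : ℝ≥0∞) ^ (j - 1)) with h | h | h
      · rw [if_pos h, if_neg (not_lt.2 h.le), add_zero]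
      · rw [if_neg (not_lt.2 h.ge), if_neg (not_lt.2 h.le)]; simp
      · rw [if_neg (not_lt.2 h.le), if_pos h, zero_add]
    refine ENNReal.le_sub_of_add_le_left (ne_top_of_le_ne_top ENNReal.one_ne_top hu1) ?_
    exact (add_le_add hlt.le le_rfl).trans hs

end quant

section window
variable {B1 B2 G : Type*} [AddCommGroup G]
variable (Λ1 : B1 → ℝ≥0∞) (h1 : B1 → ℕ) (z1 : B1 → G) (s1 : B1 → Set (G × ℕ))
variable (Λ2 : B2 → ℝ≥0∞) (h2 : B2 → ℕ) (z2 : B2 → G) (s2 : B2 → Set (G × ℕ))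
variable (hh1 : ∀ b, 1 ≤ h1 b) (hh2 : ∀ b, 1 ≤ h2 b) (hΛ1 : ∑' b, Λ1 b = 1) (hΛ2 : ∑' b, Λ2 b = 1)
variable (hU1 : ∀ n, U Λ1 h1 n ≤ 1) (hU2 : ∀ n, U Λ2 h2 n ≤ 1)
variable (hs1 : ∀ b z k, (z, k) ∈ s1 b → 1 ≤ k ∧ k ≤ h1 b)
  (hs2 : ∀ b z k, (z, k) ∈ s2 b → 1 ≤ k ∧ k ≤ h2 b)
include hh1 hh2 hΛ1 hΛ2 hU1 hU2 hs1 hs2

lemma window (n α1 β1 α2 β2 i0 lo hi hi2 : ℕ) (w : G) (ε1 ε2 : ℝ≥0∞)
    (hn1 : α1 + i0 + β1 ≤ n) (hn2 : α2 + i0 + β2 ≤ n)
    (hlo1 : α1 + i0 ≤ lo) (hlo2 : α2 + i0 ≤ lo) (hhi1 : hi ≤ α1 + β1) (hhi2 : hi ≤ α2 + β2)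
    (htop : α1 + i0 + (β1 + i0) ≤ hi2)
    (e1 : N h1 α1 (fun P => if α1 + i0 < HT h1 P then LW Λ1 P else 0) ≤ ε1)
    (e1' : N h1 β1 (fun P => if β1 + i0 < HT h1 P then LW Λ1 P else 0) ≤ ε1)
    (e2 : N h2 α2 (fun P => if α2 + i0 < HT h2 P then LW Λ2 P else 0) ≤ ε2)
    (e2' : N h2 β2 (fun P => if β2 + i0 < HT h2 P then LW Λ2 P else 0) ≤ ε2) :
    ∑' L, ∑' L', (if HT h1 L = n ∧ HT h2 L' = n ∧
      (∃ k, Ct h1 z1 s1 h2 z2 s2 L 0 0 L' w 0 k ∧ k ≤ hi) ∧
      (∀ k, Ct h1 z1 s1 h2 z2 s2 L 0 0 L' w 0 k → lo < k ∧ (k ≤ hi ∨ hi2 < k))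
      then LW Λ1 L * LW Λ2 L' else 0) ≤
    M4 Λ1 h1 Λ2 h2 α1 β1 α2 β2 (fun A P A' P' =>
      if (HT h1 A ≤ α1 + i0 ∧ HT h2 A' ≤ α2 + i0) ∧ (HT h1 P ≤ β1 + i0 ∧ HT h2 P' ≤ β2 + i0) ∧
        Q h1 z1 s1 h2 z2 s2 lo hi P (Dp z1 A) (HT h1 A) P' (w + Dp z2 A') (HT h2 A') then 1 else 0)
      + (2 * ε1 + 2 * ε2) := by
  set W : List B1 → List B2 → Prop := fun L L' =>
      (∃ k, Ct h1 z1 s1 h2 z2 s2 L 0 0 L' w 0 k ∧ k ≤ hi) ∧
      (∀ k, Ct h1 z1 s1 h2 z2 s2 L 0 0 L' w 0 k → lo < k ∧ (k ≤ hi ∨ hi2 < k)) with hW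
  set g0 : List B1 → List B1 → ℝ≥0∞ := fun A P => N h2 α2 (fun A' => N h2 β2 (fun P' =>
      if HT h2 A' ≤ α2 + i0 ∧ HT h2 P' ≤ β2 + i0 then LW Λ2 A' * (LW Λ2 P' *
      (if Q h1 z1 s1 h2 z2 s2 lo hi P (Dp z1 A) (HT h1 A) P' (w + Dp z2 A') (HT h2 A')
        then 1 else 0)) else 0)) with hg0
  have key : ∀ (A P R : List B1) (A' P' R' : List B2), FP h1 α1 A → FP h1 β1 P → HT h1 A ≤ α1 + i0 →
      HT h1 P ≤ β1 + i0 → FP h2 α2 A' → FP h2 β2 P' → HT h2 A' ≤ α2 + i0 → HT h2 P' ≤ β2 + i0 →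
      W (A ++ (P ++ R)) (A' ++ (P' ++ R')) →
      Q h1 z1 s1 h2 z2 s2 lo hi P (Dp z1 A) (HT h1 A) P' (w + Dp z2 A') (HT h2 A') := by
    intro A P R A' P' R' hA hP hA2 hP2 hA' hP' hA2' hP2' hw
    have r1 := FP_le h1 α1 A hA
    have r2 := FP_le h1 β1 P hP
    have r3 := FP_le h2 α2 A' hA'
    have r4 := FP_le h2 β2 P' hP'
    -- contacts of the pieces are contacts of the lists
    have hsub : ∀ k, Ct h1 z1 s1 h2 z2 s2 P (Dp z1 A) (HT h1 A) P' (w + Dp z2 A') (HT h2 A') k →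
        Ct h1 z1 s1 h2 z2 s2 (A ++ (P ++ R)) 0 0 (A' ++ (P' ++ R')) w 0 k := by
      rintro k ⟨z, hz, hz'⟩
      refine ⟨z, ?_, ?_⟩
      · rw [TS_append, TS_append]
        rw [zero_add, zero_add]
        exact Or.inr (Or.inl hz)
      · rw [TS_append, TS_append]
        rw [zero_add]
        exact Or.inr (Or.inl hz')
    refine ⟨?_, ?_⟩
    · obtain ⟨k, ⟨z, hz, hz'⟩, hk⟩ := hw.1
      have hlo := (hw.2 k ⟨z, hz, hz'⟩).1
      refine ⟨k, z, ?_, ?_⟩
      · rw [TS_append, TS_append] at hz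
        rw [zero_add, zero_add] at hz
        rcases hz with hz | hz | hz
        · have := TS_range h1 z1 s1 hs1 _ _ _ _ _ hz; omega
        · exact hz
        · have := TS_range h1 z1 s1 hs1 _ _ _ _ _ hz; omega
      · rw [TS_append, TS_append] at hz'
        rw [zero_add] at hz'
        rcases hz' with hz | hz | hz
        · have := TS_range h2 z2 s2 hs2 _ _ _ _ _ hz; omega
        · exact hz
        · have := TS_range h2 z2 s2 hs2 _ _ _ _ _ hz; omega
    · intro k hk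
      have h3 := hw.2 k (hsub k hk)
      obtain ⟨z, hz, _⟩ := hk
      have h4 := TS_range h1 z1 s1 hs1 _ _ _ _ _ hz
      refine ⟨h3.1.le, ?_⟩
      rcases h3.2 with h5 | h5
      · exact h5
      · omega
  have hf1 : ∀ L, ∑' L', (if HT h2 L' = n ∧ W L L' then LW Λ2 L' else 0) ≤ 1 := by
    intro L
    refine le_trans (ENNReal.tsum_le_tsum fun L' => ?_) (hU2 n)
    by_cases h : HT h2 L' = n ∧ W L L'
    · rw [if_pos h, if_pos h.1]
    · rw [if_neg h]; exact zero_le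
  calc _ = ∑' L, (if HT h1 L = n then LW Λ1 L *
        ∑' L', (if HT h2 L' = n ∧ W L L' then LW Λ2 L' else 0) else 0) := by
        refine tsum_congr fun L => ?_
        by_cases h : HT h1 L = n
        · rw [if_pos h, ← ENNReal.tsum_mul_left]
          refine tsum_congr fun L' => ?_
          by_cases h' : HT h2 L' = n ∧ W L L'
          · rw [if_pos h', if_pos ⟨h, h'.1, h'.2⟩]
          · rw [if_neg h', if_neg (fun h3 => h' ⟨h3.2.1, h3.2.2⟩), mul_zero]
        · rw [if_neg h, ENNReal.tsum_eq_zero]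
          intro L'
          rw [if_neg (fun h3 => h h3.1)]
    _ ≤ N h1 α1 (fun A => N h1 β1 (fun P => if HT h1 A ≤ α1 + i0 ∧ HT h1 P ≤ β1 + i0 then
        LW Λ1 A * (LW Λ1 P * (g0 A P + 2 * ε2)) else 0)) + 2 * ε1 := by
        refine split2 Λ1 h1 hh1 hΛ1 hU1 n α1 β1 i0 hn1 ε1 e1 e1' _ hf1 (fun A P => g0 A P + 2 * ε2) ?_
        intro A P R hA hP hA2 hP2 hn
        calc _ = ∑' L', (if HT h2 L' = n then LW Λ2 L' * (if W (A ++ (P ++ R)) L' then 1 else 0) else 0) := by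
              refine tsum_congr fun L' => ?_
              by_cases h : HT h2 L' = n
              · by_cases h' : W (A ++ (P ++ R)) L'
                · rw [if_pos ⟨h, h'⟩, if_pos h, if_pos h', mul_one]
                · rw [if_neg (fun h3 => h' h3.2), if_pos h, if_neg h', mul_zero]
              · rw [if_neg (fun h3 => h h3.1), if_neg h]
          _ ≤ _ := by
              refine split2 Λ2 h2 hh2 hΛ2 hU2 n α2 β2 i0 hn2 ε2 e2 e2' _ (fun L' => by
                split_ifs <;> simp) _ ?_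
              intro A' P' R' hA' hP' hA2' hP2' hn'
              by_cases h' : W (A ++ (P ++ R)) (A' ++ (P' ++ R'))
              · rw [if_pos h', if_pos (key A P R A' P' R' hA hP hA2 hP2 hA' hP' hA2' hP2' h')]
              · rw [if_neg h']; exact zero_le
    _ ≤ (M4 Λ1 h1 Λ2 h2 α1 β1 α2 β2 (fun A P A' P' =>
      if (HT h1 A ≤ α1 + i0 ∧ HT h2 A' ≤ α2 + i0) ∧ (HT h1 P ≤ β1 + i0 ∧ HT h2 P' ≤ β2 + i0) ∧
        Q h1 z1 s1 h2 z2 s2 lo hi P (Dp z1 A) (HT h1 A) P' (w + Dp z2 A') (HT h2 A') then 1 else 0)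
        + 2 * ε2) + 2 * ε1 := by
        refine add_le_add ?_ le_rfl
        calc _ ≤ N h1 α1 (fun A => N h1 β1 (fun P => (if HT h1 A ≤ α1 + i0 ∧ HT h1 P ≤ β1 + i0 then
              LW Λ1 A * (LW Λ1 P * g0 A P) else 0) + (2 * ε2) * (LW Λ1 A * LW Λ1 P))) := by
              refine N_mono h1 α1 fun A _ => N_mono h1 β1 fun P _ => ?_
              split_ifs
              · refine le_of_eq ?_; ring
              · exact zero_le
          _ = N h1 α1 (fun A => N h1 β1 (fun P => (if HT h1 A ≤ α1 + i0 ∧ HT h1 P ≤ β1 + i0 then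
              LW Λ1 A * (LW Λ1 P * g0 A P) else 0))) + 2 * ε2 := by
              simp_rw [N_add, N_mul]
              rw [N_mass Λ1 h1 hh1 hΛ1 β1]
              simp only [mul_one]
              rw [N_mass Λ1 h1 hh1 hΛ1 α1, mul_one]
          _ ≤ _ := by
              refine add_le_add ?_ le_rfl
              unfold M4
              refine N_mono h1 α1 fun A _ => N_mono h1 β1 fun P _ => ?_
              by_cases hs : HT h1 A ≤ α1 + i0 ∧ HT h1 P ≤ β1 + i0
              · rw [if_pos hs, hg0]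
                simp only
                rw [← N_mul, ← N_mul]
                refine N_mono h2 α2 fun A' _ => ?_
                rw [← N_mul, ← N_mul]
                refine N_mono h2 β2 fun P' _ => ?_
                refine mul_le_mul_right (mul_le_mul_right ?_ _) _
                by_cases hs' : HT h2 A' ≤ α2 + i0 ∧ HT h2 P' ≤ β2 + i0
                · rw [if_pos hs']
                  refine mul_le_mul_right (mul_le_mul_right ?_ _) _
                  by_cases hq : Q h1 z1 s1 h2 z2 s2 lo hi P (Dp z1 A) (HT h1 A) P' (w + Dp z2 A') (HT h2 A')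
                  · rw [if_pos hq, if_pos ⟨⟨hs.1, hs'.1⟩, ⟨hs.2, hs'.2⟩, hq⟩]
                  · rw [if_neg hq]; exact zero_le
                · rw [if_neg hs']; exact zero_le
              · rw [if_neg hs]; exact zero_le
    _ = _ := by ring

end window

end Crest.Agent.R154.Asm471
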