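import Crest.Agent.R154.AsmB_474

/-! Row 154, ROAD 801 (helper474): abstract assembly, part C: total of one window. -/

set_option autoImplicit false
set_option linter.unusedVariables false
set_option linter.unusedSectionVars false

namespace Crest.Agent.R154.Asm474

open scoped ENNReal
open Crest.Agent.R154.B5A Crest.Agent.R154.FP178
open Crest.Agent.R154.KWB419 (TT)
open Classical

lemma ite_iff {p q : Prop} {i : Decidable p} {j : Decidable q} {x y : ℝ≥0∞} (h : p ↔ q) :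
    @ite _ p i x y = @ite _ q j x y := by
  by_cases hp : p
  · rw [if_pos hp, if_pos (h.1 hp)]
  · rw [if_neg hp, if_neg (fun hq => hp (h.2 hq))]

section Ifun

variable {V P V' P' : Type*} (F : P → ℝ≥0∞) (F' : P' → ℝ≥0∞)

noncomputable def II (f : V → ℝ≥0∞) (f' : V' → ℝ≥0∞) (Ψ : V → P → V' → P' → ℝ≥0∞) : ℝ≥0∞ :=
  ∑' v, ∑' v', f v * f' v' * ∑' p, ∑' p', F p * F' p' * Ψ v p v' p'

lemma II_add_left (f1 f2 : V → ℝ≥0∞) (f' : V' → ℝ≥0∞) (Ψ : V → P → V' → P' → ℝ≥0∞) :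
    II F F' (fun v => f1 v + f2 v) f' Ψ = II F F' f1 f' Ψ + II F F' f2 f' Ψ := by
  unfold II
  rw [← ENNReal.tsum_add]
  refine tsum_congr fun v => ?_
  rw [← ENNReal.tsum_add]
  refine tsum_congr fun v' => ?_
  ring

lemma II_add_right (f : V → ℝ≥0∞) (f1 f2 : V' → ℝ≥0∞) (Ψ : V → P → V' → P' → ℝ≥0∞) :
    II F F' f (fun v => f1 v + f2 v) Ψ = II F F' f f1 Ψ + II F F' f f2 Ψ := by
  unfold II
  rw [← ENNReal.tsum_add]
  refine tsum_congr fun v => ?_
  rw [← ENNReal.tsum_add]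
  refine tsum_congr fun v' => ?_
  ring

lemma II_psi (f : V → ℝ≥0∞) (f' : V' → ℝ≥0∞) (Ψ Ψ1 Ψ2 Ψ3 : V → P → V' → P' → ℝ≥0∞)
    (h : ∀ v p v' p', Ψ v p v' p' ≤ Ψ1 v p v' p' + Ψ2 v p v' p' + Ψ3 v p v' p') :
    II F F' f f' Ψ ≤ II F F' f f' Ψ1 + II F F' f f' Ψ2 + II F F' f f' Ψ3 := by
  unfold II
  rw [← ENNReal.tsum_add, ← ENNReal.tsum_add]
  refine ENNReal.tsum_le_tsum fun v => ?_
  rw [← ENNReal.tsum_add, ← ENNReal.tsum_add]
  refine ENNReal.tsum_le_tsum fun v' => ?_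
  rw [← mul_add, ← mul_add]
  refine mul_le_mul_right ?_ _
  rw [← ENNReal.tsum_add, ← ENNReal.tsum_add]
  refine ENNReal.tsum_le_tsum fun p => ?_
  rw [← ENNReal.tsum_add, ← ENNReal.tsum_add]
  refine ENNReal.tsum_le_tsum fun p' => ?_
  rw [← mul_add, ← mul_add]
  exact mul_le_mul_right (h v p v' p') _

lemma II_prod (f : V → ℝ≥0∞) (f' : V' → ℝ≥0∞) (Ψ : V → P → V' → P' → ℝ≥0∞)
    (c : P → ℝ≥0∞) (c' : P' → ℝ≥0∞) (h : ∀ v p v' p', Ψ v p v' p' ≤ c p * c' p') :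
    II F F' f f' Ψ ≤ ((∑' v, f v) * ∑' v', f' v') * ((∑' p, F p * c p) * ∑' p', F' p' * c' p') := by
  unfold II
  calc ∑' v, ∑' v', f v * f' v' * ∑' p, ∑' p', F p * F' p' * Ψ v p v' p'
      ≤ ∑' v, ∑' v', f v * f' v' * ((∑' p, F p * c p) * ∑' p', F' p' * c' p') := by
        refine ENNReal.tsum_le_tsum fun v => ENNReal.tsum_le_tsum fun v' => mul_le_mul_right ?_ _
        rw [← ENNReal.tsum_mul_right]
        refine ENNReal.tsum_le_tsum fun p => ?_
        rw [← ENNReal.tsum_mul_left]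
        refine ENNReal.tsum_le_tsum fun p' => ?_
        calc F p * F' p' * Ψ v p v' p' ≤ F p * F' p' * (c p * c' p') :=
              mul_le_mul_right (h v p v' p') _
          _ = _ := by ring
    _ = _ := by
        have : ∀ v, ∑' v', f v * f' v' * ((∑' p, F p * c p) * ∑' p', F' p' * c' p')
            = f v * ((∑' v', f' v') * ((∑' p, F p * c p) * ∑' p', F' p' * c' p')) := by
          intro v
          rw [ENNReal.tsum_mul_right, ENNReal.tsum_mul_left]; ring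
        rw [tsum_congr this, ENNReal.tsum_mul_right]; ring

end Ifun

section Quant

variable {A V : Type*} (F : A → ℝ≥0∞) (st : A → V)

noncomputable def pl (v : V) : ℝ≥0∞ := ∑' a, if st a = v then F a else 0

lemma push (C : V → Prop) :
    ∑' v, (if C v then pl F st v else 0) = ∑' a, (if C (st a) then F a else 0) := by
  unfold pl
  have : ∀ v, (if C v then ∑' a, (if st a = v then F a else 0) else 0)
      = ∑' a, (if st a = v then (if C v then F a else 0) else 0) := by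
    intro v
    by_cases h : C v <;> simp [h]
  rw [tsum_congr this, ENNReal.tsum_comm]
  refine tsum_congr fun a => ?_
  rw [tsum_eq_single (st a)]
  · simp
  · intro v hv; rw [if_neg (Ne.symm hv)]

lemma pl_sum : ∑' v, pl F st v = ∑' a, F a := by
  have := push F st (fun _ => True)
  simpa using this

/-- quantile for the law of `st` under `F` -/
lemma quant (h1 : ∑' a, F a = 1) (u : ℝ≥0∞) (hu0 : u ≠ 0) (hu1 : u ≤ 1) :
    ∃ th : ℝ≥0∞, th ≠ 0 ∧ th ≤ 1 ∧
      ∑' a, (if th ≤ pl F st (st a) then 0 else F a) ≤ u ∧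
      ∑' a, (if pl F st (st a) ≤ th then 0 else F a) ≤ 1 - u := by
  have hp : ∑' v, pl F st v = 1 := (pl_sum F st).trans h1
  obtain ⟨th, h0, h01, hlo, hhi⟩ := Dens903.quantile (pl F st) hp hu0 hu1
  refine ⟨th, h0, h01, ?_, ?_⟩
  · have := push F st (fun v => pl F st v < th)
    have hlo' := le_trans this.symm.le (le_trans (le_of_eq (tsum_congr fun v => ite_iff Iff.rfl)) hlo)
    refine le_trans (le_of_eq (tsum_congr fun a => ?_)) hlo'
    by_cases h : th ≤ pl F st (st a)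
    · rw [if_pos h, if_neg (not_lt.2 h)]
    · rw [if_neg h, if_pos (not_le.1 h)]
  · have := push F st (fun v => pl F st v ≤ th)
    have hhi' := le_trans hhi (le_trans (le_of_eq (tsum_congr fun v => ite_iff Iff.rfl)) this.le)
    refine ENNReal.le_sub_of_add_le_right (ne_top_of_le_ne_top ENNReal.one_ne_top hu1) ?_
    calc _ ≤ ∑' a, (if pl F st (st a) ≤ th then 0 else F a)
          + ∑' a, (if pl F st (st a) ≤ th then F a else 0) :=
          add_le_add le_rfl (le_trans hhi' (le_of_eq (tsum_congr fun a => ite_iff Iff.rfl)))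
      _ = ∑' a, F a := by
          rw [← ENNReal.tsum_add]
          refine tsum_congr fun a => ?_
          split_ifs <;> simp
      _ ≤ 1 := h1.le

end Quant

variable {BX BY G : Type*} [AddCommGroup G] (ΛX : BX → ℝ≥0∞) (ΛY : BY → ℝ≥0∞)
  (hX : BX → ℕ) (hY : BY → ℕ) (zX : BX → G) (zY : BY → G)
  (sX : BX → Set (G × ℕ)) (sY : BY → Set (G × ℕ))

/-- (height, displacement) -/
def st {B : Type*} (h : B → ℕ) (z : B → G) (L : List B) : ℤ × G := ((HT h L : ℤ), (L.map z).sum)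

lemma st_nil {B : Type*} (h : B → ℕ) (z : B → G) : st h z [] = 0 := by simp [st, HT_nil]

lemma st_append {B : Type*} (h : B → ℕ) (z : B → G) (A L : List B) :
    st h z (A ++ L) = st h z A + st h z L := by
  simp [st, HT_append]

/-- order of the frames -/
def Cn (s lo hi a a' h h' : ℕ) : Prop :=
  a < a' ∧ a + h < a' + h' ∧ a + s ≤ lo ∧ a' + s ≤ lo ∧ hi + s ≤ a + h ∧ hi + s ≤ a' + h'

/-- window lemma input, `X` local -/
def H2P (us : ℕ → ℝ≥0∞) (C : ℝ≥0∞) : Prop :=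
  ∀ (s h h' a a' lo hi : ℕ) (E : Finset G) (μ : G → ℝ≥0∞) (M lam : ℝ≥0∞),
    ∑' x, μ x ≤ 1 → (∀ x, μ x ≤ M) → lam ≠ 0 → lam ≠ ⊤ → Cn s lo hi a a' h h' →
    ∑' x, μ x * ∑' L, ∑' L', (if HT hX L = h ∧ (L.map zX).sum ∈ E ∧ HT hY L' = h' ∧
      Ev hX hY zX zY sX sY L L' x a a' lo hi then LW ΛX L * LW ΛY L' else 0)
      ≤ C * (lam + M * E.card * us s / lam + us s)

/-- window lemma input, `Y` local -/
def H3P (us : ℕ → ℝ≥0∞) (C : ℝ≥0∞) : Prop :=
  ∀ (s h h' a a' lo hi : ℕ) (E : Finset G) (μ : G → ℝ≥0∞) (M lam : ℝ≥0∞),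
    ∑' x, μ x ≤ 1 → (∀ x, μ x ≤ M) → lam ≠ 0 → lam ≠ ⊤ → Cn s lo hi a a' h h' →
    ∑' x, μ x * ∑' L, ∑' L', (if HT hX L = h ∧ HT hY L' = h' ∧ (L'.map zY).sum ∈ E ∧
      Ev hX hY zX zY sX sY L L' x a a' lo hi then LW ΛX L * LW ΛY L' else 0)
      ≤ C * (lam + M * E.card * us s / lam + us s)

/-- the local set at height `h` is finite, with `card * th ≤ 1` -/
lemma locset {V : Type*} (p : ℤ × V → ℝ≥0∞) (hp : ∑' v, p v ≤ 1) (th : ℝ≥0∞) (hth : th ≠ 0) (h : ℤ) :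
    ∃ E : Finset V, (∀ z, z ∈ E ↔ th ≤ p (h, z)) ∧ th * E.card ≤ 1 := by
  have hs : ∑' z, p (h, z) ≤ 1 := by
    refine le_trans ?_ hp
    rw [ENNReal.tsum_prod']
    exact ENNReal.le_tsum (f := fun k : ℤ => ∑' z, p (k, z)) h
  have hfin : {z | th ≤ p (h, z)}.Finite :=
    ENNReal.finite_const_le_of_tsum_ne_top (ne_top_of_le_ne_top ENNReal.one_ne_top hs) hth
  refine ⟨hfin.toFinset, fun z => by simp, ?_⟩
  calc th * hfin.toFinset.card = ∑ z ∈ hfin.toFinset, th := by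
        rw [Finset.sum_const, nsmul_eq_mul, mul_comm]
    _ ≤ ∑ z ∈ hfin.toFinset, p (h, z) := Finset.sum_le_sum fun z hz => by
        simpa using hz
    _ ≤ ∑' z, p (h, z) := ENNReal.sum_le_tsum _
    _ ≤ 1 := hs

/-- condition of a window -/
def Cond (s lo hi : ℕ) (R H : Finset ℕ) (w : G) (v : ℤ × G) (P : List BX) (v' : ℤ × G)
    (P' : List BY) : Prop :=
  ∃ a ∈ R, ∃ a' ∈ R, ∃ h ∈ H, ∃ h' ∈ H, v.1 = (a : ℤ) ∧ v'.1 = (a' : ℤ) ∧ HT hX P = h ∧
    HT hY P' = h' ∧ Cn s lo hi a a' h h' ∧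
    Ev hX hY zX zY sX sY P P' (w + v'.2 - v.2) a a' lo hi

theorem win_total (h1X : ∀ b, 1 ≤ hX b) (h1Y : ∀ b, 1 ≤ hY b) (ΛX1 : ∑' b, ΛX b = 1)
    (ΛY1 : ∑' b, ΛY b = 1) (us : ℕ → ℝ≥0∞) (C : ℝ≥0∞)
    (H2 : H2P ΛX ΛY hX hY zX zY sX sY us C) (H3 : H3P ΛX ΛY hX hY zX zY sX sY us C)
    (D T s j lo hi : ℕ) (R H : Finset ℕ) (w : G) (u lam : ℝ≥0∞) (hu0 : u ≠ 0) (hu1 : u ≤ 1)
    (hl0 : lam ≠ 0) (hlT : lam ≠ ⊤) :
    II (F1 ΛX hX T) (F1 ΛY hY T) (SD ΛX hX (st hX zX) 0 T j) (SD ΛY hY (st hY zY) D T j)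
      (fun v P v' P' => if Cond hX hY zX zY sX sY s lo hi R H w v P v' P' then 1 else 0)
    ≤ (((R.card * (R.card * (H.card * H.card)) : ℕ) : ℝ≥0∞) * (C * (lam + j * us s / lam + us s))
        + (1 - u) ^ j)
      + (((R.card * (R.card * (H.card * H.card)) : ℕ) : ℝ≥0∞) * (C * (lam + j * us s / lam + us s))
        + (1 - u) ^ j) + u * u := by
  obtain ⟨thX, tX0, tX1, qX1, qX2⟩ := quant (F1 ΛX hX T) (st hX zX) (F1_sum_eq ΛX hX h1X ΛX1 T) u hu0 hu1
  obtain ⟨thY, tY0, tY1, qY1, qY2⟩ := quant (F1 ΛY hY T) (st hY zY) (F1_sum_eq ΛY hY h1Y ΛY1 T) u hu0 hu1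
  set pX := pl (F1 ΛX hX T) (st hX zX) with hpX
  set pY := pl (F1 ΛY hY T) (st hY zY) with hpY
  have pX1 : ∑' v, pX v ≤ 1 := by rw [hpX, pl_sum, F1_sum_eq ΛX hX h1X ΛX1 T]
  have pY1 : ∑' v, pY v ≤ 1 := by rw [hpY, pl_sum, F1_sum_eq ΛY hY h1Y ΛY1 T]
  choose EX hEX hEXc using fun h : ℕ => locset pX pX1 thX tX0 (h : ℤ)
  choose EY hEY hEYc using fun h : ℕ => locset pY pY1 thY tY0 (h : ℤ)
  set Ψ : ℤ × G → List BX → ℤ × G → List BY → ℝ≥0∞ :=
    fun v P v' P' => if Cond hX hY zX zY sX sY s lo hi R H w v P v' P' then 1 else 0 with hΨ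
  set Ψ1 : ℤ × G → List BX → ℤ × G → List BY → ℝ≥0∞ :=
    fun v P v' P' => if Cond hX hY zX zY sX sY s lo hi R H w v P v' P' ∧ thX ≤ pX (st hX zX P)
      then 1 else 0 with hΨ1
  set Ψ2 : ℤ × G → List BX → ℤ × G → List BY → ℝ≥0∞ :=
    fun v P v' P' => if Cond hX hY zX zY sX sY s lo hi R H w v P v' P' ∧ thY ≤ pY (st hY zY P')
      then 1 else 0 with hΨ2
  set Ψ3 : ℤ × G → List BX → ℤ × G → List BY → ℝ≥0∞ :=
    fun v P v' P' => (if thX ≤ pX (st hX zX P) then 0 else 1) *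
      (if thY ≤ pY (st hY zY P') then 0 else 1) with hΨ3
  refine (II_psi _ _ _ _ Ψ Ψ1 Ψ2 Ψ3 ?_).trans ?_
  · intro v P v' P'
    simp only [hΨ, hΨ1, hΨ2, hΨ3]
    by_cases hc : Cond hX hY zX zY sX sY s lo hi R H w v P v' P'
    · by_cases h1 : thX ≤ pX (st hX zX P)
      · simp [hc, h1]
      · by_cases h2 : thY ≤ pY (st hY zY P') <;> simp [hc, h1, h2]
    · simp [hc]
  have hB0 : ∀ (n : ℕ) (th c : ℝ≥0∞), th * c ≤ 1 →
      C * (lam + (n * th) * c * us s / lam + us s) ≤ C * (lam + n * us s / lam + us s) := by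
    intro n th c hc
    gcongr
    calc (n * th) * c = n * (th * c) := by ring
      _ ≤ n * 1 := by gcongr
      _ = n := mul_one _
  have FX1 : ∑' p, F1 ΛX hX T p * 1 ≤ 1 := by simpa using (F1_sum ΛX hX h1X ΛX1.le T)
  have FY1 : ∑' p, F1 ΛY hY T p * 1 ≤ 1 := by simpa using (F1_sum ΛY hY h1Y ΛY1.le T)
  refine add_le_add (add_le_add ?_ ?_) ?_
  · -- X local
    have e : SD ΛX hX (st hX zX) 0 T j = fun v =>
        GD ΛX hX (st hX zX) (fun v => pX v ≤ thX) 0 T j v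
        + BD ΛX hX (st hX zX) (fun v => pX v ≤ thX) 0 T j v :=
      funext fun v => SD_eq ΛX hX (st hX zX) _ 0 T j v
    rw [e, II_add_left]
    refine add_le_add ?_ ?_
    · refine win_loc ΛX ΛY hX hY zX zY sX sY _ _ R H w lo hi (Cn s lo hi)
        (fun h h' L L' => (L.map zX).sum ∈ EX h) (j * thX) _
        (GD_sum ΛX hX (st hX zX) h1X ΛX1.le _ 0 T j) (SD_sum ΛY hY (st hY zY) h1Y ΛY1.le D T j)
        (Or.inl fun v => GD_le ΛX hX (st hX zX) h1X ΛX1.le _ 0 T j thX (fun v hv => hv) v)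
        ?_ Ψ1 ?_ ?_ T
      · intro a a' h h' μ hc hμ hM
        refine le_trans (le_trans (le_of_eq ?_) (H2 s h h' a a' lo hi (EX h) μ (j * thX) lam hμ hM
          hl0 hlT hc)) (hB0 j thX _ (hEXc h))
        refine tsum_congr fun x => ?_
        congr 1
        refine tsum_congr fun L => tsum_congr fun L' => ite_iff ?_
        tauto
      · intro v P v' P'; simp only [hΨ1]; split_ifs <;> simp
      · intro v P v' P' h0
        simp only [hΨ1] at h0
        have h0' : Cond hX hY zX zY sX sY s lo hi R H w v P v' P' ∧ thX ≤ pX (st hX zX P) := by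
          by_contra hcon; exact h0 (if_neg hcon)
        obtain ⟨⟨a, ha, a', ha', h, hh, h', hh', e1, e2, e3, e4, e5, e6⟩, hloc⟩ := h0'
        refine ⟨a, ha, a', ha', h, hh, h', hh', e1, e2, e3, e4, e5, ?_, e6⟩
        rw [hEX, ← e3]
        exact hloc
    · refine (II_prod _ _ _ _ Ψ1 (fun _ => 1) (fun _ => 1) ?_).trans ?_
      · intro v P v' P'; simp only [hΨ1]; split_ifs <;> simp
      · calc _ ≤ ((1 - u) ^ j * 1) * (1 * 1) := by
              refine mul_le_mul' (mul_le_mul' ?_ ?_) (mul_le_mul' FX1 FY1)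
              · exact BD_sum ΛX hX (st hX zX) h1X ΛX1.le _ 0 T j (1 - u)
                  (le_trans (le_of_eq (tsum_congr fun a => ite_iff Iff.rfl)) qX2)
              · exact SD_sum ΛY hY (st hY zY) h1Y ΛY1.le D T j
          _ = _ := by simp
  · -- Y local
    have e : SD ΛY hY (st hY zY) D T j = fun v =>
        GD ΛY hY (st hY zY) (fun v => pY v ≤ thY) D T j v
        + BD ΛY hY (st hY zY) (fun v => pY v ≤ thY) D T j v :=
      funext fun v => SD_eq ΛY hY (st hY zY) _ D T j v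
    rw [e, II_add_right]
    refine add_le_add ?_ ?_
    · refine win_loc ΛX ΛY hX hY zX zY sX sY _ _ R H w lo hi (Cn s lo hi)
        (fun h h' L L' => (L'.map zY).sum ∈ EY h') (j * thY) _
        (SD_sum ΛX hX (st hX zX) h1X ΛX1.le 0 T j) (GD_sum ΛY hY (st hY zY) h1Y ΛY1.le _ D T j)
        (Or.inr fun v => GD_le ΛY hY (st hY zY) h1Y ΛY1.le _ D T j thY (fun v hv => hv) v)
        ?_ Ψ2 ?_ ?_ T
      · intro a a' h h' μ hc hμ hM
        refine le_trans (le_trans (le_of_eq ?_) (H3 s h h' a a' lo hi (EY h') μ (j * thY) lam hμ hM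
          hl0 hlT hc)) (hB0 j thY _ (hEYc h'))
        refine tsum_congr fun x => ?_
        congr 1
        exact tsum_congr fun L => tsum_congr fun L' => ite_iff Iff.rfl
      · intro v P v' P'; simp only [hΨ2]; split_ifs <;> simp
      · intro v P v' P' h0
        simp only [hΨ2] at h0
        have h0' : Cond hX hY zX zY sX sY s lo hi R H w v P v' P' ∧ thY ≤ pY (st hY zY P') := by
          by_contra hcon; exact h0 (if_neg hcon)
        obtain ⟨⟨a, ha, a', ha', h, hh, h', hh', e1, e2, e3, e4, e5, e6⟩, hloc⟩ := h0'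
        refine ⟨a, ha, a', ha', h, hh, h', hh', e1, e2, e3, e4, e5, ?_, e6⟩
        rw [hEY, ← e4]
        exact hloc
    · refine (II_prod _ _ _ _ Ψ2 (fun _ => 1) (fun _ => 1) ?_).trans ?_
      · intro v P v' P'; simp only [hΨ2]; split_ifs <;> simp
      · calc _ ≤ (1 * (1 - u) ^ j) * (1 * 1) := by
              refine mul_le_mul' (mul_le_mul' ?_ ?_) (mul_le_mul' FX1 FY1)
              · exact SD_sum ΛX hX (st hX zX) h1X ΛX1.le 0 T j
              · exact BD_sum ΛY hY (st hY zY) h1Y ΛY1.le _ D T j (1 - u)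
                  (le_trans (le_of_eq (tsum_congr fun a => ite_iff Iff.rfl)) qY2)
          _ = _ := by simp
  · refine (II_prod _ _ _ _ Ψ3 (fun P => if thX ≤ pX (st hX zX P) then 0 else 1)
      (fun P' => if thY ≤ pY (st hY zY P') then 0 else 1) (fun v P v' P' => le_rfl)).trans ?_
    calc _ ≤ (1 * 1) * (u * u) := by
          refine mul_le_mul' (mul_le_mul' ?_ ?_) (mul_le_mul' ?_ ?_)
          · exact SD_sum ΛX hX (st hX zX) h1X ΛX1.le 0 T j
          · exact SD_sum ΛY hY (st hY zY) h1Y ΛY1.le D T j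
          · refine le_trans (le_of_eq (tsum_congr fun P => ?_)) qX1
            split_ifs <;> simp
          · refine le_trans (le_of_eq (tsum_congr fun P => ?_)) qY1
            split_ifs <;> simp
      _ = _ := by simp

end Crest.Agent.R154.Asm474
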