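import Crest.Agent.R154.AsmP_475
import Crest.Agent.R154.Bind801_12

/-! Row 154, ROAD 801 (helper475): assembly, part 2: cuts and traces. -/

set_option autoImplicit false

namespace Crest.Agent.R154.Asm475

open Crest.Agent.R154.B5A
open Crest.Agent.R154.Ren396
open Crest.Agent.R154.Bind12 (TT Dp)
open scoped ENNReal

variable {B G : Type*} [AddCommGroup G] (Λ : B → ℝ≥0∞) (ht : B → ℕ) (z : B → G)
  (s : B → Set (G × ℕ))

lemma LW_le_one (hΛ : ∑' b, Λ b ≤ 1) (L : List B) : LW Λ L ≤ 1 := by
  induction L with
  | nil => rw [LW_nil]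
  | cons b L ih =>
    rw [LW_cons]
    exact mul_le_one' ((ENNReal.le_tsum b).trans hΛ) ih

open Classical in
/-- first renewal cuts of a list of height `n`: top part `A` (first renewal `≥ b`), piece `P` (first
renewal `≥ T` of the rest), rest `R`. -/
theorem cut2 (hU1 : ∀ n, U Λ ht n ≤ 1) (hΛ : ∑' b, Λ b ≤ 1) (h1 : ∀ b, 1 ≤ ht b)
    (b T i0 n : ℕ) (hn : b + i0 + T ≤ n) (Φ : List B → ℝ≥0∞) (hΦ : ∀ L, Φ L ≤ 1) (e : ℝ≥0∞)
    (he : ∀ T, ∑' P : List B, (if FR ht P T ∧ T + i0 < HT ht P then LW Λ P else 0) ≤ e) :
    ∑' L : List B, (if HT ht L = n then LW Λ L * Φ L else 0)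
      ≤ 2 * e + ∑' A : List B, (if FR ht A b ∧ HT ht A ≤ b + i0 then LW Λ A *
        ∑' P : List B, (if FR ht P T ∧ HT ht P ≤ T + i0 then LW Λ P *
          ∑' R : List B, (if HT ht A + HT ht P + HT ht R = n then LW Λ R * Φ (A ++ (P ++ R)) else 0)
          else 0) else 0) := by
  have hR : ∀ m : ℕ, ∀ (k : ℕ) (Ψ : List B → ℝ≥0∞), (∀ L, Ψ L ≤ 1) →
      ∑' R : List B, (if m + HT ht R = k then LW Λ R * Ψ R else 0) ≤ 1 := by
    intro m k Ψ hΨ
    refine le_trans (ENNReal.tsum_le_tsum fun R => ?_) (hU1 (k - m))
    by_cases h : m + HT ht R = k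
    · rw [if_pos h, if_pos (by omega)]
      calc _ ≤ LW Λ R * 1 := mul_le_mul_right (hΨ R) _
        _ = _ := mul_one _
    · rw [if_neg h]; exact zero_le
  -- first cut
  have e1 : ∑' L : List B, (if HT ht L = n then LW Λ L * Φ L else 0)
      = ∑' A : List B, (if FR ht A b then LW Λ A * ∑' R : List B,
        (if HT ht A + HT ht R = n then LW Λ R * Φ (A ++ R) else 0) else 0) := by
    have := split_FR ht b (fun L => if HT ht L = n then LW Λ L * Φ L else 0)
    calc _ = ∑' L : List B, (if b ≤ HT ht L then (if HT ht L = n then LW Λ L * Φ L else 0)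
          else 0) := by
          refine tsum_congr fun L => ?_
          by_cases h : HT ht L = n
          · rw [if_pos h, if_pos (by omega)]
          · simp [h]
      _ = _ := this
      _ = _ := by
          refine tsum_congr fun A => ?_
          by_cases h : FR ht A b
          · rw [if_pos h, if_pos h, ← ENNReal.tsum_mul_left]
            refine tsum_congr fun R => ?_
            rw [HT_append, LW_append]
            by_cases h2 : HT ht A + HT ht R = n
            · rw [if_pos h2, if_pos h2, mul_assoc]
            · rw [if_neg h2, if_neg h2, mul_zero]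
          · rw [if_neg h, if_neg h]
  rw [e1]
  -- second cut
  have e2 : ∀ A : List B, FR ht A b → HT ht A ≤ b + i0 →
      ∑' R : List B, (if HT ht A + HT ht R = n then LW Λ R * Φ (A ++ R) else 0)
      ≤ e + ∑' P : List B, (if FR ht P T ∧ HT ht P ≤ T + i0 then LW Λ P *
          ∑' R : List B, (if HT ht A + HT ht P + HT ht R = n then LW Λ R * Φ (A ++ (P ++ R)) else 0)
          else 0) := by
    intro A hA hA2
    have := split_FR ht T (fun R => if HT ht A + HT ht R = n then LW Λ R * Φ (A ++ R) else 0)
    calc _ = ∑' L : List B, (if T ≤ HT ht L then (if HT ht A + HT ht L = n then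
            LW Λ L * Φ (A ++ L) else 0) else 0) := by
          refine tsum_congr fun L => ?_
          by_cases h : HT ht A + HT ht L = n
          · rw [if_pos h, if_pos (by omega)]
          · simp [h]
      _ = _ := this
      _ = ∑' P : List B, (if FR ht P T then LW Λ P * ∑' R : List B,
            (if HT ht A + HT ht P + HT ht R = n then LW Λ R * Φ (A ++ (P ++ R)) else 0)
            else 0) := by
          refine tsum_congr fun P => ?_
          by_cases h : FR ht P T
          · rw [if_pos h, if_pos h, ← ENNReal.tsum_mul_left]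
            refine tsum_congr fun R => ?_
            rw [HT_append, LW_append, ← add_assoc]
            by_cases h2 : HT ht A + HT ht P + HT ht R = n
            · rw [if_pos h2, if_pos h2, mul_assoc]
            · rw [if_neg h2, if_neg h2, mul_zero]
          · rw [if_neg h, if_neg h]
      _ ≤ ∑' P : List B, ((if FR ht P T ∧ T + i0 < HT ht P then LW Λ P else 0) +
            (if FR ht P T ∧ HT ht P ≤ T + i0 then LW Λ P * ∑' R : List B,
            (if HT ht A + HT ht P + HT ht R = n then LW Λ R * Φ (A ++ (P ++ R)) else 0)
            else 0)) := by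
          refine ENNReal.tsum_le_tsum fun P => ?_
          by_cases h : FR ht P T
          · by_cases h2 : HT ht P ≤ T + i0
            · simp only [h, h2, true_and, if_true]
              exact le_add_self
            · have h3 : T + i0 < HT ht P := by omega
              simp only [h, h2, h3, true_and, and_true, and_false, if_true, if_false, add_zero]
              calc _ ≤ LW Λ P * 1 := mul_le_mul_right
                    (hR (HT ht A + HT ht P) n (fun R => Φ (A ++ (P ++ R))) fun L => hΦ _) _
                _ = _ := mul_one _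
          · simp [h]
      _ ≤ _ := by
          rw [ENNReal.tsum_add]
          exact add_le_add (he T) le_rfl
  calc _ ≤ ∑' A : List B, ((if FR ht A b ∧ b + i0 < HT ht A then LW Λ A else 0) +
        ((if FR ht A b then LW Λ A else 0) * e +
        (if FR ht A b ∧ HT ht A ≤ b + i0 then LW Λ A *
        ∑' P : List B, (if FR ht P T ∧ HT ht P ≤ T + i0 then LW Λ P *
          ∑' R : List B, (if HT ht A + HT ht P + HT ht R = n then LW Λ R * Φ (A ++ (P ++ R)) else 0)
          else 0) else 0))) := by
        refine ENNReal.tsum_le_tsum fun A => ?_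
        by_cases h : FR ht A b
        · by_cases h2 : HT ht A ≤ b + i0
          · have h3 : ¬ (b + i0 < HT ht A) := by omega
            simp only [h, h2, h3, true_and, and_true, and_false, if_true, if_false, zero_add]
            rw [← mul_add]
            exact mul_le_mul_right (e2 A h h2) _
          · have h3 : b + i0 < HT ht A := by omega
            simp only [h, h2, h3, true_and, and_true, and_false, if_true, if_false, add_zero]
            refine le_trans ?_ le_self_add
            calc _ ≤ LW Λ A * 1 := mul_le_mul_right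
                  (hR (HT ht A) n (fun R => Φ (A ++ R)) fun L => hΦ _) _
              _ = _ := mul_one _
        · simp [h]
    _ = (∑' A : List B, (if FR ht A b ∧ b + i0 < HT ht A then LW Λ A else 0)) +
        ((∑' A : List B, (if FR ht A b then LW Λ A else 0)) * e + ∑' A : List B,
        (if FR ht A b ∧ HT ht A ≤ b + i0 then LW Λ A *
        ∑' P : List B, (if FR ht P T ∧ HT ht P ≤ T + i0 then LW Λ P *
          ∑' R : List B, (if HT ht A + HT ht P + HT ht R = n then LW Λ R * Φ (A ++ (P ++ R)) else 0)
          else 0) else 0)) := by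
        rw [ENNReal.tsum_add, ENNReal.tsum_add, ENNReal.tsum_mul_right]
    _ ≤ e + (1 * e + _) := by
        refine add_le_add (he b) (add_le_add ?_ le_rfl)
        exact mul_le_mul_left (mass_FR Λ ht hΛ h1 b) _
    _ = _ := by rw [one_mul, ← add_assoc, two_mul]

/-! ### traces -/

lemma TT_append (L R : List B) (x : G) (a : ℕ) :
    TT s z ht (L ++ R) x a = TT s z ht L x a ∪ TT s z ht R (x + dp z L) (a + HT ht L) := by
  induction L generalizing x a with
  | nil => simp [TT, dp, HT_nil]
  | cons b L ih =>
    simp only [List.cons_append, TT]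
    rw [ih, Set.union_assoc, HT_cons]
    congr 2
    have : dp z (b :: L) = z b + dp z L := by simp [dp]
    rw [this, add_assoc, add_assoc]

lemma mem_TT_shift (L : List B) (x g y : G) (a k : ℕ) :
    (y, k) ∈ TT s z ht L (x + g) a ↔ (y - g, k) ∈ TT s z ht L x a := by
  induction L generalizing x a with
  | nil => simp [TT]
  | cons b L ih =>
    simp only [TT, Set.mem_union, Set.mem_ofPred_eq]
    rw [show x + g + z b = x + z b + g by abel, ih]
    refine or_congr_left ?_
    constructor
    · rintro ⟨q, hq, h⟩
      refine ⟨q, hq, ?_⟩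
      simp only [Prod.mk.injEq] at h ⊢
      exact ⟨by rw [h.1]; abel, h.2⟩
    · rintro ⟨q, hq, h⟩
      refine ⟨q, hq, ?_⟩
      simp only [Prod.mk.injEq] at h ⊢
      exact ⟨by rw [← sub_add_cancel y g, h.1]; abel, h.2⟩

/-- depths of the trace -/
lemma TT_depth (hs : ∀ b q, q ∈ s b → 1 ≤ q.2 ∧ q.2 ≤ ht b) (L : List B) (x y : G) (a k : ℕ)
    (h : (y, k) ∈ TT s z ht L x a) : a < k ∧ k ≤ a + HT ht L := by
  induction L generalizing x a with
  | nil => simp [TT] at h
  | cons b L ih =>
    rw [HT_cons]
    simp only [TT, Set.mem_union, Set.mem_ofPred_eq] at h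
    rcases h with ⟨q, hq, h⟩ | h
    · have := hs b q hq
      simp only [Prod.mk.injEq] at h
      omega
    · have := ih _ _ h
      omega

end Crest.Agent.R154.Asm475
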