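import Crest.Agent.R154.AsmB_508

/-! Row 154, ROAD 801 (helper508): traces, one window. -/

set_option autoImplicit false

namespace Crest.Agent.R154.Asm508

open Crest.Agent.R154.B5A
open scoped ENNReal

/-! ### traces -/

section trace

variable {B : Type*} {G : Type*} [AddCommGroup G] (h : B → ℕ) (z : B → G) (s : B → Set (G × ℕ))

/-- trace (position, depth) of a list hung at `x` at depth `a` -/
def Tr : List B → G → ℕ → Set (G × ℕ)
  | [], _, _ => ∅
  | b :: L, x, a => {q | ∃ p ∈ s b, q = (x + p.1, a + p.2)} ∪ Tr L (x + z b) (a + h b)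

lemma Tr_append (L L' : List B) (x : G) (a : ℕ) :
    Tr h z s (L ++ L') x a = Tr h z s L x a ∪ Tr h z s L' (x + Dp z L) (a + HT h L) := by
  induction L generalizing x a with
  | nil => simp [Tr, Dp, HT]
  | cons b L ih =>
    simp only [List.cons_append, Tr, ih, Set.union_assoc]
    rw [HT_cons, show Dp z (b :: L) = z b + Dp z L by simp [Dp], add_assoc, add_assoc]

lemma Tr_depth (hs : ∀ b, ∀ p ∈ s b, 1 ≤ p.2 ∧ p.2 ≤ h b) (L : List B) (x : G) (a : ℕ)
    (q : G × ℕ) (hq : q ∈ Tr h z s L x a) : a + 1 ≤ q.2 ∧ q.2 ≤ a + HT h L := by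
  induction L generalizing x a with
  | nil => simp [Tr] at hq
  | cons b L ih =>
    rw [HT_cons]
    rcases hq with ⟨p, hp, rfl⟩ | hq
    · have := hs b p hp; simp only; omega
    · have := ih _ _ hq; omega

lemma Tr_shift (L : List B) (x y : G) (a : ℕ) (q : G × ℕ) :
    q ∈ Tr h z s L (x + y) a ↔ (q.1 - y, q.2) ∈ Tr h z s L x a := by
  induction L generalizing x a with
  | nil => simp [Tr]
  | cons b L ih =>
    simp only [Tr, Set.mem_union, Set.mem_ofPred_eq]
    rw [show x + y + z b = (x + z b) + y by abel, ih]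
    constructor
    · rintro (⟨p, hp, rfl⟩ | hq)
      · left; exact ⟨p, hp, Prod.ext (by simp only; abel) rfl⟩
      · exact Or.inr hq
    · rintro (⟨p, hp, hq⟩ | hq)
      · left
        have h2 : q.2 = a + p.2 := congrArg Prod.snd hq
        refine ⟨p, hp, Prod.ext ?_ h2⟩
        have := congrArg Prod.fst hq
        simp only at this ⊢
        rw [sub_eq_iff_eq_add] at this
        rw [this]; abel
      · exact Or.inr hq

end trace


/-! ### one walker: reduction to a piece -/

section red

variable {B : Type*} (Λ : B → ℝ≥0∞) (h : B → ℕ)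

lemma fpS_comm {B' : Type*} (Λ' : B' → ℝ≥0∞) (h' : B' → ℕ) (a a' : ℕ)
    (F : List B → List B' → ℝ≥0∞) :
    fpS Λ h a (fun L => fpS Λ' h' a' (fun L' => F L L'))
      = fpS Λ' h' a' (fun L' => fpS Λ h a (fun L => F L L')) := by
  classical
  simp only [fpS]
  have e1 : ∀ L : List B, (if FP h L a then LW Λ L *
      ∑' L', (if FP h' L' a' then LW Λ' L' * F L L' else 0) else 0)
      = ∑' L', (if FP h L a ∧ FP h' L' a' then LW Λ L * (LW Λ' L' * F L L') else 0) := by
    intro L
    by_cases hL : FP h L a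
    · simp only [hL, if_true, true_and]
      rw [← ENNReal.tsum_mul_left]
      exact tsum_congr fun L' => by split_ifs <;> simp
    · simp [hL]
  have e2 : ∀ L' : List B', (if FP h' L' a' then LW Λ' L' *
      ∑' L, (if FP h L a then LW Λ L * F L L' else 0) else 0)
      = ∑' L, (if FP h L a ∧ FP h' L' a' then LW Λ L * (LW Λ' L' * F L L') else 0) := by
    intro L'
    by_cases hL' : FP h' L' a'
    · simp only [hL', if_true, and_true]
      rw [← ENNReal.tsum_mul_left]
      exact tsum_congr fun L => by split_ifs <;> simp [mul_left_comm]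
    · simp [hL']
  simp_rw [e1, e2]
  exact ENNReal.tsum_comm

lemma sumHT_le (h1 : ∀ b, 1 ≤ h b) (hΛ : ∑' b, Λ b = 1) (k n : ℕ) (F : List B → ℝ≥0∞) (c : ℝ≥0∞)
    (hF : ∀ L, F L ≤ c) : ∑' R, LW Λ R * (if k + HT h R = n then F R else 0) ≤ c := by
  classical
  calc _ ≤ ∑' R, c * (if HT h R = n - k then LW Λ R else 0) := by
        refine ENNReal.tsum_le_tsum fun R => ?_
        by_cases hR : k + HT h R = n
        · rw [if_pos hR, if_pos (by omega), mul_comm]
          exact mul_le_mul_left (hF R) _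
        · rw [if_neg hR, mul_zero]; exact zero_le
    _ = c * U Λ h (n - k) := by rw [ENNReal.tsum_mul_left, U]
    _ ≤ c * 1 := mul_le_mul_right (U_le_one Λ h h1 hΛ _) _
    _ = c := mul_one c

open Classical in
lemma red1 (h1 : ∀ b, 1 ≤ h b) (hΛ : ∑' b, Λ b = 1) (a t i0 n : ℕ) (hn : a + i0 + t ≤ n)
    (F : List B → ℝ≥0∞) (hF : ∀ L, F L ≤ 1) (Φ : List B → List B → ℝ≥0∞)
    (hΦ : ∀ A P R, FP h A a → HT h A ≤ a + i0 → FP h P t → HT h P ≤ t + i0 →
      F (A ++ (P ++ R)) ≤ Φ A P) :
    ∑' L, LW Λ L * (if HT h L = n then F L else 0)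
      ≤ 2 * ov Λ h i0 + fpS Λ h a (fun A => if HT h A ≤ a + i0 then
          fpS Λ h t (fun P => if HT h P ≤ t + i0 then Φ A P else 0) else 0) := by
  rw [fp_split Λ h h1 a]
  swap
  · intro L hL
    by_cases hh : HT h L = n
    · omega
    · simp [hh] at hL
  have key : ∀ A, FP h A a → ∑' R, LW Λ R * (if HT h (A ++ R) = n then F (A ++ R) else 0)
      ≤ (if a + i0 < HT h A then 1 else 0) + (ov Λ h i0 + (if HT h A ≤ a + i0 then
          fpS Λ h t (fun P => if HT h P ≤ t + i0 then Φ A P else 0) else 0)) := by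
    intro A hA
    by_cases hh : a + i0 < HT h A
    · rw [if_pos hh]
      refine le_trans ?_ le_self_add
      simp only [HT_append]
      exact sumHT_le Λ h h1 hΛ _ _ (fun R => F (A ++ R)) 1 fun R => hF _
    · rw [if_neg hh, if_pos (not_lt.1 hh), zero_add]
      rw [fp_split Λ h h1 t]
      swap
      · intro L hL
        by_cases hh2 : HT h (A ++ L) = n
        · rw [HT_append] at hh2; omega
        · simp [hh2] at hL
      calc _ ≤ fpS Λ h t (fun P => (if t + i0 < HT h P then 1 else 0)
            + (if HT h P ≤ t + i0 then Φ A P else 0)) := by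
            refine fpS_mono Λ h t fun P hP => ?_
            simp only [HT_append, ← add_assoc]
            by_cases hP2 : t + i0 < HT h P
            · rw [if_pos hP2]
              refine le_trans ?_ le_self_add
              exact sumHT_le Λ h h1 hΛ _ _ (fun R => F (A ++ (P ++ R))) 1 fun R => hF _
            · rw [if_neg hP2, if_pos (not_lt.1 hP2), zero_add]
              exact sumHT_le Λ h h1 hΛ _ _ (fun R => F (A ++ (P ++ R))) _
                fun R => hΦ A P R hA (not_lt.1 hh) hP (not_lt.1 hP2)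
        _ = _ := fpS_add Λ h t _ _
        _ ≤ _ := add_le_add (over_le Λ h h1 hΛ t i0) le_rfl
  calc _ ≤ fpS Λ h a (fun A => (if a + i0 < HT h A then 1 else 0) + (ov Λ h i0 +
          (if HT h A ≤ a + i0 then
          fpS Λ h t (fun P => if HT h P ≤ t + i0 then Φ A P else 0) else 0))) :=
        fpS_mono Λ h a key
    _ = fpS Λ h a (fun A => if a + i0 < HT h A then 1 else 0) + (fpS Λ h a (fun _ => ov Λ h i0)
        + fpS Λ h a (fun A => if HT h A ≤ a + i0 then
          fpS Λ h t (fun P => if HT h P ≤ t + i0 then Φ A P else 0) else 0)) := by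
        rw [fpS_add, fpS_add]
    _ ≤ ov Λ h i0 + (ov Λ h i0 + _) := by
        refine add_le_add (over_le Λ h h1 hΛ a i0) (add_le_add ?_ le_rfl)
        exact fpS_le Λ h h1 hΛ a fun _ _ => le_rfl
    _ = _ := by rw [two_mul, add_assoc]

end red

/-! ### mixing lemma -/

open Classical in
lemma mix {G : Type*} [AddCommGroup G] (VX VY : ℕ × G → ℝ≥0∞) (hX : ∑' p, VX p ≤ 1)
    (hY : ∑' p, VY p ≤ 1) (Θ : ℕ → ℕ → G → ℝ≥0∞) (hΘ : ∀ i i' y, Θ i i' y ≤ 1) (i0 : ℕ)
    (M η β : ℝ≥0∞) (w : G) (hβ : ∑' p, (VX p - M) ≤ β)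
    (hη : ∀ i ≤ i0, ∀ i' ≤ i0, ∀ μ : G → ℝ≥0∞, ∑' y, μ y ≤ 1 → (∀ y, μ y ≤ M) →
      ∑' y, μ y * Θ i i' y ≤ η) :
    ∑' p, VX p * (if p.1 ≤ i0 then ∑' p', VY p' * (if p'.1 ≤ i0 then
      Θ p.1 p'.1 (w + p'.2 - p.2) else 0) else 0) ≤ β + (i0 + 1 : ℕ) ^ 2 * η := by
  set Q : ℕ × G → ℝ≥0∞ := fun p => if p.1 ≤ i0 then ∑' p', VY p' * (if p'.1 ≤ i0 then
      Θ p.1 p'.1 (w + p'.2 - p.2) else 0) else 0 with hQ
  have hQ1 : ∀ p, Q p ≤ 1 := by
    intro p
    rw [hQ]
    simp only
    split_ifs
    · refine le_trans (ENNReal.tsum_le_tsum fun p' => ?_) hY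
      split_ifs
      · calc _ ≤ VY p' * 1 := mul_le_mul_right (hΘ _ _ _) _
          _ = _ := mul_one _
      · simp
    · exact zero_le
  have h1 : ∀ p, VX p * Q p ≤ (VX p - M) + min (VX p) M * Q p := by
    intro p
    calc VX p * Q p ≤ ((VX p - M) + min (VX p) M) * Q p := by
          refine mul_le_mul_left ?_ _
          rcases le_total (VX p) M with hh | hh
          · rw [min_eq_left hh]; exact le_add_self
          · rw [min_eq_right hh]; exact le_tsub_add
      _ = (VX p - M) * Q p + min (VX p) M * Q p := add_mul _ _ _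
      _ ≤ _ := add_le_add (by
          calc _ ≤ (VX p - M) * 1 := mul_le_mul_right (hQ1 p) _
            _ = _ := mul_one _) le_rfl
  refine (ENNReal.tsum_le_tsum h1).trans ?_
  rw [ENNReal.tsum_add]
  refine add_le_add hβ ?_
  set g : ℕ × G → ℝ≥0∞ := fun p => min (VX p) M with hg
  have hg1 : ∀ i, ∑' x, g (i, x) ≤ 1 := by
    intro i
    calc _ ≤ ∑' x, VX (i, x) := ENNReal.tsum_le_tsum fun x => min_le_left _ _
      _ ≤ ∑' p, VX p := ENNReal.tsum_comp_le_tsum_of_injective
          (f := fun x : G => (i, x)) (fun x y hxy => by simpa using hxy) _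
      _ ≤ 1 := hX
  have hV1 : ∀ i, ∑' x, VY (i, x) ≤ 1 := by
    intro i
    calc _ ≤ ∑' p, VY p := ENNReal.tsum_comp_le_tsum_of_injective
          (f := fun x : G => (i, x)) (fun x y hxy => by simpa using hxy) _
      _ ≤ 1 := hY
  -- expand
  have e1 : ∑' p, g p * Q p = ∑' i, ∑' x, g (i, x) * Q (i, x) := ENNReal.tsum_prod' 
  have e2 : ∀ i, ∑' x, g (i, x) * Q (i, x) ≤ (if i ≤ i0 then ∑' i', (if i' ≤ i0 then η else 0) else 0) := by
    intro i
    by_cases hi : i ≤ i0
    · rw [if_pos hi]
      have e3 : ∀ x, g (i, x) * Q (i, x) = ∑' i', ∑' x', (if i' ≤ i0 then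
          g (i, x) * (VY (i', x') * Θ i i' (w + x' - x)) else 0) := by
        intro x
        rw [hQ]
        simp only [if_pos hi]
        rw [ENNReal.tsum_prod', ← ENNReal.tsum_mul_left]
        refine tsum_congr fun i' => ?_
        rw [← ENNReal.tsum_mul_left]
        refine tsum_congr fun x' => ?_
        by_cases hi' : i' ≤ i0
        · simp [hi']
        · simp [hi']
      simp_rw [e3]
      rw [ENNReal.tsum_comm]
      refine ENNReal.tsum_le_tsum fun i' => ?_
      by_cases hi' : i' ≤ i0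
      · simp only [if_pos hi']
        rw [ENNReal.tsum_comm]
        -- `∑ x', ∑ x`; substitute `y = w + x' - x`
        have e4 : ∀ x', ∑' x, g (i, x) * (VY (i', x') * Θ i i' (w + x' - x))
            = ∑' y, g (i, w + x' - y) * (VY (i', x') * Θ i i' y) := by
          intro x'
          rw [← (Equiv.subLeft (w + x')).tsum_eq
            (fun y => g (i, w + x' - y) * (VY (i', x') * Θ i i' y))]
          refine tsum_congr fun x => ?_
          simp
        simp_rw [e4]
        rw [ENNReal.tsum_comm]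
        have e5 : ∀ y, ∑' x', g (i, w + x' - y) * (VY (i', x') * Θ i i' y)
            = (∑' x', g (i, w + x' - y) * VY (i', x')) * Θ i i' y := by
          intro y
          rw [← ENNReal.tsum_mul_right]
          exact tsum_congr fun x' => by ring
        simp_rw [e5]
        refine hη i hi i' hi' _ ?_ ?_
        · rw [ENNReal.tsum_comm]
          calc _ = ∑' x', (∑' y, g (i, w + x' - y)) * VY (i', x') :=
                tsum_congr fun x' => ENNReal.tsum_mul_right
            _ ≤ ∑' x', 1 * VY (i', x') := by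
                refine ENNReal.tsum_le_tsum fun x' => mul_le_mul_left ?_ _
                exact (le_of_eq ((Equiv.subLeft (w + x')).tsum_eq (fun x => g (i, x)))).trans (hg1 i)
            _ ≤ 1 := by simpa using hV1 i'
        · intro y
          calc _ ≤ ∑' x', M * VY (i', x') :=
                ENNReal.tsum_le_tsum fun x' => mul_le_mul_left (min_le_right _ _) _
            _ = M * ∑' x', VY (i', x') := ENNReal.tsum_mul_left
            _ ≤ M * 1 := mul_le_mul_right (hV1 i') _
            _ = M := mul_one M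
      · simp [hi']
    · simp [hQ, hi]
  rw [e1]
  refine (ENNReal.tsum_le_tsum e2).trans ?_
  have e6 : ∑' i' : ℕ, (if i' ≤ i0 then η else 0) = (i0 + 1 : ℕ) * η := by
    rw [tsum_eq_sum (s := Finset.range (i0 + 1))]
    · rw [Finset.sum_congr rfl fun i hi => if_pos (by have := Finset.mem_range.1 hi; omega)]
      simp
    · intro i hi
      rw [if_neg (by simpa using hi)]
  simp_rw [e6]
  rw [tsum_eq_sum (s := Finset.range (i0 + 1))]
  · rw [Finset.sum_congr rfl fun i hi => if_pos (by have := Finset.mem_range.1 hi; omega)]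
    rw [Finset.sum_const, Finset.card_range, nsmul_eq_mul, sq, mul_assoc]
  · intro i hi
    rw [if_neg (by simpa using hi)]

end Crest.Agent.R154.Asm508
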