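import Crest.Agent.R154.AsmB_52

/-! Row 154 (helper52): the bound of the sum over the pieces. -/

set_option autoImplicit false

namespace Crest.Agent.R154.Asm52

open Crest.Agent.R154.B5A Crest.Agent.R154.FP52
open scoped ENNReal Classical
open Finset

section mu

variable {G : Type*} [AddCommGroup G]

lemma mu_ex (f g : G → ℝ≥0∞) (M : ℝ≥0∞) (w : G) (hf : ∑' z, f z ≤ 1) (hg : ∑' z, g z ≤ 1)
    (hM : (∀ z, f z ≤ M) ∨ (∀ z, g z ≤ M)) :
    ∃ μ : G → ℝ≥0∞, ∑' x, μ x ≤ 1 ∧ (∀ x, μ x ≤ M) ∧ ∀ Ψ : G → ℝ≥0∞,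
      ∑' z, ∑' z', f z * (g z' * Ψ (w + z' - z)) = ∑' x, μ x * Ψ x := by
  have hsh : ∀ z, ∑' x, g (x - w + z) = ∑' z', g z' := by
    intro z
    have := (Equiv.addRight (-w + z)).tsum_eq g
    rw [← this]
    refine tsum_congr fun x => ?_
    show g (x - w + z) = g (x + (-w + z))
    rw [show x + (-w + z) = x - w + z by abel]
  refine ⟨fun x => ∑' z, f z * g (x - w + z), ?_, ?_, ?_⟩
  · rw [ENNReal.tsum_comm]
    calc ∑' z, ∑' x, f z * g (x - w + z) = ∑' z, f z * ∑' z', g z' := by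
          refine tsum_congr fun z => ?_
          rw [ENNReal.tsum_mul_left, hsh]
      _ ≤ ∑' z, f z * 1 := by gcongr
      _ ≤ 1 := by simpa using hf
  · intro x
    have hsh2 : ∑' z, g (x - w + z) = ∑' z', g z' := by
      exact (Equiv.addLeft (x - w)).tsum_eq g
    rcases hM with hM | hM
    · calc ∑' z, f z * g (x - w + z) ≤ ∑' z, M * g (x - w + z) := by
            gcongr with z; exact hM z
        _ = M * ∑' z', g z' := by rw [ENNReal.tsum_mul_left, hsh2]
        _ ≤ M * 1 := by gcongr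
        _ = M := mul_one _
    · calc ∑' z, f z * g (x - w + z) ≤ ∑' z, f z * M := by
            gcongr with z; exact hM _
        _ = (∑' z, f z) * M := ENNReal.tsum_mul_right
        _ ≤ 1 * M := by gcongr
        _ = M := one_mul _
  · intro Ψ
    calc ∑' z, ∑' z', f z * (g z' * Ψ (w + z' - z))
        = ∑' z, ∑' x, f z * (g (x - w + z) * Ψ x) := by
          refine tsum_congr fun z => ?_
          have := (Equiv.addRight (-w + z)).tsum_eq (fun z' => f z * (g z' * Ψ (w + z' - z)))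
          rw [← this]
          refine tsum_congr fun x => ?_
          show f z * (g (x + (-w + z)) * Ψ (w + (x + (-w + z)) - z)) = f z * (g (x - w + z) * Ψ x)
          rw [show x + (-w + z) = x - w + z by abel, show w + (x - w + z) - z = x by abel]
      _ = _ := by
          rw [ENNReal.tsum_comm]
          refine tsum_congr fun x => ?_
          rw [← ENNReal.tsum_mul_right]
          refine tsum_congr fun z => ?_
          rw [mul_assoc]

lemma key0 (F1 F2 : ℕ → G → ℝ≥0∞) (h1 : ∑' j, ∑' z, F1 j z ≤ 1) (h2 : ∑' j, ∑' z, F2 j z ≤ 1)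
    (Θ : ℕ → ℕ → G → ℝ≥0∞) (i0 : ℕ) (hΘ0 : ∀ i i' x, ¬ (i ≤ i0 ∧ i' ≤ i0) → Θ i i' x = 0)
    (w : G) (M D : ℝ≥0∞)
    (hD : ∀ i i', i ≤ i0 → i' ≤ i0 → ∀ μ : G → ℝ≥0∞, ∑' x, μ x ≤ 1 → (∀ x, μ x ≤ M) →
      ∑' x, μ x * Θ i i' x ≤ D)
    (hM : (∀ j z, F1 j z ≤ M) ∨ (∀ j z, F2 j z ≤ M)) :
    ∑' i, ∑' z, F1 i z * ∑' i', ∑' z', F2 i' z' * Θ i i' (w + z' - z) ≤ (i0 + 1 : ℕ) ^ 2 * D := by
  have e : ∀ i, ∑' z, F1 i z * ∑' i', ∑' z', F2 i' z' * Θ i i' (w + z' - z)
      = ∑' i', ∑' z, ∑' z', F1 i z * (F2 i' z' * Θ i i' (w + z' - z)) := by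
    intro i
    rw [ENNReal.tsum_comm]
    refine tsum_congr fun z => ?_
    rw [← ENNReal.tsum_mul_left]
    refine tsum_congr fun i' => ?_
    rw [← ENNReal.tsum_mul_left]
  simp_rw [e]
  have hb : ∀ i i', ∑' z, ∑' z', F1 i z * (F2 i' z' * Θ i i' (w + z' - z))
      ≤ if i ≤ i0 ∧ i' ≤ i0 then D else 0 := by
    intro i i'
    by_cases hi : i ≤ i0 ∧ i' ≤ i0
    · rw [if_pos hi]
      have h1' : ∑' z, F1 i z ≤ 1 := (ENNReal.le_tsum i).trans h1
      have h2' : ∑' z, F2 i' z ≤ 1 := (ENNReal.le_tsum i').trans h2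
      obtain ⟨μ, hμ1, hμ2, hμ3⟩ := mu_ex (F1 i) (F2 i') M w h1' h2'
        (hM.imp (fun h => h i) (fun h => h i'))
      rw [hμ3 (fun x => Θ i i' x)]
      exact hD i i' hi.1 hi.2 μ hμ1 hμ2
    · rw [if_neg hi]
      refine le_of_eq ?_
      simp [hΘ0 i i' _ hi]
  calc _ ≤ ∑' i, ∑' i', (if i ≤ i0 ∧ i' ≤ i0 then D else 0) :=
        ENNReal.tsum_le_tsum fun i => ENNReal.tsum_le_tsum fun i' => hb i i'
    _ = ∑ i ∈ range (i0 + 1), ∑ i' ∈ range (i0 + 1), D := by
        rw [tsum_eq_sum (s := range (i0 + 1))]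
        · refine Finset.sum_congr rfl fun i hi => ?_
          have hi' : i ≤ i0 := by have := Finset.mem_range.1 hi; omega
          rw [tsum_eq_sum (s := range (i0 + 1))]
          · refine Finset.sum_congr rfl fun i' hi2 => ?_
            have hi2' : i' ≤ i0 := by have := Finset.mem_range.1 hi2; omega
            rw [if_pos ⟨hi', hi2'⟩]
          · intro i' hi2
            have : ¬ i' ≤ i0 := fun h => hi2 (Finset.mem_range.2 (by omega))
            rw [if_neg (fun h => this h.2)]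
        · intro i hi
          have : ¬ i ≤ i0 := fun h => hi (Finset.mem_range.2 (by omega))
          simp [this]
    _ = _ := by
        simp only [Finset.sum_const, card_range, nsmul_eq_mul]
        ring

lemma key (f1 f2 : ℕ → G → ℝ≥0∞) (h1 : ∑' j, ∑' z, f1 j z ≤ 1) (h2 : ∑' j, ∑' z, f2 j z ≤ 1)
    (Θ : ℕ → ℕ → G → ℝ≥0∞) (hΘ1 : ∀ i i' x, Θ i i' x ≤ 1) (i0 : ℕ)
    (hΘ0 : ∀ i i' x, ¬ (i ≤ i0 ∧ i' ≤ i0) → Θ i i' x = 0)
    (w : G) (M D ρ : ℝ≥0∞)
    (hD : ∀ i i', i ≤ i0 → i' ≤ i0 → ∀ μ : G → ℝ≥0∞, ∑' x, μ x ≤ 1 → (∀ x, μ x ≤ M) →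
      ∑' x, μ x * Θ i i' x ≤ D)
    (hsplit : (∃ Ag Bb : ℕ → G → ℝ≥0∞, (∀ j z, f1 j z ≤ Ag j z + Bb j z) ∧ (∀ j z, Ag j z ≤ M) ∧
        ∑' j, ∑' z, Bb j z ≤ ρ) ∨
      (∃ Ag Bb : ℕ → G → ℝ≥0∞, (∀ j z, f2 j z ≤ Ag j z + Bb j z) ∧ (∀ j z, Ag j z ≤ M) ∧
        ∑' j, ∑' z, Bb j z ≤ ρ)) :
    ∑' i, ∑' z, f1 i z * ∑' i', ∑' z', f2 i' z' * Θ i i' (w + z' - z)
      ≤ (i0 + 1 : ℕ) ^ 2 * D + ρ := by
  rcases hsplit with ⟨Ag, Bb, hab, hA, hB⟩ | ⟨Ag, Bb, hab, hA, hB⟩
  · have hX : ∀ i z, ∑' i', ∑' z', f2 i' z' * Θ i i' (w + z' - z) ≤ 1 := by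
      intro i z
      refine le_trans ?_ h2
      refine ENNReal.tsum_le_tsum fun i' => ENNReal.tsum_le_tsum fun z' => ?_
      calc _ ≤ f2 i' z' * 1 := by gcongr; exact hΘ1 _ _ _
        _ = _ := mul_one _
    calc _ ≤ ∑' i, ∑' z, (min (f1 i z) (Ag i z) * (∑' i', ∑' z', f2 i' z' * Θ i i' (w + z' - z))
            + Bb i z) := by
          refine ENNReal.tsum_le_tsum fun i => ENNReal.tsum_le_tsum fun z => ?_
          have hm : f1 i z ≤ min (f1 i z) (Ag i z) + Bb i z := by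
            rcases le_total (f1 i z) (Ag i z) with h | h
            · rw [min_eq_left h]; exact le_self_add
            · rw [min_eq_right h]; exact hab i z
          calc _ ≤ (min (f1 i z) (Ag i z) + Bb i z)
                * (∑' i', ∑' z', f2 i' z' * Θ i i' (w + z' - z)) := by gcongr
            _ = min (f1 i z) (Ag i z) * (∑' i', ∑' z', f2 i' z' * Θ i i' (w + z' - z))
                + Bb i z * (∑' i', ∑' z', f2 i' z' * Θ i i' (w + z' - z)) := add_mul _ _ _
            _ ≤ min (f1 i z) (Ag i z) * (∑' i', ∑' z', f2 i' z' * Θ i i' (w + z' - z))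
                + Bb i z * 1 := by gcongr; exact hX i z
            _ = _ := by rw [mul_one]
      _ = (∑' i, ∑' z, min (f1 i z) (Ag i z) * (∑' i', ∑' z', f2 i' z' * Θ i i' (w + z' - z)))
            + ∑' i, ∑' z, Bb i z := by
          rw [← ENNReal.tsum_add]
          refine tsum_congr fun i => ?_
          rw [← ENNReal.tsum_add]
      _ ≤ _ := by
          refine add_le_add ?_ hB
          refine key0 (fun i z => min (f1 i z) (Ag i z)) f2 ?_ h2 Θ i0 hΘ0 w M D hD ?_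
          · refine le_trans ?_ h1
            exact ENNReal.tsum_le_tsum fun i => ENNReal.tsum_le_tsum fun z => min_le_left _ _
          · left; intro j z; exact (min_le_right _ _).trans (hA j z)
  · calc _ ≤ ∑' i, ∑' z, (f1 i z * (∑' i', ∑' z', min (f2 i' z') (Ag i' z')
              * Θ i i' (w + z' - z)) + f1 i z * ∑' i', ∑' z', Bb i' z') := by
          refine ENNReal.tsum_le_tsum fun i => ENNReal.tsum_le_tsum fun z => ?_
          rw [← mul_add]
          gcongr
          rw [← ENNReal.tsum_add]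
          refine ENNReal.tsum_le_tsum fun i' => ?_
          rw [← ENNReal.tsum_add]
          refine ENNReal.tsum_le_tsum fun z' => ?_
          have hm : f2 i' z' ≤ min (f2 i' z') (Ag i' z') + Bb i' z' := by
            rcases le_total (f2 i' z') (Ag i' z') with h | h
            · rw [min_eq_left h]; exact le_self_add
            · rw [min_eq_right h]; exact hab i' z'
          calc _ ≤ (min (f2 i' z') (Ag i' z') + Bb i' z') * Θ i i' (w + z' - z) := by gcongr
            _ = min (f2 i' z') (Ag i' z') * Θ i i' (w + z' - z)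
                + Bb i' z' * Θ i i' (w + z' - z) := add_mul _ _ _
            _ ≤ min (f2 i' z') (Ag i' z') * Θ i i' (w + z' - z) + Bb i' z' * 1 := by
                gcongr; exact hΘ1 _ _ _
            _ = _ := by rw [mul_one]
      _ = (∑' i, ∑' z, f1 i z * (∑' i', ∑' z', min (f2 i' z') (Ag i' z') * Θ i i' (w + z' - z)))
            + (∑' i, ∑' z, f1 i z) * ∑' i', ∑' z', Bb i' z' := by
          rw [← ENNReal.tsum_mul_right, ← ENNReal.tsum_add]
          refine tsum_congr fun i => ?_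
          rw [← ENNReal.tsum_mul_right, ← ENNReal.tsum_add]
      _ ≤ (i0 + 1 : ℕ) ^ 2 * D + 1 * ρ := by
          refine add_le_add ?_ (mul_le_mul' h1 hB)
          refine key0 f1 (fun i z => min (f2 i z) (Ag i z)) h1 ?_ Θ i0 hΘ0 w M D hD ?_
          · refine le_trans ?_ h2
            exact ENNReal.tsum_le_tsum fun i => ENNReal.tsum_le_tsum fun z => min_le_left _ _
          · right; intro j z; exact (min_le_right _ _).trans (hA j z)
      _ = _ := by rw [one_mul]

end mu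

end Crest.Agent.R154.Asm52
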