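import Crest.Agent.R154.AsmB_53

/-! Row 154 (helper53), ROAD 801: abstract assembly of KAPPA', part C: one window. -/

set_option autoImplicit false

namespace Crest.Agent.R154.Asm53

open scoped ENNReal Topology
open Crest.Agent.R154.B5A Crest.Agent.R154.FP178
open Crest.Agent.R154.Asm540 (TR Cm H2 H3 H5 KS TR_append TR_depth TR_shift)
open Filter

variable {BX BY G : Type*} [AddCommGroup G]
  (ΛX : BX → ℝ≥0∞) (ΛY : BY → ℝ≥0∞) (hX : BX → ℕ) (hY : BY → ℕ) (zX : BX → G) (zY : BY → G)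
  (sX : BX → Set (G × ℕ)) (sY : BY → Set (G × ℕ))

open Classical in
/-- indicator of: some contact, all contacts in `[lo, hi]` -/
noncomputable def Ph (lo hi : ℕ) (X2 : List BX) (Y2 : List BY) (x : G) (a1 a2 : ℕ) : ℝ≥0∞ :=
  if (∃ g k, Cm hX hY zX zY sX sY X2 Y2 x a1 a2 g k) ∧
     (∀ g k, Cm hX hY zX zY sX sY X2 Y2 x a1 a2 g k → lo ≤ k ∧ k ≤ hi) then 1 else 0

lemma Ph_le (lo hi : ℕ) (X2 : List BX) (Y2 : List BY) (x : G) (a1 a2 : ℕ) :
    Ph hX hY zX zY sX sY lo hi X2 Y2 x a1 a2 ≤ 1 := by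
  unfold Ph; split_ifs
  · exact le_rfl
  · exact zero_le

lemma HH_le (F : List BX → List BY → G → ℝ≥0∞) (θ : ℕ → ℕ → List BX → List BY → G → ℝ≥0∞)
    (i : ℕ) (hpt : ∀ X2 Y2 x, F X2 Y2 x ≤ ∑ α ∈ Finset.range (i + 1), ∑ β ∈ Finset.range (i + 1),
      θ α β X2 Y2 x) (μ : G → ℝ≥0∞) (Bd : ℝ≥0∞)
    (hB : ∀ α β, ∑' x, μ x * ∑' X2, ∑' Y2, θ α β X2 Y2 x ≤ Bd) :
    ∑' x, μ x * ∑' X2, ∑' Y2, F X2 Y2 x ≤ (i + 1 : ℕ) * ((i + 1 : ℕ) * Bd) := by
  calc ∑' x, μ x * ∑' X2, ∑' Y2, F X2 Y2 x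
      ≤ ∑' x, μ x * ∑' X2, ∑' Y2, ∑ α ∈ Finset.range (i + 1), ∑ β ∈ Finset.range (i + 1),
          θ α β X2 Y2 x :=
        ENNReal.tsum_le_tsum fun x => mul_le_mul_right
          (ENNReal.tsum_le_tsum fun X2 => ENNReal.tsum_le_tsum fun Y2 => hpt X2 Y2 x) _
    _ = ∑ α ∈ Finset.range (i + 1), ∑ β ∈ Finset.range (i + 1),
          ∑' x, μ x * ∑' X2, ∑' Y2, θ α β X2 Y2 x := by
        simp only [tsum_fs, Finset.mul_sum]
    _ ≤ ∑ α ∈ Finset.range (i + 1), ∑ β ∈ Finset.range (i + 1), Bd :=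
        Finset.sum_le_sum fun α _ => Finset.sum_le_sum fun β _ => hB α β
    _ = _ := by
        simp only [Finset.sum_const, Finset.card_range, nsmul_eq_mul]

open Classical in
/-- the `X` local part of one window -/
noncomputable def HXf (i T a lo hi : ℕ) (E : Finset G) (x : G) (j j' : ℕ) : ℝ≥0∞ :=
  ∑' X2, V hX ΛX i T X2 * ∑' Y2, V hY ΛY i T Y2 *
    (if Dp zX X2 ∈ E then Ph hX hY zX zY sX sY lo hi X2 Y2 x (a + j) (a + j') else 0)

open Classical in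
/-- the `Y` local part of one window -/
noncomputable def HYf (i T a lo hi : ℕ) (E : Finset G) (x : G) (j j' : ℕ) : ℝ≥0∞ :=
  ∑' X2, V hX ΛX i T X2 * ∑' Y2, V hY ΛY i T Y2 *
    (if Dp zY Y2 ∈ E then Ph hX hY zX zY sX sY lo hi X2 Y2 x (a + j) (a + j') else 0)

lemma VV_le_one (h1X : ∀ b, 1 ≤ hX b) (h1Y : ∀ b, 1 ≤ hY b) (hΛX : ∑' b, ΛX b ≤ 1)
    (hΛY : ∑' b, ΛY b ≤ 1) (i T : ℕ) (F : List BX → List BY → ℝ≥0∞) (hF : ∀ X Y, F X Y ≤ 1) :
    ∑' X2, V hX ΛX i T X2 * ∑' Y2, V hY ΛY i T Y2 * F X2 Y2 ≤ 1 := by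
  calc ∑' X2, V hX ΛX i T X2 * ∑' Y2, V hY ΛY i T Y2 * F X2 Y2
      ≤ ∑' X2, V hX ΛX i T X2 * 1 := by
        refine ENNReal.tsum_le_tsum fun X2 => mul_le_mul_right ?_ _
        calc ∑' Y2, V hY ΛY i T Y2 * F X2 Y2 ≤ ∑' Y2, V hY ΛY i T Y2 * 1 :=
              ENNReal.tsum_le_tsum fun Y2 => mul_le_mul_right (hF _ _) _
          _ ≤ 1 := by simpa using tsum_V_le hY ΛY h1Y hΛY i T
    _ ≤ 1 := by simpa using tsum_V_le hX ΛX h1X hΛX i T

lemma HXf_bound (C : ℝ≥0∞) (us : ℕ → ℝ≥0∞) (h2 : H2 ΛX ΛY hX hY zX zY sX sY C us)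
    (i T a lo hi s : ℕ) (E : Finset G) (M lam : ℝ≥0∞) (hlam : lam ≠ 0) (hlam' : lam ≠ ⊤)
    (hlo : a + i + s ≤ lo) (j j' : ℕ) (hj : j ≤ i) (hj' : j' ≤ i)
    (μ : G → ℝ≥0∞) (hμ : ∑' x, μ x ≤ 1) (hμM : ∀ x, μ x ≤ M) :
    ∑' x, μ x * HXf ΛX ΛY hX hY zX zY sX sY i T a lo hi E x j j'
      ≤ (i + 1 : ℕ) * ((i + 1 : ℕ) * (C * (lam + M * E.card * us s / lam + us s))) := by
  classical
  have e : ∀ x, HXf ΛX ΛY hX hY zX zY sX sY i T a lo hi E x j j'
      = ∑' X2, ∑' Y2, V hX ΛX i T X2 * (V hY ΛY i T Y2 *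
    (if Dp zX X2 ∈ E then Ph hX hY zX zY sX sY lo hi X2 Y2 x (a + j) (a + j') else 0)) := by
    intro x
    unfold HXf
    exact tsum_congr fun X2 => ENNReal.tsum_mul_left.symm
  rw [tsum_congr fun x => by rw [e x]]
  refine HH_le (fun X2 Y2 x => V hX ΛX i T X2 * (V hY ΛY i T Y2 *
    (if Dp zX X2 ∈ E then Ph hX hY zX zY sX sY lo hi X2 Y2 x (a + j) (a + j') else 0)))
    (fun α β X2 Y2 x => (if HT hX X2 = T + α ∧ Asm540.Dp zX X2 ∈ E ∧ HT hY Y2 = T + β ∧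
          (∃ g k, Cm hX hY zX zY sX sY X2 Y2 x (a + j) (a + j') g k) ∧
          (∀ g k, Cm hX hY zX zY sX sY X2 Y2 x (a + j) (a + j') g k → lo ≤ k)
            then LW ΛX X2 * LW ΛY Y2 else 0)) i ?_ μ _ ?_
  · intro X2 Y2 x
    by_cases hVX : fp hX T X2 ∧ HT hX X2 ≤ T + i
    · by_cases hVY : fp hY T Y2 ∧ HT hY Y2 ≤ T + i
      · by_cases hE : Dp zX X2 ∈ E
        · by_cases hP : (∃ g k, Cm hX hY zX zY sX sY X2 Y2 x (a + j) (a + j') g k) ∧
              (∀ g k, Cm hX hY zX zY sX sY X2 Y2 x (a + j) (a + j') g k → lo ≤ k ∧ k ≤ hi)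
          · have hTX := le_HT_of_fp hX hVX.1
            have hTY := le_HT_of_fp hY hVY.1
            refine le_trans ?_ (Finset.single_le_sum (f := fun α => ∑ β ∈ Finset.range (i + 1),
              (if HT hX X2 = T + α ∧ Asm540.Dp zX X2 ∈ E ∧ HT hY Y2 = T + β ∧
              (∃ g k, Cm hX hY zX zY sX sY X2 Y2 x (a + j) (a + j') g k) ∧
              (∀ g k, Cm hX hY zX zY sX sY X2 Y2 x (a + j) (a + j') g k → lo ≤ k)
                then LW ΛX X2 * LW ΛY Y2 else 0)) (fun _ _ => zero_le)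
              (Finset.mem_range.2 (show HT hX X2 - T < i + 1 by omega)))
            refine le_trans ?_ (Finset.single_le_sum (f := fun β =>
              (if HT hX X2 = T + (HT hX X2 - T) ∧ Asm540.Dp zX X2 ∈ E ∧ HT hY Y2 = T + β ∧
              (∃ g k, Cm hX hY zX zY sX sY X2 Y2 x (a + j) (a + j') g k) ∧
              (∀ g k, Cm hX hY zX zY sX sY X2 Y2 x (a + j) (a + j') g k → lo ≤ k)
                then LW ΛX X2 * LW ΛY Y2 else 0)) (fun _ _ => zero_le)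
              (Finset.mem_range.2 (show HT hY Y2 - T < i + 1 by omega)))
            unfold V
            rw [if_pos hVX, if_pos hVY, if_pos hE]
            rw [if_pos (show HT hX X2 = T + (HT hX X2 - T) ∧ Asm540.Dp zX X2 ∈ E ∧
              HT hY Y2 = T + (HT hY Y2 - T) ∧
              (∃ g k, Cm hX hY zX zY sX sY X2 Y2 x (a + j) (a + j') g k) ∧
              (∀ g k, Cm hX hY zX zY sX sY X2 Y2 x (a + j) (a + j') g k → lo ≤ k) from
              ⟨by omega, hE, by omega, hP.1, fun g k h => (hP.2 g k h).1⟩)]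
            calc LW ΛX X2 * (LW ΛY Y2 * Ph hX hY zX zY sX sY lo hi X2 Y2 x (a + j) (a + j'))
                ≤ LW ΛX X2 * (LW ΛY Y2 * 1) :=
                  mul_le_mul_right (mul_le_mul_right (Ph_le _ _ _ _ _ _ _ _ _ _ _ _ _) _) _
              _ = _ := by rw [mul_one]
          · have : Ph hX hY zX zY sX sY lo hi X2 Y2 x (a + j) (a + j') = 0 := by
              unfold Ph; rw [if_neg hP]
            rw [this, ite_self, mul_zero, mul_zero]; exact zero_le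
        · rw [if_neg hE, mul_zero, mul_zero]; exact zero_le
      · unfold V; rw [if_neg hVY, zero_mul, mul_zero]; exact zero_le
    · unfold V; rw [if_neg hVX, zero_mul]; exact zero_le
  · intro α β
    exact h2 s (T + α) (T + β) (a + j) (a + j') lo E μ M lam hμ hμM hlam hlam'
      (by omega) (by omega)

lemma HYf_bound (C : ℝ≥0∞) (us : ℕ → ℝ≥0∞) (h3 : H3 ΛX ΛY hX hY zX zY sX sY C us)
    (i T a lo hi s : ℕ) (E : Finset G) (M lam : ℝ≥0∞) (hlam : lam ≠ 0) (hlam' : lam ≠ ⊤)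
    (hhi : hi + s ≤ a + T) (j j' : ℕ)
    (μ : G → ℝ≥0∞) (hμ : ∑' x, μ x ≤ 1) (hμM : ∀ x, μ x ≤ M) :
    ∑' x, μ x * HYf ΛX ΛY hX hY zX zY sX sY i T a lo hi E x j j'
      ≤ (i + 1 : ℕ) * ((i + 1 : ℕ) * (C * (lam + M * E.card * us s / lam + us s))) := by
  classical
  have e : ∀ x, HYf ΛX ΛY hX hY zX zY sX sY i T a lo hi E x j j'
      = ∑' X2, ∑' Y2, V hX ΛX i T X2 * (V hY ΛY i T Y2 *
    (if Dp zY Y2 ∈ E then Ph hX hY zX zY sX sY lo hi X2 Y2 x (a + j) (a + j') else 0)) := by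
    intro x
    unfold HYf
    exact tsum_congr fun X2 => ENNReal.tsum_mul_left.symm
  rw [tsum_congr fun x => by rw [e x]]
  refine HH_le (fun X2 Y2 x => V hX ΛX i T X2 * (V hY ΛY i T Y2 *
    (if Dp zY Y2 ∈ E then Ph hX hY zX zY sX sY lo hi X2 Y2 x (a + j) (a + j') else 0)))
    (fun α β X2 Y2 x => (if HT hX X2 = T + α ∧ HT hY Y2 = T + β ∧ Asm540.Dp zY Y2 ∈ E ∧
          (∃ g k, Cm hX hY zX zY sX sY X2 Y2 x (a + j) (a + j') g k) ∧
          (∀ g k, Cm hX hY zX zY sX sY X2 Y2 x (a + j) (a + j') g k → k ≤ hi)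
            then LW ΛX X2 * LW ΛY Y2 else 0)) i ?_ μ _ ?_
  · intro X2 Y2 x
    by_cases hVX : fp hX T X2 ∧ HT hX X2 ≤ T + i
    · by_cases hVY : fp hY T Y2 ∧ HT hY Y2 ≤ T + i
      · by_cases hE : Dp zY Y2 ∈ E
        · by_cases hP : (∃ g k, Cm hX hY zX zY sX sY X2 Y2 x (a + j) (a + j') g k) ∧
              (∀ g k, Cm hX hY zX zY sX sY X2 Y2 x (a + j) (a + j') g k → lo ≤ k ∧ k ≤ hi)
          · have hTX := le_HT_of_fp hX hVX.1
            have hTY := le_HT_of_fp hY hVY.1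
            refine le_trans ?_ (Finset.single_le_sum (f := fun α => ∑ β ∈ Finset.range (i + 1),
              (if HT hX X2 = T + α ∧ HT hY Y2 = T + β ∧ Asm540.Dp zY Y2 ∈ E ∧
              (∃ g k, Cm hX hY zX zY sX sY X2 Y2 x (a + j) (a + j') g k) ∧
              (∀ g k, Cm hX hY zX zY sX sY X2 Y2 x (a + j) (a + j') g k → k ≤ hi)
                then LW ΛX X2 * LW ΛY Y2 else 0)) (fun _ _ => zero_le)
              (Finset.mem_range.2 (show HT hX X2 - T < i + 1 by omega)))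
            refine le_trans ?_ (Finset.single_le_sum (f := fun β =>
              (if HT hX X2 = T + (HT hX X2 - T) ∧ HT hY Y2 = T + β ∧ Asm540.Dp zY Y2 ∈ E ∧
              (∃ g k, Cm hX hY zX zY sX sY X2 Y2 x (a + j) (a + j') g k) ∧
              (∀ g k, Cm hX hY zX zY sX sY X2 Y2 x (a + j) (a + j') g k → k ≤ hi)
                then LW ΛX X2 * LW ΛY Y2 else 0)) (fun _ _ => zero_le)
              (Finset.mem_range.2 (show HT hY Y2 - T < i + 1 by omega)))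
            unfold V
            rw [if_pos hVX, if_pos hVY, if_pos hE]
            rw [if_pos (show HT hX X2 = T + (HT hX X2 - T) ∧
              HT hY Y2 = T + (HT hY Y2 - T) ∧ Asm540.Dp zY Y2 ∈ E ∧
              (∃ g k, Cm hX hY zX zY sX sY X2 Y2 x (a + j) (a + j') g k) ∧
              (∀ g k, Cm hX hY zX zY sX sY X2 Y2 x (a + j) (a + j') g k → k ≤ hi) from
              ⟨by omega, by omega, hE, hP.1, fun g k h => (hP.2 g k h).2⟩)]
            calc LW ΛX X2 * (LW ΛY Y2 * Ph hX hY zX zY sX sY lo hi X2 Y2 x (a + j) (a + j'))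
                ≤ LW ΛX X2 * (LW ΛY Y2 * 1) :=
                  mul_le_mul_right (mul_le_mul_right (Ph_le _ _ _ _ _ _ _ _ _ _ _ _ _) _) _
              _ = _ := by rw [mul_one]
          · have : Ph hX hY zX zY sX sY lo hi X2 Y2 x (a + j) (a + j') = 0 := by
              unfold Ph; rw [if_neg hP]
            rw [this, ite_self, mul_zero, mul_zero]; exact zero_le
        · rw [if_neg hE, mul_zero, mul_zero]; exact zero_le
      · unfold V; rw [if_neg hVY, zero_mul, mul_zero]; exact zero_le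
    · unfold V; rw [if_neg hVX, zero_mul]; exact zero_le
  · intro α β
    exact h3 s (T + α) (T + β) (a + j) (a + j') hi E μ M lam hμ hμM hlam hlam'
      (by omega) (by omega)

/-- the four-fold sum -/
noncomputable def S4f (i T a lo hi : ℕ) (w : G) : ℝ≥0∞ :=
  ∑' X1, V hX ΛX i a X1 * ∑' X2, V hX ΛX i T X2 * ∑' Y1, V hY ΛY i a Y1 * ∑' Y2, V hY ΛY i T Y2 *
    Ph hX hY zX zY sX sY lo hi X2 Y2 (w + Dp zY Y1 - Dp zX X1) (HT hX X1) (HT hY Y1)

/-- the four-fold sum is bounded by the window lemmas -/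
lemma S4f_le (h1X : ∀ b, 1 ≤ hX b) (h1Y : ∀ b, 1 ≤ hY b) (hΛX : ∑' b, ΛX b ≤ 1)
    (hΛY : ∑' b, ΛY b ≤ 1) (C : ℝ≥0∞) (us : ℕ → ℝ≥0∞)
    (h2 : H2 ΛX ΛY hX hY zX zY sX sY C us) (h3 : H3 ΛX ΛY hX hY zX zY sX sY C us)
    (i T a lo hi s : ℕ) (EX EY : Finset G) (MX MY lam : ℝ≥0∞) (hlam : lam ≠ 0) (hlam' : lam ≠ ⊤)
    (hlo : a + i + s ≤ lo) (hhi : hi + s ≤ a + T) (ρ u : ℝ≥0∞)
    (hρX : ∑' p, (FL hX zX ΛX a p - MX) ≤ ρ) (hρY : ∑' p, (FL hY zY ΛY a p - MY) ≤ ρ)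
    (hnX : (open Classical in ∑' X2, V hX ΛX i T X2 * (if Dp zX X2 ∈ EX then 0 else 1)) ≤ u)
    (hnY : (open Classical in ∑' Y2, V hY ΛY i T Y2 * (if Dp zY Y2 ∈ EY then 0 else 1)) ≤ u)
    (w : G) :
    S4f ΛX ΛY hX hY zX zY sX sY i T a lo hi w
      ≤ u * u + ((i + 1 : ℕ) * ((i + 1 : ℕ) * ((i + 1 : ℕ) * ((i + 1 : ℕ) *
            (C * (lam + MX * EX.card * us s / lam + us s))))) + ρ)
        + ((i + 1 : ℕ) * ((i + 1 : ℕ) * ((i + 1 : ℕ) * ((i + 1 : ℕ) *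
            (C * (lam + MY * EY.card * us s / lam + us s))))) + ρ) := by
  classical
  -- rearrangement
  have e1 : S4f ΛX ΛY hX hY zX zY sX sY i T a lo hi w
      = ∑' X1, V hX ΛX i a X1 * ∑' Y1, V hY ΛY i a Y1 * ∑' X2, V hX ΛX i T X2 *
        ∑' Y2, V hY ΛY i T Y2 *
    Ph hX hY zX zY sX sY lo hi X2 Y2 (w + Dp zY Y1 - Dp zX X1) (HT hX X1) (HT hY Y1) := by
    unfold S4f
    refine tsum_congr fun X1 => ?_
    congr 1
    simp only [← ENNReal.tsum_mul_left]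
    rw [ENNReal.tsum_comm]
    refine tsum_congr fun Y1 => tsum_congr fun X2 => tsum_congr fun Y2 => ?_
    ring
  -- pointwise bound
  set NX : ℝ≥0∞ := ∑' X2, V hX ΛX i T X2 * (if Dp zX X2 ∈ EX then 0 else 1) with hNX
  set NY : ℝ≥0∞ := ∑' Y2, V hY ΛY i T Y2 * (if Dp zY Y2 ∈ EY then 0 else 1) with hNY
  have e2 : ∀ (x : G) (a1 a2 : ℕ), ∑' X2, V hX ΛX i T X2 * ∑' Y2, V hY ΛY i T Y2 *
        Ph hX hY zX zY sX sY lo hi X2 Y2 x a1 a2
      ≤ NX * NY + (∑' X2, V hX ΛX i T X2 * ∑' Y2, V hY ΛY i T Y2 *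
          (if Dp zX X2 ∈ EX then Ph hX hY zX zY sX sY lo hi X2 Y2 x a1 a2 else 0))
        + (∑' X2, V hX ΛX i T X2 * ∑' Y2, V hY ΛY i T Y2 *
          (if Dp zY Y2 ∈ EY then Ph hX hY zX zY sX sY lo hi X2 Y2 x a1 a2 else 0)) := by
    intro x a1 a2
    rw [hNX, hNY, ← ENNReal.tsum_mul_right, ← ENNReal.tsum_add, ← ENNReal.tsum_add]
    refine ENNReal.tsum_le_tsum fun X2 => ?_
    rw [mul_assoc, ← mul_add, ← mul_add]
    refine mul_le_mul_right ?_ _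
    rw [← ENNReal.tsum_mul_left, ← ENNReal.tsum_add, ← ENNReal.tsum_add]
    refine ENNReal.tsum_le_tsum fun Y2 => ?_
    by_cases hE : Dp zX X2 ∈ EX
    · rw [if_pos hE, if_pos hE]
      exact le_trans le_add_self le_self_add
    · by_cases hE' : Dp zY Y2 ∈ EY
      · rw [if_pos hE', if_pos hE']
        exact le_add_self
      · rw [if_neg hE, if_neg hE']
        refine le_trans ?_ (le_trans le_self_add le_self_add)
        rw [one_mul]
        exact mul_le_mul_right (Ph_le _ _ _ _ _ _ _ _ _ _ _ _ _) _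
  have hVX1 := tsum_V_le hX ΛX h1X hΛX i a
  have hVY1 := tsum_V_le hY ΛY h1Y hΛY i a
  rw [e1]
  have e3 : ∑' X1, V hX ΛX i a X1 * ∑' Y1, V hY ΛY i a Y1 * ∑' X2, V hX ΛX i T X2 *
        ∑' Y2, V hY ΛY i T Y2 *
    Ph hX hY zX zY sX sY lo hi X2 Y2 (w + Dp zY Y1 - Dp zX X1) (HT hX X1) (HT hY Y1)
      ≤ (∑' X1, V hX ΛX i a X1 * ∑' Y1, V hY ΛY i a Y1 * (NX * NY))
        + (∑' X1, V hX ΛX i a X1 * ∑' Y1, V hY ΛY i a Y1 *
            HXf ΛX ΛY hX hY zX zY sX sY i T a lo hi EX (w + Dp zY Y1 - Dp zX X1)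
              (HT hX X1 - a) (HT hY Y1 - a))
        + (∑' X1, V hX ΛX i a X1 * ∑' Y1, V hY ΛY i a Y1 *
            HYf ΛX ΛY hX hY zX zY sX sY i T a lo hi EY (w + Dp zY Y1 - Dp zX X1)
              (HT hX X1 - a) (HT hY Y1 - a)) := by
    rw [← ENNReal.tsum_add, ← ENNReal.tsum_add]
    refine ENNReal.tsum_le_tsum fun X1 => ?_
    rw [← mul_add, ← mul_add]
    by_cases hV1 : fp hX a X1
    · refine mul_le_mul_right ?_ _
      rw [← ENNReal.tsum_add, ← ENNReal.tsum_add]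
      refine ENNReal.tsum_le_tsum fun Y1 => ?_
      rw [← mul_add, ← mul_add]
      by_cases hV2 : fp hY a Y1
      · refine mul_le_mul_right ?_ _
        have hh1 := le_HT_of_fp hX hV1
        have hh2 := le_HT_of_fp hY hV2
        refine (e2 _ _ _).trans ?_
        unfold HXf HYf
        rw [show a + (HT hX X1 - a) = HT hX X1 by omega,
          show a + (HT hY Y1 - a) = HT hY Y1 by omega]
      · unfold V; rw [if_neg (fun h => hV2 h.1), zero_mul, zero_mul]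
    · unfold V; rw [if_neg (fun h => hV1 h.1), zero_mul, zero_mul]
  refine e3.trans (add_le_add (add_le_add ?_ ?_) ?_)
  · calc ∑' X1, V hX ΛX i a X1 * ∑' Y1, V hY ΛY i a Y1 * (NX * NY)
        = (∑' X1, V hX ΛX i a X1) * ((∑' Y1, V hY ΛY i a Y1) * (NX * NY)) := by
          rw [ENNReal.tsum_mul_right, ENNReal.tsum_mul_right]
      _ ≤ 1 * (1 * (NX * NY)) := mul_le_mul' hVX1 (mul_le_mul' hVY1 le_rfl)
      _ = NX * NY := by rw [one_mul, one_mul]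
      _ ≤ u * u := mul_le_mul' hnX hnY
  · have hH1 : ∀ x j j', HXf ΛX ΛY hX hY zX zY sX sY i T a lo hi EX x j j' ≤ 1 := by
      intro x j j'
      refine VV_le_one ΛX ΛY hX hY h1X h1Y hΛX hΛY i T _ fun X Y => ?_
      split_ifs
      · exact Ph_le _ _ _ _ _ _ _ _ _ _ _ _ _
      · exact zero_le
    have := core1 (PL hX zX ΛX i a) (PL hY zY ΛY i a) i
      (fun p hp => PL_supp hX zX ΛX i a p hp) (fun p hp => PL_supp hY zY ΛY i a p hp)
      ((tsum_PL hX zX ΛX i a).le.trans hVX1) ((tsum_PL hY zY ΛY i a).le.trans hVY1)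
      MX ρ (Or.inl ((ENNReal.tsum_le_tsum fun p =>
        tsub_le_tsub_right (PL_le_FL hX zX ΛX i a p) _).trans hρX)) w
      (fun x j j' => HXf ΛX ΛY hX hY zX zY sX sY i T a lo hi EX x j j') hH1 _
      (fun j j' hj hj' μ hμ hμM => HXf_bound ΛX ΛY hX hY zX zY sX sY C us h2 i T a lo hi s EX
        MX lam hlam hlam' hlo j j' hj hj' μ hμ hμM)
    refine le_trans (le_of_eq ?_) this
    rw [← V_fib hX zX ΛX i a (fun p => ∑' r : ℕ × G, PL hY zY ΛY i a r *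
      HXf ΛX ΛY hX hY zX zY sX sY i T a lo hi EX (w + r.2 - p.2) p.1 r.1)]
    refine tsum_congr fun X1 => ?_
    congr 1
    exact V_fib hY zY ΛY i a (fun r => HXf ΛX ΛY hX hY zX zY sX sY i T a lo hi EX
      (w + r.2 - Dp zX X1) (HT hX X1 - a) r.1)
  · have hH1 : ∀ x j j', HYf ΛX ΛY hX hY zX zY sX sY i T a lo hi EY x j j' ≤ 1 := by
      intro x j j'
      refine VV_le_one ΛX ΛY hX hY h1X h1Y hΛX hΛY i T _ fun X Y => ?_
      split_ifs
      · exact Ph_le _ _ _ _ _ _ _ _ _ _ _ _ _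
      · exact zero_le
    have := core1 (PL hX zX ΛX i a) (PL hY zY ΛY i a) i
      (fun p hp => PL_supp hX zX ΛX i a p hp) (fun p hp => PL_supp hY zY ΛY i a p hp)
      ((tsum_PL hX zX ΛX i a).le.trans hVX1) ((tsum_PL hY zY ΛY i a).le.trans hVY1)
      MY ρ (Or.inr ((ENNReal.tsum_le_tsum fun p =>
        tsub_le_tsub_right (PL_le_FL hY zY ΛY i a p) _).trans hρY)) w
      (fun x j j' => HYf ΛX ΛY hX hY zX zY sX sY i T a lo hi EY x j j') hH1 _
      (fun j j' hj hj' μ hμ hμM => HYf_bound ΛX ΛY hX hY zX zY sX sY C us h3 i T a lo hi s EY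
        MY lam hlam hlam' hhi j j' μ hμ hμM)
    refine le_trans (le_of_eq ?_) this
    rw [← V_fib hX zX ΛX i a (fun p => ∑' r : ℕ × G, PL hY zY ΛY i a r *
      HYf ΛX ΛY hX hY zX zY sX sY i T a lo hi EY (w + r.2 - p.2) p.1 r.1)]
    refine tsum_congr fun X1 => ?_
    congr 1
    exact V_fib hY zY ΛY i a (fun r => HYf ΛX ΛY hX hY zX zY sX sY i T a lo hi EY
      (w + r.2 - Dp zX X1) (HT hX X1 - a) r.1)

end Crest.Agent.R154.Asm53
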