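import Crest.Agent.R154.AsmB_540

/-! Row 154, KAPPA' (road 801), helper540: pairs, one window. -/

set_option autoImplicit false

namespace Crest.Agent.R154.Asm540

open scoped ENNReal
open Crest.Agent.R154.B5A

section one
variable {B G : Type*} [AddCommGroup G] (Λ : B → ℝ≥0∞) (ht : B → ℕ) (z : B → G)

/-- sites read by a list placed at lateral position `x`, depth `a` -/
def TR (s : B → Set (G × ℕ)) (z : B → G) (ht : B → ℕ) : List B → G → ℕ → Set (G × ℕ)
  | [], _, _ => ∅
  | b :: L, x, a => {q | ∃ p ∈ s b, q = (x + p.1, a + p.2)} ∪ TR s z ht L (x + z b) (a + ht b)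

variable (s : B → Set (G × ℕ))

lemma TR_append (L L' : List B) (x : G) (a : ℕ) :
    TR s z ht (L ++ L') x a = TR s z ht L x a ∪ TR s z ht L' (x + Dp z L) (a + HT ht L) := by
  induction L generalizing x a with
  | nil => simp [TR, Dp, HT_nil]
  | cons b L ih =>
    simp only [List.cons_append, TR]
    rw [ih, Set.union_assoc, HT_cons]
    simp only [Dp, List.map_cons, List.sum_cons, add_assoc]

lemma TR_depth (hs : ∀ b, ∀ p ∈ s b, 1 ≤ p.2 ∧ p.2 ≤ ht b) (L : List B) (x : G) (a : ℕ)
    (q : G × ℕ) (hq : q ∈ TR s z ht L x a) : a + 1 ≤ q.2 ∧ q.2 ≤ a + HT ht L := by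
  induction L generalizing x a with
  | nil => simp [TR] at hq
  | cons b L ih =>
    rw [HT_cons]
    rcases hq with ⟨p, hp, rfl⟩ | hq
    · have := hs b p hp; simp only; omega
    · have := ih _ _ hq; omega

lemma TR_shift (L : List B) (x y : G) (a : ℕ) (g : G) (k : ℕ) :
    (g, k) ∈ TR s z ht L (x + y) a ↔ (g - y, k) ∈ TR s z ht L x a := by
  induction L generalizing x a with
  | nil => simp [TR]
  | cons b L ih =>
    simp only [TR, Set.mem_union, Set.mem_ofPred_eq, Prod.mk.injEq]
    rw [show x + y + z b = (x + z b) + y by abel, ih]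
    refine or_congr ?_ Iff.rfl
    refine exists_congr fun p => and_congr_right fun _ => and_congr_left fun _ => ?_
    constructor
    · rintro rfl; abel
    · intro h; rw [← sub_add_cancel g y, h]; abel

open Classical in
/-- marginal of the first two pieces -/
lemma marg (h1 : ∀ b, 1 ≤ ht b) (hU1 : ∀ n, U Λ ht n ≤ 1) (n r i0 r0 : ℕ) (hn : r + i0 + r0 ≤ n)
    (F : List B → List B → ℝ≥0∞) :
    ∑' L, (if HT ht L = n ∧ HT ht (pre ht r L) ≤ r + i0
        then LW Λ L * F (pre ht r L) (pre ht r0 (suf ht r L)) else 0)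
      ≤ ∑' A, (if FP ht r A ∧ HT ht A ≤ r + i0 then LW Λ A else 0)
          * ∑' P, (if FP ht r0 P then LW Λ P else 0) * F A P := by
  refine le_trans ?_ ((split_le ht h1 r (fun L => if HT ht L = n ∧ HT ht (pre ht r L) ≤ r + i0
        then LW Λ L * F (pre ht r L) (pre ht r0 (suf ht r L)) else 0)).trans ?_)
  · refine ENNReal.tsum_le_tsum fun L => ?_
    by_cases h : HT ht L = n ∧ HT ht (pre ht r L) ≤ r + i0
    · rw [if_pos h, if_pos (by omega)]
    · rw [if_neg h]; exact zero_le
  · refine ENNReal.tsum_le_tsum fun A => ?_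
    by_cases hA : FP ht r A
    · rw [if_pos hA]
      by_cases hA2 : HT ht A ≤ r + i0
      · rw [if_pos ⟨hA, hA2⟩, ← ENNReal.tsum_mul_left]
        refine le_trans ?_ ((split_le ht h1 r0 (fun L2 => if HT ht (A ++ L2) = n
          then LW Λ (A ++ L2) * F A (pre ht r0 L2) else 0)).trans ?_)
        · refine ENNReal.tsum_le_tsum fun L2 => ?_
          rw [pre_app ht hA, suf_app ht hA]
          by_cases h : HT ht (A ++ L2) = n
          · rw [if_pos ⟨h, hA2⟩, if_pos (by rw [HT_append] at h; omega)]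
            rw [if_pos h]
          · rw [if_neg (fun h' => h h'.1)]; exact zero_le
        · refine ENNReal.tsum_le_tsum fun P => ?_
          by_cases hP : FP ht r0 P
          · rw [if_pos hP, if_pos hP]
            have : ∀ L3 : List B, (if HT ht (A ++ (P ++ L3)) = n
                then LW Λ (A ++ (P ++ L3)) * F A (pre ht r0 (P ++ L3)) else 0)
                ≤ (LW Λ A * (LW Λ P * F A P)) *
                  (if HT ht L3 = n - HT ht A - HT ht P then LW Λ L3 else 0) := by
              intro L3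
              rw [pre_app ht hP]
              by_cases h : HT ht (A ++ (P ++ L3)) = n
              · rw [if_pos h, if_pos (by rw [HT_append, HT_append] at h; omega), LW_append, LW_append]
                exact le_of_eq (by ring)
              · rw [if_neg h]; exact zero_le
            refine (ENNReal.tsum_le_tsum this).trans ?_
            rw [ENNReal.tsum_mul_left]
            exact (mul_le_mul_right (hU1 _) _).trans (mul_one _).le
          · rw [if_neg hP]; exact zero_le
      · rw [ENNReal.tsum_eq_zero.2]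
        · exact zero_le
        · intro L2
          rw [if_neg]
          rw [pre_app ht hA]
          exact fun h => hA2 h.2
    · rw [if_neg hA]; exact zero_le

open Classical in
lemma marg0 (h1 : ∀ b, 1 ≤ ht b) (hU1 : ∀ n, U Λ ht n ≤ 1) (n r i0 : ℕ) (hn : r ≤ n) :
    ∑' L, (if HT ht L = n ∧ r + i0 < HT ht (pre ht r L) then LW Λ L else 0) ≤ e1 Λ ht i0 := by
  refine le_trans ?_ ((split_le ht h1 r (fun L => if HT ht L = n ∧ r + i0 < HT ht (pre ht r L)
        then LW Λ L else 0)).trans (le_trans ?_ (over_le Λ ht hU1 r i0)))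
  · refine ENNReal.tsum_le_tsum fun L => ?_
    by_cases h : HT ht L = n ∧ r + i0 < HT ht (pre ht r L)
    · rw [if_pos h, if_pos (by omega)]
    · rw [if_neg h]; exact zero_le
  · refine ENNReal.tsum_le_tsum fun A => ?_
    by_cases hA : FP ht r A
    · rw [if_pos hA]
      by_cases hA2 : r + i0 < HT ht A
      · rw [if_pos ⟨hA, hA2⟩]
        have : ∀ L2 : List B, (if HT ht (A ++ L2) = n ∧ r + i0 < HT ht (pre ht r (A ++ L2))
            then LW Λ (A ++ L2) else 0) ≤ LW Λ A * (if HT ht L2 = n - HT ht A then LW Λ L2 else 0) := by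
          intro L2
          by_cases h : HT ht (A ++ L2) = n ∧ r + i0 < HT ht (pre ht r (A ++ L2))
          · rw [if_pos h, if_pos (by have := h.1; rw [HT_append] at this; omega), LW_append]
          · rw [if_neg h]; exact zero_le
        refine (ENNReal.tsum_le_tsum this).trans ?_
        rw [ENNReal.tsum_mul_left]
        exact (mul_le_mul_right (hU1 _) _).trans (mul_one _).le
      · rw [ENNReal.tsum_eq_zero.2]
        · exact zero_le
        · intro L2
          rw [if_neg]
          rw [pre_app ht hA]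
          exact fun h => hA2 h.2
    · rw [if_neg hA]; exact zero_le

end one

section four
variable {α1 α2 α3 α4 : Type*}

/-- four-fold weighted sum -/
noncomputable def S4 (a : α1 → ℝ≥0∞) (b : α2 → ℝ≥0∞) (c : α3 → ℝ≥0∞) (e : α4 → ℝ≥0∞)
    (f : α1 → α2 → α3 → α4 → ℝ≥0∞) : ℝ≥0∞ :=
  ∑' A, a A * ∑' P, b P * ∑' A', c A' * ∑' P', e P' * f A P A' P'

variable (a : α1 → ℝ≥0∞) (b : α2 → ℝ≥0∞) (c : α3 → ℝ≥0∞) (e : α4 → ℝ≥0∞)

lemma S4_add (f g : α1 → α2 → α3 → α4 → ℝ≥0∞) :
    S4 a b c e (fun A P A' P' => f A P A' P' + g A P A' P') = S4 a b c e f + S4 a b c e g := by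
  simp only [S4, mul_add, ENNReal.tsum_add]

lemma S4_mono {f g : α1 → α2 → α3 → α4 → ℝ≥0∞}
    (h : ∀ A P A' P', a A ≠ 0 → b P ≠ 0 → c A' ≠ 0 → e P' ≠ 0 → f A P A' P' ≤ g A P A' P') :
    S4 a b c e f ≤ S4 a b c e g := by
  refine ENNReal.tsum_le_tsum fun A => ?_
  by_cases h1 : a A = 0
  · simp [h1]
  refine mul_le_mul_right (ENNReal.tsum_le_tsum fun P => ?_) _
  by_cases h2 : b P = 0
  · simp [h2]
  refine mul_le_mul_right (ENNReal.tsum_le_tsum fun A' => ?_) _
  by_cases h3 : c A' = 0
  · simp [h3]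
  refine mul_le_mul_right (ENNReal.tsum_le_tsum fun P' => ?_) _
  by_cases h4 : e P' = 0
  · simp [h4]
  exact mul_le_mul_right (h A P A' P' h1 h2 h3 h4) _

lemma S4_prod (f1 : α1 → ℝ≥0∞) (f2 : α2 → ℝ≥0∞) (f3 : α3 → ℝ≥0∞) (f4 : α4 → ℝ≥0∞) :
    S4 a b c e (fun A P A' P' => f1 A * f2 P * f3 A' * f4 P')
      = (∑' A, a A * f1 A) * (∑' P, b P * f2 P) * (∑' A', c A' * f3 A') * ∑' P', e P' * f4 P' := by
  simp only [S4]
  have h4 : ∀ A P A', ∑' P', e P' * (f1 A * f2 P * f3 A' * f4 P')
      = (f1 A * f2 P * f3 A') * ∑' P', e P' * f4 P' := by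
    intro A P A'
    rw [← ENNReal.tsum_mul_left]
    exact tsum_congr fun P' => by ring
  simp_rw [h4]
  generalize ∑' P', e P' * f4 P' = s4
  have h3 : ∀ A P, ∑' A', c A' * (f1 A * f2 P * f3 A' * s4)
      = (f1 A * f2 P * s4) * ∑' A', c A' * f3 A' := by
    intro A P
    rw [← ENNReal.tsum_mul_left]
    exact tsum_congr fun P' => by ring
  simp_rw [h3]
  generalize ∑' A', c A' * f3 A' = s3
  have h2 : ∀ A, ∑' P, b P * (f1 A * f2 P * s4 * s3)
      = (f1 A * s4 * s3) * ∑' P, b P * f2 P := by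
    intro A
    rw [← ENNReal.tsum_mul_left]
    exact tsum_congr fun P' => by ring
  simp_rw [h2]
  generalize ∑' P, b P * f2 P = s2
  have h1 : ∑' A, a A * (f1 A * s4 * s3 * s2) = (s4 * s3 * s2) * ∑' A, a A * f1 A := by
    rw [← ENNReal.tsum_mul_left]
    exact tsum_congr fun P' => by ring
  rw [h1]
  ring

end four

end Crest.Agent.R154.Asm540
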