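import Crest.Agent.R154.AsmB_557

/-! Row 154 (helper557), ROAD 801, assembly: the bound of one window. -/

set_option autoImplicit false
set_option maxHeartbeats 1000000

namespace Crest.Agent.R154.Asm557

open scoped ENNReal
open Crest.Agent.R154.B5A Crest.Agent.R154.FP178

section win
variable {BX BY G : Type*} [AddCommGroup G]
  (ΛX : BX → ℝ≥0∞) (hX : BX → ℕ) (zX : BX → G) (sX : BX → Set (G × ℕ))
  (ΛY : BY → ℝ≥0∞) (hY : BY → ℕ) (zY : BY → G) (sY : BY → Set (G × ℕ))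

/-- all contacts of the two pieces are in the allowed range, and there is one -/
def pcond (lo s a a' : ℕ) (x : G) (P : List BX) (P' : List BY) : Prop :=
  (pc hX zX sX hY zY sY P 0 a P' x a').Nonempty ∧
    ∀ k ∈ pc hX zX sX hY zY sY P 0 a P' x a', lo ≤ k ∧ k + s ≤ a + HT hX P

lemma pcond_of (hsX : ∀ b q, q ∈ sX b → 1 ≤ q.2 ∧ q.2 ≤ hX b)
    (hsY : ∀ b q, q ∈ sY b → 1 ≤ q.2 ∧ q.2 ≤ hY b)
    (w : G) (lo t s i : ℕ) (hti : 3 * i + 1 + s ≤ t) (hlo : t ≤ lo)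
    (A P R : List BX) (A' P' R' : List BY)
    (hA1 : lo - t ≤ HT hX A) (hA2 : HT hX A ≤ lo - t + i)
    (hP1 : 3 * t ≤ HT hX P) (hP2 : HT hX P ≤ 3 * t + i)
    (hA1' : lo - t + (2 * i + 1) ≤ HT hY A') (hA2' : HT hY A' ≤ lo - t + (2 * i + 1) + i)
    (hP1' : 3 * t ≤ HT hY P')
    (h1 : ∀ k ∈ pc hX zX sX hY zY sY (A ++ (P ++ R)) 0 0 (A' ++ (P' ++ R')) w 0, lo < k)
    (h2 : ∃ k ∈ pc hX zX sX hY zY sY (A ++ (P ++ R)) 0 0 (A' ++ (P' ++ R')) w 0, k ≤ lo + t)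
    (h3 : ∀ k ∈ pc hX zX sX hY zY sY (A ++ (P ++ R)) 0 0 (A' ++ (P' ++ R')) w 0,
      k ∉ Finset.Icc (lo + 2 * t - s + 1) (lo + 2 * t + 2 * i)) :
    pcond hX zX sX hY zY sY lo s (HT hX A) (HT hY A') (w + Dp zY A' - Dp zX A) P P' := by
  have eX : T hX zX sX (A ++ (P ++ R)) 0 0 = T hX zX sX A 0 0 ∪
      (T hX zX sX P (0 + Dp zX A) (HT hX A) ∪
        T hX zX sX R (0 + Dp zX A + Dp zX P) (HT hX A + HT hX P)) := by
    rw [T_append, T_append, Nat.zero_add]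
  have eY : T hY zY sY (A' ++ (P' ++ R')) w 0 = T hY zY sY A' w 0 ∪
      (T hY zY sY P' (w + Dp zY A') (HT hY A') ∪
        T hY zY sY R' (w + Dp zY A' + Dp zY P') (HT hY A' + HT hY P')) := by
    rw [T_append, T_append, Nat.zero_add]
  have ex : w + Dp zY A' = (w + Dp zY A' - Dp zX A) + Dp zX A := by abel
  have sub : ∀ k ∈ pc hX zX sX hY zY sY P 0 (HT hX A) P' (w + Dp zY A' - Dp zX A) (HT hY A'),
      k ∈ pc hX zX sX hY zY sY (A ++ (P ++ R)) 0 0 (A' ++ (P' ++ R')) w 0 := by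
    rintro k ⟨v, hv, hv'⟩
    refine ⟨v + Dp zX A, ?_, ?_⟩
    · rw [eX]
      refine Or.inr (Or.inl ?_)
      rw [T_shift]
      simpa using hv
    · rw [eY]
      refine Or.inr (Or.inl ?_)
      rw [ex, T_shift]
      simpa using hv'
  refine ⟨?_, ?_⟩
  · obtain ⟨k, hk, hkt⟩ := h2
    have hlk := h1 k hk
    obtain ⟨v, hv, hv'⟩ := hk
    rw [eX] at hv
    rw [eY] at hv'
    have q1 : (v, k) ∈ T hX zX sX P (0 + Dp zX A) (HT hX A) := by
      rcases hv with hv | hv | hv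
      · have := T_depth hX zX sX hsX A _ _ _ hv
        simp only at this
        omega
      · exact hv
      · have := T_depth hX zX sX hsX R _ _ _ hv
        simp only at this
        omega
    have q2 : (v, k) ∈ T hY zY sY P' (w + Dp zY A') (HT hY A') := by
      rcases hv' with hv | hv | hv
      · have := T_depth hY zY sY hsY A' _ _ _ hv
        simp only at this
        omega
      · exact hv
      · have := T_depth hY zY sY hsY R' _ _ _ hv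
        simp only at this
        omega
    refine ⟨k, v - Dp zX A, ?_, ?_⟩
    · rwa [T_shift] at q1
    · rw [ex, T_shift] at q2
      exact q2
  · intro k hk
    have hk' := sub k hk
    have hlk := h1 k hk'
    have hns := h3 k hk'
    obtain ⟨v, hv, _⟩ := hk
    have := T_depth hX zX sX hsX P _ _ _ hv
    simp only at this
    rw [Finset.mem_Icc, not_and_or] at hns
    omega

open Classical in
/-- X local -/
noncomputable def PhX (τ i lo s : ℕ) (E : ℕ → Finset G) (a a' : ℕ) (x : G) : ℝ≥0∞ :=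
  ∑' P, nu ΛX hX τ i P * ∑' P', nu ΛY hY τ i P' *
    (if Dp zX P ∈ E (HT hX P) ∧ pcond hX zX sX hY zY sY lo s a a' x P P' then 1 else 0)

open Classical in
/-- Y local -/
noncomputable def PhY (τ i lo s : ℕ) (E' : ℕ → Finset G) (a a' : ℕ) (x : G) : ℝ≥0∞ :=
  ∑' P, nu ΛX hX τ i P * ∑' P', nu ΛY hY τ i P' *
    (if Dp zY P' ∈ E' (HT hY P') ∧ pcond hX zX sX hY zY sY lo s a a' x P P' then 1 else 0)

open Classical in
/-- input (2) at fixed heights -/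
noncomputable def J2 (lo h h' a a' : ℕ) (E : Finset G) (x : G) : ℝ≥0∞ :=
  ∑' P, ∑' P', (if HT hX P = h ∧ Dp zX P ∈ E ∧ HT hY P' = h' ∧
    (pc hX zX sX hY zY sY P 0 a P' x a').Nonempty ∧
    (∀ k ∈ pc hX zX sX hY zY sY P 0 a P' x a', lo ≤ k) then LW ΛX P * LW ΛY P' else 0)

open Classical in
/-- input (3) at fixed heights -/
noncomputable def J3 (s h h' a a' : ℕ) (E' : Finset G) (x : G) : ℝ≥0∞ :=
  ∑' P, ∑' P', (if HT hX P = h ∧ HT hY P' = h' ∧ Dp zY P' ∈ E' ∧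
    (pc hX zX sX hY zY sY P 0 a P' x a').Nonempty ∧
    (∀ k ∈ pc hX zX sX hY zY sY P 0 a P' x a', k + s ≤ a + h) then LW ΛX P * LW ΛY P' else 0)

open Classical in
lemma dbl_le (h1X : ∀ b, 1 ≤ hX b) (hUX : ∀ n, U ΛX hX n ≤ 1)
    (h1Y : ∀ b, 1 ≤ hY b) (hUY : ∀ n, U ΛY hY n ≤ 1) (a a' i : ℕ)
    (f : List BX → List BY → ℝ≥0∞) (c : ℝ≥0∞) (hf : ∀ P P', f P P' ≤ c) :
    ∑' P, nu ΛX hX a i P * ∑' P', nu ΛY hY a' i P' * f P P' ≤ c := by
  calc _ ≤ ∑' P, nu ΛX hX a i P * ∑' P', nu ΛY hY a' i P' * c :=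
        ENNReal.tsum_le_tsum fun P => mul_le_mul_right
          (ENNReal.tsum_le_tsum fun P' => mul_le_mul_right (hf P P') _) _
    _ = (∑' P, nu ΛX hX a i P) * ((∑' P', nu ΛY hY a' i P') * c) := by
        rw [ENNReal.tsum_mul_right, ENNReal.tsum_mul_right]
    _ ≤ 1 * (1 * c) := mul_le_mul' (nu_sum ΛX hX h1X hUX a i)
        (mul_le_mul_left (nu_sum ΛY hY h1Y hUY a' i) _)
    _ = c := by rw [one_mul, one_mul]

lemma le_sum_two {ι κ : Type*} (S : Finset ι) (S' : Finset κ) (f : ι → κ → ℝ≥0∞) (i : ι) (j : κ)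
    (hi : i ∈ S) (hj : j ∈ S') : f i j ≤ ∑ a ∈ S, ∑ b ∈ S', f a b :=
  le_trans (Finset.single_le_sum (f := fun b => f i b) (fun _ _ => zero_le) hj)
    (Finset.single_le_sum (f := fun a => ∑ b ∈ S', f a b) (fun _ _ => zero_le) hi)

lemma swap4 {ι κ I I' : Type*} (S : Finset ι) (S' : Finset κ)
    (f : ι → κ → I → I' → ℝ≥0∞) : ∑ h ∈ S, ∑ h' ∈ S', ∑' P, ∑' P', f h h' P P'
      = ∑' P, ∑' P', ∑ h ∈ S, ∑ h' ∈ S', f h h' P P' := by
  have e1 : ∀ P, ∑' P', ∑ h ∈ S, ∑ h' ∈ S', f h h' P P'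
      = ∑ h ∈ S, ∑ h' ∈ S', ∑' P', f h h' P P' := by
    intro P
    rw [Summable.tsum_finsetSum (fun _ _ => ENNReal.summable)]
    refine Finset.sum_congr rfl fun h _ => ?_
    rw [Summable.tsum_finsetSum (fun _ _ => ENNReal.summable)]
  rw [tsum_congr e1, Summable.tsum_finsetSum (fun _ _ => ENNReal.summable)]
  refine Finset.sum_congr rfl fun h _ => ?_
  rw [Summable.tsum_finsetSum (fun _ _ => ENNReal.summable)]

open Classical in
lemma PhX_le (τ i lo s : ℕ) (E : ℕ → Finset G) (a a' : ℕ) (x : G) :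
    PhX ΛX hX zX sX ΛY hY zY sY τ i lo s E a a' x
      ≤ ∑ h ∈ Finset.Icc τ (τ + i), ∑ h' ∈ Finset.Icc τ (τ + i),
        J2 ΛX hX zX sX ΛY hY zY sY lo h h' a a' (E h) x := by
  unfold PhX J2
  rw [swap4]
  refine ENNReal.tsum_le_tsum fun P => ?_
  rw [← ENNReal.tsum_mul_left]
  refine ENNReal.tsum_le_tsum fun P' => ?_
  by_cases hP : fp hX τ P ∧ HT hX P ≤ τ + i
  · by_cases hP' : fp hY τ P' ∧ HT hY P' ≤ τ + i
    · by_cases hc : Dp zX P ∈ E (HT hX P) ∧ pcond hX zX sX hY zY sY lo s a a' x P P'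
      · have m1 : HT hX P ∈ Finset.Icc τ (τ + i) :=
          Finset.mem_Icc.2 ⟨le_HT_of_fp hX hP.1, hP.2⟩
        have m2 : HT hY P' ∈ Finset.Icc τ (τ + i) :=
          Finset.mem_Icc.2 ⟨le_HT_of_fp hY hP'.1, hP'.2⟩
        refine le_trans ?_ (le_sum_two _ _ _ _ _ m1 m2)
        rw [if_pos hc, nu, if_pos hP, nu, if_pos hP', mul_one]
        rw [if_pos ⟨rfl, hc.1, rfl, hc.2.1, fun k hk => (hc.2.2 k hk).1⟩]
      · rw [if_neg hc, mul_zero, mul_zero]; exact zero_le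
    · rw [show nu ΛY hY τ i P' = 0 by rw [nu, if_neg hP'], zero_mul, mul_zero]; exact zero_le
  · rw [show nu ΛX hX τ i P = 0 by rw [nu, if_neg hP], zero_mul]; exact zero_le

open Classical in
lemma PhY_le (τ i lo s : ℕ) (E' : ℕ → Finset G) (a a' : ℕ) (x : G) :
    PhY ΛX hX zX sX ΛY hY zY sY τ i lo s E' a a' x
      ≤ ∑ h ∈ Finset.Icc τ (τ + i), ∑ h' ∈ Finset.Icc τ (τ + i),
        J3 ΛX hX zX sX ΛY hY zY sY s h h' a a' (E' h') x := by
  unfold PhY J3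
  rw [swap4]
  refine ENNReal.tsum_le_tsum fun P => ?_
  rw [← ENNReal.tsum_mul_left]
  refine ENNReal.tsum_le_tsum fun P' => ?_
  by_cases hP : fp hX τ P ∧ HT hX P ≤ τ + i
  · by_cases hP' : fp hY τ P' ∧ HT hY P' ≤ τ + i
    · by_cases hc : Dp zY P' ∈ E' (HT hY P') ∧ pcond hX zX sX hY zY sY lo s a a' x P P'
      · have m1 : HT hX P ∈ Finset.Icc τ (τ + i) :=
          Finset.mem_Icc.2 ⟨le_HT_of_fp hX hP.1, hP.2⟩
        have m2 : HT hY P' ∈ Finset.Icc τ (τ + i) :=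
          Finset.mem_Icc.2 ⟨le_HT_of_fp hY hP'.1, hP'.2⟩
        refine le_trans ?_ (le_sum_two _ _ _ _ _ m1 m2)
        rw [if_pos hc, nu, if_pos hP, nu, if_pos hP', mul_one]
        rw [if_pos ⟨rfl, rfl, hc.1, hc.2.1, fun k hk => (hc.2.2 k hk).2⟩]
      · rw [if_neg hc, mul_zero, mul_zero]; exact zero_le
    · rw [show nu ΛY hY τ i P' = 0 by rw [nu, if_neg hP'], zero_mul, mul_zero]; exact zero_le
  · rw [show nu ΛX hX τ i P = 0 by rw [nu, if_neg hP], zero_mul]; exact zero_le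

end win

end Crest.Agent.R154.Asm557
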