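import Crest.Agent.R154.AsmB_580

/-! Row 154, ROAD 801, abstract assembly, part C: the local case of one window (helper580). -/

set_option autoImplicit false

namespace Crest.Agent.R154.Asm580

open scoped ENNReal
open Crest.Agent.R154.B5A
open Crest.Agent.R154.Ren396 (FR FR_le split_FR mass_FR over_le TS tendsto_TS FR_zero)

section dens

variable {B G : Type*} [AddCommGroup G] (h : B → ℕ) (z : B → G)

def zz (P : List B) : ℤ × G := ((HT h P : ℤ), Dp z P)

lemma sum_zz (A : List (List B)) :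
    (A.map (zz h z)).sum = ((HT h A.flatten : ℤ), Dp z A.flatten) := by
  induction A with
  | nil => simp [HT_nil, Dp_nil]; rfl
  | cons P A ih =>
    rw [List.map_cons, List.sum_cons, ih, List.flatten_cons, HT_append, Dp_append]
    simp [zz]

open Classical in
lemma dens_A (lm : List B → ℝ≥0∞) (hl : ∑' P, lm P ≤ 1) (θ : ℝ≥0∞) (j a : ℕ) (y : G) :
    ∑' A : List (List B), (if (∃ b ∈ A, lawp lm (zz h z) (zz h z b) < 2 * θ) ∧
      HT h A.flatten = a ∧ Dp z A.flatten = y then wj lm j A else 0) ≤ j * (2 * θ) := by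
  have hd := AsmA789.dens lm hl (zz h z) (fun b => lawp lm (zz h z) (zz h z b) < 2 * θ) (2 * θ)
    (fun x => by
      by_cases hx : lawp lm (zz h z) x < 2 * θ
      · refine le_trans (ENNReal.tsum_le_tsum fun b => ?_) hx.le
        by_cases h1 : zz h z b = x
        · rw [if_pos h1]; split_ifs
          · exact le_rfl
          · exact zero_le
        · rw [if_neg (fun h2 => h1 h2.2)]; exact zero_le
      · refine le_trans (le_of_eq ?_) zero_le
        rw [ENNReal.tsum_eq_zero]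
        intro b
        rw [if_neg]
        rintro ⟨h1, h2⟩
        rw [h2] at h1
        exact hx h1) j ((a : ℤ), y)
  rw [SL_wj] at hd
  refine le_trans (ENNReal.tsum_le_tsum fun A => ?_) hd
  rw [sum_zz]
  by_cases h1 : (∃ b ∈ A, lawp lm (zz h z) (zz h z b) < 2 * θ) ∧
      HT h A.flatten = a ∧ Dp z A.flatten = y
  · rw [if_pos h1, if_pos ⟨h1.1, by rw [h1.2.1, h1.2.2]⟩, mul_one]
  · rw [if_neg h1]; exact zero_le

open Classical in
lemma exists_E (lm : List B → ℝ≥0∞) (hl : ∑' P, lm P ≤ 1) (θ : ℝ≥0∞) (hθ : θ ≠ 0) (n : ℕ) :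
    ∃ E : Finset G, (∀ y, θ ≤ lawp lm (zz h z) ((n : ℤ), y) → y ∈ E) ∧
      (E.card : ℝ≥0∞) * θ ≤ 1 := by
  have h1 : ∑' y, lawp lm (zz h z) ((n : ℤ), y) ≤ 1 := by
    refine le_trans (ENNReal.tsum_comp_le_tsum_of_injective (f := fun y : G => ((n : ℤ), y))
      (fun a b hab => (Prod.mk.inj hab).2) (lawp lm (zz h z))) ?_
    rw [tsum_lawp]; exact hl
  obtain ⟨hf, hc⟩ := AsmA789.card_le _ h1 hθ
  refine ⟨hf.toFinset, fun y hy => by simpa using hy, ?_⟩
  rw [Set.ncard_eq_toFinset_card _ hf] at hc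
  exact hc

end dens

section win

variable {BX BY G : Type*} [AddCommGroup G]
  (ΛX : BX → ℝ≥0∞) (hX : BX → ℕ) (zX : BX → G) (sX : BX → Set (G × ℕ))
  (ΛY : BY → ℝ≥0∞) (hY : BY → ℕ) (zY : BY → G) (sY : BY → Set (G × ℕ))

/-- the event of one window: a common site exists and all common sites are in `[lo, hi]` -/
def CC (x : G) (a : ℕ) (P : List BX) (y : G) (a' : ℕ) (Q : List BY) (lo hi : ℕ) : Prop :=
  (∃ t k, (t, k) ∈ TT sX zX hX P x a ∧ (t, k) ∈ TT sY zY hY Q y a') ∧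
  ∀ t k, (t, k) ∈ TT sX zX hX P x a → (t, k) ∈ TT sY zY hY Q y a' → lo ≤ k ∧ k ≤ hi

lemma CC_shift (x : G) (a : ℕ) (P : List BX) (y : G) (a' : ℕ) (Q : List BY) (lo hi : ℕ) :
    CC hX zX sX hY zY sY x a P y a' Q lo hi ↔ CC hX zX sX hY zY sY 0 a P (y - x) a' Q lo hi := by
  have e1 : ∀ t k, (t, k) ∈ TT sX zX hX P x a ↔ (t - x, k) ∈ TT sX zX hX P 0 a := by
    intro t k
    have := TT_shift sX zX hX P 0 x a t k
    rwa [zero_add] at this
  have e2 : ∀ t k, (t, k) ∈ TT sY zY hY Q y a' ↔ (t - x, k) ∈ TT sY zY hY Q (y - x) a' := by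
    intro t k
    have := TT_shift sY zY hY Q (y - x) x a' t k
    rwa [sub_add_cancel] at this
  unfold CC
  constructor
  · rintro ⟨⟨t, k, h1, h2⟩, h3⟩
    refine ⟨⟨t - x, k, (e1 t k).1 h1, (e2 t k).1 h2⟩, fun t k h4 h5 => ?_⟩
    refine h3 (t + x) k ?_ ?_
    · rw [e1, add_sub_cancel_right]; exact h4
    · rw [e2, add_sub_cancel_right]; exact h5
  · rintro ⟨⟨t, k, h1, h2⟩, h3⟩
    refine ⟨⟨t + x, k, ?_, ?_⟩, fun t k h4 h5 => h3 (t - x) k ((e1 t k).1 h4) ((e2 t k).1 h5)⟩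
    · rw [e1, add_sub_cancel_right]; exact h1
    · rw [e2, add_sub_cancel_right]; exact h2

open Classical in
/-- the window hypothesis (H2: `R E L _ = Dp zX L ∈ E`, H3: `R E _ L' = Dp zY L' ∈ E`) -/
def Hwin (R : Finset G → List BX → List BY → Prop) (C : ℝ≥0∞) (us : ℕ → ℕ → ℝ≥0∞) : Prop :=
  ∀ (r0 s h h' a a' lo hi : ℕ) (E : Finset G) (μ : G → ℝ≥0∞) (M lam : ℝ≥0∞),
    ∑' x, μ x ≤ 1 → (∀ x, μ x ≤ M) → lam ≠ 0 → lam ≠ ⊤ →
    a + s ≤ lo → a' + s ≤ lo → hi + s ≤ a + h → hi + s ≤ a' + h' →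
    a ≤ a' + r0 → a' ≤ a + r0 → a + h ≤ a' + h' + r0 → a' + h' ≤ a + h + r0 →
    ∑' x, μ x * ∑' L, ∑' L', (if HT hX L = h ∧ HT hY L' = h' ∧ R E L L' ∧
        CC hX zX sX hY zY sY 0 a L x a' L' lo hi then LW ΛX L * LW ΛY L' else 0)
      ≤ C * (lam + M * E.card * us r0 s / lam + us r0 s)

variable (T i0 : ℕ)

open Classical in
noncomputable def mu (S : List (List BX) → List (List BY) → Prop) (w : G) (j a a' : ℕ) (x : G) :
    ℝ≥0∞ :=
  ∑' p : List (List BX) × List (List BY),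
    if w + Dp zY p.2.flatten - Dp zX p.1.flatten = x then
      (if S p.1 p.2 ∧ HT hX p.1.flatten = a ∧ HT hY p.2.flatten = a'
        then wj (lam ΛX hX T i0) j p.1 * wj (lam ΛY hY T i0) j p.2 else 0) else 0

lemma mu_sum (hΛX : ∑' b, ΛX b ≤ 1) (h1X : ∀ b, 1 ≤ hX b) (hΛY : ∑' b, ΛY b ≤ 1)
    (h1Y : ∀ b, 1 ≤ hY b) (S : List (List BX) → List (List BY) → Prop) (w : G) (j a a' : ℕ) :
    ∑' x, mu ΛX hX zX ΛY hY zY T i0 S w j a a' x ≤ 1 := by
  classical
  have e := tsum_fiber (fun p : List (List BX) × List (List BY) =>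
    w + Dp zY p.2.flatten - Dp zX p.1.flatten)
    (fun p => if S p.1 p.2 ∧ HT hX p.1.flatten = a ∧ HT hY p.2.flatten = a'
        then wj (lam ΛX hX T i0) j p.1 * wj (lam ΛY hY T i0) j p.2 else 0) (fun _ => 1)
  simp only [mul_one] at e
  calc _ = ∑' p : List (List BX) × List (List BY),
        (if S p.1 p.2 ∧ HT hX p.1.flatten = a ∧ HT hY p.2.flatten = a'
        then wj (lam ΛX hX T i0) j p.1 * wj (lam ΛY hY T i0) j p.2 else 0) := by
        rw [← e]
        refine tsum_congr fun x => ?_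
        rw [mu]
    _ ≤ ∑' p : List (List BX) × List (List BY),
        wj (lam ΛX hX T i0) j p.1 * wj (lam ΛY hY T i0) j p.2 := by
        refine ENNReal.tsum_le_tsum fun p => ?_
        split_ifs
        · exact le_rfl
        · exact zero_le
    _ ≤ 1 := by
        rw [ENNReal.tsum_prod']
        simp_rw [ENNReal.tsum_mul_left]
        rw [ENNReal.tsum_mul_right]
        exact mul_le_one' (tsum_wj_le _ (tsum_lam_le ΛX hX hΛX h1X T i0) j)
          (tsum_wj_le _ (tsum_lam_le ΛY hY hΛY h1Y T i0) j)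

open Classical in
lemma mu_le_X (hΛY : ∑' b, ΛY b ≤ 1) (h1Y : ∀ b, 1 ≤ hY b)
    (S : List (List BX) → List (List BY) → Prop) (SA : List (List BX) → Prop)
    (hS : ∀ A C, S A C → SA A) (w : G) (j a a' : ℕ) (M : ℝ≥0∞)
    (hd : ∀ y, ∑' A : List (List BX), (if SA A ∧ HT hX A.flatten = a ∧ Dp zX A.flatten = y
      then wj (lam ΛX hX T i0) j A else 0) ≤ M) (x : G) :
    mu ΛX hX zX ΛY hY zY T i0 S w j a a' x ≤ M := by
  rw [mu, ENNReal.tsum_prod', ENNReal.tsum_comm]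
  calc _ ≤ ∑' C : List (List BY), wj (lam ΛY hY T i0) j C * ∑' A : List (List BX),
        (if SA A ∧ HT hX A.flatten = a ∧ Dp zX A.flatten = w + Dp zY C.flatten - x
          then wj (lam ΛX hX T i0) j A else 0) := by
        refine ENNReal.tsum_le_tsum fun C => ?_
        rw [← ENNReal.tsum_mul_left]
        refine ENNReal.tsum_le_tsum fun A => ?_
        split_ifs with h1 h2 h3 h3
        · rw [mul_comm]
        · exact absurd ⟨hS _ _ h2.1, h2.2.1, by rw [← h1]; abel⟩ h3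
        all_goals exact zero_le
    _ ≤ ∑' C : List (List BY), wj (lam ΛY hY T i0) j C * M :=
        ENNReal.tsum_le_tsum fun C => mul_le_mul_right (hd _) _
    _ ≤ M := by
        rw [ENNReal.tsum_mul_right]
        exact mul_le_of_le_one_left' (tsum_wj_le _ (tsum_lam_le ΛY hY hΛY h1Y T i0) j)

open Classical in
lemma mu_le_Y (hΛX : ∑' b, ΛX b ≤ 1) (h1X : ∀ b, 1 ≤ hX b)
    (S : List (List BX) → List (List BY) → Prop) (SC : List (List BY) → Prop)
    (hS : ∀ A C, S A C → SC C) (w : G) (j a a' : ℕ) (M : ℝ≥0∞)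
    (hd : ∀ y, ∑' C : List (List BY), (if SC C ∧ HT hY C.flatten = a' ∧ Dp zY C.flatten = y
      then wj (lam ΛY hY T i0) j C else 0) ≤ M) (x : G) :
    mu ΛX hX zX ΛY hY zY T i0 S w j a a' x ≤ M := by
  rw [mu, ENNReal.tsum_prod']
  calc _ ≤ ∑' A : List (List BX), wj (lam ΛX hX T i0) j A * ∑' C : List (List BY),
        (if SC C ∧ HT hY C.flatten = a' ∧ Dp zY C.flatten = x - w + Dp zX A.flatten
          then wj (lam ΛY hY T i0) j C else 0) := by
        refine ENNReal.tsum_le_tsum fun A => ?_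
        rw [← ENNReal.tsum_mul_left]
        refine ENNReal.tsum_le_tsum fun C => ?_
        split_ifs with h1 h2 h3 h3
        · exact le_rfl
        · exact absurd ⟨hS _ _ h2.1, h2.2.2, by rw [← h1]; abel⟩ h3
        all_goals exact zero_le
    _ ≤ ∑' A : List (List BX), wj (lam ΛX hX T i0) j A * M :=
        ENNReal.tsum_le_tsum fun C => mul_le_mul_right (hd _) _
    _ ≤ M := by
        rw [ENNReal.tsum_mul_right]
        exact mul_le_of_le_one_left' (tsum_wj_le _ (tsum_lam_le ΛX hX hΛX h1X T i0) j)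

open Classical in
/-- one quadruple of heights -/
lemma quad (R : List BX → List BY → Prop) (S : List (List BX) → List (List BY) → Prop)
    (w : G) (j a a' h h' lo hi : ℕ) :
    Op (lam ΛX hX T i0) (lam ΛY hY T i0) j (fun A P C Q =>
      if CC hX zX sX hY zY sY (Dp zX A.flatten) (HT hX A.flatten) P
          (w + Dp zY C.flatten) (HT hY C.flatten) Q lo hi ∧ R P Q ∧ S A C ∧
          HT hX A.flatten = a ∧ HT hY C.flatten = a' ∧ HT hX P = h ∧ HT hY Q = h' then 1 else 0)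
      ≤ ∑' x, mu ΛX hX zX ΛY hY zY T i0 S w j a a' x * ∑' L, ∑' L',
        (if HT hX L = h ∧ HT hY L' = h' ∧ R L L' ∧
        CC hX zX sX hY zY sY 0 a L x a' L' lo hi then LW ΛX L * LW ΛY L' else 0) := by
  simp only [mu]
  rw [tsum_fiber (fun p : List (List BX) × List (List BY) =>
    w + Dp zY p.2.flatten - Dp zX p.1.flatten)
    (fun p => if S p.1 p.2 ∧ HT hX p.1.flatten = a ∧ HT hY p.2.flatten = a'
        then wj (lam ΛX hX T i0) j p.1 * wj (lam ΛY hY T i0) j p.2 else 0)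
    (fun x => ∑' L, ∑' L',
        (if HT hX L = h ∧ HT hY L' = h' ∧ R L L' ∧
        CC hX zX sX hY zY sY 0 a L x a' L' lo hi then LW ΛX L * LW ΛY L' else 0))]
  rw [Op]
  refine ENNReal.tsum_le_tsum fun p => ?_
  rw [ENNReal.tsum_prod', ← ENNReal.tsum_mul_left]
  refine ENNReal.tsum_le_tsum fun P => ?_
  rw [← ENNReal.tsum_mul_left]
  refine ENNReal.tsum_le_tsum fun Q => ?_
  by_cases hc : CC hX zX sX hY zY sY (Dp zX p.1.flatten) (HT hX p.1.flatten) P
          (w + Dp zY p.2.flatten) (HT hY p.2.flatten) Q lo hi ∧ R P Q ∧ S p.1 p.2 ∧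
          HT hX p.1.flatten = a ∧ HT hY p.2.flatten = a' ∧ HT hX P = h ∧ HT hY Q = h'
  · obtain ⟨c1, c2, c3, c4, c5, c6, c7⟩ := hc
    have c8 := (CC_shift hX zX sX hY zY sY _ _ _ _ _ _ _ _).1 c1
    rw [c4, c5] at c8
    simp only
    rw [if_pos ⟨c1, c2, c3, c4, c5, c6, c7⟩, if_pos ⟨c3, c4, c5⟩, if_pos ⟨c6, c7, c2, c8⟩, mul_one]
    exact mul_le_mul_right (mul_le_mul' (lam_le ΛX hX T i0 P) (lam_le ΛY hY T i0 Q)) _
  · simp only
    rw [if_neg hc, mul_zero]; exact zero_le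

open Classical in
/-- the local part of one window -/
theorem T4 (hΛX : ∑' b, ΛX b ≤ 1) (h1X : ∀ b, 1 ≤ hX b) (hΛY : ∑' b, ΛY b ≤ 1)
    (h1Y : ∀ b, 1 ≤ hY b)
    (R : Finset G → List BX → List BY → Prop) (Cst : ℝ≥0∞) (us : ℕ → ℕ → ℝ≥0∞)
    (hH : Hwin ΛX hX zX sX ΛY hY zY sY R Cst us)
    (Lc : List BX → List BY → Prop) (S : List (List BX) → List (List BY) → Prop)
    (E : ℕ → ℕ → Finset G) (hE : ∀ P Q, Lc P Q → R (E (HT hX P) (HT hY Q)) P Q)
    (w : G) (j J r0 s lo hi : ℕ) (M D lam0 : ℝ≥0∞)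
    (hμ : ∀ a a' x, mu ΛX hX zX ΛY hY zY T i0 S w j a a' x ≤ M)
    (hME : ∀ h h', M * (E h h').card ≤ D) (hl0 : lam0 ≠ 0) (hlt : lam0 ≠ ⊤)
    (hjJ : j + 1 ≤ J) (hr0 : J * i0 ≤ r0) (hlo : j * T + J * i0 + s ≤ lo)
    (hhi : hi + s ≤ (j + 1) * T) :
    Op (lam ΛX hX T i0) (lam ΛY hY T i0) j (fun A P C Q =>
      if CC hX zX sX hY zY sY (Dp zX A.flatten) (HT hX A.flatten) P
          (w + Dp zY C.flatten) (HT hY C.flatten) Q lo hi ∧ Lc P Q ∧ S A C then 1 else 0)
      ≤ (((J * i0 + 1) ^ 4 : ℕ) : ℝ≥0∞) * (Cst * (lam0 + D * us r0 s / lam0 + us r0 s)) := by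
  set I4 : Finset ((ℕ × ℕ) × (ℕ × ℕ)) :=
    (Finset.Icc (j * T) (j * T + j * i0) ×ˢ Finset.Icc (j * T) (j * T + j * i0)) ×ˢ
      (Finset.Icc T (T + i0) ×ˢ Finset.Icc T (T + i0)) with hI4
  have hji : j * i0 ≤ J * i0 := Nat.mul_le_mul_right _ (by omega)
  have hji1 : (j + 1) * i0 ≤ J * i0 := Nat.mul_le_mul_right _ hjJ
  have hi0 : i0 ≤ J * i0 := by
    calc i0 = 1 * i0 := (one_mul _).symm
      _ ≤ J * i0 := Nat.mul_le_mul_right _ (by omega)
  calc _ ≤ Op (lam ΛX hX T i0) (lam ΛY hY T i0) j (fun A P C Q => ∑ q ∈ I4,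
        if CC hX zX sX hY zY sY (Dp zX A.flatten) (HT hX A.flatten) P
          (w + Dp zY C.flatten) (HT hY C.flatten) Q lo hi ∧ R (E q.2.1 q.2.2) P Q ∧ S A C ∧
          HT hX A.flatten = q.1.1 ∧ HT hY C.flatten = q.1.2 ∧ HT hX P = q.2.1 ∧ HT hY Q = q.2.2
          then 1 else 0) := by
        refine Op_mono _ _ j fun A P C Q hA hA' hP hC hC' hQ => ?_
        by_cases hc : CC hX zX sX hY zY sY (Dp zX A.flatten) (HT hX A.flatten) P
          (w + Dp zY C.flatten) (HT hY C.flatten) Q lo hi ∧ Lc P Q ∧ S A C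
        · rw [if_pos hc]
          have bA := HT_flatten_bd hX T i0 A (fun b hb => lam_ne ΛX hX (hA' b hb))
          have bC := HT_flatten_bd hY T i0 C (fun b hb => lam_ne ΛY hY (hC' b hb))
          have bP := lam_ne ΛX hX hP
          have bQ := lam_ne ΛY hY hQ
          rw [hA, mul_add] at bA
          rw [hC, mul_add] at bC
          have hq : ((HT hX A.flatten, HT hY C.flatten), (HT hX P, HT hY Q)) ∈ I4 := by
            rw [hI4]
            simp only [Finset.mem_product, Finset.mem_Icc]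
            omega
          refine le_trans (le_of_eq ?_) (Finset.single_le_sum (f := fun q : (ℕ × ℕ) × (ℕ × ℕ) =>
            if CC hX zX sX hY zY sY (Dp zX A.flatten) (HT hX A.flatten) P
              (w + Dp zY C.flatten) (HT hY C.flatten) Q lo hi ∧ R (E q.2.1 q.2.2) P Q ∧ S A C ∧
              HT hX A.flatten = q.1.1 ∧ HT hY C.flatten = q.1.2 ∧ HT hX P = q.2.1 ∧
              HT hY Q = q.2.2 then (1 : ℝ≥0∞) else 0) (fun _ _ => zero_le) hq)
          simp only
          rw [if_pos]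
          refine ⟨hc.1, hE P Q hc.2.1, hc.2.2, ?_⟩
          simp
        · rw [if_neg hc]; exact zero_le
    _ = ∑ q ∈ I4, Op (lam ΛX hX T i0) (lam ΛY hY T i0) j (fun A P C Q =>
        if CC hX zX sX hY zY sY (Dp zX A.flatten) (HT hX A.flatten) P
          (w + Dp zY C.flatten) (HT hY C.flatten) Q lo hi ∧ R (E q.2.1 q.2.2) P Q ∧ S A C ∧
          HT hX A.flatten = q.1.1 ∧ HT hY C.flatten = q.1.2 ∧ HT hX P = q.2.1 ∧ HT hY Q = q.2.2
          then 1 else 0) := Op_fin _ _ I4 j _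
    _ ≤ ∑ q ∈ I4, Cst * (lam0 + D * us r0 s / lam0 + us r0 s) := by
        refine Finset.sum_le_sum fun q hq => ?_
        rw [hI4] at hq
        simp only [Finset.mem_product, Finset.mem_Icc] at hq
        refine le_trans (quad ΛX hX zX sX ΛY hY zY sY T i0 (R (E q.2.1 q.2.2)) S w j q.1.1 q.1.2
          q.2.1 q.2.2 lo hi) ?_
        rw [add_mul, one_mul] at hhi
        refine le_trans (hH r0 s q.2.1 q.2.2 q.1.1 q.1.2 lo hi (E q.2.1 q.2.2)
          (mu ΛX hX zX ΛY hY zY T i0 S w j q.1.1 q.1.2) M lam0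
          (mu_sum ΛX hX zX ΛY hY zY T i0 hΛX h1X hΛY h1Y S w j _ _) (hμ _ _) hl0 hlt
          (by omega) (by omega) (by omega) (by omega) (by omega) (by omega) ?_ ?_) ?_
        · rw [add_mul, one_mul] at hji1; omega
        · rw [add_mul, one_mul] at hji1; omega
        · gcongr
          exact hME _ _
    _ ≤ _ := by
        rw [Finset.sum_const, nsmul_eq_mul]
        refine mul_le_mul_left ?_ _
        have hcard : I4.card ≤ (J * i0 + 1) ^ 4 := by
          rw [hI4]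
          simp only [Finset.card_product, Nat.card_Icc]
          have e1 : j * T + j * i0 + 1 - j * T = j * i0 + 1 := by omega
          have e2 : T + i0 + 1 - T = i0 + 1 := by omega
          rw [e1, e2]
          calc (j * i0 + 1) * (j * i0 + 1) * ((i0 + 1) * (i0 + 1))
              ≤ (J * i0 + 1) * (J * i0 + 1) * ((J * i0 + 1) * (J * i0 + 1)) := by
                gcongr
            _ = _ := by ring
        exact_mod_cast hcard

end win

end Crest.Agent.R154.Asm580
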