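import Crest.Agent.R154.AsmB_594
import Crest.Agent.R154.Bind801_12
import Crest.Agent.R154.Dens_616

/-! Row 154, ROAD 801 (helper594): one window. Pure sums. -/

set_option autoImplicit false

namespace Crest.Agent.R154.Asm594

open scoped ENNReal
open Crest.Agent.R154.B5A
open Crest.Agent.R154.Bind12 (TT Dp)

section sets

variable {B G : Type*} [AddCommGroup G] (s : B → Set (G × ℕ)) (z : B → G) (h : B → ℕ)

lemma Dp_nil : Dp z ([] : List B) = 0 := rfl

lemma Dp_append (L L' : List B) : Dp z (L ++ L') = Dp z L + Dp z L' := by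
  simp [Dp]

lemma TT_append (L L' : List B) (x : G) (a : ℕ) :
    TT s z h (L ++ L') x a = TT s z h L x a ∪ TT s z h L' (x + Dp z L) (a + HT h L) := by
  induction L generalizing x a with
  | nil => simp [TT, Dp, HT_nil]
  | cons b L ih =>
    simp only [List.cons_append, TT]
    rw [ih, Set.union_assoc]
    congr 3
    · simp [Dp, add_assoc]
    · rw [HT_cons]; omega

lemma TT_depth (hs : ∀ b, ∀ p ∈ s b, 1 ≤ p.2 ∧ p.2 ≤ h b) (L : List B) (x : G) (a : ℕ)
    (y : G) (k : ℕ) (hk : (y, k) ∈ TT s z h L x a) : a < k ∧ k ≤ a + HT h L := by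
  induction L generalizing x a with
  | nil => simp [TT] at hk
  | cons b L ih =>
    simp only [TT] at hk
    rw [HT_cons]
    rcases hk with ⟨q, hq, hp⟩ | hk
    · have := hs b q hq
      simp only [Prod.mk.injEq] at hp
      omega
    · have := ih _ _ hk
      omega

lemma TT_shift (L : List B) (x y : G) (a : ℕ) (p : G) (k : ℕ) :
    (p, k) ∈ TT s z h L (x + y) a ↔ (p - y, k) ∈ TT s z h L x a := by
  induction L generalizing x a with
  | nil => simp [TT]
  | cons b L ih =>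
    simp only [TT]
    rw [Set.mem_union, Set.mem_union, show x + y + z b = x + z b + y by abel, ih]
    refine or_congr ?_ Iff.rfl
    constructor
    · rintro ⟨q, hq, hp⟩
      simp only [Prod.mk.injEq] at hp
      refine ⟨q, hq, ?_⟩
      rw [hp.1, hp.2]
      congr 1
      abel
    · rintro ⟨q, hq, hp⟩
      simp only [Prod.mk.injEq] at hp
      refine ⟨q, hq, ?_⟩
      rw [← hp.2]
      have : p = x + y + q.1 := by
        have := hp.1
        rw [sub_eq_iff_eq_add] at this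
        rw [this]; abel
      rw [this]

end sets

section window

variable {BX BY G : Type*} [AddCommGroup G] (ΛX : BX → ℝ≥0∞) (ΛY : BY → ℝ≥0∞)
  (hX : BX → ℕ) (hY : BY → ℕ) (zX : BX → G) (zY : BY → G)
  (sX : BX → Set (G × ℕ)) (sY : BY → Set (G × ℕ))

/-- contact of two pieces, all contacts in `[lo, hi]` -/
def EV (lo hi a a' : ℕ) (x x' : G) (P : List BX) (P' : List BY) : Prop :=
  (∃ z k, (z, k) ∈ TT sX zX hX P x a ∧ (z, k) ∈ TT sY zY hY P' x' a') ∧
  (∀ z k, (z, k) ∈ TT sX zX hX P x a → (z, k) ∈ TT sY zY hY P' x' a' → lo ≤ k ∧ k ≤ hi)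

lemma EV_shift (lo hi a a' : ℕ) (x x' : G) (P : List BX) (P' : List BY) :
    EV hX hY zX zY sX sY lo hi a a' x x' P P' ↔
      EV hX hY zX zY sX sY lo hi a a' 0 (x' - x) P P' := by
  have e1 : ∀ p k, (p, k) ∈ TT sX zX hX P x a ↔ (p - x, k) ∈ TT sX zX hX P 0 a := by
    intro p k
    have := TT_shift sX zX hX P 0 x a p k
    rwa [zero_add] at this
  have e2 : ∀ p k, (p, k) ∈ TT sY zY hY P' x' a' ↔ (p - x, k) ∈ TT sY zY hY P' (x' - x) a' := by
    intro p k
    have := TT_shift sY zY hY P' (x' - x) x a' p k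
    rwa [sub_add_cancel] at this
  unfold EV
  constructor
  · rintro ⟨⟨z, k, h1, h2⟩, h3⟩
    refine ⟨⟨z - x, k, (e1 z k).1 h1, (e2 z k).1 h2⟩, fun z k h4 h5 => ?_⟩
    refine h3 (z + x) k ((e1 _ _).2 ?_) ((e2 _ _).2 ?_)
    · rwa [add_sub_cancel_right]
    · rwa [add_sub_cancel_right]
  · rintro ⟨⟨z, k, h1, h2⟩, h3⟩
    refine ⟨⟨z + x, k, (e1 _ _).2 ?_, (e2 _ _).2 ?_⟩, fun z k h4 h5 => ?_⟩
    · rwa [add_sub_cancel_right]
    · rwa [add_sub_cancel_right]
    · exact h3 (z - x) k ((e1 _ _).1 h4) ((e2 _ _).1 h5)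

open Classical in
/-- weight of a first passage piece -/
noncomputable def pw {B : Type*} (Λ : B → ℝ≥0∞) (ht : B → ℕ) (T : ℕ) (P : List B) : ℝ≥0∞ :=
  if FP ht P T then LW Λ P else 0

/-- the facing input for the `X`-local case (fixed constants) -/
def F2 (η : ℝ≥0∞) (Cst : ℝ≥0∞) (s : ℕ) (D : ℕ) : Prop :=
  ∀ (a a' h h' lo hi : ℕ), a ≤ a' → a' ≤ a + D → a + h ≤ a' + h' → a' + h' ≤ a + h + D →
    a + s ≤ lo → a' + s ≤ lo → hi + s ≤ a + h → hi + s ≤ a' + h' →
    ∀ (E : Finset G) (μ : G → ℝ≥0∞) (M : ℝ≥0∞), ∑' x, μ x ≤ 1 → (∀ x, μ x ≤ M) →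
      M * E.card ≤ Cst →
      ∑' x, μ x * ∑' L : List BX, ∑' L' : List BY, (open Classical in
        if HT hX L = h ∧ Dp zX L ∈ E ∧ HT hY L' = h' ∧
          EV hX hY zX zY sX sY lo hi a a' 0 x L L' then LW ΛX L * LW ΛY L' else 0) ≤ η

/-- the facing input for the `Y`-local case (fixed constants) -/
def F3 (η : ℝ≥0∞) (Cst : ℝ≥0∞) (s : ℕ) (D : ℕ) : Prop :=
  ∀ (a a' h h' lo hi : ℕ), a ≤ a' → a' ≤ a + D → a + h ≤ a' + h' → a' + h' ≤ a + h + D →
    a + s ≤ lo → a' + s ≤ lo → hi + s ≤ a + h → hi + s ≤ a' + h' →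
    ∀ (E : Finset G) (μ : G → ℝ≥0∞) (M : ℝ≥0∞), ∑' x, μ x ≤ 1 → (∀ x, μ x ≤ M) →
      M * E.card ≤ Cst →
      ∑' x, μ x * ∑' L : List BX, ∑' L' : List BY, (open Classical in
        if HT hX L = h ∧ Dp zY L' ∈ E ∧ HT hY L' = h' ∧
          EV hX hY zX zY sX sY lo hi a a' 0 x L L' then LW ΛX L * LW ΛY L' else 0) ≤ η

open Classical in
/-- the kernel of a window with a side condition -/
noncomputable def KK (T T' i0 lo hi : ℕ) (Q : List BX → List BY → Prop) (a a' : ℕ) (x : G) : ℝ≥0∞ :=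
  ∑' P : List BX, ∑' P' : List BY, if Q P P' ∧ HT hX P ≤ T + i0 ∧ HT hY P' ≤ T' + i0 ∧
    EV hX hY zX zY sX sY lo hi a a' 0 x P P' then pw ΛX hX T P * pw ΛY hY T' P' else 0

end window

end Crest.Agent.R154.Asm594
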