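import Crest.Agent.R154.AsmB_635

/-! Row 154 (S0219, ROAD 801), helper635: the assembly, one window. -/

set_option autoImplicit false

namespace Crest.Agent.R154.Asm635

open Crest.Agent.R154.B5A
open Crest.Agent.R154.FP178
open scoped ENNReal
open Classical

/-- the sites (position, depth) used by a list of blocks placed at `x`, depth `a` -/
def Tr {B G : Type*} [AddCommGroup G] (ht : B → ℕ) (zd : B → G) (sd : B → Set (G × ℕ)) :
    List B → G → ℕ → Set (G × ℕ)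
  | [], _, _ => ∅
  | b :: L, x, a => {p | ∃ z k, (z, k) ∈ sd b ∧ p = (x + z, a + k)} ∪
      Tr ht zd sd L (x + zd b) (a + ht b)

section tr
variable {B G : Type*} [AddCommGroup G] (ht : B → ℕ) (zd : B → G) (sd : B → Set (G × ℕ))

lemma Tr_append (L L' : List B) (x : G) (a : ℕ) :
    Tr ht zd sd (L ++ L') x a
      = Tr ht zd sd L x a ∪ Tr ht zd sd L' (x + Dp zd L) (a + HT ht L) := by
  induction L generalizing x a with
  | nil => simp [Tr, Dp_nil, HT_nil]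
  | cons b L ih =>
    rw [List.cons_append]
    simp only [Tr]
    rw [ih, Set.union_assoc, Dp_cons, HT_cons, add_assoc, add_assoc]

lemma Tr_depth (hs : ∀ b z k, (z, k) ∈ sd b → 1 ≤ k ∧ k ≤ ht b) (L : List B) (x : G) (a : ℕ)
    {z : G} {k : ℕ} (h : (z, k) ∈ Tr ht zd sd L x a) : a < k ∧ k ≤ a + HT ht L := by
  induction L generalizing x a with
  | nil => exact absurd h (Set.notMem_empty _)
  | cons b L ih =>
    rw [HT_cons]
    rcases h with ⟨z', k', hk, he⟩ | h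
    · have := hs b z' k' hk
      have e := (Prod.mk.inj he).2
      omega
    · have := ih _ _ h
      omega

lemma Tr_shift (L : List B) (x y : G) (a : ℕ) {z : G} {k : ℕ} :
    (z, k) ∈ Tr ht zd sd L (x + y) a ↔ (z - y, k) ∈ Tr ht zd sd L x a := by
  induction L generalizing x a with
  | nil => exact ⟨fun h => absurd h (Set.notMem_empty _), fun h => absurd h (Set.notMem_empty _)⟩
  | cons b L ih =>
    simp only [Tr, Set.mem_union, Set.mem_ofPred_eq, Prod.mk.injEq]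
    rw [show x + y + zd b = (x + zd b) + y by abel, ih]
    refine or_congr ?_ Iff.rfl
    refine exists_congr fun z' => exists_congr fun k' => and_congr Iff.rfl
      (and_congr ?_ Iff.rfl)
    constructor
    · intro h; rw [h]; abel
    · intro h; rw [sub_eq_iff_eq_add] at h; rw [h]; abel

end tr

lemma comm4 {α β γ δ : Type*} (F : α → β → γ → δ → ℝ≥0∞) :
    ∑' a, ∑' b, ∑' c, ∑' d, F a b c d = ∑' c, ∑' d, ∑' a, ∑' b, F a b c d := by
  have e1 : ∑' a, ∑' b, ∑' c, ∑' d, F a b c d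
      = ∑' p : α × β, ∑' q : γ × δ, F p.1 p.2 q.1 q.2 := by
    rw [ENNReal.tsum_prod']
    refine tsum_congr fun a => tsum_congr fun b => ?_
    rw [ENNReal.tsum_prod']
  have e2 : ∑' c, ∑' d, ∑' a, ∑' b, F a b c d
      = ∑' q : γ × δ, ∑' p : α × β, F p.1 p.2 q.1 q.2 := by
    rw [ENNReal.tsum_prod']
    refine tsum_congr fun c => tsum_congr fun d => ?_
    rw [ENNReal.tsum_prod']
  rw [e1, e2, ENNReal.tsum_comm]

lemma wfe {B : Type*} (Λ : B → ℝ≥0∞) (ht : B → ℕ) (T W i0 : ℕ) (A P : List B) (x : ℝ≥0∞) :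
      (if fp ht T A ∧ HT ht A ≤ T + i0 ∧ fp ht W P ∧ HT ht P ≤ W + i0
          then LW Λ A * LW Λ P * x else 0) = wf Λ ht T i0 A * (wf Λ ht W i0 P * x) := by
  unfold wf
  by_cases hA : fp ht T A ∧ HT ht A ≤ T + i0
  · by_cases hP : fp ht W P ∧ HT ht P ≤ W + i0
    · rw [if_pos ⟨hA.1, hA.2, hP⟩, if_pos hA, if_pos hP, mul_assoc]
    · rw [if_neg (fun h => hP h.2.2), if_neg hP, zero_mul, mul_zero]
  · rw [if_neg (fun h => hA ⟨h.1, h.2.1⟩), if_neg hA, zero_mul]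

section win

variable {BX BY G : Type*} [AddCommGroup G]
  (ΛX : BX → ℝ≥0∞) (hX : BX → ℕ) (zX : BX → G) (sX : BX → Set (G × ℕ))
  (ΛY : BY → ℝ≥0∞) (hY : BY → ℕ) (zY : BY → G) (sY : BY → Set (G × ℕ))

/-- the two pieces have a common site and all their common sites have depth in `[lo, hi]` -/
def Rel (lo hi : ℕ) (x : G) (a : ℕ) (P : List BX) (a' : ℕ) (P' : List BY) : Prop :=
  (∃ z k, (z, k) ∈ Tr hX zX sX P 0 a ∧ (z, k) ∈ Tr hY zY sY P' x a') ∧
    ∀ z k, (z, k) ∈ Tr hX zX sX P 0 a → (z, k) ∈ Tr hY zY sY P' x a' → lo ≤ k ∧ k ≤ hi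

/-- contact in `(α, β]`, no contact in the slabs -/
def EvW (T W i0 lo hi α β : ℕ) (w : G) (LX : List BX) (LY : List BY) : Prop :=
  (∃ z k, (z, k) ∈ Tr hX zX sX LX 0 0 ∧ (z, k) ∈ Tr hY zY sY LY w 0 ∧ α < k ∧ k ≤ β) ∧
    ∀ z k, (z, k) ∈ Tr hX zX sX LX 0 0 → (z, k) ∈ Tr hY zY sY LY w 0 →
      (T ≤ k → k ≤ T + W + 2 * i0 → lo ≤ k ∧ k ≤ hi)

lemma rel_of_ev (hsX : ∀ b z k, (z, k) ∈ sX b → 1 ≤ k ∧ k ≤ hX b)
    (hsY : ∀ b z k, (z, k) ∈ sY b → 1 ≤ k ∧ k ≤ hY b)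
    {T W i0 lo hi α β : ℕ} (hα : T + i0 ≤ α) (hβ : β ≤ T + W) {w : G}
    {A P R : List BX} {A' P' R' : List BY} (hA : fp hX T A) (hAi : HT hX A ≤ T + i0)
    (hP : fp hX W P) (hPi : HT hX P ≤ W + i0) (hA' : fp hY T A') (hAi' : HT hY A' ≤ T + i0)
    (hP' : fp hY W P')
    (h : EvW hX zX sX hY zY sY T W i0 lo hi α β w (A ++ (P ++ R)) (A' ++ (P' ++ R'))) :
    Rel hX zX sX hY zY sY lo hi (w + (Dp zY A' - Dp zX A)) (HT hX A) P (HT hY A') P' := by
  have q1 := le_HT_of_fp hX hA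
  have q2 := le_HT_of_fp hX hP
  have q3 := le_HT_of_fp hY hA'
  have q4 := le_HT_of_fp hY hP'
  -- translation of the pieces
  have tX : ∀ z k, (z, k) ∈ Tr hX zX sX P 0 (HT hX A) →
      (z + Dp zX A, k) ∈ Tr hX zX sX (A ++ (P ++ R)) 0 0 := by
    intro z k hz
    rw [Tr_append, Tr_append]
    refine Or.inr (Or.inl ?_)
    rw [Tr_shift, add_sub_cancel_right, zero_add]
    exact hz
  have tY : ∀ z k, (z, k) ∈ Tr hY zY sY P' (w + (Dp zY A' - Dp zX A)) (HT hY A') →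
      (z + Dp zX A, k) ∈ Tr hY zY sY (A' ++ (P' ++ R')) w 0 := by
    intro z k hz
    rw [Tr_append, Tr_append]
    refine Or.inr (Or.inl ?_)
    rw [show w + Dp zY A' = (w + (Dp zY A' - Dp zX A)) + Dp zX A by abel, Tr_shift,
      add_sub_cancel_right, zero_add]
    exact hz
  refine ⟨?_, ?_⟩
  · obtain ⟨z, k, h1, h2, h3, h4⟩ := h.1
    refine ⟨z - Dp zX A, k, ?_, ?_⟩
    · rw [Tr_append, Tr_append] at h1
      rcases h1 with h1 | h1 | h1
      · have := Tr_depth hX zX sX hsX _ _ _ h1; omega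
      · rw [Tr_shift, zero_add] at h1; exact h1
      · have := Tr_depth hX zX sX hsX _ _ _ h1; omega
    · rw [Tr_append, Tr_append] at h2
      rcases h2 with h2 | h2 | h2
      · have := Tr_depth hY zY sY hsY _ _ _ h2; omega
      · rw [show w + Dp zY A' = (w + (Dp zY A' - Dp zX A)) + Dp zX A by abel, Tr_shift,
          zero_add] at h2
        exact h2
      · have := Tr_depth hY zY sY hsY _ _ _ h2; omega
  · intro z k hz hz'
    have d1 := Tr_depth hX zX sX hsX _ _ _ hz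
    exact h.2 _ k (tX z k hz) (tY z k hz') (by omega) (by omega)

/-- **one window.** -/
theorem window (h1X : ∀ b, 1 ≤ hX b) (hΛX : ∑' b, ΛX b ≤ 1) (hU1X : ∀ n, U ΛX hX n ≤ 1)
    (h1Y : ∀ b, 1 ≤ hY b) (hΛY : ∑' b, ΛY b ≤ 1) (hU1Y : ∀ n, U ΛY hY n ≤ 1)
    (hsX : ∀ b z k, (z, k) ∈ sX b → 1 ≤ k ∧ k ≤ hX b)
    (hsY : ∀ b z k, (z, k) ∈ sY b → 1 ≤ k ∧ k ≤ hY b)
    (T W i0 n lo hi α β : ℕ) (hn : T + i0 + W ≤ n) (hα : T + i0 ≤ α) (hβ : β ≤ T + W)
    (w : G) (e1 u : ℝ≥0∞)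
    (hovX : ∀ a, ∑' L, (if fp hX a L ∧ a + i0 < HT hX L then LW ΛX L else 0) ≤ e1)
    (hovY : ∀ a, ∑' L, (if fp hY a L ∧ a + i0 < HT hY L then LW ΛY L else 0) ≤ e1)
    (lX : List BX → Prop) (lY : List BY → Prop)
    (hlX : ∑' P, wf ΛX hX W i0 P * (if lX P then 0 else 1) ≤ u)
    (hlY : ∑' P, wf ΛY hY W i0 P * (if lY P then 0 else 1) ≤ u)
    (GdX GdY η bad : ℝ≥0∞) (gX bX gY bY : G × ℤ → ℝ≥0∞)
    (hgbX : ∀ z, mL ΛX hX (zh zX hX) T z = gX z + bX z) (hgX : ∀ z, gX z ≤ GdX)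
    (hbX : ∑' z, bX z ≤ bad)
    (hgbY : ∀ z, mL ΛY hY (zh zY hY) T z = gY z + bY z) (hgY : ∀ z, gY z ≤ GdY)
    (hbY : ∑' z, bY z ≤ bad)
    (hR2 : ∀ i j i' j', i ≤ i0 → j ≤ i0 → i' ≤ i0 → j' ≤ i0 → ∀ μ : G → ℝ≥0∞, ∑' x, μ x ≤ 1 →
      (∀ x, μ x ≤ GdX) → ∑' x, μ x * ∑' P, ∑' P',
        (if HT hX P = W + j ∧ HT hY P' = W + j' ∧
            (lX P ∧ Rel hX zX sX hY zY sY lo hi (w + x) (T + i) P (T + i') P')
          then LW ΛX P * LW ΛY P' else 0) ≤ η)
    (hR3 : ∀ i j i' j', i ≤ i0 → j ≤ i0 → i' ≤ i0 → j' ≤ i0 → ∀ μ : G → ℝ≥0∞, ∑' x, μ x ≤ 1 →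
      (∀ x, μ x ≤ GdY) → ∑' x, μ x * ∑' P', ∑' P,
        (if HT hY P' = W + j ∧ HT hX P = W + j' ∧
            (lY P' ∧ Rel hX zX sX hY zY sY lo hi (w - x) (T + i') P (T + i) P')
          then LW ΛY P' * LW ΛX P else 0) ≤ η) :
    ∑' LX, (if HT hX LX = n then LW ΛX LX * ∑' LY, (if HT hY LY = n then LW ΛY LY *
        (if EvW hX zX sX hY zY sY T W i0 lo hi α β w LX LY then 1 else 0) else 0) else 0)
      ≤ 4 * e1 + 2 * bad + u ^ 2 + 2 * ((i0 + 1 : ℕ) ^ 4 * η) := by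
  -- the pieces of `X`
  set Φ : List BX → List BX → List BY → List BY → Prop := fun A P A' P' =>
    Rel hX zX sX hY zY sY lo hi (w + (Dp zY A' - Dp zX A)) (HT hX A) P (HT hY A') P' with hΦ
  have stY : ∀ A P R, fp hX T A → HT hX A ≤ T + i0 → fp hX W P → HT hX P ≤ W + i0 →
      ∑' LY, (if HT hY LY = n then LW ΛY LY *
        (if EvW hX zX sX hY zY sY T W i0 lo hi α β w (A ++ (P ++ R)) LY then (1 : ℝ≥0∞) else 0)
          else 0)
      ≤ 2 * e1 + ∑' A', wf ΛY hY T i0 A' * ∑' P', wf ΛY hY W i0 P' *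
          (if Φ A P A' P' then 1 else 0) := by
    intro A P R hA hAi hP hPi
    refine le_trans (one ΛY hY h1Y hΛY hU1Y T W i0 n hn e1 hovY
      (fun LY => if EvW hX zX sX hY zY sY T W i0 lo hi α β w (A ++ (P ++ R)) LY then 1 else 0)
      (fun LY => by split_ifs <;> simp) (fun A' P' => if Φ A P A' P' then 1 else 0) ?_) ?_
    · intro A' P' R' hA' hAi' hP' _
      by_cases h : EvW hX zX sX hY zY sY T W i0 lo hi α β w (A ++ (P ++ R)) (A' ++ (P' ++ R'))
      · have := rel_of_ev hX zX sX hY zY sY hsX hsY hα hβ hA hAi hP hPi hA' hAi' hP' h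
        rw [if_pos h, if_pos this]
      · rw [if_neg h]; exact zero_le
    · refine le_of_eq (congrArg (fun t => 2 * e1 + t) ?_)
      simp_rw [← ENNReal.tsum_mul_left]
      exact tsum_congr fun A => tsum_congr fun P => by rw [wfe]
  have stX : ∑' LX, (if HT hX LX = n then LW ΛX LX * ∑' LY, (if HT hY LY = n then LW ΛY LY *
        (if EvW hX zX sX hY zY sY T W i0 lo hi α β w LX LY then (1 : ℝ≥0∞) else 0) else 0) else 0)
      ≤ 2 * e1 + ∑' A, wf ΛX hX T i0 A * ∑' P, wf ΛX hX W i0 P *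
        (2 * e1 + ∑' A', wf ΛY hY T i0 A' * ∑' P', wf ΛY hY W i0 P' *
          (if Φ A P A' P' then 1 else 0)) := by
    refine le_trans (one ΛX hX h1X hΛX hU1X T W i0 n hn e1 hovX
      (fun LX => ∑' LY, (if HT hY LY = n then LW ΛY LY *
        (if EvW hX zX sX hY zY sY T W i0 lo hi α β w LX LY then (1 : ℝ≥0∞) else 0) else 0))
      (fun LX => ?_) (fun A P => 2 * e1 + ∑' A', wf ΛY hY T i0 A' * ∑' P', wf ΛY hY W i0 P' *
          (if Φ A P A' P' then 1 else 0)) stY) ?_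
    · refine le_trans (ENNReal.tsum_le_tsum fun LY => ?_) (hU1Y n)
      split_ifs <;> simp
    · refine le_of_eq (congrArg (fun t => 2 * e1 + t) ?_)
      simp_rw [← ENNReal.tsum_mul_left]
      exact tsum_congr fun A => tsum_congr fun P => by rw [wfe]
  -- masses
  have mAX := sum_wf ΛX hX h1X hΛX T i0
  have mPX := sum_wf ΛX hX h1X hΛX W i0
  have mAY := sum_wf ΛY hY h1Y hΛY T i0
  have mPY := sum_wf ΛY hY h1Y hΛY W i0
  have expand : ∑' A, wf ΛX hX T i0 A * ∑' P, wf ΛX hX W i0 P *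
        (2 * e1 + ∑' A', wf ΛY hY T i0 A' * ∑' P', wf ΛY hY W i0 P' *
          (if Φ A P A' P' then (1 : ℝ≥0∞) else 0))
      ≤ 2 * e1 + ∑' A, wf ΛX hX T i0 A * ∑' P, wf ΛX hX W i0 P *
        ∑' A', wf ΛY hY T i0 A' * ∑' P', wf ΛY hY W i0 P' *
          (if Φ A P A' P' then 1 else 0) := by
    simp_rw [mul_add, ENNReal.tsum_add, mul_add, ENNReal.tsum_add]
    refine add_le_add ?_ le_rfl
    simp_rw [ENNReal.tsum_mul_right]
    calc (∑' A, wf ΛX hX T i0 A) * ((∑' P, wf ΛX hX W i0 P) * (2 * e1))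
        ≤ 1 * (1 * (2 * e1)) := mul_le_mul' mAX (mul_le_mul' mPX le_rfl)
      _ = 2 * e1 := by rw [one_mul, one_mul]
  -- the three cases
  have split3 : ∀ A P A' P', (if Φ A P A' P' then (1 : ℝ≥0∞) else 0)
      ≤ (if lX P ∧ Φ A P A' P' then 1 else 0) + ((if lY P' ∧ Φ A P A' P' then 1 else 0)
        + (if lX P then 0 else 1) * (if lY P' then 0 else 1)) := by
    intro A P A' P'
    by_cases h : Φ A P A' P'
    · by_cases c1 : lX P
      · rw [if_pos h, if_pos ⟨c1, h⟩]; exact le_self_add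
      · by_cases c2 : lY P'
        · rw [if_pos h, if_pos (show lY P' ∧ Φ A P A' P' from ⟨c2, h⟩)]
          exact le_trans le_self_add le_add_self
        · rw [if_pos h, if_neg c1, if_neg c2, one_mul]
          exact le_trans le_add_self le_add_self
    · rw [if_neg h]; exact zero_le
  have S2 : ∑' A, wf ΛX hX T i0 A * ∑' P, wf ΛX hX W i0 P *
        ∑' A', wf ΛY hY T i0 A' * ∑' P', wf ΛY hY W i0 P' *
          (if lX P ∧ Φ A P A' P' then 1 else 0) ≤ bad + (i0 + 1 : ℕ) ^ 4 * η := by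
    have h2 := side ΛX hX zX ΛY hY zY h1X hΛX h1Y hΛY T W i0 GdX η bad gX bX hgbX hgX hbX
      (fun x a P a' P' => lX P ∧ Rel hX zX sX hY zY sY lo hi (w + x) a P a' P')
      (fun i j i' j' hi hj hi' hj' μ h1 h2 => by
        have h3 := hR2 i j i' j' hi hj hi' hj' μ h1 h2
        convert h3)
    convert h2
  have S3 : ∑' A, wf ΛX hX T i0 A * ∑' P, wf ΛX hX W i0 P *
        ∑' A', wf ΛY hY T i0 A' * ∑' P', wf ΛY hY W i0 P' *
          (if lY P' ∧ Φ A P A' P' then 1 else 0) ≤ bad + (i0 + 1 : ℕ) ^ 4 * η := by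
    have h3 := side ΛY hY zY ΛX hX zX h1Y hΛY h1X hΛX T W i0 GdY η bad gY bY hgbY hgY hbY
      (fun x a' P' a P => lY P' ∧ Rel hX zX sX hY zY sY lo hi (w - x) a P a' P')
      (fun i j i' j' hi hj hi' hj' μ h1 h2 => by
        have h3 := hR3 i j i' j' hi hj hi' hj' μ h1 h2
        convert h3)
    refine le_trans (le_of_eq ?_) h3
    simp_rw [← ENNReal.tsum_mul_left]
    rw [comm4]
    refine tsum_congr fun A' => tsum_congr fun P' => tsum_congr fun A => tsum_congr fun P => ?_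
    have e : w - (Dp zX A - Dp zY A') = w + (Dp zY A' - Dp zX A) := by abel
    simp only [hΦ, e]
    ring
  have S4 : ∑' A, wf ΛX hX T i0 A * ∑' P, wf ΛX hX W i0 P *
        ∑' A', wf ΛY hY T i0 A' * ∑' P', wf ΛY hY W i0 P' *
          ((if lX P then (0 : ℝ≥0∞) else 1) * (if lY P' then 0 else 1)) ≤ u ^ 2 := by
    set kX : List BX → ℝ≥0∞ := fun P => if lX P then 0 else 1 with hkX
    set kY : List BY → ℝ≥0∞ := fun P => if lY P then 0 else 1 with hkY
    have e : ∑' A, wf ΛX hX T i0 A * ∑' P, wf ΛX hX W i0 P *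
        ∑' A', wf ΛY hY T i0 A' * ∑' P', wf ΛY hY W i0 P' * (kX P * kY P')
        = (∑' A, wf ΛX hX T i0 A) * ((∑' P, wf ΛX hX W i0 P * kX P) *
          ((∑' A', wf ΛY hY T i0 A') * (∑' P', wf ΛY hY W i0 P' * kY P'))) := by
      have q1 : ∀ P : List BX, ∑' P', wf ΛY hY W i0 P' * (kX P * kY P')
          = kX P * ∑' P', wf ΛY hY W i0 P' * kY P' := by
        intro P
        rw [← ENNReal.tsum_mul_left]
        exact tsum_congr fun P' => by ring
      have q2 : ∀ P : List BX, wf ΛX hX W i0 P * ∑' A', wf ΛY hY T i0 A' *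
          ∑' P', wf ΛY hY W i0 P' * (kX P * kY P')
          = (wf ΛX hX W i0 P * kX P) * ((∑' A', wf ΛY hY T i0 A') *
            ∑' P', wf ΛY hY W i0 P' * kY P') := by
        intro P
        rw [q1 P, ENNReal.tsum_mul_right]
        ring
      simp_rw [q2]
      rw [ENNReal.tsum_mul_right, ENNReal.tsum_mul_right]
    rw [e]
    calc _ ≤ 1 * (u * (1 * u)) := mul_le_mul' mAX (mul_le_mul' hlX (mul_le_mul' mAY hlY))
      _ = u ^ 2 := by ring
  calc _ ≤ 2 * e1 + (2 * e1 + ∑' A, wf ΛX hX T i0 A * ∑' P, wf ΛX hX W i0 P *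
        ∑' A', wf ΛY hY T i0 A' * ∑' P', wf ΛY hY W i0 P' *
          (if Φ A P A' P' then 1 else 0)) := stX.trans (add_le_add le_rfl expand)
    _ ≤ 2 * e1 + (2 * e1 + ((bad + (i0 + 1 : ℕ) ^ 4 * η) + ((bad + (i0 + 1 : ℕ) ^ 4 * η)
          + u ^ 2))) := by
        refine add_le_add le_rfl (add_le_add le_rfl ?_)
        refine le_trans ?_ (add_le_add S2 (add_le_add S3 S4))
        simp_rw [← ENNReal.tsum_add, ← mul_add, ← ENNReal.tsum_add, ← mul_add,
          ← ENNReal.tsum_add, ← mul_add, ← ENNReal.tsum_add, ← mul_add]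
        refine ENNReal.tsum_le_tsum fun A => mul_le_mul_right
          (ENNReal.tsum_le_tsum fun P => mul_le_mul_right
          (ENNReal.tsum_le_tsum fun A' => mul_le_mul_right
          (ENNReal.tsum_le_tsum fun P' => mul_le_mul_right (split3 A P A' P') _) _) _) _
    _ = _ := by ring

end win

end Crest.Agent.R154.Asm635
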