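import Crest.Agent.R154.AsmB_636

/-! Row 154, ROAD 801, abstract assembly (helper636), part C: one window. -/

set_option autoImplicit false

namespace Crest.Agent.R154.Asm636

open scoped ENNReal
open Crest.Agent.R154.B5A Crest.Agent.R154.FP178

section one
variable {B G : Type*} [AddCommGroup G] (Λ : B → ℝ≥0∞) (h : B → ℕ) (z : B → G)

open Classical in
lemma V_eq (i0 a : ℕ) (L : List B) :
    V Λ h i0 a L = (if fp h a L then LW Λ L else 0) * (if HT h L - a ≤ i0 then 1 else 0) := by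
  unfold V
  by_cases hf : fp h a L
  · have := le_HT_of_fp h hf
    by_cases h2 : HT h L ≤ a + i0
    · rw [if_pos ⟨hf, h2⟩, if_pos hf, if_pos (by omega), mul_one]
    · rw [if_neg (fun hh => h2 hh.2), if_pos hf, if_neg (by omega), mul_zero]
  · rw [if_neg (fun hh => hf hh.1), if_neg hf, zero_mul]

open Classical in
/-- the top of the window: smooth density against the window kernel -/
lemma top_sum (a i0 : ℕ) (Gd Bd C2 : ℝ≥0∞)
    (hd : ∃ b : ℕ → G → ℝ≥0∞, (∑' j, ∑' x, b j x ≤ Bd) ∧ ∀ j x, fd Λ h z a j x ≤ Gd + b j x)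
    (hfd : ∑' j, ∑' x, fd Λ h z a j x ≤ 1)
    (e : G ≃ G) (K : ℕ → G → ℝ≥0∞) (hK1 : ∀ j x, K j x ≤ 1)
    (hK : ∀ j, j ≤ i0 → ∀ μ : G → ℝ≥0∞, ∑' x, μ x ≤ 1 → (∀ x, μ x ≤ Gd) →
      ∑' x, μ x * K (a + j) x ≤ C2) :
    ∑' P, V Λ h i0 a P * K (HT h P) (e (Dp z P)) ≤ (i0 + 1 : ℕ) * C2 + Bd := by
  obtain ⟨b, hb1, hb2⟩ := hd
  have e1 : ∑' P, V Λ h i0 a P * K (HT h P) (e (Dp z P))
      = ∑' j, ∑' x, fd Λ h z a j x * ((if j ≤ i0 then 1 else 0) * K (a + j) (e x)) := by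
    rw [← fd_fiber Λ h z a (fun j x => (if j ≤ i0 then 1 else 0) * K (a + j) (e x))]
    refine tsum_congr fun P => ?_
    rw [V_eq]
    by_cases hf : fp h a P
    · have := le_HT_of_fp h hf
      rw [if_pos hf, show a + (HT h P - a) = HT h P by omega, mul_assoc]
    · rw [if_neg hf, zero_mul, zero_mul, zero_mul]
  rw [e1]
  calc ∑' j, ∑' x, fd Λ h z a j x * ((if j ≤ i0 then 1 else 0) * K (a + j) (e x))
      ≤ ∑' j, ∑' x, ((if j ≤ i0 then min (fd Λ h z a j x) Gd * K (a + j) (e x) else 0)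
          + b j x) := by
        refine ENNReal.tsum_le_tsum fun j => ENNReal.tsum_le_tsum fun x => ?_
        by_cases hj : j ≤ i0
        · rw [if_pos hj, if_pos hj, one_mul]
          have h3 : fd Λ h z a j x ≤ min (fd Λ h z a j x) Gd + b j x := by
            rcases le_total (fd Λ h z a j x) Gd with h4 | h4
            · rw [min_eq_left h4]; exact le_self_add
            · rw [min_eq_right h4]; exact hb2 j x
          calc fd Λ h z a j x * K (a + j) (e x)
              ≤ (min (fd Λ h z a j x) Gd + b j x) * K (a + j) (e x) := mul_le_mul_left h3 _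
            _ = min (fd Λ h z a j x) Gd * K (a + j) (e x) + b j x * K (a + j) (e x) :=
                add_mul _ _ _
            _ ≤ _ := by
                gcongr
                calc b j x * K (a + j) (e x) ≤ b j x * 1 := mul_le_mul_right (hK1 _ _) _
                  _ = _ := mul_one _
        · rw [if_neg hj, if_neg hj, zero_mul, mul_zero]; exact zero_le
    _ = (∑' j, ∑' x, (if j ≤ i0 then min (fd Λ h z a j x) Gd * K (a + j) (e x) else 0))
          + ∑' j, ∑' x, b j x := by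
        rw [← ENNReal.tsum_add]
        exact tsum_congr fun j => ENNReal.tsum_add
    _ ≤ (i0 + 1 : ℕ) * C2 + Bd := by
        refine add_le_add ?_ hb1
        calc ∑' j, ∑' x, (if j ≤ i0 then min (fd Λ h z a j x) Gd * K (a + j) (e x) else 0)
            ≤ ∑' j, (if j ∈ Finset.range (i0 + 1) then C2 else 0) := by
              refine ENNReal.tsum_le_tsum fun j => ?_
              by_cases hj : j ≤ i0
              · rw [if_pos (Finset.mem_range.2 (by omega))]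
                have e2 : ∑' x, (if j ≤ i0 then min (fd Λ h z a j x) Gd * K (a + j) (e x) else 0)
                    = ∑' x, min (fd Λ h z a j (e.symm x)) Gd * K (a + j) x := by
                  rw [← e.tsum_eq (fun x => min (fd Λ h z a j (e.symm x)) Gd * K (a + j) x)]
                  refine tsum_congr fun x => ?_
                  rw [if_pos hj, e.symm_apply_apply]
                rw [e2]
                refine hK j hj _ ?_ fun x => min_le_right _ _
                calc ∑' x, min (fd Λ h z a j (e.symm x)) Gd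
                    ≤ ∑' x, fd Λ h z a j (e.symm x) :=
                      ENNReal.tsum_le_tsum fun x => min_le_left _ _
                  _ = ∑' x, fd Λ h z a j x := e.symm.tsum_eq (fun x => fd Λ h z a j x)
                  _ ≤ ∑' j, ∑' x, fd Λ h z a j x :=
                      ENNReal.le_tsum (f := fun j => ∑' x, fd Λ h z a j x) j
                  _ ≤ 1 := hfd
              · rw [if_neg (fun hh => hj (by have := Finset.mem_range.1 hh; omega))]
                simp [hj]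
          _ = ∑ j ∈ Finset.range (i0 + 1), C2 := by
              rw [tsum_eq_sum (s := Finset.range (i0 + 1)) (fun j hj => if_neg hj)]
              exact Finset.sum_congr rfl fun j hj => if_pos hj
          _ = (i0 + 1 : ℕ) * C2 := by simp

open Classical in
/-- non-local pieces -/
lemma nonloc (t i0 : ℕ) (th u : ℝ≥0∞) (E : ℕ → Finset G)
    (hE : ∀ j x, x ∉ E j → fd Λ h z t j x < th)
    (hu : ∑' j, ∑' x, (if fd Λ h z t j x < th then fd Λ h z t j x else 0) ≤ u) :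
    ∑' P, V Λ h i0 t P * (if Dp z P ∉ E (HT h P - t) then 1 else 0) ≤ u := by
  have e1 : ∑' P, V Λ h i0 t P * (if Dp z P ∉ E (HT h P - t) then 1 else 0)
      = ∑' j, ∑' x, fd Λ h z t j x * ((if j ≤ i0 then 1 else 0) * (if x ∉ E j then 1 else 0)) := by
    rw [← fd_fiber Λ h z t (fun j x => (if j ≤ i0 then 1 else 0) * (if x ∉ E j then 1 else 0))]
    refine tsum_congr fun P => ?_
    rw [V_eq, mul_assoc]
  rw [e1]
  refine le_trans (ENNReal.tsum_le_tsum fun j => ENNReal.tsum_le_tsum fun x => ?_) hu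
  by_cases hx : x ∉ E j
  · rw [if_pos hx, mul_one, if_pos (hE j x hx)]
    split_ifs
    · rw [mul_one]
    · rw [mul_zero]; exact zero_le
  · rw [if_neg hx, mul_zero, mul_zero]; exact zero_le

end one

section two
variable {BX BY G : Type*} [AddCommGroup G]
variable (ΛX : BX → ℝ≥0∞) (hX : BX → ℕ) (zX : BX → G) (sX : BX → Set (G × ℕ))
variable (ΛY : BY → ℝ≥0∞) (hY : BY → ℕ) (zY : BY → G) (sY : BY → Set (G × ℕ))

/-- clean contact -/
def Cl (A A' : Set (G × ℕ)) (lo hi : ℕ) : Prop :=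
  (∃ z k, (z, k) ∈ A ∧ (z, k) ∈ A') ∧ ∀ z k, (z, k) ∈ A → (z, k) ∈ A' → lo ≤ k ∧ k ≤ hi

lemma Cl_shift (P : List BX) (Q : List BY) (x y : G) (α β lo hi : ℕ) :
    Cl (TS hX zX sX P x α) (TS hY zY sY Q y β) lo hi ↔
      Cl (TS hX zX sX P 0 α) (TS hY zY sY Q (y - x) β) lo hi := by
  have e1 : ∀ z k, (z, k) ∈ TS hX zX sX P x α ↔ (z - x, k) ∈ TS hX zX sX P 0 α := by
    intro z k
    rw [TS_shift hX zX sX P 0 x (z - x) α k]
    simp
  have e2 : ∀ z k, (z, k) ∈ TS hY zY sY Q y β ↔ (z - x, k) ∈ TS hY zY sY Q (y - x) β := by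
    intro z k
    rw [TS_shift hY zY sY Q (y - x) x (z - x) β k]
    simp
  unfold Cl
  refine and_congr ⟨?_, ?_⟩ ⟨?_, ?_⟩
  · rintro ⟨z, k, h1, h2⟩
    exact ⟨z - x, k, (e1 z k).1 h1, (e2 z k).1 h2⟩
  · rintro ⟨z, k, h1, h2⟩
    refine ⟨z + x, k, (e1 _ k).2 ?_, (e2 _ k).2 ?_⟩ <;> simpa using ‹_›
  · intro hh z k h1 h2
    refine hh (z + x) k ((e1 _ k).2 ?_) ((e2 _ k).2 ?_) <;> simpa using ‹_›
  · intro hh z k h1 h2
    exact hh _ k ((e1 z k).1 h1) ((e2 z k).1 h2)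

open Classical in
/-- window lemma, X local (540's H2; first freeze: `a ≤ a'`, `a + h ≤ a' + h'`) -/
def WinX (us : ℕ → ℝ≥0∞) (C : ℝ≥0∞) : Prop :=
  ∀ (s h h' a a' lo hi : ℕ) (E : Finset G) (μ : G → ℝ≥0∞) (M lam : ℝ≥0∞),
    ∑' x, μ x ≤ 1 → (∀ x, μ x ≤ M) → lam ≠ 0 → lam ≠ ⊤ →
    a ≤ a' → a + h ≤ a' + h' →
    a + s ≤ lo → a' + s ≤ lo → hi + s ≤ a + h → hi + s ≤ a' + h' →
    ∑' x, μ x * ∑' L, ∑' L', (if HT hX L = h ∧ Dp zX L ∈ E ∧ HT hY L' = h' ∧
      (∃ z k, (z, k) ∈ TS hX zX sX L 0 a ∧ (z, k) ∈ TS hY zY sY L' x a') ∧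
      (∀ z k, (z, k) ∈ TS hX zX sX L 0 a → (z, k) ∈ TS hY zY sY L' x a' → lo ≤ k ∧ k ≤ hi)
      then LW ΛX L * LW ΛY L' else 0) ≤ C * (lam + M * E.card * us s / lam + us s)

open Classical in
/-- window lemma, Y local (540's H3) -/
def WinY (us : ℕ → ℝ≥0∞) (C : ℝ≥0∞) : Prop :=
  ∀ (s h h' a a' lo hi : ℕ) (E : Finset G) (μ : G → ℝ≥0∞) (M lam : ℝ≥0∞),
    ∑' x, μ x ≤ 1 → (∀ x, μ x ≤ M) → lam ≠ 0 → lam ≠ ⊤ →
    a ≤ a' → a + h ≤ a' + h' →
    a + s ≤ lo → a' + s ≤ lo → hi + s ≤ a + h → hi + s ≤ a' + h' →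
    ∑' x, μ x * ∑' L, ∑' L', (if HT hX L = h ∧ Dp zY L' ∈ E ∧ HT hY L' = h' ∧
      (∃ z k, (z, k) ∈ TS hX zX sX L 0 a ∧ (z, k) ∈ TS hY zY sY L' x a') ∧
      (∀ z k, (z, k) ∈ TS hX zX sX L 0 a → (z, k) ∈ TS hY zY sY L' x a' → lo ≤ k ∧ k ≤ hi)
      then LW ΛX L * LW ΛY L' else 0) ≤ C * (lam + M * E.card * us s / lam + us s)

open Classical in
/-- the kernel of a window: pieces with a property `R` (locality) and clean contact -/
noncomputable def KK (i0 tX tY lo hi : ℕ) (R : List BX → List BY → Prop) (α β : ℕ) (x : G) : ℝ≥0∞ :=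
  ∑' P, V ΛX hX i0 tX P * ∑' Q, V ΛY hY i0 tY Q *
    (if R P Q ∧ Cl (TS hX zX sX P 0 α) (TS hY zY sY Q x β) lo hi then 1 else 0)

open Classical in
lemma KK_le_one (hX1 : ∀ b, 1 ≤ hX b) (hXΛ : ∑' b, ΛX b ≤ 1) (hY1 : ∀ b, 1 ≤ hY b)
    (hYΛ : ∑' b, ΛY b ≤ 1) (i0 tX tY lo hi : ℕ) (R : List BX → List BY → Prop) (α β : ℕ) (x : G) :
    KK ΛX hX zX sX ΛY hY zY sY i0 tX tY lo hi R α β x ≤ 1 := by
  unfold KK
  calc _ ≤ ∑' P, V ΛX hX i0 tX P * 1 := by
        refine ENNReal.tsum_le_tsum fun P => mul_le_mul_right ?_ _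
        calc _ ≤ ∑' Q, V ΛY hY i0 tY Q * 1 := by
              refine ENNReal.tsum_le_tsum fun Q => mul_le_mul_right ?_ _
              split_ifs <;> simp
          _ ≤ 1 := by simpa using V_sum ΛY hY hY1 hYΛ i0 tY
    _ ≤ 1 := by simpa using V_sum ΛX hX hX1 hXΛ i0 tX

open Classical in
/-- the kernel is bounded by the sum over the heights -/
lemma KK_sum (i0 tX tY lo hi : ℕ) (R : List BX → List BY → Prop) (α β : ℕ)
    (RR : ℕ → ℕ → List BX → List BY → Prop)
    (hR : ∀ P Q j j', HT hX P = tX + j → HT hY Q = tY + j' → R P Q → RR j j' P Q)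
    (μ : G → ℝ≥0∞) (C1 : ℝ≥0∞)
    (hC : ∀ j j', j ≤ i0 → j' ≤ i0 → ∑' x, μ x * ∑' L, ∑' L', (if HT hX L = tX + j ∧ RR j j' L L' ∧
      HT hY L' = tY + j' ∧ Cl (TS hX zX sX L 0 α) (TS hY zY sY L' x β) lo hi
      then LW ΛX L * LW ΛY L' else 0) ≤ C1) :
    ∑' x, μ x * KK ΛX hX zX sX ΛY hY zY sY i0 tX tY lo hi R α β x ≤ ((i0 + 1 : ℕ) : ℝ≥0∞) ^ 2 * C1 := by
  have e1 : ∀ x, KK ΛX hX zX sX ΛY hY zY sY i0 tX tY lo hi R α β x ≤
      ∑ j ∈ Finset.range (i0 + 1), ∑ j' ∈ Finset.range (i0 + 1), ∑' L, ∑' L',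
      (if HT hX L = tX + j ∧ RR j j' L L' ∧
      HT hY L' = tY + j' ∧ Cl (TS hX zX sX L 0 α) (TS hY zY sY L' x β) lo hi
      then LW ΛX L * LW ΛY L' else 0) := by
    intro x
    unfold KK
    have e2 : (∑ j ∈ Finset.range (i0 + 1), ∑ j' ∈ Finset.range (i0 + 1), ∑' L, ∑' L',
      (if HT hX L = tX + j ∧ RR j j' L L' ∧
      HT hY L' = tY + j' ∧ Cl (TS hX zX sX L 0 α) (TS hY zY sY L' x β) lo hi
      then LW ΛX L * LW ΛY L' else 0)) = ∑' L, ∑' L', ∑ j ∈ Finset.range (i0 + 1),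
        ∑ j' ∈ Finset.range (i0 + 1), (if HT hX L = tX + j ∧ RR j j' L L' ∧
      HT hY L' = tY + j' ∧ Cl (TS hX zX sX L 0 α) (TS hY zY sY L' x β) lo hi
      then LW ΛX L * LW ΛY L' else 0) := by
      simp_rw [Summable.tsum_finsetSum (fun _ _ => ENNReal.summable)]
    rw [e2]
    refine ENNReal.tsum_le_tsum fun P => ?_
    rw [← ENNReal.tsum_mul_left]
    refine ENNReal.tsum_le_tsum fun Q => ?_
    by_cases hc : (fp hX tX P ∧ HT hX P ≤ tX + i0) ∧ (fp hY tY Q ∧ HT hY Q ≤ tY + i0) ∧ R P Q ∧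
        Cl (TS hX zX sX P 0 α) (TS hY zY sY Q x β) lo hi
    · obtain ⟨⟨p1, p2⟩, ⟨q1, q2⟩, r1, r2⟩ := hc
      have p3 := le_HT_of_fp hX p1
      have q3 := le_HT_of_fp hY q1
      have hp : HT hX P = tX + (HT hX P - tX) := by omega
      have hq : HT hY Q = tY + (HT hY Q - tY) := by omega
      unfold V
      rw [if_pos ⟨p1, p2⟩, if_pos ⟨q1, q2⟩, if_pos ⟨r1, r2⟩, mul_one]
      refine le_trans ?_ (Finset.single_le_sum (f := fun j => ∑ j' ∈ Finset.range (i0 + 1),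
        (if HT hX P = tX + j ∧ RR j j' P Q ∧ HT hY Q = tY + j' ∧
          Cl (TS hX zX sX P 0 α) (TS hY zY sY Q x β) lo hi then LW ΛX P * LW ΛY Q else 0))
        (fun _ _ => zero_le) (Finset.mem_range.2 (by omega : HT hX P - tX < i0 + 1)))
      refine le_trans ?_ (Finset.single_le_sum (f := fun j' =>
        (if HT hX P = tX + (HT hX P - tX) ∧ RR (HT hX P - tX) j' P Q ∧ HT hY Q = tY + j' ∧
          Cl (TS hX zX sX P 0 α) (TS hY zY sY Q x β) lo hi then LW ΛX P * LW ΛY Q else 0))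
        (fun _ _ => zero_le) (Finset.mem_range.2 (by omega : HT hY Q - tY < i0 + 1)))
      rw [if_pos ⟨hp, hR P Q _ _ hp hq r1, hq, r2⟩]
    · have : V ΛX hX i0 tX P * (V ΛY hY i0 tY Q *
        (if R P Q ∧ Cl (TS hX zX sX P 0 α) (TS hY zY sY Q x β) lo hi then 1 else 0)) = 0 := by
        unfold V
        split_ifs with g1 g2 g3
        · exact absurd ⟨g1, g2, g3.1, g3.2⟩ hc
        all_goals simp
      rw [this]; exact zero_le
  calc ∑' x, μ x * KK ΛX hX zX sX ΛY hY zY sY i0 tX tY lo hi R α β x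
      ≤ ∑' x, μ x * ∑ j ∈ Finset.range (i0 + 1), ∑ j' ∈ Finset.range (i0 + 1), ∑' L, ∑' L',
      (if HT hX L = tX + j ∧ RR j j' L L' ∧
      HT hY L' = tY + j' ∧ Cl (TS hX zX sX L 0 α) (TS hY zY sY L' x β) lo hi
      then LW ΛX L * LW ΛY L' else 0) := ENNReal.tsum_le_tsum fun x => mul_le_mul_right (e1 x) _
    _ = ∑ j ∈ Finset.range (i0 + 1), ∑ j' ∈ Finset.range (i0 + 1), ∑' x, μ x * ∑' L, ∑' L',
      (if HT hX L = tX + j ∧ RR j j' L L' ∧
      HT hY L' = tY + j' ∧ Cl (TS hX zX sX L 0 α) (TS hY zY sY L' x β) lo hi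
      then LW ΛX L * LW ΛY L' else 0) := by
        simp_rw [Finset.mul_sum]
        rw [Summable.tsum_finsetSum (fun _ _ => ENNReal.summable)]
        refine Finset.sum_congr rfl fun j _ => ?_
        rw [Summable.tsum_finsetSum (fun _ _ => ENNReal.summable)]
    _ ≤ ∑ j ∈ Finset.range (i0 + 1), ∑ j' ∈ Finset.range (i0 + 1), C1 := by
        refine Finset.sum_le_sum fun j hj => Finset.sum_le_sum fun j' hj' => ?_
        have := Finset.mem_range.1 hj
        have := Finset.mem_range.1 hj'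
        exact hC j j' (by omega) (by omega)
    _ = _ := by
        rw [Finset.sum_const, Finset.sum_const, Finset.card_range, nsmul_eq_mul, nsmul_eq_mul,
          ← mul_assoc, pow_two]

end two

end Crest.Agent.R154.Asm636
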