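import Crest.Agent.R154.FP_178
import Crest.Agent.R154.Dens_280
import Crest.Agent.R154.Dens_903

/-! Row 154, ROAD 801 (helper852): law of the first passage list, smooth density. -/

set_option autoImplicit false

namespace Crest.Agent.R154.Asm852

open scoped ENNReal
open Crest.Agent.R154.B5A Crest.Agent.R154.FP178

variable {B G : Type*} [AddCommGroup G] (Λ : B → ℝ≥0∞) (ht : B → ℕ) (dz : B → G)

/-- displacement of a list -/
def Dp (L : List B) : G := (L.map dz).sum

lemma Dp_append (L L' : List B) : Dp dz (L ++ L') = Dp dz L + Dp dz L' := by simp [Dp]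

open Classical in
/-- law of (overshoot, displacement) of the first passage list of depth `r` -/
noncomputable def law (r j : ℕ) (z : G) : ℝ≥0∞ :=
  ∑' L, if fp ht r L ∧ HT ht L = r + j ∧ Dp dz L = z then LW Λ L else 0

open Classical in
lemma law_int (r : ℕ) (Φ : ℕ → G → ℝ≥0∞) :
    ∑' j, ∑' z, law Λ ht dz r j z * Φ j z
      = ∑' L, (if fp ht r L then LW Λ L * Φ (HT ht L - r) (Dp dz L) else 0) := by
  have e : ∀ j z, law Λ ht dz r j z * Φ j z
     = ∑' L, (if fp ht r L ∧ HT ht L = r + j ∧ Dp dz L = z then LW Λ L * Φ j z else 0) := by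
    intro j z
    rw [law, ← ENNReal.tsum_mul_right]
    refine tsum_congr fun L => ?_
    split_ifs <;> simp
  simp only [e]
  rw [tsum_congr fun j => ENNReal.tsum_comm, ENNReal.tsum_comm]
  refine tsum_congr fun L => ?_
  by_cases h : fp ht r L
  · have hle := le_HT_of_fp ht h
    rw [tsum_eq_single (HT ht L - r), tsum_eq_single (Dp dz L)]
    · rw [if_pos ⟨h, by omega, rfl⟩, if_pos h]
    · intro z hz; rw [if_neg]; rintro ⟨-, -, h'⟩; exact hz h'.symm
    · intro j hj
      refine ENNReal.tsum_eq_zero.2 fun z => ?_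
      rw [if_neg]; rintro ⟨-, h', -⟩; omega
  · rw [if_neg h]; simp [h]

open Classical in
theorem sum_FP_eq (h1 : ∀ b, 1 ≤ ht b) (hΛ : ∑' b, Λ b = 1) (a : ℕ) :
    ∑' L, (if fp ht a L then LW Λ L else 0) = 1 := by
  induction a using Nat.strong_induction_on with
  | _ a ih =>
    rcases Nat.eq_zero_or_pos a with rfl | ha
    · have := sum_fp_zero Λ ht (fun _ => 1)
      simp only [mul_one] at this
      exact this
    · have := sum_fp_step Λ ht a ha (fun _ => 1)
      simp only [mul_one] at this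
      rw [this]
      calc ∑' b, Λ b * ∑' L, (if fp ht (a - ht b) L then LW Λ L else 0)
          = ∑' b, Λ b * 1 := by
            refine tsum_congr fun b => ?_
            rw [ih (a - ht b) (by have := h1 b; omega)]
        _ = 1 := by simpa using hΛ

lemma law_sum (h1 : ∀ b, 1 ≤ ht b) (hΛ : ∑' b, Λ b = 1) (a : ℕ) :
    ∑' j, ∑' z, law Λ ht dz a j z = 1 := by
  have := law_int Λ ht dz a (fun _ _ => 1)
  simp only [mul_one] at this
  rw [this, sum_FP_eq Λ ht h1 hΛ]

open Classical in
theorem smooth (h1 : ∀ b, 1 ≤ ht b) (hΛ : ∑' b, Λ b = 1) (hU1 : ∀ n, U Λ ht n ≤ 1) (S i0 : ℕ)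
    (th q Gc : ℝ≥0∞)
    (hq : ∑' i, ∑' z, (if i ≤ i0 ∧ th < law Λ ht dz S i z then law Λ ht dz S i z else 0) ≤ q)
    (hq1 : q ≤ 1) (hG : (i0 + 1 : ℕ) * th + q * Gc ≤ Gc) (J r : ℕ) (hr : J * (S + i0) ≤ r) :
    ∃ b : ℕ → G → ℝ≥0∞, (∑' j, ∑' z, b j z ≤ q ^ J + J * ∑' k, tail Λ ht (i0 + k)) ∧
      ∀ j z, law Λ ht dz r j z ≤ Gc + b j z := by
  refine Dens280.dens (law Λ ht dz S) (law Λ ht dz) (fun r j z => ∑' A, (if fp ht S A ∧ r < HT ht A
    ∧ HT ht A = r + j ∧ Dp dz A = z then LW Λ A else 0)) S i0 th q _ Gc ?_ ?_ ?_ hq hq1 hG J r hr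
  · intro r hr j z
    have e0 : law Λ ht dz r j z = ∑' L, (if fp ht r L then LW Λ L *
        (if HT ht L = r + j ∧ Dp dz L = z then 1 else 0) else 0) := by
      rw [law]
      refine tsum_congr fun L => ?_
      by_cases h : fp ht r L <;> by_cases h' : HT ht L = r + j ∧ Dp dz L = z <;> simp [h, h']
    have e1 : (∑' i, ∑' z', if S + i ≤ r then law Λ ht dz S i z' *
        law Λ ht dz (r - S - i) j (z - z') else 0)
        = ∑' A, (if fp ht S A then LW Λ A *
          (if S + (HT ht A - S) ≤ r then law Λ ht dz (r - S - (HT ht A - S)) j (z - Dp dz A)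
            else 0) else 0) := by
      rw [← law_int Λ ht dz S (fun i z' => if S + i ≤ r then
        law Λ ht dz (r - S - i) j (z - z') else 0)]
      refine tsum_congr fun i => tsum_congr fun z' => ?_
      by_cases h : S + i ≤ r <;> simp [h]
    rw [e0, e1, fp_split Λ ht h1 S r hr, ← ENNReal.tsum_add]
    refine ENNReal.tsum_le_tsum fun A => ?_
    by_cases hA : fp ht S A
    · have hle := le_HT_of_fp ht hA
      rw [if_pos hA, if_pos hA]
      by_cases hr' : HT ht A ≤ r
      · rw [if_pos (by omega)]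
        refine le_add_right ?_
        refine mul_le_mul_right ?_ _
        rw [show r - S - (HT ht A - S) = r - HT ht A by omega, law]
        refine ENNReal.tsum_le_tsum fun L => ?_
        by_cases hL : fp ht (r - HT ht A) L
        · rw [if_pos hL, HT_append, Dp_append]
          by_cases hc : HT ht A + HT ht L = r + j ∧ Dp dz A + Dp dz L = z
          · rw [if_pos hc, mul_one, if_pos ⟨hL, by omega, by rw [← hc.2]; abel⟩]
          · rw [if_neg hc, mul_zero]; exact zero_le
        · rw [if_neg hL]; exact zero_le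
      · refine le_add_left ?_
        rw [show r - HT ht A = 0 by omega, sum_fp_zero Λ ht (fun L =>
          if HT ht (A ++ L) = r + j ∧ Dp dz (A ++ L) = z then (1 : ℝ≥0∞) else 0), List.append_nil]
        by_cases hc : HT ht A = r + j ∧ Dp dz A = z
        · rw [if_pos hc, mul_one, if_pos ⟨hA, by omega, hc⟩]
        · rw [if_neg hc, mul_zero]; exact zero_le
    · rw [if_neg hA]; exact zero_le
  · intro r
    exact (law_sum Λ ht dz h1 hΛ r).le
  · intro r hr
    have e1 : (∑' i, ∑' z', (if i0 < i ∧ S + i ≤ r then law Λ ht dz S i z' else 0))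
        = ∑' A, (if fp ht S A then LW Λ A *
          (if i0 < HT ht A - S ∧ S + (HT ht A - S) ≤ r then 1 else 0) else 0) := by
      rw [← law_int Λ ht dz S (fun i _ => if i0 < i ∧ S + i ≤ r then 1 else 0)]
      refine tsum_congr fun i => tsum_congr fun z' => ?_
      by_cases h : i0 < i ∧ S + i ≤ r <;> simp [h]
    have e2 : (∑' j, ∑' z, ∑' A, (if fp ht S A ∧ r < HT ht A
        ∧ HT ht A = r + j ∧ Dp dz A = z then LW Λ A else 0))
        = ∑' A, (if fp ht S A ∧ r < HT ht A then LW Λ A else 0) := by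
      rw [tsum_congr fun j => ENNReal.tsum_comm, ENNReal.tsum_comm]
      refine tsum_congr fun A => ?_
      by_cases h : fp ht S A ∧ r < HT ht A
      · rw [if_pos h, tsum_eq_single (HT ht A - r), tsum_eq_single (Dp dz A)]
        · rw [if_pos ⟨h.1, h.2, by omega, rfl⟩]
        · intro z hz; rw [if_neg]; rintro ⟨-, -, -, h'⟩; exact hz h'.symm
        · intro j hj
          refine ENNReal.tsum_eq_zero.2 fun z => ?_
          rw [if_neg]; rintro ⟨-, -, h', -⟩; omega
      · rw [if_neg h]
        refine ENNReal.tsum_eq_zero.2 fun j => ENNReal.tsum_eq_zero.2 fun z => ?_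
        rw [if_neg]; rintro ⟨h', h'', -⟩; exact h ⟨h', h''⟩
    rw [e1, e2, ← ENNReal.tsum_add]
    refine le_trans (ENNReal.tsum_le_tsum fun A => ?_) (overshoot Λ ht h1 hU1 i0 S)
    by_cases hA : fp ht S A
    · have hle := le_HT_of_fp ht hA
      rw [if_pos hA]
      by_cases hr' : HT ht A ≤ r
      · rw [if_neg (show ¬ (fp ht S A ∧ r < HT ht A) by omega), add_zero]
        by_cases hc : S + i0 < HT ht A
        · rw [if_pos (show i0 < HT ht A - S ∧ S + (HT ht A - S) ≤ r by omega), mul_one,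
            if_pos (⟨hA, hc⟩ : fp ht S A ∧ S + i0 < HT ht A)]
        · rw [if_neg (show ¬ (i0 < HT ht A - S ∧ S + (HT ht A - S) ≤ r) by omega), mul_zero]
          exact zero_le
      · rw [if_neg (show ¬ (i0 < HT ht A - S ∧ S + (HT ht A - S) ≤ r) by omega), mul_zero, zero_add,
          if_pos (⟨hA, by omega⟩ : fp ht S A ∧ r < HT ht A),
          if_pos (⟨hA, by omega⟩ : fp ht S A ∧ S + i0 < HT ht A)]
    · rw [if_neg hA, if_neg (fun h => hA h.1), zero_add]; exact zero_le

open Classical in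
/-- selection of the level: quantile, smoothness and size of the level sets -/
theorem select (h1 : ∀ b, 1 ≤ ht b) (hΛ : ∑' b, Λ b = 1) (hU1 : ∀ n, U Λ ht n ≤ 1) (S i0 : ℕ)
    {u : ℝ≥0∞} (hu0 : u ≠ 0) (hu1 : u ≤ 1) :
    ∃ (th M : ℝ≥0∞) (E : ℕ → Finset G), (∀ j z, z ∈ E j ↔ th ≤ law Λ ht dz S j z) ∧
      (∑' L, (if fp ht S L ∧ ¬ Dp dz L ∈ E (HT ht L - S) then LW Λ L else 0) ≤ u) ∧
      (∀ j, M * (E j).card ≤ ((i0 + 1 : ℕ) : ℝ≥0∞) / u) ∧
      ∀ J r, J * (S + i0) ≤ r →
        ∃ b : ℕ → G → ℝ≥0∞, (∑' j, ∑' z, b j z ≤ (1 - u) ^ J + J * ∑' k, tail Λ ht (i0 + k)) ∧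
        ∀ j z, law Λ ht dz r j z ≤ M + b j z := by
  have hut : u ≠ ⊤ := ne_top_of_le_ne_top ENNReal.one_ne_top hu1
  have hsum : ∑' a : ℕ × G, law Λ ht dz S a.1 a.2 = 1 := by
    rw [ENNReal.tsum_prod (f := fun i z => law Λ ht dz S i z)]
    exact law_sum Λ ht dz h1 hΛ S
  obtain ⟨th, hth0, hth1, hlo, hhi⟩ := Dens903.quantile (fun a : ℕ × G => law Λ ht dz S a.1 a.2)
    hsum hu0 hu1
  have hfin : ∀ j, {z | th ≤ law Λ ht dz S j z}.Finite := by
    intro j
    refine Dens903.finite_level (law Λ ht dz S j) ?_ hth0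
    refine ne_top_of_le_ne_top ENNReal.one_ne_top ?_
    rw [← law_sum Λ ht dz h1 hΛ S]
    exact ENNReal.le_tsum (f := fun j => ∑' z, law Λ ht dz S j z) j
  have htht : th ≠ ⊤ := ne_top_of_le_ne_top ENNReal.one_ne_top hth1
  refine ⟨th, (i0 + 1 : ℕ) * th / u, fun j => (hfin j).toFinset, fun j z => by simp, ?_, ?_, ?_⟩
  · have e := law_int Λ ht dz S (fun j z => if law Λ ht dz S j z < th then 1 else 0)
    have e2 : ∑' L, (if fp ht S L ∧ ¬ Dp dz L ∈ (hfin (HT ht L - S)).toFinset then LW Λ L else 0)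
        = ∑' L, (if fp ht S L then LW Λ L *
          (if law Λ ht dz S (HT ht L - S) (Dp dz L) < th then 1 else 0) else 0) := by
      refine tsum_congr fun L => ?_
      by_cases h : fp ht S L
      · by_cases h' : law Λ ht dz S (HT ht L - S) (Dp dz L) < th
        · rw [if_pos ⟨h, by simpa using h'⟩, if_pos h, if_pos h', mul_one]
        · rw [if_neg (by rintro ⟨-, h2⟩; apply h'; simpa using h2), if_pos h, if_neg h', mul_zero]
      · simp [h]
    rw [e2, ← e]
    refine le_trans (le_of_eq ?_) hlo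
    rw [ENNReal.tsum_prod (f := fun i z => if law Λ ht dz S i z < th then law Λ ht dz S i z
      else 0)]
    refine tsum_congr fun j => tsum_congr fun z => ?_
    by_cases h : law Λ ht dz S j z < th <;> simp [h]
  · intro j
    have hc := Dens903.card_le (law Λ ht dz S j) th
    have hs1 : ∑' z, law Λ ht dz S j z ≤ 1 := by
      rw [← law_sum Λ ht dz h1 hΛ S]
      exact ENNReal.le_tsum (f := fun j => ∑' z, law Λ ht dz S j z) j
    have hc1 : th * ((hfin j).toFinset.card : ℝ≥0∞) ≤ 1 := by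
      refine le_trans (le_of_eq ?_) (hc.trans hs1)
      · congr 1
        rw [tsum_eq_sum (s := (hfin j).toFinset) (by
          intro z hz
          rw [if_neg]
          intro h
          exact hz (by simpa using h))]
        rw [Finset.sum_congr rfl (g := fun _ => (1 : ℝ≥0∞)) (by
          intro z hz
          rw [if_pos]
          simpa using hz)]
        simp
    calc (i0 + 1 : ℕ) * th / u * ((hfin j).toFinset.card : ℝ≥0∞)
        = (i0 + 1 : ℕ) * (th * ((hfin j).toFinset.card : ℝ≥0∞)) / u := by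
          rw [ENNReal.div_eq_inv_mul, ENNReal.div_eq_inv_mul]; ring
      _ ≤ (i0 + 1 : ℕ) * 1 / u := by gcongr
      _ = _ := by rw [mul_one]
  · intro J r hr
    refine smooth Λ ht dz h1 hΛ hU1 S i0 th (1 - u) _ ?_ tsub_le_self ?_ J r hr
    · have hsplit : ∑' a : ℕ × G, (if law Λ ht dz S a.1 a.2 ≤ th then law Λ ht dz S a.1 a.2 else 0)
          + ∑' a : ℕ × G, (if th < law Λ ht dz S a.1 a.2 then law Λ ht dz S a.1 a.2 else 0)
          = 1 := by
        rw [← ENNReal.tsum_add, ← hsum]
        refine tsum_congr fun a => ?_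
        by_cases h : law Λ ht dz S a.1 a.2 ≤ th
        · simp [h, not_lt.2 h]
        · simp [h, not_le.1 h]
      have h3 : ∑' a : ℕ × G, (if th < law Λ ht dz S a.1 a.2 then law Λ ht dz S a.1 a.2 else 0)
          ≤ 1 - u := by
        refine ENNReal.le_sub_of_add_le_left hut ?_
        exact (add_le_add hhi le_rfl).trans hsplit.le
      refine le_trans ?_ h3
      rw [ENNReal.tsum_prod (f := fun i z => if th < law Λ ht dz S i z then law Λ ht dz S i z
        else 0)]
      refine ENNReal.tsum_le_tsum fun i => ENNReal.tsum_le_tsum fun z => ?_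
      by_cases h : th < law Λ ht dz S i z
      · rw [if_pos h]; split_ifs <;> simp
      · rw [if_neg (fun h' => h h'.2)]; exact zero_le
    · set X : ℝ≥0∞ := (i0 + 1 : ℕ) * th / u with hX
      have hX1 : u * X = (i0 + 1 : ℕ) * th := by
        rw [hX, ENNReal.mul_div_cancel hu0 hut]
      rw [← hX1, ← add_mul, add_tsub_cancel_of_le hu1, one_mul]

end Crest.Agent.R154.Asm852
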