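import Crest.Agent.R154.AsmB_647
import Crest.Agent.R154.AsmS_852

/-! Row 154, ROAD 801, list assembly (helper647), part C: one window. -/

set_option autoImplicit false

namespace Crest.Agent.R154.Asm647

open scoped ENNReal
open Crest.Agent.R154.B5A Crest.Agent.R154.FP178
open Crest.Agent.R154.Asm852 (law law_int law_sum select Dp Dp_append)

section one

variable {B G : Type*} [AddCommGroup G] (Λ : B → ℝ≥0∞) (ht : B → ℕ) (dz : B → G)

open Classical in
lemma w1_int (r i0 : ℕ) (g : ℕ → G → ℝ≥0∞) :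
    ∑' L, w1 Λ ht r i0 L * g (HT ht L - r) (Dp dz L)
      = ∑' c, ∑' z, law Λ ht dz r c z * (if c ≤ i0 then g c z else 0) := by
  rw [law_int Λ ht dz r (fun c z => if c ≤ i0 then g c z else 0)]
  refine tsum_congr fun L => ?_
  by_cases h : fp ht r L
  · have hle := le_HT_of_fp ht h
    by_cases h' : HT ht L ≤ r + i0
    · rw [w1, if_pos ⟨h, h'⟩, if_pos h, if_pos (by omega)]
    · rw [w1, if_neg (fun h'' => h' h''.2), if_pos h, if_neg (by omega), mul_zero, zero_mul]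
  · rw [w1, if_neg (fun h'' => h h''.1), if_neg h, zero_mul]

open Classical in
lemma w1_bad (r i0 : ℕ) (P : List B → Prop) (u : ℝ≥0∞)
    (h : ∑' L, (if fp ht r L ∧ ¬ P L then LW Λ L else 0) ≤ u) :
    ∑' L, w1 Λ ht r i0 L * (if P L then 0 else 1) ≤ u := by
  refine le_trans (ENNReal.tsum_le_tsum fun L => ?_) h
  by_cases h1 : fp ht r L ∧ HT ht L ≤ r + i0
  · by_cases h2 : P L
    · rw [if_pos h2, mul_zero]; exact bot_le
    · rw [if_neg h2, mul_one, w1, if_pos h1, if_pos ⟨h1.1, h2⟩]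
  · rw [w1, if_neg h1, zero_mul]; exact bot_le

end one

section two

variable {BX BY G : Type*} [AddCommGroup G]
  (ΛX : BX → ℝ≥0∞) (hX : BX → ℕ) (zX : BX → G) (ΛY : BY → ℝ≥0∞) (hY : BY → ℕ) (zY : BY → G)
  (TX : List BX → G → ℕ → Set (G × ℕ)) (TY : List BY → G → ℕ → Set (G × ℕ))

/-- contact event of two pieces -/
def ct (L : List BX) (a : ℕ) (L' : List BY) (x : G) (a' lo hi : ℕ) : Prop :=
  (∃ q, q ∈ TX L 0 a ∧ q ∈ TY L' x a') ∧ ∀ q, q ∈ TX L 0 a → q ∈ TY L' x a' → lo ≤ q.2 ∧ q.2 ≤ hi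

open Classical in
/-- weakest form of H2 / H3: `loc` says which walker is localised. -/
def Hw (C : ℝ≥0∞) (us : ℕ → ℕ → ℝ≥0∞) (loc : Finset G → List BX → List BY → Prop) : Prop :=
  ∀ (g s h h' a a' lo hi : ℕ) (E : Finset G) (μ : G → ℝ≥0∞) (M lam : ℝ≥0∞),
    ∑' x, μ x ≤ 1 → (∀ x, μ x ≤ M) → lam ≠ 0 → lam ≠ ⊤ → a ≤ a' + g → a' ≤ a + g →
    a + h ≤ a' + h' + g → a' + h' ≤ a + h + g → a + s ≤ lo → a' + s ≤ lo →
    hi + s ≤ a + h → hi + s ≤ a' + h' →
    ∑' x, μ x * ∑' L, ∑' L', (if HT hX L = h ∧ HT hY L' = h' ∧ loc E L L' ∧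
      ct TX TY L a L' x a' lo hi then LW ΛX L * LW ΛY L' else 0)
      ≤ C * (lam + M * E.card * us g s / lam + us g s)

open Classical in
lemma piece_sum (ℓ i0 : ℕ) (μ : G → ℝ≥0∞) (P : List BX → List BY → G → Prop) (R : ℝ≥0∞)
    (hR : ∀ i i', i ≤ i0 → i' ≤ i0 → ∑' x, μ x * ∑' L, ∑' L', (if HT hX L = ℓ + i ∧
      HT hY L' = ℓ + i' ∧ P L L' x then LW ΛX L * LW ΛY L' else 0) ≤ R) :
    ∑' x, μ x * (∑' L, w1 ΛX hX ℓ i0 L * ∑' L', w1 ΛY hY ℓ i0 L' * (if P L L' x then 1 else 0))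
      ≤ (i0 + 1 : ℕ) * ((i0 + 1 : ℕ) * R) := by
  have key : ∀ x, (∑' L, w1 ΛX hX ℓ i0 L * ∑' L', w1 ΛY hY ℓ i0 L' *
      (if P L L' x then 1 else 0)) ≤ ∑' i, ∑' i', (if i ≤ i0 then (if i' ≤ i0 then
        ∑' L, ∑' L', (if HT hX L = ℓ + i ∧ HT hY L' = ℓ + i' ∧ P L L' x then
          LW ΛX L * LW ΛY L' else 0) else 0) else 0) := by
    intro x
    have e : ∑' i, ∑' i', (if i ≤ i0 then (if i' ≤ i0 then
        ∑' L, ∑' L', (if HT hX L = ℓ + i ∧ HT hY L' = ℓ + i' ∧ P L L' x then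
          LW ΛX L * LW ΛY L' else 0) else 0) else 0)
        = ∑' L, ∑' L', ∑' i, ∑' i', (if i ≤ i0 then (if i' ≤ i0 then
          (if HT hX L = ℓ + i ∧ HT hY L' = ℓ + i' ∧ P L L' x then
          LW ΛX L * LW ΛY L' else 0) else 0) else 0) := by
      have e1 : ∀ i i', (if i ≤ i0 then (if i' ≤ i0 then
        ∑' L, ∑' L', (if HT hX L = ℓ + i ∧ HT hY L' = ℓ + i' ∧ P L L' x then
          LW ΛX L * LW ΛY L' else 0) else 0) else 0) = ∑' L, ∑' L', (if i ≤ i0 then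
          (if i' ≤ i0 then (if HT hX L = ℓ + i ∧ HT hY L' = ℓ + i' ∧ P L L' x then
          LW ΛX L * LW ΛY L' else 0) else 0) else 0) := by
        intro i i'
        by_cases h : i ≤ i0
        · by_cases h' : i' ≤ i0
          · simp only [if_pos h, if_pos h']
          · simp only [if_pos h, if_neg h', tsum_zero]
        · simp only [if_neg h, tsum_zero]
      simp_rw [e1]
      rw [tsum_congr fun i => ENNReal.tsum_comm, ENNReal.tsum_comm]
      refine tsum_congr fun L => ?_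
      rw [tsum_congr fun i => ENNReal.tsum_comm, ENNReal.tsum_comm]
    rw [e]
    refine ENNReal.tsum_le_tsum fun L => ?_
    rw [← ENNReal.tsum_mul_left]
    refine ENNReal.tsum_le_tsum fun L' => ?_
    by_cases a : fp hX ℓ L ∧ HT hX L ≤ ℓ + i0
    · by_cases a' : fp hY ℓ L' ∧ HT hY L' ≤ ℓ + i0
      · by_cases p : P L L' x
        · have l1 := le_HT_of_fp hX a.1
          have l2 := le_HT_of_fp hY a'.1
          refine le_trans ?_ (ENNReal.le_tsum (HT hX L - ℓ))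
          refine le_trans ?_ (ENNReal.le_tsum (HT hY L' - ℓ))
          have i1 : HT hX L - ℓ ≤ i0 := by omega
          have i2 : HT hY L' - ℓ ≤ i0 := by omega
          have i3 : HT hX L = ℓ + (HT hX L - ℓ) ∧ HT hY L' = ℓ + (HT hY L' - ℓ) ∧ P L L' x :=
            ⟨by omega, by omega, p⟩
          rw [if_pos i1, if_pos i2, if_pos i3, if_pos p, w1, w1, if_pos a, if_pos a', mul_one]
        · rw [if_neg p, mul_zero, mul_zero]; exact bot_le
      · simp only [w1, if_neg a', zero_mul, mul_zero]; exact bot_le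
    · simp only [w1, if_neg a, zero_mul]; exact bot_le
  calc ∑' x, μ x * (∑' L, w1 ΛX hX ℓ i0 L * ∑' L', w1 ΛY hY ℓ i0 L' *
        (if P L L' x then 1 else 0))
      ≤ ∑' x, μ x * ∑' i, ∑' i', (if i ≤ i0 then (if i' ≤ i0 then
        ∑' L, ∑' L', (if HT hX L = ℓ + i ∧ HT hY L' = ℓ + i' ∧ P L L' x then
          LW ΛX L * LW ΛY L' else 0) else 0) else 0) :=
        ENNReal.tsum_le_tsum fun x => mul_le_mul' le_rfl (key x)
    _ = ∑' i, (if i ≤ i0 then ∑' i', (if i' ≤ i0 then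
        ∑' x, μ x * ∑' L, ∑' L', (if HT hX L = ℓ + i ∧ HT hY L' = ℓ + i' ∧ P L L' x then
          LW ΛX L * LW ΛY L' else 0) else 0) else 0) := by
        simp_rw [← ENNReal.tsum_mul_left]
        rw [ENNReal.tsum_comm]
        refine tsum_congr fun i => ?_
        rw [ENNReal.tsum_comm]
        by_cases h : i ≤ i0
        · rw [if_pos h]
          refine tsum_congr fun i' => ?_
          by_cases h' : i' ≤ i0
          · simp only [if_pos h, if_pos h', ENNReal.tsum_mul_left]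
          · simp only [if_pos h, if_neg h', mul_zero, tsum_zero]
        · simp only [if_neg h, mul_zero, tsum_zero]
    _ ≤ _ := by
        refine tsum_le_nat i0 _ _ fun i hi => ?_
        exact tsum_le_nat i0 _ _ fun i' hi' => hR i i' hi hi'

open Classical in
/-- local case of the four-fold sum, X side law `f1`. -/
theorem local_four (h1X : ∀ b, 1 ≤ hX b) (hΛX : ∑' b, ΛX b = 1)
    (h1Y : ∀ b, 1 ≤ hY b) (hΛY : ∑' b, ΛY b = 1)
    (r i0 ℓ : ℕ) (w : G) (P : List BX → List BY → ℕ → ℕ → G → Prop) (R Gc : ℝ≥0∞)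
    (b : ℕ → G → ℝ≥0∞) (hb : ∀ j z, law ΛX hX zX r j z ≤ Gc + b j z)
    (hR : ∀ c c' i i', c ≤ i0 → c' ≤ i0 → i ≤ i0 → i' ≤ i0 → ∀ μ : G → ℝ≥0∞, ∑' x, μ x ≤ 1 →
      (∀ x, μ x ≤ Gc) → ∑' x, μ x * ∑' L, ∑' L', (if HT hX L = ℓ + i ∧
      HT hY L' = ℓ + i' ∧ P L L' c c' x then LW ΛX L * LW ΛY L' else 0) ≤ R) :
    ∑' L1, w1 ΛX hX r i0 L1 * ∑' L2, w1 ΛX hX ℓ i0 L2 *
        ∑' L1', w1 ΛY hY r i0 L1' * ∑' L2', w1 ΛY hY ℓ i0 L2' *
          (if P L2 L2' (HT hX L1 - r) (HT hY L1' - r) (w + Dp zY L1' - Dp zX L1) then 1 else 0)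
      ≤ (i0 + 1 : ℕ) * ((i0 + 1 : ℕ) * ((i0 + 1 : ℕ) * ((i0 + 1 : ℕ) * R)))
        + ∑' j, ∑' z, b j z := by
  set Φ : ℕ → ℕ → G → ℝ≥0∞ := fun c c' x => ∑' L, w1 ΛX hX ℓ i0 L * ∑' L', w1 ΛY hY ℓ i0 L' *
    (if P L L' c c' x then 1 else 0) with hΦ
  have hΦ1 : ∀ c c' x, Φ c c' x ≤ 1 := by
    intro c c' x
    calc Φ c c' x ≤ ∑' L, w1 ΛX hX ℓ i0 L * 1 := by
          refine ENNReal.tsum_le_tsum fun L => mul_le_mul' le_rfl ?_
          calc ∑' L', w1 ΛY hY ℓ i0 L' * (if P L L' c c' x then (1 : ℝ≥0∞) else 0)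
              ≤ ∑' L', w1 ΛY hY ℓ i0 L' * 1 := by
                refine ENNReal.tsum_le_tsum fun L' => mul_le_mul' le_rfl ?_
                split_ifs
                · exact le_rfl
                · exact zero_le_one
            _ ≤ 1 := by simpa using w1_sum ΛY hY h1Y hΛY.le ℓ i0
      _ ≤ 1 := by simpa using w1_sum ΛX hX h1X hΛX.le ℓ i0
  have e : ∑' L1, w1 ΛX hX r i0 L1 * ∑' L2, w1 ΛX hX ℓ i0 L2 *
        ∑' L1', w1 ΛY hY r i0 L1' * ∑' L2', w1 ΛY hY ℓ i0 L2' *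
          (if P L2 L2' (HT hX L1 - r) (HT hY L1' - r) (w + Dp zY L1' - Dp zX L1) then 1 else 0)
      = ∑' c, ∑' c', (if c ≤ i0 ∧ c' ≤ i0 then
      ∑' z, ∑' z', law ΛX hX zX r c z * law ΛY hY zY r c' z' * Φ c c' (w + z' - z) else 0) := by
    calc ∑' L1, w1 ΛX hX r i0 L1 * ∑' L2, w1 ΛX hX ℓ i0 L2 *
        ∑' L1', w1 ΛY hY r i0 L1' * ∑' L2', w1 ΛY hY ℓ i0 L2' *
          (if P L2 L2' (HT hX L1 - r) (HT hY L1' - r) (w + Dp zY L1' - Dp zX L1) then 1 else 0)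
        = ∑' L1, w1 ΛX hX r i0 L1 * (∑' c', ∑' z', law ΛY hY zY r c' z' * (if c' ≤ i0 then
            Φ (HT hX L1 - r) c' (w + z' - Dp zX L1) else 0)) := by
          refine tsum_congr fun L1 => ?_
          congr 1
          rw [← w1_int ΛY hY zY r i0 (fun c' z' => Φ (HT hX L1 - r) c' (w + z' - Dp zX L1))]
          simp_rw [hΦ, ← ENNReal.tsum_mul_left]
          rw [ENNReal.tsum_comm]
          refine tsum_congr fun L1' => tsum_congr fun L2 => tsum_congr fun L2' => ?_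
          ring
      _ = ∑' c, ∑' z, law ΛX hX zX r c z * (if c ≤ i0 then (∑' c', ∑' z',
            law ΛY hY zY r c' z' * (if c' ≤ i0 then Φ c c' (w + z' - z) else 0)) else 0) :=
          w1_int ΛX hX zX r i0 (fun c z => ∑' c', ∑' z', law ΛY hY zY r c' z' *
            (if c' ≤ i0 then Φ c c' (w + z' - z) else 0))
      _ = _ := by
          refine tsum_congr fun c => ?_
          by_cases h : c ≤ i0
          · simp only [true_and, h, if_true]
            simp_rw [← ENNReal.tsum_mul_left]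
            rw [ENNReal.tsum_comm]
            refine tsum_congr fun c' => ?_
            by_cases h' : c' ≤ i0
            · simp only [if_pos h', mul_assoc]
            · simp only [if_neg h', mul_zero, tsum_zero]
          · simp only [if_neg h, mul_zero, tsum_zero, h, false_and, if_false]
  rw [e]
  have hlX : ∑' z, ∑' c, law ΛX hX zX r c z ≤ 1 := by
    rw [ENNReal.tsum_comm]; exact (law_sum ΛX hX zX h1X hΛX r).le
  have hlY : ∑' z, ∑' c, law ΛY hY zY r c z ≤ 1 := by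
    rw [ENNReal.tsum_comm]; exact (law_sum ΛY hY zY h1Y hΛY r).le
  have := local_case (fun z c => law ΛX hX zX r c z) (fun z c => law ΛY hY zY r c z)
    (fun z c => b c z) i0 Gc ((i0 + 1 : ℕ) * ((i0 + 1 : ℕ) * R)) w Φ hΦ1 hlX hlY
    (fun z c => hb c z) ?_
  · refine this.trans (add_le_add le_rfl ?_)
    rw [ENNReal.tsum_comm]
  · intro c c' hc hc' μ hμ1 hμ2
    exact piece_sum ΛX hX ΛY hY ℓ i0 μ (fun L L' x => P L L' c c' x) R
      (fun i i' hi hi' => hR c c' i i' hc hc' hi hi' μ hμ1 hμ2)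

end two

end Crest.Agent.R154.Asm647
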