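import Crest.Agent.R154.AsmB_650

/-! Row 154, ROAD 801 (helper650): smoothing of the relative position at the top of a window, X or Y. -/

set_option autoImplicit false

namespace Crest.Agent.R154.Asm650

open Crest.Agent.R154.B5A
open scoped ENNReal

variable {BX BY G : Type*} [AddCommGroup G]
  (ΛX : BX → ℝ≥0∞) (hX : BX → ℕ) (zX : BX → G)
  (ΛY : BY → ℝ≥0∞) (hY : BY → ℕ) (zY : BY → G)

lemma EF_comm (T S : ℕ) (F : List BX → List BY → ℝ≥0∞) :
    EF ΛX hX T (fun P => EF ΛY hY S (fun Q => F P Q)) =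
      EF ΛY hY S (fun Q => EF ΛX hX T (fun P => F P Q)) := by
  classical
  have e1 : ∀ P, (if FP hX T P then LW ΛX P * EF ΛY hY S (fun Q => F P Q) else 0) =
      ∑' Q, (if FP hX T P ∧ FP hY S Q then LW ΛX P * (LW ΛY Q * F P Q) else 0) := by
    intro P
    by_cases hP : FP hX T P
    · rw [if_pos hP, EF, ← ENNReal.tsum_mul_left]
      refine tsum_congr fun Q => ?_
      by_cases hQ : FP hY S Q <;> simp [hP, hQ]
    · simp [hP]
  have e2 : ∀ Q, (if FP hY S Q then LW ΛY Q * EF ΛX hX T (fun P => F P Q) else 0) =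
      ∑' P, (if FP hX T P ∧ FP hY S Q then LW ΛX P * (LW ΛY Q * F P Q) else 0) := by
    intro Q
    by_cases hQ : FP hY S Q
    · rw [if_pos hQ, EF, ← ENNReal.tsum_mul_left]
      refine tsum_congr fun P => ?_
      by_cases hP : FP hX T P
      · simp only [hP, hQ, and_self, if_true]; ring
      · simp [hP]
    · simp [hQ]
  rw [EF, EF]
  simp_rw [e1, e2]
  rw [ENNReal.tsum_comm]

lemma fl_eq_att {B : Type*} (Λ : B → ℝ≥0∞) (ht : B → ℕ) (dz : B → G) (r i : ℕ) (z : G) :
    fl Λ ht dz r (z, ((r + i : ℕ) : ℤ)) = att Λ ht dz r i z := by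
  classical
  rw [fl, att]
  congr 1
  funext L
  refine if_congr ?_ rfl rfl
  simp only
  rw [Nat.cast_inj]

/-- split of the first passage law in a smooth part and a small part -/
lemma att_split {B : Type*} (Λ : B → ℝ≥0∞) (ht : B → ℕ) (dz : B → G) (r : ℕ) (Gc β : ℝ≥0∞)
    (h : ∃ b : G × ℤ → ℝ≥0∞, (∑' x, b x ≤ β) ∧ ∀ x, fl Λ ht dz r x ≤ Gc + b x) :
    ∃ c : ℕ → G → ℝ≥0∞, (∑' i, ∑' z, c i z ≤ β) ∧
      ∀ i z, att Λ ht dz r i z ≤ min (att Λ ht dz r i z) Gc + c i z := by
  obtain ⟨b, hb1, hb2⟩ := h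
  refine ⟨fun i z => b (z, ((r + i : ℕ) : ℤ)), ?_, fun i z => ?_⟩
  · rw [← ENNReal.tsum_prod]
    refine le_trans ?_ hb1
    refine ENNReal.tsum_comp_le_tsum_of_injective (f := fun p : ℕ × G => ((p.2, ((r + p.1 : ℕ) : ℤ)) :
      G × ℤ)) ?_ b
    rintro ⟨i, z⟩ ⟨i', z'⟩ he
    simp only [Prod.mk.injEq, Nat.cast_inj] at he
    exact Prod.ext (by simp only; omega) he.1
  · rcases le_total (att Λ ht dz r i z) Gc with hle | hle
    · rw [min_eq_left hle]; exact le_self_add
    · rw [min_eq_right hle, ← fl_eq_att]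
      exact hb2 _

/-- total mass at each overshoot -/
lemma att_row {B : Type*} (Λ : B → ℝ≥0∞) (ht : B → ℕ) (dz : B → G) (h1 : ∀ b, 1 ≤ ht b)
    (hΛ : ∑' b, Λ b ≤ 1) (r : ℕ) : ∑' i, ∑' z, att Λ ht dz r i z ≤ 1 := by
  have := EF_law Λ ht dz r (fun _ _ => 1)
  simp only [mul_one] at this
  rw [← this]
  exact EF_one_le Λ ht h1 hΛ r

open Classical in
/-- **smoothing by X** -/
theorem smoothX (h1X : ∀ b, 1 ≤ hX b) (hΛX : ∑' b, ΛX b ≤ 1) (h1Y : ∀ b, 1 ≤ hY b)
    (hΛY : ∑' b, ΛY b ≤ 1) (α i0 : ℕ) (w : G) (Gc β D : ℝ≥0∞)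
    (hb : ∃ b : G × ℤ → ℝ≥0∞, (∑' x, b x ≤ β) ∧ ∀ x, fl ΛX hX zX α x ≤ Gc + b x)
    (Θ : ℕ → ℕ → G → ℝ≥0∞) (hΘ : ∀ a a' x, Θ a a' x ≤ 1)
    (hD : ∀ i ≤ i0, ∀ i' ≤ i0, ∀ μ : G → ℝ≥0∞, ∑' x, μ x ≤ 1 → (∀ x, μ x ≤ Gc) →
      ∑' x, μ x * Θ (α + i) (α + i') x ≤ D) :
    EF ΛX hX α (fun A => if HT hX A ≤ α + i0 then EF ΛY hY α (fun A' =>
      if HT hY A' ≤ α + i0 then Θ (HT hX A) (HT hY A') (w + Dp zY A' - Dp zX A) else 0) else 0)
      ≤ ((i0 + 1) * (i0 + 1) : ℕ) * D + β := by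
  obtain ⟨c, hc1, hc2⟩ := att_split ΛX hX zX α Gc β hb
  set Γ : ℕ → G → ℝ≥0∞ := fun a z => EF ΛY hY α (fun A' =>
    if HT hY A' ≤ α + i0 then Θ a (HT hY A') (w + Dp zY A' - z) else 0) with hΓ
  have hΓ1 : ∀ a z, Γ a z ≤ 1 := fun a z =>
    EF_const_le ΛY hY h1Y hΛY α 1 _ fun A' _ => by
      split_ifs
      · exact hΘ _ _ _
      · exact zero_le
  have e1 := EF_law ΛX hX zX α (fun a z => if a ≤ α + i0 then Γ a z else 0)
  change EF ΛX hX α (fun A => if HT hX A ≤ α + i0 then Γ (HT hX A) (Dp zX A) else 0) ≤ _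
  rw [e1]
  have e2 : ∀ i z, att ΛX hX zX α i z * (if α + i ≤ α + i0 then Γ (α + i) z else 0) ≤
      (if i ≤ i0 then min (att ΛX hX zX α i z) Gc * Γ (α + i) z else 0) + c i z := by
    intro i z
    by_cases hi : i ≤ i0
    · rw [if_pos (by omega), if_pos hi]
      calc _ ≤ (min (att ΛX hX zX α i z) Gc + c i z) * Γ (α + i) z :=
            mul_le_mul_left (hc2 i z) _
        _ = min (att ΛX hX zX α i z) Gc * Γ (α + i) z + c i z * Γ (α + i) z := add_mul _ _ _
        _ ≤ min (att ΛX hX zX α i z) Gc * Γ (α + i) z + c i z * 1 := by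
            gcongr; exact hΓ1 _ _
        _ = _ := by rw [mul_one]
    · rw [if_neg (by omega), mul_zero]; exact zero_le
  refine (ENNReal.tsum_le_tsum fun i => ENNReal.tsum_le_tsum fun z => e2 i z).trans ?_
  simp_rw [ENNReal.tsum_add]
  refine add_le_add ?_ hc1
  -- the smooth part
  have e3 : ∀ i, i ≤ i0 → ∑' z, min (att ΛX hX zX α i z) Gc * Γ (α + i) z ≤
      ((i0 + 1 : ℕ) : ℝ≥0∞) * D := by
    intro i hi
    have e4 : ∀ z, Γ (α + i) z = ∑' i', ∑' z', att ΛY hY zY α i' z' *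
        (if i' ≤ i0 then Θ (α + i) (α + i') (w + z' - z) else 0) := by
      intro z
      have := EF_law ΛY hY zY α (fun a' z' => if a' ≤ α + i0 then Θ (α + i) a' (w + z' - z) else 0)
      rw [hΓ]
      simp only
      rw [this]
      refine tsum_congr fun i' => tsum_congr fun z' => ?_
      by_cases h : i' ≤ i0
      · rw [if_pos (by omega), if_pos h]
      · rw [if_neg (by omega), if_neg h]
    have e5 : ∑' z, min (att ΛX hX zX α i z) Gc * Γ (α + i) z =
        ∑' i', ∑' x, (∑' z', att ΛY hY zY α i' z' * min (att ΛX hX zX α i (w + z' - x)) Gc) *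
          (if i' ≤ i0 then Θ (α + i) (α + i') x else 0) := by
      simp_rw [e4, ← ENNReal.tsum_mul_left, ← ENNReal.tsum_mul_right]
      rw [ENNReal.tsum_comm]
      refine tsum_congr fun i' => ?_
      rw [ENNReal.tsum_comm]
      have : (∑' x, ∑' z', att ΛY hY zY α i' z' * min (att ΛX hX zX α i (w + z' - x)) Gc *
          (if i' ≤ i0 then Θ (α + i) (α + i') x else 0)) =
          ∑' z', ∑' x, att ΛY hY zY α i' z' * min (att ΛX hX zX α i (w + z' - x)) Gc *
          (if i' ≤ i0 then Θ (α + i) (α + i') x else 0) := ENNReal.tsum_comm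
      rw [this]
      refine tsum_congr fun z' => ?_
      rw [← (Equiv.subLeft (w + z')).tsum_eq (fun z => min (att ΛX hX zX α i z) Gc *
        (att ΛY hY zY α i' z' * (if i' ≤ i0 then Θ (α + i) (α + i') (w + z' - z) else 0)))]
      refine tsum_congr fun x => ?_
      simp only [Equiv.subLeft_apply]
      rw [sub_sub_cancel]
      ring
    rw [e5]
    calc _ ≤ ∑' i', (if i' ≤ i0 then D else 0) := by
          refine ENNReal.tsum_le_tsum fun i' => ?_
          by_cases h : i' ≤ i0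
          · rw [if_pos h]
            simp only [if_pos h]
            refine hD i hi i' h _ ?_ ?_
            · rw [ENNReal.tsum_comm]
              calc _ = ∑' z', att ΛY hY zY α i' z' * ∑' x, min (att ΛX hX zX α i (w + z' - x)) Gc :=
                    tsum_congr fun z' => ENNReal.tsum_mul_left
                _ ≤ ∑' z', att ΛY hY zY α i' z' * 1 := by
                    refine ENNReal.tsum_le_tsum fun z' => mul_le_mul_right ?_ _
                    have hh : ∑' x, min (att ΛX hX zX α i (w + z' - x)) Gc =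
                        ∑' z, min (att ΛX hX zX α i z) Gc :=
                      (Equiv.subLeft (w + z')).tsum_eq (fun z => min (att ΛX hX zX α i z) Gc)
                    rw [hh]
                    calc _ ≤ ∑' z, att ΛX hX zX α i z :=
                          ENNReal.tsum_le_tsum fun z => min_le_left _ _
                      _ ≤ ∑' i, ∑' z, att ΛX hX zX α i z :=
                          ENNReal.le_tsum (f := fun i => ∑' z, att ΛX hX zX α i z) i
                      _ ≤ 1 := att_row ΛX hX zX h1X hΛX α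
                _ = ∑' z', att ΛY hY zY α i' z' := by simp
                _ ≤ ∑' i, ∑' z, att ΛY hY zY α i z :=
                    ENNReal.le_tsum (f := fun i => ∑' z, att ΛY hY zY α i z) i'
                _ ≤ 1 := att_row ΛY hY zY h1Y hΛY α
            · intro x
              calc _ ≤ ∑' z', att ΛY hY zY α i' z' * Gc :=
                    ENNReal.tsum_le_tsum fun z' => mul_le_mul_right (min_le_right _ _) _
                _ = (∑' z', att ΛY hY zY α i' z') * Gc := ENNReal.tsum_mul_right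
                _ ≤ 1 * Gc := by
                    refine mul_le_mul_left ?_ _
                    exact (ENNReal.le_tsum (f := fun i => ∑' z, att ΛY hY zY α i z) i').trans
                      (att_row ΛY hY zY h1Y hΛY α)
                _ = Gc := one_mul _
          · simp [h]
      _ = ∑ i' ∈ Finset.range (i0 + 1), D := by
          rw [tsum_eq_sum (s := Finset.range (i0 + 1))]
          · refine Finset.sum_congr rfl fun i hi => ?_
            rw [if_pos (by have := Finset.mem_range.1 hi; omega)]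
          · intro i hi
            rw [if_neg (by intro h; exact hi (Finset.mem_range.2 (by omega)))]
      _ = _ := by simp
  calc _ = ∑' i, (if i ≤ i0 then ∑' z, min (att ΛX hX zX α i z) Gc * Γ (α + i) z else 0) := by
        refine tsum_congr fun i => ?_
        by_cases h : i ≤ i0 <;> simp [h]
    _ ≤ ∑' i, (if i ≤ i0 then ((i0 + 1 : ℕ) : ℝ≥0∞) * D else 0) := by
        refine ENNReal.tsum_le_tsum fun i => ?_
        by_cases h : i ≤ i0
        · simp only [h, if_true]; exact e3 i h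
        · simp [h]
    _ = ∑ i ∈ Finset.range (i0 + 1), ((i0 + 1 : ℕ) : ℝ≥0∞) * D := by
        rw [tsum_eq_sum (s := Finset.range (i0 + 1))]
        · refine Finset.sum_congr rfl fun i hi => ?_
          rw [if_pos (by have := Finset.mem_range.1 hi; omega)]
        · intro i hi
          rw [if_neg (by intro h; exact hi (Finset.mem_range.2 (by omega)))]
    _ = _ := by
        rw [Finset.sum_const, Finset.card_range, nsmul_eq_mul]
        push_cast; ring

open Classical in
/-- **smoothing by Y** -/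
theorem smoothY (h1X : ∀ b, 1 ≤ hX b) (hΛX : ∑' b, ΛX b ≤ 1) (h1Y : ∀ b, 1 ≤ hY b)
    (hΛY : ∑' b, ΛY b ≤ 1) (α i0 : ℕ) (w : G) (Gc β D : ℝ≥0∞)
    (hb : ∃ b : G × ℤ → ℝ≥0∞, (∑' x, b x ≤ β) ∧ ∀ x, fl ΛY hY zY α x ≤ Gc + b x)
    (Θ : ℕ → ℕ → G → ℝ≥0∞) (hΘ : ∀ a a' x, Θ a a' x ≤ 1)
    (hD : ∀ i ≤ i0, ∀ i' ≤ i0, ∀ μ : G → ℝ≥0∞, ∑' x, μ x ≤ 1 → (∀ x, μ x ≤ Gc) →
      ∑' x, μ x * Θ (α + i) (α + i') x ≤ D) :
    EF ΛX hX α (fun A => if HT hX A ≤ α + i0 then EF ΛY hY α (fun A' =>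
      if HT hY A' ≤ α + i0 then Θ (HT hX A) (HT hY A') (w + Dp zY A' - Dp zX A) else 0) else 0)
      ≤ ((i0 + 1) * (i0 + 1) : ℕ) * D + β := by
  have hsw : EF ΛX hX α (fun A => if HT hX A ≤ α + i0 then EF ΛY hY α (fun A' =>
      if HT hY A' ≤ α + i0 then Θ (HT hX A) (HT hY A') (w + Dp zY A' - Dp zX A) else 0) else 0) =
      EF ΛY hY α (fun A' => if HT hY A' ≤ α + i0 then EF ΛX hX α (fun A =>
      if HT hX A ≤ α + i0 then (fun a' a x => Θ a a' (-x)) (HT hY A') (HT hX A)
        (-w + Dp zX A - Dp zY A') else 0) else 0) := by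
    have e1 : ∀ A, (if HT hX A ≤ α + i0 then EF ΛY hY α (fun A' =>
        if HT hY A' ≤ α + i0 then Θ (HT hX A) (HT hY A') (w + Dp zY A' - Dp zX A) else 0) else 0) =
        EF ΛY hY α (fun A' => if HT hX A ≤ α + i0 ∧ HT hY A' ≤ α + i0 then
          Θ (HT hX A) (HT hY A') (w + Dp zY A' - Dp zX A) else 0) := by
      intro A
      by_cases h : HT hX A ≤ α + i0
      · simp [h]
      · simp [h, EF]
    have e2 : ∀ A', (if HT hY A' ≤ α + i0 then EF ΛX hX α (fun A =>
        if HT hX A ≤ α + i0 then (fun a' a x => Θ a a' (-x)) (HT hY A') (HT hX A)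
        (-w + Dp zX A - Dp zY A') else 0) else 0) =
        EF ΛX hX α (fun A => if HT hX A ≤ α + i0 ∧ HT hY A' ≤ α + i0 then
          Θ (HT hX A) (HT hY A') (w + Dp zY A' - Dp zX A) else 0) := by
      intro A'
      have : ∀ A, -(-w + Dp zX A - Dp zY A') = w + Dp zY A' - Dp zX A := fun A => by abel
      by_cases h : HT hY A' ≤ α + i0
      · simp [h, this]
      · simp [h, EF]
    simp_rw [e1, e2]
    exact EF_comm ΛX hX ΛY hY α α _
  rw [hsw]
  refine smoothX ΛY hY zY ΛX hX zX h1Y hΛY h1X hΛX α i0 (-w) Gc β D hb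
    (fun a' a x => Θ a a' (-x)) (fun a' a x => hΘ a a' (-x)) ?_
  intro i' hi' i hi μ hμ1 hμ2
  have h := hD i hi i' hi' (fun x => μ (-x)) (by
    have hh : ∑' x, μ (-x) = ∑' x, μ x := (Equiv.neg G).tsum_eq (fun x => μ x)
    rw [hh]; exact hμ1) (fun x => hμ2 (-x))
  refine le_trans (le_of_eq ?_) h
  rw [← (Equiv.neg G).tsum_eq (fun x => μ x * Θ (α + i) (α + i') (-x))]
  refine tsum_congr fun x => ?_
  simp only [Equiv.neg_apply, neg_neg]

end Crest.Agent.R154.Asm650
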