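import Crest.Agent.R154.AsmB_667

/-! Row 154, ROAD 801 (helper667): abstract assembly, one window. -/

set_option autoImplicit false

namespace Crest.Agent.R154.AsmR667

open scoped ENNReal Classical Topology
open Filter
open Crest.Agent.R154.B5A (LW HT LW_nil LW_cons LW_append HT_nil HT_cons HT_append tsum_list U tail)

section one

variable {B G : Type*} [AddCommGroup G] (Λ : B → ℝ≥0∞) (ht : B → ℕ) (z : B → G)

lemma loc_data (h1 : ∀ b, 1 ≤ ht b) (hΛ : ∑' b, Λ b = 1) (T i0 : ℕ) {u : ℝ≥0∞} (hu0 : u ≠ 0)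
    (hu1 : u ≤ 1) : ∃ th : ℝ≥0∞, th ≠ 0 ∧ th ≤ 1 ∧
      EA Λ ht T (fun P => if F Λ ht z T (HT ht P - T) (Dp z P) < th then 1 else 0) ≤ u ∧
      (∑' i, ∑' x, (if i ≤ i0 ∧ th < F Λ ht z T i x then F Λ ht z T i x else 0)) ≤ 1 - u := by
  obtain ⟨th, h0, h1', h2, h3⟩ := Dens903.quantile (fun q : ℕ × G => F Λ ht z T q.1 q.2)
    (by rw [ENNReal.tsum_prod (f := fun i x => F Λ ht z T i x)]; exact F_sum Λ ht z h1 hΛ T) hu0 hu1
  refine ⟨th, h0, h1', ?_, ?_⟩
  · rw [EA_push Λ ht z T (fun h x => if F Λ ht z T (h - T) x < th then 1 else 0)]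
    refine le_trans (le_of_eq ?_) h2
    rw [← ENNReal.tsum_prod (f := fun i x => F Λ ht z T i x *
      (if F Λ ht z T (T + i - T) x < th then 1 else 0))]
    refine tsum_congr fun q => ?_
    rw [Nat.add_sub_cancel_left]
    split_ifs <;> simp
  · have e : (∑' q : ℕ × G, (if F Λ ht z T q.1 q.2 ≤ th then F Λ ht z T q.1 q.2 else 0))
        + (∑' q : ℕ × G, (if q.1 ≤ i0 ∧ th < F Λ ht z T q.1 q.2 then F Λ ht z T q.1 q.2 else 0))
        ≤ 1 := by
      rw [← ENNReal.tsum_add]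
      refine le_trans ?_ (le_of_eq ((ENNReal.tsum_prod (f := fun i x => F Λ ht z T i x)).trans
        (F_sum Λ ht z h1 hΛ T)))
      refine ENNReal.tsum_le_tsum fun q => ?_
      by_cases h : F Λ ht z T q.1 q.2 ≤ th
      · rw [if_pos h, if_neg (fun h' => absurd h'.2 (not_lt.2 h)), add_zero]
      · rw [if_neg h, zero_add]
        split_ifs
        · exact le_rfl
        · exact zero_le
    rw [← ENNReal.tsum_prod (f := fun i x => if i ≤ i0 ∧ th < F Λ ht z T i x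
      then F Λ ht z T i x else 0)]
    refine ENNReal.le_sub_of_add_le_left (ne_top_of_le_ne_top ENNReal.one_ne_top hu1) ?_
    exact (add_le_add h3 le_rfl).trans e

lemma E_fin (h1 : ∀ b, 1 ≤ ht b) (hΛ : ∑' b, Λ b = 1) (T j : ℕ) {th : ℝ≥0∞} (hth : th ≠ 0) :
    ∃ E : Finset G, (∀ x, th ≤ F Λ ht z T j x → x ∈ E) ∧ th * (E.card : ℝ≥0∞) ≤ 1 := by
  have hs := F_sum_le Λ ht z h1 hΛ T j
  have hfin : {x | th ≤ F Λ ht z T j x}.Finite :=
    ENNReal.finite_const_le_of_tsum_ne_top (ne_top_of_le_ne_top ENNReal.one_ne_top hs) hth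
  refine ⟨hfin.toFinset, fun x hx => by simpa using hx, ?_⟩
  calc th * (hfin.toFinset.card : ℝ≥0∞) = ∑ _x ∈ hfin.toFinset, th := by
        rw [Finset.sum_const, nsmul_eq_mul, mul_comm]
    _ ≤ ∑ x ∈ hfin.toFinset, F Λ ht z T j x := Finset.sum_le_sum fun x hx => by
        simpa using hx
    _ ≤ ∑' x, F Λ ht z T j x := ENNReal.sum_le_tsum _
    _ ≤ 1 := hs

end one

section pair

variable {BX BY G : Type*} [AddCommGroup G] (ΛX : BX → ℝ≥0∞) (ΛY : BY → ℝ≥0∞) (hX : BX → ℕ)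
  (hY : BY → ℕ) (zX : BX → G) (zY : BY → G) (sX : BX → Set (G × ℕ)) (sY : BY → Set (G × ℕ))

/-- event of a pair of pieces -/
def Ev (lo hi a a' : ℕ) (x : G) (P : List BX) (P' : List BY) : Prop :=
  (∃ y k, (y, k) ∈ TT sX hX zX P 0 a ∧ (y, k) ∈ TT sY hY zY P' x a') ∧
    ∀ y k, (y, k) ∈ TT sX hX zX P 0 a → (y, k) ∈ TT sY hY zY P' x a' → lo ≤ k ∧ k ≤ hi

lemma geo (hsX : ∀ b, ∀ q ∈ sX b, 1 ≤ q.2 ∧ q.2 ≤ hX b)
    (hsY : ∀ b, ∀ q ∈ sY b, 1 ≤ q.2 ∧ q.2 ≤ hY b) (ℓ T i0 lo hi : ℕ) (w : G)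
    (hlo : ℓ + 2 * i0 < lo)
    (A P R : List BX) (A' P' R' : List BY) (hA : ℓ ≤ HT hX A) (hA2 : HT hX A ≤ ℓ + i0)
    (hP : T ≤ HT hX P) (hP2 : HT hX P ≤ T + i0) (hA' : ℓ + i0 ≤ HT hY A')
    (hA2' : HT hY A' ≤ ℓ + i0 + i0) (hP' : T + i0 ≤ HT hY P')
    (h1 : ∃ y k, (y, k) ∈ TT sX hX zX (A ++ (P ++ R)) 0 0 ∧
      (y, k) ∈ TT sY hY zY (A' ++ (P' ++ R')) w 0 ∧ ℓ < k ∧ k ≤ ℓ + T)
    (h2 : ∀ y k, (y, k) ∈ TT sX hX zX (A ++ (P ++ R)) 0 0 →
      (y, k) ∈ TT sY hY zY (A' ++ (P' ++ R')) w 0 → ℓ < k → k ≤ ℓ + T + 2 * i0 →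
      lo ≤ k ∧ k ≤ hi) :
    Ev hX hY zX zY sX sY lo hi (HT hX A) (HT hY A') (w + Dp zY A' - Dp zX A) P P' := by
  have eX : TT sX hX zX (A ++ (P ++ R)) 0 0 = TT sX hX zX A 0 0 ∪
      (TT sX hX zX P (0 + Dp zX A) (0 + HT hX A) ∪
        TT sX hX zX R (0 + Dp zX A + Dp zX P) (0 + HT hX A + HT hX P)) := by
    rw [TT_append, TT_append]
  have eY : TT sY hY zY (A' ++ (P' ++ R')) w 0 = TT sY hY zY A' w 0 ∪
      (TT sY hY zY P' (w + Dp zY A') (0 + HT hY A') ∪
        TT sY hY zY R' (w + Dp zY A' + Dp zY P') (0 + HT hY A' + HT hY P')) := by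
    rw [TT_append, TT_append]
  have shX : ∀ y k, (y, k) ∈ TT sX hX zX P (0 + Dp zX A) (0 + HT hX A) ↔
      (y - Dp zX A, k) ∈ TT sX hX zX P 0 (HT hX A) := by
    intro y k; rw [TT_shift, zero_add (HT hX A)]
  have shY : ∀ y k, (y, k) ∈ TT sY hY zY P' (w + Dp zY A') (0 + HT hY A') ↔
      (y - Dp zX A, k) ∈ TT sY hY zY P' (w + Dp zY A' - Dp zX A) (HT hY A') := by
    intro y k
    rw [← TT_shift, zero_add (HT hY A'), sub_add_cancel]
  refine ⟨?_, ?_⟩
  · obtain ⟨y, k, hx, hy, hk1, hk2⟩ := h1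
    obtain ⟨h3, h4⟩ := h2 y k hx hy hk1 (by omega)
    refine ⟨y - Dp zX A, k, ?_, ?_⟩
    · rw [← shX]
      rw [eX] at hx
      rcases hx with hx | hx | hx
      · have := TT_depth _ _ _ hsX _ _ _ _ hx; simp only at this; omega
      · exact hx
      · have := TT_depth _ _ _ hsX _ _ _ _ hx; simp only at this; omega
    · rw [← shY]
      rw [eY] at hy
      rcases hy with hy | hy | hy
      · have := TT_depth _ _ _ hsY _ _ _ _ hy; simp only at this; omega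
      · exact hy
      · have := TT_depth _ _ _ hsY _ _ _ _ hy; simp only at this; omega
  · intro y k hx hy
    have hd := TT_depth _ _ _ hsX _ _ _ _ hx
    simp only at hd
    refine h2 (y + Dp zX A) k ?_ ?_ (by omega) (by omega)
    · rw [eX]
      refine Or.inr (Or.inl ?_)
      rw [shX, add_sub_cancel_right]; exact hx
    · rw [eY]
      refine Or.inr (Or.inl ?_)
      rw [shY, add_sub_cancel_right]; exact hy

/-- expansion of a product of two integrals -/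
lemma exp2 (T T' : ℕ) (c : List BX → ℝ≥0∞) (d : List BX → List BY → ℝ≥0∞) :
    EA ΛX hX T (fun P => c P * EA ΛY hY T' (fun P' => d P P')) = ∑' P, ∑' P',
      if FP hX T P ∧ FP hY T' P' then LW ΛX P * LW ΛY P' * (c P * d P P') else 0 := by
  rw [EA]
  refine tsum_congr fun P => ?_
  by_cases hP : FP hX T P
  · rw [if_pos hP, EA, ← ENNReal.tsum_mul_left, ← ENNReal.tsum_mul_left]
    refine tsum_congr fun P' => ?_
    by_cases hP' : FP hY T' P'
    · rw [if_pos hP', if_pos ⟨hP, hP'⟩]; ring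
    · rw [if_neg hP', if_neg (fun h => hP' h.2), mul_zero, mul_zero]
  · rw [if_neg hP]
    symm
    refine ENNReal.tsum_eq_zero.2 fun P' => ?_
    rw [if_neg (fun h => hP h.1)]

/-- the joint integral over the pieces is a finite sum over the heights -/
lemma sum_heights (T T' i0 : ℕ) (c : List BX → ℝ≥0∞) (d : List BX → List BY → ℝ≥0∞)
    (q : ℕ → ℕ → List BX → List BY → Prop) [∀ j j' P P', Decidable (q j j' P P')]
    (hcd : ∀ P P', FP hX T P → FP hY T' P' → c P * d P P' ≠ 0 →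
      HT hX P ≤ T + i0 ∧ HT hY P' ≤ T' + i0 ∧ c P * d P P' ≤ 1 ∧
        q (HT hX P - T) (HT hY P' - T') P P') :
    EA ΛX hX T (fun P => c P * EA ΛY hY T' (fun P' => d P P')) ≤
      ∑ j ∈ Finset.range (i0 + 1), ∑ j' ∈ Finset.range (i0 + 1),
        ∑' P, ∑' P', if q j j' P P' then LW ΛX P * LW ΛY P' else 0 := by
  rw [exp2]
  have e : (∑ j ∈ Finset.range (i0 + 1), ∑ j' ∈ Finset.range (i0 + 1),
        ∑' P, ∑' P', if q j j' P P' then LW ΛX P * LW ΛY P' else 0)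
      = ∑' P, ∑' P', ∑ j ∈ Finset.range (i0 + 1), ∑ j' ∈ Finset.range (i0 + 1),
        if q j j' P P' then LW ΛX P * LW ΛY P' else 0 := by
    rw [Finset.sum_congr rfl fun j _ => (Summable.tsum_finsetSum
      (fun j' _ => ENNReal.summable)).symm]
    rw [(Summable.tsum_finsetSum (fun j _ => ENNReal.summable)).symm]
    refine tsum_congr fun P => ?_
    rw [Finset.sum_congr rfl fun j _ => (Summable.tsum_finsetSum
      (fun j' _ => ENNReal.summable)).symm]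
    rw [(Summable.tsum_finsetSum (fun j _ => ENNReal.summable)).symm]
  rw [e]
  refine ENNReal.tsum_le_tsum fun P => ENNReal.tsum_le_tsum fun P' => ?_
  by_cases hPP : FP hX T P ∧ FP hY T' P'
  · rw [if_pos hPP]
    by_cases h0 : c P * d P P' = 0
    · rw [h0, mul_zero]; exact zero_le
    · obtain ⟨a1, a2, a3, a4⟩ := hcd P P' hPP.1 hPP.2 h0
      calc LW ΛX P * LW ΛY P' * (c P * d P P') ≤ LW ΛX P * LW ΛY P' * 1 := mul_le_mul_right a3 _
        _ = if q (HT hX P - T) (HT hY P' - T') P P' then LW ΛX P * LW ΛY P' else 0 := by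
            rw [if_pos a4, mul_one]
        _ ≤ ∑ j' ∈ Finset.range (i0 + 1),
            if q (HT hX P - T) j' P P' then LW ΛX P * LW ΛY P' else 0 :=
            Finset.single_le_sum (f := fun j' => if q (HT hX P - T) j' P P'
              then LW ΛX P * LW ΛY P' else 0) (fun _ _ => zero_le)
              (Finset.mem_range.2 (by omega))
        _ ≤ _ := Finset.single_le_sum (f := fun j => ∑ j' ∈ Finset.range (i0 + 1),
            if q j j' P P' then LW ΛX P * LW ΛY P' else 0) (fun _ _ => zero_le)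
              (Finset.mem_range.2 (by omega))
  · rw [if_neg hPP]; exact zero_le

end pair

end Crest.Agent.R154.AsmR667
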