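import Crest.Agent.R154.AsmB_738

/-! Row 154, ROAD 801: the abstract assembly, part 3 (helper738): one window. -/

set_option autoImplicit false

open scoped ENNReal
open Crest.Agent.R154.B5A (LW HT LW_nil LW_cons LW_append HT_nil HT_cons HT_append tsum_list U)

namespace Crest.Agent.R154.Asm738

variable {G : Type*} [AddCommGroup G]

open Classical in
lemma red (F : ℤ × G → ℝ≥0∞) (α : ℤ) :
    ∑' ζ : ℤ × G, (if ζ.1 = α then F ζ else 0) = ∑' x, F (α, x) := by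
  rw [ENNReal.tsum_prod', tsum_eq_single α]
  · simp
  · intro r hr; simp [hr]

lemma slice_le (g : ℤ × G → ℝ≥0∞) (α : ℤ) : ∑' x, g (α, x) ≤ ∑' ζ, g ζ :=
  ENNReal.tsum_comp_le_tsum_of_injective (f := fun x : G => ((α, x) : ℤ × G))
    (fun x y h => congrArg Prod.snd h) g

open Classical in
lemma core (g1 g2 : ℤ × G → ℝ≥0∞) (hs1 : ∑' ζ, g1 ζ ≤ 1) (hs2 : ∑' ζ, g2 ζ ≤ 1) (M R : ℝ≥0∞)
    (hM : (∀ ζ, g1 ζ ≤ M) ∨ ∀ ζ, g2 ζ ≤ M) (w : G) (SX SY : Finset ℕ)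
    (Q : ℤ × G → ℤ × G → ℝ≥0∞) (q : ℕ → ℕ → G → ℝ≥0∞)
    (hQ : ∀ ζ ζ', Q ζ ζ' ≤ ∑ α ∈ SX, ∑ β ∈ SY,
      if ζ.1 = (α:ℤ) ∧ ζ'.1 = (β:ℤ) then q α β (w + ζ'.2 - ζ.2) else 0)
    (hq : ∀ α ∈ SX, ∀ β ∈ SY, ∀ μ : G → ℝ≥0∞, ∑' x, μ x ≤ 1 → (∀ x, μ x ≤ M) →
      ∑' x, μ x * q α β x ≤ R) :
    ∑' ζ, g1 ζ * ∑' ζ', g2 ζ' * Q ζ ζ' ≤ SX.card * (SY.card * R) := by
  have one : ∀ α ∈ SX, ∀ β ∈ SY, ∑' ζ : ℤ × G, ∑' ζ' : ℤ × G, g1 ζ * (g2 ζ' *
      (if ζ.1 = (α:ℤ) ∧ ζ'.1 = (β:ℤ) then q α β (w + ζ'.2 - ζ.2) else 0)) ≤ R := by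
    intro α hα β hβ
    have e1 : ∀ ζ : ℤ × G, (∑' ζ' : ℤ × G, g1 ζ * (g2 ζ' *
        (if ζ.1 = (α:ℤ) ∧ ζ'.1 = (β:ℤ) then q α β (w + ζ'.2 - ζ.2) else 0)))
        = if ζ.1 = (α:ℤ) then g1 ζ * ∑' x', g2 ((β:ℤ), x') * q α β (w + x' - ζ.2) else 0 := by
      intro ζ
      by_cases hζ : ζ.1 = (α:ℤ)
      · rw [if_pos hζ, ENNReal.tsum_mul_left]
        congr 1
        rw [← red (fun ζ' : ℤ × G => g2 ζ' * q α β (w + ζ'.2 - ζ.2)) (β:ℤ)]
        refine tsum_congr fun ζ' => ?_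
        by_cases hζ' : ζ'.1 = (β:ℤ)
        · simp [hζ, hζ']
        · simp [hζ']
      · rw [if_neg hζ]
        simp [hζ]
    simp_rw [e1]
    rw [red (fun ζ : ℤ × G => g1 ζ * ∑' x', g2 ((β:ℤ), x') * q α β (w + x' - ζ.2)) (α:ℤ)]
    have e2 : ∀ x : G, (∑' x', g2 ((β:ℤ), x') * q α β (w + x' - x))
        = ∑' δ, g2 ((β:ℤ), δ + (x - w)) * q α β δ := by
      intro x
      rw [← (Equiv.addRight (x - w)).tsum_eq (fun x' => g2 ((β:ℤ), x') * q α β (w + x' - x))]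
      refine tsum_congr fun δ => ?_
      simp only [Equiv.coe_addRight]
      congr 2
      abel
    simp_rw [e2, ← ENNReal.tsum_mul_left]
    rw [ENNReal.tsum_comm]
    have e3 : ∀ δ : G, (∑' x, g1 ((α:ℤ), x) * (g2 ((β:ℤ), δ + (x - w)) * q α β δ))
        = (∑' x, g1 ((α:ℤ), x) * g2 ((β:ℤ), δ + (x - w))) * q α β δ := by
      intro δ
      rw [← ENNReal.tsum_mul_right]
      exact tsum_congr fun x => (mul_assoc _ _ _).symm
    simp_rw [e3]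
    have s1 : ∑' x, g1 ((α:ℤ), x) ≤ 1 := (slice_le g1 _).trans hs1
    have s2 : ∑' x, g2 ((β:ℤ), x) ≤ 1 := (slice_le g2 _).trans hs2
    refine hq α hα β hβ _ ?_ ?_
    · rw [ENNReal.tsum_comm]
      calc _ = ∑' x, g1 ((α:ℤ), x) * ∑' y, g2 ((β:ℤ), y) := by
            refine tsum_congr fun x => ?_
            rw [ENNReal.tsum_mul_left]
            congr 1
            exact (Equiv.addRight (x - w)).tsum_eq (fun y => g2 ((β:ℤ), y))
        _ ≤ ∑' x, g1 ((α:ℤ), x) * 1 := ENNReal.tsum_le_tsum fun x => mul_le_mul_right s2 _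
        _ ≤ 1 := by simpa using s1
    · intro δ
      rcases hM with hM | hM
      · calc _ ≤ ∑' x, M * g2 ((β:ℤ), δ + (x - w)) :=
              ENNReal.tsum_le_tsum fun x => mul_le_mul_left (hM _) _
          _ = M * ∑' y, g2 ((β:ℤ), y) := by
              rw [ENNReal.tsum_mul_left]
              congr 1
              rw [← (Equiv.addLeft (δ - w)).tsum_eq (fun y => g2 ((β:ℤ), y))]
              refine tsum_congr fun x => ?_
              simp only [Equiv.coe_addLeft]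
              congr 2
              abel
          _ ≤ M * 1 := mul_le_mul_right s2 _
          _ = M := mul_one _
      · calc _ ≤ ∑' x, g1 ((α:ℤ), x) * M :=
              ENNReal.tsum_le_tsum fun x => mul_le_mul_right (hM _) _
          _ ≤ 1 * M := by rw [ENNReal.tsum_mul_right]; exact mul_le_mul_left s1 _
          _ = M := one_mul _
  calc ∑' ζ, g1 ζ * ∑' ζ', g2 ζ' * Q ζ ζ'
      ≤ ∑' ζ : ℤ × G, ∑' ζ' : ℤ × G, ∑ α ∈ SX, ∑ β ∈ SY, g1 ζ * (g2 ζ' *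
          (if ζ.1 = (α:ℤ) ∧ ζ'.1 = (β:ℤ) then q α β (w + ζ'.2 - ζ.2) else 0)) := by
        refine ENNReal.tsum_le_tsum fun ζ => ?_
        rw [← ENNReal.tsum_mul_left]
        refine ENNReal.tsum_le_tsum fun ζ' => ?_
        simp_rw [← Finset.mul_sum]
        exact mul_le_mul_right (mul_le_mul_right (hQ ζ ζ') _) _
    _ = ∑ α ∈ SX, ∑ β ∈ SY, ∑' ζ : ℤ × G, ∑' ζ' : ℤ × G, g1 ζ * (g2 ζ' *
          (if ζ.1 = (α:ℤ) ∧ ζ'.1 = (β:ℤ) then q α β (w + ζ'.2 - ζ.2) else 0)) := by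
        simp_rw [Summable.tsum_finsetSum (fun _ _ => ENNReal.summable)]
    _ ≤ ∑ α ∈ SX, ∑ β ∈ SY, R :=
        Finset.sum_le_sum fun α hα => Finset.sum_le_sum fun β hβ => one α hα β hβ
    _ = _ := by simp

end Crest.Agent.R154.Asm738
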