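import Crest.Agent.R154.AsmB_746
import Crest.Agent.R154.KWBind_419

/-! Row 154 (helper746): the window bound. -/

set_option autoImplicit false

namespace Crest.Agent.R154.Asm746

open scoped ENNReal
open Crest.Agent.R154.B5A
open Crest.Agent.R154.KWB419 (TT)

section TTL

variable {B G : Type*} [AddCommGroup G] (s : B → Set (G × ℕ)) (h : B → ℕ) (z : B → G)

lemma TT_append (L L' : List B) (x : G) (a : ℕ) :
    TT s h z (L ++ L') x a = TT s h z L x a ∪ TT s h z L' (x + (L.map z).sum) (a + HT h L) := by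
  induction L generalizing x a with
  | nil => simp [TT, HT_nil]
  | cons b L ih =>
    rw [List.cons_append, TT, TT, ih, Set.union_assoc, List.map_cons, List.sum_cons, HT_cons,
      add_assoc x, add_assoc a]

lemma TT_shift (L : List B) (x v : G) (a : ℕ) (y : G) (k : ℕ) :
    (y, k) ∈ TT s h z L (x + v) a ↔ (y - v, k) ∈ TT s h z L x a := by
  induction L generalizing x a with
  | nil => simp [TT]
  | cons b L ih =>
    rw [TT, TT, Set.mem_union, Set.mem_union, show x + v + z b = (x + z b) + v by abel, ih]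
    refine or_congr_left ?_
    simp only [Set.mem_ofPred_eq, Prod.mk.injEq]
    constructor
    · rintro ⟨q, hq, h1, h2⟩
      exact ⟨q, hq, by rw [h1]; abel, h2⟩
    · rintro ⟨q, hq, h1, h2⟩
      exact ⟨q, hq, by rw [sub_eq_iff_eq_add] at h1; rw [h1]; abel, h2⟩

lemma TT_depth (hs : ∀ b, ∀ p ∈ s b, 1 ≤ p.2 ∧ p.2 ≤ h b) (L : List B) (x : G) (a : ℕ)
    (y : G) (k : ℕ) (hy : (y, k) ∈ TT s h z L x a) : a < k ∧ k ≤ a + HT h L := by
  induction L generalizing x a with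
  | nil => simp [TT] at hy
  | cons b L ih =>
    rw [TT, Set.mem_union] at hy
    rw [HT_cons]
    rcases hy with ⟨q, hq, h1⟩ | hy
    · have := hs b q hq
      simp only [Prod.mk.injEq] at h1
      omega
    · have := ih _ _ hy
      omega

end TTL

section Win

variable {BX BY G : Type*} [AddCommGroup G]
variable (ΛX : BX → ℝ≥0∞) (ΛY : BY → ℝ≥0∞) (hX : BX → ℕ) (hY : BY → ℕ) (zX : BX → G)
  (zY : BY → G) (sX : BX → Set (G × ℕ)) (sY : BY → Set (G × ℕ))

/-- contacts exist and all of them have depth in `[lo, hi]` -/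
def Ev (LX : List BX) (x : G) (a : ℕ) (LY : List BY) (y : G) (a' lo hi : ℕ) : Prop :=
  (∃ z k, (z, k) ∈ TT sX hX zX LX x a ∧ (z, k) ∈ TT sY hY zY LY y a') ∧
  (∀ z k, (z, k) ∈ TT sX hX zX LX x a → (z, k) ∈ TT sY hY zY LY y a' → lo ≤ k ∧ k ≤ hi)

lemma Ev_shift (LX : List BX) (x : G) (a : ℕ) (LY : List BY) (y : G) (a' lo hi : ℕ) :
    Ev hX hY zX zY sX sY LX x a LY y a' lo hi ↔
      Ev hX hY zX zY sX sY LX 0 a LY (y - x) a' lo hi := by
  have e1 : ∀ z k, (z, k) ∈ TT sX hX zX LX x a ↔ (z - x, k) ∈ TT sX hX zX LX 0 a := by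
    intro z k
    have := TT_shift sX hX zX LX 0 x a z k
    rwa [zero_add] at this
  have e2 : ∀ z k, (z, k) ∈ TT sY hY zY LY y a' ↔ (z - x, k) ∈ TT sY hY zY LY (y - x) a' := by
    intro z k
    have := TT_shift sY hY zY LY (y - x) x a' z k
    rwa [sub_add_cancel] at this
  unfold Ev
  constructor
  · rintro ⟨⟨z, k, h1, h2⟩, h3⟩
    refine ⟨⟨z - x, k, (e1 z k).1 h1, (e2 z k).1 h2⟩, fun z' k' h4 h5 => h3 (z' + x) k' ?_ ?_⟩
    · rw [e1, add_sub_cancel_right]; exact h4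
    · rw [e2, add_sub_cancel_right]; exact h5
  · rintro ⟨⟨z, k, h1, h2⟩, h3⟩
    refine ⟨⟨z + x, k, ?_, ?_⟩, fun z' k' h4 h5 => h3 (z' - x) k' ((e1 _ _).1 h4) ((e2 _ _).1 h5)⟩
    · rw [e1, add_sub_cancel_right]; exact h1
    · rw [e2, add_sub_cancel_right]; exact h2

open Classical in
/-- weight of the pairs of pieces of heights `h`, `h'` -/
noncomputable def Psi (loc : List BX → List BY → G) (E : Finset G) (a a' lo hi : ℕ)
    (q : ℕ × ℕ) (x : G) : ℝ≥0∞ :=
  ∑' L : List BX, ∑' L' : List BY, if HT hX L = q.1 ∧ HT hY L' = q.2 ∧ loc L L' ∈ E ∧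
    Ev hX hY zX zY sX sY L 0 a L' x a' lo hi then LW ΛX L * LW ΛY L' else 0

/-- the window lemmas (list form); `loc` = displacement of the local walker -/
def HF (loc : List BX → List BY → G) (us : ℕ → ℝ≥0∞) (C : ℝ≥0∞) : Prop :=
  ∀ (s h h' a a' lo hi : ℕ) (E : Finset G) (μ : G → ℝ≥0∞) (M lam : ℝ≥0∞),
    ∑' x, μ x ≤ 1 → (∀ x, μ x ≤ M) → lam ≠ 0 → lam ≠ ⊤ → a ≤ a' → a + h ≤ a' + h' →
    a + s ≤ lo → a' + s ≤ lo → hi + s ≤ a + h → hi + s ≤ a' + h' →
    ∑' x, μ x * Psi ΛX ΛY hX hY zX zY sX sY loc E a a' lo hi (h, h') x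
      ≤ C * (lam + M * E.card * us s / lam + us s)

open Classical in
/-- mass of the pairs of first passage pieces with good heights, local, with contact -/
noncomputable def PP (loc : List BX → List BY → G) (E : Finset G) (T TY i0 lo hi : ℕ)
    (k : ℕ) (x : G) (k' : ℕ) (y : G) : ℝ≥0∞ :=
  EF ΛX hX T (fun PX => EF ΛY hY TY (fun PY => if HT hX PX ≤ T + i0 ∧ HT hY PY ≤ TY + i0 ∧
    loc PX PY ∈ E ∧ Ev hX hY zX zY sX sY PX x k PY y k' lo hi then 1 else 0))

lemma PP_le_one (h1X : ∀ b, 1 ≤ hX b) (hΛX : ∑' b, ΛX b = 1) (h1Y : ∀ b, 1 ≤ hY b)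
    (hΛY : ∑' b, ΛY b = 1) (loc : List BX → List BY → G) (E : Finset G) (T TY i0 lo hi : ℕ)
    (k : ℕ) (x : G) (k' : ℕ) (y : G) :
    PP ΛX ΛY hX hY zX zY sX sY loc E T TY i0 lo hi k x k' y ≤ 1 := by
  unfold PP
  refine EF_le_const ΛX hX h1X hΛX _ 1 _ fun L _ => EF_le_const ΛY hY h1Y hΛY _ 1 _ fun L' _ => ?_
  split_ifs
  · exact le_rfl
  · exact zero_le

lemma PP_le (loc : List BX → List BY → G) (E : Finset G) (T TY i0 lo hi : ℕ)
    (k : ℕ) (x : G) (k' : ℕ) (y : G) :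
    PP ΛX ΛY hX hY zX zY sX sY loc E T TY i0 lo hi k x k' y
      ≤ ∑ q ∈ Finset.Icc T (T + i0) ×ˢ Finset.Icc TY (TY + i0),
        Psi ΛX ΛY hX hY zX zY sX sY loc E k k' lo hi q (y - x) := by
  classical
  unfold PP Psi EF
  rw [← Summable.tsum_finsetSum (fun _ _ => ENNReal.summable)]
  refine ENNReal.tsum_le_tsum fun L => ?_
  rw [← Summable.tsum_finsetSum (fun _ _ => ENNReal.summable)]
  by_cases hL : FP hX T L
  · rw [if_pos hL, ← ENNReal.tsum_mul_left]
    refine ENNReal.tsum_le_tsum fun L' => ?_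
    by_cases hL' : FP hY TY L'
    · rw [if_pos hL']
      beta_reduce
      by_cases hc : HT hX L ≤ T + i0 ∧ HT hY L' ≤ TY + i0 ∧ loc L L' ∈ E ∧
          Ev hX hY zX zY sX sY L x k L' y k' lo hi
      · have m1 := FP_le_HT hX L T hL
        have m2 := FP_le_HT hY L' TY hL'
        rw [if_pos hc, mul_one]
        have hq : (HT hX L, HT hY L') ∈ Finset.Icc T (T + i0) ×ˢ Finset.Icc TY (TY + i0) := by
          rw [Finset.mem_product, Finset.mem_Icc, Finset.mem_Icc]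
          exact ⟨⟨m1, hc.1⟩, m2, hc.2.1⟩
        refine le_trans (le_of_eq ?_) (Finset.single_le_sum
          (f := fun q : ℕ × ℕ => if HT hX L = q.1 ∧ HT hY L' = q.2 ∧ loc L L' ∈ E ∧
            Ev hX hY zX zY sX sY L 0 k L' (y - x) k' lo hi then LW ΛX L * LW ΛY L' else 0)
          (fun _ _ => zero_le) hq)
        have hc2 := (Ev_shift hX hY zX zY sX sY L x k L' y k' lo hi).1 hc.2.2.2
        simp only
        rw [if_pos ⟨trivial, trivial, hc.2.2.1, hc2⟩]
      · rw [if_neg hc, mul_zero, mul_zero]; exact zero_le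
    · rw [if_neg hL', mul_zero]; exact zero_le
  · rw [if_neg hL]; exact zero_le

section
variable (loc : List BX → List BY → G) (us : ℕ → ℝ≥0∞) (C : ℝ≥0∞)
  (H : HF ΛX ΛY hX hY zX zY sX sY loc us C) (E : Finset G) (M lam : ℝ≥0∞)
  (hl0 : lam ≠ 0) (hlt : lam ≠ ⊤)

include H hl0 hlt in
lemma PP_smoothX (T TY i0 lo hi s k k' : ℕ) (μ : G → ℝ≥0∞) (hμ : ∑' x, μ x ≤ 1)
    (hμM : ∀ x, μ x ≤ M) (c1 : k ≤ k') (c2 : k + T + i0 ≤ k' + TY) (c3 : k + s ≤ lo)
    (c4 : k' + s ≤ lo) (c5 : hi + s ≤ k + T) (c6 : hi + s ≤ k' + TY) (y : G) :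
    ∑' x, μ x * PP ΛX ΛY hX hY zX zY sX sY loc E T TY i0 lo hi k x k' y
      ≤ ((i0 + 1) * (i0 + 1) : ℕ) * (C * (lam + M * E.card * us s / lam + us s)) := by
  calc ∑' x, μ x * PP ΛX ΛY hX hY zX zY sX sY loc E T TY i0 lo hi k x k' y
      ≤ ∑' x, μ x * ∑ q ∈ Finset.Icc T (T + i0) ×ˢ Finset.Icc TY (TY + i0),
        Psi ΛX ΛY hX hY zX zY sX sY loc E k k' lo hi q (y - x) :=
        ENNReal.tsum_le_tsum fun x => mul_le_mul_right (PP_le ΛX ΛY hX hY zX zY sX sY loc E T TY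
          i0 lo hi k x k' y) _
    _ = ∑ q ∈ Finset.Icc T (T + i0) ×ˢ Finset.Icc TY (TY + i0),
        ∑' x, μ x * Psi ΛX ΛY hX hY zX zY sX sY loc E k k' lo hi q (y - x) := by
        rw [← Summable.tsum_finsetSum (fun _ _ => ENNReal.summable)]
        exact tsum_congr fun x => Finset.mul_sum _ _ _
    _ ≤ ∑ q ∈ Finset.Icc T (T + i0) ×ˢ Finset.Icc TY (TY + i0),
        (C * (lam + M * E.card * us s / lam + us s)) := by
        refine Finset.sum_le_sum fun q hq => ?_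
        rw [Finset.mem_product, Finset.mem_Icc, Finset.mem_Icc] at hq
        obtain ⟨⟨q1, q2⟩, q3, q4⟩ := hq
        have e := (Equiv.subLeft y).tsum_eq (fun v => μ (y - v) *
          Psi ΛX ΛY hX hY zX zY sX sY loc E k k' lo hi q v)
        simp only [Equiv.subLeft_apply, sub_sub_cancel] at e
        rw [e]
        have := H s q.1 q.2 k k' lo hi E (fun v => μ (y - v)) M lam ?_ (fun x => hμM _) hl0 hlt c1
          (by omega) c3 c4 (by omega) (by omega)
        · simpa using this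
        · have e' := (Equiv.subLeft y).tsum_eq μ
          simp only [Equiv.subLeft_apply] at e'
          rw [e']; exact hμ
    _ = _ := by
        rw [Finset.sum_const, Finset.card_product, Nat.card_Icc, Nat.card_Icc, nsmul_eq_mul]
        congr 2
        congr 1 <;> omega

include H hl0 hlt in
lemma PP_smoothY (T TY i0 lo hi s k k' : ℕ) (μ : G → ℝ≥0∞) (hμ : ∑' x, μ x ≤ 1)
    (hμM : ∀ x, μ x ≤ M) (c1 : k ≤ k') (c2 : k + T + i0 ≤ k' + TY) (c3 : k + s ≤ lo)
    (c4 : k' + s ≤ lo) (c5 : hi + s ≤ k + T) (c6 : hi + s ≤ k' + TY) (x : G) :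
    ∑' y, μ y * PP ΛX ΛY hX hY zX zY sX sY loc E T TY i0 lo hi k x k' y
      ≤ ((i0 + 1) * (i0 + 1) : ℕ) * (C * (lam + M * E.card * us s / lam + us s)) := by
  calc ∑' y, μ y * PP ΛX ΛY hX hY zX zY sX sY loc E T TY i0 lo hi k x k' y
      ≤ ∑' y, μ y * ∑ q ∈ Finset.Icc T (T + i0) ×ˢ Finset.Icc TY (TY + i0),
        Psi ΛX ΛY hX hY zX zY sX sY loc E k k' lo hi q (y - x) :=
        ENNReal.tsum_le_tsum fun y => mul_le_mul_right (PP_le ΛX ΛY hX hY zX zY sX sY loc E T TY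
          i0 lo hi k x k' y) _
    _ = ∑ q ∈ Finset.Icc T (T + i0) ×ˢ Finset.Icc TY (TY + i0),
        ∑' y, μ y * Psi ΛX ΛY hX hY zX zY sX sY loc E k k' lo hi q (y - x) := by
        rw [← Summable.tsum_finsetSum (fun _ _ => ENNReal.summable)]
        exact tsum_congr fun x => Finset.mul_sum _ _ _
    _ ≤ ∑ q ∈ Finset.Icc T (T + i0) ×ˢ Finset.Icc TY (TY + i0),
        (C * (lam + M * E.card * us s / lam + us s)) := by
        refine Finset.sum_le_sum fun q hq => ?_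
        rw [Finset.mem_product, Finset.mem_Icc, Finset.mem_Icc] at hq
        obtain ⟨⟨q1, q2⟩, q3, q4⟩ := hq
        have e := (Equiv.subRight x).tsum_eq (fun v => μ (v + x) *
          Psi ΛX ΛY hX hY zX zY sX sY loc E k k' lo hi q v)
        simp only [Equiv.subRight_apply, sub_add_cancel] at e
        rw [e]
        have := H s q.1 q.2 k k' lo hi E (fun v => μ (v + x)) M lam ?_ (fun x => hμM _) hl0 hlt c1
          (by omega) c3 c4 (by omega) (by omega)
        · simpa using this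
        · have e' := (Equiv.addRight x).tsum_eq μ
          simp only [Equiv.coe_addRight] at e'
          rw [e']; exact hμ
    _ = _ := by
        rw [Finset.sum_const, Finset.card_product, Nat.card_Icc, Nat.card_Icc, nsmul_eq_mul]
        congr 2
        congr 1 <;> omega

end

/-- window event -/
def WinE (w : G) (b b2 hi hi' : ℕ) (LX : List BX) (LY : List BY) : Prop :=
  (∃ z k, (z, k) ∈ TT sX hX zX LX 0 0 ∧ (z, k) ∈ TT sY hY zY LY w 0 ∧ k ≤ b2) ∧
  (∀ z k, (z, k) ∈ TT sX hX zX LX 0 0 → (z, k) ∈ TT sY hY zY LY w 0 →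
    b < k ∧ ¬ (hi < k ∧ k ≤ hi'))

lemma win_piece (hsX : ∀ b, ∀ p ∈ sX b, 1 ≤ p.2 ∧ p.2 ≤ hX b)
    (hsY : ∀ b, ∀ p ∈ sY b, 1 ≤ p.2 ∧ p.2 ≤ hY b) (w : G) (a t s i0 : ℕ)
    (hts : 2 * i0 + s ≤ t) (AX PX RX : List BX) (AY PY RY : List BY)
    (hAX2 : HT hX AX ≤ a + i0) (hPX : 3 * t ≤ HT hX PX)
    (hAX1 : a ≤ HT hX AX) (hAY1 : a + i0 ≤ HT hY AY) (hAY2 : HT hY AY ≤ a + i0 + i0)
    (hPY : 3 * t + i0 ≤ HT hY PY) (hPX2 : HT hX PX ≤ 3 * t + i0)
    (hW : WinE hX hY zX zY sX sY w (a + t) (a + 2 * t) (a + 3 * t - s) (a + 3 * t + 2 * i0)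
      (AX ++ (PX ++ RX)) (AY ++ (PY ++ RY))) :
    Ev hX hY zX zY sX sY PX (AX.map zX).sum (HT hX AX) PY (w + (AY.map zY).sum) (HT hY AY)
      (a + t + 1) (a + 3 * t - s) := by
  obtain ⟨⟨z, k, h1, h2, h3⟩, h4⟩ := hW
  have h5 := h4 z k h1 h2
  constructor
  · refine ⟨z, k, ?_, ?_⟩
    · rw [TT_append, TT_append, zero_add, zero_add] at h1
      rcases h1 with h1 | h1 | h1
      · have := TT_depth sX hX zX hsX _ _ _ _ _ h1; omega
      · exact h1
      · have := TT_depth sX hX zX hsX _ _ _ _ _ h1; omega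
    · rw [TT_append, TT_append, zero_add] at h2
      rcases h2 with h2 | h2 | h2
      · have := TT_depth sY hY zY hsY _ _ _ _ _ h2; omega
      · exact h2
      · have := TT_depth sY hY zY hsY _ _ _ _ _ h2; omega
  · intro z' k' h6 h7
    have h8 := TT_depth sX hX zX hsX _ _ _ _ _ h6
    have h9 := h4 z' k' (by
      rw [TT_append, TT_append, zero_add, zero_add]; exact Or.inr (Or.inl h6)) (by
      rw [TT_append, TT_append, zero_add]; exact Or.inr (Or.inl h7))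
    constructor
    · omega
    · by_contra hcon
      exact h9.2 ⟨by omega, by omega⟩

end Win

end Crest.Agent.R154.Asm746
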