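import Crest.Agent.R154.AsmB_789

/-! Row 154, ROAD 801, assembly, part C (helper789): two walkers, reduction to one window. -/

set_option autoImplicit false

namespace Crest.Agent.R154.AsmC789

open scoped ENNReal
open Crest.Agent.R154.B5A Crest.Agent.R154.FP178 Crest.Agent.R154.AsmA789
open Crest.Agent.R154.AsmB789

section tools
variable {α : Type*} (Λ : α → ℝ≥0∞)

lemma SL_zero_fun (j : ℕ) : SL Λ j (fun _ => (0 : ℝ≥0∞)) = 0 := by
  rw [SL]; simp

lemma SL_sum {ι : Type*} (j : ℕ) (s : Finset ι) (F : ι → List α → ℝ≥0∞) :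
    SL Λ j (fun L => ∑ k ∈ s, F k L) = ∑ k ∈ s, SL Λ j (F k) := by
  classical
  induction s using Finset.induction_on with
  | empty => simp [SL_zero_fun]
  | insert a s ha ih =>
    simp only [Finset.sum_insert ha]
    rw [SL_add_fun, ih]

/-- the function of the first `j` letters and of the next one -/
def atj (j : ℕ) (l : List α) (f : List α → α → ℝ≥0∞) : ℝ≥0∞ :=
  match l.drop j with
  | [] => 0
  | A :: _ => f (l.take j) A

lemma atj_nil {j : ℕ} {l : List α} (h : l.drop j = []) (f : List α → α → ℝ≥0∞) :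
    atj j l f = 0 := by
  rw [atj, h]

lemma atj_cons {j : ℕ} {l : List α} {A : α} {r : List α} (h : l.drop j = A :: r)
    (f : List α → α → ℝ≥0∞) : atj j l f = f (l.take j) A := by
  rw [atj, h]

lemma sl_atj (hΛ : ∑' b, Λ b = 1) (S : α → Prop) [DecidablePred S] (J j : ℕ) (hj : j < J)
    (f : List α → α → ℝ≥0∞) :
    SL Λ J (fun l => if ∀ A ∈ l, S A then atj j l f else 0)
      ≤ SL Λ j (fun l1 => if ∀ A ∈ l1, S A then ∑' A, (if S A then Λ A * f l1 A else 0) else 0) := by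
  obtain ⟨r, rfl⟩ : ∃ r, J = j + (r + 1) := ⟨J - j - 1, by omega⟩
  rw [SL_add]
  refine SL_mono Λ j fun l1 hl1 => ?_
  rw [SL_succ]
  by_cases hg : ∀ A ∈ l1, S A
  · rw [if_pos hg]
    refine ENNReal.tsum_le_tsum fun A => ?_
    by_cases hA : S A
    · rw [if_pos hA]
      refine mul_le_mul_right ?_ _
      calc SL Λ r (fun l3 => if ∀ A_1 ∈ l1 ++ A :: l3, S A_1 then atj j (l1 ++ A :: l3) f else 0)
          ≤ SL Λ r (fun _ => f l1 A) := by
            refine SL_mono Λ r fun l3 _ => ?_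
            have hd : (l1 ++ A :: l3).drop j = A :: l3 := by
              rw [← hl1]; simp
            have ht : (l1 ++ A :: l3).take j = l1 := by
              rw [← hl1]; simp
            rw [atj_cons hd, ht]
            split_ifs
            · exact le_rfl
            · exact zero_le
        _ = f l1 A := SL_const Λ hΛ r _
    · rw [if_neg hA]
      have : SL Λ r (fun l3 => if ∀ A_1 ∈ l1 ++ A :: l3, S A_1 then atj j (l1 ++ A :: l3) f
          else 0) = 0 := by
        refine (SL_congr Λ r fun l3 _ => ?_).trans (SL_zero_fun Λ r)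
        rw [if_neg]
        intro h
        exact hA (h A (by simp))
      rw [this, mul_zero]
  · rw [if_neg hg]
    have : ∀ A, Λ A * SL Λ r (fun l3 => if ∀ A_1 ∈ l1 ++ A :: l3, S A_1
        then atj j (l1 ++ A :: l3) f else 0) = 0 := by
      intro A
      have h0 : SL Λ r (fun l3 => if ∀ A_1 ∈ l1 ++ A :: l3, S A_1 then atj j (l1 ++ A :: l3) f
          else 0) = 0 := by
        refine (SL_congr Λ r fun l3 _ => ?_).trans (SL_zero_fun Λ r)
        rw [if_neg]
        intro h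
        exact hg fun C hC => h C (by simp [hC])
      rw [h0, mul_zero]
    exact (ENNReal.tsum_eq_zero.2 this).le

end tools

variable {BX BY : Type*} (ΛX : BX → ℝ≥0∞) (ΛY : BY → ℝ≥0∞) (hX : BX → ℕ) (hY : BY → ℕ)

open Classical in
lemma rest_le {B : Type*} (Λ : B → ℝ≥0∞) (ht : B → ℕ) (hU1 : ∀ n, U Λ ht n ≤ 1) (m n : ℕ)
    (g : List B → ℝ≥0∞) (K : ℝ≥0∞) (hg : ∀ R, g R ≤ K) :
    ∑' R, (if m + HT ht R = n then LW Λ R * g R else 0) ≤ K := by
  calc ∑' R, (if m + HT ht R = n then LW Λ R * g R else 0)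
      ≤ ∑' R, (if HT ht R = n - m then LW Λ R else 0) * K := by
        refine ENNReal.tsum_le_tsum fun R => ?_
        by_cases h : m + HT ht R = n
        · rw [if_pos h, if_pos (by omega)]; exact mul_le_mul_right (hg R) _
        · rw [if_neg h]; exact zero_le
    _ = U Λ ht (n - m) * K := by rw [ENNReal.tsum_mul_right, U]
    _ ≤ 1 * K := mul_le_mul_left (hU1 _) _
    _ = K := one_mul _

open Classical in
theorem pair_iter (h1X : ∀ b, 1 ≤ hX b) (h1Y : ∀ b, 1 ≤ hY b) (hΛX : ∑' b, ΛX b = 1)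
    (hΛY : ∑' b, ΛY b = 1) (hUX : ∀ n, U ΛX hX n ≤ 1) (hUY : ∀ n, U ΛY hY n ≤ 1)
    (P i0 J n : ℕ) (hn : J * (P + i0) ≤ n) (F : List BX → List BY → ℝ≥0∞)
    (hF : ∀ L L', F L L' ≤ 1) (Φ : List (At hX P) → List (At hY P) → ℝ≥0∞)
    (hΦ : ∀ l l' R R', l.length = J → l'.length = J → (∀ A ∈ l, aH hX P A ≤ P + i0) →
      (∀ A ∈ l', aH hY P A ≤ P + i0) → F (flat hX l ++ R) (flat hY l' ++ R') ≤ Φ l l') :
    ∑' L, ∑' L', (if HT hX L = n ∧ HT hY L' = n then LW ΛX L * LW ΛY L' * F L L' else 0)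
      ≤ J * ov ΛX hX P i0 + (J * ov ΛY hY P i0 + SL (aL ΛX hX P) J (fun l =>
        if ∀ A ∈ l, aH hX P A ≤ P + i0 then SL (aL ΛY hY P) J (fun l' =>
          if ∀ A ∈ l', aH hY P A ≤ P + i0 then Φ l l' else 0) else 0)) := by
  set G : List BX → ℝ≥0∞ := fun L => ∑' L', (if HT hY L' = n then LW ΛY L' * F L L' else 0) with hG
  have hG1 : ∀ L, G L ≤ 1 := by
    intro L
    have := rest_le ΛY hY hUY 0 n (fun L' => F L L') 1 (fun R => hF L R)
    simpa [hG] using this
  have e0 : ∑' L, ∑' L', (if HT hX L = n ∧ HT hY L' = n then LW ΛX L * LW ΛY L' * F L L' else 0)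
      = ∑' L, (if HT hX L = n then LW ΛX L * G L else 0) := by
    refine tsum_congr fun L => ?_
    by_cases h : HT hX L = n
    · rw [if_pos h, hG]
      simp only
      rw [← ENNReal.tsum_mul_left]
      refine tsum_congr fun L' => ?_
      by_cases h' : HT hY L' = n
      · rw [if_pos ⟨h, h'⟩, if_pos h', mul_assoc]
      · rw [if_neg (fun hh => h' hh.2), if_neg h', mul_zero]
    · rw [if_neg h]
      simp [h]
  rw [e0]
  refine (iter ΛX hX h1X hΛX hUX P i0 J n G hG1 hn).trans (add_le_add le_rfl ?_)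
  have hone : ∑' A, aL ΛX hX P A = 1 := sum_at ΛX hX h1X hΛX P
  calc SL (aL ΛX hX P) J (fun l => if ∀ A ∈ l, aH hX P A ≤ P + i0 then
        ∑' R, (if HT hX (flat hX l) + HT hX R = n then LW ΛX R * G (flat hX l ++ R) else 0)
        else 0)
      ≤ SL (aL ΛX hX P) J (fun l => J * ov ΛY hY P i0 + (if ∀ A ∈ l, aH hX P A ≤ P + i0 then
          SL (aL ΛY hY P) J (fun l' => if ∀ A ∈ l', aH hY P A ≤ P + i0 then Φ l l' else 0)
          else 0)) := by
        refine SL_mono _ J fun l hl => ?_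
        by_cases hg : ∀ A ∈ l, aH hX P A ≤ P + i0
        · rw [if_pos hg, if_pos hg]
          refine rest_le ΛX hX hUX _ n (fun R => G (flat hX l ++ R)) _ fun R => ?_
          have h2 := iter ΛY hY h1Y hΛY hUY P i0 J n (fun L' => F (flat hX l ++ R) L')
            (fun _ => hF _ _) hn
          refine h2.trans (add_le_add le_rfl (SL_mono _ J fun l' hl' => ?_))
          by_cases hg' : ∀ A ∈ l', aH hY P A ≤ P + i0
          · rw [if_pos hg', if_pos hg']
            exact rest_le ΛY hY hUY _ n (fun R' => F (flat hX l ++ R) (flat hY l' ++ R')) _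
              fun R' => hΦ l l' R R' hl hl' hg hg'
          · rw [if_neg hg']; exact zero_le
        · rw [if_neg hg]; exact zero_le
    _ = _ := by
        rw [SL_add_fun (aL ΛX hX P) J (fun _ => (J : ℝ≥0∞) * ov ΛY hY P i0), SL_const _ hone]

open Classical in
/-- one window -/
noncomputable def Q (P i0 j : ℕ)
    (W : List (At hX P) → At hX P → List (At hY P) → At hY P → ℝ≥0∞) : ℝ≥0∞ :=
  SL (aL ΛX hX P) j (fun l => if ∀ A ∈ l, aH hX P A ≤ P + i0 then
    ∑' A, (if aH hX P A ≤ P + i0 then aL ΛX hX P A *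
      SL (aL ΛY hY P) j (fun l' => if ∀ A ∈ l', aH hY P A ≤ P + i0 then
        ∑' A', (if aH hY P A' ≤ P + i0 then aL ΛY hY P A' * W l A l' A' else 0) else 0)
      else 0) else 0)

open Classical in
theorem windows (h1X : ∀ b, 1 ≤ hX b) (h1Y : ∀ b, 1 ≤ hY b) (hΛX : ∑' b, ΛX b = 1)
    (hΛY : ∑' b, ΛY b = 1) (P i0 J : ℕ) (s : Finset ℕ) (hs : ∀ j ∈ s, j < J)
    (W : ℕ → List (At hX P) → At hX P → List (At hY P) → At hY P → ℝ≥0∞) :
    SL (aL ΛX hX P) J (fun l => if ∀ A ∈ l, aH hX P A ≤ P + i0 then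
      SL (aL ΛY hY P) J (fun l' => if ∀ A ∈ l', aH hY P A ≤ P + i0 then
        ∑ j ∈ s, atj j l (fun l1 A => atj j l' (fun l1' A' => W j l1 A l1' A')) else 0) else 0)
      ≤ ∑ j ∈ s, Q ΛX ΛY hX hY P i0 j (W j) := by
  have hoX : ∑' A, aL ΛX hX P A = 1 := sum_at ΛX hX h1X hΛX P
  have hoY : ∑' A, aL ΛY hY P A = 1 := sum_at ΛY hY h1Y hΛY P
  have e : SL (aL ΛX hX P) J (fun l => if ∀ A ∈ l, aH hX P A ≤ P + i0 then
      SL (aL ΛY hY P) J (fun l' => if ∀ A ∈ l', aH hY P A ≤ P + i0 then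
        ∑ j ∈ s, atj j l (fun l1 A => atj j l' (fun l1' A' => W j l1 A l1' A')) else 0) else 0)
      = ∑ j ∈ s, SL (aL ΛX hX P) J (fun l => if ∀ A ∈ l, aH hX P A ≤ P + i0 then
      SL (aL ΛY hY P) J (fun l' => if ∀ A ∈ l', aH hY P A ≤ P + i0 then
        atj j l (fun l1 A => atj j l' (fun l1' A' => W j l1 A l1' A')) else 0) else 0) := by
    rw [← SL_sum]
    refine SL_congr _ J fun l _ => ?_
    by_cases hg : ∀ A ∈ l, aH hX P A ≤ P + i0
    · simp only [if_pos hg]
      rw [← SL_sum]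
      refine SL_congr _ J fun l' _ => ?_
      by_cases hg' : ∀ A ∈ l', aH hY P A ≤ P + i0
      · simp only [if_pos hg']
      · simp only [if_neg hg', Finset.sum_const_zero]
    · simp only [if_neg hg, Finset.sum_const_zero]
  rw [e]
  refine Finset.sum_le_sum fun j hj => ?_
  have hjJ := hs j hj
  rw [Q]
  refine le_trans ?_ (sl_atj (aL ΛX hX P) hoX (fun A => aH hX P A ≤ P + i0) J j hjJ
    (fun l1 A => SL (aL ΛY hY P) j (fun l' => if ∀ A ∈ l', aH hY P A ≤ P + i0 then
        ∑' A', (if aH hY P A' ≤ P + i0 then aL ΛY hY P A' * W j l1 A l' A' else 0) else 0)))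
  refine SL_mono _ J fun l _ => ?_
  by_cases hg : ∀ A ∈ l, aH hX P A ≤ P + i0
  · rw [if_pos hg, if_pos hg]
    rcases hd : l.drop j with _ | ⟨A, r⟩
    · simp only [atj_nil hd]
      have : SL (aL ΛY hY P) J (fun l' => if ∀ A ∈ l', aH hY P A ≤ P + i0 then (0 : ℝ≥0∞) else 0)
          = 0 := by
        refine (SL_congr _ J fun l' _ => by simp).trans (SL_zero_fun (aL ΛY hY P) J)
      rw [this]
    · simp only [atj_cons hd]
      exact sl_atj (aL ΛY hY P) hoY (fun A => aH hY P A ≤ P + i0) J j hjJ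
        (fun l1' A' => W j (l.take j) A l1' A')
  · rw [if_neg hg]; exact zero_le

end Crest.Agent.R154.AsmC789
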