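import Crest.Agent.R154.AsmB_790

/-! Row 154, ROAD 801 (helper790): abstract assembly, part C: one window. -/

set_option autoImplicit false

namespace Crest.Agent.R154.Asm790

open scoped ENNReal
open Crest.Agent.R154.B5A

section gen

variable {β : Type*} (lam : β → ℝ≥0∞)

lemma LW_ne {L : List β} (h : LW lam L ≠ 0) : ∀ b ∈ L, lam b ≠ 0 := by
  induction L with
  | nil => simp
  | cons b L ih =>
    rw [LW_cons] at h
    intro c hc
    rcases List.mem_cons.1 hc with rfl | hc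
    · exact left_ne_zero_of_mul h
    · exact ih (right_ne_zero_of_mul h) c hc

lemma SL_mono' (j : ℕ) {F F' : List β → ℝ≥0∞}
    (h : ∀ L, L.length = j → (∀ b ∈ L, lam b ≠ 0) → F L ≤ F' L) :
    SL lam j F ≤ SL lam j F' := by
  refine ENNReal.tsum_le_tsum fun L => ?_
  by_cases hL : L.length = j
  · simp only [hL, if_true]
    by_cases h0 : LW lam L = 0
    · simp [h0]
    · exact mul_le_mul_right (h L hL (LW_ne lam h0)) _
  · simp [hL]

lemma SL_const_le (hl : ∑' b, lam b ≤ 1) (j : ℕ) (a : ℝ≥0∞) : SL lam j (fun _ => a) ≤ a := by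
  have := SL_const_mul lam j a (fun _ => 1)
  simp only [mul_one] at this
  rw [this, SL_pow]
  calc a * (∑' b, lam b) ^ j ≤ a * 1 := mul_le_mul_right (pow_le_one₀ zero_le hl) _
    _ = a := mul_one _

lemma SL_tsum {ι : Type*} (j : ℕ) (F : ι → List β → ℝ≥0∞) :
    SL lam j (fun L => ∑' i, F i L) = ∑' i, SL lam j (F i) := by
  simp only [SL]
  rw [ENNReal.tsum_comm]
  refine tsum_congr fun L => ?_
  by_cases hL : L.length = j
  · simp only [hL, if_true]; rw [ENNReal.tsum_mul_left]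
  · simp [hL]

lemma SL_snoc (j : ℕ) (F : List β → ℝ≥0∞) :
    SL lam (j + 1) F = SL lam j (fun L => ∑' b, lam b * F (L ++ [b])) := by
  rw [SL_add]
  refine SL_congr lam j fun L _ => ?_
  rw [show (1 : ℕ) = 0 + 1 from rfl, SL_succ]
  refine tsum_congr fun b => ?_
  rw [SL_zero]

end gen

lemma fin_sum {F : ℤ → ℝ≥0∞} (S : Finset ℤ) (hS : ∀ a, a ∉ S → F a = 0) {b : ℝ≥0∞}
    (hb : ∀ a ∈ S, F a ≤ b) : ∑' a, F a ≤ S.card * b := by
  rw [tsum_eq_sum (s := S) (fun a ha => hS a ha)]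
  calc ∑ a ∈ S, F a ≤ ∑ _a ∈ S, b := Finset.sum_le_sum hb
    _ = S.card * b := by rw [Finset.sum_const, nsmul_eq_mul]

variable {G : Type*} [AddCommGroup G]

/-- two laws and a functional of the relative position -/
lemma rel_law (A D : ℤ × G → ℝ≥0∞) (Φ : ℤ → ℤ → G → ℝ≥0∞) (w : G) :
    ∑' g, A g * ∑' g', D g' * Φ g.1 g'.1 (w + g'.2 - g.2)
      = ∑' a, ∑' a', ∑' y, (∑' x', D (a', x') * A (a, w + x' - y)) * Φ a a' y := by
  calc ∑' g, A g * ∑' g', D g' * Φ g.1 g'.1 (w + g'.2 - g.2)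
      = ∑' a, ∑' x, ∑' a', ∑' x', A (a, x) * (D (a', x') * Φ a a' (w + x' - x)) := by
        rw [ENNReal.tsum_prod']
        refine tsum_congr fun a => tsum_congr fun x => ?_
        rw [← ENNReal.tsum_mul_left, ENNReal.tsum_prod']
    _ = ∑' a, ∑' a', ∑' x', ∑' x, A (a, x) * (D (a', x') * Φ a a' (w + x' - x)) := by
        refine tsum_congr fun a => ?_
        rw [ENNReal.tsum_comm]
        exact tsum_congr fun a' => ENNReal.tsum_comm
    _ = _ := by
        refine tsum_congr fun a => tsum_congr fun a' => ?_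
        simp_rw [← ENNReal.tsum_mul_right]
        rw [ENNReal.tsum_comm (f := fun y x' => D (a', x') * A (a, w + x' - y) * Φ a a' y)]
        refine tsum_congr fun x' => ?_
        rw [← (Equiv.subLeft (w + x')).tsum_eq
          (fun x => A (a, x) * (D (a', x') * Φ a a' (w + x' - x)))]
        refine tsum_congr fun y => ?_
        simp only [Equiv.subLeft_apply, sub_sub_cancel]
        ring

/-- local part of a window -/
lemma local_part (A D : ℤ × G → ℝ≥0∞) (hA : ∑' g, A g ≤ 1) (hD : ∑' g, D g ≤ 1) (S : Finset ℤ)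
    (hAS : ∀ a x, a ∉ S → A (a, x) = 0) (hDS : ∀ a x, a ∉ S → D (a, x) = 0) (M : ℝ≥0∞)
    (hM : (∀ g, A g ≤ M) ∨ (∀ g, D g ≤ M)) (Φ : ℤ → ℤ → G → ℝ≥0∞) (b : ℝ≥0∞)
    (hb : ∀ a ∈ S, ∀ a' ∈ S, ∀ μ : G → ℝ≥0∞, ∑' y, μ y ≤ 1 → (∀ y, μ y ≤ M) →
      ∑' y, μ y * Φ a a' y ≤ b) (w : G) :
    ∑' g, A g * ∑' g', D g' * Φ g.1 g'.1 (w + g'.2 - g.2) ≤ S.card * (S.card * b) := by
  rw [rel_law]
  have hA' : ∀ a, ∑' x, A (a, x) ≤ 1 := fun a => by
    refine le_trans ?_ hA
    rw [ENNReal.tsum_prod']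
    exact ENNReal.le_tsum a
  have hD' : ∀ a, ∑' x, D (a, x) ≤ 1 := fun a => by
    refine le_trans ?_ hD
    rw [ENNReal.tsum_prod']
    exact ENNReal.le_tsum a
  have hsub : ∀ (f : G → ℝ≥0∞) (c : G), ∑' y, f (c - y) = ∑' y, f y :=
    fun f c => (Equiv.subLeft c).tsum_eq f
  refine fin_sum S (fun a ha => ?_) fun a ha => fin_sum S (fun a' ha' => ?_) fun a' ha' =>
    hb a ha a' ha' _ ?_ ?_
  · simp [hAS a _ ha]
  · simp [hDS a' _ ha']
  · rw [ENNReal.tsum_comm]
    calc ∑' x', ∑' y, D (a', x') * A (a, w + x' - y)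
        = ∑' x', D (a', x') * ∑' y, A (a, y) := by
          refine tsum_congr fun x' => ?_
          rw [ENNReal.tsum_mul_left, hsub (fun y => A (a, y)) (w + x')]
      _ ≤ 1 * 1 := by
          rw [ENNReal.tsum_mul_right]
          exact mul_le_mul' (hD' a') (hA' a)
      _ = 1 := one_mul _
  · intro y
    rcases hM with hM | hM
    · calc ∑' x', D (a', x') * A (a, w + x' - y) ≤ ∑' x', D (a', x') * M :=
            ENNReal.tsum_le_tsum fun x' => mul_le_mul_right (hM _) _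
        _ ≤ 1 * M := by rw [ENNReal.tsum_mul_right]; exact mul_le_mul_left (hD' a') _
        _ = M := one_mul _
    · have h2 : ∑' x', A (a, w + x' - y) = ∑' x', A (a, x') := by
        rw [← (Equiv.addRight (w - y)).tsum_eq (fun x' => A (a, x'))]
        refine tsum_congr fun x' => ?_
        simp only [Equiv.coe_addRight]
        congr 2
        abel
      calc ∑' x', D (a', x') * A (a, w + x' - y) ≤ ∑' x', M * A (a, w + x' - y) :=
            ENNReal.tsum_le_tsum fun x' => mul_le_mul_left (hM _) _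
        _ ≤ M * 1 := by rw [ENNReal.tsum_mul_left, h2]; exact mul_le_mul_right (hA' a) _
        _ = M := mul_one _

end Crest.Agent.R154.Asm790
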