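import Crest.Agent.R154.AsmB_819

/-! Row 154, road 801: one window for two walkers (helper819). -/

set_option autoImplicit false

namespace Crest.Agent.R154.Asm819

open Crest.Agent.R154.B5A
open Crest.Agent.R154.KWB419 (TT)
open scoped ENNReal
open Classical

variable {BX BY G : Type*} [AddCommGroup G]
variable (ΛX : BX → ℝ≥0∞) (hX : BX → ℕ) (zX : BX → G) (sX : BX → Set (G × ℕ))
  (ΛY : BY → ℝ≥0∞) (hY : BY → ℕ) (zY : BY → G) (sY : BY → Set (G × ℕ))

/-- a common site at depth `k` -/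
def Cn (L : List BX) (L' : List BY) (x : G) (a a' k : ℕ) : Prop :=
  ∃ y, (y, k) ∈ TT sX hX zX L 0 a ∧ (y, k) ∈ TT sY hY zY L' x a'

/-- input (2): the walker `X` is local -/
def H2 (us : ℕ → ℝ≥0∞) (C : ℝ≥0∞) : Prop :=
  ∀ (s h h' a a' lo : ℕ) (E : Finset G) (μ : G → ℝ≥0∞) (M lam : ℝ≥0∞),
    ∑' x, μ x ≤ 1 → (∀ x, μ x ≤ M) → lam ≠ 0 → lam ≠ ⊤ → a ≤ a' → a + s ≤ lo → a' + s ≤ lo →
    ∑' x, μ x * (∑' L : List BX, ∑' L' : List BY, if HT hX L = h ∧ Dp zX L ∈ E ∧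
        HT hY L' = h' ∧ (∃ k, Cn hX zX sX hY zY sY L L' x a a' k) ∧
        (∀ k, Cn hX zX sX hY zY sY L L' x a a' k → lo ≤ k)
        then LW ΛX L * LW ΛY L' else 0) ≤ C * (lam + M * E.card * us s / lam + us s)

/-- input (3): the walker `Y` is local -/
def H3 (us : ℕ → ℝ≥0∞) (C : ℝ≥0∞) : Prop :=
  ∀ (s h h' a a' hi : ℕ) (E : Finset G) (μ : G → ℝ≥0∞) (M lam : ℝ≥0∞),
    ∑' x, μ x ≤ 1 → (∀ x, μ x ≤ M) → lam ≠ 0 → lam ≠ ⊤ → a + h ≤ a' + h' →
    hi + s ≤ a + h → hi + s ≤ a' + h' →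
    ∑' x, μ x * (∑' L : List BX, ∑' L' : List BY, if HT hX L = h ∧
        HT hY L' = h' ∧ Dp zY L' ∈ E ∧ (∃ k, Cn hX zX sX hY zY sY L L' x a a' k) ∧
        (∀ k, Cn hX zX sX hY zY sY L L' x a a' k → k ≤ hi)
        then LW ΛX L * LW ΛY L' else 0) ≤ C * (lam + M * E.card * us s / lam + us s)

/-- Fubini through the relative position -/
lemma fiber {P : Type*} (c : P → ℝ≥0∞) (φ : P → G) (K : G → ℝ≥0∞) :
    ∑' p, c p * K (φ p) = ∑' x, (∑' p, if φ p = x then c p else 0) * K x := by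
  have h1 : ∀ x, (∑' p, if φ p = x then c p else 0) * K x
      = ∑' p, (if φ p = x then c p * K x else 0) := by
    intro x
    rw [← ENNReal.tsum_mul_right]
    refine tsum_congr fun p => ?_
    split_ifs <;> simp
  simp only [h1]
  rw [ENNReal.tsum_comm]
  refine tsum_congr fun p => ?_
  rw [tsum_eq_single (φ p)]
  · simp
  · intro x hx
    rw [if_neg (fun h => hx h.symm)]

lemma ite_mul_ite {p q : Prop} (a b : ℝ≥0∞) :
    (if p then a else 0) * (if q then b else 0) = if p ∧ q then a * b else 0 := by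
  by_cases hp : p <;> by_cases hq : q <;> simp [hp, hq]

section main

variable (h1X : ∀ b, 1 ≤ hX b) (h1Y : ∀ b, 1 ≤ hY b)
  (hΛX : ∑' b, ΛX b = 1) (hΛY : ∑' b, ΛY b = 1)
  (hsX : ∀ b q, q ∈ sX b → 1 ≤ q.2 ∧ q.2 ≤ hX b) (hsY : ∀ b q, q ∈ sY b → 1 ≤ q.2 ∧ q.2 ≤ hY b)

/-- the event of the two pieces -/
def Mn (w : G) (lo hi : ℕ) (A P : List BX) (A' P' : List BY) : Prop :=
  (∃ k, Cn hX zX sX hY zY sY P P' (w + Dp zY A' - Dp zX A) (HT hX A) (HT hY A') k) ∧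
  ∀ k, Cn hX zX sX hY zY sY P P' (w + Dp zY A' - Dp zX A) (HT hX A) (HT hY A') k →
    lo + 1 ≤ k ∧ k ≤ hi

/-- the window event of two crossings -/
def EvW (w : G) (lo up hi c2 : ℕ) (L : List BX) (L' : List BY) : Prop :=
  (∀ k, Cn hX zX sX hY zY sY L L' w 0 0 k → lo < k) ∧
  (∃ k, k ≤ up ∧ Cn hX zX sX hY zY sY L L' w 0 0 k) ∧
  ¬ ∃ k, hi < k ∧ k ≤ c2 ∧ Cn hX zX sX hY zY sY L L' w 0 0 k

lemma Cn_pieces {w : G} {A P R : List BX} {A' P' R' : List BY} {k : ℕ}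
    (h : Cn hX zX sX hY zY sY P P' (w + Dp zY A' - Dp zX A) (HT hX A) (HT hY A') k) :
    Cn hX zX sX hY zY sY (A ++ (P ++ R)) (A' ++ (P' ++ R')) w 0 0 k := by
  obtain ⟨y, h1, h2⟩ := h
  refine ⟨y + Dp zX A, ?_, ?_⟩
  · rw [TT_append, TT_append]
    right; left
    have h3 := TT_shift sX hX zX (-Dp zX A) P (0 + Dp zX A) (0 + HT hX A) y k
      (by rw [Nat.zero_add]; simpa using h1)
    simpa using h3
  · rw [TT_append, TT_append]
    right; left
    have h3 := TT_shift sY hY zY (-Dp zX A) P' (w + Dp zY A') (0 + HT hY A') y k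
      (by rw [Nat.zero_add, ← sub_eq_add_neg]; exact h2)
    simpa using h3

include hsX hsY in
lemma Mn_of_EvW {w : G} {b b' h0 i0 lo up hi c2 : ℕ} {A P R : List BX} {A' P' R' : List BY}
    (hb1 : b + i0 ≤ lo) (hb1' : b' + i0 ≤ lo) (hup : up ≤ b + h0) (hup' : up ≤ b' + h0)
    (hc2 : b + h0 + 2 * i0 ≤ c2)
    (hA : b ≤ HT hX A ∧ HT hX A ≤ b + i0) (hA' : b' ≤ HT hY A' ∧ HT hY A' ≤ b' + i0)
    (hP : h0 ≤ HT hX P ∧ HT hX P ≤ h0 + i0) (hP' : h0 ≤ HT hY P' ∧ HT hY P' ≤ h0 + i0)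
    (h : EvW hX zX sX hY zY sY w lo up hi c2 (A ++ (P ++ R)) (A' ++ (P' ++ R'))) :
    Mn hX zX sX hY zY sY w lo hi A P A' P' := by
  obtain ⟨e1, ⟨k, hk, y, hy1, hy2⟩, e3⟩ := h
  have hlo := e1 k ⟨y, hy1, hy2⟩
  constructor
  · refine ⟨k, y - Dp zX A, ?_, ?_⟩
    · rw [TT_append, TT_append] at hy1
      rcases hy1 with hy1 | hy1 | hy1
      · have := TT_depth sX hX zX hsX _ _ _ _ hy1
        simp only at this
        omega
      · rw [Nat.zero_add] at hy1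
        exact TT_shift sX hX zX (Dp zX A) P 0 (HT hX A) y k hy1
      · have := TT_depth sX hX zX hsX _ _ _ _ hy1
        simp only at this
        omega
    · rw [TT_append, TT_append] at hy2
      rcases hy2 with hy2 | hy2 | hy2
      · have := TT_depth sY hY zY hsY _ _ _ _ hy2
        simp only at this
        omega
      · rw [Nat.zero_add] at hy2
        refine TT_shift sY hY zY (Dp zX A) P' (w + Dp zY A' - Dp zX A) (HT hY A') y k ?_
        rw [sub_add_cancel]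
        exact hy2
      · have := TT_depth sY hY zY hsY _ _ _ _ hy2
        simp only at this
        omega
  · intro k' hk'
    have h4 := Cn_pieces hX zX sX hY zY sY (R := R) (R' := R') hk'
    have h5 := e1 k' h4
    refine ⟨by omega, ?_⟩
    by_contra hcon
    refine e3 ⟨k', by omega, ?_, h4⟩
    obtain ⟨y', hy', -⟩ := hk'
    have := TT_depth sX hX zX hsX _ _ _ _ hy'
    simp only at this
    omega

end main

end Crest.Agent.R154.Asm819
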