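import Crest.Agent.R154.AsmB_834

/-! Row 154, T0219, ROAD 801 (helper834, hedge of 540's assembly): sums. -/

set_option autoImplicit false

namespace Crest.Agent.R154.Asm834

open scoped ENNReal
open Crest.Agent.R154.B5A
open Crest.Agent.R154.Ren480 (Stp AT DS e1)

section op

variable {α β : Type*}

/-- weighted sum -/
noncomputable def I (w : α → ℝ≥0∞) (F : α → ℝ≥0∞) : ℝ≥0∞ := ∑' x, w x * F x

lemma I_mono {w F F' : α → ℝ≥0∞} (h : ∀ x, w x ≠ 0 → F x ≤ F' x) : I w F ≤ I w F' := by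
  refine ENNReal.tsum_le_tsum fun x => ?_
  by_cases hw : w x = 0
  · rw [hw, zero_mul]; exact zero_le
  · exact mul_le_mul_right (h x hw) _

lemma I_add (w F F' : α → ℝ≥0∞) : I w (fun x => F x + F' x) = I w F + I w F' := by
  rw [I, I, I, ← ENNReal.tsum_add]
  exact tsum_congr fun x => mul_add _ _ _

lemma I_le {w F : α → ℝ≥0∞} {c : ℝ≥0∞} (hw : ∑' x, w x ≤ 1) (h : ∀ x, w x ≠ 0 → F x ≤ c) :
    I w F ≤ c := by
  refine (I_mono (F' := fun _ => c) h).trans ?_
  rw [I, ENNReal.tsum_mul_right]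
  calc (∑' x, w x) * c ≤ 1 * c := mul_le_mul_left hw _
    _ = c := one_mul _

lemma I_mul (w F : α → ℝ≥0∞) (c : ℝ≥0∞) : I w (fun x => c * F x) = c * I w F := by
  rw [I, I, ← ENNReal.tsum_mul_left]
  exact tsum_congr fun x => mul_left_comm _ _ _

lemma I_mul' (w F : α → ℝ≥0∞) (c : ℝ≥0∞) : I w (fun x => F x * c) = I w F * c := by
  rw [I, I, ← ENNReal.tsum_mul_right]
  exact tsum_congr fun x => (mul_assoc _ _ _).symm

lemma I_swap (w : α → ℝ≥0∞) (v : β → ℝ≥0∞) (F : α → β → ℝ≥0∞) :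
    I w (fun x => I v (fun y => F x y)) = I v (fun y => I w (fun x => F x y)) := by
  simp only [I]
  simp_rw [← ENNReal.tsum_mul_left]
  rw [ENNReal.tsum_comm]
  exact tsum_congr fun y => tsum_congr fun x => mul_left_comm _ _ _

end op

section one

variable {B : Type*} {G : Type*} [AddCommGroup G] (Λ : B → ℝ≥0∞) (h : B → ℕ) (z : B → G)

/-- weight of crossings of height `n` -/
noncomputable def wn (n : ℕ) (L : List B) : ℝ≥0∞ := chi (HT h L = n) * LW Λ L
/-- first passage over `α`, not tall -/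
noncomputable def wA (α i0 : ℕ) (L : List B) : ℝ≥0∞ := chi (FP h L α ∧ HT h L ≤ α + i0) * LW Λ L
/-- first passage over `T` -/
noncomputable def wP (T : ℕ) (L : List B) : ℝ≥0∞ := chi (FP h L T) * LW Λ L

lemma wn_sum (hU : ∀ n, U Λ h n ≤ 1) (n : ℕ) : ∑' L, wn Λ h n L ≤ 1 := by
  refine le_trans (le_of_eq ?_) (hU n)
  rw [U]
  exact tsum_congr fun R => by rw [ite_chi, wn]

lemma wP_sum (h1 : ∀ b, 1 ≤ h b) (hΛ : ∑' b, Λ b = 1) (T : ℕ) : ∑' L, wP Λ h T L ≤ 1 :=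
  (FP_mass Λ h h1 hΛ T).le

lemma wA_sum (h1 : ∀ b, 1 ≤ h b) (hΛ : ∑' b, Λ b = 1) (α i0 : ℕ) : ∑' L, wA Λ h α i0 L ≤ 1 := by
  refine le_trans (ENNReal.tsum_le_tsum fun L => ?_) (FP_mass Λ h h1 hΛ α).le
  exact mul_le_mul_left (chi_mono fun x => x.1) _

lemma wA_ne {α i0 : ℕ} {L : List B} (hL : wA Λ h α i0 L ≠ 0) : FP h L α ∧ HT h L ≤ α + i0 := by
  by_contra hcon
  exact hL (by rw [wA, chi_neg hcon, zero_mul])

lemma wP_ne {T : ℕ} {L : List B} (hL : wP Λ h T L ≠ 0) : FP h L T := by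
  by_contra hcon
  exact hL (by rw [wP, chi_neg hcon, zero_mul])

lemma split_I (hU : ∀ n, U Λ h n ≤ 1) (n α T i0 : ℕ) (hn : α + i0 + T ≤ n)
    (F : List B → ℝ≥0∞) (hF : ∀ L, F L ≤ 1) (F' : List B → List B → ℝ≥0∞)
    (hFF : ∀ A P R, F (A ++ P ++ R) ≤ F' A P) :
    I (wn Λ h n) F ≤ tall Λ h α i0 + I (wA Λ h α i0) (fun A => I (wP Λ h T) (fun P => F' A P)) := by
  have := split3 Λ h hU n α T i0 hn F hF F' (fun A P R _ _ _ _ => hFF A P R)
  simp only [I, wn, wA, wP, mul_assoc]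
  exact this

lemma I_wP_tall (T i0 : ℕ) : I (wP Λ h T) (fun P => chi (T + i0 < HT h P)) = tall Λ h T i0 := by
  rw [I, tall]
  refine tsum_congr fun L => ?_
  rw [wP, chi_and]
  ring

/-- functional of (overshoot, displacement) -/
lemma I_wP_fun (T : ℕ) (H : ℕ × G → ℝ≥0∞) :
    I (wP Λ h T) (fun P => H (HT h P - T, DS z P)) = ∑' x, Ren480.a Λ h z T x * H x := by
  rw [← Ren480.AT_fun, AT_eq, I]
  refine tsum_congr fun L => ?_
  rw [wP, mul_assoc]

/-- use of the smooth density -/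
lemma smooth_use (α i0 : ℕ) (a1 b : ℕ × G → ℝ≥0∞) (δ : ℝ≥0∞)
    (hab : ∀ x, Ren480.a Λ h z α x ≤ a1 x + b x) (hb : ∑' x, b x ≤ δ)
    (ψ : ℕ → G → ℝ≥0∞) (hψ : ∀ c x, ψ c x ≤ 1) :
    I (wA Λ h α i0) (fun A => ψ (HT h A) (DS z A)) ≤
      δ + ∑ i ∈ Finset.range (i0 + 1), ∑' x, a1 (i, x) * ψ (α + i) x := by
  set H : ℕ × G → ℝ≥0∞ := fun x => chi (x.1 ≤ i0) * ψ (α + x.1) x.2 with hH
  have hH1 : ∀ x, H x ≤ 1 := fun x => by
    calc H x ≤ 1 * 1 := mul_le_mul' (chi_le_one _) (hψ _ _)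
      _ = 1 := one_mul 1
  have e0 : I (wA Λ h α i0) (fun A => ψ (HT h A) (DS z A))
      = I (wP Λ h α) (fun P => H (HT h P - α, DS z P)) := by
    rw [I, I]
    refine tsum_congr fun L => ?_
    by_cases hL : FP h L α
    · have hle := FP_le h L α hL
      simp only [wA, wP, hH]
      rw [chi_and, show α + (HT h L - α) = HT h L by omega,
        chi_congr (show HT h L - α ≤ i0 ↔ HT h L ≤ α + i0 by omega)]
      ring
    · simp only [wA, wP]
      rw [chi_neg hL, chi_neg (fun x => hL x.1)]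
      simp
  rw [e0, I_wP_fun]
  have e2 : ∑' x, a1 x * H x = ∑ i ∈ Finset.range (i0 + 1), ∑' x, a1 (i, x) * ψ (α + i) x := by
    rw [ENNReal.tsum_prod' (f := fun x : ℕ × G => a1 x * H x)]
    rw [tsum_eq_sum (s := Finset.range (i0 + 1))]
    · refine Finset.sum_congr rfl fun i hi => tsum_congr fun x => ?_
      simp only [hH]
      rw [chi_pos (by have := Finset.mem_range.1 hi; omega), one_mul]
    · intro i hi
      have : ∀ x : G, a1 (i, x) * H (i, x) = 0 := fun x => by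
        simp only [hH]
        rw [chi_neg (by simpa using hi), zero_mul, mul_zero]
      simp [this]
  calc ∑' x, Ren480.a Λ h z α x * H x ≤ ∑' x, (b x + a1 x * H x) := by
        refine ENNReal.tsum_le_tsum fun x => ?_
        calc Ren480.a Λ h z α x * H x ≤ (a1 x + b x) * H x := mul_le_mul_left (hab x) _
          _ = b x * H x + a1 x * H x := by ring
          _ ≤ b x * 1 + a1 x * H x := by gcongr; exact hH1 x
          _ = _ := by rw [mul_one]
    _ = ∑' x, b x + ∑' x, a1 x * H x := ENNReal.tsum_add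
    _ ≤ _ := by rw [e2]; gcongr

end one

end Crest.Agent.R154.Asm834
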