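import Crest.Agent.R154.AsmB_857

/-! Row 154, ROAD 801 (helper857): the bound of one window. -/

set_option autoImplicit false

namespace Crest.Agent.R154.Asm857

open Crest.Agent.R154.B5A
open scoped ENNReal Topology

noncomputable section

open Classical

variable {BX BY G : Type*} [AddCommGroup G] (ΛX : BX → ℝ≥0∞) (ΛY : BY → ℝ≥0∞)
  (hX : BX → ℕ) (hY : BY → ℕ) (zX : BX → G) (zY : BY → G)
  (TX : List BX → G → ℕ → Set (G × ℕ)) (TY : List BY → G → ℕ → Set (G × ℕ))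

/-- the two pieces meet -/
def Mt (x : G) (a a' : ℕ) (P : List BX) (P' : List BY) : Prop :=
  ∃ z k, (z, k) ∈ TX P 0 a ∧ (z, k) ∈ TY P' x a'

/-- the window lemma (2), lists -/
def H2L (C : ℝ≥0∞) (us : ℕ → ℝ≥0∞) : Prop :=
  ∀ (s h h' a a' lo : ℕ) (E : Finset G) (μ : G → ℝ≥0∞) (M lam : ℝ≥0∞),
    ∑' x, μ x ≤ 1 → (∀ x, μ x ≤ M) → lam ≠ 0 → lam ≠ ⊤ → a ≤ a' → a + s ≤ lo → a' + s ≤ lo →
    ∑' x, μ x * (∑' L : List BX, ∑' L' : List BY, if HT hX L = h ∧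
        Dp zX L ∈ E ∧ HT hY L' = h' ∧
        (∃ z k, (z, k) ∈ TX L 0 a ∧ (z, k) ∈ TY L' x a') ∧
        (∀ z k, (z, k) ∈ TX L 0 a → (z, k) ∈ TY L' x a' → lo ≤ k)
        then LW ΛX L * LW ΛY L' else 0)
      ≤ C * (lam + M * E.card * us s / lam + us s)

/-- the window lemma (3), lists -/
def H3L (C : ℝ≥0∞) (us : ℕ → ℝ≥0∞) : Prop :=
  ∀ (s h h' a a' hi : ℕ) (E : Finset G) (μ : G → ℝ≥0∞) (M lam : ℝ≥0∞),
    ∑' x, μ x ≤ 1 → (∀ x, μ x ≤ M) → lam ≠ 0 → lam ≠ ⊤ → a + h ≤ a' + h' →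
    hi + s ≤ a + h → hi + s ≤ a' + h' →
    ∑' x, μ x * (∑' L : List BX, ∑' L' : List BY, if HT hX L = h ∧ HT hY L' = h' ∧
        Dp zY L' ∈ E ∧
        (∃ z k, (z, k) ∈ TX L 0 a ∧ (z, k) ∈ TY L' x a') ∧
        (∀ z k, (z, k) ∈ TX L 0 a → (z, k) ∈ TY L' x a' → k ≤ hi)
        then LW ΛX L * LW ΛY L' else 0)
      ≤ C * (lam + M * E.card * us s / lam + us s)

/-- the event of the two pieces -/
def Ev (lo hi : ℕ) (x : G) (a a' : ℕ) (P : List BX) (P' : List BY) : Prop :=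
  (∃ z k, (z, k) ∈ TX P 0 a ∧ (z, k) ∈ TY P' x a') ∧
    ∀ z k, (z, k) ∈ TX P 0 a → (z, k) ∈ TY P' x a' → lo ≤ k ∧ k ≤ hi

/-- local piece -/
def Loc {B : Type*} (Λ : B → ℝ≥0∞) (ht : B → ℕ) (zz : B → G) (τ : ℕ) (th : ℝ≥0∞)
    (P : List B) : Prop := th ≤ pp Λ ht zz τ (HT ht P - τ, Dp zz P)

/-- X local -/
def Ph2 (τ τ' i0 : ℕ) (th : ℝ≥0∞) (lo hi a a' : ℕ) (x : G) : ℝ≥0∞ :=
  ∑' P, ∑' P', (if Loc ΛX hX zX τ th P ∧ Ev TX TY lo hi x a a' P P' then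
    gw ΛX hX τ i0 P * gw ΛY hY τ' i0 P' else 0)

/-- Y local -/
def Ph3 (τ τ' i0 : ℕ) (th : ℝ≥0∞) (lo hi a a' : ℕ) (x : G) : ℝ≥0∞ :=
  ∑' P, ∑' P', (if Loc ΛY hY zY τ' th P' ∧ Ev TX TY lo hi x a a' P P' then
    gw ΛX hX τ i0 P * gw ΛY hY τ' i0 P' else 0)

lemma Ph2_le (h1X : ∀ b, 1 ≤ hX b) (h1Y : ∀ b, 1 ≤ hY b) (hΛX : ∑' b, ΛX b = 1)
    (hΛY : ∑' b, ΛY b = 1) (τ τ' i0 : ℕ) (th : ℝ≥0∞) (lo hi a a' : ℕ) (x : G) :
    Ph2 ΛX ΛY hX hY zX TX TY τ τ' i0 th lo hi a a' x ≤ 1 := by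
  unfold Ph2
  calc _ ≤ ∑' P, ∑' P', gw ΛX hX τ i0 P * gw ΛY hY τ' i0 P' := by
        refine ENNReal.tsum_le_tsum fun P => ENNReal.tsum_le_tsum fun P' => ?_
        split_ifs <;> simp
    _ = (∑' P, gw ΛX hX τ i0 P) * ∑' P', gw ΛY hY τ' i0 P' := by
        simp_rw [ENNReal.tsum_mul_left, ENNReal.tsum_mul_right]
    _ ≤ 1 * 1 := mul_le_mul' (gw_mass ΛX hX h1X hΛX τ i0) (gw_mass ΛY hY h1Y hΛY τ' i0)
    _ = 1 := one_mul 1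

lemma Ph3_le (h1X : ∀ b, 1 ≤ hX b) (h1Y : ∀ b, 1 ≤ hY b) (hΛX : ∑' b, ΛX b = 1)
    (hΛY : ∑' b, ΛY b = 1) (τ τ' i0 : ℕ) (th : ℝ≥0∞) (lo hi a a' : ℕ) (x : G) :
    Ph3 ΛX ΛY hX hY zY TX TY τ τ' i0 th lo hi a a' x ≤ 1 := by
  unfold Ph3
  calc _ ≤ ∑' P, ∑' P', gw ΛX hX τ i0 P * gw ΛY hY τ' i0 P' := by
        refine ENNReal.tsum_le_tsum fun P => ENNReal.tsum_le_tsum fun P' => ?_
        split_ifs <;> simp
    _ = (∑' P, gw ΛX hX τ i0 P) * ∑' P', gw ΛY hY τ' i0 P' := by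
        simp_rw [ENNReal.tsum_mul_left, ENNReal.tsum_mul_right]
    _ ≤ 1 * 1 := mul_le_mul' (gw_mass ΛX hX h1X hΛX τ i0) (gw_mass ΛY hY h1Y hΛY τ' i0)
    _ = 1 := one_mul 1

/-- union over the heights of the two pieces -/
lemma sumJJ (τ τ' i0 : ℕ) (F : List BX → List BY → ℝ≥0∞)
    (K : ℕ → ℕ → List BX → List BY → ℝ≥0∞)
    (hF : ∀ P P', τ ≤ HT hX P → HT hX P ≤ τ + i0 → τ' ≤ HT hY P' → HT hY P' ≤ τ' + i0 →
      F P P' ≤ K (HT hX P - τ) (HT hY P' - τ') P P')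
    (hF0 : ∀ P P', ¬ (τ ≤ HT hX P ∧ HT hX P ≤ τ + i0 ∧ τ' ≤ HT hY P' ∧ HT hY P' ≤ τ' + i0) →
      F P P' = 0) :
    ∑' P, ∑' P', F P P' ≤ ∑ j ∈ Finset.range (i0 + 1), ∑ j' ∈ Finset.range (i0 + 1),
      ∑' P, ∑' P', K j j' P P' := by
  have e : ∑ j ∈ Finset.range (i0 + 1), ∑ j' ∈ Finset.range (i0 + 1),
      ∑' P, ∑' P', K j j' P P' = ∑' P, ∑' P', ∑ j ∈ Finset.range (i0 + 1),
        ∑ j' ∈ Finset.range (i0 + 1), K j j' P P' := by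
    simp only [Summable.tsum_finsetSum (fun _ _ => ENNReal.summable)]
  rw [e]
  refine ENNReal.tsum_le_tsum fun P => ENNReal.tsum_le_tsum fun P' => ?_
  by_cases h : τ ≤ HT hX P ∧ HT hX P ≤ τ + i0 ∧ τ' ≤ HT hY P' ∧ HT hY P' ≤ τ' + i0
  · refine (hF P P' h.1 h.2.1 h.2.2.1 h.2.2.2).trans ?_
    refine le_trans ?_ (Finset.single_le_sum (f := fun j => ∑ j' ∈ Finset.range (i0 + 1),
      K j j' P P') (fun _ _ => zero_le) (Finset.mem_range.2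
        (show HT hX P - τ < i0 + 1 by omega)))
    exact Finset.single_le_sum (f := fun j' => K (HT hX P - τ) j' P P')
      (fun _ _ => zero_le) (Finset.mem_range.2 (show HT hY P' - τ' < i0 + 1 by omega))
  · rw [hF0 P P' h]; exact zero_le

lemma gw_zero {B : Type*} (Λ : B → ℝ≥0∞) (ht : B → ℕ) (τ i0 : ℕ) (P : List B)
    (h : ¬ (τ ≤ HT ht P ∧ HT ht P ≤ τ + i0)) : gw Λ ht τ i0 P = 0 := by
  unfold gw
  rw [if_neg]
  rintro ⟨h1, h2⟩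
  exact h ⟨le_of_FP ht P τ h1, h2⟩

lemma gw_le {B : Type*} (Λ : B → ℝ≥0∞) (ht : B → ℕ) (τ i0 : ℕ) (P : List B) :
    gw Λ ht τ i0 P ≤ LW Λ P := by
  unfold gw
  split_ifs <;> simp

lemma muS {C S : ℝ≥0∞} (i0 : ℕ) (μ Φ : G → ℝ≥0∞) (H : ℕ → ℕ → G → ℝ≥0∞)
    (hΦ : ∀ x, Φ x ≤ ∑ j ∈ Finset.range (i0 + 1), ∑ j' ∈ Finset.range (i0 + 1), H j j' x)
    (hH : ∀ j j', j ≤ i0 → j' ≤ i0 → ∑' x, μ x * H j j' x ≤ S) :
    ∑' x, μ x * Φ x ≤ ((i0 + 1 : ℕ) : ℝ≥0∞) * (((i0 + 1 : ℕ) : ℝ≥0∞) * S) := by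
  calc _ ≤ ∑' x, μ x * ∑ j ∈ Finset.range (i0 + 1), ∑ j' ∈ Finset.range (i0 + 1), H j j' x :=
        ENNReal.tsum_le_tsum fun x => mul_le_mul_right (hΦ x) _
    _ = ∑ j ∈ Finset.range (i0 + 1), ∑ j' ∈ Finset.range (i0 + 1), ∑' x, μ x * H j j' x := by
        simp only [Finset.mul_sum]
        simp only [Summable.tsum_finsetSum (fun _ _ => ENNReal.summable)]
    _ ≤ ∑ j ∈ Finset.range (i0 + 1), ∑ j' ∈ Finset.range (i0 + 1), S := by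
        refine Finset.sum_le_sum fun j hj => Finset.sum_le_sum fun j' hj' => ?_
        exact hH j j' (by have := Finset.mem_range.1 hj; omega)
          (by have := Finset.mem_range.1 hj'; omega)
    _ = _ := by simp

theorem S2b {C : ℝ≥0∞} {us : ℕ → ℝ≥0∞} (H2 : H2L ΛX ΛY hX hY zX TX TY C us)
    (h1X : ∀ b, 1 ≤ hX b) (hΛX : ∑' b, ΛX b = 1)
    (τ τ' i0 s lo hi a a' : ℕ) (th Gc D lam : ℝ≥0∞) (hth : th ≠ 0)
    (hD : ∀ (j : ℕ) (E : Finset G), (∀ z ∈ E, th ≤ pp ΛX hX zX τ (j, z)) → Gc * E.card ≤ D)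
    (hlam : lam ≠ 0) (hlam' : lam ≠ ⊤)
    (haa : a ≤ a') (ha : a + s ≤ lo) (ha' : a' + s ≤ lo)
    (μ : G → ℝ≥0∞) (hμ : ∑' x, μ x ≤ 1) (hμ' : ∀ x, μ x ≤ Gc) :
    ∑' x, μ x * Ph2 ΛX ΛY hX hY zX TX TY τ τ' i0 th lo hi a a' x
      ≤ ((i0 + 1 : ℕ) : ℝ≥0∞) * (((i0 + 1 : ℕ) : ℝ≥0∞) *
        (C * (lam + D * us s / lam + us s))) := by
  have hfin : ∀ j : ℕ, {z : G | th ≤ pp ΛX hX zX τ (j, z)}.Finite := by
    intro j
    have h := ENNReal.finite_const_le_of_tsum_ne_top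
      (by rw [pp_total ΛX hX zX h1X hΛX τ]; exact ENNReal.one_ne_top) hth
    exact (h.preimage (f := fun z : G => ((j, z) : ℕ × G))
      (fun a _ b _ hab => by simpa using hab))
  refine muS (C := C) i0 μ _ (fun j j' x => ∑' L : List BX, ∑' L' : List BY, if HT hX L = τ + j ∧
        Dp zX L ∈ (hfin j).toFinset ∧ HT hY L' = τ' + j' ∧
        (∃ z k, (z, k) ∈ TX L 0 a ∧ (z, k) ∈ TY L' x a') ∧
        (∀ z k, (z, k) ∈ TX L 0 a → (z, k) ∈ TY L' x a' → lo ≤ k)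
        then LW ΛX L * LW ΛY L' else 0) ?_ ?_
  · intro x
    unfold Ph2
    refine sumJJ hX hY τ τ' i0 _ (fun j j' L L' => if HT hX L = τ + j ∧
        Dp zX L ∈ (hfin j).toFinset ∧ HT hY L' = τ' + j' ∧
        (∃ z k, (z, k) ∈ TX L 0 a ∧ (z, k) ∈ TY L' x a') ∧
        (∀ z k, (z, k) ∈ TX L 0 a → (z, k) ∈ TY L' x a' → lo ≤ k)
        then LW ΛX L * LW ΛY L' else 0) ?_ ?_
    · intro P P' k1 k2 k3 k4
      by_cases h : Loc ΛX hX zX τ th P ∧ Ev TX TY lo hi x a a' P P'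
      · rw [if_pos h, if_pos]
        · exact mul_le_mul' (gw_le ΛX hX τ i0 P) (gw_le ΛY hY τ' i0 P')
        · refine ⟨by omega, ?_, by omega, h.2.1, fun z k hz hz' => (h.2.2 z k hz hz').1⟩
          rw [Set.Finite.mem_toFinset]
          exact h.1
      · rw [if_neg h]; exact zero_le
    · intro P P' hn
      by_cases hP : τ ≤ HT hX P ∧ HT hX P ≤ τ + i0
      · rw [gw_zero ΛY hY τ' i0 P' (fun h => hn ⟨hP.1, hP.2, h.1, h.2⟩)]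
        simp
      · rw [gw_zero ΛX hX τ i0 P hP]
        simp
  · intro j j' _ _
    refine (H2 s (τ + j) (τ' + j') a a' lo (hfin j).toFinset μ Gc lam hμ hμ' hlam hlam'
      haa ha ha').trans ?_
    have hc := hD j (hfin j).toFinset (fun z hz => by
      rw [Set.Finite.mem_toFinset] at hz; exact hz)
    gcongr

theorem S3b {C : ℝ≥0∞} {us : ℕ → ℝ≥0∞} (H3 : H3L ΛX ΛY hX hY zY TX TY C us)
    (h1Y : ∀ b, 1 ≤ hY b) (hΛY : ∑' b, ΛY b = 1)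
    (τ τ' i0 s lo hi a a' : ℕ) (th Gc D lam : ℝ≥0∞) (hth : th ≠ 0)
    (hD : ∀ (j : ℕ) (E : Finset G), (∀ z ∈ E, th ≤ pp ΛY hY zY τ' (j, z)) → Gc * E.card ≤ D)
    (hlam : lam ≠ 0) (hlam' : lam ≠ ⊤)
    (haa : a + τ + i0 ≤ a' + τ') (ha : hi + s ≤ a + τ) (ha' : hi + s ≤ a' + τ')
    (μ : G → ℝ≥0∞) (hμ : ∑' x, μ x ≤ 1) (hμ' : ∀ x, μ x ≤ Gc) :
    ∑' x, μ x * Ph3 ΛX ΛY hX hY zY TX TY τ τ' i0 th lo hi a a' x
      ≤ ((i0 + 1 : ℕ) : ℝ≥0∞) * (((i0 + 1 : ℕ) : ℝ≥0∞) *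
        (C * (lam + D * us s / lam + us s))) := by
  have hfin : ∀ j : ℕ, {z : G | th ≤ pp ΛY hY zY τ' (j, z)}.Finite := by
    intro j
    have h := ENNReal.finite_const_le_of_tsum_ne_top
      (by rw [pp_total ΛY hY zY h1Y hΛY τ']; exact ENNReal.one_ne_top) hth
    exact (h.preimage (f := fun z : G => ((j, z) : ℕ × G))
      (fun a _ b _ hab => by simpa using hab))
  refine muS (C := C) i0 μ _ (fun j j' x => ∑' L : List BX, ∑' L' : List BY, if HT hX L = τ + j ∧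
        HT hY L' = τ' + j' ∧ Dp zY L' ∈ (hfin j').toFinset ∧
        (∃ z k, (z, k) ∈ TX L 0 a ∧ (z, k) ∈ TY L' x a') ∧
        (∀ z k, (z, k) ∈ TX L 0 a → (z, k) ∈ TY L' x a' → k ≤ hi)
        then LW ΛX L * LW ΛY L' else 0) ?_ ?_
  · intro x
    unfold Ph3
    refine sumJJ hX hY τ τ' i0 _ (fun j j' L L' => if HT hX L = τ + j ∧
        HT hY L' = τ' + j' ∧ Dp zY L' ∈ (hfin j').toFinset ∧
        (∃ z k, (z, k) ∈ TX L 0 a ∧ (z, k) ∈ TY L' x a') ∧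
        (∀ z k, (z, k) ∈ TX L 0 a → (z, k) ∈ TY L' x a' → k ≤ hi)
        then LW ΛX L * LW ΛY L' else 0) ?_ ?_
    · intro P P' k1 k2 k3 k4
      by_cases h : Loc ΛY hY zY τ' th P' ∧ Ev TX TY lo hi x a a' P P'
      · rw [if_pos h, if_pos]
        · exact mul_le_mul' (gw_le ΛX hX τ i0 P) (gw_le ΛY hY τ' i0 P')
        · refine ⟨by omega, by omega, ?_, h.2.1, fun z k hz hz' => (h.2.2 z k hz hz').2⟩
          rw [Set.Finite.mem_toFinset]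
          exact h.1
      · rw [if_neg h]; exact zero_le
    · intro P P' hn
      by_cases hP : τ ≤ HT hX P ∧ HT hX P ≤ τ + i0
      · rw [gw_zero ΛY hY τ' i0 P' (fun h => hn ⟨hP.1, hP.2, h.1, h.2⟩)]
        simp
      · rw [gw_zero ΛX hX τ i0 P hP]
        simp
  · intro j j' hj hj'
    refine (H3 s (τ + j) (τ' + j') a a' hi (hfin j').toFinset μ Gc lam hμ hμ' hlam hlam'
      (by omega) (by omega) (by omega)).trans ?_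
    have hc := hD j' (hfin j').toFinset (fun z hz => by
      rw [Set.Finite.mem_toFinset] at hz; exact hz)
    gcongr

end

end Crest.Agent.R154.Asm857
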