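import Crest.Agent.R154.AsmB_871

/-! Row 154 (helper871), ROAD 801: one window. -/

set_option autoImplicit false

namespace Crest.Agent.R154.Asm871

open scoped ENNReal
open Crest.Agent.R154.B5A Crest.Agent.R154.FP178

/-- trace of a list of blocks (helper540's letters) -/
def TT {B G : Type*} [AddCommGroup G] (s : B → Set (G × ℕ)) (h : B → ℕ) (z : B → G) :
    List B → G → ℕ → Set (G × ℕ)
  | [], _, _ => ∅
  | b :: L, x, a => {p | ∃ q ∈ s b, p = (x + q.1, a + q.2)} ∪ TT s h z L (x + z b) (a + h b)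

section trace

variable {B G : Type*} [AddCommGroup G] (s : B → Set (G × ℕ)) (h : B → ℕ) (z : B → G)

lemma TT_append (L L' : List B) (x : G) (a : ℕ) :
    TT s h z (L ++ L') x a = TT s h z L x a ∪ TT s h z L' (x + Dp z L) (a + HT h L) := by
  induction L generalizing x a with
  | nil => simp [TT, Dp, HT_nil]
  | cons b L ih =>
    rw [List.cons_append, TT, TT, ih, Set.union_assoc, HT_cons]
    have e : Dp z (b :: L) = z b + Dp z L := by simp [Dp]
    rw [e, add_assoc, add_assoc]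

lemma TT_depth (hs : ∀ b, ∀ p ∈ s b, 1 ≤ p.2 ∧ p.2 ≤ h b) (L : List B) (x : G) (a : ℕ) (p : G × ℕ)
    (hp : p ∈ TT s h z L x a) : a + 1 ≤ p.2 ∧ p.2 ≤ a + HT h L := by
  induction L generalizing x a with
  | nil => simp [TT] at hp
  | cons b L ih =>
    rw [HT_cons]
    rcases hp with ⟨q, hq, rfl⟩ | hp
    · have := hs b q hq
      simp only
      omega
    · have := ih _ _ hp
      omega

lemma TT_shift (L : List B) (x y : G) (a : ℕ) (q : G) (k : ℕ) :
    (q, k) ∈ TT s h z L (x + y) a ↔ (q - y, k) ∈ TT s h z L x a := by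
  induction L generalizing x a with
  | nil => simp [TT]
  | cons b L ih =>
    rw [TT, TT]
    have e : x + y + z b = (x + z b) + y := by abel
    rw [e]
    constructor
    · rintro (⟨r, hr, he⟩ | hp)
      · left
        refine ⟨r, hr, ?_⟩
        rw [Prod.mk.injEq] at he ⊢
        refine ⟨?_, he.2⟩
        rw [he.1]; abel
      · right; exact (ih _ _).1 hp
    · rintro (⟨r, hr, he⟩ | hp)
      · left
        refine ⟨r, hr, ?_⟩
        rw [Prod.mk.injEq] at he ⊢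
        refine ⟨?_, he.2⟩
        have : q = (x + r.1) + y := by rw [← he.1]; abel
        rw [this]; abel
      · right; exact (ih _ _).2 hp

end trace

section S

variable {B : Type*} (Λ : B → ℝ≥0∞) (ht : B → ℕ)

open Classical in
/-- sum over the first passages of depth `T` with overshoot at most `i0` -/
noncomputable def S (T i0 : ℕ) (f : List B → ℝ≥0∞) : ℝ≥0∞ :=
  ∑' A, (if fp ht T A ∧ HT ht A ≤ T + i0 then LW Λ A * f A else 0)

lemma S_mono (T i0 : ℕ) {f g : List B → ℝ≥0∞} (h : ∀ A, f A ≤ g A) : S Λ ht T i0 f ≤ S Λ ht T i0 g := by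
  classical
  refine ENNReal.tsum_le_tsum fun A => ?_
  split_ifs
  · gcongr; exact h A
  · exact le_rfl

lemma S_mono' (T i0 : ℕ) {f g : List B → ℝ≥0∞}
    (h : ∀ A, fp ht T A → HT ht A ≤ T + i0 → f A ≤ g A) : S Λ ht T i0 f ≤ S Λ ht T i0 g := by
  classical
  refine ENNReal.tsum_le_tsum fun A => ?_
  split_ifs with h'
  · gcongr; exact h A h'.1 h'.2
  · exact le_rfl

lemma S_add (T i0 : ℕ) (f g : List B → ℝ≥0∞) :
    S Λ ht T i0 (fun A => f A + g A) = S Λ ht T i0 f + S Λ ht T i0 g := by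
  classical
  rw [S, S, S, ← ENNReal.tsum_add]
  refine tsum_congr fun A => ?_
  split_ifs
  · rw [mul_add]
  · simp

lemma S_mul (T i0 : ℕ) (c : ℝ≥0∞) (f : List B → ℝ≥0∞) :
    S Λ ht T i0 (fun A => f A * c) = S Λ ht T i0 f * c := by
  classical
  rw [S, S, ← ENNReal.tsum_mul_right]
  refine tsum_congr fun A => ?_
  split_ifs
  · rw [mul_assoc]
  · simp

lemma S_mulL (T i0 : ℕ) (c : ℝ≥0∞) (f : List B → ℝ≥0∞) :
    S Λ ht T i0 (fun A => c * f A) = c * S Λ ht T i0 f := by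
  classical
  rw [S, S, ← ENNReal.tsum_mul_left]
  refine tsum_congr fun A => ?_
  split_ifs
  · ring
  · simp

lemma S_const (h1 : ∀ b, 1 ≤ ht b) (hΛ : ∑' b, Λ b ≤ 1) (T i0 : ℕ) (c : ℝ≥0∞) :
    S Λ ht T i0 (fun _ => c) ≤ c := by
  classical
  calc S Λ ht T i0 (fun _ => c) ≤ ∑' A, (if fp ht T A then LW Λ A else 0) * c := by
        refine ENNReal.tsum_le_tsum fun A => ?_
        by_cases h : fp ht T A ∧ HT ht A ≤ T + i0
        · rw [if_pos h, if_pos h.1]
        · rw [if_neg h]; exact zero_le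
    _ = (∑' A, (if fp ht T A then LW Λ A else 0)) * c := ENNReal.tsum_mul_right
    _ ≤ 1 * c := by gcongr; exact sum_FP Λ ht h1 hΛ T
    _ = c := one_mul c

lemma S_le (h1 : ∀ b, 1 ≤ ht b) (hΛ : ∑' b, Λ b ≤ 1) (T i0 : ℕ) {c : ℝ≥0∞}
    {f : List B → ℝ≥0∞} (h : ∀ A, fp ht T A → HT ht A ≤ T + i0 → f A ≤ c) :
    S Λ ht T i0 f ≤ c :=
  (S_mono' Λ ht T i0 h).trans (S_const Λ ht h1 hΛ T i0 c)

end S

section pair

variable {BX BY G : Type*} [AddCommGroup G] (ΛX : BX → ℝ≥0∞) (hX : BX → ℕ) (zX : BX → G)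
  (sX : BX → Set (G × ℕ)) (ΛY : BY → ℝ≥0∞) (hY : BY → ℕ) (zY : BY → G) (sY : BY → Set (G × ℕ))

lemma S_comm (T i0 T' i0' : ℕ) (f : List BX → List BY → ℝ≥0∞) :
    S ΛX hX T i0 (fun A => S ΛY hY T' i0' (fun A' => f A A'))
      = S ΛY hY T' i0' (fun A' => S ΛX hX T i0 (fun A => f A A')) := by
  classical
  simp only [S]
  have e1 : ∀ A, (if fp hX T A ∧ HT hX A ≤ T + i0 then LW ΛX A *
      ∑' A', (if fp hY T' A' ∧ HT hY A' ≤ T' + i0' then LW ΛY A' * f A A' else 0) else 0)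
      = ∑' A', (if fp hX T A ∧ HT hX A ≤ T + i0 then (if fp hY T' A' ∧ HT hY A' ≤ T' + i0' then
        LW ΛX A * (LW ΛY A' * f A A') else 0) else 0) := by
    intro A
    split_ifs with h
    · rw [← ENNReal.tsum_mul_left]
      refine tsum_congr fun A' => ?_
      split_ifs <;> simp
    · simp
  rw [tsum_congr e1, ENNReal.tsum_comm]
  refine tsum_congr fun A' => ?_
  split_ifs with h
  · rw [← ENNReal.tsum_mul_left]
    refine tsum_congr fun A => ?_
    split_ifs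
    · ring
    · simp
  · simp

/-- the two placed lists have a common site at depth `k` -/
def Cn (LX : List BX) (x : G) (a : ℕ) (LY : List BY) (y : G) (a' : ℕ) (k : ℕ) : Prop :=
  ∃ z, (z, k) ∈ TT sX hX zX LX x a ∧ (z, k) ∈ TT sY hY zY LY y a'

lemma Cn_shift (LX : List BX) (x : G) (a : ℕ) (LY : List BY) (y : G) (a' : ℕ) (k : ℕ) :
    Cn hX zX sX hY zY sY LX x a LY y a' k ↔ Cn hX zX sX hY zY sY LX 0 a LY (y - x) a' k := by
  constructor
  · rintro ⟨z, h1, h2⟩
    refine ⟨z - x, ?_, ?_⟩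
    · have := TT_shift sX hX zX LX 0 x a z k
      rw [zero_add] at this
      exact this.1 h1
    · have := TT_shift sY hY zY LY (y - x) x a' z k
      rw [sub_add_cancel] at this
      exact this.1 h2
  · rintro ⟨z, h1, h2⟩
    refine ⟨z + x, ?_, ?_⟩
    · have := TT_shift sX hX zX LX 0 x a (z + x) k
      rw [zero_add, add_sub_cancel_right] at this
      exact this.2 h1
    · have := TT_shift sY hY zY LY (y - x) x a' (z + x) k
      rw [sub_add_cancel, add_sub_cancel_right] at this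
      exact this.2 h2

/-- the event of a pair of pieces -/
def Q (lo hi : ℕ) (P : List BX) (x : G) (a : ℕ) (P' : List BY) (y : G) (a' : ℕ) : Prop :=
  (∃ k, Cn hX zX sX hY zY sY P x a P' y a' k) ∧
    ∀ k, Cn hX zX sX hY zY sY P x a P' y a' k → lo ≤ k ∧ k ≤ hi

lemma Q_shift (lo hi : ℕ) (P : List BX) (x : G) (a : ℕ) (P' : List BY) (y : G) (a' : ℕ) :
    Q hX zX sX hY zY sY lo hi P x a P' y a' ↔ Q hX zX sX hY zY sY lo hi P 0 a P' (y - x) a' := by
  unfold Q
  simp only [Cn_shift hX zX sX hY zY sY P x a P' y a']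

/-- window event of a pair of crossings -/
def Ev (w : G) (T t s i0 : ℕ) (LX : List BX) (LY : List BY) : Prop :=
  (∃ k, Cn hX zX sX hY zY sY LX 0 0 LY w 0 k ∧ k ≤ T + 2 * t) ∧
    (∀ k, Cn hX zX sX hY zY sY LX 0 0 LY w 0 k → T + t < k) ∧
    (∀ k, Cn hX zX sX hY zY sY LX 0 0 LY w 0 k →
      ¬ (T + 3 * t - s + 1 ≤ k ∧ k < T + 3 * t - s + 1 + (s + 2 * i0)))

lemma ev_Q (hsX : ∀ b, ∀ p ∈ sX b, 1 ≤ p.2 ∧ p.2 ≤ hX b)
    (hsY : ∀ b, ∀ p ∈ sY b, 1 ≤ p.2 ∧ p.2 ≤ hY b) (w : G) (T t s i0 : ℕ) (ht : 2 * i0 + s ≤ t)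
    (A P R : List BX) (A' P' R' : List BY) (hA : HT hX A ≤ T + i0)
    (hAT : T ≤ HT hX A) (hP : 3 * t ≤ HT hX P) (hP' : HT hX P ≤ 3 * t + i0)
    (hA' : HT hY A' ≤ T + i0 + i0) (hAT' : T + i0 ≤ HT hY A') (hPY : 3 * t + i0 ≤ HT hY P')
    (h : Ev hX zX sX hY zY sY w T t s i0 (A ++ (P ++ R)) (A' ++ (P' ++ R'))) :
    Q hX zX sX hY zY sY (T + t + 1) (T + 3 * t - s) P (Dp zX A) (HT hX A) P' (w + Dp zY A')
      (HT hY A') := by
  have hsub : ∀ k, Cn hX zX sX hY zY sY P (Dp zX A) (HT hX A) P' (w + Dp zY A') (HT hY A') k →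
      Cn hX zX sX hY zY sY (A ++ (P ++ R)) 0 0 (A' ++ (P' ++ R')) w 0 k := by
    rintro k ⟨z, h1, h2⟩
    refine ⟨z, ?_, ?_⟩
    · rw [TT_append, TT_append]
      right; left
      simpa using h1
    · rw [TT_append, TT_append]
      right; left
      simpa using h2
  obtain ⟨⟨k, ⟨z, hz1, hz2⟩, hk⟩, hlo, hslab⟩ := h
  have hk1 : T + t < k := hlo k ⟨z, hz1, hz2⟩
  refine ⟨⟨k, z, ?_, ?_⟩, ?_⟩
  · rw [TT_append, TT_append] at hz1
    rcases hz1 with h1 | h1 | h1
    · have := TT_depth sX hX zX hsX _ _ _ _ h1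
      simp only at this
      omega
    · simpa using h1
    · have := TT_depth sX hX zX hsX _ _ _ _ h1
      simp only at this
      omega
  · rw [TT_append, TT_append] at hz2
    rcases hz2 with h1 | h1 | h1
    · have := TT_depth sY hY zY hsY _ _ _ _ h1
      simp only at this
      omega
    · simpa using h1
    · have := TT_depth sY hY zY hsY _ _ _ _ h1
      simp only at this
      omega
  · intro j hj
    have h1 := hlo j (hsub j hj)
    have h2 := hslab j (hsub j hj)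
    obtain ⟨z', hz', -⟩ := hj
    have h3 := TT_depth sX hX zX hsX _ _ _ _ hz'
    simp only at h3
    omega

open Classical in
/-- **one window**: reduction to the two pieces -/
theorem window1 (h1X : ∀ b, 1 ≤ hX b) (h1Y : ∀ b, 1 ≤ hY b) (hΛX : ∑' b, ΛX b ≤ 1)
    (hΛY : ∑' b, ΛY b ≤ 1) (hUX : ∀ n, U ΛX hX n ≤ 1) (hUY : ∀ n, U ΛY hY n ≤ 1)
    (hsX : ∀ b, ∀ p ∈ sX b, 1 ≤ p.2 ∧ p.2 ≤ hX b)
    (hsY : ∀ b, ∀ p ∈ sY b, 1 ≤ p.2 ∧ p.2 ≤ hY b) (w : G) (T t s i0 n : ℕ)
    (ht : 2 * i0 + s ≤ t) (hn : T + 3 * t + 4 * i0 ≤ n) :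
    ∑' LX, (if HT hX LX = n then LW ΛX LX * ∑' LY, (if HT hY LY = n then LW ΛY LY *
      (if Ev hX zX sX hY zY sY w T t s i0 LX LY then 1 else 0) else 0) else 0)
      ≤ 2 * ov ΛX hX i0 + (2 * ov ΛY hY i0 +
        S ΛX hX T i0 (fun A => S ΛX hX (3 * t) i0 (fun P =>
          S ΛY hY (T + i0) i0 (fun A' => S ΛY hY (3 * t + i0) i0 (fun P' =>
            if Q hX zX sX hY zY sY (T + t + 1) (T + 3 * t - s) P (Dp zX A) (HT hX A) P'
              (w + Dp zY A') (HT hY A') then 1 else 0))))) := by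
  set Z : List BX → List BX → ℝ≥0∞ := fun A P =>
    S ΛY hY (T + i0) i0 (fun A' => S ΛY hY (3 * t + i0) i0 (fun P' =>
            if Q hX zX sX hY zY sY (T + t + 1) (T + 3 * t - s) P (Dp zX A) (HT hX A) P'
              (w + Dp zY A') (HT hY A') then 1 else 0)) with hZ
  have key := split1 ΛX hX h1X hΛX hUX T (3 * t) i0 n (by omega)
    (fun LX => ∑' LY, (if HT hY LY = n then LW ΛY LY *
      (if Ev hX zX sX hY zY sY w T t s i0 LX LY then 1 else 0) else 0))
    (by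
      intro LX
      calc _ ≤ ∑' LY, (if HT hY LY = n then LW ΛY LY else 0) := by
            refine ENNReal.tsum_le_tsum fun LY => ?_
            split_ifs <;> simp
        _ ≤ 1 := hUY n)
    (fun A P => 2 * ov ΛY hY i0 + Z A P)
    (by
      intro A P R hA hA' hP hP' _
      refine split1 ΛY hY h1Y hΛY hUY (T + i0) (3 * t + i0) i0 n (by omega)
        (fun LY => if Ev hX zX sX hY zY sY w T t s i0 (A ++ (P ++ R)) LY then 1 else 0)
        (by intro L; split_ifs <;> simp) (fun A' P' =>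
            if Q hX zX sX hY zY sY (T + t + 1) (T + 3 * t - s) P (Dp zX A) (HT hX A) P'
              (w + Dp zY A') (HT hY A') then 1 else 0) ?_
      intro A' P' R' hAY hAY' hPY hPY' _
      by_cases hE : Ev hX zX sX hY zY sY w T t s i0 (A ++ (P ++ R)) (A' ++ (P' ++ R'))
      · rw [if_pos (ev_Q hX zX sX hY zY sY hsX hsY w T t s i0 ht A P R A' P' R' hA'
          (le_HT_of_fp hX hA) (le_HT_of_fp hX hP) hP' hAY' (le_HT_of_fp hY hAY)
          (le_HT_of_fp hY hPY) hE)]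
        split_ifs <;> simp
      · simp only [if_neg hE]; exact zero_le)
  refine key.trans ?_
  gcongr
  show S ΛX hX T i0 (fun A => S ΛX hX (3 * t) i0 (fun P => 2 * ov ΛY hY i0 + Z A P)) ≤ _
  calc S ΛX hX T i0 (fun A => S ΛX hX (3 * t) i0 (fun P => 2 * ov ΛY hY i0 + Z A P))
      = S ΛX hX T i0 (fun A => S ΛX hX (3 * t) i0 (fun _ => 2 * ov ΛY hY i0)) +
        S ΛX hX T i0 (fun A => S ΛX hX (3 * t) i0 (fun P => Z A P)) := by
        rw [← S_add]
        congr 1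
        funext A
        rw [S_add]
    _ ≤ _ := by
        gcongr
        refine S_le ΛX hX h1X hΛX T i0 fun A _ _ => ?_
        exact S_const ΛX hX h1X hΛX (3 * t) i0 _

end pair

end Crest.Agent.R154.Asm871
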