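import Crest.Agent.R154.AsmB_876

/-! Row 154 (helper876), ROAD 801: assembly, part C (the window inequality). -/

set_option autoImplicit false

namespace Crest.Agent.R154.Asm876

open scoped ENNReal
open Crest.Agent.R154.B5A
open Crest.Agent.R154.FP178

variable {BX BY G : Type*} [AddCommGroup G]
  (ΛX : BX → ℝ≥0∞) (hX : BX → ℕ) (zX : BX → G) (sX : BX → Set (G × ℕ))
  (ΛY : BY → ℝ≥0∞) (hY : BY → ℕ) (zY : BY → G) (sY : BY → Set (G × ℕ))

/-- event of the window lemma with `X` local -/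
def C2 (P : List BX) (a : ℕ) (L' : List BY) (x : G) (a' lo : ℕ) : Prop :=
  (∃ z k, (z, k) ∈ TR hX zX sX P 0 a ∧ (z, k) ∈ TR hY zY sY L' x a') ∧
    ∀ z k, (z, k) ∈ TR hX zX sX P 0 a → (z, k) ∈ TR hY zY sY L' x a' → lo ≤ k

/-- event of the window lemma with `Y` local -/
def C3 (P : List BX) (a : ℕ) (L' : List BY) (x : G) (a' hi : ℕ) : Prop :=
  (∃ z k, (z, k) ∈ TR hX zX sX P 0 a ∧ (z, k) ∈ TR hY zY sY L' x a') ∧
    ∀ z k, (z, k) ∈ TR hX zX sX P 0 a → (z, k) ∈ TR hY zY sY L' x a' → k ≤ hi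

open Classical in
/-- **window lemma, `X` local** (input) -/
def H2 (C : ℝ≥0∞) (us : ℕ → ℕ → ℝ≥0∞) : Prop :=
  ∀ (i0 s h h' a a' lo : ℕ) (E : Finset G) (μ : G → ℝ≥0∞) (M lam : ℝ≥0∞),
    ∑' x, μ x ≤ 1 → (∀ x, μ x ≤ M) → lam ≠ 0 → lam ≠ ⊤ → a ≤ a' + i0 → a + s ≤ lo →
    a' + s ≤ lo →
    ∑' x, μ x * ∑' L : List BX, ∑' L' : List BY,
      (if HT hX L = h ∧ dL zX L ∈ E ∧ HT hY L' = h' ∧ C2 hX zX sX hY zY sY L a L' x a' lo
        then LW ΛX L * LW ΛY L' else 0)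
      ≤ C * (lam + M * E.card * us i0 s / lam + us i0 s)

open Classical in
/-- **window lemma, `Y` local** (input) -/
def H3 (C : ℝ≥0∞) (us : ℕ → ℕ → ℝ≥0∞) : Prop :=
  ∀ (i0 s h h' a a' hi : ℕ) (E : Finset G) (μ : G → ℝ≥0∞) (M lam : ℝ≥0∞),
    ∑' x, μ x ≤ 1 → (∀ x, μ x ≤ M) → lam ≠ 0 → lam ≠ ⊤ → a + h ≤ a' + h' + i0 →
    hi + s ≤ a + h → hi + s ≤ a' + h' →
    ∑' x, μ x * ∑' L : List BX, ∑' L' : List BY,
      (if HT hX L = h ∧ HT hY L' = h' ∧ dL zY L' ∈ E ∧ C3 hX zX sX hY zY sY L a L' x a' hi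
        then LW ΛX L * LW ΛY L' else 0)
      ≤ C * (lam + M * E.card * us i0 s / lam + us i0 s)

/-- event of the window: contact at depth in `[lo, hi1]`, all contacts at depth `≥ lo`, none at
depth in `(hi, top]` -/
def Ev (w : G) (lo hi1 hi top : ℕ) (LX : List BX) (LY : List BY) : Prop :=
  (∃ z k, (z, k) ∈ TR hX zX sX LX 0 0 ∧ (z, k) ∈ TR hY zY sY LY w 0 ∧ lo ≤ k ∧ k ≤ hi1) ∧
  (∀ z k, (z, k) ∈ TR hX zX sX LX 0 0 → (z, k) ∈ TR hY zY sY LY w 0 → lo ≤ k) ∧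
  ∀ z k, (z, k) ∈ TR hX zX sX LX 0 0 → (z, k) ∈ TR hY zY sY LY w 0 → ¬ (hi < k ∧ k ≤ top)

section geom

variable (hsX : ∀ b y k, (y, k) ∈ sX b → 1 ≤ k ∧ k ≤ hX b)
  (hsY : ∀ b y k, (y, k) ∈ sY b → 1 ≤ k ∧ k ≤ hY b)

include hsX hsY

lemma ev_C2 {w : G} {lo hi1 hi top : ℕ} {A P R : List BX} {A' L' : List BY}
    (hev : Ev hX zX sX hY zY sY w lo hi1 hi top (A ++ (P ++ R)) (A' ++ L'))
    (h1 : HT hX A < lo) (h2 : HT hY A' < lo) (h3 : hi1 ≤ HT hX A + HT hX P) :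
    C2 hX zX sX hY zY sY P (HT hX A) L' (w + dL zY A' - dL zX A) (HT hY A') lo := by
  obtain ⟨⟨z, k, hz1, hz2, hk1, hk2⟩, hall, -⟩ := hev
  have e1 : ∀ (L : List BX) (y : G) (j : ℕ) (x : G), (y, j) ∈ TR hX zX sX L 0 (HT hX A) ↔
      (y + dL zX A, j) ∈ TR hX zX sX L (0 + dL zX A) (0 + HT hX A) := by
    intro L y j x
    rw [TR_shift, Nat.zero_add, add_sub_cancel_right]
  have e2 : ∀ (L : List BY) (y : G) (j : ℕ),
      (y, j) ∈ TR hY zY sY L (w + dL zY A' - dL zX A) (HT hY A') ↔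
      (y + dL zX A, j) ∈ TR hY zY sY L (w + dL zY A') (0 + HT hY A') := by
    intro L y j
    have := TR_shift hY zY sY L (w + dL zY A' - dL zX A) (dL zX A) (0 + HT hY A')
      (y + dL zX A) j
    rw [sub_add_cancel, add_sub_cancel_right, Nat.zero_add] at this
    rw [Nat.zero_add]
    exact this.symm
  constructor
  · refine ⟨z - dL zX A, k, ?_, ?_⟩
    · rw [e1 P (z - dL zX A) k 0, sub_add_cancel]
      rw [TR_append, TR_append] at hz1
      rcases hz1 with h | h | h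
      · have := TR_depth hX zX sX hsX _ _ _ h; omega
      · exact h
      · have := TR_depth hX zX sX hsX _ _ _ h; omega
    · rw [e2, sub_add_cancel]
      rw [TR_append] at hz2
      rcases hz2 with h | h
      · have := TR_depth hY zY sY hsY _ _ _ h; omega
      · exact h
  · intro y j hy1 hy2
    rw [e1 P y j 0] at hy1
    rw [e2] at hy2
    refine hall (y + dL zX A) j ?_ ?_
    · rw [TR_append, TR_append]; exact Or.inr (Or.inl hy1)
    · rw [TR_append]; exact Or.inr hy2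

lemma ev_C3 {w : G} {lo hi1 hi top : ℕ} {A P R : List BX} {A' P' R' : List BY}
    (hev : Ev hX zX sX hY zY sY w lo hi1 hi top (A ++ (P ++ R)) (A' ++ (P' ++ R')))
    (h1 : HT hX A < lo) (h2 : HT hY A' < lo) (h3 : hi1 ≤ HT hX A + HT hX P)
    (h4 : hi1 ≤ HT hY A' + HT hY P') (h5 : HT hX A + HT hX P ≤ top) :
    C3 hX zX sX hY zY sY P (HT hX A) P' (w + dL zY A' - dL zX A) (HT hY A') hi := by
  obtain ⟨⟨z, k, hz1, hz2, hk1, hk2⟩, hall, hno⟩ := hev
  have e1 : ∀ (L : List BX) (y : G) (j : ℕ) (x : G), (y, j) ∈ TR hX zX sX L 0 (HT hX A) ↔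
      (y + dL zX A, j) ∈ TR hX zX sX L (0 + dL zX A) (0 + HT hX A) := by
    intro L y j x
    rw [TR_shift, Nat.zero_add, add_sub_cancel_right]
  have e2 : ∀ (L : List BY) (y : G) (j : ℕ),
      (y, j) ∈ TR hY zY sY L (w + dL zY A' - dL zX A) (HT hY A') ↔
      (y + dL zX A, j) ∈ TR hY zY sY L (w + dL zY A') (0 + HT hY A') := by
    intro L y j
    have := TR_shift hY zY sY L (w + dL zY A' - dL zX A) (dL zX A) (0 + HT hY A')
      (y + dL zX A) j
    rw [sub_add_cancel, add_sub_cancel_right, Nat.zero_add] at this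
    rw [Nat.zero_add]
    exact this.symm
  constructor
  · refine ⟨z - dL zX A, k, ?_, ?_⟩
    · rw [e1 P (z - dL zX A) k 0, sub_add_cancel]
      rw [TR_append, TR_append] at hz1
      rcases hz1 with h | h | h
      · have := TR_depth hX zX sX hsX _ _ _ h; omega
      · exact h
      · have := TR_depth hX zX sX hsX _ _ _ h; omega
    · rw [e2, sub_add_cancel]
      rw [TR_append, TR_append] at hz2
      rcases hz2 with h | h | h
      · have := TR_depth hY zY sY hsY _ _ _ h; omega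
      · exact h
      · have := TR_depth hY zY sY hsY _ _ _ h; omega
  · intro y j hy1 hy2
    rw [e1 P y j 0] at hy1
    rw [e2] at hy2
    have hd := TR_depth hX zX sX hsX _ _ _ hy1
    by_contra hcon
    refine hno (y + dL zX A) j ?_ ?_ ⟨by omega, by omega⟩
    · rw [TR_append, TR_append]; exact Or.inr (Or.inl hy1)
    · rw [TR_append, TR_append]; exact Or.inr (Or.inl hy2)

end geom

end Crest.Agent.R154.Asm876
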