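import Crest.Agent.R154.AsmB_887

/-! Row 154, ROAD 801 (helper887): abstract assembly, part C: one window. -/

set_option autoImplicit false

namespace Crest.Agent.R154.Asm887

open scoped ENNReal
open Crest.Agent.R154.B5A Crest.Agent.R154.FP178
open Crest.Agent.R154.KWB419 (TT)

variable {BX BY G : Type*} [AddCommGroup G] (X : Sys BX G) (Y : Sys BY G)

/-- contact of two placed lists -/
def Both (L : List BX) (L' : List BY) (x : G) (a a' : ℕ) (y : G) (k : ℕ) : Prop :=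
  (y, k) ∈ TT X.s X.h X.z L 0 a ∧ (y, k) ∈ TT Y.s Y.h Y.z L' x a'

/-- window lemma (2): X local -/
def H2 (C : ℝ≥0∞) (us : ℕ → ℝ≥0∞) : Prop :=
  open Classical in
  ∀ (s h h' a a' lo : ℕ) (E : Finset G) (μ : G → ℝ≥0∞) (M lam : ℝ≥0∞),
    ∑' x, μ x ≤ 1 → (∀ x, μ x ≤ M) → lam ≠ 0 → lam ≠ ⊤ → a ≤ a' → a + s ≤ lo → a' + s ≤ lo →
    ∑' x, μ x * (∑' L : List BX, ∑' L' : List BY, if HT X.h L = h ∧
        (L.map X.z).sum ∈ E ∧ HT Y.h L' = h' ∧
        (∃ y k, (y, k) ∈ TT X.s X.h X.z L 0 a ∧ (y, k) ∈ TT Y.s Y.h Y.z L' x a') ∧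
        (∀ y k, (y, k) ∈ TT X.s X.h X.z L 0 a → (y, k) ∈ TT Y.s Y.h Y.z L' x a' → lo ≤ k)
        then LW X.Λ L * LW Y.Λ L' else 0)
      ≤ C * (lam + M * E.card * us s / lam + us s)

/-- window lemma (3): Y local -/
def H3 (C : ℝ≥0∞) (us : ℕ → ℝ≥0∞) : Prop :=
  open Classical in
  ∀ (s h h' a a' hi : ℕ) (E : Finset G) (μ : G → ℝ≥0∞) (M lam : ℝ≥0∞),
    ∑' x, μ x ≤ 1 → (∀ x, μ x ≤ M) → lam ≠ 0 → lam ≠ ⊤ → a + h ≤ a' + h' →
    hi + s ≤ a + h → hi + s ≤ a' + h' →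
    ∑' x, μ x * (∑' L : List BX, ∑' L' : List BY, if HT X.h L = h ∧ HT Y.h L' = h' ∧
        (L'.map Y.z).sum ∈ E ∧
        (∃ y k, (y, k) ∈ TT X.s X.h X.z L 0 a ∧ (y, k) ∈ TT Y.s Y.h Y.z L' x a') ∧
        (∀ y k, (y, k) ∈ TT X.s X.h X.z L 0 a → (y, k) ∈ TT Y.s Y.h Y.z L' x a' → k ≤ hi)
        then LW X.Λ L * LW Y.Λ L' else 0)
      ≤ C * (lam + M * E.card * us s / lam + us s)

/-- thin slab -/
def H5 : Prop :=
  open Classical in
  ∀ s : ℕ, ∀ η : ℝ≥0∞, η ≠ 0 → ∃ T : ℕ, ∀ a, T ≤ a → ∀ n : ℕ, ∀ w : G,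
    ∑' L : List BX, ∑' L' : List BY, (if HT X.h L = n ∧ HT Y.h L' = n ∧
      (∃ y k, a ≤ k ∧ k < a + s ∧ (y, k) ∈ TT X.s X.h X.z L 0 0 ∧
        (y, k) ∈ TT Y.s Y.h Y.z L' w 0) then LW X.Λ L * LW Y.Λ L' else 0) ≤ η

lemma both_shift (L : List BX) (L' : List BY) (v v' : G) (a a' : ℕ) (y : G) (k : ℕ) :
    ((y, k) ∈ TT X.s X.h X.z L v a ∧ (y, k) ∈ TT Y.s Y.h Y.z L' v' a') ↔
      Both X Y L L' (v' - v) a a' (y - v) k := by
  unfold Both
  have e1 := TT_shift X.s X.z X.h L 0 v a y k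
  have e2 := TT_shift Y.s Y.z Y.h L' (v' - v) v a' y k
  rw [zero_add] at e1
  rw [sub_add_cancel] at e2
  rw [e1, e2]

lemma tf {ι κ : Type*} (s : Finset ι) (f : ι → κ → ℝ≥0∞) :
    ∑' b, ∑ i ∈ s, f i b = ∑ i ∈ s, ∑' b, f i b :=
  Summable.tsum_finsetSum fun _ _ => ENNReal.summable

open Classical in
/-- heights are summed over a finite range -/
lemma sum_heights (H H' : Finset ℕ) (wP : List BX → ℝ≥0∞) (wP' : List BY → ℝ≥0∞)
    (h1 : ∀ P, wP P ≠ 0 → HT X.h P ∈ H) (h2 : ∀ P, wP' P ≠ 0 → HT Y.h P ∈ H')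
    (l1 : ∀ P, wP P ≤ LW X.Λ P) (l2 : ∀ P, wP' P ≤ LW Y.Λ P)
    (Q : G → List BX → List BY → Prop) (R : ℕ → ℕ → G → List BX → List BY → Prop)
    (hQR : ∀ η η' x P P', HT X.h P = η → HT Y.h P' = η' → Q x P P' → R η η' x P P')
    (μ : G → ℝ≥0∞) (Bd : ℝ≥0∞)
    (hBd : ∀ η ∈ H, ∀ η' ∈ H', ∑' x, μ x * (∑' P, ∑' P', if R η η' x P P' then
      LW X.Λ P * LW Y.Λ P' else 0) ≤ Bd) :
    ∑' x, μ x * ∑' P, ∑' P', (if Q x P P' then wP P * wP' P' else 0)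
      ≤ H.card * H'.card * Bd := by
  have key : ∀ x P P', (if Q x P P' then wP P * wP' P' else 0)
      ≤ ∑ p ∈ H ×ˢ H', (if R p.1 p.2 x P P' then LW X.Λ P * LW Y.Λ P' else 0) := by
    intro x P P'
    by_cases hQ : Q x P P'
    · rw [if_pos hQ]
      by_cases hP : wP P = 0
      · rw [hP, zero_mul]; exact zero_le
      by_cases hP' : wP' P' = 0
      · rw [hP', mul_zero]; exact zero_le
      calc wP P * wP' P' ≤ LW X.Λ P * LW Y.Λ P' := mul_le_mul' (l1 P) (l2 P')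
        _ = (if R (HT X.h P, HT Y.h P').1 (HT X.h P, HT Y.h P').2 x P P' then
              LW X.Λ P * LW Y.Λ P' else 0) := by
            rw [if_pos (hQR _ _ x P P' rfl rfl hQ)]
        _ ≤ _ := Finset.single_le_sum (f := fun p : ℕ × ℕ => if R p.1 p.2 x P P' then
              LW X.Λ P * LW Y.Λ P' else 0) (fun _ _ => zero_le)
              (Finset.mem_product.2 ⟨h1 P hP, h2 P' hP'⟩)
    · rw [if_neg hQ]; exact zero_le
  calc ∑' x, μ x * ∑' P, ∑' P', (if Q x P P' then wP P * wP' P' else 0)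
      ≤ ∑' x, μ x * ∑' P, ∑' P', ∑ p ∈ H ×ˢ H',
          (if R p.1 p.2 x P P' then LW X.Λ P * LW Y.Λ P' else 0) := by
        refine ENNReal.tsum_le_tsum fun x => mul_le_mul_right ?_ _
        exact ENNReal.tsum_le_tsum fun P => ENNReal.tsum_le_tsum fun P' => key x P P'
    _ = ∑ p ∈ H ×ˢ H', ∑' x, μ x * ∑' P, ∑' P',
          (if R p.1 p.2 x P P' then LW X.Λ P * LW Y.Λ P' else 0) := by
        simp_rw [tf, Finset.mul_sum, tf]
    _ ≤ ∑ p ∈ H ×ˢ H', Bd := by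
        refine Finset.sum_le_sum fun p hp => ?_
        rw [Finset.mem_product] at hp
        exact hBd p.1 hp.1 p.2 hp.2
    _ = _ := by simp [Finset.card_product]

/-- the core sum of a window -/
noncomputable def CORE (a b0 τ τ' i0 : ℕ) (w : G)
    (Q : ℕ → ℕ → G → List BX → List BY → Prop) : ℝ≥0∞ :=
  open Classical in
  ∑' A, wf X.Λ X.h a i0 A * ∑' A', wf Y.Λ Y.h b0 i0 A' * ∑' P, ∑' P',
    (if Q (HT X.h A) (HT Y.h A') (w + (A'.map Y.z).sum - (A.map X.z).sum) P P'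
      then wf X.Λ X.h τ i0 P * wf Y.Λ Y.h τ' i0 P' else 0)

open Classical in
/-- the pairs with a good event reduce to the core sum -/
theorem two (n a b0 τ τ' i0 : ℕ) (hn : a + i0 + τ ≤ n) (hn' : b0 + i0 + τ' ≤ n) (w : G)
    (E : List BX → List BY → Prop) (Q : ℕ → ℕ → G → List BX → List BY → Prop)
    (hE : ∀ A P R A' P' R', fp X.h a A → HT X.h A ≤ a + i0 → fp X.h τ P → HT X.h P ≤ τ + i0 →
      fp Y.h b0 A' → HT Y.h A' ≤ b0 + i0 → fp Y.h τ' P' → HT Y.h P' ≤ τ' + i0 →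
      E (A ++ (P ++ R)) (A' ++ (P' ++ R')) →
      Q (HT X.h A) (HT Y.h A') (w + (A'.map Y.z).sum - (A.map X.z).sum) P P') :
    ∑' L : List BX, ∑' L' : List BY, (if HT X.h L = n ∧ HT Y.h L' = n ∧ E L L' then
      LW X.Λ L * LW Y.Λ L' else 0)
      ≤ 2 * ov X.Λ X.h i0 + 2 * ov Y.Λ Y.h i0 + CORE X Y a b0 τ τ' i0 w Q := by
  set f : List BX → ℝ≥0∞ := fun L => ∑' L' : List BY, (if HT Y.h L' = n then
    LW Y.Λ L' * (if E L L' then 1 else 0) else 0) with hf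
  have e0 : ∑' L : List BX, ∑' L' : List BY, (if HT X.h L = n ∧ HT Y.h L' = n ∧ E L L' then
      LW X.Λ L * LW Y.Λ L' else 0) = ∑' L, (if HT X.h L = n then LW X.Λ L * f L else 0) := by
    refine tsum_congr fun L => ?_
    by_cases hL : HT X.h L = n
    · rw [if_pos hL]
      simp only [hf]
      rw [← ENNReal.tsum_mul_left]
      refine tsum_congr fun L' => ?_
      by_cases hL' : HT Y.h L' = n <;> by_cases hE' : E L L' <;> simp [hL, hL', hE']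
    · simp [hL]
  set F : List BX → List BX → ℝ≥0∞ := fun A P => 2 * ov Y.Λ Y.h i0
    + ∑' A', wf Y.Λ Y.h b0 i0 A' * ∑' P', wf Y.Λ Y.h τ' i0 P' *
      (if Q (HT X.h A) (HT Y.h A') (w + (A'.map Y.z).sum - (A.map X.z).sum) P P' then 1 else 0)
    with hF
  rw [e0]
  have hf1 : ∀ L, f L ≤ 1 := by
    intro L
    refine le_trans (ENNReal.tsum_le_tsum fun L' => ?_) (Y.hU n)
    by_cases hL' : HT Y.h L' = n <;> by_cases hE' : E L L' <;> simp [hL', hE']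
  have h1 := one X.Λ X.h X.h1 X.hΛ.le X.hU n a τ i0 hn f F hf1 (by
    intro A P R h1 h2 h3 h4 h5
    simp only [hf, hF]
    exact one Y.Λ Y.h Y.h1 Y.hΛ.le Y.hU n b0 τ' i0 hn'
      (fun L' => if E (A ++ (P ++ R)) L' then 1 else 0)
      (fun A' P' => if Q (HT X.h A) (HT Y.h A') (w + (A'.map Y.z).sum - (A.map X.z).sum) P P'
        then 1 else 0)
      (fun L' => by split_ifs <;> simp)
      (fun A' P' R' k1 k2 k3 k4 k5 => by
        by_cases hE' : E (A ++ (P ++ R)) (A' ++ (P' ++ R'))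
        · rw [if_pos hE', if_pos (hE A P R A' P' R' h1 h2 h3 h4 k1 k2 k3 k4 hE')]
        · rw [if_neg hE']; exact zero_le))
  refine h1.trans ?_
  rw [add_assoc]
  gcongr
  calc ∑' A, wf X.Λ X.h a i0 A * ∑' P, wf X.Λ X.h τ i0 P * F A P
      = ∑' A, wf X.Λ X.h a i0 A * ((∑' P, wf X.Λ X.h τ i0 P) * (2 * ov Y.Λ Y.h i0)
        + ∑' A', wf Y.Λ Y.h b0 i0 A' * ∑' P, ∑' P',
          (if Q (HT X.h A) (HT Y.h A') (w + (A'.map Y.z).sum - (A.map X.z).sum) P P'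
            then wf X.Λ X.h τ i0 P * wf Y.Λ Y.h τ' i0 P' else 0)) := by
        refine tsum_congr fun A => ?_
        congr 1
        simp only [hF]
        simp_rw [mul_add]
        rw [ENNReal.tsum_add, ENNReal.tsum_mul_right]
        congr 1
        simp_rw [← ENNReal.tsum_mul_left]
        rw [ENNReal.tsum_comm]
        refine tsum_congr fun A' => tsum_congr fun P => tsum_congr fun P' => ?_
        split_ifs
        · ring
        · simp
    _ = (∑' A, wf X.Λ X.h a i0 A) * ((∑' P, wf X.Λ X.h τ i0 P) * (2 * ov Y.Λ Y.h i0))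
        + CORE X Y a b0 τ τ' i0 w Q := by
        simp_rw [mul_add]
        rw [ENNReal.tsum_add, ENNReal.tsum_mul_right]
        rfl
    _ ≤ 1 * (1 * (2 * ov Y.Λ Y.h i0)) + CORE X Y a b0 τ τ' i0 w Q := by
        gcongr
        · exact sum_wf X.Λ X.h X.h1 X.hΛ.le a i0
        · exact sum_wf X.Λ X.h X.h1 X.hΛ.le τ i0
    _ = _ := by rw [one_mul, one_mul]

end Crest.Agent.R154.Asm887
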