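import Crest.Agent.R154.AsmB_903

/-! Row 154, ROAD 801 (helper903): one window of the assembly. -/

set_option autoImplicit false

namespace Crest.Agent.R154.Asm903

open scoped ENNReal Classical
open Finset
open Crest.Agent.R154.B5A Crest.Agent.R154.FP178

section law

variable {A S : Type*} [AddCancelCommMonoid S] (Λ : A → ℝ≥0∞) (g : A → S)

lemma pl_push (Ψ : S → ℝ≥0∞) : ∑' a, Λ a * Ψ (g a) = ∑' σ, pl Λ g σ * Ψ σ := by
  have : ∀ σ, pl Λ g σ * Ψ σ = ∑' a, (if g a = σ then Λ a * Ψ σ else 0) := by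
    intro σ
    rw [pl, ← ENNReal.tsum_mul_right]
    refine tsum_congr fun a => ?_
    split_ifs <;> simp
  rw [tsum_congr this, ENNReal.tsum_comm]
  refine tsum_congr fun a => ?_
  rw [tsum_eq_single (g a)]
  · simp
  · intro σ hσ; rw [if_neg hσ.symm]

lemma tsum_pl : ∑' σ, pl Λ g σ = ∑' a, Λ a := by
  have := pl_push Λ g (fun _ => 1)
  simpa using this.symm

/-- threshold of a law: non local mass, attempts, density -/
theorem thr (hΛ : ∑' a, Λ a ≤ 1) {u : ℝ≥0∞} (hu0 : u ≠ 0) : ∃ th : ℝ≥0∞, th ≠ 0 ∧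
    ∑' a, (if pl Λ g (g a) < th then Λ a else 0) ≤ u ∧
    ∀ j : ℕ, ∃ b : S → ℝ≥0∞, (∀ σ, pj Λ g j σ ≤ th * j + b σ) ∧ ∑' σ, b σ ≤ (1 - u) ^ j := by
  obtain ⟨th, h0, h1, h2⟩ := quantile' (pl Λ g) ((tsum_pl Λ g).le.trans hΛ) hu0
  refine ⟨th, h0, ?_, fun j => ?_⟩
  · have := pl_push Λ g (fun σ => if pl Λ g σ < th then 1 else 0)
    simp only [mul_ite, mul_one, mul_zero] at this
    rw [this]; exact h1
  · have hq : ∑' a, (if th < pl Λ g (g a) then Λ a else 0) ≤ 1 - u := by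
      have := pl_push Λ g (fun σ => if th < pl Λ g σ then 1 else 0)
      simp only [mul_ite, mul_one, mul_zero] at this
      rw [this]; exact h2
    obtain ⟨b, hb, hb1⟩ := conv Λ g hΛ th (1 - u) hq j
    refine ⟨b, fun σ => (hb σ).trans ?_, hb1⟩
    gcongr
    calc ∑ l ∈ range j, (1 - u) ^ l ≤ ∑ _l ∈ range j, 1 :=
          Finset.sum_le_sum fun l _ => pow_le_one' tsub_le_self _
      _ = j := by simp

end law

section window

variable {G BX BY : Type*} [AddCommGroup G]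
  (ΛX : BX → ℝ≥0∞) (hX : BX → ℕ) (zX : BX → G) (sX : BX → Set (G × ℕ))
  (ΛY : BY → ℝ≥0∞) (hY : BY → ℕ) (zY : BY → G) (sY : BY → Set (G × ℕ))

/-- contact at depth `k` -/
def CtL (LX : List BX) (x : G) (a : ℕ) (LY : List BY) (x' : G) (a' k : ℕ) : Prop :=
  ∃ y, (y, k) ∈ TT sX zX hX LX x a ∧ (y, k) ∈ TT sY zY hY LY x' a'

/-- some contact, and all contacts at depth in `[lo, hi]` -/
def Ev (lo hi : ℕ) (P : List BX) (a : ℕ) (Q : List BY) (x : G) (a' : ℕ) : Prop :=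
  (∃ k, CtL hX zX sX hY zY sY P 0 a Q x a' k) ∧
    ∀ k, CtL hX zX sX hY zY sY P 0 a Q x a' k → lo ≤ k ∧ k ≤ hi

/-- window lemma (2) -/
def H2 (C : ℝ≥0∞) (us : ℕ → ℝ≥0∞) : Prop :=
  ∀ (s h h' a a' lo hi : ℕ) (E : Finset G) (μ : G → ℝ≥0∞) (M lam : ℝ≥0∞),
    ∑' x, μ x ≤ 1 → (∀ x, μ x ≤ M) → lam ≠ 0 → lam ≠ ⊤ → a ≤ a' → a + h ≤ a' + h' →
    a + s ≤ lo → a' + s ≤ lo → hi + s ≤ a + h → hi + s ≤ a' + h' →
    ∑' x, μ x * ∑' L, ∑' L', (if HT hX L = h ∧ Dp zX L ∈ E ∧ HT hY L' = h' ∧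
      Ev hX zX sX hY zY sY lo hi L a L' x a' then LW ΛX L * LW ΛY L' else 0)
      ≤ C * (lam + M * E.card * us s / lam + us s)

/-- window lemma (3) -/
def H3 (C : ℝ≥0∞) (us : ℕ → ℝ≥0∞) : Prop :=
  ∀ (s h h' a a' lo hi : ℕ) (E : Finset G) (μ : G → ℝ≥0∞) (M lam : ℝ≥0∞),
    ∑' x, μ x ≤ 1 → (∀ x, μ x ≤ M) → lam ≠ 0 → lam ≠ ⊤ → a ≤ a' → a + h ≤ a' + h' →
    a + s ≤ lo → a' + s ≤ lo → hi + s ≤ a + h → hi + s ≤ a' + h' →
    ∑' x, μ x * ∑' L, ∑' L', (if HT hX L = h ∧ Dp zY L' ∈ E ∧ HT hY L' = h' ∧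
      Ev hX zX sX hY zY sY lo hi L a L' x a' then LW ΛX L * LW ΛY L' else 0)
      ≤ C * (lam + M * E.card * us s / lam + us s)

/-- sum over the two pieces -/
noncomputable def Th (T i0 lo hi : ℕ) (N : List BX → List BY → Prop) (c c' : ℕ) (x : G) : ℝ≥0∞ :=
  ∑' P, ∑' Q, LP ΛX hX T i0 P * LP ΛY hY T i0 Q *
    (if N P Q ∧ Ev hX zX sX hY zY sY lo hi P c Q x c' then 1 else 0)

variable {ΛX hX ΛY hY}

lemma pair_sum (h1X : ∀ b, 1 ≤ hX b) (h1Y : ∀ b, 1 ≤ hY b) (mX : ∑' b, ΛX b ≤ 1)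
    (mY : ∑' b, ΛY b ≤ 1) (T i0 : ℕ) (f : List BX → List BY → ℝ≥0∞) (c : ℝ≥0∞)
    (hf : ∀ P Q, f P Q ≤ c) :
    ∑' P, ∑' Q, LP ΛX hX T i0 P * LP ΛY hY T i0 Q * f P Q ≤ c := by
  calc ∑' P, ∑' Q, LP ΛX hX T i0 P * LP ΛY hY T i0 Q * f P Q
      ≤ ∑' P, LP ΛX hX T i0 P * (1 * c) := by
        refine ENNReal.tsum_le_tsum fun P => ?_
        simp only [mul_assoc]
        rw [ENNReal.tsum_mul_left]
        gcongr
        calc ∑' Q, LP ΛY hY T i0 Q * f P Q ≤ ∑' Q, LP ΛY hY T i0 Q * c :=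
              ENNReal.tsum_le_tsum fun Q => mul_le_mul_right (hf P Q) _
          _ = (∑' Q, LP ΛY hY T i0 Q) * c := ENNReal.tsum_mul_right
          _ ≤ 1 * c := by gcongr; exact sum_LP ΛY hY h1Y mY T i0
    _ = (∑' P, LP ΛX hX T i0 P) * (1 * c) := ENNReal.tsum_mul_right
    _ ≤ 1 * (1 * c) := by gcongr; exact sum_LP ΛX hX h1X mX T i0
    _ = c := by rw [one_mul, one_mul]

/-- bound of the sum over two pieces from a bound for given heights -/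
lemma Th_le (T i0 lo hi : ℕ) (N : List BX → List BY → Prop) (c c' : ℕ) (κ : ℝ≥0∞)
    (μ : G → ℝ≥0∞) (W : ℕ → ℕ → List BX → List BY → Prop)
    (hW : ∀ P Q, LP ΛX hX T i0 P ≠ 0 → LP ΛY hY T i0 Q ≠ 0 → N P Q →
      W (HT hX P) (HT hY Q) P Q)
    (hκ : ∀ h ∈ Icc T (T + i0), ∀ h' ∈ Icc T (T + i0),
      ∑' x, μ x * ∑' L, ∑' L', (if W h h' L L' ∧
        Ev hX zX sX hY zY sY lo hi L c L' x c' then LW ΛX L * LW ΛY L' else 0) ≤ κ) :
    ∑' x, μ x * Th ΛX hX zX sX ΛY hY zY sY T i0 lo hi N c c' x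
      ≤ ((i0 + 1 : ℕ) : ℝ≥0∞) * ((i0 + 1 : ℕ) : ℝ≥0∞) * κ := by
  set J := Icc T (T + i0) ×ˢ Icc T (T + i0) with hJ
  have hcard : J.card = (i0 + 1) * (i0 + 1) := by
    rw [hJ, Finset.card_product, Nat.card_Icc]
    congr 1 <;> omega
  have key : ∀ x, Th ΛX hX zX sX ΛY hY zY sY T i0 lo hi N c c' x
      ≤ ∑ q ∈ J, ∑' L, ∑' L', (if W q.1 q.2 L L' ∧
        Ev hX zX sX hY zY sY lo hi L c L' x c' then LW ΛX L * LW ΛY L' else 0) := by
    intro x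
    rw [Th, ← ENNReal.tsum_prod]
    have : ∀ q : ℕ × ℕ, ∑' L, ∑' L', (if W q.1 q.2 L L' ∧
        Ev hX zX sX hY zY sY lo hi L c L' x c' then LW ΛX L * LW ΛY L' else 0)
        = ∑' p : List BX × List BY, (if W q.1 q.2 p.1 p.2 ∧
        Ev hX zX sX hY zY sY lo hi p.1 c p.2 x c' then LW ΛX p.1 * LW ΛY p.2 else 0) :=
      fun q => (ENNReal.tsum_prod (f := fun (L : List BX) (L' : List BY) => (if W q.1 q.2 L L' ∧
        Ev hX zX sX hY zY sY lo hi L c L' x c' then LW ΛX L * LW ΛY L' else 0))).symm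
    rw [Finset.sum_congr rfl (fun q _ => this q),
      ← Summable.tsum_finsetSum fun _ _ => ENNReal.summable]
    refine ENNReal.tsum_le_tsum fun p => ?_
    by_cases hN : N p.1 p.2 ∧ Ev hX zX sX hY zY sY lo hi p.1 c p.2 x c'
    · by_cases hx0 : LP ΛX hX T i0 p.1 = 0
      · rw [hx0, zero_mul, zero_mul]; exact zero_le
      by_cases hy0 : LP ΛY hY T i0 p.2 = 0
      · rw [hy0, mul_zero, zero_mul]; exact zero_le
      rw [if_pos hN, mul_one]
      have hq : (HT hX p.1, HT hY p.2) ∈ J := by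
        rw [hJ, Finset.mem_product, Finset.mem_Icc, Finset.mem_Icc]
        exact ⟨LP_ne ΛX hX hx0, LP_ne ΛY hY hy0⟩
      refine le_trans ?_ (Finset.single_le_sum (f := fun q : ℕ × ℕ =>
        (if W q.1 q.2 p.1 p.2 ∧ Ev hX zX sX hY zY sY lo hi p.1 c p.2 x c'
          then LW ΛX p.1 * LW ΛY p.2 else 0)) (fun _ _ => zero_le) hq)
      simp only
      rw [if_pos ⟨hW _ _ hx0 hy0 hN.1, hN.2⟩]
      exact mul_le_mul' (LP_le ΛX hX T i0 _) (LP_le ΛY hY T i0 _)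
    · rw [if_neg hN, mul_zero]; exact zero_le
  calc ∑' x, μ x * Th ΛX hX zX sX ΛY hY zY sY T i0 lo hi N c c' x
      ≤ ∑' x, ∑ q ∈ J, μ x * ∑' L, ∑' L', (if W q.1 q.2 L L' ∧
        Ev hX zX sX hY zY sY lo hi L c L' x c' then LW ΛX L * LW ΛY L' else 0) := by
        refine ENNReal.tsum_le_tsum fun x => ?_
        rw [← Finset.mul_sum]
        exact mul_le_mul_right (key x) _
    _ = ∑ q ∈ J, ∑' x, μ x * ∑' L, ∑' L', (if W q.1 q.2 L L' ∧
        Ev hX zX sX hY zY sY lo hi L c L' x c' then LW ΛX L * LW ΛY L' else 0) :=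
        Summable.tsum_finsetSum fun _ _ => ENNReal.summable
    _ ≤ J.card • κ := by
        refine Finset.sum_le_card_nsmul _ _ _ fun q hq => ?_
        rw [hJ, Finset.mem_product] at hq
        exact hκ q.1 hq.1 q.2 hq.2
    _ = _ := by rw [hcard, nsmul_eq_mul]; push_cast; ring

variable (ΛX hX) in
lemma pj_supp (T i0 j : ℕ) (σ : ℕ × G) (hσ : σ.1 ∉ Icc (j * T) (j * T + j * i0)) :
    pj (LP ΛX hX T i0) (gg zX hX) j σ = 0 := by
  have : pj (LP ΛX hX T i0) (gg zX hX) j σ ≤ SL (LP ΛX hX T i0) j (fun _ => 0) := by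
    refine SL_mono' _ j fun L hL hne => ?_
    rw [if_neg]
    intro he
    apply hσ
    have h1 := HT_pieces hX T i0 L (fun P hP => LP_ne ΛX hX (hne P hP))
    rw [gg_sum, hL] at *
    rw [← he, Finset.mem_Icc]
    exact h1
  have h0 : SL (LP ΛX hX T i0) j (fun _ => 0) = 0 := by
    have := SL_const_mul (LP ΛX hX T i0) j 0 (fun _ => 1)
    simpa using this
  rw [h0] at this
  exact le_antisymm this zero_le

/-- **one window** -/
theorem window (h1X : ∀ b, 1 ≤ hX b) (h1Y : ∀ b, 1 ≤ hY b) (mX : ∑' b, ΛX b ≤ 1)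
    (mY : ∑' b, ΛY b ≤ 1) {C : ℝ≥0∞} {us : ℕ → ℝ≥0∞}
    (hH2 : H2 ΛX hX zX sX ΛY hY zY sY C us) (hH3 : H3 ΛX hX zX sX ΛY hY zY sY C us)
    (T i0 K s j a0 : ℕ) (hj : j ≤ K) (hsT : s ≤ T) (ha0 : K * i0 + i0 ≤ a0)
    (ha1 : a0 ≤ K * i0 + 2 * i0)
    (w : G) (lam u : ℝ≥0∞) (hl0 : lam ≠ 0) (hlT : lam ≠ ⊤) (hu0 : u ≠ 0) :
    SL (LP ΛX hX T i0) j (fun Ps => SL (LP ΛY hY T i0) j (fun Qs =>
      Th ΛX hX zX sX ΛY hY zY sY T i0 (j * T + (2 * K + 2) * i0 + s) ((j + 1) * T - s)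
        (fun _ _ => True) (HT hX Ps.flatten) (a0 + HT hY Qs.flatten)
        (w + Dp zY Qs.flatten - Dp zX Ps.flatten)))
      ≤ u * u + 2 * ((1 - u) ^ j + ((j * i0 + 1 : ℕ) : ℝ≥0∞) * (((j * i0 + 1 : ℕ) : ℝ≥0∞) *
        (((i0 + 1 : ℕ) : ℝ≥0∞) * ((i0 + 1 : ℕ) : ℝ≥0∞) *
          (C * (lam + j * us s / lam + us s))))) := by
  set lo := j * T + (2 * K + 2) * i0 + s with hlo
  set hi := (j + 1) * T - s with hhi
  set gX := gg zX hX with hgX
  set gY := gg zY hY with hgY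
  set LX := LP ΛX hX T i0 with hLX
  set LY := LP ΛY hY T i0 with hLY
  have sX1 : ∑' P, LX P ≤ 1 := sum_LP ΛX hX h1X mX T i0
  have sY1 : ∑' P, LY P ≤ 1 := sum_LP ΛY hY h1Y mY T i0
  obtain ⟨tX, tX0, nX, dX⟩ := thr LX gX sX1 hu0
  obtain ⟨tY, tY0, nY, dY⟩ := thr LY gY sY1 hu0
  obtain ⟨bX, hbX, hbX1⟩ := dX j
  obtain ⟨bY, hbY, hbY1⟩ := dY j
  set Ξ : (List BX → List BY → Prop) → ℕ × G → ℕ × G → ℝ≥0∞ := fun N σ σ' =>
    Th ΛX hX zX sX ΛY hY zY sY T i0 lo hi N σ.1 (a0 + σ'.1) (w + σ'.2 - σ.2) with hΞ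
  have hΞ1 : ∀ N σ σ', Ξ N σ σ' ≤ 1 := fun N σ σ' => by
    refine pair_sum h1X h1Y mX mY T i0 _ 1 fun P Q => ?_
    split_ifs
    · exact le_rfl
    · exact zero_le
  have e0 : SL LX j (fun Ps => SL LY j (fun Qs =>
      Th ΛX hX zX sX ΛY hY zY sY T i0 lo hi (fun _ _ => True) (HT hX Ps.flatten)
        (a0 + HT hY Qs.flatten) (w + Dp zY Qs.flatten - Dp zX Ps.flatten)))
      = ∑' σ, pj LX gX j σ * ∑' σ', pj LY gY j σ' * Ξ (fun _ _ => True) σ σ' := by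
    rw [← SL_push LX gX j (fun σ => ∑' σ', pj LY gY j σ' * Ξ (fun _ _ => True) σ σ')]
    refine SL_congr _ _ fun Ps _ => ?_
    rw [← SL_push LY gY j (fun σ' => Ξ (fun _ _ => True) ((Ps.map gX).sum) σ')]
    refine SL_congr _ _ fun Qs _ => ?_
    rw [hΞ, hgX, hgY, gg_sum, gg_sum]
  rw [e0]
  -- local sets
  have hfX : ∀ h : ℕ, {z | tX ≤ pl LX gX (h, z)}.Finite ∧
      (({z | tX ≤ pl LX gX (h, z)}.ncard : ℕ) : ℝ≥0∞) * tX ≤ 1 := fun h => by
    refine AsmA789.card_le (fun z => pl LX gX (h, z)) ?_ tX0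
    refine le_trans ?_ ((tsum_pl LX gX).le.trans sX1)
    rw [ENNReal.tsum_prod']
    exact ENNReal.le_tsum (f := fun h => ∑' z, pl LX gX (h, z)) h
  have hfY : ∀ h : ℕ, {z | tY ≤ pl LY gY (h, z)}.Finite ∧
      (({z | tY ≤ pl LY gY (h, z)}.ncard : ℕ) : ℝ≥0∞) * tY ≤ 1 := fun h => by
    refine AsmA789.card_le (fun z => pl LY gY (h, z)) ?_ tY0
    refine le_trans ?_ ((tsum_pl LY gY).le.trans sY1)
    rw [ENNReal.tsum_prod']
    exact ENNReal.le_tsum (f := fun h => ∑' z, pl LY gY (h, z)) h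
  have hcase : ∀ σ σ', Ξ (fun _ _ => True) σ σ' ≤ u * u
      + (Ξ (fun P _ => ¬ pl LX gX (gX P) < tX) σ σ'
        + Ξ (fun _ Q => ¬ pl LY gY (gY Q) < tY) σ σ') := by
    intro σ σ'
    have hnl : ∑' P, ∑' Q, LX P * LY Q * (if pl LX gX (gX P) < tX ∧ pl LY gY (gY Q) < tY
        then 1 else 0) ≤ u * u := by
      calc ∑' P, ∑' Q, LX P * LY Q * (if pl LX gX (gX P) < tX ∧ pl LY gY (gY Q) < tY
            then (1 : ℝ≥0∞) else 0)
          = ∑' P, (if pl LX gX (gX P) < tX then LX P else 0) *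
              ∑' Q, (if pl LY gY (gY Q) < tY then LY Q else 0) := by
            refine tsum_congr fun P => ?_
            rw [← ENNReal.tsum_mul_left]
            refine tsum_congr fun Q => ?_
            by_cases a1 : pl LX gX (gX P) < tX
            · by_cases a2 : pl LY gY (gY Q) < tY
              · simp [a1, a2]
              · simp [a1, a2]
            · simp [a1]
        _ ≤ u * u := by rw [ENNReal.tsum_mul_right]; gcongr
    refine le_trans ?_ (add_le_add hnl le_rfl)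
    rw [hΞ]
    simp only [Th]
    rw [← ENNReal.tsum_add, ← ENNReal.tsum_add]
    refine ENNReal.tsum_le_tsum fun P => ?_
    rw [← ENNReal.tsum_add, ← ENNReal.tsum_add]
    refine ENNReal.tsum_le_tsum fun Q => ?_
    rw [← mul_add, ← mul_add]
    refine mul_le_mul_right ?_ _
    by_cases hE : Ev hX zX sX hY zY sY lo hi P σ.1 Q (w + σ'.2 - σ.2) (a0 + σ'.1)
    · by_cases a1 : pl LX gX (gX P) < tX
      · by_cases a2 : pl LY gY (gY Q) < tY
        · simp [hE, a1, a2]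
        · simp [hE, a1, a2]
      · simp [hE, a1]
    · simp [hE]
  have pX1 := tsum_pj_le LX gX sX1 j
  have pY1 := tsum_pj_le LY gY sY1 j
  set I := Icc (j * T) (j * T + j * i0) with hI
  have hIc : (I.card : ℝ≥0∞) = ((j * i0 + 1 : ℕ) : ℝ≥0∞) := by
    rw [hI, Nat.card_Icc]
    congr 1
    omega
  have hji : j * i0 ≤ K * i0 := Nat.mul_le_mul_right _ hj
  set κ := ((i0 + 1 : ℕ) : ℝ≥0∞) * ((i0 + 1 : ℕ) : ℝ≥0∞) *
          (C * (lam + j * us s / lam + us s)) with hκ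
  have hT1 : (j + 1) * T = j * T + T := Nat.succ_mul j T
  have hK2 : (2 * K + 2) * i0 = K * i0 + K * i0 + 2 * i0 := by ring
  -- X local
  have hXl : ∑' σ, pj LX gX j σ * ∑' σ', pj LY gY j σ' *
      Ξ (fun P _ => ¬ pl LX gX (gX P) < tX) σ σ'
      ≤ (1 - u) ^ j + I.card * (I.card * κ) := by
    refine locsum _ _ pX1 pY1 I (pj_supp ΛX hX zX T i0 j) (pj_supp ΛY hY zY T i0 j)
      (tX * j) _ bX hbX hbX1 _ (hΞ1 _) κ ?_
    intro c hc c' hc' φ ψ hφ hφM hψ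
    rw [hI, Finset.mem_Icc] at hc hc'
    refine mix_le φ ψ hφ hψ (tX * j) hφM w
      (fun x => Th ΛX hX zX sX ΛY hY zY sY T i0 lo hi
        (fun P _ => ¬ pl LX gX (gX P) < tX) c (a0 + c') x) κ fun μ hμ hμM => ?_
    refine Th_le zX sX zY sY T i0 lo hi _ c (a0 + c') _ μ
      (fun h h' L L' => HT hX L = h ∧ Dp zX L ∈ (hfX h).1.toFinset ∧ HT hY L' = h') ?_ ?_
    · intro P Q _ _ hN
      refine ⟨rfl, ?_, rfl⟩
      rw [Set.Finite.mem_toFinset]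
      exact not_lt.1 hN
    · intro h hh h' hh'
      rw [Finset.mem_Icc] at hh hh'
      have := hH2 s h h' c (a0 + c') lo hi (hfX h).1.toFinset μ (tX * j) lam hμ hμM hl0 hlT
        (by omega) (by omega) (by omega) (by omega) (by omega) (by omega)
      simp only [and_assoc] at this ⊢
      refine this.trans ?_
      gcongr
      have hc1 := (hfX h).2
      rw [Set.ncard_eq_toFinset_card _ (hfX h).1] at hc1
      calc tX * j * ((hfX h).1.toFinset.card : ℝ≥0∞)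
          = j * (((hfX h).1.toFinset.card : ℝ≥0∞) * tX) := by ring
        _ ≤ j * 1 := by gcongr
        _ = j := mul_one _
  have hYl : ∑' σ, pj LX gX j σ * ∑' σ', pj LY gY j σ' *
      Ξ (fun _ Q => ¬ pl LY gY (gY Q) < tY) σ σ'
      ≤ (1 - u) ^ j + I.card * (I.card * κ) := by
    have hsw : ∑' σ, pj LX gX j σ * ∑' σ', pj LY gY j σ' *
        Ξ (fun _ Q => ¬ pl LY gY (gY Q) < tY) σ σ'
        = ∑' σ', pj LY gY j σ' * ∑' σ, pj LX gX j σ *
        Ξ (fun _ Q => ¬ pl LY gY (gY Q) < tY) σ σ' := by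
      simp only [← ENNReal.tsum_mul_left]
      rw [ENNReal.tsum_comm]
      refine tsum_congr fun σ' => tsum_congr fun σ => ?_
      ring
    rw [hsw]
    refine locsum _ _ pY1 pX1 I (pj_supp ΛY hY zY T i0 j) (pj_supp ΛX hX zX T i0 j)
      (tY * j) _ bY hbY hbY1
      (fun σ' σ => Ξ (fun _ Q => ¬ pl LY gY (gY Q) < tY) σ σ') (fun _ _ => hΞ1 _ _ _) κ ?_
    intro c' hc' c hc φ ψ hφ hφM hψ
    rw [hI, Finset.mem_Icc] at hc hc'
    refine mix_le' φ ψ hφ hψ (tY * j) hφM w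
      (fun x => Th ΛX hX zX sX ΛY hY zY sY T i0 lo hi
        (fun _ Q => ¬ pl LY gY (gY Q) < tY) c (a0 + c') x) κ fun μ hμ hμM => ?_
    refine Th_le zX sX zY sY T i0 lo hi _ c (a0 + c') _ μ
      (fun h h' L L' => HT hX L = h ∧ Dp zY L' ∈ (hfY h').1.toFinset ∧ HT hY L' = h') ?_ ?_
    · intro P Q _ _ hN
      refine ⟨rfl, ?_, rfl⟩
      rw [Set.Finite.mem_toFinset]
      exact not_lt.1 hN
    · intro h hh h' hh'
      rw [Finset.mem_Icc] at hh hh'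
      have := hH3 s h h' c (a0 + c') lo hi (hfY h').1.toFinset μ (tY * j) lam hμ hμM hl0 hlT
        (by omega) (by omega) (by omega) (by omega) (by omega) (by omega)
      simp only [and_assoc] at this ⊢
      refine this.trans ?_
      gcongr
      have hc1 := (hfY h').2
      rw [Set.ncard_eq_toFinset_card _ (hfY h').1] at hc1
      calc tY * j * ((hfY h').1.toFinset.card : ℝ≥0∞)
          = j * (((hfY h').1.toFinset.card : ℝ≥0∞) * tY) := by ring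
        _ ≤ j * 1 := by gcongr
        _ = j := mul_one _
  rw [← hIc]
  calc ∑' σ, pj LX gX j σ * ∑' σ', pj LY gY j σ' * Ξ (fun _ _ => True) σ σ'
      ≤ ∑' σ, pj LX gX j σ * ∑' σ', pj LY gY j σ' * (u * u
        + (Ξ (fun P _ => ¬ pl LX gX (gX P) < tX) σ σ'
        + Ξ (fun _ Q => ¬ pl LY gY (gY Q) < tY) σ σ')) := by
        gcongr
        exact hcase _ _
    _ = (∑' σ, pj LX gX j σ) * ((∑' σ', pj LY gY j σ') * (u * u))
        + (∑' σ, pj LX gX j σ * ∑' σ', pj LY gY j σ' *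
            Ξ (fun P _ => ¬ pl LX gX (gX P) < tX) σ σ'
          + ∑' σ, pj LX gX j σ * ∑' σ', pj LY gY j σ' *
            Ξ (fun _ Q => ¬ pl LY gY (gY Q) < tY) σ σ') := by
        simp only [mul_add, ENNReal.tsum_add, ENNReal.tsum_mul_right]
    _ ≤ 1 * (1 * (u * u)) + (((1 - u) ^ j + I.card * (I.card * κ))
        + ((1 - u) ^ j + I.card * (I.card * κ))) := by gcongr
    _ = _ := by ring

end window

end Crest.Agent.R154.Asm903
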