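import Crest.Agent.R154.FP_178
import Crest.Agent.R154.Bind801_12

/-! Row 154, ROAD 801 (helper937): abstract assembly, silent runner. -/

set_option autoImplicit false

namespace Crest.Agent.R154.Asm937

open scoped ENNReal
open Crest.Agent.R154.B5A Crest.Agent.R154.FP178

section single

variable {B : Type*} (Λ : B → ℝ≥0∞) (ht : B → ℕ)

lemma fp_of_HT (h1 : ∀ b, 1 ≤ ht b) (L : List B) : fp ht (HT ht L) L := by
  induction L with
  | nil => rw [HT_nil]; exact (fp_nil ht 0).2 rfl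
  | cons b L ih =>
    rw [fp_cons, HT_cons]
    refine ⟨by have := h1 b; omega, ?_⟩
    rw [Nat.add_sub_cancel_left]; exact ih

open Classical in
lemma U_le (h1 : ∀ b, 1 ≤ ht b) (hΛ : ∑' b, Λ b ≤ 1) (n : ℕ) : U Λ ht n ≤ 1 := by
  refine le_trans ?_ (sum_FP Λ ht h1 hΛ n)
  rw [U]
  refine ENNReal.tsum_le_tsum fun L => ?_
  by_cases h : HT ht L = n
  · rw [if_pos h, if_pos (h ▸ fp_of_HT ht h1 L)]
  · rw [if_neg h]; exact zero_le

/-- bound of the overshoot -/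
noncomputable def ov (i0 : ℕ) : ℝ≥0∞ := ∑' k, tail Λ ht (i0 + k)

open Classical in
lemma X3 (h1 : ∀ b, 1 ≤ ht b) (hΛ : ∑' b, Λ b ≤ 1) (n a τ i0 : ℕ) (hn : a + i0 + τ ≤ n)
    (G : List B → ℝ≥0∞) (hG : ∀ L, G L ≤ 1) (G' : List B → List B → ℝ≥0∞)
    (hGG : ∀ A P R, fp ht a A → HT ht A ≤ a + i0 → fp ht τ P → HT ht P ≤ τ + i0 →
      HT ht (A ++ (P ++ R)) = n → G (A ++ (P ++ R)) ≤ G' A P) :
    ∑' L, (if HT ht L = n then LW Λ L * G L else 0)
      ≤ ∑' A, (if fp ht a A ∧ HT ht A ≤ a + i0 then LW Λ A *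
          ∑' P, (if fp ht τ P ∧ HT ht P ≤ τ + i0 then LW Λ P * G' A P else 0) else 0)
        + (ov Λ ht i0 + ov Λ ht i0) := by
  have hU : ∀ n, U Λ ht n ≤ 1 := U_le Λ ht h1 hΛ
  set f : List B → ℝ≥0∞ := fun L => if HT ht L = n then G L else 0 with hf
  have e0 : ∑' L, (if HT ht L = n then LW Λ L * G L else 0)
      = ∑' L, (if a ≤ HT ht L then LW Λ L * f L else 0) := by
    refine tsum_congr fun L => ?_
    simp only [hf]
    by_cases h : HT ht L = n
    · rw [if_pos h, if_pos (by omega), if_pos h]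
    · rw [if_neg h]
      split_ifs <;> simp
  rw [e0, split Λ ht h1 a f]
  -- inner bound
  have hin1 : ∀ (c : List B), ∑' L2, LW Λ L2 * f (c ++ L2) ≤ 1 := by
    intro c
    refine le_trans ?_ (hU (n - HT ht c))
    rw [U]
    refine ENNReal.tsum_le_tsum fun R => ?_
    simp only [hf, HT_append]
    by_cases h : HT ht c + HT ht R = n
    · rw [if_pos h, if_pos (by omega)]
      calc LW Λ R * G (c ++ R) ≤ LW Λ R * 1 := mul_le_mul_right (hG _) _
        _ = _ := mul_one _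
    · rw [if_neg h, mul_zero]; exact zero_le
  have hin2 : ∀ A P, fp ht a A → HT ht A ≤ a + i0 → fp ht τ P → HT ht P ≤ τ + i0 →
      ∑' R, LW Λ R * f (A ++ (P ++ R)) ≤ G' A P := by
    intro A P hA hA' hP hP'
    have : ∀ R, LW Λ R * f (A ++ (P ++ R))
        ≤ (if HT ht R = n - HT ht A - HT ht P then LW Λ R else 0) * G' A P := by
      intro R
      simp only [hf]
      by_cases h : HT ht (A ++ (P ++ R)) = n
      · rw [if_pos h]
        have h' := h
        rw [HT_append, HT_append] at h'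
        rw [if_pos (by omega)]
        exact mul_le_mul_right (hGG A P R hA hA' hP hP' h) _
      · rw [if_neg h, mul_zero]; exact zero_le
    refine (ENNReal.tsum_le_tsum this).trans ?_
    rw [ENNReal.tsum_mul_right]
    calc _ ≤ 1 * G' A P := mul_le_mul_left (hU _) _
      _ = _ := one_mul _
  have hA1 : ∀ A, fp ht a A → HT ht A ≤ a + i0 → ∑' L2, LW Λ L2 * f (A ++ L2)
      ≤ ∑' P, (if fp ht τ P ∧ HT ht P ≤ τ + i0 then LW Λ P * G' A P else 0) + ov Λ ht i0 := by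
    intro A hA hA'
    have e1 : ∑' L2, LW Λ L2 * f (A ++ L2)
        = ∑' L2, (if τ ≤ HT ht L2 then LW Λ L2 * f (A ++ L2) else 0) := by
      refine tsum_congr fun L2 => ?_
      by_cases h : τ ≤ HT ht L2
      · rw [if_pos h]
      · rw [if_neg h]
        simp only [hf, HT_append]
        rw [if_neg (by omega), mul_zero]
    rw [e1, split Λ ht h1 τ (fun L2 => f (A ++ L2))]
    have e2 : ∀ P, (if fp ht τ P then LW Λ P * ∑' R, LW Λ R * f (A ++ (P ++ R)) else 0)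
        ≤ (if fp ht τ P ∧ HT ht P ≤ τ + i0 then LW Λ P * G' A P else 0)
          + (if fp ht τ P ∧ τ + i0 < HT ht P then LW Λ P else 0) := by
      intro P
      by_cases hP : fp ht τ P
      · rw [if_pos hP]
        by_cases hP' : HT ht P ≤ τ + i0
        · rw [if_pos ⟨hP, hP'⟩]
          exact le_add_right (mul_le_mul_right (hin2 A P hA hA' hP hP') _)
        · rw [if_neg (by tauto), if_pos ⟨hP, by omega⟩, zero_add]
          calc LW Λ P * ∑' R, LW Λ R * f (A ++ (P ++ R)) ≤ LW Λ P * 1 := by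
                refine mul_le_mul_right ?_ _
                have := hin1 (A ++ P)
                simpa [List.append_assoc] using this
            _ = _ := mul_one _
      · rw [if_neg hP]; exact zero_le
    refine (ENNReal.tsum_le_tsum e2).trans ?_
    rw [ENNReal.tsum_add]
    exact add_le_add le_rfl (overshoot Λ ht h1 hU i0 τ)
  have e3 : ∀ A, (if fp ht a A then LW Λ A * ∑' L2, LW Λ L2 * f (A ++ L2) else 0)
      ≤ (if fp ht a A ∧ HT ht A ≤ a + i0 then LW Λ A *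
          ∑' P, (if fp ht τ P ∧ HT ht P ≤ τ + i0 then LW Λ P * G' A P else 0) else 0)
        + ((if fp ht a A then LW Λ A else 0) * ov Λ ht i0
        + (if fp ht a A ∧ a + i0 < HT ht A then LW Λ A else 0)) := by
    intro A
    by_cases hA : fp ht a A
    · rw [if_pos hA, if_pos hA]
      by_cases hA' : HT ht A ≤ a + i0
      · rw [if_pos ⟨hA, hA'⟩, ← add_assoc]
        refine le_add_right ?_
        rw [← mul_add]
        exact mul_le_mul_right (hA1 A hA hA') _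
      · rw [if_neg (by tauto), if_pos ⟨hA, by omega⟩, zero_add]
        refine le_add_left ?_
        calc _ ≤ LW Λ A * 1 := mul_le_mul_right (hin1 A) _
          _ = _ := mul_one _
    · rw [if_neg hA]; exact zero_le
  refine (ENNReal.tsum_le_tsum e3).trans ?_
  rw [ENNReal.tsum_add, ENNReal.tsum_add, ENNReal.tsum_mul_right]
  refine add_le_add le_rfl (add_le_add ?_ (overshoot Λ ht h1 hU i0 a))
  calc _ ≤ 1 * ov Λ ht i0 := mul_le_mul_left (sum_FP Λ ht h1 hΛ a) _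
    _ = _ := one_mul _

open Classical in
/-- first passage sum with bounded overshoot -/
noncomputable def FS (a i0 : ℕ) (F : List B → ℝ≥0∞) : ℝ≥0∞ :=
  ∑' A, (if fp ht a A ∧ HT ht A ≤ a + i0 then LW Λ A * F A else 0)

lemma FS_mono (a i0 : ℕ) {F F' : List B → ℝ≥0∞}
    (h : ∀ A, fp ht a A → HT ht A ≤ a + i0 → F A ≤ F' A) : FS Λ ht a i0 F ≤ FS Λ ht a i0 F' := by
  classical
  refine ENNReal.tsum_le_tsum fun A => ?_
  by_cases hA : fp ht a A ∧ HT ht A ≤ a + i0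
  · rw [if_pos hA, if_pos hA]
    exact mul_le_mul_right (h A hA.1 hA.2) _
  · rw [if_neg hA, if_neg hA]

lemma FS_add (a i0 : ℕ) (F F' : List B → ℝ≥0∞) :
    FS Λ ht a i0 (fun A => F A + F' A) = FS Λ ht a i0 F + FS Λ ht a i0 F' := by
  classical
  rw [FS, FS, FS, ← ENNReal.tsum_add]
  refine tsum_congr fun A => ?_
  by_cases hA : fp ht a A ∧ HT ht A ≤ a + i0
  · rw [if_pos hA, if_pos hA, if_pos hA, mul_add]
  · rw [if_neg hA, if_neg hA, if_neg hA, add_zero]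

lemma FS_mul (a i0 : ℕ) (c : ℝ≥0∞) (F : List B → ℝ≥0∞) :
    FS Λ ht a i0 (fun A => c * F A) = c * FS Λ ht a i0 F := by
  classical
  rw [FS, FS, ← ENNReal.tsum_mul_left]
  refine tsum_congr fun A => ?_
  by_cases hA : fp ht a A ∧ HT ht A ≤ a + i0
  · rw [if_pos hA, if_pos hA, mul_left_comm]
  · rw [if_neg hA, if_neg hA, mul_zero]

lemma FS_tsum {ι : Type*} (a i0 : ℕ) (F : ι → List B → ℝ≥0∞) :
    FS Λ ht a i0 (fun A => ∑' i, F i A) = ∑' i, FS Λ ht a i0 (F i) := by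
  classical
  simp only [FS]
  rw [ENNReal.tsum_comm]
  refine tsum_congr fun A => ?_
  by_cases hA : fp ht a A ∧ HT ht A ≤ a + i0
  · simp only [if_pos hA]
    rw [ENNReal.tsum_mul_left]
  · simp only [if_neg hA, tsum_zero]

lemma FS_le (h1 : ∀ b, 1 ≤ ht b) (hΛ : ∑' b, Λ b ≤ 1) (a i0 : ℕ) {F : List B → ℝ≥0∞} {c : ℝ≥0∞}
    (h : ∀ A, fp ht a A → HT ht A ≤ a + i0 → F A ≤ c) : FS Λ ht a i0 F ≤ c := by
  classical
  calc FS Λ ht a i0 F ≤ ∑' A, (if fp ht a A then LW Λ A else 0) * c := by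
        refine ENNReal.tsum_le_tsum fun A => ?_
        by_cases hA : fp ht a A ∧ HT ht A ≤ a + i0
        · rw [if_pos hA, if_pos hA.1]
          exact mul_le_mul_right (h A hA.1 hA.2) _
        · rw [if_neg hA]; exact zero_le
    _ = (∑' A, (if fp ht a A then LW Λ A else 0)) * c := ENNReal.tsum_mul_right
    _ ≤ 1 * c := mul_le_mul_left (sum_FP Λ ht h1 hΛ a) _
    _ = c := one_mul _

open Classical in
lemma X3' (h1 : ∀ b, 1 ≤ ht b) (hΛ : ∑' b, Λ b ≤ 1) (n a τ i0 : ℕ) (hn : a + i0 + τ ≤ n)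
    (G : List B → ℝ≥0∞) (hG : ∀ L, G L ≤ 1) (G' : List B → List B → ℝ≥0∞)
    (hGG : ∀ A P R, fp ht a A → HT ht A ≤ a + i0 → fp ht τ P → HT ht P ≤ τ + i0 →
      HT ht (A ++ (P ++ R)) = n → G (A ++ (P ++ R)) ≤ G' A P) :
    ∑' L, (if HT ht L = n then LW Λ L * G L else 0)
      ≤ FS Λ ht a i0 (fun A => FS Λ ht τ i0 (fun P => G' A P)) + (ov Λ ht i0 + ov Λ ht i0) := by
  simpa only [FS] using X3 Λ ht h1 hΛ n a τ i0 hn G hG G' hGG

end single

section pair

variable {BX BY G : Type*} [AddCommGroup G] (ΛX : BX → ℝ≥0∞) (ΛY : BY → ℝ≥0∞)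
  (hX : BX → ℕ) (hY : BY → ℕ) (zX : BX → G) (zY : BY → G)
  (sX : BX → Set (G × ℕ)) (sY : BY → Set (G × ℕ))

open Bind12 (TT Dp)

lemma FS_comm {a a' i0 i0' : ℕ} (F : List BX → List BY → ℝ≥0∞) :
    FS ΛX hX a i0 (fun A => FS ΛY hY a' i0' (fun A' => F A A'))
      = FS ΛY hY a' i0' (fun A' => FS ΛX hX a i0 (fun A => F A A')) := by
  classical
  have e : FS ΛX hX a i0 (fun A => FS ΛY hY a' i0' (fun A' => F A A'))
      = ∑' A', FS ΛX hX a i0 (fun A => if fp hY a' A' ∧ HT hY A' ≤ a' + i0' then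
          LW ΛY A' * F A A' else 0) := by
    rw [← FS_tsum]
    rfl
  rw [e, FS]
  refine tsum_congr fun A' => ?_
  by_cases h : fp hY a' A' ∧ HT hY A' ≤ a' + i0'
  · simp only [if_pos h]
    rw [FS_mul]
  · simp only [if_neg h]
    rw [FS]
    simp

lemma Dp_append {B : Type*} (z : B → G) (L L' : List B) : Dp z (L ++ L') = Dp z L + Dp z L' := by
  simp [Dp]

lemma TT_append {B : Type*} (s : B → Set (G × ℕ)) (z : B → G) (h : B → ℕ) (L L' : List B) (x : G)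
    (a : ℕ) : TT s z h (L ++ L') x a = TT s z h L x a ∪ TT s z h L' (x + Dp z L) (a + HT h L) := by
  induction L generalizing x a with
  | nil => simp [TT, Dp, HT]
  | cons b L ih =>
    simp only [List.cons_append, TT]
    rw [ih, Set.union_assoc]
    congr 3
    · simp [Dp, add_assoc]
    · rw [HT_cons, add_assoc]

lemma mem_TT_shift {B : Type*} (s : B → Set (G × ℕ)) (z : B → G) (h : B → ℕ) (L : List B)
    (x v y : G) (a k : ℕ) : (y, k) ∈ TT s z h L (x + v) a ↔ (y - v, k) ∈ TT s z h L x a := by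
  induction L generalizing x a with
  | nil => simp [TT]
  | cons b L ih =>
    simp only [TT, Set.mem_union, Set.mem_ofPred_eq]
    rw [show x + v + z b = x + z b + v by abel, ih]
    refine or_congr ?_ Iff.rfl
    constructor
    · rintro ⟨q, hq, hp⟩
      obtain ⟨h1, h2⟩ := Prod.mk.inj hp
      exact ⟨q, hq, Prod.ext (by simp only; rw [h1]; abel) h2⟩
    · rintro ⟨q, hq, hp⟩
      obtain ⟨h1, h2⟩ := Prod.mk.inj hp
      refine ⟨q, hq, Prod.ext ?_ h2⟩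
      simp only
      rw [sub_eq_iff_eq_add] at h1
      rw [h1]; abel

lemma TT_depth {B : Type*} (s : B → Set (G × ℕ)) (z : B → G) (h : B → ℕ)
    (hs : ∀ b y k, (y, k) ∈ s b → 1 ≤ k ∧ k ≤ h b) (L : List B)
    (x y : G) (a k : ℕ) (hm : (y, k) ∈ TT s z h L x a) : a < k ∧ k ≤ a + HT h L := by
  induction L generalizing x a with
  | nil => simp [TT] at hm
  | cons b L ih =>
    simp only [TT, Set.mem_union, Set.mem_ofPred_eq] at hm
    rw [HT_cons]
    rcases hm with ⟨q, hq, hp⟩ | hm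
    · obtain ⟨h1, h2⟩ := Prod.mk.inj hp
      have := hs b q.1 q.2 hq
      omega
    · have := ih _ _ hm
      omega

/-- a common site -/
def Con (L : List BX) (x : G) (a : ℕ) (L' : List BY) (x' : G) (a' k : ℕ) : Prop :=
  ∃ z, (z, k) ∈ TT sX zX hX L x a ∧ (z, k) ∈ TT sY zY hY L' x' a'

lemma Con_shift (L : List BX) (x : G) (a : ℕ) (L' : List BY) (x' : G) (a' k : ℕ) :
    Con hX hY zX zY sX sY L x a L' x' a' k ↔ Con hX hY zX zY sX sY L 0 a L' (x' - x) a' k := by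
  constructor
  · rintro ⟨z, h1, h2⟩
    refine ⟨z - x, ?_, ?_⟩
    · rw [← mem_TT_shift, zero_add]; exact h1
    · rw [← mem_TT_shift, sub_add_cancel]; exact h2
  · rintro ⟨z, h1, h2⟩
    refine ⟨z + x, ?_, ?_⟩
    · rw [← zero_add x, mem_TT_shift, zero_add, add_sub_cancel_right]; exact h1
    · rw [show x' = (x' - x) + x by abel, mem_TT_shift, add_sub_cancel_right]; exact h2

/-- the window event on the pieces -/
def Ev (lo hi : ℕ) (x : G) (a a' : ℕ) (P : List BX) (P' : List BY) : Prop :=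
  (∃ k, Con hX hY zX zY sX sY P 0 a P' x a' k) ∧
    ∀ k, Con hX hY zX zY sX sY P 0 a P' x a' k → lo ≤ k ∧ k ≤ hi

open Classical in
/-- window term -/
theorem window_split (hX1 : ∀ b, 1 ≤ hX b) (hY1 : ∀ b, 1 ≤ hY b) (hΛX : ∑' b, ΛX b ≤ 1)
    (hΛY : ∑' b, ΛY b ≤ 1)
    (hsX : ∀ b y k, (y, k) ∈ sX b → 1 ≤ k ∧ k ≤ hX b)
    (hsY : ∀ b y k, (y, k) ∈ sY b → 1 ≤ k ∧ k ≤ hY b)
    (n A t i0 aX τX aY τY hi hi2 : ℕ) (w : G) (hxA : aX + i0 ≤ A) (hyA : aY + i0 ≤ A)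
    (hxt : A + t ≤ aX + τX) (hyt : A + t ≤ aY + τY) (hh : aX + τX + 2 * i0 ≤ hi2)
    (hnx : aX + i0 + τX ≤ n) (hny : aY + i0 + τY ≤ n) :
    ∑' LX, (if HT hX LX = n then LW ΛX LX * ∑' LY, (if HT hY LY = n then LW ΛY LY *
      (if (∀ k, Con hX hY zX zY sX sY LX 0 0 LY w 0 k → A < k) ∧
        (∃ k, Con hX hY zX zY sX sY LX 0 0 LY w 0 k ∧ k ≤ A + t) ∧
        (∀ k, Con hX hY zX zY sX sY LX 0 0 LY w 0 k → k ≤ hi ∨ hi2 < k)
        then 1 else 0) else 0) else 0)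
    ≤ FS ΛX hX aX i0 (fun A1 => FS ΛX hX τX i0 (fun P1 =>
        FS ΛY hY aY i0 (fun A2 => FS ΛY hY τY i0 (fun P2 =>
          if Ev hX hY zX zY sX sY (A + 1) hi (w + Dp zY A2 - Dp zX A1) (HT hX A1) (HT hY A2) P1 P2
          then 1 else 0))))
      + ((ov ΛY hY i0 + ov ΛY hY i0) + (ov ΛX hX i0 + ov ΛX hX i0)) := by
  set K : List BX → List BY → ℝ≥0∞ := fun LX LY =>
    (if (∀ k, Con hX hY zX zY sX sY LX 0 0 LY w 0 k → A < k) ∧
        (∃ k, Con hX hY zX zY sX sY LX 0 0 LY w 0 k ∧ k ≤ A + t) ∧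
        (∀ k, Con hX hY zX zY sX sY LX 0 0 LY w 0 k → k ≤ hi ∨ hi2 < k)
        then 1 else 0) with hK
  have hK1 : ∀ LX LY, K LX LY ≤ 1 := by
    intro LX LY; simp only [hK]; split_ifs <;> simp
  have hUY := U_le ΛY hY hY1 hΛY n
  have hG1 : ∀ LX, ∑' LY, (if HT hY LY = n then LW ΛY LY * K LX LY else 0) ≤ 1 := by
    intro LX
    refine le_trans ?_ hUY
    rw [U]
    refine ENNReal.tsum_le_tsum fun LY => ?_
    by_cases h : HT hY LY = n
    · rw [if_pos h, if_pos h]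
      calc LW ΛY LY * K LX LY ≤ LW ΛY LY * 1 := mul_le_mul_right (hK1 _ _) _
        _ = _ := mul_one _
    · rw [if_neg h, if_neg h]
  have hkey : ∀ A1 P1 R1, fp hX aX A1 → HT hX A1 ≤ aX + i0 → fp hX τX P1 →
      HT hX P1 ≤ τX + i0 →
      ∀ A2 P2 R2, fp hY aY A2 → HT hY A2 ≤ aY + i0 → fp hY τY P2 →
      HT hY P2 ≤ τY + i0 → K (A1 ++ (P1 ++ R1)) (A2 ++ (P2 ++ R2)) ≤
        (if Ev hX hY zX zY sX sY (A + 1) hi (w + Dp zY A2 - Dp zX A1) (HT hX A1) (HT hY A2) P1 P2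
          then 1 else 0) := by
    intro A1 P1 R1 hA1 hA1' hP1 hP1' A2 P2 R2 hA2 hA2' hP2 hP2'
    simp only [hK]
    by_cases hc : (∀ k, Con hX hY zX zY sX sY (A1 ++ (P1 ++ R1)) 0 0 (A2 ++ (P2 ++ R2)) w 0 k →
        A < k) ∧
        (∃ k, Con hX hY zX zY sX sY (A1 ++ (P1 ++ R1)) 0 0 (A2 ++ (P2 ++ R2)) w 0 k ∧ k ≤ A + t) ∧
        (∀ k, Con hX hY zX zY sX sY (A1 ++ (P1 ++ R1)) 0 0 (A2 ++ (P2 ++ R2)) w 0 k →
          k ≤ hi ∨ hi2 < k)
    swap
    · rw [if_neg hc]; exact zero_le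
    rw [if_pos hc, if_pos]
    have a1 := le_HT_of_fp hX hA1
    have a2 := le_HT_of_fp hY hA2
    have p1 := le_HT_of_fp hX hP1
    have p2 := le_HT_of_fp hY hP2
    obtain ⟨c1, ⟨k0, ⟨z0, hzX, hzY⟩, hk0⟩, c3⟩ := hc
    have hlift : ∀ k, Con hX hY zX zY sX sY P1 0 (HT hX A1) P2 (w + Dp zY A2 - Dp zX A1)
        (HT hY A2) k → Con hX hY zX zY sX sY (A1 ++ (P1 ++ R1)) 0 0 (A2 ++ (P2 ++ R2)) w 0 k := by
      intro k hk
      rw [← Con_shift] at hk
      obtain ⟨z, h1, h2⟩ := hk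
      refine ⟨z, ?_, ?_⟩
      · rw [TT_append, TT_append]
        refine Or.inr (Or.inl ?_)
        rw [zero_add, zero_add]; exact h1
      · rw [TT_append, TT_append]
        refine Or.inr (Or.inl ?_)
        rw [zero_add]; exact h2
    refine ⟨⟨k0, ?_⟩, ?_⟩
    · have hkA := c1 k0 ⟨z0, hzX, hzY⟩
      rw [← Con_shift]
      refine ⟨z0, ?_, ?_⟩
      · rw [TT_append, TT_append] at hzX
        rcases hzX with h | h | h
        · have := TT_depth sX zX hX hsX _ _ _ _ _ h; omega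
        · rw [zero_add, zero_add] at h; exact h
        · have := TT_depth sX zX hX hsX _ _ _ _ _ h; omega
      · rw [TT_append, TT_append] at hzY
        rcases hzY with h | h | h
        · have := TT_depth sY zY hY hsY _ _ _ _ _ h; omega
        · rw [zero_add] at h; exact h
        · have := TT_depth sY zY hY hsY _ _ _ _ _ h; omega
    · intro k hk
      have hk' := hlift k hk
      refine ⟨by have := c1 k hk'; omega, ?_⟩
      rcases c3 k hk' with h | h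
      · exact h
      · obtain ⟨z, h1, h2⟩ := hk
        have := TT_depth sX zX hX hsX _ _ _ _ _ h1
        omega
  refine (X3' ΛX hX hX1 hΛX n aX τX i0 hnx
    (fun LX => ∑' LY, (if HT hY LY = n then LW ΛY LY * K LX LY else 0)) hG1
    (fun A1 P1 => FS ΛY hY aY i0 (fun A2 => FS ΛY hY τY i0 (fun P2 =>
          if Ev hX hY zX zY sX sY (A + 1) hi (w + Dp zY A2 - Dp zX A1) (HT hX A1) (HT hY A2) P1 P2
          then 1 else 0)) + (ov ΛY hY i0 + ov ΛY hY i0)) ?_).trans ?_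
  · intro A1 P1 R1 hA1 hA1' hP1 hP1' _
    exact X3' ΛY hY hY1 hΛY n aY τY i0 hny (fun LY => K (A1 ++ (P1 ++ R1)) LY)
      (fun LY => hK1 _ _) _ (fun A2 P2 R2 hA2 hA2' hP2 hP2' _ =>
        hkey A1 P1 R1 hA1 hA1' hP1 hP1' A2 P2 R2 hA2 hA2' hP2 hP2')
  · refine le_trans (add_le_add ?_ le_rfl) (le_of_eq (add_assoc _ _ _))
    calc FS ΛX hX aX i0 (fun A1 => FS ΛX hX τX i0 (fun P1 =>
            FS ΛY hY aY i0 (fun A2 => FS ΛY hY τY i0 (fun P2 =>
              if Ev hX hY zX zY sX sY (A + 1) hi (w + Dp zY A2 - Dp zX A1) (HT hX A1) (HT hY A2)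
                P1 P2 then 1 else 0)) + (ov ΛY hY i0 + ov ΛY hY i0)))
        = FS ΛX hX aX i0 (fun A1 => FS ΛX hX τX i0 (fun P1 =>
            FS ΛY hY aY i0 (fun A2 => FS ΛY hY τY i0 (fun P2 =>
              if Ev hX hY zX zY sX sY (A + 1) hi (w + Dp zY A2 - Dp zX A1) (HT hX A1) (HT hY A2)
                P1 P2 then 1 else 0)))
            + FS ΛX hX τX i0 (fun P1 => (ov ΛY hY i0 + ov ΛY hY i0))) := by
          congr 1
          funext A1
          rw [← FS_add]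
      _ = _ + FS ΛX hX aX i0 (fun A1 =>
            FS ΛX hX τX i0 (fun P1 => (ov ΛY hY i0 + ov ΛY hY i0))) := by
          rw [FS_add]
      _ ≤ _ := by
          refine add_le_add le_rfl ?_
          exact FS_le ΛX hX hX1 hΛX _ _ fun _ _ _ => FS_le ΛX hX hX1 hΛX _ _ fun _ _ _ => le_rfl

/-- decomposition of the law of the first passage -/
def DD {B : Type*} (Λ : B → ℝ≥0∞) (ht : B → ℕ) (z : B → G) (a i0 : ℕ) (M β : ℝ≥0∞) : Prop :=
  ∃ g : G → ℕ → ℝ≥0∞, (∀ x α, g x α ≤ M) ∧ (∀ α, ∑' x, g x α ≤ 1) ∧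
    ∀ F : G → ℕ → ℝ≥0∞, (∀ x α, F x α ≤ 1) →
      FS Λ ht a i0 (fun A => F (Dp z A) (HT ht A))
        ≤ ∑ i ∈ Finset.range (i0 + 1), ∑' x, g x (a + i) * F x (a + i) + β

lemma swap4 {ι κ α β : Type*} (s : Finset ι) (t : Finset κ) (f : ι → κ → α → β → ℝ≥0∞) :
    ∑ i ∈ s, ∑ j ∈ t, ∑' a, ∑' b, f i j a b = ∑' a, ∑' b, ∑ i ∈ s, ∑ j ∈ t, f i j a b := by
  symm
  calc ∑' a, ∑' b, ∑ i ∈ s, ∑ j ∈ t, f i j a b = ∑' a, ∑ i ∈ s, ∑' b, ∑ j ∈ t, f i j a b :=
        tsum_congr fun a => Summable.tsum_finsetSum (fun _ _ => ENNReal.summable)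
    _ = ∑' a, ∑ i ∈ s, ∑ j ∈ t, ∑' b, f i j a b :=
        tsum_congr fun a => Finset.sum_congr rfl fun i _ =>
          Summable.tsum_finsetSum (fun _ _ => ENNReal.summable)
    _ = ∑ i ∈ s, ∑' a, ∑ j ∈ t, ∑' b, f i j a b :=
        Summable.tsum_finsetSum (fun _ _ => ENNReal.summable)
    _ = _ := Finset.sum_congr rfl fun i _ =>
        Summable.tsum_finsetSum (fun _ _ => ENNReal.summable)

open Classical in
lemma two_le (τX τY i0 : ℕ) (Q : List BX → List BY → Prop) [∀ P P', Decidable (Q P P')] :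
    FS ΛX hX τX i0 (fun P => FS ΛY hY τY i0 (fun P' => if Q P P' then 1 else 0))
      ≤ ∑ i1 ∈ Finset.range (i0 + 1), ∑ i2 ∈ Finset.range (i0 + 1), ∑' L, ∑' L',
        (if HT hX L = τX + i1 ∧ HT hY L' = τY + i2 ∧ Q L L' then LW ΛX L * LW ΛY L' else 0) := by
  have e : ∑ i1 ∈ Finset.range (i0 + 1), ∑ i2 ∈ Finset.range (i0 + 1), ∑' L, ∑' L',
        (if HT hX L = τX + i1 ∧ HT hY L' = τY + i2 ∧ Q L L' then LW ΛX L * LW ΛY L' else 0)
      = ∑' L, ∑' L', ∑ i1 ∈ Finset.range (i0 + 1), ∑ i2 ∈ Finset.range (i0 + 1),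
        (if HT hX L = τX + i1 ∧ HT hY L' = τY + i2 ∧ Q L L' then LW ΛX L * LW ΛY L' else 0) := by
    exact swap4 _ _ _
  rw [e, FS]
  refine ENNReal.tsum_le_tsum fun L => ?_
  by_cases hL : fp hX τX L ∧ HT hX L ≤ τX + i0
  swap
  · rw [if_neg hL]; exact zero_le
  rw [if_pos hL, FS, ← ENNReal.tsum_mul_left]
  refine ENNReal.tsum_le_tsum fun L' => ?_
  by_cases hL' : fp hY τY L' ∧ HT hY L' ≤ τY + i0
  swap
  · rw [if_neg hL', mul_zero]; exact zero_le
  rw [if_pos hL']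
  by_cases hQ : Q L L'
  swap
  · rw [if_neg hQ, mul_zero, mul_zero]; exact zero_le
  rw [if_pos hQ, mul_one]
  have a1 := le_HT_of_fp hX hL.1
  have a2 := le_HT_of_fp hY hL'.1
  calc LW ΛX L * LW ΛY L' = (if HT hX L = τX + (HT hX L - τX) ∧ HT hY L' = τY + (HT hY L' - τY)
        ∧ Q L L' then LW ΛX L * LW ΛY L' else 0) := by
        rw [if_pos ⟨by omega, by omega, hQ⟩]
    _ ≤ ∑ i2 ∈ Finset.range (i0 + 1), (if HT hX L = τX + (HT hX L - τX) ∧ HT hY L' = τY + i2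
        ∧ Q L L' then LW ΛX L * LW ΛY L' else 0) :=
        Finset.single_le_sum (f := fun i2 => (if HT hX L = τX + (HT hX L - τX) ∧
          HT hY L' = τY + i2 ∧ Q L L' then LW ΛX L * LW ΛY L' else 0)) (fun _ _ => zero_le)
          (Finset.mem_range.2 (by omega))
    _ ≤ _ := Finset.single_le_sum (f := fun i1 => ∑ i2 ∈ Finset.range (i0 + 1),
          (if HT hX L = τX + i1 ∧ HT hY L' = τY + i2 ∧ Q L L' then LW ΛX L * LW ΛY L' else 0))
          (fun _ _ => zero_le) (Finset.mem_range.2 (by omega))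

open Classical in
/-- the local term, `X` local -/
theorem loc_X (hX1 : ∀ b, 1 ≤ hX b) (hY1 : ∀ b, 1 ≤ hY b) (hΛX : ∑' b, ΛX b ≤ 1)
    (hΛY : ∑' b, ΛY b ≤ 1) (i0 aX τX aY τY lo hi : ℕ) (w : G) (E : ℕ → Finset G)
    (M β B2 : ℝ≥0∞) (hD : DD ΛX hX zX aX i0 M β)
    (hB2 : ∀ i i' i1 i2, i ≤ i0 → i' ≤ i0 → i1 ≤ i0 → i2 ≤ i0 → ∀ μ : G → ℝ≥0∞,
      ∑' x, μ x ≤ 1 → (∀ x, μ x ≤ M) →
      ∑' x, μ x * ∑' L, ∑' L', (if HT hX L = τX + i1 ∧ HT hY L' = τY + i2 ∧ Dp zX L ∈ E i1 ∧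
        Ev hX hY zX zY sX sY lo hi x (aX + i) (aY + i') L L' then LW ΛX L * LW ΛY L' else 0) ≤ B2) :
    FS ΛX hX aX i0 (fun A1 => FS ΛX hX τX i0 (fun P1 =>
      FS ΛY hY aY i0 (fun A2 => FS ΛY hY τY i0 (fun P2 =>
        if Dp zX P1 ∈ E (HT hX P1 - τX) ∧ Ev hX hY zX zY sX sY lo hi
          (w + Dp zY A2 - Dp zX A1) (HT hX A1) (HT hY A2) P1 P2 then 1 else 0))))
      ≤ (i0 + 1 : ℕ) * ((i0 + 1 : ℕ) * ((i0 + 1 : ℕ) * B2)) + β := by
  obtain ⟨g, hgM, hg1, hg⟩ := hD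
  set F : G → ℕ → ℝ≥0∞ := fun z α => FS ΛX hX τX i0 (fun P1 =>
      FS ΛY hY aY i0 (fun A2 => FS ΛY hY τY i0 (fun P2 =>
        if Dp zX P1 ∈ E (HT hX P1 - τX) ∧ Ev hX hY zX zY sX sY lo hi
          (w + Dp zY A2 - z) α (HT hY A2) P1 P2 then 1 else 0))) with hF
  have hF1 : ∀ x α, F x α ≤ 1 := fun x α =>
    FS_le ΛX hX hX1 hΛX _ _ fun _ _ _ => FS_le ΛY hY hY1 hΛY _ _ fun _ _ _ =>
      FS_le ΛY hY hY1 hΛY _ _ fun _ _ _ => by split_ifs <;> simp
  refine (hg F hF1).trans (add_le_add ?_ le_rfl)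
  have hI : ∀ i ∈ Finset.range (i0 + 1), ∑' x, g x (aX + i) * F x (aX + i)
      ≤ (i0 + 1 : ℕ) * ((i0 + 1 : ℕ) * B2) := by
    intro i hmi
    have e1 : ∀ x, g x (aX + i) * F x (aX + i) = FS ΛY hY aY i0 (fun A2 => g x (aX + i) *
        FS ΛX hX τX i0 (fun P1 => FS ΛY hY τY i0 (fun P2 =>
        if Dp zX P1 ∈ E (HT hX P1 - τX) ∧ Ev hX hY zX zY sX sY lo hi
          (w + Dp zY A2 - x) (aX + i) (HT hY A2) P1 P2 then 1 else 0))) := by
      intro x
      rw [FS_mul, hF]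
      simp only
      rw [FS_comm]
    rw [tsum_congr e1, ← FS_tsum]
    refine FS_le ΛY hY hY1 hΛY _ _ fun A2 hA2 hA2' => ?_
    have a2 := le_HT_of_fp hY hA2
    rw [← (Equiv.subLeft (w + Dp zY A2)).tsum_eq]
    simp only [Equiv.subLeft_apply, sub_sub_cancel]
    set μ : G → ℝ≥0∞ := fun x => g (w + Dp zY A2 - x) (aX + i) with hμ
    have hμ1 : ∑' x, μ x ≤ 1 := by
      have := (Equiv.subLeft (w + Dp zY A2)).tsum_eq (fun x => g x (aX + i))
      simp only [Equiv.subLeft_apply] at this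
      rw [hμ, this]; exact hg1 _
    have h2 : ∀ x, g (w + Dp zY A2 - x) (aX + i) * FS ΛX hX τX i0 (fun P1 =>
        FS ΛY hY τY i0 (fun P2 => if Dp zX P1 ∈ E (HT hX P1 - τX) ∧ Ev hX hY zX zY sX sY lo hi
          x (aX + i) (HT hY A2) P1 P2 then 1 else 0))
        ≤ ∑ i1 ∈ Finset.range (i0 + 1), ∑ i2 ∈ Finset.range (i0 + 1), μ x * ∑' L, ∑' L',
        (if HT hX L = τX + i1 ∧ HT hY L' = τY + i2 ∧ Dp zX L ∈ E i1 ∧
        Ev hX hY zX zY sX sY lo hi x (aX + i) (aY + (HT hY A2 - aY)) L L' then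
          LW ΛX L * LW ΛY L' else 0) := by
      intro x
      simp_rw [← Finset.mul_sum]
      refine mul_le_mul_right ((two_le ΛX ΛY hX hY τX τY i0 _).trans ?_) _
      refine Finset.sum_le_sum fun i1 _ => Finset.sum_le_sum fun i2 _ =>
        ENNReal.tsum_le_tsum fun L => ENNReal.tsum_le_tsum fun L' => ?_
      by_cases h : HT hX L = τX + i1 ∧ HT hY L' = τY + i2 ∧
        Dp zX L ∈ E (HT hX L - τX) ∧ Ev hX hY zX zY sX sY lo hi x (aX + i) (HT hY A2) L L'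
      · rw [if_pos h, if_pos]
        refine ⟨h.1, h.2.1, ?_, ?_⟩
        · have := h.2.2.1
          rwa [h.1, Nat.add_sub_cancel_left] at this
        · rw [Nat.add_sub_cancel' a2]; exact h.2.2.2
      · rw [if_neg h]; exact zero_le
    refine (ENNReal.tsum_le_tsum h2).trans ?_
    rw [Summable.tsum_finsetSum (fun _ _ => ENNReal.summable)]
    calc ∑ i1 ∈ Finset.range (i0 + 1), ∑' x, ∑ i2 ∈ Finset.range (i0 + 1), μ x * ∑' L, ∑' L',
        (if HT hX L = τX + i1 ∧ HT hY L' = τY + i2 ∧ Dp zX L ∈ E i1 ∧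
        Ev hX hY zX zY sX sY lo hi x (aX + i) (aY + (HT hY A2 - aY)) L L' then
          LW ΛX L * LW ΛY L' else 0)
        ≤ ∑ i1 ∈ Finset.range (i0 + 1), (i0 + 1 : ℕ) * B2 := by
          refine Finset.sum_le_sum fun i1 hi1 => ?_
          rw [Summable.tsum_finsetSum (fun _ _ => ENNReal.summable)]
          refine (Finset.sum_le_card_nsmul _ _ B2 fun i2 hi2 => ?_).trans ?_
          · have q1 := Finset.mem_range.1 hmi
            have q2 := Finset.mem_range.1 hi1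
            have q3 := Finset.mem_range.1 hi2
            exact hB2 i (HT hY A2 - aY) i1 i2 (by omega) (by omega) (by omega) (by omega) μ hμ1
              (fun x => hgM _ _)
          · rw [Finset.card_range, nsmul_eq_mul]
      _ = _ := by rw [Finset.sum_const, Finset.card_range, nsmul_eq_mul]
  refine (Finset.sum_le_card_nsmul _ _ _ hI).trans ?_
  rw [Finset.card_range, nsmul_eq_mul]

end pair

end Crest.Agent.R154.Asm937
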