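import Crest.Agent.R154.AsmB_942

/-! Row 154, ROAD 801 (helper942): assembly, part C: traces, two walkers, grouping. -/

set_option autoImplicit false

namespace Crest.Agent.R154.Asm942

open scoped ENNReal
open Crest.Agent.R154.B5A Crest.Agent.R154.FP178

section trace

variable {B G : Type*} [AddCommGroup G]

/-- trace of a list of blocks -/
def TT (s : B → Set (G × ℕ)) (h : B → ℕ) (z : B → G) : List B → G → ℕ → Set (G × ℕ)
  | [], _, _ => ∅
  | b :: L, x, a => {p | ∃ q ∈ s b, p = (x + q.1, a + q.2)} ∪ TT s h z L (x + z b) (a + h b)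

variable (s : B → Set (G × ℕ)) (h : B → ℕ) (z : B → G)

lemma TT_append (L1 L2 : List B) (x : G) (a : ℕ) :
    TT s h z (L1 ++ L2) x a = TT s h z L1 x a ∪ TT s h z L2 (x + Dp z L1) (a + HT h L1) := by
  induction L1 generalizing x a with
  | nil => simp [TT, Dp, HT]
  | cons b L ih =>
    simp only [List.cons_append, TT]
    rw [ih, Set.union_assoc]
    have e1 : x + z b + Dp z L = x + Dp z (b :: L) := by simp [Dp, add_assoc]
    have e2 : a + h b + HT h L = a + HT h (b :: L) := by rw [HT_cons, add_assoc]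
    rw [e1, e2]

lemma TT_depth (hs : ∀ b, ∀ q ∈ s b, 1 ≤ q.2 ∧ q.2 ≤ h b) (L : List B) (x : G) (a : ℕ) (y : G)
    (k : ℕ) (hk : (y, k) ∈ TT s h z L x a) : a + 1 ≤ k ∧ k ≤ a + HT h L := by
  induction L generalizing x a with
  | nil => exact hk.elim
  | cons b L ih =>
    rw [HT_cons]
    rcases hk with ⟨q, hq, e⟩ | hk
    · have := hs b q hq
      simp only [Prod.mk.injEq] at e
      omega
    · have := ih _ _ hk
      omega

lemma TT_shift (L : List B) (x v : G) (a : ℕ) (y : G) (k : ℕ) :
    (y + v, k) ∈ TT s h z L (x + v) a ↔ (y, k) ∈ TT s h z L x a := by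
  induction L generalizing x a with
  | nil => exact Iff.rfl
  | cons b L ih =>
    simp only [TT, Set.mem_union]
    rw [show x + v + z b = x + z b + v by abel, ih]
    refine or_congr ?_ Iff.rfl
    constructor
    · rintro ⟨q, hq, e⟩
      simp only [Prod.mk.injEq] at e
      refine ⟨q, hq, ?_⟩
      simp only [Prod.mk.injEq]
      exact ⟨by
        have := e.1
        have h2 : y + v = (x + q.1) + v := by rw [this]; abel
        exact add_right_cancel h2, e.2⟩
    · rintro ⟨q, hq, e⟩
      simp only [Prod.mk.injEq] at e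
      refine ⟨q, hq, ?_⟩
      simp only [Prod.mk.injEq]
      exact ⟨by rw [e.1]; abel, e.2⟩

lemma TT_shift' (L : List B) (x v : G) (a : ℕ) (y : G) (k : ℕ) :
    (y, k) ∈ TT s h z L (x + v) a ↔ (y - v, k) ∈ TT s h z L x a := by
  have := TT_shift s h z L x v a (y - v) k
  rw [sub_add_cancel] at this
  exact this

end trace

section one

variable {B : Type*} (Λ : B → ℝ≥0∞) (ht : B → ℕ) {G : Type*} [AddCommGroup G] (zz : B → G)

open Classical in
/-- grouping the first passages by overshoot and displacement -/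
lemma group (A i0 : ℕ) (g : ℕ → G → ℝ≥0∞) :
    ∑' L, (if fp ht A L ∧ HT ht L ≤ A + i0 then LW Λ L * g (HT ht L) (Dp zz L) else 0)
      ≤ ∑ j ∈ Finset.range (i0 + 1), ∑' z, F Λ ht zz A j z * g (A + j) z := by
  calc ∑' L, (if fp ht A L ∧ HT ht L ≤ A + i0 then LW Λ L * g (HT ht L) (Dp zz L) else 0)
      ≤ ∑' L, ∑ j ∈ Finset.range (i0 + 1), ∑' z, (if fp ht A L ∧ HT ht L = A + j ∧
          Dp zz L = z then LW Λ L else 0) * g (A + j) z := by
        refine ENNReal.tsum_le_tsum fun L => ?_
        by_cases h : fp ht A L ∧ HT ht L ≤ A + i0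
        · rw [if_pos h]
          have hA := le_HT_of_fp ht h.1
          have hmem : HT ht L - A ∈ Finset.range (i0 + 1) := by
            rw [Finset.mem_range]; omega
          refine le_trans ?_ (Finset.single_le_sum (f := fun j => ∑' z, (if fp ht A L ∧
            HT ht L = A + j ∧ Dp zz L = z then LW Λ L else 0) * g (A + j) z)
            (fun _ _ => zero_le) hmem)
          refine le_trans ?_ (ENNReal.le_tsum (Dp zz L))
          rw [if_pos ⟨h.1, by omega, rfl⟩, show A + (HT ht L - A) = HT ht L by omega]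
        · rw [if_neg h]; exact zero_le
    _ = _ := by
        rw [Summable.tsum_finsetSum (fun _ _ => ENNReal.summable)]
        refine Finset.sum_congr rfl fun j _ => ?_
        rw [ENNReal.tsum_comm]
        refine tsum_congr fun z => ?_
        rw [ENNReal.tsum_mul_right]
        rfl

open Classical in
/-- mass of the non-local first passages -/
lemma nonloc (T : ℕ) (th : ℝ≥0∞) :
    ∑' L, (if fp ht T L ∧ ¬ (th ≤ F Λ ht zz T (HT ht L - T) (Dp zz L)) then LW Λ L else 0)
      ≤ ∑' x : ℕ × G, (if F Λ ht zz T x.1 x.2 < th then F Λ ht zz T x.1 x.2 else 0) := by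
  calc ∑' L, (if fp ht T L ∧ ¬ (th ≤ F Λ ht zz T (HT ht L - T) (Dp zz L)) then LW Λ L else 0)
      ≤ ∑' L, ∑' x : ℕ × G, (if F Λ ht zz T x.1 x.2 < th then
          (if fp ht T L ∧ HT ht L = T + x.1 ∧ Dp zz L = x.2 then LW Λ L else 0) else 0) := by
        refine ENNReal.tsum_le_tsum fun L => ?_
        by_cases h : fp ht T L ∧ ¬ (th ≤ F Λ ht zz T (HT ht L - T) (Dp zz L))
        · rw [if_pos h]
          have hA := le_HT_of_fp ht h.1
          refine le_trans ?_ (ENNReal.le_tsum ((HT ht L - T, Dp zz L) : ℕ × G))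
          dsimp only
          rw [if_pos (not_le.1 h.2), if_pos ⟨h.1, by omega, rfl⟩]
        · rw [if_neg h]; exact zero_le
    _ = _ := by
        rw [ENNReal.tsum_comm]
        refine tsum_congr fun x => ?_
        by_cases h : F Λ ht zz T x.1 x.2 < th
        · simp only [if_pos h]
          rfl
        · simp [if_neg h]

end one

section two

variable {BX BY : Type*} (ΛX : BX → ℝ≥0∞) (hX : BX → ℕ) (ΛY : BY → ℝ≥0∞) (hY : BY → ℕ)

open Classical in
/-- two-walker decomposition -/
theorem dec2 (h1X : ∀ b, 1 ≤ hX b) (h1Y : ∀ b, 1 ≤ hY b) (hΛX : ∑' b, ΛX b ≤ 1)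
    (hΛY : ∑' b, ΛY b ≤ 1) (hUX : ∀ n, U ΛX hX n ≤ 1) (hUY : ∀ n, U ΛY hY n ≤ 1)
    (A T A' T' i0 n : ℕ) (hn : A + i0 + T ≤ n) (hn' : A' + i0 + T' ≤ n)
    (P : List BX → List BY → Prop) (R : List BX → List BY → List BX → List BY → Prop)
    (hPR : ∀ L1 L2 L3 M1 M2 M3, fp hX A L1 → fp hX T L2 → HT hX L1 ≤ A + i0 →
      HT hX L2 ≤ T + i0 → fp hY A' M1 → fp hY T' M2 → HT hY M1 ≤ A' + i0 → HT hY M2 ≤ T' + i0 →
      P (L1 ++ (L2 ++ L3)) (M1 ++ (M2 ++ M3)) → R L1 M1 L2 M2) :
    ∑' LX, ∑' LY, (if HT hX LX = n ∧ HT hY LY = n ∧ P LX LY then LW ΛX LX * LW ΛY LY else 0)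
      ≤ ∑' L1, (if fp hX A L1 ∧ HT hX L1 ≤ A + i0 then LW ΛX L1 *
          ∑' M1, (if fp hY A' M1 ∧ HT hY M1 ≤ A' + i0 then LW ΛY M1 *
            ∑' L2, (if fp hX T L2 ∧ HT hX L2 ≤ T + i0 then LW ΛX L2 *
              ∑' M2, (if fp hY T' M2 ∧ HT hY M2 ≤ T' + i0 then LW ΛY M2 *
                (if R L1 M1 L2 M2 then 1 else 0) else 0) else 0) else 0) else 0)
        + (2 * ∑' k, tail ΛY hY (i0 + k) + 2 * ∑' k, tail ΛX hX (i0 + k)) := by
  set τX : ℝ≥0∞ := ∑' k, tail ΛX hX (i0 + k)
  set τY : ℝ≥0∞ := ∑' k, tail ΛY hY (i0 + k)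
  set φ : List BX → ℝ≥0∞ := fun LX => ∑' LY, (if HT hY LY = n then LW ΛY LY *
    (if P LX LY then 1 else 0) else 0) with hφ
  set ψ : List BX → List BX → ℝ≥0∞ := fun L1 L2 =>
    ∑' M1, (if fp hY A' M1 ∧ HT hY M1 ≤ A' + i0 then LW ΛY M1 *
      ∑' M2, (if fp hY T' M2 ∧ HT hY M2 ≤ T' + i0 then LW ΛY M2 *
        (if R L1 M1 L2 M2 then 1 else 0) else 0) else 0) + 2 * τY with hψ
  have e0 : ∑' LX, ∑' LY, (if HT hX LX = n ∧ HT hY LY = n ∧ P LX LY then
      LW ΛX LX * LW ΛY LY else 0) = ∑' LX, (if HT hX LX = n then LW ΛX LX * φ LX else 0) := by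
    refine tsum_congr fun LX => ?_
    by_cases h : HT hX LX = n
    · rw [if_pos h, hφ]
      simp only
      rw [← ENNReal.tsum_mul_left]
      refine tsum_congr fun LY => ?_
      by_cases h2 : HT hY LY = n <;> by_cases h3 : P LX LY <;> simp [h, h2, h3]
    · simp [h]
  rw [e0]
  have hφ1 : ∀ L, φ L ≤ 1 := by
    intro L
    refine le_trans ?_ (hUY n)
    rw [U]
    refine ENNReal.tsum_le_tsum fun LY => ?_
    by_cases h2 : HT hY LY = n <;> by_cases h3 : P L LY <;> simp [h2, h3]
  refine (dec ΛX hX h1X hΛX hUX A T i0 n hn φ hφ1 ψ ?_).trans ?_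
  · intro L1 L2 L3 g1 g2 g3 g4 _
    exact dec ΛY hY h1Y hΛY hUY A' T' i0 n hn' (fun LY =>
      if P (L1 ++ (L2 ++ L3)) LY then 1 else 0) (fun LY => by
        split_ifs
        · exact le_rfl
        · exact zero_le) (fun M1 M2 => if R L1 M1 L2 M2 then 1 else 0) (by
        intro M1 M2 M3 k1 k2 k3 k4 _
        by_cases hp : P (L1 ++ (L2 ++ L3)) (M1 ++ (M2 ++ M3))
        · simp only [if_pos hp]
          rw [if_pos (hPR L1 L2 L3 M1 M2 M3 g1 g2 g3 g4 k1 k2 k3 k4 hp)]
        · simp only [if_neg hp]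
          exact zero_le)
  · rw [← add_assoc]
    gcongr
    calc ∑' L1, (if fp hX A L1 ∧ HT hX L1 ≤ A + i0 then LW ΛX L1 *
          ∑' L2, (if fp hX T L2 ∧ HT hX L2 ≤ T + i0 then LW ΛX L2 * ψ L1 L2 else 0) else 0)
        ≤ ∑' L1, ((if fp hX A L1 ∧ HT hX L1 ≤ A + i0 then LW ΛX L1 *
          ∑' M1, (if fp hY A' M1 ∧ HT hY M1 ≤ A' + i0 then LW ΛY M1 *
            ∑' L2, (if fp hX T L2 ∧ HT hX L2 ≤ T + i0 then LW ΛX L2 *
              ∑' M2, (if fp hY T' M2 ∧ HT hY M2 ≤ T' + i0 then LW ΛY M2 *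
                (if R L1 M1 L2 M2 then 1 else 0) else 0) else 0) else 0) else 0)
          + (if fp hX A L1 then LW ΛX L1 else 0) * (2 * τY)) := by
          refine ENNReal.tsum_le_tsum fun L1 => ?_
          by_cases h : fp hX A L1 ∧ HT hX L1 ≤ A + i0
          · rw [if_pos h, if_pos h, if_pos h.1, ← mul_add]
            refine mul_le_mul_right ?_ _
            calc ∑' L2, (if fp hX T L2 ∧ HT hX L2 ≤ T + i0 then LW ΛX L2 * ψ L1 L2 else 0)
                ≤ ∑' L2, ((if fp hX T L2 ∧ HT hX L2 ≤ T + i0 then LW ΛX L2 *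
                  (∑' M1, (if fp hY A' M1 ∧ HT hY M1 ≤ A' + i0 then LW ΛY M1 *
                    ∑' M2, (if fp hY T' M2 ∧ HT hY M2 ≤ T' + i0 then LW ΛY M2 *
                    (if R L1 M1 L2 M2 then 1 else 0) else 0) else 0)) else 0)
                  + (if fp hX T L2 then LW ΛX L2 else 0) * (2 * τY)) := by
                  refine ENNReal.tsum_le_tsum fun L2 => ?_
                  by_cases h2 : fp hX T L2 ∧ HT hX L2 ≤ T + i0
                  · rw [if_pos h2, if_pos h2, if_pos h2.1, ← mul_add]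
                  · rw [if_neg h2]; exact zero_le
              _ = ∑' L2, (if fp hX T L2 ∧ HT hX L2 ≤ T + i0 then LW ΛX L2 *
                  (∑' M1, (if fp hY A' M1 ∧ HT hY M1 ≤ A' + i0 then LW ΛY M1 *
                    ∑' M2, (if fp hY T' M2 ∧ HT hY M2 ≤ T' + i0 then LW ΛY M2 *
                    (if R L1 M1 L2 M2 then 1 else 0) else 0) else 0)) else 0)
                  + (∑' L2, (if fp hX T L2 then LW ΛX L2 else 0)) * (2 * τY) := by
                  rw [ENNReal.tsum_add, ENNReal.tsum_mul_right]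
              _ ≤ ∑' M1, (if fp hY A' M1 ∧ HT hY M1 ≤ A' + i0 then LW ΛY M1 *
                  ∑' L2, (if fp hX T L2 ∧ HT hX L2 ≤ T + i0 then LW ΛX L2 *
                    ∑' M2, (if fp hY T' M2 ∧ HT hY M2 ≤ T' + i0 then LW ΛY M2 *
                    (if R L1 M1 L2 M2 then 1 else 0) else 0) else 0) else 0) + 1 * (2 * τY) := by
                  refine add_le_add (le_of_eq ?_) (mul_le_mul_left (sum_FP ΛX hX h1X hΛX T) _)
                  calc _ = ∑' L2, ∑' M1, (if (fp hX T L2 ∧ HT hX L2 ≤ T + i0) ∧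
                        (fp hY A' M1 ∧ HT hY M1 ≤ A' + i0) then LW ΛX L2 * (LW ΛY M1 *
                        ∑' M2, (if fp hY T' M2 ∧ HT hY M2 ≤ T' + i0 then LW ΛY M2 *
                          (if R L1 M1 L2 M2 then 1 else 0) else 0)) else 0) := by
                        refine tsum_congr fun L2 => ?_
                        by_cases h2 : fp hX T L2 ∧ HT hX L2 ≤ T + i0
                        · rw [if_pos h2, ← ENNReal.tsum_mul_left]
                          refine tsum_congr fun M1 => ?_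
                          by_cases h3 : fp hY A' M1 ∧ HT hY M1 ≤ A' + i0
                          · rw [if_pos h3, if_pos ⟨h2, h3⟩]
                          · rw [if_neg h3, if_neg (fun hh => h3 hh.2), mul_zero]
                        · rw [if_neg h2]
                          rw [eq_comm, ENNReal.tsum_eq_zero]
                          intro M1
                          rw [if_neg (fun hh => h2 hh.1)]
                    _ = _ := by
                        rw [ENNReal.tsum_comm]
                        refine tsum_congr fun M1 => ?_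
                        by_cases h3 : fp hY A' M1 ∧ HT hY M1 ≤ A' + i0
                        · rw [if_pos h3, ← ENNReal.tsum_mul_left]
                          refine tsum_congr fun L2 => ?_
                          by_cases h2 : fp hX T L2 ∧ HT hX L2 ≤ T + i0
                          · rw [if_pos h2, if_pos ⟨h2, h3⟩]; ring
                          · rw [if_neg h2, if_neg (fun hh => h2 hh.1), mul_zero]
                        · rw [if_neg h3]
                          rw [ENNReal.tsum_eq_zero]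
                          intro L2
                          rw [if_neg (fun hh => h3 hh.2)]
              _ = _ := by rw [one_mul]
          · rw [if_neg h]; exact zero_le
      _ = _ + (∑' L1, (if fp hX A L1 then LW ΛX L1 else 0)) * (2 * τY) := by
          rw [ENNReal.tsum_add, ENNReal.tsum_mul_right]
      _ ≤ _ + 1 * (2 * τY) := by
          gcongr
          exact sum_FP ΛX hX h1X hΛX A
      _ = _ := by rw [one_mul]

end two

end Crest.Agent.R154.Asm942
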