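import Crest.Agent.R154.AsmB_97

/-! Row 154 (helper97), ROAD 801: one window. -/

set_option autoImplicit false

namespace Crest.Agent.R154.Asm97

open scoped ENNReal
open Crest.Agent.R154.B5A Crest.Agent.R154.FP178

variable {BX BY G : Type*} [AddCommGroup G]
  (ΛX : BX → ℝ≥0∞) (hX : BX → ℕ) (zX : BX → G) (TX : List BX → G → ℕ → Set (G × ℕ))
  (ΛY : BY → ℝ≥0∞) (hY : BY → ℕ) (zY : BY → G) (TY : List BY → G → ℕ → Set (G × ℕ))

/-- grouping by the relative position: a weight `ψ` on the tops, pieces with law `V`. -/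
lemma group (a : ℕ) (w : G) (ψ : List BX → List BY → ℝ≥0∞) (V : G → ℝ≥0∞) :
    S ΛX hX a (fun A => S ΛY hY a (fun A' => ψ A A' * V (w + Dp zY A' - Dp zX A)))
      = by classical exact ∑' x, S ΛX hX a (fun A => S ΛY hY a (fun A' =>
          ψ A A' * (if w + Dp zY A' - Dp zX A = x then 1 else 0))) * V x := by
  classical
  have e : ∀ A : List BX, ∀ A' : List BY, ψ A A' * V (w + Dp zY A' - Dp zX A)
      = ∑' x, V x * (ψ A A' * (if w + Dp zY A' - Dp zX A = x then 1 else 0)) := by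
    intro A A'
    rw [tsum_eq_single (w + Dp zY A' - Dp zX A)]
    · rw [if_pos rfl, mul_one, mul_comm]
    · intro x hx; rw [if_neg hx.symm]; simp
  simp_rw [e, S_tsum, S_const_mul]
  refine tsum_congr fun x => ?_
  rw [mul_comm]

open Classical in
/-- a fixed quadruple of heights -/
lemma quad (hXX : Tr hX zX TX) (hYY : Tr hY zY TY) (a τ α h α' h' : ℕ) (w : G)
    (ψ : List BX → List BY → ℝ≥0∞) (Q : List BX → List BY → Prop) (K : ℕ → Prop) :
    S4 ΛX hX ΛY hY a τ (fun A P A' P' => ψ A A' *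
      (if HT hX P = h ∧ HT hY P' = h' ∧ Q P P' ∧
        (∃ z k, (z, k) ∈ TX P (Dp zX A) α ∧ (z, k) ∈ TY P' (w + Dp zY A') α') ∧
        (∀ z k, (z, k) ∈ TX P (Dp zX A) α → (z, k) ∈ TY P' (w + Dp zY A') α' → K k)
        then 1 else 0))
      ≤ ∑' x, S ΛX hX a (fun A => S ΛY hY a (fun A' =>
          ψ A A' * (if w + Dp zY A' - Dp zX A = x then 1 else 0))) *
        ∑' L, ∑' L', (if HT hX L = h ∧ HT hY L' = h' ∧ Q L L' ∧
      (∃ z k, (z, k) ∈ TX L 0 α ∧ (z, k) ∈ TY L' x α') ∧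
      (∀ z k, (z, k) ∈ TX L 0 α → (z, k) ∈ TY L' x α' → K k) then LW ΛX L * LW ΛY L' else 0) := by
  obtain ⟨V, hV⟩ : ∃ V : G → ℝ≥0∞, V = fun x => ∑' L, ∑' L', (if HT hX L = h ∧ HT hY L' = h' ∧ Q L L' ∧
      (∃ z k, (z, k) ∈ TX L 0 α ∧ (z, k) ∈ TY L' x α') ∧
      (∀ z k, (z, k) ∈ TX L 0 α → (z, k) ∈ TY L' x α' → K k) then LW ΛX L * LW ΛY L' else 0) :=
    ⟨_, rfl⟩
  have hg := group ΛX hX zX ΛY hY zY a w ψ V
  rw [hV] at hg
  rw [← hg]
  unfold S4
  refine S_mono _ _ _ fun A hA => ?_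
  rw [S_comm]
  refine S_mono _ _ _ fun A' hA' => ?_
  -- now the two pieces
  have e : ∀ P : List BX, S ΛY hY τ (fun P' => ψ A A' *
      (if HT hX P = h ∧ HT hY P' = h' ∧ Q P P' ∧
        (∃ z k, (z, k) ∈ TX P (Dp zX A) α ∧ (z, k) ∈ TY P' (w + Dp zY A') α') ∧
        (∀ z k, (z, k) ∈ TX P (Dp zX A) α → (z, k) ∈ TY P' (w + Dp zY A') α' → K k)
        then 1 else 0)) = ψ A A' * S ΛY hY τ (fun P' =>
      (if HT hX P = h ∧ HT hY P' = h' ∧ Q P P' ∧
        (∃ z k, (z, k) ∈ TX P (Dp zX A) α ∧ (z, k) ∈ TY P' (w + Dp zY A') α') ∧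
        (∀ z k, (z, k) ∈ TX P (Dp zX A) α → (z, k) ∈ TY P' (w + Dp zY A') α' → K k)
        then 1 else 0)) := fun P => S_const_mul _ _ _ _ _
  simp_rw [e]
  rw [S_const_mul]
  refine mul_le_mul_right ?_ _
  rw [S]
  refine ENNReal.tsum_le_tsum fun P => ?_
  by_cases hP : fp hX τ P
  · rw [if_pos hP, S, ← ENNReal.tsum_mul_left]
    refine ENNReal.tsum_le_tsum fun P' => ?_
    by_cases hP' : fp hY τ P'
    · rw [if_pos hP']
      have hX' : ∀ z k, (z, k) ∈ TX P (Dp zX A) α ↔ (z - Dp zX A, k) ∈ TX P 0 α := by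
        intro z k
        have := hXX.tra P 0 (Dp zX A) α z k
        rwa [zero_add] at this
      have hY' : ∀ z k, (z, k) ∈ TY P' (w + Dp zY A') α'
          ↔ (z - Dp zX A, k) ∈ TY P' (w + Dp zY A' - Dp zX A) α' := by
        intro z k
        have := hYY.tra P' (w + Dp zY A' - Dp zX A) (Dp zX A) α' z k
        rwa [sub_add_cancel] at this
      by_cases hc : HT hX P = h ∧ HT hY P' = h' ∧ Q P P' ∧
        (∃ z k, (z, k) ∈ TX P (Dp zX A) α ∧ (z, k) ∈ TY P' (w + Dp zY A') α') ∧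
        (∀ z k, (z, k) ∈ TX P (Dp zX A) α → (z, k) ∈ TY P' (w + Dp zY A') α' → K k)
      · rw [if_pos hc, mul_one]
        obtain ⟨h1, h2, h3, ⟨z, k, h4, h5⟩, h6⟩ := hc
        rw [if_pos]
        refine ⟨h1, h2, h3, ⟨_, k, (hX' z k).1 h4, (hY' z k).1 h5⟩, ?_⟩
        intro z k hz hz'
        refine h6 (z + Dp zX A) k ?_ ?_
        · rw [hX', add_sub_cancel_right]; exact hz
        · rw [hY', add_sub_cancel_right]; exact hz'
      · rw [if_neg hc, mul_zero, mul_zero]; exact zero_le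
    · rw [if_neg hP', mul_zero]; exact zero_le
  · rw [if_neg hP]; exact zero_le

end Crest.Agent.R154.Asm97
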