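import Crest.Agent.R154.AsmB_976

/-! Row 154, road 801 (helper976): one window. -/

set_option autoImplicit false

namespace Crest.Agent.R154.Asm976

open B5A
open scoped ENNReal
open Classical

variable {BX BY G : Type*} [AddCommGroup G]

/-- input (2), 540's letters: the `X` piece is local -/
def H2 (ΛX : BX → ℝ≥0∞) (hX : BX → ℕ) (zX : BX → G) (sX : BX → Set (G × ℕ))
    (ΛY : BY → ℝ≥0∞) (hY : BY → ℕ) (zY : BY → G) (sY : BY → Set (G × ℕ))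
    (r0 s : ℕ) (C us : ℝ≥0∞) : Prop :=
  ∀ (h h' a a' lo : ℕ) (E : Finset G) (μ : G → ℝ≥0∞) (M lam : ℝ≥0∞), ∑' x, μ x ≤ 1 →
    (∀ x, μ x ≤ M) → M ≠ ⊤ → lam ≠ 0 → lam ≠ ⊤ → a < a' → a' ≤ a + r0 → a + h ≤ a' + h' →
    a' + h' ≤ a + h + r0 → a' + s ≤ lo →
    ∑' x, μ x * ∑' L, ∑' L', (if HT hX L = h ∧ Dp zX L ∈ E ∧ HT hY L' = h' ∧
      (∃ z k, (z, k) ∈ TT hX zX sX L 0 a ∧ (z, k) ∈ TT hY zY sY L' x a') ∧
      (∀ z k, (z, k) ∈ TT hX zX sX L 0 a → (z, k) ∈ TT hY zY sY L' x a' → lo ≤ k)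
      then LW ΛX L * LW ΛY L' else 0) ≤ C * (lam + M * E.card * us / lam + us)

/-- input (3), 540's letters: the `Y` piece is local -/
def H3 (ΛX : BX → ℝ≥0∞) (hX : BX → ℕ) (zX : BX → G) (sX : BX → Set (G × ℕ))
    (ΛY : BY → ℝ≥0∞) (hY : BY → ℕ) (zY : BY → G) (sY : BY → Set (G × ℕ))
    (r0 s : ℕ) (C us : ℝ≥0∞) : Prop :=
  ∀ (h h' a a' hi : ℕ) (E : Finset G) (μ : G → ℝ≥0∞) (M lam : ℝ≥0∞), ∑' x, μ x ≤ 1 →
    (∀ x, μ x ≤ M) → M ≠ ⊤ → lam ≠ 0 → lam ≠ ⊤ → a < a' → a' ≤ a + r0 → a + h ≤ a' + h' →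
    a' + h' ≤ a + h + r0 → hi + s ≤ a + h →
    ∑' x, μ x * ∑' L, ∑' L', (if HT hX L = h ∧ Dp zY L' ∈ E ∧ HT hY L' = h' ∧
      (∃ z k, (z, k) ∈ TT hX zX sX L 0 a ∧ (z, k) ∈ TT hY zY sY L' x a') ∧
      (∀ z k, (z, k) ∈ TT hX zX sX L 0 a → (z, k) ∈ TT hY zY sY L' x a' → k ≤ hi)
      then LW ΛX L * LW ΛY L' else 0) ≤ C * (lam + M * E.card * us / lam + us)

variable (ΛX : BX → ℝ≥0∞) (hX : BX → ℕ) (zX : BX → G) (sX : BX → Set (G × ℕ))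
  (ΛY : BY → ℝ≥0∞) (hY : BY → ℕ) (zY : BY → G) (sY : BY → Set (G × ℕ))

/-- the event of one pair of pieces -/
def EP (lo hi : ℕ) (P : List BX) (P' : List BY) (a a' : ℕ) (x : G) : Prop :=
  (∃ z k, (z, k) ∈ TT hX zX sX P 0 a ∧ (z, k) ∈ TT hY zY sY P' x a') ∧
  ∀ z k, (z, k) ∈ TT hX zX sX P 0 a → (z, k) ∈ TT hY zY sY P' x a' → lo ≤ k ∧ k ≤ hi

/-- the level set of the piece law -/
noncomputable def Eset (p : ℕ × G → ℝ≥0∞) (th : ℝ≥0∞) (h : ℕ) : Set G := {z | th ≤ p (h, z)}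

omit [AddCommGroup G] in
lemma Eset_card (p : ℕ × G → ℝ≥0∞) (hp : ∑' q, p q ≤ 1) (th : ℝ≥0∞) (hth : th ≠ 0) (h : ℕ) :
    ∃ E : Finset G, (∀ z, z ∈ E ↔ th ≤ p (h, z)) ∧ (E.card : ℝ≥0∞) ≤ 1 / th := by
  have h1 : ∑' z, p (h, z) ≤ 1 :=
    (ENNReal.tsum_comp_le_tsum_of_injective (fun y y' h => (Prod.ext_iff.1 h).2) p).trans hp
  obtain ⟨hf, hc⟩ := ENNReal.finset_card_const_le_le_of_tsum_le ENNReal.one_ne_top h1 hth
  exact ⟨hf.toFinset, fun z => by simp, hc⟩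

/-- `X` local part: value of the pieces -/
noncomputable def VX (S S' i0 lo hi : ℕ) (th : ℝ≥0∞) (a a' : ℕ) (x : G) : ℝ≥0∞ :=
  ∑' P, ∑' P', (if (FP hX S P ∧ HT hX P ≤ S + i0 ∧ th ≤ al ΛX hX (Dp zX) S (HT hX P, Dp zX P)) ∧
    (FP hY S' P' ∧ HT hY P' ≤ S' + i0) ∧ EP hX zX sX hY zY sY lo hi P P' a a' x
    then LW ΛX P * LW ΛY P' else 0)

/-- `Y` local part: value of the pieces -/
noncomputable def VY (S S' i0 lo hi : ℕ) (th : ℝ≥0∞) (a a' : ℕ) (x : G) : ℝ≥0∞ :=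
  ∑' P, ∑' P', (if (FP hX S P ∧ HT hX P ≤ S + i0) ∧
    (FP hY S' P' ∧ HT hY P' ≤ S' + i0 ∧ th ≤ al ΛY hY (Dp zY) S' (HT hY P', Dp zY P')) ∧
    EP hX zX sX hY zY sY lo hi P P' a a' x
    then LW ΛX P * LW ΛY P' else 0)

lemma FP2_mass (hX1 : ∀ b, 1 ≤ hX b) (hY1 : ∀ b, 1 ≤ hY b) (hΛX : ∑' b, ΛX b = 1)
    (hΛY : ∑' b, ΛY b = 1) (S S' : ℕ) (Q : List BX → List BY → Prop)
    [∀ P P', Decidable (Q P P')]
    (hQ : ∀ P P', Q P P' → FP hX S P ∧ FP hY S' P') :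
    ∑' P, ∑' P', (if Q P P' then LW ΛX P * LW ΛY P' else 0) ≤ 1 := by
  calc _ ≤ ∑' P, ∑' P', (if FP hX S P then LW ΛX P else 0) * (if FP hY S' P' then LW ΛY P' else 0) := by
        refine ENNReal.tsum_le_tsum fun P => ENNReal.tsum_le_tsum fun P' => ?_
        by_cases h : Q P P'
        · rw [if_pos h, if_pos (hQ _ _ h).1, if_pos (hQ _ _ h).2]
        · rw [if_neg h]; exact zero_le
    _ = 1 := by
        simp_rw [ENNReal.tsum_mul_left]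
        rw [ENNReal.tsum_mul_right, FP_mass ΛX hX hX1 hΛX, FP_mass ΛY hY hY1 hΛY, one_mul]

lemma VX_le_one (hX1 : ∀ b, 1 ≤ hX b) (hY1 : ∀ b, 1 ≤ hY b) (hΛX : ∑' b, ΛX b = 1)
    (hΛY : ∑' b, ΛY b = 1) (S S' i0 lo hi : ℕ) (th : ℝ≥0∞) (a a' : ℕ) (x : G) :
    VX ΛX hX zX sX ΛY hY zY sY S S' i0 lo hi th a a' x ≤ 1 := by
  unfold VX
  refine FP2_mass ΛX hX ΛY hY hX1 hY1 hΛX hΛY S S' _ ?_
  rintro P P' ⟨h1, h2, _⟩
  exact ⟨h1.1, h2.1⟩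

lemma VY_le_one (hX1 : ∀ b, 1 ≤ hX b) (hY1 : ∀ b, 1 ≤ hY b) (hΛX : ∑' b, ΛX b = 1)
    (hΛY : ∑' b, ΛY b = 1) (S S' i0 lo hi : ℕ) (th : ℝ≥0∞) (a a' : ℕ) (x : G) :
    VY ΛX hX zX sX ΛY hY zY sY S S' i0 lo hi th a a' x ≤ 1 := by
  unfold VY
  refine FP2_mass ΛX hX ΛY hY hX1 hY1 hΛX hΛY S S' _ ?_
  rintro P P' ⟨h1, h2, _⟩
  exact ⟨h1.1, h2.1⟩

lemma FP_range (h : BX → ℕ) (S i0 : ℕ) (P : List BX) (h1 : FP h S P) (h2 : HT h P ≤ S + i0) :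
    HT h P ∈ Finset.Icc S (S + i0) := Finset.mem_Icc.2 ⟨FP_le h P S h1, h2⟩

lemma VX_bound (C us : ℝ≥0∞) (r0 s : ℕ)
    (h2 : H2 ΛX hX zX sX ΛY hY zY sY r0 s C us) (hX1 : ∀ b, 1 ≤ hX b) (hΛX : ∑' b, ΛX b = 1)
    (S S' i0 lo hi : ℕ) (th M lam : ℝ≥0∞) (hth : th ≠ 0) (hlam : lam ≠ 0) (hlam' : lam ≠ ⊤)
    (hM : M ≠ ⊤) (a a' : ℕ) (haa : a < a') (har : a' ≤ a + r0) (hal : a + S + i0 ≤ a' + S')
    (hau : a' + S' + i0 ≤ a + S + r0) (ha' : a' + s ≤ lo) (μ : G → ℝ≥0∞) (hμ : ∑' x, μ x ≤ 1)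
    (hμM : ∀ x, μ x ≤ M) :
    ∑' x, μ x * VX ΛX hX zX sX ΛY hY zY sY S S' i0 lo hi th a a' x
      ≤ ((i0 + 1 : ℕ) : ℝ≥0∞) * ((i0 + 1 : ℕ) : ℝ≥0∞) * (C * (lam + M * (1 / th) * us / lam + us)) := by
  have hE := fun h => Eset_card (al ΛX hX (Dp zX) S)
    (al_mass ΛX hX hX1 hΛX (Dp zX) S).le th hth h
  choose E hE1 hE2 using hE
  set I := Finset.Icc S (S + i0) with hI
  set I' := Finset.Icc S' (S' + i0) with hI'
  have hIc : I.card = i0 + 1 := by rw [hI, Nat.card_Icc]; omega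
  have hIc' : I'.card = i0 + 1 := by rw [hI', Nat.card_Icc]; omega
  have step : ∀ x, VX ΛX hX zX sX ΛY hY zY sY S S' i0 lo hi th a a' x ≤ ∑ h ∈ I, ∑ h' ∈ I',
      ∑' L, ∑' L', (if HT hX L = h ∧ Dp zX L ∈ E h ∧ HT hY L' = h' ∧
      (∃ z k, (z, k) ∈ TT hX zX sX L 0 a ∧ (z, k) ∈ TT hY zY sY L' x a') ∧
      (∀ z k, (z, k) ∈ TT hX zX sX L 0 a → (z, k) ∈ TT hY zY sY L' x a' → lo ≤ k)
      then LW ΛX L * LW ΛY L' else 0) := by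
    intro x
    rw [VX]
    simp_rw [← Summable.tsum_finsetSum (fun _ _ => ENNReal.summable)]
    refine ENNReal.tsum_le_tsum fun P => ENNReal.tsum_le_tsum fun P' => ?_
    split_ifs with hc
    · obtain ⟨⟨c1, c2, c3⟩, ⟨c4, c5⟩, c6, c7⟩ := hc
      refine le_trans ?_ (Finset.single_le_sum (f := fun h => ∑ h' ∈ I', (if HT hX P = h ∧
        Dp zX P ∈ E h ∧ HT hY P' = h' ∧
        (∃ z k, (z, k) ∈ TT hX zX sX P 0 a ∧ (z, k) ∈ TT hY zY sY P' x a') ∧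
        (∀ z k, (z, k) ∈ TT hX zX sX P 0 a → (z, k) ∈ TT hY zY sY P' x a' → lo ≤ k)
        then LW ΛX P * LW ΛY P' else 0)) (fun _ _ => zero_le) (FP_range hX S i0 P c1 c2))
      refine le_trans ?_ (Finset.single_le_sum (f := fun h' => (if HT hX P = HT hX P ∧
        Dp zX P ∈ E (HT hX P) ∧ HT hY P' = h' ∧
        (∃ z k, (z, k) ∈ TT hX zX sX P 0 a ∧ (z, k) ∈ TT hY zY sY P' x a') ∧
        (∀ z k, (z, k) ∈ TT hX zX sX P 0 a → (z, k) ∈ TT hY zY sY P' x a' → lo ≤ k)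
        then LW ΛX P * LW ΛY P' else 0)) (fun _ _ => zero_le) (FP_range hY S' i0 P' c4 c5))
      exact (if_pos ⟨rfl, (hE1 _ _).2 c3, rfl, c6, fun z k h1 h2 => (c7 z k h1 h2).1⟩).ge
    · exact zero_le
  calc _ ≤ ∑' x, ∑ h ∈ I, ∑ h' ∈ I', μ x *
      ∑' L, ∑' L', (if HT hX L = h ∧ Dp zX L ∈ E h ∧ HT hY L' = h' ∧
      (∃ z k, (z, k) ∈ TT hX zX sX L 0 a ∧ (z, k) ∈ TT hY zY sY L' x a') ∧
      (∀ z k, (z, k) ∈ TT hX zX sX L 0 a → (z, k) ∈ TT hY zY sY L' x a' → lo ≤ k)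
      then LW ΛX L * LW ΛY L' else 0) := by
        refine ENNReal.tsum_le_tsum fun x => ?_
        refine (mul_le_mul_right (step x) _).trans ?_
        rw [Finset.mul_sum]
        refine Finset.sum_le_sum fun h _ => ?_
        rw [Finset.mul_sum]
    _ = ∑ h ∈ I, ∑ h' ∈ I', ∑' x, μ x *
      ∑' L, ∑' L', (if HT hX L = h ∧ Dp zX L ∈ E h ∧ HT hY L' = h' ∧
      (∃ z k, (z, k) ∈ TT hX zX sX L 0 a ∧ (z, k) ∈ TT hY zY sY L' x a') ∧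
      (∀ z k, (z, k) ∈ TT hX zX sX L 0 a → (z, k) ∈ TT hY zY sY L' x a' → lo ≤ k)
      then LW ΛX L * LW ΛY L' else 0) := by
        simp_rw [Summable.tsum_finsetSum (fun _ _ => ENNReal.summable)]
    _ ≤ ∑ h ∈ I, ∑ h' ∈ I', (C * (lam + M * (1 / th) * us / lam + us)) := by
        refine Finset.sum_le_sum fun h hh => Finset.sum_le_sum fun h' hh' => ?_
        have q1 := Finset.mem_Icc.1 hh
        have q2 := Finset.mem_Icc.1 hh'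
        refine (h2 h h' a a' lo (E h) μ M lam hμ hμM hM hlam hlam' haa har (by omega) (by omega)
          ha').trans ?_
        gcongr
        exact hE2 h
    _ = _ := by
        simp only [Finset.sum_const, hIc, hIc', nsmul_eq_mul]
        ring

lemma VY_bound (C us : ℝ≥0∞) (r0 s : ℕ)
    (h3 : H3 ΛX hX zX sX ΛY hY zY sY r0 s C us) (hY1 : ∀ b, 1 ≤ hY b) (hΛY : ∑' b, ΛY b = 1)
    (S S' i0 lo hi : ℕ) (th M lam : ℝ≥0∞) (hth : th ≠ 0) (hlam : lam ≠ 0) (hlam' : lam ≠ ⊤)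
    (hM : M ≠ ⊤) (a a' : ℕ) (haa : a < a') (har : a' ≤ a + r0) (hal : a + S + i0 ≤ a' + S')
    (hau : a' + S' + i0 ≤ a + S + r0) (ha : hi + s ≤ a + S) (μ : G → ℝ≥0∞) (hμ : ∑' x, μ x ≤ 1)
    (hμM : ∀ x, μ x ≤ M) :
    ∑' x, μ x * VY ΛX hX zX sX ΛY hY zY sY S S' i0 lo hi th a a' x
      ≤ ((i0 + 1 : ℕ) : ℝ≥0∞) * ((i0 + 1 : ℕ) : ℝ≥0∞) * (C * (lam + M * (1 / th) * us / lam + us)) := by
  have hE := fun h => Eset_card (al ΛY hY (Dp zY) S')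
    (al_mass ΛY hY hY1 hΛY (Dp zY) S').le th hth h
  choose E hE1 hE2 using hE
  set I := Finset.Icc S (S + i0) with hI
  set I' := Finset.Icc S' (S' + i0) with hI'
  have hIc : I.card = i0 + 1 := by rw [hI, Nat.card_Icc]; omega
  have hIc' : I'.card = i0 + 1 := by rw [hI', Nat.card_Icc]; omega
  have step : ∀ x, VY ΛX hX zX sX ΛY hY zY sY S S' i0 lo hi th a a' x ≤ ∑ h ∈ I, ∑ h' ∈ I',
      ∑' L, ∑' L', (if HT hX L = h ∧ Dp zY L' ∈ E h' ∧ HT hY L' = h' ∧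
      (∃ z k, (z, k) ∈ TT hX zX sX L 0 a ∧ (z, k) ∈ TT hY zY sY L' x a') ∧
      (∀ z k, (z, k) ∈ TT hX zX sX L 0 a → (z, k) ∈ TT hY zY sY L' x a' → k ≤ hi)
      then LW ΛX L * LW ΛY L' else 0) := by
    intro x
    rw [VY]
    simp_rw [← Summable.tsum_finsetSum (fun _ _ => ENNReal.summable)]
    refine ENNReal.tsum_le_tsum fun P => ENNReal.tsum_le_tsum fun P' => ?_
    split_ifs with hc
    · obtain ⟨⟨c1, c2⟩, ⟨c4, c5, c3⟩, c6, c7⟩ := hc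
      refine le_trans ?_ (Finset.single_le_sum (f := fun h => ∑ h' ∈ I', (if HT hX P = h ∧
        Dp zY P' ∈ E h' ∧ HT hY P' = h' ∧
        (∃ z k, (z, k) ∈ TT hX zX sX P 0 a ∧ (z, k) ∈ TT hY zY sY P' x a') ∧
        (∀ z k, (z, k) ∈ TT hX zX sX P 0 a → (z, k) ∈ TT hY zY sY P' x a' → k ≤ hi)
        then LW ΛX P * LW ΛY P' else 0)) (fun _ _ => zero_le) (FP_range hX S i0 P c1 c2))
      refine le_trans ?_ (Finset.single_le_sum (f := fun h' => (if HT hX P = HT hX P ∧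
        Dp zY P' ∈ E h' ∧ HT hY P' = h' ∧
        (∃ z k, (z, k) ∈ TT hX zX sX P 0 a ∧ (z, k) ∈ TT hY zY sY P' x a') ∧
        (∀ z k, (z, k) ∈ TT hX zX sX P 0 a → (z, k) ∈ TT hY zY sY P' x a' → k ≤ hi)
        then LW ΛX P * LW ΛY P' else 0)) (fun _ _ => zero_le) (FP_range hY S' i0 P' c4 c5))
      exact (if_pos ⟨rfl, (hE1 _ _).2 c3, rfl, c6, fun z k h1 h2 => (c7 z k h1 h2).2⟩).ge
    · exact zero_le
  calc _ ≤ ∑' x, ∑ h ∈ I, ∑ h' ∈ I', μ x *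
      ∑' L, ∑' L', (if HT hX L = h ∧ Dp zY L' ∈ E h' ∧ HT hY L' = h' ∧
      (∃ z k, (z, k) ∈ TT hX zX sX L 0 a ∧ (z, k) ∈ TT hY zY sY L' x a') ∧
      (∀ z k, (z, k) ∈ TT hX zX sX L 0 a → (z, k) ∈ TT hY zY sY L' x a' → k ≤ hi)
      then LW ΛX L * LW ΛY L' else 0) := by
        refine ENNReal.tsum_le_tsum fun x => ?_
        refine (mul_le_mul_right (step x) _).trans ?_
        rw [Finset.mul_sum]
        refine Finset.sum_le_sum fun h _ => ?_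
        rw [Finset.mul_sum]
    _ = ∑ h ∈ I, ∑ h' ∈ I', ∑' x, μ x *
      ∑' L, ∑' L', (if HT hX L = h ∧ Dp zY L' ∈ E h' ∧ HT hY L' = h' ∧
      (∃ z k, (z, k) ∈ TT hX zX sX L 0 a ∧ (z, k) ∈ TT hY zY sY L' x a') ∧
      (∀ z k, (z, k) ∈ TT hX zX sX L 0 a → (z, k) ∈ TT hY zY sY L' x a' → k ≤ hi)
      then LW ΛX L * LW ΛY L' else 0) := by
        simp_rw [Summable.tsum_finsetSum (fun _ _ => ENNReal.summable)]
    _ ≤ ∑ h ∈ I, ∑ h' ∈ I', (C * (lam + M * (1 / th) * us / lam + us)) := by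
        refine Finset.sum_le_sum fun h hh => Finset.sum_le_sum fun h' hh' => ?_
        have q1 := Finset.mem_Icc.1 hh
        have q2 := Finset.mem_Icc.1 hh'
        refine (h3 h h' a a' hi (E h') μ M lam hμ hμM hM hlam hlam' haa har (by omega) (by omega)
          (by omega)).trans ?_
        gcongr
        exact hE2 h'
    _ = _ := by
        simp only [Finset.sum_const, hIc, hIc', nsmul_eq_mul]
        ring

end Crest.Agent.R154.Asm976
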