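import Crest.Agent.R154.AsmB_990

/-! Row 154, ROAD 801 (helper990): assembly, part C (grouping by heights and relative position). -/

set_option autoImplicit false

namespace Crest.Agent.R154.Asm990

open scoped ENNReal
open Crest.Agent.R154.B5A Crest.Agent.R154.FP178

variable {G : Type*} [AddCommGroup G]
variable {BX BY : Type*} (ΛX : BX → ℝ≥0∞) (hX : BX → ℕ) (zX : BX → G)
variable (ΛY : BY → ℝ≥0∞) (hY : BY → ℕ) (zY : BY → G)

open Classical in
/-- joint law of the two tops -/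
noncomputable def mm (w : G) (D D' : ℕ) (i i' : ℕ) (x : G) : ℝ≥0∞ :=
  ∑' q : List BX × List BY, if (fp hX D q.1 ∧ HT hX q.1 = D + i) ∧
    (fp hY D' q.2 ∧ HT hY q.2 = D' + i') ∧ w + Dp zY q.2 - Dp zX q.1 = x then
    LW ΛX q.1 * LW ΛY q.2 else 0

open Classical in
/-- mass of the pieces -/
noncomputable def vv (T T' i0 : ℕ) (Z : List BX → List BY → ℕ → ℕ → G → Prop) (a a' : ℕ)
    (x : G) : ℝ≥0∞ :=
  ∑' q : List BX × List BY, if (fp hX T q.1 ∧ HT hX q.1 ≤ T + i0) ∧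
    (fp hY T' q.2 ∧ HT hY q.2 ≤ T' + i0) ∧ Z q.1 q.2 a a' x then
    LW ΛX q.1 * LW ΛY q.2 else 0

open Classical in
noncomputable def ww (h h' : ℕ) (Z : List BX → List BY → ℕ → ℕ → G → Prop) (a a' : ℕ)
    (x : G) : ℝ≥0∞ :=
  ∑' q : List BX × List BY, if HT hX q.1 = h ∧ HT hY q.2 = h' ∧ Z q.1 q.2 a a' x then
    LW ΛX q.1 * LW ΛY q.2 else 0

lemma tsum_prod_mul {α β : Type*} (f : α → ℝ≥0∞) (g : β → ℝ≥0∞) :
    ∑' q : α × β, f q.1 * g q.2 = (∑' a, f a) * ∑' b, g b := by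
  rw [ENNReal.tsum_prod (f := fun a b => f a * g b), ← ENNReal.tsum_mul_right]
  exact tsum_congr fun a => ENNReal.tsum_mul_left

lemma vv_le_one (h1X : ∀ b, 1 ≤ hX b) (h1Y : ∀ b, 1 ≤ hY b) (hΛX : ∑' b, ΛX b ≤ 1)
    (hΛY : ∑' b, ΛY b ≤ 1) (T T' i0 : ℕ) (Z : List BX → List BY → ℕ → ℕ → G → Prop) (a a' : ℕ)
    (x : G) : vv ΛX hX ΛY hY T T' i0 Z a a' x ≤ 1 := by
  classical
  calc vv ΛX hX ΛY hY T T' i0 Z a a' x
      ≤ ∑' q : List BX × List BY, (if fp hX T q.1 then LW ΛX q.1 else 0)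
          * (if fp hY T' q.2 then LW ΛY q.2 else 0) := by
        refine ENNReal.tsum_le_tsum fun q => ?_
        split_ifs with c1 c2 c3 c3
        · exact le_rfl
        · exact absurd c1.2.1.1 c3
        · exact absurd c1.1.1 c2
        · exact absurd c1.1.1 c2
        all_goals exact zero_le
    _ = (∑' L, (if fp hX T L then LW ΛX L else 0)) * ∑' L, (if fp hY T' L then LW ΛY L else 0) :=
        tsum_prod_mul (fun L => if fp hX T L then LW ΛX L else 0)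
          (fun L => if fp hY T' L then LW ΛY L else 0)
    _ ≤ 1 * 1 := by
        gcongr
        · exact sum_FP ΛX hX h1X hΛX T
        · exact sum_FP ΛY hY h1Y hΛY T'
    _ = 1 := one_mul 1

lemma vv_le_sum (T T' i0 : ℕ) (Z : List BX → List BY → ℕ → ℕ → G → Prop) (a a' : ℕ) (x : G) :
    vv ΛX hX ΛY hY T T' i0 Z a a' x ≤ ∑ j ∈ Finset.range (i0 + 1),
      ∑ j' ∈ Finset.range (i0 + 1), ww ΛX hX ΛY hY (T + j) (T' + j') Z a a' x := by
  classical
  have e : ∑ j ∈ Finset.range (i0 + 1), ∑ j' ∈ Finset.range (i0 + 1),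
      ww ΛX hX ΛY hY (T + j) (T' + j') Z a a' x
      = ∑' q : List BX × List BY, ∑ j ∈ Finset.range (i0 + 1), ∑ j' ∈ Finset.range (i0 + 1),
        (if HT hX q.1 = T + j ∧ HT hY q.2 = T' + j' ∧ Z q.1 q.2 a a' x then
          LW ΛX q.1 * LW ΛY q.2 else 0) := by
    rw [Summable.tsum_finsetSum (fun _ _ => ENNReal.summable)]
    refine Finset.sum_congr rfl fun j _ => ?_
    rw [Summable.tsum_finsetSum (fun _ _ => ENNReal.summable)]
    rfl
  rw [e]
  refine ENNReal.tsum_le_tsum fun q => ?_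
  by_cases c : (fp hX T q.1 ∧ HT hX q.1 ≤ T + i0) ∧
    (fp hY T' q.2 ∧ HT hY q.2 ≤ T' + i0) ∧ Z q.1 q.2 a a' x
  · rw [if_pos c]
    have h1 := le_HT_of_fp hX c.1.1
    have h2 := le_HT_of_fp hY c.2.1.1
    have h3 := c.1.2
    have h4 := c.2.1.2
    refine le_trans ?_ (Finset.single_le_sum (f := fun j => ∑ j' ∈ Finset.range (i0 + 1),
      (if HT hX q.1 = T + j ∧ HT hY q.2 = T' + j' ∧ Z q.1 q.2 a a' x then
          LW ΛX q.1 * LW ΛY q.2 else 0)) (fun _ _ => zero_le)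
      (Finset.mem_range.2 (show HT hX q.1 - T < i0 + 1 by omega)))
    refine le_trans ?_ (Finset.single_le_sum (f := fun j' =>
      (if HT hX q.1 = T + (HT hX q.1 - T) ∧ HT hY q.2 = T' + j' ∧ Z q.1 q.2 a a' x then
          LW ΛX q.1 * LW ΛY q.2 else 0)) (fun _ _ => zero_le)
      (Finset.mem_range.2 (show HT hY q.2 - T' < i0 + 1 by omega)))
    rw [if_pos ⟨by omega, by omega, c.2.2⟩]
  · rw [if_neg c]; exact zero_le

open Classical in
/-- grouping -/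
theorem group_le (h1X : ∀ b, 1 ≤ hX b) (h1Y : ∀ b, 1 ≤ hY b) (hΛX : ∑' b, ΛX b ≤ 1)
    (hΛY : ∑' b, ΛY b ≤ 1) (w : G) (D D' T T' i0 : ℕ)
    (Z : List BX → List BY → ℕ → ℕ → G → Prop) (Gm δ Bd : ℝ≥0∞)
    (β : ℕ → ℕ → G → ℝ≥0∞)
    (hβ : ∑ i ∈ Finset.range (i0 + 1), ∑ i' ∈ Finset.range (i0 + 1), ∑' x, β i i' x ≤ δ)
    (hm : ∀ i ≤ i0, ∀ i' ≤ i0, ∀ x, mm ΛX hX zX ΛY hY zY w D D' i i' x ≤ Gm + β i i' x)
    (hB : ∀ i ≤ i0, ∀ i' ≤ i0, ∀ j ≤ i0, ∀ j' ≤ i0, ∀ μ : G → ℝ≥0∞, ∑' x, μ x ≤ 1 →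
      (∀ x, μ x ≤ Gm) →
      ∑' x, μ x * ww ΛX hX ΛY hY (T + j) (T' + j') Z (D + i) (D' + i') x ≤ Bd) :
    ∑' A, ∑' P, ∑' A', ∑' P', (if sm hX D T i0 A P ∧ sm hY D' T' i0 A' P' ∧
      Z P P' (HT hX A) (HT hY A') (w + Dp zY A' - Dp zX A) then
      (LW ΛX A * LW ΛX P) * (LW ΛY A' * LW ΛY P') else 0)
      ≤ (i0 + 1 : ℕ) ^ 4 * Bd + δ := by
  set R := Finset.range (i0 + 1) with hR
  -- step 1 : order of summation
  have s1 : ∑' A, ∑' P, ∑' A', ∑' P', (if sm hX D T i0 A P ∧ sm hY D' T' i0 A' P' ∧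
      Z P P' (HT hX A) (HT hY A') (w + Dp zY A' - Dp zX A) then
      (LW ΛX A * LW ΛX P) * (LW ΛY A' * LW ΛY P') else 0)
      = ∑' q : List BX × List BY, (if (fp hX D q.1 ∧ HT hX q.1 ≤ D + i0) ∧
        (fp hY D' q.2 ∧ HT hY q.2 ≤ D' + i0) then LW ΛX q.1 * LW ΛY q.2 else 0)
        * vv ΛX hX ΛY hY T T' i0 Z (HT hX q.1) (HT hY q.2) (w + Dp zY q.2 - Dp zX q.1) := by
    rw [ENNReal.tsum_prod (f := fun A A' => (if (fp hX D A ∧ HT hX A ≤ D + i0) ∧
        (fp hY D' A' ∧ HT hY A' ≤ D' + i0) then LW ΛX A * LW ΛY A' else 0)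
        * vv ΛX hX ΛY hY T T' i0 Z (HT hX A) (HT hY A') (w + Dp zY A' - Dp zX A))]
    refine tsum_congr fun A => ?_
    rw [ENNReal.tsum_comm]
    refine tsum_congr fun A' => ?_
    rw [vv, ← ENNReal.tsum_mul_left, ENNReal.tsum_prod (f := fun P P' =>
      (if (fp hX D A ∧ HT hX A ≤ D + i0) ∧
        (fp hY D' A' ∧ HT hY A' ≤ D' + i0) then LW ΛX A * LW ΛY A' else 0) *
      (if (fp hX T P ∧ HT hX P ≤ T + i0) ∧ (fp hY T' P' ∧ HT hY P' ≤ T' + i0) ∧
        Z P P' (HT hX A) (HT hY A') (w + Dp zY A' - Dp zX A) then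
        LW ΛX P * LW ΛY P' else 0))]
    refine tsum_congr fun P => tsum_congr fun P' => ?_
    by_cases c : sm hX D T i0 A P ∧ sm hY D' T' i0 A' P' ∧
      Z P P' (HT hX A) (HT hY A') (w + Dp zY A' - Dp zX A)
    · rw [if_pos c, if_pos ⟨c.1.1, c.2.1.1⟩, if_pos ⟨c.1.2, c.2.1.2, c.2.2⟩]
      ring
    · rw [if_neg c]
      by_cases c1 : (fp hX D A ∧ HT hX A ≤ D + i0) ∧ (fp hY D' A' ∧ HT hY A' ≤ D' + i0)
      · by_cases c2 : (fp hX T P ∧ HT hX P ≤ T + i0) ∧ (fp hY T' P' ∧ HT hY P' ≤ T' + i0) ∧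
          Z P P' (HT hX A) (HT hY A') (w + Dp zY A' - Dp zX A)
        · exact absurd ⟨⟨c1.1, c2.1⟩, ⟨c1.2, c2.2.1⟩, c2.2.2⟩ c
        · rw [if_neg c2, mul_zero]
      · rw [if_neg c1, zero_mul]
  rw [s1]
  -- step 2 : grouping
  have s2 : ∑' q : List BX × List BY, (if (fp hX D q.1 ∧ HT hX q.1 ≤ D + i0) ∧
        (fp hY D' q.2 ∧ HT hY q.2 ≤ D' + i0) then LW ΛX q.1 * LW ΛY q.2 else 0)
        * vv ΛX hX ΛY hY T T' i0 Z (HT hX q.1) (HT hY q.2) (w + Dp zY q.2 - Dp zX q.1)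
      ≤ ∑ i ∈ R, ∑ i' ∈ R, ∑' x, mm ΛX hX zX ΛY hY zY w D D' i i' x
        * vv ΛX hX ΛY hY T T' i0 Z (D + i) (D' + i') x := by
    have e : ∑ i ∈ R, ∑ i' ∈ R, ∑' x, mm ΛX hX zX ΛY hY zY w D D' i i' x
        * vv ΛX hX ΛY hY T T' i0 Z (D + i) (D' + i') x
        = ∑' q : List BX × List BY, ∑ i ∈ R, ∑ i' ∈ R, ∑' x,
          (if (fp hX D q.1 ∧ HT hX q.1 = D + i) ∧
            (fp hY D' q.2 ∧ HT hY q.2 = D' + i') ∧ w + Dp zY q.2 - Dp zX q.1 = x then
            LW ΛX q.1 * LW ΛY q.2 else 0) * vv ΛX hX ΛY hY T T' i0 Z (D + i) (D' + i') x := by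
      rw [Summable.tsum_finsetSum (fun _ _ => ENNReal.summable)]
      refine Finset.sum_congr rfl fun i _ => ?_
      rw [Summable.tsum_finsetSum (fun _ _ => ENNReal.summable)]
      refine Finset.sum_congr rfl fun i' _ => ?_
      rw [ENNReal.tsum_comm]
      refine tsum_congr fun x => ?_
      rw [mm, ENNReal.tsum_mul_right]
    rw [e]
    refine ENNReal.tsum_le_tsum fun q => ?_
    by_cases c : (fp hX D q.1 ∧ HT hX q.1 ≤ D + i0) ∧ (fp hY D' q.2 ∧ HT hY q.2 ≤ D' + i0)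
    · rw [if_pos c]
      have h1 := le_HT_of_fp hX c.1.1
      have h2 := le_HT_of_fp hY c.2.1
      have h3 := c.1.2
      have h4 := c.2.2
      refine le_trans ?_ (Finset.single_le_sum (f := fun i => ∑ i' ∈ R, ∑' x,
          (if (fp hX D q.1 ∧ HT hX q.1 = D + i) ∧
            (fp hY D' q.2 ∧ HT hY q.2 = D' + i') ∧ w + Dp zY q.2 - Dp zX q.1 = x then
            LW ΛX q.1 * LW ΛY q.2 else 0) * vv ΛX hX ΛY hY T T' i0 Z (D + i) (D' + i') x)
        (fun _ _ => zero_le)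
        (Finset.mem_range.2 (show HT hX q.1 - D < i0 + 1 by omega)))
      refine le_trans ?_ (Finset.single_le_sum (f := fun i' => ∑' x,
          (if (fp hX D q.1 ∧ HT hX q.1 = D + (HT hX q.1 - D)) ∧
            (fp hY D' q.2 ∧ HT hY q.2 = D' + i') ∧ w + Dp zY q.2 - Dp zX q.1 = x then
            LW ΛX q.1 * LW ΛY q.2 else 0)
            * vv ΛX hX ΛY hY T T' i0 Z (D + (HT hX q.1 - D)) (D' + i') x)
        (fun _ _ => zero_le)
        (Finset.mem_range.2 (show HT hY q.2 - D' < i0 + 1 by omega)))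
      refine le_trans ?_ (ENNReal.le_tsum (w + Dp zY q.2 - Dp zX q.1))
      rw [if_pos ⟨⟨c.1.1, by omega⟩, ⟨c.2.1, by omega⟩, rfl⟩,
        show D + (HT hX q.1 - D) = HT hX q.1 by omega,
        show D' + (HT hY q.2 - D') = HT hY q.2 by omega]
    · rw [if_neg c, zero_mul]; exact zero_le
  refine s2.trans ?_
  -- step 3 : the two parts
  have hmass : ∀ i i', ∑' x, mm ΛX hX zX ΛY hY zY w D D' i i' x ≤ 1 := by
    intro i i'
    have e : ∑' x, mm ΛX hX zX ΛY hY zY w D D' i i' x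
        ≤ ∑' q : List BX × List BY, (if fp hX D q.1 then LW ΛX q.1 else 0)
          * (if fp hY D' q.2 then LW ΛY q.2 else 0) := by
      simp only [mm]
      rw [ENNReal.tsum_comm]
      refine ENNReal.tsum_le_tsum fun q => ?_
      rw [tsum_eq_single (w + Dp zY q.2 - Dp zX q.1)]
      · split_ifs with c1 c2 c3 c3
        · exact le_rfl
        · exact absurd c1.2.1.1 c3
        · exact absurd c1.1.1 c2
        · exact absurd c1.1.1 c2
        all_goals exact zero_le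
      · intro x hx
        rw [if_neg (fun hh => hx hh.2.2.symm)]
    refine e.trans ?_
    rw [tsum_prod_mul (fun L => if fp hX D L then LW ΛX L else 0)
          (fun L => if fp hY D' L then LW ΛY L else 0)]
    calc _ ≤ (1 : ℝ≥0∞) * 1 := by
          gcongr
          · exact sum_FP ΛX hX h1X hΛX D
          · exact sum_FP ΛY hY h1Y hΛY D'
      _ = 1 := one_mul 1
  have s3 : ∀ i ∈ R, ∀ i' ∈ R, ∑' x, mm ΛX hX zX ΛY hY zY w D D' i i' x
        * vv ΛX hX ΛY hY T T' i0 Z (D + i) (D' + i') x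
      ≤ (i0 + 1 : ℕ) * ((i0 + 1 : ℕ) * Bd) + ∑' x, β i i' x := by
    intro i hi i' hi'
    have hi2 : i ≤ i0 := by have := Finset.mem_range.1 hi; omega
    have hi2' : i' ≤ i0 := by have := Finset.mem_range.1 hi'; omega
    set μ : G → ℝ≥0∞ := fun x => min (mm ΛX hX zX ΛY hY zY w D D' i i' x) Gm with hμ
    have hμ1 : ∑' x, μ x ≤ 1 :=
      (ENNReal.tsum_le_tsum fun x => min_le_left _ _).trans (hmass i i')
    calc ∑' x, mm ΛX hX zX ΛY hY zY w D D' i i' x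
          * vv ΛX hX ΛY hY T T' i0 Z (D + i) (D' + i') x
        ≤ ∑' x, (μ x * (∑ j ∈ R, ∑ j' ∈ R, ww ΛX hX ΛY hY (T + j) (T' + j') Z (D + i)
            (D' + i') x) + β i i' x) := by
          refine ENNReal.tsum_le_tsum fun x => ?_
          have hle : mm ΛX hX zX ΛY hY zY w D D' i i' x ≤ μ x + β i i' x := by
            rw [hμ]
            simp only
            rcases le_total (mm ΛX hX zX ΛY hY zY w D D' i i' x) Gm with hc | hc
            · rw [min_eq_left hc]; exact le_self_add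
            · rw [min_eq_right hc]; exact hm i hi2 i' hi2' x
          calc mm ΛX hX zX ΛY hY zY w D D' i i' x
                * vv ΛX hX ΛY hY T T' i0 Z (D + i) (D' + i') x
              ≤ (μ x + β i i' x) * vv ΛX hX ΛY hY T T' i0 Z (D + i) (D' + i') x := by gcongr
            _ = μ x * vv ΛX hX ΛY hY T T' i0 Z (D + i) (D' + i') x
                + β i i' x * vv ΛX hX ΛY hY T T' i0 Z (D + i) (D' + i') x := add_mul _ _ _
            _ ≤ μ x * (∑ j ∈ R, ∑ j' ∈ R, ww ΛX hX ΛY hY (T + j) (T' + j') Z (D + i)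
                (D' + i') x) + β i i' x * 1 := by
                gcongr
                · exact vv_le_sum ΛX hX ΛY hY T T' i0 Z (D + i) (D' + i') x
                · exact vv_le_one ΛX hX ΛY hY h1X h1Y hΛX hΛY T T' i0 Z (D + i) (D' + i') x
            _ = _ := by rw [mul_one]
      _ = (∑ j ∈ R, ∑ j' ∈ R, ∑' x, μ x * ww ΛX hX ΛY hY (T + j) (T' + j') Z (D + i)
            (D' + i') x) + ∑' x, β i i' x := by
          rw [ENNReal.tsum_add]
          congr 1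
          simp_rw [Finset.mul_sum]
          rw [Summable.tsum_finsetSum (fun _ _ => ENNReal.summable)]
          refine Finset.sum_congr rfl fun j _ => ?_
          rw [Summable.tsum_finsetSum (fun _ _ => ENNReal.summable)]
      _ ≤ (∑ _j ∈ R, ∑ _j' ∈ R, Bd) + ∑' x, β i i' x := by
          gcongr with j hj j' hj'
          exact hB i hi2 i' hi2' j (by have := Finset.mem_range.1 hj; omega) j'
            (by have := Finset.mem_range.1 hj'; omega) μ hμ1 (fun x => min_le_right _ _)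
      _ = _ := by
          rw [Finset.sum_const, Finset.sum_const, hR, Finset.card_range, nsmul_eq_mul,
            nsmul_eq_mul]
  calc ∑ i ∈ R, ∑ i' ∈ R, ∑' x, mm ΛX hX zX ΛY hY zY w D D' i i' x
        * vv ΛX hX ΛY hY T T' i0 Z (D + i) (D' + i') x
      ≤ ∑ i ∈ R, ∑ i' ∈ R, ((i0 + 1 : ℕ) * ((i0 + 1 : ℕ) * Bd) + ∑' x, β i i' x) :=
        Finset.sum_le_sum fun i hi => Finset.sum_le_sum fun i' hi' => s3 i hi i' hi'
    _ = (i0 + 1 : ℕ) * ((i0 + 1 : ℕ) * ((i0 + 1 : ℕ) * ((i0 + 1 : ℕ) * Bd)))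
        + ∑ i ∈ R, ∑ i' ∈ R, ∑' x, β i i' x := by
        simp_rw [Finset.sum_add_distrib]
        rw [Finset.sum_const, Finset.sum_const, hR, Finset.card_range, nsmul_eq_mul,
          nsmul_eq_mul]
    _ ≤ (i0 + 1 : ℕ) * ((i0 + 1 : ℕ) * ((i0 + 1 : ℕ) * ((i0 + 1 : ℕ) * Bd))) + δ := by gcongr
    _ = _ := by ring

end Crest.Agent.R154.Asm990
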