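import Crest.Agent.R154.AsmB_999
import Crest.Agent.R154.Sel_300

/-! Row 154, ROAD 801, assembly part C (helper999): one window. -/

set_option autoImplicit false

namespace Crest.Agent.R154.Asm999

open scoped ENNReal
open Crest.Agent.R154.B5A
open Crest.Agent.R154.Asm540 (FP split_le fp_mass over_le e1 wA wA_mass fp_HT TR TR_append TR_depth
  TR_shift Dp)

open Classical in
/-- law of `g` -/
noncomputable def pl {α S : Type*} (Λ : α → ℝ≥0∞) (g : α → S) (s : S) : ℝ≥0∞ :=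
  ∑' a', (if g a' = s then Λ a' else 0)

/-- the law has a small atom at `g a` -/
def SmP {α S : Type*} (Λ : α → ℝ≥0∞) (g : α → S) (θ : ℝ≥0∞) (a : α) : Prop :=
  pl Λ g (g a) ≤ 2 * θ

/-- the law has a large atom at `g a` -/
def LocP {α S : Type*} (Λ : α → ℝ≥0∞) (g : α → S) (θ : ℝ≥0∞) (a : α) : Prop :=
  θ ≤ pl Λ g (g a)

open Classical in
/-- threshold for a sub-probability on pieces -/
theorem thr {α S : Type*} (Λ : α → ℝ≥0∞) (g : α → S) (hΛ : ∑' a, Λ a ≤ 1) (u : ℝ≥0∞) (hu : u ≠ 0)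
    (hu1 : u ≤ 1) : ∃ θ : ℝ≥0∞, θ ≠ 0 ∧
      (∑' a, (if LocP Λ g θ a then 0 else Λ a) ≤ u) ∧
      (∑' a, (if SmP Λ g θ a then 0 else Λ a) ≤ 1 - u) := by
  set p : S → ℝ≥0∞ := fun s => ∑' a', (if g a' = s then Λ a' else 0) with hp
  have hpl : ∀ s, pl Λ g s = p s := fun s => rfl
  have key : ∀ Q : S → Prop, ∑' s, (if Q s then p s else 0) = ∑' a, (if Q (g a) then Λ a else 0) := by
    intro Q
    have h1 : ∀ s, (if Q s then p s else 0) = ∑' a, (if Q s ∧ g a = s then Λ a else 0) := by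
      intro s
      by_cases h : Q s
      · simp [h, hp]
      · simp [h]
    simp_rw [h1]
    rw [ENNReal.tsum_comm]
    refine tsum_congr fun a => ?_
    rw [tsum_eq_single (g a)]
    · simp
    · intro s hs
      rw [if_neg (fun h => hs h.2.symm)]
  have hp1 : ∑' s, p s ≤ 1 := by
    have := key (fun _ => True)
    simp only [if_true] at this
    rw [this]; exact hΛ
  obtain ⟨k, h1, h2, -, -⟩ := Sel300.dyq p hp1 hu
  have hlt : ∑' a, (if p (g a) < (2 ^ k : ℝ≥0∞)⁻¹ then Λ a else 0) ≤ u := by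
    have h3 := key (fun s => p s < (2 ^ k : ℝ≥0∞)⁻¹)
    refine le_trans (le_of_eq ?_) h1
    refine Eq.trans ?_ (h3.symm.trans ?_)
    · refine tsum_congr fun a => ?_
      split_ifs <;> rfl
    · refine tsum_congr fun a => ?_
      split_ifs <;> rfl
  have hle : k = 0 ∨ u ≤ ∑' a, (if p (g a) ≤ 2 * (2 ^ k : ℝ≥0∞)⁻¹ then Λ a else 0) := by
    rcases h2 with h2 | h2
    · exact Or.inl h2
    · right
      have h3 := key (fun s => p s ≤ 2 * (2 ^ k : ℝ≥0∞)⁻¹)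
      refine le_trans h2 (le_of_eq ?_)
      refine Eq.trans ?_ (h3.trans ?_)
      · refine tsum_congr fun a => ?_
        split_ifs <;> rfl
      · refine tsum_congr fun a => ?_
        split_ifs <;> rfl
  refine ⟨(2 ^ k)⁻¹, ?_, ?_, ?_⟩
  · exact ENNReal.inv_ne_zero.2 (ENNReal.pow_ne_top (by norm_num))
  · refine le_trans (ENNReal.tsum_le_tsum fun a => ?_) hlt
    by_cases h : (2 ^ k : ℝ≥0∞)⁻¹ ≤ p (g a)
    · rw [if_pos (show LocP Λ g _ a from h)]; exact zero_le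
    · rw [if_neg (show ¬ LocP Λ g _ a from h), if_pos (not_le.1 h)]
  · have e1 : ∀ a, (if SmP Λ g (2 ^ k)⁻¹ a then 0 else Λ a)
        = (if p (g a) ≤ 2 * (2 ^ k : ℝ≥0∞)⁻¹ then 0 else Λ a) := by
      intro a
      by_cases h : p (g a) ≤ 2 * (2 ^ k : ℝ≥0∞)⁻¹
      · rw [if_pos h, if_pos (show SmP Λ g _ a from h)]
      · rw [if_neg h, if_neg (show ¬ SmP Λ g _ a from h)]
    simp_rw [e1]
    rcases hle with h2 | h2
    · have : ∀ a, (if p (g a) ≤ 2 * (2 ^ k : ℝ≥0∞)⁻¹ then 0 else Λ a) = 0 := by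
        intro a
        rw [if_pos]
        have : p (g a) ≤ 1 := (ENNReal.le_tsum (g a)).trans hp1
        refine this.trans ?_
        rw [h2]
        simp
      simp only [this, tsum_zero]
      exact zero_le
    · refine ENNReal.le_sub_of_add_le_right (ne_top_of_le_ne_top ENNReal.one_ne_top hu1) ?_
      calc _ ≤ (∑' a, (if p (g a) ≤ 2 * (2 ^ k : ℝ≥0∞)⁻¹ then 0 else Λ a))
            + ∑' a, (if p (g a) ≤ 2 * (2 ^ k : ℝ≥0∞)⁻¹ then Λ a else 0) := by gcongr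
        _ = ∑' a, Λ a := by
          rw [← ENNReal.tsum_add]
          refine tsum_congr fun a => ?_
          split_ifs <;> simp
        _ ≤ 1 := hΛ

open Classical in
lemma sm_le {α S : Type*} (Λ : α → ℝ≥0∞) (g : α → S) (θ : ℝ≥0∞) (s : S) :
    ∑' a, (if SmP Λ g θ a ∧ g a = s then Λ a else 0) ≤ 2 * θ := by
  by_cases hs : pl Λ g s ≤ 2 * θ
  · refine le_trans (ENNReal.tsum_le_tsum fun a => ?_) hs
    by_cases h : g a = s
    · rw [if_pos h]; split_ifs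
      · exact le_rfl
      · exact zero_le
    · rw [if_neg (fun h' => h h'.2)]; exact zero_le
  · refine le_trans (le_of_eq ?_) zero_le
    rw [ENNReal.tsum_eq_zero]
    intro a
    rw [if_neg]
    rintro ⟨h1, h2⟩
    rw [SmP, h2] at h1
    exact hs h1

section win
variable {BX BY G : Type*} [AddCommGroup G]
  (ΛX : BX → ℝ≥0∞) (ΛY : BY → ℝ≥0∞) (hX : BX → ℕ) (hY : BY → ℕ) (zX : BX → G) (zY : BY → G)
  (sX : BX → Set (G × ℕ)) (sY : BY → Set (G × ℕ))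

open Classical in
/-- `X` local window lemma (top of `Y` not above the top of `X`) -/
def H2s (C : ℝ≥0∞) (us : ℕ → ℝ≥0∞) : Prop :=
  ∀ (s h h' a a' lo : ℕ) (E : Finset G) (μ : G → ℝ≥0∞) (M lam : ℝ≥0∞), ∑' x, μ x ≤ 1 →
    (∀ x, μ x ≤ M) → lam ≠ 0 → lam ≠ ⊤ → a + s ≤ lo → a' + s ≤ lo → a ≤ a' →
    ∑' x, μ x * ∑' L : List BX, ∑' L' : List BY,
      (if HT hX L = h ∧ Dp zX L ∈ E ∧ HT hY L' = h' ∧
          (∃ g k, Asm540.Cm hX hY zX zY sX sY L L' x a a' g k) ∧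
          (∀ g k, Asm540.Cm hX hY zX zY sX sY L L' x a a' g k → lo ≤ k)
        then LW ΛX L * LW ΛY L' else 0)
      ≤ C * (lam + M * E.card * us s / lam + us s)

open Classical in
/-- `Y` local window lemma (bottom of `Y` not above the bottom of `X`) -/
def H3s (C : ℝ≥0∞) (us : ℕ → ℝ≥0∞) : Prop :=
  ∀ (s h h' a a' hi : ℕ) (E : Finset G) (μ : G → ℝ≥0∞) (M lam : ℝ≥0∞), ∑' x, μ x ≤ 1 →
    (∀ x, μ x ≤ M) → lam ≠ 0 → lam ≠ ⊤ → hi + s ≤ a + h → hi + s ≤ a' + h' → a + h ≤ a' + h' →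
    ∑' x, μ x * ∑' L : List BX, ∑' L' : List BY,
      (if HT hX L = h ∧ HT hY L' = h' ∧ Dp zY L' ∈ E ∧
          (∃ g k, Asm540.Cm hX hY zX zY sX sY L L' x a a' g k) ∧
          (∀ g k, Asm540.Cm hX hY zX zY sX sY L L' x a a' g k → k ≤ hi)
        then LW ΛX L * LW ΛY L' else 0)
      ≤ C * (lam + M * E.card * us s / lam + us s)

lemma wA_le {B : Type*} (Λ : B → ℝ≥0∞) (ht : B → ℕ) (r i0 : ℕ) (A : List B) :
    wA Λ ht r i0 A ≤ LW Λ A := by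
  rw [wA]; split_ifs
  · exact le_rfl
  · exact zero_le

lemma wA_ne {B : Type*} (Λ : B → ℝ≥0∞) (ht : B → ℕ) (r i0 : ℕ) (A : List B)
    (h : wA Λ ht r i0 A ≠ 0) : r ≤ HT ht A ∧ HT ht A ≤ r + i0 := by
  rw [wA] at h
  split_ifs at h with h1
  · exact ⟨fp_HT ht h1.1, h1.2⟩
  · exact absurd rfl h

/-- the window bound -/
noncomputable def RR (C u lam : ℝ≥0∞) (us : ℝ≥0∞) : ℝ≥0∞ := C * (lam + 2 * u⁻¹ * us / lam + us)

lemma geom_le (u : ℝ≥0∞) (hu1 : u ≤ 1) (j : ℕ) : ∑ l ∈ Finset.range j, (1 - u) ^ l ≤ u⁻¹ := by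
  calc ∑ l ∈ Finset.range j, (1 - u) ^ l ≤ ∑' l : ℕ, (1 - u) ^ l := ENNReal.sum_le_tsum _
    _ = (1 - (1 - u))⁻¹ := ENNReal.tsum_geometric _
    _ = u⁻¹ := by rw [ENNReal.sub_sub_cancel ENNReal.one_ne_top hu1]

lemma RR_bd (C u lam us θ M : ℝ≥0∞) (E : ℕ) (hE : (E : ℝ≥0∞) * θ ≤ 1) (hM : M ≤ 2 * θ * u⁻¹) :
    C * (lam + M * E * us / lam + us) ≤ RR C u lam us := by
  unfold RR
  have : M * E ≤ 2 * u⁻¹ := by
    calc M * E ≤ 2 * θ * u⁻¹ * E := by gcongr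
      _ = 2 * u⁻¹ * (E * θ) := by ring
      _ ≤ 2 * u⁻¹ * 1 := by gcongr
      _ = _ := mul_one _
  gcongr

open Classical in
/-- term with `X` local -/
theorem termX (h1X : ∀ b, 1 ≤ hX b) (h1Y : ∀ b, 1 ≤ hY b) (hΛX : ∑' b, ΛX b ≤ 1)
    (hΛY : ∑' b, ΛY b ≤ 1) (C : ℝ≥0∞) (us : ℕ → ℝ≥0∞)
    (H2 : H2s ΛX ΛY hX hY zX zY sX sY C us) (T i0 j s lo hi d : ℕ) (y : G)
    (u θ lam : ℝ≥0∞) (hu1 : u ≤ 1) (hθ : θ ≠ 0) (hl0 : lam ≠ 0) (hlt : lam ≠ ⊤)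
    (hSmq : ∑' a, (if SmP (wA ΛX hX T i0) (fun V => (HT hX V, Dp zX V)) θ a
      then 0 else wA ΛX hX T i0 a) ≤ 1 - u)
    (hlo : j * T + j * i0 + s ≤ lo) (hd : d + s ≤ lo) (hcd : j * T + j * i0 ≤ d) :
    SL (wA ΛX hX T i0) j (fun L => (if ∃ a ∈ L, SmP (wA ΛX hX T i0)
        (fun V => (HT hX V, Dp zX V)) θ a then 1 else 0) * ∑' V, ∑' V',
        (if LocP (wA ΛX hX T i0) (fun V => (HT hX V, Dp zX V)) θ V ∧ PC hX hY zX zY sX sY V V' (y - (L.map (Dp zX)).sum)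
        (L.map (HT hX)).sum d lo hi then wA ΛX hX T i0 V * wA ΛY hY T i0 V' else 0))
      ≤ ((j * i0 + 1 : ℕ) : ℝ≥0∞) * (((i0 + 1 : ℕ) : ℝ≥0∞) * ((i0 + 1 : ℕ) : ℝ≥0∞)
        * RR C u lam (us s)) := by
  have := term (wA ΛX hX T i0) (wA ΛY hY T i0) (HT hX) (Dp zX) (HT hY)
    (wA_mass ΛX hX h1X hΛX T i0) T i0 j (fun a => wA_ne ΛX hX T i0 a)
    (fun b => wA_ne ΛY hY T i0 b) θ (2 * θ) (1 - u) hθ
    (LocP (wA ΛX hX T i0) (fun V => (HT hX V, Dp zX V)) θ)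
    (SmP (wA ΛX hX T i0) (fun V => (HT hX V, Dp zX V)) θ) ?_ ?_ hSmq
    (fun V V' x c => PC hX hY zX zY sX sY V V' x c d lo hi) (Equiv.subLeft y)
    (RR C u lam (us s)) ?_
  · exact this
  · intro a ha
    refine le_trans (show θ ≤ pl (wA ΛX hX T i0) (fun V => (HT hX V, Dp zX V)) (HT hX a, Dp zX a)
      from ha) (le_of_eq ?_)
    refine tsum_congr fun a' => ?_
    simp only [Prod.mk.injEq]
  · intro s'
    convert sm_le _ _ _ s'
  · intro c h h' hc1 hc2 g1 g2 g3 g4 E μ hE hμ hμM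
    refine le_trans ?_ ((H2 s h h' c d lo E μ _ lam hμ hμM hl0 hlt (by omega) hd (by omega)).trans
      (RR_bd C u lam (us s) θ _ E.card hE (by gcongr; exact geom_le u hu1 j)))
    refine ENNReal.tsum_le_tsum fun x => mul_le_mul_right
      (ENNReal.tsum_le_tsum fun V => ENNReal.tsum_le_tsum fun V' => ?_) _
    by_cases hh : HT hX V = h ∧ Dp zX V ∈ E ∧ HT hY V' = h' ∧ PC hX hY zX zY sX sY V V' x c d lo hi
    · rw [if_pos hh, if_pos ⟨hh.1, hh.2.1, hh.2.2.1, hh.2.2.2.1,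
        fun g k hg => (hh.2.2.2.2 g k hg).1⟩]
      exact mul_le_mul' (wA_le _ _ _ _ _) (wA_le _ _ _ _ _)
    · rw [if_neg hh]; exact zero_le

open Classical in
/-- term with `Y` local -/
theorem termY (h1X : ∀ b, 1 ≤ hX b) (h1Y : ∀ b, 1 ≤ hY b) (hΛX : ∑' b, ΛX b ≤ 1)
    (hΛY : ∑' b, ΛY b ≤ 1) (C : ℝ≥0∞) (us : ℕ → ℝ≥0∞)
    (H3 : H3s ΛX ΛY hX hY zX zY sX sY C us) (T i0 j s lo hi c d0 : ℕ) (y : G)
    (u θ lam : ℝ≥0∞) (hu1 : u ≤ 1) (hθ : θ ≠ 0) (hl0 : lam ≠ 0) (hlt : lam ≠ ⊤)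
    (hSmq : ∑' a, (if SmP (wA ΛY hY T i0) (fun V => (HT hY V, Dp zY V)) θ a
      then 0 else wA ΛY hY T i0 a) ≤ 1 - u)
    (hhi : hi + s ≤ c + T) (hc : j * T ≤ c) (hcd : c + i0 ≤ d0 + j * T) :
    SL (wA ΛY hY T i0) j (fun L => (if ∃ a ∈ L, SmP (wA ΛY hY T i0)
        (fun V => (HT hY V, Dp zY V)) θ a then 1 else 0) * ∑' V, ∑' V',
        (if LocP (wA ΛY hY T i0) (fun V => (HT hY V, Dp zY V)) θ V ∧ PC hX hY zX zY sX sY V' V (y + (L.map (Dp zY)).sum)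
        c (d0 + (L.map (HT hY)).sum) lo hi then wA ΛY hY T i0 V * wA ΛX hX T i0 V' else 0))
      ≤ ((j * i0 + 1 : ℕ) : ℝ≥0∞) * (((i0 + 1 : ℕ) : ℝ≥0∞) * ((i0 + 1 : ℕ) : ℝ≥0∞)
        * RR C u lam (us s)) := by
  have := term (wA ΛY hY T i0) (wA ΛX hX T i0) (HT hY) (Dp zY) (HT hX)
    (wA_mass ΛY hY h1Y hΛY T i0) T i0 j (fun a => wA_ne ΛY hY T i0 a)
    (fun b => wA_ne ΛX hX T i0 b) θ (2 * θ) (1 - u) hθ
    (LocP (wA ΛY hY T i0) (fun V => (HT hY V, Dp zY V)) θ)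
    (SmP (wA ΛY hY T i0) (fun V => (HT hY V, Dp zY V)) θ) ?_ ?_ hSmq
    (fun V V' x d => PC hX hY zX zY sX sY V' V x c (d0 + d) lo hi) (Equiv.addLeft y)
    (RR C u lam (us s)) ?_
  · exact this
  · intro a ha
    refine le_trans (show θ ≤ pl (wA ΛY hY T i0) (fun V => (HT hY V, Dp zY V)) (HT hY a, Dp zY a)
      from ha) (le_of_eq ?_)
    refine tsum_congr fun a' => ?_
    simp only [Prod.mk.injEq]
  · intro s'
    convert sm_le _ _ _ s'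
  · intro d h h' hd1 hd2 g1 g2 g3 g4 E μ hE hμ hμM
    refine le_trans ?_ ((H3 s h' h c (d0 + d) hi E μ _ lam hμ hμM hl0 hlt (by omega) (by omega)
      (by omega)).trans
      (RR_bd C u lam (us s) θ _ E.card hE (by gcongr; exact geom_le u hu1 j)))
    refine ENNReal.tsum_le_tsum fun x => mul_le_mul_right ?_ _
    rw [ENNReal.tsum_comm]
    refine ENNReal.tsum_le_tsum fun V' => ENNReal.tsum_le_tsum fun V => ?_
    by_cases hh : HT hY V = h ∧ Dp zY V ∈ E ∧ HT hX V' = h' ∧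
      PC hX hY zX zY sX sY V' V x c (d0 + d) lo hi
    · rw [if_pos hh, if_pos ⟨hh.2.2.1, hh.1, hh.2.1, hh.2.2.2.1,
        fun g k hg => (hh.2.2.2.2 g k hg).2⟩, mul_comm]
      exact mul_le_mul' (wA_le _ _ _ _ _) (wA_le _ _ _ _ _)
    · rw [if_neg hh]; exact zero_le

end win

end Crest.Agent.R154.Asm999
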