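import Crest.Agent.R154.FP_178
import Crest.Agent.R154.AsmA_789

/-! Row 154, ROAD 801 (helper801): the chain of first passage pieces. -/

set_option autoImplicit false

namespace Crest.Agent.R154.Asm801

open scoped ENNReal
open Crest.Agent.R154.B5A
open Crest.Agent.R154.FP178 (fp)

variable {B : Type*} (Λ : B → ℝ≥0∞) (ht : B → ℕ)

open Classical in
/-- weight of the good pieces: first passage of depth `T` with overshoot `≤ i0` -/
noncomputable def Lp (T i0 : ℕ) (V : List B) : ℝ≥0∞ :=
  if fp ht T V ∧ HT ht V ≤ T + i0 then LW Λ V else 0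

open Classical in
/-- mass of the bad overshoots -/
noncomputable def ov (T i0 : ℕ) : ℝ≥0∞ :=
  ∑' L, (if fp ht T L ∧ T + i0 < HT ht L then LW Λ L else 0)

open Classical in
lemma Lp_mass_le (h1 : ∀ b, 1 ≤ ht b) (hΛ : ∑' b, Λ b ≤ 1) (T i0 : ℕ) :
    ∑' V, Lp Λ ht T i0 V ≤ 1 := by
  refine (ENNReal.tsum_le_tsum fun V => ?_).trans (FP178.sum_FP Λ ht h1 hΛ T)
  unfold Lp
  by_cases h : fp ht T V ∧ HT ht V ≤ T + i0
  · rw [if_pos h, if_pos h.1]
  · rw [if_neg h]; exact zero_le

open Classical in
lemma U_eq (n : ℕ) : U Λ ht n = ∑' L : List B, (if HT ht L = n then LW Λ L else 0) := rfl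

open Classical in
lemma rest_le (hU1 : ∀ n, U Λ ht n ≤ 1) (n : ℕ) (V : List B) (F : List B → ℝ≥0∞)
    (hF : ∀ L, F L ≤ 1) :
    ∑' R : List B, LW Λ R * (if HT ht (V ++ R) = n then F R else 0) ≤ 1 := by
  refine le_trans ?_ (hU1 (n - HT ht V))
  rw [U_eq]
  refine ENNReal.tsum_le_tsum fun R => ?_
  by_cases h : HT ht (V ++ R) = n
  · rw [if_pos h, if_pos (by rw [HT_append] at h; omega)]
    exact (mul_le_mul_right (hF R) _).trans (by rw [mul_one])
  · rw [if_neg h, mul_zero]; exact zero_le

open Classical in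
/-- **the chain lemma** -/
theorem chain (h1 : ∀ b, 1 ≤ ht b) (hΛ : ∑' b, Λ b ≤ 1) (hU1 : ∀ n, U Λ ht n ≤ 1) (T i0 : ℕ) :
    ∀ (J n : ℕ) (F : List B → ℝ≥0∞), (∀ L, F L ≤ 1) → J * (T + i0) ≤ n →
    ∑' L : List B, LW Λ L * (if HT ht L = n then F L else 0)
      ≤ J * ov Λ ht T i0 + SL (Lp Λ ht T i0) J (fun VV => ∑' R : List B,
          LW Λ R * (if HT ht (VV.flatten ++ R) = n then F (VV.flatten ++ R) else 0)) := by
  intro J
  induction J with
  | zero =>
    intro n F hF hn
    rw [SL_zero]
    simp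
  | succ J ih =>
    intro n F hF hn
    have hn' : J * (T + i0) + (T + i0) ≤ n := by
      calc J * (T + i0) + (T + i0) = (J + 1) * (T + i0) := by ring
        _ ≤ n := hn
    have hT : T ≤ n := by omega
    have e1 : ∑' L : List B, LW Λ L * (if HT ht L = n then F L else 0)
        = ∑' L : List B, (if T ≤ HT ht L then LW Λ L * (if HT ht L = n then F L else 0) else 0) := by
      refine tsum_congr fun L => ?_
      by_cases h : HT ht L = n
      · rw [if_pos h, if_pos (by omega)]
      · rw [if_neg h]; simp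
    rw [e1, FP178.split Λ ht h1 T]
    have e2 : ∀ V : List B, (if fp ht T V then LW Λ V * ∑' R : List B, LW Λ R *
          (if HT ht (V ++ R) = n then F (V ++ R) else 0) else 0)
        ≤ (if fp ht T V ∧ T + i0 < HT ht V then LW Λ V else 0)
          + Lp Λ ht T i0 V * (J * ov Λ ht T i0)
          + Lp Λ ht T i0 V * SL (Lp Λ ht T i0) J (fun VV => ∑' R : List B,
            LW Λ R * (if HT ht ((V :: VV).flatten ++ R) = n then F ((V :: VV).flatten ++ R) else 0)) := by
      intro V
      by_cases hV : fp ht T V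
      · rw [if_pos hV]
        by_cases hg : HT ht V ≤ T + i0
        · rw [if_neg (by omega), zero_add, Lp, if_pos ⟨hV, hg⟩, ← mul_add]
          refine mul_le_mul_right ?_ _
          have h3 := ih (n - HT ht V) (fun R => F (V ++ R)) (fun L => hF _) (by omega)
          have h4 : ∑' R : List B, LW Λ R * (if HT ht (V ++ R) = n then F (V ++ R) else 0)
              = ∑' L : List B, LW Λ L * (if HT ht L = n - HT ht V then F (V ++ L) else 0) := by
            refine tsum_congr fun R => ?_
            rw [HT_append]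
            by_cases h : HT ht R = n - HT ht V
            · rw [if_pos h, if_pos (by omega)]
            · rw [if_neg h, if_neg (by omega)]
          rw [h4]
          refine h3.trans (add_le_add le_rfl (SL_mono _ J fun VV _ => ?_))
          refine ENNReal.tsum_le_tsum fun R => mul_le_mul_right ?_ _
          simp only [List.flatten_cons, HT_append, List.append_assoc]
          by_cases h : HT ht VV.flatten + HT ht R = n - HT ht V
          · rw [if_pos h, if_pos (by omega)]
          · rw [if_neg h]; exact zero_le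
        · rw [if_pos (⟨hV, by omega⟩ : fp ht T V ∧ T + i0 < HT ht V)]
          refine le_add_right (le_add_right ?_)
          exact (mul_le_mul_right (rest_le Λ ht hU1 n V (fun R => F (V ++ R)) fun _ => hF _) _).trans
            (by rw [mul_one])
      · rw [if_neg hV]; exact zero_le
    refine (ENNReal.tsum_le_tsum e2).trans ?_
    rw [ENNReal.tsum_add, ENNReal.tsum_add, ENNReal.tsum_mul_right, SL_succ]
    refine add_le_add ?_ le_rfl
    calc _ ≤ ov Λ ht T i0 + 1 * (J * ov Λ ht T i0) :=
          add_le_add le_rfl (mul_le_mul_left (Lp_mass_le Λ ht h1 hΛ T i0) _)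
      _ = _ := by push_cast; ring

open Classical in
/-- lower bound of the mass of the good pieces -/
lemma mass_ge (h1 : ∀ b, 1 ≤ ht b) (hU1 : ∀ n, U Λ ht n ≤ 1) (T i0 : ℕ) :
    U Λ ht T ≤ (∑' V, Lp Λ ht T i0 V) + ov Λ ht T i0 := by
  have e1 : U Λ ht T
      = ∑' L : List B, (if T ≤ HT ht L then LW Λ L * (if HT ht L = T then 1 else 0) else 0) := by
    rw [U_eq]
    refine tsum_congr fun L => ?_
    by_cases h : HT ht L = T
    · rw [if_pos h, if_pos (by omega), if_pos h, mul_one]
    · rw [if_neg h]; simp [h]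
  rw [e1, FP178.split Λ ht h1 T, ov, ← ENNReal.tsum_add]
  refine ENNReal.tsum_le_tsum fun V => ?_
  by_cases hV : fp ht T V
  · rw [if_pos hV]
    refine ((mul_le_mul_right (rest_le Λ ht hU1 T V (fun _ => 1) fun _ => le_rfl) _).trans
      (by rw [mul_one])).trans ?_
    unfold Lp
    by_cases hg : HT ht V ≤ T + i0
    · rw [if_pos ⟨hV, hg⟩]; exact le_add_right le_rfl
    · rw [if_pos (⟨hV, by omega⟩ : fp ht T V ∧ T + i0 < HT ht V)]; exact le_add_left le_rfl
  · rw [if_neg hV]; exact zero_le

end Crest.Agent.R154.Asm801
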