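import Crest.Agent.R154.AsmD_540

/-! Row 154, KAPPA' (road 801), helper209: the literals with ordered cuts, and `pair_marg` of 540
with separate thresholds for the two walkers. -/

set_option autoImplicit false

namespace Crest.Agent.R154.AsmS209

open scoped ENNReal
open Crest.Agent.R154.B5A
open Crest.Agent.R154.Asm540

variable {BX BY G : Type*} [AddCommGroup G]
  (ΛX : BX → ℝ≥0∞) (ΛY : BY → ℝ≥0∞) (hX : BX → ℕ) (hY : BY → ℕ) (zX : BX → G) (zY : BY → G)
  (sX : BX → Set (G × ℕ)) (sY : BY → Set (G × ℕ))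

open Classical in
/-- `X` local window lemma, top of `X` above (or at) the top of `Y` -/
def H2s (C : ℝ≥0∞) (us : ℕ → ℝ≥0∞) : Prop :=
  ∀ (s h h' a a' lo : ℕ) (E : Finset G) (μ : G → ℝ≥0∞) (M lam : ℝ≥0∞), ∑' x, μ x ≤ 1 →
    (∀ x, μ x ≤ M) → lam ≠ 0 → lam ≠ ⊤ → a ≤ a' → a + s ≤ lo → a' + s ≤ lo →
    ∑' x, μ x * ∑' L : List BX, ∑' L' : List BY,
      (if HT hX L = h ∧ Dp zX L ∈ E ∧ HT hY L' = h' ∧
          (∃ g k, Asm540.Cm hX hY zX zY sX sY L L' x a a' g k) ∧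
          (∀ g k, Asm540.Cm hX hY zX zY sX sY L L' x a a' g k → lo ≤ k)
        then LW ΛX L * LW ΛY L' else 0)
      ≤ C * (lam + M * E.card * us s / lam + us s)

open Classical in
/-- `Y` local window lemma, bottom of `Y` below (or at) the bottom of `X` -/
def H3s (C : ℝ≥0∞) (us : ℕ → ℝ≥0∞) : Prop :=
  ∀ (s h h' a a' hi : ℕ) (E : Finset G) (μ : G → ℝ≥0∞) (M lam : ℝ≥0∞), ∑' x, μ x ≤ 1 →
    (∀ x, μ x ≤ M) → lam ≠ 0 → lam ≠ ⊤ → a + h ≤ a' + h' → hi + s ≤ a + h → hi + s ≤ a' + h' →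
    ∑' x, μ x * ∑' L : List BX, ∑' L' : List BY,
      (if HT hX L = h ∧ HT hY L' = h' ∧ Dp zY L' ∈ E ∧
          (∃ g k, Asm540.Cm hX hY zX zY sX sY L L' x a a' g k) ∧
          (∀ g k, Asm540.Cm hX hY zX zY sX sY L L' x a a' g k → k ≤ hi)
        then LW ΛX L * LW ΛY L' else 0)
      ≤ C * (lam + M * E.card * us s / lam + us s)

lemma H2s_of (C : ℝ≥0∞) (us : ℕ → ℝ≥0∞) (h : H2 ΛX ΛY hX hY zX zY sX sY C us) :
    H2s ΛX ΛY hX hY zX zY sX sY C us :=
  fun s h1 h' a a' lo E μ M lam h2 h3 h4 h5 _ h7 h8 => h s h1 h' a a' lo E μ M lam h2 h3 h4 h5 h7 h8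

lemma H3s_of (C : ℝ≥0∞) (us : ℕ → ℝ≥0∞) (h : H3 ΛX ΛY hX hY zX zY sX sY C us) :
    H3s ΛX ΛY hX hY zX zY sX sY C us :=
  fun s h1 h' a a' hi E μ M lam h2 h3 h4 h5 _ h7 h8 => h s h1 h' a a' hi E μ M lam h2 h3 h4 h5 h7 h8

open Classical in
/-- the pair sum is bounded by the four-fold sum, separate thresholds -/
lemma pair_marg2 (h1X : ∀ b, 1 ≤ hX b) (h1Y : ∀ b, 1 ≤ hY b) (hUX : ∀ n, U ΛX hX n ≤ 1)
    (hUY : ∀ n, U ΛY hY n ≤ 1) (n r i0 r0 r' r0' : ℕ) (hn : r + i0 + r0 ≤ n)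
    (hn' : r' + i0 + r0' ≤ n)
    (Q : List BX → List BY → Prop)
    (f : List BX → List BX → List BY → List BY → ℝ≥0∞)
    (hQ : ∀ L L', HT hX L = n → HT hY L' = n → Q L L' →
      HT hX (pre hX r L) ≤ r + i0 → HT hY (pre hY r' L') ≤ r' + i0 →
      1 ≤ f (pre hX r L) (pre hX r0 (suf hX r L)) (pre hY r' L') (pre hY r0' (suf hY r' L'))) :
    ∑' L : List BX, ∑' L' : List BY, (if HT hX L = n ∧ HT hY L' = n ∧ Q L L'
        then LW ΛX L * LW ΛY L' else 0)
      ≤ e1 ΛX hX i0 + e1 ΛY hY i0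
        + S4 (wA ΛX hX r i0) (wP ΛX hX r0) (wA ΛY hY r' i0) (wP ΛY hY r0') f := by
  have hpt : ∀ L L', (if HT hX L = n ∧ HT hY L' = n ∧ Q L L' then LW ΛX L * LW ΛY L' else 0)
      ≤ (if HT hX L = n ∧ r + i0 < HT hX (pre hX r L) then LW ΛX L else 0)
            * (if HT hY L' = n then LW ΛY L' else 0)
        + (if HT hX L = n then LW ΛX L else 0)
            * (if HT hY L' = n ∧ r' + i0 < HT hY (pre hY r' L') then LW ΛY L' else 0)
        + (if HT hX L = n ∧ HT hX (pre hX r L) ≤ r + i0 then LW ΛX L *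
            (if HT hY L' = n ∧ HT hY (pre hY r' L') ≤ r' + i0 then LW ΛY L' *
              f (pre hX r L) (pre hX r0 (suf hX r L)) (pre hY r' L') (pre hY r0' (suf hY r' L'))
              else 0) else 0) := by
    intro L L'
    by_cases h : HT hX L = n ∧ HT hY L' = n ∧ Q L L'
    · rw [if_pos h]
      by_cases hA : r + i0 < HT hX (pre hX r L)
      · rw [if_pos ⟨h.1, hA⟩, if_pos h.2.1]
        exact le_trans le_self_add le_self_add
      · by_cases hA' : r' + i0 < HT hY (pre hY r' L')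
        · rw [if_neg (fun h' => hA h'.2), zero_mul, zero_add, if_pos h.1, if_pos ⟨h.2.1, hA'⟩]
          exact le_self_add
        · refine le_trans ?_ le_add_self
          rw [if_pos ⟨h.1, not_lt.1 hA⟩, if_pos ⟨h.2.1, not_lt.1 hA'⟩]
          refine mul_le_mul_right ?_ _
          calc LW ΛY L' = LW ΛY L' * 1 := (mul_one _).symm
            _ ≤ _ := mul_le_mul_right (hQ L L' h.1 h.2.1 h.2.2 (not_lt.1 hA) (not_lt.1 hA')) _
    · rw [if_neg h]; exact zero_le
  refine (ENNReal.tsum_le_tsum fun L => ENNReal.tsum_le_tsum fun L' => hpt L L').trans ?_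
  simp only [ENNReal.tsum_add]
  refine add_le_add (add_le_add ?_ ?_) ?_
  · simp only [ENNReal.tsum_mul_left, ENNReal.tsum_mul_right]
    exact (mul_le_mul' (marg0 ΛX hX h1X hUX n r i0 (by omega)) (hUY n)).trans (mul_one _).le
  · simp only [ENNReal.tsum_mul_left, ENNReal.tsum_mul_right]
    exact (mul_le_mul' (hUX n) (marg0 ΛY hY h1Y hUY n r' i0 (by omega))).trans (one_mul _).le
  · have hY' : ∀ L : List BX, ∑' L' : List BY, (if HT hX L = n ∧ HT hX (pre hX r L) ≤ r + i0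
          then LW ΛX L *
            (if HT hY L' = n ∧ HT hY (pre hY r' L') ≤ r' + i0 then LW ΛY L' *
              f (pre hX r L) (pre hX r0 (suf hX r L)) (pre hY r' L') (pre hY r0' (suf hY r' L'))
              else 0) else 0)
        ≤ (if HT hX L = n ∧ HT hX (pre hX r L) ≤ r + i0 then LW ΛX L *
            (∑' A', wA ΛY hY r' i0 A' * ∑' P', wP ΛY hY r0' P' *
              f (pre hX r L) (pre hX r0 (suf hX r L)) A' P') else 0) := by
      intro L
      by_cases h : HT hX L = n ∧ HT hX (pre hX r L) ≤ r + i0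
      · simp only [if_pos h]
        rw [ENNReal.tsum_mul_left]
        exact mul_le_mul_right (marg ΛY hY h1Y hUY n r' i0 r0' hn'
          (fun A' P' => f (pre hX r L) (pre hX r0 (suf hX r L)) A' P')) _
      · simp [if_neg h]
    refine (ENNReal.tsum_le_tsum hY').trans ?_
    exact marg ΛX hX h1X hUX n r i0 r0 hn (fun A P => ∑' A', wA ΛY hY r' i0 A' * ∑' P',
      wP ΛY hY r0' P' * f A P A' P')

end Crest.Agent.R154.AsmS209
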