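import Crest.Agent.R154.AsmC_10

/-! Row 154, ROAD 801, abstract assembly, part D (helper10): one window. -/

set_option autoImplicit false

namespace Crest.Agent.R154.Asm10

open scoped ENNReal Topology
open Filter Crest.Agent.R154.B5A

lemma push {B ι : Type*} (Λ : B → ℝ≥0∞) (g : B → ι) (Φ : ι → ℝ≥0∞) :
    ∑' b, Λ b * Φ (g b) = ∑' i, (∑' b, Λ b * I (g b = i)) * Φ i := by
  classical
  simp_rw [← ENNReal.tsum_mul_right]
  rw [ENNReal.tsum_comm]
  refine tsum_congr fun b => ?_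
  rw [tsum_eq_single (g b)]
  · rw [I_pos rfl, mul_one]
  · intro i hi
    rw [I_neg (fun h => hi h.symm), mul_zero, zero_mul]

section Pieces

variable {B G : Type*} [AddCommGroup G] (Λ : B → ℝ≥0∞) (h : B → ℕ) (z : B → G) (T : ℕ)

/-- displacement of a piece -/
def DP (P : Pc h T) : G := (P.1.map z).sum

/-- law of (height, displacement) of a piece -/
noncomputable def pl (i : ℕ × G) : ℝ≥0∞ := ∑' P : Pc h T, LP Λ h T P * I ((HP h T P, DP h z T P) = i)

lemma fl_sum (A : List (Pc h T)) : ((fl h T A).map z).sum = (A.map (DP h z T)).sum := by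
  induction A with
  | nil => simp
  | cons P A ih => rw [fl_cons, List.map_append, List.sum_append, ih]; rfl

lemma HT_fl (A : List (Pc h T)) : HT h (fl h T A) = HT (HP h T) A := by
  induction A with
  | nil => simp [HT_nil]
  | cons P A ih => rw [fl_cons, HT_append, ih, HT_cons]; rfl

lemma sum_pl (h1 : ∀ b, 1 ≤ h b) (hΛ : ∑' b, Λ b = 1) : ∑' i, pl Λ h z T i = 1 := by
  have := push (LP Λ h T) (fun P => (HP h T P, DP h z T P)) (fun _ => 1)
  simp only [mul_one] at this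
  unfold pl
  rw [← this]
  exact mass_fp_eq Λ h h1 hΛ T

/-- small attempts -/
def Sm (i0 : ℕ) (θ : ℝ≥0∞) (P : Pc h T) : Prop :=
  HP h T P ≤ T + i0 ∧ pl Λ h z T (HP h T P, DP h z T P) < 2 * θ

/-- non local pieces -/
def NL (θ : ℝ≥0∞) (P : Pc h T) : Prop := pl Λ h z T (HP h T P, DP h z T P) < θ

lemma mass_NL (θ u : ℝ≥0∞) (hu : (∑' i, if pl Λ h z T i < θ then pl Λ h z T i else 0) ≤ u) :
    ∑' P, LP Λ h T P * I (NL Λ h z T θ P) ≤ u := by
  refine le_trans (le_of_eq ?_) hu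
  have e := push (LP Λ h T) (fun P => (HP h T P, DP h z T P)) (fun i => I (pl Λ h z T i < θ))
  refine Eq.trans e ?_
  refine tsum_congr fun i => ?_
  change pl Λ h z T i * I (pl Λ h z T i < θ) = _
  by_cases hi : pl Λ h z T i < θ
  · rw [I_pos hi, if_pos hi, mul_one]
  · rw [I_neg hi, if_neg hi, mul_zero]

open Classical in
lemma mass_notSm (h1 : ∀ b, 1 ≤ h b) (hΛ : ∑' b, Λ b = 1) (i0 : ℕ) (θ u v : ℝ≥0∞) (hut : u ≠ ⊤)
    (hu : u ≤ (∑' i, if pl Λ h z T i < 2 * θ then pl Λ h z T i else 0))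
    (hv : 1 + ov Λ h T i0 ≤ u + v) :
    (∑' P, if Sm Λ h z T i0 θ P then 0 else LP Λ h T P) ≤ v := by
  have h0 : u ≤ ∑' P, LP Λ h T P * I (pl Λ h z T (HP h T P, DP h z T P) < 2 * θ) := by
    refine hu.trans (le_of_eq ?_)
    have e := push (LP Λ h T) (fun P => (HP h T P, DP h z T P))
      (fun i => I (pl Λ h z T i < 2 * θ))
    refine Eq.trans ?_ e.symm
    refine tsum_congr fun i => ?_
    change _ = pl Λ h z T i * I (pl Λ h z T i < 2 * θ)
    by_cases hi : pl Λ h z T i < 2 * θ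
    · rw [I_pos hi, if_pos hi, mul_one]
    · rw [I_neg hi, if_neg hi, mul_zero]
  have h2 : (∑' P, if Sm Λ h z T i0 θ P then 0 else LP Λ h T P)
      + ∑' P, LP Λ h T P * I (pl Λ h z T (HP h T P, DP h z T P) < 2 * θ)
      ≤ 1 + ov Λ h T i0 := by
    rw [← ENNReal.tsum_add, ← mass_fp_eq Λ h h1 hΛ T, ov, ← ENNReal.tsum_add]
    refine ENNReal.tsum_le_tsum fun P => ?_
    by_cases hs : Sm Λ h z T i0 θ P
    · rw [if_pos hs, zero_add]
      refine le_trans ?_ le_self_add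
      exact (mul_le_mul_right (I_le _) _).trans (mul_one _).le
    · rw [if_neg hs]
      by_cases hp : pl Λ h z T (HP h T P, DP h z T P) < 2 * θ
      · rw [I_pos hp, mul_one, if_pos]
        by_contra hcon
        exact hs ⟨not_lt.1 hcon, hp⟩
      · rw [I_neg hp, mul_zero, add_zero]; exact le_self_add
  have h3 : (∑' P, if Sm Λ h z T i0 θ P then 0 else LP Λ h T P) + u ≤ v + u := by
    calc _ ≤ _ := add_le_add le_rfl h0
      _ ≤ _ := h2
      _ ≤ _ := hv
      _ = _ := add_comm _ _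
  exact (ENNReal.add_le_add_iff_right hut).1 h3

open Classical in
lemma small_dens (i0 : ℕ) (θ : ℝ≥0∞) (x : G) :
    (∑' P, if Sm Λ h z T i0 θ P ∧ DP h z T P = x then LP Λ h T P else 0)
      ≤ (i0 + 1 : ℕ) * (2 * θ) := by
  have h1 : ∀ P : Pc h T, (if Sm Λ h z T i0 θ P ∧ DP h z T P = x then LP Λ h T P else 0)
      ≤ ∑ i ∈ Finset.range (i0 + 1), LP Λ h T P * I ((HP h T P, DP h z T P) = (T + i, x))
        * I (pl Λ h z T (T + i, x) < 2 * θ) := by
    intro P
    by_cases hP : Sm Λ h z T i0 θ P ∧ DP h z T P = x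
    · rw [if_pos hP]
      obtain ⟨⟨h2, h3⟩, h4⟩ := hP
      have h5 : T ≤ HP h T P := P.2.1
      have h6 : (HP h T P, DP h z T P) = (T + (HP h T P - T), x) := by
        rw [h4]; congr 1; omega
      refine le_trans ?_ (Finset.single_le_sum (f := fun i => LP Λ h T P *
        I ((HP h T P, DP h z T P) = (T + i, x)) * I (pl Λ h z T (T + i, x) < 2 * θ))
        (fun _ _ => zero_le) (Finset.mem_range.2 (show HP h T P - T < i0 + 1 by omega)))
      rw [I_pos h6, ← h6, I_pos h3, mul_one, mul_one]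
    · rw [if_neg hP]; exact zero_le
  refine (ENNReal.tsum_le_tsum h1).trans ?_
  rw [Summable.tsum_finsetSum (fun _ _ => ENNReal.summable)]
  calc _ ≤ ∑ _i ∈ Finset.range (i0 + 1), 2 * θ := by
        refine Finset.sum_le_sum fun i _ => ?_
        rw [ENNReal.tsum_mul_right]
        change pl Λ h z T (T + i, x) * _ ≤ _
        by_cases hp : pl Λ h z T (T + i, x) < 2 * θ
        · rw [I_pos hp, mul_one]; exact hp.le
        · rw [I_neg hp, mul_zero]; exact zero_le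
    _ = _ := by rw [Finset.sum_const, Finset.card_range, nsmul_eq_mul]

/-- the local displacements at height `n` -/
lemma exists_E (h1 : ∀ b, 1 ≤ h b) (hΛ : ∑' b, Λ b = 1) (θ : ℝ≥0∞) (hθ : θ ≠ 0) (n : ℕ) :
    ∃ E : Finset G, (∀ x, θ ≤ pl Λ h z T (n, x) → x ∈ E) ∧ θ * E.card ≤ 1 := by
  classical
  have hs : ∑' x, pl Λ h z T (n, x) ≤ 1 := by
    rw [← sum_pl Λ h z T h1 hΛ, ENNReal.tsum_prod']
    exact ENNReal.le_tsum n
  have hf : {x | θ ≤ pl Λ h z T (n, x)}.Finite :=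
    ENNReal.finite_const_le_of_tsum_ne_top (ne_top_of_le_ne_top ENNReal.one_ne_top hs) hθ
  refine ⟨hf.toFinset, fun x hx => hf.mem_toFinset.2 hx, ?_⟩
  calc θ * hf.toFinset.card = ∑ _x ∈ hf.toFinset, θ := by
        rw [Finset.sum_const, nsmul_eq_mul, mul_comm]
    _ ≤ ∑ x ∈ hf.toFinset, pl Λ h z T (n, x) :=
        Finset.sum_le_sum fun x hx => hf.mem_toFinset.1 hx
    _ ≤ ∑' x, pl Λ h z T (n, x) := ENNReal.sum_le_tsum _
    _ ≤ 1 := hs

end Pieces

section Reorder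

variable {BX BY G : Type*} (ΛX : BX → ℝ≥0∞) (ΛY : BY → ℝ≥0∞)

lemma reorder (j : ℕ) (α : List BX → List BY → Prop) (y : List BX → List BY → G)
    (ψ : G → BX → BY → Prop) :
    SL ΛX j (fun A => ∑' P, ΛX P * SL ΛY j (fun A' => ∑' Q, ΛY Q * I (α A A' ∧ ψ (y A A') P Q)))
      = ∑' x, SL ΛX j (fun A => SL ΛY j (fun A' => I (α A A' ∧ y A A' = x))) *
        ∑' P, ∑' Q, ΛX P * (ΛY Q * I (ψ x P Q)) := by
  classical
  set Ψ : G → ℝ≥0∞ := fun x => ∑' P, ∑' Q, ΛX P * (ΛY Q * I (ψ x P Q)) with hΨ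
  have ha : ∀ A, ∑' P, ΛX P * SL ΛY j (fun A' => ∑' Q, ΛY Q * I (α A A' ∧ ψ (y A A') P Q))
      = SL ΛY j (fun A' => ∑' x, Ψ x * I (α A A' ∧ y A A' = x)) := by
    intro A
    simp_rw [← SL_const_mul]
    rw [← SL_tsum]
    refine SL_congr _ _ fun A' _ => ?_
    rw [tsum_eq_single (y A A')]
    · simp only [hΨ, I_and, I_pos trivial, mul_one]
      rw [← ENNReal.tsum_mul_right]
      refine tsum_congr fun P => ?_
      rw [← ENNReal.tsum_mul_left, ← ENNReal.tsum_mul_right]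
      refine tsum_congr fun Q => ?_
      ring
    · intro x hx
      rw [I_neg (fun hh => hx hh.2.symm), mul_zero]
  simp_rw [ha]
  have hb : ∀ A, SL ΛY j (fun A' => ∑' x, Ψ x * I (α A A' ∧ y A A' = x))
      = ∑' x, Ψ x * SL ΛY j (fun A' => I (α A A' ∧ y A A' = x)) := by
    intro A
    rw [SL_tsum]
    exact tsum_congr fun x => SL_const_mul _ _ _ _
  simp_rw [hb]
  rw [SL_tsum]
  refine tsum_congr fun x => ?_
  rw [SL_const_mul, mul_comm]

lemma mu_mass (hΛX : ∑' b, ΛX b = 1) (hΛY : ∑' b, ΛY b = 1) (j : ℕ)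
    (α : List BX → List BY → Prop) (y : List BX → List BY → G) :
    ∑' x, SL ΛX j (fun A => SL ΛY j (fun A' => I (α A A' ∧ y A A' = x))) ≤ 1 := by
  classical
  rw [← SL_tsum]
  refine SL_le_of ΛX hΛX j _ _ fun A _ => ?_
  rw [← SL_tsum]
  refine SL_le_of ΛY hΛY j _ _ fun A' _ => ?_
  rw [tsum_eq_single (y A A')]
  · exact I_le _
  · intro x hx; exact I_neg fun hh => hx hh.2.symm

end Reorder

end Crest.Agent.R154.Asm10
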