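import Crest.Agent.R154.AsmC_103

/-! Row 154, ROAD 801, assembly in pieces from the tie (helper103), part 2: traces. -/

set_option autoImplicit false

namespace Crest.Agent.R154.Asm103

open scoped ENNReal
open Crest.Agent.R154.B5A Crest.Agent.R154.FP178

variable {B G : Type*} [AddCommGroup G]

/-- trace of a list placed at `x`, depth `a` -/
def TT (s : B → Set (G × ℕ)) (z : B → G) (h : B → ℕ) : List B → G → ℕ → Set (G × ℕ)
  | [], _, _ => ∅
  | b :: L, x, a => {p | ∃ q ∈ s b, p = (x + q.1, a + q.2)} ∪ TT s z h L (x + z b) (a + h b)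

/-- displacement -/
def Dp (z : B → G) (L : List B) : G := (L.map z).sum

lemma Dp_append (z : B → G) (L L' : List B) : Dp z (L ++ L') = Dp z L + Dp z L' := by simp [Dp]

lemma Dp_cons (z : B → G) (b : B) (L : List B) : Dp z (b :: L) = z b + Dp z L := by simp [Dp]

variable (s : B → Set (G × ℕ)) (z : B → G) (h : B → ℕ)

lemma TT_append (L L' : List B) (x : G) (a : ℕ) :
    TT s z h (L ++ L') x a = TT s z h L x a ∪ TT s z h L' (x + Dp z L) (a + HT h L) := by
  induction L generalizing x a with
  | nil => simp [TT, Dp, HT]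
  | cons b L ih =>
    rw [List.cons_append, TT, ih, TT, Dp_cons, HT_cons, Set.union_assoc, add_assoc, add_assoc]

lemma TT_shift (L : List B) (x c : G) (a : ℕ) (y : G) (k : ℕ) :
    (y, k) ∈ TT s z h L (x + c) a ↔ (y - c, k) ∈ TT s z h L x a := by
  induction L generalizing x a with
  | nil => simp [TT]
  | cons b L ih =>
    rw [TT, TT, Set.mem_union, Set.mem_union, show x + c + z b = (x + z b) + c by abel, ih]
    refine or_congr ?_ Iff.rfl
    constructor
    · rintro ⟨q, hq, hp⟩
      refine ⟨q, hq, ?_⟩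
      rw [Prod.mk.injEq] at hp ⊢
      refine ⟨?_, hp.2⟩
      rw [hp.1]; abel
    · rintro ⟨q, hq, hp⟩
      refine ⟨q, hq, ?_⟩
      rw [Prod.mk.injEq] at hp ⊢
      refine ⟨?_, hp.2⟩
      have := hp.1
      rw [sub_eq_iff_eq_add] at this
      rw [this]; abel

lemma TT_range (hs : ∀ b, ∀ q ∈ s b, 1 ≤ q.2 ∧ q.2 ≤ h b) (L : List B) (x : G) (a : ℕ)
    (p : G × ℕ) (hp : p ∈ TT s z h L x a) : a < p.2 ∧ p.2 ≤ a + HT h L := by
  induction L generalizing x a with
  | nil => simp [TT] at hp
  | cons b L ih =>
    rw [HT_cons]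
    rcases hp with ⟨q, hq, rfl⟩ | hp
    · have := hs b q hq
      constructor <;> simp only <;> omega
    · have := ih _ _ hp
      omega

/-- a point of the trace of a flattened list of pieces lies in one piece -/
lemma locate (Q : List (List B)) (x : G) (a : ℕ) (p : G × ℕ) (hp : p ∈ TT s z h Q.flatten x a) :
    ∃ j < Q.length, p ∈ TT s z h (Q.getD j []) (x + Dp z (Q.take j).flatten)
      (a + HT h (Q.take j).flatten) := by
  induction Q generalizing x a with
  | nil => simp [TT] at hp
  | cons A Q ih =>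
    rw [List.flatten_cons, TT_append] at hp
    rcases hp with hp | hp
    · refine ⟨0, by simp, ?_⟩
      simpa [Dp, HT] using hp
    · obtain ⟨j, hj, h1⟩ := ih _ _ hp
      refine ⟨j + 1, by simp; omega, ?_⟩
      rw [List.take_succ_cons, List.flatten_cons, Dp_append, HT_append, List.getD_cons_succ,
        ← add_assoc, ← add_assoc]
      exact h1

/-- conversely a point of the trace of a piece lies in the trace of the flattened list -/
lemma unlocate (Q : List (List B)) (x : G) (a : ℕ) (p : G × ℕ) (j : ℕ) (hj : j < Q.length)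
    (hp : p ∈ TT s z h (Q.getD j []) (x + Dp z (Q.take j).flatten)
      (a + HT h (Q.take j).flatten)) : p ∈ TT s z h Q.flatten x a := by
  induction Q generalizing x a j with
  | nil => simp at hj
  | cons A Q ih =>
    rw [List.flatten_cons, TT_append]
    cases j with
    | zero =>
      left
      simpa [Dp, HT] using hp
    | succ j =>
      right
      refine ih _ _ j (by simpa using hj) ?_
      rw [List.take_succ_cons, List.flatten_cons, Dp_append, HT_append, List.getD_cons_succ,
        ← add_assoc, ← add_assoc] at hp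
      exact hp

/-- height of good pieces -/
lemma HT_take (T i0 : ℕ) (Q : List (List B)) (hQ : ∀ A ∈ Q, T ≤ HT h A ∧ HT h A ≤ T + i0)
    (j : ℕ) (hj : j ≤ Q.length) :
    j * T ≤ HT h (Q.take j).flatten ∧ HT h (Q.take j).flatten ≤ j * (T + i0) := by
  induction Q generalizing j with
  | nil =>
    have : j = 0 := by simpa using hj
    subst this
    simp [HT]
  | cons A Q ih =>
    cases j with
    | zero => simp [HT]
    | succ j =>
      rw [List.take_succ_cons, List.flatten_cons, HT_append]
      have h1 := ih (fun A hA => hQ A (List.mem_cons_of_mem _ hA)) j (by simpa using hj)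
      have h2 := hQ A List.mem_cons_self
      constructor
      · nlinarith
      · nlinarith

variable {B' : Type*} (s' : B' → Set (G × ℕ)) (z' : B' → G) (h' : B' → ℕ)

/-- **matching**: off the slabs, contacts of good pieces are between pieces of the same index,
and all the common sites of these are deep in both. -/
theorem matching (hs : ∀ b, ∀ q ∈ s b, 1 ≤ q.2 ∧ q.2 ≤ h b)
    (hs' : ∀ b, ∀ q ∈ s' b, 1 ≤ q.2 ∧ q.2 ≤ h' b) (T i0 S J K m : ℕ) (hT : S + J * i0 + S < T)
    (hKm : K * T ≤ m) (Q : List (List B)) (Q' : List (List B')) (w : G)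
    (hQ : ∀ A ∈ Q, T ≤ HT h A ∧ HT h A ≤ T + i0) (hQ' : ∀ A ∈ Q', T ≤ HT h' A ∧ HT h' A ≤ T + i0)
    (hJ : Q.length = J) (hJ' : Q'.length = J)
    (hsl : ∀ y k, (y, k) ∈ TT s z h Q.flatten 0 0 → (y, k) ∈ TT s' z' h' Q'.flatten w 0 →
      ∀ i, K ≤ i → i ≤ J → ¬ (i * T ≤ k + S ∧ k ≤ i * T + J * i0 + S))
    (y : G) (k : ℕ) (hk : m < k) (h1 : (y, k) ∈ TT s z h Q.flatten 0 0)
    (h2 : (y, k) ∈ TT s' z' h' Q'.flatten w 0) :
    ∃ j, K ≤ j ∧ j < J ∧
      (∃ y k, (y, k) ∈ TT s z h (Q.getD j []) (Dp z (Q.take j).flatten) (HT h (Q.take j).flatten) ∧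
        (y, k) ∈ TT s' z' h' (Q'.getD j []) (w + Dp z' (Q'.take j).flatten)
          (HT h' (Q'.take j).flatten)) ∧
      (∀ y k, (y, k) ∈ TT s z h (Q.getD j []) (Dp z (Q.take j).flatten)
          (HT h (Q.take j).flatten) →
        (y, k) ∈ TT s' z' h' (Q'.getD j []) (w + Dp z' (Q'.take j).flatten)
          (HT h' (Q'.take j).flatten) → j * T + J * i0 + S ≤ k ∧ k + S ≤ (j + 1) * T) := by
  have loc : ∀ y k, m < k → (y, k) ∈ TT s z h Q.flatten 0 0 →
      (y, k) ∈ TT s' z' h' Q'.flatten w 0 → ∀ j, j < J →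
      ((y, k) ∈ TT s z h (Q.getD j []) (0 + Dp z (Q.take j).flatten)
        (0 + HT h (Q.take j).flatten) ∨
       (y, k) ∈ TT s' z' h' (Q'.getD j []) (w + Dp z' (Q'.take j).flatten)
          (0 + HT h' (Q'.take j).flatten)) →
      K ≤ j ∧ j * T + J * i0 + S < k ∧ k + S < (j + 1) * T := by
    intro y k hk h1 h2 j hj hor
    have hb : j * T < k ∧ k ≤ (j + 1) * T + J * i0 := by
      have hji : (j + 1) * (T + i0) ≤ (j + 1) * T + J * i0 := by
        have : (j + 1) * i0 ≤ J * i0 := Nat.mul_le_mul_right _ hj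
        nlinarith
      rcases hor with hor | hor
      · have r1 := TT_range s z h hs _ _ _ _ hor
        have r2 := HT_take h T i0 Q hQ j (by omega)
        have hmem : Q.getD j [] ∈ Q := by
          rw [List.getD_eq_getElem _ _ (by omega)]; exact List.getElem_mem _
        have r3 := hQ _ hmem
        simp only at r1
        constructor
        · omega
        · have : j * (T + i0) + (T + i0) = (j + 1) * (T + i0) := by ring
          omega
      · have r1 := TT_range s' z' h' hs' _ _ _ _ hor
        have r2 := HT_take h' T i0 Q' hQ' j (by omega)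
        have hmem : Q'.getD j [] ∈ Q' := by
          rw [List.getD_eq_getElem _ _ (by omega)]; exact List.getElem_mem _
        have r3 := hQ' _ hmem
        simp only at r1
        constructor
        · omega
        · have : j * (T + i0) + (T + i0) = (j + 1) * (T + i0) := by ring
          omega
    have hKj1 : K ≤ j + 1 := by
      by_contra hc
      have : (j + 1) + 1 ≤ K := by omega
      have h3 : ((j + 1) + 1) * T ≤ K * T := Nat.mul_le_mul_right _ this
      nlinarith
    have s2 := hsl y k h1 h2 (j + 1) hKj1 (by omega)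
    have hup : k + S < (j + 1) * T := by
      by_contra hc
      exact s2 ⟨by omega, by omega⟩
    have hKj : K ≤ j := by
      by_contra hc
      have : j + 1 ≤ K := by omega
      have h3 : (j + 1) * T ≤ K * T := Nat.mul_le_mul_right _ this
      omega
    have s1 := hsl y k h1 h2 j hKj (by omega)
    refine ⟨hKj, ?_, hup⟩
    by_contra hc
    exact s1 ⟨by omega, by omega⟩
  obtain ⟨j, hj, hjm⟩ := locate s z h Q 0 0 (y, k) h1
  obtain ⟨j', hj', hjm'⟩ := locate s' z' h' Q' w 0 (y, k) h2
  have a1 := loc y k hk h1 h2 j (by omega) (Or.inl hjm)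
  have a2 := loc y k hk h1 h2 j' (by omega) (Or.inr hjm')
  have hjj : j = j' := by
    rcases lt_trichotomy j j' with hlt | heq | hgt
    · exfalso
      have : (j + 1) * T ≤ j' * T := Nat.mul_le_mul_right _ hlt
      omega
    · exact heq
    · exfalso
      have : (j' + 1) * T ≤ j * T := Nat.mul_le_mul_right _ hgt
      omega
  subst hjj
  rw [zero_add, zero_add] at hjm
  rw [zero_add] at hjm'
  refine ⟨j, a1.1, by omega, ⟨y, k, hjm, hjm'⟩, ?_⟩
  intro y' k' g1 g2
  have f1 : (y', k') ∈ TT s z h Q.flatten 0 0 :=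
    unlocate s z h Q 0 0 _ j (by omega) (by rw [zero_add, zero_add]; exact g1)
  have f2 : (y', k') ∈ TT s' z' h' Q'.flatten w 0 :=
    unlocate s' z' h' Q' w 0 _ j (by omega) (by rw [zero_add]; exact g2)
  -- depth of the site is larger than the top of the piece
  have hm' : j * T < k' := by
    have r1 := TT_range s z h hs _ _ _ _ g1
    have r2 := HT_take h T i0 Q hQ j (by omega)
    simp only at r1
    omega
  have hkk : k' ≤ (j + 1) * T + J * i0 := by
    have r1 := TT_range s z h hs _ _ _ _ g1
    have r2 := HT_take h T i0 Q hQ j (by omega)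
    have hmem : Q.getD j [] ∈ Q := by
      rw [List.getD_eq_getElem _ _ (by omega)]; exact List.getElem_mem _
    have r3 := hQ _ hmem
    simp only at r1
    have hji : (j + 1) * (T + i0) ≤ (j + 1) * T + J * i0 := by
      have : (j + 1) * i0 ≤ J * i0 := Nat.mul_le_mul_right _ (by omega)
      nlinarith
    have : j * (T + i0) + (T + i0) = (j + 1) * (T + i0) := by ring
    omega
  have s1 := hsl y' k' f1 f2 j a1.1 (by omega)
  have s2 := hsl y' k' f1 f2 (j + 1) (by omega) (by omega)
  constructor
  · by_contra hc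
    exact s1 ⟨by omega, by omega⟩
  · by_contra hc
    exact s2 ⟨by omega, by omega⟩

end Crest.Agent.R154.Asm103
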