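import Crest.Agent.R154.AsmC_12

/-! Row 154, ROAD 801 (helper12): covers and geometry of the lists. -/

set_option autoImplicit false

namespace Crest.Agent.R154.AsmD12

open scoped ENNReal
open Crest.Agent.R154.B5A (LW HT LW_append HT_append HT_cons HT_nil LW_nil)
open Crest.Agent.R154.FP178
open Crest.Agent.R154.Hit12
open Crest.Agent.R154.Bind12 (TT)

section cover

variable {B : Type*} (Λ : B → ℝ≥0∞) (ht : B → ℕ)

open Classical in
lemma cov (hU1 : ∀ n, B5A.U Λ ht n ≤ 1) (n : ℕ) (F : List B → ℝ≥0∞) (Fs : List B → List B → ℝ≥0∞)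
    (hF : ∀ L, HT ht L = n → F L ≤ ∑' t : List B × List B × List B,
      (if L = t.1 ++ (t.2.1 ++ t.2.2) then Fs t.1 t.2.1 else 0)) :
    ∑' L, (if HT ht L = n then LW Λ L * F L else 0)
      ≤ ∑' P, ∑' Q, LW Λ P * (LW Λ Q * Fs P Q) := by
  calc _ ≤ ∑' L, ∑' t : List B × List B × List B, (if L = t.1 ++ (t.2.1 ++ t.2.2) then
          (if HT ht L = n then LW Λ L * Fs t.1 t.2.1 else 0) else 0) := by
        refine ENNReal.tsum_le_tsum fun L => ?_
        by_cases h : HT ht L = n
        · simp only [h, if_true]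
          refine (mul_le_mul_right (hF L h) _).trans (le_of_eq ?_)
          rw [← ENNReal.tsum_mul_left]
          refine tsum_congr fun t => ?_
          split_ifs <;> simp
        · simp [h]
    _ = ∑' t : List B × List B × List B, (if HT ht (t.1 ++ (t.2.1 ++ t.2.2)) = n then
          LW Λ (t.1 ++ (t.2.1 ++ t.2.2)) * Fs t.1 t.2.1 else 0) := by
        rw [ENNReal.tsum_comm]
        refine tsum_congr fun t => ?_
        rw [tsum_eq_single (t.1 ++ (t.2.1 ++ t.2.2))]
        · rw [if_pos rfl]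
        · intro L hL; rw [if_neg hL]
    _ = ∑' P, ∑' Q, ∑' R, (if HT ht (P ++ (Q ++ R)) = n then
          LW Λ (P ++ (Q ++ R)) * Fs P Q else 0) := by
        rw [ENNReal.tsum_prod']
        refine tsum_congr fun P => ?_
        rw [ENNReal.tsum_prod']
    _ ≤ _ := by
        refine ENNReal.tsum_le_tsum fun P => ENNReal.tsum_le_tsum fun Q => ?_
        have : ∀ R, (if HT ht (P ++ (Q ++ R)) = n then LW Λ (P ++ (Q ++ R)) * Fs P Q else 0)
            ≤ LW Λ P * (LW Λ Q * Fs P Q) *
              (if HT ht R = n - HT ht P - HT ht Q then LW Λ R else 0) := by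
          intro R
          by_cases h : HT ht (P ++ (Q ++ R)) = n
          · rw [if_pos h, if_pos (by rw [HT_append, HT_append] at h; omega), LW_append, LW_append]
            exact le_of_eq (by ring)
          · rw [if_neg h]; exact zero_le
        calc _ ≤ ∑' R, LW Λ P * (LW Λ Q * Fs P Q) *
              (if HT ht R = n - HT ht P - HT ht Q then LW Λ R else 0) := ENNReal.tsum_le_tsum this
          _ = LW Λ P * (LW Λ Q * Fs P Q) * B5A.U Λ ht (n - HT ht P - HT ht Q) :=
              ENNReal.tsum_mul_left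
          _ ≤ LW Λ P * (LW Λ Q * Fs P Q) * 1 := mul_le_mul_right (hU1 _) _
          _ = _ := mul_one _

end cover

section cover2

variable {BX BY : Type*} (ΛX : BX → ℝ≥0∞) (hX : BX → ℕ) (ΛY : BY → ℝ≥0∞) (hY : BY → ℕ)

open Classical in
lemma cov2 (hUX : ∀ n, B5A.U ΛX hX n ≤ 1) (hUY : ∀ n, B5A.U ΛY hY n ≤ 1) (n : ℕ)
    (Event : List BX → List BY → Prop) (A : List BX → List BX → List BY → List BY → Prop)
    (h : ∀ LX LY, HT hX LX = n → HT hY LY = n → Event LX LY →
      ∃ P Q R P' Q' R', LX = P ++ (Q ++ R) ∧ LY = P' ++ (Q' ++ R') ∧ A P Q P' Q') :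
    ∑' LX, ∑' LY, (if HT hX LX = n ∧ HT hY LY = n ∧ Event LX LY then LW ΛX LX * LW ΛY LY else 0)
      ≤ ∑' P, ∑' Q, LW ΛX P * (LW ΛX Q * ∑' P', ∑' Q', LW ΛY P' * (LW ΛY Q' *
        (if A P Q P' Q' then 1 else 0))) := by
  have e1 : ∑' LX, ∑' LY, (if HT hX LX = n ∧ HT hY LY = n ∧ Event LX LY then
      LW ΛX LX * LW ΛY LY else 0)
      = ∑' LX, (if HT hX LX = n then LW ΛX LX * ∑' LY, (if HT hY LY = n then LW ΛY LY *
        (if Event LX LY then 1 else 0) else 0) else 0) := by
    refine tsum_congr fun LX => ?_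
    by_cases h1 : HT hX LX = n
    · simp only [h1, if_true, true_and]
      rw [← ENNReal.tsum_mul_left]
      refine tsum_congr fun LY => ?_
      by_cases h2 : HT hY LY = n <;> by_cases h3 : Event LX LY <;> simp [h2, h3]
    · simp [h1]
  rw [e1]
  refine cov ΛX hX hUX n _ (fun P Q => ∑' P', ∑' Q', LW ΛY P' * (LW ΛY Q' *
        (if A P Q P' Q' then 1 else 0))) ?_
  intro LX hLX
  calc _ ≤ ∑' LY, ∑' t : List BX × List BX × List BX, (if LX = t.1 ++ (t.2.1 ++ t.2.2) then
          (if HT hY LY = n then LW ΛY LY * (if ∃ P' Q' R', LY = P' ++ (Q' ++ R') ∧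
            A t.1 t.2.1 P' Q' then 1 else 0) else 0) else 0) := by
        refine ENNReal.tsum_le_tsum fun LY => ?_
        by_cases h2 : HT hY LY = n
        · by_cases h3 : Event LX LY
          · obtain ⟨P, Q, R, P', Q', R', g1, g2, g3⟩ := h LX LY hLX h2 h3
            refine le_trans ?_ (ENNReal.le_tsum ((P, Q, R) : List BX × List BX × List BX))
            rw [if_pos h2, if_pos h3, if_pos g1, if_pos h2, if_pos ⟨P', Q', R', g2, g3⟩]
          · rw [if_pos h2, if_neg h3, mul_zero]; exact zero_le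
        · rw [if_neg h2]; exact zero_le
    _ = ∑' t : List BX × List BX × List BX, (if LX = t.1 ++ (t.2.1 ++ t.2.2) then
          ∑' LY, (if HT hY LY = n then LW ΛY LY * (if ∃ P' Q' R', LY = P' ++ (Q' ++ R') ∧
            A t.1 t.2.1 P' Q' then 1 else 0) else 0) else 0) := by
        rw [ENNReal.tsum_comm]
        refine tsum_congr fun t => ?_
        by_cases h4 : LX = t.1 ++ (t.2.1 ++ t.2.2)
        · simp only [if_pos h4]
        · simp only [if_neg h4, tsum_zero]
    _ ≤ _ := by
        refine ENNReal.tsum_le_tsum fun t => ?_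
        by_cases h4 : LX = t.1 ++ (t.2.1 ++ t.2.2)
        · rw [if_pos h4, if_pos h4]
          refine cov ΛY hY hUY n _ (fun P' Q' => if A t.1 t.2.1 P' Q' then 1 else 0) ?_
          intro LY _
          by_cases h5 : ∃ P' Q' R', LY = P' ++ (Q' ++ R') ∧ A t.1 t.2.1 P' Q'
          · rw [if_pos h5]
            obtain ⟨P', Q', R', g1, g2⟩ := h5
            refine le_trans ?_ (ENNReal.le_tsum ((P', Q', R') : List BY × List BY × List BY))
            rw [if_pos g1, if_pos g2]
          · rw [if_neg h5]; exact zero_le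
        · rw [if_neg h4, if_neg h4]

open Classical in
/-- one-walker event (X) -/
lemma covX (hUX : ∀ n, B5A.U ΛX hX n ≤ 1) (hUY : ∀ n, B5A.U ΛY hY n ≤ 1) (n : ℕ)
    (Event : List BX → Prop) (A : List BX → List BX → Prop)
    (h : ∀ LX, HT hX LX = n → Event LX → ∃ P Q R, LX = P ++ (Q ++ R) ∧ A P Q) :
    ∑' LX, ∑' LY, (if HT hX LX = n ∧ HT hY LY = n ∧ Event LX then LW ΛX LX * LW ΛY LY else 0)
      ≤ ∑' P, ∑' Q, LW ΛX P * (LW ΛX Q * (if A P Q then 1 else 0)) := by
  calc _ ≤ ∑' LX, (if HT hX LX = n then LW ΛX LX * (if Event LX then 1 else 0) else 0) := by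
        refine ENNReal.tsum_le_tsum fun LX => ?_
        by_cases h1 : HT hX LX = n
        · by_cases h2 : Event LX
          · simp only [h1, h2, if_true, and_true, true_and]
            calc ∑' LY, (if HT hY LY = n then LW ΛX LX * LW ΛY LY else 0)
                = LW ΛX LX * B5A.U ΛY hY n := by
                  rw [B5A.U, ← ENNReal.tsum_mul_left]
                  refine tsum_congr fun LY => ?_
                  split_ifs <;> simp
              _ ≤ LW ΛX LX * 1 := mul_le_mul_right (hUY n) _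
          · simp [h2]
        · simp [h1]
    _ ≤ _ := by
        refine cov ΛX hX hUX n _ (fun P Q => if A P Q then 1 else 0) ?_
        intro LX hLX
        by_cases h2 : Event LX
        · obtain ⟨P, Q, R, g1, g2⟩ := h LX hLX h2
          refine le_trans ?_ (ENNReal.le_tsum ((P, Q, R) : List BX × List BX × List BX))
          rw [if_pos h2, if_pos g1, if_pos g2]
        · rw [if_neg h2]; exact zero_le

open Classical in
/-- one-walker event (Y) -/
lemma covY (hUX : ∀ n, B5A.U ΛX hX n ≤ 1) (hUY : ∀ n, B5A.U ΛY hY n ≤ 1) (n : ℕ)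
    (Event : List BY → Prop) (A : List BY → List BY → Prop)
    (h : ∀ LY, HT hY LY = n → Event LY → ∃ P Q R, LY = P ++ (Q ++ R) ∧ A P Q) :
    ∑' LX, ∑' LY, (if HT hX LX = n ∧ HT hY LY = n ∧ Event LY then LW ΛX LX * LW ΛY LY else 0)
      ≤ ∑' P, ∑' Q, LW ΛY P * (LW ΛY Q * (if A P Q then 1 else 0)) := by
  rw [ENNReal.tsum_comm]
  refine le_trans (le_of_eq ?_) (covX ΛY hY ΛX hX hUY hUX n Event A h)
  refine tsum_congr fun LY => tsum_congr fun LX => ?_
  by_cases h1 : HT hX LX = n <;> by_cases h2 : HT hY LY = n <;> by_cases h3 : Event LY <;>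
    simp [h1, h2, h3, mul_comm]

open Classical in
/-- weight of `first piece overshoots` -/
lemma over1 (Λ : BX → ℝ≥0∞) (ht : BX → ℕ) (a i : ℕ) (e : ℝ≥0∞)
    (he : ∑' A, (if fp ht a A ∧ a + i < HT ht A then LW Λ A else 0) ≤ e) :
    ∑' P, ∑' Q : List BX, LW Λ P * (LW Λ Q * (if (fp ht a P ∧ a + i < HT ht P) ∧ Q = [] then 1 else 0))
      ≤ e := by
  refine le_trans (le_of_eq ?_) he
  refine tsum_congr fun P => ?_
  rw [tsum_eq_single ([] : List BX)]
  · rw [LW_nil]
    by_cases h : fp ht a P ∧ a + i < HT ht P <;> simp [h]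
  · intro Q hQ
    rw [if_neg (fun hc => hQ hc.2)]; simp

open Classical in
/-- weight of `second piece overshoots` -/
lemma over2 (Λ : BX → ℝ≥0∞) (ht : BX → ℕ) (hb : ∀ b, 1 ≤ ht b) (hΛ : ∑' b, Λ b ≤ 1) (a T i : ℕ)
    (e : ℝ≥0∞)
    (he : ∑' A, (if fp ht T A ∧ T + i < HT ht A then LW Λ A else 0) ≤ e) :
    ∑' P, ∑' Q : List BX, LW Λ P * (LW Λ Q * (if fp ht a P ∧ (fp ht T Q ∧ T + i < HT ht Q)
      then 1 else 0)) ≤ e := by
  calc _ ≤ ∑' P, (if fp ht a P then LW Λ P else 0) * e := by
        refine ENNReal.tsum_le_tsum fun P => ?_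
        by_cases h : fp ht a P
        · simp only [h, true_and, if_true]
          rw [ENNReal.tsum_mul_left]
          refine mul_le_mul_right (le_trans (le_of_eq ?_) he) _
          refine tsum_congr fun Q => ?_
          by_cases h : fp ht T Q ∧ T + i < HT ht Q <;> simp [h]
        · simp [h]
    _ = (∑' P, (if fp ht a P then LW Λ P else 0)) * e := ENNReal.tsum_mul_right
    _ ≤ 1 * e := mul_le_mul_left (sum_FP Λ ht hb hΛ a) _
    _ = e := one_mul e

end cover2

/-! ### geometry -/

section geo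

variable {B G : Type*} [AddCommGroup G] (s : B → Set (G × ℕ)) (z : B → G) (h : B → ℕ)

lemma TT_append (L L' : List B) (x : G) (a : ℕ) :
    TT s z h (L ++ L') x a = TT s z h L x a ∪ TT s z h L' (x + Dp z L) (a + HT h L) := by
  induction L generalizing x a with
  | nil => simp [TT, Dp, HT]
  | cons b L ih =>
    simp only [List.cons_append, TT]
    rw [ih, Set.union_assoc]
    have e1 : x + z b + Dp z L = x + Dp z (b :: L) := by simp [Dp, add_assoc]
    have e2 : a + h b + HT h L = a + HT h (b :: L) := by rw [HT_cons]; ring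
    rw [e1, e2]

lemma TT_depth (hs : ∀ b, ∀ q ∈ s b, 1 ≤ q.2 ∧ q.2 ≤ h b) (L : List B) (x : G) (a : ℕ) (y : G)
    (k : ℕ) (hk : (y, k) ∈ TT s z h L x a) : a < k ∧ k ≤ a + HT h L := by
  induction L generalizing x a with
  | nil => simp [TT] at hk
  | cons b L ih =>
    rw [HT_cons]
    rcases hk with ⟨q, hq, hp⟩ | hk
    · have h1 := hs b q hq
      have h2 := (Prod.mk.inj hp).2
      omega
    · have := ih _ _ hk
      omega

lemma TT_shift (L : List B) (x c : G) (a : ℕ) (y : G) (k : ℕ) :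
    (y, k) ∈ TT s z h L (x + c) a ↔ (y - c, k) ∈ TT s z h L x a := by
  induction L generalizing x a with
  | nil => simp [TT]
  | cons b L ih =>
    simp only [TT, Set.mem_union]
    rw [show x + c + z b = x + z b + c by abel, ih]
    refine or_congr ?_ Iff.rfl
    constructor
    · rintro ⟨q, hq, hp⟩
      obtain ⟨h1, h2⟩ := Prod.mk.inj hp
      exact ⟨q, hq, Prod.ext (by simp only; rw [h1]; abel) h2⟩
    · rintro ⟨q, hq, hp⟩
      obtain ⟨h1, h2⟩ := Prod.mk.inj hp
      exact ⟨q, hq, Prod.ext (by simp only; rw [sub_eq_iff_eq_add] at h1; rw [h1]; abel) h2⟩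

end geo

end Crest.Agent.R154.AsmD12
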