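import Crest.Agent.R154.AsmC_129

/-! Row 154, KAPPA' (801 #38888): one window (helper129). -/

set_option autoImplicit false

namespace Crest.Agent.R154.Asm129

open scoped ENNReal
open Crest.Agent.R154.B5A
open Classical

variable {BX BY G : Type*} [AddCommGroup G]
variable (ΛX : BX → ℝ≥0∞) (hX : BX → ℕ) (zX : BX → G)
  (ΛY : BY → ℝ≥0∞) (hY : BY → ℕ) (zY : BY → G)
  (Ct : ℕ → ℕ → G → List BX → List BY → Set ℕ)

/-- the event of one window -/
def Ev (w : G) (m t s i0 : ℕ) (L : List BX) (L' : List BY) : Prop :=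
  (∀ k ∈ Ct 0 0 w L L', m < k) ∧ (∃ k ∈ Ct 0 0 w L L', k ≤ m + t) ∧
    ∀ k ∈ Ct 0 0 w L L', m + 2 * t < k + s → ¬ k ≤ m + 2 * t + 2 * i0

/-- nested sum over pairs -/
noncomputable def NS (n : ℕ) (Q : List BX → List BY → Prop) : ℝ≥0∞ :=
  ∑' L, (if HT hX L = n then LW ΛX L * ∑' L', (if HT hY L' = n then LW ΛY L' *
    (if Q L L' then 1 else 0) else 0) else 0)

/-- one H-part -/
lemma hpart (h1X : ∀ b, 1 ≤ hX b) (h1Y : ∀ b, 1 ≤ hY b) (hΛX : ∑' b, ΛX b = 1)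
    (hΛY : ∑' b, ΛY b = 1) (D D' T i0 : ℕ) (w : G)
    (p : ℕ → ℕ → G → List BX → List BY → Prop) (M δ β : ℝ≥0∞)
    (h : (∃ b : ℕ × G → ℝ≥0∞, ∑' x, b x ≤ δ ∧ ∀ x, fl ΛX hX zX D x ≤ M + b x) ∨
      (∃ b : ℕ × G → ℝ≥0∞, ∑' x, b x ≤ δ ∧ ∀ x, fl ΛY hY zY D' x ≤ M + b x))
    (hβ : ∀ j j' i i', j ≤ i0 → j' ≤ i0 → i ≤ i0 → i' ≤ i0 → ∀ μ : G → ℝ≥0∞,
      ∑' x, μ x ≤ 1 → (∀ x, μ x ≤ M) → ∑' x, μ x * ∑' P, ∑' P',
      (if HT hX P = T + i ∧ HT hY P' = T + i' ∧ p (D + j) (D' + j') x P P'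
        then LW ΛX P * LW ΛY P' else 0) ≤ β) :
    FS ΛX hX D (fun A => FS ΛX hX T (fun P => FS ΛY hY D' (fun A' => FS ΛY hY T (fun P' =>
      if (HT hX A ≤ D + i0 ∧ HT hY A' ≤ D' + i0) ∧ ((HT hX P ≤ T + i0 ∧ HT hY P' ≤ T + i0) ∧
        p (HT hX A) (HT hY A') (w + Dp zY A' - Dp zX A) P P') then 1 else 0))))
      ≤ ((i0 + 1 : ℕ) : ℝ≥0∞) * ((i0 + 1 : ℕ) * (((i0 + 1 : ℕ) : ℝ≥0∞) * ((i0 + 1 : ℕ) * β)))
        + δ := by
  rw [fssum]
  refine pair_sum (fl ΛX hX zX D) (fl ΛY hY zY D') (fl_mass ΛX hX zX h1X hΛX D).le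
    (fl_mass ΛY hY zY h1Y hΛY D').le M δ h i0
    (fun i i' y => if i ≤ i0 ∧ i' ≤ i0 then FS ΛX hX T (fun P => FS ΛY hY T (fun P' =>
        if (HT hX P ≤ T + i0 ∧ HT hY P' ≤ T + i0) ∧ p (D + i) (D' + i') y P P' then 1 else 0))
        else 0) ?_ ?_ _ ?_ w
  · intro i i' x
    split_ifs
    · refine FS2_le_one ΛX hX ΛY hY h1X h1Y hΛX hΛY T T _ fun P P' => ?_
      split_ifs <;> simp
    · exact zero_le
  · intro i i' x hi
    simp only [if_neg hi]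
  · intro j j' hj hj' μ hμ hμM
    simp only [hj, hj', and_self, if_true]
    exact Kmu ΛX hX ΛY hY T i0 (fun x => p (D + j) (D' + j') x) β μ
      (fun i i' hi hi' => hβ j j' i i' hj hj' hi hi' μ hμ hμM)

theorem window (h1X : ∀ b, 1 ≤ hX b) (h1Y : ∀ b, 1 ≤ hY b) (hΛX : ∑' b, ΛX b = 1)
    (hΛY : ∑' b, ΛY b = 1) (hUX : ∀ n, U ΛX hX n ≤ 1) (hUY : ∀ n, U ΛY hY n ≤ 1)
    (hCt1 : ∀ (A P R : List BX) (A' P' R' : List BY) (w : G),
      Ct (HT hX A) (HT hY A') (w + Dp zY A' - Dp zX A) P P'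
        ⊆ Ct 0 0 w (A ++ (P ++ R)) (A' ++ (P' ++ R')))
    (hCt2 : ∀ (A P R : List BX) (A' P' R' : List BY) (w : G) (k : ℕ),
      k ∈ Ct 0 0 w (A ++ (P ++ R)) (A' ++ (P' ++ R')) → HT hX A < k → k ≤ HT hX A + HT hX P →
      HT hY A' < k → k ≤ HT hY A' + HT hY P' →
      k ∈ Ct (HT hX A) (HT hY A') (w + Dp zY A' - Dp zX A) P P')
    (hCt3 : ∀ a a' x (P : List BX) (P' : List BY) k, k ∈ Ct a a' x P P' → k ≤ a + HT hX P)
    (C : ℝ≥0∞) (us : ℕ → ℝ≥0∞) (hH2 : H2 ΛX hX zX ΛY hY Ct C us)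
    (hH3 : H3 ΛX hX ΛY hY zY Ct C us)
    (u : ℝ≥0∞) (hu0 : u ≠ 0) (hu1 : u < 1) (N i0 s t m n : ℕ) (lam : ℝ≥0∞) (hl0 : lam ≠ 0)
    (hlt : lam ≠ ⊤) (h2i : 2 * i0 ≤ t) (his : i0 + s ≤ t)
    (hm : N * (4 * t + i0) + 2 * t ≤ m) (hn : m + 4 * t + i0 ≤ n) (w : G) :
    NS ΛX hX ΛY hY n (Ev Ct w m t s i0) ≤
      2 * ep ΛX hX i0 + (2 * ep ΛY hY i0 + (u * u
        + ((((i0 + 1 : ℕ) : ℝ≥0∞) * ((i0 + 1 : ℕ) * (((i0 + 1 : ℕ) : ℝ≥0∞) * ((i0 + 1 : ℕ) *
          (C * (lam + N * (i0 + 1 : ℕ) * us s / lam + us s)))))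
          + ((1 - u) ^ N + N * ep ΛX hX i0))
        + (((i0 + 1 : ℕ) : ℝ≥0∞) * ((i0 + 1 : ℕ) * (((i0 + 1 : ℕ) : ℝ≥0∞) * ((i0 + 1 : ℕ) *
          (C * (lam + N * (i0 + 1 : ℕ) * us s / lam + us s)))))
          + ((1 - u) ^ N + N * ep ΛY hY i0))))) := by
  set T := 4 * t with hT
  set D := m - 2 * t with hD
  set D' := m - t with hD'
  have hNm : N * (T + i0) ≤ D := by omega
  obtain ⟨thX, hthX, hthX1, hnlX, hdX⟩ := fl_dens ΛX hX zX h1X hΛX hUX T i0 u hu0 hu1 N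
  obtain ⟨thY, hthY, hthY1, hnlY, hdY⟩ := fl_dens ΛY hY zY h1Y hΛY hUY T i0 u hu0 hu1 N
  obtain ⟨bX, hbX, hbX2⟩ := hdX D hNm
  obtain ⟨bY, hbY, hbY2⟩ := hdY D' (by omega)
  -- predicates
  set nlX : List BX → Prop := fun P => fl ΛX hX zX T (HT hX P - T, Dp zX P) < thX with hnlXd
  set nlY : List BY → Prop := fun P' => fl ΛY hY zY T (HT hY P' - T, Dp zY P') < thY with hnlYd
  obtain ⟨p2, hp2⟩ : ∃ p : ℕ → ℕ → G → List BX → List BY → Prop, p = fun a a' x P P' =>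
    ¬ nlX P ∧ (Ct a a' x P P').Nonempty ∧ (∀ k ∈ Ct a a' x P P', a' + s ≤ k) := ⟨_, rfl⟩
  obtain ⟨p3, hp3⟩ : ∃ p : ℕ → ℕ → G → List BX → List BY → Prop, p = fun a a' x P P' =>
    ¬ nlY P' ∧ (Ct a a' x P P').Nonempty ∧ (∀ k ∈ Ct a a' x P P', k + s ≤ a + HT hX P) :=
      ⟨_, rfl⟩
  set F : List BX → List BX → List BY → List BY → ℝ≥0∞ := fun A P A' P' =>
    (if nlX P then 1 else 0) * (if nlY P' then 1 else 0) +
      ((if (HT hX A ≤ D + i0 ∧ HT hY A' ≤ D' + i0) ∧ ((HT hX P ≤ T + i0 ∧ HT hY P' ≤ T + i0) ∧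
        p2 (HT hX A) (HT hY A') (w + Dp zY A' - Dp zX A) P P') then 1 else 0)
      + (if (HT hX A ≤ D + i0 ∧ HT hY A' ≤ D' + i0) ∧ ((HT hX P ≤ T + i0 ∧ HT hY P' ≤ T + i0) ∧
        p3 (HT hX A) (HT hY A') (w + Dp zY A' - Dp zX A) P P') then 1 else 0)) with hF
  -- pointwise
  have hpt : ∀ A P R A' P' R', fp hX D A → HT hX A ≤ D + i0 → fp hX T P → HT hX P ≤ T + i0 →
      fp hY D' A' → HT hY A' ≤ D' + i0 → fp hY T P' → HT hY P' ≤ T + i0 →
      (if Ev Ct w m t s i0 (A ++ (P ++ R)) (A' ++ (P' ++ R')) then (1 : ℝ≥0∞) else 0)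
        ≤ F A P A' P' := by
    intro A P R A' P' R' hA hA2 hP hP2 hA' hA'2 hP' hP'2
    by_cases hE : Ev Ct w m t s i0 (A ++ (P ++ R)) (A' ++ (P' ++ R'))
    · rw [if_pos hE]
      obtain ⟨he1, ⟨k0, hk0, hk0t⟩, he3⟩ := hE
      have g1 := fp_HT hX A D hA
      have g2 := fp_HT hX P T hP
      have g3 := fp_HT hY A' D' hA'
      have g4 := fp_HT hY P' T hP'
      have hk0m := he1 k0 hk0
      have hmem : k0 ∈ Ct (HT hX A) (HT hY A') (w + Dp zY A' - Dp zX A) P P' :=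
        hCt2 A P R A' P' R' w k0 hk0 (by omega) (by omega) (by omega) (by omega)
      have hall2 : ∀ k ∈ Ct (HT hX A) (HT hY A') (w + Dp zY A' - Dp zX A) P P',
          HT hY A' + s ≤ k := by
        intro k hk
        have := he1 k (hCt1 A P R A' P' R' w hk)
        omega
      have hall3 : ∀ k ∈ Ct (HT hX A) (HT hY A') (w + Dp zY A' - Dp zX A) P P',
          k + s ≤ HT hX A + HT hX P := by
        intro k hk
        have h5 := he3 k (hCt1 A P R A' P' R' w hk)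
        have h6 := hCt3 _ _ _ P P' k hk
        by_contra hcon
        exact h5 (by omega) (by omega)
      simp only [hF]
      by_cases hx : nlX P
      · by_cases hy : nlY P'
        · rw [if_pos hx, if_pos hy, one_mul]; exact le_self_add
        · refine le_add_left (le_add_left ?_)
          rw [if_pos]
          exact ⟨⟨hA2, hA'2⟩, ⟨hP2, hP'2⟩, by rw [hp3]; exact ⟨hy, ⟨k0, hmem⟩, hall3⟩⟩
      · refine le_add_left (le_add_right ?_)
        rw [if_pos]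
        exact ⟨⟨hA2, hA'2⟩, ⟨hP2, hP'2⟩, by rw [hp2]; exact ⟨hx, ⟨k0, hmem⟩, hall2⟩⟩
    · rw [if_neg hE]; exact zero_le
  -- the two sides
  have hside : NS ΛX hX ΛY hY n (Ev Ct w m t s i0) ≤ 2 * ep ΛX hX i0 +
      FS ΛX hX D (fun A => FS ΛX hX T (fun P => 2 * ep ΛY hY i0 +
        FS ΛY hY D' (fun A' => FS ΛY hY T (fun P' => F A P A' P')))) := by
    refine side ΛX hX h1X hΛX hUX D T i0 n (by omega) _ _ ?_ ?_
    · intro L
      refine le_trans ?_ (hUY n)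
      rw [U]
      refine ENNReal.tsum_le_tsum fun L' => ?_
      split_ifs <;> simp
    · intro A P R hA hA2 hP hP2
      exact side ΛY hY h1Y hΛY hUY D' T i0 n (by omega) _ _
        (fun L' => by split_ifs <;> simp)
        (fun A' P' R' hA' hA'2 hP' hP'2 =>
          hpt A P R A' P' R' hA hA2 hP hP2 hA' hA'2 hP' hP'2)
  refine hside.trans (add_le_add le_rfl ?_)
  -- split the functional
  have hsplit : FS ΛX hX D (fun A => FS ΛX hX T (fun P => 2 * ep ΛY hY i0 +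
        FS ΛY hY D' (fun A' => FS ΛY hY T (fun P' => F A P A' P'))))
      = 2 * ep ΛY hY i0 + (
        FS ΛX hX D (fun _ => FS ΛX hX T (fun P => FS ΛY hY D' (fun _ => FS ΛY hY T (fun P' =>
          (if nlX P then 1 else 0) * (if nlY P' then 1 else 0)))))
        + (FS ΛX hX D (fun A => FS ΛX hX T (fun P => FS ΛY hY D' (fun A' => FS ΛY hY T (fun P' =>
          if (HT hX A ≤ D + i0 ∧ HT hY A' ≤ D' + i0) ∧ ((HT hX P ≤ T + i0 ∧ HT hY P' ≤ T + i0) ∧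
          p2 (HT hX A) (HT hY A') (w + Dp zY A' - Dp zX A) P P') then 1 else 0))))
        + FS ΛX hX D (fun A => FS ΛX hX T (fun P => FS ΛY hY D' (fun A' => FS ΛY hY T (fun P' =>
          if (HT hX A ≤ D + i0 ∧ HT hY A' ≤ D' + i0) ∧ ((HT hX P ≤ T + i0 ∧ HT hY P' ≤ T + i0) ∧
          p3 (HT hX A) (HT hY A') (w + Dp zY A' - Dp zX A) P P') then 1 else 0)))))) := by
    simp only [hF, FS_add, FS_const ΛX hX h1X hΛX]
  rw [hsplit]
  refine add_le_add le_rfl (add_le_add ?_ (add_le_add ?_ ?_))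
  · -- both non-local
    have e1 : FS ΛX hX T (fun P => if nlX P then 1 else 0) ≤ u := by
      have := FS_push ΛX hX zX T (fun h y => if fl ΛX hX zX T (h - T, y) < thX then 1 else 0)
      simp only [hnlXd]
      rw [this]
      refine le_trans (ENNReal.tsum_le_tsum fun x => ?_) hnlX
      rw [Nat.add_sub_cancel_left]
      split_ifs <;> simp
    have e2 : FS ΛY hY T (fun P => if nlY P then 1 else 0) ≤ u := by
      have := FS_push ΛY hY zY T (fun h y => if fl ΛY hY zY T (h - T, y) < thY then 1 else 0)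
      simp only [hnlYd]
      rw [this]
      refine le_trans (ENNReal.tsum_le_tsum fun x => ?_) hnlY
      rw [Nat.add_sub_cancel_left]
      split_ifs <;> simp
    rw [FS_const ΛX hX h1X hΛX]
    have e3 : ∀ P, FS ΛY hY D' (fun _ => FS ΛY hY T (fun P' =>
          (if nlX P then 1 else 0) * (if nlY P' then 1 else 0)))
        = FS ΛY hY T (fun P => if nlY P then 1 else 0) * (if nlX P then 1 else 0) := by
      intro P
      rw [FS_const ΛY hY h1Y hΛY, FS_mul, mul_comm]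
    simp only [e3]
    rw [FS_mul]
    exact mul_le_mul' e2 e1
  · -- X local
    have hM : ∀ E : Finset G, (E.card : ℝ≥0∞) * thX ≤ 1 →
        (N * ((i0 + 1 : ℕ) * thX)) * E.card ≤ N * (i0 + 1 : ℕ) := by
      intro E hE
      calc (N * ((i0 + 1 : ℕ) * thX)) * (E.card : ℝ≥0∞)
          = N * (i0 + 1 : ℕ) * (E.card * thX) := by ring
        _ ≤ N * (i0 + 1 : ℕ) * 1 := mul_le_mul_right hE _
        _ = _ := mul_one _
    refine (hpart ΛX hX zX ΛY hY zY h1X h1Y hΛX hΛY D D' T i0 w p2 (N * ((i0 + 1 : ℕ) * thX))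
      ((1 - u) ^ N + N * ep ΛX hX i0) (C * (lam + N * (i0 + 1 : ℕ) * us s / lam + us s))
      (Or.inl ⟨bX, hbX, hbX2⟩) ?_)
    intro j j' i i' hj hj' hi hi' μ hμ hμM
    obtain ⟨E, hE1, hE2⟩ := fl_finite ΛX hX zX h1X hΛX T thX hthX i
    refine le_trans ?_ ((hH2 s (T + i) (T + i') (D + j) (D' + j') E μ _ lam hμ hμM hl0 hlt
      (by omega)).trans ?_)
    · refine ENNReal.tsum_le_tsum fun x => mul_le_mul_right ?_ _
      refine ENNReal.tsum_le_tsum fun L => ENNReal.tsum_le_tsum fun L' => ?_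
      by_cases h : HT hX L = T + i ∧ HT hY L' = T + i' ∧ p2 (D + j) (D' + j') x L L'
      · rw [if_pos h, if_pos]
        rw [hp2] at h
        obtain ⟨q1, q2, q3, q4, q5⟩ := h
        refine ⟨q1, q2, hE1 _ ?_, q4, q5⟩
        have q6 := not_lt.1 q3
        rwa [q1, Nat.add_sub_cancel_left] at q6
      · rw [if_neg h]; exact zero_le
    · exact mul_le_mul_right (add_le_add (add_le_add le_rfl
        (ENNReal.div_le_div_right (mul_le_mul_left (hM E hE2) _) _)) le_rfl) _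
  · -- Y local
    have hM : ∀ E : Finset G, (E.card : ℝ≥0∞) * thY ≤ 1 →
        (N * ((i0 + 1 : ℕ) * thY)) * E.card ≤ N * (i0 + 1 : ℕ) := by
      intro E hE
      calc (N * ((i0 + 1 : ℕ) * thY)) * (E.card : ℝ≥0∞)
          = N * (i0 + 1 : ℕ) * (E.card * thY) := by ring
        _ ≤ N * (i0 + 1 : ℕ) * 1 := mul_le_mul_right hE _
        _ = _ := mul_one _
    refine (hpart ΛX hX zX ΛY hY zY h1X h1Y hΛX hΛY D D' T i0 w p3 (N * ((i0 + 1 : ℕ) * thY))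
      ((1 - u) ^ N + N * ep ΛY hY i0) (C * (lam + N * (i0 + 1 : ℕ) * us s / lam + us s))
      (Or.inr ⟨bY, hbY, hbY2⟩) ?_)
    intro j j' i i' hj hj' hi hi' μ hμ hμM
    obtain ⟨E, hE1, hE2⟩ := fl_finite ΛY hY zY h1Y hΛY T thY hthY i'
    refine le_trans ?_ ((hH3 s (T + i) (T + i') (D + j) (D' + j') E μ _ lam hμ hμM hl0 hlt
      (by omega)).trans ?_)
    · refine ENNReal.tsum_le_tsum fun x => mul_le_mul_right ?_ _
      refine ENNReal.tsum_le_tsum fun L => ENNReal.tsum_le_tsum fun L' => ?_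
      by_cases h : HT hX L = T + i ∧ HT hY L' = T + i' ∧ p3 (D + j) (D' + j') x L L'
      · rw [if_pos h, if_pos]
        rw [hp3] at h
        obtain ⟨q1, q2, q3, q4, q5⟩ := h
        refine ⟨q1, q2, hE1 _ ?_, q4, ?_⟩
        · have q6 := not_lt.1 q3
          rwa [q2, Nat.add_sub_cancel_left] at q6
        · intro k hk
          have := q5 k hk
          omega
      · rw [if_neg h]; exact zero_le
    · exact mul_le_mul_right (add_le_add (add_le_add le_rfl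
        (ENNReal.div_le_div_right (mul_le_mul_left (hM E hE2) _) _)) le_rfl) _

end Crest.Agent.R154.Asm129
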