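import Crest.Agent.R154.AsmC_15

/-! Row 154, ROAD 801 (helper15): the window theorem. -/

set_option autoImplicit false

namespace Crest.Agent.R154.Asm15

open scoped ENNReal Classical
open Finset
open Crest.Agent.R154.B5A Crest.Agent.R154.FP178

section window

variable {BX BY G : Type*} [AddCommGroup G]
  (ΛX : BX → ℝ≥0∞) (hX : BX → ℕ) (zX : BX → G) (sX : BX → Set (G × ℕ))
  (ΛY : BY → ℝ≥0∞) (hY : BY → ℕ) (zY : BY → G) (sY : BY → Set (G × ℕ))

/-- contact, all contacts at depth in `[lo, hi]` -/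
def Cn (L : List BX) (a : ℕ) (L' : List BY) (x : G) (a' lo hi : ℕ) : Prop :=
  (∃ z k, (z, k) ∈ TT hX zX sX L 0 a ∧ (z, k) ∈ TT hY zY sY L' x a') ∧
  (∀ z k, (z, k) ∈ TT hX zX sX L 0 a → (z, k) ∈ TT hY zY sY L' x a' → lo ≤ k ∧ k ≤ hi)

/-- window lemma (2) -/
def H2 (us : ℕ → ℝ≥0∞) (C : ℝ≥0∞) : Prop :=
  ∀ (s h h' a a' lo hi : ℕ) (E : Finset G) (μ : G → ℝ≥0∞) (M lam : ℝ≥0∞),
    ∑' x, μ x ≤ 1 → (∀ x, μ x ≤ M) → lam ≠ 0 → lam ≠ ⊤ → a ≤ a' → a + h ≤ a' + h' →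
    a + s ≤ lo → a' + s ≤ lo → hi + s ≤ a + h → hi + s ≤ a' + h' →
    ∑' x, μ x * ∑' L, ∑' L', (if HT hX L = h ∧ Dp zX L ∈ E ∧ HT hY L' = h' ∧
      Cn hX zX sX hY zY sY L a L' x a' lo hi then LW ΛX L * LW ΛY L' else 0)
      ≤ C * (lam + M * E.card * us s / lam + us s)

/-- window lemma (3) -/
def H3 (us : ℕ → ℝ≥0∞) (C : ℝ≥0∞) : Prop :=
  ∀ (s h h' a a' lo hi : ℕ) (E : Finset G) (μ : G → ℝ≥0∞) (M lam : ℝ≥0∞),
    ∑' x, μ x ≤ 1 → (∀ x, μ x ≤ M) → lam ≠ 0 → lam ≠ ⊤ → a ≤ a' → a + h ≤ a' + h' →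
    a + s ≤ lo → a' + s ≤ lo → hi + s ≤ a + h → hi + s ≤ a' + h' →
    ∑' x, μ x * ∑' L, ∑' L', (if HT hX L = h ∧ Dp zY L' ∈ E ∧ HT hY L' = h' ∧
      Cn hX zX sX hY zY sY L a L' x a' lo hi then LW ΛX L * LW ΛY L' else 0)
      ≤ C * (lam + M * E.card * us s / lam + us s)

/-- contact sum of the two middle pieces, with weights `cX`, `cY` -/
noncomputable def Phi (i0 τ lo hi : ℕ) (cX : List BX → ℝ≥0∞) (cY : List BY → ℝ≥0∞)
    (a a' : ℕ) (x : G) : ℝ≥0∞ :=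
  ∑' L1, ∑' L1', (pw ΛX hX i0 τ L1 * cX L1) * (pw ΛY hY i0 τ L1' * cY L1') *
    (if Cn hX zX sX hY zY sY L1 a L1' x a' lo hi then 1 else 0)

lemma Phi_le_one (h1X : ∀ b, 1 ≤ hX b) (hΛX : ∑' b, ΛX b = 1)
    (h1Y : ∀ b, 1 ≤ hY b) (hΛY : ∑' b, ΛY b = 1) (i0 τ lo hi : ℕ) (cX : List BX → ℝ≥0∞)
    (cY : List BY → ℝ≥0∞) (hcX : ∀ L, cX L ≤ 1) (hcY : ∀ L, cY L ≤ 1) (a a' : ℕ) (x : G) :
    Phi ΛX hX zX sX ΛY hY zY sY i0 τ lo hi cX cY a a' x ≤ 1 := by
  rw [Phi]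
  calc _ ≤ ∑' L1, ∑' L1', pw ΛX hX i0 τ L1 * pw ΛY hY i0 τ L1' := by
        refine ENNReal.tsum_le_tsum fun L1 => ENNReal.tsum_le_tsum fun L1' => ?_
        calc _ ≤ (pw ΛX hX i0 τ L1 * 1) * (pw ΛY hY i0 τ L1' * 1) * 1 := by
              gcongr
              · exact hcX _
              · exact hcY _
              · split_ifs <;> simp
          _ = _ := by ring
    _ = (∑' L1, pw ΛX hX i0 τ L1) * ∑' L1', pw ΛY hY i0 τ L1' := by
        rw [← ENNReal.tsum_mul_right]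
        refine tsum_congr fun L1 => ?_
        rw [ENNReal.tsum_mul_left]
    _ ≤ 1 * 1 := mul_le_mul' (pw_sum ΛX hX h1X hΛX i0 τ) (pw_sum ΛY hY h1Y hΛY i0 τ)
    _ = 1 := one_mul 1

/-- regrouping of the four sums -/
lemma four (i0 α α' τ lo hi : ℕ) (cX : List BX → ℝ≥0∞) (cY : List BY → ℝ≥0∞) (w : G) :
    ∑' L0, ∑' L1, pw ΛX hX i0 α L0 * pw ΛX hX i0 τ L1 *
      (∑' L0', ∑' L1', pw ΛY hY i0 α' L0' * pw ΛY hY i0 τ L1' *
        (cX L1 * cY L1' * (if Cn hX zX sX hY zY sY L1 (HT hX L0) L1'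
          (w + Dp zY L0' - Dp zX L0) (HT hY L0') lo hi then 1 else 0)))
    = ∑ i ∈ range (i0 + 1), ∑ j ∈ range (i0 + 1), ∑' z, ∑' z',
      law ΛX hX zX α i z * law ΛY hY zY α' j z' *
        Phi ΛX hX zX sX ΛY hY zY sY i0 τ lo hi cX cY (α + i) (α' + j) (w + z' - z) := by
  have e1 : ∀ L0 : List BX, ∑' L1, pw ΛX hX i0 α L0 * pw ΛX hX i0 τ L1 *
      (∑' L0', ∑' L1', pw ΛY hY i0 α' L0' * pw ΛY hY i0 τ L1' *
        (cX L1 * cY L1' * (if Cn hX zX sX hY zY sY L1 (HT hX L0) L1'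
          (w + Dp zY L0' - Dp zX L0) (HT hY L0') lo hi then 1 else 0)))
      = pw ΛX hX i0 α L0 * ∑' L0', pw ΛY hY i0 α' L0' *
        Phi ΛX hX zX sX ΛY hY zY sY i0 τ lo hi cX cY (HT hX L0) (HT hY L0')
          (w + Dp zY L0' - Dp zX L0) := by
    intro L0
    rw [← ENNReal.tsum_mul_left]
    simp_rw [← ENNReal.tsum_mul_left]
    rw [ENNReal.tsum_comm]
    refine tsum_congr fun L0' => ?_
    rw [Phi, ← ENNReal.tsum_mul_left, ← ENNReal.tsum_mul_left]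
    refine tsum_congr fun L1 => ?_
    rw [← ENNReal.tsum_mul_left, ← ENNReal.tsum_mul_left]
    refine tsum_congr fun L1' => ?_
    ring
  rw [tsum_congr e1]
  have e2 : ∀ L0 : List BX, ∑' L0', pw ΛY hY i0 α' L0' *
        Phi ΛX hX zX sX ΛY hY zY sY i0 τ lo hi cX cY (HT hX L0) (HT hY L0')
          (w + Dp zY L0' - Dp zX L0)
      = ∑ j ∈ range (i0 + 1), ∑' z', law ΛY hY zY α' j z' *
        Phi ΛX hX zX sX ΛY hY zY sY i0 τ lo hi cX cY (HT hX L0) (α' + j)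
          (w + z' - Dp zX L0) := fun L0 =>
    fiber_pw ΛY hY zY α' i0 (fun k z' =>
      Phi ΛX hX zX sX ΛY hY zY sY i0 τ lo hi cX cY (HT hX L0) k (w + z' - Dp zX L0))
  simp_rw [e2]
  rw [fiber_pw ΛX hX zX α i0 (fun k z => ∑ j ∈ range (i0 + 1), ∑' z', law ΛY hY zY α' j z' *
        Phi ΛX hX zX sX ΛY hY zY sY i0 τ lo hi cX cY k (α' + j) (w + z' - z))]
  refine sum_congr rfl fun i _ => ?_
  simp_rw [mul_sum]
  rw [Summable.tsum_finsetSum (fun _ _ => ENNReal.summable)]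
  refine sum_congr rfl fun j _ => tsum_congr fun z => ?_
  rw [← ENNReal.tsum_mul_left]
  refine tsum_congr fun z' => ?_
  ring

/-- finite level sets of a law -/
lemma level (p : ℕ → G → ℝ≥0∞) (hp : ∑' i, ∑' z, p i z ≤ 1) (th : ℝ≥0∞) (hth : th ≠ 0) :
    ∃ E : ℕ → Finset G, (∀ i z, z ∈ E i ↔ th ≤ p i z) ∧ ∀ i, th * (E i).card ≤ 1 := by
  have hfin : ∀ i, {z | th ≤ p i z}.Finite := fun i =>
    ENNReal.finite_const_le_of_tsum_ne_top
      (ne_top_of_le_ne_top ENNReal.one_ne_top ((ENNReal.le_tsum i).trans hp)) hth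
  refine ⟨fun i => (hfin i).toFinset, fun i z => by simp, fun i => ?_⟩
  calc th * ((hfin i).toFinset).card = ∑ z ∈ (hfin i).toFinset, th := by
        simp [mul_comm]
    _ ≤ ∑ z ∈ (hfin i).toFinset, p i z := sum_le_sum fun z hz => by simpa using hz
    _ ≤ ∑' z, p i z := ENNReal.sum_le_tsum _
    _ ≤ 1 := (ENNReal.le_tsum i).trans hp

/-- bound of `Phi` integrated against a smooth density, X local -/
lemma phi_H2 (us : ℕ → ℝ≥0∞) (C : ℝ≥0∞) (hH2 : H2 ΛX hX zX sX ΛY hY zY sY us C)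
    (i0 s α α' τ lo hi : ℕ) (hαα : α + i0 ≤ α') (hατ : α + 2 * i0 ≤ α')
    (hlo : α' + i0 + s ≤ lo) (hhi : hi + s ≤ α + τ)
    (E : ℕ → Finset G) (th : ℝ≥0∞) (K0 : ℝ≥0∞) (hE : ∀ i, (E i).card * th ≤ 1)
    (cX : List BX → ℝ≥0∞) (hcX : ∀ L, cX L ≤ 1)
    (hc : ∀ L, fp hX τ L → HT hX L ≤ τ + i0 → cX L ≠ 0 → Dp zX L ∈ E (HT hX L - τ))
    (lam : ℝ≥0∞) (hl : lam ≠ 0) (hl' : lam ≠ ⊤)
    (i : ℕ) (hi0 : i ∈ range (i0 + 1)) (j : ℕ) (hj0 : j ∈ range (i0 + 1))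
    (μ : G → ℝ≥0∞) (hμ1 : ∑' x, μ x ≤ 1) (hμ : ∀ x, μ x ≤ th * K0) :
    ∑' x, μ x * Phi ΛX hX zX sX ΛY hY zY sY i0 τ lo hi cX (fun _ => 1) (α + i) (α' + j) x
      ≤ (i0 + 1) ^ 2 * (C * (lam + K0 * us s / lam + us s)) := by
  have hi1 := mem_range.1 hi0
  have hj1 := mem_range.1 hj0
  have step : ∀ x, Phi ΛX hX zX sX ΛY hY zY sY i0 τ lo hi cX (fun _ => 1) (α + i) (α' + j) x
      ≤ ∑ i2 ∈ range (i0 + 1), ∑ j2 ∈ range (i0 + 1), ∑' L, ∑' L',
        (if HT hX L = τ + i2 ∧ Dp zX L ∈ E i2 ∧ HT hY L' = τ + j2 ∧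
        Cn hX zX sX hY zY sY L (α + i) L' x (α' + j) lo hi then LW ΛX L * LW ΛY L' else 0) := by
    intro x
    rw [Phi]
    rw [← sum_product', ← Summable.tsum_finsetSum (fun _ _ => ENNReal.summable)]
    refine ENNReal.tsum_le_tsum fun L => ?_
    rw [← Summable.tsum_finsetSum (fun _ _ => ENNReal.summable)]
    refine ENNReal.tsum_le_tsum fun L' => ?_
    by_cases hC : Cn hX zX sX hY zY sY L (α + i) L' x (α' + j) lo hi
    · rw [if_pos hC, mul_one, mul_one, pw, pw]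
      by_cases h2 : fp hX τ L ∧ HT hX L ≤ τ + i0
      · by_cases h3 : fp hY τ L' ∧ HT hY L' ≤ τ + i0
        · by_cases h4 : cX L = 0
          · rw [h4, mul_zero, zero_mul]; exact zero_le
          · rw [if_pos h2, if_pos h3]
            have hL := le_HT_of_fp hX h2.1
            have hL' := le_HT_of_fp hY h3.1
            refine le_trans ?_ (single_le_sum (f := fun q : ℕ × ℕ =>
              (if HT hX L = τ + q.1 ∧ Dp zX L ∈ E q.1 ∧ HT hY L' = τ + q.2 ∧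
              Cn hX zX sX hY zY sY L (α + i) L' x (α' + j) lo hi
              then LW ΛX L * LW ΛY L' else 0)) (fun _ _ => zero_le)
              (a := (HT hX L - τ, HT hY L' - τ)) (by
                rw [mem_product, mem_range, mem_range]
                have := h2.2
                have := h3.2
                simp only
                omega))
            simp only
            rw [if_pos ⟨by omega, hc L h2.1 h2.2 h4, by omega, hC⟩]
            calc _ ≤ LW ΛX L * 1 * LW ΛY L' := by gcongr; exact hcX L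
              _ = _ := by rw [mul_one]
        · rw [if_neg h3, mul_zero]; exact zero_le
      · rw [if_neg h2, zero_mul, zero_mul]; exact zero_le
    · rw [if_neg hC, mul_zero]; exact zero_le
  calc _ ≤ ∑' x, μ x * ∑ i2 ∈ range (i0 + 1), ∑ j2 ∈ range (i0 + 1), ∑' L, ∑' L',
        (if HT hX L = τ + i2 ∧ Dp zX L ∈ E i2 ∧ HT hY L' = τ + j2 ∧
        Cn hX zX sX hY zY sY L (α + i) L' x (α' + j) lo hi then LW ΛX L * LW ΛY L' else 0) :=
        ENNReal.tsum_le_tsum fun x => mul_le_mul_right (step x) _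
    _ = ∑ i2 ∈ range (i0 + 1), ∑ j2 ∈ range (i0 + 1), ∑' x, μ x * ∑' L, ∑' L',
        (if HT hX L = τ + i2 ∧ Dp zX L ∈ E i2 ∧ HT hY L' = τ + j2 ∧
        Cn hX zX sX hY zY sY L (α + i) L' x (α' + j) lo hi then LW ΛX L * LW ΛY L' else 0) := by
        simp_rw [mul_sum]
        rw [Summable.tsum_finsetSum (fun _ _ => ENNReal.summable)]
        refine sum_congr rfl fun i2 _ => ?_
        rw [Summable.tsum_finsetSum (fun _ _ => ENNReal.summable)]
    _ ≤ ∑ i2 ∈ range (i0 + 1), ∑ j2 ∈ range (i0 + 1), C * (lam + K0 * us s / lam + us s) := by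
        refine sum_le_sum fun i2 hi2 => sum_le_sum fun j2 hj2 => ?_
        have hi2' := mem_range.1 hi2
        have hj2' := mem_range.1 hj2
        refine (hH2 s (τ + i2) (τ + j2) (α + i) (α' + j) lo hi (E i2) μ (th * K0) lam hμ1 hμ hl hl'
          (by omega) (by omega) (by omega) (by omega) (by omega) (by omega)).trans ?_
        gcongr C * (lam + ?_ * us s / lam + us s)
        calc th * K0 * (E i2).card = ((E i2).card * th) * K0 := by ring
          _ ≤ 1 * K0 := mul_le_mul_left (hE i2) _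
          _ = K0 := one_mul _
    _ = _ := by
        simp only [sum_const, card_range, nsmul_eq_mul]
        push_cast
        ring

/-- the same, Y local -/
lemma phi_H3 (us : ℕ → ℝ≥0∞) (C : ℝ≥0∞) (hH3 : H3 ΛX hX zX sX ΛY hY zY sY us C)
    (i0 s α α' τ lo hi : ℕ) (hαα : α + i0 ≤ α') (hατ : α + 2 * i0 ≤ α')
    (hlo : α' + i0 + s ≤ lo) (hhi : hi + s ≤ α + τ)
    (E : ℕ → Finset G) (th : ℝ≥0∞) (K0 : ℝ≥0∞) (hE : ∀ i, (E i).card * th ≤ 1)
    (cY : List BY → ℝ≥0∞) (hcY : ∀ L, cY L ≤ 1)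
    (hc : ∀ L, fp hY τ L → HT hY L ≤ τ + i0 → cY L ≠ 0 → Dp zY L ∈ E (HT hY L - τ))
    (lam : ℝ≥0∞) (hl : lam ≠ 0) (hl' : lam ≠ ⊤)
    (i : ℕ) (hi0 : i ∈ range (i0 + 1)) (j : ℕ) (hj0 : j ∈ range (i0 + 1))
    (μ : G → ℝ≥0∞) (hμ1 : ∑' x, μ x ≤ 1) (hμ : ∀ x, μ x ≤ th * K0) :
    ∑' x, μ x * Phi ΛX hX zX sX ΛY hY zY sY i0 τ lo hi (fun _ => 1) cY (α + i) (α' + j) x
      ≤ (i0 + 1) ^ 2 * (C * (lam + K0 * us s / lam + us s)) := by
  have hi1 := mem_range.1 hi0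
  have hj1 := mem_range.1 hj0
  have step : ∀ x, Phi ΛX hX zX sX ΛY hY zY sY i0 τ lo hi (fun _ => 1) cY (α + i) (α' + j) x
      ≤ ∑ i2 ∈ range (i0 + 1), ∑ j2 ∈ range (i0 + 1), ∑' L, ∑' L',
        (if HT hX L = τ + i2 ∧ Dp zY L' ∈ E j2 ∧ HT hY L' = τ + j2 ∧
        Cn hX zX sX hY zY sY L (α + i) L' x (α' + j) lo hi then LW ΛX L * LW ΛY L' else 0) := by
    intro x
    rw [Phi]
    rw [← sum_product', ← Summable.tsum_finsetSum (fun _ _ => ENNReal.summable)]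
    refine ENNReal.tsum_le_tsum fun L => ?_
    rw [← Summable.tsum_finsetSum (fun _ _ => ENNReal.summable)]
    refine ENNReal.tsum_le_tsum fun L' => ?_
    by_cases hC : Cn hX zX sX hY zY sY L (α + i) L' x (α' + j) lo hi
    · rw [if_pos hC, mul_one, mul_one, pw, pw]
      by_cases h2 : fp hX τ L ∧ HT hX L ≤ τ + i0
      · by_cases h3 : fp hY τ L' ∧ HT hY L' ≤ τ + i0
        · by_cases h4 : cY L' = 0
          · rw [h4, mul_zero, mul_zero]; exact zero_le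
          · rw [if_pos h2, if_pos h3]
            have hL := le_HT_of_fp hX h2.1
            have hL' := le_HT_of_fp hY h3.1
            refine le_trans ?_ (single_le_sum (f := fun q : ℕ × ℕ =>
              (if HT hX L = τ + q.1 ∧ Dp zY L' ∈ E q.2 ∧ HT hY L' = τ + q.2 ∧
              Cn hX zX sX hY zY sY L (α + i) L' x (α' + j) lo hi
              then LW ΛX L * LW ΛY L' else 0)) (fun _ _ => zero_le)
              (a := (HT hX L - τ, HT hY L' - τ)) (by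
                rw [mem_product, mem_range, mem_range]
                have := h2.2
                have := h3.2
                simp only
                omega))
            simp only
            rw [if_pos ⟨by omega, hc L' h3.1 h3.2 h4, by omega, hC⟩]
            calc _ ≤ LW ΛX L * (LW ΛY L' * 1) := by gcongr; exact hcY L'
              _ = _ := by rw [mul_one]
        · rw [if_neg h3, zero_mul, mul_zero]; exact zero_le
      · rw [if_neg h2, zero_mul]; exact zero_le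
    · rw [if_neg hC, mul_zero]; exact zero_le
  calc _ ≤ ∑' x, μ x * ∑ i2 ∈ range (i0 + 1), ∑ j2 ∈ range (i0 + 1), ∑' L, ∑' L',
        (if HT hX L = τ + i2 ∧ Dp zY L' ∈ E j2 ∧ HT hY L' = τ + j2 ∧
        Cn hX zX sX hY zY sY L (α + i) L' x (α' + j) lo hi then LW ΛX L * LW ΛY L' else 0) :=
        ENNReal.tsum_le_tsum fun x => mul_le_mul_right (step x) _
    _ = ∑ i2 ∈ range (i0 + 1), ∑ j2 ∈ range (i0 + 1), ∑' x, μ x * ∑' L, ∑' L',
        (if HT hX L = τ + i2 ∧ Dp zY L' ∈ E j2 ∧ HT hY L' = τ + j2 ∧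
        Cn hX zX sX hY zY sY L (α + i) L' x (α' + j) lo hi then LW ΛX L * LW ΛY L' else 0) := by
        simp_rw [mul_sum]
        rw [Summable.tsum_finsetSum (fun _ _ => ENNReal.summable)]
        refine sum_congr rfl fun i2 _ => ?_
        rw [Summable.tsum_finsetSum (fun _ _ => ENNReal.summable)]
    _ ≤ ∑ i2 ∈ range (i0 + 1), ∑ j2 ∈ range (i0 + 1), C * (lam + K0 * us s / lam + us s) := by
        refine sum_le_sum fun i2 hi2 => sum_le_sum fun j2 hj2 => ?_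
        have hi2' := mem_range.1 hi2
        have hj2' := mem_range.1 hj2
        refine (hH3 s (τ + i2) (τ + j2) (α + i) (α' + j) lo hi (E j2) μ (th * K0) lam hμ1 hμ hl hl'
          (by omega) (by omega) (by omega) (by omega) (by omega) (by omega)).trans ?_
        gcongr C * (lam + ?_ * us s / lam + us s)
        calc th * K0 * (E j2).card = ((E j2).card * th) * K0 := by ring
          _ ≤ 1 * K0 := mul_le_mul_left (hE j2) _
          _ = K0 := one_mul _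
    _ = _ := by
        simp only [sum_const, card_range, nsmul_eq_mul]
        push_cast
        ring

end window

end Crest.Agent.R154.Asm15
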