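import Crest.Agent.R154.AsmC_151

/-! Row 154, ROAD 801 (helper151): one window. -/

set_option autoImplicit false

namespace Crest.Agent.R154.X151

open scoped ENNReal
open Crest.Agent.R154.B5A

variable {BX BY G : Type*} [AddCommGroup G]
  (ΛX : BX → ℝ≥0∞) (ΛY : BY → ℝ≥0∞) (hX : BX → ℕ) (hY : BY → ℕ) (zX : BX → G) (zY : BY → G)
  (sX : BX → Set (G × ℕ)) (sY : BY → Set (G × ℕ))

open Classical in
/-- weight of the window event -/
noncomputable def Ws (n lo mid hi top : ℕ) (w : G) : ℝ≥0∞ :=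
  ∑' LX : List BX, ∑' LY : List BY,
    if HT hX LX = n ∧ HT hY LY = n ∧ We hX hY zX zY sX sY lo mid hi top w LX LY
    then LW ΛX LX * LW ΛY LY else 0

open Classical in
/-- the two pieces of the window -/
noncomputable def KK (A A' l l' i0 lo hi top : ℕ) (a a' : ℕ) (δ : G) : ℝ≥0∞ :=
  FPE ΛX hX l (fun P => FPE ΛY hY l' (fun P' =>
    if a ≤ A + i0 ∧ a' ≤ A' + i0 ∧ Kp hX hY zX zY sX sY lo hi top P P' δ a a' then 1 else 0))

open Classical in
/-- smoothing by the first walker -/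
lemma smX (h1X : ∀ b, 1 ≤ hX b) (h1Y : ∀ b, 1 ≤ hY b) (hΛX : ∑' b, ΛX b = 1)
    (hΛY : ∑' b, ΛY b = 1) (A A' i0 : ℕ) (w : G) (K : ℕ → ℕ → G → ℝ≥0∞)
    (hK1 : ∀ a a' δ, K a a' δ ≤ 1)
    (hK0 : ∀ a a' δ, ¬ (a ≤ A + i0 ∧ a' ≤ A' + i0) → K a a' δ = 0)
    (g b : ℕ → G → ℝ≥0∞) (M Bb η : ℝ≥0∞)
    (hgb : ∀ j y, law ΛX hX zX A j y = g j y + b j y) (hg : ∀ j y, g j y ≤ M)
    (hb : ∑' p : ℕ × G, b p.1 p.2 ≤ Bb)
    (hμ : ∀ a a', A ≤ a → a ≤ A + i0 → A' ≤ a' → a' ≤ A' + i0 → ∀ μ : G → ℝ≥0∞,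
      ∑' x, μ x ≤ 1 → (∀ x, μ x ≤ M) → ∑' x, μ x * K a a' x ≤ η) :
    FPE ΛX hX A (fun L1 => FPE ΛY hY A' (fun L1' =>
      K (HT hX L1) (HT hY L1') (w + Dp zY L1' - Dp zX L1)))
      ≤ Bb + ((i0 + 1 : ℕ) : ℝ≥0∞) * ((i0 + 1 : ℕ) * η) := by
  set φ : ℕ → G → ℝ≥0∞ := fun a y => FPE ΛY hY A' (fun L1' =>
      K a (HT hY L1') (w + Dp zY L1' - y)) with hφ
  have hφ1 : ∀ a y, φ a y ≤ 1 := fun a y => FPE_le_one ΛY hY h1Y hΛY _ _ fun _ _ => hK1 _ _ _
  have hφe : ∀ a y, φ a y = ∑' p : ℕ × G, law ΛY hY zY A' p.1 p.2 * K a (A' + p.1) (w + p.2 - y) :=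
    fun a y => law_expand ΛY hY zY A' (fun n y' => K a n (w + y' - y))
  have e1 := law_expand ΛX hX zX A φ
  change FPE ΛX hX A (fun L => φ (HT hX L) (Dp zX L)) ≤ _
  rw [e1]
  simp_rw [hgb, add_mul]
  rw [ENNReal.tsum_add, add_comm]
  refine add_le_add ?_ ?_
  · refine le_trans (ENNReal.tsum_le_tsum fun p => ?_) hb
    calc b p.1 p.2 * φ (A + p.1) p.2 ≤ b p.1 p.2 * 1 := mul_le_mul_right (hφ1 _ _) _
      _ = _ := mul_one _
  · rw [ENNReal.tsum_prod']
    simp only
    have hg1 : ∀ j, ∑' y, g j y ≤ 1 := fun j =>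
      (ENNReal.tsum_le_tsum fun y => by rw [hgb]; exact le_self_add).trans
        (law_row ΛX hX zX h1X hΛX A j)
    have main : ∀ j j', ∑' y, g j y * ∑' y', law ΛY hY zY A' j' y' *
        K (A + j) (A' + j') (w + y' - y) ≤ if j ∈ Finset.range (i0 + 1) then
          (if j' ∈ Finset.range (i0 + 1) then η else 0) else 0 := by
      intro j j'
      by_cases hj : j ∈ Finset.range (i0 + 1) ∧ j' ∈ Finset.range (i0 + 1)
      · rw [if_pos hj.1, if_pos hj.2]
        have hj1 := Finset.mem_range.1 hj.1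
        have hj2 := Finset.mem_range.1 hj.2
        set μ : G → ℝ≥0∞ := fun δ => ∑' y', law ΛY hY zY A' j' y' * g j (w + y' - δ) with hμd
        have hs1 : ∀ y', ∑' δ, g j (w + y' - δ) ≤ 1 := fun y' =>
          (le_of_eq ((Equiv.subLeft (w + y')).tsum_eq (fun y => g j y))).trans (hg1 j)
        have hm1 : ∑' δ, μ δ ≤ 1 := by
          simp only [hμd]
          rw [ENNReal.tsum_comm]
          simp_rw [ENNReal.tsum_mul_left]
          calc ∑' y', law ΛY hY zY A' j' y' * ∑' δ, g j (w + y' - δ)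
              ≤ ∑' y', law ΛY hY zY A' j' y' * 1 :=
                ENNReal.tsum_le_tsum fun y' => mul_le_mul_right (hs1 y') _
            _ ≤ 1 := by simp only [mul_one]; exact law_row ΛY hY zY h1Y hΛY A' j'
        have hm2 : ∀ δ, μ δ ≤ M := by
          intro δ
          calc μ δ ≤ ∑' y', law ΛY hY zY A' j' y' * M :=
                ENNReal.tsum_le_tsum fun y' => mul_le_mul_right (hg _ _) _
            _ = (∑' y', law ΛY hY zY A' j' y') * M := ENNReal.tsum_mul_right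
            _ ≤ 1 * M := mul_le_mul_left (law_row ΛY hY zY h1Y hΛY A' j') _
            _ = M := one_mul M
        refine le_trans (le_of_eq ?_) (hμ (A + j) (A' + j') (by omega) (by omega) (by omega)
          (by omega) μ hm1 hm2)
        calc ∑' y, g j y * ∑' y', law ΛY hY zY A' j' y' * K (A + j) (A' + j') (w + y' - y)
            = ∑' y', law ΛY hY zY A' j' y' * ∑' y, g j y * K (A + j) (A' + j') (w + y' - y) := by
              simp_rw [← ENNReal.tsum_mul_left]
              rw [ENNReal.tsum_comm]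
              refine tsum_congr fun y' => tsum_congr fun y => ?_
              ring
          _ = ∑' y', law ΛY hY zY A' j' y' * ∑' δ, g j (w + y' - δ) * K (A + j) (A' + j') δ := by
              refine tsum_congr fun y' => ?_
              congr 1
              rw [← (Equiv.subLeft (w + y')).tsum_eq
                (fun y => g j y * K (A + j) (A' + j') (w + y' - y))]
              refine tsum_congr fun δ => ?_
              simp only [Equiv.subLeft_apply, sub_sub_cancel]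
          _ = ∑' δ, μ δ * K (A + j) (A' + j') δ := by
              simp only [hμd]
              simp_rw [← ENNReal.tsum_mul_left, ← ENNReal.tsum_mul_right]
              rw [ENNReal.tsum_comm]
              refine tsum_congr fun δ => tsum_congr fun y' => ?_
              ring
      · have : ∀ y y', K (A + j) (A' + j') (w + y' - y) = 0 := fun y y' =>
          hK0 _ _ _ fun hh => hj ⟨Finset.mem_range.2 (by omega), Finset.mem_range.2 (by omega)⟩
        simp [this]
    calc ∑' j, ∑' y, g j y * φ (A + j) y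
        = ∑' j, ∑' j', ∑' y, g j y * ∑' y', law ΛY hY zY A' j' y' *
          K (A + j) (A' + j') (w + y' - y) := by
          refine tsum_congr fun j => ?_
          rw [ENNReal.tsum_comm]
          refine tsum_congr fun y => ?_
          rw [ENNReal.tsum_mul_left, hφe, ENNReal.tsum_prod']
      _ ≤ ∑' j, ∑' j' : ℕ, (if j ∈ Finset.range (i0 + 1) then
          (if j' ∈ Finset.range (i0 + 1) then η else 0) else 0) :=
          ENNReal.tsum_le_tsum fun j => ENNReal.tsum_le_tsum fun j' => main j j'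
      _ = ∑' j : ℕ, (if j ∈ Finset.range (i0 + 1) then ((i0 + 1 : ℕ) : ℝ≥0∞) * η else 0) := by
          refine tsum_congr fun j => ?_
          split_ifs
          · rw [tsum_eq_sum (s := Finset.range (i0 + 1))]
            · rw [Finset.sum_congr rfl (fun i hi => if_pos hi)]; simp
            · intro i hi; rw [if_neg hi]
          · simp
      _ = _ := by
          rw [tsum_eq_sum (s := Finset.range (i0 + 1))]
          · rw [Finset.sum_congr rfl (fun i hi => if_pos hi)]; simp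
          · intro i hi; rw [if_neg hi]

open Classical in
/-- smoothing by the second walker -/
lemma smY (h1X : ∀ b, 1 ≤ hX b) (h1Y : ∀ b, 1 ≤ hY b) (hΛX : ∑' b, ΛX b = 1)
    (hΛY : ∑' b, ΛY b = 1) (A A' i0 : ℕ) (w : G) (K : ℕ → ℕ → G → ℝ≥0∞)
    (hK1 : ∀ a a' δ, K a a' δ ≤ 1)
    (hK0 : ∀ a a' δ, ¬ (a ≤ A + i0 ∧ a' ≤ A' + i0) → K a a' δ = 0)
    (g b : ℕ → G → ℝ≥0∞) (M Bb η : ℝ≥0∞)
    (hgb : ∀ j y, law ΛY hY zY A' j y = g j y + b j y) (hg : ∀ j y, g j y ≤ M)
    (hb : ∑' p : ℕ × G, b p.1 p.2 ≤ Bb)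
    (hμ : ∀ a a', A ≤ a → a ≤ A + i0 → A' ≤ a' → a' ≤ A' + i0 → ∀ μ : G → ℝ≥0∞,
      ∑' x, μ x ≤ 1 → (∀ x, μ x ≤ M) → ∑' x, μ x * K a a' x ≤ η) :
    FPE ΛX hX A (fun L1 => FPE ΛY hY A' (fun L1' =>
      K (HT hX L1) (HT hY L1') (w + Dp zY L1' - Dp zX L1)))
      ≤ Bb + ((i0 + 1 : ℕ) : ℝ≥0∞) * ((i0 + 1 : ℕ) * η) := by
  rw [FPE_comm]
  have key := smX ΛY ΛX hY hX zY zX h1Y h1X hΛY hΛX A' A i0 (-w) (fun a' a x => K a a' (-x))
    (fun _ _ _ => hK1 _ _ _) (fun a' a δ h => hK0 _ _ _ fun hh => h hh.symm) g b M Bb η hgb hg hb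
    (fun a' a h1 h2 h3 h4 μ hμ1 hμ2 => by
      have := hμ a a' h3 h4 h1 h2 (fun x => μ (-x))
        ((le_of_eq ((Equiv.neg G).tsum_eq μ)).trans hμ1) (fun x => hμ2 _)
      refine le_trans (le_of_eq ?_) this
      rw [← (Equiv.neg G).tsum_eq (fun x => μ (-x) * K a a' x)]
      refine tsum_congr fun x => ?_
      simp)
  refine le_trans (le_of_eq ?_) key
  congr 1
  funext L1'
  congr 1
  funext L1
  congr 1
  abel

open Classical in
/-- local pieces of the first walker, one pair of heights -/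
noncomputable def Q2 (lo hi top : ℕ) (h h' : ℕ) (E : Set G) (a a' : ℕ) (x : G) : ℝ≥0∞ :=
  ∑' P : List BX, ∑' P' : List BY,
    if HT hX P = h ∧ Dp zX P ∈ E ∧ HT hY P' = h' ∧ Kp hX hY zX zY sX sY lo hi top P P' x a a'
    then LW ΛX P * LW ΛY P' else 0

open Classical in
/-- local pieces of the second walker, one pair of heights -/
noncomputable def Q3 (lo hi top : ℕ) (h h' : ℕ) (E : Set G) (a a' : ℕ) (x : G) : ℝ≥0∞ :=
  ∑' P : List BX, ∑' P' : List BY,
    if HT hX P = h ∧ HT hY P' = h' ∧ Dp zY P' ∈ E ∧ Kp hX hY zX zY sX sY lo hi top P P' x a a'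
    then LW ΛX P * LW ΛY P' else 0

open Classical in
noncomputable def K2 (A A' l l' i0 lo hi top : ℕ) (th : ℝ≥0∞) (a a' : ℕ) (δ : G) : ℝ≥0∞ :=
  FPE ΛX hX l (fun P => FPE ΛY hY l' (fun P' =>
    if (a ≤ A + i0 ∧ a' ≤ A' + i0) ∧ HT hX P ≤ l + i0 ∧ HT hY P' ≤ l' + i0 ∧
      th ≤ law ΛX hX zX l (HT hX P - l) (Dp zX P) ∧
      Kp hX hY zX zY sX sY lo hi top P P' δ a a' then 1 else 0))

open Classical in
noncomputable def K3 (A A' l l' i0 lo hi top : ℕ) (th : ℝ≥0∞) (a a' : ℕ) (δ : G) : ℝ≥0∞ :=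
  FPE ΛX hX l (fun P => FPE ΛY hY l' (fun P' =>
    if (a ≤ A + i0 ∧ a' ≤ A' + i0) ∧ HT hX P ≤ l + i0 ∧ HT hY P' ≤ l' + i0 ∧
      th ≤ law ΛY hY zY l' (HT hY P' - l') (Dp zY P') ∧
      Kp hX hY zX zY sX sY lo hi top P P' δ a a' then 1 else 0))

/-- a double sum over lists bounds the nested functional -/
lemma FPE2_le (l l' i0 : ℕ) (F : List BX → List BY → ℝ≥0∞)
    (hF : ∀ P P', ¬ (HT hX P ≤ l + i0 ∧ HT hY P' ≤ l' + i0) → F P P' = 0) :
    FPE ΛX hX l (fun P => FPE ΛY hY l' (fun P' => F P P'))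
      ≤ ∑ i ∈ Finset.range (i0 + 1), ∑ i' ∈ Finset.range (i0 + 1),
        ∑' P : List BX, ∑' P' : List BY,
          if HT hX P = l + i ∧ HT hY P' = l' + i' then LW ΛX P * LW ΛY P' * F P P' else 0 := by
  classical
  have h1 : FPE ΛX hX l (fun P => FPE ΛY hY l' (fun P' => F P P'))
      ≤ ∑' P : List BX, ∑' P' : List BY, (if l ≤ HT hX P ∧ l' ≤ HT hY P' then
        LW ΛX P * LW ΛY P' * F P P' else 0) := by
    refine (FPE_le_sum ΛX hX l _).trans ?_
    refine ENNReal.tsum_le_tsum fun P => ?_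
    by_cases h : l ≤ HT hX P
    · rw [if_pos h]
      refine (mul_le_mul_right (FPE_le_sum ΛY hY l' _) _).trans ?_
      rw [← ENNReal.tsum_mul_left]
      refine ENNReal.tsum_le_tsum fun P' => ?_
      by_cases h' : l' ≤ HT hY P'
      · rw [if_pos h', if_pos ⟨h, h'⟩, mul_assoc]
      · rw [if_neg h', mul_zero]; exact zero_le
    · rw [if_neg h]; exact zero_le
  refine h1.trans ?_
  have e2 : ∀ P P', (if l ≤ HT hX P ∧ l' ≤ HT hY P' then
        LW ΛX P * LW ΛY P' * F P P' else 0)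
      ≤ ∑ i ∈ Finset.range (i0 + 1), ∑ i' ∈ Finset.range (i0 + 1),
        (if HT hX P = l + i ∧ HT hY P' = l' + i' then LW ΛX P * LW ΛY P' * F P P' else 0) := by
    intro P P'
    by_cases h : (l ≤ HT hX P ∧ l' ≤ HT hY P') ∧ (HT hX P ≤ l + i0 ∧ HT hY P' ≤ l' + i0)
    · rw [if_pos h.1]
      refine le_trans ?_ (Finset.single_le_sum (f := fun i => ∑ i' ∈ Finset.range (i0 + 1),
        (if HT hX P = l + i ∧ HT hY P' = l' + i' then LW ΛX P * LW ΛY P' * F P P' else 0))
        (fun _ _ => zero_le) (Finset.mem_range.2 (by omega : HT hX P - l < i0 + 1)))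
      refine le_trans ?_ (Finset.single_le_sum (f := fun i' =>
        (if HT hX P = l + (HT hX P - l) ∧ HT hY P' = l' + i' then
          LW ΛX P * LW ΛY P' * F P P' else 0))
        (fun _ _ => zero_le) (Finset.mem_range.2 (by omega : HT hY P' - l' < i0 + 1)))
      rw [if_pos ⟨by omega, by omega⟩]
    · by_cases h2 : l ≤ HT hX P ∧ l' ≤ HT hY P'
      · rw [hF P P' fun hh => h ⟨h2, hh⟩]; simp
      · rw [if_neg h2]; exact zero_le
  calc _ ≤ ∑' P : List BX, ∑' P' : List BY,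
        ∑ i ∈ Finset.range (i0 + 1), ∑ i' ∈ Finset.range (i0 + 1),
        (if HT hX P = l + i ∧ HT hY P' = l' + i' then LW ΛX P * LW ΛY P' * F P P' else 0) :=
        ENNReal.tsum_le_tsum fun P => ENNReal.tsum_le_tsum fun P' => e2 P P'
    _ = _ := by
        have e3 : ∀ P : List BX, ∑' P' : List BY,
          ∑ i ∈ Finset.range (i0 + 1), ∑ i' ∈ Finset.range (i0 + 1),
          (if HT hX P = l + i ∧ HT hY P' = l' + i' then LW ΛX P * LW ΛY P' * F P P' else 0)
          = ∑ i ∈ Finset.range (i0 + 1), ∑ i' ∈ Finset.range (i0 + 1), ∑' P' : List BY,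
          (if HT hX P = l + i ∧ HT hY P' = l' + i' then LW ΛX P * LW ΛY P' * F P P' else 0) := by
          intro P
          rw [Summable.tsum_finsetSum (fun _ _ => ENNReal.summable)]
          refine Finset.sum_congr rfl fun i _ => ?_
          rw [Summable.tsum_finsetSum (fun _ _ => ENNReal.summable)]
        simp_rw [e3]
        rw [Summable.tsum_finsetSum (fun _ _ => ENNReal.summable)]
        refine Finset.sum_congr rfl fun i _ => ?_
        rw [Summable.tsum_finsetSum (fun _ _ => ENNReal.summable)]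

end Crest.Agent.R154.X151
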