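import Crest.Agent.R154.AsmC_177
import Crest.Agent.R154.Num_337
import Crest.Agent.R154.NumK_658
import Crest.Agent.R154.Num_873

/-! Row 154, ROAD 801 (helper177): sum over the windows, order of constants, `kapS`. -/

set_option autoImplicit false

namespace Crest.Agent.R154.Asm177

open scoped ENNReal Classical Topology
open Filter
open Crest.Agent.R154.B5A Crest.Agent.R154.FP178
open Crest.Agent.R154.KWB419 (TT)

section reord

variable {α β γ : Type*} (f : α → ℝ≥0∞) (g : β → ℝ≥0∞) (h : γ → ℝ≥0∞)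
  (k : α → β → γ → ℝ≥0∞)

lemma reord1 : ∑' a, f a * ∑' b, g b * ∑' c, h c * k a b c
    = ∑' c, h c * ∑' a, f a * ∑' b, g b * k a b c := by
  simp only [← ENNReal.tsum_mul_left]
  rw [tsum_congr fun a => ENNReal.tsum_comm, ENNReal.tsum_comm]
  refine tsum_congr fun c => tsum_congr fun a => tsum_congr fun b => ?_
  ring

lemma reord2 : ∑' a, f a * ∑' b, g b * ∑' c, h c * k a b c
    = ∑' a, f a * ∑' c, h c * ∑' b, g b * k a b c := by
  refine tsum_congr fun a => ?_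
  congr 1
  simp only [← ENNReal.tsum_mul_left]
  rw [ENNReal.tsum_comm]
  refine tsum_congr fun c => tsum_congr fun b => ?_
  ring

end reord

section two

variable {BX BY G : Type*} [AddCommGroup G] (ΛX : BX → ℝ≥0∞) (ΛY : BY → ℝ≥0∞)
  (hX : BX → ℕ) (hY : BY → ℕ) (zX : BX → G) (zY : BY → G)
  (sX : BX → Set (G × ℕ)) (sY : BY → Set (G × ℕ))
  (hsX : ∀ b q, q ∈ sX b → 1 ≤ q.2 ∧ q.2 ≤ hX b)
  (hsY : ∀ b q, q ∈ sY b → 1 ≤ q.2 ∧ q.2 ≤ hY b)
  (h1X : ∀ b, 1 ≤ hX b) (h1Y : ∀ b, 1 ≤ hY b)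
  (hΛX : ∑' b, ΛX b = 1) (hΛY : ∑' b, ΛY b = 1)
  (hUX : ∀ n, U ΛX hX n ≤ 1) (hUY : ∀ n, U ΛY hY n ≤ 1)

include hsX hsY h1X h1Y hΛX hΛY hUX hUY in
/-- **one window** -/
theorem window (C : ℝ≥0∞) (us : ℕ → ℝ≥0∞) (hH2 : H2 ΛX ΛY hX hY zX zY sX sY C us)
    (hH3 : H3 ΛX ΛY hX hY zX zY sX sY C us)
    (a T i0 s n J : ℕ) (hT : 3 * i0 + s ≤ T) (hn : a + 3 * T + 5 * i0 ≤ n)
    (hJ : J * (3 * T + i0) ≤ a) (x : G) (εX εY : ℝ≥0∞)
    (hεX : ∀ a, ∑' L, (if fp hX a L ∧ a + i0 < HT hX L then LW ΛX L else 0) ≤ εX)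
    (hεY : ∀ a, ∑' L, (if fp hY a L ∧ a + i0 < HT hY L then LW ΛY L else 0) ≤ εY)
    (u lam : ℝ≥0∞) (hu0 : u ≠ 0) (hu1 : u ≤ 1) (hl0 : lam ≠ 0) (hlt : lam ≠ ⊤) :
    ∑' L, v ΛX hX n L * ∑' L', v ΛY hY n L' *
      (if Ev hX hY zX zY sX sY a T i0 s x L L' then 1 else 0)
      ≤ 2 * εX + (2 * εY + (((i0 + 1 : ℕ) * (((i0 + 1) * (i0 + 1) : ℕ) *
          (C * (lam + (i0 + 1 : ℕ) / u * us s / lam + us s))) + ((1 - u) ^ J + J * εX))
        + ((i0 + 1 : ℕ) * (((i0 + 1) * (i0 + 1) : ℕ) *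
          (C * (lam + (i0 + 1 : ℕ) / u * us s / lam + us s))) + ((1 - u) ^ J + J * εY))
        + u * u)) := by
  refine (win_split ΛX ΛY hX hY zX zY sX sY hsX hsY h1X h1Y hΛX hΛY hUX hUY a T i0 s n hT hn x
    εX εY hεX hεY).trans ?_
  refine add_le_add_right (add_le_add_right ?_ _) _
  obtain ⟨thX, GX, EX, gX, qX, rX, eX, cX⟩ := setup ΛX hX zX h1X hΛX (3 * T) i0 hu0 hu1
  obtain ⟨thY, GY, EY, gY, qY, rY, eY, cY⟩ := setup ΛY hY zY h1Y hΛY (3 * T) i0 hu0 hu1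
  have S2 := S2_le ΛX ΛY hX hY zX zY sX sY h1X h1Y hΛX hΛY C us hH2 a T i0 s J hT hJ x εX hεX
    u lam hl0 hlt hu1 thX GX EX gX rX eX cX
  have S3 := S3_le ΛX ΛY hX hY zX zY sX sY h1X h1Y hΛX hΛY C us hH3 a T i0 s J hT hJ x εY hεY
    u lam hl0 hlt hu1 thY GY EY gY rY eY cY
  have S2' := (le_of_eq (reord1 (w ΛX hX a) (w ΛX hX (3 * T)) (w ΛY hY (a + 2 * i0))
    (fun A P A' => ∑' P', w ΛY hY (3 * T) P' *
        (if K0 hX hY zX zY sX sY a T i0 (a + T + 1) (a + 3 * T - s) x (HT hX A) (Dp zX A) P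
          (HT hY A') (Dp zY A') P' ∧ thX ≤ m ΛX hX zX (3 * T) (HT hX P) (Dp zX P)
            then 1 else 0)))).trans S2
  have S3' := (le_of_eq (reord2 (w ΛX hX a) (w ΛX hX (3 * T)) (w ΛY hY (a + 2 * i0))
    (fun A P A' => ∑' P', w ΛY hY (3 * T) P' *
        (if K0 hX hY zX zY sX sY a T i0 (a + T + 1) (a + 3 * T - s) x (HT hX A) (Dp zX A) P
          (HT hY A') (Dp zY A') P' ∧ thY ≤ m ΛY hY zY (3 * T) (HT hY P') (Dp zY P')
            then 1 else 0)))).trans S3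
  refine le_trans ?_ (add_le_add_left (add_le_add S2' S3') _)
  let nX : List BX → ℝ≥0∞ := fun P =>
    if m ΛX hX zX (3 * T) (HT hX P) (Dp zX P) < thX then 1 else 0
  let nY : List BY → ℝ≥0∞ := fun P =>
    if m ΛY hY zY (3 * T) (HT hY P) (Dp zY P) < thY then 1 else 0
  have hn1 : ∑' P, w ΛX hX (3 * T) P * nX P ≤ u := by
    refine le_trans (le_of_eq (tsum_congr fun P => ?_)) qX
    simp only [nX, mul_ite, mul_one, mul_zero]
  have hn2 : ∑' P, w ΛY hY (3 * T) P * nY P ≤ u := by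
    refine le_trans (le_of_eq (tsum_congr fun P => ?_)) qY
    simp only [nY, mul_ite, mul_one, mul_zero]
  have hu : ∑' A, w ΛX hX a A * ∑' P, w ΛX hX (3 * T) P * ∑' A', w ΛY hY (a + 2 * i0) A' *
      ∑' P', w ΛY hY (3 * T) P' * (nX P * nY P') ≤ u * u := by
    calc _ = (∑' A, w ΛX hX a A) * ((∑' P, w ΛX hX (3 * T) P * nX P) *
          ((∑' A', w ΛY hY (a + 2 * i0) A') * ∑' P', w ΛY hY (3 * T) P' * nY P')) := by
          rw [← ENNReal.tsum_mul_right]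
          refine tsum_congr fun A => ?_
          congr 1
          rw [← ENNReal.tsum_mul_right]
          refine tsum_congr fun P => ?_
          rw [mul_assoc]
          congr 1
          rw [← ENNReal.tsum_mul_right, ← ENNReal.tsum_mul_left]
          refine tsum_congr fun A' => ?_
          rw [← mul_assoc, mul_comm (nX P), mul_assoc]
          congr 1
          rw [← ENNReal.tsum_mul_left]
          refine tsum_congr fun P' => ?_
          ring
      _ ≤ 1 * (u * (1 * u)) := by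
          gcongr
          · exact sum_w ΛX hX h1X hΛX.le a
          · exact sum_w ΛY hY h1Y hΛY.le _
      _ = u * u := by rw [one_mul, one_mul]
  refine le_trans ?_ (add_le_add_right hu _)
  rw [← ENNReal.tsum_add, ← ENNReal.tsum_add]
  refine ENNReal.tsum_le_tsum fun A => ?_
  rw [← mul_add, ← mul_add]
  refine mul_le_mul_right ?_ _
  rw [← ENNReal.tsum_add, ← ENNReal.tsum_add]
  refine ENNReal.tsum_le_tsum fun P => ?_
  rw [← mul_add, ← mul_add]
  refine mul_le_mul_right ?_ _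
  rw [← ENNReal.tsum_add, ← ENNReal.tsum_add]
  refine ENNReal.tsum_le_tsum fun A' => ?_
  rw [← mul_add, ← mul_add]
  refine mul_le_mul_right ?_ _
  rw [← ENNReal.tsum_add, ← ENNReal.tsum_add]
  refine ENNReal.tsum_le_tsum fun P' => ?_
  rw [← mul_add, ← mul_add]
  refine mul_le_mul_right ?_ _
  by_cases hK : K0 hX hY zX zY sX sY a T i0 (a + T + 1) (a + 3 * T - s) x (HT hX A) (Dp zX A) P
      (HT hY A') (Dp zY A') P'
  swap
  · rw [if_neg hK]; exact zero_le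
  rw [if_pos hK]
  rcases lt_or_ge (m ΛX hX zX (3 * T) (HT hX P) (Dp zX P)) thX with h | h
  · rcases lt_or_ge (m ΛY hY zY (3 * T) (HT hY P') (Dp zY P')) thY with h' | h'
    · simp only [nX, nY, if_pos h, if_pos h', mul_one]
      exact le_add_self
    · rw [if_pos (show K0 hX hY zX zY sX sY a T i0 (a + T + 1) (a + 3 * T - s) x (HT hX A)
        (Dp zX A) P (HT hY A') (Dp zY A') P' ∧ _ from ⟨hK, h'⟩)]
      exact le_add_right le_add_self
  · rw [if_pos (show K0 hX hY zX zY sX sY a T i0 (a + T + 1) (a + 3 * T - s) x (HT hX A)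
        (Dp zX A) P (HT hY A') (Dp zY A') P' ∧ _ from ⟨hK, h⟩)]
    exact le_add_right le_self_add

/-- the event of one octave: first contact depth in `(m, 2m]` -/
def Oc (mm : ℕ) (x : G) (L : List BX) (L' : List BY) : Prop :=
  (∀ k ∈ CT hX hY zX zY sX sY L 0 L' x 0, mm < k) ∧
  (∃ k ∈ CT hX hY zX zY sX sY L 0 L' x 0, k ≤ 2 * mm)

/-- the octave event is covered by windows and slabs -/
lemma oc_cover (mm K T i0 s : ℕ) (hT1 : 1 ≤ T) (hTm : T ≤ mm) (hKT : mm ≤ K * T) (x : G)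
    (L : List BX) (L' : List BY) (h : Oc hX hY zX zY sX sY mm x L L') :
    ∃ j ∈ Finset.range K, Ev hX hY zX zY sX sY (mm + j * T - T) T i0 s x L L' ∨
      (∃ k, k ∈ CT hX hY zX zY sX sY L 0 L' x 0 ∧ (mm + j * T - T) + 3 * T - s + 1 ≤ k ∧
        k < (mm + j * T - T) + 3 * T - s + 1 + (s + 2 * i0)) := by
  obtain ⟨h1, k1, hk1, hk2⟩ := h
  have hne : ∃ k, k ∈ CT hX hY zX zY sX sY L 0 L' x 0 := ⟨k1, hk1⟩
  have hmin := Nat.find_spec hne
  have hle := Nat.find_min' hne hk1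
  set k0 := Nat.find hne with hk0
  have hm0 := h1 k0 hmin
  set j := (k0 - mm - 1) / T with hj
  have hjT : j * T ≤ k0 - mm - 1 := Nat.div_mul_le_self _ _
  have hjT' : k0 - mm - 1 < (j + 1) * T := by
    have := Nat.lt_div_mul_add (a := k0 - mm - 1) (b := T) (by omega)
    calc k0 - mm - 1 < j * T + T := this
      _ = (j + 1) * T := by ring
  have hjK : j < K := by
    by_contra hcon
    have : K * T ≤ j * T := Nat.mul_le_mul_right _ (by omega)
    omega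
  refine ⟨j, Finset.mem_range.2 hjK, ?_⟩
  by_cases hs : ∃ k, k ∈ CT hX hY zX zY sX sY L 0 L' x 0 ∧
      (mm + j * T - T) + 3 * T - s + 1 ≤ k ∧
        k < (mm + j * T - T) + 3 * T - s + 1 + (s + 2 * i0)
  · exact Or.inr hs
  · refine Or.inl ⟨?_, ⟨k0, hmin, ?_⟩, ?_⟩
    · intro k hk
      have := Nat.find_min' hne hk
      omega
    · have : (j + 1) * T = j * T + T := by ring
      omega
    · intro k hk hk'
      exact hs ⟨k, hk, hk'.1, hk'.2⟩

include hsX hsY h1X h1Y hΛX hΛY hUX hUY in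
/-- **KAPPA' in list letters** -/
theorem kapS (C : ℝ≥0∞) (hC : C ≠ ⊤) (us : ℕ → ℝ≥0∞) (hus : Tendsto us atTop (𝓝 0))
    (hH2 : H2 ΛX ΛY hX hY zX zY sX sY C us) (hH3 : H3 ΛX ΛY hX hY zX zY sX sY C us)
    (hH5 : H5 ΛX ΛY hX hY zX zY sX sY)
    (hmX : ∑' b, ΛX b * (hX b : ℝ≥0∞) ≠ ⊤) (hmY : ∑' b, ΛY b * (hY b : ℝ≥0∞) ≠ ⊤) :
    ∀ ε : ℝ≥0∞, ε ≠ 0 → ∃ M : ℕ, ∀ mm, M ≤ mm → ∀ n, 5 * mm ≤ n → ∀ x : G,
      ∑' L : List BX, ∑' L' : List BY,
        (if HT hX L = n ∧ HT hY L' = n ∧ Oc hX hY zX zY sX sY mm x L L'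
          then LW ΛX L * LW ΛY L' else 0) ≤ ε := by
  intro ε hε
  have hε8 : ε / 8 ≠ 0 := by simp [hε]
  obtain ⟨K0', hK0⟩ := Num873.num 8 (by norm_num) (ε / 8) hε8
  set K := max K0' 8 with hK
  have hK8 : 8 ≤ K := le_max_right _ _
  obtain ⟨u, hu0, hu1, hA, hB⟩ := hK0 K (le_max_left _ _)
  set J := K / 8 with hJ
  have hJK : 8 * J ≤ K := by omega
  have hJ1 : 1 ≤ J := by omega
  have hKc : (K : ℝ≥0∞) ≤ ((8 * (K + 8) : ℕ) : ℝ≥0∞) := by exact_mod_cast (by omega)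
  have hKt : (K : ℝ≥0∞) ≠ ⊤ := ENNReal.natCast_ne_top K
  have hA' : (K : ℝ≥0∞) * (u * u) ≤ ε / 8 := by
    refine le_trans ?_ hA
    rw [sq]
    gcongr
  have hB' : (K : ℝ≥0∞) * (1 - u) ^ J ≤ ε / 8 := by
    refine le_trans ?_ hB
    gcongr
  -- overshoot
  let eX : ℕ → ℝ≥0∞ := fun i => ∑' k, tail ΛX hX (i + k)
  let eY : ℕ → ℝ≥0∞ := fun i => ∑' k, tail ΛY hY (i + k)
  have heX : Tendsto eX atTop (𝓝 0) := by
    have := ENNReal.tendsto_sum_nat_add (fun k => tail ΛX hX k)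
      (by rwa [← sum_tail ΛX hX hΛX])
    refine this.congr fun i => tsum_congr fun k => by rw [add_comm]
  have heY : Tendsto eY atTop (𝓝 0) := by
    have := ENNReal.tendsto_sum_nat_add (fun k => tail ΛY hY k)
      (by rwa [← sum_tail ΛY hY hΛY])
    refine this.congr fun i => tsum_congr fun k => by rw [add_comm]
  have he : Tendsto (fun i => eX i + eY i) atTop (𝓝 0) := by simpa using heX.add heY
  obtain ⟨i0, hi0⟩ := Num337.exSmall _ he ((K : ℝ≥0∞) * (2 + J))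
    (ENNReal.mul_ne_top hKt (ENNReal.add_ne_top.2 ⟨by norm_num, ENNReal.natCast_ne_top J⟩))
    (ε / 8) hε8
  have hE := hi0 i0 le_rfl
  -- lam, s
  obtain ⟨lam, hl0, hlt, -, s, hs⟩ := Num337.exLam
    ((K : ℝ≥0∞) * ((i0 + 1 : ℕ) * (((i0 + 1) * (i0 + 1) : ℕ) * C))) ((i0 + 1 : ℕ) / u)
    (ENNReal.mul_ne_top hKt (ENNReal.mul_ne_top (ENNReal.natCast_ne_top _)
      (ENNReal.mul_ne_top (ENNReal.natCast_ne_top _) hC)))
    (ENNReal.div_ne_top (ENNReal.natCast_ne_top _) hu0) us hus (ε / 8) hε8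
  have hS := hs s le_rfl
  obtain ⟨η, hη0, hη⟩ := NumK658.chooseEta (K : ℝ≥0∞) hKt (ε / 8) hε8
  obtain ⟨T5, hT5⟩ := hH5 (s + 2 * i0) η hη0
  refine ⟨K * (3 * i0 + s) + K + 2 + 5 * i0 + (6 * J + 2 + 2 * (J * i0)) + T5 + s, ?_⟩
  intro mm hmm n hn x
  set T := mm / K + 1 with hT
  set t := mm / K with ht
  have hKt1 : K * t ≤ mm := Nat.mul_div_le mm K
  have hJt : 8 * (J * t) ≤ mm := by
    calc 8 * (J * t) = (8 * J) * t := by ring
      _ ≤ K * t := Nat.mul_le_mul_right _ hJK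
      _ ≤ mm := hKt1
  have h8t : 8 * t ≤ mm := le_trans (Nat.mul_le_mul_right _ hK8) hKt1
  have hTm : T ≤ mm := by omega
  have hKT : mm ≤ K * T := by
    have := Nat.lt_mul_div_succ mm (show 0 < K by omega)
    rw [hT]
    exact this.le
  have hKT2 : K * T ≤ mm + K := by
    rw [hT, mul_add, mul_one]; omega
  have hti : 3 * i0 + s ≤ T := by
    have : 3 * i0 + s ≤ t := by
      rw [ht, Nat.le_div_iff_mul_le (by omega)]
      rw [mul_comm]
      omega
    omega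
  have hJT : J * (3 * T + i0) = 3 * (J * t) + 3 * J + J * i0 := by
    rw [hT]; ring
  -- pointwise cover
  have hpt : ∀ (L : List BX) (L' : List BY),
      (if HT hX L = n ∧ HT hY L' = n ∧ Oc hX hY zX zY sX sY mm x L L'
          then LW ΛX L * LW ΛY L' else 0)
      ≤ ∑ j ∈ Finset.range K, (v ΛX hX n L * (v ΛY hY n L' *
          (if Ev hX hY zX zY sX sY (mm + j * T - T) T i0 s x L L' then 1 else 0))
        + (if HT hX L = n ∧ HT hY L' = n ∧
          (∃ k, k ∈ CT hX hY zX zY sX sY L 0 L' x 0 ∧ (mm + j * T - T) + 3 * T - s + 1 ≤ k ∧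
            k < (mm + j * T - T) + 3 * T - s + 1 + (s + 2 * i0))
            then LW ΛX L * LW ΛY L' else 0)) := by
    intro L L'
    by_cases h : HT hX L = n ∧ HT hY L' = n ∧ Oc hX hY zX zY sX sY mm x L L'
    swap
    · rw [if_neg h]; exact zero_le
    rw [if_pos h]
    obtain ⟨g1, g2, g3⟩ := h
    obtain ⟨j, hj, hjE⟩ := oc_cover hX hY zX zY sX sY mm K T i0 s (by omega) hTm hKT x L L' g3
    refine le_trans ?_ (Finset.single_le_sum (fun _ _ => zero_le) hj)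
    rcases hjE with hjE | hjE
    · rw [if_pos hjE, mul_one, v, v, if_pos g1, if_pos g2]
      exact le_self_add
    · rw [if_pos (show HT hX L = n ∧ HT hY L' = n ∧ _ from ⟨g1, g2, hjE⟩)]
      exact le_add_self
  have hsum : ∑' L : List BX, ∑' L' : List BY,
        (if HT hX L = n ∧ HT hY L' = n ∧ Oc hX hY zX zY sX sY mm x L L'
          then LW ΛX L * LW ΛY L' else 0)
      ≤ ∑ j ∈ Finset.range K, (∑' L, v ΛX hX n L * ∑' L', v ΛY hY n L' *
          (if Ev hX hY zX zY sX sY (mm + j * T - T) T i0 s x L L' then 1 else 0)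
        + ∑' L : List BX, ∑' L' : List BY, (if HT hX L = n ∧ HT hY L' = n ∧
          (∃ k, k ∈ CT hX hY zX zY sX sY L 0 L' x 0 ∧ (mm + j * T - T) + 3 * T - s + 1 ≤ k ∧
            k < (mm + j * T - T) + 3 * T - s + 1 + (s + 2 * i0))
            then LW ΛX L * LW ΛY L' else 0)) := by
    refine (ENNReal.tsum_le_tsum fun L => ENNReal.tsum_le_tsum fun L' => hpt L L').trans ?_
    refine le_of_eq ?_
    rw [tsum_congr fun L => Summable.tsum_finsetSum (fun _ _ => ENNReal.summable),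
      Summable.tsum_finsetSum (fun _ _ => ENNReal.summable)]
    refine Finset.sum_congr rfl fun j _ => ?_
    rw [tsum_congr fun L => ENNReal.tsum_add, ENNReal.tsum_add]
    congr 1
    refine tsum_congr fun L => ?_
    rw [ENNReal.tsum_mul_left]
  refine hsum.trans ?_
  set Q : ℝ≥0∞ := (i0 + 1 : ℕ) * (((i0 + 1) * (i0 + 1) : ℕ) *
          (C * (lam + (i0 + 1 : ℕ) / u * us s / lam + us s))) with hQ
  have hwin : ∀ j ∈ Finset.range K, (∑' L, v ΛX hX n L * ∑' L', v ΛY hY n L' *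
          (if Ev hX hY zX zY sX sY (mm + j * T - T) T i0 s x L L' then 1 else 0)
        + ∑' L : List BX, ∑' L' : List BY, (if HT hX L = n ∧ HT hY L' = n ∧
          (∃ k, k ∈ CT hX hY zX zY sX sY L 0 L' x 0 ∧ (mm + j * T - T) + 3 * T - s + 1 ≤ k ∧
            k < (mm + j * T - T) + 3 * T - s + 1 + (s + 2 * i0))
            then LW ΛX L * LW ΛY L' else 0))
      ≤ (2 * eX i0 + (2 * eY i0 + ((Q + ((1 - u) ^ J + J * eX i0))
        + (Q + ((1 - u) ^ J + J * eY i0)) + u * u))) + η := by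
    intro j hj
    have hj' := Finset.mem_range.1 hj
    have hjT : j * T + T ≤ K * T := by
      calc j * T + T = (j + 1) * T := by ring
        _ ≤ K * T := Nat.mul_le_mul_right _ hj'
    refine add_le_add ?_ ?_
    · exact window ΛX ΛY hX hY zX zY sX sY hsX hsY h1X h1Y hΛX hΛY hUX hUY C us hH2 hH3
        (mm + j * T - T) T i0 s n J hti (by omega) (by rw [hJT]; omega) x (eX i0) (eY i0)
        (fun a => overshoot ΛX hX h1X hUX i0 a) (fun a => overshoot ΛY hY h1Y hUY i0 a)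
        u lam hu0 hu1.le hl0 hlt
    · exact hT5 _ (by omega) n x
  refine (Finset.sum_le_sum hwin).trans ?_
  rw [Finset.sum_const, Finset.card_range, nsmul_eq_mul]
  have hQ' : (K : ℝ≥0∞) * Q ≤ ε / 8 := by
    refine le_trans (le_of_eq ?_) hS
    rw [hQ]; ring
  calc (K : ℝ≥0∞) * ((2 * eX i0 + (2 * eY i0 + ((Q + ((1 - u) ^ J + J * eX i0))
        + (Q + ((1 - u) ^ J + J * eY i0)) + u * u))) + η)
      = (K : ℝ≥0∞) * (2 + J) * (eX i0 + eY i0) + 2 * (K * Q) + 2 * (K * (1 - u) ^ J)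
        + K * (u * u) + K * η := by ring
    _ ≤ ε / 8 + 2 * (ε / 8) + 2 * (ε / 8) + ε / 8 + ε / 8 := by gcongr
    _ = 7 * (ε / 8) := by ring
    _ ≤ 8 * (ε / 8) := by gcongr; norm_num
    _ = ε := ENNReal.mul_div_cancel (by norm_num) (by norm_num)

end two

end Crest.Agent.R154.Asm177
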