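import Crest.Agent.R154.FP_178

/-! Row 154, ROAD 801 (helper190): decomposition of crossings at one window (deterministic depth
`a`, length `T`), first passage pieces, overshoots at most `i0`. -/

set_option autoImplicit false

namespace Crest.Agent.R154.Asm190

open scoped ENNReal
open Crest.Agent.R154.B5A
open Crest.Agent.R154.FP178

variable {B : Type*} (Λ : B → ℝ≥0∞) (ht : B → ℕ)

open Classical in
/-- weight of a first passage of `a` with overshoot at most `i0` -/
noncomputable def fpw (a i0 : ℕ) (L : List B) : ℝ≥0∞ :=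
  if fp ht a L ∧ HT ht L ≤ a + i0 then LW Λ L else 0

lemma sum_fpw_le (h1 : ∀ b, 1 ≤ ht b) (hΛ : ∑' b, Λ b ≤ 1) (a i0 : ℕ) :
    ∑' L, fpw Λ ht a i0 L ≤ 1 := by
  classical
  refine (ENNReal.tsum_le_tsum fun L => ?_).trans (sum_FP Λ ht h1 hΛ a)
  unfold fpw
  by_cases h : fp ht a L ∧ HT ht L ≤ a + i0
  · rw [if_pos h, if_pos h.1]
  · rw [if_neg h]; exact zero_le

lemma avg_add {ι : Type*} (w : ι → ℝ≥0∞) (hw : ∑' i, w i ≤ 1) (c : ℝ≥0∞) (X : ι → ℝ≥0∞) :
    ∑' i, w i * (c + X i) ≤ c + ∑' i, w i * X i := by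
  simp_rw [mul_add, ENNReal.tsum_add, ENNReal.tsum_mul_right]
  gcongr
  calc _ ≤ 1 * c := by gcongr
    _ = c := one_mul c

open Classical in
lemma dec (h1 : ∀ b, 1 ≤ ht b) (hΛ : ∑' b, Λ b ≤ 1) (hU1 : ∀ n, U Λ ht n ≤ 1)
    (i0 : ℕ) (ov : ℝ≥0∞)
    (hov : ∀ a, ∑' L, (if fp ht a L ∧ a + i0 < HT ht L then LW Λ L else 0) ≤ ov)
    (a T n : ℕ) (hn : a + i0 + T ≤ n) (f : List B → ℝ≥0∞) (g : List B → List B → ℝ≥0∞)
    (hf1 : ∀ L, f L ≤ 1)
    (hfg : ∀ P Q S, fp ht a P → HT ht P ≤ a + i0 → fp ht T Q → HT ht Q ≤ T + i0 →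
      f (P ++ (Q ++ S)) ≤ g P Q) :
    ∑' L, (if HT ht L = n then LW Λ L * f L else 0)
      ≤ 2 * ov + ∑' P, fpw Λ ht a i0 P * ∑' Q, fpw Λ ht T i0 Q * g P Q := by
  set f' : List B → ℝ≥0∞ := fun L => if HT ht L = n then f L else 0 with hf'
  have hrest : ∀ (m : ℕ), ∑' R : List B, (if HT ht R = m then LW Λ R else 0) ≤ 1 := hU1
  have e0 : ∑' L, (if HT ht L = n then LW Λ L * f L else 0)
      = ∑' L, (if a ≤ HT ht L then LW Λ L * f' L else 0) := by
    refine tsum_congr fun L => ?_
    by_cases h : HT ht L = n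
    · rw [if_pos h, if_pos (by omega)]
      simp only [hf', if_pos h]
    · rw [if_neg h]
      simp only [hf', if_neg h, mul_zero, ite_self]
  rw [e0, split Λ ht h1 a f']
  -- the rest sums
  have hR1 : ∀ P : List B, ∑' R, LW Λ R * f' (P ++ R) ≤ 1 := by
    intro P
    refine (ENNReal.tsum_le_tsum fun R => ?_).trans (hrest (n - HT ht P))
    by_cases h : HT ht (P ++ R) = n
    · rw [HT_append] at h
      rw [if_pos (by omega)]
      calc LW Λ R * f' (P ++ R) ≤ LW Λ R * 1 := by
            gcongr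
            simp only [hf']
            split_ifs
            · exact hf1 _
            · exact zero_le
        _ = _ := mul_one _
    · simp only [hf', if_neg h, mul_zero]
      exact zero_le
  have hR2 : ∀ P : List B, fp ht a P → HT ht P ≤ a + i0 →
      ∑' R, LW Λ R * f' (P ++ R) ≤ ov + ∑' Q, fpw Λ ht T i0 Q * g P Q := by
    intro P hP hPa
    have e1 : ∑' R, LW Λ R * f' (P ++ R)
        = ∑' R, (if T ≤ HT ht R then LW Λ R * f' (P ++ R) else 0) := by
      refine tsum_congr fun R => ?_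
      by_cases h : T ≤ HT ht R
      · rw [if_pos h]
      · rw [if_neg h]
        have : ¬ (HT ht (P ++ R) = n) := by rw [HT_append]; omega
        simp only [hf', if_neg this, mul_zero]
    rw [e1, split Λ ht h1 T (fun R => f' (P ++ R))]
    have hterm : ∀ Q : List B, (if fp ht T Q then
        LW Λ Q * ∑' S, LW Λ S * f' (P ++ (Q ++ S)) else 0)
        ≤ (if fp ht T Q ∧ T + i0 < HT ht Q then LW Λ Q else 0) + fpw Λ ht T i0 Q * g P Q := by
      intro Q
      by_cases hQ : fp ht T Q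
      · rw [if_pos hQ]
        have hS : ∀ c : ℝ≥0∞, (∀ S, f' (P ++ (Q ++ S)) ≤ c) →
            ∑' S, LW Λ S * f' (P ++ (Q ++ S)) ≤ c := by
          intro c hc
          calc ∑' S, LW Λ S * f' (P ++ (Q ++ S))
              ≤ ∑' S, (if HT ht S = n - HT ht P - HT ht Q then LW Λ S else 0) * c := by
                refine ENNReal.tsum_le_tsum fun S => ?_
                by_cases h : HT ht (P ++ (Q ++ S)) = n
                · have h' := h
                  rw [HT_append, HT_append] at h'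
                  rw [if_pos (by omega)]
                  gcongr
                  exact hc S
                · simp only [hf', if_neg h, mul_zero]
                  exact zero_le
            _ = (∑' S, (if HT ht S = n - HT ht P - HT ht Q then LW Λ S else 0)) * c :=
                ENNReal.tsum_mul_right
            _ ≤ 1 * c := by gcongr; exact hrest _
            _ = c := one_mul c
        by_cases hh : T + i0 < HT ht Q
        · rw [if_pos ⟨hQ, hh⟩]
          refine le_add_right ?_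
          calc LW Λ Q * ∑' S, LW Λ S * f' (P ++ (Q ++ S)) ≤ LW Λ Q * 1 := by
                gcongr
                refine hS 1 fun S => ?_
                simp only [hf']
                split_ifs
                · exact hf1 _
                · exact zero_le
            _ = _ := mul_one _
        · rw [if_neg (fun h => hh h.2), zero_add]
          unfold fpw
          rw [if_pos ⟨hQ, by omega⟩]
          gcongr
          refine hS _ fun S => ?_
          simp only [hf']
          split_ifs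
          · exact hfg P Q S hP hPa hQ (by omega)
          · exact zero_le
      · rw [if_neg hQ]; exact zero_le
    refine (ENNReal.tsum_le_tsum hterm).trans ?_
    rw [ENNReal.tsum_add]
    gcongr
    exact hov T
  have hterm : ∀ P : List B, (if fp ht a P then LW Λ P * ∑' R, LW Λ R * f' (P ++ R) else 0)
      ≤ (if fp ht a P ∧ a + i0 < HT ht P then LW Λ P else 0)
        + (fpw Λ ht a i0 P * ov + fpw Λ ht a i0 P * ∑' Q, fpw Λ ht T i0 Q * g P Q) := by
    intro P
    by_cases hP : fp ht a P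
    · rw [if_pos hP]
      by_cases hh : a + i0 < HT ht P
      · rw [if_pos ⟨hP, hh⟩]
        refine le_add_right ?_
        calc LW Λ P * ∑' R, LW Λ R * f' (P ++ R) ≤ LW Λ P * 1 := by gcongr; exact hR1 P
          _ = _ := mul_one _
      · rw [if_neg (fun h => hh h.2), zero_add]
        have : fpw Λ ht a i0 P = LW Λ P := by
          unfold fpw
          rw [if_pos ⟨hP, by omega⟩]
        rw [this, ← mul_add]
        gcongr
        exact hR2 P hP (by omega)
    · rw [if_neg hP]; exact zero_le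
  refine (ENNReal.tsum_le_tsum hterm).trans ?_
  rw [ENNReal.tsum_add, ENNReal.tsum_add, ← add_assoc]
  gcongr
  rw [two_mul]
  gcongr
  · exact hov a
  · rw [ENNReal.tsum_mul_right]
    calc _ ≤ 1 * ov := by gcongr; exact sum_fpw_le Λ ht h1 hΛ a i0
      _ = ov := one_mul _

variable {B' : Type*} (Λ' : B' → ℝ≥0∞) (ht' : B' → ℕ)

open Classical in
/-- two walkers -/
lemma dec2 (h1 : ∀ b, 1 ≤ ht b) (hΛ : ∑' b, Λ b ≤ 1) (hU1 : ∀ n, U Λ ht n ≤ 1)
    (h1' : ∀ b, 1 ≤ ht' b) (hΛ' : ∑' b, Λ' b ≤ 1) (hU1' : ∀ n, U Λ' ht' n ≤ 1)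
    (i0 : ℕ) (ov ov' : ℝ≥0∞)
    (hov : ∀ a, ∑' L, (if fp ht a L ∧ a + i0 < HT ht L then LW Λ L else 0) ≤ ov)
    (hov' : ∀ a, ∑' L, (if fp ht' a L ∧ a + i0 < HT ht' L then LW Λ' L else 0) ≤ ov')
    (a T a' T' n : ℕ) (hn : a + i0 + T ≤ n) (hn' : a' + i0 + T' ≤ n) (f : List B → List B' → Prop)
    (g : List B → List B → List B' → List B' → ℝ≥0∞)
    (hfg : ∀ P Q S P' Q' S', fp ht a P → HT ht P ≤ a + i0 → fp ht T Q → HT ht Q ≤ T + i0 →
      fp ht' a' P' → HT ht' P' ≤ a' + i0 → fp ht' T' Q' → HT ht' Q' ≤ T' + i0 →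
      f (P ++ (Q ++ S)) (P' ++ (Q' ++ S')) → 1 ≤ g P Q P' Q') :
    ∑' L, ∑' L', (if HT ht L = n ∧ HT ht' L' = n ∧ f L L' then LW Λ L * LW Λ' L' else 0)
      ≤ 2 * ov + 2 * ov' + ∑' P, fpw Λ ht a i0 P * ∑' Q, fpw Λ ht T i0 Q *
          ∑' P', fpw Λ' ht' a' i0 P' * ∑' Q', fpw Λ' ht' T' i0 Q' * g P Q P' Q' := by
  set F : List B → ℝ≥0∞ := fun L =>
    ∑' L', (if HT ht' L' = n then LW Λ' L' * (if f L L' then 1 else 0) else 0) with hF
  have e0 : ∑' L, ∑' L', (if HT ht L = n ∧ HT ht' L' = n ∧ f L L' then LW Λ L * LW Λ' L' else 0)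
      = ∑' L, (if HT ht L = n then LW Λ L * F L else 0) := by
    refine tsum_congr fun L => ?_
    by_cases h : HT ht L = n
    · rw [if_pos h, hF]
      simp only
      rw [← ENNReal.tsum_mul_left]
      refine tsum_congr fun L' => ?_
      by_cases h' : HT ht' L' = n <;> by_cases hf : f L L' <;> simp [h, h', hf]
    · rw [if_neg h]
      rw [ENNReal.tsum_eq_zero]
      intro L'
      rw [if_neg (fun hh => h hh.1)]
  rw [e0]
  have hF1 : ∀ L, F L ≤ 1 := by
    intro L
    refine (ENNReal.tsum_le_tsum fun L' => ?_).trans (hU1' n)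
    split_ifs <;> simp
  refine (dec Λ ht h1 hΛ hU1 i0 ov hov a T n hn F
    (fun P Q => 2 * ov' + ∑' P', fpw Λ' ht' a' i0 P' * ∑' Q', fpw Λ' ht' T' i0 Q' * g P Q P' Q')
    hF1 ?_).trans ?_
  · intro P Q S hP hP2 hQ hQ2
    refine dec Λ' ht' h1' hΛ' hU1' i0 ov' hov' a' T' n hn' _ _ ?_ ?_
    · intro L'
      split_ifs <;> simp
    · intro P' Q' S' hP' hP2' hQ' hQ2'
      split_ifs with h
      · exact hfg P Q S P' Q' S' hP hP2 hQ hQ2 hP' hP2' hQ' hQ2' h
      · exact zero_le
  · rw [add_assoc]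
    gcongr
    refine le_trans ?_ (avg_add _ (sum_fpw_le Λ ht h1 hΛ a i0) _ _)
    gcongr with P
    exact avg_add _ (sum_fpw_le Λ ht h1 hΛ T i0) _ _

end Crest.Agent.R154.Asm190
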