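import Crest.Agent.R154.AsmC_201

/-! Row 154, ROAD 801: one window, the local terms (helper201). -/

set_option autoImplicit false

namespace Crest.Agent.R154.Asm201

open scoped ENNReal Classical
open Filter Topology Crest.Agent.R154.B5A

section conv

variable {G : Type*} [AddCommGroup G]

lemma conv_term (f f' : G → ℝ≥0∞) (w : G) (g : G → ℝ≥0∞) (hf : ∑' z, f z ≤ 1)
    (hf' : ∑' z, f' z ≤ 1) (M bd : ℝ≥0∞) (hM : (∀ z, f z ≤ M) ∨ (∀ z, f' z ≤ M))
    (H : ∀ μ : G → ℝ≥0∞, ∑' x, μ x ≤ 1 → (∀ x, μ x ≤ M) → ∑' x, μ x * g x ≤ bd) :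
    ∑' z, ∑' z', f z * (f' z' * g (w + z' - z)) ≤ bd := by
  have e : ∑' z, ∑' z', f z * (f' z' * g (w + z' - z))
      = ∑' x, (∑' z, f z * f' (x + z - w)) * g x := by
    calc _ = ∑' z, ∑' x, f z * (f' (x + z - w) * g x) := by
          refine tsum_congr fun z => ?_
          rw [← (Equiv.subRight (w - z)).tsum_eq (fun z' => f z * (f' z' * g (w + z' - z)))]
          refine tsum_congr fun x => ?_
          simp only [Equiv.subRight_apply]
          rw [show x - (w - z) = x + z - w by abel, show w + (x + z - w) - z = x by abel]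
      _ = _ := by
          rw [ENNReal.tsum_comm]
          refine tsum_congr fun x => ?_
          rw [← ENNReal.tsum_mul_right]
          exact tsum_congr fun z => by ring
  have hx : ∀ z, ∑' x, f' (x + z - w) = ∑' x, f' x := by
    intro z
    have := (Equiv.subRight (w - z)).tsum_eq f'
    rw [← this]
    refine tsum_congr fun x => ?_
    rw [Equiv.subRight_apply, show x - (w - z) = x + z - w by abel]
  have hz : ∀ x, ∑' z, f' (x + z - w) = ∑' z, f' z := by
    intro x
    have := (Equiv.addLeft (x - w)).tsum_eq f'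
    rw [← this]
    refine tsum_congr fun z => ?_
    simp only [Equiv.coe_addLeft]
    rw [show x - w + z = x + z - w by abel]
  rw [e]
  refine H _ ?_ ?_
  · rw [ENNReal.tsum_comm]
    calc _ = ∑' z, f z * ∑' x, f' x := by
          refine tsum_congr fun z => ?_
          rw [ENNReal.tsum_mul_left, hx]
      _ = (∑' z, f z) * ∑' x, f' x := ENNReal.tsum_mul_right
      _ ≤ 1 * 1 := by gcongr
      _ = 1 := one_mul _
  · intro x
    rcases hM with hM | hM
    · calc _ ≤ ∑' z, M * f' (x + z - w) := by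
            refine ENNReal.tsum_le_tsum fun z => ?_
            gcongr
            exact hM z
        _ = M * ∑' z, f' z := by rw [ENNReal.tsum_mul_left, hz]
        _ ≤ M * 1 := by gcongr
        _ = M := mul_one _
    · calc _ ≤ ∑' z, f z * M := by
            refine ENNReal.tsum_le_tsum fun z => ?_
            gcongr
            exact hM _
        _ = (∑' z, f z) * M := ENNReal.tsum_mul_right
        _ ≤ 1 * M := by gcongr
        _ = M := one_mul _

omit [AddCommGroup G] in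
lemma fib (a i0 : ℕ) (φ : ℤ × G → ℝ≥0∞) (hs : ∀ v, φ v ≠ 0 → ∃ i ≤ i0, v.1 = ((a + i : ℕ) : ℤ)) :
    ∑' v, φ v ≤ ∑ i ∈ Finset.range (i0 + 1), ∑' z, φ (((a + i : ℕ) : ℤ), z) := by
  rw [ENNReal.tsum_prod']
  calc _ ≤ ∑' n : ℤ, ∑ i ∈ Finset.range (i0 + 1),
        (if n = ((a + i : ℕ) : ℤ) then ∑' z, φ (((a + i : ℕ) : ℤ), z) else 0) := by
        refine ENNReal.tsum_le_tsum fun n => ?_
        by_cases hn : ∃ z, φ (n, z) ≠ 0
        · obtain ⟨z, hz⟩ := hn
          obtain ⟨i, hi, he⟩ := hs _ hz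
          simp only at he
          subst he
          refine le_trans ?_ (Finset.single_le_sum (f := fun i' =>
            (if ((a + i : ℕ) : ℤ) = ((a + i' : ℕ) : ℤ) then ∑' z, φ (((a + i' : ℕ) : ℤ), z) else 0))
            (fun _ _ => zero_le) (Finset.mem_range.2 (Nat.lt_succ_of_le hi)))
          simp
        · push Not at hn
          rw [ENNReal.tsum_eq_zero.2 hn]
          exact zero_le
    _ = _ := by
        rw [Summable.tsum_finsetSum fun _ _ => ENNReal.summable]
        refine Finset.sum_congr rfl fun i _ => ?_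
        rw [tsum_ite_eq]

lemma loc_term (F F' : ℤ × G → ℝ≥0∞) (a a' l l' i0 : ℕ) (w : G) (hF : ∑' v, F v ≤ 1)
    (hF' : ∑' v, F' v ≤ 1) (M bd : ℝ≥0∞) (hM : (∀ v, F v ≤ M) ∨ (∀ v, F' v ≤ M))
    (K : ℤ × G → ℤ × G → ℝ≥0∞) (g : ℕ → ℕ → ℕ → ℕ → G → ℝ≥0∞)
    (hs : ∀ v, F v ≠ 0 → ∃ i ≤ i0, v.1 = ((a + i : ℕ) : ℤ))
    (hs' : ∀ v, F' v ≠ 0 → ∃ i ≤ i0, v.1 = ((a' + i : ℕ) : ℤ))
    (hK : ∀ i z i' z', K (((a + i : ℕ) : ℤ), z) (((a' + i' : ℕ) : ℤ), z') ≤
      ∑ j ∈ Finset.range (i0 + 1), ∑ j' ∈ Finset.range (i0 + 1),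
        g (a + i) (l + j) (a' + i') (l' + j') (w + z' - z))
    (H : ∀ i ≤ i0, ∀ i' ≤ i0, ∀ j ≤ i0, ∀ j' ≤ i0, ∀ μ : G → ℝ≥0∞, ∑' x, μ x ≤ 1 →
      (∀ x, μ x ≤ M) → ∑' x, μ x * g (a + i) (l + j) (a' + i') (l' + j') x ≤ bd) :
    ∑' v, ∑' v', F v * (F' v' * K v v') ≤ ((i0 : ℝ≥0∞) + 1) ^ 4 * bd := by
  have hm : ∀ i, ∑' z, F (((a + i : ℕ) : ℤ), z) ≤ 1 := by
    intro i
    refine le_trans ?_ hF
    rw [ENNReal.tsum_prod']
    exact ENNReal.le_tsum (f := fun n : ℤ => ∑' z, F (n, z)) _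
  have hm' : ∀ i, ∑' z, F' (((a' + i : ℕ) : ℤ), z) ≤ 1 := by
    intro i
    refine le_trans ?_ hF'
    rw [ENNReal.tsum_prod']
    exact ENNReal.le_tsum (f := fun n : ℤ => ∑' z, F' (n, z)) _
  calc _ ≤ ∑ i ∈ Finset.range (i0 + 1), ∑' z, ∑' v', F (((a + i : ℕ) : ℤ), z) *
          (F' v' * K (((a + i : ℕ) : ℤ), z) v') := by
        refine fib a i0 (fun v => ∑' v', F v * (F' v' * K v v')) fun v hv => hs v fun h0 => hv ?_
        simp [h0]
    _ ≤ ∑ i ∈ Finset.range (i0 + 1), ∑' z, ∑ i' ∈ Finset.range (i0 + 1), ∑' z',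
          F (((a + i : ℕ) : ℤ), z) * (F' (((a' + i' : ℕ) : ℤ), z') *
          K (((a + i : ℕ) : ℤ), z) (((a' + i' : ℕ) : ℤ), z')) := by
        refine Finset.sum_le_sum fun i _ => ENNReal.tsum_le_tsum fun z => ?_
        refine fib a' i0 (fun v' => F (((a + i : ℕ) : ℤ), z) *
          (F' v' * K (((a + i : ℕ) : ℤ), z) v')) fun v hv => hs' v fun h0 => hv ?_
        simp [h0]
    _ ≤ ∑ i ∈ Finset.range (i0 + 1), ∑' z, ∑ i' ∈ Finset.range (i0 + 1), ∑' z',
          ∑ j ∈ Finset.range (i0 + 1), ∑ j' ∈ Finset.range (i0 + 1),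
          F (((a + i : ℕ) : ℤ), z) * (F' (((a' + i' : ℕ) : ℤ), z') *
          g (a + i) (l + j) (a' + i') (l' + j') (w + z' - z)) := by
        refine Finset.sum_le_sum fun i _ => ENNReal.tsum_le_tsum fun z => Finset.sum_le_sum fun i' _ =>
          ENNReal.tsum_le_tsum fun z' => ?_
        refine (mul_le_mul_right (mul_le_mul_right (hK i z i' z') _) _).trans ?_
        simp_rw [Finset.mul_sum]
        exact le_rfl
    _ = ∑ i ∈ Finset.range (i0 + 1), ∑ i' ∈ Finset.range (i0 + 1),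
          ∑ j ∈ Finset.range (i0 + 1), ∑ j' ∈ Finset.range (i0 + 1), ∑' z, ∑' z',
          F (((a + i : ℕ) : ℤ), z) * (F' (((a' + i' : ℕ) : ℤ), z') *
          g (a + i) (l + j) (a' + i') (l' + j') (w + z' - z)) := by
        refine Finset.sum_congr rfl fun i _ => ?_
        rw [Summable.tsum_finsetSum fun _ _ => ENNReal.summable]
        refine Finset.sum_congr rfl fun i' _ => ?_
        have e1 : ∀ z, ∑' z', ∑ j ∈ Finset.range (i0 + 1), ∑ j' ∈ Finset.range (i0 + 1),
          F (((a + i : ℕ) : ℤ), z) * (F' (((a' + i' : ℕ) : ℤ), z') *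
          g (a + i) (l + j) (a' + i') (l' + j') (w + z' - z))
          = ∑ j ∈ Finset.range (i0 + 1), ∑ j' ∈ Finset.range (i0 + 1), ∑' z',
          F (((a + i : ℕ) : ℤ), z) * (F' (((a' + i' : ℕ) : ℤ), z') *
          g (a + i) (l + j) (a' + i') (l' + j') (w + z' - z)) := by
          intro z
          rw [Summable.tsum_finsetSum fun _ _ => ENNReal.summable]
          refine Finset.sum_congr rfl fun j _ => ?_
          rw [Summable.tsum_finsetSum fun _ _ => ENNReal.summable]
        simp_rw [e1]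
        rw [Summable.tsum_finsetSum fun _ _ => ENNReal.summable]
        refine Finset.sum_congr rfl fun j _ => ?_
        rw [Summable.tsum_finsetSum fun _ _ => ENNReal.summable]
    _ ≤ ∑ i ∈ Finset.range (i0 + 1), ∑ i' ∈ Finset.range (i0 + 1),
          ∑ j ∈ Finset.range (i0 + 1), ∑ j' ∈ Finset.range (i0 + 1), bd := by
        refine Finset.sum_le_sum fun i hi => Finset.sum_le_sum fun i' hi' =>
          Finset.sum_le_sum fun j hj => Finset.sum_le_sum fun j' hj' => ?_
        rw [Finset.mem_range] at hi hi' hj hj'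
        refine conv_term (fun z => F (((a + i : ℕ) : ℤ), z)) (fun z' => F' (((a' + i' : ℕ) : ℤ), z'))
          w (g (a + i) (l + j) (a' + i') (l' + j')) (hm i) (hm' i') M bd ?_
          (H i (by omega) i' (by omega) j (by omega) j' (by omega))
        rcases hM with hM | hM
        · exact Or.inl fun z => hM _
        · exact Or.inr fun z => hM _
    _ = _ := by
        simp only [Finset.sum_const, Finset.card_range, nsmul_eq_mul]
        push_cast
        ring

end conv

end Crest.Agent.R154.Asm201
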