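import Crest.Agent.R154.AsmC_207

/-! Row 154 (helper207), ROAD 801, assembly part D: the window estimate. -/

set_option autoImplicit false

namespace Crest.Agent.R154.Asm207

open scoped ENNReal Topology
open Crest.Agent.R154.B5A
open Crest.Agent.R154.KWB419 (TT)

section one

variable {B : Type*} {G : Type*} [AddCommGroup G] (Λ : B → ℝ≥0∞) (ht : B → ℕ) (z : B → G)

lemma FPS_const (h1 : ∀ b, 1 ≤ ht b) (hΛ : ∑' b, Λ b = 1) (a : ℕ) (c : ℝ≥0∞) :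
    FPS Λ ht a (fun _ => c) = c := by
  have := FPS_const_mul Λ ht a c (fun _ => 1)
  rw [FPS_one Λ ht h1 hΛ, mul_one] at this
  simpa using this

open Classical in
/-- locality data of one walker -/
theorem loc (h1 : ∀ b, 1 ≤ ht b) (hΛ : ∑' b, Λ b = 1) (hU1 : ∀ n, U Λ ht n ≤ 1)
    (T i0 J n : ℕ) (hn : J * (T + i0) ≤ n) (u : ℝ≥0∞) (hu0 : u ≠ 0) (hu1 : u ≤ 1) :
    ∃ (th M : ℝ≥0∞) (E : ℕ → Finset G) (Ag Bb : ℕ × G → ℝ≥0∞),
      (∀ i y, y ∈ E i ↔ th ≤ D Λ ht z T (i, y)) ∧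
      FPS Λ ht T (fun P => if D Λ ht z T (HT ht P - T, Dp z P) < th then 1 else 0) ≤ u ∧
      (∀ q, D Λ ht z n q ≤ Ag q + Bb q) ∧ (∀ q, Ag q ≤ D Λ ht z n q) ∧ (∀ q, Ag q ≤ M) ∧
      ∑' q, Bb q ≤ (1 - u) ^ J + ov Λ ht i0 * J ∧
      ∀ i, M * (E i).card ≤ ((i0 + 1 : ℕ) : ℝ≥0∞) * J := by
  have hD1 := D_sum Λ ht z h1 hΛ T
  obtain ⟨th, hth0, hth1, hlt, hle⟩ := Dens903.quantile (p := D Λ ht z T) hD1 hu0 hu1
  have hfin : ∀ i : ℕ, {y : G | th ≤ D Λ ht z T (i, y)}.Finite := by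
    intro i
    exact Dens903.finite_level (p := fun y => D Λ ht z T (i, y))
      (ne_top_of_le_ne_top ENNReal.one_ne_top (D_sum_z Λ ht z h1 hΛ T i)) hth0
  have hq : ∑' x, (if th < D Λ ht z T x then D Λ ht z T x else 0) ≤ 1 - u := by
    have hsum : ∑' x, (if D Λ ht z T x ≤ th then D Λ ht z T x else 0)
        + ∑' x, (if th < D Λ ht z T x then D Λ ht z T x else 0) = 1 := by
      rw [← ENNReal.tsum_add, ← hD1]
      refine tsum_congr fun x => ?_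
      by_cases hx : D Λ ht z T x ≤ th
      · rw [if_pos hx, if_neg (not_lt.2 hx), add_zero]
      · rw [if_neg hx, if_pos (not_le.1 hx), zero_add]
    refine ENNReal.le_sub_of_add_le_left (ne_top_of_le_ne_top ENNReal.one_ne_top hu1) ?_
    rw [← hsum]
    exact add_le_add hle le_rfl
  obtain ⟨Ag, Bb, hAB, hAg, hBb⟩ := dens Λ ht z h1 hΛ hU1 T i0 th (1 - u) hq J n hn
  have hs : ∑ j ∈ Finset.range J, (1 - u) ^ j ≤ (J : ℝ≥0∞) := by
    calc _ ≤ ∑ j ∈ Finset.range J, (1 : ℝ≥0∞) :=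
          Finset.sum_le_sum fun j _ => pow_le_one₀ zero_le tsub_le_self
      _ = J := by simp
  refine ⟨th, (i0 + 1 : ℕ) * th * J, fun i => (hfin i).toFinset, fun q => min (Ag q) (D Λ ht z n q),
    Bb, ?_, ?_, ?_, ?_, ?_, ?_, ?_⟩
  · intro i y
    rw [Set.Finite.mem_toFinset]
    rfl
  · rw [push Λ ht z T (fun q => if D Λ ht z T q < th then 1 else 0)]
    refine le_trans (le_of_eq (tsum_congr fun q => ?_)) hlt
    split_ifs <;> simp
  · intro q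
    simp only
    rcases le_total (Ag q) (D Λ ht z n q) with h | h
    · rw [min_eq_left h]; exact hAB q
    · rw [min_eq_right h]; exact le_self_add
  · intro q; exact min_le_right _ _
  · intro q
    exact (min_le_left _ _).trans ((hAg q).trans (mul_le_mul_right hs _))
  · exact hBb.trans (add_le_add le_rfl (mul_le_mul_right hs _))
  · intro i
    have hc : th * ((hfin i).toFinset.card : ℝ≥0∞) ≤ 1 := by
      calc th * ((hfin i).toFinset.card : ℝ≥0∞) = ∑ y ∈ (hfin i).toFinset, th := by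
            rw [Finset.sum_const, nsmul_eq_mul, mul_comm]
        _ ≤ ∑ y ∈ (hfin i).toFinset, D Λ ht z T (i, y) := by
            refine Finset.sum_le_sum fun y hy => ?_
            rw [Set.Finite.mem_toFinset] at hy
            exact hy
        _ ≤ ∑' y, D Λ ht z T (i, y) := ENNReal.sum_le_tsum _
        _ ≤ 1 := D_sum_z Λ ht z h1 hΛ T i
    calc _ = ((i0 + 1 : ℕ) : ℝ≥0∞) * J * (th * ((hfin i).toFinset.card : ℝ≥0∞)) := by ring
      _ ≤ ((i0 + 1 : ℕ) : ℝ≥0∞) * J * 1 := mul_le_mul_right hc _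
      _ = _ := mul_one _

end one

section two

variable {BX BY : Type*} {G : Type*} [AddCommGroup G]
variable (ΛX : BX → ℝ≥0∞) (hX : BX → ℕ) (zX : BX → G) (sX : BX → Set (G × ℕ))
variable (ΛY : BY → ℝ≥0∞) (hY : BY → ℕ) (zY : BY → G) (sY : BY → Set (G × ℕ))

/-- contact of the two pieces, all common sites at depths in `[lo, hi]` -/
def QQ (L : List BX) (L' : List BY) (x : G) (a a' lo hi : ℕ) : Prop :=
  (∃ z k, (z, k) ∈ TT sX hX zX L 0 a ∧ (z, k) ∈ TT sY hY zY L' x a') ∧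
    ∀ z k, (z, k) ∈ TT sX hX zX L 0 a → (z, k) ∈ TT sY hY zY L' x a' → lo ≤ k ∧ k ≤ hi

open Classical in
noncomputable def S2 (E : Finset G) (h h' a a' lo hi : ℕ) (x : G) : ℝ≥0∞ :=
  ∑' L : List BX, ∑' L' : List BY, if HT hX L = h ∧ Dp zX L ∈ E ∧ HT hY L' = h' ∧
    QQ hX zX sX hY zY sY L L' x a a' lo hi then LW ΛX L * LW ΛY L' else 0

open Classical in
noncomputable def S3 (E : Finset G) (h h' a a' lo hi : ℕ) (x : G) : ℝ≥0∞ :=
  ∑' L : List BX, ∑' L' : List BY, if HT hX L = h ∧ HT hY L' = h' ∧ Dp zY L' ∈ E ∧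
    QQ hX zX sX hY zY sY L L' x a a' lo hi then LW ΛX L * LW ΛY L' else 0

/-- four fold first passage sum -/
noncomputable def E4 (t0 t1 T : ℕ) (F : List BX → List BX → List BY → List BY → ℝ≥0∞) : ℝ≥0∞ :=
  FPS ΛX hX t0 (fun U1 => FPS ΛX hX T (fun P => FPS ΛY hY t1 (fun V1 =>
    FPS ΛY hY T (fun P' => F U1 P V1 P'))))

variable {ΛX hX ΛY hY}

lemma E4_mono {t0 t1 T : ℕ} {F F' : List BX → List BX → List BY → List BY → ℝ≥0∞}
    (h : ∀ U1 P V1 P', FP hX t0 U1 → FP hX T P → FP hY t1 V1 → FP hY T P' →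
      F U1 P V1 P' ≤ F' U1 P V1 P') :
    E4 ΛX hX ΛY hY t0 t1 T F ≤ E4 ΛX hX ΛY hY t0 t1 T F' :=
  FPS_mono _ _ _ fun U1 h1 => FPS_mono _ _ _ fun P h2 => FPS_mono _ _ _ fun V1 h3 =>
    FPS_mono _ _ _ fun P' h4 => h U1 P V1 P' h1 h2 h3 h4

lemma E4_add {t0 t1 T : ℕ} (F F' : List BX → List BX → List BY → List BY → ℝ≥0∞) :
    E4 ΛX hX ΛY hY t0 t1 T (fun a b c d => F a b c d + F' a b c d)
      = E4 ΛX hX ΛY hY t0 t1 T F + E4 ΛX hX ΛY hY t0 t1 T F' := by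
  simp only [E4, FPS_add]

variable (h1X : ∀ b, 1 ≤ hX b) (hΛX : ∑' b, ΛX b = 1)
variable (h1Y : ∀ b, 1 ≤ hY b) (hΛY : ∑' b, ΛY b = 1)

include h1X hΛX h1Y hΛY in
/-- reduction of `E4` to the laws of the tops -/
lemma E4_push {t0 t1 T : ℕ} (F : ℕ × G → List BX → ℕ × G → List BY → ℝ≥0∞)
    (FF : List BX → List BX → List BY → List BY → ℝ≥0∞)
    (hF : ∀ U1 P V1 P', FF U1 P V1 P' ≤ F (HT hX U1 - t0, Dp zX U1) P (HT hY V1 - t1, Dp zY V1) P') :
    E4 ΛX hX ΛY hY t0 t1 T FF ≤ ∑' q, ∑' q', D ΛX hX zX t0 q * D ΛY hY zY t1 q' *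
      FPS ΛX hX T (fun P => FPS ΛY hY T (fun P' => F q P q' P')) := by
  refine (E4_mono (F' := fun U1 P V1 P' => F (HT hX U1 - t0, Dp zX U1) P
    (HT hY V1 - t1, Dp zY V1) P') fun U1 P V1 P' _ _ _ _ => hF U1 P V1 P').trans ?_
  unfold E4
  rw [push ΛX hX zX t0 (fun q => FPS ΛX hX T (fun P => FPS ΛY hY t1 (fun V1 =>
    FPS ΛY hY T (fun P' => F q P (HT hY V1 - t1, Dp zY V1) P'))))]
  refine ENNReal.tsum_le_tsum fun q => ?_
  have e : ∀ P, FPS ΛY hY t1 (fun V1 => FPS ΛY hY T (fun P' => F q P (HT hY V1 - t1, Dp zY V1) P'))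
      = ∑' q', D ΛY hY zY t1 q' * FPS ΛY hY T (fun P' => F q P q' P') := fun P =>
    push ΛY hY zY t1 (fun q' => FPS ΛY hY T (fun P' => F q P q' P'))
  simp only [e]
  rw [FPS_tsum, ← ENNReal.tsum_mul_left]
  refine ENNReal.tsum_le_tsum fun q' => ?_
  rw [FPS_const_mul, mul_assoc]

end two

end Crest.Agent.R154.Asm207
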