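import Crest.Agent.R154.AsmC_217

/-! Row 154, ROAD 801 (helper217): the bound of one window, continued. -/

set_option autoImplicit false

namespace Crest.Agent.R154.Asm217

open scoped ENNReal
open Crest.Agent.R154.B5A Crest.Agent.R154.AsmA789 Crest.Agent.R154.FP178

variable {G : Type*} [AddCommGroup G] {B₁ B₂ : Type*}

lemma tfs {ι α : Type*} (s : Finset ι) (f : ι → α → ℝ≥0∞) :
    ∑' a, ∑ i ∈ s, f i a = ∑ i ∈ s, ∑' a, f i a :=
  Summable.tsum_finsetSum (fun _ _ => ENNReal.summable)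

lemma flat_bounds {B : Type*} (h : B → ℕ) (T i0 : ℕ) (As : List (List B))
    (hA : ∀ A ∈ As, T ≤ HT h A ∧ HT h A ≤ T + i0) :
    As.length * T ≤ HT h As.flatten ∧ HT h As.flatten ≤ As.length * T + As.length * i0 := by
  induction As with
  | nil => simp [HT]
  | cons A As ih =>
    have h1 := hA A List.mem_cons_self
    have h2 := ih fun A' hA' => hA A' (List.mem_cons_of_mem _ hA')
    rw [List.flatten_cons, HT_append, List.length_cons, Nat.succ_mul, Nat.succ_mul]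
    omega

open Classical in
/-- the functional of the top of walker 1 for a fixed top of walker 2 -/
noncomputable def Qf (Λ₁ : B₁ → ℝ≥0∞) (h₁ : B₁ → ℕ) (z₁ : B₁ → G)
    (T₁ : List B₁ → G → ℕ → Set (G × ℕ))
    (Λ₂ : B₂ → ℝ≥0∞) (h₂ : B₂ → ℕ) (T₂ : List B₂ → G → ℕ → Set (G × ℕ))
    (T i0 lo hi : ℕ) (θ : ℝ≥0∞) (y : G) (d : ℕ) (c : ℕ) (x : G) : ℝ≥0∞ :=
  ∑' A, PW Λ₁ h₁ T A * ∑' B, PW Λ₂ h₂ T B *
    (if ¬ (law (PW Λ₁ h₁ T) (hz h₁ z₁) (hz h₁ z₁ A) < θ) ∧ HT h₁ A ≤ T + i0 ∧ HT h₂ B ≤ T + i0 ∧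
      Ev T₁ T₂ lo hi A x c B y d then 1 else 0)

lemma Qf_le_one (Λ₁ : B₁ → ℝ≥0∞) (h₁ : B₁ → ℕ) (z₁ : B₁ → G)
    (T₁ : List B₁ → G → ℕ → Set (G × ℕ))
    (Λ₂ : B₂ → ℝ≥0∞) (h₂ : B₂ → ℕ) (T₂ : List B₂ → G → ℕ → Set (G × ℕ))
    (p1 : ∀ b, 1 ≤ h₁ b) (p2 : ∀ b, 1 ≤ h₂ b) (m1 : ∑' b, Λ₁ b = 1) (m2 : ∑' b, Λ₂ b = 1)
    (T i0 lo hi : ℕ) (θ : ℝ≥0∞) (y : G) (d : ℕ) (c : ℕ) (x : G) :
    Qf Λ₁ h₁ z₁ T₁ Λ₂ h₂ T₂ T i0 lo hi θ y d c x ≤ 1 := by
  unfold Qf
  calc _ ≤ ∑' A, PW Λ₁ h₁ T A * 1 := by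
        refine ENNReal.tsum_le_tsum fun A => mul_le_mul_right ?_ _
        calc _ ≤ ∑' B, PW Λ₂ h₂ T B := by
              refine ENNReal.tsum_le_tsum fun B => ?_
              split_ifs <;> simp
          _ = 1 := sum_PW_one Λ₂ h₂ p2 m2 T
          _ ≤ 1 := le_rfl
    _ = 1 := by simp only [mul_one]; exact sum_PW_one Λ₁ h₁ p1 m1 T
    _ ≤ 1 := le_rfl

/-- the error of one window with walker 1 local -/
noncomputable def Bd (us : ℕ → ℕ → ℝ≥0∞) (C : ℝ≥0∞) (J i0 s : ℕ) (lam : ℝ≥0∞) : ℝ≥0∞ :=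
  ((i0 + 1 : ℕ) : ℝ≥0∞) * ((i0 + 1 : ℕ) : ℝ≥0∞) *
    (C * (lam + 2 * J * us ((J + 1) * i0) s / lam + us ((J + 1) * i0) s))

open Classical in
theorem loc_bound (Λ₁ : B₁ → ℝ≥0∞) (h₁ : B₁ → ℕ) (z₁ : B₁ → G)
    (T₁ : List B₁ → G → ℕ → Set (G × ℕ))
    (Λ₂ : B₂ → ℝ≥0∞) (h₂ : B₂ → ℕ) (T₂ : List B₂ → G → ℕ → Set (G × ℕ))
    (p1 : ∀ b, 1 ≤ h₁ b) (p2 : ∀ b, 1 ≤ h₂ b) (m1 : ∑' b, Λ₁ b = 1) (m2 : ∑' b, Λ₂ b = 1)
    (t1 : ∀ L x a z k, (z, k) ∈ T₁ L x a ↔ (z - x, k) ∈ T₁ L 0 a)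
    (t2 : ∀ L x a z k, (z, k) ∈ T₂ L x a ↔ (z - x, k) ∈ T₂ L 0 a)
    (us : ℕ → ℕ → ℝ≥0∞) (C : ℝ≥0∞) (H : HypL Λ₁ h₁ z₁ T₁ Λ₂ h₂ T₂ us C)
    (T i0 J j : ℕ) (hj : j + 1 ≤ J) (s lo hi : ℕ) (θ u lam : ℝ≥0∞) (hθ : θ ≠ 0)
    (hl : lam ≠ 0) (hlt : lam ≠ ⊤)
    (hu : u ≤ ∑' v, if law (PW Λ₁ h₁ T) (hz h₁ z₁) v < 2 * θ then
      law (PW Λ₁ h₁ T) (hz h₁ z₁) v else 0)
    (d : ℕ) (hd : j * T ≤ d) (hd' : d ≤ j * T + J * i0) (y : G)
    (hlo : j * T + J * i0 + s ≤ lo) (hhi : hi + s ≤ j * T + T) :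
    SL (PW Λ₁ h₁ T) j (fun As => if ∀ A ∈ As, T ≤ HT h₁ A ∧ HT h₁ A ≤ T + i0 then
      Qf Λ₁ h₁ z₁ T₁ Λ₂ h₂ T₂ T i0 lo hi θ y d (HT h₁ As.flatten) (Dp z₁ As.flatten) else 0)
      ≤ (1 - u) ^ j + ((J * i0 + 1 : ℕ) : ℝ≥0∞) * Bd us C J i0 s lam := by
  set P := PW Λ₁ h₁ T with hP
  set g : List B₁ → ℤ × G := hz h₁ z₁ with hg
  have hP1 : ∑' A, P A = 1 := sum_PW_one Λ₁ h₁ p1 m1 T
  set I : Finset ℤ := Finset.Icc ((j * T : ℕ) : ℤ) ((j * T + J * i0 : ℕ) : ℤ) with hI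
  have hIc : I.card = J * i0 + 1 := by
    rw [hI, Int.card_Icc]
    push_cast
    have : ((j : ℤ) * T + J * i0 + 1 - j * T) = ((J * i0 + 1 : ℕ) : ℤ) := by push_cast; ring
    rw [this, Int.toNat_natCast]
  have hu' : u ≤ ∑' A, (if law P g (g A) < 2 * θ then P A else 0) := by
    rw [← push_lt]; exact hu
  have key := one_walker P hP1 g (2 * θ) u (fun A => law P g (g A) < 2 * θ)
    (by convert hu') (fun x => by convert law_small P g (2 * θ) x) j I
    (fun As => ∀ A ∈ As, T ≤ HT h₁ A ∧ HT h₁ A ≤ T + i0)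
    (by
      intro L hL hok
      have hb := flat_bounds h₁ T i0 L hok
      rw [hg, hz_flatten]
      simp only [hz]
      rw [hI, Finset.mem_Icc, hL] at *
      have h3 : j * i0 ≤ J * i0 := Nat.mul_le_mul_right _ (by omega)
      constructor
      · exact_mod_cast hb.1
      · exact_mod_cast (by omega : HT h₁ L.flatten ≤ j * T + J * i0))
    (fun c x => Qf Λ₁ h₁ z₁ T₁ Λ₂ h₂ T₂ T i0 lo hi θ y d c.toNat x)
    (fun c x => Qf_le_one Λ₁ h₁ z₁ T₁ Λ₂ h₂ T₂ p1 p2 m1 m2 T i0 lo hi θ y d c.toNat x)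
    (Bd us C J i0 s lam) ?_
  · rw [hIc] at key
    refine le_trans (SL_mono _ j fun As _ => ?_) key
    by_cases hok : ∀ A ∈ As, T ≤ HT h₁ A ∧ HT h₁ A ≤ T + i0
    · rw [if_pos hok, if_pos hok, hg, hz_flatten]
      simp only [hz, Int.toNat_natCast]
      exact le_rfl
    · rw [if_neg hok]; exact zero_le
  · intro c hc μ hμ1 hμ2
    rw [hI, Finset.mem_Icc] at hc
    obtain ⟨c', hc'⟩ : ∃ c' : ℕ, c.toNat = c' := ⟨_, rfl⟩
    have hc1 : j * T ≤ c' := by omega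
    have hc2 : c' ≤ j * T + J * i0 := by omega
    -- the local sets
    have hpl : ∀ h : ℕ, ∑' x, law P g ((h : ℤ), x) ≤ 1 := by
      intro h
      calc ∑' x, law P g ((h : ℤ), x) ≤ ∑' v, law P g v :=
            ENNReal.tsum_comp_le_tsum_of_injective (f := fun x : G => ((h : ℤ), x))
              (fun a b hab => by simpa using hab) _
        _ = 1 := by rw [sum_law, hP1]
    have hcard := fun h : ℕ => card_le (fun x => law P g ((h : ℤ), x)) (hpl h) hθ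
    set E : ℕ → Finset G := fun h => (hcard h).1.toFinset with hE
    have hEc : ∀ h, ((E h).card : ℝ≥0∞) * θ ≤ 1 := by
      intro h
      have := (hcard h).2
      rw [Set.ncard_eq_toFinset_card _ (hcard h).1] at this
      exact this
    set k : List B₁ → List B₂ → ℕ → ℕ → G → ℝ≥0∞ := fun A B h h' x =>
      if HT h₁ A = h ∧ Dp z₁ A ∈ E h ∧ HT h₂ B = h' ∧
        Ev T₁ T₂ lo hi A 0 c' B x d then LW Λ₁ A * LW Λ₂ B else 0 with hk
    have hQ : ∀ x, Qf Λ₁ h₁ z₁ T₁ Λ₂ h₂ T₂ T i0 lo hi θ y d c.toNat x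
        ≤ ∑ h ∈ Finset.Icc T (T + i0), ∑ h' ∈ Finset.Icc T (T + i0),
            ∑' A, ∑' B, k A B h h' (y - x) := by
      intro x
      rw [hc']
      unfold Qf
      calc _ ≤ ∑' A, ∑' B, ∑ h ∈ Finset.Icc T (T + i0), ∑ h' ∈ Finset.Icc T (T + i0),
            k A B h h' (y - x) := by
            refine ENNReal.tsum_le_tsum fun A => ?_
            rw [← ENNReal.tsum_mul_left]
            refine ENNReal.tsum_le_tsum fun B => ?_
            by_cases hA : fp h₁ T A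
            · by_cases hB : fp h₂ T B
              · by_cases hc : ¬ (law (PW Λ₁ h₁ T) (hz h₁ z₁) (hz h₁ z₁ A) < θ) ∧
                  HT h₁ A ≤ T + i0 ∧ HT h₂ B ≤ T + i0 ∧ Ev T₁ T₂ lo hi A x c' B y d
                · rw [if_pos hc, mul_one]
                  obtain ⟨q1, q2, q3, q4⟩ := hc
                  have r1 : HT h₁ A ∈ Finset.Icc T (T + i0) :=
                    Finset.mem_Icc.2 ⟨le_HT_of_fp h₁ hA, q2⟩
                  have r2 : HT h₂ B ∈ Finset.Icc T (T + i0) :=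
                    Finset.mem_Icc.2 ⟨le_HT_of_fp h₂ hB, q3⟩
                  have r3 : k A B (HT h₁ A) (HT h₂ B) (y - x) = LW Λ₁ A * LW Λ₂ B := by
                    have hm : Dp z₁ A ∈ E (HT h₁ A) :=
                      (hcard (HT h₁ A)).1.mem_toFinset.2 (not_lt.1 q1)
                    exact if_pos ⟨rfl, hm, rfl, (Ev_shift T₁ T₂ t1 t2 lo hi A x c' B y d).1 q4⟩
                  calc PW Λ₁ h₁ T A * PW Λ₂ h₂ T B = LW Λ₁ A * LW Λ₂ B := by
                        rw [PW, PW, if_pos hA, if_pos hB]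
                    _ = k A B (HT h₁ A) (HT h₂ B) (y - x) := r3.symm
                    _ ≤ ∑ h' ∈ Finset.Icc T (T + i0), k A B (HT h₁ A) h' (y - x) :=
                        Finset.single_le_sum (f := fun h' => k A B (HT h₁ A) h' (y - x))
                          (fun _ _ => zero_le) r2
                    _ ≤ _ := Finset.single_le_sum (f := fun h => ∑ h' ∈ Finset.Icc T (T + i0),
                          k A B h h' (y - x)) (fun _ _ => zero_le) r1
                · rw [if_neg hc, mul_zero, mul_zero]; exact zero_le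
              · rw [PW, PW, if_neg hB]; simp
            · rw [PW, if_neg hA]; simp
        _ = _ := by
            simp_rw [tfs]
    have hH : ∀ h ∈ Finset.Icc T (T + i0), ∀ h' ∈ Finset.Icc T (T + i0),
        ∑' x, μ x * ∑' A, ∑' B, k A B h h' (y - x)
          ≤ C * (lam + 2 * J * us ((J + 1) * i0) s / lam + us ((J + 1) * i0) s) := by
      intro h hh h' hh'
      rw [Finset.mem_Icc] at hh hh'
      have er : (J + 1) * i0 = J * i0 + i0 := by ring
      have e := (Equiv.subLeft y).tsum_eq (fun x => μ x * ∑' A, ∑' B, k A B h h' (y - x))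
      rw [← e]
      have e2 := (Equiv.subLeft y).tsum_eq μ
      have hH0 := H ((J + 1) * i0) s h h' c' d lo hi (E h) (fun x => μ (y - x)) (j * (2 * θ)) lam
        (by
          have : ∑' x, μ (y - x) = ∑' x, μ x := by simpa [Equiv.subLeft_apply] using e2
          rw [this]; exact hμ1)
        (fun x => hμ2 _) hl hlt (by omega) (by omega) (by omega) (by omega) (by omega) (by omega)
        (by omega) (by omega)
      calc ∑' x, (fun x => μ x * ∑' A, ∑' B, k A B h h' (y - x)) ((Equiv.subLeft y) x)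
          = ∑' x, μ (y - x) * ∑' A, ∑' B, k A B h h' x := by
            refine tsum_congr fun x => ?_
            simp only [Equiv.subLeft_apply, sub_sub_cancel]
        _ ≤ C * (lam + j * (2 * θ) * (E h).card * us ((J + 1) * i0) s / lam
              + us ((J + 1) * i0) s) := by
            refine le_trans (le_of_eq ?_) hH0
            refine tsum_congr fun x => ?_
            congr 1
        _ ≤ _ := by
            refine mul_le_mul_right (add_le_add (add_le_add le_rfl ?_) le_rfl) _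
            refine ENNReal.div_le_div_right ?_ _
            refine mul_le_mul_left ?_ _
            calc (j : ℝ≥0∞) * (2 * θ) * (E h).card = 2 * j * ((E h).card * θ) := by ring
              _ ≤ 2 * J * 1 := by
                  refine mul_le_mul' (mul_le_mul_right ?_ _) (hEc h)
                  exact_mod_cast (by omega : j ≤ J)
              _ = 2 * J := mul_one _
    calc ∑' x, μ x * Qf Λ₁ h₁ z₁ T₁ Λ₂ h₂ T₂ T i0 lo hi θ y d c.toNat x
        ≤ ∑' x, μ x * ∑ h ∈ Finset.Icc T (T + i0), ∑ h' ∈ Finset.Icc T (T + i0),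
            ∑' A, ∑' B, k A B h h' (y - x) :=
          ENNReal.tsum_le_tsum fun x => mul_le_mul_right (hQ x) _
      _ = ∑ h ∈ Finset.Icc T (T + i0), ∑ h' ∈ Finset.Icc T (T + i0),
            ∑' x, μ x * ∑' A, ∑' B, k A B h h' (y - x) := by
          simp_rw [Finset.mul_sum, tfs]
      _ ≤ ∑ h ∈ Finset.Icc T (T + i0), ∑ h' ∈ Finset.Icc T (T + i0),
            C * (lam + 2 * J * us ((J + 1) * i0) s / lam + us ((J + 1) * i0) s) :=
          Finset.sum_le_sum fun h hh => Finset.sum_le_sum fun h' hh' => hH h hh h' hh'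
      _ = Bd us C J i0 s lam := by
          rw [Finset.sum_const, Finset.sum_const, Nat.card_Icc, nsmul_eq_mul, nsmul_eq_mul,
            show T + i0 + 1 - T = i0 + 1 by omega, Bd]
          ring

end Crest.Agent.R154.Asm217
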