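import Crest.Agent.R154.AsmC_222

/-! Row 154, road 801 (helper222): one window. -/

set_option autoImplicit false
set_option linter.unusedSectionVars false

namespace Crest.Agent.R154.Asm222

open scoped ENNReal
open Crest.Agent.R154.B5A

variable {BX BY G : Type*} [AddCommGroup G]
variable (ΛX : BX → ℝ≥0∞) (hX : BX → ℕ) (zX : BX → G) (sX : BX → Set (G × ℕ))
variable (ΛY : BY → ℝ≥0∞) (hY : BY → ℕ) (zY : BY → G) (sY : BY → Set (G × ℕ))

/-- contact in `(c + t, c + 2 t]` and no contact in the two slabs -/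
def EvW (U V : Set (G × ℕ)) (c t i0 s : ℕ) : Prop :=
  (∃ p, p ∈ U ∧ p ∈ V ∧ c + t < p.2 ∧ p.2 ≤ c + 2 * t) ∧
  ∀ p, p ∈ U → p ∈ V → (p.2 ≤ c ∨ c + 2 * i0 + s < p.2) ∧
    (p.2 ≤ c + 3 * t - s ∨ c + 3 * t + 2 * i0 < p.2)

section geom
variable {zX sX zY sY}

lemma EvW_Ev (hsX : ∀ b, ∀ p ∈ sX b, 1 ≤ p.2 ∧ p.2 ≤ hX b)
    (hsY : ∀ b, ∀ p ∈ sY b, 1 ≤ p.2 ∧ p.2 ≤ hY b) (c t i0 s : ℕ) (ht : 2 * i0 ≤ t) (w : G)
    (A P R : List BX) (A' P' R' : List BY)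
    (g1 : c ≤ HT hX A) (g2 : HT hX A ≤ c + i0) (g3 : 3 * t ≤ HT hX P)
    (g4 : HT hX P ≤ 3 * t + i0) (g5 : c + i0 ≤ HT hY A') (g6 : HT hY A' ≤ c + i0 + i0)
    (g7 : 3 * t + i0 ≤ HT hY P')
    (h : EvW (TT hX zX sX (A ++ (P ++ R)) 0 0) (TT hY zY sY (A' ++ (P' ++ R')) w 0) c t i0 s) :
    Ev (TT hX zX sX P (Dp zX A) (HT hX A)) (TT hY zY sY P' (w + Dp zY A') (HT hY A'))
      (c + 2 * i0 + s) (c + 3 * t - s) := by
  have eX : ∀ p : G × ℕ, p ∈ TT hX zX sX P (Dp zX A) (HT hX A) →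
      p ∈ TT hX zX sX (A ++ (P ++ R)) 0 0 := by
    intro p hp
    rw [TT_append, TT_append, zero_add, zero_add]
    exact Or.inr (Or.inl hp)
  have eY : ∀ p : G × ℕ, p ∈ TT hY zY sY P' (w + Dp zY A') (HT hY A') →
      p ∈ TT hY zY sY (A' ++ (P' ++ R')) w 0 := by
    intro p hp
    rw [TT_append, TT_append, zero_add]
    exact Or.inr (Or.inl hp)
  obtain ⟨⟨p, hp1, hp2, hp3, hp4⟩, hall⟩ := h
  refine ⟨⟨p, ?_, ?_⟩, ?_⟩
  · rw [TT_append, TT_append, zero_add, zero_add] at hp1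
    rcases hp1 with hp1 | hp1 | hp1
    · have := TT_depth hX zX sX hsX A 0 0 p hp1; omega
    · exact hp1
    · have := TT_depth hX zX sX hsX R _ _ p hp1; omega
  · rw [TT_append, TT_append, zero_add] at hp2
    rcases hp2 with hp2 | hp2 | hp2
    · have := TT_depth hY zY sY hsY A' w 0 p hp2; omega
    · exact hp2
    · have := TT_depth hY zY sY hsY R' _ _ p hp2; omega
  · intro q hq1 hq2
    have k1 := TT_depth hX zX sX hsX P _ _ q hq1
    have k2 := TT_depth hY zY sY hsY P' _ _ q hq2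
    have k3 := hall q (eX q hq1) (eY q hq2)
    omega

end geom

open Classical in
lemma hM_X (hUY : ∀ n, U ΛY hY n ≤ 1) (w : G) (S : List BX → Prop) (M : ℝ≥0∞)
    (hS : ∀ a y, ∑' A, (if HT hX A = a ∧ Dp zX A = y ∧ S A then LW ΛX A else 0) ≤ M)
    (a a' : ℕ) (x : G) :
    ∑' A, ∑' A', (if HT hX A = a ∧ HT hY A' = a' ∧ S A ∧
      w + Dp zY A' - Dp zX A = x then LW ΛX A * LW ΛY A' else 0) ≤ M := by
  rw [ENNReal.tsum_comm]
  calc _ ≤ ∑' A', (if HT hY A' = a' then LW ΛY A' else 0) * M := by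
        refine ENNReal.tsum_le_tsum fun A' => ?_
        by_cases hA' : HT hY A' = a'
        · rw [if_pos hA']
          calc _ ≤ ∑' A, LW ΛY A' * (if HT hX A = a ∧ Dp zX A = w + Dp zY A' - x ∧ S A
                then LW ΛX A else 0) := by
                refine ENNReal.tsum_le_tsum fun A => ?_
                by_cases hA : HT hX A = a ∧ HT hY A' = a' ∧ S A ∧ w + Dp zY A' - Dp zX A = x
                · rw [if_pos hA, if_pos ⟨hA.1, by rw [← hA.2.2.2]; abel, hA.2.2.1⟩, mul_comm]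
                · rw [if_neg hA]; exact zero_le
            _ = LW ΛY A' * ∑' A, (if HT hX A = a ∧ Dp zX A = w + Dp zY A' - x ∧ S A
                then LW ΛX A else 0) := ENNReal.tsum_mul_left
            _ ≤ _ := mul_le_mul_right (hS _ _) _
        · rw [if_neg hA', zero_mul]
          refine le_of_eq ?_
          rw [ENNReal.tsum_eq_zero]
          intro A
          rw [if_neg (fun hh => hA' hh.2.1)]
    _ = U ΛY hY a' * M := ENNReal.tsum_mul_right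
    _ ≤ M := mul_le_of_le_one_left zero_le (hUY _)

open Classical in
lemma hM_Y (hUX : ∀ n, U ΛX hX n ≤ 1) (w : G) (S : List BY → Prop) (M : ℝ≥0∞)
    (hS : ∀ a y, ∑' A, (if HT hY A = a ∧ Dp zY A = y ∧ S A then LW ΛY A else 0) ≤ M)
    (a a' : ℕ) (x : G) :
    ∑' A, ∑' A', (if HT hX A = a ∧ HT hY A' = a' ∧ S A' ∧
      w + Dp zY A' - Dp zX A = x then LW ΛX A * LW ΛY A' else 0) ≤ M := by
  calc _ ≤ ∑' A, (if HT hX A = a then LW ΛX A else 0) * M := by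
        refine ENNReal.tsum_le_tsum fun A => ?_
        by_cases hA' : HT hX A = a
        · rw [if_pos hA']
          calc _ ≤ ∑' A', LW ΛX A * (if HT hY A' = a' ∧ Dp zY A' = x - w + Dp zX A ∧ S A'
                then LW ΛY A' else 0) := by
                refine ENNReal.tsum_le_tsum fun A' => ?_
                by_cases hA : HT hX A = a ∧ HT hY A' = a' ∧ S A' ∧ w + Dp zY A' - Dp zX A = x
                · rw [if_pos hA, if_pos ⟨hA.2.1, by rw [← hA.2.2.2]; abel, hA.2.2.1⟩]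
                · rw [if_neg hA]; exact zero_le
            _ = LW ΛX A * ∑' A', (if HT hY A' = a' ∧ Dp zY A' = x - w + Dp zX A ∧ S A'
                then LW ΛY A' else 0) := ENNReal.tsum_mul_left
            _ ≤ _ := mul_le_mul_right (hS _ _) _
        · rw [if_neg hA', zero_mul]
          refine le_of_eq ?_
          rw [ENNReal.tsum_eq_zero]
          intro A'
          rw [if_neg (fun hh => hA' hh.1)]
    _ = U ΛX hX a * M := ENNReal.tsum_mul_right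
    _ ≤ M := mul_le_of_le_one_left zero_le (hUX _)


section defs

open Classical in
/-- the bounds -/
noncomputable def F2 (c t i0 s : ℕ) (w : G) (A P : List BX) (A' P' : List BY) : ℝ≥0∞ :=
  if (HT hX A ≤ c + i0 ∧ HT hX P ≤ 3 * t + i0 ∧ HT hY A' ≤ c + i0 + i0 ∧
      HT hY P' ≤ 3 * t + i0 + i0) ∧
      Ev (TT hX zX sX P (Dp zX A) (HT hX A)) (TT hY zY sY P' (w + Dp zY A') (HT hY A'))
        (c + 2 * i0 + s) (c + 3 * t - s) then 1 else 0

open Classical in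
/-- the event of the window -/
noncomputable def WE (c t i0 s : ℕ) (w : G) (LX : List BX) (LY : List BY) : ℝ≥0∞ :=
  if EvW (TT hX zX sX LX 0 0) (TT hY zY sY LY w 0) c t i0 s then 1 else 0

end defs

lemma WE_le (c t i0 s : ℕ) (w : G) (LX : List BX) (LY : List BY) :
    WE hX zX sX hY zY sY c t i0 s w LX LY ≤ 1 := by
  unfold WE; split_ifs <;> simp

open Classical in
lemma win_prod (c t i0 s n : ℕ) (w : G) :
    ∑' LX, ∑' LY, (if HT hX LX = n ∧ HT hY LY = n ∧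
        EvW (TT hX zX sX LX 0 0) (TT hY zY sY LY w 0) c t i0 s then LW ΛX LX * LW ΛY LY else 0)
      = ∑' LX, (if HT hX LX = n then LW ΛX LX *
          (∑' LY, (if HT hY LY = n then LW ΛY LY * WE hX zX sX hY zY sY c t i0 s w LX LY
            else 0)) else 0) := by
  refine tsum_congr fun LX => ?_
  by_cases hL : HT hX LX = n
  · rw [if_pos hL, ← ENNReal.tsum_mul_left]
    refine tsum_congr fun LY => ?_
    unfold WE
    by_cases hL' : HT hY LY = n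
    · by_cases hE : EvW (TT hX zX sX LX 0 0) (TT hY zY sY LY w 0) c t i0 s
      · rw [if_pos ⟨hL, hL', hE⟩, if_pos hL', if_pos hE, mul_one]
      · rw [if_neg (fun hh => hE hh.2.2), if_pos hL', if_neg hE, mul_zero, mul_zero]
    · rw [if_neg (fun hh => hL' hh.2.1), if_neg hL', mul_zero]
  · rw [if_neg hL]
    rw [ENNReal.tsum_eq_zero]
    intro LY
    rw [if_neg (fun hh => hL hh.1)]

open Classical in
lemma win_cut (h1X : ∀ b, 1 ≤ hX b) (h1Y : ∀ b, 1 ≤ hY b)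
    (hΛX : ∑' b, ΛX b = 1) (hΛY : ∑' b, ΛY b = 1)
    (hUX : ∀ n, U ΛX hX n ≤ 1) (hUY : ∀ n, U ΛY hY n ≤ 1)
    (hsX : ∀ b, ∀ p ∈ sX b, 1 ≤ p.2 ∧ p.2 ≤ hX b)
    (hsY : ∀ b, ∀ p ∈ sY b, 1 ≤ p.2 ∧ p.2 ≤ hY b)
    (c t i0 s n : ℕ) (ht : 2 * i0 ≤ t) (hn : c + 3 * t + 4 * i0 ≤ n) (w : G) :
    ∑' LX, (if HT hX LX = n then LW ΛX LX *
          (∑' LY, (if HT hY LY = n then LW ΛY LY * WE hX zX sX hY zY sY c t i0 s w LX LY
            else 0)) else 0)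
      ≤ S4 ΛX hX ΛY hY c (3 * t) (c + i0) (3 * t + i0) (F2 hX zX sX hY zY sY c t i0 s w)
        + 2 * ep ΛY hY i0 + 2 * ep ΛX hX i0 := by
  have hFX1 : ∀ LX, ∑' LY, (if HT hY LY = n then LW ΛY LY *
      WE hX zX sX hY zY sY c t i0 s w LX LY else 0) ≤ 1 := by
    intro LX
    refine le_trans (ENNReal.tsum_le_tsum fun LY => ?_) (hUY n)
    by_cases hL' : HT hY LY = n
    · rw [if_pos hL', if_pos hL']
      exact mul_le_of_le_one_right zero_le (WE_le hX zX sX hY zY sY c t i0 s w LX LY)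
    · rw [if_neg hL', if_neg hL']
  refine (cut ΛX hX h1X hΛX hUX c (3 * t) i0 n (by omega) (ep ΛX hX i0)
    (over_le ΛX hX h1X hUX i0 c) (over_le ΛX hX h1X hUX i0 (3 * t))
    (fun LX => ∑' LY, (if HT hY LY = n then LW ΛY LY *
      WE hX zX sX hY zY sY c t i0 s w LX LY else 0)) hFX1
    (fun A P => SF ΛY hY (c + i0) (fun A' => SF ΛY hY (3 * t + i0)
      (fun P' => F2 hX zX sX hY zY sY c t i0 s w A P A' P'))
      + 2 * ep ΛY hY i0) ?_).trans ?_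
  · intro A P R hA hP hA2 hP2
    refine cut ΛY hY h1Y hΛY hUY (c + i0) (3 * t + i0) i0 n (by omega) (ep ΛY hY i0)
      (over_le ΛY hY h1Y hUY i0 (c + i0)) (over_le ΛY hY h1Y hUY i0 (3 * t + i0))
      (fun LY => WE hX zX sX hY zY sY c t i0 s w (A ++ (P ++ R)) LY)
      (fun LY => WE_le hX zX sX hY zY sY c t i0 s w _ LY)
      (fun A' P' => F2 hX zX sX hY zY sY c t i0 s w A P A' P') ?_
    intro A' P' R' hA' hP' hA2' hP2'
    unfold WE F2
    by_cases hE : EvW (TT hX zX sX (A ++ (P ++ R)) 0 0)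
      (TT hY zY sY (A' ++ (P' ++ R')) w 0) c t i0 s
    · rw [if_pos hE, if_pos]
      exact ⟨⟨hA2, hP2, hA2', hP2'⟩, EvW_Ev hX hY hsX hsY c t i0 s ht w A P R A' P' R'
        (FP_le hX A c hA) hA2 (FP_le hX P _ hP) hP2 (FP_le hY A' _ hA') hA2'
        (FP_le hY P' _ hP') hE⟩
    · rw [if_neg hE]; exact zero_le
  · refine add_le_add ?_ le_rfl
    unfold S4
    refine le_trans (le_of_eq ?_) (add_le_add le_rfl (SF_le_const ΛX hX h1X hΛX c
      (2 * ep ΛY hY i0) (F := fun A => SF ΛX hX (3 * t) (fun _ => 2 * ep ΛY hY i0)) fun _ _ =>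
      SF_le_const ΛX hX h1X hΛX _ _ fun _ _ => le_rfl))
    rw [← SF_add]
    refine congrArg _ (funext fun A => ?_)
    rw [← SF_add]

section split

variable (KX : List BX → Prop) (KY : List BY → Prop) (SX : List BX → Prop) (SY : List BY → Prop)

open Classical in
/-- both non local -/
noncomputable def φ1 (_ P : List BX) (_ P' : List BY) : ℝ≥0∞ :=
  (if KX P then 0 else 1) * (if KY P' then 0 else 1)

open Classical in
/-- first non smooth -/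
noncomputable def ψ2 (A _ : List BX) (_ _ : List BY) : ℝ≥0∞ := if SX A then 0 else 1

open Classical in
/-- second non smooth -/
noncomputable def ψ3 (_ _ : List BX) (A' _ : List BY) : ℝ≥0∞ := if SY A' then 0 else 1

open Classical in
/-- first local and smooth -/
noncomputable def φ2 (c t i0 s : ℕ) (w : G) (A P : List BX) (A' P' : List BY) : ℝ≥0∞ :=
  if (HT hX A ≤ c + i0 ∧ HT hX P ≤ 3 * t + i0 ∧ HT hY A' ≤ c + i0 + i0 ∧
      HT hY P' ≤ 3 * t + i0 + i0) ∧ SX A ∧ KX P ∧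
      Ev (TT hX zX sX P (Dp zX A) (HT hX A)) (TT hY zY sY P' (w + Dp zY A') (HT hY A'))
        (c + 2 * i0 + s) (c + 3 * t - s) then 1 else 0

open Classical in
/-- second local and smooth -/
noncomputable def φ3 (c t i0 s : ℕ) (w : G) (A P : List BX) (A' P' : List BY) : ℝ≥0∞ :=
  if (HT hX A ≤ c + i0 ∧ HT hX P ≤ 3 * t + i0 ∧ HT hY A' ≤ c + i0 + i0 ∧
      HT hY P' ≤ 3 * t + i0 + i0) ∧ SY A' ∧ KY P' ∧
      Ev (TT hX zX sX P (Dp zX A) (HT hX A)) (TT hY zY sY P' (w + Dp zY A') (HT hY A'))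
        (c + 2 * i0 + s) (c + 3 * t - s) then 1 else 0

lemma F2_le (c t i0 s : ℕ) (w : G) (A P : List BX) (A' P' : List BY) :
    F2 hX zX sX hY zY sY c t i0 s w A P A' P' ≤
      φ1 KX KY A P A' P' + ψ2 SX A P A' P' + ψ3 SY A P A' P'
      + (φ2 hX zX sX hY zY sY KX SX c t i0 s w A P A' P'
        + φ3 hX zX sX hY zY sY KY SY c t i0 s w A P A' P') := by
  classical
  unfold F2
  by_cases hE : (HT hX A ≤ c + i0 ∧ HT hX P ≤ 3 * t + i0 ∧ HT hY A' ≤ c + i0 + i0 ∧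
      HT hY P' ≤ 3 * t + i0 + i0) ∧
      Ev (TT hX zX sX P (Dp zX A) (HT hX A)) (TT hY zY sY P' (w + Dp zY A') (HT hY A'))
        (c + 2 * i0 + s) (c + 3 * t - s)
  · rw [if_pos hE]
    by_cases hPX : KX P
    · by_cases hSA : SX A
      · refine le_add_left (le_add_right ?_)
        unfold φ2
        rw [if_pos ⟨hE.1, hSA, hPX, hE.2⟩]
      · refine le_add_right (le_add_right (le_add_left ?_))
        unfold ψ2
        rw [if_neg hSA]
    · by_cases hPY : KY P'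
      · by_cases hSA : SY A'
        · refine le_add_left (le_add_left ?_)
          unfold φ3
          rw [if_pos ⟨hE.1, hSA, hPY, hE.2⟩]
        · refine le_add_right (le_add_left ?_)
          unfold ψ3
          rw [if_neg hSA]
      · refine le_add_right (le_add_right (le_add_right ?_))
        unfold φ1
        rw [if_neg hPX, if_neg hPY, mul_one]
  · rw [if_neg hE]; exact zero_le

lemma b1 (h1X : ∀ b, 1 ≤ hX b) (h1Y : ∀ b, 1 ≤ hY b)
    (hΛX : ∑' b, ΛX b = 1) (hΛY : ∑' b, ΛY b = 1) (c T c' T' : ℕ) (uX uY : ℝ≥0∞)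
    (huX : SF ΛX hX T (fun P => open Classical in if KX P then 0 else 1) ≤ uX)
    (huY : SF ΛY hY T' (fun P => open Classical in if KY P then 0 else 1) ≤ uY) :
    S4 ΛX hX ΛY hY c T c' T' (φ1 KX KY) ≤ uX * uY := by
  classical
  unfold S4
  refine SF_le_const ΛX hX h1X hΛX c _ fun A _ => ?_
  have : ∀ P, SF ΛY hY c' (fun A' => SF ΛY hY T' (fun P' => φ1 KX KY A P A' P'))
      ≤ uY * (open Classical in if KX P then 0 else 1) := by
    intro P
    refine SF_le_const ΛY hY h1Y hΛY _ _ fun A' _ => ?_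
    unfold φ1
    rw [SF_const_mul, mul_comm]
    exact mul_le_mul_left huY _
  refine (SF_mono ΛX hX _ fun P _ => this P).trans ?_
  rw [SF_const_mul, mul_comm]
  exact mul_le_mul_left huX _

lemma b2 (h1X : ∀ b, 1 ≤ hX b) (h1Y : ∀ b, 1 ≤ hY b)
    (hΛX : ∑' b, ΛX b = 1) (hΛY : ∑' b, ΛY b = 1) (c T c' T' : ℕ) (δX : ℝ≥0∞)
    (hδX : SF ΛX hX c (fun A => open Classical in if SX A then 0 else 1) ≤ δX) :
    S4 ΛX hX ΛY hY c T c' T' (ψ2 SX) ≤ δX := by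
  unfold S4
  refine (SF_mono ΛX hX c fun A _ => ?_).trans hδX
  exact SF_le_const ΛX hX h1X hΛX _ _ fun P _ =>
    SF_le_const ΛY hY h1Y hΛY _ _ fun A' _ => SF_le_const ΛY hY h1Y hΛY _ _ fun P' _ => le_rfl

lemma b3 (h1X : ∀ b, 1 ≤ hX b) (h1Y : ∀ b, 1 ≤ hY b)
    (hΛX : ∑' b, ΛX b = 1) (hΛY : ∑' b, ΛY b = 1) (c T c' T' : ℕ) (δY : ℝ≥0∞)
    (hδY : SF ΛY hY c' (fun A => open Classical in if SY A then 0 else 1) ≤ δY) :
    S4 ΛX hX ΛY hY c T c' T' (ψ3 SY) ≤ δY := by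
  unfold S4
  refine SF_le_const ΛX hX h1X hΛX _ _ fun A _ => SF_le_const ΛX hX h1X hΛX _ _ fun P _ => ?_
  refine (SF_mono ΛY hY _ fun A' _ => ?_).trans hδY
  exact SF_le_const ΛY hY h1Y hΛY _ _ fun P' _ => le_rfl

end split

open Classical in
/-- **one window** -/
theorem window (h1X : ∀ b, 1 ≤ hX b) (h1Y : ∀ b, 1 ≤ hY b)
    (hΛX : ∑' b, ΛX b = 1) (hΛY : ∑' b, ΛY b = 1)
    (hUX : ∀ n, U ΛX hX n ≤ 1) (hUY : ∀ n, U ΛY hY n ≤ 1)
    (hsX : ∀ b, ∀ p ∈ sX b, 1 ≤ p.2 ∧ p.2 ≤ hX b)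
    (hsY : ∀ b, ∀ p ∈ sY b, 1 ≤ p.2 ∧ p.2 ≤ hY b)
    (c t i0 s n : ℕ) (ht : 2 * i0 ≤ t) (hn : c + 3 * t + 4 * i0 ≤ n) (w : G)
    (KX : List BX → Prop) (KY : List BY → Prop) (uX uY δX δY MX MY βX βY : ℝ≥0∞)
    (SX : List BX → Prop) (SY : List BY → Prop)
    (huX : SF ΛX hX (3 * t) (fun P => if KX P then 0 else 1) ≤ uX)
    (huY : SF ΛY hY (3 * t + i0) (fun P => if KY P then 0 else 1) ≤ uY)
    (hδX : SF ΛX hX c (fun A => if SX A then 0 else 1) ≤ δX)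
    (hδY : SF ΛY hY (c + i0) (fun A => if SY A then 0 else 1) ≤ δY)
    (hSX : ∀ a y, ∑' A, (if HT hX A = a ∧ Dp zX A = y ∧ SX A then LW ΛX A else 0) ≤ MX)
    (hSY : ∀ a y, ∑' A, (if HT hY A = a ∧ Dp zY A = y ∧ SY A then LW ΛY A else 0) ≤ MY)
    (hβX : ∀ a a' h h', c ≤ a → a ≤ c + i0 → c + i0 ≤ a' → a' ≤ c + i0 + i0 → 3 * t ≤ h →
      h ≤ 3 * t + i0 → 3 * t + i0 ≤ h' → h' ≤ 3 * t + i0 + i0 →
      ∀ μ : G → ℝ≥0∞, ∑' x, μ x ≤ 1 → (∀ x, μ x ≤ MX) →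
      ∑' x, μ x * ∑' P, ∑' P', (if HT hX P = h ∧ HT hY P' = h' ∧ KX P ∧
        Ev (TT hX zX sX P 0 a) (TT hY zY sY P' x a') (c + 2 * i0 + s) (c + 3 * t - s)
        then LW ΛX P * LW ΛY P' else 0) ≤ βX)
    (hβY : ∀ a a' h h', c ≤ a → a ≤ c + i0 → c + i0 ≤ a' → a' ≤ c + i0 + i0 → 3 * t ≤ h →
      h ≤ 3 * t + i0 → 3 * t + i0 ≤ h' → h' ≤ 3 * t + i0 + i0 →
      ∀ μ : G → ℝ≥0∞, ∑' x, μ x ≤ 1 → (∀ x, μ x ≤ MY) →
      ∑' x, μ x * ∑' P, ∑' P', (if HT hX P = h ∧ HT hY P' = h' ∧ KY P' ∧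
        Ev (TT hX zX sX P 0 a) (TT hY zY sY P' x a') (c + 2 * i0 + s) (c + 3 * t - s)
        then LW ΛX P * LW ΛY P' else 0) ≤ βY) :
    ∑' LX, ∑' LY, (if HT hX LX = n ∧ HT hY LY = n ∧
        EvW (TT hX zX sX LX 0 0) (TT hY zY sY LY w 0) c t i0 s then LW ΛX LX * LW ΛY LY else 0)
      ≤ 2 * ep ΛX hX i0 + 2 * ep ΛY hY i0 + uX * uY + δX + δY
        + ((i0 + 1 : ℕ) : ℝ≥0∞) ^ 4 * (βX + βY) := by
  rw [win_prod]
  refine (win_cut ΛX hX zX sX ΛY hY zY sY h1X h1Y hΛX hΛY hUX hUY hsX hsY c t i0 s n ht hn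
    w).trans ?_
  have e3 := S4_mono ΛX hX ΛY hY c (3 * t) (c + i0) (3 * t + i0)
    (fun A P A' P' _ _ _ _ => F2_le hX zX sX hY zY sY KX KY SX SY c t i0 s w A P A' P')
  rw [S4_add, S4_add, S4_add, S4_add] at e3
  have k1 := b1 ΛX hX ΛY hY KX KY h1X h1Y hΛX hΛY c (3 * t) (c + i0) (3 * t + i0) uX uY
    huX huY
  have k2 := b2 ΛX hX ΛY hY SX h1X h1Y hΛX hΛY c (3 * t) (c + i0) (3 * t + i0) δX hδX
  have k3 := b3 ΛX hX ΛY hY SY h1X h1Y hΛX hΛY c (3 * t) (c + i0) (3 * t + i0) δY hδY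
  have k4 : S4 ΛX hX ΛY hY c (3 * t) (c + i0) (3 * t + i0)
      (φ2 hX zX sX hY zY sY KX SX c t i0 s w) ≤ ((i0 + 1 : ℕ) : ℝ≥0∞) ^ 4 * βX :=
    local_part ΛX hX zX sX ΛY hY zY sY hUX hUY c (3 * t) (c + i0) (3 * t + i0) i0 _ _ w
      (fun A _ => SX A) (fun P _ => KX P) MX βX
      (hM_X ΛX hX zX ΛY hY zY hUY w SX MX hSX) hβX
  have k5 : S4 ΛX hX ΛY hY c (3 * t) (c + i0) (3 * t + i0)
      (φ3 hX zX sX hY zY sY KY SY c t i0 s w) ≤ ((i0 + 1 : ℕ) : ℝ≥0∞) ^ 4 * βY :=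
    local_part ΛX hX zX sX ΛY hY zY sY hUX hUY c (3 * t) (c + i0) (3 * t + i0) i0 _ _ w
      (fun _ A' => SY A') (fun _ P' => KY P') MY βY
      (hM_Y ΛX hX zX ΛY hY zY hUX w SY MY hSY) hβY
  have k6 := e3.trans (add_le_add (add_le_add (add_le_add k1 k2) k3) (add_le_add k4 k5))
  refine (add_le_add (add_le_add k6 le_rfl) le_rfl).trans (le_of_eq ?_)
  rw [← mul_add]
  ring

end Crest.Agent.R154.Asm222
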