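import Crest.Agent.R154.AsmC_224

/-! Row 154, ROAD 801 (helper224): one window. -/

set_option autoImplicit false

namespace Crest.Agent.R154.Asm224

open scoped ENNReal
open Crest.Agent.R154.B5A

/-- a single walker as a renewal system of blocks -/
structure Sys (B G : Type*) where
  Λ : B → ℝ≥0∞
  ht : B → ℕ
  z : B → G
  s : B → Set (G × ℕ)
  h1 : ∀ b, 1 ≤ ht b
  hΛ : ∑' b, Λ b = 1
  hU : ∀ n, U Λ ht n ≤ 1
  hs : ∀ b, ∀ p ∈ s b, 1 ≤ p.2 ∧ p.2 ≤ ht b

namespace Sys

variable {B G : Type*} [AddCommGroup G] (S : Sys B G)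

/-- overshoot tail -/
noncomputable def ov (i0 : ℕ) : ℝ≥0∞ := ∑' k, tail S.Λ S.ht (i0 + k)

open Classical in
/-- weight of a top part -/
noncomputable def wa (a i0 : ℕ) (A : List B) : ℝ≥0∞ :=
  if FP S.ht a A ∧ HT S.ht A ≤ a + i0 then LW S.Λ A else 0

lemma wa_mass (a i0 : ℕ) : ∑' A, S.wa a i0 A ≤ 1 := by
  classical
  rw [← fp_mass S.Λ S.ht S.h1 S.hΛ a]
  refine ENNReal.tsum_le_tsum fun A => ?_
  rw [wa]
  by_cases h : FP S.ht a A <;> by_cases h' : HT S.ht A ≤ a + i0 <;> simp [h, h']

open Classical in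
lemma rest_le (n : ℕ) (A : List B) :
    ∑' R : List B, (if HT S.ht A + HT S.ht R = n then LW S.Λ R else 0) ≤ 1 := by
  by_cases h : HT S.ht A ≤ n
  · refine le_trans (le_of_eq ?_) (S.hU (n - HT S.ht A))
    rw [U]
    refine tsum_congr fun R => ?_
    have : HT S.ht A + HT S.ht R = n ↔ HT S.ht R = n - HT S.ht A := by omega
    simp [this]
  · refine le_trans (le_of_eq ?_) zero_le
    rw [ENNReal.tsum_eq_zero]
    intro R
    rw [if_neg (by omega)]

open Classical in
lemma x3 (f : List B → ℝ≥0∞) (hf : ∀ L, f L ≤ 1) (g : List B → List B → ℝ≥0∞) (n a T i0 : ℕ)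
    (hn : a + i0 + T ≤ n)
    (hfg : ∀ A P R, FP S.ht a A → HT S.ht A ≤ a + i0 → FP S.ht T P → HT S.ht P ≤ T + i0 →
      f (A ++ (P ++ R)) ≤ g A P) :
    ∑' L : List B, (if HT S.ht L = n then LW S.Λ L * f L else 0)
      ≤ (∑' A, ∑' P, S.wa a i0 A * S.wa T i0 P * g A P) + 2 * S.ov i0 := by
  set F : List B → ℝ≥0∞ := fun L => if HT S.ht L = n then LW S.Λ L * f L else 0 with hF
  have hFle : ∀ A R, F (A ++ R) ≤ LW S.Λ A * (if HT S.ht A + HT S.ht R = n then LW S.Λ R else 0) := by
    intro A R
    simp only [hF, HT_append, LW_append]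
    split_ifs
    · calc _ ≤ LW S.Λ A * LW S.Λ R * 1 := by gcongr; exact hf _
        _ = _ := mul_one _
    · simp
  have step1 : ∑' L, F L ≤ ∑' A : List B, (if FP S.ht a A then ∑' R, F (A ++ R) else 0) := by
    refine le_trans (le_of_eq ?_) (fp_split S.ht S.h1 a F)
    refine tsum_congr fun L => ?_
    by_cases h : a ≤ HT S.ht L
    · rw [if_pos h]
    · rw [if_neg h]
      simp only [hF]
      rw [if_neg (by omega)]
  refine step1.trans ?_
  have key : ∀ A : List B, (if FP S.ht a A then ∑' R, F (A ++ R) else 0)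
      ≤ ((∑' P, S.wa a i0 A * S.wa T i0 P * g A P) + S.wa a i0 A * S.ov i0)
        + (if FP S.ht a A ∧ a + i0 < HT S.ht A then LW S.Λ A else 0) := by
    intro A
    by_cases hA : FP S.ht a A
    · rw [if_pos hA]
      by_cases hA2 : HT S.ht A ≤ a + i0
      · refine le_trans ?_ le_self_add
        have hwa : S.wa a i0 A = LW S.Λ A := by rw [wa, if_pos ⟨hA, hA2⟩]
        rw [hwa]
        calc ∑' R, F (A ++ R) = ∑' R : List B, (if T ≤ HT S.ht R then F (A ++ R) else 0) := by
              refine tsum_congr fun R => ?_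
              by_cases h : T ≤ HT S.ht R
              · rw [if_pos h]
              · rw [if_neg h]
                simp only [hF, HT_append]
                rw [if_neg (by omega)]
          _ ≤ ∑' P : List B, (if FP S.ht T P then ∑' R, F (A ++ (P ++ R)) else 0) :=
              fp_split S.ht S.h1 T (fun L => F (A ++ L))
          _ ≤ ∑' P : List B, (LW S.Λ A * S.wa T i0 P * g A P
                + LW S.Λ A * (if FP S.ht T P ∧ T + i0 < HT S.ht P then LW S.Λ P else 0)) := by
              refine ENNReal.tsum_le_tsum fun P => ?_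
              by_cases hP : FP S.ht T P
              · rw [if_pos hP]
                by_cases hP2 : HT S.ht P ≤ T + i0
                · refine le_trans ?_ le_self_add
                  have hwp : S.wa T i0 P = LW S.Λ P := by rw [wa, if_pos ⟨hP, hP2⟩]
                  rw [hwp]
                  calc ∑' R, F (A ++ (P ++ R))
                      ≤ ∑' R, (LW S.Λ A * LW S.Λ P * g A P) *
                          (if HT S.ht (A ++ P) + HT S.ht R = n then LW S.Λ R else 0) := by
                        refine ENNReal.tsum_le_tsum fun R => ?_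
                        have hfg' := hfg A P R hA hA2 hP hP2
                        simp only [hF, HT_append, LW_append]
                        rw [← add_assoc]
                        split_ifs
                        · calc LW S.Λ A * (LW S.Λ P * LW S.Λ R) * f (A ++ (P ++ R))
                              ≤ LW S.Λ A * (LW S.Λ P * LW S.Λ R) * g A P := by gcongr
                            _ = _ := by ring
                        · exact zero_le
                    _ = (LW S.Λ A * LW S.Λ P * g A P) *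
                          ∑' R : List B, (if HT S.ht (A ++ P) + HT S.ht R = n then LW S.Λ R else 0) :=
                        ENNReal.tsum_mul_left
                    _ ≤ (LW S.Λ A * LW S.Λ P * g A P) * 1 := by gcongr; exact S.rest_le n _
                    _ = _ := mul_one _
                · refine le_trans ?_ le_add_self
                  rw [if_pos ⟨hP, by omega⟩]
                  calc ∑' R, F (A ++ (P ++ R))
                      ≤ ∑' R, (LW S.Λ A * LW S.Λ P) *
                          (if HT S.ht (A ++ P) + HT S.ht R = n then LW S.Λ R else 0) := by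
                        refine ENNReal.tsum_le_tsum fun R => ?_
                        have := hFle (A ++ P) R
                        rw [List.append_assoc, LW_append] at this
                        exact this
                    _ = (LW S.Λ A * LW S.Λ P) *
                          ∑' R : List B, (if HT S.ht (A ++ P) + HT S.ht R = n then LW S.Λ R else 0) :=
                        ENNReal.tsum_mul_left
                    _ ≤ (LW S.Λ A * LW S.Λ P) * 1 := by gcongr; exact S.rest_le n _
                    _ = _ := mul_one _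
              · rw [if_neg hP]; exact zero_le
          _ = (∑' P : List B, LW S.Λ A * S.wa T i0 P * g A P)
                + LW S.Λ A * ∑' P : List B, (if FP S.ht T P ∧ T + i0 < HT S.ht P then LW S.Λ P else 0) := by
              rw [ENNReal.tsum_add, ENNReal.tsum_mul_left]
          _ ≤ _ := by
              gcongr
              exact fp_over S.Λ S.ht S.h1 S.hU i0 T
      · refine le_trans ?_ le_add_self
        rw [if_pos ⟨hA, by omega⟩]
        calc ∑' R, F (A ++ R) ≤ ∑' R, LW S.Λ A *
                (if HT S.ht A + HT S.ht R = n then LW S.Λ R else 0) :=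
              ENNReal.tsum_le_tsum fun R => hFle A R
          _ = LW S.Λ A * ∑' R : List B, (if HT S.ht A + HT S.ht R = n then LW S.Λ R else 0) :=
              ENNReal.tsum_mul_left
          _ ≤ LW S.Λ A * 1 := by gcongr; exact S.rest_le n _
          _ = _ := mul_one _
    · rw [if_neg hA]; exact zero_le
  calc _ ≤ ∑' A, (((∑' P, S.wa a i0 A * S.wa T i0 P * g A P) + S.wa a i0 A * S.ov i0)
        + (if FP S.ht a A ∧ a + i0 < HT S.ht A then LW S.Λ A else 0)) := ENNReal.tsum_le_tsum key
    _ = ((∑' A, ∑' P, S.wa a i0 A * S.wa T i0 P * g A P) + (∑' A, S.wa a i0 A) * S.ov i0)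
        + ∑' A : List B, (if FP S.ht a A ∧ a + i0 < HT S.ht A then LW S.Λ A else 0) := by
        rw [ENNReal.tsum_add, ENNReal.tsum_add, ENNReal.tsum_mul_right]
    _ ≤ ((∑' A, ∑' P, S.wa a i0 A * S.wa T i0 P * g A P) + 1 * S.ov i0) + S.ov i0 := by
        gcongr
        · exact S.wa_mass a i0
        · exact fp_over S.Λ S.ht S.h1 S.hU i0 a
    _ = _ := by ring

open Classical in
/-- mass of the non local pieces -/
lemma nonloc (T i0 : ℕ) (th u : ℝ≥0∞)
    (hu : ∑' v, (if FL S.Λ S.ht S.z T v < th then FL S.Λ S.ht S.z T v else 0) ≤ u) :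
    ∑' P : List B, S.wa T i0 P * (if FL S.Λ S.ht S.z T (vec S.ht S.z P) < th then 1 else 0) ≤ u := by
  refine le_trans ?_ hu
  have e := FL_sum S.Λ S.ht S.z T (fun v => if FL S.Λ S.ht S.z T v < th then 1 else 0)
  calc _ ≤ ∑' A : List B, (if FP S.ht T A then LW S.Λ A *
        (if FL S.Λ S.ht S.z T (vec S.ht S.z A) < th then 1 else 0) else 0) := by
        refine ENNReal.tsum_le_tsum fun P => ?_
        rw [wa]
        by_cases h : FP S.ht T P <;> by_cases h' : HT S.ht P ≤ T + i0 <;> simp [h, h']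
    _ = _ := e.symm
    _ = _ := by
        refine tsum_congr fun v => ?_
        split_ifs <;> simp

end Sys

lemma swap4 {ι κ : Type*} (s s' : Finset ℕ) (f : ℕ → ℕ → ι → κ → ℝ≥0∞) :
    ∑' P, ∑' P', ∑ h ∈ s, ∑ h' ∈ s', f h h' P P'
      = ∑ h ∈ s, ∑ h' ∈ s', ∑' P, ∑' P', f h h' P P' := by
  have e1 : ∀ P, ∑' P', ∑ h ∈ s, ∑ h' ∈ s', f h h' P P'
      = ∑ h ∈ s, ∑ h' ∈ s', ∑' P', f h h' P P' := by
    intro P
    rw [Summable.tsum_finsetSum (fun _ _ => ENNReal.summable)]
    refine Finset.sum_congr rfl fun h _ => ?_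
    rw [Summable.tsum_finsetSum (fun _ _ => ENNReal.summable)]
  simp_rw [e1]
  rw [Summable.tsum_finsetSum (fun _ _ => ENNReal.summable)]
  refine Finset.sum_congr rfl fun h _ => ?_
  rw [Summable.tsum_finsetSum (fun _ _ => ENNReal.summable)]

variable {B B' G : Type*} [AddCommGroup G]

open Classical in
/-- one order of exploration, for a fixed top part of the other walker -/
lemma half (S : Sys B G) (S' : Sys B' G) (a T T' i0 : ℕ) (th Gc δ Rb : ℝ≥0∞)
    (b : ℤ × G → ℝ≥0∞) (hb : ∑' v, b v ≤ δ) (hFb : ∀ v, FL S.Λ S.ht S.z a v ≤ Gc + b v)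
    (E : ℕ → Finset G)
    (hE : ∀ h : ℕ, ∀ x, th ≤ FL S.Λ S.ht S.z T ((h : ℤ), x) → x ∈ E h)
    (K : ℕ → G → List B → List B' → Prop)
    (HK : ∀ α h h', α ∈ Finset.Icc a (a + i0) → h ∈ Finset.Icc T (T + i0) →
      h' ∈ Finset.Icc T' (T' + i0) → ∀ μ : G → ℝ≥0∞, ∑' x, μ x ≤ 1 → (∀ x, μ x ≤ Gc) →
      ∑' x, μ x * ∑' L : List B, ∑' L' : List B', (if HT S.ht L = h ∧ Dp S.z L ∈ E h ∧
        HT S'.ht L' = h' ∧ K α x L L' then LW S.Λ L * LW S'.Λ L' else 0) ≤ Rb) :
    ∑' A, S.wa a i0 A * ∑' P, S.wa T i0 P * ∑' P', S'.wa T' i0 P' *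
      (if (¬ FL S.Λ S.ht S.z T (vec S.ht S.z P) < th) ∧ K (HT S.ht A) (Dp S.z A) P P' then 1 else 0)
      ≤ δ + (i0 + 1 : ℕ) ^ 3 * Rb := by
  set Q : ℕ → ℕ → ℕ → G → ℝ≥0∞ := fun h h' α x => ∑' L : List B, ∑' L' : List B',
    (if HT S.ht L = h ∧ Dp S.z L ∈ E h ∧ HT S'.ht L' = h' ∧ K α x L L'
      then LW S.Λ L * LW S'.Λ L' else 0) with hQ
  set Φ : ℕ → G → ℝ≥0∞ := fun α x => ∑' P, S.wa T i0 P * ∑' P', S'.wa T' i0 P' *
      (if (¬ FL S.Λ S.ht S.z T (vec S.ht S.z P) < th) ∧ K α x P P' then 1 else 0) with hΦ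
  have hΦ1 : ∀ α x, Φ α x ≤ 1 := by
    intro α x
    calc Φ α x ≤ ∑' P, S.wa T i0 P * 1 := by
          refine ENNReal.tsum_le_tsum fun P => ?_
          gcongr
          calc _ ≤ ∑' P', S'.wa T' i0 P' * 1 := by
                refine ENNReal.tsum_le_tsum fun P' => ?_
                gcongr
                split_ifs <;> simp
            _ ≤ 1 := by simpa using S'.wa_mass T' i0
      _ ≤ 1 := by simpa using S.wa_mass T i0
  have hΦ2 : ∀ α x, Φ α x ≤ ∑ h ∈ Finset.Icc T (T + i0), ∑ h' ∈ Finset.Icc T' (T' + i0),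
      Q h h' α x := by
    intro α x
    calc Φ α x = ∑' P, ∑' P', S.wa T i0 P * (S'.wa T' i0 P' *
          (if (¬ FL S.Λ S.ht S.z T (vec S.ht S.z P) < th) ∧ K α x P P' then 1 else 0)) := by
          simp only [hΦ, ENNReal.tsum_mul_left]
      _ ≤ ∑' P, ∑' P', ∑ h ∈ Finset.Icc T (T + i0), ∑ h' ∈ Finset.Icc T' (T' + i0),
          (if HT S.ht P = h ∧ Dp S.z P ∈ E h ∧ HT S'.ht P' = h' ∧ K α x P P'
            then LW S.Λ P * LW S'.Λ P' else 0) := by
          refine ENNReal.tsum_le_tsum fun P => ENNReal.tsum_le_tsum fun P' => ?_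
          by_cases hP : FP S.ht T P ∧ HT S.ht P ≤ T + i0
          · by_cases hP' : FP S'.ht T' P' ∧ HT S'.ht P' ≤ T' + i0
            · by_cases hc : (¬ FL S.Λ S.ht S.z T (vec S.ht S.z P) < th) ∧ K α x P P'
              · rw [if_pos hc, mul_one, Sys.wa, Sys.wa, if_pos hP, if_pos hP']
                have hm : HT S.ht P ∈ Finset.Icc T (T + i0) :=
                  Finset.mem_Icc.2 ⟨FP_le S.ht P T hP.1, hP.2⟩
                have hm' : HT S'.ht P' ∈ Finset.Icc T' (T' + i0) :=
                  Finset.mem_Icc.2 ⟨FP_le S'.ht P' T' hP'.1, hP'.2⟩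
                refine le_trans ?_ (Finset.single_le_sum (f := fun h =>
                  ∑ h' ∈ Finset.Icc T' (T' + i0), (if HT S.ht P = h ∧ Dp S.z P ∈ E h ∧
                    HT S'.ht P' = h' ∧ K α x P P' then LW S.Λ P * LW S'.Λ P' else 0))
                  (fun _ _ => zero_le) hm)
                refine le_trans ?_ (Finset.single_le_sum (f := fun h' =>
                  (if HT S.ht P = HT S.ht P ∧ Dp S.z P ∈ E (HT S.ht P) ∧
                    HT S'.ht P' = h' ∧ K α x P P' then LW S.Λ P * LW S'.Λ P' else 0))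
                  (fun _ _ => zero_le) hm')
                rw [if_pos ⟨rfl, hE _ _ (not_lt.1 hc.1), rfl, hc.2⟩]
              · rw [if_neg hc, mul_zero, mul_zero]; exact zero_le
            · rw [Sys.wa, Sys.wa, if_neg hP', zero_mul, mul_zero]; exact zero_le
          · rw [Sys.wa, if_neg hP, zero_mul]; exact zero_le
      _ = ∑ h ∈ Finset.Icc T (T + i0), ∑ h' ∈ Finset.Icc T' (T' + i0), Q h h' α x := by
          simp only [hQ]
          exact swap4 _ _ _
  calc ∑' A, S.wa a i0 A * Φ (HT S.ht A) (Dp S.z A)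
      = ∑' A : List B, (if FP S.ht a A ∧ HT S.ht A ≤ a + i0 then
          LW S.Λ A * Φ (HT S.ht A) (Dp S.z A) else 0) := by
        refine tsum_congr fun A => ?_
        rw [Sys.wa]; split_ifs <;> simp
    _ ≤ δ + ∑ α ∈ Finset.Icc a (a + i0), ∑' x : G,
          min (FL S.Λ S.ht S.z a ((α : ℤ), x)) Gc * Φ α x :=
        tie S.Λ S.ht S.z a i0 Gc δ b hb hFb Φ hΦ1
    _ ≤ δ + ∑ _α ∈ Finset.Icc a (a + i0), ∑ _h ∈ Finset.Icc T (T + i0),
          ∑ _h' ∈ Finset.Icc T' (T' + i0), Rb := by
        gcongr with α hα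
        calc ∑' x : G, min (FL S.Λ S.ht S.z a ((α : ℤ), x)) Gc * Φ α x
            ≤ ∑' x : G, min (FL S.Λ S.ht S.z a ((α : ℤ), x)) Gc *
              ∑ h ∈ Finset.Icc T (T + i0), ∑ h' ∈ Finset.Icc T' (T' + i0), Q h h' α x := by
              refine ENNReal.tsum_le_tsum fun x => ?_
              gcongr
              exact hΦ2 α x
          _ = ∑ h ∈ Finset.Icc T (T + i0), ∑ h' ∈ Finset.Icc T' (T' + i0),
              ∑' x : G, min (FL S.Λ S.ht S.z a ((α : ℤ), x)) Gc * Q h h' α x := by
              simp_rw [Finset.mul_sum]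
              rw [Summable.tsum_finsetSum (fun _ _ => ENNReal.summable)]
              refine Finset.sum_congr rfl fun h _ => ?_
              rw [Summable.tsum_finsetSum (fun _ _ => ENNReal.summable)]
          _ ≤ _ := by
              refine Finset.sum_le_sum fun h hh => Finset.sum_le_sum fun h' hh' => ?_
              refine HK α h h' hα hh hh' _ ?_ (fun x => min_le_right _ _)
              calc ∑' x : G, min (FL S.Λ S.ht S.z a ((α : ℤ), x)) Gc
                  ≤ ∑' x : G, FL S.Λ S.ht S.z a ((α : ℤ), x) :=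
                    ENNReal.tsum_le_tsum fun x => min_le_left _ _
                _ ≤ ∑' v : ℤ × G, FL S.Λ S.ht S.z a v :=
                    ENNReal.tsum_comp_le_tsum_of_injective
                      (f := fun x : G => ((α : ℤ), x)) (fun x y h => (Prod.mk.inj h).2) _
                _ = 1 := FL_mass S.Λ S.ht S.z S.h1 S.hΛ a
                _ ≤ 1 := le_rfl
    _ = _ := by
        simp only [Finset.sum_const, Nat.card_Icc, nsmul_eq_mul]
        rw [show a + i0 + 1 - a = i0 + 1 by omega, show T + i0 + 1 - T = i0 + 1 by omega,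
          show T' + i0 + 1 - T' = i0 + 1 by omega]
        ring

end Crest.Agent.R154.Asm224
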