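import Mathlib

/-!
# Order of constants for ROAD 801 (row 154): `eps | K, u | i0 | lam | s`
-/

set_option autoImplicit false

namespace Crest.Agent.R154.Num869

open Filter Topology
open scoped ENNReal

/-- the real part: `K = N ^ 3`, `u = 1 / N ^ 2` -/
theorem real_part : Tendsto (fun N : ℕ => (N : ℝ) ^ 3 * ((2 * (1 / (N : ℝ) ^ 2)) ^ 2 +
    Real.exp (-((N : ℝ) / 2)))) atTop (𝓝 0) := by
  have h1 : Tendsto (fun N : ℕ => 4 / (N : ℝ)) atTop (𝓝 0) :=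
    tendsto_const_nhds.div_atTop tendsto_natCast_atTop_atTop
  have h2 : Tendsto (fun N : ℕ => 8 * (((N : ℝ) / 2) ^ 3 * Real.exp (-((N : ℝ) / 2)))) atTop
      (𝓝 0) := by
    have h := (Real.tendsto_pow_mul_exp_neg_atTop_nhds_zero 3).comp
      (tendsto_natCast_atTop_atTop.atTop_div_const (by norm_num : (0 : ℝ) < 2) :
        Tendsto (fun N : ℕ => (N : ℝ) / 2) atTop atTop)
    simpa using h.const_mul 8
  have h3 := h1.add h2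
  rw [add_zero] at h3
  refine h3.congr' ?_
  filter_upwards [eventually_ge_atTop 1] with N hN
  have hN' : (N : ℝ) ≠ 0 := by positivity
  field_simp
  ring

theorem pow_le_exp (N : ℕ) (hN : 1 ≤ N) :
    (1 - 1 / (N : ℝ) ^ 2 / 2) ^ (N ^ 3) ≤ Real.exp (-((N : ℝ) / 2)) := by
  have hN1 : (1 : ℝ) ≤ N := by exact_mod_cast hN
  have hN0 : (0 : ℝ) < N := by linarith
  have h2 : 1 / (N : ℝ) ^ 2 ≤ 1 := by
    rw [div_le_one (by positivity)]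
    nlinarith
  have h0 : 0 ≤ 1 - 1 / (N : ℝ) ^ 2 / 2 := by linarith
  have h3 : 1 - 1 / (N : ℝ) ^ 2 / 2 ≤ Real.exp (-(1 / (N : ℝ) ^ 2 / 2)) :=
    Real.one_sub_le_exp_neg _
  calc (1 - 1 / (N : ℝ) ^ 2 / 2) ^ (N ^ 3)
      ≤ (Real.exp (-(1 / (N : ℝ) ^ 2 / 2))) ^ (N ^ 3) := pow_le_pow_left₀ h0 h3 _
    _ = Real.exp (-((N : ℝ) / 2)) := by
        rw [← Real.exp_nat_mul]
        congr 1
        push_cast
        field_simp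

/-- `K` and `u` -/
theorem choose_Ku (ε : ℝ≥0∞) (hε : ε ≠ 0) : ∃ (K : ℕ) (u : ℝ≥0∞), 1 ≤ K ∧ u ≠ 0 ∧ u ≤ 1 ∧
    (K : ℝ≥0∞) * ((2 * u) ^ 2 + (1 - u / 2) ^ K) ≤ ε := by
  obtain ⟨e, he0, heε⟩ : ∃ e : ℝ, 0 < e ∧ ENNReal.ofReal e ≤ ε := by
    rcases eq_or_ne ε ⊤ with h | h
    · exact ⟨1, one_pos, by rw [h]; exact le_top⟩
    · exact ⟨ε.toReal, ENNReal.toReal_pos hε h, by rw [ENNReal.ofReal_toReal h]⟩
  obtain ⟨N, hN1, hN⟩ := ((eventually_ge_atTop 1).and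
    (real_part.eventually_lt_const he0)).exists
  have hN1' : (1 : ℝ) ≤ N := by exact_mod_cast hN1
  have hN0 : (0 : ℝ) < N := by linarith
  have h2 : 1 / (N : ℝ) ^ 2 ≤ 1 := by
    rw [div_le_one (by positivity)]
    nlinarith
  have hp : 0 < 1 / (N : ℝ) ^ 2 := by positivity
  refine ⟨N ^ 3, ENNReal.ofReal (1 / (N : ℝ) ^ 2), Nat.one_le_pow _ _ hN1, ?_, ?_, ?_⟩
  · rw [Ne, ENNReal.ofReal_eq_zero, not_le]
    exact hp
  · exact ENNReal.ofReal_le_one.2 h2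
  · have e1 : ENNReal.ofReal ((2 * (1 / (N : ℝ) ^ 2)) ^ 2) =
        (2 * ENNReal.ofReal (1 / (N : ℝ) ^ 2)) ^ 2 := by
      rw [ENNReal.ofReal_pow (by positivity), ENNReal.ofReal_mul (by norm_num)]
      norm_num
    have e2 : ENNReal.ofReal ((1 - 1 / (N : ℝ) ^ 2 / 2) ^ (N ^ 3)) =
        (1 - ENNReal.ofReal (1 / (N : ℝ) ^ 2) / 2) ^ (N ^ 3) := by
      rw [ENNReal.ofReal_pow (by linarith), ENNReal.ofReal_sub _ (by positivity),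
        ENNReal.ofReal_div_of_pos (by norm_num)]
      norm_num
    have hge : 0 ≤ (1 - 1 / (N : ℝ) ^ 2 / 2) ^ (N ^ 3) := pow_nonneg (by linarith) _
    have e3 : ((N ^ 3 : ℕ) : ℝ≥0∞) = ENNReal.ofReal ((N : ℝ) ^ 3) := by
      rw [ENNReal.ofReal_pow hN0.le, ENNReal.ofReal_natCast]
      push_cast
      rfl
    rw [e3, ← e1, ← e2, ← ENNReal.ofReal_add (by positivity) hge,
      ← ENNReal.ofReal_mul (by positivity)]
    refine (ENNReal.ofReal_le_ofReal ?_).trans heε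
    refine le_trans ?_ hN.le
    have := pow_le_exp N hN1
    gcongr

/-- **the order of constants** `eps | K, u | i0 | lam | s` -/
theorem choose (us ep : ℕ → ℝ≥0∞) (hus : Tendsto us atTop (𝓝 0)) (hep : Tendsto ep atTop (𝓝 0))
    (C : ℝ≥0∞) (hC : C ≠ ⊤) (a : ℕ) (ε : ℝ≥0∞) (hε : ε ≠ 0) :
    ∃ (K : ℕ) (u : ℝ≥0∞), 1 ≤ K ∧ u ≠ 0 ∧ u ≤ 1 ∧ ∃ (i0 : ℕ) (lam : ℝ≥0∞) (s : ℕ),
      lam ≠ 0 ∧ lam ≠ ⊤ ∧ lam ≤ 1 ∧ ep i0 ≤ u ∧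
      (K : ℝ≥0∞) * ((u + ep i0) ^ 2 + ((1 - u / 2) ^ K + K * ep i0) +
        ((i0 : ℝ≥0∞) + 1) ^ a * (C * lam + C * (((i0 : ℝ≥0∞) + 1) / u) * us s / lam)) ≤ ε := by
  have h4 : ε / 4 ≠ 0 := by simp [hε]
  obtain ⟨K, u, hK, hu0, hu1, hKu⟩ := choose_Ku (ε / 4) h4
  have hut : u ≠ ⊤ := ne_top_of_le_ne_top ENNReal.one_ne_top hu1
  have hK0 : (K : ℝ≥0∞) ≠ 0 := by exact_mod_cast (by omega : K ≠ 0)
  have hKt : (K : ℝ≥0∞) ≠ ⊤ := ENNReal.natCast_ne_top K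
  -- `i0`
  have hq : ε / 4 / ((K : ℝ≥0∞) * K) ≠ 0 :=
    (ENNReal.div_pos h4 (ENNReal.mul_ne_top hKt hKt)).ne'
  obtain ⟨i0, hi1, hi2⟩ := (((ENNReal.tendsto_nhds_zero.1 hep) u (pos_iff_ne_zero.2 hu0)).and
    ((ENNReal.tendsto_nhds_zero.1 hep) _ (pos_iff_ne_zero.2 hq))).exists
  set A : ℝ≥0∞ := (K : ℝ≥0∞) * ((i0 : ℝ≥0∞) + 1) ^ a * C with hA
  have hi0t : ((i0 : ℝ≥0∞) + 1) ≠ ⊤ := by finiteness
  have hAt : A ≠ ⊤ := by rw [hA]; finiteness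
  -- `lam`
  obtain ⟨lam, hl0, hlt, hl1, hl⟩ : ∃ lam : ℝ≥0∞, lam ≠ 0 ∧ lam ≠ ⊤ ∧ lam ≤ 1 ∧
      A * lam ≤ ε / 4 := by
    have hA1 : A + 1 ≠ ⊤ := by finiteness
    have hA10 : A + 1 ≠ 0 := by simp
    refine ⟨min 1 (ε / 4 / (A + 1)), ?_, ?_, min_le_left _ _, ?_⟩
    · exact (lt_min one_pos (ENNReal.div_pos h4 hA1)).ne'
    · exact ne_top_of_le_ne_top ENNReal.one_ne_top (min_le_left _ _)
    · calc A * min 1 (ε / 4 / (A + 1)) ≤ (A + 1) * (ε / 4 / (A + 1)) := by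
            gcongr
            · exact le_self_add
            · exact min_le_right _ _
        _ ≤ ε / 4 := ENNReal.mul_div_le
  -- `s`
  set B : ℝ≥0∞ := (K : ℝ≥0∞) * ((i0 : ℝ≥0∞) + 1) ^ a * (C * (((i0 : ℝ≥0∞) + 1) / u)) / lam
    with hB
  have hdiv : ((i0 : ℝ≥0∞) + 1) / u ≠ ⊤ := ENNReal.div_ne_top hi0t hu0
  have hBt : B ≠ ⊤ := by
    rw [hB]
    refine ENNReal.div_ne_top ?_ hl0
    refine ENNReal.mul_ne_top (by finiteness) (ENNReal.mul_ne_top hC hdiv)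
  obtain ⟨s, hs⟩ : ∃ s, B * us s ≤ ε / 4 := by
    have hq' : ε / 4 / (B + 1) ≠ 0 := (ENNReal.div_pos h4 (by finiteness)).ne'
    obtain ⟨s, hs⟩ := ((ENNReal.tendsto_nhds_zero.1 hus) _ (pos_iff_ne_zero.2 hq')).exists
    refine ⟨s, ?_⟩
    calc B * us s ≤ (B + 1) * (ε / 4 / (B + 1)) := by
          gcongr
          exact le_self_add
      _ ≤ ε / 4 := ENNReal.mul_div_le
  refine ⟨K, u, hK, hu0, hu1, i0, lam, s, hl0, hlt, hl1, hi1, ?_⟩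
  have e : (K : ℝ≥0∞) * ((u + ep i0) ^ 2 + ((1 - u / 2) ^ K + K * ep i0) +
        ((i0 : ℝ≥0∞) + 1) ^ a * (C * lam + C * (((i0 : ℝ≥0∞) + 1) / u) * us s / lam)) =
      (K : ℝ≥0∞) * ((u + ep i0) ^ 2 + (1 - u / 2) ^ K) + (K : ℝ≥0∞) * K * ep i0 +
        A * lam + B * us s := by
    rw [hA, hB]
    simp only [div_eq_mul_inv]
    ring
  rw [e]
  have f1 : (K : ℝ≥0∞) * ((u + ep i0) ^ 2 + (1 - u / 2) ^ K) ≤ ε / 4 := by
    refine le_trans ?_ hKu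
    gcongr
    calc u + ep i0 ≤ u + u := by gcongr
      _ = 2 * u := by ring
  have f2 : (K : ℝ≥0∞) * K * ep i0 ≤ ε / 4 := by
    calc (K : ℝ≥0∞) * K * ep i0 ≤ (K : ℝ≥0∞) * K * (ε / 4 / ((K : ℝ≥0∞) * K)) := by gcongr
      _ ≤ ε / 4 := ENNReal.mul_div_le
  calc _ ≤ ε / 4 + ε / 4 + ε / 4 + ε / 4 := by gcongr
    _ = ε := by
      have : ε / 4 + ε / 4 + ε / 4 + ε / 4 = 4 * (ε / 4) := by ring
      rw [this, ENNReal.mul_div_cancel (by norm_num) (by norm_num)]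

/-- the shape of 540's `H2`, `H3`: right side `C * (lam + M * E.card * us s / lam + us s)` with
`M * E.card ≤ (i0 + 1) / u` -/
theorem choose' (us ep : ℕ → ℝ≥0∞) (hus : Tendsto us atTop (𝓝 0)) (hep : Tendsto ep atTop (𝓝 0))
    (C : ℝ≥0∞) (hC : C ≠ ⊤) (a : ℕ) (ε : ℝ≥0∞) (hε : ε ≠ 0) :
    ∃ (K : ℕ) (u : ℝ≥0∞), 1 ≤ K ∧ u ≠ 0 ∧ u ≤ 1 ∧ ∃ (i0 : ℕ) (lam : ℝ≥0∞) (s : ℕ),
      lam ≠ 0 ∧ lam ≠ ⊤ ∧ lam ≤ 1 ∧ ep i0 ≤ u ∧
      (K : ℝ≥0∞) * ((u + ep i0) ^ 2 + ((1 - u / 2) ^ K + K * ep i0) +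
        ((i0 : ℝ≥0∞) + 1) ^ a * (C * (lam + (((i0 : ℝ≥0∞) + 1) / u) * us s / lam + us s))) ≤ ε := by
  obtain ⟨K, u, hK, hu0, hu1, i0, lam, s, hl0, hlt, hl1, hi1, h⟩ :=
    choose us ep hus hep (2 * C) (by finiteness) a ε hε
  refine ⟨K, u, hK, hu0, hu1, i0, lam, s, hl0, hlt, hl1, hi1, le_trans ?_ h⟩
  gcongr (K : ℝ≥0∞) * (_ + ((i0 : ℝ≥0∞) + 1) ^ a * ?_)
  have h1 : us s ≤ (((i0 : ℝ≥0∞) + 1) / u) * us s / lam := by
    have ha : (1 : ℝ≥0∞) ≤ ((i0 : ℝ≥0∞) + 1) / u := by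
      rw [ENNReal.le_div_iff_mul_le (Or.inl hu0) (Or.inl (ne_top_of_le_ne_top
        ENNReal.one_ne_top hu1)), one_mul]
      exact hu1.trans le_add_self
    have hb : (1 : ℝ≥0∞) ≤ lam⁻¹ := ENNReal.one_le_inv.2 hl1
    calc us s = 1 * us s * 1 := by ring
      _ ≤ (((i0 : ℝ≥0∞) + 1) / u) * us s * lam⁻¹ := by gcongr
      _ = _ := by simp only [div_eq_mul_inv]
  calc C * (lam + (((i0 : ℝ≥0∞) + 1) / u) * us s / lam + us s)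
      ≤ C * (lam + (((i0 : ℝ≥0∞) + 1) / u) * us s / lam +
        (((i0 : ℝ≥0∞) + 1) / u) * us s / lam) := by gcongr
    _ = C * lam + 2 * (C * ((((i0 : ℝ≥0∞) + 1) / u) * us s / lam)) := by ring
    _ ≤ 2 * C * lam + 2 * C * (((i0 : ℝ≥0∞) + 1) / u) * us s / lam := by
        have : C * lam ≤ 2 * C * lam := by
          rw [mul_assoc, two_mul]
          exact le_self_add
        refine add_le_add this (le_of_eq ?_)
        simp only [div_eq_mul_inv]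
        ring

end Crest.Agent.R154.Num869
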