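import Crest.Agent.R154.AsmC_239
import Crest.Agent.R154.Num_869

/-! Row 154 (helper239): the list assembly of KAPPA' (windows, slabs, constants). -/

set_option autoImplicit false

namespace Crest.Agent.R154.Asm239

open scoped ENNReal
open scoped Classical
open B5A
open KWB419 (TT)

variable {A B G : Type*} [AddCommGroup G]

/-- window event -/
def EvW (sA : A → Set (G × ℕ)) (ht : A → ℕ) (z : A → G) (sB : B → Set (G × ℕ)) (ht' : B → ℕ)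
    (z' : B → G) (w : G) (b t i0 s : ℕ) (L : List A) (L' : List B) : Prop :=
  (∃ y k, ((y, k) ∈ TT sA ht z L 0 0 ∧ (y, k) ∈ TT sB ht' z' L' w 0) ∧ k ≤ b + t) ∧
    (∀ y k, (y, k) ∈ TT sA ht z L 0 0 → (y, k) ∈ TT sB ht' z' L' w 0 →
      b < k ∧ ¬ (b + t - s < k ∧ k ≤ b + t + 2 * i0))

/-- one window, with the traces -/
theorem window_TT (Λ : A → ℝ≥0∞) (ht : A → ℕ) (z : A → G) (sA : A → Set (G × ℕ))
    (h1 : ∀ b, 1 ≤ ht b) (hΛ : ∑' b, Λ b = 1) (hU : ∀ n, U Λ ht n ≤ 1)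
    (hsA : ∀ b, ∀ p ∈ sA b, 1 ≤ p.2 ∧ p.2 ≤ ht b)
    (Λ' : B → ℝ≥0∞) (ht' : B → ℕ) (z' : B → G) (sB : B → Set (G × ℕ)) (h1' : ∀ b, 1 ≤ ht' b)
    (hΛ' : ∑' b, Λ' b = 1) (hU' : ∀ n, U Λ' ht' n ≤ 1)
    (hsB : ∀ b, ∀ p ∈ sB b, 1 ≤ p.2 ∧ p.2 ≤ ht' b)
    (us : ℕ → ℝ≥0∞) (C : ℝ≥0∞)
    (H2 : ∀ (s h h' α β lo : ℕ) (E : Finset G) (μ : G → ℝ≥0∞) (M lam : ℝ≥0∞), ∑' x, μ x ≤ 1 →
      (∀ x, μ x ≤ M) → lam ≠ 0 → lam ≠ ⊤ → α + s ≤ lo → β + s ≤ lo → α ≤ β →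
      ∑' x, μ x * ∑' L, ∑' L', (if HT ht L = h ∧ Dp z L ∈ E ∧ HT ht' L' = h' ∧
        (∃ y k, (y, k) ∈ TT sA ht z L 0 α ∧ (y, k) ∈ TT sB ht' z' L' x β) ∧
        (∀ y k, (y, k) ∈ TT sA ht z L 0 α → (y, k) ∈ TT sB ht' z' L' x β → lo ≤ k)
        then LW Λ L * LW Λ' L' else 0) ≤ C * (lam + M * E.card * us s / lam + us s))
    (H3 : ∀ (s h h' α β hi : ℕ) (E : Finset G) (μ : G → ℝ≥0∞) (M lam : ℝ≥0∞), ∑' x, μ x ≤ 1 →
      (∀ x, μ x ≤ M) → lam ≠ 0 → lam ≠ ⊤ → hi + s ≤ α + h → hi + s ≤ β + h' → α + h ≤ β + h' →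
      ∑' x, μ x * ∑' L, ∑' L', (if HT ht L = h ∧ Dp z' L' ∈ E ∧ HT ht' L' = h' ∧
        (∃ y k, (y, k) ∈ TT sA ht z L 0 α ∧ (y, k) ∈ TT sB ht' z' L' x β) ∧
        (∀ y k, (y, k) ∈ TT sA ht z L 0 α → (y, k) ∈ TT sB ht' z' L' x β → k ≤ hi)
        then LW Λ L * LW Λ' L' else 0) ≤ C * (lam + M * E.card * us s / lam + us s))
    (b t i0 s K n : ℕ) (w : G) (u lam : ℝ≥0∞) (hu0 : u ≠ 0) (hu1 : u ≤ 1) (hl0 : lam ≠ 0)
    (hlt : lam ≠ ⊤) (ht1 : 3 * i0 + s + 1 ≤ t) (hbt : t ≤ b) (hK : K * (2 * t + i0) ≤ b - t)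
    (hn : b + t + 3 * i0 ≤ n) :
    ∑' L, ∑' L', (if HT ht L = n ∧ HT ht' L' = n ∧ EvW sA ht z sB ht' z' w b t i0 s L L'
        then LW Λ L * LW Λ' L' else 0)
      ≤ 3 * ((u + (ov Λ ht i0 + ov Λ' ht' i0)) ^ 2 +
          ((1 - u / 2) ^ K + K * (ov Λ ht i0 + ov Λ' ht' i0)) +
          ((i0 : ℝ≥0∞) + 1) ^ 3 * (C * (lam + (((i0 : ℝ≥0∞) + 1) / u) * us s / lam + us s)))
        + 2 * (ov Λ ht i0 + ov Λ' ht' i0) := by
  obtain ⟨EF, Gc, bb, hE, hN, hb, hbs⟩ := oneside Λ ht z h1 hΛ hU (2 * t) i0 K (b - t) u hu0 hu1 hK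
  obtain ⟨EF', Gc', bb', hE', hN', hb', hbs'⟩ := oneside Λ' ht' z' h1' hΛ' hU' (2 * t) i0 K
    (b - t + 2 * i0) u hu0 hu1 (by omega)
  let Bd : ℝ≥0∞ := C * (lam + (((i0 : ℝ≥0∞) + 1) / u) * us s / lam + us s)
  have hw := window_le Λ ht z h1 hΛ hU Λ' ht' z' h1' hΛ' hU' (b - t) (b - t + 2 * i0) (2 * t) i0 n
    (by omega) (by omega)
    (EvW sA ht z sB ht' z' w b t i0 s)
    (fun α β x P P' => (∃ y k, (y, k) ∈ TT sA ht z P 0 α ∧ (y, k) ∈ TT sB ht' z' P' x β) ∧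
        (∀ y k, (y, k) ∈ TT sA ht z P 0 α → (y, k) ∈ TT sB ht' z' P' x β →
          b + 1 ≤ k ∧ k ≤ b + t - s)) w ?_
    (fun h => (EF h : Set G)) (fun h => (EF' h : Set G)) u Gc _ Gc' _ Bd (by convert hN)
    (by convert hN') bb hb hbs
    bb' hb' hbs' ?_ ?_
  · refine hw.trans ?_
    have e1 : (1 - u : ℝ≥0∞) ^ K ≤ (1 - u / 2) ^ K := by
      gcongr
      exact ENNReal.half_le_self
    have e2 : u * u ≤ (u + (ov Λ ht i0 + ov Λ' ht' i0)) ^ 2 := by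
      rw [← sq]
      gcongr
      exact le_self_add
    push_cast
    calc u * u + (((i0 : ℝ≥0∞) + 1) ^ 3 * Bd + ((1 - u) ^ K + K * ov Λ ht i0)) +
          (((i0 : ℝ≥0∞) + 1) ^ 3 * Bd + ((1 - u) ^ K + K * ov Λ' ht' i0)) +
          (2 * ov Λ' ht' i0 + 2 * ov Λ ht i0)
        ≤ (u + (ov Λ ht i0 + ov Λ' ht' i0)) ^ 2 + (((i0 : ℝ≥0∞) + 1) ^ 3 * Bd +
          ((1 - u / 2) ^ K + K * ov Λ ht i0)) +
          (((i0 : ℝ≥0∞) + 1) ^ 3 * Bd + ((1 - u / 2) ^ K + K * ov Λ' ht' i0)) +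
          (2 * ov Λ' ht' i0 + 2 * ov Λ ht i0) := by gcongr
      _ ≤ ((u + (ov Λ ht i0 + ov Λ' ht' i0)) ^ 2 + (((i0 : ℝ≥0∞) + 1) ^ 3 * Bd +
          ((1 - u / 2) ^ K + K * ov Λ ht i0)) +
          (((i0 : ℝ≥0∞) + 1) ^ 3 * Bd + ((1 - u / 2) ^ K + K * ov Λ' ht' i0)) +
          (2 * ov Λ' ht' i0 + 2 * ov Λ ht i0)) +
          (2 * (u + (ov Λ ht i0 + ov Λ' ht' i0)) ^ 2 + ((i0 : ℝ≥0∞) + 1) ^ 3 * Bd +
            (1 - u / 2) ^ K + 2 * (K * ov Λ ht i0) + 2 * (K * ov Λ' ht' i0)) := le_self_add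
      _ = _ := by simp only [Bd]; ring
  · -- cut event
    rintro T P R T' P' R' hT hTi hP hPi hT' hTi' hP' hPi' ⟨⟨y, k, ⟨hy1, hy2⟩, hk⟩, hall⟩
    have hT0 := hT.1
    have hP0 := hP.1
    have hT0' := hT'.1
    have hP0' := hP'.1
    have app : ∀ (y : G) (k : ℕ), (y, k) ∈ TT sA ht z (T ++ (P ++ R)) 0 0 ↔
        ((y, k) ∈ TT sA ht z T 0 0 ∨ (y - Dp z T, k) ∈ TT sA ht z P 0 (HT ht T) ∨
          (y, k) ∈ TT sA ht z R (0 + Dp z T + Dp z P) (0 + HT ht T + HT ht P)) := by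
      intro y k
      rw [TT_append, TT_append, Set.mem_union, Set.mem_union, TT_shift, Nat.zero_add]
    have app' : ∀ (y : G) (k : ℕ), (y, k) ∈ TT sB ht' z' (T' ++ (P' ++ R')) w 0 ↔
        ((y, k) ∈ TT sB ht' z' T' w 0 ∨
          (y - Dp z T, k) ∈ TT sB ht' z' P' (w + Dp z' T' - Dp z T) (HT ht' T') ∨
          (y, k) ∈ TT sB ht' z' R' (w + Dp z' T' + Dp z' P') (0 + HT ht' T' + HT ht' P')) := by
      intro y k
      have e : w + Dp z' T' = (w + Dp z' T' - Dp z T) + Dp z T := by abel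
      rw [TT_append, TT_append, Set.mem_union, Set.mem_union, Nat.zero_add]
      rw [← TT_shift, ← e]
    have hk0 := (hall y k hy1 hy2).1
    rw [app] at hy1
    rw [app'] at hy2
    have g1 : (y - Dp z T, k) ∈ TT sA ht z P 0 (HT ht T) := by
      rcases hy1 with h | h | h
      · have := TT_depth sA ht z hsA _ _ _ _ _ h
        omega
      · exact h
      · have := TT_depth sA ht z hsA _ _ _ _ _ h
        omega
    have g2 : (y - Dp z T, k) ∈ TT sB ht' z' P' (w + Dp z' T' - Dp z T) (HT ht' T') := by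
      rcases hy2 with h | h | h
      · have := TT_depth sB ht' z' hsB _ _ _ _ _ h
        omega
      · exact h
      · have := TT_depth sB ht' z' hsB _ _ _ _ _ h
        omega
    refine ⟨⟨_, _, g1, g2⟩, ?_⟩
    intro y' k' m1 m2
    have d1 := TT_depth sA ht z hsA _ _ _ _ _ m1
    have e1 : (y' + Dp z T, k') ∈ TT sA ht z (T ++ (P ++ R)) 0 0 := by
      rw [app]
      right; left
      simpa using m1
    have e2 : (y' + Dp z T, k') ∈ TT sB ht' z' (T' ++ (P' ++ R')) w 0 := by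
      rw [app']
      right; left
      simpa using m2
    have := hall _ _ e1 e2
    omega
  · intro α β h h' e1 e2 e3 e4 e5 e6 e7 e8 μ hμ hM
    refine le_trans ?_ (le_trans (H2 s h h' α β (b + 1) (EF h) μ Gc lam hμ hM hl0 hlt
      (by omega) (by omega) (by omega)) ?_)
    · gcongr with x L L'
      by_cases hc : HT ht L = h ∧ Dp z L ∈ (EF h : Set G) ∧ HT ht' L' = h' ∧
        (∃ y k, (y, k) ∈ TT sA ht z L 0 α ∧ (y, k) ∈ TT sB ht' z' L' x β) ∧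
        (∀ y k, (y, k) ∈ TT sA ht z L 0 α → (y, k) ∈ TT sB ht' z' L' x β →
          b + 1 ≤ k ∧ k ≤ b + t - s)
      · rw [if_pos hc, if_pos ⟨hc.1, hc.2.1, hc.2.2.1, hc.2.2.2.1,
          fun y k m1 m2 => (hc.2.2.2.2 y k m1 m2).1⟩]
      · rw [if_neg hc]; exact zero_le
    · simp only [Bd]
      gcongr
      exact hE h
  · intro α β h h' e1 e2 e3 e4 e5 e6 e7 e8 μ hμ hM
    refine le_trans ?_ (le_trans (H3 s h h' α β (b + t - s) (EF' h') μ Gc' lam hμ hM hl0 hlt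
      (by omega) (by omega) (by omega)) ?_)
    · gcongr with x L L'
      by_cases hc : HT ht L = h ∧ Dp z' L' ∈ (EF' h' : Set G) ∧ HT ht' L' = h' ∧
        (∃ y k, (y, k) ∈ TT sA ht z L 0 α ∧ (y, k) ∈ TT sB ht' z' L' x β) ∧
        (∀ y k, (y, k) ∈ TT sA ht z L 0 α → (y, k) ∈ TT sB ht' z' L' x β →
          b + 1 ≤ k ∧ k ≤ b + t - s)
      · rw [if_pos hc, if_pos ⟨hc.1, hc.2.1, hc.2.2.1, hc.2.2.2.1,
          fun y k m1 m2 => (hc.2.2.2.2 y k m1 m2).2⟩]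
      · rw [if_neg hc]; exact zero_le
    · simp only [Bd]
      gcongr
      exact hE' h'

/-- **the assembly** (first contact form, `n` large) -/
theorem kap (Λ : A → ℝ≥0∞) (ht : A → ℕ) (z : A → G) (sA : A → Set (G × ℕ))
    (h1 : ∀ b, 1 ≤ ht b) (hΛ : ∑' b, Λ b = 1) (hU : ∀ n, U Λ ht n ≤ 1)
    (hsA : ∀ b, ∀ p ∈ sA b, 1 ≤ p.2 ∧ p.2 ≤ ht b)
    (Λ' : B → ℝ≥0∞) (ht' : B → ℕ) (z' : B → G) (sB : B → Set (G × ℕ)) (h1' : ∀ b, 1 ≤ ht' b)
    (hΛ' : ∑' b, Λ' b = 1) (hU' : ∀ n, U Λ' ht' n ≤ 1)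
    (hsB : ∀ b, ∀ p ∈ sB b, 1 ≤ p.2 ∧ p.2 ≤ ht' b)
    (hov : Filter.Tendsto (ov Λ ht) Filter.atTop (nhds 0))
    (hov' : Filter.Tendsto (ov Λ' ht') Filter.atTop (nhds 0))
    (us : ℕ → ℝ≥0∞) (hus : Filter.Tendsto us Filter.atTop (nhds 0)) (C : ℝ≥0∞) (hC : C ≠ ⊤)
    (H2 : ∀ (s h h' α β lo : ℕ) (E : Finset G) (μ : G → ℝ≥0∞) (M lam : ℝ≥0∞), ∑' x, μ x ≤ 1 →
      (∀ x, μ x ≤ M) → lam ≠ 0 → lam ≠ ⊤ → α + s ≤ lo → β + s ≤ lo → α ≤ β →
      ∑' x, μ x * ∑' L, ∑' L', (if HT ht L = h ∧ Dp z L ∈ E ∧ HT ht' L' = h' ∧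
        (∃ y k, (y, k) ∈ TT sA ht z L 0 α ∧ (y, k) ∈ TT sB ht' z' L' x β) ∧
        (∀ y k, (y, k) ∈ TT sA ht z L 0 α → (y, k) ∈ TT sB ht' z' L' x β → lo ≤ k)
        then LW Λ L * LW Λ' L' else 0) ≤ C * (lam + M * E.card * us s / lam + us s))
    (H3 : ∀ (s h h' α β hi : ℕ) (E : Finset G) (μ : G → ℝ≥0∞) (M lam : ℝ≥0∞), ∑' x, μ x ≤ 1 →
      (∀ x, μ x ≤ M) → lam ≠ 0 → lam ≠ ⊤ → hi + s ≤ α + h → hi + s ≤ β + h' → α + h ≤ β + h' →
      ∑' x, μ x * ∑' L, ∑' L', (if HT ht L = h ∧ Dp z' L' ∈ E ∧ HT ht' L' = h' ∧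
        (∃ y k, (y, k) ∈ TT sA ht z L 0 α ∧ (y, k) ∈ TT sB ht' z' L' x β) ∧
        (∀ y k, (y, k) ∈ TT sA ht z L 0 α → (y, k) ∈ TT sB ht' z' L' x β → k ≤ hi)
        then LW Λ L * LW Λ' L' else 0) ≤ C * (lam + M * E.card * us s / lam + us s))
    (H5 : ∀ (s : ℕ) (η : ℝ≥0∞), η ≠ 0 → ∃ T : ℕ, ∀ a, T ≤ a → ∀ (n : ℕ) (w : G),
      ∑' L, ∑' L', (if HT ht L = n ∧ HT ht' L' = n ∧ (∃ y k, a ≤ k ∧ k < a + s ∧
        (y, k) ∈ TT sA ht z L 0 0 ∧ (y, k) ∈ TT sB ht' z' L' w 0)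
        then LW Λ L * LW Λ' L' else 0) ≤ η)
    (ε : ℝ≥0∞) (hε : ε ≠ 0) :
    ∃ M : ℕ, ∀ m, M ≤ m → ∃ n0 : ℕ, ∀ n, n0 ≤ n → ∀ w : G,
      ∑' L, ∑' L', (if HT ht L = n ∧ HT ht' L' = n ∧
        (∀ y k, (y, k) ∈ TT sA ht z L 0 0 → (y, k) ∈ TT sB ht' z' L' w 0 → m < k) ∧
        (∃ y k, (y, k) ∈ TT sA ht z L 0 0 ∧ (y, k) ∈ TT sB ht' z' L' w 0 ∧ k ≤ 2 * m)
        then LW Λ L * LW Λ' L' else 0) ≤ ε := by
  have hep : Filter.Tendsto (fun i => ov Λ ht i + ov Λ' ht' i) Filter.atTop (nhds 0) := by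
    have := hov.add hov'
    rwa [add_zero] at this
  have hε50 : ε / 50 ≠ 0 := by
    rw [Ne, ENNReal.div_eq_zero_iff]
    push Not
    exact ⟨hε, by finiteness⟩
  obtain ⟨K, u, hK1, hu0, hu1, i0, lam, s, hl0, hlt, -, -, hX⟩ :=
    Num869.choose' us (fun i => ov Λ ht i + ov Λ' ht' i) hus hep C hC 3 (ε / 50) hε50
  set X : ℝ≥0∞ := (u + (ov Λ ht i0 + ov Λ' ht' i0)) ^ 2 +
          ((1 - u / 2) ^ K + K * (ov Λ ht i0 + ov Λ' ht' i0)) +
          ((i0 : ℝ≥0∞) + 1) ^ 3 * (C * (lam + (((i0 : ℝ≥0∞) + 1) / u) * us s / lam + us s)) with hXd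
  set ep : ℝ≥0∞ := ov Λ ht i0 + ov Λ' ht' i0 with hepd
  have hX' : (K : ℝ≥0∞) * X ≤ ε / 50 := hX
  let J : ℕ := 3 * K + 2
  have hJ5 : (J : ℝ≥0∞) ≤ 5 * (K : ℝ≥0∞) := by
    have : J ≤ 5 * K := by simp only [J]; omega
    exact_mod_cast this
  have hJ0 : (J : ℝ≥0∞) ≠ 0 := by
    have : J ≠ 0 := by simp only [J]; omega
    exact_mod_cast this
  have hJt : (J : ℝ≥0∞) ≠ ⊤ := ENNReal.natCast_ne_top J
  have hη : ε / 2 / J ≠ 0 := by
    rw [Ne, ENNReal.div_eq_zero_iff, ENNReal.div_eq_zero_iff]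
    push Not
    exact ⟨⟨hε, by finiteness⟩, hJt⟩
  obtain ⟨T5, hT5⟩ := H5 (s + 2 * i0 + 1) (ε / 2 / J) hη
  refine ⟨J * (J + 3 * i0 + s + 1) + T5, fun m hm => ?_⟩
  let t' : ℕ := m / J
  let t : ℕ := t' + 1
  have hJpos : 0 < J := by simp only [J]; omega
  have ht'1 : J + 3 * i0 + s + 1 ≤ t' := by
    rw [Nat.le_div_iff_mul_le hJpos]
    nlinarith
  have hJt1 : J * t' ≤ m := Nat.mul_div_le m J
  have hJt2 : m < J * t := by
    have := Nat.lt_mul_div_succ m hJpos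
    simpa [t, t'] using this
  have hKt : K * (2 * t + i0) + t ≤ m := by
    have e1 : K * (2 * t + i0) ≤ K * (3 * t) := by
      apply Nat.mul_le_mul_left
      simp only [t]; omega
    have e2 : K * (3 * t) + t + (t' - (3 * K + 1)) = J * t' + 0 := by
      have : 3 * K + 1 ≤ t' := by simp only [J] at ht'1; omega
      obtain ⟨r, hr⟩ := Nat.exists_eq_add_of_le this
      simp only [t, J, hr]
      have : 3 * K + 1 + r - (3 * K + 1) = r := by omega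
      rw [this]
      ring
    omega
  refine ⟨m + J * t + 2 * t + 4 * i0, fun n hn w => ?_⟩
  let bj : ℕ → ℕ := fun j => m + j * t
  let f : ℕ → List A → List B → ℝ≥0∞ := fun j L L' =>
    if HT ht L = n ∧ HT ht' L' = n ∧ EvW sA ht z sB ht' z' w (bj j) t i0 s L L'
      then LW Λ L * LW Λ' L' else 0
  let g : ℕ → List A → List B → ℝ≥0∞ := fun j L L' =>
    if HT ht L = n ∧ HT ht' L' = n ∧ (∃ y k, (bj j + t - s) ≤ k ∧ k < (bj j + t - s) +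
        (s + 2 * i0 + 1) ∧
        (y, k) ∈ TT sA ht z L 0 0 ∧ (y, k) ∈ TT sB ht' z' L' w 0)
        then LW Λ L * LW Λ' L' else 0
  have hpt : ∀ L L', (if HT ht L = n ∧ HT ht' L' = n ∧
        (∀ y k, (y, k) ∈ TT sA ht z L 0 0 → (y, k) ∈ TT sB ht' z' L' w 0 → m < k) ∧
        (∃ y k, (y, k) ∈ TT sA ht z L 0 0 ∧ (y, k) ∈ TT sB ht' z' L' w 0 ∧ k ≤ 2 * m)
        then LW Λ L * LW Λ' L' else 0) ≤ ∑ j ∈ Finset.range J, (f j L L' + g j L L') := by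
    intro L L'
    split_ifs with hc
    · obtain ⟨hL, hL', hall, y0, k0, hy1, hy2, hk0⟩ := hc
      have hex : ∃ k, ∃ y, (y, k) ∈ TT sA ht z L 0 0 ∧ (y, k) ∈ TT sB ht' z' L' w 0 :=
        ⟨k0, y0, hy1, hy2⟩
      obtain ⟨y, hy⟩ := Nat.find_spec hex
      have hmin : ∀ k y, (y, k) ∈ TT sA ht z L 0 0 → (y, k) ∈ TT sB ht' z' L' w 0 →
          Nat.find hex ≤ k := fun k y e1 e2 => Nat.find_min' hex ⟨y, e1, e2⟩
      set ks := Nat.find hex with hks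
      have hk1 : m < ks := hall y ks hy.1 hy.2
      have hk2 : ks ≤ 2 * m := (hmin k0 y0 hy1 hy2).trans hk0
      let j : ℕ := (ks - m - 1) / t
      have htpos : 0 < t := by simp only [t]; omega
      have hj : j < J := by
        apply Nat.div_lt_of_lt_mul
        rw [mul_comm]
        omega
      have hj1 : t * j ≤ ks - m - 1 := Nat.mul_div_le _ _
      have hj2 : ks - m - 1 < t * (j + 1) := by
        have := Nat.lt_mul_div_succ (ks - m - 1) htpos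
        simpa [j] using this
      rw [mul_comm] at hj1
      have hj2' : ks - m - 1 < j * t + t := by
        calc ks - m - 1 < t * (j + 1) := hj2
          _ = j * t + t := by ring
      refine le_trans ?_ (Finset.single_le_sum (f := fun j => f j L L' + g j L L')
        (fun _ _ => zero_le) (Finset.mem_range.mpr hj))
      by_cases hsl : ∃ y k, (bj j + t - s) ≤ k ∧ k < (bj j + t - s) +
        (s + 2 * i0 + 1) ∧
        (y, k) ∈ TT sA ht z L 0 0 ∧ (y, k) ∈ TT sB ht' z' L' w 0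
      · have : g j L L' = LW Λ L * LW Λ' L' := by
          simp only [g]
          rw [if_pos ⟨hL, hL', hsl⟩]
        simp only [this]
        exact le_add_self
      · have : f j L L' = LW Λ L * LW Λ' L' := by
          simp only [f]
          rw [if_pos]
          refine ⟨hL, hL', ⟨y, ks, hy, ?_⟩, ?_⟩
          · simp only [bj]; omega
          · intro y' k' e1 e2
            have h3 := hmin k' y' e1 e2
            refine ⟨by simp only [bj]; omega, fun h4 => hsl ⟨y', k', ?_, ?_, e1, e2⟩⟩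
            · omega
            · simp only [t] at *
              omega
        simp only [this]
        exact le_self_add
    · exact zero_le
  have hf : ∀ j ∈ Finset.range J, ∑' L, ∑' L', f j L L' ≤ 3 * X + 2 * ep := by
    intro j hj
    rw [Finset.mem_range] at hj
    have hjt : j * t ≤ J * t := Nat.mul_le_mul_right t hj.le
    exact window_TT Λ ht z sA h1 hΛ hU hsA Λ' ht' z' sB h1' hΛ' hU' hsB us C H2 H3
      (bj j) t i0 s K n w u lam hu0 hu1 hl0 hlt (by simp only [t]; omega)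
      (by simp only [bj]; omega) (by simp only [bj]; omega) (by simp only [bj]; omega)
  have hg : ∀ j ∈ Finset.range J, ∑' L, ∑' L', g j L L' ≤ ε / 2 / J := by
    intro j hj
    exact hT5 (bj j + t - s) (by simp only [bj, t]; omega) n w
  have hepK : ep ≤ X := by
    calc ep = 1 * ep := (one_mul _).symm
      _ ≤ K * ep := by gcongr; exact_mod_cast hK1
      _ ≤ (1 - u / 2) ^ K + K * ep := le_add_self
      _ ≤ _ := by rw [hXd]; exact le_trans le_add_self le_self_add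
  calc _ ≤ ∑' L, ∑' L', ∑ j ∈ Finset.range J, (f j L L' + g j L L') :=
        ENNReal.tsum_le_tsum fun L => ENNReal.tsum_le_tsum fun L' => hpt L L'
    _ = ∑ j ∈ Finset.range J, (∑' L, ∑' L', f j L L' + ∑' L, ∑' L', g j L L') := by
        simp_rw [Summable.tsum_finsetSum (fun _ _ => ENNReal.summable), ENNReal.tsum_add]
    _ ≤ ∑ j ∈ Finset.range J, ((3 * X + 2 * ep) + ε / 2 / J) :=
        Finset.sum_le_sum fun j hj => add_le_add (hf j hj) (hg j hj)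
    _ = J * (3 * X + 2 * ep) + J * (ε / 2 / J) := by
        rw [Finset.sum_const, Finset.card_range, nsmul_eq_mul, mul_add]
    _ ≤ (5 * K) * (3 * X + 2 * X) + ε / 2 := by
        gcongr
        exact ENNReal.mul_div_le
    _ = 25 * (K * X) + ε / 2 := by ring
    _ ≤ 25 * (ε / 50) + ε / 2 := by gcongr
    _ = ε / 2 + ε / 2 := by
        congr 1
        rw [show (50 : ℝ≥0∞) = 25 * 2 by norm_num, ENNReal.div_eq_inv_mul, ENNReal.div_eq_inv_mul,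
          ENNReal.mul_inv (by simp) (by simp), ← mul_assoc, ← mul_assoc,
          ENNReal.mul_inv_cancel (by simp) (by simp), one_mul]
    _ = ε := ENNReal.add_halves ε

end Crest.Agent.R154.Asm239
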