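import Crest.Agent.R154.AsmT_247

/-! Row 154, ROAD 801, assembly (helper247), part 2: smooth density of first passage keys. -/

set_option autoImplicit false

namespace Crest.Agent.R154.Asm247

open scoped ENNReal
open Crest.Agent.R154.B5A Crest.Agent.R154.FP178

variable {B G : Type*} [AddCommGroup G]

/-- key of a list: height and displacement -/
def ky (ht : B → ℕ) (z : B → G) (L : List B) : ℤ × G := ((HT ht L : ℤ), Dp z L)

lemma ky_append (ht : B → ℕ) (z : B → G) (L L' : List B) :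
    ky ht z (L ++ L') = ky ht z L + ky ht z L' := by
  simp [ky, HT_append, Dp_append]

variable (Λ : B → ℝ≥0∞) (ht : B → ℕ) (z : B → G)

open Classical in
/-- law of the key of the first passage -/
noncomputable def mk (c : ℕ) (κ : ℤ × G) : ℝ≥0∞ :=
  ∑' L : List B, if fp ht c L ∧ ky ht z L = κ then LW Λ L else 0

open Classical in
lemma keysum (c : ℕ) (F : ℤ × G → ℝ≥0∞) :
    ∑' L, (if fp ht c L then LW Λ L * F (ky ht z L) else 0) = ∑' κ, mk Λ ht z c κ * F κ := by
  have : ∀ κ, mk Λ ht z c κ * F κ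
      = ∑' L : List B, (if fp ht c L ∧ ky ht z L = κ then LW Λ L * F κ else 0) := by
    intro κ
    rw [mk, ← ENNReal.tsum_mul_right]
    refine tsum_congr fun L => ?_
    split_ifs <;> simp
  rw [tsum_congr this, ENNReal.tsum_comm]
  refine tsum_congr fun L => ?_
  rw [tsum_eq_single (ky ht z L)]
  · by_cases h : fp ht c L <;> simp [h]
  · intro κ hκ
    rw [if_neg (fun h => hκ h.2.symm)]

open Classical in
lemma mk_mass (h1 : ∀ b, 1 ≤ ht b) (hΛ : ∑' b, Λ b ≤ 1) (c : ℕ) :
    ∑' κ, mk Λ ht z c κ ≤ 1 := by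
  have := keysum Λ ht z c (fun _ => 1)
  simp only [mul_one] at this
  rw [← this]
  exact sum_FP Λ ht h1 hΛ c

open Classical in
lemma mk_mass_eq (h1 : ∀ b, 1 ≤ ht b) (hΛ : ∑' b, Λ b = 1) (c : ℕ) :
    ∑' κ, mk Λ ht z c κ = 1 := by
  have := keysum Λ ht z c (fun _ => 1)
  simp only [mul_one] at this
  rw [← this]
  exact sum_FP_eq Λ ht h1 hΛ c

lemma mk_supp (c : ℕ) (κ : ℤ × G) (h : mk Λ ht z c κ ≠ 0) : (c : ℤ) ≤ κ.1 := by
  classical
  by_contra hc
  apply h
  rw [mk, ENNReal.tsum_eq_zero]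
  intro L
  rw [if_neg]
  rintro ⟨hL, rfl⟩
  have := le_HT_of_fp ht hL
  apply hc
  simp only [ky]
  exact_mod_cast this

open Classical in
lemma mk_rec (h1 : ∀ b, 1 ≤ ht b) (τ c : ℕ) (hτ : τ ≤ c) (κ : ℤ × G) :
    mk Λ ht z c κ = ∑' κ', mk Λ ht z τ κ' * mk Λ ht z (c - κ'.1.toNat) (κ - κ') := by
  have e := fp_split Λ ht h1 τ c hτ (fun L => if ky ht z L = κ then 1 else 0)
  have e1 : mk Λ ht z c κ
      = ∑' L, (if fp ht c L then LW Λ L * (if ky ht z L = κ then 1 else 0) else 0) := by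
    rw [mk]
    refine tsum_congr fun L => ?_
    by_cases h : fp ht c L <;> by_cases h' : ky ht z L = κ <;> simp [h, h']
  rw [e1, e, ← keysum Λ ht z τ (fun κ' => mk Λ ht z (c - κ'.1.toNat) (κ - κ'))]
  refine tsum_congr fun A => ?_
  by_cases hA : fp ht τ A
  · rw [if_pos hA, if_pos hA]
    congr 1
    rw [mk]
    refine tsum_congr fun L => ?_
    have hk : (ky ht z A).1.toNat = HT ht A := by simp [ky]
    rw [hk, ky_append]
    have : (ky ht z A + ky ht z L = κ) ↔ (ky ht z L = κ - ky ht z A) := by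
      constructor
      · intro h; rw [← h]; abel
      · intro h; rw [h]; abel
    by_cases h : fp ht (c - HT ht A) L <;> by_cases h' : ky ht z L = κ - ky ht z A <;>
      simp [h, h', this]
  · rw [if_neg hA, if_neg hA]

lemma tsum_sub_key {K : Type*} [AddCommGroup K] (f : K → ℝ≥0∞) (κ' : K) :
    ∑' κ, f (κ - κ') = ∑' κ, f κ :=
  (Equiv.subRight κ').tsum_eq f

lemma tsum_sub_key' {K : Type*} [AddCommGroup K] (f : K → ℝ≥0∞) (κ : K) :
    ∑' κ', f (κ - κ') = ∑' κ', f κ' :=
  (Equiv.subLeft κ).tsum_eq f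

open Classical in
/-- **smooth density** -/
theorem dens (h1 : ∀ b, 1 ≤ ht b) (hΛ : ∑' b, Λ b ≤ 1) (τ i0 : ℕ) (θ r ε : ℝ≥0∞)
    (hr : ∑' κ, (if θ < mk Λ ht z τ κ then mk Λ ht z τ κ else 0) ≤ r) (hr1 : r ≤ 1)
    (hε : ∑' κ : ℤ × G, (if (τ : ℤ) + i0 < κ.1 then mk Λ ht z τ κ else 0) ≤ ε) (J : ℕ) :
    ∀ c, J * (τ + i0) ≤ c → ∃ g b : ℤ × G → ℝ≥0∞, (∀ κ, mk Λ ht z c κ ≤ g κ + b κ) ∧
      (∀ κ, g κ ≤ J * ((i0 + 1) * θ)) ∧ ∑' κ, b κ ≤ r ^ J + J * ε := by
  induction J with
  | zero =>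
    intro c _
    refine ⟨fun _ => 0, mk Λ ht z c, fun κ => by rw [zero_add], fun κ => zero_le, ?_⟩
    simpa using mk_mass Λ ht z h1 hΛ c
  | succ J ih =>
    intro c hc
    have ih' : ∀ c', ∃ g b : ℤ × G → ℝ≥0∞, J * (τ + i0) ≤ c' → (∀ κ, mk Λ ht z c' κ ≤ g κ + b κ) ∧
        (∀ κ, g κ ≤ J * ((i0 + 1) * θ)) ∧ ∑' κ, b κ ≤ r ^ J + J * ε := by
      intro c'
      by_cases h : J * (τ + i0) ≤ c'
      · obtain ⟨g, b, h⟩ := ih c' h
        exact ⟨g, b, fun _ => h⟩
      · exact ⟨0, 0, fun h' => absurd h' h⟩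
    choose g b hgb using ih'
    have hτc : τ ≤ c := by nlinarith
    set p := mk Λ ht z τ with hp
    set N : ℤ × G → Prop := fun κ' => (τ : ℤ) + i0 < κ'.1 with hN
    set g' : ℤ × G → ℝ≥0∞ := fun κ =>
      (∑' κ', if ¬ N κ' ∧ ¬ θ < p κ' then p κ' * mk Λ ht z (c - κ'.1.toNat) (κ - κ') else 0)
      + ∑' κ', if ¬ N κ' ∧ θ < p κ' then p κ' * g (c - κ'.1.toNat) (κ - κ') else 0 with hg'
    set b' : ℤ × G → ℝ≥0∞ := fun κ =>
      (∑' κ', if N κ' then p κ' * mk Λ ht z (c - κ'.1.toNat) (κ - κ') else 0)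
      + ∑' κ', if ¬ N κ' ∧ θ < p κ' then p κ' * b (c - κ'.1.toNat) (κ - κ') else 0 with hb'
    have hcN : ∀ κ' : ℤ × G, ¬ N κ' → J * (τ + i0) ≤ c - κ'.1.toNat := by
      intro κ' h
      simp only [hN, not_lt] at h
      have h2 : κ'.1.toNat ≤ τ + i0 := by omega
      have h3 : (J + 1) * (τ + i0) = J * (τ + i0) + (τ + i0) := by ring
      omega
    refine ⟨g', b', ?_, ?_, ?_⟩
    · intro κ
      rw [mk_rec Λ ht z h1 τ c hτc κ]
      simp only [hg', hb']
      rw [← hp]
      have : ∀ κ', p κ' * mk Λ ht z (c - κ'.1.toNat) (κ - κ')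
          ≤ ((if ¬ N κ' ∧ ¬ θ < p κ' then p κ' * mk Λ ht z (c - κ'.1.toNat) (κ - κ') else 0)
            + (if ¬ N κ' ∧ θ < p κ' then p κ' * g (c - κ'.1.toNat) (κ - κ') else 0))
            + ((if N κ' then p κ' * mk Λ ht z (c - κ'.1.toNat) (κ - κ') else 0)
            + (if ¬ N κ' ∧ θ < p κ' then p κ' * b (c - κ'.1.toNat) (κ - κ') else 0)) := by
        intro κ'
        by_cases h : N κ'
        · simp [h]
        · by_cases h' : θ < p κ'
          · simp only [h, h', not_true_eq_false, not_false_eq_true, and_false, and_true, if_false,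
              if_true, zero_add]
            rw [← mul_add]
            gcongr
            exact (hgb _ (hcN κ' h)).1 _
          · simp [h, h']
      refine le_trans (ENNReal.tsum_le_tsum this) ?_
      rw [ENNReal.tsum_add, ENNReal.tsum_add, ENNReal.tsum_add]
    · intro κ
      simp only [hg']
      have e1 : (∑' κ', if ¬ N κ' ∧ ¬ θ < p κ' then p κ' * mk Λ ht z (c - κ'.1.toNat) (κ - κ')
          else 0) ≤ (i0 + 1) * θ := by
        have : ∀ κ' : ℤ × G, (if ¬ N κ' ∧ ¬ θ < p κ' then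
            p κ' * mk Λ ht z (c - κ'.1.toNat) (κ - κ') else 0)
            ≤ θ * ∑ h ∈ Finset.range (i0 + 1), mk Λ ht z (c - (τ + h)) (κ - κ') := by
          intro κ'
          by_cases h : ¬ N κ' ∧ ¬ θ < p κ'
          swap
          · rw [if_neg h]; exact zero_le
          rw [if_pos h]
          by_cases hp0 : p κ' = 0
          · rw [hp0, zero_mul]; exact zero_le
          have hs := mk_supp Λ ht z τ κ' hp0
          have hN' := h.1
          simp only [hN, not_lt] at hN'
          gcongr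
          · exact not_lt.1 h.2
          · have hm : κ'.1.toNat - τ ∈ Finset.range (i0 + 1) := by
              rw [Finset.mem_range]; omega
            refine le_trans (le_of_eq ?_) (Finset.single_le_sum
              (f := fun h => mk Λ ht z (c - (τ + h)) (κ - κ')) (fun _ _ => zero_le) hm)
            congr 1
            omega
        refine le_trans (ENNReal.tsum_le_tsum this) ?_
        rw [ENNReal.tsum_mul_left, Summable.tsum_finsetSum (fun _ _ => ENNReal.summable), mul_comm]
        gcongr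
        calc ∑ h ∈ Finset.range (i0 + 1), ∑' κ', mk Λ ht z (c - (τ + h)) (κ - κ')
            ≤ ∑ h ∈ Finset.range (i0 + 1), (1 : ℝ≥0∞) := by
              refine Finset.sum_le_sum fun h _ => ?_
              rw [tsum_sub_key' (fun κ' => mk Λ ht z (c - (τ + h)) κ')]
              exact mk_mass Λ ht z h1 hΛ _
          _ = _ := by simp
      have e2 : (∑' κ', if ¬ N κ' ∧ θ < p κ' then p κ' * g (c - κ'.1.toNat) (κ - κ') else 0)
          ≤ J * ((i0 + 1) * θ) := by
        have : ∀ κ' : ℤ × G, (if ¬ N κ' ∧ θ < p κ' then p κ' * g (c - κ'.1.toNat) (κ - κ') else 0)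
            ≤ (if θ < p κ' then p κ' else 0) * (J * ((i0 + 1) * θ)) := by
          intro κ'
          by_cases h : ¬ N κ' ∧ θ < p κ'
          · rw [if_pos h, if_pos h.2]
            gcongr
            exact (hgb _ (hcN κ' h.1)).2.1 _
          · rw [if_neg h]; exact zero_le
        refine le_trans (ENNReal.tsum_le_tsum this) ?_
        rw [ENNReal.tsum_mul_right]
        calc _ ≤ 1 * (J * ((i0 + 1) * θ)) := by gcongr; exact hr.trans hr1
          _ = _ := one_mul _
      calc _ ≤ (i0 + 1) * θ + J * ((i0 + 1) * θ) := add_le_add e1 e2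
        _ = _ := by push_cast; ring
    · simp only [hb']
      rw [ENNReal.tsum_add]
      have e1 : (∑' κ, ∑' κ', if N κ' then p κ' * mk Λ ht z (c - κ'.1.toNat) (κ - κ') else 0)
          ≤ ε := by
        rw [ENNReal.tsum_comm]
        refine le_trans (ENNReal.tsum_le_tsum fun κ' => ?_) hε
        by_cases h : N κ'
        · have h' : (τ : ℤ) + i0 < κ'.1 := h
          rw [if_pos h']
          simp only [if_pos h]
          rw [ENNReal.tsum_mul_left, tsum_sub_key]
          calc p κ' * _ ≤ p κ' * 1 := by gcongr; exact mk_mass Λ ht z h1 hΛ _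
            _ = _ := mul_one _
        · simp only [if_neg h, tsum_zero]; exact zero_le
      have e2 : (∑' κ, ∑' κ', if ¬ N κ' ∧ θ < p κ' then p κ' * b (c - κ'.1.toNat) (κ - κ') else 0)
          ≤ r * (r ^ J + J * ε) := by
        rw [ENNReal.tsum_comm]
        have : ∀ κ' : ℤ × G, (∑' κ, if ¬ N κ' ∧ θ < p κ' then p κ' * b (c - κ'.1.toNat) (κ - κ')
            else 0) ≤ (if θ < p κ' then p κ' else 0) * (r ^ J + J * ε) := by
          intro κ'
          by_cases h : ¬ N κ' ∧ θ < p κ'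
          · simp only [if_pos h, if_pos h.2]
            rw [ENNReal.tsum_mul_left, tsum_sub_key]
            gcongr
            exact (hgb _ (hcN κ' h.1)).2.2
          · simp only [if_neg h, tsum_zero]; exact zero_le
        refine le_trans (ENNReal.tsum_le_tsum this) ?_
        rw [ENNReal.tsum_mul_right]
        gcongr
      calc _ ≤ ε + r * (r ^ J + J * ε) := add_le_add e1 e2
        _ ≤ ε + (r ^ (J + 1) + J * ε) := by
            rw [mul_add, pow_succ' r J]
            refine add_le_add le_rfl (add_le_add le_rfl ?_)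
            have : r * ((J : ℝ≥0∞) * ε) ≤ 1 * (J * ε) := mul_le_mul_left hr1 _
            rwa [one_mul] at this
        _ = _ := by push_cast; ring

end Crest.Agent.R154.Asm247
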