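import Crest.Agent.R154.AsmC_251

/-! Row 154, ROAD 801 (helper251): assembly, part D (bound of one window). -/

set_option autoImplicit false

namespace Crest.Agent.R154.Asm251

open scoped ENNReal
open Crest.Agent.R154.B5A
open Crest.Agent.R154.KWB419 (TT)

variable {BX BY G : Type*} [AddCommGroup G]
  (ΛX : BX → ℝ≥0∞) (hX : BX → ℕ) (zX : BX → G) (sX : BX → Set (G × ℕ))
  (ΛY : BY → ℝ≥0∞) (hY : BY → ℕ) (zY : BY → G) (sY : BY → Set (G × ℕ))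

open Classical in
/-- law of the relative position -/
noncomputable def mu (QA : List BX → Prop) (QA' : List BY → Prop) (w : G) (c c' : ℕ) (x : G) :
    ℝ≥0∞ :=
  PS ΛX hX c (fun A => PS ΛY hY c' (fun A' =>
    if QA A ∧ QA' A' ∧ w + Dp zY A' - Dp zX A = x then 1 else 0))

open Classical in
lemma mu_sum (h1X : ∀ b, 1 ≤ hX b) (hΛX : ∑' b, ΛX b = 1) (h1Y : ∀ b, 1 ≤ hY b)
    (hΛY : ∑' b, ΛY b = 1) (QA : List BX → Prop) (QA' : List BY → Prop) (w : G) (c c' : ℕ) :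
    ∑' x, mu ΛX hX zX ΛY hY zY QA QA' w c c' x ≤ 1 := by
  simp only [mu]
  rw [← PS_tsum]
  simp_rw [← PS_tsum]
  refine le_trans (PS_mono ΛX hX (F' := fun _ => 1) fun A _ => ?_)
    (le_of_eq (PS_one ΛX hX h1X hΛX c))
  refine le_trans (PS_mono ΛY hY (F' := fun _ => 1) fun A' _ => ?_)
    (le_of_eq (PS_one ΛY hY h1Y hΛY c'))
  rw [tsum_eq_single (w + Dp zY A' - Dp zX A)]
  · split_ifs <;> simp
  · intro x hx
    rw [if_neg]
    rintro ⟨_, _, h⟩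
    exact hx h.symm

open Classical in
lemma mu_K (QA : List BX → Prop) (QA' : List BY → Prop) (w : G) (c c' : ℕ) (K : G → ℝ≥0∞) :
    PS ΛX hX c (fun A => PS ΛY hY c' (fun A' =>
      (if QA A ∧ QA' A' then 1 else 0) * K (w + Dp zY A' - Dp zX A)))
      = ∑' x, mu ΛX hX zX ΛY hY zY QA QA' w c c' x * K x := by
  simp only [mu]
  have : ∀ x : G, PS ΛX hX c (fun A => PS ΛY hY c' (fun A' =>
      if QA A ∧ QA' A' ∧ w + Dp zY A' - Dp zX A = x then (1 : ℝ≥0∞) else 0)) * K x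
      = PS ΛX hX c (fun A => PS ΛY hY c' (fun A' => K x *
        (if QA A ∧ QA' A' ∧ w + Dp zY A' - Dp zX A = x then (1 : ℝ≥0∞) else 0))) := by
    intro x
    rw [mul_comm, ← PS_mul]
    refine PS_congr _ _ fun A _ => ?_
    rw [← PS_mul]
  simp_rw [this]
  rw [← PS_tsum]
  refine PS_congr _ _ fun A _ => ?_
  rw [← PS_tsum]
  refine PS_congr _ _ fun A' _ => ?_
  rw [tsum_eq_single (w + Dp zY A' - Dp zX A)]
  · by_cases h : QA A ∧ QA' A'
    · rw [if_pos h, if_pos ⟨h.1, h.2, rfl⟩, mul_comm]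
    · rw [if_neg h, if_neg (fun h' => h ⟨h'.1, h'.2.1⟩), mul_zero, zero_mul]
  · intro x hx
    rw [if_neg, mul_zero]
    rintro ⟨_, _, h⟩
    exact hx h.symm

open Classical in
/-- reorder a four-fold sum -/
lemma Q4_tie (QA : List BX → Prop) (QA' : List BY → Prop) (w : G) (c T c' T' : ℕ)
    (E : G → List BX → List BY → ℝ≥0∞) :
    Q4 ΛX hX ΛY hY c T c' T' (fun A P A' P' => (if QA A ∧ QA' A' then 1 else 0) *
      E (w + Dp zY A' - Dp zX A) P P')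
    = ∑' x, mu ΛX hX zX ΛY hY zY QA QA' w c c' x *
        PS ΛX hX T (fun P => PS ΛY hY T' (fun P' => E x P P')) := by
  rw [← mu_K, Q4]
  refine PS_congr _ _ fun A _ => ?_
  rw [PS_comm]
  refine PS_congr _ _ fun A' _ => ?_
  rw [← PS_mul]
  refine PS_congr _ _ fun P _ => ?_
  rw [← PS_mul]

open Classical in
lemma piece_le (T T' : ℕ) (F F' : List BX → List BY → ℝ≥0∞)
    (h : ∀ P P', LW ΛX P * (LW ΛY P' * F P P') ≤ F' P P') :
    PS ΛX hX T (fun P => PS ΛY hY T' (fun P' => F P P')) ≤ ∑' P, ∑' P', F' P P' := by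
  simp only [PS]
  refine ENNReal.tsum_le_tsum fun P => ?_
  by_cases hP : FP hX T P
  · rw [if_pos hP, ← ENNReal.tsum_mul_left]
    refine ENNReal.tsum_le_tsum fun P' => ?_
    by_cases hP' : FP hY T' P'
    · rw [if_pos hP']
      exact h P P'
    · rw [if_neg hP', mul_zero]; exact zero_le
  · rw [if_neg hP]; exact zero_le

section Win

variable (us : ℕ → ℝ≥0∞) (C : ℝ≥0∞)

open Classical in
/-- window lemma (2), list form (X local) -/
def H2L : Prop := ∀ (s h h' a a' lo : ℕ) (E : Finset G) (μ : G → ℝ≥0∞) (M lam : ℝ≥0∞),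
    a ≤ a' → ∑' x, μ x ≤ 1 → (∀ x, μ x ≤ M) → lam ≠ 0 → lam ≠ ⊤ → a + s ≤ lo → a' + s ≤ lo →
    ∑' x, μ x * (∑' L : List BX, ∑' L' : List BY, if HT hX L = h ∧
        (L.map zX).sum ∈ E ∧ HT hY L' = h' ∧
        (∃ z k, (z, k) ∈ TT sX hX zX L 0 a ∧ (z, k) ∈ TT sY hY zY L' x a') ∧
        (∀ z k, (z, k) ∈ TT sX hX zX L 0 a → (z, k) ∈ TT sY hY zY L' x a' → lo ≤ k)
        then LW ΛX L * LW ΛY L' else 0)
      ≤ C * (lam + M * E.card * us s / lam + us s)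

open Classical in
/-- window lemma (3), list form (Y local) -/
def H3L : Prop := ∀ (s h h' a a' hi : ℕ) (E : Finset G) (μ : G → ℝ≥0∞) (M lam : ℝ≥0∞),
    a + h ≤ a' + h' → ∑' x, μ x ≤ 1 → (∀ x, μ x ≤ M) → lam ≠ 0 → lam ≠ ⊤ →
    hi + s ≤ a + h → hi + s ≤ a' + h' →
    ∑' x, μ x * (∑' L : List BX, ∑' L' : List BY, if HT hX L = h ∧ HT hY L' = h' ∧
        (L'.map zY).sum ∈ E ∧
        (∃ z k, (z, k) ∈ TT sX hX zX L 0 a ∧ (z, k) ∈ TT sY hY zY L' x a') ∧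
        (∀ z k, (z, k) ∈ TT sX hX zX L 0 a → (z, k) ∈ TT sY hY zY L' x a' → k ≤ hi)
        then LW ΛX L * LW ΛY L' else 0)
      ≤ C * (lam + M * E.card * us s / lam + us s)

/-- the price of a local window at one choice of heights -/
noncomputable def price (us : ℕ → ℝ≥0∞) (C lam : ℝ≥0∞) (J i0 s : ℕ) : ℝ≥0∞ :=
  C * (lam + (J * (i0 + 1 : ℕ)) * us s / lam + us s)

open Classical in
lemma win2 (h1X : ∀ b, 1 ≤ hX b) (hΛX : ∑' b, ΛX b = 1) (h1Y : ∀ b, 1 ≤ hY b)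
    (hΛY : ∑' b, ΛY b = 1) (H2 : H2L ΛX hX zX sX ΛY hY zY sY us C) (w : G) (c t i0 s J : ℕ)
    (hJ : J * (3 * t + i0) ≤ c) (lam : ℝ≥0∞) (l0 : lam ≠ 0) (l1 : lam ≠ ⊤) (th : ℝ≥0∞)
    (hfin : ∀ h, {x : G | th ≤ pp ΛX hX zX (3 * t) h x}.Finite ∧
        ∀ s : Finset G, (∀ x ∈ s, th ≤ pp ΛX hX zX (3 * t) h x) → (s.card : ℝ≥0∞) * th ≤ 1)
    (a h a' h' : ℕ) (ha : a ≤ c + i0) (ha1 : c + i0 ≤ a') (ha2 : a' ≤ c + 2 * i0) :
    Q4 ΛX hX ΛY hY c (3 * t) (c + i0) (3 * t + i0) (fun A P A' P' =>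
      (if (Sm ΛX hX zX (3 * t) i0 th J A ∧ HT hX A = a) ∧ HT hY A' = a' then 1 else 0) *
      (if (HT hX P = h ∧ th ≤ pp ΛX hX zX (3 * t) (HT hX P) (Dp zX P)) ∧ HT hY P' = h' ∧
        Ev hX zX sX hY zY sY P P' (w + Dp zY A' - Dp zX A) a a' (c + 2 * i0 + s)
          (c + 3 * t - s) then 1 else 0))
      ≤ price us C lam J i0 s := by
  have e := Q4_tie ΛX hX zX ΛY hY zY (fun A => Sm ΛX hX zX (3 * t) i0 th J A ∧ HT hX A = a)
    (fun A' => HT hY A' = a') w c (3 * t) (c + i0) (3 * t + i0)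
    (fun x P P' => if (HT hX P = h ∧ th ≤ pp ΛX hX zX (3 * t) (HT hX P) (Dp zX P)) ∧
      HT hY P' = h' ∧ Ev hX zX sX hY zY sY P P' x a a' (c + 2 * i0 + s) (c + 3 * t - s)
        then 1 else 0)
  refine le_trans (le_of_eq (Eq.trans ?_ e)) ?_
  · congr!
  set μ : G → ℝ≥0∞ := mu ΛX hX zX ΛY hY zY
    (fun A => Sm ΛX hX zX (3 * t) i0 th J A ∧ HT hX A = a) (fun A' => HT hY A' = a') w c (c + i0)
    with hμ
  set M : ℝ≥0∞ := J * ((i0 + 1 : ℕ) * th) with hM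
  have hμ1 : ∑' x, μ x ≤ 1 := mu_sum ΛX hX zX ΛY hY zY h1X hΛX h1Y hΛY _ _ w c (c + i0)
  have hμM : ∀ x, μ x ≤ M := by
    intro x
    rw [hμ, mu, PS_comm]
    refine le_trans (PS_mono ΛY hY (F' := fun _ => M) fun A' _ => ?_)
      (le_of_eq (PS_const ΛY hY h1Y hΛY _ _))
    refine le_trans (PS_mono ΛX hX fun A _ => ?_)
      (dens ΛX hX zX h1X hΛX (3 * t) i0 th J c hJ a (w + Dp zY A' - x))
    by_cases hc : (Sm ΛX hX zX (3 * t) i0 th J A ∧ HT hX A = a) ∧ HT hY A' = a' ∧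
        w + Dp zY A' - Dp zX A = x
    · rw [if_pos hc, if_pos ⟨hc.1.1, hc.1.2, by rw [← hc.2.2]; abel⟩]
    · rw [if_neg hc]; exact zero_le
  obtain ⟨hf, hcard⟩ := hfin h
  set E : Finset G := hf.toFinset with hE
  have hEc : (E.card : ℝ≥0∞) * th ≤ 1 := hcard E fun x hx => by
    have := (Set.Finite.mem_toFinset hf).1 hx
    exact this
  refine le_trans (ENNReal.tsum_le_tsum fun x => mul_le_mul_right ?_ (μ x))
    ((H2 s h h' a a' (c + 2 * i0 + s) E μ M lam (by omega) hμ1 hμM l0 l1 (by omega)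
      (by omega)).trans ?_)
  · refine piece_le ΛX hX ΛY hY (3 * t) (3 * t + i0) _ _ fun P P' => ?_
    by_cases hc : (HT hX P = h ∧ th ≤ pp ΛX hX zX (3 * t) (HT hX P) (Dp zX P)) ∧ HT hY P' = h' ∧
        Ev hX zX sX hY zY sY P P' x a a' (c + 2 * i0 + s) (c + 3 * t - s)
    · rw [if_pos hc, mul_one]
      obtain ⟨⟨c1, c2⟩, c3, c4, c5⟩ := hc
      rw [if_pos]
      refine ⟨c1, ?_, c3, c4, fun g k h1 h2 => (c5 g k h1 h2).1⟩
      rw [hE, Set.Finite.mem_toFinset]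
      rw [c1] at c2
      exact c2
    · rw [if_neg hc, mul_zero, mul_zero]; exact zero_le
  · rw [price]
    refine mul_le_mul_right (add_le_add (add_le_add le_rfl
      (ENNReal.div_le_div_right (mul_le_mul_left ?_ _) _)) le_rfl) _
    calc M * E.card = J * (i0 + 1 : ℕ) * (E.card * th) := by rw [hM]; ring
      _ ≤ J * (i0 + 1 : ℕ) * 1 := by gcongr
      _ = _ := mul_one _

open Classical in
lemma win3 (h1X : ∀ b, 1 ≤ hX b) (hΛX : ∑' b, ΛX b = 1) (h1Y : ∀ b, 1 ≤ hY b)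
    (hΛY : ∑' b, ΛY b = 1) (H3 : H3L ΛX hX zX sX ΛY hY zY sY us C) (w : G) (c t i0 s J : ℕ)
    (hJ : J * (3 * t + i0 + i0) ≤ c + i0) (hs : s ≤ c + 3 * t)
    (lam : ℝ≥0∞) (l0 : lam ≠ 0) (l1 : lam ≠ ⊤) (th : ℝ≥0∞)
    (hfin : ∀ h, {x : G | th ≤ pp ΛY hY zY (3 * t + i0) h x}.Finite ∧
        ∀ s : Finset G, (∀ x ∈ s, th ≤ pp ΛY hY zY (3 * t + i0) h x) → (s.card : ℝ≥0∞) * th ≤ 1)
    (a h a' h' : ℕ) (hb : c + 3 * t ≤ a + h) (hb1 : a + h ≤ a' + h') :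
    Q4 ΛX hX ΛY hY c (3 * t) (c + i0) (3 * t + i0) (fun A P A' P' =>
      (if HT hX A = a ∧ (Sm ΛY hY zY (3 * t + i0) i0 th J A' ∧ HT hY A' = a') then 1 else 0) *
      (if HT hX P = h ∧ (HT hY P' = h' ∧ th ≤ pp ΛY hY zY (3 * t + i0) (HT hY P') (Dp zY P')) ∧
        Ev hX zX sX hY zY sY P P' (w + Dp zY A' - Dp zX A) a a' (c + 2 * i0 + s)
          (c + 3 * t - s) then 1 else 0))
      ≤ price us C lam J i0 s := by
  have e := Q4_tie ΛX hX zX ΛY hY zY (fun A => HT hX A = a)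
    (fun A' => Sm ΛY hY zY (3 * t + i0) i0 th J A' ∧ HT hY A' = a') w c (3 * t) (c + i0)
    (3 * t + i0)
    (fun x P P' => if HT hX P = h ∧ (HT hY P' = h' ∧
      th ≤ pp ΛY hY zY (3 * t + i0) (HT hY P') (Dp zY P')) ∧
      Ev hX zX sX hY zY sY P P' x a a' (c + 2 * i0 + s) (c + 3 * t - s) then 1 else 0)
  refine le_trans (le_of_eq (Eq.trans ?_ e)) ?_
  · congr!
  set μ : G → ℝ≥0∞ := mu ΛX hX zX ΛY hY zY (fun A => HT hX A = a)
    (fun A' => Sm ΛY hY zY (3 * t + i0) i0 th J A' ∧ HT hY A' = a') w c (c + i0) with hμ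
  set M : ℝ≥0∞ := J * ((i0 + 1 : ℕ) * th) with hM
  have hμ1 : ∑' x, μ x ≤ 1 := mu_sum ΛX hX zX ΛY hY zY h1X hΛX h1Y hΛY _ _ w c (c + i0)
  have hμM : ∀ x, μ x ≤ M := by
    intro x
    rw [hμ, mu]
    refine le_trans (PS_mono ΛX hX (F' := fun _ => M) fun A _ => ?_)
      (le_of_eq (PS_const ΛX hX h1X hΛX _ _))
    refine le_trans (PS_mono ΛY hY fun A' _ => ?_)
      (dens ΛY hY zY h1Y hΛY (3 * t + i0) i0 th J (c + i0) hJ a' (x + Dp zX A - w))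
    by_cases hc : HT hX A = a ∧ (Sm ΛY hY zY (3 * t + i0) i0 th J A' ∧ HT hY A' = a') ∧
        w + Dp zY A' - Dp zX A = x
    · rw [if_pos hc, if_pos ⟨hc.2.1.1, hc.2.1.2, by rw [← hc.2.2]; abel⟩]
    · rw [if_neg hc]; exact zero_le
  obtain ⟨hf, hcard⟩ := hfin h'
  set E : Finset G := hf.toFinset with hE
  have hEc : (E.card : ℝ≥0∞) * th ≤ 1 := hcard E fun x hx => by
    have := (Set.Finite.mem_toFinset hf).1 hx
    exact this
  refine le_trans (ENNReal.tsum_le_tsum fun x => mul_le_mul_right ?_ (μ x))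
    ((H3 s h h' a a' (c + 3 * t - s) E μ M lam hb1 hμ1 hμM l0 l1 (by omega)
      (by omega)).trans ?_)
  · refine piece_le ΛX hX ΛY hY (3 * t) (3 * t + i0) _ _ fun P P' => ?_
    by_cases hc : HT hX P = h ∧ (HT hY P' = h' ∧
        th ≤ pp ΛY hY zY (3 * t + i0) (HT hY P') (Dp zY P')) ∧
        Ev hX zX sX hY zY sY P P' x a a' (c + 2 * i0 + s) (c + 3 * t - s)
    · rw [if_pos hc, mul_one]
      obtain ⟨c1, ⟨c3, c2⟩, c4, c5⟩ := hc
      rw [if_pos]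
      refine ⟨c1, c3, ?_, c4, fun g k h1 h2 => (c5 g k h1 h2).2⟩
      rw [hE, Set.Finite.mem_toFinset]
      rw [c3] at c2
      exact c2
    · rw [if_neg hc, mul_zero, mul_zero]; exact zero_le
  · rw [price]
    refine mul_le_mul_right (add_le_add (add_le_add le_rfl
      (ENNReal.div_le_div_right (mul_le_mul_left ?_ _) _)) le_rfl) _
    calc M * E.card = J * (i0 + 1 : ℕ) * (E.card * th) := by rw [hM]; ring
      _ ≤ J * (i0 + 1 : ℕ) * 1 := by gcongr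
      _ = _ := mul_one _

end Win

end Crest.Agent.R154.Asm251
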