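import Crest.Agent.R154.AsmC_262

/-! Row 154 (helper262), ROAD 801: one window, all terms. -/

set_option autoImplicit false

namespace Crest.Agent.R154.Asm262

open scoped ENNReal
open Crest.Agent.R154.B5A Crest.Agent.R154.FP178
open Crest.Agent.R154.Bind761 (TT)

section win
variable {BX BY G : Type*} [AddCommGroup G]
  (ΛX : BX → ℝ≥0∞) (hX : BX → ℕ) (zX : BX → G) (sX : BX → Set (G × ℕ))
  (ΛY : BY → ℝ≥0∞) (hY : BY → ℕ) (zY : BY → G) (sY : BY → Set (G × ℕ))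

open Classical in
/-- one order: the pieces with `lc` -/
theorem orderX (C : ℕ → ℝ≥0∞) (us : ℕ → ℕ → ℝ≥0∞) (lc : Finset G → List BX → List BY → Prop)
    (H : HW ΛX hX zX sX ΛY hY zY sY C us lc) (hX1 : ∀ b, 1 ≤ hX b) (hΛX : ∑' b, ΛX b = 1)
    (hY1 : ∀ b, 1 ≤ hY b) (hΛY : ∑' b, ΛY b = 1) (E : ℕ → ℕ → Finset G) (c T i0 D t s : ℕ) (w : G)
    (hc : c + i0 + s ≤ D) (hT : D + t + s ≤ c + T) (M Bd lam β : ℝ≥0∞) (hM : M ≠ ⊤)
    (hE : ∀ j j', M * ((E j j').card : ℝ≥0∞) ≤ Bd) (hl0 : lam ≠ 0) (hl1 : lam ≠ ⊤)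
    (b : ℕ → G → ℝ≥0∞) (hβ : ∑' e, ∑' x, b e x ≤ β)
    (hb : (∀ e x, F ΛX hX zX c e x ≤ M + b e x) ∨ (∀ e x, F ΛY hY zY c e x ≤ M + b e x)) :
    ∑' A, ga ΛX hX c i0 A * ∑' P, ga ΛX hX T i0 P * ∑' A', ga ΛY hY c i0 A' *
        ∑' P', ga ΛY hY T i0 P' * (if lc (E (HT hX P - T) (HT hY P' - T)) P P' ∧
          PE hX zX sX hY zY sY D t P (HT hX A) P'
          (w + Dp zY A' - Dp zX A) (HT hY A') then 1 else 0)
      ≤ ((i0 + 1 : ℕ) * (i0 + 1 : ℕ)) * (((i0 + 1 : ℕ) * (i0 + 1 : ℕ)) *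
        (C (2 * i0) * (lam + Bd * us (2 * i0) s / lam + us (2 * i0) s))) + β := by
  set κ := ((i0 + 1 : ℕ) * (i0 + 1 : ℕ) : ℝ≥0∞) *
        (C (2 * i0) * (lam + Bd * us (2 * i0) s / lam + us (2 * i0) s)) with hκ
  set Ψ := Ps ΛX hX zX sX ΛY hY zY sY lc E c T i0 D t with hΨ
  have hΨ1 : ∀ e e' y, Ψ e e' y ≤ 1 := fun e e' y =>
    Ps_le ΛX hX zX sX ΛY hY zY sY hX1 hΛX hY1 hΛY lc E c T i0 D t e e' y
  have hH : ∀ e e', e ≤ i0 → e' ≤ i0 → ∀ μ : G → ℝ≥0∞, ∑' y, μ y ≤ 1 → (∀ y, μ y ≤ M) →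
      ∑' y, μ y * Ψ e e' y ≤ κ := fun e e' he he' μ hμ hμM =>
    order ΛX hX zX sX ΛY hY zY sY C us lc H E c T i0 D t s hc hT M Bd lam hM hE hl0 hl1 e e'
      he he' μ hμ hμM
  -- reorganise
  have s1 : ∑' A, ga ΛX hX c i0 A * ∑' P, ga ΛX hX T i0 P * ∑' A', ga ΛY hY c i0 A' *
        ∑' P', ga ΛY hY T i0 P' * (if lc (E (HT hX P - T) (HT hY P' - T)) P P' ∧
          PE hX zX sX hY zY sY D t P (HT hX A) P'
          (w + Dp zY A' - Dp zX A) (HT hY A') then 1 else 0)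
      = ∑' A, ga ΛX hX c i0 A * ∑' A', ga ΛY hY c i0 A' *
        Ψ (HT hX A - c) (HT hY A' - c) (w + Dp zY A' - Dp zX A) := by
    refine tsum_congr fun A => ?_
    by_cases hA : fp hX c A ∧ HT hX A ≤ c + i0
    · have hA0 := le_HT_of_fp hX hA.1
      congr 1
      calc ∑' P, ga ΛX hX T i0 P * ∑' A', ga ΛY hY c i0 A' *
        ∑' P', ga ΛY hY T i0 P' * (if lc (E (HT hX P - T) (HT hY P' - T)) P P' ∧
          PE hX zX sX hY zY sY D t P (HT hX A) P'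
          (w + Dp zY A' - Dp zX A) (HT hY A') then 1 else 0)
          = ∑' P, ∑' A', ga ΛY hY c i0 A' * (ga ΛX hX T i0 P *
        ∑' P', ga ΛY hY T i0 P' * (if lc (E (HT hX P - T) (HT hY P' - T)) P P' ∧
          PE hX zX sX hY zY sY D t P (HT hX A) P'
          (w + Dp zY A' - Dp zX A) (HT hY A') then 1 else 0)) := by
            refine tsum_congr fun P => ?_
            rw [← ENNReal.tsum_mul_left]
            refine tsum_congr fun A' => ?_
            ring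
        _ = ∑' A', ∑' P, ga ΛY hY c i0 A' * (ga ΛX hX T i0 P *
        ∑' P', ga ΛY hY T i0 P' * (if lc (E (HT hX P - T) (HT hY P' - T)) P P' ∧
          PE hX zX sX hY zY sY D t P (HT hX A) P'
          (w + Dp zY A' - Dp zX A) (HT hY A') then 1 else 0)) := ENNReal.tsum_comm
        _ = _ := by
            refine tsum_congr fun A' => ?_
            rw [ENNReal.tsum_mul_left]
            by_cases hA' : fp hY c A' ∧ HT hY A' ≤ c + i0
            · have hA0' := le_HT_of_fp hY hA'.1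
              rw [hΨ, Ps, show c + (HT hX A - c) = HT hX A by omega,
                show c + (HT hY A' - c) = HT hY A' by omega]
            · have : ga ΛY hY c i0 A' = 0 := by unfold ga; exact if_neg hA'
              rw [this, zero_mul, zero_mul]
    · have : ga ΛX hX c i0 A = 0 := by unfold ga; exact if_neg hA
      rw [this, zero_mul, zero_mul]
  rw [s1]
  rcases hb with hb | hb
  · have s2 : ∑' A, ga ΛX hX c i0 A * ∑' A', ga ΛY hY c i0 A' *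
        Ψ (HT hX A - c) (HT hY A' - c) (w + Dp zY A' - Dp zX A)
        = ∑' e, ∑' x, F ΛX hX zX c e x * (if e ≤ i0 then ∑' e', ∑' x', F ΛY hY zY c e' x' *
          (if e' ≤ i0 then Ψ e e' (Equiv.subLeft (w + x') x) else 0) else 0) := by
      rw [← sum_ga ΛX hX zX c i0 (fun e x => ∑' e', ∑' x', F ΛY hY zY c e' x' *
          (if e' ≤ i0 then Ψ e e' (Equiv.subLeft (w + x') x) else 0))]
      refine tsum_congr fun A => ?_
      congr 1
      rw [← sum_ga ΛY hY zY c i0 (fun e' x' => Ψ (HT hX A - c) e'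
        (Equiv.subLeft (w + x') (Dp zX A)))]
      rfl
    rw [s2]
    exact part (F ΛX hX zX c) (F ΛY hY zY c) (sum_F_one ΛX hX zX hX1 hΛX c).le
      (sum_F_one ΛY hY zY hY1 hΛY c).le M β κ b hb hβ i0 Ψ hΨ1 (fun x' => Equiv.subLeft (w + x')) hH
  · have s2 : ∑' A, ga ΛX hX c i0 A * ∑' A', ga ΛY hY c i0 A' *
        Ψ (HT hX A - c) (HT hY A' - c) (w + Dp zY A' - Dp zX A)
        = ∑' e', ∑' x', F ΛY hY zY c e' x' * (if e' ≤ i0 then ∑' e, ∑' x, F ΛX hX zX c e x *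
          (if e ≤ i0 then Ψ e e' (((Equiv.addLeft w).trans (Equiv.subRight x)) x') else 0)
            else 0) := by
      rw [← sum_ga ΛY hY zY c i0 (fun e' x' => ∑' e, ∑' x, F ΛX hX zX c e x *
          (if e ≤ i0 then Ψ e e' (((Equiv.addLeft w).trans (Equiv.subRight x)) x') else 0))]
      calc ∑' A, ga ΛX hX c i0 A * ∑' A', ga ΛY hY c i0 A' *
            Ψ (HT hX A - c) (HT hY A' - c) (w + Dp zY A' - Dp zX A)
          = ∑' A', ∑' A, ga ΛY hY c i0 A' * (ga ΛX hX c i0 A *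
            Ψ (HT hX A - c) (HT hY A' - c) (w + Dp zY A' - Dp zX A)) := by
            rw [ENNReal.tsum_comm]
            refine tsum_congr fun A => ?_
            rw [← ENNReal.tsum_mul_left]
            refine tsum_congr fun A' => ?_
            ring
        _ = _ := by
            refine tsum_congr fun A' => ?_
            rw [ENNReal.tsum_mul_left]
            congr 1
            rw [← sum_ga ΛX hX zX c i0 (fun e x => Ψ e (HT hY A' - c)
              (((Equiv.addLeft w).trans (Equiv.subRight x)) (Dp zY A')))]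
            rfl
    rw [s2]
    exact part (F ΛY hY zY c) (F ΛX hX zX c) (sum_F_one ΛY hY zY hY1 hΛY c).le
      (sum_F_one ΛX hX zX hX1 hΛX c).le M β κ b hb hβ i0 (fun e' e y => Ψ e e' y)
      (fun e' e y => hΨ1 e e' y) (fun x => (Equiv.addLeft w).trans (Equiv.subRight x))
      (fun e' e he' he μ hμ hμM => hH e e' he he' μ hμ hμM)

open Classical in
/-- both pieces nonlocal -/
lemma nonloc (hX1 : ∀ b, 1 ≤ hX b) (hΛX : ∑' b, ΛX b = 1)
    (hY1 : ∀ b, 1 ≤ hY b) (hΛY : ∑' b, ΛY b = 1) (EX EY : ℕ → Finset G) (c T i0 : ℕ) (u : ℝ≥0∞)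
    (huX : ∑' P, (if fp hX T P ∧ Dp zX P ∉ EX (HT hX P - T) then LW ΛX P else 0) ≤ u)
    (huY : ∑' P, (if fp hY T P ∧ Dp zY P ∉ EY (HT hY P - T) then LW ΛY P else 0) ≤ u) :
    ∑' A, ga ΛX hX c i0 A * ∑' P, ga ΛX hX T i0 P * ∑' A', ga ΛY hY c i0 A' *
        ∑' P', ga ΛY hY T i0 P' * (if Dp zX P ∉ EX (HT hX P - T) ∧
          Dp zY P' ∉ EY (HT hY P' - T) then 1 else 0) ≤ u ^ 2 := by
  have hYs : ∑' P', ga ΛY hY T i0 P' * (if Dp zY P' ∉ EY (HT hY P' - T) then 1 else 0) ≤ u := by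
    refine le_trans (ENNReal.tsum_le_tsum fun P' => ?_) huY
    unfold ga
    by_cases h : fp hY T P' <;> by_cases h2 : HT hY P' ≤ T + i0 <;>
      by_cases h3 : Dp zY P' ∉ EY (HT hY P' - T) <;> simp [h, h2, h3]
  have hXs : ∑' P, ga ΛX hX T i0 P * (if Dp zX P ∉ EX (HT hX P - T) then 1 else 0) ≤ u := by
    refine le_trans (ENNReal.tsum_le_tsum fun P => ?_) huX
    unfold ga
    by_cases h : fp hX T P <;> by_cases h2 : HT hX P ≤ T + i0 <;>
      by_cases h3 : Dp zX P ∉ EX (HT hX P - T) <;> simp [h, h2, h3]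
  have e1 : ∀ (P : List BX) (P' : List BY), (if Dp zX P ∉ EX (HT hX P - T) ∧
      Dp zY P' ∉ EY (HT hY P' - T) then (1:ℝ≥0∞) else 0)
      = (if Dp zX P ∉ EX (HT hX P - T) then 1 else 0) *
        (if Dp zY P' ∉ EY (HT hY P' - T) then 1 else 0) := by
    intro P P'
    by_cases h3 : Dp zX P ∉ EX (HT hX P - T) <;>
      by_cases h4 : Dp zY P' ∉ EY (HT hY P' - T) <;> simp [h3, h4]
  calc _ = ∑' A, ga ΛX hX c i0 A * ∑' P, ga ΛX hX T i0 P *
        ((if Dp zX P ∉ EX (HT hX P - T) then 1 else 0) * ∑' A', ga ΛY hY c i0 A' *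
        ∑' P', ga ΛY hY T i0 P' * (if Dp zY P' ∉ EY (HT hY P' - T) then 1 else 0)) := by
        refine tsum_congr fun A => ?_
        congr 1
        refine tsum_congr fun P => ?_
        congr 1
        rw [← ENNReal.tsum_mul_left]
        refine tsum_congr fun A' => ?_
        rw [← mul_assoc, mul_comm _ (ga ΛY hY c i0 A'), mul_assoc]
        congr 1
        rw [← ENNReal.tsum_mul_left]
        refine tsum_congr fun P' => ?_
        rw [e1]; ring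
    _ ≤ ∑' A, ga ΛX hX c i0 A * ∑' P, ga ΛX hX T i0 P *
        ((if Dp zX P ∉ EX (HT hX P - T) then 1 else 0) * u) := by
        gcongr with A P
        calc _ ≤ ∑' A', ga ΛY hY c i0 A' * u := by gcongr
          _ = (∑' A', ga ΛY hY c i0 A') * u := ENNReal.tsum_mul_right
          _ ≤ 1 * u := by gcongr; exact ga_le ΛY hY hY1 hΛY c i0
          _ = u := one_mul u
    _ = ∑' A, ga ΛX hX c i0 A * ((∑' P, ga ΛX hX T i0 P *
        (if Dp zX P ∉ EX (HT hX P - T) then 1 else 0)) * u) := by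
        refine tsum_congr fun A => ?_
        congr 1
        rw [← ENNReal.tsum_mul_right]
        refine tsum_congr fun P => ?_
        ring
    _ ≤ ∑' A, ga ΛX hX c i0 A * (u * u) := by gcongr
    _ = (∑' A, ga ΛX hX c i0 A) * (u * u) := ENNReal.tsum_mul_right
    _ ≤ 1 * (u * u) := by gcongr; exact ga_le ΛX hX hX1 hΛX c i0
    _ = u ^ 2 := by rw [one_mul, sq]

open Classical in
/-- **ONE WINDOW** -/
theorem window (C : ℕ → ℝ≥0∞) (us : ℕ → ℕ → ℝ≥0∞)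
    (H2 : HW ΛX hX zX sX ΛY hY zY sY C us (fun E L _ => Dp zX L ∈ E))
    (H3 : HW ΛX hX zX sX ΛY hY zY sY C us (fun E _ L' => Dp zY L' ∈ E))
    (hX1 : ∀ b, 1 ≤ hX b) (hΛX : ∑' b, ΛX b = 1)
    (hY1 : ∀ b, 1 ≤ hY b) (hΛY : ∑' b, ΛY b = 1)
    (hsX : ∀ b p, p ∈ sX b → 1 ≤ p.2 ∧ p.2 ≤ hX b)
    (hsY : ∀ b p, p ∈ sY b → 1 ≤ p.2 ∧ p.2 ≤ hY b)
    (i0 s : ℕ) (u δ lam : ℝ≥0∞) (hu0 : u ≠ 0) (hu1 : u < 1) (hl0 : lam ≠ 0) (hl1 : lam ≠ ⊤)
    (hδX : ∀ a, ∑' L, (if fp hX a L ∧ a + i0 < HT hX L then LW ΛX L else 0) ≤ δ)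
    (hδY : ∀ a, ∑' L, (if fp hY a L ∧ a + i0 < HT hY L then LW ΛY L else 0) ≤ δ)
    (T : ℕ) : ∀ (D t S c n J : ℕ) (w : G),
    c + i0 + s ≤ D → D + t + s ≤ c + T → c + T + 2 * i0 ≤ D + t + S → c + T + i0 ≤ n →
    J * (T + i0) ≤ c →
    ∑' LX, ∑' LY, (if HT hX LX = n ∧ HT hY LY = n ∧ EV hX zX sX hY zY sY D t S w LX LY then
      LW ΛX LX * LW ΛY LY else 0) ≤ 4 * δ + (u ^ 2 +
      (2 * (((i0 + 1 : ℕ) * (i0 + 1 : ℕ)) * (((i0 + 1 : ℕ) * (i0 + 1 : ℕ)) *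
        (C (2 * i0) * (lam + ((i0 + 1 : ℕ) / u) * us (2 * i0) s / lam + us (2 * i0) s))))
        + 2 * ((1 - u) ^ J + J * δ))) := by
  obtain ⟨MX, EX, hMX, hEX, hnX, hdX⟩ := loc ΛX hX zX hX1 hΛX T i0 u δ hu0 hu1 (hδX T)
  obtain ⟨MY, EY, hMY, hEY, hnY, hdY⟩ := loc ΛY hY zY hY1 hΛY T i0 u δ hu0 hu1 (hδY T)
  intro D t S c n J w hc hT hS hn hJ
  obtain ⟨bX, hbX, hbX'⟩ := hdX J c hJ
  obtain ⟨bY, hbY, hbY'⟩ := hdY J c hJ
  refine (cut2 ΛX hX zX sX ΛY hY zY sY hX1 hΛX hY1 hΛY hsX hsY D t S c T i0 n w (by omega)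
    (by omega) hS hn δ hδX hδY).trans ?_
  gcongr
  have o2 := orderX ΛX hX zX sX ΛY hY zY sY C us (fun E L _ => Dp zX L ∈ E) H2 hX1 hΛX hY1 hΛY
    (fun j _ => EX j) c T i0 D t s w hc hT MX ((i0 + 1 : ℕ) / u) lam ((1 - u) ^ J + J * δ) hMX
    (fun j _ => hEX j) hl0 hl1 bX hbX (Or.inl hbX')
  have o3 := orderX ΛX hX zX sX ΛY hY zY sY C us (fun E _ L' => Dp zY L' ∈ E) H3 hX1 hΛX hY1 hΛY
    (fun _ j' => EY j') c T i0 D t s w hc hT MY ((i0 + 1 : ℕ) / u) lam ((1 - u) ^ J + J * δ) hMY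
    (fun _ j' => hEY j') hl0 hl1 bY hbY (Or.inr hbY')
  have o1 := nonloc ΛX hX zX ΛY hY zY hX1 hΛX hY1 hΛY EX EY c T i0 u hnX hnY
  refine le_trans ?_ (add_le_add o1 (add_le_add o2 o3) |>.trans ?_)
  · rw [← ENNReal.tsum_add, ← ENNReal.tsum_add]
    refine ENNReal.tsum_le_tsum fun A => ?_
    rw [← mul_add, ← mul_add, ← ENNReal.tsum_add, ← ENNReal.tsum_add]
    gcongr with P
    rw [← mul_add, ← mul_add, ← ENNReal.tsum_add, ← ENNReal.tsum_add]
    gcongr with A'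
    rw [← mul_add, ← mul_add, ← ENNReal.tsum_add, ← ENNReal.tsum_add]
    gcongr with P'
    rw [← mul_add, ← mul_add]
    gcongr
    by_cases h1 : PE hX zX sX hY zY sY D t P (HT hX A) P' (w + Dp zY A' - Dp zX A) (HT hY A')
    · by_cases h2 : Dp zX P ∈ EX (HT hX P - T)
      · simp [h1, h2]
      · by_cases h3 : Dp zY P' ∈ EY (HT hY P' - T)
        · simp [h1, h2, h3]
        · simp [h1, h2, h3]
    · simp [h1]
  · apply le_of_eq
    ring

end win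

end Crest.Agent.R154.Asm262
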