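import Crest.Agent.R154.AsmC_307

set_option autoImplicit false

namespace Crest.Agent.R154.Asm307

open scoped ENNReal
open Crest.Agent.R154.B5A
open Crest.Agent.R154.Bind12 (TT)

variable {BX BY G : Type*} [AddCommGroup G] (ΛX : BX → ℝ≥0∞) (ΛY : BY → ℝ≥0∞)
  (hX : BX → ℕ) (hY : BY → ℕ) (zX : BX → G) (zY : BY → G)
  (sX : BX → Set (G × ℕ)) (sY : BY → Set (G × ℕ))

/-- number -/
noncomputable def QQ (C : ℝ≥0∞) (us : ℕ → ℝ≥0∞) (N lam : ℝ≥0∞) (i0 s : ℕ) : ℝ≥0∞ :=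
  ((i0 + 1 : ℕ) : ℝ≥0∞) * (((i0 + 1 : ℕ) : ℝ≥0∞) * (C * (lam + N * us s / lam + us s)))

lemma dsum (T i0 : ℕ) (c : ℝ≥0∞) : ∑ _k ∈ Finset.Icc T (T + i0), ∑ _k' ∈ Finset.Icc T (T + i0), c
    = ((i0 + 1 : ℕ) : ℝ≥0∞) * (((i0 + 1 : ℕ) : ℝ≥0∞) * c) := by
  simp only [Finset.sum_const, nsmul_eq_mul, Nat.card_Icc]
  rw [show T + i0 + 1 - T = i0 + 1 by omega]

open Classical in
lemma Hψ2 (h1X : ∀ b, 1 ≤ hX b) (hΛX : ∑' b, ΛX b = 1) (C : ℝ≥0∞) (us : ℕ → ℝ≥0∞)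
    (hH2 : H2 ΛX ΛY hX hY zX zY sX sY C us) (a T i0 s lo hi : ℕ) (th Gd N lam : ℝ≥0∞) (hth : th ≠ 0)
    (hGN : ∀ c : ℝ≥0∞, th * c ≤ 1 → Gd * c ≤ N) (hl0 : lam ≠ 0) (hl1 : lam ≠ ⊤)
    (hlo : lo = a + 3 * i0 + s) (h h' : ℕ) (hh : a ≤ h) (hh2 : h ≤ a + i0)
    (hh' : a + 2 * i0 ≤ h') (hh2' : h' ≤ a + 2 * i0 + i0) (μ : G → ℝ≥0∞) (hμ1 : ∑' x, μ x ≤ 1)
    (hμ2 : ∀ x, μ x ≤ Gd) :
    ∑' x, μ x * Ψ2 ΛX ΛY hX hY zX zY sX sY th T i0 lo hi h h' x ≤ QQ C us N lam i0 s := by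
  choose E hE hEc using fun k => fin_set ΛX hX h1X hΛX zX T k th hth
  set F : ℕ → ℕ → G → ℝ≥0∞ := fun k k' x => ∑' L : List BX, ∑' L' : List BY,
      (if HT hX L = k ∧ Dp zX L ∈ E k ∧ HT hY L' = k' ∧
          (∃ g k, Cs hX hY zX zY sX sY L L' x h h' (g, k)) ∧
          (∀ g k, Cs hX hY zX zY sX sY L L' x h h' (g, k) → lo ≤ k) then LW ΛX L * LW ΛY L' else 0) with hF
  have hpt : ∀ x, Ψ2 ΛX ΛY hX hY zX zY sX sY th T i0 lo hi h h' x ≤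
      ∑ k ∈ Finset.Icc T (T + i0), ∑ k' ∈ Finset.Icc T (T + i0), F k k' x := by
    intro x
    have e1 : ∑ k ∈ Finset.Icc T (T + i0), ∑ k' ∈ Finset.Icc T (T + i0), F k k' x
        = ∑' L : List BX, ∑' L' : List BY, ∑ k ∈ Finset.Icc T (T + i0), ∑ k' ∈ Finset.Icc T (T + i0),
          (if HT hX L = k ∧ Dp zX L ∈ E k ∧ HT hY L' = k' ∧
          (∃ g k, Cs hX hY zX zY sX sY L L' x h h' (g, k)) ∧
          (∀ g k, Cs hX hY zX zY sX sY L L' x h h' (g, k) → lo ≤ k) then LW ΛX L * LW ΛY L' else 0) := by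
      simp only [hF]
      simp only [Summable.tsum_finsetSum (fun _ _ => ENNReal.summable)]
    rw [e1, Ψ2]
    refine ENNReal.tsum_le_tsum fun P => ENNReal.tsum_le_tsum fun P' => ?_
    by_cases hc : (FP hX P T ∧ HT hX P ≤ T + i0 ∧ ThL ΛX hX zX T th P) ∧ (FP hY P' T ∧ HT hY P' ≤ T + i0) ∧
      EvP hX hY zX zY sX sY lo hi P P' x h h'
    · rw [if_pos hc]
      obtain ⟨⟨c1, c2, c3⟩, ⟨c4, c5⟩, ⟨q, hq⟩, c7⟩ := hc
      have l1 := fp_le _ _ _ c1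
      have l2 := fp_le _ _ _ c4
      refine le_trans (le_of_eq ?_) (Finset.single_le_sum (f := fun k => ∑ k' ∈ Finset.Icc T (T + i0),
          (if HT hX P = k ∧ Dp zX P ∈ E k ∧ HT hY P' = k' ∧
          (∃ g k, Cs hX hY zX zY sX sY P P' x h h' (g, k)) ∧
          (∀ g k, Cs hX hY zX zY sX sY P P' x h h' (g, k) → lo ≤ k) then LW ΛX P * LW ΛY P' else 0))
          (fun _ _ => zero_le') (Finset.mem_Icc.2 ⟨l1, c2⟩))
      rw [Finset.sum_eq_single (HT hY P')]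
      · rw [if_pos]
        exact ⟨rfl, (hE _ _).2 c3, rfl, ⟨q.1, q.2, hq⟩, fun g k hk => (c7 (g, k) hk).1⟩
      · intro b _ hb
        rw [if_neg]
        rintro ⟨_, _, h3, _⟩
        exact hb h3.symm
      · intro hnot
        exact absurd (Finset.mem_Icc.2 ⟨l2, c5⟩) hnot
    · rw [if_neg hc]; exact zero_le'
  calc _ ≤ ∑' x, μ x * ∑ k ∈ Finset.Icc T (T + i0), ∑ k' ∈ Finset.Icc T (T + i0), F k k' x := by
        gcongr with x; exact hpt x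
    _ = ∑ k ∈ Finset.Icc T (T + i0), ∑ k' ∈ Finset.Icc T (T + i0), ∑' x, μ x * F k k' x := by
        simp only [Finset.mul_sum]
        simp only [Summable.tsum_finsetSum (fun _ _ => ENNReal.summable)]
    _ ≤ ∑ k ∈ Finset.Icc T (T + i0), ∑ k' ∈ Finset.Icc T (T + i0), C * (lam + N * us s / lam + us s) := by
        refine Finset.sum_le_sum fun k _ => Finset.sum_le_sum fun k' _ => ?_
        refine le_trans (hH2 s k k' h h' lo (E k) μ Gd lam hμ1 hμ2 hl0 hl1 (by omega) (by omega) (by omega)) ?_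
        gcongr
        exact hGN _ (hEc k)
    _ = _ := dsum T i0 _

open Classical in
lemma Hψ3 (h1Y : ∀ b, 1 ≤ hY b) (hΛY : ∑' b, ΛY b = 1) (C : ℝ≥0∞) (us : ℕ → ℝ≥0∞)
    (hH3 : H3 ΛX ΛY hX hY zX zY sX sY C us) (a T i0 s lo hi : ℕ) (th Gd N lam : ℝ≥0∞) (hth : th ≠ 0)
    (hGN : ∀ c : ℝ≥0∞, th * c ≤ 1 → Gd * c ≤ N) (hl0 : lam ≠ 0) (hl1 : lam ≠ ⊤)
    (hhi : hi + s = a + T) (h h' : ℕ) (hh : a ≤ h) (hh2 : h ≤ a + i0)
    (hh' : a + 2 * i0 ≤ h') (hh2' : h' ≤ a + 2 * i0 + i0) (μ : G → ℝ≥0∞) (hμ1 : ∑' x, μ x ≤ 1)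
    (hμ2 : ∀ x, μ x ≤ Gd) :
    ∑' x, μ x * Ψ3 ΛX ΛY hX hY zX zY sX sY th T i0 lo hi h h' x ≤ QQ C us N lam i0 s := by
  choose E hE hEc using fun k => fin_set ΛY hY h1Y hΛY zY T k th hth
  set F : ℕ → ℕ → G → ℝ≥0∞ := fun k k' x => ∑' L : List BX, ∑' L' : List BY,
      (if HT hX L = k ∧ HT hY L' = k' ∧ Dp zY L' ∈ E k' ∧
          (∃ g k, Cs hX hY zX zY sX sY L L' x h h' (g, k)) ∧
          (∀ g k, Cs hX hY zX zY sX sY L L' x h h' (g, k) → k ≤ hi) then LW ΛX L * LW ΛY L' else 0) with hF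
  have hpt : ∀ x, Ψ3 ΛX ΛY hX hY zX zY sX sY th T i0 lo hi h h' x ≤
      ∑ k ∈ Finset.Icc T (T + i0), ∑ k' ∈ Finset.Icc T (T + i0), F k k' x := by
    intro x
    have e1 : ∑ k ∈ Finset.Icc T (T + i0), ∑ k' ∈ Finset.Icc T (T + i0), F k k' x
        = ∑' L : List BX, ∑' L' : List BY, ∑ k ∈ Finset.Icc T (T + i0), ∑ k' ∈ Finset.Icc T (T + i0),
          (if HT hX L = k ∧ HT hY L' = k' ∧ Dp zY L' ∈ E k' ∧
          (∃ g k, Cs hX hY zX zY sX sY L L' x h h' (g, k)) ∧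
          (∀ g k, Cs hX hY zX zY sX sY L L' x h h' (g, k) → k ≤ hi) then LW ΛX L * LW ΛY L' else 0) := by
      simp only [hF]
      simp only [Summable.tsum_finsetSum (fun _ _ => ENNReal.summable)]
    rw [e1, Ψ3]
    refine ENNReal.tsum_le_tsum fun P => ENNReal.tsum_le_tsum fun P' => ?_
    by_cases hc : (FP hX P T ∧ HT hX P ≤ T + i0) ∧ (FP hY P' T ∧ HT hY P' ≤ T + i0 ∧ ThL ΛY hY zY T th P') ∧
      EvP hX hY zX zY sX sY lo hi P P' x h h'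
    · rw [if_pos hc]
      obtain ⟨⟨c1, c2⟩, ⟨c4, c5, c6⟩, ⟨q, hq⟩, c7⟩ := hc
      have l1 := fp_le _ _ _ c1
      have l2 := fp_le _ _ _ c4
      refine le_trans (le_of_eq ?_) (Finset.single_le_sum (f := fun k => ∑ k' ∈ Finset.Icc T (T + i0),
          (if HT hX P = k ∧ HT hY P' = k' ∧ Dp zY P' ∈ E k' ∧
          (∃ g k, Cs hX hY zX zY sX sY P P' x h h' (g, k)) ∧
          (∀ g k, Cs hX hY zX zY sX sY P P' x h h' (g, k) → k ≤ hi) then LW ΛX P * LW ΛY P' else 0))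
          (fun _ _ => zero_le') (Finset.mem_Icc.2 ⟨l1, c2⟩))
      rw [Finset.sum_eq_single (HT hY P')]
      · rw [if_pos]
        exact ⟨rfl, rfl, (hE _ _).2 c6, ⟨q.1, q.2, hq⟩, fun g k hk => (c7 (g, k) hk).2⟩
      · intro b _ hb
        rw [if_neg]
        rintro ⟨_, h3, _⟩
        exact hb h3.symm
      · intro hnot
        exact absurd (Finset.mem_Icc.2 ⟨l2, c5⟩) hnot
    · rw [if_neg hc]; exact zero_le'
  calc _ ≤ ∑' x, μ x * ∑ k ∈ Finset.Icc T (T + i0), ∑ k' ∈ Finset.Icc T (T + i0), F k k' x := by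
        gcongr with x; exact hpt x
    _ = ∑ k ∈ Finset.Icc T (T + i0), ∑ k' ∈ Finset.Icc T (T + i0), ∑' x, μ x * F k k' x := by
        simp only [Finset.mul_sum]
        simp only [Summable.tsum_finsetSum (fun _ _ => ENNReal.summable)]
    _ ≤ ∑ k ∈ Finset.Icc T (T + i0), ∑ k' ∈ Finset.Icc T (T + i0), C * (lam + N * us s / lam + us s) := by
        refine Finset.sum_le_sum fun k hk => Finset.sum_le_sum fun k' hk' => ?_
        have m1 := Finset.mem_Icc.1 hk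
        have m2 := Finset.mem_Icc.1 hk'
        refine le_trans (hH3 s k k' h h' hi (E k') μ Gd lam hμ1 hμ2 hl0 hl1 (by omega) (by omega) (by omega)) ?_
        gcongr
        exact hGN _ (hEc k')
    _ = _ := dsum T i0 _

lemma Ψ2_le (h1X : ∀ b, 1 ≤ hX b) (hΛX : ∑' b, ΛX b = 1) (h1Y : ∀ b, 1 ≤ hY b) (hΛY : ∑' b, ΛY b = 1)
    (th : ℝ≥0∞) (T i0 lo hi h h' : ℕ) (x : G) : Ψ2 ΛX ΛY hX hY zX zY sX sY th T i0 lo hi h h' x ≤ 1 := by
  classical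
  calc _ ≤ ∑' P : List BX, ∑' P' : List BY, (if FP hX P T then LW ΛX P else 0) * (if FP hY P' T then LW ΛY P' else 0) := by
        refine ENNReal.tsum_le_tsum fun P => ENNReal.tsum_le_tsum fun P' => ?_
        by_cases hc : (FP hX P T ∧ HT hX P ≤ T + i0 ∧ ThL ΛX hX zX T th P) ∧ (FP hY P' T ∧ HT hY P' ≤ T + i0) ∧
          EvP hX hY zX zY sX sY lo hi P P' x h h'
        · rw [if_pos hc, if_pos hc.1.1, if_pos hc.2.1.1]
        · rw [if_neg hc]; exact zero_le'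
    _ = 1 := by
        simp only [ENNReal.tsum_mul_left, ENNReal.tsum_mul_right]
        rw [fp_mass ΛX hX h1X hΛX, fp_mass ΛY hY h1Y hΛY, one_mul]

lemma Ψ3_le (h1X : ∀ b, 1 ≤ hX b) (hΛX : ∑' b, ΛX b = 1) (h1Y : ∀ b, 1 ≤ hY b) (hΛY : ∑' b, ΛY b = 1)
    (th : ℝ≥0∞) (T i0 lo hi h h' : ℕ) (x : G) : Ψ3 ΛX ΛY hX hY zX zY sX sY th T i0 lo hi h h' x ≤ 1 := by
  classical
  calc _ ≤ ∑' P : List BX, ∑' P' : List BY, (if FP hX P T then LW ΛX P else 0) * (if FP hY P' T then LW ΛY P' else 0) := by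
        refine ENNReal.tsum_le_tsum fun P => ENNReal.tsum_le_tsum fun P' => ?_
        by_cases hc : (FP hX P T ∧ HT hX P ≤ T + i0) ∧ (FP hY P' T ∧ HT hY P' ≤ T + i0 ∧ ThL ΛY hY zY T th P') ∧
          EvP hX hY zX zY sX sY lo hi P P' x h h'
        · rw [if_pos hc, if_pos hc.1.1, if_pos hc.2.1.1]
        · rw [if_neg hc]; exact zero_le'
    _ = 1 := by
        simp only [ENNReal.tsum_mul_left, ENNReal.tsum_mul_right]
        rw [fp_mass ΛX hX h1X hΛX, fp_mass ΛY hY h1Y hΛY, one_mul]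

open Classical in
/-- the two tops summed -/
lemma tops (h1X : ∀ b, 1 ≤ hX b) (hΛX : ∑' b, ΛX b = 1) (h1Y : ∀ b, 1 ≤ hY b) (hΛY : ∑' b, ΛY b = 1)
    (C : ℝ≥0∞) (us : ℕ → ℝ≥0∞)
    (hH2 : H2 ΛX ΛY hX hY zX zY sX sY C us) (hH3 : H3 ΛX ΛY hX hY zX zY sX sY C us)
    (w : G) (a T i0 s lo hi : ℕ) (thX thY GX GY N lam u βX βY : ℝ≥0∞) (hthX : thX ≠ 0) (hthY : thY ≠ 0)
    (hGNX : ∀ c : ℝ≥0∞, thX * c ≤ 1 → GX * c ≤ N) (hGNY : ∀ c : ℝ≥0∞, thY * c ≤ 1 → GY * c ≤ N)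
    (hl0 : lam ≠ 0) (hl1 : lam ≠ ⊤)
    (hlo : lo = a + 3 * i0 + s) (hhi : hi + s = a + T)
    (huX : ∑' h, ∑' g, (if V ΛX hX zX T h g < thX then V ΛX hX zX T h g else 0) ≤ u)
    (huY : ∑' h, ∑' g, (if V ΛY hY zY T h g < thY then V ΛY hY zY T h g else 0) ≤ u)
    (hgbX : ∃ b : ℕ → G → ℝ≥0∞, (∀ h g, V ΛX hX zX a h g ≤ GX + b h g) ∧ ∑' h, ∑' g, b h g ≤ βX)
    (hgbY : ∃ b : ℕ → G → ℝ≥0∞, (∀ h g, V ΛY hY zY (a + 2 * i0) h g ≤ GY + b h g) ∧ ∑' h, ∑' g, b h g ≤ βY) :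
    ∑' A : List BX, ∑' A' : List BY, (if (FP hX A a ∧ HT hX A ≤ a + i0) ∧ (FP hY A' (a + 2 * i0) ∧ HT hY A' ≤ a + 2 * i0 + i0)
      then LW ΛX A * LW ΛY A' * Ψt ΛX ΛY hX hY zX zY sX sY T i0 lo hi (HT hX A) (HT hY A') (w + Dp zY A' - Dp zX A) else 0)
    ≤ ((i0 + 1 : ℕ) * QQ C us N lam i0 s + βX) + ((i0 + 1 : ℕ) * QQ C us N lam i0 s + βY) + u * u := by
  set GA : List BX → Prop := fun A => FP hX A a ∧ HT hX A ≤ a + i0 with hGA
  set GB : List BY → Prop := fun A' => FP hY A' (a + 2 * i0) ∧ HT hY A' ≤ a + 2 * i0 + i0 with hGB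
  have hmA : ∑' A : List BX, (if GA A then LW ΛX A else 0) ≤ 1 := by
    rw [← fp_mass ΛX hX h1X hΛX a]
    refine ENNReal.tsum_le_tsum fun A => ?_
    by_cases hc : GA A
    · rw [if_pos hc, if_pos hc.1]
    · rw [if_neg hc]; exact zero_le'
  have hmB : ∑' A : List BY, (if GB A then LW ΛY A else 0) ≤ 1 := by
    rw [← fp_mass ΛY hY h1Y hΛY (a + 2 * i0)]
    refine ENNReal.tsum_le_tsum fun A => ?_
    by_cases hc : GB A
    · rw [if_pos hc, if_pos hc.1]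
    · rw [if_neg hc]; exact zero_le'
  have t2 : ∀ A' : List BY, GB A' → ∑' A : List BX, (if GA A then LW ΛX A *
      Ψ2 ΛX ΛY hX hY zX zY sX sY thX T i0 lo hi (HT hX A) (HT hY A') (w + Dp zY A' - Dp zX A) else 0)
      ≤ (i0 + 1 : ℕ) * QQ C us N lam i0 s + βX := by
    intro A' hA'
    have l1 := fp_le _ _ _ hA'.1
    have := top1 ΛX hX h1X hΛX zX a i0 GX βX (QQ C us N lam i0 s) hgbX
      (fun h x => Ψ2 ΛX ΛY hX hY zX zY sX sY thX T i0 lo hi h (HT hY A') x)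
      (fun h x => Ψ2_le ΛX ΛY hX hY zX zY sX sY h1X hΛX h1Y hΛY thX T i0 lo hi h (HT hY A') x)
      (Equiv.subLeft (w + Dp zY A'))
      (fun h hh1 hh2 μ hμ1 hμ2 => Hψ2 ΛX ΛY hX hY zX zY sX sY h1X hΛX C us hH2 a T i0 s lo hi thX GX N lam
        hthX hGNX hl0 hl1 hlo h (HT hY A') hh1 hh2 l1 hA'.2 μ hμ1 hμ2)
    simpa using this
  have t3 : ∀ A : List BX, GA A → ∑' A' : List BY, (if GB A' then LW ΛY A' *
      Ψ3 ΛX ΛY hX hY zX zY sX sY thY T i0 lo hi (HT hX A) (HT hY A') (w + Dp zY A' - Dp zX A) else 0)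
      ≤ (i0 + 1 : ℕ) * QQ C us N lam i0 s + βY := by
    intro A hA
    have l1 := fp_le _ _ _ hA.1
    have := top1 ΛY hY h1Y hΛY zY (a + 2 * i0) i0 GY βY (QQ C us N lam i0 s) hgbY
      (fun h x => Ψ3 ΛX ΛY hX hY zX zY sX sY thY T i0 lo hi (HT hX A) h x)
      (fun h x => Ψ3_le ΛX ΛY hX hY zX zY sX sY h1X hΛX h1Y hΛY thY T i0 lo hi (HT hX A) h x)
      (Equiv.addLeft (w - Dp zX A))
      (fun h hh1 hh2 μ hμ1 hμ2 => Hψ3 ΛX ΛY hX hY zX zY sX sY h1Y hΛY C us hH3 a T i0 s lo hi thY GY N lam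
        hthY hGNY hl0 hl1 hhi (HT hX A) h l1 hA.2 hh1 hh2 μ hμ1 hμ2)
    refine le_trans (le_of_eq ?_) this
    refine tsum_congr fun A' => ?_
    simp only [Equiv.coe_addLeft, hGB]
    rw [show w - Dp zX A + Dp zY A' = w + Dp zY A' - Dp zX A by abel]
  have hpt : ∀ (A : List BX) (A' : List BY), (if GA A ∧ GB A'
      then LW ΛX A * LW ΛY A' * Ψt ΛX ΛY hX hY zX zY sX sY T i0 lo hi (HT hX A) (HT hY A') (w + Dp zY A' - Dp zX A) else 0) ≤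
        ((if GB A' then LW ΛY A' * (if GA A then LW ΛX A *
          Ψ2 ΛX ΛY hX hY zX zY sX sY thX T i0 lo hi (HT hX A) (HT hY A') (w + Dp zY A' - Dp zX A) else 0) else 0)
        + (if GA A then LW ΛX A * (if GB A' then LW ΛY A' *
          Ψ3 ΛX ΛY hX hY zX zY sX sY thY T i0 lo hi (HT hX A) (HT hY A') (w + Dp zY A' - Dp zX A) else 0) else 0)
        + (if GA A then LW ΛX A else 0) * (if GB A' then LW ΛY A' else 0) * (u * u)) := by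
    intro A A'
    by_cases hc : GA A ∧ GB A'
    · simp only [if_pos hc, if_pos hc.2, if_pos hc.1]
      refine le_trans (mul_le_mul_right (Ψ_split ΛX ΛY hX hY zX zY sX sY thX thY u u T i0 lo hi _ _ _ huX huY) _) (le_of_eq ?_)
      ring
    · rw [if_neg hc]; exact zero_le'
  refine le_trans (ENNReal.tsum_le_tsum fun A => ENNReal.tsum_le_tsum fun A' => hpt A A') ?_
  simp only [ENNReal.tsum_add]
  refine add_le_add (add_le_add ?_ ?_) ?_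
  · rw [ENNReal.tsum_comm]
    calc _ ≤ ∑' A' : List BY, (if GB A' then LW ΛY A' else 0) * ((i0 + 1 : ℕ) * QQ C us N lam i0 s + βX) := by
          refine ENNReal.tsum_le_tsum fun A' => ?_
          by_cases hc : GB A'
          · simp only [hc, if_true]
            rw [ENNReal.tsum_mul_left]
            gcongr
            exact t2 A' hc
          · simp [hc]
      _ ≤ 1 * ((i0 + 1 : ℕ) * QQ C us N lam i0 s + βX) := by rw [ENNReal.tsum_mul_right]; gcongr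
      _ = _ := one_mul _
  · calc _ ≤ ∑' A : List BX, (if GA A then LW ΛX A else 0) * ((i0 + 1 : ℕ) * QQ C us N lam i0 s + βY) := by
          refine ENNReal.tsum_le_tsum fun A => ?_
          by_cases hc : GA A
          · simp only [hc, if_true]
            rw [ENNReal.tsum_mul_left]
            gcongr
            exact t3 A hc
          · simp [hc]
      _ ≤ 1 * ((i0 + 1 : ℕ) * QQ C us N lam i0 s + βY) := by rw [ENNReal.tsum_mul_right]; gcongr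
      _ = _ := one_mul _
  · simp only [ENNReal.tsum_mul_right, ENNReal.tsum_mul_left]
    calc _ ≤ 1 * 1 * (u * u) := by gcongr
      _ = _ := by rw [one_mul, one_mul]

end Crest.Agent.R154.Asm307
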