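import Crest.Agent.R154.AsmC_309

/-! Row 154, ROAD 801 (helper309): one window, all cases. -/

set_option autoImplicit false

namespace Crest.Agent.R154.Asm309

open scoped ENNReal Topology
open B5A Filter

section W

variable {BX BY G : Type*} [AddCommGroup G]
variable (ΛX : BX → ℝ≥0∞) (hX : BX → ℕ) (zX : BX → G)
variable (ΛY : BY → ℝ≥0∞) (hY : BY → ℕ) (zY : BY → G)
variable (CX : List BX → G → ℕ → Set (G × ℕ)) (CY : List BY → G → ℕ → Set (G × ℕ))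

open Classical in
/-- first passage weight with bounded overshoot -/
noncomputable def cw {B : Type*} (Λ : B → ℝ≥0∞) (ht : B → ℕ) (a i0 : ℕ) (A : List B) : ℝ≥0∞ :=
  if FP ht A a ∧ HT ht A ≤ a + i0 then LW Λ A else 0

lemma cw_mass {B : Type*} (Λ : B → ℝ≥0∞) (ht : B → ℕ) (h1 : ∀ b, 1 ≤ ht b) (hΛ : ∑' b, Λ b = 1)
    (a i0 : ℕ) : ∑' A, cw Λ ht a i0 A ≤ 1 := by
  classical
  refine le_trans (ENNReal.tsum_le_tsum fun L => ?_) (FP_mass Λ ht h1 hΛ a).le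
  unfold cw
  by_cases h : FP ht L a ∧ HT ht L ≤ a + i0
  · rw [if_pos h, if_pos h.1]
  · rw [if_neg h]; exact zero_le

open Classical in
lemma m_mass {B : Type*} (Λ : B → ℝ≥0∞) (ht : B → ℕ) (h1 : ∀ b, 1 ≤ ht b) (hΛ : ∑' b, Λ b = 1)
    (a : ℕ) (f : List B → ℝ≥0∞) (hf : ∀ A, f A ≤ if FP ht A a then LW Λ A else 0) :
    ∑' A, f A ≤ 1 :=
  le_trans (ENNReal.tsum_le_tsum hf) (FP_mass Λ ht h1 hΛ a).le

open Classical in
/-- main sum of one window -/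
noncomputable def MS (aX T aY T' i0 lo hi : ℕ) (w : G) : ℝ≥0∞ :=
  ∑' p : List BX × List BY, (cw ΛX hX aX i0 p.1 * cw ΛY hY aY i0 p.2) *
    ∑' q : List BX × List BY, (if PEx CX CY lo hi (HT hX p.1) (HT hY p.2) (rel zX zY w p) q.1 q.2
      then cw ΛX hX T i0 q.1 * cw ΛY hY T' i0 q.2 else 0)

open Classical in
theorem MS_le {us : ℕ → ℝ≥0∞} {C : ℝ≥0∞} (H2' : H2 ΛX hX zX ΛY hY CX CY us C)
    (H3' : H3 ΛX hX ΛY hY zY CX CY us C)
    (hX1 : ∀ b, 1 ≤ hX b) (hY1 : ∀ b, 1 ≤ hY b) (hΛX : ∑' b, ΛX b = 1) (hΛY : ∑' b, ΛY b = 1)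
    (hUX : ∀ n, U ΛX hX n ≤ 1) (hUY : ∀ n, U ΛY hY n ≤ 1)
    (aX T aY T' i0 lo hi s J : ℕ) (w : G) {u lam : ℝ≥0∞} (hu0 : u ≠ 0) (hu1 : u ≤ 1)
    (hl : lam ≠ 0) (hl' : lam ≠ ⊤)
    (g1 : aX + i0 ≤ aY) (g2 : aX + i0 + s ≤ lo) (g3 : aY + i0 + s ≤ lo)
    (g4 : aX + i0 + (T + i0) ≤ aY + T') (g5 : hi + s ≤ aX + T) (g6 : hi + s ≤ aY + T')
    (hJX : J * (T + i0) ≤ aX) (hJY : J * (T' + i0) ≤ aY) :
    MS ΛX hX zX ΛY hY zY CX CY aX T aY T' i0 lo hi w ≤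
      u * u + ((1 - u) ^ J + J * ov ΛX hX i0) + ((1 - u) ^ J + J * ov ΛY hY i0)
      + 2 * (((i0 + 1 : ℕ) : ℝ≥0∞) ^ 4 * (C * (lam + (((i0 + 1 : ℕ) : ℝ≥0∞) / u) * us s / lam + us s))) := by
  obtain ⟨thX, tX0, tX1, qX1, qX2⟩ := quant ΛX hX zX hX1 hΛX T hu0 hu1
  obtain ⟨thY, tY0, tY1, qY1, qY2⟩ := quant ΛY hY zY hY1 hΛY T' hu0 hu1
  choose EX hEX1 hEX2 using fun h => locset ΛX hX zX hX1 hΛX T h tX0
  choose EY hEY1 hEY2 using fun h => locset ΛY hY zY hY1 hΛY T' h tY0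
  have hut : u ≠ ⊤ := ne_top_of_le_ne_top ENNReal.one_ne_top hu1
  have tXt : thX ≠ ⊤ := ne_top_of_le_ne_top ENNReal.one_ne_top tX1
  have tYt : thY ≠ ⊤ := ne_top_of_le_ne_top ENNReal.one_ne_top tY1
  set SX : List BX → Prop := fun A => Sm hX zX (pp ΛX hX zX T) thX T i0 J A with hSX
  set SY : List BY → Prop := fun A => Sm hY zY (pp ΛY hY zY T') thY T' i0 J A with hSY
  set nX : List BX → ℝ≥0∞ := fun P => if FP hX P T ∧ pp ΛX hX zX T (HT hX P) (Dp zX P) < thX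
    then LW ΛX P else 0 with hnX
  set nY : List BY → ℝ≥0∞ := fun P => if FP hY P T' ∧ pp ΛY hY zY T' (HT hY P) (Dp zY P) < thY
    then LW ΛY P else 0 with hnY
  set bX : List BX → ℝ≥0∞ := fun A => if FP hX A aX ∧ ¬ SX A then LW ΛX A else 0 with hbX
  set bY : List BY → ℝ≥0∞ := fun A => if FP hY A aY ∧ ¬ SY A then LW ΛY A else 0 with hbY
  set mX1 : ℕ → List BX → ℝ≥0∞ := fun α A => if FP hX A aX ∧ (SX A ∧ HT hX A = α) then LW ΛX A else 0 with hmX1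
  set mX2 : ℕ → List BX → ℝ≥0∞ := fun α A => if FP hX A aX ∧ HT hX A = α then LW ΛX A else 0 with hmX2
  set mY1 : ℕ → List BY → ℝ≥0∞ := fun α A => if FP hY A aY ∧ (SY A ∧ HT hY A = α) then LW ΛY A else 0 with hmY1
  set mY2 : ℕ → List BY → ℝ≥0∞ := fun α A => if FP hY A aY ∧ HT hY A = α then LW ΛY A else 0 with hmY2
  set IX := Finset.Icc aX (aX + i0) with hIX
  set IP := Finset.Icc T (T + i0) with hIP
  set IY := Finset.Icc aY (aY + i0) with hIY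
  set IQ := Finset.Icc T' (T' + i0) with hIQ
  set kX : ℕ → ℕ → ℕ → ℕ → (List BX × List BY) → (List BX × List BY) → ℝ≥0∞ :=
    fun α h α' h' p q => if HT hX q.1 = h ∧ Dp zX q.1 ∈ EX h ∧ HT hY q.2 = h' ∧
        PEx CX CY lo hi α α' (rel zX zY w p) q.1 q.2 then LW ΛX q.1 * LW ΛY q.2 else 0 with hkX
  set kY : ℕ → ℕ → ℕ → ℕ → (List BX × List BY) → (List BX × List BY) → ℝ≥0∞ :=
    fun α h α' h' p q => if HT hX q.1 = h ∧ HT hY q.2 = h' ∧ Dp zY q.2 ∈ EY h' ∧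
        PEx CX CY lo hi α α' (rel zX zY w p) q.1 q.2 then LW ΛX q.1 * LW ΛY q.2 else 0 with hkY
  -- pointwise split
  have key : ∀ p q : List BX × List BY, (cw ΛX hX aX i0 p.1 * cw ΛY hY aY i0 p.2) *
      (if PEx CX CY lo hi (HT hX p.1) (HT hY p.2) (rel zX zY w p) q.1 q.2
      then cw ΛX hX T i0 q.1 * cw ΛY hY T' i0 q.2 else 0) ≤
      (cw ΛX hX aX i0 p.1 * cw ΛY hY aY i0 p.2) * (nX q.1 * nY q.2)
      + (bX p.1 * cw ΛY hY aY i0 p.2) * (cw ΛX hX T i0 q.1 * cw ΛY hY T' i0 q.2)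
      + (cw ΛX hX aX i0 p.1 * bY p.2) * (cw ΛX hX T i0 q.1 * cw ΛY hY T' i0 q.2)
      + ∑ c ∈ (IX ×ˢ IP) ×ˢ (IY ×ˢ IQ), (mX1 c.1.1 p.1 * mY2 c.2.1 p.2) * kX c.1.1 c.1.2 c.2.1 c.2.2 p q
      + ∑ c ∈ (IX ×ˢ IP) ×ˢ (IY ×ˢ IQ), (mX2 c.1.1 p.1 * mY1 c.2.1 p.2) * kY c.1.1 c.1.2 c.2.1 c.2.2 p q := by
    intro p q
    by_cases hA : FP hX p.1 aX ∧ HT hX p.1 ≤ aX + i0
    swap
    · rw [cw, if_neg hA]; simp only [zero_mul]; exact zero_le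
    by_cases hA' : FP hY p.2 aY ∧ HT hY p.2 ≤ aY + i0
    swap
    · rw [cw, cw, if_neg hA']; simp only [mul_zero, zero_mul]; exact zero_le
    by_cases hPE : PEx CX CY lo hi (HT hX p.1) (HT hY p.2) (rel zX zY w p) q.1 q.2
    swap
    · rw [if_neg hPE, mul_zero]; exact zero_le
    by_cases hP : FP hX q.1 T ∧ HT hX q.1 ≤ T + i0
    swap
    · rw [if_pos hPE, cw.eq_def ΛX hX T, if_neg hP, zero_mul, mul_zero]; exact zero_le
    by_cases hP' : FP hY q.2 T' ∧ HT hY q.2 ≤ T' + i0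
    swap
    · rw [if_pos hPE, cw.eq_def ΛY hY T', if_neg hP', mul_zero, mul_zero]; exact zero_le
    have eA : cw ΛX hX aX i0 p.1 = LW ΛX p.1 := if_pos hA
    have eA' : cw ΛY hY aY i0 p.2 = LW ΛY p.2 := if_pos hA'
    have eP : cw ΛX hX T i0 q.1 = LW ΛX q.1 := if_pos hP
    have eP' : cw ΛY hY T' i0 q.2 = LW ΛY q.2 := if_pos hP'
    have hmem : ((HT hX p.1, HT hX q.1), (HT hY p.2, HT hY q.2)) ∈ (IX ×ˢ IP) ×ˢ (IY ×ˢ IQ) := by
      simp only [hIX, hIP, hIY, hIQ, Finset.mem_product, Finset.mem_Icc]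
      exact ⟨⟨⟨FP_le hX _ _ hA.1, hA.2⟩, ⟨FP_le hX _ _ hP.1, hP.2⟩⟩,
        ⟨⟨FP_le hY _ _ hA'.1, hA'.2⟩, ⟨FP_le hY _ _ hP'.1, hP'.2⟩⟩⟩
    rw [if_pos hPE, eA, eA', eP, eP']
    by_cases hlX : pp ΛX hX zX T (HT hX q.1) (Dp zX q.1) < thX
    · by_cases hlY : pp ΛY hY zY T' (HT hY q.2) (Dp zY q.2) < thY
      · have e1 : nX q.1 = LW ΛX q.1 := if_pos ⟨hP.1, hlX⟩
        have e2 : nY q.2 = LW ΛY q.2 := if_pos ⟨hP'.1, hlY⟩
        rw [e1, e2]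
        exact le_self_add.trans (le_self_add.trans (le_self_add.trans le_self_add))
      · by_cases hsY : SY p.2
        · refine le_trans ?_ le_add_self
          refine le_trans (le_of_eq ?_) (Finset.single_le_sum (f := fun c : (ℕ × ℕ) × (ℕ × ℕ) =>
            (mX2 c.1.1 p.1 * mY1 c.2.1 p.2) * kY c.1.1 c.1.2 c.2.1 c.2.2 p q)
            (fun _ _ => zero_le) hmem)
          simp only [hmX2, hmY1, hkY]
          rw [if_pos ⟨hA.1, trivial⟩, if_pos ⟨hA'.1, hsY, trivial⟩,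
            if_pos ⟨trivial, trivial, hEY1 _ _ (not_lt.1 hlY), hPE⟩]
        · have e1 : bY p.2 = LW ΛY p.2 := if_pos ⟨hA'.1, hsY⟩
          rw [e1]
          exact le_add_self.trans (le_self_add.trans le_self_add)
    · by_cases hsX : SX p.1
      · refine le_trans ?_ le_self_add
        refine le_trans ?_ le_add_self
        refine le_trans (le_of_eq ?_) (Finset.single_le_sum (f := fun c : (ℕ × ℕ) × (ℕ × ℕ) =>
          (mX1 c.1.1 p.1 * mY2 c.2.1 p.2) * kX c.1.1 c.1.2 c.2.1 c.2.2 p q)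
          (fun _ _ => zero_le) hmem)
        simp only [hmX1, hmY2, hkX]
        rw [if_pos ⟨hA.1, hsX, trivial⟩, if_pos ⟨hA'.1, trivial⟩,
          if_pos ⟨trivial, hEX1 _ _ (not_lt.1 hlX), trivial, hPE⟩]
      · have e1 : bX p.1 = LW ΛX p.1 := if_pos ⟨hA.1, hsX⟩
        rw [e1]
        exact le_add_self.trans (le_self_add.trans (le_self_add.trans le_self_add))
  -- sum
  have hsX1 : ∀ α, ∑' A, mX1 α A ≤ 1 := fun α => m_mass ΛX hX hX1 hΛX aX _ fun A => by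
    simp only [hmX1]
    by_cases h : FP hX A aX ∧ (SX A ∧ HT hX A = α)
    · rw [if_pos h, if_pos h.1]
    · rw [if_neg h]; exact zero_le
  have hsX2 : ∀ α, ∑' A, mX2 α A ≤ 1 := fun α => m_mass ΛX hX hX1 hΛX aX _ fun A => by
    simp only [hmX2]
    by_cases h : FP hX A aX ∧ HT hX A = α
    · rw [if_pos h, if_pos h.1]
    · rw [if_neg h]; exact zero_le
  have hsY1 : ∀ α, ∑' A, mY1 α A ≤ 1 := fun α => m_mass ΛY hY hY1 hΛY aY _ fun A => by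
    simp only [hmY1]
    by_cases h : FP hY A aY ∧ (SY A ∧ HT hY A = α)
    · rw [if_pos h, if_pos h.1]
    · rw [if_neg h]; exact zero_le
  have hsY2 : ∀ α, ∑' A, mY2 α A ≤ 1 := fun α => m_mass ΛY hY hY1 hΛY aY _ fun A => by
    simp only [hmY2]
    by_cases h : FP hY A aY ∧ HT hY A = α
    · rw [if_pos h, if_pos h.1]
    · rw [if_neg h]; exact zero_le
  have hcX := cw_mass ΛX hX hX1 hΛX
  have hcY := cw_mass ΛY hY hY1 hΛY
  have s1 : ∑' p : List BX × List BY, ∑' q : List BX × List BY,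
      (cw ΛX hX aX i0 p.1 * cw ΛY hY aY i0 p.2) * (nX q.1 * nY q.2) ≤ u * u := by
    simp_rw [ENNReal.tsum_mul_left]
    rw [ENNReal.tsum_mul_right, tsum_prod_mul, tsum_prod_mul]
    calc _ ≤ (1 * 1) * (u * u) := mul_le_mul' (mul_le_mul' (hcX _ _) (hcY _ _)) (mul_le_mul' qX1 qY1)
      _ = _ := by ring
  have s2 : ∑' p : List BX × List BY, ∑' q : List BX × List BY,
      (bX p.1 * cw ΛY hY aY i0 p.2) * (cw ΛX hX T i0 q.1 * cw ΛY hY T' i0 q.2)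
      ≤ (1 - u) ^ J + J * ov ΛX hX i0 := by
    simp_rw [ENNReal.tsum_mul_left]
    rw [ENNReal.tsum_mul_right, tsum_prod_mul, tsum_prod_mul]
    have hb := bad ΛX hX zX hX1 hΛX T i0 thX (1 - u) (ov ΛX hX i0) (pp ΛX hX zX T) tsub_le_self
      (qX2 i0) (over_le ΛX hX hUX T i0) J aX hJX
    calc _ ≤ (((1 - u) ^ J + J * ov ΛX hX i0) * 1) * (1 * 1) :=
          mul_le_mul' (mul_le_mul' hb (hcY _ _)) (mul_le_mul' (hcX _ _) (hcY _ _))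
      _ = _ := by ring
  have s3 : ∑' p : List BX × List BY, ∑' q : List BX × List BY,
      (cw ΛX hX aX i0 p.1 * bY p.2) * (cw ΛX hX T i0 q.1 * cw ΛY hY T' i0 q.2)
      ≤ (1 - u) ^ J + J * ov ΛY hY i0 := by
    simp_rw [ENNReal.tsum_mul_left]
    rw [ENNReal.tsum_mul_right, tsum_prod_mul, tsum_prod_mul]
    have hb := bad ΛY hY zY hY1 hΛY T' i0 thY (1 - u) (ov ΛY hY i0) (pp ΛY hY zY T') tsub_le_self
      (qY2 i0) (over_le ΛY hY hUY T' i0) J aY hJY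
    calc _ ≤ (1 * ((1 - u) ^ J + J * ov ΛY hY i0)) * (1 * 1) :=
          mul_le_mul' (mul_le_mul' (hcX _ _) hb) (mul_le_mul' (hcX _ _) (hcY _ _))
      _ = _ := by ring
  have hcardE : ∀ (th : ℝ≥0∞) (E : Finset G), th ≠ 0 → th ≠ ⊤ → th * E.card ≤ 1 →
      ((i0 + 1 : ℕ) : ℝ≥0∞) * th * u⁻¹ * E.card ≤ ((i0 + 1 : ℕ) : ℝ≥0∞) / u := by
    intro th E _ _ h
    calc ((i0 + 1 : ℕ) : ℝ≥0∞) * th * u⁻¹ * E.card = ((i0 + 1 : ℕ) : ℝ≥0∞) * u⁻¹ * (th * E.card) := by ring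
      _ ≤ ((i0 + 1 : ℕ) : ℝ≥0∞) * u⁻¹ * 1 := mul_le_mul_right h _
      _ = _ := by rw [mul_one, div_eq_mul_inv]
  have hRHS : ∀ (th : ℝ≥0∞) (E : Finset G), th ≠ 0 → th ≠ ⊤ → th * E.card ≤ 1 →
      C * (lam + (((i0 + 1 : ℕ) : ℝ≥0∞) * th * u⁻¹) * E.card * us s / lam + us s)
      ≤ C * (lam + (((i0 + 1 : ℕ) : ℝ≥0∞) / u) * us s / lam + us s) := by
    intro th E h1 h2 h3
    refine mul_le_mul_right ?_ _
    refine add_le_add (add_le_add le_rfl ?_) le_rfl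
    exact ENNReal.div_le_div_right (mul_le_mul_left (hcardE th E h1 h2 h3) _) _
  have hcard : ∀ R : ℝ≥0∞, ∑ c ∈ (IX ×ˢ IP) ×ˢ (IY ×ˢ IQ), R = ((i0 + 1 : ℕ) : ℝ≥0∞) ^ 4 * R := by
    intro R
    rw [Finset.sum_const, Finset.card_product, Finset.card_product, Finset.card_product,
      hIX, hIP, hIY, hIQ, Nat.card_Icc, Nat.card_Icc, Nat.card_Icc, Nat.card_Icc, nsmul_eq_mul]
    have e1 : aX + i0 + 1 - aX = i0 + 1 := by omega
    have e2 : T + i0 + 1 - T = i0 + 1 := by omega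
    have e3 : aY + i0 + 1 - aY = i0 + 1 := by omega
    have e4 : T' + i0 + 1 - T' = i0 + 1 := by omega
    rw [e1, e2, e3, e4]
    push_cast; ring
  have s4 : ∑' p : List BX × List BY, ∑' q : List BX × List BY,
      ∑ c ∈ (IX ×ˢ IP) ×ˢ (IY ×ˢ IQ), (mX1 c.1.1 p.1 * mY2 c.2.1 p.2) * kX c.1.1 c.1.2 c.2.1 c.2.2 p q
      ≤ ((i0 + 1 : ℕ) : ℝ≥0∞) ^ 4 * (C * (lam + (((i0 + 1 : ℕ) : ℝ≥0∞) / u) * us s / lam + us s)) := by
    have e : ∀ p : List BX × List BY, ∑' q : List BX × List BY,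
      ∑ c ∈ (IX ×ˢ IP) ×ˢ (IY ×ˢ IQ), (mX1 c.1.1 p.1 * mY2 c.2.1 p.2) * kX c.1.1 c.1.2 c.2.1 c.2.2 p q
      = ∑ c ∈ (IX ×ˢ IP) ×ˢ (IY ×ˢ IQ), (mX1 c.1.1 p.1 * mY2 c.2.1 p.2) *
          ∑' q, kX c.1.1 c.1.2 c.2.1 c.2.2 p q := by
      intro p
      rw [Summable.tsum_finsetSum (fun _ _ => ENNReal.summable)]
      exact Finset.sum_congr rfl fun c _ => ENNReal.tsum_mul_left
    simp_rw [e]
    rw [Summable.tsum_finsetSum (fun _ _ => ENNReal.summable), ← hcard]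
    refine Finset.sum_le_sum fun c hc => ?_
    simp only [hIX, hIP, hIY, hIQ, Finset.mem_product, Finset.mem_Icc] at hc
    refine le_trans (partX ΛX hX zX ΛY hY zY CX CY H2' w (mX1 c.1.1) (mY2 c.2.1)
      (((i0 + 1 : ℕ) : ℝ≥0∞) * thX * u⁻¹) lam (hsX1 _) (hsY2 _) ?_ hl hl' (EX c.1.2) s c.1.2 c.2.2 c.1.1 c.2.1 lo hi
      (by omega) (by omega) (by omega)) (hRHS thX _ tX0 tXt (hEX2 _))
    intro y
    refine le_trans ?_ ((dens ΛX hX zX hUX T i0 thX (1 - u) (qX2 i0) J c.1.1 y).trans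
      (mul_le_mul_right (geom_le hu1 J) _))
    refine ENNReal.tsum_le_tsum fun A => ?_
    simp only [hmX1]
    by_cases h1 : Dp zX A = y
    · rw [if_pos h1]
      by_cases h2 : FP hX A aX ∧ (SX A ∧ HT hX A = c.1.1)
      · rw [if_pos h2, if_pos ⟨h2.2.1, h2.2.2, h1⟩]
      · rw [if_neg h2]; exact zero_le
    · rw [if_neg h1]; exact zero_le
  have s5 : ∑' p : List BX × List BY, ∑' q : List BX × List BY,
      ∑ c ∈ (IX ×ˢ IP) ×ˢ (IY ×ˢ IQ), (mX2 c.1.1 p.1 * mY1 c.2.1 p.2) * kY c.1.1 c.1.2 c.2.1 c.2.2 p q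
      ≤ ((i0 + 1 : ℕ) : ℝ≥0∞) ^ 4 * (C * (lam + (((i0 + 1 : ℕ) : ℝ≥0∞) / u) * us s / lam + us s)) := by
    have e : ∀ p : List BX × List BY, ∑' q : List BX × List BY,
      ∑ c ∈ (IX ×ˢ IP) ×ˢ (IY ×ˢ IQ), (mX2 c.1.1 p.1 * mY1 c.2.1 p.2) * kY c.1.1 c.1.2 c.2.1 c.2.2 p q
      = ∑ c ∈ (IX ×ˢ IP) ×ˢ (IY ×ˢ IQ), (mX2 c.1.1 p.1 * mY1 c.2.1 p.2) *
          ∑' q, kY c.1.1 c.1.2 c.2.1 c.2.2 p q := by
      intro p
      rw [Summable.tsum_finsetSum (fun _ _ => ENNReal.summable)]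
      exact Finset.sum_congr rfl fun c _ => ENNReal.tsum_mul_left
    simp_rw [e]
    rw [Summable.tsum_finsetSum (fun _ _ => ENNReal.summable), ← hcard]
    refine Finset.sum_le_sum fun c hc => ?_
    simp only [hIX, hIP, hIY, hIQ, Finset.mem_product, Finset.mem_Icc] at hc
    refine le_trans (partY ΛX hX zX ΛY hY zY CX CY H3' w (mX2 c.1.1) (mY1 c.2.1)
      (((i0 + 1 : ℕ) : ℝ≥0∞) * thY * u⁻¹) lam (hsX2 _) (hsY1 _) ?_ hl hl' (EY c.2.2) s c.1.2 c.2.2 c.1.1 c.2.1 lo hi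
      (by omega) (by omega) (by omega)) (hRHS thY _ tY0 tYt (hEY2 _))
    intro y
    refine le_trans ?_ ((dens ΛY hY zY hUY T' i0 thY (1 - u) (qY2 i0) J c.2.1 y).trans
      (mul_le_mul_right (geom_le hu1 J) _))
    refine ENNReal.tsum_le_tsum fun A => ?_
    simp only [hmY1]
    by_cases h1 : Dp zY A = y
    · rw [if_pos h1]
      by_cases h2 : FP hY A aY ∧ (SY A ∧ HT hY A = c.2.1)
      · rw [if_pos h2, if_pos ⟨h2.2.1, h2.2.2, h1⟩]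
      · rw [if_neg h2]; exact zero_le
    · rw [if_neg h1]; exact zero_le
  have tot : MS ΛX hX zX ΛY hY zY CX CY aX T aY T' i0 lo hi w ≤
      u * u + ((1 - u) ^ J + J * ov ΛX hX i0) + ((1 - u) ^ J + J * ov ΛY hY i0)
      + ((i0 + 1 : ℕ) : ℝ≥0∞) ^ 4 * (C * (lam + (((i0 + 1 : ℕ) : ℝ≥0∞) / u) * us s / lam + us s))
      + ((i0 + 1 : ℕ) : ℝ≥0∞) ^ 4 * (C * (lam + (((i0 + 1 : ℕ) : ℝ≥0∞) / u) * us s / lam + us s)) := by
    unfold MS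
    simp_rw [← ENNReal.tsum_mul_left]
    refine (ENNReal.tsum_le_tsum fun p => ENNReal.tsum_le_tsum fun q => key p q).trans ?_
    simp_rw [ENNReal.tsum_add]
    exact add_le_add (add_le_add (add_le_add (add_le_add s1 s2) s3) s4) s5
  refine tot.trans (le_of_eq ?_)
  ring

end W

end Crest.Agent.R154.Asm309
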