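import Crest.Agent.R154.FP_178

/-! Row 154, ROAD 801 (helper324): density of the first passage law, in first-passage form
(the bad mass is paid once over all the overshoots). -/

set_option autoImplicit false

namespace Crest.Agent.R154.Asm324

open scoped ENNReal
open Crest.Agent.R154.B5A Crest.Agent.R154.FP178

/-! ### indicators -/

open Classical in
/-- indicator -/
noncomputable def I (p : Prop) : ℝ≥0∞ := if p then 1 else 0

lemma I_pos {p : Prop} (h : p) : I p = 1 := by rw [I, if_pos h]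

lemma I_neg {p : Prop} (h : ¬ p) : I p = 0 := by rw [I, if_neg h]

lemma I_le (p : Prop) : I p ≤ 1 := by
  by_cases h : p
  · rw [I_pos h]
  · rw [I_neg h]; exact zero_le

lemma I_mono {p q : Prop} (h : p → q) : I p ≤ I q := by
  by_cases hp : p
  · rw [I_pos hp, I_pos (h hp)]
  · rw [I_neg hp]; exact zero_le

lemma I_congr {p q : Prop} (h : p ↔ q) : I p = I q := by rw [propext h]

open Classical in
lemma I_mul (p : Prop) (x : ℝ≥0∞) : I p * x = if p then x else 0 := by
  by_cases h : p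
  · rw [I_pos h, if_pos h, one_mul]
  · rw [I_neg h, if_neg h, zero_mul]

lemma I_and (p q : Prop) : I (p ∧ q) = I p * I q := by
  by_cases hp : p <;> by_cases hq : q <;> simp [I, hp, hq]

lemma tsum_I {α : Type*} (a : α) (f : α → ℝ≥0∞) : ∑' q, I (a = q) * f q = f a := by
  rw [tsum_eq_single a, I_pos rfl, one_mul]
  intro b hb
  rw [I_neg (fun h => hb h.symm), zero_mul]

lemma tsum_I_one {α : Type*} (a : α) : ∑' q, I (a = q) = 1 := by
  have := tsum_I a (fun _ => (1 : ℝ≥0∞))
  simpa using this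

/-- a sum fibred over finitely many values -/
lemma fib {κ : Type*} (H : Finset ℕ) (h : κ → ℕ) (f : κ → ℝ≥0∞) (hf : ∀ i, f i ≠ 0 → h i ∈ H)
    (D : ℝ≥0∞) (hD : ∀ c ∈ H, ∑' i, I (h i = c) * f i ≤ D) : ∑' i, f i ≤ H.card * D := by
  calc ∑' i, f i ≤ ∑' i, ∑ c ∈ H, I (h i = c) * f i := by
        refine ENNReal.tsum_le_tsum fun i => ?_
        by_cases h0 : f i = 0
        · rw [h0]; exact zero_le
        · calc f i = I (h i = h i) * f i := by rw [I_pos rfl, one_mul]
            _ ≤ _ := Finset.single_le_sum (f := fun c => I (h i = c) * f i)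
                (fun _ _ => zero_le) (hf i h0)
    _ = ∑ c ∈ H, ∑' i, I (h i = c) * f i := by
        rw [Summable.tsum_finsetSum (fun _ _ => ENNReal.summable)]
    _ ≤ ∑ _c ∈ H, D := Finset.sum_le_sum hD
    _ = H.card * D := by rw [Finset.sum_const, nsmul_eq_mul]

section dens

variable {B S : Type*} [AddCommGroup S] (Λ : B → ℝ≥0∞) (ht : B → ℕ) (κ : B → S)

/-- key of a list -/
def Kp (L : List B) : S := (L.map κ).sum

lemma Kp_append (L L' : List B) : Kp κ (L ++ L') = Kp κ L + Kp κ L' := by simp [Kp]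

/-- law of the key at the first passage of depth `t` -/
noncomputable def V (t : ℕ) (q : S) : ℝ≥0∞ := ∑' L, I (fp ht t L) * (LW Λ L * I (Kp κ L = q))

lemma sum_key (w : List B → ℝ≥0∞) (F : S → ℝ≥0∞) :
    ∑' L, w L * F (Kp κ L) = ∑' q, (∑' L, w L * I (Kp κ L = q)) * F q := by
  have : ∀ L, w L * F (Kp κ L) = ∑' q, w L * I (Kp κ L = q) * F q := by
    intro L
    rw [← tsum_I (Kp κ L) F, ← ENNReal.tsum_mul_left]
    exact tsum_congr fun q => by ring
  rw [tsum_congr this, ENNReal.tsum_comm]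
  exact tsum_congr fun q => by rw [ENNReal.tsum_mul_right]

lemma sumV (t : ℕ) : ∑' q, V Λ ht κ t q = ∑' L, I (fp ht t L) * LW Λ L := by
  have := sum_key κ (fun L => I (fp ht t L) * LW Λ L) (fun _ => 1)
  simp only [mul_one] at this
  rw [this]
  refine tsum_congr fun q => tsum_congr fun L => ?_
  ring

lemma sumFP (h1 : ∀ b, 1 ≤ ht b) (hΛ : ∑' b, Λ b ≤ 1) (t : ℕ) :
    ∑' L, I (fp ht t L) * LW Λ L ≤ 1 := by
  have := sum_FP Λ ht h1 hΛ t
  simpa only [I_mul] using this

lemma sumV_le (h1 : ∀ b, 1 ≤ ht b) (hΛ : ∑' b, Λ b ≤ 1) (t : ℕ) : ∑' q, V Λ ht κ t q ≤ 1 := by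
  rw [sumV]; exact sumFP Λ ht h1 hΛ t

lemma tsum_sub_right (f : S → ℝ≥0∞) (s : S) : ∑' q, f (q - s) = ∑' q, f q :=
  (Equiv.subRight s).tsum_eq f

lemma tsum_sub_left (f : S → ℝ≥0∞) (q : S) : ∑' s, f (q - s) = ∑' s, f s :=
  (Equiv.subLeft q).tsum_eq f

lemma V_step (h1 : ∀ b, 1 ≤ ht b) (T t : ℕ) (hT : T ≤ t) (q : S) :
    V Λ ht κ t q = ∑' A, I (fp ht T A) * (LW Λ A * V Λ ht κ (t - HT ht A) (q - Kp κ A)) := by
  have := fp_split Λ ht h1 T t hT (fun L => I (Kp κ L = q))
  rw [V]
  simp only [I_mul]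
  rw [this]
  refine tsum_congr fun A => ?_
  congr 2
  rw [V]
  refine tsum_congr fun L => ?_
  rw [I_mul]
  congr 2
  refine I_congr ?_
  rw [Kp_append]
  constructor
  · intro h; rw [← h]; abel
  · intro h; rw [h]; abel

theorem dens (h1 : ∀ b, 1 ≤ ht b) (hΛ : ∑' b, Λ b ≤ 1) (T i0 : ℕ) (θ r ε : ℝ≥0∞) (hr1 : r ≤ 1)
    (hr : ∑' A, I (fp ht T A ∧ HT ht A ≤ T + i0 ∧ θ < V Λ ht κ T (Kp κ A)) * LW Λ A ≤ r)
    (hε : ∑' A, I (fp ht T A ∧ T + i0 < HT ht A) * LW Λ A ≤ ε) (J : ℕ) :
    ∀ t, J * (T + i0) ≤ t → ∃ g b : S → ℝ≥0∞, (∀ q, V Λ ht κ t q ≤ g q + b q) ∧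
      (∀ q, g q ≤ J * ((i0 + 1) * θ)) ∧ ∑' q, b q ≤ r ^ J + J * ε := by
  induction J with
  | zero =>
    intro t _
    refine ⟨fun _ => 0, V Λ ht κ t, fun q => by simp, fun q => by simp, ?_⟩
    simpa using sumV_le Λ ht κ h1 hΛ t
  | succ J ih =>
    choose! g b hgb hg hb using ih
    intro t ht0
    have hTt : T ≤ t := by nlinarith [Nat.zero_le (J * (T + i0)), Nat.zero_le i0]
    have hlow : ∀ A : List B, HT ht A ≤ T + i0 → J * (T + i0) ≤ t - HT ht A := by
      intro A hA
      have : (J + 1) * (T + i0) = J * (T + i0) + (T + i0) := by ring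
      omega
    set P : List B → Prop := fun A => θ < V Λ ht κ T (Kp κ A) with hP
    refine ⟨fun q => ∑' A, I (fp ht T A ∧ HT ht A ≤ T + i0 ∧ ¬ P A) *
        (LW Λ A * V Λ ht κ (t - HT ht A) (q - Kp κ A)) +
        ∑' A, I (fp ht T A ∧ HT ht A ≤ T + i0 ∧ P A) *
          (LW Λ A * g (t - HT ht A) (q - Kp κ A)),
      fun q => ∑' A, I (fp ht T A ∧ HT ht A ≤ T + i0 ∧ P A) *
          (LW Λ A * b (t - HT ht A) (q - Kp κ A)) +
        ∑' A, I (fp ht T A ∧ T + i0 < HT ht A) *
          (LW Λ A * V Λ ht κ (t - HT ht A) (q - Kp κ A)), ?_, ?_, ?_⟩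
    · intro q
      beta_reduce
      rw [V_step Λ ht κ h1 T t hTt q, ← ENNReal.tsum_add, ← ENNReal.tsum_add, ← ENNReal.tsum_add]
      refine ENNReal.tsum_le_tsum fun A => ?_
      by_cases h2 : fp ht T A
      · by_cases h3 : HT ht A ≤ T + i0
        · by_cases h4 : P A
          · rw [I_pos h2, I_neg (fun h => h.2.2 h4), I_pos ⟨h2, h3, h4⟩,
              I_neg (fun h => absurd h.2 (by omega))]
            simp only [one_mul, zero_mul, zero_add, add_zero]
            rw [← mul_add]
            exact mul_le_mul_right (hgb _ (hlow A h3) _) _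
          · rw [I_pos h2, I_pos ⟨h2, h3, h4⟩]
            simp only [one_mul]
            exact le_add_right (le_add_right le_rfl)
        · rw [I_pos h2, I_pos (p := fp ht T A ∧ T + i0 < HT ht A) ⟨h2, by omega⟩]
          simp only [one_mul]
          exact le_add_left (le_add_left le_rfl)
      · rw [I_neg h2, zero_mul]; exact zero_le
    · intro q
      have hA1 : ∑' A, I (fp ht T A ∧ HT ht A ≤ T + i0 ∧ ¬ P A) *
          (LW Λ A * V Λ ht κ (t - HT ht A) (q - Kp κ A)) ≤ ((i0 : ℝ≥0∞) + 1) * θ := by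
        have hc : ((Finset.Icc T (T + i0)).card : ℝ≥0∞) = (i0 : ℝ≥0∞) + 1 := by
          rw [Nat.card_Icc, show T + i0 + 1 - T = i0 + 1 by omega]; push_cast; ring
        rw [← hc]
        refine fib (Finset.Icc T (T + i0)) (fun A => HT ht A) _ ?_ θ ?_
        · intro A hA
          by_cases h2 : fp ht T A ∧ HT ht A ≤ T + i0 ∧ ¬ P A
          · exact Finset.mem_Icc.2 ⟨le_HT_of_fp ht h2.1, h2.2.1⟩
          · rw [I_neg h2, zero_mul] at hA; exact absurd rfl hA
        · intro c _
          calc ∑' A, I (HT ht A = c) * (I (fp ht T A ∧ HT ht A ≤ T + i0 ∧ ¬ P A) *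
                (LW Λ A * V Λ ht κ (t - HT ht A) (q - Kp κ A)))
              ≤ ∑' A, (I (fp ht T A) * LW Λ A) * (fun s => I (¬ θ < V Λ ht κ T s) *
                  V Λ ht κ (t - c) (q - s)) (Kp κ A) := by
                refine ENNReal.tsum_le_tsum fun A => ?_
                by_cases h5 : HT ht A = c
                · by_cases h2 : fp ht T A ∧ HT ht A ≤ T + i0 ∧ ¬ P A
                  · simp only
                    rw [I_pos h5, I_pos h2, I_pos h2.1, I_pos (p := ¬ θ < V Λ ht κ T (Kp κ A))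
                      h2.2.2, h5]
                    simp only [one_mul]
                    exact le_rfl
                  · rw [I_neg h2, zero_mul, mul_zero]; exact zero_le
                · rw [I_neg h5, zero_mul]; exact zero_le
            _ = ∑' s, V Λ ht κ T s * (I (¬ θ < V Λ ht κ T s) * V Λ ht κ (t - c) (q - s)) := by
                refine (sum_key κ (fun A => I (fp ht T A) * LW Λ A) (fun s =>
                  I (¬ θ < V Λ ht κ T s) * V Λ ht κ (t - c) (q - s))).trans ?_
                refine tsum_congr fun s => ?_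
                congr 1
                rw [V]
                exact tsum_congr fun L => by ring
            _ ≤ ∑' s, θ * V Λ ht κ (t - c) (q - s) := by
                refine ENNReal.tsum_le_tsum fun s => ?_
                by_cases h6 : θ < V Λ ht κ T s
                · rw [I_neg (not_not.2 h6), zero_mul, mul_zero]; exact zero_le
                · rw [I_pos h6, one_mul]
                  exact mul_le_mul_left (not_lt.1 h6) _
            _ ≤ θ := by
                rw [ENNReal.tsum_mul_left, tsum_sub_left (V Λ ht κ (t - c)) q]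
                exact mul_le_of_le_one_right' (sumV_le Λ ht κ h1 hΛ _)
      have hA2 : ∑' A, I (fp ht T A ∧ HT ht A ≤ T + i0 ∧ P A) *
          (LW Λ A * g (t - HT ht A) (q - Kp κ A)) ≤ J * (((i0 : ℝ≥0∞) + 1) * θ) := by
        calc _ ≤ ∑' A, (I (fp ht T A) * LW Λ A) * (J * (((i0 : ℝ≥0∞) + 1) * θ)) := by
              refine ENNReal.tsum_le_tsum fun A => ?_
              by_cases h2 : fp ht T A ∧ HT ht A ≤ T + i0 ∧ P A
              · rw [I_pos h2, I_pos h2.1, one_mul, one_mul]
                exact mul_le_mul_right (hg _ (hlow A h2.2.1) _) _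
              · rw [I_neg h2, zero_mul]; exact zero_le
          _ ≤ _ := by
              rw [ENNReal.tsum_mul_right]
              exact mul_le_of_le_one_left' (sumFP Λ ht h1 hΛ T)
      calc _ ≤ ((i0 : ℝ≥0∞) + 1) * θ + J * (((i0 : ℝ≥0∞) + 1) * θ) := add_le_add hA1 hA2
        _ = _ := by push_cast; ring
    · rw [ENNReal.tsum_add, ENNReal.tsum_comm, ENNReal.tsum_comm (f := fun q A =>
        I (fp ht T A ∧ T + i0 < HT ht A) * (LW Λ A * V Λ ht κ (t - HT ht A) (q - Kp κ A)))]
      have hB1 : ∑' A, ∑' q, I (fp ht T A ∧ HT ht A ≤ T + i0 ∧ P A) *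
          (LW Λ A * b (t - HT ht A) (q - Kp κ A)) ≤ r * (r ^ J + J * ε) := by
        calc _ ≤ ∑' A, (I (fp ht T A ∧ HT ht A ≤ T + i0 ∧ P A) * LW Λ A) * (r ^ J + J * ε) := by
              refine ENNReal.tsum_le_tsum fun A => ?_
              rw [ENNReal.tsum_mul_left, ENNReal.tsum_mul_left, tsum_sub_right, ← mul_assoc]
              by_cases h2 : fp ht T A ∧ HT ht A ≤ T + i0 ∧ P A
              · exact mul_le_mul_right (hb _ (hlow A h2.2.1)) _
              · rw [I_neg h2]; simp
          _ ≤ _ := by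
              rw [ENNReal.tsum_mul_right]
              exact mul_le_mul_left hr _
      have hB2 : ∑' A, ∑' q, I (fp ht T A ∧ T + i0 < HT ht A) *
          (LW Λ A * V Λ ht κ (t - HT ht A) (q - Kp κ A)) ≤ ε := by
        refine le_trans (ENNReal.tsum_le_tsum fun A => ?_) hε
        rw [ENNReal.tsum_mul_left, ENNReal.tsum_mul_left, tsum_sub_right]
        refine mul_le_mul_right ?_ _
        exact mul_le_of_le_one_right' (sumV_le Λ ht κ h1 hΛ _)
      calc _ ≤ r * (r ^ J + J * ε) + ε := add_le_add hB1 hB2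
        _ = r ^ (J + 1) + r * (J * ε) + ε := by rw [mul_add, pow_succ, mul_comm r (r ^ J)]
        _ ≤ r ^ (J + 1) + 1 * (J * ε) + ε :=
            add_le_add (add_le_add le_rfl (mul_le_mul_left hr1 _)) le_rfl
        _ = _ := by push_cast; ring

end dens

end Crest.Agent.R154.Asm324
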