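import Crest.Agent.R154.AsmC_325

/-! Row 154 (T0219, road 801), helper325: abstract assembly, part D: the law of the relative position
of the tops is smooth up to a small part, paid once. -/

set_option autoImplicit false

namespace Crest.Agent.R154.Asm325

open scoped ENNReal Classical
open Crest.Agent.R154.B5A Crest.Agent.R154.FP178

variable {BX BY G : Type*} [AddCommGroup G]

lemma mL_sum {B : Type*} (Λ : B → ℝ≥0∞) (h : B → ℕ) (z : B → G) (T : ℕ) (F : G → ℝ≥0∞) :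
    ∑' A, (if fp h T A then LW Λ A else 0) * F (dL z A) = ∑' x, mL Λ h z T x * F x := by
  simp only [mL]
  rw [tsum_congr fun x => (ENNReal.tsum_mul_right (a := F x) (f := fun L : List B =>
    (if fp h T L then LW Λ L * (if dL z L = x then 1 else 0) else 0))).symm, ENNReal.tsum_comm]
  refine tsum_congr fun A => ?_
  rw [tsum_eq_single (dL z A)]
  · by_cases hA : fp h T A <;> simp [hA]
  · intro x hx
    by_cases hA : fp h T A
    · rw [if_pos hA, if_neg (fun hh => hx hh.symm)]; simp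
    · rw [if_neg hA, zero_mul]

variable (ΛX : BX → ℝ≥0∞) (hX : BX → ℕ) (zX : BX → G)
  (ΛY : BY → ℝ≥0∞) (hY : BY → ℕ) (zY : BY → G)

lemma loc_sum (hX1 : ∀ b, 1 ≤ hX b) (hY1 : ∀ b, 1 ≤ hY b) (hΛX : ∑' b, ΛX b = 1)
    (hΛY : ∑' b, ΛY b = 1) (T T' i0 : ℕ) (H : ℕ → ℕ → G → ℝ≥0∞) (hH1 : ∀ a a' x, H a a' x ≤ 1)
    (β M bad : ℝ≥0∞)
    (hβ : ∀ a a', T ≤ a → a ≤ T + i0 → T' ≤ a' → a' ≤ T' + i0 → ∀ μ : G → ℝ≥0∞, ∑' x, μ x ≤ 1 →
      (∀ x, μ x ≤ M) → ∑' x, μ x * H a a' x ≤ β)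
    (g b : G → ℝ≥0∞) (hgb : ∀ x, mL ΛX hX zX T x = g x + b x) (hg : ∀ x, g x ≤ M)
    (hb : ∑' x, b x ≤ bad) (w : G) :
    ∑' A, wt ΛX hX T i0 A * ∑' A', wt ΛY hY T' i0 A' *
      H (HT hX A) (HT hY A') (w + dL zY A' - dL zX A) ≤ (i0 + 1 : ℕ) ^ 2 * β + bad := by
  set I : Finset ℕ := Finset.Icc T (T + i0) with hI
  set I' : Finset ℕ := Finset.Icc T' (T' + i0) with hI'
  have hIc : I.card = i0 + 1 := by rw [hI, Nat.card_Icc]; omega
  have hIc' : I'.card = i0 + 1 := by rw [hI', Nat.card_Icc]; omega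
  set Hs : G → ℝ≥0∞ := fun x => min 1 (∑ a ∈ I, ∑ a' ∈ I', H a a' x) with hHs
  have hHs1 : ∀ x, Hs x ≤ 1 := fun x => min_le_left _ _
  have hle : ∀ A A', fp hX T A → HT hX A ≤ T + i0 → fp hY T' A' → HT hY A' ≤ T' + i0 → ∀ x,
      H (HT hX A) (HT hY A') x ≤ Hs x := by
    intro A A' h1 h2 h3 h4 x
    refine le_min (hH1 _ _ _) ?_
    have m1 : HT hX A ∈ I := by rw [hI, Finset.mem_Icc]; exact ⟨le_HT_of_fp hX h1, h2⟩
    have m2 : HT hY A' ∈ I' := by rw [hI', Finset.mem_Icc]; exact ⟨le_HT_of_fp hY h3, h4⟩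
    calc H (HT hX A) (HT hY A') x ≤ ∑ a' ∈ I', H (HT hX A) a' x :=
          Finset.single_le_sum (f := fun a' => H (HT hX A) a' x) (fun _ _ => bot_le) m2
      _ ≤ _ := Finset.single_le_sum (f := fun a => ∑ a' ∈ I', H a a' x) (fun _ _ => bot_le) m1
  have hmX : ∑' x, mL ΛX hX zX T x ≤ 1 := sum_mL ΛX hX zX hX1 hΛX.le T
  have hmY : ∑' x, mL ΛY hY zY T' x ≤ 1 := sum_mL ΛY hY zY hY1 hΛY.le T'
  have hg1 : ∑' x, g x ≤ 1 := by
    refine le_trans (ENNReal.tsum_le_tsum fun x => ?_) hmX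
    rw [hgb]; exact le_self_add
  set K : G → ℝ≥0∞ := fun y => ∑' y', mL ΛY hY zY T' y' * Hs (w + y' - y) with hK
  have hK1 : ∀ y, K y ≤ 1 := by
    intro y
    refine le_trans (ENNReal.tsum_le_tsum fun y' => ?_) hmY
    calc _ ≤ mL ΛY hY zY T' y' * 1 := mul_le_mul_right (hHs1 _) _
      _ = _ := mul_one _
  -- step 1
  have s1 : ∑' A, wt ΛX hX T i0 A * ∑' A', wt ΛY hY T' i0 A' *
      H (HT hX A) (HT hY A') (w + dL zY A' - dL zX A) ≤ ∑' x, mL ΛX hX zX T x * K x := by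
    rw [← mL_sum ΛX hX zX T K]
    refine ENNReal.tsum_le_tsum fun A => ?_
    by_cases hA : fp hX T A ∧ HT hX A ≤ T + i0
    · rw [wt, if_pos hA, if_pos hA.1]
      refine mul_le_mul_right ?_ _
      rw [hK]
      simp only
      rw [← mL_sum ΛY hY zY T' (fun y' => Hs (w + y' - dL zX A))]
      refine ENNReal.tsum_le_tsum fun A' => ?_
      by_cases hA' : fp hY T' A' ∧ HT hY A' ≤ T' + i0
      · rw [wt, if_pos hA', if_pos hA'.1]
        exact mul_le_mul_right (hle A A' hA.1 hA.2 hA'.1 hA'.2 _) _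
      · rw [wt, if_neg hA', zero_mul]; exact bot_le
    · rw [wt, if_neg hA, zero_mul]; exact bot_le
  refine s1.trans ?_
  have s2 : ∑' x, mL ΛX hX zX T x * K x = ∑' x, g x * K x + ∑' x, b x * K x := by
    rw [← ENNReal.tsum_add]
    refine tsum_congr fun x => ?_
    rw [hgb, add_mul]
  rw [s2]
  have s3 : ∑' x, b x * K x ≤ bad := by
    refine le_trans (ENNReal.tsum_le_tsum fun x => ?_) hb
    calc _ ≤ b x * 1 := mul_le_mul_right (hK1 x) _
      _ = _ := mul_one _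
  refine add_le_add ?_ s3
  -- the smooth part
  set μ : G → ℝ≥0∞ := fun x => ∑' y', mL ΛY hY zY T' y' * g (w + y' - x) with hμ
  have s4 : ∑' x, g x * K x = ∑' x, μ x * Hs x := by
    calc ∑' y, g y * K y = ∑' y, ∑' y', mL ΛY hY zY T' y' * (g y * Hs (w + y' - y)) := by
          refine tsum_congr fun y => ?_
          rw [hK, ← ENNReal.tsum_mul_left]
          exact tsum_congr fun y' => by ring
      _ = ∑' y', ∑' y, mL ΛY hY zY T' y' * (g y * Hs (w + y' - y)) := ENNReal.tsum_comm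
      _ = ∑' y', ∑' x, mL ΛY hY zY T' y' * (g (w + y' - x) * Hs x) := by
          refine tsum_congr fun y' => ?_
          rw [ENNReal.tsum_mul_left, ENNReal.tsum_mul_left]
          congr 1
          rw [← (Equiv.subLeft (w + y')).tsum_eq]
          refine tsum_congr fun x => ?_
          simp only [Equiv.subLeft_apply, sub_sub_cancel]
      _ = ∑' x, ∑' y', mL ΛY hY zY T' y' * (g (w + y' - x) * Hs x) := ENNReal.tsum_comm
      _ = ∑' x, μ x * Hs x := by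
          refine tsum_congr fun x => ?_
          rw [hμ, ← ENNReal.tsum_mul_right]
          exact tsum_congr fun y' => by ring
  rw [s4]
  have hμ1 : ∑' x, μ x ≤ 1 := by
    rw [hμ, ENNReal.tsum_comm]
    calc _ = ∑' y', mL ΛY hY zY T' y' * ∑' x, g x := by
          refine tsum_congr fun y' => ?_
          rw [ENNReal.tsum_mul_left]
          congr 1
          exact (Equiv.subLeft (w + y')).tsum_eq g
      _ ≤ ∑' y', mL ΛY hY zY T' y' * 1 := ENNReal.tsum_le_tsum fun y' => mul_le_mul_right hg1 _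
      _ ≤ 1 := by simpa using hmY
  have hμM : ∀ x, μ x ≤ M := by
    intro x
    calc μ x ≤ ∑' y', mL ΛY hY zY T' y' * M := ENNReal.tsum_le_tsum fun y' =>
          mul_le_mul_right (hg _) _
      _ = (∑' y', mL ΛY hY zY T' y') * M := ENNReal.tsum_mul_right
      _ ≤ 1 * M := mul_le_mul_left hmY _
      _ = M := one_mul _
  calc ∑' x, μ x * Hs x ≤ ∑' x, μ x * ∑ a ∈ I, ∑ a' ∈ I', H a a' x :=
        ENNReal.tsum_le_tsum fun x => mul_le_mul_right (min_le_right _ _) _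
    _ = ∑ a ∈ I, ∑ a' ∈ I', ∑' x, μ x * H a a' x := by
        have : ∀ x, μ x * ∑ a ∈ I, ∑ a' ∈ I', H a a' x = ∑ a ∈ I, ∑ a' ∈ I', μ x * H a a' x := by
          intro x
          rw [Finset.mul_sum]
          exact Finset.sum_congr rfl fun a _ => Finset.mul_sum _ _ _
        rw [tsum_congr this, Summable.tsum_finsetSum fun _ _ => ENNReal.summable]
        refine Finset.sum_congr rfl fun a _ => ?_
        rw [Summable.tsum_finsetSum fun _ _ => ENNReal.summable]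
    _ ≤ ∑ a ∈ I, ∑ a' ∈ I', β := by
        refine Finset.sum_le_sum fun a ha => Finset.sum_le_sum fun a' ha' => ?_
        rw [hI, Finset.mem_Icc] at ha
        rw [hI', Finset.mem_Icc] at ha'
        exact hβ a a' ha.1 ha.2 ha'.1 ha'.2 μ hμ1 hμM
    _ = (i0 + 1 : ℕ) ^ 2 * β := by
        rw [Finset.sum_const, Finset.sum_const, hIc, hIc', nsmul_eq_mul, nsmul_eq_mul, ← mul_assoc, sq]

/-- the same with the smoothness of `Y` -/
lemma loc_sum' (hX1 : ∀ b, 1 ≤ hX b) (hY1 : ∀ b, 1 ≤ hY b) (hΛX : ∑' b, ΛX b = 1)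
    (hΛY : ∑' b, ΛY b = 1) (T T' i0 : ℕ) (H : ℕ → ℕ → G → ℝ≥0∞) (hH1 : ∀ a a' x, H a a' x ≤ 1)
    (β M bad : ℝ≥0∞)
    (hβ : ∀ a a', T ≤ a → a ≤ T + i0 → T' ≤ a' → a' ≤ T' + i0 → ∀ μ : G → ℝ≥0∞, ∑' x, μ x ≤ 1 →
      (∀ x, μ x ≤ M) → ∑' x, μ x * H a a' x ≤ β)
    (g b : G → ℝ≥0∞) (hgb : ∀ x, mL ΛY hY zY T' x = g x + b x) (hg : ∀ x, g x ≤ M)
    (hb : ∑' x, b x ≤ bad) (w : G) :
    ∑' A, wt ΛX hX T i0 A * ∑' A', wt ΛY hY T' i0 A' *
      H (HT hX A) (HT hY A') (w + dL zY A' - dL zX A) ≤ (i0 + 1 : ℕ) ^ 2 * β + bad := by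
  have := loc_sum ΛY hY zY ΛX hX zX hY1 hX1 hΛY hΛX T' T i0 (fun a' a x => H a a' (-x))
    (fun _ _ _ => hH1 _ _ _) β M bad ?_ g b hgb hg hb (-w)
  · refine le_trans (le_of_eq ?_) this
    simp only [← ENNReal.tsum_mul_left]
    rw [ENNReal.tsum_comm]
    refine tsum_congr fun A' => tsum_congr fun A => ?_
    rw [show -(-w + dL zX A - dL zY A') = w + dL zY A' - dL zX A by abel]
    ring
  · intro a' a h1 h2 h3 h4 μ hμ hμM
    have := hβ a a' h3 h4 h1 h2 (fun x => μ (-x)) ?_ fun x => hμM _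
    · refine le_trans (le_of_eq ?_) this
      rw [← (Equiv.neg G).tsum_eq]
      simp
    · refine le_trans (le_of_eq ?_) hμ
      exact (Equiv.neg G).tsum_eq μ

end Crest.Agent.R154.Asm325
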