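import Crest.Agent.R154.AsmC_344

/-! Row 154, ROAD 801, abstract assembly, part D (helper344): the bound of one window. -/

set_option autoImplicit false

namespace Crest.Agent.R154.Asm344

open scoped ENNReal
open Crest.Agent.R154.B5A
open Crest.Agent.R154.FP178

variable {BX BY G : Type*} [AddCommGroup G]
  (ΛX : BX → ℝ≥0∞) (hX : BX → ℕ) (zX : BX → G) (sX : BX → Set (G × ℕ))
  (ΛY : BY → ℝ≥0∞) (hY : BY → ℕ) (zY : BY → G) (sY : BY → Set (G × ℕ))

/-- constant weight -/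
lemma RR_one_le (h1X : ∀ b, 1 ≤ hX b) (hΛX : ∑' b, ΛX b ≤ 1) (h1Y : ∀ b, 1 ≤ hY b)
    (hΛY : ∑' b, ΛY b ≤ 1) (kX : List BX → ℝ≥0∞) (kY : List BY → ℝ≥0∞)
    (hkX : ∀ P, kX P ≤ 1) (hkY : ∀ P, kY P ≤ 1) (sx sy i0 lo hi a a' : ℕ) (y : G) :
    RR ΛX hX zX sX ΛY hY zY sY kX kY sx sy i0 lo hi a a' y ≤ 1 := by
  classical
  unfold RR
  calc _ ≤ ∑' P, fw ΛX hX sx i0 P * 1 * ∑' P', fw ΛY hY sy i0 P' * 1 * 1 := by
        gcongr with P P'
        · exact hkX P
        · exact hkY P'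
        · split_ifs <;> simp
    _ ≤ ∑' P, fw ΛX hX sx i0 P * 1 * 1 := by
        gcongr with P
        simp only [mul_one]
        exact sum_fw_le ΛY hY h1Y hΛY sy i0
    _ ≤ 1 := by
        simp only [mul_one]
        exact sum_fw_le ΛX hX h1X hΛX sx i0

open Classical in
/-- splitting by locality -/
lemma RR_split (kX : List BX → Prop) (kY : List BY → Prop) (sx sy i0 lo hi a a' : ℕ) (y : G) :
    RR ΛX hX zX sX ΛY hY zY sY (fun _ => 1) (fun _ => 1) sx sy i0 lo hi a a' y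
      ≤ (∑' P, fw ΛX hX sx i0 P * (if kX P then 0 else 1)) *
          (∑' P', fw ΛY hY sy i0 P' * (if kY P' then 0 else 1))
        + (RR ΛX hX zX sX ΛY hY zY sY (fun P => if kX P then 1 else 0) (fun _ => 1)
            sx sy i0 lo hi a a' y
        + RR ΛX hX zX sX ΛY hY zY sY (fun _ => 1) (fun P => if kY P then 1 else 0)
            sx sy i0 lo hi a a' y) := by
  unfold RR
  rw [← ENNReal.tsum_mul_right, ← ENNReal.tsum_add, ← ENNReal.tsum_add]
  refine ENNReal.tsum_le_tsum fun P => ?_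
  simp_rw [← ENNReal.tsum_mul_left]
  rw [← ENNReal.tsum_add, ← ENNReal.tsum_add]
  refine ENNReal.tsum_le_tsum fun P' => ?_
  by_cases h1 : kX P <;> by_cases h2 : kY P' <;>
    by_cases h3 : Ev hX zX sX hY zY sY lo hi a P y a' P' <;> simp [h1, h2, h3, mul_assoc]

open Classical in
/-- X local pieces, from the window input -/
lemma RX_bound (C : ℝ≥0∞) (us : ℕ → ℕ → ℝ≥0∞) (hH2 : H2 ΛX hX zX sX ΛY hY zY sY C us)
    (th cc : ℝ≥0∞) (sx sy i0 i1 s lo hi a a' : ℕ) (E : ℕ → Finset G)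
    (hE : ∀ i x, th ≤ att hX zX ΛX sx i x → x ∈ E i) (lam M : ℝ≥0∞) (hl0 : lam ≠ 0) (hl1 : lam ≠ ⊤)
    (hcc : ∀ i, M * (E i).card ≤ cc)
    (ha : a ≤ a') (ha' : a' ≤ a + i1) (hlo : a' + s ≤ lo)
    (hb : a + (sx + i0) ≤ a' + sy) (hb' : a' + (sy + i0) ≤ a + sx + i1) (hhi : hi + s ≤ a + sx)
    (μ : G → ℝ≥0∞) (hμ1 : ∑' x, μ x ≤ 1) (hμM : ∀ x, μ x ≤ M) :
    ∑' y, μ y * RR ΛX hX zX sX ΛY hY zY sY
      (fun P => if th ≤ att hX zX ΛX sx (HT hX P - sx) (Dp zX P) then 1 else 0) (fun _ => 1)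
      sx sy i0 lo hi a a' y
      ≤ (i0 + 1 : ℕ) * ((i0 + 1 : ℕ) * (C * (lam + cc * us i1 s / lam + us i1 s))) := by
  set S : ℕ → ℕ → G → ℝ≥0∞ := fun i j y => ∑' L, ∑' L', (if HT hX L = sx + i ∧ Dp zX L ∈ E i ∧
      HT hY L' = sy + j ∧
      (∃ v k, (v, k) ∈ TT hX zX sX L 0 a ∧ (v, k) ∈ TT hY zY sY L' y a') ∧
      (∀ v k, (v, k) ∈ TT hX zX sX L 0 a → (v, k) ∈ TT hY zY sY L' y a' → lo ≤ k ∧ k ≤ hi)
      then LW ΛX L * LW ΛY L' else 0) with hS
  have h1 : ∀ y, RR ΛX hX zX sX ΛY hY zY sY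
      (fun P => if th ≤ att hX zX ΛX sx (HT hX P - sx) (Dp zX P) then 1 else 0) (fun _ => 1)
      sx sy i0 lo hi a a' y ≤ ∑ i ∈ Finset.range (i0 + 1), ∑ j ∈ Finset.range (i0 + 1), S i j y := by
    intro y
    unfold RR
    rw [hS]
    simp only
    simp_rw [← Summable.tsum_finsetSum (fun _ _ => ENNReal.summable)]
    refine ENNReal.tsum_le_tsum fun P => ?_
    rw [← ENNReal.tsum_mul_left]
    refine ENNReal.tsum_le_tsum fun P' => ?_
    unfold fw
    by_cases g1 : fp hX sx P ∧ HT hX P ≤ sx + i0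
    · by_cases g2 : th ≤ att hX zX ΛX sx (HT hX P - sx) (Dp zX P)
      · by_cases g3 : fp hY sy P' ∧ HT hY P' ≤ sy + i0
        · by_cases g4 : Ev hX zX sX hY zY sY lo hi a P y a' P'
          · have q1 := le_HT_of_fp hX g1.1
            have q2 := le_HT_of_fp hY g3.1
            refine le_trans ?_ (Finset.single_le_sum
              (f := fun i => ∑ j ∈ Finset.range (i0 + 1), (if HT hX P = sx + i ∧ Dp zX P ∈ E i ∧
                HT hY P' = sy + j ∧
                (∃ v k, (v, k) ∈ TT hX zX sX P 0 a ∧ (v, k) ∈ TT hY zY sY P' y a') ∧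
                (∀ v k, (v, k) ∈ TT hX zX sX P 0 a → (v, k) ∈ TT hY zY sY P' y a' →
                  lo ≤ k ∧ k ≤ hi)
                then LW ΛX P * LW ΛY P' else 0)) (fun _ _ => zero_le)
              (Finset.mem_range.2 (show HT hX P - sx < i0 + 1 by omega)))
            refine le_trans ?_ (Finset.single_le_sum
              (f := fun j => (if HT hX P = sx + (HT hX P - sx) ∧ Dp zX P ∈ E (HT hX P - sx) ∧
                HT hY P' = sy + j ∧
                (∃ v k, (v, k) ∈ TT hX zX sX P 0 a ∧ (v, k) ∈ TT hY zY sY P' y a') ∧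
                (∀ v k, (v, k) ∈ TT hX zX sX P 0 a → (v, k) ∈ TT hY zY sY P' y a' →
                  lo ≤ k ∧ k ≤ hi)
                then LW ΛX P * LW ΛY P' else 0)) (fun _ _ => zero_le)
              (Finset.mem_range.2 (show HT hY P' - sy < i0 + 1 by omega)))
            rw [if_pos g1, if_pos g2, if_pos g3, if_pos g4,
              if_pos ⟨by omega, hE _ _ g2, by omega, g4.1, g4.2⟩]
            simp
          · rw [if_neg g4]; simp
        · rw [if_neg g3]; simp
      · simp only [if_neg g2, mul_zero, zero_mul]; exact zero_le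
    · rw [if_neg g1]; simp
  calc _ ≤ ∑' y, μ y * ∑ i ∈ Finset.range (i0 + 1), ∑ j ∈ Finset.range (i0 + 1), S i j y := by
        gcongr with y
        exact h1 y
    _ = ∑ i ∈ Finset.range (i0 + 1), ∑ j ∈ Finset.range (i0 + 1), ∑' y, μ y * S i j y := by
        simp_rw [Finset.mul_sum]
        rw [Summable.tsum_finsetSum (fun _ _ => ENNReal.summable)]
        refine Finset.sum_congr rfl fun i _ => ?_
        rw [Summable.tsum_finsetSum (fun _ _ => ENNReal.summable)]
    _ ≤ ∑ _i ∈ Finset.range (i0 + 1), ∑ _j ∈ Finset.range (i0 + 1),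
        (C * (lam + cc * us i1 s / lam + us i1 s)) := by
        refine Finset.sum_le_sum fun i hi' => Finset.sum_le_sum fun j hj => ?_
        have := Finset.mem_range.1 hi'
        have := Finset.mem_range.1 hj
        refine (hH2 i1 s (sx + i) (sy + j) a a' lo hi (E i) μ M lam hμ1 hμM hl0 hl1 ha ha' hlo
          (by omega) (by omega) (by omega)).trans ?_
        gcongr
        exact hcc i
    _ = _ := by simp

open Classical in
/-- Y local pieces, from the window input -/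
lemma RY_bound (C : ℝ≥0∞) (us : ℕ → ℕ → ℝ≥0∞) (hH3 : H3 ΛX hX zX sX ΛY hY zY sY C us)
    (th cc : ℝ≥0∞) (sx sy i0 i1 s lo hi a a' : ℕ) (E : ℕ → Finset G)
    (hE : ∀ i x, th ≤ att hY zY ΛY sy i x → x ∈ E i) (lam M : ℝ≥0∞) (hl0 : lam ≠ 0) (hl1 : lam ≠ ⊤)
    (hcc : ∀ i, M * (E i).card ≤ cc)
    (ha : a ≤ a') (ha' : a' ≤ a + i1) (hlo : a' + s ≤ lo)
    (hb : a + (sx + i0) ≤ a' + sy) (hb' : a' + (sy + i0) ≤ a + sx + i1) (hhi : hi + s ≤ a + sx)
    (μ : G → ℝ≥0∞) (hμ1 : ∑' x, μ x ≤ 1) (hμM : ∀ x, μ x ≤ M) :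
    ∑' y, μ y * RR ΛX hX zX sX ΛY hY zY sY (fun _ => 1)
      (fun P => if th ≤ att hY zY ΛY sy (HT hY P - sy) (Dp zY P) then 1 else 0)
      sx sy i0 lo hi a a' y
      ≤ (i0 + 1 : ℕ) * ((i0 + 1 : ℕ) * (C * (lam + cc * us i1 s / lam + us i1 s))) := by
  set S : ℕ → ℕ → G → ℝ≥0∞ := fun i j y => ∑' L, ∑' L', (if HT hX L = sx + i ∧ Dp zY L' ∈ E j ∧
      HT hY L' = sy + j ∧
      (∃ v k, (v, k) ∈ TT hX zX sX L 0 a ∧ (v, k) ∈ TT hY zY sY L' y a') ∧
      (∀ v k, (v, k) ∈ TT hX zX sX L 0 a → (v, k) ∈ TT hY zY sY L' y a' → lo ≤ k ∧ k ≤ hi)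
      then LW ΛX L * LW ΛY L' else 0) with hS
  have h1 : ∀ y, RR ΛX hX zX sX ΛY hY zY sY (fun _ => 1)
      (fun P => if th ≤ att hY zY ΛY sy (HT hY P - sy) (Dp zY P) then 1 else 0)
      sx sy i0 lo hi a a' y ≤ ∑ i ∈ Finset.range (i0 + 1), ∑ j ∈ Finset.range (i0 + 1), S i j y := by
    intro y
    unfold RR
    rw [hS]
    simp only
    simp_rw [← Summable.tsum_finsetSum (fun _ _ => ENNReal.summable)]
    refine ENNReal.tsum_le_tsum fun P => ?_
    rw [← ENNReal.tsum_mul_left]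
    refine ENNReal.tsum_le_tsum fun P' => ?_
    unfold fw
    by_cases g1 : fp hX sx P ∧ HT hX P ≤ sx + i0
    · by_cases g2 : th ≤ att hY zY ΛY sy (HT hY P' - sy) (Dp zY P')
      · by_cases g3 : fp hY sy P' ∧ HT hY P' ≤ sy + i0
        · by_cases g4 : Ev hX zX sX hY zY sY lo hi a P y a' P'
          · have q1 := le_HT_of_fp hX g1.1
            have q2 := le_HT_of_fp hY g3.1
            refine le_trans ?_ (Finset.single_le_sum
              (f := fun i => ∑ j ∈ Finset.range (i0 + 1), (if HT hX P = sx + i ∧ Dp zY P' ∈ E j ∧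
                HT hY P' = sy + j ∧
                (∃ v k, (v, k) ∈ TT hX zX sX P 0 a ∧ (v, k) ∈ TT hY zY sY P' y a') ∧
                (∀ v k, (v, k) ∈ TT hX zX sX P 0 a → (v, k) ∈ TT hY zY sY P' y a' →
                  lo ≤ k ∧ k ≤ hi)
                then LW ΛX P * LW ΛY P' else 0)) (fun _ _ => zero_le)
              (Finset.mem_range.2 (show HT hX P - sx < i0 + 1 by omega)))
            refine le_trans ?_ (Finset.single_le_sum
              (f := fun j => (if HT hX P = sx + (HT hX P - sx) ∧ Dp zY P' ∈ E j ∧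
                HT hY P' = sy + j ∧
                (∃ v k, (v, k) ∈ TT hX zX sX P 0 a ∧ (v, k) ∈ TT hY zY sY P' y a') ∧
                (∀ v k, (v, k) ∈ TT hX zX sX P 0 a → (v, k) ∈ TT hY zY sY P' y a' →
                  lo ≤ k ∧ k ≤ hi)
                then LW ΛX P * LW ΛY P' else 0)) (fun _ _ => zero_le)
              (Finset.mem_range.2 (show HT hY P' - sy < i0 + 1 by omega)))
            rw [if_pos g1, if_pos g2, if_pos g3, if_pos g4,
              if_pos ⟨by omega, hE _ _ g2, by omega, g4.1, g4.2⟩]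
            simp
          · rw [if_neg g4]; simp
        · rw [if_neg g3]; simp
      · simp only [if_neg g2, mul_zero, zero_mul]; exact zero_le
    · rw [if_neg g1]; simp
  calc _ ≤ ∑' y, μ y * ∑ i ∈ Finset.range (i0 + 1), ∑ j ∈ Finset.range (i0 + 1), S i j y := by
        gcongr with y
        exact h1 y
    _ = ∑ i ∈ Finset.range (i0 + 1), ∑ j ∈ Finset.range (i0 + 1), ∑' y, μ y * S i j y := by
        simp_rw [Finset.mul_sum]
        rw [Summable.tsum_finsetSum (fun _ _ => ENNReal.summable)]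
        refine Finset.sum_congr rfl fun i _ => ?_
        rw [Summable.tsum_finsetSum (fun _ _ => ENNReal.summable)]
    _ ≤ ∑ _i ∈ Finset.range (i0 + 1), ∑ _j ∈ Finset.range (i0 + 1),
        (C * (lam + cc * us i1 s / lam + us i1 s)) := by
        refine Finset.sum_le_sum fun i hi' => Finset.sum_le_sum fun j hj => ?_
        have := Finset.mem_range.1 hi'
        have := Finset.mem_range.1 hj
        have hh := hH3 i1 s (sx + i) (sy + j) a a' lo hi (E j) μ M lam hμ1 hμM hl0 hl1 ha ha' hlo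
          (by omega) (by omega) (by omega)
        refine hh.trans ?_
        gcongr
        exact hcc j
    _ = _ := by simp

end Crest.Agent.R154.Asm344
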