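import Mathlib

/-! Row 154, ROAD 801, density lemma in first-passage form (helper351). -/

set_option autoImplicit false

namespace Crest.Agent.R154.AsmD351

open scoped ENNReal

variable {G : Type*} [AddCommGroup G]

lemma shift_le (f : ℕ × G → ℝ≥0∞) (z' : G) :
    ∑' x : ℕ × G, f (x.1, x.2 - z') ≤ ∑' x, f x :=
  ENNReal.tsum_comp_le_tsum_of_injective (f := fun x : ℕ × G => (x.1, x.2 - z'))
    (fun x y h => by
      simp only [Prod.mk.injEq, sub_left_inj] at h
      exact Prod.ext h.1 h.2) f

lemma fib_le (f : ℕ × G → ℝ≥0∞) (i : ℕ) (z : G) :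
    ∑' z' : G, f (i, z - z') ≤ ∑' x, f x :=
  ENNReal.tsum_comp_le_tsum_of_injective (f := fun z' : G => (i, z - z'))
    (fun x y h => by
      simp only [Prod.mk.injEq, sub_right_inj] at h
      exact h.2) f

open Classical in
theorem dens2 (p : ℕ → G → ℝ≥0∞) (g : ℕ → ℕ × G → ℝ≥0∞) (T i0 : ℕ) (th q ε : ℝ≥0∞)
    (hrec : ∀ a, T + i0 ≤ a → ∃ r : ℕ × G → ℝ≥0∞, (∑' x, r x ≤ ε) ∧ ∀ i z, g a (i, z) ≤
      ∑ i' ∈ Finset.range (i0 + 1), ∑' z', p i' z' * g (a - T - i') (i, z - z') + r (i, z))
    (hg : ∀ a, ∑' x, g a x ≤ 1)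
    (hq : ∑ i' ∈ Finset.range (i0 + 1), ∑' z', (if th < p i' z' then p i' z' else 0) ≤ q)
    (hq1 : q ≤ 1) :
    ∀ J a, J * (T + i0) ≤ a → ∃ S R : ℕ × G → ℝ≥0∞, (∀ x, g a x ≤ S x + R x) ∧
      (∀ x, S x ≤ J * (((i0 + 1 : ℕ) : ℝ≥0∞) * th)) ∧ ∑' x, R x ≤ q ^ J + J * ε := by
  intro J
  induction J with
  | zero =>
    intro a _
    exact ⟨fun _ => 0, g a, fun x => by simp, fun x => by simp, by simpa using hg a⟩
  | succ J ih =>
    intro a ha
    have haT : T + i0 ≤ a := by
      have : (J + 1) * (T + i0) = J * (T + i0) + (T + i0) := by ring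
      omega
    obtain ⟨r, hr, hrec'⟩ := hrec a haT
    have H : ∀ i' : ℕ, ∃ S R : ℕ × G → ℝ≥0∞, i' ≤ i0 →
        (∀ x, g (a - T - i') x ≤ S x + R x) ∧
        (∀ x, S x ≤ J * (((i0 + 1 : ℕ) : ℝ≥0∞) * th)) ∧ ∑' x, R x ≤ q ^ J + J * ε := by
      intro i'
      by_cases hi : i' ≤ i0
      · obtain ⟨S, R, h⟩ := ih (a - T - i') (by
          have : (J + 1) * (T + i0) = J * (T + i0) + (T + i0) := by ring
          omega)
        exact ⟨S, R, fun _ => h⟩
      · exact ⟨fun _ => 0, fun _ => 0, fun h => absurd h hi⟩
    choose S' R' hSR using H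
    refine ⟨fun x => ∑ i' ∈ Finset.range (i0 + 1), ∑' z', (if th < p i' z'
        then p i' z' * S' i' (x.1, x.2 - z') else p i' z' * g (a - T - i') (x.1, x.2 - z')),
      fun x => ∑ i' ∈ Finset.range (i0 + 1), ∑' z', (if th < p i' z'
        then p i' z' * R' i' (x.1, x.2 - z') else 0) + r x, ?_, ?_, ?_⟩
    · rintro ⟨i, z⟩
      refine (hrec' i z).trans ?_
      rw [← add_assoc, ← Finset.sum_add_distrib]
      refine add_le_add (Finset.sum_le_sum fun i' hi' => ?_) le_rfl
      have hi : i' ≤ i0 := by have := Finset.mem_range.1 hi'; omega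
      rw [← ENNReal.tsum_add]
      refine ENNReal.tsum_le_tsum fun z' => ?_
      by_cases hp : th < p i' z'
      · rw [if_pos hp, if_pos hp, ← mul_add]
        exact mul_le_mul_right ((hSR i' hi).1 _) _
      · rw [if_neg hp, if_neg hp, add_zero]
    · rintro ⟨i, z⟩
      set c : ℝ≥0∞ := J * (((i0 + 1 : ℕ) : ℝ≥0∞) * th) with hc
      calc ∑ i' ∈ Finset.range (i0 + 1), ∑' z', (if th < p i' z'
            then p i' z' * S' i' (i, z - z') else p i' z' * g (a - T - i') (i, z - z'))
          ≤ ∑ i' ∈ Finset.range (i0 + 1), ((∑' z', (if th < p i' z' then p i' z' else 0)) * c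
              + th) := by
            refine Finset.sum_le_sum fun i' hi' => ?_
            have hi : i' ≤ i0 := by have := Finset.mem_range.1 hi'; omega
            calc ∑' z', (if th < p i' z' then p i' z' * S' i' (i, z - z')
                    else p i' z' * g (a - T - i') (i, z - z'))
                ≤ ∑' z', ((if th < p i' z' then p i' z' else 0) * c
                    + th * g (a - T - i') (i, z - z')) := by
                  refine ENNReal.tsum_le_tsum fun z' => ?_
                  by_cases hp : th < p i' z'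
                  · rw [if_pos hp, if_pos hp]
                    exact le_add_right (mul_le_mul_right ((hSR i' hi).2.1 _) _)
                  · rw [if_neg hp, if_neg hp, zero_mul, zero_add]
                    exact mul_le_mul_left (not_lt.1 hp) _
              _ = (∑' z', (if th < p i' z' then p i' z' else 0)) * c
                    + th * ∑' z', g (a - T - i') (i, z - z') := by
                  rw [ENNReal.tsum_add, ENNReal.tsum_mul_right, ENNReal.tsum_mul_left]
              _ ≤ _ := by
                  refine add_le_add le_rfl ?_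
                  calc th * ∑' z', g (a - T - i') (i, z - z') ≤ th * 1 :=
                        mul_le_mul_right ((fib_le _ i z).trans (hg _)) _
                    _ = th := mul_one _
        _ = (∑ i' ∈ Finset.range (i0 + 1), ∑' z', (if th < p i' z' then p i' z' else 0)) * c
              + ((i0 + 1 : ℕ) : ℝ≥0∞) * th := by
            rw [Finset.sum_add_distrib, ← Finset.sum_mul, Finset.sum_const, Finset.card_range,
              nsmul_eq_mul]
        _ ≤ 1 * c + ((i0 + 1 : ℕ) : ℝ≥0∞) * th :=
            add_le_add (mul_le_mul_left (hq.trans hq1) _) le_rfl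
        _ = _ := by rw [hc]; push_cast; ring
    · calc ∑' x : ℕ × G, (∑ i' ∈ Finset.range (i0 + 1), ∑' z', (if th < p i' z'
              then p i' z' * R' i' (x.1, x.2 - z') else 0) + r x)
          = ∑ i' ∈ Finset.range (i0 + 1), ∑' z', ∑' x : ℕ × G, (if th < p i' z'
              then p i' z' * R' i' (x.1, x.2 - z') else 0) + ∑' x, r x := by
            rw [ENNReal.tsum_add, Summable.tsum_finsetSum (fun i _ => ENNReal.summable)]
            congr 1
            exact Finset.sum_congr rfl fun i' _ => ENNReal.tsum_comm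
        _ ≤ ∑ i' ∈ Finset.range (i0 + 1), ∑' z', (if th < p i' z' then p i' z' else 0)
              * (q ^ J + J * ε) + ε := by
            refine add_le_add (Finset.sum_le_sum fun i' hi' => ENNReal.tsum_le_tsum fun z' => ?_) hr
            have hi : i' ≤ i0 := by have := Finset.mem_range.1 hi'; omega
            by_cases hp : th < p i' z'
            · simp only [if_pos hp]
              rw [ENNReal.tsum_mul_left]
              exact mul_le_mul_right ((shift_le _ z').trans (hSR i' hi).2.2) _
            · simp [hp]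
        _ = (∑ i' ∈ Finset.range (i0 + 1), ∑' z', (if th < p i' z' then p i' z' else 0))
              * (q ^ J + J * ε) + ε := by
            rw [Finset.sum_mul]
            simp only [ENNReal.tsum_mul_right]
        _ ≤ q * (q ^ J + J * ε) + ε := add_le_add (mul_le_mul_left hq _) le_rfl
        _ ≤ q ^ (J + 1) + (J + 1 : ℕ) * ε := by
            rw [mul_add, pow_succ, mul_comm q (q ^ J), add_assoc]
            refine add_le_add le_rfl ?_
            push_cast
            rw [add_mul, one_mul]
            refine add_le_add ?_ le_rfl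
            calc q * (J * ε) ≤ 1 * (J * ε) := mul_le_mul_left hq1 _
              _ = _ := one_mul _

end Crest.Agent.R154.AsmD351
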