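import Crest.Agent.R154.AsmC_354

/-! Row 154 (helper354), ROAD 801: assembly, part D: one window, the bound. -/

set_option autoImplicit false

namespace Crest.Agent.R154.Asm354

open scoped ENNReal
open Crest.Agent.R154.B5A
open Crest.Agent.R154.FP178 (fp fp_nil fp_cons fp_zero le_HT_of_fp split sum_FP fp_split overshoot
  sum_fp_step sum_fp_zero)

variable {BX BY G : Type*} [AddCommGroup G]
variable (ΛX : BX → ℝ≥0∞) (ΛY : BY → ℝ≥0∞) (hX : BX → ℕ) (hY : BY → ℕ) (zX : BX → G) (zY : BY → G)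
variable (sX : BX → Set (G × ℕ)) (sY : BY → Set (G × ℕ))

open Classical in
/-- weight of (start, piece) -/
noncomputable def wt {B : Type*} (Λ : B → ℝ≥0∞) (ht : B → ℕ) (α T i0 : ℕ)
    (p : List B × List B) : ℝ≥0∞ :=
  if (fp ht α p.1 ∧ HT ht p.1 ≤ α + i0) ∧ (fp ht T p.2 ∧ HT ht p.2 ≤ T + i0)
    then LW Λ p.1 * LW Λ p.2 else 0

open Classical in
lemma wt_le {B : Type*} (Λ : B → ℝ≥0∞) (ht : B → ℕ) (α T i0 : ℕ) (u v : List B → Prop)
    (cu cv : ℝ≥0∞)
    (hu : ∑' A, (if fp ht α A ∧ u A then LW Λ A else 0) ≤ cu)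
    (hv : ∑' P, (if fp ht T P ∧ HT ht P ≤ T + i0 ∧ v P then LW Λ P else 0) ≤ cv) :
    ∑' p, wt Λ ht α T i0 p * (if u p.1 ∧ v p.2 then 1 else 0) ≤ cu * cv := by
  refine le_trans ?_ (mul_le_mul' hu hv)
  rw [← tsum_mul_prod]
  refine ENNReal.tsum_le_tsum fun p => ?_
  rw [wt]
  by_cases h : (fp ht α p.1 ∧ HT ht p.1 ≤ α + i0) ∧ (fp ht T p.2 ∧ HT ht p.2 ≤ T + i0)
  · by_cases h2 : u p.1 ∧ v p.2
    · rw [if_pos h, if_pos h2, mul_one, if_pos ⟨h.1.1, h2.1⟩, if_pos ⟨h.2.1, h.2.2, h2.2⟩]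
    · rw [if_neg h2, mul_zero]; exact zero_le
  · rw [if_neg h, zero_mul]; exact zero_le

lemma wt_one {B : Type*} (Λ : B → ℝ≥0∞) (ht : B → ℕ) (h1 : ∀ b, 1 ≤ ht b) (hΛ : ∑' b, Λ b = 1)
    (α T i0 : ℕ) : ∑' p, wt Λ ht α T i0 p ≤ 1 := by
  classical
  have := wt_le Λ ht α T i0 (fun _ => True) (fun _ => True) 1 1
    (by simpa using sum_FP Λ ht h1 hΛ.le α)
    (le_trans (ENNReal.tsum_le_tsum fun P => by
      by_cases h : fp ht T P
      · rw [if_pos h]; split_ifs <;> simp
      · rw [if_neg h, if_neg (fun h' => h h'.1)]) (sum_FP Λ ht h1 hΛ.le T))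
  simpa using this

open Classical in
/-- reduction of the window to the pieces -/
lemma to_pieces (h1X : ∀ b, 1 ≤ hX b) (h1Y : ∀ b, 1 ≤ hY b) (hΛX : ∑' b, ΛX b = 1)
    (hΛY : ∑' b, ΛY b = 1) (hsX : ∀ b, ∀ q ∈ sX b, 1 ≤ q.2 ∧ q.2 ≤ hX b)
    (hsY : ∀ b, ∀ q ∈ sY b, 1 ≤ q.2 ∧ q.2 ≤ hY b) (i0 : ℕ) (η : ℝ≥0∞)
    (hηX : ∀ a, ∑' L, (if fp hX a L ∧ a + i0 < HT hX L then LW ΛX L else 0) ≤ η)
    (hηY : ∀ a, ∑' L, (if fp hY a L ∧ a + i0 < HT hY L then LW ΛY L else 0) ≤ η)
    (s α T n : ℕ) (hn : α + 3 * i0 + T ≤ n) (w : G) :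
    ∑' LX, ∑' LY, (if HT hX LX = n ∧ HT hY LY = n ∧ Ev hX hY zX zY sX sY w i0 s α T LX LY then
        LW ΛX LX * LW ΛY LY else 0)
      ≤ 4 * η + ∑' p, ∑' p', wt ΛX hX α T i0 p * wt ΛY hY (α + 2 * i0) T i0 p' *
        (if pe hX hY zX zY sX sY s (w + Dp zY p'.1 - Dp zX p.1) p.2 (HT hX p.1) p'.2 (HT hY p'.1)
          then 1 else 0) := by
  have hφ1 : ∀ (Q : List BY → Prop), ∑' LY, (if HT hY LY = n then LW ΛY LY *
      (if Q LY then 1 else 0) else 0) ≤ 1 := fun Q => by
    have := sum_HT_le ΛY hY h1Y hΛY n 1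
      (fun LY => if HT hY LY = n then (if Q LY then 1 else 0) else 0)
      (fun L hL => by rw [if_pos hL]; split_ifs <;> simp) (fun L hL => if_neg hL)
    refine le_trans (le_of_eq (tsum_congr fun L => ?_)) this
    by_cases h : HT hY L = n
    · rw [if_pos h, if_pos h]
    · rw [if_neg h, if_neg h, mul_zero]
  have e0 : ∑' LX, ∑' LY, (if HT hX LX = n ∧ HT hY LY = n ∧
        Ev hX hY zX zY sX sY w i0 s α T LX LY then LW ΛX LX * LW ΛY LY else 0)
      = ∑' LX, (if HT hX LX = n then LW ΛX LX * ∑' LY, (if HT hY LY = n then LW ΛY LY *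
        (if Ev hX hY zX zY sX sY w i0 s α T LX LY then 1 else 0) else 0) else 0) := by
    refine tsum_congr fun LX => ?_
    by_cases h : HT hX LX = n
    · rw [if_pos h, ← ENNReal.tsum_mul_left]
      refine tsum_congr fun LY => ?_
      by_cases h2 : HT hY LY = n
      · by_cases h3 : Ev hX hY zX zY sX sY w i0 s α T LX LY
        · rw [if_pos ⟨h, h2, h3⟩, if_pos h2, if_pos h3, mul_one]
        · rw [if_neg (fun h' => h3 h'.2.2), if_pos h2, if_neg h3, mul_zero, mul_zero]
      · rw [if_neg (fun h' => h2 h'.2.1), if_neg h2, mul_zero]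
    · rw [if_neg h]
      refine ENNReal.tsum_eq_zero.2 fun LY => ?_
      rw [if_neg (fun h' => h h'.1)]
  rw [e0]
  let Q1 : List BX → List BX → List BY → Prop := fun A P LY =>
    ∃ R, Ev hX hY zX zY sX sY w i0 s α T (A ++ (P ++ R)) LY
  refine le_trans (cut1 ΛX hX h1X hΛX i0 η hηX α T n (by omega) _ (fun L => hφ1 _)
    (fun A P => ∑' LY, (if HT hY LY = n then LW ΛY LY * (if Q1 A P LY then 1 else 0) else 0))
    (fun A P R _ _ _ _ _ => ENNReal.tsum_le_tsum fun LY => ?_)) ?_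
  · by_cases h : HT hY LY = n
    · rw [if_pos h, if_pos h]
      refine mul_le_mul_right ?_ _
      by_cases h3 : Ev hX hY zX zY sX sY w i0 s α T (A ++ (P ++ R)) LY
      · rw [if_pos h3, if_pos ⟨R, h3⟩]
      · rw [if_neg h3]; exact zero_le
    · rw [if_neg h, if_neg h]
  · have e4 : (4 : ℝ≥0∞) * η = 2 * η + 2 * η := by rw [← add_mul]; norm_num
    rw [e4, add_assoc]
    refine add_le_add le_rfl ?_
    calc ∑' A, ∑' P, (if (fp hX α A ∧ HT hX A ≤ α + i0) ∧ (fp hX T P ∧ HT hX P ≤ T + i0)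
        then LW ΛX A * LW ΛX P * (∑' LY, (if HT hY LY = n then LW ΛY LY *
          (if Q1 A P LY then 1 else 0) else 0)) else 0)
        = ∑' p : List BX × List BX, wt ΛX hX α T i0 p * (∑' LY, (if HT hY LY = n then LW ΛY LY *
          (if Q1 p.1 p.2 LY then 1 else 0) else 0)) := by
          rw [ENNReal.tsum_prod']
          refine tsum_congr fun A => tsum_congr fun P => ?_
          simp only [wt]
          split_ifs <;> simp
      _ ≤ ∑' p : List BX × List BX, (wt ΛX hX α T i0 p * (2 * η) + ∑' p',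
          wt ΛX hX α T i0 p * wt ΛY hY (α + 2 * i0) T i0 p' *
        (if pe hX hY zX zY sX sY s (w + Dp zY p'.1 - Dp zX p.1) p.2 (HT hX p.1) p'.2 (HT hY p'.1)
          then 1 else 0)) := by
          refine ENNReal.tsum_le_tsum fun p => ?_
          by_cases hp : (fp hX α p.1 ∧ HT hX p.1 ≤ α + i0) ∧ (fp hX T p.2 ∧ HT hX p.2 ≤ T + i0)
          swap
          · have : wt ΛX hX α T i0 p = 0 := by rw [wt, if_neg hp]
            rw [this, zero_mul]; exact zero_le
          calc _ ≤ wt ΛX hX α T i0 p * (2 * η + ∑' A', ∑' P', (if (fp hY (α + 2 * i0) A' ∧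
                HT hY A' ≤ α + 2 * i0 + i0) ∧ (fp hY T P' ∧ HT hY P' ≤ T + i0)
                then LW ΛY A' * LW ΛY P' * (if pe hX hY zX zY sX sY s
                  (w + Dp zY A' - Dp zX p.1) p.2 (HT hX p.1) P' (HT hY A') then 1 else 0)
                  else 0)) := by
                refine mul_le_mul_right ?_ _
                refine cut1 ΛY hY h1Y hΛY i0 η hηY (α + 2 * i0) T n (by omega) _
                  (fun L => by split_ifs <;> simp) _ (fun A' P' R' hA' hA2 hP' hP2 _ => ?_)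
                by_cases h3 : Q1 p.1 p.2 (A' ++ (P' ++ R'))
                · obtain ⟨R, h3'⟩ := h3
                  rw [if_pos (c := pe hX hY zX zY sX sY s (w + Dp zY A' - Dp zX p.1) p.2
                    (HT hX p.1) P' (HT hY A'))]
                  · split_ifs <;> simp
                  · exact pe_of_Ev hsX hsY w i0 s α T p.1 p.2 R A' P' R' (le_HT_of_fp hX hp.1.1)
                      hp.1.2 (le_HT_of_fp hX hp.2.1) hp.2.2 (le_HT_of_fp hY hA') hA2
                      (le_HT_of_fp hY hP') h3'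
                · rw [if_neg h3]; exact zero_le
            _ = _ := by
                rw [mul_add]
                congr 1
                rw [ENNReal.tsum_prod', ← ENNReal.tsum_mul_left]
                refine tsum_congr fun A' => ?_
                rw [← ENNReal.tsum_mul_left]
                refine tsum_congr fun P' => ?_
                simp only [wt]
                by_cases hA' : (fp hY (α + 2 * i0) A' ∧
                  HT hY A' ≤ α + 2 * i0 + i0) ∧ (fp hY T P' ∧ HT hY P' ≤ T + i0)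
                · rw [if_pos hA', if_pos hA']; ring
                · simp [hA']
      _ ≤ 2 * η + _ := by
          rw [ENNReal.tsum_add, ENNReal.tsum_mul_right]
          refine add_le_add ?_ le_rfl
          calc _ ≤ 1 * (2 * η) := mul_le_mul_left (wt_one ΛX hX h1X hΛX α T i0) _
            _ = _ := one_mul _

end Crest.Agent.R154.Asm354
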