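import Crest.Agent.R154.AsmC_366

/-! Row 154, ROAD 801, assembly (helper366), part D: one window. -/

set_option autoImplicit false

namespace Crest.Agent.R154.Asm366

open scoped ENNReal
open Crest.Agent.R154.B5A
open Crest.Agent.R154.KWB419 (TT)

section conv

variable {G : Type*} [AddCommGroup G]

lemma conv_left (g f Ψ : G → ℝ≥0∞) (w : G) (M bd : ℝ≥0∞) (hg : ∑' x, g x ≤ 1)
    (hgM : ∀ x, g x ≤ M) (hf : ∑' x, f x ≤ 1)
    (H : ∀ μ : G → ℝ≥0∞, ∑' x, μ x ≤ 1 → (∀ x, μ x ≤ M) → ∑' x, μ x * Ψ x ≤ bd) :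
    ∑' x, ∑' x', g x * f x' * Ψ (w + x' - x) ≤ bd := by
  have e1 : ∑' x, ∑' x', g x * f x' * Ψ (w + x' - x)
      = ∑' δ, (∑' x', g (w + x' - δ) * f x') * Ψ δ := by
    rw [ENNReal.tsum_comm]
    calc ∑' x', ∑' x, g x * f x' * Ψ (w + x' - x)
        = ∑' x', ∑' δ, g (w + x' - δ) * f x' * Ψ δ := by
          refine tsum_congr fun x' => ?_
          rw [← (Equiv.subLeft (w + x')).tsum_eq fun x => g x * f x' * Ψ (w + x' - x)]
          refine tsum_congr fun δ => ?_
          simp [Equiv.subLeft]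
      _ = _ := by
          rw [ENNReal.tsum_comm]
          refine tsum_congr fun δ => ?_
          rw [ENNReal.tsum_mul_right]
  rw [e1]
  refine H _ ?_ ?_
  · rw [ENNReal.tsum_comm]
    calc ∑' x', ∑' δ, g (w + x' - δ) * f x' = ∑' x', (∑' x, g x) * f x' := by
          refine tsum_congr fun x' => ?_
          rw [ENNReal.tsum_mul_right]
          congr 1
          exact (Equiv.subLeft (w + x')).tsum_eq g
      _ = (∑' x, g x) * ∑' x', f x' := by rw [ENNReal.tsum_mul_left]
      _ ≤ 1 * 1 := by gcongr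
      _ = 1 := one_mul _
  · intro δ
    calc ∑' x', g (w + x' - δ) * f x' ≤ ∑' x', M * f x' := by
          refine ENNReal.tsum_le_tsum fun x' => ?_
          gcongr
          exact hgM _
      _ = M * ∑' x', f x' := ENNReal.tsum_mul_left
      _ ≤ M * 1 := by gcongr
      _ = M := mul_one _

lemma conv_right (g f Ψ : G → ℝ≥0∞) (w : G) (M bd : ℝ≥0∞) (hg : ∑' x, g x ≤ 1)
    (hfM : ∀ x, f x ≤ M) (hf : ∑' x, f x ≤ 1)
    (H : ∀ μ : G → ℝ≥0∞, ∑' x, μ x ≤ 1 → (∀ x, μ x ≤ M) → ∑' x, μ x * Ψ x ≤ bd) :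
    ∑' x, ∑' x', g x * f x' * Ψ (w + x' - x) ≤ bd := by
  have e1 : ∑' x, ∑' x', g x * f x' * Ψ (w + x' - x)
      = ∑' δ, (∑' x, g x * f (δ + x - w)) * Ψ δ := by
    calc ∑' x, ∑' x', g x * f x' * Ψ (w + x' - x)
        = ∑' x, ∑' δ, g x * f (δ + x - w) * Ψ δ := by
          refine tsum_congr fun x => ?_
          rw [← ((Equiv.addRight x).trans (Equiv.subRight w)).tsum_eq
            fun x' => g x * f x' * Ψ (w + x' - x)]
          refine tsum_congr fun δ => ?_
          simp [Equiv.subRight]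
      _ = _ := by
          rw [ENNReal.tsum_comm]
          refine tsum_congr fun δ => ?_
          rw [ENNReal.tsum_mul_right]
  rw [e1]
  refine H _ ?_ ?_
  · rw [ENNReal.tsum_comm]
    calc ∑' x, ∑' δ, g x * f (δ + x - w) = ∑' x, g x * (∑' x, f x) := by
          refine tsum_congr fun x => ?_
          rw [ENNReal.tsum_mul_left]
          congr 1
          exact ((Equiv.addRight x).trans (Equiv.subRight w)).tsum_eq f
      _ = (∑' x, g x) * ∑' x', f x' := by rw [ENNReal.tsum_mul_right]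
      _ ≤ 1 * 1 := by gcongr
      _ = 1 := one_mul _
  · intro δ
    calc ∑' x, g x * f (δ + x - w) ≤ ∑' x, g x * M := by
          refine ENNReal.tsum_le_tsum fun x' => ?_
          gcongr
          exact hfM _
      _ = (∑' x', g x') * M := ENNReal.tsum_mul_right
      _ ≤ 1 * M := by gcongr
      _ = M := one_mul _

end conv

section one

variable {B G : Type*} [AddCommGroup G] (Λ : B → ℝ≥0∞) (h : B → ℕ) (z : B → G)

open Classical in
/-- grouping a sum over first passage lists, the value depends on overshoot and displacement -/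
lemma push (T : ℕ) (Φ : ℕ → G → ℝ≥0∞) :
    ∑' P : List B, (if FP h P T then LW Λ P * Φ (HT h P - T) (Dp z P) else 0)
      = ∑' i, ∑' x, fz Λ h z T i x * Φ i x := by
  rw [group_le h z T]
  refine tsum_congr fun i => tsum_congr fun x => ?_
  rw [fz, ← ENNReal.tsum_mul_right]
  refine tsum_congr fun P => ?_
  by_cases hP : FP h P T ∧ HT h P = T + i ∧ Dp z P = x
  · rw [if_pos hP, if_pos hP, hP.2.2, show HT h P - T = i by omega]
  · rw [if_neg hP, if_neg hP, zero_mul]

/-- data of one walker at scale `T`: threshold, smoothness constant -/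
structure Loc (T a i0 J : ℕ) (th u M bm : ℝ≥0∞) : Prop where
  /-- non local mass -/
  nl : (∑' i, ∑' x, open Classical in if fz Λ h z T i x < th then fz Λ h z T i x else 0) ≤ u
  /-- smooth split at `a` -/
  sm : ∃ b : ℕ × G → ℝ≥0∞, (∑' w, b w ≤ bm) ∧ ∀ w, fz Λ h z a w.1 w.2 ≤ M + b w
  th0 : th ≠ 0

end one

end Crest.Agent.R154.Asm366
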