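import Mathlib

/-! Row 154, ROAD 801 (helper388): helper616's density lemma without the cutoff (first-passage form). -/

set_option autoImplicit false

namespace Crest.Agent.R154.Asm388

open scoped ENNReal

variable {Z : Type*} [AddCommGroup Z]

/-- **density lemma**: `f r z` = weight of the part above the window (`r` levels to go, displacement
`z`), `p i z` = law of one attempt (`T + i` levels, displacement `z`). -/
theorem dens (p f : ℕ → Z → ℝ≥0∞) (T i0 : ℕ) (th q ε G : ℝ≥0∞)
    (hrec : ∀ r, T ≤ r → ∀ z, f r z ≤
      ∑' i, ∑' z', p i z' * f (r - T - i) (z - z'))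
    (hf : ∀ r, ∑' z, f r z ≤ 1)
    (hε : ∑' i, ∑' z', (if i0 < i then p i z' else 0) ≤ ε)
    (hq : ∑' i, ∑' z', (if i ≤ i0 ∧ th < p i z' then p i z' else 0) ≤ q) (hq1 : q ≤ 1)
    (hG : (i0 + 1 : ℕ) * th + q * G ≤ G) :
    ∀ J r, J * (T + i0) ≤ r → ∃ b : Z → ℝ≥0∞, (∑' z, b z ≤ q ^ J + J * ε) ∧
      ∀ z, f r z ≤ G + b z := by
  intro J
  induction J with
  | zero =>
    intro r _
    exact ⟨f r, by simpa using hf r, fun z => le_add_self⟩
  | succ J ih =>
    intro r hr
    have hTr : T ≤ r := by nlinarith
    -- remaining levels after an attempt with overshoot `i ≤ i0`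
    have hrem : ∀ i, i ≤ i0 → J * (T + i0) ≤ r - T - i := by
      intro i hi
      have : J * (T + i0) + (T + i0) ≤ r := by nlinarith
      omega
    choose! b hb1 hb2 using fun i (hi : i ≤ i0) => ih (r - T - i) (hrem i hi)
    refine ⟨fun z => (∑' i, ∑' z', if i0 < i then p i z' * f (r - T - i) (z - z') else 0) +
      ∑' i, ∑' z', if i ≤ i0 ∧ th < p i z' then p i z' * b i (z - z') else 0, ?_, ?_⟩
    · -- total mass of the bad part
      rw [ENNReal.tsum_add]
      have e1 : ∑' z, ∑' i, ∑' z', (if i0 < i then p i z' * f (r - T - i) (z - z') else 0) ≤ ε := by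
        calc ∑' z, ∑' i, ∑' z', (if i0 < i then p i z' * f (r - T - i) (z - z') else 0)
            = ∑' i, ∑' z', ∑' z, (if i0 < i then p i z' * f (r - T - i) (z - z') else 0) := by
              rw [ENNReal.tsum_comm]
              refine tsum_congr fun i => ?_
              rw [ENNReal.tsum_comm]
          _ ≤ ∑' i, ∑' z', (if i0 < i then p i z' else 0) := by
              refine ENNReal.tsum_le_tsum fun i => ENNReal.tsum_le_tsum fun z' => ?_
              split_ifs with h
              · rw [ENNReal.tsum_mul_left]
                have : ∑' z, f (r - T - i) (z - z') = ∑' z, f (r - T - i) z :=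
                  (Equiv.subRight z').tsum_eq fun z => f (r - T - i) z
                rw [this]
                calc p i z' * ∑' z, f (r - T - i) z ≤ p i z' * 1 := by gcongr; exact hf _
                  _ = p i z' := mul_one _
              · simp
          _ ≤ ε := hε
      have e2 : ∑' z, ∑' i, ∑' z', (if i ≤ i0 ∧ th < p i z' then p i z' * b i (z - z') else 0)
          ≤ q * (q ^ J + J * ε) := by
        calc ∑' z, ∑' i, ∑' z', (if i ≤ i0 ∧ th < p i z' then p i z' * b i (z - z') else 0)
            = ∑' i, ∑' z', ∑' z, (if i ≤ i0 ∧ th < p i z' then p i z' * b i (z - z') else 0) := by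
              rw [ENNReal.tsum_comm]
              refine tsum_congr fun i => ?_
              rw [ENNReal.tsum_comm]
          _ ≤ ∑' i, ∑' z', (if i ≤ i0 ∧ th < p i z' then p i z' else 0) * (q ^ J + J * ε) := by
              refine ENNReal.tsum_le_tsum fun i => ENNReal.tsum_le_tsum fun z' => ?_
              split_ifs with h
              · rw [ENNReal.tsum_mul_left]
                have : ∑' z, b i (z - z') = ∑' z, b i z :=
                  (Equiv.subRight z').tsum_eq fun z => b i z
                rw [this]
                gcongr
                exact hb1 i h.1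
              · simp
          _ = (∑' i, ∑' z', (if i ≤ i0 ∧ th < p i z' then p i z' else 0)) * (q ^ J + J * ε) := by
              simp_rw [ENNReal.tsum_mul_right]
          _ ≤ _ := by gcongr
      calc _ ≤ ε + q * (q ^ J + J * ε) := add_le_add e1 e2
        _ = q ^ (J + 1) + (ε + q * (J * ε)) := by ring
        _ ≤ q ^ (J + 1) + (ε + 1 * (J * ε)) := by gcongr
        _ = q ^ (J + 1) + ((J + 1 : ℕ) : ℝ≥0∞) * ε := by push_cast; ring
    · intro z
      -- pointwise splitting
      have hterm : ∀ i z', p i z' * f (r - T - i) (z - z') ≤
          ((if i0 < i then p i z' * f (r - T - i) (z - z') else 0) +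
            (if i ≤ i0 then th * f (r - T - i) (z - z') else 0)) +
          ((if i ≤ i0 ∧ th < p i z' then p i z' * b i (z - z') else 0) +
            (if i ≤ i0 ∧ th < p i z' then p i z' else 0) * G) := by
        intro i z'
        by_cases hi : i ≤ i0
        · have hi' : ¬ i0 < i := by omega
          simp only [hi, hi', if_false, if_true, true_and, zero_add]
          by_cases hp : th < p i z'
          · simp only [hp, if_true]
            calc _ ≤ p i z' * (G + b i (z - z')) := by gcongr; exact hb2 i hi _
              _ = p i z' * b i (z - z') + p i z' * G := by ring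
              _ ≤ _ := le_add_self
          · simp only [hp, if_false, zero_mul, add_zero]
            gcongr
            exact not_lt.1 hp
        · have hi' : i0 < i := by omega
          simp only [hi, hi', if_false, if_true, false_and, zero_mul, add_zero]
          exact le_rfl
      calc f r z ≤ ∑' i, ∑' z', p i z' * f (r - T - i) (z - z') :=
            hrec r hTr z
        _ ≤ ∑' i, ∑' z', (((if i0 < i then p i z' * f (r - T - i) (z - z') else 0) +
            (if i ≤ i0 then th * f (r - T - i) (z - z') else 0)) +
          ((if i ≤ i0 ∧ th < p i z' then p i z' * b i (z - z') else 0) +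
            (if i ≤ i0 ∧ th < p i z' then p i z' else 0) * G)) :=
            ENNReal.tsum_le_tsum fun i => ENNReal.tsum_le_tsum fun z' => hterm i z'
        _ = ((∑' i, ∑' z', (if i0 < i then p i z' * f (r - T - i) (z - z') else 0)) +
            (∑' i, ∑' z', (if i ≤ i0 then th * f (r - T - i) (z - z') else 0))) +
          ((∑' i, ∑' z', (if i ≤ i0 ∧ th < p i z' then p i z' * b i (z - z') else 0)) +
            (∑' i, ∑' z', (if i ≤ i0 ∧ th < p i z' then p i z' else 0)) * G) := by
            simp_rw [ENNReal.tsum_add, ENNReal.tsum_mul_right]
        _ ≤ ((∑' i, ∑' z', (if i0 < i then p i z' * f (r - T - i) (z - z') else 0)) +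
            ((i0 + 1 : ℕ) * th)) +
          ((∑' i, ∑' z', (if i ≤ i0 ∧ th < p i z' then p i z' * b i (z - z') else 0)) + q * G) := by
            gcongr
            calc ∑' i, ∑' z', (if i ≤ i0 then th * f (r - T - i) (z - z') else 0)
                ≤ ∑' i, (if i ≤ i0 then th else 0) := by
                  refine ENNReal.tsum_le_tsum fun i => ?_
                  split_ifs with h
                  · rw [ENNReal.tsum_mul_left]
                    have : ∑' z', f (r - T - i) (z - z') = ∑' z', f (r - T - i) z' :=
                      (Equiv.subLeft z).tsum_eq fun z' => f (r - T - i) z'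
                    rw [this]
                    calc th * ∑' z', f (r - T - i) z' ≤ th * 1 := by gcongr; exact hf _
                      _ = th := mul_one _
                  · simp
              _ = ∑ i ∈ Finset.range (i0 + 1), th := by
                  rw [tsum_eq_sum (s := Finset.range (i0 + 1))]
                  · refine Finset.sum_congr rfl fun i hi => ?_
                    rw [if_pos (by have := Finset.mem_range.1 hi; omega)]
                  · intro i hi
                    rw [if_neg (by intro h; exact hi (Finset.mem_range.2 (by omega)))]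
              _ = _ := by simp
        _ = ((i0 + 1 : ℕ) * th + q * G) +
            ((∑' i, ∑' z', (if i0 < i then p i z' * f (r - T - i) (z - z') else 0)) +
            ∑' i, ∑' z', (if i ≤ i0 ∧ th < p i z' then p i z' * b i (z - z') else 0)) := by ring
        _ ≤ _ := by gcongr

end Crest.Agent.R154.Asm388
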