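import Crest.Agent.R154.AsmC_392
import Crest.Agent.R154.Dens_616

/-! Row 154, ROAD 801 (helper392): the windows. `TX`, `TY` are the traces of the lists (any
functions with the three properties `app`, `dep`, `sh`). -/

set_option autoImplicit false

namespace Crest.Agent.R154.Asm392

open scoped ENNReal
open Crest.Agent.R154.B5A Crest.Agent.R154.FP178

/-- the three properties of a trace -/
structure TrOK {B G : Type*} [AddCommGroup G] (ht : B → ℕ) (dz : B → G)
    (TX : List B → G → ℕ → Set (G × ℕ)) : Prop where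
  app : ∀ L L' x a, TX (L ++ L') x a = TX L x a ∪ TX L' (x + Dp dz L) (a + HT ht L)
  dep : ∀ L x a q, q ∈ TX L x a → a + 1 ≤ q.2 ∧ q.2 ≤ a + HT ht L
  sh : ∀ L x y a g k, (g, k) ∈ TX L (x + y) a ↔ (g - y, k) ∈ TX L x a

variable {BX BY G : Type*} [AddCommGroup G]

/-- common site -/
def Co (TX : List BX → G → ℕ → Set (G × ℕ)) (TY : List BY → G → ℕ → Set (G × ℕ))
    (L : List BX) (L' : List BY) (p q : G) (a a' : ℕ) (g : G) (k : ℕ) : Prop :=
  (g, k) ∈ TX L p a ∧ (g, k) ∈ TY L' q a'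

/-- window event -/
def Cn (TX : List BX → G → ℕ → Set (G × ℕ)) (TY : List BY → G → ℕ → Set (G × ℕ)) (lo hi : ℕ)
    (a : ℕ) (L : List BX) (a' : ℕ) (L' : List BY) (x : G) : Prop :=
  (∃ g k, Co TX TY L L' 0 x a a' g k) ∧ (∀ g k, Co TX TY L L' 0 x a a' g k → lo ≤ k ∧ k ≤ hi)

/-- the excluded depths -/
def SLs (K T s W : ℕ) : Finset ℕ :=
  (Finset.Icc K (2 * K + 1)).biUnion fun j => Finset.Icc (j * T - s) (j * T + W + s)

lemma SLs_card (K T s W : ℕ) : (SLs K T s W).card ≤ (K + 2) * (W + 2 * s + 1) := by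
  unfold SLs
  refine le_trans Finset.card_biUnion_le ?_
  calc ∑ j ∈ Finset.Icc K (2 * K + 1), (Finset.Icc (j * T - s) (j * T + W + s)).card
      ≤ ∑ _j ∈ Finset.Icc K (2 * K + 1), (W + 2 * s + 1) := by
        refine Finset.sum_le_sum fun j _ => ?_
        rw [Nat.card_Icc]; omega
    _ = _ := by
        rw [Finset.sum_const, Nat.card_Icc, smul_eq_mul]
        congr 1
        omega

lemma SLs_mem {K T s W k j : ℕ} (hk : k ∉ SLs K T s W) (h1 : K ≤ j) (h2 : j ≤ 2 * K + 1) :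
    k < j * T - s ∨ j * T + W + s < k := by
  by_contra h
  push Not at h
  exact hk (Finset.mem_biUnion.2 ⟨j, Finset.mem_Icc.2 ⟨h1, h2⟩, Finset.mem_Icc.2 h⟩)

section path

variable {ΛX : BX → ℝ≥0∞} {hX : BX → ℕ} {zX : BX → G} {ΛY : BY → ℝ≥0∞} {hY : BY → ℕ} {zY : BY → G}
  {TX : List BX → G → ℕ → Set (G × ℕ)} {TY : List BY → G → ℕ → Set (G × ℕ)}

/-- a deep common site lies in the pieces number `j` of both walkers -/
lemma path (oX : TrOK hX zX TX) (oY : TrOK hY zY TY) (K T s W i0 j a0 : ℕ) (w : G)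
    (hsT : s ≤ T) (hj1 : K ≤ j) (hj2 : j ≤ 2 * K)
    (hW : (2 * K + 1) * i0 ≤ W)
    (ha0 : a0 + (2 * K + 1) * i0 ≤ W)
    (P A R : List BX) (Q A' R' : List BY)
    (hP : j * T ≤ HT hX P) (hP' : HT hX P ≤ j * (T + i0))
    (hA : T ≤ HT hX A) (hA' : HT hX A ≤ T + i0)
    (hQ : j * T ≤ HT hY Q) (hQ' : HT hY Q ≤ j * (T + i0))
    (hB : T ≤ HT hY A') (hB' : HT hY A' ≤ T + i0)
    (hc : ∃ g k, j * T + W + s ≤ k ∧ k ≤ (j + 1) * T - s ∧
      Co TX TY (P ++ (A ++ R)) (Q ++ (A' ++ R')) 0 w 0 a0 g k)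
    (hn : ∀ g k, Co TX TY (P ++ (A ++ R)) (Q ++ (A' ++ R')) 0 w 0 a0 g k → k ∉ SLs K T s W) :
    Cn TX TY (j * T + W + s) ((j + 1) * T - s) (HT hX P) A (a0 + HT hY Q) A'
      (w + Dp zY Q - Dp zX P) := by
  have hjT : j * (T + i0) = j * T + j * i0 := by ring
  have hj1T : (j + 1) * T = j * T + T := by ring
  have hji : j * i0 ≤ 2 * K * i0 := Nat.mul_le_mul_right _ hj2
  have h2K : (2 * K + 1) * i0 = 2 * K * i0 + i0 := by ring
  have toX : ∀ g k, (g, k) ∈ TX A 0 (HT hX P) → (g + Dp zX P, k) ∈ TX (P ++ (A ++ R)) 0 0 := by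
    intro g k h
    rw [oX.app, oX.app]
    refine Or.inr (Or.inl ?_)
    rw [oX.sh, add_sub_cancel_right, zero_add]
    exact h
  have toY : ∀ g k, (g, k) ∈ TY A' (w + Dp zY Q - Dp zX P) (a0 + HT hY Q) →
      (g + Dp zX P, k) ∈ TY (Q ++ (A' ++ R')) w a0 := by
    intro g k h
    rw [oY.app, oY.app]
    refine Or.inr (Or.inl ?_)
    have e : w + Dp zY Q = (w + Dp zY Q - Dp zX P) + Dp zX P := by abel
    rw [e, oY.sh, add_sub_cancel_right]
    exact h
  refine ⟨?_, ?_⟩
  · obtain ⟨g, k, h1, h2, hX', hY'⟩ := hc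
    have hk := hn g k ⟨hX', hY'⟩
    have hk1 : j * T + W + s < k := by
      rcases SLs_mem hk hj1 (by omega) with h | h
      · omega
      · exact h
    refine ⟨g - Dp zX P, k, ?_, ?_⟩
    · rw [oX.app, oX.app] at hX'
      rcases hX' with h | h | h
      · have := oX.dep _ _ _ _ h
        simp only at this
        omega
      · rw [oX.sh, zero_add] at h
        exact h
      · have := oX.dep _ _ _ _ h
        simp only at this
        omega
    · rw [oY.app, oY.app] at hY'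
      rcases hY' with h | h | h
      · have := oY.dep _ _ _ _ h
        simp only at this
        omega
      · have e : w + Dp zY Q = (w + Dp zY Q - Dp zX P) + Dp zX P := by abel
        rw [e, oY.sh] at h
        exact h
      · have := oY.dep _ _ _ _ h
        simp only at this
        omega
  · rintro g k ⟨h1, h2⟩
    have hk := hn _ _ ⟨toX g k h1, toY g k h2⟩
    have d1 := oX.dep _ _ _ _ h1
    simp only at d1
    have s1 := SLs_mem hk hj1 (by omega)
    have s2 := SLs_mem (j := j + 1) hk (by omega) (by omega)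
    omega

end path

end Crest.Agent.R154.Asm392
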