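import Crest.Agent.R154.AsmC_4

/-! Row 154 (helper4), ROAD 801, assembly part D: local / non local pieces of one window. -/

set_option autoImplicit false

namespace Crest.Agent.R154.Asm4

open scoped ENNReal
open Crest.Agent.R154.B5A Crest.Agent.R154.FP178

section loc
variable {B G : Type*} [AddCommGroup G] {Λ : B → ℝ≥0∞} {ht : B → ℕ} {zf : B → G}

lemma loc_fin (h1 : ∀ b, 1 ≤ ht b) (hΛ : ∑' b, Λ b = 1) (τ h : ℕ) {th : ℝ≥0∞} (hth : th ≠ 0) :
    {z | th ≤ pL Λ ht zf τ h z}.Finite := by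
  refine Dens903.finite_level (pL Λ ht zf τ h) ?_ hth
  refine ne_top_of_le_ne_top ENNReal.one_ne_top ?_
  rw [← pL_sum (zf := zf) h1 hΛ τ]
  exact ENNReal.le_tsum h

lemma loc_card (h1 : ∀ b, 1 ≤ ht b) (hΛ : ∑' b, Λ b = 1) (τ h : ℕ) {th : ℝ≥0∞} (hth : th ≠ 0)
    (hth' : th ≠ ⊤) (E : Finset G) (hE : ∀ z ∈ E, th ≤ pL Λ ht zf τ h z) :
    (E.card : ℝ≥0∞) ≤ th⁻¹ := by
  have h2 : (E.card : ℝ≥0∞) * th ≤ 1 := by
    calc (E.card : ℝ≥0∞) * th = ∑ _z ∈ E, th := by rw [Finset.sum_const, nsmul_eq_mul]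
      _ ≤ ∑ z ∈ E, pL Λ ht zf τ h z := Finset.sum_le_sum fun z hz => hE z hz
      _ ≤ ∑' z, pL Λ ht zf τ h z := ENNReal.sum_le_tsum E
      _ ≤ 1 := by
        rw [← pL_sum (zf := zf) h1 hΛ τ]
        exact ENNReal.le_tsum h
  rw [← ENNReal.mul_le_mul_iff_left hth hth', ENNReal.inv_mul_cancel hth hth']
  exact h2

end loc

variable {BX BY G : Type*} [AddCommGroup G]
  {ΛX : BX → ℝ≥0∞} {hX : BX → ℕ} {zX : BX → G} {sX : BX → Set (G × ℕ)}
  {ΛY : BY → ℝ≥0∞} {hY : BY → ℕ} {zY : BY → G} {sY : BY → Set (G × ℕ)}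

open Classical in
lemma hPhiX (C : ℝ≥0∞) (us : ℕ → ℝ≥0∞) (h2 : H2L ΛX hX zX sX ΛY hY zY sY C us)
    (a0 H i0 s : ℕ) (hHs : s ≤ H) (lam th : ℝ≥0∞) (hl0 : lam ≠ 0) (hl1 : lam ≠ ⊤)
    (E : ℕ → Finset G) (hE : ∀ h z, th ≤ pL ΛX hX zX H h z → z ∈ E h)
    (M cE : ℝ≥0∞) (hcE : ∀ h, ((E h).card : ℝ≥0∞) ≤ cE)
    (a a' : ℕ) (ha : a ∈ Finset.Icc a0 (a0 + i0)) (ha' : a' ∈ Finset.Icc (a0 + i0) (a0 + 2 * i0))
    (μ : G → ℝ≥0∞) (hμ1 : ∑' x, μ x ≤ 1) (hμM : ∀ x, μ x ≤ M) :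
    ∑' x, μ x * ∑' P, ∑' Q, (if (fp hX H P ∧ HT hX P ≤ H + i0) ∧ th ≤ pL ΛX hX zX H (HT hX P) (Dp zX P)
        ∧ (fp hY (H + 2 * i0) Q ∧ HT hY Q ≤ (H + 2 * i0) + i0) ∧
        PE hX zX sX hY zY sY (a0 + 2 * i0 + s) (a0 + H - s) a a' x P Q
        then LW ΛX P * LW ΛY Q else 0)
      ≤ ((i0 + 1 : ℕ) : ℝ≥0∞) * (i0 + 1 : ℕ) * (C * (lam + M * cE * us s / lam + us s)) := by
  rw [Finset.mem_Icc] at ha ha'
  set J := Finset.Icc H (H + i0) with hJ
  set J' := Finset.Icc (H + 2 * i0) ((H + 2 * i0) + i0) with hJ'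
  have hb : ∀ h ∈ J, ∀ h' ∈ J', ∑' x, μ x * ∑' L : List BX, ∑' L' : List BY,
      (if HT hX L = h ∧ Dp zX L ∈ E h ∧ HT hY L' = h' ∧
        PE hX zX sX hY zY sY (a0 + 2 * i0 + s) (a0 + H - s) a a' x L L'
        then LW ΛX L * LW ΛY L' else 0) ≤ C * (lam + M * cE * us s / lam + us s) := by
    intro h hh h' hh'
    rw [hJ, Finset.mem_Icc] at hh
    rw [hJ', Finset.mem_Icc] at hh'
    refine (h2 s h h' a a' _ _ (E h) μ M lam hμ1 hμM hl0 hl1 (by omega) (by omega) (by omega)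
      (by omega) (by omega) (by omega)).trans ?_
    gcongr
    exact hcE h
  calc _ ≤ ∑' x, μ x * ∑' P, ∑' Q, ∑' h, ∑' h', (if h ∈ J ∧ h' ∈ J' then
        (if HT hX P = h ∧ Dp zX P ∈ E h ∧ HT hY Q = h' ∧
          PE hX zX sX hY zY sY (a0 + 2 * i0 + s) (a0 + H - s) a a' x P Q
          then LW ΛX P * LW ΛY Q else 0) else 0) := by
        refine ENNReal.tsum_le_tsum fun x => mul_le_mul_right ?_ _
        refine ENNReal.tsum_le_tsum fun P => ENNReal.tsum_le_tsum fun Q => ?_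
        by_cases hc : (fp hX H P ∧ HT hX P ≤ H + i0) ∧ th ≤ pL ΛX hX zX H (HT hX P) (Dp zX P)
          ∧ (fp hY (H + 2 * i0) Q ∧ HT hY Q ≤ (H + 2 * i0) + i0) ∧
          PE hX zX sX hY zY sY (a0 + 2 * i0 + s) (a0 + H - s) a a' x P Q
        swap
        · rw [if_neg hc]; exact zero_le
        rw [if_pos hc]
        refine le_trans ?_ (ENNReal.le_tsum (HT hX P))
        refine le_trans ?_ (ENNReal.le_tsum (HT hY Q))
        have hPle := le_HT_of_fp hX hc.1.1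
        have hQle := le_HT_of_fp hY hc.2.2.1.1
        rw [if_pos, if_pos]
        · exact ⟨rfl, hE _ _ hc.2.1, rfl, hc.2.2.2⟩
        · rw [hJ, hJ', Finset.mem_Icc, Finset.mem_Icc]
          exact ⟨⟨hPle, hc.1.2⟩, hQle, hc.2.2.1.2⟩
    _ = ∑' h, ∑' h', ∑' x, μ x * ∑' P, ∑' Q, (if h ∈ J ∧ h' ∈ J' then
        (if HT hX P = h ∧ Dp zX P ∈ E h ∧ HT hY Q = h' ∧
          PE hX zX sX hY zY sY (a0 + 2 * i0 + s) (a0 + H - s) a a' x P Q
          then LW ΛX P * LW ΛY Q else 0) else 0) := by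
        have e1 : ∀ x, μ x * ∑' P, ∑' Q, ∑' h, ∑' h', (if h ∈ J ∧ h' ∈ J' then
            (if HT hX P = h ∧ Dp zX P ∈ E h ∧ HT hY Q = h' ∧
              PE hX zX sX hY zY sY (a0 + 2 * i0 + s) (a0 + H - s) a a' x P Q
              then LW ΛX P * LW ΛY Q else 0) else 0)
            = ∑' h, ∑' h', μ x * ∑' P, ∑' Q, (if h ∈ J ∧ h' ∈ J' then
            (if HT hX P = h ∧ Dp zX P ∈ E h ∧ HT hY Q = h' ∧
              PE hX zX sX hY zY sY (a0 + 2 * i0 + s) (a0 + H - s) a a' x P Q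
              then LW ΛX P * LW ΛY Q else 0) else 0) := by
          intro x
          simp_rw [← ENNReal.tsum_mul_left]
          have f1 : ∀ P : List BX, ∑' Q, ∑' h, ∑' h', μ x * (if h ∈ J ∧ h' ∈ J' then
            (if HT hX P = h ∧ Dp zX P ∈ E h ∧ HT hY Q = h' ∧
              PE hX zX sX hY zY sY (a0 + 2 * i0 + s) (a0 + H - s) a a' x P Q
              then LW ΛX P * LW ΛY Q else 0) else 0)
            = ∑' h, ∑' h', ∑' Q, μ x * (if h ∈ J ∧ h' ∈ J' then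
            (if HT hX P = h ∧ Dp zX P ∈ E h ∧ HT hY Q = h' ∧
              PE hX zX sX hY zY sY (a0 + 2 * i0 + s) (a0 + H - s) a a' x P Q
              then LW ΛX P * LW ΛY Q else 0) else 0) := by
            intro P
            rw [ENNReal.tsum_comm]
            exact tsum_congr fun h => ENNReal.tsum_comm
          rw [tsum_congr f1, ENNReal.tsum_comm]
          exact tsum_congr fun h => ENNReal.tsum_comm
        rw [tsum_congr e1, ENNReal.tsum_comm]
        exact tsum_congr fun h => ENNReal.tsum_comm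
    _ ≤ ∑' h, ∑' h', (if h ∈ J ∧ h' ∈ J' then C * (lam + M * cE * us s / lam + us s) else 0) := by
        refine ENNReal.tsum_le_tsum fun h => ENNReal.tsum_le_tsum fun h' => ?_
        by_cases hc : h ∈ J ∧ h' ∈ J'
        · simp only [hc, and_self, if_true]
          exact hb h hc.1 h' hc.2
        · simp [hc]
    _ = (J.card : ℝ≥0∞) * J'.card * (C * (lam + M * cE * us s / lam + us s)) := by
        set bnd := C * (lam + M * cE * us s / lam + us s)
        have e1 : ∀ a, ∑' a', (if a ∈ J ∧ a' ∈ J' then bnd else 0)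
            = if a ∈ J then (J'.card : ℝ≥0∞) * bnd else 0 := by
          intro a
          by_cases h : a ∈ J
          · simp only [h, true_and, if_true]
            rw [tsum_eq_sum (s := J') (fun b hb => if_neg hb),
              Finset.sum_congr rfl (fun b hb => if_pos hb), Finset.sum_const, nsmul_eq_mul]
          · simp [h]
        rw [tsum_congr e1, tsum_eq_sum (s := J) (fun b hb => if_neg hb),
          Finset.sum_congr rfl (fun b hb => if_pos hb), Finset.sum_const, nsmul_eq_mul, mul_assoc]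
    _ = ((i0 + 1 : ℕ) : ℝ≥0∞) * (i0 + 1 : ℕ) * (C * (lam + M * cE * us s / lam + us s)) := by
        rw [hJ, hJ', Nat.card_Icc, Nat.card_Icc]
        congr 3 <;> omega

open Classical in
lemma hPhiY (C : ℝ≥0∞) (us : ℕ → ℝ≥0∞) (h3 : H3L ΛX hX zX sX ΛY hY zY sY C us)
    (a0 H i0 s : ℕ) (hHs : s ≤ H) (lam th : ℝ≥0∞) (hl0 : lam ≠ 0) (hl1 : lam ≠ ⊤)
    (E : ℕ → Finset G) (hE : ∀ h z, th ≤ pL ΛY hY zY (H + 2 * i0) h z → z ∈ E h)
    (M cE : ℝ≥0∞) (hcE : ∀ h, ((E h).card : ℝ≥0∞) ≤ cE)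
    (a a' : ℕ) (ha : a ∈ Finset.Icc a0 (a0 + i0)) (ha' : a' ∈ Finset.Icc (a0 + i0) (a0 + 2 * i0))
    (μ : G → ℝ≥0∞) (hμ1 : ∑' x, μ x ≤ 1) (hμM : ∀ x, μ x ≤ M) :
    ∑' x, μ x * ∑' P, ∑' Q, (if (fp hX H P ∧ HT hX P ≤ H + i0) ∧
        th ≤ pL ΛY hY zY (H + 2 * i0) (HT hY Q) (Dp zY Q)
        ∧ (fp hY (H + 2 * i0) Q ∧ HT hY Q ≤ (H + 2 * i0) + i0) ∧
        PE hX zX sX hY zY sY (a0 + 2 * i0 + s) (a0 + H - s) a a' x P Q
        then LW ΛX P * LW ΛY Q else 0)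
      ≤ ((i0 + 1 : ℕ) : ℝ≥0∞) * (i0 + 1 : ℕ) * (C * (lam + M * cE * us s / lam + us s)) := by
  rw [Finset.mem_Icc] at ha ha'
  set J := Finset.Icc H (H + i0) with hJ
  set J' := Finset.Icc (H + 2 * i0) ((H + 2 * i0) + i0) with hJ'
  have hb : ∀ h ∈ J, ∀ h' ∈ J', ∑' x, μ x * ∑' L : List BX, ∑' L' : List BY,
      (if HT hX L = h ∧ HT hY L' = h' ∧ Dp zY L' ∈ E h' ∧
        PE hX zX sX hY zY sY (a0 + 2 * i0 + s) (a0 + H - s) a a' x L L'
        then LW ΛX L * LW ΛY L' else 0) ≤ C * (lam + M * cE * us s / lam + us s) := by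
    intro h hh h' hh'
    rw [hJ, Finset.mem_Icc] at hh
    rw [hJ', Finset.mem_Icc] at hh'
    refine (h3 s h h' a a' _ _ (E h') μ M lam hμ1 hμM hl0 hl1 (by omega) (by omega) (by omega)
      (by omega) (by omega) (by omega)).trans ?_
    gcongr
    exact hcE h'
  calc _ ≤ ∑' x, μ x * ∑' P, ∑' Q, ∑' h, ∑' h', (if h ∈ J ∧ h' ∈ J' then
        (if HT hX P = h ∧ HT hY Q = h' ∧ Dp zY Q ∈ E h' ∧
          PE hX zX sX hY zY sY (a0 + 2 * i0 + s) (a0 + H - s) a a' x P Q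
          then LW ΛX P * LW ΛY Q else 0) else 0) := by
        refine ENNReal.tsum_le_tsum fun x => mul_le_mul_right ?_ _
        refine ENNReal.tsum_le_tsum fun P => ENNReal.tsum_le_tsum fun Q => ?_
        by_cases hc : (fp hX H P ∧ HT hX P ≤ H + i0) ∧
          th ≤ pL ΛY hY zY (H + 2 * i0) (HT hY Q) (Dp zY Q)
          ∧ (fp hY (H + 2 * i0) Q ∧ HT hY Q ≤ (H + 2 * i0) + i0) ∧
          PE hX zX sX hY zY sY (a0 + 2 * i0 + s) (a0 + H - s) a a' x P Q
        swap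
        · rw [if_neg hc]; exact zero_le
        rw [if_pos hc]
        refine le_trans ?_ (ENNReal.le_tsum (HT hX P))
        refine le_trans ?_ (ENNReal.le_tsum (HT hY Q))
        have hPle := le_HT_of_fp hX hc.1.1
        have hQle := le_HT_of_fp hY hc.2.2.1.1
        rw [if_pos, if_pos]
        · exact ⟨rfl, rfl, hE _ _ hc.2.1, hc.2.2.2⟩
        · rw [hJ, hJ', Finset.mem_Icc, Finset.mem_Icc]
          exact ⟨⟨hPle, hc.1.2⟩, hQle, hc.2.2.1.2⟩
    _ = ∑' h, ∑' h', ∑' x, μ x * ∑' P, ∑' Q, (if h ∈ J ∧ h' ∈ J' then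
        (if HT hX P = h ∧ HT hY Q = h' ∧ Dp zY Q ∈ E h' ∧
          PE hX zX sX hY zY sY (a0 + 2 * i0 + s) (a0 + H - s) a a' x P Q
          then LW ΛX P * LW ΛY Q else 0) else 0) := by
        have e1 : ∀ x, μ x * ∑' P, ∑' Q, ∑' h, ∑' h', (if h ∈ J ∧ h' ∈ J' then
            (if HT hX P = h ∧ HT hY Q = h' ∧ Dp zY Q ∈ E h' ∧
              PE hX zX sX hY zY sY (a0 + 2 * i0 + s) (a0 + H - s) a a' x P Q
              then LW ΛX P * LW ΛY Q else 0) else 0)
            = ∑' h, ∑' h', μ x * ∑' P, ∑' Q, (if h ∈ J ∧ h' ∈ J' then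
            (if HT hX P = h ∧ HT hY Q = h' ∧ Dp zY Q ∈ E h' ∧
              PE hX zX sX hY zY sY (a0 + 2 * i0 + s) (a0 + H - s) a a' x P Q
              then LW ΛX P * LW ΛY Q else 0) else 0) := by
          intro x
          simp_rw [← ENNReal.tsum_mul_left]
          have f1 : ∀ P : List BX, ∑' Q, ∑' h, ∑' h', μ x * (if h ∈ J ∧ h' ∈ J' then
            (if HT hX P = h ∧ HT hY Q = h' ∧ Dp zY Q ∈ E h' ∧
              PE hX zX sX hY zY sY (a0 + 2 * i0 + s) (a0 + H - s) a a' x P Q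
              then LW ΛX P * LW ΛY Q else 0) else 0)
            = ∑' h, ∑' h', ∑' Q, μ x * (if h ∈ J ∧ h' ∈ J' then
            (if HT hX P = h ∧ HT hY Q = h' ∧ Dp zY Q ∈ E h' ∧
              PE hX zX sX hY zY sY (a0 + 2 * i0 + s) (a0 + H - s) a a' x P Q
              then LW ΛX P * LW ΛY Q else 0) else 0) := by
            intro P
            rw [ENNReal.tsum_comm]
            exact tsum_congr fun h => ENNReal.tsum_comm
          rw [tsum_congr f1, ENNReal.tsum_comm]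
          exact tsum_congr fun h => ENNReal.tsum_comm
        rw [tsum_congr e1, ENNReal.tsum_comm]
        exact tsum_congr fun h => ENNReal.tsum_comm
    _ ≤ ∑' h, ∑' h', (if h ∈ J ∧ h' ∈ J' then C * (lam + M * cE * us s / lam + us s) else 0) := by
        refine ENNReal.tsum_le_tsum fun h => ENNReal.tsum_le_tsum fun h' => ?_
        by_cases hc : h ∈ J ∧ h' ∈ J'
        · simp only [hc, and_self, if_true]
          exact hb h hc.1 h' hc.2
        · simp [hc]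
    _ = (J.card : ℝ≥0∞) * J'.card * (C * (lam + M * cE * us s / lam + us s)) := by
        set bnd := C * (lam + M * cE * us s / lam + us s)
        have e1 : ∀ a, ∑' a', (if a ∈ J ∧ a' ∈ J' then bnd else 0)
            = if a ∈ J then (J'.card : ℝ≥0∞) * bnd else 0 := by
          intro a
          by_cases h : a ∈ J
          · simp only [h, true_and, if_true]
            rw [tsum_eq_sum (s := J') (fun b hb => if_neg hb),
              Finset.sum_congr rfl (fun b hb => if_pos hb), Finset.sum_const, nsmul_eq_mul]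
          · simp [h]
        rw [tsum_congr e1, tsum_eq_sum (s := J) (fun b hb => if_neg hb),
          Finset.sum_congr rfl (fun b hb => if_pos hb), Finset.sum_const, nsmul_eq_mul, mul_assoc]
    _ = ((i0 + 1 : ℕ) : ℝ≥0∞) * (i0 + 1 : ℕ) * (C * (lam + M * cE * us s / lam + us s)) := by
        rw [hJ, hJ', Nat.card_Icc, Nat.card_Icc]
        congr 3 <;> omega

end Crest.Agent.R154.Asm4
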