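import Crest.Agent.R154.AsmC_456

/-! Row 154, ROAD 801 (helper456): abstract assembly, part D (the core estimate of a window). -/

set_option autoImplicit false

namespace Crest.Agent.R154.Asm456

open scoped ENNReal
open Crest.Agent.R154.B5A

section win
variable {BX BY G : Type*} [AddCommGroup G]
variable (ΛX : BX → ℝ≥0∞) (hX : BX → ℕ) (zX : BX → G) (sX : BX → Set (G × ℕ))
variable (ΛY : BY → ℝ≥0∞) (hY : BY → ℕ) (zY : BY → G) (sY : BY → Set (G × ℕ))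
variable (TX : List BX → G → ℕ → Set (G × ℕ)) (TY : List BY → G → ℕ → Set (G × ℕ))

lemma locsum (S i0 a a' lo hi : ℕ) (e : G ≃ G) (μ : G → ℝ≥0∞) (loc : List BX → List BY → Prop)
    (Bd : ℝ≥0∞)
    (hB : ∀ h ∈ Finset.Icc S (S + i0), ∀ h' ∈ Finset.Icc S (S + i0),
      ∑' x, μ (e.symm x) * DS ΛX ΛY (fun L L' => HT hX L = h ∧ HT hY L' = h' ∧ loc L L' ∧
        EV TX TY a a' lo hi x L L') ≤ Bd) :
    ∑' g, μ g * DS ΛX ΛY (fun P P' => GG hX hY S i0 P P' ∧ EV TX TY a a' lo hi (e g) P P' ∧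
      loc P P') ≤ ((i0 : ℝ≥0∞) + 1) ^ 2 * Bd := by
  classical
  set I := Finset.Icc S (S + i0) ×ˢ Finset.Icc S (S + i0) with hI
  set Ψ : ℕ × ℕ → G → ℝ≥0∞ := fun p x => DS ΛX ΛY (fun L L' => HT hX L = p.1 ∧ HT hY L' = p.2 ∧
    loc L L' ∧ EV TX TY a a' lo hi x L L') with hΨ
  calc _ ≤ ∑' g, μ g * ∑ p ∈ I, Ψ p (e g) := by
        refine ENNReal.tsum_le_tsum fun g => mul_le_mul_right ?_ _
        refine DS_fin ΛX ΛY I (fun p L L' => HT hX L = p.1 ∧ HT hY L' = p.2 ∧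
          loc L L' ∧ EV TX TY a a' lo hi (e g) L L') ?_
        rintro P P' ⟨⟨⟨g1, g2⟩, g3, g4⟩, hev, hl⟩
        have := FP_le hX P S g1
        have := FP_le hY P' S g3
        refine ⟨(HT hX P, HT hY P'), ?_, rfl, rfl, hl, hev⟩
        rw [hI, Finset.mem_product, Finset.mem_Icc, Finset.mem_Icc]
        exact ⟨⟨by assumption, g2⟩, by assumption, g4⟩
    _ = ∑ p ∈ I, ∑' g, μ g * Ψ p (e g) := by
        rw [← Summable.tsum_finsetSum (fun _ _ => ENNReal.summable)]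
        refine tsum_congr fun g => ?_
        rw [Finset.mul_sum]
    _ = ∑ p ∈ I, ∑' x, μ (e.symm x) * Ψ p x := by
        refine Finset.sum_congr rfl fun p _ => ?_
        rw [← e.tsum_eq (fun x => μ (e.symm x) * Ψ p x)]
        refine tsum_congr fun g => ?_
        rw [e.symm_apply_apply]
    _ ≤ ∑ p ∈ I, Bd := by
        refine Finset.sum_le_sum fun p hp => ?_
        rw [hI, Finset.mem_product] at hp
        exact hB p.1 hp.1 p.2 hp.2
    _ = _ := by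
        rw [Finset.sum_const, hI, Finset.card_product, Nat.card_Icc, nsmul_eq_mul]
        have : S + i0 + 1 - S = i0 + 1 := by omega
        rw [this]
        push_cast
        ring

lemma core (h1X : ∀ b, 1 ≤ hX b) (hΛX : ∑' b, ΛX b = 1) (h1Y : ∀ b, 1 ≤ hY b)
    (hΛY : ∑' b, ΛY b = 1) (S i0 : ℕ)
    (α bα γ bγ : ℤ × G → ℝ≥0∞) (MX MY β u Bd : ℝ≥0∞) (RX RY : Finset ℤ)
    (hα : ∑' x, α x ≤ 1) (hαd : ∀ x, α x ≤ MX + bα x) (hβα : ∑' x, bα x ≤ β)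
    (hsα : ∀ x, x.1 ∉ RX → α x = 0)
    (hγ : ∑' x, γ x ≤ 1) (hγd : ∀ x, γ x ≤ MY + bγ x) (hβγ : ∑' x, bγ x ≤ β)
    (hsγ : ∀ x, x.1 ∉ RY → γ x = 0)
    (locX : List BX → Prop) (locY : List BY → Prop)
    (Q3 : List BX → List BY → Prop) (hQ3 : DS ΛX ΛY Q3 ≤ u * u)
    (hQ : ∀ P P', GG hX hY S i0 P P' → ¬ locX P → ¬ locY P' → Q3 P P')
    (w : G) (lo hi : ℕ)
    (h2 : ∀ a ∈ RX, ∀ a' ∈ RY, ∀ h ∈ Finset.Icc S (S + i0), ∀ h' ∈ Finset.Icc S (S + i0),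
      ∀ μ : G → ℝ≥0∞, (∑' x, μ x ≤ 1) → (∀ x, μ x ≤ MX) →
      ∑' x, μ x * DS ΛX ΛY (fun L L' => HT hX L = h ∧ HT hY L' = h' ∧ locX L ∧
        EV TX TY a.toNat a'.toNat lo hi x L L') ≤ Bd)
    (h3 : ∀ a ∈ RX, ∀ a' ∈ RY, ∀ h ∈ Finset.Icc S (S + i0), ∀ h' ∈ Finset.Icc S (S + i0),
      ∀ μ : G → ℝ≥0∞, (∑' x, μ x ≤ 1) → (∀ x, μ x ≤ MY) →
      ∑' x, μ x * DS ΛX ΛY (fun L L' => HT hX L = h ∧ HT hY L' = h' ∧ locY L' ∧
        EV TX TY a.toNat a'.toNat lo hi x L L') ≤ Bd) :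
    ∑' x, α x * ∑' y, γ y * DS ΛX ΛY (fun P P' => GG hX hY S i0 P P' ∧
      EV TX TY x.1.toNat y.1.toNat lo hi (w + y.2 - x.2) P P')
      ≤ u * u + 2 * β + ((RX.card : ℝ≥0∞) + RY.card) * (((i0 : ℝ≥0∞) + 1) ^ 2 * Bd) := by
  classical
  set ψX : ℤ × G → ℤ × G → ℝ≥0∞ := fun x y => DS ΛX ΛY (fun P P' => GG hX hY S i0 P P' ∧
      EV TX TY x.1.toNat y.1.toNat lo hi (w + y.2 - x.2) P P' ∧ locX P) with hψX
  set ψY : ℤ × G → ℤ × G → ℝ≥0∞ := fun x y => DS ΛX ΛY (fun P P' => GG hX hY S i0 P P' ∧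
      EV TX TY x.1.toNat y.1.toNat lo hi (w + y.2 - x.2) P P' ∧ locY P') with hψY
  have hψX1 : ∀ x y, ψX x y ≤ 1 := fun x y =>
    (DS_mono ΛX ΛY fun P P' h => h.1).trans (GG_le_one ΛX hX ΛY hY h1X hΛX h1Y hΛY S i0)
  have hψY1 : ∀ x y, ψY x y ≤ 1 := fun x y =>
    (DS_mono ΛX ΛY fun P P' h => h.1).trans (GG_le_one ΛX hX ΛY hY h1X hΛX h1Y hΛY S i0)
  have s0 : ∀ x y : ℤ × G, DS ΛX ΛY (fun P P' => GG hX hY S i0 P P' ∧
      EV TX TY x.1.toNat y.1.toNat lo hi (w + y.2 - x.2) P P')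
      ≤ ψX x y + (ψY x y + u * u) := by
    intro x y
    refine (DS_or ΛX ΛY (Q1 := fun P P' => GG hX hY S i0 P P' ∧
      EV TX TY x.1.toNat y.1.toNat lo hi (w + y.2 - x.2) P P' ∧ locX P)
      (Q2 := fun P P' => GG hX hY S i0 P P' ∧
      EV TX TY x.1.toNat y.1.toNat lo hi (w + y.2 - x.2) P P' ∧ ¬ locX P) ?_).trans
      (add_le_add le_rfl ?_)
    · intro P P' h
      by_cases hl : locX P
      · exact Or.inl ⟨h.1, h.2, hl⟩
      · exact Or.inr ⟨h.1, h.2, hl⟩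
    · refine (DS_or ΛX ΛY (Q1 := fun P P' => GG hX hY S i0 P P' ∧
        EV TX TY x.1.toNat y.1.toNat lo hi (w + y.2 - x.2) P P' ∧ locY P')
        (Q2 := Q3) ?_).trans (add_le_add le_rfl hQ3)
      intro P P' h
      by_cases hl : locY P'
      · exact Or.inl ⟨h.1, h.2.1, hl⟩
      · exact Or.inr (hQ P P' h.1 h.2.2 hl)
  have hX' : ∀ y : ℤ × G, y.1 ∈ RY → ∑' x, α x * ψX x y
      ≤ β + RX.card * (((i0 : ℝ≥0∞) + 1) ^ 2 * Bd) := by
    intro y hy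
    refine half α bα MX β _ RX hα hαd hβα hsα (fun x => ψX x y) (fun x => hψX1 x y) ?_
    intro a ha μ hμ1 hμ2
    refine locsum ΛX hX ΛY hY TX TY S i0 a.toNat y.1.toNat lo hi (Equiv.subLeft (w + y.2)) μ
      (fun P _ => locX P) Bd ?_
    intro h hh h' hh'
    refine h2 a ha y.1 hy h hh h' hh' (fun x => μ ((Equiv.subLeft (w + y.2)).symm x)) ?_
      (fun x => hμ2 _)
    rw [(Equiv.subLeft (w + y.2)).symm.tsum_eq μ]
    exact hμ1
  have hY' : ∀ x : ℤ × G, x.1 ∈ RX → ∑' y, γ y * ψY x y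
      ≤ β + RY.card * (((i0 : ℝ≥0∞) + 1) ^ 2 * Bd) := by
    intro x hx
    refine half γ bγ MY β _ RY hγ hγd hβγ hsγ (fun y => ψY x y) (fun y => hψY1 x y) ?_
    intro a' ha' μ hμ1 hμ2
    refine locsum ΛX hX ΛY hY TX TY S i0 x.1.toNat a'.toNat lo hi
      ((Equiv.addLeft w).trans (Equiv.subRight x.2)) μ (fun _ P' => locY P') Bd ?_
    intro h hh h' hh'
    refine h3 x.1 hx a' ha' h hh h' hh'
      (fun y => μ (((Equiv.addLeft w).trans (Equiv.subRight x.2)).symm y)) ?_ (fun y => hμ2 _)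
    rw [((Equiv.addLeft w).trans (Equiv.subRight x.2)).symm.tsum_eq μ]
    exact hμ1
  set c1 := ((i0 : ℝ≥0∞) + 1) ^ 2 * Bd with hc1
  have t1 : ∑' x, α x * ∑' y, γ y * ψX x y ≤ β + RX.card * c1 := by
    calc ∑' x, α x * ∑' y, γ y * ψX x y = ∑' y, γ y * ∑' x, α x * ψX x y := by
          simp_rw [← ENNReal.tsum_mul_left]
          rw [ENNReal.tsum_comm]
          refine tsum_congr fun y => tsum_congr fun x => ?_
          ring
      _ ≤ ∑' y, γ y * (β + RX.card * c1) := by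
          refine ENNReal.tsum_le_tsum fun y => ?_
          by_cases hy : y.1 ∈ RY
          · exact mul_le_mul_right (hX' y hy) _
          · rw [hsγ y hy, zero_mul, zero_mul]
      _ = (∑' y, γ y) * (β + RX.card * c1) := ENNReal.tsum_mul_right
      _ ≤ 1 * (β + RX.card * c1) := mul_le_mul_left hγ _
      _ = _ := one_mul _
  have t2 : ∑' x, α x * ∑' y, γ y * ψY x y ≤ β + RY.card * c1 := by
    calc ∑' x, α x * ∑' y, γ y * ψY x y ≤ ∑' x, α x * (β + RY.card * c1) := by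
          refine ENNReal.tsum_le_tsum fun x => ?_
          by_cases hx : x.1 ∈ RX
          · exact mul_le_mul_right (hY' x hx) _
          · rw [hsα x hx, zero_mul, zero_mul]
      _ = (∑' x, α x) * (β + RY.card * c1) := ENNReal.tsum_mul_right
      _ ≤ 1 * (β + RY.card * c1) := mul_le_mul_left hα _
      _ = _ := one_mul _
  have t3 : ∑' x, α x * ∑' y, γ y * (u * u) ≤ u * u := by
    calc ∑' x, α x * ∑' y, γ y * (u * u) = (∑' x, α x) * ((∑' y, γ y) * (u * u)) := by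
          rw [ENNReal.tsum_mul_right, ENNReal.tsum_mul_right]
      _ ≤ 1 * (1 * (u * u)) := mul_le_mul' hα (mul_le_mul_left hγ _)
      _ = _ := by rw [one_mul, one_mul]
  calc _ ≤ ∑' x, α x * ∑' y, γ y * (ψX x y + (ψY x y + u * u)) :=
        ENNReal.tsum_le_tsum fun x => mul_le_mul_right
          (ENNReal.tsum_le_tsum fun y => mul_le_mul_right (s0 x y) _) _
    _ = ∑' x, α x * ∑' y, γ y * ψX x y + (∑' x, α x * ∑' y, γ y * ψY x y
        + ∑' x, α x * ∑' y, γ y * (u * u)) := by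
        simp_rw [mul_add, ENNReal.tsum_add, mul_add]
        rw [ENNReal.tsum_add, ENNReal.tsum_add]
    _ ≤ (β + RX.card * c1) + ((β + RY.card * c1) + u * u) :=
        add_le_add t1 (add_le_add t2 t3)
    _ = _ := by ring

end win

end Crest.Agent.R154.Asm456
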