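import Crest.Agent.R154.AsmC_471

/-! Row 154, T0219 (ROAD 801): one window, total (helper471). -/

set_option autoImplicit false
set_option linter.unusedSectionVars false

namespace Crest.Agent.R154.Asm471

open Crest.Agent.R154.B5A
open scoped ENNReal Classical
open Filter Topology

section card
variable {B G : Type*} [AddCommGroup G] (Λ : B → ℝ≥0∞) (ht : B → ℕ) (dz : B → G)
variable (h1 : ∀ b, 1 ≤ ht b) (hΛ : ∑' b, Λ b = 1)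
include h1 hΛ

lemma local_set (T : ℕ) (th : ℝ≥0∞) (hth : th ≠ 0) : ∃ E : ℕ → Finset G,
    (∀ h z, z ∈ E h ↔ th ≤ pl Λ ht dz T h z) ∧ ∀ h, th * ((E h).card : ℝ≥0∞) ≤ 1 := by
  have hne : ∀ h, ∑' z, pl Λ ht dz T h z ≠ ⊤ := fun h =>
    ne_top_of_le_ne_top ENNReal.one_ne_top (pl_mass_h Λ ht dz h1 hΛ T h)
  refine ⟨fun h => (ENNReal.finite_const_le_of_tsum_ne_top (hne h) hth).toFinset, ?_, ?_⟩
  · intro h z; simp
  · intro h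
    calc _ = ∑ z ∈ (ENNReal.finite_const_le_of_tsum_ne_top (hne h) hth).toFinset, th := by
          rw [Finset.sum_const, nsmul_eq_mul, mul_comm]
      _ ≤ ∑ z ∈ (ENNReal.finite_const_le_of_tsum_ne_top (hne h) hth).toFinset, pl Λ ht dz T h z :=
          Finset.sum_le_sum fun z hz => by simpa using hz
      _ ≤ ∑' z, pl Λ ht dz T h z := ENNReal.sum_le_tsum _
      _ ≤ 1 := pl_mass_h Λ ht dz h1 hΛ T h

end card

section window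
variable {B1 B2 G : Type*} [AddCommGroup G]
variable (Λ1 : B1 → ℝ≥0∞) (h1 : B1 → ℕ) (z1 : B1 → G) (s1 : B1 → Set (G × ℕ))
variable (Λ2 : B2 → ℝ≥0∞) (h2 : B2 → ℕ) (z2 : B2 → G) (s2 : B2 → Set (G × ℕ))

/-- the window inequality, system 1 local -/
def HX (C : ℝ≥0∞) (r0 : ℕ) (η : ℝ≥0∞) (s : ℕ) : Prop :=
  ∀ (h h' a a' lo hi : ℕ) (E : Finset G) (μ : G → ℝ≥0∞) (M lam : ℝ≥0∞),
    a ≤ a' → a' ≤ a + r0 → a + h ≤ a' + h' → a' + h' ≤ a + h + r0 →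
    ∑' x, μ x ≤ 1 → (∀ x, μ x ≤ M) → M ≠ ⊤ → lam ≠ 0 → lam ≠ ⊤ →
    a + s ≤ lo → a' + s ≤ lo → hi + s ≤ a + h → hi + s ≤ a' + h' →
    ∑' x, μ x * ∑' L, ∑' L', (if HT h1 L = h ∧ Dp z1 L ∈ E ∧ HT h2 L' = h' ∧
      Q h1 z1 s1 h2 z2 s2 lo hi L 0 a L' x a' then LW Λ1 L * LW Λ2 L' else 0)
      ≤ C * (lam + M * E.card * η / lam + η)

/-- the window inequality, system 2 local -/
def HY (C : ℝ≥0∞) (r0 : ℕ) (η : ℝ≥0∞) (s : ℕ) : Prop :=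
  ∀ (h h' a a' lo hi : ℕ) (E : Finset G) (μ : G → ℝ≥0∞) (M lam : ℝ≥0∞),
    a ≤ a' → a' ≤ a + r0 → a + h ≤ a' + h' → a' + h' ≤ a + h + r0 →
    ∑' x, μ x ≤ 1 → (∀ x, μ x ≤ M) → M ≠ ⊤ → lam ≠ 0 → lam ≠ ⊤ →
    a + s ≤ lo → a' + s ≤ lo → hi + s ≤ a + h → hi + s ≤ a' + h' →
    ∑' x, μ x * ∑' L, ∑' L', (if HT h1 L = h ∧ HT h2 L' = h' ∧ Dp z2 L' ∈ E ∧
      Q h1 z1 s1 h2 z2 s2 lo hi L 0 a L' x a' then LW Λ1 L * LW Λ2 L' else 0)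
      ≤ C * (lam + M * E.card * η / lam + η)

variable (hh1 : ∀ b, 1 ≤ h1 b) (hh2 : ∀ b, 1 ≤ h2 b) (hΛ1 : ∑' b, Λ1 b = 1) (hΛ2 : ∑' b, Λ2 b = 1)
variable (hU1 : ∀ n, U Λ1 h1 n ≤ 1) (hU2 : ∀ n, U Λ2 h2 n ≤ 1)
variable (hs1 : ∀ b z k, (z, k) ∈ s1 b → 1 ≤ k ∧ k ≤ h1 b)
  (hs2 : ∀ b z k, (z, k) ∈ s2 b → 1 ≤ k ∧ k ≤ h2 b)
include hh1 hh2 hΛ1 hΛ2

lemma arith_kappa (C th lam η : ℝ≥0∞) (i0 J c : ℕ) (g : ℝ≥0∞) (hg : g ≤ J)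
    (hth : th * (c : ℝ≥0∞) ≤ 1) :
    C * (lam + ((i0 + 1 : ℝ≥0∞) * (2 * th) * g) * c * η / lam + η)
      ≤ C * (lam + (2 * (i0 + 1) * J) * η / lam + η) := by
  have h : ((i0 + 1 : ℝ≥0∞) * (2 * th) * g) * c ≤ 2 * (i0 + 1) * J := by
    calc ((i0 + 1 : ℝ≥0∞) * (2 * th) * g) * c = 2 * (i0 + 1) * g * (th * c) := by ring
      _ ≤ 2 * (i0 + 1) * J * 1 := by gcongr
      _ = _ := mul_one _
  exact mul_le_mul_right (add_le_add (add_le_add le_rfl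
    (ENNReal.div_le_div_right (mul_le_mul_left h _) _)) le_rfl) _

/-- **one window** -/
lemma window_total (C : ℝ≥0∞) (J i0 s t lo n : ℕ) (w : G) (u q ε lam η : ℝ≥0∞) (hu : u ≠ 0)
    (hu1 : u ≤ 1) (hq : q = 1 - u) (hlam : lam ≠ 0) (hlam' : lam ≠ ⊤)
    (hU1 : ∀ n, U Λ1 h1 n ≤ 1) (hU2 : ∀ n, U Λ2 h2 n ≤ 1)
    (hs1 : ∀ b z k, (z, k) ∈ s1 b → 1 ≤ k ∧ k ≤ h1 b)
    (hs2 : ∀ b z k, (z, k) ∈ s2 b → 1 ≤ k ∧ k ≤ h2 b)
    (he1 : ∀ T, N h1 T (fun P => if T + i0 < HT h1 P then LW Λ1 P else 0) ≤ ε)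
    (he2 : ∀ T, N h2 T (fun P => if T + i0 < HT h2 P then LW Λ2 P else 0) ≤ ε)
    (hX : HX Λ1 h1 z1 s1 Λ2 h2 z2 s2 C (4 * i0) η s) (hY : HY Λ1 h1 z1 s1 Λ2 h2 z2 s2 C (4 * i0) η s)
    (hlo : J * (t + 2 * s + 4 * i0) + s + 2 * i0 ≤ lo) (hn : lo + t + s + 4 * i0 ≤ n) :
    ∑' L, ∑' L', (if HT h1 L = n ∧ HT h2 L' = n ∧
      (∃ k, Ct h1 z1 s1 h2 z2 s2 L 0 0 L' w 0 k ∧ k ≤ lo + t) ∧
      (∀ k, Ct h1 z1 s1 h2 z2 s2 L 0 0 L' w 0 k →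
        lo < k ∧ (k ≤ lo + t ∨ lo + t + s + 2 * i0 < k))
      then LW Λ1 L * LW Λ2 L' else 0) ≤
      u * u + 2 * ((q ^ J + ε * J) + (i0 + 1) ^ 4 * (C * (lam + (2 * (i0 + 1) * J) * η / lam + η)))
        + 4 * ε := by
  obtain ⟨α, rfl⟩ : ∃ α, lo = α + s + 2 * i0 := ⟨lo - s - 2 * i0, by omega⟩
  have hα : J * (t + 2 * s + 4 * i0) ≤ α := by omega
  set β1 := t + 2 * s + 2 * i0 with hβ1
  set β2 := t + 2 * s + 3 * i0 with hβ2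
  -- quantiles
  obtain ⟨th1, a1, a2, a3, a4⟩ := quant Λ1 h1 z1 hh1 hΛ1 β1 u hu hu1
  obtain ⟨th2, b1, b2, b3, b4⟩ := quant Λ2 h2 z2 hh2 hΛ2 β2 u hu hu1
  obtain ⟨E1, hE1, hc1⟩ := local_set Λ1 h1 z1 hh1 hΛ1 β1 th1 a1
  obtain ⟨E2, hE2, hc2⟩ := local_set Λ2 h2 z2 hh2 hΛ2 β2 th2 b1
  have hq1 : q ≤ 1 := by rw [hq]; exact tsub_le_self
  have hgeo : ∑ j ∈ Finset.range J, q ^ j ≤ (J : ℝ≥0∞) := by
    calc _ ≤ ∑ j ∈ Finset.range J, (1 : ℝ≥0∞) := Finset.sum_le_sum fun j _ => pow_le_one' hq1 j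
      _ = J := by simp
  have hgeo' : ∑ j ∈ Finset.range J, q ^ j ≠ ⊤ :=
    ne_top_of_le_ne_top (ENNReal.natCast_ne_top J) hgeo
  obtain ⟨g1, r1, hgr1, hg1, hr1⟩ := dens Λ1 h1 z1 hh1 hΛ1 β1 i0 (2 * th1) q ε (by
      refine le_trans (N_mono h1 β1 fun P _ => ?_) (hq ▸ a4)
      by_cases h : 2 * th1 < pl Λ1 h1 z1 β1 (HT h1 P) (Dp z1 P)
      · rw [if_pos h]; split_ifs
        · exact le_rfl
        · exact zero_le
      · rw [if_neg h, if_neg (fun h' => h h'.2)]) (he1 β1) J α (by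
      refine le_trans (Nat.mul_le_mul_left J ?_) hα
      omega)
  obtain ⟨g2, r2, hgr2, hg2, hr2⟩ := dens Λ2 h2 z2 hh2 hΛ2 β2 i0 (2 * th2) q ε (by
      refine le_trans (N_mono h2 β2 fun P _ => ?_) (hq ▸ b4)
      by_cases h : 2 * th2 < pl Λ2 h2 z2 β2 (HT h2 P) (Dp z2 P)
      · rw [if_pos h]; split_ifs
        · exact le_rfl
        · exact zero_le
      · rw [if_neg h, if_neg (fun h' => h h'.2)]) (he2 β2) J (α + i0) (by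
      refine le_trans (Nat.mul_le_mul_left J ?_) (hα.trans (by omega))
      omega)
  set κ := C * (lam + (2 * (i0 + 1) * J) * η / lam + η) with hκ
  have hr1' : ∑' a, ∑' z, r1 a z ≤ q ^ J + ε * J := hr1.trans (by gcongr)
  have hr2' : ∑' a, ∑' z, r2 a z ≤ q ^ J + ε * J := hr2.trans (by gcongr)
  have hM1 : (i0 + 1 : ℝ≥0∞) * (2 * th1) * ∑ j ∈ Finset.range J, q ^ j ≠ ⊤ := by
    refine ENNReal.mul_ne_top (ENNReal.mul_ne_top ?_ (ENNReal.mul_ne_top (by norm_num) a2)) hgeo'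
    exact_mod_cast ENNReal.natCast_ne_top (i0 + 1)
  have hM2 : (i0 + 1 : ℝ≥0∞) * (2 * th2) * ∑ j ∈ Finset.range J, q ^ j ≠ ⊤ := by
    refine ENNReal.mul_ne_top (ENNReal.mul_ne_top ?_ (ENNReal.mul_ne_top (by norm_num) b2)) hgeo'
    exact_mod_cast ENNReal.natCast_ne_top (i0 + 1)
  have hw := window Λ1 h1 z1 s1 Λ2 h2 z2 s2 hh1 hh2 hΛ1 hΛ2 hU1 hU2 hs1 hs2 n α β1 (α + i0) β2 i0
    (α + s + 2 * i0) (α + s + 2 * i0 + t) (α + s + 2 * i0 + t + s + 2 * i0) w ε ε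
    (by omega) (by omega) (by omega) (by omega) (by omega) (by omega) (by omega)
    (he1 α) (he1 β1) (he2 (α + i0)) (he2 β2)
  refine hw.trans ?_
  -- the fourfold sum
  have hsplit : M4 Λ1 h1 Λ2 h2 α β1 (α + i0) β2 (fun A P A' P' =>
      if (HT h1 A ≤ α + i0 ∧ HT h2 A' ≤ α + i0 + i0) ∧ (HT h1 P ≤ β1 + i0 ∧ HT h2 P' ≤ β2 + i0) ∧
        Q h1 z1 s1 h2 z2 s2 (α + s + 2 * i0) (α + s + 2 * i0 + t) P (Dp z1 A) (HT h1 A) P'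
          (w + Dp z2 A') (HT h2 A') then 1 else 0) ≤
      M4 Λ1 h1 Λ2 h2 α β1 (α + i0) β2 (fun _ P _ P' =>
        (if Dp z1 P ∈ E1 (HT h1 P) then 0 else 1) * (if Dp z2 P' ∈ E2 (HT h2 P') then 0 else 1)) +
      (M4 Λ1 h1 Λ2 h2 α β1 (α + i0) β2 (fun A P A' P' =>
      if (HT h1 A ≤ α + i0 ∧ HT h2 A' ≤ α + i0 + i0) ∧ (HT h1 P ≤ β1 + i0 ∧ HT h2 P' ≤ β2 + i0) ∧
        Dp z1 P ∈ E1 (HT h1 P) ∧
        Q h1 z1 s1 h2 z2 s2 (α + s + 2 * i0) (α + s + 2 * i0 + t) P (Dp z1 A) (HT h1 A) P'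
          (w + Dp z2 A') (HT h2 A') then 1 else 0) +
      M4 Λ2 h2 Λ1 h1 (α + i0) β2 α β1 (fun A' P' A P =>
      if (HT h2 A' ≤ α + i0 + i0 ∧ HT h1 A ≤ α + i0) ∧ (HT h2 P' ≤ β2 + i0 ∧ HT h1 P ≤ β1 + i0) ∧
        Dp z2 P' ∈ E2 (HT h2 P') ∧
        Q h2 z2 s2 h1 z1 s1 (α + s + 2 * i0) (α + s + 2 * i0 + t) P' (Dp z2 A') (HT h2 A') P
          (-w + Dp z1 A) (HT h1 A) then 1 else 0)) := by
    rw [M4_swap Λ2 h2 Λ1 h1, ← M4_add, ← M4_add]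
    refine M4_mono Λ1 h1 Λ2 h2 _ _ _ _ fun A P A' P' _ _ _ _ => ?_
    by_cases hc : (HT h1 A ≤ α + i0 ∧ HT h2 A' ≤ α + i0 + i0) ∧ (HT h1 P ≤ β1 + i0 ∧ HT h2 P' ≤ β2 + i0) ∧
        Q h1 z1 s1 h2 z2 s2 (α + s + 2 * i0) (α + s + 2 * i0 + t) P (Dp z1 A) (HT h1 A) P'
          (w + Dp z2 A') (HT h2 A')
    · rw [if_pos hc]
      by_cases hl1 : Dp z1 P ∈ E1 (HT h1 P)
      · refine le_add_left (le_add_right ?_)
        rw [if_pos ⟨hc.1, hc.2.1, hl1, hc.2.2⟩]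
      · by_cases hl2 : Dp z2 P' ∈ E2 (HT h2 P')
        · refine le_add_left (le_add_left ?_)
          have hq' : Q h2 z2 s2 h1 z1 s1 (α + s + 2 * i0) (α + s + 2 * i0 + t) P' (Dp z2 A') (HT h2 A') P
              (-w + Dp z1 A) (HT h1 A) := by
            have h3 := (Q_symm h1 z1 s1 h2 z2 s2 _ _ _ _ _ _ _ _).1 hc.2.2
            have h4 := Q_shift h2 z2 s2 h1 z1 s1 (α + s + 2 * i0) (α + s + 2 * i0 + t) P' (Dp z2 A') w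
              (HT h2 A') P (-w + Dp z1 A) (HT h1 A)
            refine h4.1 ?_
            rw [show -w + Dp z1 A + w = Dp z1 A by abel, add_comm (Dp z2 A') w]
            exact h3
          rw [if_pos ⟨⟨hc.1.2, hc.1.1⟩, ⟨hc.2.1.2, hc.2.1.1⟩, hl2, hq'⟩]
        · refine le_add_right ?_
          rw [if_neg hl1, if_neg hl2, mul_one]
    · rw [if_neg hc]; exact zero_le
  have hnl : M4 Λ1 h1 Λ2 h2 α β1 (α + i0) β2 (fun _ P _ P' =>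
        (if Dp z1 P ∈ E1 (HT h1 P) then 0 else 1) * (if Dp z2 P' ∈ E2 (HT h2 P') then 0 else 1)) ≤ u * u := by
    refine M4_prod Λ1 h1 Λ2 h2 hh1 hh2 hΛ1 hΛ2 α β1 (α + i0) β2 _ _ u u ?_ ?_
    · refine le_trans (N_mono h1 β1 fun P _ => ?_) a3
      by_cases h : Dp z1 P ∈ E1 (HT h1 P)
      · rw [if_pos h, mul_zero]; exact zero_le
      · rw [if_neg h, mul_one, if_pos (not_le.1 (fun h' => h ((hE1 _ _).2 h')))]
    · refine le_trans (N_mono h2 β2 fun P _ => ?_) b3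
      by_cases h : Dp z2 P ∈ E2 (HT h2 P)
      · rw [if_pos h, mul_zero]; exact zero_le
      · rw [if_neg h, mul_one, if_pos (not_le.1 (fun h' => h ((hE2 _ _).2 h')))]
  have hl1 := local_part Λ1 h1 z1 s1 Λ2 h2 z2 s2 hh1 hh2 hΛ1 hΛ2 α β1 (α + i0) β2 i0
    (α + s + 2 * i0) (α + s + 2 * i0 + t) w E1 _ κ (q ^ J + ε * J) g1 r1 hgr1 hg1 hr1' (by
      intro a ha a' ha' h hh h' hh' μ hμ hμM
      rw [Finset.mem_Icc] at ha ha' hh hh'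
      refine le_trans (hX h h' a a' (α + s + 2 * i0) (α + s + 2 * i0 + t) (E1 h) μ _ lam
        (by omega) (by omega) (by omega) (by omega) hμ hμM hM1 hlam hlam' (by omega) (by omega)
        (by omega) (by omega)) ?_
      exact arith_kappa Λ1 h1 Λ2 h2 hh1 hh2 hΛ1 hΛ2 C th1 lam η i0 J _ _ hgeo (hc1 h))
  have hl2 := local_part Λ2 h2 z2 s2 Λ1 h1 z1 s1 hh2 hh1 hΛ2 hΛ1 (α + i0) β2 α β1 i0
    (α + s + 2 * i0) (α + s + 2 * i0 + t) (-w) E2 _ κ (q ^ J + ε * J) g2 r2 hgr2 hg2 hr2' (by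
      intro a' ha' a ha h' hh' h hh μ hμ hμM
      rw [Finset.mem_Icc] at ha ha' hh hh'
      have h3 := hY h h' a a' (α + s + 2 * i0) (α + s + 2 * i0 + t) (E2 h') (fun x => μ (-x)) _ lam
        (by omega) (by omega) (by omega) (by omega)
        (((Equiv.neg G).tsum_eq μ).trans_le hμ) (fun x => hμM (-x)) hM2 hlam hlam' (by omega) (by omega)
        (by omega) (by omega)
      refine le_trans (le_trans (le_of_eq ?_) h3) (arith_kappa Λ1 h1 Λ2 h2 hh1 hh2 hΛ1 hΛ2 C th2 lam η i0 J _ _ hgeo (hc2 h'))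
      rw [← (Equiv.neg G).tsum_eq]
      refine tsum_congr fun x => ?_
      simp only [Equiv.neg_apply]
      congr 1
      rw [ENNReal.tsum_comm]
      refine tsum_congr fun L => tsum_congr fun L' => ?_
      have hqq : Q h2 z2 s2 h1 z1 s1 (α + s + 2 * i0) (α + s + 2 * i0 + t) L' 0 a' L (-x) a ↔
          Q h1 z1 s1 h2 z2 s2 (α + s + 2 * i0) (α + s + 2 * i0 + t) L 0 a L' x a' := by
        rw [Q_symm h2 z2 s2 h1 z1 s1]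
        have := Q_shift h1 z1 s1 h2 z2 s2 (α + s + 2 * i0) (α + s + 2 * i0 + t) L (-x) x a L' 0 a'
        rw [neg_add_cancel, zero_add] at this
        exact this.symm
      rw [mul_comm (LW Λ2 L')]
      by_cases hc : HT h2 L' = h' ∧ Dp z2 L' ∈ E2 h' ∧ HT h1 L = h ∧
          Q h2 z2 s2 h1 z1 s1 (α + s + 2 * i0) (α + s + 2 * i0 + t) L' 0 a' L (-x) a
      · rw [if_pos hc, if_pos ⟨hc.2.2.1, hc.1, hc.2.1, hqq.1 hc.2.2.2⟩]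
      · rw [if_neg hc, if_neg (fun h5 => hc ⟨h5.2.1, h5.2.2.1, h5.1, hqq.2 h5.2.2.2⟩)])
  calc _ ≤ (u * u + ((q ^ J + ε * J + (i0 + 1) ^ 4 * κ) + (q ^ J + ε * J + (i0 + 1) ^ 4 * κ)))
        + (2 * ε + 2 * ε) := by
        refine add_le_add ?_ le_rfl
        exact hsplit.trans (add_le_add hnl (add_le_add hl1 hl2))
    _ = _ := by ring

end window

end Crest.Agent.R154.Asm471
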