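import Crest.Agent.R154.AsmC_474

/-! Row 154, ROAD 801 (helper474): abstract assembly, part D: pathwise decomposition, union bound. -/

set_option autoImplicit false
set_option linter.unusedVariables false
set_option linter.unusedSectionVars false

namespace Crest.Agent.R154.Asm474

open scoped ENNReal
open Crest.Agent.R154.B5A Crest.Agent.R154.FP178
open Crest.Agent.R154.KWB419 (TT)
open Classical

section Trace

variable {B G : Type*} [AddCommGroup G] (s : B → Set (G × ℕ)) (h : B → ℕ) (z : B → G)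

lemma TT_append (L L' : List B) (x : G) (a : ℕ) :
    TT s h z (L ++ L') x a = TT s h z L x a ∪ TT s h z L' (x + (L.map z).sum) (a + HT h L) := by
  induction L generalizing x a with
  | nil => simp [TT, HT_nil]
  | cons b L ih =>
    rw [List.cons_append, TT, TT, ih, Set.union_assoc, HT_cons]
    simp only [List.map_cons, List.sum_cons, add_assoc]

lemma TT_depth (hs : ∀ b, ∀ p ∈ s b, 1 ≤ p.2 ∧ p.2 ≤ h b) (L : List B) (x : G) (a : ℕ)
    (y : G) (k : ℕ) (hy : (y, k) ∈ TT s h z L x a) : a < k ∧ k ≤ a + HT h L := by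
  induction L generalizing x a with
  | nil => simp [TT] at hy
  | cons b L ih =>
    rw [TT] at hy
    rw [HT_cons]
    rcases hy with ⟨q, hq, he⟩ | hy
    · have := hs b q hq
      have e2 : k = a + q.2 := congrArg Prod.snd he
      omega
    · have := ih _ _ hy
      omega

lemma TT_shift (L : List B) (x c : G) (a : ℕ) (y : G) (k : ℕ) :
    (y, k) ∈ TT s h z L (x + c) a ↔ (y - c, k) ∈ TT s h z L x a := by
  induction L generalizing x a with
  | nil => simp [TT]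
  | cons b L ih =>
    rw [TT, TT]
    simp only [Set.mem_union, Set.mem_ofPred_eq, Prod.mk.injEq]
    refine or_congr ?_ ?_
    · constructor
      · rintro ⟨q, hq, e1, e2⟩
        exact ⟨q, hq, by rw [e1]; abel, e2⟩
      · rintro ⟨q, hq, e1, e2⟩
        refine ⟨q, hq, ?_, e2⟩
        rw [sub_eq_iff_eq_add] at e1
        rw [e1]; abel
    · rw [show x + c + z b = (x + z b) + c by abel]
      exact ih _ _

lemma TT_mid (hs : ∀ b, ∀ p ∈ s b, 1 ≤ p.2 ∧ p.2 ≤ h b) (A P R : List B) (x : G) (a : ℕ)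
    (y : G) (k : ℕ) (hy : (y, k) ∈ TT s h z (A ++ P ++ R) x a) (h1 : a + HT h A < k)
    (h2 : k ≤ a + HT h A + HT h P) :
    (y, k) ∈ TT s h z P (x + (A.map z).sum) (a + HT h A) := by
  rw [TT_append, TT_append] at hy
  rcases hy with (hy | hy) | hy
  · have := TT_depth s h z hs _ _ _ _ _ hy
    omega
  · exact hy
  · have := TT_depth s h z hs _ _ _ _ _ hy
    rw [HT_append] at this
    omega

lemma TT_mid' (A P R : List B) (x : G) (a : ℕ) (y : G) (k : ℕ)
    (hy : (y, k) ∈ TT s h z P (x + (A.map z).sum) (a + HT h A)) :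
    (y, k) ∈ TT s h z (A ++ P ++ R) x a := by
  rw [TT_append, TT_append]
  exact Or.inl (Or.inr hy)

end Trace

section Bad

variable {B V : Type*} [AddCommGroup V] (Λ : B → ℝ≥0∞) (ht : B → ℕ) (st' : List B → V)

/-- a piece of depth `T` after a prefix in `NP` overshoots by more than `i0` -/
def Bad (NP : List B → Prop) (T i0 : ℕ) (L : List B) : Prop :=
  ∃ A P R, NP A ∧ fp ht T P ∧ T + i0 < HT ht P ∧ L = A ++ P ++ R

lemma one_bad (h1 : ∀ b, 1 ≤ ht b) (hU1 : ∀ n, U Λ ht n ≤ 1) (NP : List B → Prop) (Sv : V → ℝ≥0∞)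
    (hS : ∀ f : V → ℝ≥0∞, ∑' A, (if NP A then LW Λ A * f (st' A) else 0) ≤ ∑' v, Sv v * f v)
    (hSv : ∑' v, Sv v ≤ 1) (n T i0 : ℕ) :
    ∑' L, (if HT ht L = n ∧ Bad ht NP T i0 L then LW Λ L else 0) ≤ ∑' k, tail Λ ht (i0 + k) := by
  calc ∑' L, (if HT ht L = n ∧ Bad ht NP T i0 L then LW Λ L else 0)
      ≤ ∑' t : List B × List B × List B, (if NP t.1 ∧ fp ht T t.2.1 ∧
        HT ht (t.1 ++ t.2.1 ++ t.2.2) = n then LW Λ (t.1 ++ t.2.1 ++ t.2.2) *
          (fun (_ : V) P => if T + i0 < HT ht P then 1 else 0) (st' t.1) t.2.1 else 0) := by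
        refine cover _ _ (fun t : List B × List B × List B => t.1 ++ t.2.1 ++ t.2.2) fun L hL => ?_
        by_cases h : HT ht L = n ∧ Bad ht NP T i0 L
        · obtain ⟨hn, A, P, R, hA, hP, ho, rfl⟩ := h
          refine ⟨(A, P, R), rfl, ?_⟩
          rw [if_pos ⟨hn, A, P, R, hA, hP, ho, rfl⟩]
          simp only
          rw [if_pos ⟨hA, hP, hn⟩, if_pos ho, mul_one]
        · exact absurd (if_neg h) hL
    _ ≤ ∑' v, Sv v * ∑' P, F1 Λ ht T P * (if T + i0 < HT ht P then 1 else 0) :=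
        dec1 Λ ht st' hU1 NP Sv hS n T (fun _ P => if T + i0 < HT ht P then 1 else 0)
    _ ≤ ∑' P, F1 Λ ht T P * (if T + i0 < HT ht P then 1 else 0) := by
        rw [ENNReal.tsum_mul_right]
        exact mul_le_of_le_one_left' hSv
    _ = ∑' L, (if fp ht T L ∧ T + i0 < HT ht L then LW Λ L else 0) := by
        refine tsum_congr fun P => ?_
        unfold F1
        by_cases h1 : fp ht T P <;> by_cases h2 : T + i0 < HT ht P <;> simp [h1, h2]
    _ ≤ _ := overshoot Λ ht h1 hU1 i0 T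

end Bad

variable {BX BY G : Type*} [AddCommGroup G] (ΛX : BX → ℝ≥0∞) (ΛY : BY → ℝ≥0∞)
  (hX : BX → ℕ) (hY : BY → ℕ) (zX : BX → G) (zY : BY → G)
  (sX : BX → Set (G × ℕ)) (sY : BY → Set (G × ℕ))

noncomputable def PP (n : ℕ) (E : List BX → List BY → Prop) : ℝ≥0∞ :=
  ∑' LX, ∑' LY, (if HT hX LX = n ∧ HT hY LY = n ∧ E LX LY then LW ΛX LX * LW ΛY LY else 0)

lemma PP_mono (n : ℕ) (E E' : List BX → List BY → Prop)
    (h : ∀ LX LY, HT hX LX = n → HT hY LY = n → E LX LY → E' LX LY) :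
    PP ΛX ΛY hX hY n E ≤ PP ΛX ΛY hX hY n E' := by
  refine ENNReal.tsum_le_tsum fun LX => ENNReal.tsum_le_tsum fun LY => ?_
  by_cases h1 : HT hX LX = n ∧ HT hY LY = n ∧ E LX LY
  · rw [if_pos h1, if_pos ⟨h1.1, h1.2.1, h _ _ h1.1 h1.2.1 h1.2.2⟩]
  · rw [if_neg h1]; exact zero_le

lemma PP_or (n : ℕ) (E E' : List BX → List BY → Prop) :
    PP ΛX ΛY hX hY n (fun L L' => E L L' ∨ E' L L')
      ≤ PP ΛX ΛY hX hY n E + PP ΛX ΛY hX hY n E' := by
  unfold PP
  rw [← ENNReal.tsum_add]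
  refine ENNReal.tsum_le_tsum fun LX => ?_
  rw [← ENNReal.tsum_add]
  refine ENNReal.tsum_le_tsum fun LY => ?_
  by_cases h0 : HT hX LX = n <;> by_cases h00 : HT hY LY = n <;> by_cases h1 : E LX LY <;>
    by_cases h2 : E' LX LY <;> simp [h0, h00, h1, h2]

lemma PP_fin {ι : Type*} (R : Finset ι) (n : ℕ) (E : ι → List BX → List BY → Prop) :
    PP ΛX ΛY hX hY n (fun L L' => ∃ i ∈ R, E i L L') ≤ ∑ i ∈ R, PP ΛX ΛY hX hY n (E i) := by
  induction R using Finset.induction_on with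
  | empty =>
    simp [PP]
  | insert a R ha ih =>
    rw [Finset.sum_insert ha]
    refine le_trans (PP_mono ΛX ΛY hX hY n _ (fun L L' => E a L L' ∨ ∃ i ∈ R, E i L L') ?_)
      ((PP_or ΛX ΛY hX hY n _ _).trans (add_le_add le_rfl ih))
    rintro LX LY - - ⟨i, hi, hE⟩
    rcases Finset.mem_insert.1 hi with rfl | hi
    · exact Or.inl hE
    · exact Or.inr ⟨i, hi, hE⟩

lemma PP_X (hUY : ∀ n, U ΛY hY n ≤ 1) (n : ℕ) (E : List BX → Prop) (e : ℝ≥0∞)
    (he : ∑' L, (if HT hX L = n ∧ E L then LW ΛX L else 0) ≤ e) :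
    PP ΛX ΛY hX hY n (fun L _ => E L) ≤ e := by
  unfold PP
  calc _ = ∑' LX, (if HT hX LX = n ∧ E LX then LW ΛX LX else 0) * U ΛY hY n := by
        refine tsum_congr fun LX => ?_
        rw [U, ← ENNReal.tsum_mul_left]
        refine tsum_congr fun LY => ?_
        by_cases h0 : HT hX LX = n <;> by_cases h00 : HT hY LY = n <;> by_cases h1 : E LX <;>
          simp [h0, h00, h1]
    _ ≤ e * 1 := by
        rw [ENNReal.tsum_mul_right]
        exact mul_le_mul' he (hUY n)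
    _ = e := mul_one _

lemma PP_Y (hUX : ∀ n, U ΛX hX n ≤ 1) (n : ℕ) (E : List BY → Prop) (e : ℝ≥0∞)
    (he : ∑' L, (if HT hY L = n ∧ E L then LW ΛY L else 0) ≤ e) :
    PP ΛX ΛY hX hY n (fun _ L => E L) ≤ e := by
  unfold PP
  calc _ = ∑' LX, (if HT hX LX = n then LW ΛX LX else 0) *
        ∑' LY, (if HT hY LY = n ∧ E LY then LW ΛY LY else 0) := by
        refine tsum_congr fun LX => ?_
        rw [← ENNReal.tsum_mul_left]
        refine tsum_congr fun LY => ?_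
        by_cases h0 : HT hX LX = n <;> by_cases h00 : HT hY LY = n <;> by_cases h1 : E LY <;>
          simp [h0, h00, h1]
    _ ≤ 1 * e := by
        rw [ENNReal.tsum_mul_right]
        exact mul_le_mul' (hUX n) he
    _ = e := one_mul _

/-- there is a contact at depth in `[lo', hi']` -/
def Slab (w : G) (lo' hi' : ℕ) (L : List BX) (L' : List BY) : Prop :=
  ∃ z k, lo' ≤ k ∧ k ≤ hi' ∧ (z, k) ∈ TT sX hX zX L 0 0 ∧ (z, k) ∈ TT sY hY zY L' w 0

/-- event of window `j` -/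
def WinE (w : G) (D T i0 s W j : ℕ) (L : List BX) (L' : List BY) : Prop :=
  ∃ A P R A' P' R', npD hX 0 T j A ∧ fp hX T P ∧ L = A ++ P ++ R ∧ npD hY D T j A' ∧
    fp hY T P' ∧ L' = A' ++ P' ++ R' ∧
    Cond hX hY zX zY sX sY s (j * T + W + s) ((j + 1) * T - s) (Finset.Icc (j * T) (j * T + W))
      (Finset.Icc T (T + i0)) w (st hX zX A) P (st hY zY A') P'

theorem path (hsX : ∀ b, ∀ p ∈ sX b, 1 ≤ p.2 ∧ p.2 ≤ hX b)
    (hsY : ∀ b, ∀ p ∈ sY b, 1 ≤ p.2 ∧ p.2 ≤ hY b)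
    (K N D W T i0 s m n : ℕ) (w : G) (hK : 1 ≤ K) (hN : N = 2 * K + 1) (hD : D = N * i0 + 1)
    (hW : W = D + (N + 1) * i0) (hT : T = m / K) (hT2 : 2 * K ≤ T) (hTs : s ≤ T) (hm : W ≤ m)
    (hn : D + i0 + N * (T + i0) ≤ n)
    (LX : List BX) (LY : List BY) (hHX : HT hX LX = n) (hHY : HT hY LY = n)
    (hc : ∃ z k, m < k ∧ k ≤ 2 * m ∧ (z, k) ∈ TT sX hX zX LX 0 0 ∧ (z, k) ∈ TT sY hY zY LY w 0) :
    (∃ i ∈ Finset.range N, Bad hX (npD hX 0 T i) T i0 LX) ∨
    (Bad hY (npD hY 0 D 0) D i0 LY) ∨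
    (∃ i ∈ Finset.range N, Bad hY (npD hY D T i) T i0 LY) ∨
    (∃ j ∈ Finset.Icc K (2 * K + 1), Slab hX hY zX zY sX sY w (j * T - s) (j * T + W + s) LX LY) ∨
    (∃ j ∈ Finset.Icc K (2 * K), WinE hX hY zX zY sX sY w D T i0 s W j LX LY) := by
  obtain ⟨z, k, hmk, hk2, hzX, hzY⟩ := hc
  have f4 : (N + 1) * i0 = N * i0 + i0 := by ring
  have hKT : K * T ≤ m := by rw [hT]; exact Nat.mul_div_le m K
  have hKT2 : m < K * T + K := by
    rw [hT]
    have := Nat.lt_mul_div_succ m (show 0 < K by omega)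
    rw [mul_add, mul_one] at this
    exact this
  have hNT : 2 * m < N * T := by
    have : N * T = 2 * (K * T) + T := by rw [hN]; ring
    omega
  rcases chain hX T i0 N LX (by omega) with ⟨i, hi, A, P, R, hA, hP, ho, he⟩ | ⟨PsX, hlX, hPX, RX, hLX⟩
  · exact Or.inl ⟨i, Finset.mem_range.2 hi, A, P, R, ⟨[], A, (fp_zero hX []).2 rfl, hA, rfl⟩,
      hP, ho, he⟩
  obtain ⟨A0, L', hA0, rfl⟩ := exists_fp hY D LY (by omega)
  by_cases ho0 : D + i0 < HT hY A0
  · exact Or.inr (Or.inl ⟨[], A0, L', ⟨[], [], (fp_zero hY []).2 rfl, rfl, rfl⟩, hA0, ho0, by simp⟩)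
  rw [HT_append] at hHY
  have hDA := le_HT_of_fp hY hA0
  rcases chain hY T i0 N L' (by omega) with ⟨i, hi, A, P, R, hA, hP, ho, he⟩ | ⟨PsY, hlY, hPY, RY, hLY⟩
  · exact Or.inr (Or.inr (Or.inl ⟨i, Finset.mem_range.2 hi, A0 ++ A, P, R, ⟨A0, A, hA0, hA, rfl⟩,
      hP, ho, by rw [he]; simp⟩))
  by_cases hsl : ∃ j ∈ Finset.Icc K (2 * K + 1),
      Slab hX hY zX zY sX sY w (j * T - s) (j * T + W + s) LX (A0 ++ L')
  · exact Or.inr (Or.inr (Or.inr (Or.inl hsl)))
  refine Or.inr (Or.inr (Or.inr (Or.inr ?_)))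
  have nosl : ∀ j, K ≤ j → j ≤ 2 * K + 1 → ∀ z k, (z, k) ∈ TT sX hX zX LX 0 0 →
      (z, k) ∈ TT sY hY zY (A0 ++ L') w 0 → j * T ≤ k + s → k ≤ j * T + W + s → False := by
    intro j h1 h2 z k h3 h4 h5 h6
    exact hsl ⟨j, Finset.mem_Icc.2 ⟨h1, h2⟩, z, k, by omega, h6, h3, h4⟩
  have hfX := flat_le hX T i0 PsX hPX
  have hfY := flat_le hY T i0 PsY hPY
  rw [hlX] at hfX
  rw [hlY] at hfY
  obtain ⟨j, A, P, R, hj, eX, hnA, hfP, hP1, hP2, hA1, hA2, hk3, hk4⟩ :=
    locate hX T i0 PsX RX k hPX (by omega) (by omega)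
  obtain ⟨j', A', P', R', hj', eY, hnA', hfP', hP1', hP2', hA1', hA2', hk3', hk4'⟩ :=
    locate hY T i0 PsY RY (k - HT hY A0) hPY (by omega) (by omega)
  rw [← hLX] at eX
  rw [← hLY] at eY
  -- arithmetic facts
  have f1 : ∀ i, (i + 1) * T = i * T + T := fun i => by ring
  have f2 : ∀ i, i * (T + i0) = i * T + i * i0 := fun i => by ring
  have f3 : ∀ i, i + 1 ≤ N → i * i0 + i0 ≤ N * i0 := fun i hi => by
    calc i * i0 + i0 = (i + 1) * i0 := by ring
      _ ≤ N * i0 := Nat.mul_le_mul_right _ hi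
  rw [hlX] at hj
  rw [hlY] at hj'
  have g1 := f3 j (by omega)
  have g2 := f3 j' (by omega)
  rw [f2] at hA2 hA2'
  have hjK : K ≤ j := by
    by_contra hcon
    have h1 : (j + 1) * T ≤ K * T := Nat.mul_le_mul_right _ (by omega)
    rw [f1] at h1
    exact nosl K le_rfl (by omega) z k hzX hzY (by omega) (by omega)
  have hj2 : j ≤ 2 * K := by omega
  have hj'K : K ≤ j' := by
    by_contra hcon
    have h1 : (j' + 1) * T ≤ K * T := Nat.mul_le_mul_right _ (by omega)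
    rw [f1] at h1
    exact nosl K le_rfl (by omega) z k hzX hzY (by omega) (by omega)
  have hj'2 : j' ≤ 2 * K := by omega
  have a1 : j * T + W + s < k := by
    by_contra hcon
    exact nosl j hjK (by omega) z k hzX hzY (by omega) (by omega)
  have a2 : k + s < (j + 1) * T := by
    by_contra hcon
    refine nosl (j + 1) (by omega) (by omega) z k hzX hzY (by omega) ?_
    rw [f1]; omega
  have a1' : j' * T + W + s < k := by
    by_contra hcon
    exact nosl j' hj'K (by omega) z k hzX hzY (by omega) (by omega)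
  have a2' : k + s < (j' + 1) * T := by
    by_contra hcon
    refine nosl (j' + 1) (by omega) (by omega) z k hzX hzY (by omega) ?_
    rw [f1]; omega
  have hjj : j = j' := by
    rcases lt_trichotomy j j' with h | h | h
    · exfalso
      have : (j + 1) * T ≤ j' * T := Nat.mul_le_mul_right _ h
      omega
    · exact h
    · exfalso
      have : (j' + 1) * T ≤ j * T := Nat.mul_le_mul_right _ h
      omega
  subst hjj
  have eY2 : A0 ++ L' = (A0 ++ A') ++ P' ++ R' := by rw [eY]; simp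
  refine ⟨j, Finset.mem_Icc.2 ⟨hjK, hj2⟩, A, P, R, A0 ++ A', P', R',
    ⟨[], A, (fp_zero hX []).2 rfl, hnA, rfl⟩, hfP, eX, ⟨A0, A', hA0, hnA', rfl⟩, hfP', eY2, ?_⟩
  have g3 := f1 j
  have hAA : HT hY (A0 ++ A') = HT hY A0 + HT hY A' := HT_append _ _ _
  refine ⟨HT hX A, Finset.mem_Icc.2 ⟨by omega, by omega⟩, HT hY (A0 ++ A'),
    Finset.mem_Icc.2 ⟨by omega, by omega⟩, HT hX P, Finset.mem_Icc.2 ⟨hP1, hP2⟩, HT hY P',
    Finset.mem_Icc.2 ⟨hP1', hP2'⟩, rfl, rfl, rfl, rfl, ?_, ?_, ?_⟩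
  · refine ⟨by omega, by omega, by omega, by omega, by omega, by omega⟩
  · have hx := TT_mid sX hX zX hsX A P R 0 0 z k (by rw [← eX]; exact hzX) (by omega) (by omega)
    have hy := TT_mid sY hY zY hsY (A0 ++ A') P' R' w 0 z k (by rw [← eY2]; exact hzY)
      (by omega) (by omega)
    rw [zero_add] at hy
    rw [TT_shift, zero_add] at hx
    refine ⟨z - (A.map zX).sum, k, hx, ?_⟩
    have e2 : w + (st hY zY (A0 ++ A')).2 = (w + (st hY zY (A0 ++ A')).2 - (st hX zX A).2) + (A.map zX).sum := by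
      simp [st]
    have hy' : (z, k) ∈ TT sY hY zY P' (w + (st hY zY (A0 ++ A')).2) (HT hY (A0 ++ A')) := hy
    rw [e2, TT_shift] at hy'
    exact hy'
  · intro z' k' h1 h2
    have hx : (z' + (A.map zX).sum, k') ∈ TT sX hX zX P (0 + (A.map zX).sum) (0 + HT hX A) := by
      rw [TT_shift, add_sub_cancel_right, zero_add]; exact h1
    have hy : (z' + (A.map zX).sum, k') ∈ TT sY hY zY P' (w + ((A0 ++ A').map zY).sum)
        (0 + HT hY (A0 ++ A')) := by
      have e2 : w + ((A0 ++ A').map zY).sum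
          = (w + (st hY zY (A0 ++ A')).2 - (st hX zX A).2) + (A.map zX).sum := by
        simp [st]
      rw [e2, TT_shift, add_sub_cancel_right, zero_add]
      exact h2
    have dX := TT_depth sX hX zX hsX _ _ _ _ _ h1
    have dY := TT_depth sY hY zY hsY _ _ _ _ _ h2
    have kx := TT_mid' sX hX zX A P R 0 0 _ _ hx
    have ky := TT_mid' sY hY zY (A0 ++ A') P' R' w 0 _ _ hy
    rw [← eX] at kx
    rw [← eY2] at ky
    constructor
    · by_contra hcon
      exact nosl j hjK (by omega) _ k' kx ky (by omega) (by omega)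
    · by_contra hcon
      refine nosl (j + 1) (by omega) (by omega) _ k' kx ky (by omega) ?_
      rw [f1]; omega

end Crest.Agent.R154.Asm474
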