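import Crest.Agent.R154.AsmC_508

/-! Row 154, ROAD 801 (helper508): one window, both walkers. -/

set_option autoImplicit false

namespace Crest.Agent.R154.Asm508

open Crest.Agent.R154.B5A
open scoped ENNReal

variable {BX BY G : Type*} [AddCommGroup G] (ΛX : BX → ℝ≥0∞) (hX : BX → ℕ) (zX : BX → G)
  (sX : BX → Set (G × ℕ)) (ΛY : BY → ℝ≥0∞) (hY : BY → ℕ) (zY : BY → G) (sY : BY → Set (G × ℕ))

/-- common site at depth in `[lo, hi]` -/
def Con (lo hi : ℕ) (L : List BX) (L' : List BY) (x x' : G) (a a' : ℕ) : Prop :=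
  ∃ y k, lo ≤ k ∧ k ≤ hi ∧ (y, k) ∈ Tr hX zX sX L x a ∧ (y, k) ∈ Tr hY zY sY L' x' a'

open Classical in
/-- one-window input, X local -/
def H2 (C : ℝ≥0∞) (us : ℕ → ℝ≥0∞) : Prop :=
  ∀ (s h h' a a' lo hi : ℕ) (E : Finset G) (μ : G → ℝ≥0∞) (M lam : ℝ≥0∞), ∑' x, μ x ≤ 1 →
    (∀ x, μ x ≤ M) → lam ≠ 0 → lam ≠ ⊤ → a + s ≤ lo → a' + s ≤ lo → hi + s ≤ a + h →
    hi + s ≤ a' + h' →
    ∑' x, μ x * ∑' L, ∑' L', (if HT hX L = h ∧ Dp zX L ∈ E ∧ HT hY L' = h' ∧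
      Con hX zX sX hY zY sY lo hi L L' 0 x a a' then LW ΛX L * LW ΛY L' else 0)
      ≤ C * lam + C * M * E.card * us s / lam

open Classical in
/-- one-window input, Y local -/
def H3 (C : ℝ≥0∞) (us : ℕ → ℝ≥0∞) : Prop :=
  ∀ (s h h' a a' lo hi : ℕ) (E : Finset G) (μ : G → ℝ≥0∞) (M lam : ℝ≥0∞), ∑' x, μ x ≤ 1 →
    (∀ x, μ x ≤ M) → lam ≠ 0 → lam ≠ ⊤ → a + s ≤ lo → a' + s ≤ lo → hi + s ≤ a + h →
    hi + s ≤ a' + h' →
    ∑' x, μ x * ∑' L, ∑' L', (if HT hX L = h ∧ Dp zY L' ∈ E ∧ HT hY L' = h' ∧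
      Con hX zX sX hY zY sY lo hi L L' 0 x a a' then LW ΛX L * LW ΛY L' else 0)
      ≤ C * lam + C * M * E.card * us s / lam

lemma Con_shift (lo hi : ℕ) (L : List BX) (L' : List BY) (x x' : G) (a a' : ℕ) :
    Con hX zX sX hY zY sY lo hi L L' x x' a a' ↔
      Con hX zX sX hY zY sY lo hi L L' 0 (x' - x) a a' := by
  constructor
  · rintro ⟨y, k, h1, h2, h3, h4⟩
    refine ⟨y - x, k, h1, h2, ?_, ?_⟩
    · have := (Tr_shift hX zX sX L 0 x a (y, k)).1 (by rwa [zero_add])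
      exact this
    · have := (Tr_shift hY zY sY L' (x' - x) x a' (y, k)).1 (by rwa [sub_add_cancel])
      exact this
  · rintro ⟨y, k, h1, h2, h3, h4⟩
    refine ⟨y + x, k, h1, h2, ?_, ?_⟩
    · have := (Tr_shift hX zX sX L 0 x a (y + x, k)).2 (by simpa using h3)
      rwa [zero_add] at this
    · have := (Tr_shift hY zY sY L' (x' - x) x a' (y + x, k)).2 (by simpa using h4)
      rwa [sub_add_cancel] at this

open Classical in
/-- piece sum with side conditions `P`, `Q` on the two pieces -/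
noncomputable def PS (τ i0 lo hi a : ℕ) (P : List BX → Prop) (Q : List BY → Prop)
    (i i' : ℕ) (y : G) : ℝ≥0∞ :=
  fpS ΛX hX τ (fun L => if HT hX L ≤ τ + i0 ∧ P L then
    fpS ΛY hY τ (fun L' => if HT hY L' ≤ τ + i0 ∧ Q L' ∧
      Con hX zX sX hY zY sY lo hi L L' 0 y (a + i) (a + i') then 1 else 0) else 0)

lemma PS_le_one (h1X : ∀ b, 1 ≤ hX b) (hΛX : ∑' b, ΛX b = 1) (h1Y : ∀ b, 1 ≤ hY b)
    (hΛY : ∑' b, ΛY b = 1) (τ i0 lo hi a : ℕ) (P : List BX → Prop) (Q : List BY → Prop)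
    (i i' : ℕ) (y : G) : PS ΛX hX zX sX ΛY hY zY sY τ i0 lo hi a P Q i i' y ≤ 1 := by
  refine fpS_le ΛX hX h1X hΛX _ fun L _ => ?_
  split_ifs
  · refine fpS_le ΛY hY h1Y hΛY _ fun L' _ => ?_
    split_ifs <;> simp
  · exact zero_le

open Classical in
/-- `PS` is a sum over the heights of the two pieces -/
lemma PS_le_sum (τ i0 lo hi a : ℕ) (P : List BX → Prop) (Q : List BY → Prop)
    (i i' : ℕ) (y : G) : PS ΛX hX zX sX ΛY hY zY sY τ i0 lo hi a P Q i i' y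
      ≤ ∑ j ∈ Finset.range (i0 + 1), ∑ j' ∈ Finset.range (i0 + 1), ∑' L, ∑' L',
        (if HT hX L = τ + j ∧ P L ∧ Q L' ∧ HT hY L' = τ + j' ∧
          Con hX zX sX hY zY sY lo hi L L' 0 y (a + i) (a + i')
          then LW ΛX L * LW ΛY L' else 0) := by
  have e1 : ∀ j ∈ Finset.range (i0 + 1), ∑ j' ∈ Finset.range (i0 + 1), ∑' L, ∑' L',
        (if HT hX L = τ + j ∧ P L ∧ Q L' ∧ HT hY L' = τ + j' ∧
          Con hX zX sX hY zY sY lo hi L L' 0 y (a + i) (a + i')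
          then LW ΛX L * LW ΛY L' else 0)
      = ∑' L, ∑' L', ∑ j' ∈ Finset.range (i0 + 1),
        (if HT hX L = τ + j ∧ P L ∧ Q L' ∧ HT hY L' = τ + j' ∧
          Con hX zX sX hY zY sY lo hi L L' 0 y (a + i) (a + i')
          then LW ΛX L * LW ΛY L' else 0) := by
    intro j _
    rw [← Summable.tsum_finsetSum (fun _ _ => ENNReal.summable)]
    refine tsum_congr fun L => ?_
    rw [← Summable.tsum_finsetSum (fun _ _ => ENNReal.summable)]
  rw [Finset.sum_congr rfl e1, ← Summable.tsum_finsetSum (fun _ _ => ENNReal.summable)]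
  rw [PS, fpS]
  refine ENNReal.tsum_le_tsum fun L => ?_
  rw [← Summable.tsum_finsetSum (fun _ _ => ENNReal.summable)]
  by_cases hL : FP hX L τ
  swap
  · rw [if_neg hL]; exact zero_le
  have hge := FP_ge hX L τ hL
  rw [if_pos hL]
  by_cases hc : HT hX L ≤ τ + i0 ∧ P L
  swap
  · rw [if_neg hc, mul_zero]; exact zero_le
  rw [if_pos hc, fpS, ← ENNReal.tsum_mul_left]
  refine ENNReal.tsum_le_tsum fun L' => ?_
  by_cases hL' : FP hY L' τ
  swap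
  · rw [if_neg hL', mul_zero]; exact zero_le
  have hge' := FP_ge hY L' τ hL'
  rw [if_pos hL']
  by_cases hc' : HT hY L' ≤ τ + i0 ∧ Q L' ∧
      Con hX zX sX hY zY sY lo hi L L' 0 y (a + i) (a + i')
  swap
  · rw [if_neg hc', mul_zero, mul_zero]; exact zero_le
  rw [if_pos hc', mul_one]
  refine le_trans ?_ (Finset.single_le_sum (f := fun j => ∑ j' ∈ Finset.range (i0 + 1),
        (if HT hX L = τ + j ∧ P L ∧ Q L' ∧ HT hY L' = τ + j' ∧
          Con hX zX sX hY zY sY lo hi L L' 0 y (a + i) (a + i')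
          then LW ΛX L * LW ΛY L' else 0)) (fun _ _ => zero_le)
    (Finset.mem_range.2 (show HT hX L - τ < i0 + 1 by have := hc.1; omega)))
  refine le_trans ?_ (Finset.single_le_sum (f := fun j' =>
        (if HT hX L = τ + (HT hX L - τ) ∧ P L ∧ Q L' ∧ HT hY L' = τ + j' ∧
          Con hX zX sX hY zY sY lo hi L L' 0 y (a + i) (a + i')
          then LW ΛX L * LW ΛY L' else 0)) (fun _ _ => zero_le)
    (Finset.mem_range.2 (show HT hY L' - τ < i0 + 1 by have := hc'.1; omega)))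
  rw [if_pos ⟨by omega, hc.2, hc'.2.1, by omega, hc'.2.2⟩]


lemma card_E {ι : Type*} (p : ℕ × ι → ℝ≥0∞) (hp : ∑' i, p i ≤ 1) {th : ℝ≥0∞} (hth : th ≠ 0)
    (M K : ℝ≥0∞) (hM : M ≤ K * th) (j : ℕ) :
    ∃ E : Finset ι, (∀ x, x ∈ E ↔ th ≤ p (j, x)) ∧ M * E.card ≤ K := by
  have hp' : ∑' x, p (j, x) ≤ 1 := le_trans (ENNReal.tsum_comp_le_tsum_of_injective
    (f := fun x : ι => (j, x)) (fun x y hxy => by simpa using hxy) _) hp
  have hfin : {x | th ≤ p (j, x)}.Finite :=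
    ENNReal.finite_const_le_of_tsum_ne_top (ne_top_of_le_ne_top ENNReal.one_ne_top hp') hth
  refine ⟨hfin.toFinset, fun x => by simp, ?_⟩
  calc M * (hfin.toFinset.card : ℝ≥0∞) ≤ K * th * (hfin.toFinset.card : ℝ≥0∞) := mul_le_mul_left hM _
    _ = K * ∑ x ∈ hfin.toFinset, th := by
        rw [Finset.sum_const, nsmul_eq_mul]; ring
    _ ≤ K * ∑ x ∈ hfin.toFinset, p (j, x) :=
        mul_le_mul_right (Finset.sum_le_sum fun i hi => by simpa using (hfin.mem_toFinset.1 hi)) _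
    _ ≤ K * 1 := mul_le_mul_right ((ENNReal.sum_le_tsum _).trans hp') _
    _ = K := mul_one K

omit [AddCommGroup G] in
lemma tsum_push {μ : G → ℝ≥0∞} {ι : Type*} (s : Finset ι) (F : ι → G → ℝ≥0∞) :
    ∑' y, μ y * ∑ j ∈ s, F j y = ∑ j ∈ s, ∑' y, μ y * F j y := by
  rw [← Summable.tsum_finsetSum (fun _ _ => ENNReal.summable)]
  exact tsum_congr fun y => Finset.mul_sum _ _ _

open Classical in
lemma PS_etaX (h1X : ∀ b, 1 ≤ hX b) (hΛX : ∑' b, ΛX b = 1) (C : ℝ≥0∞) (us : ℕ → ℝ≥0∞)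
    (H : H2 ΛX hX zX sX ΛY hY zY sY C us) (s τ i0 lo hi a : ℕ) (h1 : a + i0 + s ≤ lo)
    (h2 : hi + s ≤ a + τ) (th M K lam : ℝ≥0∞) (hth : th ≠ 0) (hM : M ≤ K * th) (hl : lam ≠ 0)
    (hl' : lam ≠ ⊤) (i i' : ℕ) (hi0 : i ≤ i0) (hi0' : i' ≤ i0) (μ : G → ℝ≥0∞)
    (hμ : ∑' y, μ y ≤ 1) (hμM : ∀ y, μ y ≤ M) :
    ∑' y, μ y * PS ΛX hX zX sX ΛY hY zY sY τ i0 lo hi a
      (fun L => th ≤ V ΛX hX zX τ (HT hX L - τ, Dp zX L)) (fun _ => True) i i' y
      ≤ (i0 + 1 : ℕ) * ((i0 + 1 : ℕ) * (C * lam + C * K * us s / lam)) := by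
  refine (ENNReal.tsum_le_tsum fun y => mul_le_mul_right (PS_le_sum ΛX hX zX sX ΛY hY zY sY τ i0 lo
    hi a _ _ i i' y) _).trans ?_
  rw [tsum_push]
  refine (Finset.sum_le_sum (g := fun _ => (i0 + 1 : ℕ) * (C * lam + C * K * us s / lam))
    fun j hj => ?_).trans (le_of_eq (by
      rw [Finset.sum_const, Finset.card_range, nsmul_eq_mul]))
  rw [tsum_push]
  refine (Finset.sum_le_sum (g := fun _ => (C * lam + C * K * us s / lam))
    fun j' hj' => ?_).trans (le_of_eq (by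
      rw [Finset.sum_const, Finset.card_range, nsmul_eq_mul]))
  obtain ⟨E, hE, hEc⟩ := card_E (V ΛX hX zX τ) (V_sum ΛX hX zX h1X hΛX τ) hth M K hM j
  refine le_trans ?_ ((H s (τ + j) (τ + j') (a + i) (a + i') lo hi E μ M lam hμ hμM hl hl'
    (by omega) (by omega) (by omega) (by omega)).trans ?_)
  · refine ENNReal.tsum_le_tsum fun y => mul_le_mul_right ?_ _
    refine ENNReal.tsum_le_tsum fun L => ENNReal.tsum_le_tsum fun L' => ?_
    by_cases hc : HT hX L = τ + j ∧ th ≤ V ΛX hX zX τ (HT hX L - τ, Dp zX L) ∧ True ∧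
        HT hY L' = τ + j' ∧ Con hX zX sX hY zY sY lo hi L L' 0 y (a + i) (a + i')
    · rw [if_pos hc, if_pos]
      refine ⟨hc.1, (hE _).2 ?_, hc.2.2.2.1, hc.2.2.2.2⟩
      have := hc.2.1
      rwa [hc.1, Nat.add_sub_cancel_left] at this
    · rw [if_neg hc]; exact zero_le
  · refine add_le_add le_rfl (ENNReal.div_le_div_right ?_ _)
    refine mul_le_mul_left ?_ _
    rw [mul_assoc]
    exact mul_le_mul_right hEc _

open Classical in
lemma PS_etaY (h1Y : ∀ b, 1 ≤ hY b) (hΛY : ∑' b, ΛY b = 1) (C : ℝ≥0∞) (us : ℕ → ℝ≥0∞)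
    (H : H3 ΛX hX zX sX ΛY hY zY sY C us) (s τ i0 lo hi a : ℕ) (h1 : a + i0 + s ≤ lo)
    (h2 : hi + s ≤ a + τ) (th M K lam : ℝ≥0∞) (hth : th ≠ 0) (hM : M ≤ K * th) (hl : lam ≠ 0)
    (hl' : lam ≠ ⊤) (i i' : ℕ) (hi0 : i ≤ i0) (hi0' : i' ≤ i0) (μ : G → ℝ≥0∞)
    (hμ : ∑' y, μ y ≤ 1) (hμM : ∀ y, μ y ≤ M) :
    ∑' y, μ y * PS ΛX hX zX sX ΛY hY zY sY τ i0 lo hi a (fun _ => True)
      (fun L => th ≤ V ΛY hY zY τ (HT hY L - τ, Dp zY L)) i i' y
      ≤ (i0 + 1 : ℕ) * ((i0 + 1 : ℕ) * (C * lam + C * K * us s / lam)) := by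
  refine (ENNReal.tsum_le_tsum fun y => mul_le_mul_right (PS_le_sum ΛX hX zX sX ΛY hY zY sY τ i0 lo
    hi a _ _ i i' y) _).trans ?_
  rw [tsum_push]
  refine (Finset.sum_le_sum (g := fun _ => (i0 + 1 : ℕ) * (C * lam + C * K * us s / lam))
    fun j hj => ?_).trans (le_of_eq (by
      rw [Finset.sum_const, Finset.card_range, nsmul_eq_mul]))
  rw [tsum_push]
  refine (Finset.sum_le_sum (g := fun _ => (C * lam + C * K * us s / lam))
    fun j' hj' => ?_).trans (le_of_eq (by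
      rw [Finset.sum_const, Finset.card_range, nsmul_eq_mul]))
  obtain ⟨E, hE, hEc⟩ := card_E (V ΛY hY zY τ) (V_sum ΛY hY zY h1Y hΛY τ) hth M K hM j'
  refine le_trans ?_ ((H s (τ + j) (τ + j') (a + i) (a + i') lo hi E μ M lam hμ hμM hl hl'
    (by omega) (by omega) (by omega) (by omega)).trans ?_)
  · refine ENNReal.tsum_le_tsum fun y => mul_le_mul_right ?_ _
    refine ENNReal.tsum_le_tsum fun L => ENNReal.tsum_le_tsum fun L' => ?_
    by_cases hc : HT hX L = τ + j ∧ True ∧ th ≤ V ΛY hY zY τ (HT hY L' - τ, Dp zY L') ∧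
        HT hY L' = τ + j' ∧ Con hX zX sX hY zY sY lo hi L L' 0 y (a + i) (a + i')
    · rw [if_pos hc, if_pos]
      refine ⟨hc.1, (hE _).2 ?_, hc.2.2.2.1, hc.2.2.2.2⟩
      have := hc.2.2.1
      rwa [hc.2.2.2.1, Nat.add_sub_cancel_left] at this
    · rw [if_neg hc]; exact zero_le
  · refine add_le_add le_rfl (ENNReal.div_le_div_right ?_ _)
    refine mul_le_mul_left ?_ _
    rw [mul_assoc]
    exact mul_le_mul_right hEc _

end Crest.Agent.R154.Asm508
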