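import Crest.Agent.R154.AsmC_52

/-! Row 154 (helper52): the bound of the sum over the pieces. -/

set_option autoImplicit false

namespace Crest.Agent.R154.Asm52

open Crest.Agent.R154.B5A Crest.Agent.R154.FP52
open scoped ENNReal Classical
open Finset

section good

variable {BX BY G : Type*} [AddCommGroup G]
  (ΛX : BX → ℝ≥0∞) (hX : BX → ℕ) (zX : BX → G) (sX : BX → Set (G × ℕ))
  (ΛY : BY → ℝ≥0∞) (hY : BY → ℕ) (zY : BY → G) (sY : BY → Set (G × ℕ))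

/-- window lemma, `X` local -/
def HWX (C : ℝ≥0∞) (us : ℕ → ℝ≥0∞) : Prop :=
  ∀ (s h h' a a' lo hi : ℕ) (E : Finset G) (μ : G → ℝ≥0∞) (M lam : ℝ≥0∞), ∑' x, μ x ≤ 1 →
    (∀ x, μ x ≤ M) → M ≠ ⊤ → lam ≠ 0 → lam ≠ ⊤ → a ≤ a' → a + h ≤ a' + h' →
    a + s ≤ lo → a' + s ≤ lo → hi + s ≤ a + h → hi + s ≤ a' + h' →
    ∑' x, μ x * ∑' L : List BX, ∑' L' : List BY,
      (if HT hX L = h ∧ Dp zX L ∈ E ∧ HT hY L' = h' ∧ ev hX zX sX hY zY sY lo hi L L' x a a'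
        then LW ΛX L * LW ΛY L' else 0)
      ≤ C * (lam + M * E.card * us s / lam + us s)

/-- window lemma, `Y` local -/
def HWY (C : ℝ≥0∞) (us : ℕ → ℝ≥0∞) : Prop :=
  ∀ (s h h' a a' lo hi : ℕ) (E : Finset G) (μ : G → ℝ≥0∞) (M lam : ℝ≥0∞), ∑' x, μ x ≤ 1 →
    (∀ x, μ x ≤ M) → M ≠ ⊤ → lam ≠ 0 → lam ≠ ⊤ → a ≤ a' → a + h ≤ a' + h' →
    a + s ≤ lo → a' + s ≤ lo → hi + s ≤ a + h → hi + s ≤ a' + h' →
    ∑' x, μ x * ∑' L : List BX, ∑' L' : List BY,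
      (if HT hX L = h ∧ HT hY L' = h' ∧ Dp zY L' ∈ E ∧ ev hX zX sX hY zY sY lo hi L L' x a a'
        then LW ΛX L * LW ΛY L' else 0)
      ≤ C * (lam + M * E.card * us s / lam + us s)

/-- the sum over pieces with a locality condition `Q` -/
noncomputable def GQ (Q : List BX → List BY → Prop) (c S i0 s : ℕ) (w : G) : ℝ≥0∞ :=
  EF ΛX hX c (fun A => EF ΛX hX S (fun P => EF ΛY hY (c + i0) (fun A' => EF ΛY hY (S + i0)
    (fun P' => if (HT hX A ≤ c + i0 ∧ HT hX P ≤ S + i0 ∧ HT hY A' ≤ c + i0 + i0 ∧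
        HT hY P' ≤ S + i0 + i0) ∧ Q P P' ∧
        ev hX zX sX hY zY sY (c + i0 + i0 + s) (c + S - s) P P' (w + Dp zY A' - Dp zX A)
        (HT hX A) (HT hY A') then 1 else 0))))

/-- the same with fixed tops -/
noncomputable def Th (Q : List BX → List BY → Prop) (c S i0 s i i' : ℕ) (x : G) : ℝ≥0∞ :=
  EF ΛX hX S (fun P => EF ΛY hY (S + i0) (fun P' =>
    if (i ≤ i0 ∧ i' ≤ i0 ∧ HT hX P ≤ S + i0 ∧ HT hY P' ≤ S + i0 + i0) ∧ Q P P' ∧
      ev hX zX sX hY zY sY (c + i0 + i0 + s) (c + S - s) P P' x (c + i) (c + i0 + i')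
      then 1 else 0))

lemma GQ_eq (Q : List BX → List BY → Prop) (c S i0 s : ℕ) (w : G) :
    GQ ΛX hX zX sX ΛY hY zY sY Q c S i0 s w
      = ∑' i, ∑' z, fl ΛX hX zX c i z * ∑' i', ∑' z', fl ΛY hY zY (c + i0) i' z' *
        Th ΛX hX zX sX ΛY hY zY sY Q c S i0 s i i' (w + z' - z) := by
  rw [GQ]
  simp_rw [EF_comm ΛX hX ΛY hY S (c + i0)]
  rw [← law ΛX hX zX c (fun i z => ∑' i', ∑' z', fl ΛY hY zY (c + i0) i' z' *
        Th ΛX hX zX sX ΛY hY zY sY Q c S i0 s i i' (w + z' - z))]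
  refine EF_congr _ _ _ fun A hA => ?_
  have hA' := FP_le hX c A hA
  rw [← law ΛY hY zY (c + i0) (fun i' z' =>
        Th ΛX hX zX sX ΛY hY zY sY Q c S i0 s (HT hX A - c) i' (w + z' - Dp zX A))]
  refine EF_congr _ _ _ fun A' hA2 => ?_
  have hA2' := FP_le hY (c + i0) A' hA2
  rw [Th]
  refine EF_congr _ _ _ fun P _ => EF_congr _ _ _ fun P' _ => ?_
  rw [show c + (HT hX A - c) = HT hX A by omega,
    show c + i0 + (HT hY A' - (c + i0)) = HT hY A' by omega]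
  refine if_congr ?_ rfl rfl
  refine and_congr_left' ?_
  constructor
  · rintro ⟨h1, h2, h3, h4⟩; exact ⟨by omega, by omega, h2, h4⟩
  · rintro ⟨h1, h2, h3, h4⟩; exact ⟨by omega, h3, by omega, h4⟩

lemma Th_le_one (h1X : ∀ b, 1 ≤ hX b) (h1Y : ∀ b, 1 ≤ hY b) (hΛX : ∑' b, ΛX b = 1)
    (hΛY : ∑' b, ΛY b = 1) (Q : List BX → List BY → Prop) (c S i0 s i i' : ℕ) (x : G) :
    Th ΛX hX zX sX ΛY hY zY sY Q c S i0 s i i' x ≤ 1 := by
  refine EF_le_const ΛX hX h1X hΛX _ _ fun P _ => EF_le_const ΛY hY h1Y hΛY _ _ fun P' _ => ?_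
  split_ifs <;> simp

lemma Th_zero (Q : List BX → List BY → Prop) (c S i0 s i i' : ℕ) (x : G)
    (h : ¬ (i ≤ i0 ∧ i' ≤ i0)) : Th ΛX hX zX sX ΛY hY zY sY Q c S i0 s i i' x = 0 := by
  have e : ∀ P P', ¬ ((i ≤ i0 ∧ i' ≤ i0 ∧ HT hX P ≤ S + i0 ∧ HT hY P' ≤ S + i0 + i0) ∧ Q P P' ∧
      ev hX zX sX hY zY sY (c + i0 + i0 + s) (c + S - s) P P' x (c + i) (c + i0 + i')) :=
    fun P P' h' => h ⟨h'.1.1, h'.1.2.1⟩
  rw [Th]
  simp only [EF, if_neg (e _ _), mul_zero, ite_self, tsum_zero]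

lemma Th_le_sum (Q : List BX → List BY → Prop) (QQ : ℕ → ℕ → List BX → List BY → Prop)
    (c S i0 s i i' : ℕ) (x : G)
    (hQ : ∀ P P', S ≤ HT hX P → S + i0 ≤ HT hY P' → Q P P' →
      QQ (HT hX P - S) (HT hY P' - (S + i0)) P P') :
    Th ΛX hX zX sX ΛY hY zY sY Q c S i0 s i i' x ≤
      ∑ j ∈ range (i0 + 1), ∑ j' ∈ range (i0 + 1), ∑' L : List BX, ∑' L' : List BY,
        (if HT hX L = S + j ∧ HT hY L' = S + i0 + j' ∧ QQ j j' L L' ∧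
          ev hX zX sX hY zY sY (c + i0 + i0 + s) (c + S - s) L L' x (c + i) (c + i0 + i')
          then LW ΛX L * LW ΛY L' else 0) := by
  have e : ∑ j ∈ range (i0 + 1), ∑ j' ∈ range (i0 + 1), ∑' L : List BX, ∑' L' : List BY,
        (if HT hX L = S + j ∧ HT hY L' = S + i0 + j' ∧ QQ j j' L L' ∧
          ev hX zX sX hY zY sY (c + i0 + i0 + s) (c + S - s) L L' x (c + i) (c + i0 + i')
          then LW ΛX L * LW ΛY L' else 0)
      = ∑' L : List BX, ∑' L' : List BY, ∑ j ∈ range (i0 + 1), ∑ j' ∈ range (i0 + 1),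
        (if HT hX L = S + j ∧ HT hY L' = S + i0 + j' ∧ QQ j j' L L' ∧
          ev hX zX sX hY zY sY (c + i0 + i0 + s) (c + S - s) L L' x (c + i) (c + i0 + i')
          then LW ΛX L * LW ΛY L' else 0) := by
    simp_rw [← Summable.tsum_finsetSum (fun _ _ => ENNReal.summable)]
  rw [e, Th, EF]
  refine ENNReal.tsum_le_tsum fun P => ?_
  by_cases hP : FP hX S P
  · rw [if_pos hP, EF, ← ENNReal.tsum_mul_left]
    refine ENNReal.tsum_le_tsum fun P' => ?_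
    by_cases hP' : FP hY (S + i0) P'
    · rw [if_pos hP']
      by_cases hc : (i ≤ i0 ∧ i' ≤ i0 ∧ HT hX P ≤ S + i0 ∧ HT hY P' ≤ S + i0 + i0) ∧ Q P P' ∧
        ev hX zX sX hY zY sY (c + i0 + i0 + s) (c + S - s) P P' x (c + i) (c + i0 + i')
      · rw [if_pos hc, mul_one]
        have g1 := FP_le hX S P hP
        have g2 := FP_le hY (S + i0) P' hP'
        obtain ⟨⟨q1, q2, q3, q4⟩, q5, q6⟩ := hc
        refine le_trans ?_ (Finset.single_le_sum (fun _ _ => zero_le)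
          (Finset.mem_range.2 (show HT hX P - S < i0 + 1 by omega)))
        refine le_trans ?_ (Finset.single_le_sum (fun _ _ => zero_le)
          (Finset.mem_range.2 (show HT hY P' - (S + i0) < i0 + 1 by omega)))
        rw [if_pos ⟨by omega, by omega, hQ P P' g1 g2 q5, q6⟩]
      · rw [if_neg hc, mul_zero, mul_zero]; exact zero_le
    · rw [if_neg hP', mul_zero]; exact zero_le
  · rw [if_neg hP]; exact zero_le

/-- locality set -/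
noncomputable def Eset {B : Type*} (Λ : B → ℝ≥0∞) (h : B → ℕ) (z : B → G) (h1 : ∀ b, 1 ≤ h b)
    (hΛ : ∑' b, Λ b = 1) (S : ℕ) (th : ℝ≥0∞) (hth : th ≠ 0) (j : ℕ) : Finset G :=
  (ENNReal.finite_const_le_of_tsum_ne_top (a := fun y => fl Λ h z S j y)
    (ne_top_of_le_ne_top ENNReal.one_ne_top ((ENNReal.le_tsum j).trans
      (fl_sum Λ h z h1 hΛ S).le)) hth).toFinset

lemma mem_Eset {B : Type*} (Λ : B → ℝ≥0∞) (h : B → ℕ) (z : B → G) (h1 : ∀ b, 1 ≤ h b)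
    (hΛ : ∑' b, Λ b = 1) (S : ℕ) (th : ℝ≥0∞) (hth : th ≠ 0) (j : ℕ) (y : G) :
    y ∈ Eset Λ h z h1 hΛ S th hth j ↔ th ≤ fl Λ h z S j y := by
  rw [Eset, Set.Finite.mem_toFinset]; rfl

lemma card_Eset {B : Type*} (Λ : B → ℝ≥0∞) (h : B → ℕ) (z : B → G) (h1 : ∀ b, 1 ≤ h b)
    (hΛ : ∑' b, Λ b = 1) (S : ℕ) (th : ℝ≥0∞) (hth : th ≠ 0) (j : ℕ) :
    th * (Eset Λ h z h1 hΛ S th hth j).card ≤ 1 := by
  calc th * ((Eset Λ h z h1 hΛ S th hth j).card : ℝ≥0∞)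
      = ∑ y ∈ Eset Λ h z h1 hΛ S th hth j, th := by
        rw [Finset.sum_const, nsmul_eq_mul, mul_comm]
    _ ≤ ∑ y ∈ Eset Λ h z h1 hΛ S th hth j, fl Λ h z S j y :=
        Finset.sum_le_sum fun y hy => (mem_Eset Λ h z h1 hΛ S th hth j y).1 hy
    _ ≤ ∑' y, fl Λ h z S j y := ENNReal.sum_le_tsum _
    _ ≤ 1 := (ENNReal.le_tsum j).trans (fl_sum Λ h z h1 hΛ S).le

/-- the law of tops splits in a smooth and a small part -/
lemma dens_fl {B : Type*} (Λ : B → ℝ≥0∞) (h : B → ℕ) (z : B → G) (h1 : ∀ b, 1 ≤ h b)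
    (hΛ : ∑' b, Λ b = 1) (hU1 : ∀ n, U Λ h n ≤ 1) (S i0 : ℕ) (th u : ℝ≥0∞) (hu1 : u ≤ 1)
    (hqu : u ≤ ∑' a : ℕ × G, (if fl Λ h z S a.1 a.2 ≤ th then fl Λ h z S a.1 a.2 else 0))
    (J c : ℕ) (hc : J * (S + i0) ≤ c) :
    ∃ Ag Bb : ℕ → G → ℝ≥0∞, (∀ j y, fl Λ h z c j y ≤ Ag j y + Bb j y) ∧
      (∀ j y, Ag j y ≤ (i0 + 1) * th * J) ∧ ∑' j, ∑' y, Bb j y ≤ (1 - u) ^ J + eo Λ h i0 * J := by
  have hNG : ∑ i ∈ range (i0 + 1), ∑' y, (if th < fl Λ h z S i y then fl Λ h z S i y else 0)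
      ≤ 1 - u := by
    have e1 : ∑' a : ℕ × G, (if fl Λ h z S a.1 a.2 ≤ th then fl Λ h z S a.1 a.2 else 0)
        + ∑' a : ℕ × G, (if th < fl Λ h z S a.1 a.2 then fl Λ h z S a.1 a.2 else 0) = 1 := by
      rw [← ENNReal.tsum_add, ← fl_sum Λ h z h1 hΛ S, ← ENNReal.tsum_prod]
      refine tsum_congr fun a => ?_
      by_cases ha : fl Λ h z S a.1 a.2 ≤ th
      · rw [if_pos ha, if_neg (not_lt.2 ha), add_zero]
      · rw [if_neg ha, if_pos (not_le.1 ha), zero_add]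
    have e2 : ∑' a : ℕ × G, (if th < fl Λ h z S a.1 a.2 then fl Λ h z S a.1 a.2 else 0)
        ≤ 1 - u := by
      refine ENNReal.le_sub_of_add_le_left (ne_top_of_le_ne_top ENNReal.one_ne_top hu1) ?_
      exact (add_le_add hqu le_rfl).trans e1.le
    refine le_trans ?_ e2
    rw [ENNReal.tsum_prod (f := fun i y => if th < fl Λ h z S i y then fl Λ h z S i y else 0)]
    exact ENNReal.sum_le_tsum _
  obtain ⟨Ag, Bb, g1, g2, g3⟩ := Dens52.dens2 (fun c j y => fl Λ h z c j y)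
    (fun i y => fl Λ h z S i y) S i0 th (1 - u) (eo Λ h i0)
    (fun c hc => fl_rec Λ h z h1 hΛ hU1 S i0 c hc) (fun c => (fl_sum Λ h z h1 hΛ c).le) hNG J c hc
  have hs : ∑ j ∈ range J, (1 - u) ^ j ≤ (J : ℝ≥0∞) := by
    calc _ ≤ ∑ j ∈ range J, (1 : ℝ≥0∞) :=
          Finset.sum_le_sum fun j _ => pow_le_one₀ zero_le tsub_le_self
      _ = _ := by simp
  refine ⟨Ag, Bb, g1, fun j y => (g2 j y).trans (by gcongr), g3.trans (by gcongr)⟩

/-- nonlocal pieces -/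
lemma nonloc {B : Type*} (Λ : B → ℝ≥0∞) (h : B → ℕ) (z : B → G) (S : ℕ) (th u : ℝ≥0∞)
    (hqu : ∑' a : ℕ × G, (if fl Λ h z S a.1 a.2 < th then fl Λ h z S a.1 a.2 else 0) ≤ u) :
    EF Λ h S (fun P => if th ≤ fl Λ h z S (HT h P - S) (Dp z P) then 0 else 1) ≤ u := by
  rw [law Λ h z S (fun i y => if th ≤ fl Λ h z S i y then 0 else 1), ← ENNReal.tsum_prod]
  refine le_trans (le_of_eq ?_) hqu
  refine tsum_congr fun a => ?_
  by_cases ha : th ≤ fl Λ h z S a.1 a.2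
  · rw [if_pos ha, if_neg (not_lt.2 ha), mul_zero]
  · rw [if_neg ha, if_pos (not_le.1 ha), mul_one]

end good

end Crest.Agent.R154.Asm52
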