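import Crest.Agent.R154.AsmC_53

/-! Row 154 (helper53), ROAD 801: abstract assembly of KAPPA', part D: pair sum to the four-fold
sum, one window, sum over windows. -/

set_option autoImplicit false

namespace Crest.Agent.R154.Asm53

open scoped ENNReal Topology
open Crest.Agent.R154.B5A Crest.Agent.R154.FP178
open Crest.Agent.R154.Asm540 (TR Cm H2 H3 H5 KS TR_append TR_depth TR_shift)
open Filter

variable {BX BY G : Type*} [AddCommGroup G]
  (ΛX : BX → ℝ≥0∞) (ΛY : BY → ℝ≥0∞) (hX : BX → ℕ) (hY : BY → ℕ) (zX : BX → G) (zY : BY → G)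
  (sX : BX → Set (G × ℕ)) (sY : BY → Set (G × ℕ))

open Classical in
/-- clean window event -/
noncomputable def KC (n : ℕ) (w : G) (S S' : Set ℕ) : ℝ≥0∞ :=
  ∑' L : List BX, WX hX ΛX n L * ∑' L' : List BY, WX hY ΛY n L' *
    (if (∃ g k, k ∈ S ∧ Cm hX hY zX zY sX sY L L' w 0 0 g k) ∧
      (∀ g k, Cm hX hY zX zY sX sY L L' w 0 0 g k → k ∉ S') then 1 else 0)

lemma KS_le_KC (n : ℕ) (w : G) (S S1 S2 : Set ℕ) :
    KS ΛX ΛY hX hY zX zY sX sY n w S ≤ KS ΛX ΛY hX hY zX zY sX sY n w S1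
      + KS ΛX ΛY hX hY zX zY sX sY n w S2
      + KC ΛX ΛY hX hY zX zY sX sY n w S (S1 ∪ S2) := by
  classical
  unfold KS KC
  rw [← ENNReal.tsum_add, ← ENNReal.tsum_add]
  refine ENNReal.tsum_le_tsum fun L => ?_
  rw [← ENNReal.tsum_add, ← ENNReal.tsum_mul_left, ← ENNReal.tsum_add]
  refine ENNReal.tsum_le_tsum fun L' => ?_
  by_cases h : HT hX L = n ∧ HT hY L' = n ∧
    ∃ g k, k ∈ S ∧ Cm hX hY zX zY sX sY L L' w 0 0 g k
  · rw [if_pos h]
    by_cases h1 : ∃ g k, k ∈ S1 ∧ Cm hX hY zX zY sX sY L L' w 0 0 g k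
    · rw [if_pos (show HT hX L = n ∧ HT hY L' = n ∧
        ∃ g k, k ∈ S1 ∧ Cm hX hY zX zY sX sY L L' w 0 0 g k from ⟨h.1, h.2.1, h1⟩)]
      exact le_trans le_self_add le_self_add
    · by_cases h2 : ∃ g k, k ∈ S2 ∧ Cm hX hY zX zY sX sY L L' w 0 0 g k
      · rw [if_pos (show HT hX L = n ∧ HT hY L' = n ∧
          ∃ g k, k ∈ S2 ∧ Cm hX hY zX zY sX sY L L' w 0 0 g k from ⟨h.1, h.2.1, h2⟩)]
        exact le_trans le_add_self le_self_add
      · refine le_trans ?_ le_add_self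
        rw [if_pos (show (∃ g k, k ∈ S ∧ Cm hX hY zX zY sX sY L L' w 0 0 g k) ∧
          (∀ g k, Cm hX hY zX zY sX sY L L' w 0 0 g k → k ∉ S1 ∪ S2) from ⟨h.2.2, ?_⟩)]
        · unfold WX
          rw [if_pos h.1, if_pos h.2.1, mul_one]
        · rintro g k hc (hk | hk)
          · exact h1 ⟨g, k, hk, hc⟩
          · exact h2 ⟨g, k, hk, hc⟩
  · rw [if_neg h]; exact zero_le

/-- pair sum to the four-fold sum -/
lemma KC_le (h1X : ∀ b, 1 ≤ hX b) (h1Y : ∀ b, 1 ≤ hY b) (hΛX : ∑' b, ΛX b ≤ 1)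
    (hΛY : ∑' b, ΛY b ≤ 1) (hUX : ∀ n, U ΛX hX n ≤ 1) (hUY : ∀ n, U ΛY hY n ≤ 1)
    (hsX : ∀ b, ∀ p ∈ sX b, 1 ≤ p.2 ∧ p.2 ≤ hX b) (hsY : ∀ b, ∀ p ∈ sY b, 1 ≤ p.2 ∧ p.2 ≤ hY b)
    (i t a s n : ℕ) (hit : i ≤ t) (hst : s ≤ 3 * t) (hn : a + i + 3 * t + i ≤ n) (e : ℝ≥0∞)
    (heX : ∑' k, tail ΛX hX (i + k) ≤ e) (heY : ∑' k, tail ΛY hY (i + k) ≤ e) (w : G) :
    KC ΛX ΛY hX hY zX zY sX sY n w (Set.Ioc (a + t) (a + 2 * t))
      (Set.Ico a (a + (s + 2 * i + 1)) ∪
        Set.Ico (a + 3 * t - s) (a + 3 * t - s + (s + 2 * i + 1)))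
      ≤ S4f ΛX ΛY hX hY zX zY sX sY i (3 * t) a (a + (s + 2 * i + 1)) (a + 3 * t - s) w
        + 4 * e := by
  classical
  set S : Set ℕ := Set.Ioc (a + t) (a + 2 * t) with hS
  set S' : Set ℕ := Set.Ico a (a + (s + 2 * i + 1)) ∪
        Set.Ico (a + 3 * t - s) (a + 3 * t - s + (s + 2 * i + 1)) with hS'
  set F1 : List BX → List BX → List BY → ℝ≥0∞ := fun L1 L2 L' =>
    if (∃ g k, k ∈ S ∧ (g, k) ∈ TR sX zX hX L2 (Dp zX L1) (HT hX L1) ∧
        (g, k) ∈ TR sY zY hY L' w 0) ∧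
      (∀ g k, (g, k) ∈ TR sX zX hX L2 (Dp zX L1) (HT hX L1) → (g, k) ∈ TR sY zY hY L' w 0 →
        k ∉ S') then 1 else 0 with hF1
  have hF1le : ∀ L1 L2 L', F1 L1 L2 L' ≤ 1 := by
    intro L1 L2 L'
    rw [hF1]; simp only
    split_ifs
    · exact le_rfl
    · exact zero_le
  -- split X
  have stepX : KC ΛX ΛY hX hY zX zY sX sY n w S S'
      ≤ ∑' X1, V hX ΛX i a X1 * ∑' X2, V hX ΛX i (3 * t) X2 *
          ∑' L', WX hY ΛY n L' * F1 X1 X2 L' + 2 * ∑' k, tail ΛX hX (i + k) := by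
    unfold KC
    refine split3 hX ΛX h1X hΛX hUX i a (3 * t) n (by omega)
      (fun L => ∑' L' : List BY, WX hY ΛY n L' *
        (if (∃ g k, k ∈ S ∧ Cm hX hY zX zY sX sY L L' w 0 0 g k) ∧
          (∀ g k, Cm hX hY zX zY sX sY L L' w 0 0 g k → k ∉ S') then 1 else 0)) ?_
      (fun X1 X2 => ∑' L', WX hY ΛY n L' * F1 X1 X2 L') ?_
    · intro L
      calc ∑' L' : List BY, WX hY ΛY n L' *
          (if (∃ g k, k ∈ S ∧ Cm hX hY zX zY sX sY L L' w 0 0 g k) ∧
            (∀ g k, Cm hX hY zX zY sX sY L L' w 0 0 g k → k ∉ S') then 1 else 0)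
          ≤ ∑' L' : List BY, WX hY ΛY n L' * 1 := by
            refine ENNReal.tsum_le_tsum fun L' => mul_le_mul_right ?_ _
            split_ifs
            · exact le_rfl
            · exact zero_le
        _ ≤ 1 := by
            simp only [mul_one]
            exact (tsum_WX hY ΛY n).le.trans (hUY n)
    · intro L1 L2 L3 hf1 hb1 hf2 hb2 hsum
      refine ENNReal.tsum_le_tsum fun L' => mul_le_mul_right ?_ _
      by_cases h : (∃ g k, k ∈ S ∧ Cm hX hY zX zY sX sY (L1 ++ L2 ++ L3) L' w 0 0 g k) ∧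
          (∀ g k, Cm hX hY zX zY sX sY (L1 ++ L2 ++ L3) L' w 0 0 g k → k ∉ S')
      · rw [if_pos h, hF1]
        simp only
        have hle1 := le_HT_of_fp hX hf1
        have hle2 := le_HT_of_fp hX hf2
        have hdec : ∀ g k, (g, k) ∈ TR sX zX hX (L1 ++ L2 ++ L3) 0 0 ↔
            ((g, k) ∈ TR sX zX hX L1 0 0 ∨ (g, k) ∈ TR sX zX hX L2 (Dp zX L1) (HT hX L1)) ∨
              (g, k) ∈ TR sX zX hX L3 (Dp zX L1 + Dp zX L2) (HT hX L1 + HT hX L2) := by
          intro g k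
          rw [TR_append, TR_append, HT_append, zero_add, zero_add, zero_add, zero_add,
            Asm540.Dp_append]
          rfl
        rw [if_pos]
        refine ⟨?_, ?_⟩
        · obtain ⟨g, k, hk, hc1, hc2⟩ := h.1
          refine ⟨g, k, hk, ?_, hc2⟩
          rw [hS] at hk
          have hk1 := hk.1
          have hk2 := hk.2
          rcases (hdec g k).1 hc1 with (hc | hc) | hc
          · have := TR_depth hX zX sX hsX L1 0 0 _ hc
            simp only at this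
            omega
          · exact hc
          · have := TR_depth hX zX sX hsX L3 _ _ _ hc
            simp only at this
            omega
        · intro g k hc1 hc2
          exact h.2 g k ⟨(hdec g k).2 (Or.inl (Or.inr hc1)), hc2⟩
      · rw [if_neg h]; exact zero_le
  -- split Y
  have stepY : ∀ X1 X2, fp hX a X1 → HT hX X1 ≤ a + i → fp hX (3 * t) X2 →
      HT hX X2 ≤ 3 * t + i →
      ∑' L', WX hY ΛY n L' * F1 X1 X2 L'
      ≤ ∑' Y1, V hY ΛY i a Y1 * ∑' Y2, V hY ΛY i (3 * t) Y2 *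
        Ph hX hY zX zY sX sY (a + (s + 2 * i + 1)) (a + 3 * t - s) X2 Y2
          (w + Dp zY Y1 - Dp zX X1) (HT hX X1) (HT hY Y1) + 2 * ∑' k, tail ΛY hY (i + k) := by
    intro X1 X2 hX1 hX1' hX2 hX2'
    refine split3 hY ΛY h1Y hΛY hUY i a (3 * t) n (by omega) (fun L' => F1 X1 X2 L')
      (fun L' => hF1le X1 X2 L') _ ?_
    intro Y1 Y2 Y3 hf1 hb1 hf2 hb2 hsum
    rw [hF1]
    simp only
    by_cases h : (∃ g k, k ∈ S ∧ (g, k) ∈ TR sX zX hX X2 (Dp zX X1) (HT hX X1) ∧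
        (g, k) ∈ TR sY zY hY (Y1 ++ Y2 ++ Y3) w 0) ∧
      (∀ g k, (g, k) ∈ TR sX zX hX X2 (Dp zX X1) (HT hX X1) →
        (g, k) ∈ TR sY zY hY (Y1 ++ Y2 ++ Y3) w 0 → k ∉ S')
    · rw [if_pos h]
      unfold Ph
      have hleX1 := le_HT_of_fp hX hX1
      have hle1 := le_HT_of_fp hY hf1
      have hle2 := le_HT_of_fp hY hf2
      have hdec : ∀ g k, (g, k) ∈ TR sY zY hY (Y1 ++ Y2 ++ Y3) w 0 ↔
          ((g, k) ∈ TR sY zY hY Y1 w 0 ∨ (g, k) ∈ TR sY zY hY Y2 (w + Dp zY Y1) (HT hY Y1)) ∨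
            (g, k) ∈ TR sY zY hY Y3 (w + (Dp zY Y1 + Dp zY Y2)) (HT hY Y1 + HT hY Y2) := by
        intro g k
        rw [TR_append, TR_append, HT_append, zero_add, zero_add, Asm540.Dp_append]
        rfl
      -- relative coordinates
      have hrX : ∀ g k, (g, k) ∈ TR sX zX hX X2 0 (HT hX X1) ↔
          (g + Dp zX X1, k) ∈ TR sX zX hX X2 (Dp zX X1) (HT hX X1) := by
        intro g k
        have := TR_shift hX zX sX X2 0 (Dp zX X1) (HT hX X1) (g + Dp zX X1) k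
        rw [zero_add, add_sub_cancel_right] at this
        exact this.symm
      have hrY : ∀ g k, (g, k) ∈ TR sY zY hY Y2 (w + Dp zY Y1 - Dp zX X1) (HT hY Y1) ↔
          (g + Dp zX X1, k) ∈ TR sY zY hY Y2 (w + Dp zY Y1) (HT hY Y1) := by
        intro g k
        have := TR_shift hY zY sY Y2 (w + Dp zY Y1 - Dp zX X1) (Dp zX X1) (HT hY Y1)
          (g + Dp zX X1) k
        rw [sub_add_cancel, add_sub_cancel_right] at this
        exact this.symm
      rw [if_pos]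
      refine ⟨?_, ?_⟩
      · obtain ⟨g, k, hk, hc1, hc2⟩ := h.1
        refine ⟨g - Dp zX X1, k, ?_, ?_⟩
        · rw [hrX, sub_add_cancel]; exact hc1
        · rw [hrY, sub_add_cancel]
          rw [hS] at hk
          have hk1 := hk.1
          have hk2 := hk.2
          rcases (hdec g k).1 hc2 with (hc | hc) | hc
          · have := TR_depth hY zY sY hsY Y1 _ _ _ hc
            simp only at this
            omega
          · exact hc
          · have := TR_depth hY zY sY hsY Y3 _ _ _ hc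
            simp only at this
            omega
      · intro g k hc
        have hc1 := (hrX g k).1 hc.1
        have hc2 := (hrY g k).1 hc.2
        have hnot := h.2 _ k hc1 ((hdec _ k).2 (Or.inl (Or.inr hc2)))
        have hd := TR_depth hX zX sX hsX X2 _ _ _ hc1
        simp only at hd
        rw [hS', Set.mem_union, Set.mem_Ico, Set.mem_Ico] at hnot
        push_neg at hnot
        have h1 := hnot.1 (by omega)
        by_contra hcon
        have hk3 : a + 3 * t - s < k := by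
          by_contra h'
          exact hcon ⟨h1, by omega⟩
        have h2 := hnot.2 (by omega)
        omega
    · rw [if_neg h]; exact zero_le
  -- combine
  have hVX1 := tsum_V_le hX ΛX h1X hΛX i a
  have hVX2 := tsum_V_le hX ΛX h1X hΛX i (3 * t)
  have comb : ∑' X1, V hX ΛX i a X1 * ∑' X2, V hX ΛX i (3 * t) X2 *
          ∑' L', WX hY ΛY n L' * F1 X1 X2 L'
      ≤ S4f ΛX ΛY hX hY zX zY sX sY i (3 * t) a (a + (s + 2 * i + 1)) (a + 3 * t - s) w
        + 2 * e := by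
    calc ∑' X1, V hX ΛX i a X1 * ∑' X2, V hX ΛX i (3 * t) X2 *
            ∑' L', WX hY ΛY n L' * F1 X1 X2 L'
        ≤ ∑' X1, V hX ΛX i a X1 * ∑' X2, (V hX ΛX i (3 * t) X2 *
            (∑' Y1, V hY ΛY i a Y1 * ∑' Y2, V hY ΛY i (3 * t) Y2 *
        Ph hX hY zX zY sX sY (a + (s + 2 * i + 1)) (a + 3 * t - s) X2 Y2
          (w + Dp zY Y1 - Dp zX X1) (HT hX X1) (HT hY Y1)) + V hX ΛX i (3 * t) X2 * (2 * e)) := by
          refine ENNReal.tsum_le_tsum fun X1 => ?_
          by_cases hv1 : fp hX a X1 ∧ HT hX X1 ≤ a + i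
          · refine mul_le_mul_right (ENNReal.tsum_le_tsum fun X2 => ?_) _
            by_cases hv2 : fp hX (3 * t) X2 ∧ HT hX X2 ≤ 3 * t + i
            · rw [← mul_add]
              refine mul_le_mul_right ((stepY X1 X2 hv1.1 hv1.2 hv2.1 hv2.2).trans ?_) _
              exact add_le_add_right (mul_le_mul_right heY _) _
            · unfold V; rw [if_neg hv2, zero_mul]; exact zero_le
          · unfold V; rw [if_neg hv1, zero_mul, zero_mul]
      _ = S4f ΛX ΛY hX hY zX zY sX sY i (3 * t) a (a + (s + 2 * i + 1)) (a + 3 * t - s) w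
            + (∑' X1, V hX ΛX i a X1) * ((∑' X2, V hX ΛX i (3 * t) X2) * (2 * e)) := by
          unfold S4f
          rw [← ENNReal.tsum_mul_right, ← ENNReal.tsum_add]
          refine tsum_congr fun X1 => ?_
          rw [ENNReal.tsum_add, mul_add, ENNReal.tsum_mul_right]
      _ ≤ S4f ΛX ΛY hX hY zX zY sX sY i (3 * t) a (a + (s + 2 * i + 1)) (a + 3 * t - s) w
            + 1 * (1 * (2 * e)) := by
          refine add_le_add_right (mul_le_mul' hVX1 (mul_le_mul' hVX2 le_rfl)) _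
      _ = _ := by rw [one_mul, one_mul]
  calc KC ΛX ΛY hX hY zX zY sX sY n w S S'
      ≤ _ := stepX
    _ ≤ (S4f ΛX ΛY hX hY zX zY sX sY i (3 * t) a (a + (s + 2 * i + 1)) (a + 3 * t - s) w
          + 2 * e) + 2 * e := add_le_add comb (mul_le_mul_right heX _)
    _ = _ := by ring

end Crest.Agent.R154.Asm53
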