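import Crest.Agent.R154.AsmC_557

/-! Row 154 (helper557), ROAD 801, assembly: the window theorem. -/

set_option autoImplicit false
set_option maxHeartbeats 1000000

namespace Crest.Agent.R154.Asm557

open scoped ENNReal
open Crest.Agent.R154.B5A Crest.Agent.R154.FP178

section win
variable {BX BY G : Type*} [AddCommGroup G]
  (ΛX : BX → ℝ≥0∞) (hX : BX → ℕ) (zX : BX → G) (sX : BX → Set (G × ℕ))
  (ΛY : BY → ℝ≥0∞) (hY : BY → ℕ) (zY : BY → G) (sY : BY → Set (G × ℕ))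

open Classical in
lemma inner_le (τ i lo s : ℕ) (E E' : ℕ → Finset G) (u : ℝ≥0∞)
    (hEX : ∑' P, nu ΛX hX τ i P * (if Dp zX P ∈ E (HT hX P) then 0 else 1) ≤ u)
    (hEY : ∑' P', nu ΛY hY τ i P' * (if Dp zY P' ∈ E' (HT hY P') then 0 else 1) ≤ u)
    (a a' : ℕ) (x : G) :
    ∑' P, nu ΛX hX τ i P * ∑' P', nu ΛY hY τ i P' *
        (if pcond hX zX sX hY zY sY lo s a a' x P P' then 1 else 0)
      ≤ u * u + (PhX ΛX hX zX sX ΛY hY zY sY τ i lo s E a a' x
        + PhY ΛX hX zX sX ΛY hY zY sY τ i lo s E' a a' x) := by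
  have e1 : ∀ P P', (if pcond hX zX sX hY zY sY lo s a a' x P P' then (1 : ℝ≥0∞) else 0)
      ≤ (if Dp zX P ∈ E (HT hX P) then 0 else 1) * (if Dp zY P' ∈ E' (HT hY P') then 0 else 1)
        + ((if Dp zX P ∈ E (HT hX P) ∧ pcond hX zX sX hY zY sY lo s a a' x P P' then 1 else 0)
          + (if Dp zY P' ∈ E' (HT hY P') ∧ pcond hX zX sX hY zY sY lo s a a' x P P'
              then 1 else 0)) := by
    intro P P'
    by_cases h : pcond hX zX sX hY zY sY lo s a a' x P P' <;>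
    by_cases h1 : Dp zX P ∈ E (HT hX P) <;>
    by_cases h2 : Dp zY P' ∈ E' (HT hY P') <;> simp [h, h1, h2]
  refine (ENNReal.tsum_le_tsum fun P => mul_le_mul_right
    (ENNReal.tsum_le_tsum fun P' => mul_le_mul_right (e1 P P') _) _).trans ?_
  have e2 : ∀ P, nu ΛX hX τ i P * ∑' P', nu ΛY hY τ i P' *
      ((if Dp zX P ∈ E (HT hX P) then 0 else 1) * (if Dp zY P' ∈ E' (HT hY P') then 0 else 1)
        + ((if Dp zX P ∈ E (HT hX P) ∧ pcond hX zX sX hY zY sY lo s a a' x P P' then 1 else 0)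
          + (if Dp zY P' ∈ E' (HT hY P') ∧ pcond hX zX sX hY zY sY lo s a a' x P P'
              then 1 else 0)))
      = (nu ΛX hX τ i P * (if Dp zX P ∈ E (HT hX P) then 0 else 1)) *
          (∑' P', nu ΛY hY τ i P' * (if Dp zY P' ∈ E' (HT hY P') then 0 else 1))
        + (nu ΛX hX τ i P * ∑' P', nu ΛY hY τ i P' *
          (if Dp zX P ∈ E (HT hX P) ∧ pcond hX zX sX hY zY sY lo s a a' x P P' then 1 else 0)
        + nu ΛX hX τ i P * ∑' P', nu ΛY hY τ i P' *
          (if Dp zY P' ∈ E' (HT hY P') ∧ pcond hX zX sX hY zY sY lo s a a' x P P'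
              then 1 else 0)) := by
    intro P
    have e3 : ∀ P', nu ΛY hY τ i P' *
      ((if Dp zX P ∈ E (HT hX P) then 0 else 1) * (if Dp zY P' ∈ E' (HT hY P') then 0 else 1)
        + ((if Dp zX P ∈ E (HT hX P) ∧ pcond hX zX sX hY zY sY lo s a a' x P P' then 1 else 0)
          + (if Dp zY P' ∈ E' (HT hY P') ∧ pcond hX zX sX hY zY sY lo s a a' x P P'
              then 1 else 0)))
        = (if Dp zX P ∈ E (HT hX P) then 0 else 1) *
            (nu ΛY hY τ i P' * (if Dp zY P' ∈ E' (HT hY P') then 0 else 1))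
          + (nu ΛY hY τ i P' *
            (if Dp zX P ∈ E (HT hX P) ∧ pcond hX zX sX hY zY sY lo s a a' x P P'
              then 1 else 0)
          + nu ΛY hY τ i P' *
            (if Dp zY P' ∈ E' (HT hY P') ∧ pcond hX zX sX hY zY sY lo s a a' x P P'
              then 1 else 0)) := by
      intro P'
      ring
    rw [tsum_congr e3, ENNReal.tsum_add, ENNReal.tsum_add, ENNReal.tsum_mul_left]
    ring
  rw [tsum_congr e2, ENNReal.tsum_add, ENNReal.tsum_add, ENNReal.tsum_mul_right]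
  exact add_le_add (mul_le_mul' hEX hEY) le_rfl

open Classical in
theorem window (h1X : ∀ b, 1 ≤ hX b) (hUX : ∀ n, U ΛX hX n ≤ 1)
    (h1Y : ∀ b, 1 ≤ hY b) (hUY : ∀ n, U ΛY hY n ≤ 1)
    (hsX : ∀ b q, q ∈ sX b → 1 ≤ q.2 ∧ q.2 ≤ hX b)
    (hsY : ∀ b q, q ∈ sY b → 1 ≤ q.2 ∧ q.2 ≤ hY b)
    (w : G) (n lo t s i : ℕ) (hn : lo + 2 * t + 3 * i + 1 ≤ n) (hti : 3 * i + 1 + s ≤ t)
    (hlo : t ≤ lo) (E E' : ℕ → Finset G) (u β MX MY r η : ℝ≥0∞)
    (hEX : ∑' P, nu ΛX hX (3 * t) i P * (if Dp zX P ∈ E (HT hX P) then 0 else 1) ≤ u)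
    (hEY : ∑' P', nu ΛY hY (3 * t) i P' * (if Dp zY P' ∈ E' (HT hY P') then 0 else 1) ≤ u)
    (gX bX gY bY : ℕ → G → ℝ≥0∞)
    (hgbX : ∀ a z, (∑' A, if HT hX A = a ∧ Dp zX A = z then nu ΛX hX (lo - t) i A else 0)
      = gX a z + bX a z)
    (hgX : ∀ a z, gX a z ≤ MX) (hbX : ∑' a, ∑' z, bX a z ≤ β)
    (hgbY : ∀ a z, (∑' A, if HT hY A = a ∧ Dp zY A = z then
      nu ΛY hY (lo - t + (2 * i + 1)) i A else 0) = gY a z + bY a z)
    (hgY : ∀ a z, gY a z ≤ MY) (hbY : ∑' a, ∑' z, bY a z ≤ β)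
    (hH2 : ∀ (h h' a a' : ℕ) (μ : G → ℝ≥0∞), ∑' x, μ x ≤ 1 → (∀ x, μ x ≤ MX) → a < a' →
      a' + s ≤ lo → ∑' x, μ x * J2 ΛX hX zX sX ΛY hY zY sY lo h h' a a' (E h) x ≤ r)
    (hH3 : ∀ (h h' a a' : ℕ) (μ : G → ℝ≥0∞), ∑' x, μ x ≤ 1 → (∀ x, μ x ≤ MY) →
      a + h < a' + h' → ∑' x, μ x * J3 ΛX hX zX sX ΛY hY zY sY s h h' a a' (E' h') x ≤ r)
    (hPt : ∀ k ∈ Finset.Icc (lo + 2 * t - s + 1) (lo + 2 * t + 2 * i),
      ∑' LX, ∑' LY, (if HT hX LX = n ∧ HT hY LY = n ∧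
        k ∈ pc hX zX sX hY zY sY LX 0 0 LY w 0 then LW ΛX LX * LW ΛY LY else 0) ≤ η) :
    ∑' LX, ∑' LY, (if HT hX LX = n ∧ HT hY LY = n ∧
        ((∀ k ∈ pc hX zX sX hY zY sY LX 0 0 LY w 0, lo < k) ∧
          ∃ k ∈ pc hX zX sX hY zY sY LX 0 0 LY w 0, k ≤ lo + t)
        then LW ΛX LX * LW ΛY LY else 0)
      ≤ ((s + 2 * i : ℕ) : ℝ≥0∞) * η + (2 * ep ΛX hX i + 2 * ep ΛY hY i
        + (u * u + 2 * β + 2 * (((i + 1 : ℕ) : ℝ≥0∞) ^ 4 * r))) := by
  set S := Finset.Icc (lo + 2 * t - s + 1) (lo + 2 * t + 2 * i) with hS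
  obtain ⟨good, hgood⟩ : ∃ good : List BX → List BY → Prop, ∀ LX LY, good LX LY ↔
    (((∀ k ∈ pc hX zX sX hY zY sY LX 0 0 LY w 0, lo < k) ∧
      ∃ k ∈ pc hX zX sX hY zY sY LX 0 0 LY w 0, k ≤ lo + t) ∧
      ∀ k ∈ pc hX zX sX hY zY sY LX 0 0 LY w 0, k ∉ S) := ⟨_, fun _ _ => Iff.rfl⟩
  have split1 : ∀ LX LY, (if HT hX LX = n ∧ HT hY LY = n ∧
        ((∀ k ∈ pc hX zX sX hY zY sY LX 0 0 LY w 0, lo < k) ∧
          ∃ k ∈ pc hX zX sX hY zY sY LX 0 0 LY w 0, k ≤ lo + t)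
        then LW ΛX LX * LW ΛY LY else 0)
      ≤ (∑ k ∈ S, if HT hX LX = n ∧ HT hY LY = n ∧
        k ∈ pc hX zX sX hY zY sY LX 0 0 LY w 0 then LW ΛX LX * LW ΛY LY else 0)
        + (if HT hX LX = n ∧ HT hY LY = n ∧ good LX LY then LW ΛX LX * LW ΛY LY else 0) := by
    intro LX LY
    by_cases h : HT hX LX = n ∧ HT hY LY = n ∧
        ((∀ k ∈ pc hX zX sX hY zY sY LX 0 0 LY w 0, lo < k) ∧
          ∃ k ∈ pc hX zX sX hY zY sY LX 0 0 LY w 0, k ≤ lo + t)
    · rw [if_pos h]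
      by_cases h2 : ∀ k ∈ pc hX zX sX hY zY sY LX 0 0 LY w 0, k ∉ S
      · rw [if_pos (show HT hX LX = n ∧ HT hY LY = n ∧ good LX LY from
          ⟨h.1, h.2.1, (hgood LX LY).2 ⟨h.2.2, h2⟩⟩)]
        exact le_add_self
      · push Not at h2
        obtain ⟨k, hk, hkS⟩ := h2
        refine le_add_right ?_
        refine le_trans (le_of_eq ?_) (Finset.single_le_sum (f := fun k =>
          if HT hX LX = n ∧ HT hY LY = n ∧ k ∈ pc hX zX sX hY zY sY LX 0 0 LY w 0
            then LW ΛX LX * LW ΛY LY else 0) (fun _ _ => zero_le) hkS)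
        rw [if_pos ⟨h.1, h.2.1, hk⟩]
    · rw [if_neg h]; exact zero_le
  refine (ENNReal.tsum_le_tsum fun LX => ENNReal.tsum_le_tsum fun LY => split1 LX LY).trans ?_
  simp_rw [ENNReal.tsum_add]
  refine add_le_add ?_ ?_
  · have e1 : ∑' LX, ∑' LY, ∑ k ∈ S, (if HT hX LX = n ∧ HT hY LY = n ∧
        k ∈ pc hX zX sX hY zY sY LX 0 0 LY w 0 then LW ΛX LX * LW ΛY LY else 0)
        = ∑ k ∈ S, ∑' LX, ∑' LY, (if HT hX LX = n ∧ HT hY LY = n ∧
          k ∈ pc hX zX sX hY zY sY LX 0 0 LY w 0 then LW ΛX LX * LW ΛY LY else 0) := by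
      rw [← Summable.tsum_finsetSum (fun _ _ => ENNReal.summable)]
      refine tsum_congr fun LX => ?_
      rw [Summable.tsum_finsetSum (fun _ _ => ENNReal.summable)]
    rw [e1]
    calc _ ≤ ∑ k ∈ S, η := Finset.sum_le_sum hPt
      _ = S.card * η := by rw [Finset.sum_const, nsmul_eq_mul]
      _ ≤ _ := by
        refine mul_le_mul_left ?_ _
        rw [hS, Nat.card_Icc]
        exact_mod_cast (by omega : lo + 2 * t + 2 * i + 1 - (lo + 2 * t - s + 1) ≤ s + 2 * i)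
  · refine (win_two ΛX hX ΛY hY h1X hUX h1Y hUY (lo - t) (lo - t + (2 * i + 1))
      (3 * t) (3 * t) i n (by omega) (by omega) good
      (fun A P A' P' => if pcond hX zX sX hY zY sY lo s (HT hX A) (HT hY A')
        (w + Dp zY A' - Dp zX A) P P' then 1 else 0) ?_).trans ?_
    · intro A P R A' P' R' hA hA2 hP hP2 hA' hA2' hP' hP2' hg
      have := pcond_of hX zX sX hY zY sY hsX hsY w lo t s i hti hlo A P R A' P' R'
        (le_HT_of_fp hX hA) hA2 (le_HT_of_fp hX hP) hP2 (le_HT_of_fp hY hA') hA2'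
        (le_HT_of_fp hY hP') ((hgood _ _).1 hg).1.1 ((hgood _ _).1 hg).1.2 ((hgood _ _).1 hg).2
      rw [if_pos this]
    · refine add_le_add le_rfl ?_
      refine (ENNReal.tsum_le_tsum fun A => ENNReal.tsum_le_tsum fun A' => mul_le_mul_right
        (inner_le ΛX hX zX sX ΛY hY zY sY (3 * t) i lo s E E' u hEX hEY (HT hX A) (HT hY A')
          (w + Dp zY A' - Dp zX A)) _).trans ?_
      simp_rw [mul_add, ENNReal.tsum_add]
      have c1 : ∑' A, ∑' A', nu ΛX hX (lo - t) i A * nu ΛY hY (lo - t + (2 * i + 1)) i A' *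
          (u * u) ≤ u * u := by
        simp_rw [ENNReal.tsum_mul_right, ENNReal.tsum_mul_left]
        rw [ENNReal.tsum_mul_right]
        calc _ ≤ (1 * 1) * (u * u) := mul_le_mul_left (mul_le_mul'
              (nu_sum ΛX hX h1X hUX _ i) (nu_sum ΛY hY h1Y hUY _ i)) _
          _ = _ := by rw [one_mul, one_mul]
      set S1 := Finset.Icc (lo - t) (lo - t + i) with hS1
      set S2 := Finset.Icc (lo - t + (2 * i + 1)) (lo - t + (2 * i + 1) + i) with hS2
      have cS1 : (S1.card : ℝ≥0∞) = ((i + 1 : ℕ) : ℝ≥0∞) := by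
        rw [hS1, Nat.card_Icc]; congr 1; omega
      have cS2 : (S2.card : ℝ≥0∞) = ((i + 1 : ℕ) : ℝ≥0∞) := by
        rw [hS2, Nat.card_Icc]; congr 1; omega
      have m1 : ∀ A, nu ΛX hX (lo - t) i A ≠ 0 → HT hX A ∈ S1 := by
        intro A hA
        rw [nu] at hA
        have := (ite_ne_right_iff.1 hA).1
        exact Finset.mem_Icc.2 ⟨le_HT_of_fp hX this.1, this.2⟩
      have m2 : ∀ A, nu ΛY hY (lo - t + (2 * i + 1)) i A ≠ 0 → HT hY A ∈ S2 := by
        intro A hA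
        rw [nu] at hA
        have := (ite_ne_right_iff.1 hA).1
        exact Finset.mem_Icc.2 ⟨le_HT_of_fp hY this.1, this.2⟩
      have c2 : ∑' A, ∑' A', nu ΛX hX (lo - t) i A * nu ΛY hY (lo - t + (2 * i + 1)) i A' *
          PhX ΛX hX zX sX ΛY hY zY sY (3 * t) i lo s E (HT hX A) (HT hY A')
            (w + Dp zY A' - Dp zX A)
          ≤ β + S1.card * S2.card * (((i + 1 : ℕ) : ℝ≥0∞) * (i + 1 : ℕ) * r) := by
        refine tie (nu ΛX hX (lo - t) i) (nu ΛY hY (lo - t + (2 * i + 1)) i) (HT hX) (Dp zX)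
          (HT hY) (fun A' => Equiv.subLeft (w + Dp zY A'))
          (fun a a' x => PhX ΛX hX zX sX ΛY hY zY sY (3 * t) i lo s E a a' x) ?_ S1 S2 m1 m2
          (nu_sum ΛX hX h1X hUX _ i) (nu_sum ΛY hY h1Y hUY _ i) gX bX hgbX MX β _ hgX hbX ?_
        · intro a a' x
          exact dbl_le ΛX hX ΛY hY h1X hUX h1Y hUY _ _ _ _ 1
            (fun P P' => by split_ifs; exacts [le_rfl, zero_le])
        · intro a ha a' ha' μ hμ hμM
          rw [hS1, Finset.mem_Icc] at ha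
          rw [hS2, Finset.mem_Icc] at ha'
          calc ∑' x, μ x * PhX ΛX hX zX sX ΛY hY zY sY (3 * t) i lo s E a a' x
              ≤ ∑' x, μ x * ∑ h ∈ Finset.Icc (3 * t) (3 * t + i),
                ∑ h' ∈ Finset.Icc (3 * t) (3 * t + i),
                J2 ΛX hX zX sX ΛY hY zY sY lo h h' a a' (E h) x :=
                ENNReal.tsum_le_tsum fun x => mul_le_mul_right (PhX_le _ _ _ _ _ _ _ _ _ _ _ _
                  _ _ _ _) _
            _ = ∑ h ∈ Finset.Icc (3 * t) (3 * t + i), ∑ h' ∈ Finset.Icc (3 * t) (3 * t + i),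
                ∑' x, μ x * J2 ΛX hX zX sX ΛY hY zY sY lo h h' a a' (E h) x := by
                simp_rw [Finset.mul_sum]
                rw [Summable.tsum_finsetSum (fun _ _ => ENNReal.summable)]
                refine Finset.sum_congr rfl fun h _ => ?_
                rw [Summable.tsum_finsetSum (fun _ _ => ENNReal.summable)]
            _ ≤ ∑ h ∈ Finset.Icc (3 * t) (3 * t + i), ∑ h' ∈ Finset.Icc (3 * t) (3 * t + i),
                r := Finset.sum_le_sum fun h _ => Finset.sum_le_sum fun h' _ =>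
                  hH2 h h' a a' μ hμ hμM (by omega) (by omega)
            _ = _ := by
              rw [Finset.sum_const, Finset.sum_const, Nat.card_Icc, nsmul_eq_mul,
                nsmul_eq_mul, show 3 * t + i + 1 - 3 * t = i + 1 by omega, mul_assoc]
      have c3 : ∑' A, ∑' A', nu ΛX hX (lo - t) i A * nu ΛY hY (lo - t + (2 * i + 1)) i A' *
          PhY ΛX hX zX sX ΛY hY zY sY (3 * t) i lo s E' (HT hX A) (HT hY A')
            (w + Dp zY A' - Dp zX A)
          ≤ β + S2.card * S1.card * (((i + 1 : ℕ) : ℝ≥0∞) * (i + 1 : ℕ) * r) := by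
        rw [ENNReal.tsum_comm]
        refine le_trans (le_of_eq ?_)
          (tie (nu ΛY hY (lo - t + (2 * i + 1)) i) (nu ΛX hX (lo - t) i) (HT hY) (Dp zY)
          (HT hX) (fun A => Equiv.addLeft (w - Dp zX A))
          (fun a' a x => PhY ΛX hX zX sX ΛY hY zY sY (3 * t) i lo s E' a a' x) ?_ S2 S1 m2 m1
          (nu_sum ΛY hY h1Y hUY _ i) (nu_sum ΛX hX h1X hUX _ i) gY bY hgbY MY β _ hgY hbY ?_)
        · refine tsum_congr fun A' => tsum_congr fun A => ?_
          have e9 : (Equiv.addLeft (w - Dp zX A)) (Dp zY A') = w + Dp zY A' - Dp zX A := by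
            rw [Equiv.coe_addLeft]; abel
          rw [mul_comm (nu ΛX hX (lo - t) i A), e9]
        · intro a a' x
          exact dbl_le ΛX hX ΛY hY h1X hUX h1Y hUY _ _ _ _ 1
            (fun P P' => by split_ifs; exacts [le_rfl, zero_le])
        · intro a' ha' a ha μ hμ hμM
          rw [hS1, Finset.mem_Icc] at ha
          rw [hS2, Finset.mem_Icc] at ha'
          calc ∑' x, μ x * PhY ΛX hX zX sX ΛY hY zY sY (3 * t) i lo s E' a a' x
              ≤ ∑' x, μ x * ∑ h ∈ Finset.Icc (3 * t) (3 * t + i),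
                ∑ h' ∈ Finset.Icc (3 * t) (3 * t + i),
                J3 ΛX hX zX sX ΛY hY zY sY s h h' a a' (E' h') x :=
                ENNReal.tsum_le_tsum fun x => mul_le_mul_right (PhY_le _ _ _ _ _ _ _ _ _ _ _ _
                  _ _ _ _) _
            _ = ∑ h ∈ Finset.Icc (3 * t) (3 * t + i), ∑ h' ∈ Finset.Icc (3 * t) (3 * t + i),
                ∑' x, μ x * J3 ΛX hX zX sX ΛY hY zY sY s h h' a a' (E' h') x := by
                simp_rw [Finset.mul_sum]
                rw [Summable.tsum_finsetSum (fun _ _ => ENNReal.summable)]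
                refine Finset.sum_congr rfl fun h _ => ?_
                rw [Summable.tsum_finsetSum (fun _ _ => ENNReal.summable)]
            _ ≤ ∑ h ∈ Finset.Icc (3 * t) (3 * t + i), ∑ h' ∈ Finset.Icc (3 * t) (3 * t + i),
                r := Finset.sum_le_sum fun h hh => Finset.sum_le_sum fun h' hh' => by
                  rw [Finset.mem_Icc] at hh hh'
                  exact hH3 h h' a a' μ hμ hμM (by omega)
            _ = _ := by
              rw [Finset.sum_const, Finset.sum_const, Nat.card_Icc, nsmul_eq_mul,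
                nsmul_eq_mul, show 3 * t + i + 1 - 3 * t = i + 1 by omega, mul_assoc]
      refine (add_le_add c1 (add_le_add c2 c3)).trans (le_of_eq ?_)
      rw [cS1, cS2]
      ring

end win

end Crest.Agent.R154.Asm557
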