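import Crest.Agent.R154.AsmC_580

/-! Row 154, ROAD 801, abstract assembly, part D: windows and geometry (helper580). -/

set_option autoImplicit false

namespace Crest.Agent.R154.Asm580

open scoped ENNReal
open Crest.Agent.R154.B5A
open Crest.Agent.R154.Ren396 (FR FR_le split_FR mass_FR over_le TS tendsto_TS FR_zero)

lemma tsum_fin {α ι : Type*} (S : Finset ι) (F : ι → α → ℝ≥0∞) :
    ∑' a, ∑ i ∈ S, F i a = ∑ i ∈ S, ∑' a, F i a := by
  classical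
  induction S using Finset.induction_on with
  | empty => simp
  | insert a S ha ih =>
    simp only [Finset.sum_insert ha]
    rw [ENNReal.tsum_add, ih]

section win

variable {BX BY G : Type*} [AddCommGroup G]
  (ΛX : BX → ℝ≥0∞) (hX : BX → ℕ) (zX : BX → G) (sX : BX → Set (G × ℕ))
  (ΛY : BY → ℝ≥0∞) (hY : BY → ℕ) (zY : BY → G) (sY : BY → Set (G × ℕ))

open Classical in
/-- total bound of one window -/
theorem window_bd (hΛX : ∑' b, ΛX b ≤ 1) (h1X : ∀ b, 1 ≤ hX b) (hΛY : ∑' b, ΛY b ≤ 1)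
    (h1Y : ∀ b, 1 ≤ hY b) (Cst : ℝ≥0∞) (us : ℕ → ℕ → ℝ≥0∞)
    (H2 : Hwin ΛX hX zX sX ΛY hY zY sY (fun E L _ => Dp zX L ∈ E) Cst us)
    (H3 : Hwin ΛX hX zX sX ΛY hY zY sY (fun E _ L' => Dp zY L' ∈ E) Cst us)
    (T i0 : ℕ) (u : ℝ≥0∞) (hu : u ≠ 0) (huX : u ≤ ∑' P, lam ΛX hX T i0 P)
    (huY : u ≤ ∑' P, lam ΛY hY T i0 P)
    (w : G) (j J r0 s lo hi : ℕ) (lam0 : ℝ≥0∞) (hl0 : lam0 ≠ 0) (hlt : lam0 ≠ ⊤)
    (hjJ : j + 1 ≤ J) (hr0 : J * i0 ≤ r0) (hlo : j * T + J * i0 + s ≤ lo)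
    (hhi : hi + s ≤ (j + 1) * T) :
    Op (lam ΛX hX T i0) (lam ΛY hY T i0) j (fun A P C Q =>
      if CC hX zX sX hY zY sY (Dp zX A.flatten) (HT hX A.flatten) P
          (w + Dp zY C.flatten) (HT hY C.flatten) Q lo hi then 1 else 0)
      ≤ u * u + (1 - u) ^ j + (1 - u) ^ j
        + (((J * i0 + 1) ^ 4 : ℕ) : ℝ≥0∞) * (Cst * (lam0 + (2 * J) * us r0 s / lam0 + us r0 s))
        + (((J * i0 + 1) ^ 4 : ℕ) : ℝ≥0∞) * (Cst * (lam0 + (2 * J) * us r0 s / lam0 + us r0 s)) := by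
  have hlX := tsum_lam_le ΛX hX hΛX h1X T i0
  have hlY := tsum_lam_le ΛY hY hΛY h1Y T i0
  obtain ⟨θX, tX0, tX1, tX2, tX3⟩ := quant_data (lam ΛX hX T i0) (zz hX zX) hlX hu huX
  obtain ⟨θY, tY0, tY1, tY2, tY3⟩ := quant_data (lam ΛY hY T i0) (zz hY zY) hlY hu huY
  choose EX hEX1 hEX2 using fun n => exists_E hX zX (lam ΛX hX T i0) hlX θX tX0 n
  choose EY hEY1 hEY2 using fun n => exists_E hY zY (lam ΛY hY T i0) hlY θY tY0 n
  have hD : ∀ (θ : ℝ≥0∞) (E : Finset G), (E.card : ℝ≥0∞) * θ ≤ 1 →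
      (j : ℝ≥0∞) * (2 * θ) * E.card ≤ 2 * J := by
    intro θ E hE
    calc (j : ℝ≥0∞) * (2 * θ) * E.card = 2 * j * (E.card * θ) := by ring
      _ ≤ 2 * J * 1 := by
          refine mul_le_mul' (mul_le_mul_right ?_ _) hE
          exact_mod_cast (by omega : j ≤ J)
      _ = _ := mul_one _
  refine (split5 (lam ΛX hX T i0) (lam ΛY hY T i0) hlX hlY j
    (fun A P C Q => CC hX zX sX hY zY sY (Dp zX A.flatten) (HT hX A.flatten) P
          (w + Dp zY C.flatten) (HT hY C.flatten) Q lo hi)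
    (fun P => lawp (lam ΛX hX T i0) (zz hX zX) (zz hX zX P) < θX)
    (fun P => lawp (lam ΛX hX T i0) (zz hX zX) (zz hX zX P) < 2 * θX)
    (fun P => lawp (lam ΛY hY T i0) (zz hY zY) (zz hY zY P) < θY)
    (fun P => lawp (lam ΛY hY T i0) (zz hY zY) (zz hY zY P) < 2 * θY)
    u u ((1 - u) ^ j) ((1 - u) ^ j) (by convert tX2) (by convert tY2) ?_ ?_).trans ?_
  · refine (le_of_eq ?_).trans (pow_le_pow_left' tX3 j)
    have e := AsmA789.nosmall (lam ΛX hX T i0)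
      (fun P => lawp (lam ΛX hX T i0) (zz hX zX) (zz hX zX P) < 2 * θX) j
    convert e
  · refine (le_of_eq ?_).trans (pow_le_pow_left' tY3 j)
    have e := AsmA789.nosmall (lam ΛY hY T i0)
      (fun P => lawp (lam ΛY hY T i0) (zz hY zY) (zz hY zY P) < 2 * θY) j
    convert e
  · refine add_le_add (add_le_add le_rfl ?_) ?_
    · have e := T4 ΛX hX zX sX ΛY hY zY sY T i0 hΛX h1X hΛY h1Y (fun E L _ => Dp zX L ∈ E) Cst us
        H2 (fun P _ => ¬ lawp (lam ΛX hX T i0) (zz hX zX) (zz hX zX P) < θX)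
        (fun A _ => ∃ b ∈ A, lawp (lam ΛX hX T i0) (zz hX zX) (zz hX zX b) < 2 * θX)
        (fun h _ => EX h) (fun P Q hPQ => hEX1 _ _ (not_lt.1 hPQ)) w j J r0 s lo hi
        (j * (2 * θX)) (2 * J) lam0 ?_ (fun h h' => hD θX (EX h) (hEX2 h)) hl0 hlt hjJ hr0 hlo hhi
      · refine (le_of_eq ?_).trans e
        congr!
      intro a a' x
      exact mu_le_X ΛX hX zX ΛY hY zY T i0 hΛY h1Y _
        (fun A => ∃ b ∈ A, lawp (lam ΛX hX T i0) (zz hX zX) (zz hX zX b) < 2 * θX)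
        (fun A C h => h) w j a a' _
        (fun y => (le_of_eq (by congr!)).trans (dens_A hX zX (lam ΛX hX T i0) hlX θX j a y)) x
    · have e := T4 ΛX hX zX sX ΛY hY zY sY T i0 hΛX h1X hΛY h1Y (fun E _ L' => Dp zY L' ∈ E) Cst us
        H3 (fun _ Q => ¬ lawp (lam ΛY hY T i0) (zz hY zY) (zz hY zY Q) < θY)
        (fun _ C => ∃ b ∈ C, lawp (lam ΛY hY T i0) (zz hY zY) (zz hY zY b) < 2 * θY)
        (fun _ h => EY h) (fun P Q hPQ => hEY1 _ _ (not_lt.1 hPQ)) w j J r0 s lo hi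
        (j * (2 * θY)) (2 * J) lam0 ?_ (fun h h' => hD θY (EY h') (hEY2 h')) hl0 hlt hjJ hr0 hlo hhi
      · refine (le_of_eq ?_).trans e
        congr!
      intro a a' x
      exact mu_le_Y ΛX hX zX ΛY hY zY T i0 hΛX h1X _
        (fun C => ∃ b ∈ C, lawp (lam ΛY hY T i0) (zz hY zY) (zz hY zY b) < 2 * θY)
        (fun A C h => h) w j a a' _
        (fun y => (le_of_eq (by congr!)).trans (dens_A hY zY (lam ΛY hY T i0) hlY θY j a' y)) x

end win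

section geo

variable {B G : Type*} [AddCommGroup G] (s : B → Set (G × ℕ)) (z : B → G) (h : B → ℕ)

lemma piece_rng (hs : ∀ b, ∀ q ∈ s b, q.2 ≤ h b) (T i0 J : ℕ) (Ps : List (List B))
    (hl : Ps.length = J) (hP : ∀ P ∈ Ps, T ≤ HT h P ∧ HT h P ≤ T + i0) (j : ℕ) (hj : j < J)
    (x t : G) (k : ℕ) (hm : (t, k) ∈ TT s z h (Ps.getD j []) x (HT h (Ps.take j).flatten)) :
    j * T ≤ k ∧ k ≤ (j + 1) * T + J * i0 := by
  have h1 := TT_depth s z h hs _ _ _ _ _ hm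
  have h2 := HT_flatten_bd h T i0 (Ps.take j) (fun P hP' => hP P (List.mem_of_mem_take hP'))
  rw [List.length_take, hl, min_eq_left hj.le, mul_add] at h2
  have h3 : Ps.getD j [] ∈ Ps := by
    rw [List.getD_eq_getElem _ _ (by omega)]
    exact List.getElem_mem _
  have h4 := hP _ h3
  have h5 : (j + 1) * i0 ≤ J * i0 := Nat.mul_le_mul_right _ (by omega)
  rw [add_mul, one_mul] at h5 ⊢
  omega

end geo

section geo2

variable {BX BY G : Type*} [AddCommGroup G]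
  (hX : BX → ℕ) (zX : BX → G) (sX : BX → Set (G × ℕ))
  (hY : BY → ℕ) (zY : BY → G) (sY : BY → Set (G × ℕ))

theorem geo (hsX : ∀ b, ∀ q ∈ sX b, q.2 ≤ hX b) (hsY : ∀ b, ∀ q ∈ sY b, q.2 ≤ hY b)
    (K J T i0 s m : ℕ) (hJ : J = 2 * K + 3) (hT1 : (K + 1) * T ≤ m)
    (hT2 : 2 * m < J * T) (hT3 : J * i0 < T) (hT4 : s ≤ T)
    (Ps : List (List BX)) (Qs : List (List BY)) (hlX : Ps.length = J) (hlY : Qs.length = J)
    (hP : ∀ P ∈ Ps, T ≤ HT hX P ∧ HT hX P ≤ T + i0)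
    (hQ : ∀ P ∈ Qs, T ≤ HT hY P ∧ HT hY P ≤ T + i0)
    (RX : List BX) (RY : List BY) (w : G)
    (hE : ∃ k t, m < k ∧ k ≤ 2 * m ∧ (t, k) ∈ TT sX zX hX (Ps.flatten ++ RX) 0 0 ∧
      (t, k) ∈ TT sY zY hY (Qs.flatten ++ RY) w 0)
    (hS : ∀ k t, (t, k) ∈ TT sX zX hX (Ps.flatten ++ RX) 0 0 →
      (t, k) ∈ TT sY zY hY (Qs.flatten ++ RY) w 0 → ∀ i, K ≤ i → i ≤ J →
        ¬ (i * T - s ≤ k ∧ k ≤ i * T + J * i0 + s)) :
    ∃ j, K ≤ j ∧ j < J ∧ CC hX zX sX hY zY sY (Dp zX (Ps.take j).flatten)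
      (HT hX (Ps.take j).flatten) (Ps.getD j []) (w + Dp zY (Qs.take j).flatten)
      (HT hY (Qs.take j).flatten) (Qs.getD j []) (j * T + J * i0 + s) ((j + 1) * T - s) := by
  -- localisation of a common depth in a piece
  have hloc : ∀ (j k : ℕ), K ≤ j → j < J → j * T ≤ k → k ≤ (j + 1) * T + J * i0 →
      (∀ i, K ≤ i → i ≤ J → ¬ (i * T - s ≤ k ∧ k ≤ i * T + J * i0 + s)) →
      j * T + J * i0 + s < k ∧ k < (j + 1) * T - s := by
    intro j k hKj hjJ h1 h2 h3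
    have h4 := h3 j hKj hjJ.le
    have h5 := h3 (j + 1) (by omega) (by omega)
    have h6 : j * T - s ≤ k := by omega
    constructor
    · by_contra h7; exact h4 ⟨h6, by omega⟩
    · by_contra h7; exact h5 ⟨by omega, by omega⟩
  obtain ⟨k, t, hk1, hk2, hkX, hkY⟩ := hE
  have hkS := hS k t hkX hkY
  have bX := HT_flatten_bd hX T i0 Ps hP
  have bY := HT_flatten_bd hY T i0 Qs hQ
  rw [hlX] at bX
  rw [hlY] at bY
  have cX : (t, k) ∈ TT sX zX hX Ps.flatten 0 0 := by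
    rw [TT_append] at hkX
    rcases hkX with h1 | h1
    · exact h1
    · have := TT_depth sX zX hX hsX _ _ _ _ _ h1
      omega
  have cY : (t, k) ∈ TT sY zY hY Qs.flatten w 0 := by
    rw [TT_append] at hkY
    rcases hkY with h1 | h1
    · exact h1
    · have := TT_depth sY zY hY hsY _ _ _ _ _ h1
      omega
  obtain ⟨jX, hjX, mX⟩ := TT_flatten sX zX hX Ps 0 0 t k cX
  obtain ⟨jY, hjY, mY⟩ := TT_flatten sY zY hY Qs w 0 t k cY
  rw [zero_add, zero_add] at mX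
  rw [zero_add] at mY
  rw [hlX] at hjX
  rw [hlY] at hjY
  have rX := piece_rng sX zX hX hsX T i0 J Ps hlX hP jX hjX _ t k mX
  have rY := piece_rng sY zY hY hsY T i0 J Qs hlY hQ jY hjY _ t k mY
  have kK : ∀ j, k ≤ (j + 1) * T + J * i0 → K ≤ j := by
    intro j hj
    by_contra h1
    have h2 : (j + 1) * T ≤ K * T := Nat.mul_le_mul_right _ (by omega)
    rw [add_mul K 1, one_mul] at hT1
    omega
  have lX := hloc jX k (kK _ rX.2) hjX rX.1 rX.2 hkS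
  have lY := hloc jY k (kK _ rY.2) hjY rY.1 rY.2 hkS
  have hle : ∀ a b : ℕ, a * T + J * i0 + s < k → k < (b + 1) * T - s → a ≤ b := by
    intro a b h1 h2
    by_contra h3
    have : (b + 1) * T ≤ a * T := Nat.mul_le_mul_right _ (by omega)
    omega
  have hXY : jX = jY := le_antisymm (hle _ _ lX.1 lY.2) (hle _ _ lY.1 lX.2)
  subst hXY
  refine ⟨jX, kK _ rX.2, hjX, ⟨t, k, mX, mY⟩, ?_⟩
  intro t' k' h1 h2
  have sX' := TT_piece_sub sX zX hX Ps jX (by omega) 0 0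
  have sY' := TT_piece_sub sY zY hY Qs jX (by omega) w 0
  rw [zero_add, zero_add] at sX'
  rw [zero_add] at sY'
  have hS' := hS k' t' (by rw [TT_append]; exact Or.inl (sX' h1))
    (by rw [TT_append]; exact Or.inl (sY' h2))
  have r' := piece_rng sX zX hX hsX T i0 J Ps hlX hP jX hjX _ t' k' h1
  have l' := hloc jX k' (kK _ rX.2) hjX r'.1 r'.2 hS'
  exact ⟨l'.1.le, l'.2.le⟩

end geo2

end Crest.Agent.R154.Asm580
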