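import Crest.Agent.R154.AsmC_594

/-! Row 154, ROAD 801 (helper594): the one-window bound. Pure sums. -/

set_option autoImplicit false

namespace Crest.Agent.R154.Asm594

open scoped ENNReal
open Crest.Agent.R154.B5A
open Crest.Agent.R154.Bind12 (TT Dp)

open Classical in
lemma fiber_sum {C V : Type*} (π : C → ℝ≥0∞) (v : C → V) (R : V → Prop) :
    ∑' c, (if R (v c) then π c else 0) = ∑' x, (if R x then pp π v x else 0) := by
  have e : ∀ x, (if R x then pp π v x else 0) = ∑' c, if v c = x then (if R x then π c else 0) else 0 := by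
    intro x
    unfold pp
    by_cases h : R x
    · simp only [h, if_true]
    · simp [h]
  simp_rw [e]
  rw [ENNReal.tsum_comm]
  refine tsum_congr fun c => ?_
  rw [tsum_eq_single (v c)]
  · simp
  · intro y hy; rw [if_neg (Ne.symm hy)]

lemma fin_swap {α β : Type*} (A B : Finset ℕ) (F : ℕ → ℕ → α → β → ℝ≥0∞) :
    ∑ h ∈ A, ∑ h' ∈ B, ∑' L, ∑' L', F h h' L L' = ∑' L, ∑' L', ∑ h ∈ A, ∑ h' ∈ B, F h h' L L' := by
  have e1 : ∀ h, ∑ h' ∈ B, ∑' L, ∑' L', F h h' L L' = ∑' L, ∑' L', ∑ h' ∈ B, F h h' L L' := by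
    intro h
    rw [← Summable.tsum_finsetSum (fun i _ => ENNReal.summable)]
    refine tsum_congr fun L => ?_
    rw [← Summable.tsum_finsetSum (fun i _ => ENNReal.summable)]
  simp_rw [e1]
  rw [← Summable.tsum_finsetSum (fun i _ => ENNReal.summable)]
  refine tsum_congr fun L => ?_
  rw [← Summable.tsum_finsetSum (fun i _ => ENNReal.summable)]

lemma pw_sum {B : Type*} (Λ : B → ℝ≥0∞) (ht : B → ℕ) (h1 : ∀ b, 1 ≤ ht b) (hΛ : ∑' b, Λ b = 1)
    (T : ℕ) : ∑' P, pw Λ ht T P = 1 := FP_mass Λ ht h1 hΛ T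

open Classical in
/-- the threshold of one walker -/
lemma thr {B G : Type*} [AddCommGroup G] (Λ : B → ℝ≥0∞) (ht : B → ℕ) (z : B → G)
    (h1 : ∀ b, 1 ≤ ht b) (hΛ : ∑' b, Λ b = 1) (T : ℕ) {u : ℝ≥0∞} (hu : u ≠ 0) (hu1 : u < 1) :
    ∃ th : ℝ≥0∞, th ≠ 0 ∧
      (∑' P, (if pp (pw Λ ht T) (vv (HT ht) (Dp z)) (vv (HT ht) (Dp z) P) < th
        then pw Λ ht T P else 0) ≤ u) ∧
      (∑' P, (if th < pp (pw Λ ht T) (vv (HT ht) (Dp z)) (vv (HT ht) (Dp z) P)
        then pw Λ ht T P else 0) ≤ 1 - u) ∧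
      ∀ h : ℕ, ∃ E : Finset G, (∀ x, x ∈ E ↔ th ≤ pp (pw Λ ht T) (vv (HT ht) (Dp z)) ((h : ℤ), x)) ∧
        (E.card : ℝ≥0∞) * th ≤ 1 := by
  set π := pw Λ ht T with hπ
  set v : List B → ℤ × G := vv (HT ht) (Dp z) with hv
  have hp1 : ∑' x, pp π v x = 1 := by
    have h2 := fiber_sum π v (fun _ => True)
    simp only [if_true] at h2
    rw [← h2]
    exact pw_sum Λ ht h1 hΛ T
  obtain ⟨th, t0, _, t2, t3⟩ := Dens616.quantile (pp π v) hp1 hu hu1
  refine ⟨th, t0, ?_, ?_, fun h => ?_⟩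
  · refine (le_of_eq ?_).trans t2
    convert fiber_sum π v (fun x => pp π v x < th)
  · refine (le_of_eq (b := ∑' x, (if th < pp π v x then pp π v x else 0)) ?_).trans ?_
    · convert fiber_sum π v (fun x => th < pp π v x)
    have h3 : (∑' x, (if th < pp π v x then pp π v x else 0)) +
        (∑' x, if pp π v x ≤ th then pp π v x else 0) = 1 := by
      rw [← ENNReal.tsum_add, ← hp1]
      refine tsum_congr fun x => ?_
      by_cases hx : th < pp π v x
      · rw [if_pos hx, if_neg (not_le.2 hx), add_zero]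
      · rw [if_neg hx, if_pos (not_lt.1 hx), zero_add]
    have h4 : u ≠ ⊤ := ne_top_of_lt hu1
    refine (ENNReal.le_sub_of_add_le_right h4 ?_)
    rw [← h3]
    exact add_le_add le_rfl t3
  · have hsum : ∑' x : G, pp π v ((h : ℤ), x) ≤ 1 := by
      rw [← hp1]
      exact ENNReal.tsum_comp_le_tsum_of_injective (f := fun x : G => ((h : ℤ), x))
        (fun a b hab => by simpa using hab) (pp π v)
    have hfin : {x : G | th ≤ pp π v ((h : ℤ), x)}.Finite :=
      Dens616.finite_local (fun x : G => pp π v ((h : ℤ), x))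
        (ne_top_of_le_ne_top ENNReal.one_ne_top hsum) t0
    refine ⟨hfin.toFinset, fun x => by simp, ?_⟩
    refine (Dens616.card_mul_le (fun x : G => pp π v ((h : ℤ), x)) th _ ?_).trans hsum
    intro x hx
    simpa using hx

lemma hM_ok (th u : ℝ≥0∞) (hu : u ≠ 0) (hu1 : u < 1) : th + (1 - u) * (th / u) ≤ th / u := by
  have h4 : u ≠ ⊤ := ne_top_of_lt hu1
  have e1 : th = u * (th / u) := by
    rw [ENNReal.mul_div_cancel hu h4]
  calc th + (1 - u) * (th / u) = u * (th / u) + (1 - u) * (th / u) := by rw [← e1]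
    _ = (u + (1 - u)) * (th / u) := by rw [add_mul]
    _ = th / u := by rw [add_tsub_cancel_of_le hu1.le, one_mul]
    _ ≤ _ := le_rfl

lemma SL_swap {C1 C2 : Type*} (π1 : C1 → ℝ≥0∞) (π2 : C2 → ℝ≥0∞) (j j' : ℕ)
    (F : List C1 → List C2 → ℝ≥0∞) :
    SL π1 j (fun L => SL π2 j' (fun L' => F L L')) = SL π2 j' (fun L' => SL π1 j (fun L => F L L')) := by
  unfold SL
  have e : ∀ L : List C1, (if L.length = j then LW π1 L * ∑' L' : List C2,
      (if L'.length = j' then LW π2 L' * F L L' else 0) else 0)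
      = ∑' L' : List C2, (if L.length = j ∧ L'.length = j' then LW π1 L * (LW π2 L' * F L L') else 0) := by
    intro L
    by_cases h : L.length = j
    · simp only [h, if_true, true_and]
      rw [← ENNReal.tsum_mul_left]
      refine tsum_congr fun L' => ?_
      split_ifs <;> simp
    · simp [h]
  have e' : ∀ L' : List C2, (if L'.length = j' then LW π2 L' * ∑' L : List C1,
      (if L.length = j then LW π1 L * F L L' else 0) else 0)
      = ∑' L : List C1, (if L.length = j ∧ L'.length = j' then LW π1 L * (LW π2 L' * F L L') else 0) := by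
    intro L'
    by_cases h : L'.length = j'
    · simp only [h, if_true, and_true]
      rw [← ENNReal.tsum_mul_left]
      refine tsum_congr fun L => ?_
      split_ifs
      · ring
      · simp
    · simp [h]
  simp_rw [e, e']
  exact ENNReal.tsum_comm

section window

variable {BX BY G : Type*} [AddCommGroup G] (ΛX : BX → ℝ≥0∞) (ΛY : BY → ℝ≥0∞)
  (hX : BX → ℕ) (hY : BY → ℕ) (zX : BX → G) (zY : BY → G)
  (sX : BX → Set (G × ℕ)) (sY : BY → Set (G × ℕ))

local notation "KKn" => KK ΛX ΛY hX hY zX zY sX sY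

lemma KK_le_one (h1X : ∀ b, 1 ≤ hX b) (h1Y : ∀ b, 1 ≤ hY b) (hΛX : ∑' b, ΛX b = 1)
    (hΛY : ∑' b, ΛY b = 1) (T T' i0 lo hi : ℕ) (Q : List BX → List BY → Prop) (a a' : ℕ) (x : G) :
    KKn T T' i0 lo hi Q a a' x ≤ 1 := by
  classical
  unfold KK
  calc _ ≤ ∑' P : List BX, ∑' P' : List BY, pw ΛX hX T P * pw ΛY hY T' P' := by
        refine ENNReal.tsum_le_tsum fun P => ENNReal.tsum_le_tsum fun P' => ?_
        split_ifs
        · exact le_rfl
        · exact zero_le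
    _ = 1 := by
        simp_rw [ENNReal.tsum_mul_left, pw_sum ΛY hY h1Y hΛY, mul_one]
        exact pw_sum ΛX hX h1X hΛX T

/-- all the inequalities of a window -/
def Geo (T T' i0 lo hi s D : ℕ) (R1 R2 : Finset ℕ) : Prop :=
  ∀ a ∈ R1, ∀ a' ∈ R2, ∀ h h', T ≤ h → h ≤ T + i0 → T' ≤ h' → h' ≤ T' + i0 →
    a ≤ a' ∧ a' ≤ a + D ∧ a + h ≤ a' + h' ∧ a' + h' ≤ a + h + D ∧
    a + s ≤ lo ∧ a' + s ≤ lo ∧ hi + s ≤ a + h ∧ hi + s ≤ a' + h'

lemma locX (T T' i0 lo hi s D : ℕ) (R1 R2 : Finset ℕ) (hG : Geo T T' i0 lo hi s D R1 R2)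
    (η Cst th M : ℝ≥0∞) (p : ℤ × G → ℝ≥0∞)
    (hE : ∀ h : ℕ, ∃ E : Finset G, (∀ x, x ∈ E ↔ th ≤ p ((h : ℤ), x)) ∧ M * E.card ≤ Cst)
    (hF : F2 ΛX ΛY hX hY zX zY sX sY η Cst s D)
    (a : ℕ) (ha : a ∈ R1) (a' : ℕ) (ha' : a' ∈ R2) (μ : G → ℝ≥0∞) (m1 : ∑' x, μ x ≤ 1)
    (m2 : ∀ x, μ x ≤ M) :
    ∑' x, μ x * KKn T T' i0 lo hi (fun P _ => th ≤ p (vv (HT hX) (Dp zX) P)) a a' x
      ≤ (i0 + 1 : ℕ) * (i0 + 1 : ℕ) * η := by
  classical
  choose E hE1 hE2 using hE
  set W : ℕ → ℕ → G → ℝ≥0∞ := fun h h' x => ∑' L : List BX, ∑' L' : List BY, (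
        if HT hX L = h ∧ Dp zX L ∈ E h ∧ HT hY L' = h' ∧
          EV hX hY zX zY sX sY lo hi a a' 0 x L L' then LW ΛX L * LW ΛY L' else 0) with hW
  have hK : ∀ x, KKn T T' i0 lo hi (fun P _ => th ≤ p (vv (HT hX) (Dp zX) P)) a a' x
      ≤ ∑ h ∈ Finset.Icc T (T + i0), ∑ h' ∈ Finset.Icc T' (T' + i0), W h h' x := by
    intro x
    unfold KK
    have e : ∑ h ∈ Finset.Icc T (T + i0), ∑ h' ∈ Finset.Icc T' (T' + i0), W h h' x
        = ∑' L : List BX, ∑' L' : List BY, ∑ h ∈ Finset.Icc T (T + i0),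
          ∑ h' ∈ Finset.Icc T' (T' + i0), (
        if HT hX L = h ∧ Dp zX L ∈ E h ∧ HT hY L' = h' ∧
          EV hX hY zX zY sX sY lo hi a a' 0 x L L' then LW ΛX L * LW ΛY L' else 0) := by
      exact fin_swap _ _ _
    rw [e]
    refine ENNReal.tsum_le_tsum fun P => ENNReal.tsum_le_tsum fun P' => ?_
    split_ifs with hc
    · obtain ⟨c1, c2, c3, c4⟩ := hc
      unfold pw
      by_cases f1 : FP hX P T
      · by_cases f2 : FP hY P' T'
        · rw [if_pos f1, if_pos f2]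
          have g1 := FP_le hX P T f1
          have g2 := FP_le hY P' T' f2
          refine le_trans ?_ (Finset.single_le_sum (f := fun h => ∑ h' ∈ Finset.Icc T' (T' + i0), (
            if HT hX P = h ∧ Dp zX P ∈ E h ∧ HT hY P' = h' ∧
            EV hX hY zX zY sX sY lo hi a a' 0 x P P' then LW ΛX P * LW ΛY P' else 0))
            (fun _ _ => zero_le) (Finset.mem_Icc.2 ⟨g1, c2⟩))
          refine le_trans ?_ (Finset.single_le_sum (f := fun h' => (
            if HT hX P = HT hX P ∧ Dp zX P ∈ E (HT hX P) ∧ HT hY P' = h' ∧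
            EV hX hY zX zY sX sY lo hi a a' 0 x P P' then LW ΛX P * LW ΛY P' else 0))
            (fun _ _ => zero_le) (Finset.mem_Icc.2 ⟨g2, c3⟩))
          rw [if_pos ⟨rfl, (hE1 _ _).2 c1, rfl, c4⟩]
        · rw [if_neg f2, mul_zero]; exact zero_le
      · rw [if_neg f1, zero_mul]; exact zero_le
    · exact zero_le
  calc _ ≤ ∑' x, μ x * ∑ h ∈ Finset.Icc T (T + i0), ∑ h' ∈ Finset.Icc T' (T' + i0), W h h' x :=
        ENNReal.tsum_le_tsum fun x => mul_le_mul_right (hK x) _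
    _ = ∑ h ∈ Finset.Icc T (T + i0), ∑ h' ∈ Finset.Icc T' (T' + i0), ∑' x, μ x * W h h' x := by
        simp_rw [Finset.mul_sum]
        rw [Summable.tsum_finsetSum (fun i _ => ENNReal.summable)]
        refine Finset.sum_congr rfl fun h _ => ?_
        rw [Summable.tsum_finsetSum (fun i _ => ENNReal.summable)]
    _ ≤ ∑ h ∈ Finset.Icc T (T + i0), ∑ h' ∈ Finset.Icc T' (T' + i0), η := by
        refine Finset.sum_le_sum fun h hh => Finset.sum_le_sum fun h' hh' => ?_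
        rw [Finset.mem_Icc] at hh hh'
        obtain ⟨q1, q2, q3, q4, q5, q6, q7, q8⟩ := hG a ha a' ha' h h' hh.1 hh.2 hh'.1 hh'.2
        exact hF a a' h h' lo hi q1 q2 q3 q4 q5 q6 q7 q8 (E h) μ M m1 m2 (hE2 h)
    _ = _ := by
        simp only [Finset.sum_const, Nat.card_Icc, nsmul_eq_mul]
        rw [show T + i0 + 1 - T = i0 + 1 by omega, show T' + i0 + 1 - T' = i0 + 1 by omega]
        ring

end window

end Crest.Agent.R154.Asm594
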