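import Crest.Agent.R154.AsmC_636

/-! Row 154, ROAD 801, abstract assembly (helper636), part D: one window, total. -/

set_option autoImplicit false

namespace Crest.Agent.R154.Asm636

open scoped ENNReal
open Crest.Agent.R154.B5A Crest.Agent.R154.FP178

variable {BX BY G : Type*} [AddCommGroup G]
variable (ΛX : BX → ℝ≥0∞) (hX : BX → ℕ) (zX : BX → G) (sX : BX → Set (G × ℕ))
variable (ΛY : BY → ℝ≥0∞) (hY : BY → ℕ) (zY : BY → G) (sY : BY → Set (G × ℕ))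

open Classical in
theorem window (hX1 : ∀ b, 1 ≤ hX b) (hXΛ : ∑' b, ΛX b ≤ 1) (hY1 : ∀ b, 1 ≤ hY b)
    (hYΛ : ∑' b, ΛY b ≤ 1) (us : ℕ → ℝ≥0∞) (C : ℝ≥0∞)
    (hWX : WinX ΛX hX zX sX ΛY hY zY sY us C) (hWY : WinY ΛX hX zX sX ΛY hY zY sY us C)
    (w : G) (i0 s aX aY tX tY lo hi : ℕ)
    (g1 : aX + i0 ≤ aY) (g2 : aX + i0 + tX + i0 ≤ aY + tY) (g3 : aY + i0 + s ≤ lo)
    (g4 : hi + s ≤ aX + tX) (lam R Bd u GX GY thX thY : ℝ≥0∞) (hl : lam ≠ 0) (hl' : lam ≠ ⊤)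
    (EX EY : ℕ → Finset G)
    (hEX : ∀ j, GX * (EX j).card ≤ R) (hEY : ∀ j, GY * (EY j).card ≤ R)
    (hEX' : ∀ j x, x ∉ EX j → fd ΛX hX zX tX j x < thX)
    (huX : ∑' j, ∑' x, (if fd ΛX hX zX tX j x < thX then fd ΛX hX zX tX j x else 0) ≤ u)
    (hEY' : ∀ j x, x ∉ EY j → fd ΛY hY zY tY j x < thY)
    (huY : ∑' j, ∑' x, (if fd ΛY hY zY tY j x < thY then fd ΛY hY zY tY j x else 0) ≤ u)
    (hdX : ∃ b : ℕ → G → ℝ≥0∞, (∑' j, ∑' x, b j x ≤ Bd) ∧ ∀ j x, fd ΛX hX zX aX j x ≤ GX + b j x)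
    (hdY : ∃ b : ℕ → G → ℝ≥0∞, (∑' j, ∑' x, b j x ≤ Bd) ∧ ∀ j x, fd ΛY hY zY aY j x ≤ GY + b j x) :
    ∑' P1, V ΛX hX i0 aX P1 * ∑' P2, V ΛX hX i0 tX P2 * (∑' Q1, V ΛY hY i0 aY Q1 *
      ∑' Q2, V ΛY hY i0 tY Q2 * (if Cl (TS hX zX sX P2 (Dp zX P1) (HT hX P1))
        (TS hY zY sY Q2 (w + Dp zY Q1) (HT hY Q1)) lo hi then 1 else 0))
      ≤ 2 * ((i0 + 1 : ℕ) * (((i0 + 1 : ℕ) : ℝ≥0∞) ^ 2 * (C * (lam + R * us s / lam + us s))) + Bd)
        + u * u := by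
  set C1 : ℝ≥0∞ := C * (lam + R * us s / lam + us s) with hC1
  set RX : List BX → List BY → Prop := fun P _ => Dp zX P ∈ EX (HT hX P - tX) with hRX
  set RY : List BX → List BY → Prop := fun _ Q => Dp zY Q ∈ EY (HT hY Q - tY) with hRY
  -- the window lemmas on the kernels
  have kX : ∀ α β : ℕ, aX ≤ α → α ≤ aX + i0 → aY ≤ β → β ≤ aY + i0 →
      ∀ μ : G → ℝ≥0∞, ∑' x, μ x ≤ 1 → (∀ x, μ x ≤ GX) →
      ∑' x, μ x * KK ΛX hX zX sX ΛY hY zY sY i0 tX tY lo hi RX α β x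
        ≤ ((i0 + 1 : ℕ) : ℝ≥0∞) ^ 2 * C1 := by
    intro α β a1 a2 b1 b2 μ m1 m2
    refine KK_sum ΛX hX zX sX ΛY hY zY sY i0 tX tY lo hi RX α β
      (fun j _ P _ => Dp zX P ∈ EX j) ?_ μ C1 ?_
    · intro P Q j j' e1 e2 hr
      rw [hRX] at hr
      rwa [show HT hX P - tX = j by omega] at hr
    · intro j j' hj hj'
      have := hWX s (tX + j) (tY + j') α β lo hi (EX j) μ GX lam m1 m2 hl hl' (by omega)
        (by omega) (by omega) (by omega) (by omega) (by omega)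
      refine le_trans (le_of_eq ?_) (le_trans this ?_)
      · refine tsum_congr fun x => ?_
        congr 1
        refine tsum_congr fun L => tsum_congr fun L' => ?_
        split_ifs with c1 c2 c2
        · rfl
        · exact absurd c1 c2
        · exact absurd c2 c1
        · rfl
      · rw [hC1]
        gcongr
        exact hEX j
  have kY : ∀ α β : ℕ, aX ≤ α → α ≤ aX + i0 → aY ≤ β → β ≤ aY + i0 →
      ∀ μ : G → ℝ≥0∞, ∑' x, μ x ≤ 1 → (∀ x, μ x ≤ GY) →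
      ∑' x, μ x * KK ΛX hX zX sX ΛY hY zY sY i0 tX tY lo hi RY α β x
        ≤ ((i0 + 1 : ℕ) : ℝ≥0∞) ^ 2 * C1 := by
    intro α β a1 a2 b1 b2 μ m1 m2
    refine KK_sum ΛX hX zX sX ΛY hY zY sY i0 tX tY lo hi RY α β
      (fun _ j' _ Q => Dp zY Q ∈ EY j') ?_ μ C1 ?_
    · intro P Q j j' e1 e2 hr
      rw [hRY] at hr
      rwa [show HT hY Q - tY = j' by omega] at hr
    · intro j j' hj hj'
      have := hWY s (tX + j) (tY + j') α β lo hi (EY j') μ GY lam m1 m2 hl hl' (by omega)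
        (by omega) (by omega) (by omega) (by omega) (by omega)
      refine le_trans (le_of_eq ?_) (le_trans this ?_)
      · refine tsum_congr fun x => ?_
        congr 1
        refine tsum_congr fun L => tsum_congr fun L' => ?_
        split_ifs with c1 c2 c2
        · rfl
        · exact absurd c1 c2
        · exact absurd c2 c1
        · rfl
      · rw [hC1]
        gcongr
        exact hEY j'
  set C2 : ℝ≥0∞ := ((i0 + 1 : ℕ) : ℝ≥0∞) ^ 2 * C1 with hC2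
  -- inner double sum
  have inner : ∀ P1 Q1, ∑' P2, V ΛX hX i0 tX P2 * ∑' Q2, V ΛY hY i0 tY Q2 *
      (if Cl (TS hX zX sX P2 (Dp zX P1) (HT hX P1))
        (TS hY zY sY Q2 (w + Dp zY Q1) (HT hY Q1)) lo hi then 1 else 0)
      ≤ KK ΛX hX zX sX ΛY hY zY sY i0 tX tY lo hi RX (HT hX P1) (HT hY Q1)
          (w + Dp zY Q1 - Dp zX P1)
        + KK ΛX hX zX sX ΛY hY zY sY i0 tX tY lo hi RY (HT hX P1) (HT hY Q1)
          (w + Dp zY Q1 - Dp zX P1) + u * u := by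
    intro P1 Q1
    have hpt : ∀ P2 Q2, (if Cl (TS hX zX sX P2 (Dp zX P1) (HT hX P1))
        (TS hY zY sY Q2 (w + Dp zY Q1) (HT hY Q1)) lo hi then (1 : ℝ≥0∞) else 0)
        ≤ (if RX P2 Q2 ∧ Cl (TS hX zX sX P2 0 (HT hX P1))
            (TS hY zY sY Q2 (w + Dp zY Q1 - Dp zX P1) (HT hY Q1)) lo hi then 1 else 0)
          + (if RY P2 Q2 ∧ Cl (TS hX zX sX P2 0 (HT hX P1))
            (TS hY zY sY Q2 (w + Dp zY Q1 - Dp zX P1) (HT hY Q1)) lo hi then 1 else 0)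
          + (if Dp zX P2 ∉ EX (HT hX P2 - tX) then 1 else 0)
            * (if Dp zY Q2 ∉ EY (HT hY Q2 - tY) then 1 else 0) := by
      intro P2 Q2
      by_cases hc : Cl (TS hX zX sX P2 (Dp zX P1) (HT hX P1))
        (TS hY zY sY Q2 (w + Dp zY Q1) (HT hY Q1)) lo hi
      · have hc' := (Cl_shift hX zX sX hY zY sY P2 Q2 _ _ _ _ lo hi).1 hc
        rw [if_pos hc]
        by_cases r1 : Dp zX P2 ∈ EX (HT hX P2 - tX)
        · rw [if_pos (⟨r1, hc'⟩ : RX P2 Q2 ∧ _), add_assoc]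
          exact le_self_add
        · by_cases r2 : Dp zY Q2 ∈ EY (HT hY Q2 - tY)
          · rw [if_pos (⟨r2, hc'⟩ : RY P2 Q2 ∧ _)]
            exact le_trans le_add_self le_self_add
          · rw [if_pos r1, if_pos r2, one_mul]
            exact le_add_self
      · rw [if_neg hc]; exact zero_le
    calc ∑' P2, V ΛX hX i0 tX P2 * ∑' Q2, V ΛY hY i0 tY Q2 *
      (if Cl (TS hX zX sX P2 (Dp zX P1) (HT hX P1))
        (TS hY zY sY Q2 (w + Dp zY Q1) (HT hY Q1)) lo hi then 1 else 0)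
        ≤ ∑' P2, V ΛX hX i0 tX P2 * ∑' Q2, V ΛY hY i0 tY Q2 *
          ((if RX P2 Q2 ∧ Cl (TS hX zX sX P2 0 (HT hX P1))
            (TS hY zY sY Q2 (w + Dp zY Q1 - Dp zX P1) (HT hY Q1)) lo hi then 1 else 0)
          + (if RY P2 Q2 ∧ Cl (TS hX zX sX P2 0 (HT hX P1))
            (TS hY zY sY Q2 (w + Dp zY Q1 - Dp zX P1) (HT hY Q1)) lo hi then 1 else 0)
          + (if Dp zX P2 ∉ EX (HT hX P2 - tX) then 1 else 0)
            * (if Dp zY Q2 ∉ EY (HT hY Q2 - tY) then 1 else 0)) :=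
          ENNReal.tsum_le_tsum fun P2 => mul_le_mul_right
            (ENNReal.tsum_le_tsum fun Q2 => mul_le_mul_right (hpt P2 Q2) _) _
      _ = KK ΛX hX zX sX ΛY hY zY sY i0 tX tY lo hi RX (HT hX P1) (HT hY Q1)
          (w + Dp zY Q1 - Dp zX P1)
        + KK ΛX hX zX sX ΛY hY zY sY i0 tX tY lo hi RY (HT hX P1) (HT hY Q1)
          (w + Dp zY Q1 - Dp zX P1)
        + (∑' P2, V ΛX hX i0 tX P2 * (if Dp zX P2 ∉ EX (HT hX P2 - tX) then 1 else 0))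
          * (∑' Q2, V ΛY hY i0 tY Q2 * (if Dp zY Q2 ∉ EY (HT hY Q2 - tY) then 1 else 0)) := by
          unfold KK
          rw [← ENNReal.tsum_add, ← ENNReal.tsum_mul_right, ← ENNReal.tsum_add]
          refine tsum_congr fun P2 => ?_
          rw [← mul_add, mul_assoc, ← mul_add]
          congr 1
          rw [← ENNReal.tsum_add, ← ENNReal.tsum_mul_left, ← ENNReal.tsum_add]
          refine tsum_congr fun Q2 => ?_
          ring
      _ ≤ _ := by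
          gcongr
          · exact nonloc ΛX hX zX tX i0 thX u EX hEX' huX
          · exact nonloc ΛY hY zY tY i0 thY u EY hEY' huY
  -- reorder
  have e0 : ∀ P1, ∑' P2, V ΛX hX i0 tX P2 * (∑' Q1, V ΛY hY i0 aY Q1 *
      ∑' Q2, V ΛY hY i0 tY Q2 * (if Cl (TS hX zX sX P2 (Dp zX P1) (HT hX P1))
        (TS hY zY sY Q2 (w + Dp zY Q1) (HT hY Q1)) lo hi then (1 : ℝ≥0∞) else 0))
      = ∑' Q1, V ΛY hY i0 aY Q1 * ∑' P2, V ΛX hX i0 tX P2 *
      ∑' Q2, V ΛY hY i0 tY Q2 * (if Cl (TS hX zX sX P2 (Dp zX P1) (HT hX P1))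
        (TS hY zY sY Q2 (w + Dp zY Q1) (HT hY Q1)) lo hi then 1 else 0) := by
    intro P1
    simp_rw [← ENNReal.tsum_mul_left]
    rw [ENNReal.tsum_comm]
    refine tsum_congr fun Q1 => tsum_congr fun P2 => tsum_congr fun Q2 => ?_
    ring
  have hVX := V_sum ΛX hX hX1 hXΛ i0 aX
  have hVY := V_sum ΛY hY hY1 hYΛ i0 aY
  have mean : ∀ (c : ℝ≥0∞), (∑' Q1, V ΛY hY i0 aY Q1 * c) ≤ c := by
    intro c
    rw [ENNReal.tsum_mul_right]
    calc _ ≤ 1 * c := mul_le_mul_left hVY _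
      _ = c := one_mul _
  have meanX : ∀ (c : ℝ≥0∞), (∑' P1, V ΛX hX i0 aX P1 * c) ≤ c := by
    intro c
    rw [ENNReal.tsum_mul_right]
    calc _ ≤ 1 * c := mul_le_mul_left hVX _
      _ = c := one_mul _
  -- X local part
  have partX : ∑' P1, V ΛX hX i0 aX P1 * ∑' Q1, V ΛY hY i0 aY Q1 *
      KK ΛX hX zX sX ΛY hY zY sY i0 tX tY lo hi RX (HT hX P1) (HT hY Q1)
          (w + Dp zY Q1 - Dp zX P1) ≤ (i0 + 1 : ℕ) * C2 + Bd := by
    have e1 : ∑' P1, V ΛX hX i0 aX P1 * ∑' Q1, V ΛY hY i0 aY Q1 *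
      KK ΛX hX zX sX ΛY hY zY sY i0 tX tY lo hi RX (HT hX P1) (HT hY Q1)
          (w + Dp zY Q1 - Dp zX P1)
        = ∑' Q1, V ΛY hY i0 aY Q1 * ∑' P1, V ΛX hX i0 aX P1 *
      KK ΛX hX zX sX ΛY hY zY sY i0 tX tY lo hi RX (HT hX P1) (HT hY Q1)
          (w + Dp zY Q1 - Dp zX P1) := by
      simp_rw [← ENNReal.tsum_mul_left]
      rw [ENNReal.tsum_comm]
      refine tsum_congr fun Q1 => tsum_congr fun P1 => ?_
      ring
    rw [e1]
    refine le_trans (ENNReal.tsum_le_tsum fun Q1 => ?_) (mean _)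
    by_cases hq : fp hY aY Q1 ∧ HT hY Q1 ≤ aY + i0
    · have hq1 := le_HT_of_fp hY hq.1
      refine mul_le_mul_right ?_ _
      exact top_sum ΛX hX zX aX i0 GX Bd C2 hdX (fd_sum ΛX hX zX hX1 hXΛ aX)
        (Equiv.subLeft (w + Dp zY Q1))
        (fun α x => KK ΛX hX zX sX ΛY hY zY sY i0 tX tY lo hi RX α (HT hY Q1) x)
        (fun α x => KK_le_one ΛX hX zX sX ΛY hY zY sY hX1 hXΛ hY1 hYΛ i0 tX tY lo hi RX α _ x)
        (fun j hj μ m1 m2 => kX (aX + j) (HT hY Q1) (by omega) (by omega) hq1 hq.2 μ m1 m2)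
    · have : V ΛY hY i0 aY Q1 = 0 := if_neg hq
      rw [this, zero_mul, zero_mul]
  have partY : ∑' P1, V ΛX hX i0 aX P1 * ∑' Q1, V ΛY hY i0 aY Q1 *
      KK ΛX hX zX sX ΛY hY zY sY i0 tX tY lo hi RY (HT hX P1) (HT hY Q1)
          (w + Dp zY Q1 - Dp zX P1) ≤ (i0 + 1 : ℕ) * C2 + Bd := by
    refine le_trans (ENNReal.tsum_le_tsum fun P1 => ?_) (meanX _)
    by_cases hp : fp hX aX P1 ∧ HT hX P1 ≤ aX + i0
    · have hp1 := le_HT_of_fp hX hp.1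
      refine mul_le_mul_right ?_ _
      have := top_sum ΛY hY zY aY i0 GY Bd C2 hdY (fd_sum ΛY hY zY hY1 hYΛ aY)
        (Equiv.addRight (w - Dp zX P1))
        (fun β x => KK ΛX hX zX sX ΛY hY zY sY i0 tX tY lo hi RY (HT hX P1) β x)
        (fun β x => KK_le_one ΛX hX zX sX ΛY hY zY sY hX1 hXΛ hY1 hYΛ i0 tX tY lo hi RY _ β x)
        (fun j hj μ m1 m2 => kY (HT hX P1) (aY + j) hp1 hp.2 (by omega) (by omega) μ m1 m2)
      refine le_trans (le_of_eq ?_) this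
      refine tsum_congr fun Q1 => ?_
      congr 2
      show w + Dp zY Q1 - Dp zX P1 = Dp zY Q1 + (w - Dp zX P1)
      abel
    · have : V ΛX hX i0 aX P1 = 0 := if_neg hp
      rw [this, zero_mul, zero_mul]
  calc ∑' P1, V ΛX hX i0 aX P1 * ∑' P2, V ΛX hX i0 tX P2 * (∑' Q1, V ΛY hY i0 aY Q1 *
      ∑' Q2, V ΛY hY i0 tY Q2 * (if Cl (TS hX zX sX P2 (Dp zX P1) (HT hX P1))
        (TS hY zY sY Q2 (w + Dp zY Q1) (HT hY Q1)) lo hi then 1 else 0))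
      ≤ ∑' P1, V ΛX hX i0 aX P1 * ∑' Q1, V ΛY hY i0 aY Q1 *
        (KK ΛX hX zX sX ΛY hY zY sY i0 tX tY lo hi RX (HT hX P1) (HT hY Q1)
          (w + Dp zY Q1 - Dp zX P1)
        + KK ΛX hX zX sX ΛY hY zY sY i0 tX tY lo hi RY (HT hX P1) (HT hY Q1)
          (w + Dp zY Q1 - Dp zX P1) + u * u) := by
        refine ENNReal.tsum_le_tsum fun P1 => mul_le_mul_right ?_ _
        rw [e0 P1]
        exact ENNReal.tsum_le_tsum fun Q1 => mul_le_mul_right (inner P1 Q1) _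
    _ = (∑' P1, V ΛX hX i0 aX P1 * ∑' Q1, V ΛY hY i0 aY Q1 *
        KK ΛX hX zX sX ΛY hY zY sY i0 tX tY lo hi RX (HT hX P1) (HT hY Q1)
          (w + Dp zY Q1 - Dp zX P1))
        + (∑' P1, V ΛX hX i0 aX P1 * ∑' Q1, V ΛY hY i0 aY Q1 *
        KK ΛX hX zX sX ΛY hY zY sY i0 tX tY lo hi RY (HT hX P1) (HT hY Q1)
          (w + Dp zY Q1 - Dp zX P1))
        + ∑' P1, V ΛX hX i0 aX P1 * ∑' Q1, V ΛY hY i0 aY Q1 * (u * u) := by
        rw [← ENNReal.tsum_add, ← ENNReal.tsum_add]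
        refine tsum_congr fun P1 => ?_
        rw [← mul_add, ← mul_add, ← ENNReal.tsum_add, ← ENNReal.tsum_add]
        congr 1
        refine tsum_congr fun Q1 => ?_
        ring
    _ ≤ ((i0 + 1 : ℕ) * C2 + Bd) + ((i0 + 1 : ℕ) * C2 + Bd) + u * u := by
        refine add_le_add (add_le_add partX partY) ?_
        exact le_trans (ENNReal.tsum_le_tsum fun P1 => mul_le_mul_right (mean _) _) (meanX _)
    _ = _ := by rw [two_mul]

end Crest.Agent.R154.Asm636
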