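import Crest.Agent.R154.AsmC_647

/-! Row 154, ROAD 801, list assembly (helper647), part D: the window estimate. -/

set_option autoImplicit false

namespace Crest.Agent.R154.Asm647

open scoped ENNReal
open Crest.Agent.R154.B5A Crest.Agent.R154.FP178
open Crest.Agent.R154.Asm852 (law law_int law_sum select Dp Dp_append)

section two

variable {BX BY G : Type*} [AddCommGroup G]
  (ΛX : BX → ℝ≥0∞) (hX : BX → ℕ) (zX : BX → G) (ΛY : BY → ℝ≥0∞) (hY : BY → ℕ) (zY : BY → G)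
  (TX : List BX → G → ℕ → Set (G × ℕ)) (TY : List BY → G → ℕ → Set (G × ℕ))

open Classical in
theorem local_four' (h1X : ∀ b, 1 ≤ hX b) (hΛX : ∑' b, ΛX b = 1)
    (h1Y : ∀ b, 1 ≤ hY b) (hΛY : ∑' b, ΛY b = 1)
    (r i0 ℓ : ℕ) (w : G) (P : List BX → List BY → ℕ → ℕ → G → Prop) (R Gc : ℝ≥0∞)
    (b : ℕ → G → ℝ≥0∞) (hb : ∀ j z, law ΛY hY zY r j z ≤ Gc + b j z)
    (hR : ∀ c c' i i', c ≤ i0 → c' ≤ i0 → i ≤ i0 → i' ≤ i0 → ∀ μ : G → ℝ≥0∞, ∑' x, μ x ≤ 1 →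
      (∀ x, μ x ≤ Gc) → ∑' x, μ x * ∑' L, ∑' L', (if HT hX L = ℓ + i ∧
      HT hY L' = ℓ + i' ∧ P L L' c c' x then LW ΛX L * LW ΛY L' else 0) ≤ R) :
    ∑' L1, w1 ΛX hX r i0 L1 * ∑' L2, w1 ΛX hX ℓ i0 L2 *
        ∑' L1', w1 ΛY hY r i0 L1' * ∑' L2', w1 ΛY hY ℓ i0 L2' *
          (if P L2 L2' (HT hX L1 - r) (HT hY L1' - r) (w + Dp zY L1' - Dp zX L1) then 1 else 0)
      ≤ (i0 + 1 : ℕ) * ((i0 + 1 : ℕ) * ((i0 + 1 : ℕ) * ((i0 + 1 : ℕ) * R)))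
        + ∑' j, ∑' z, b j z := by
  have key := local_four ΛY hY zY ΛX hX zX h1Y hΛY h1X hΛX r i0 ℓ (-w)
    (fun L' L c' c y => P L L' c c' (-y)) R Gc b hb ?_
  · refine le_trans (le_of_eq ?_) key
    simp_rw [← ENNReal.tsum_mul_left]
    have sw : ∀ (f : List BX → List BX → List BY → List BY → ℝ≥0∞),
        ∑' L1, ∑' L2, ∑' L1', ∑' L2', f L1 L2 L1' L2'
        = ∑' L1', ∑' L2', ∑' L1, ∑' L2, f L1 L2 L1' L2' := by
      intro f
      calc ∑' L1, ∑' L2, ∑' L1', ∑' L2', f L1 L2 L1' L2'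
          = ∑' L1, ∑' L1', ∑' L2, ∑' L2', f L1 L2 L1' L2' :=
            tsum_congr fun L1 => ENNReal.tsum_comm
        _ = ∑' L1', ∑' L1, ∑' L2, ∑' L2', f L1 L2 L1' L2' := ENNReal.tsum_comm
        _ = ∑' L1', ∑' L1, ∑' L2', ∑' L2, f L1 L2 L1' L2' :=
            tsum_congr fun L1' => tsum_congr fun L1 => ENNReal.tsum_comm
        _ = ∑' L1', ∑' L2', ∑' L1, ∑' L2, f L1 L2 L1' L2' :=
            tsum_congr fun L1' => ENNReal.tsum_comm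
    rw [sw]
    refine tsum_congr fun L1' => tsum_congr fun L2' => tsum_congr fun L1 => tsum_congr fun L2 => ?_
    have e : w + Dp zY L1' - Dp zX L1 = -(-w + Dp zX L1 - Dp zY L1') := by abel
    rw [e]
    ring
  · intro c' c i' i hc' hc hi' hi μ hμ1 hμ2
    refine le_trans (le_of_eq ?_) (hR c c' i i' hc hc' hi hi' (fun x => μ (-x)) ?_ fun x => hμ2 _)
    · rw [← (Equiv.neg G).tsum_eq]
      refine tsum_congr fun x => ?_
      simp only [Equiv.neg_apply, neg_neg]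
      congr 1
      rw [ENNReal.tsum_comm]
      refine tsum_congr fun L => tsum_congr fun L' => ?_
      by_cases h : HT hX L = ℓ + i ∧ HT hY L' = ℓ + i' ∧ P L L' c c' x
      · rw [if_pos h, if_pos ⟨h.2.1, h.1, h.2.2⟩, mul_comm]
      · rw [if_neg h, if_neg (fun h' => h ⟨h'.2.1, h'.1, h'.2.2⟩)]
    · rw [← (Equiv.neg G).tsum_eq] at hμ1
      exact hμ1

open Classical in
/-- one window -/
theorem window (h1X : ∀ b, 1 ≤ hX b) (hΛX : ∑' b, ΛX b = 1) (hUX : ∀ n, U ΛX hX n ≤ 1)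
    (h1Y : ∀ b, 1 ≤ hY b) (hΛY : ∑' b, ΛY b = 1) (hUY : ∀ n, U ΛY hY n ≤ 1)
    (TXa : ∀ L L' x a, TX (L ++ L') x a = TX L x a ∪ TX L' (x + Dp zX L) (a + HT hX L))
    (TXd : ∀ L x a q, q ∈ TX L x a → a < q.2 ∧ q.2 ≤ a + HT hX L)
    (TXs : ∀ L x y a z k, (z, k) ∈ TX L x a → (z + y, k) ∈ TX L (x + y) a)
    (TYa : ∀ L L' x a, TY (L ++ L') x a = TY L x a ∪ TY L' (x + Dp zY L) (a + HT hY L))
    (TYd : ∀ L x a q, q ∈ TY L x a → a < q.2 ∧ q.2 ≤ a + HT hY L)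
    (TYs : ∀ L x y a z k, (z, k) ∈ TY L x a → (z + y, k) ∈ TY L (x + y) a)
    (C : ℝ≥0∞) (us : ℕ → ℕ → ℝ≥0∞)
    (H2 : Hw ΛX hX ΛY hY TX TY C us (fun E L _ => Dp zX L ∈ E))
    (H3 : Hw ΛX hX ΛY hY TX TY C us (fun E _ L' => Dp zY L' ∈ E))
    (r i0 ℓ n lo hi s : ℕ) (hn : r + i0 + ℓ ≤ n) (hlo : r + i0 + s ≤ lo) (hlo' : r + i0 < lo)
    (hhi : hi + s ≤ r + ℓ) (w : G) (u Q GX GY βX βY lam : ℝ≥0∞) (hl : lam ≠ 0) (hl' : lam ≠ ⊤)
    (EX EY : ℕ → Finset G)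
    (qX : ∑' L, (if fp hX ℓ L ∧ ¬ Dp zX L ∈ EX (HT hX L - ℓ) then LW ΛX L else 0) ≤ u)
    (qY : ∑' L, (if fp hY ℓ L ∧ ¬ Dp zY L ∈ EY (HT hY L - ℓ) then LW ΛY L else 0) ≤ u)
    (cX : ∀ j, GX * (EX j).card ≤ Q) (cY : ∀ j, GY * (EY j).card ≤ Q)
    (bX bY : ℕ → G → ℝ≥0∞)
    (dX : ∀ j z, law ΛX hX zX r j z ≤ GX + bX j z) (dY : ∀ j z, law ΛY hY zY r j z ≤ GY + bY j z)
    (eX : ∑' j, ∑' z, bX j z ≤ βX) (eY : ∑' j, ∑' z, bY j z ≤ βY) :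
    ∑' LX, ∑' LY, (if HT hX LX = n ∧ HT hY LY = n ∧
      (∃ q, q.2 ≤ r + ℓ ∧ q ∈ TX LX 0 0 ∧ q ∈ TY LY w 0) ∧
      (∀ q, q ∈ TX LX 0 0 → q ∈ TY LY w 0 → lo ≤ q.2 ∧ ¬ (hi < q.2 ∧ q.2 ≤ r + ℓ + 2 * i0))
      then LW ΛX LX * LW ΛY LY else 0) ≤
      u * u + 2 * ((i0 + 1 : ℕ) * ((i0 + 1 : ℕ) * ((i0 + 1 : ℕ) * ((i0 + 1 : ℕ) *
        (C * (lam + Q * us (2 * i0) s / lam + us (2 * i0) s)))))) + (βX + βY)
        + 2 * ∑' k, tail ΛX hX (i0 + k) + 2 * ∑' k, tail ΛY hY (i0 + k) := by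
  set R := C * (lam + Q * us (2 * i0) s / lam + us (2 * i0) s) with hRdef
  set I4 := (i0 + 1 : ℕ) * ((i0 + 1 : ℕ) * ((i0 + 1 : ℕ) * ((i0 + 1 : ℕ) * R))) with hI4
  let F : List BX → List BY → ℝ≥0∞ := fun LX LY => if HT hX LX = n ∧ HT hY LY = n ∧
      (∃ q, q.2 ≤ r + ℓ ∧ q ∈ TX LX 0 0 ∧ q ∈ TY LY w 0) ∧
      (∀ q, q ∈ TX LX 0 0 → q ∈ TY LY w 0 → lo ≤ q.2 ∧ ¬ (hi < q.2 ∧ q.2 ≤ r + ℓ + 2 * i0))
      then 1 else 0
  let ev : List BX → List BX → List BY → List BY → Prop := fun L1 L2 L1' L2' =>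
    ct TX TY L2 (r + (HT hX L1 - r)) L2' (w + Dp zY L1' - Dp zX L1) (r + (HT hY L1' - r)) lo hi
  let Qf : List BX → List BX → List BY → List BY → ℝ≥0∞ := fun L1 L2 L1' L2' =>
    if ev L1 L2 L1' L2' then 1 else 0
  have e0 : ∑' LX, ∑' LY, (if HT hX LX = n ∧ HT hY LY = n ∧
      (∃ q, q.2 ≤ r + ℓ ∧ q ∈ TX LX 0 0 ∧ q ∈ TY LY w 0) ∧
      (∀ q, q ∈ TX LX 0 0 → q ∈ TY LY w 0 → lo ≤ q.2 ∧ ¬ (hi < q.2 ∧ q.2 ≤ r + ℓ + 2 * i0))
      then LW ΛX LX * LW ΛY LY else 0) = ∑' LX, ∑' LY, LW ΛX LX * LW ΛY LY * F LX LY := by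
    refine tsum_congr fun LX => tsum_congr fun LY => ?_
    simp only [F]
    split_ifs
    · rw [mul_one]
    · rw [mul_zero]
  rw [e0]
  have hF1 : ∀ LX LY, F LX LY ≤ if HT hX LX = n ∧ HT hY LY = n then 1 else 0 := by
    intro LX LY
    simp only [F]
    by_cases h : HT hX LX = n ∧ HT hY LY = n
    · rw [if_pos h]; split_ifs
      · exact le_rfl
      · exact zero_le_one
    · rw [if_neg h, if_neg (fun h' => h ⟨h'.1, h'.2.1⟩)]
  have hFQ : ∀ L1 L2 L3 L1' L2' L3', fp hX r L1 → HT hX L1 ≤ r + i0 → fp hX ℓ L2 →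
      HT hX L2 ≤ ℓ + i0 → fp hY r L1' → HT hY L1' ≤ r + i0 → fp hY ℓ L2' →
      HT hY L2' ≤ ℓ + i0 →
      F (L1 ++ (L2 ++ L3)) (L1' ++ (L2' ++ L3')) ≤ Qf L1 L2 L1' L2' := by
    intro L1 L2 L3 L1' L2' L3' p1 p2 p3 p4 p1' p2' p3' p4'
    have m1 := le_HT_of_fp hX p1
    have m2 := le_HT_of_fp hX p3
    have m1' := le_HT_of_fp hY p1'
    have m2' := le_HT_of_fp hY p3'
    simp only [F, Qf]
    by_cases hf : HT hX (L1 ++ (L2 ++ L3)) = n ∧ HT hY (L1' ++ (L2' ++ L3')) = n ∧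
      (∃ q, q.2 ≤ r + ℓ ∧ q ∈ TX (L1 ++ (L2 ++ L3)) 0 0 ∧ q ∈ TY (L1' ++ (L2' ++ L3')) w 0) ∧
      (∀ q, q ∈ TX (L1 ++ (L2 ++ L3)) 0 0 → q ∈ TY (L1' ++ (L2' ++ L3')) w 0 →
        lo ≤ q.2 ∧ ¬ (hi < q.2 ∧ q.2 ≤ r + ℓ + 2 * i0))
    swap
    · rw [if_neg hf]; exact bot_le
    rw [if_pos hf]
    obtain ⟨-, -, ⟨q, hq, qX', qY'⟩, hall⟩ := hf
    have aX : r + (HT hX L1 - r) = HT hX L1 := by omega
    have aY : r + (HT hY L1' - r) = HT hY L1' := by omega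
    have hlq := (hall q qX' qY').1
    have bX' : q ∈ TX L2 (Dp zX L1) (HT hX L1) := by
      rw [TXa, TXa] at qX'
      rcases qX' with h | h | h
      · have := (TXd _ _ _ _ h).2; omega
      · simpa using h
      · have := (TXd _ _ _ _ h).1; omega
    have bY' : q ∈ TY L2' (w + Dp zY L1') (HT hY L1') := by
      rw [TYa, TYa] at qY'
      rcases qY' with h | h | h
      · have := (TYd _ _ _ _ h).2; omega
      · simpa using h
      · have := (TYd _ _ _ _ h).1; omega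
    have hev : ev L1 L2 L1' L2' := by
      simp only [ev, aX, aY]
      refine ⟨⟨(q.1 + (- Dp zX L1), q.2), ?_, ?_⟩, ?_⟩
      · have := TXs L2 (Dp zX L1) (- Dp zX L1) (HT hX L1) q.1 q.2 bX'
        rwa [add_neg_cancel] at this
      · have := TYs L2' (w + Dp zY L1') (- Dp zX L1) (HT hY L1') q.1 q.2 bY'
        rwa [← sub_eq_add_neg (w + Dp zY L1')] at this
      · rintro ⟨z, k⟩ hz1 hz2
        have g1 := TXs L2 0 (Dp zX L1) (HT hX L1) z k hz1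
        have g2 := TYs L2' (w + Dp zY L1' - Dp zX L1) (Dp zX L1) (HT hY L1') z k hz2
        rw [zero_add] at g1
        rw [sub_add_cancel] at g2
        have g1' : (z + Dp zX L1, k) ∈ TX (L1 ++ (L2 ++ L3)) 0 0 := by
          rw [TXa, TXa]; right; left; simpa using g1
        have g2' : (z + Dp zX L1, k) ∈ TY (L1' ++ (L2' ++ L3')) w 0 := by
          rw [TYa, TYa]; right; left; simpa using g2
        have g3 := hall _ g1' g2'
        have g4 := (TXd _ _ _ _ hz1).2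
        simp only at g3 g4 ⊢
        omega
    rw [if_pos hev]
  refine (two_walker ΛX hX ΛY hY h1X hΛX.le hUX h1Y hΛY.le hUY r i0 ℓ n hn F Qf hF1 hFQ).trans ?_
  -- the four fold sum
  let evX : List BX → List BX → List BY → List BY → Prop := fun L1 L2 L1' L2' =>
    Dp zX L2 ∈ EX (HT hX L2 - ℓ) ∧ ev L1 L2 L1' L2'
  let evY : List BX → List BX → List BY → List BY → Prop := fun L1 L2 L1' L2' =>
    Dp zY L2' ∈ EY (HT hY L2' - ℓ) ∧ ev L1 L2 L1' L2'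
  have hX4 : ∑' L1, w1 ΛX hX r i0 L1 * ∑' L2, w1 ΛX hX ℓ i0 L2 *
        ∑' L1', w1 ΛY hY r i0 L1' * ∑' L2', w1 ΛY hY ℓ i0 L2' *
          (if evX L1 L2 L1' L2' then 1 else 0) ≤ I4 + βX := by
    have key := fun hh => (local_four ΛX hX zX ΛY hY zY h1X hΛX h1Y hΛY r i0 ℓ w
      (fun L L' c c' x => Dp zX L ∈ EX (HT hX L - ℓ) ∧ ct TX TY L (r + c) L' x (r + c') lo hi)
      R GX bX dX hh).trans (add_le_add le_rfl eX)
    refine le_trans (le_of_eq ?_) (key ?_)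
    · congr!
    intro c c' i i' hc hc' hi1 hi2 μ hμ1 hμ2
    refine le_trans ?_ ((H2 (2 * i0) s (ℓ + i) (ℓ + i') (r + c) (r + c') lo hi (EX i) μ GX lam
      hμ1 hμ2 hl hl' (by omega) (by omega) (by omega) (by omega) (by omega) (by omega)
      (by omega) (by omega)).trans ?_)
    · refine ENNReal.tsum_le_tsum fun x => mul_le_mul' le_rfl
        (ENNReal.tsum_le_tsum fun L => ENNReal.tsum_le_tsum fun L' => ?_)
      split_ifs with t1 t2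
      · exact le_rfl
      · exfalso; apply t2
        refine ⟨t1.1, t1.2.1, ?_, t1.2.2.2⟩
        have := t1.2.2.1
        rwa [t1.1, Nat.add_sub_cancel_left] at this
      · exact bot_le
      · exact le_rfl
    · rw [hRdef]
      gcongr
      exact cX i
  have hY4 : ∑' L1, w1 ΛX hX r i0 L1 * ∑' L2, w1 ΛX hX ℓ i0 L2 *
        ∑' L1', w1 ΛY hY r i0 L1' * ∑' L2', w1 ΛY hY ℓ i0 L2' *
          (if evY L1 L2 L1' L2' then 1 else 0) ≤ I4 + βY := by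
    have key := fun hh => (local_four' ΛX hX zX ΛY hY zY h1X hΛX h1Y hΛY r i0 ℓ w
      (fun L L' c c' x => Dp zY L' ∈ EY (HT hY L' - ℓ) ∧ ct TX TY L (r + c) L' x (r + c') lo hi)
      R GY bY dY hh).trans (add_le_add le_rfl eY)
    refine le_trans (le_of_eq ?_) (key ?_)
    · congr!
    intro c c' i i' hc hc' hi1 hi2 μ hμ1 hμ2
    refine le_trans ?_ ((H3 (2 * i0) s (ℓ + i) (ℓ + i') (r + c) (r + c') lo hi (EY i') μ GY lam
      hμ1 hμ2 hl hl' (by omega) (by omega) (by omega) (by omega) (by omega) (by omega)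
      (by omega) (by omega)).trans ?_)
    · refine ENNReal.tsum_le_tsum fun x => mul_le_mul' le_rfl
        (ENNReal.tsum_le_tsum fun L => ENNReal.tsum_le_tsum fun L' => ?_)
      split_ifs with t1 t2
      · exact le_rfl
      · exfalso; apply t2
        refine ⟨t1.1, t1.2.1, ?_, t1.2.2.2⟩
        have := t1.2.2.1
        rwa [t1.2.1, Nat.add_sub_cancel_left] at this
      · exact bot_le
      · exact le_rfl
    · rw [hRdef]
      gcongr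
      exact cY i'
  have hN : ∑' L1, w1 ΛX hX r i0 L1 * ∑' L2, w1 ΛX hX ℓ i0 L2 *
        ∑' L1', w1 ΛY hY r i0 L1' * ∑' L2', w1 ΛY hY ℓ i0 L2' *
          ((if Dp zX L2 ∈ EX (HT hX L2 - ℓ) then 0 else 1) *
            (if Dp zY L2' ∈ EY (HT hY L2' - ℓ) then 0 else 1)) ≤ u * u := by
    have q1 : ∑' L2, w1 ΛX hX ℓ i0 L2 * (if Dp zX L2 ∈ EX (HT hX L2 - ℓ) then 0 else 1) ≤ u := by
      have := w1_bad ΛX hX ℓ i0 (fun L => Dp zX L ∈ EX (HT hX L - ℓ)) u (by convert qX)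
      convert this
    have q2 : ∑' L2, w1 ΛY hY ℓ i0 L2 * (if Dp zY L2 ∈ EY (HT hY L2 - ℓ) then 0 else 1) ≤ u := by
      have := w1_bad ΛY hY ℓ i0 (fun L => Dp zY L ∈ EY (HT hY L - ℓ)) u (by convert qY)
      convert this
    have s1 := w1_sum ΛX hX h1X hΛX.le r i0
    have s2 := w1_sum ΛY hY h1Y hΛY.le r i0
    calc ∑' L1, w1 ΛX hX r i0 L1 * ∑' L2, w1 ΛX hX ℓ i0 L2 *
        ∑' L1', w1 ΛY hY r i0 L1' * ∑' L2', w1 ΛY hY ℓ i0 L2' *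
          ((if Dp zX L2 ∈ EX (HT hX L2 - ℓ) then 0 else 1) *
            (if Dp zY L2' ∈ EY (HT hY L2' - ℓ) then 0 else 1))
        = ∑' L1, w1 ΛX hX r i0 L1 * ∑' L2, (w1 ΛX hX ℓ i0 L2 *
          (if Dp zX L2 ∈ EX (HT hX L2 - ℓ) then 0 else 1)) *
          ∑' L1', w1 ΛY hY r i0 L1' * ∑' L2', w1 ΛY hY ℓ i0 L2' *
            (if Dp zY L2' ∈ EY (HT hY L2' - ℓ) then 0 else 1) := by
          simp_rw [← ENNReal.tsum_mul_left]
          refine tsum_congr fun L1 => tsum_congr fun L2 => tsum_congr fun L1' =>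
            tsum_congr fun L2' => ?_
          ring
      _ = (∑' L1, w1 ΛX hX r i0 L1) * ((∑' L2, w1 ΛX hX ℓ i0 L2 *
          (if Dp zX L2 ∈ EX (HT hX L2 - ℓ) then 0 else 1)) *
          ((∑' L1', w1 ΛY hY r i0 L1') * ∑' L2', w1 ΛY hY ℓ i0 L2' *
            (if Dp zY L2' ∈ EY (HT hY L2' - ℓ) then 0 else 1))) := by
          rw [ENNReal.tsum_mul_right, ENNReal.tsum_mul_right, ENNReal.tsum_mul_right]
      _ ≤ 1 * (u * (1 * u)) := by gcongr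
      _ = u * u := by rw [one_mul, one_mul]
  have hsum : ∑' L1, w1 ΛX hX r i0 L1 * ∑' L2, w1 ΛX hX ℓ i0 L2 *
        ∑' L1', w1 ΛY hY r i0 L1' * ∑' L2', w1 ΛY hY ℓ i0 L2' * Qf L1 L2 L1' L2'
      ≤ u * u + (I4 + βX) + (I4 + βY) := by
    refine le_trans ?_ (add_le_add (add_le_add hN hX4) hY4)
    simp_rw [← ENNReal.tsum_mul_left, ← ENNReal.tsum_add]
    refine ENNReal.tsum_le_tsum fun L1 => ENNReal.tsum_le_tsum fun L2 =>
      ENNReal.tsum_le_tsum fun L1' => ENNReal.tsum_le_tsum fun L2' => ?_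
    simp_rw [← mul_add]
    refine mul_le_mul' le_rfl (mul_le_mul' le_rfl (mul_le_mul' le_rfl (mul_le_mul' le_rfl ?_)))
    simp only [Qf, evX, evY]
    by_cases hev : ev L1 L2 L1' L2'
    · by_cases hx : Dp zX L2 ∈ EX (HT hX L2 - ℓ)
      · simp [hev, hx]
      · by_cases hy : Dp zY L2' ∈ EY (HT hY L2' - ℓ)
        · simp [hev, hx, hy]
        · simp [hev, hx, hy]
    · simp [hev]
  refine (add_le_add (add_le_add hsum le_rfl) le_rfl).trans (le_of_eq ?_)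
  ring

end two

end Crest.Agent.R154.Asm647
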