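import Crest.Agent.R154.AsmC_667

/-! Row 154, ROAD 801 (helper667): abstract assembly, one window and the sum over the windows. -/

set_option autoImplicit false

namespace Crest.Agent.R154.AsmR667

open scoped ENNReal Classical Topology
open Filter
open Crest.Agent.R154.B5A (LW HT LW_nil LW_cons LW_append HT_nil HT_cons HT_append tsum_list U tail)

lemma comm1 {B B' : Type*} (Λ : B → ℝ≥0∞) (ht : B → ℕ) (Λ' : B' → ℝ≥0∞) (ht' : B' → ℕ)
    (T T' : ℕ) (c : List B → ℝ≥0∞) (c' : List B' → ℝ≥0∞) (f : List B → List B' → ℝ≥0∞) :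
    EA Λ ht T (fun P => c P * EA Λ' ht' T' (fun A => c' A * f P A))
      = EA Λ' ht' T' (fun A => c' A * EA Λ ht T (fun P => c P * f P A)) := by
  simp_rw [← EA_mul_left]
  rw [EA_comm]
  refine EA_congr Λ' ht' T' fun A _ => EA_congr Λ ht T fun P _ => ?_
  ring

lemma push2 {B B' G : Type*} [AddCommGroup G] (Λ : B → ℝ≥0∞) (ht : B → ℕ) (Λ' : B' → ℝ≥0∞)
    (ht' : B' → ℕ) (z : B → G) (z' : B' → G) (ℓ ℓ' i0 : ℕ) (Θ : ℕ → ℕ → G → G → ℝ≥0∞) :
    EA Λ ht ℓ (fun A => (if HT ht A ≤ ℓ + i0 then 1 else 0) * EA Λ' ht' ℓ' (fun A' =>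
      (if HT ht' A' ≤ ℓ' + i0 then 1 else 0) * Θ (HT ht A) (HT ht' A') (Dp z A) (Dp z' A')))
    = ∑' i, ∑' y, F Λ ht z ℓ i y * ((if i ≤ i0 then 1 else 0) * ∑' i', ∑' y',
      F Λ' ht' z' ℓ' i' y' * ((if i' ≤ i0 then 1 else 0) * Θ (ℓ + i) (ℓ' + i') y y')) := by
  rw [EA_push Λ ht z ℓ (fun h y => (if h ≤ ℓ + i0 then 1 else 0) * EA Λ' ht' ℓ' (fun A' =>
      (if HT ht' A' ≤ ℓ' + i0 then 1 else 0) * Θ h (HT ht' A') y (Dp z' A')))]
  refine tsum_congr fun i => tsum_congr fun y => ?_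
  congr 1
  rw [EA_push Λ' ht' z' ℓ' (fun h' y' => (if h' ≤ ℓ' + i0 then 1 else 0) * Θ (ℓ + i) h' y y')]
  simp only [add_le_add_iff_left]

/-- splitting the integrand -/
lemma split3 {B B' : Type*} (Λ : B → ℝ≥0∞) (ht : B → ℕ) (Λ' : B' → ℝ≥0∞) (ht' : B' → ℕ)
    (h1 : ∀ b, 1 ≤ ht b) (hΛ : ∑' b, Λ b = 1) (h1' : ∀ b, 1 ≤ ht' b) (hΛ' : ∑' b, Λ' b = 1)
    (T T' : ℕ) (c : List B → ℝ≥0∞) (c' : List B' → ℝ≥0∞) (hc : ∀ A, c A ≤ 1) (hc' : ∀ A, c' A ≤ 1)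
    (f f1 f2 : List B → List B' → ℝ≥0∞) (k : ℝ≥0∞)
    (hf : ∀ A A', FP ht T A → FP ht' T' A' → f A A' ≤ k + (f1 A A' + f2 A A')) :
    EA Λ ht T (fun A => c A * EA Λ' ht' T' (fun A' => c' A' * f A A')) ≤
      k + (EA Λ ht T (fun A => c A * EA Λ' ht' T' (fun A' => c' A' * f1 A A'))
        + EA Λ ht T (fun A => c A * EA Λ' ht' T' (fun A' => c' A' * f2 A A'))) := by
  have e : ∀ A, FP ht T A → c A * EA Λ' ht' T' (fun A' => c' A' * f A A') ≤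
      k + (c A * EA Λ' ht' T' (fun A' => c' A' * f1 A A')
        + c A * EA Λ' ht' T' (fun A' => c' A' * f2 A A')) := by
    intro A hA
    have e1 : EA Λ' ht' T' (fun A' => c' A' * f A A') ≤
        k + (EA Λ' ht' T' (fun A' => c' A' * f1 A A')
          + EA Λ' ht' T' (fun A' => c' A' * f2 A A')) := by
      calc _ ≤ EA Λ' ht' T' (fun A' => k + (c' A' * f1 A A' + c' A' * f2 A A')) := by
            refine EA_mono Λ' ht' T' fun A' hA' => ?_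
            calc c' A' * f A A' ≤ c' A' * (k + (f1 A A' + f2 A A')) :=
                  mul_le_mul_right (hf A A' hA hA') _
              _ = c' A' * k + (c' A' * f1 A A' + c' A' * f2 A A') := by ring
              _ ≤ 1 * k + (c' A' * f1 A A' + c' A' * f2 A A') := by
                  gcongr
                  exact hc' A'
              _ = _ := by rw [one_mul]
        _ = _ := by rw [EA_add, EA_add, EA_const Λ' ht' h1' hΛ']
    calc _ ≤ c A * (k + (EA Λ' ht' T' (fun A' => c' A' * f1 A A')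
          + EA Λ' ht' T' (fun A' => c' A' * f2 A A'))) := mul_le_mul_right e1 _
      _ = c A * k + (c A * EA Λ' ht' T' (fun A' => c' A' * f1 A A')
        + c A * EA Λ' ht' T' (fun A' => c' A' * f2 A A')) := by ring
      _ ≤ 1 * k + (c A * EA Λ' ht' T' (fun A' => c' A' * f1 A A')
        + c A * EA Λ' ht' T' (fun A' => c' A' * f2 A A')) := by
          gcongr
          exact hc A
      _ = _ := by rw [one_mul]
  refine (EA_mono Λ ht T e).trans ?_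
  rw [EA_add, EA_add, EA_const Λ ht h1 hΛ]

section pair

variable {BX BY G : Type*} [AddCommGroup G] (ΛX : BX → ℝ≥0∞) (ΛY : BY → ℝ≥0∞) (hX : BX → ℕ)
  (hY : BY → ℕ) (zX : BX → G) (zY : BY → G) (sX : BX → Set (G × ℕ)) (sY : BY → Set (G × ℕ))

/-- window lemma, the first walker is local (389's freeze: `a ≤ a'`) -/
def H2P (us : ℕ → ℝ≥0∞) (C : ℝ≥0∞) : Prop :=
  ∀ (s h h' a a' lo : ℕ) (E : Finset G) (μ : G → ℝ≥0∞) (M lam : ℝ≥0∞), a ≤ a' →
    ∑' x, μ x ≤ 1 → (∀ x, μ x ≤ M) → lam ≠ 0 → lam ≠ ⊤ → a + s ≤ lo → a' + s ≤ lo →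
    ∑' x, μ x * (∑' L : List BX, ∑' L' : List BY, if HT hX L = h ∧ (L.map zX).sum ∈ E ∧
        HT hY L' = h' ∧
        (∃ z k, (z, k) ∈ TT sX hX zX L 0 a ∧ (z, k) ∈ TT sY hY zY L' x a') ∧
        (∀ z k, (z, k) ∈ TT sX hX zX L 0 a → (z, k) ∈ TT sY hY zY L' x a' → lo ≤ k)
        then LW ΛX L * LW ΛY L' else 0)
      ≤ C * (lam + M * E.card * us s / lam + us s)

/-- window lemma, the second walker is local -/
def H3P (us : ℕ → ℝ≥0∞) (C : ℝ≥0∞) : Prop :=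
  ∀ (s h h' a a' hi : ℕ) (E : Finset G) (μ : G → ℝ≥0∞) (M lam : ℝ≥0∞), a + h ≤ a' + h' →
    ∑' x, μ x ≤ 1 → (∀ x, μ x ≤ M) → lam ≠ 0 → lam ≠ ⊤ → hi + s ≤ a + h → hi + s ≤ a' + h' →
    ∑' x, μ x * (∑' L : List BX, ∑' L' : List BY, if HT hX L = h ∧ HT hY L' = h' ∧
        (L'.map zY).sum ∈ E ∧
        (∃ z k, (z, k) ∈ TT sX hX zX L 0 a ∧ (z, k) ∈ TT sY hY zY L' x a') ∧
        (∀ z k, (z, k) ∈ TT sX hX zX L 0 a → (z, k) ∈ TT sY hY zY L' x a' → k ≤ hi)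
        then LW ΛX L * LW ΛY L' else 0)
      ≤ C * (lam + M * E.card * us s / lam + us s)

lemma tsum_mul_sum_le {G : Type*} (μ : G → ℝ≥0∞) (i0 : ℕ) (f : G → ℝ≥0∞)
    (g : ℕ → ℕ → G → ℝ≥0∞) (hf : ∀ x, f x ≤ ∑ j ∈ Finset.range (i0 + 1),
      ∑ j' ∈ Finset.range (i0 + 1), g j j' x) (Q : ℝ≥0∞)
    (hQ : ∀ j j', j ≤ i0 → j' ≤ i0 → ∑' x, μ x * g j j' x ≤ Q) :
    ∑' x, μ x * f x ≤ (i0 + 1) ^ 2 * Q := by
  calc ∑' x, μ x * f x ≤ ∑' x, ∑ j ∈ Finset.range (i0 + 1),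
      ∑ j' ∈ Finset.range (i0 + 1), μ x * g j j' x := by
        refine ENNReal.tsum_le_tsum fun x => (mul_le_mul_right (hf x) _).trans (le_of_eq ?_)
        rw [Finset.mul_sum]
        exact Finset.sum_congr rfl fun j _ => Finset.mul_sum _ _ _
    _ = ∑ j ∈ Finset.range (i0 + 1), ∑ j' ∈ Finset.range (i0 + 1), ∑' x, μ x * g j j' x := by
        rw [Summable.tsum_finsetSum (fun j _ => ENNReal.summable)]
        exact Finset.sum_congr rfl fun j _ =>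
          Summable.tsum_finsetSum (fun j' _ => ENNReal.summable)
    _ ≤ ∑ j ∈ Finset.range (i0 + 1), ∑ j' ∈ Finset.range (i0 + 1), Q := by
        refine Finset.sum_le_sum fun j hj => Finset.sum_le_sum fun j' hj' => hQ j j' ?_ ?_
        · have := Finset.mem_range.1 hj; omega
        · have := Finset.mem_range.1 hj'; omega
    _ = _ := by simp [pow_two, mul_assoc]

lemma hb_le (C lam us M cd th : ℝ≥0∞) (J i0 : ℕ) (hM : M = J * ((i0 + 1) * th))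
    (hcd : th * cd ≤ 1) : C * (lam + M * cd * us / lam + us)
      ≤ C * (lam + J * (i0 + 1) * us / lam + us) := by
  have : M * cd ≤ J * (i0 + 1) := by
    calc M * cd = J * (i0 + 1) * (th * cd) := by rw [hM]; ring
      _ ≤ J * (i0 + 1) * 1 := mul_le_mul_right hcd _
      _ = _ := mul_one _
  gcongr

variable (h1X : ∀ b, 1 ≤ hX b) (h1Y : ∀ b, 1 ≤ hY b) (hΛX : ∑' b, ΛX b = 1)
  (hΛY : ∑' b, ΛY b = 1) (us : ℕ → ℝ≥0∞) (C : ℝ≥0∞)

set_option maxHeartbeats 1000000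

/-- integrated piece event -/
noncomputable def Psi (T T' i0 lo hi : ℕ) (cX : List BX → ℝ≥0∞) (cY : List BY → ℝ≥0∞)
    (a a' : ℕ) (x : G) : ℝ≥0∞ :=
  EA ΛX hX T (fun P => ((if HT hX P ≤ T + i0 then 1 else 0) * cX P) *
    EA ΛY hY T' (fun P' => ((if HT hY P' ≤ T' + i0 then 1 else 0) * cY P') *
      (if Ev hX hY zX zY sX sY lo hi a a' x P P' then 1 else 0)))

include h1X h1Y hΛX hΛY in
lemma Psi_le_one (T T' i0 lo hi : ℕ) (cX : List BX → ℝ≥0∞) (cY : List BY → ℝ≥0∞)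
    (hcX : ∀ P, cX P ≤ 1) (hcY : ∀ P, cY P ≤ 1) (a a' : ℕ) (x : G) :
    Psi ΛX ΛY hX hY zX zY sX sY T T' i0 lo hi cX cY a a' x ≤ 1 := by
  refine EA_le ΛX hX h1X hΛX T 1 fun P _ => ?_
  have h1 : ((if HT hX P ≤ T + i0 then (1 : ℝ≥0∞) else 0) * cX P) ≤ 1 := by
    calc _ ≤ (1 : ℝ≥0∞) * 1 := by
          gcongr
          · split_ifs <;> simp
          · exact hcX P
      _ = 1 := one_mul 1
  have h2 : EA ΛY hY T' (fun P' => ((if HT hY P' ≤ T' + i0 then (1 : ℝ≥0∞) else 0) * cY P') *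
      (if Ev hX hY zX zY sX sY lo hi a a' x P P' then 1 else 0)) ≤ 1 := by
    refine EA_le ΛY hY h1Y hΛY T' 1 fun P' _ => ?_
    calc _ ≤ (1 : ℝ≥0∞) * 1 * 1 := by
          gcongr
          · split_ifs <;> simp
          · exact hcY P'
          · split_ifs <;> simp
      _ = 1 := by simp
  calc _ ≤ (1 : ℝ≥0∞) * 1 := mul_le_mul' h1 h2
    _ = 1 := one_mul 1

variable {ΛX ΛY hX hY zX zY sX sY us C}

include h1X hΛX in
/-- first walker local -/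
lemma PsiX_le (H2 : H2P ΛX ΛY hX hY zX zY sX sY us C) (ℓ T i0 s hi J : ℕ) (th : ℝ≥0∞)
    (hth : th ≠ 0) (lam : ℝ≥0∞) (hl0 : lam ≠ 0) (hlt : lam ≠ ⊤) (i i' : ℕ) (hi0 : i ≤ i0)
    (hi0' : i' ≤ i0) (μ : G → ℝ≥0∞) (hμ : ∑' x, μ x ≤ 1)
    (hM : ∀ x, μ x ≤ J * ((i0 + 1) * th)) :
    ∑' x, μ x * Psi ΛX ΛY hX hY zX zY sX sY T (T + i0) i0 (ℓ + 1 + (2 * i0 + s)) hi
      (fun P => if th ≤ F ΛX hX zX T (HT hX P - T) (Dp zX P) then 1 else 0) (fun _ => 1)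
      (ℓ + i) (ℓ + i0 + i') x ≤
      (i0 + 1) ^ 2 * (C * (lam + J * (i0 + 1) * us s / lam + us s)) := by
  choose E hE1 hE2 using fun j => E_fin ΛX hX zX h1X hΛX T j hth
  refine tsum_mul_sum_le μ i0 _ (fun j j' x => ∑' P : List BX, ∑' P' : List BY,
    if HT hX P = T + j ∧ (P.map zX).sum ∈ E j ∧ HT hY P' = T + i0 + j' ∧
      (∃ z k, (z, k) ∈ TT sX hX zX P 0 (ℓ + i) ∧ (z, k) ∈ TT sY hY zY P' x (ℓ + i0 + i')) ∧
      (∀ z k, (z, k) ∈ TT sX hX zX P 0 (ℓ + i) → (z, k) ∈ TT sY hY zY P' x (ℓ + i0 + i') →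
        ℓ + 1 + (2 * i0 + s) ≤ k)
      then LW ΛX P * LW ΛY P' else 0) (fun x => ?_) _ (fun j j' hj hj' => ?_)
  · refine sum_heights ΛX ΛY hX hY T (T + i0) i0 _ _ _ fun P P' hP hP' h0 => ?_
    beta_reduce at h0 ⊢
    have hPl := FP_le hX T P hP
    have hPl' := FP_le hY (T + i0) P' hP'
    by_cases c1 : HT hX P ≤ T + i0
    · by_cases c2 : th ≤ F ΛX hX zX T (HT hX P - T) (Dp zX P)
      · by_cases c3 : HT hY P' ≤ T + i0 + i0
        · by_cases c4 : Ev hX hY zX zY sX sY (ℓ + 1 + (2 * i0 + s)) hi (ℓ + i) (ℓ + i0 + i') x P P'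
          · refine ⟨c1, c3, ?_, by omega, hE1 _ _ c2, by omega, c4.1, fun z k h h' =>
              (c4.2 z k h h').1⟩
            rw [if_pos c1, if_pos c2, if_pos c3, if_pos c4]; simp
          · exact absurd (by rw [if_neg c4, mul_zero, mul_zero]) h0
        · exact absurd (by rw [if_neg c3, zero_mul, zero_mul, mul_zero]) h0
      · exact absurd (by rw [if_neg c2, mul_zero, zero_mul]) h0
    · exact absurd (by rw [if_neg c1, zero_mul, zero_mul]) h0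
  · have hh := H2 s (T + j) (T + i0 + j') (ℓ + i) (ℓ + i0 + i') (ℓ + 1 + (2 * i0 + s)) (E j) μ
      (J * ((i0 + 1) * th)) lam (by omega) hμ hM hl0 hlt (by omega) (by omega)
    exact le_trans hh (hb_le C lam (us s) _ _ th J i0 rfl (hE2 j))

include h1Y hΛY in
/-- second walker local -/
lemma PsiY_le (H3 : H3P ΛX ΛY hX hY zX zY sX sY us C) (ℓ T i0 s lo J : ℕ) (hTs : s ≤ T)
    (th : ℝ≥0∞)
    (hth : th ≠ 0) (lam : ℝ≥0∞) (hl0 : lam ≠ 0) (hlt : lam ≠ ⊤) (i i' : ℕ) (hi0 : i ≤ i0)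
    (hi0' : i' ≤ i0) (μ : G → ℝ≥0∞) (hμ : ∑' x, μ x ≤ 1)
    (hM : ∀ x, μ x ≤ J * ((i0 + 1) * th)) :
    ∑' x, μ x * Psi ΛX ΛY hX hY zX zY sX sY T (T + i0) i0 lo (ℓ + T - s)
      (fun _ => 1)
      (fun P => if th ≤ F ΛY hY zY (T + i0) (HT hY P - (T + i0)) (Dp zY P) then 1 else 0)
      (ℓ + i) (ℓ + i0 + i') x ≤
      (i0 + 1) ^ 2 * (C * (lam + J * (i0 + 1) * us s / lam + us s)) := by
  choose E hE1 hE2 using fun j => E_fin ΛY hY zY h1Y hΛY (T + i0) j hth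
  refine tsum_mul_sum_le μ i0 _ (fun j j' x => ∑' P : List BX, ∑' P' : List BY,
    if HT hX P = T + j ∧ HT hY P' = T + i0 + j' ∧ (P'.map zY).sum ∈ E j' ∧
      (∃ z k, (z, k) ∈ TT sX hX zX P 0 (ℓ + i) ∧ (z, k) ∈ TT sY hY zY P' x (ℓ + i0 + i')) ∧
      (∀ z k, (z, k) ∈ TT sX hX zX P 0 (ℓ + i) → (z, k) ∈ TT sY hY zY P' x (ℓ + i0 + i') →
        k ≤ ℓ + T - s)
      then LW ΛX P * LW ΛY P' else 0) (fun x => ?_) _ (fun j j' hj hj' => ?_)
  · refine sum_heights ΛX ΛY hX hY T (T + i0) i0 _ _ _ fun P P' hP hP' h0 => ?_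
    beta_reduce at h0 ⊢
    have hPl := FP_le hX T P hP
    have hPl' := FP_le hY (T + i0) P' hP'
    by_cases c1 : HT hX P ≤ T + i0
    · by_cases c3 : HT hY P' ≤ T + i0 + i0
      · by_cases c2 : th ≤ F ΛY hY zY (T + i0) (HT hY P' - (T + i0)) (Dp zY P')
        · by_cases c4 : Ev hX hY zX zY sX sY lo (ℓ + T - s) (ℓ + i) (ℓ + i0 + i') x P P'
          · refine ⟨c1, c3, ?_, by omega, by omega, hE1 _ _ c2, c4.1, fun z k h h' =>
              (c4.2 z k h h').2⟩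
            rw [if_pos c1, if_pos c2, if_pos c3, if_pos c4]; simp
          · exact absurd (by rw [if_neg c4, mul_zero, mul_zero]) h0
        · exact absurd (by rw [if_neg c2, mul_zero, zero_mul, mul_zero]) h0
      · exact absurd (by rw [if_neg c3, zero_mul, zero_mul, mul_zero]) h0
    · exact absurd (by rw [if_neg c1, zero_mul, zero_mul]) h0
  · have hh := H3 s (T + j) (T + i0 + j') (ℓ + i) (ℓ + i0 + i') (ℓ + T - s) (E j') μ
      (J * ((i0 + 1) * th)) lam (by omega) hμ hM hl0 hlt (by omega) (by omega)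
    exact le_trans hh (hb_le C lam (us s) _ _ th J i0 rfl (hE2 j'))

end pair

end Crest.Agent.R154.AsmR667
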