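import Crest.Agent.R154.AsmC_746

/-! Row 154 (helper746): the bound of one window. -/

set_option autoImplicit false

namespace Crest.Agent.R154.Asm746

open scoped ENNReal
open Crest.Agent.R154.B5A
open Crest.Agent.R154.KWB419 (TT)

section One

variable {B : Type*} (Λ : B → ℝ≥0∞) (ht : B → ℕ)

open Classical in
/-- first passage with good overshoot -/
noncomputable def EG (a i0 : ℕ) (F : List B → ℝ≥0∞) : ℝ≥0∞ :=
  EF Λ ht a (fun A => if HT ht A ≤ a + i0 then F A else 0)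

lemma EG_mono (a i0 : ℕ) {F F' : List B → ℝ≥0∞}
    (h : ∀ L, FP ht a L → HT ht L ≤ a + i0 → F L ≤ F' L) : EG Λ ht a i0 F ≤ EG Λ ht a i0 F' := by
  refine EF_mono Λ ht a fun L hL => ?_
  split_ifs with h2
  · exact h L hL h2
  · exact le_rfl

lemma EG_add (a i0 : ℕ) (F F' : List B → ℝ≥0∞) :
    EG Λ ht a i0 (fun L => F L + F' L) = EG Λ ht a i0 F + EG Λ ht a i0 F' := by
  unfold EG
  rw [← EF_add]
  congr 1
  funext A
  split_ifs <;> simp

lemma EG_le_const (h1 : ∀ b, 1 ≤ ht b) (hΛ : ∑' b, Λ b = 1) (a i0 : ℕ) (c : ℝ≥0∞)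
    (F : List B → ℝ≥0∞) (hF : ∀ L, FP ht a L → HT ht L ≤ a + i0 → F L ≤ c) :
    EG Λ ht a i0 F ≤ c := by
  refine EF_le_const Λ ht h1 hΛ a c _ fun L hL => ?_
  split_ifs with h2
  · exact hF L hL h2
  · exact zero_le

lemma EF_zero_fun (a : ℕ) : EF Λ ht a (fun _ => 0) = 0 := by
  classical
  unfold EF
  simp

variable {B' : Type*} (Λ' : B' → ℝ≥0∞) (ht' : B' → ℕ)

lemma EF_EG_comm (T b i0 : ℕ) (F : List B → List B' → ℝ≥0∞) :
    EF Λ ht T (fun P => EG Λ' ht' b i0 (fun A' => F P A'))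
      = EG Λ' ht' b i0 (fun A' => EF Λ ht T (fun P => F P A')) := by
  unfold EG
  rw [EF_comm Λ ht Λ' ht' T b (fun P A' => if HT ht' A' ≤ b + i0 then F P A' else 0)]
  congr 1
  funext A'
  split_ifs
  · rfl
  · exact EF_zero_fun Λ ht T

lemma EG_EG_comm (a b i0 : ℕ) (F : List B → List B' → ℝ≥0∞) :
    EG Λ ht a i0 (fun A => EG Λ' ht' b i0 (fun A' => F A A'))
      = EG Λ' ht' b i0 (fun A' => EG Λ ht a i0 (fun A => F A A')) := by
  unfold EG
  have e1 : (fun A => if HT ht A ≤ a + i0 then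
      EF Λ' ht' b (fun A' => if HT ht' A' ≤ b + i0 then F A A' else 0) else 0)
      = fun A => EF Λ' ht' b (fun A' => if HT ht A ≤ a + i0 ∧ HT ht' A' ≤ b + i0
        then F A A' else 0) := by
    funext A
    by_cases h : HT ht A ≤ a + i0
    · simp only [h, if_true, true_and]
    · simp only [h, if_false, false_and, EF_zero_fun]
  have e2 : (fun A' => if HT ht' A' ≤ b + i0 then
      EF Λ ht a (fun A => if HT ht A ≤ a + i0 then F A A' else 0) else 0)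
      = fun A' => EF Λ ht a (fun A => if HT ht A ≤ a + i0 ∧ HT ht' A' ≤ b + i0
        then F A A' else 0) := by
    funext A'
    by_cases h : HT ht' A' ≤ b + i0
    · simp only [h, if_true, and_true]
    · simp only [h, if_false, and_false, EF_zero_fun]
  rw [e1, e2]
  exact EF_comm Λ ht Λ' ht' a b _

variable {G : Type*} [AddCommGroup G] (z : B → G)

open Classical in
lemma smooth_use (h1 : ∀ b, 1 ≤ ht b) (hΛ : ∑' b, Λ b = 1) (Pf : ℕ → G → ℝ≥0∞)
    (hPf : ∀ k x, Pf k x ≤ 1) (s i0 a J : ℕ) (th q RB : ℝ≥0∞) (hq1 : q ≤ 1)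
    (hq : ∑' y, (if th < Law Λ ht z s y then Law Λ ht z s y else 0) ≤ q)
    (hR : ∀ k, a ≤ k → k ≤ a + i0 → ∀ μ : G → ℝ≥0∞, ∑' x, μ x ≤ 1 → (∀ x, μ x ≤ th) →
      ∑' x, μ x * Pf k x ≤ RB) (x0 : G) (hJ : J * (s + i0) ≤ a) :
    EG Λ ht a i0 (fun A => Pf (HT ht A) (x0 + (A.map z).sum))
      ≤ q ^ J + J * (ep Λ ht i0 + (i0 + 1 : ℕ) * ((i0 + 1 : ℕ) * RB)) := by
  have hs := smooth Λ ht z h1 hΛ (fun y : ℕ × G => if a ≤ y.1 ∧ y.1 ≤ a + i0 then Pf y.1 y.2 else 0)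
    (fun y => by split_ifs; exacts [hPf _ _, zero_le]) s i0 th q (ep Λ ht i0)
    ((i0 + 1 : ℕ) * RB) hq1 hq (EF_over Λ ht h1 hΛ i0 s) ?_ J a (0, x0) hJ
  · refine le_trans (EF_mono Λ ht a fun A hA => ?_) hs
    have := FP_le_HT ht A a hA
    simp only [HD, Prod.mk_add_mk, zero_add]
    by_cases h : HT ht A ≤ a + i0
    · rw [if_pos h, if_pos ⟨this, h⟩]
    · rw [if_neg h]; exact zero_le
  · intro μ hμ1 hμ2
    rw [ENNReal.tsum_prod']
    calc _ ≤ ∑' k : ℕ, (if k ∈ Finset.Icc a (a + i0) then RB else 0) := by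
          refine ENNReal.tsum_le_tsum fun k => ?_
          by_cases hk : k ∈ Finset.Icc a (a + i0)
          · rw [if_pos hk]
            rw [Finset.mem_Icc] at hk
            refine le_trans (le_of_eq ?_) (hR k hk.1 hk.2 (fun x => μ (k, x)) (hμ1 k)
              (fun x => hμ2 _))
            refine tsum_congr fun x => ?_
            simp only
            rw [if_pos hk]
          · rw [if_neg hk]
            rw [Finset.mem_Icc] at hk
            refine le_of_eq (ENNReal.tsum_eq_zero.2 fun x => ?_)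
            simp only
            rw [if_neg hk, mul_zero]
      _ = (i0 + 1 : ℕ) * RB := by
          rw [tsum_eq_sum (s := Finset.Icc a (a + i0)) (fun i hi => if_neg hi)]
          rw [Finset.sum_congr rfl (fun i hi => if_pos hi), Finset.sum_const, Nat.card_Icc,
            nsmul_eq_mul]
          congr 2; omega

end One

section Two

variable {BX BY G : Type*} [AddCommGroup G]
variable (ΛX : BX → ℝ≥0∞) (ΛY : BY → ℝ≥0∞) (hX : BX → ℕ) (hY : BY → ℕ) (zX : BX → G)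
  (zY : BY → G) (sX : BX → Set (G × ℕ)) (sY : BY → Set (G × ℕ))

/-- the nest of four first passages -/
noncomputable def NN (a aY T TY i0 : ℕ)
    (Φ : List BX → List BX → List BY → List BY → ℝ≥0∞) : ℝ≥0∞ :=
  EG ΛX hX a i0 (fun AX => EF ΛX hX T (fun PX => EG ΛY hY aY i0 (fun AY =>
    EF ΛY hY TY (fun PY => Φ AX PX AY PY))))

lemma NN_add (a aY T TY i0 : ℕ) (Φ Φ' : List BX → List BX → List BY → List BY → ℝ≥0∞) :
    NN ΛX ΛY hX hY a aY T TY i0 (fun A P A' P' => Φ A P A' P' + Φ' A P A' P')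
      = NN ΛX ΛY hX hY a aY T TY i0 Φ + NN ΛX ΛY hX hY a aY T TY i0 Φ' := by
  unfold NN
  simp only [EF_add, EG_add]

variable (h1X : ∀ b, 1 ≤ hX b) (hΛX : ∑' b, ΛX b = 1) (h1Y : ∀ b, 1 ≤ hY b)
    (hΛY : ∑' b, ΛY b = 1)

include h1X hΛX h1Y hΛY in
lemma NN_X (a aY T TY i0 : ℕ) (f : List BX → ℝ≥0∞) :
    NN ΛX ΛY hX hY a aY T TY i0 (fun _ PX _ _ => f PX) ≤ EF ΛX hX T f := by
  unfold NN
  refine EG_le_const ΛX hX h1X hΛX a i0 _ _ fun AX _ _ => EF_mono ΛX hX T fun PX _ => ?_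
  refine EG_le_const ΛY hY h1Y hΛY aY i0 _ _ fun AY _ _ => ?_
  exact EF_le_const ΛY hY h1Y hΛY TY _ _ fun _ _ => le_rfl

include h1X hΛX h1Y hΛY in
lemma NN_Y (a aY T TY i0 : ℕ) (f : List BY → ℝ≥0∞) :
    NN ΛX ΛY hX hY a aY T TY i0 (fun _ _ _ PY => f PY) ≤ EF ΛY hY TY f := by
  unfold NN
  refine EG_le_const ΛX hX h1X hΛX a i0 _ _ fun AX _ _ => ?_
  refine EF_le_const ΛX hX h1X hΛX T _ _ fun PX _ => ?_
  exact EG_le_const ΛY hY h1Y hΛY aY i0 _ _ fun AY _ _ => le_rfl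

include h1X hΛX h1Y hΛY in
lemma NN_XY (a aY T TY i0 : ℕ) (f : List BX → ℝ≥0∞) (g : List BY → ℝ≥0∞) :
    NN ΛX ΛY hX hY a aY T TY i0 (fun _ PX _ PY => f PX * g PY)
      ≤ EF ΛX hX T f * EF ΛY hY TY g := by
  unfold NN
  simp only [EF_const_mul]
  refine EG_le_const ΛX hX h1X hΛX a i0 _ _ fun AX _ _ => ?_
  calc _ ≤ EF ΛX hX T (fun PX => EF ΛY hY TY g * f PX) := by
        refine EF_mono ΛX hX T fun PX _ => ?_
        rw [mul_comm]
        exact EG_le_const ΛY hY h1Y hΛY aY i0 _ _ fun AY _ _ => by rw [mul_comm]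
    _ = _ := by rw [EF_const_mul, mul_comm]

open Classical in
lemma NN_PP (loc : List BX → List BY → G) (E : Finset G) (w : G) (a aY T TY i0 lo hi : ℕ) :
    NN ΛX ΛY hX hY a aY T TY i0 (fun AX PX AY PY => if HT hX PX ≤ T + i0 ∧
      HT hY PY ≤ TY + i0 ∧ loc PX PY ∈ E ∧ Ev hX hY zX zY sX sY PX (AX.map zX).sum (HT hX AX) PY
        (w + (AY.map zY).sum) (HT hY AY) lo hi then 1 else 0)
      = EG ΛX hX a i0 (fun AX => EG ΛY hY aY i0 (fun AY =>
        PP ΛX ΛY hX hY zX zY sX sY loc E T TY i0 lo hi (HT hX AX) (AX.map zX).sum (HT hY AY)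
          (w + (AY.map zY).sum))) := by
  unfold NN
  congr 1
  funext AX
  rw [EF_EG_comm]
  rfl

open Classical in
include h1X hΛX h1Y hΛY in
theorem window_le (hsX : ∀ b, ∀ p ∈ sX b, 1 ≤ p.2 ∧ p.2 ≤ hX b)
    (hsY : ∀ b, ∀ p ∈ sY b, 1 ≤ p.2 ∧ p.2 ≤ hY b) (us : ℕ → ℝ≥0∞) (C : ℝ≥0∞)
    (H2 : HF ΛX ΛY hX hY zX zY sX sY (fun L _ => (L.map zX).sum) us C)
    (H3 : HF ΛX ΛY hX hY zX zY sX sY (fun _ L' => (L'.map zY).sum) us C)
    (w : G) (a t s i0 n J : ℕ) (hts : 2 * i0 + s ≤ t) (hn : a + 3 * t + 3 * i0 ≤ n)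
    (hJX : J * (3 * t + i0) ≤ a) (hJY : J * (3 * t + i0 + i0) ≤ a + i0)
    (lam : ℝ≥0∞) (hl0 : lam ≠ 0) (hlt : lam ≠ ⊤) (thX thY u : ℝ≥0∞)
    (hX1 : ∑' y, (if Law ΛX hX zX (3 * t) y < thX then Law ΛX hX zX (3 * t) y else 0) ≤ u)
    (hX2 : ∑' y, (if thX < Law ΛX hX zX (3 * t) y then Law ΛX hX zX (3 * t) y else 0) ≤ 1 - u)
    (hY1 : ∑' y, (if Law ΛY hY zY (3 * t + i0) y < thY then Law ΛY hY zY (3 * t + i0) y else 0) ≤ u)
    (hY2 : ∑' y, (if thY < Law ΛY hY zY (3 * t + i0) y then Law ΛY hY zY (3 * t + i0) y else 0)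
      ≤ 1 - u)
    (EX EY : Finset G) (hEX : ∀ y, thX ≤ Law ΛX hX zX (3 * t) y → y.2 ∈ EX)
    (hEX2 : thX * EX.card ≤ 1)
    (hEY : ∀ y, thY ≤ Law ΛY hY zY (3 * t + i0) y → y.2 ∈ EY)
    (hEY2 : thY * EY.card ≤ 1) :
    UF ΛX hX n (fun LX => UF ΛY hY n (fun LY => if WinE hX hY zX zY sX sY w (a + t) (a + 2 * t)
      (a + 3 * t - s) (a + 3 * t + 2 * i0) LX LY then 1 else 0))
      ≤ 2 * ep ΛX hX i0 + 2 * ep ΛY hY i0 + u * u
        + ((1 - u) ^ J + J * (ep ΛX hX i0 + (i0 + 1 : ℕ) * ((i0 + 1 : ℕ) *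
          (((i0 + 1) * (i0 + 1) : ℕ) * (C * (lam + us s / lam + us s))))))
        + ((1 - u) ^ J + J * (ep ΛY hY i0 + (i0 + 1 : ℕ) * ((i0 + 1 : ℕ) *
          (((i0 + 1) * (i0 + 1) : ℕ) * (C * (lam + us s / lam + us s)))))) := by
  set T := 3 * t with hT
  set TY := 3 * t + i0 with hTY
  set lo := a + t + 1 with hlo
  set hi := a + 3 * t - s with hhi
  set fX : List BX → ℝ≥0∞ := fun P => if Law ΛX hX zX T (HD hX zX P) < thX then 1 else 0 with hfX
  set fY : List BY → ℝ≥0∞ := fun P => if Law ΛY hY zY TY (HD hY zY P) < thY then 1 else 0 with hfY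
  set Φ1 : List BX → List BX → List BY → List BY → ℝ≥0∞ := fun _ PX _ _ =>
    if T + i0 < HT hX PX then 1 else 0 with hΦ1
  set Φ2 : List BX → List BX → List BY → List BY → ℝ≥0∞ := fun _ _ _ PY =>
    if TY + i0 < HT hY PY then 1 else 0 with hΦ2
  set Φ3 : List BX → List BX → List BY → List BY → ℝ≥0∞ := fun _ PX _ PY => fX PX * fY PY with hΦ3
  set Φ4 : List BX → List BX → List BY → List BY → ℝ≥0∞ := fun AX PX AY PY =>
    if HT hX PX ≤ T + i0 ∧
      HT hY PY ≤ TY + i0 ∧ (PX.map zX).sum ∈ EX ∧ Ev hX hY zX zY sX sY PX (AX.map zX).sum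
        (HT hX AX) PY (w + (AY.map zY).sum) (HT hY AY) lo hi then 1 else 0 with hΦ4
  set Φ5 : List BX → List BX → List BY → List BY → ℝ≥0∞ := fun AX PX AY PY =>
    if HT hX PX ≤ T + i0 ∧
      HT hY PY ≤ TY + i0 ∧ (PY.map zY).sum ∈ EY ∧ Ev hX hY zX zY sX sY PX (AX.map zX).sum
        (HT hX AX) PY (w + (AY.map zY).sum) (HT hY AY) lo hi then 1 else 0 with hΦ5
  have key : ∀ (AX PX RX : List BX) (AY PY RY : List BY), FP hX a AX → HT hX AX ≤ a + i0 →
      FP hX T PX → FP hY (a + i0) AY → HT hY AY ≤ a + i0 + i0 → FP hY TY PY →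
      (if WinE hX hY zX zY sX sY w (a + t) (a + 2 * t) hi (a + 3 * t + 2 * i0)
        (AX ++ (PX ++ RX)) (AY ++ (PY ++ RY)) then (1 : ℝ≥0∞) else 0)
      ≤ Φ1 AX PX AY PY + Φ2 AX PX AY PY + Φ3 AX PX AY PY + Φ4 AX PX AY PY + Φ5 AX PX AY PY := by
    intro AX PX RX AY PY RY h1 h2 h3 h4 h5 h6
    split_ifs with hW
    · by_cases g1 : T + i0 < HT hX PX
      · have : Φ1 AX PX AY PY = 1 := if_pos g1
        rw [this, add_assoc, add_assoc, add_assoc]; exact le_self_add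
      · by_cases g2 : TY + i0 < HT hY PY
        · have : Φ2 AX PX AY PY = 1 := if_pos g2
          rw [this, add_assoc, add_assoc, add_comm (Φ1 AX PX AY PY), add_assoc]; exact le_self_add
        · have hE := win_piece hX hY zX zY sX sY hsX hsY w a t s i0 hts AX PX RX AY PY RY h2
            (FP_le_HT hX PX T h3) (FP_le_HT hX AX a h1) (FP_le_HT hY AY _ h4) h5
            (FP_le_HT hY PY TY h6) (by omega) hW
          by_cases g3 : Law ΛX hX zX T (HD hX zX PX) < thX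
          · by_cases g4 : Law ΛY hY zY TY (HD hY zY PY) < thY
            · have : Φ3 AX PX AY PY = 1 := by
                simp only [hΦ3, hfX, hfY, if_pos g3, if_pos g4, mul_one]
              rw [this, add_assoc, add_comm (Φ1 AX PX AY PY + Φ2 AX PX AY PY), add_assoc]
              exact le_self_add
            · have hl := hEY _ (not_lt.1 g4)
              have : Φ5 AX PX AY PY = 1 := if_pos ⟨not_lt.1 g1, not_lt.1 g2, hl, hE⟩
              rw [this]; exact le_add_self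
          · have hl := hEX _ (not_lt.1 g3)
            have : Φ4 AX PX AY PY = 1 := if_pos ⟨not_lt.1 g1, not_lt.1 g2, hl, hE⟩
            rw [this, add_assoc, add_comm, add_assoc]; exact le_self_add
    · exact zero_le
  have step1 : UF ΛX hX n (fun LX => UF ΛY hY n (fun LY => if WinE hX hY zX zY sX sY w (a + t)
      (a + 2 * t) hi (a + 3 * t + 2 * i0) LX LY then 1 else 0))
      ≤ ep ΛX hX i0 + EG ΛX hX a i0 (fun AX => EF ΛX hX T (fun PX => ep ΛY hY i0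
        + EG ΛY hY (a + i0) i0 (fun AY => EF ΛY hY TY (fun PY => Φ1 AX PX AY PY + Φ2 AX PX AY PY
          + Φ3 AX PX AY PY + Φ4 AX PX AY PY + Φ5 AX PX AY PY)))) := by
    refine UF_le2 ΛX hX h1X hΛX a i0 T n (by omega) _ ?_ _ ?_
    · intro LX
      refine UF_le_const ΛY hY h1Y hΛY n 1 _ fun LY _ => ?_
      split_ifs
      · exact le_rfl
      · exact zero_le
    · intro AX PX RX h1 h2 h3
      refine UF_le2 ΛY hY h1Y hΛY (a + i0) i0 TY n (by omega) _ ?_ _ ?_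
      · intro LY
        split_ifs
        · exact le_rfl
        · exact zero_le
      · intro AY PY RY h4 h5 h6
        exact key AX PX RX AY PY RY h1 h2 h3 h4 h5 h6
  have step2 : EG ΛX hX a i0 (fun AX => EF ΛX hX T (fun PX => ep ΛY hY i0
        + EG ΛY hY (a + i0) i0 (fun AY => EF ΛY hY TY (fun PY => Φ1 AX PX AY PY + Φ2 AX PX AY PY
          + Φ3 AX PX AY PY + Φ4 AX PX AY PY + Φ5 AX PX AY PY))))
      ≤ ep ΛY hY i0 + (NN ΛX ΛY hX hY a (a + i0) T TY i0 Φ1 + NN ΛX ΛY hX hY a (a + i0) T TY i0 Φ2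
        + NN ΛX ΛY hX hY a (a + i0) T TY i0 Φ3 + NN ΛX ΛY hX hY a (a + i0) T TY i0 Φ4
        + NN ΛX ΛY hX hY a (a + i0) T TY i0 Φ5) := by
    rw [← NN_add, ← NN_add, ← NN_add, ← NN_add]
    simp only [EF_add, EG_add]
    gcongr
    · exact EG_le_const ΛX hX h1X hΛX a i0 _ _ fun AX _ _ => (EF_const ΛX hX h1X hΛX T _).le
    · unfold NN
      simp only [EF_add, EG_add]
      exact le_rfl
  have b1 : NN ΛX ΛY hX hY a (a + i0) T TY i0 Φ1 ≤ ep ΛX hX i0 :=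
    (NN_X ΛX ΛY hX hY h1X hΛX h1Y hΛY a (a + i0) T TY i0 _).trans (EF_over ΛX hX h1X hΛX i0 T)
  have b2 : NN ΛX ΛY hX hY a (a + i0) T TY i0 Φ2 ≤ ep ΛY hY i0 :=
    (NN_Y ΛX ΛY hX hY h1X hΛX h1Y hΛY a (a + i0) T TY i0 _).trans (EF_over ΛY hY h1Y hΛY i0 TY)
  have b3 : NN ΛX ΛY hX hY a (a + i0) T TY i0 Φ3 ≤ u * u := by
    refine (NN_XY ΛX ΛY hX hY h1X hΛX h1Y hΛY a (a + i0) T TY i0 fX fY).trans ?_
    refine mul_le_mul' ?_ ?_
    · have e := EF_law ΛX hX zX T (fun y => if Law ΛX hX zX T y < thX then 1 else 0)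
      rw [hfX, e]
      refine le_trans (le_of_eq (tsum_congr fun y => ?_)) hX1
      split_ifs <;> simp
    · have e := EF_law ΛY hY zY TY (fun y => if Law ΛY hY zY TY y < thY then 1 else 0)
      rw [hfY, e]
      refine le_trans (le_of_eq (tsum_congr fun y => ?_)) hY1
      split_ifs <;> simp
  have hBX : ∀ (th : ℝ≥0∞) (E : Finset G), th * E.card ≤ 1 →
      ((i0 + 1) * (i0 + 1) : ℕ) * (C * (lam + th * E.card * us s / lam + us s))
      ≤ ((i0 + 1) * (i0 + 1) : ℕ) * (C * (lam + us s / lam + us s)) := by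
    intro th E hE
    gcongr
    calc th * E.card * us s ≤ 1 * us s := mul_le_mul_left hE _
      _ = us s := one_mul _
  have b4 : NN ΛX ΛY hX hY a (a + i0) T TY i0 Φ4 ≤ (1 - u) ^ J + J * (ep ΛX hX i0
      + (i0 + 1 : ℕ) * ((i0 + 1 : ℕ) *
          (((i0 + 1) * (i0 + 1) : ℕ) * (C * (lam + us s / lam + us s))))) := by
    rw [hΦ4]
    rw [NN_PP ΛX ΛY hX hY zX zY sX sY (fun L _ => (L.map zX).sum) EX w a (a + i0) T TY i0 lo hi,
      EG_EG_comm]
    refine EG_le_const ΛY hY h1Y hΛY (a + i0) i0 _ _ fun AY hAY hAY2 => ?_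
    have hAY1 := FP_le_HT hY AY _ hAY
    have := smooth_use ΛX hX zX h1X hΛX (fun k x =>
      PP ΛX ΛY hX hY zX zY sX sY (fun L _ => (L.map zX).sum) EX T TY i0 lo hi k x (HT hY AY)
          (w + (AY.map zY).sum)) (fun k x => PP_le_one ΛX ΛY hX hY zX zY sX sY h1X hΛX h1Y hΛY
            _ _ _ _ _ _ _ _ _ _ _) T i0 a J thX (1 - u)
      (((i0 + 1) * (i0 + 1) : ℕ) * (C * (lam + us s / lam + us s))) tsub_le_self hX2
      (fun k hk1 hk2 μ hμ1 hμ2 => (PP_smoothX ΛX ΛY hX hY zX zY sX sY _ us C H2 EX thX lam hl0 hlt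
        T TY i0 lo hi s k (HT hY AY) μ hμ1 hμ2 (by omega) (by omega) (by omega) (by omega)
        (by omega) (by omega) _).trans (hBX thX EX hEX2)) 0 hJX
    simpa only [zero_add] using this
  have b5 : NN ΛX ΛY hX hY a (a + i0) T TY i0 Φ5 ≤ (1 - u) ^ J + J * (ep ΛY hY i0
      + (i0 + 1 : ℕ) * ((i0 + 1 : ℕ) *
          (((i0 + 1) * (i0 + 1) : ℕ) * (C * (lam + us s / lam + us s))))) := by
    rw [hΦ5]
    rw [NN_PP ΛX ΛY hX hY zX zY sX sY (fun _ L' => (L'.map zY).sum) EY w a (a + i0) T TY i0 lo hi]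
    refine EG_le_const ΛX hX h1X hΛX a i0 _ _ fun AX hAX hAX2 => ?_
    have hAX1 := FP_le_HT hX AX _ hAX
    exact smooth_use ΛY hY zY h1Y hΛY (fun k y =>
      PP ΛX ΛY hX hY zX zY sX sY (fun _ L' => (L'.map zY).sum) EY T TY i0 lo hi (HT hX AX)
          (AX.map zX).sum k y) (fun k x => PP_le_one ΛX ΛY hX hY zX zY sX sY h1X hΛX h1Y hΛY
            _ _ _ _ _ _ _ _ _ _ _) TY i0 (a + i0) J thY (1 - u)
      (((i0 + 1) * (i0 + 1) : ℕ) * (C * (lam + us s / lam + us s))) tsub_le_self hY2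
      (fun k hk1 hk2 μ hμ1 hμ2 => (PP_smoothY ΛX ΛY hX hY zX zY sX sY _ us C H3 EY thY lam hl0 hlt
        T TY i0 lo hi s (HT hX AX) k μ hμ1 hμ2 (by omega) (by omega) (by omega) (by omega)
        (by omega) (by omega) _).trans (hBX thY EY hEY2)) w hJY
  refine (step1.trans (add_le_add_right step2 _)).trans ?_
  calc _ ≤ ep ΛX hX i0 + (ep ΛY hY i0 + (ep ΛX hX i0 + ep ΛY hY i0 + u * u
        + ((1 - u) ^ J + J * (ep ΛX hX i0 + (i0 + 1 : ℕ) * ((i0 + 1 : ℕ) *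
          (((i0 + 1) * (i0 + 1) : ℕ) * (C * (lam + us s / lam + us s))))))
        + ((1 - u) ^ J + J * (ep ΛY hY i0 + (i0 + 1 : ℕ) * ((i0 + 1 : ℕ) *
          (((i0 + 1) * (i0 + 1) : ℕ) * (C * (lam + us s / lam + us s)))))))) := by
        gcongr
    _ = _ := by ring

end Two

end Crest.Agent.R154.Asm746
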