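import Crest.Agent.R154.FP_178
import Crest.Agent.R154.B5Rec_566

/-! Row 154, ROAD 801 (helper780): first-passage density by recursion, list decompositions. -/

set_option autoImplicit false

namespace Crest.Agent.R154.Asm780

open scoped ENNReal
open Crest.Agent.R154.B5A Crest.Agent.R154.FP178

variable {B G : Type*}

section one
variable (Λ : B → ℝ≥0∞) (ht : B → ℕ)

open Classical in
/-- lists of height `n - c` -/
noncomputable def SS (c n : ℕ) (f : List B → ℝ≥0∞) : ℝ≥0∞ :=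
  ∑' R : List B, if c + HT ht R = n then LW Λ R * f R else 0

open Classical in
/-- first passages -/
noncomputable def FF (a : ℕ) (f : List B → ℝ≥0∞) : ℝ≥0∞ :=
  ∑' A : List B, if fp ht a A then LW Λ A * f A else 0

lemma SS_mono (c n : ℕ) {f g : List B → ℝ≥0∞} (h : ∀ L, f L ≤ g L) :
    SS Λ ht c n f ≤ SS Λ ht c n g := by
  refine ENNReal.tsum_le_tsum fun L => ?_
  split_ifs
  · exact mul_le_mul_right (h L) _
  · exact le_rfl

lemma FF_mono (a : ℕ) {f g : List B → ℝ≥0∞} (h : ∀ L, fp ht a L → f L ≤ g L) :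
    FF Λ ht a f ≤ FF Λ ht a g := by
  refine ENNReal.tsum_le_tsum fun L => ?_
  split_ifs with h'
  · exact mul_le_mul_right (h L h') _
  · exact le_rfl

lemma SS_le_one (hU1 : ∀ n, U Λ ht n ≤ 1) (c n : ℕ) {f : List B → ℝ≥0∞} (h : ∀ L, f L ≤ 1) :
    SS Λ ht c n f ≤ 1 := by
  refine le_trans ?_ (hU1 (n - c))
  refine ENNReal.tsum_le_tsum fun L => ?_
  by_cases h1 : c + HT ht L = n
  · rw [if_pos h1, if_pos (by omega)]
    calc LW Λ L * f L ≤ LW Λ L * 1 := mul_le_mul_right (h L) _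
      _ = _ := mul_one _
  · rw [if_neg h1]; exact zero_le

open Classical in
lemma FF_one_eq (h1 : ∀ b, 1 ≤ ht b) (hΛ : ∑' b, Λ b = 1) (a : ℕ) :
    FF Λ ht a (fun _ => 1) = 1 := by
  induction a using Nat.strong_induction_on with
  | _ a ih =>
    rcases Nat.eq_zero_or_pos a with rfl | ha
    · exact sum_fp_zero Λ ht (fun _ => 1)
    · rw [FF, sum_fp_step Λ ht a ha (fun _ => 1)]
      have : ∀ b : B, (∑' L : List B, (if fp ht (a - ht b) L then LW Λ L * 1 else 0)) = 1 :=
        fun b => ih (a - ht b) (by have := h1 b; omega)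
      simp only [this]
      simpa using hΛ

lemma FF_le_one (h1 : ∀ b, 1 ≤ ht b) (hΛ : ∑' b, Λ b = 1) (a : ℕ) {f : List B → ℝ≥0∞}
    (h : ∀ L, f L ≤ 1) : FF Λ ht a f ≤ 1 :=
  (FF_mono Λ ht a (fun L _ => h L)).trans (FF_one_eq Λ ht h1 hΛ a).le

lemma FF_add (a : ℕ) (f g : List B → ℝ≥0∞) :
    FF Λ ht a (fun L => f L + g L) = FF Λ ht a f + FF Λ ht a g := by
  rw [FF, FF, FF, ← ENNReal.tsum_add]
  refine tsum_congr fun L => ?_
  split_ifs
  · rw [mul_add]
  · simp

lemma FF_const_mul (a : ℕ) (c : ℝ≥0∞) (f : List B → ℝ≥0∞) :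
    FF Λ ht a (fun L => c * f L) = c * FF Λ ht a f := by
  rw [FF, FF, ← ENNReal.tsum_mul_left]
  refine tsum_congr fun L => ?_
  split_ifs
  · ring
  · simp

/-- decomposition of a sum over lists of given height at the first passage of `τ` -/
lemma SS_split (h1 : ∀ b, 1 ≤ ht b) (c n τ : ℕ) (hn : c + τ ≤ n) (f : List B → ℝ≥0∞) :
    SS Λ ht c n f = FF Λ ht τ (fun A => SS Λ ht (c + HT ht A) n (fun R => f (A ++ R))) := by
  have h := split Λ ht h1 τ (fun L => if c + HT ht L = n then f L else 0)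
  rw [SS, FF]
  have e1 : ∀ L : List B, (if c + HT ht L = n then LW Λ L * f L else 0)
      = if τ ≤ HT ht L then LW Λ L * (if c + HT ht L = n then f L else 0) else 0 := by
    intro L
    by_cases h2 : c + HT ht L = n
    · rw [if_pos h2, if_pos (by omega), if_pos h2]
    · rw [if_neg h2, if_neg h2]; simp
  rw [tsum_congr e1, h]
  refine tsum_congr fun A => ?_
  by_cases hA : fp ht τ A
  · rw [if_pos hA, if_pos hA]
    congr 1
    refine tsum_congr fun R => ?_
    rw [HT_append]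
    by_cases h2 : c + (HT ht A + HT ht R) = n
    · rw [if_pos h2, if_pos (by omega)]
    · rw [if_neg h2, if_neg (by omega), mul_zero]
  · rw [if_neg hA, if_neg hA]

/-- tail of the first passage -/
noncomputable def eta (i : ℕ) : ℝ≥0∞ := ∑' k, tail Λ ht (i + k)

open Classical in
lemma FF_over (h1 : ∀ b, 1 ≤ ht b) (hU1 : ∀ n, U Λ ht n ≤ 1) (i a : ℕ)
    {f : List B → ℝ≥0∞} (h : ∀ L, f L ≤ 1) :
    FF Λ ht a f ≤ eta Λ ht i + FF Λ ht a (fun A => if HT ht A ≤ a + i then f A else 0) := by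
  have h2 := overshoot Λ ht h1 hU1 i a
  calc FF Λ ht a f
      ≤ ∑' L, ((if fp ht a L ∧ a + i < HT ht L then LW Λ L else 0)
        + (if fp ht a L then LW Λ L * (if HT ht L ≤ a + i then f L else 0) else 0)) := by
        refine ENNReal.tsum_le_tsum fun L => ?_
        by_cases hL : fp ht a L
        · by_cases h3 : HT ht L ≤ a + i
          · rw [if_pos hL, if_neg (by omega), if_pos hL, if_pos h3, zero_add]
          · rw [if_pos hL, if_pos ⟨hL, by omega⟩, if_pos hL, if_neg h3, mul_zero, add_zero]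
            calc LW Λ L * f L ≤ LW Λ L * 1 := mul_le_mul_right (h L) _
              _ = _ := mul_one _
        · rw [if_neg hL]; exact zero_le
    _ = _ := ENNReal.tsum_add
    _ ≤ _ := add_le_add h2 le_rfl

open Classical in
/-- the two-piece functional -/
noncomputable def MM (τ T i n : ℕ) (f : List B → List B → List B → ℝ≥0∞) : ℝ≥0∞ :=
  FF Λ ht τ (fun A => if HT ht A ≤ τ + i then
    FF Λ ht T (fun P => if HT ht P ≤ T + i then
      SS Λ ht (HT ht A + HT ht P) n (fun R => f A P R) else 0) else 0)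

lemma MM_mono (τ T i n : ℕ) {f g : List B → List B → List B → ℝ≥0∞}
    (h : ∀ A P R, fp ht τ A → HT ht A ≤ τ + i → fp ht T P → HT ht P ≤ T + i → f A P R ≤ g A P R) :
    MM Λ ht τ T i n f ≤ MM Λ ht τ T i n g := by
  refine FF_mono Λ ht τ fun A hA => ?_
  split_ifs with h1
  · refine FF_mono Λ ht T fun P hP => ?_
    split_ifs with h2
    · exact SS_mono Λ ht _ n fun R => h A P R hA h1 hP h2
    · exact le_rfl
  · exact le_rfl

theorem decomp_le (h1 : ∀ b, 1 ≤ ht b) (hΛ : ∑' b, Λ b = 1) (hU1 : ∀ n, U Λ ht n ≤ 1)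
    (τ T i n : ℕ) (hn : τ + i + T ≤ n) (f : List B → ℝ≥0∞) (hf : ∀ L, f L ≤ 1) :
    SS Λ ht 0 n f ≤ 2 * eta Λ ht i + MM Λ ht τ T i n (fun A P R => f (A ++ (P ++ R))) := by
  classical
  rw [SS_split Λ ht h1 0 n τ (by omega) f]
  refine (FF_over Λ ht h1 hU1 i τ (fun A => SS_le_one Λ ht hU1 _ _ fun R => hf _)).trans ?_
  have h2 : FF Λ ht τ (fun A => if HT ht A ≤ τ + i then
      SS Λ ht (0 + HT ht A) n (fun R => f (A ++ R)) else 0)
      ≤ FF Λ ht τ (fun A => eta Λ ht i * 1 + (if HT ht A ≤ τ + i then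
    FF Λ ht T (fun P => if HT ht P ≤ T + i then
      SS Λ ht (HT ht A + HT ht P) n (fun R => f (A ++ (P ++ R))) else 0) else 0)) := by
    refine FF_mono Λ ht τ fun A hA => ?_
    by_cases h3 : HT ht A ≤ τ + i
    · rw [if_pos h3, if_pos h3, zero_add, mul_one,
        SS_split Λ ht h1 (HT ht A) n T (by omega) (fun R => f (A ++ R))]
      exact FF_over Λ ht h1 hU1 i T (fun P => SS_le_one Λ ht hU1 _ _ fun R => hf _)
    · rw [if_neg h3]; exact zero_le
  refine (add_le_add le_rfl h2).trans ?_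
  rw [FF_add, FF_const_mul, FF_one_eq Λ ht h1 hΛ, mul_one, two_mul, add_assoc]
  rfl

theorem decomp_ge (h1 : ∀ b, 1 ≤ ht b)
    (τ T i n : ℕ) (hn : τ + i + T ≤ n) (f : List B → ℝ≥0∞) :
    MM Λ ht τ T i n (fun A P R => f (A ++ (P ++ R))) ≤ SS Λ ht 0 n f := by
  classical
  rw [SS_split Λ ht h1 0 n τ (by omega) f]
  refine FF_mono Λ ht τ fun A hA => ?_
  by_cases h3 : HT ht A ≤ τ + i
  · rw [if_pos h3, zero_add, SS_split Λ ht h1 (HT ht A) n T (by omega) (fun R => f (A ++ R))]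
    refine FF_mono Λ ht T fun P hP => ?_
    split_ifs
    · exact le_rfl
    · exact zero_le
  · rw [if_neg h3]; exact zero_le

end one

end Crest.Agent.R154.Asm780
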