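import Crest.Agent.R154.AsmC_789

/-! Row 154, ROAD 801, assembly, part D (helper789): one window. -/

set_option autoImplicit false

namespace Crest.Agent.R154.AsmD789

open scoped ENNReal
open Crest.Agent.R154.B5A Crest.Agent.R154.FP178 Crest.Agent.R154.AsmA789
open Crest.Agent.R154.AsmB789 Crest.Agent.R154.AsmC789

/-! ### fibres -/

open Classical in
/-- mass of a fibre -/
noncomputable def fiber {α β : Type*} (z : α → β) (m : α → ℝ≥0∞) (q : β) : ℝ≥0∞ :=
  ∑' a, if z a = q then m a else 0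

open Classical in
lemma fib {α β : Type*} (z : α → β) (m : α → ℝ≥0∞) (f : β → ℝ≥0∞) :
    ∑' a, m a * f (z a) = ∑' q, fiber z m q * f q := by
  have h : ∀ a, m a * f (z a) = ∑' q, (if z a = q then m a else 0) * f q := by
    intro a
    rw [tsum_eq_single (z a)]
    · rw [if_pos rfl]
    · intro q hq; rw [if_neg (Ne.symm hq), zero_mul]
  rw [tsum_congr h, ENNReal.tsum_comm]
  exact tsum_congr fun q => ENNReal.tsum_mul_right

variable {B : Type*} (Λ : B → ℝ≥0∞) (ht : B → ℕ)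
variable {G : Type*} [AddCommGroup G] (z : B → G)

/-- joint displacement of an attempt -/
def jz (P : ℕ) (A : At ht P) : ℤ × G := ((HT ht A.1 : ℤ), (A.1.map z).sum)

/-- law of the joint displacement -/
noncomputable def pl (P : ℕ) (q : ℤ × G) : ℝ≥0∞ := fiber (jz ht z P) (aL Λ ht P) q

lemma jz_sum (P : ℕ) (l : List (At ht P)) :
    (l.map (jz ht z P)).sum = ((HT ht (flat ht l) : ℤ), ((flat ht l).map z).sum) := by
  induction l with
  | nil => simp only [flat, HT_nil, List.map_nil, List.sum_nil]; rfl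
  | cons A l ih =>
    rw [List.map_cons, List.sum_cons, ih, flat, HT_append, List.map_append, List.sum_append, jz]
    simp

lemma pl_sum (h1 : ∀ b, 1 ≤ ht b) (hΛ : ∑' b, Λ b = 1) (P : ℕ) : ∑' q, pl Λ ht z P q = 1 := by
  have h := fib (jz ht z P) (aL Λ ht P) (fun _ => 1)
  simp only [mul_one] at h
  rw [sum_at Λ ht h1 hΛ P] at h
  exact h.symm

open Classical in
/-- the weight of `length = j` -/
noncomputable def om (P j : ℕ) (l : List (At ht P)) : ℝ≥0∞ :=
  if l.length = j then LW (aL Λ ht P) l else 0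

open Classical in
lemma om_sum (P j : ℕ) (F : List (At ht P) → ℝ≥0∞) :
    ∑' l, om Λ ht P j l * F l = SL (aL Λ ht P) j F := by
  rw [SL]
  refine tsum_congr fun l => ?_
  rw [om]
  by_cases h : l.length = j <;> simp [h]

lemma om_one (h1 : ∀ b, 1 ≤ ht b) (hΛ : ∑' b, Λ b = 1) (P j : ℕ) : ∑' l, om Λ ht P j l = 1 := by
  have := om_sum Λ ht P j (fun _ => 1)
  rw [SL_one _ (sum_at Λ ht h1 hΛ P)] at this
  simpa using this

/-- some attempt is small -/
def smal (P : ℕ) (θ : ℝ≥0∞) (l : List (At ht P)) : Prop := ∃ A ∈ l, pl Λ ht z P (jz ht z P A) < 2 * θ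

open Classical in
lemma dens_om (h1 : ∀ b, 1 ≤ ht b) (hΛ : ∑' b, Λ b = 1) (P j : ℕ) (θ : ℝ≥0∞) (q : ℤ × G) :
    ∑' l, om Λ ht P j l * (if smal Λ ht z P θ l ∧ (l.map (jz ht z P)).sum = q then 1 else 0)
      ≤ j * (2 * θ) := by
  rw [om_sum]
  have key := dens (aL Λ ht P) (sum_at Λ ht h1 hΛ P).le (jz ht z P)
    (fun A => pl Λ ht z P (jz ht z P A) < 2 * θ) (2 * θ) ?_ j q
  · refine le_trans (SL_mono _ j fun l _ => ?_) key
    by_cases hh : smal Λ ht z P θ l ∧ (l.map (jz ht z P)).sum = q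
    · have hh' : (∃ b ∈ l, pl Λ ht z P (jz ht z P b) < 2 * θ) ∧ (l.map (jz ht z P)).sum = q := hh
      rw [if_pos hh, if_pos hh']
    · rw [if_neg hh]; exact zero_le
  intro x
  by_cases hx : pl Λ ht z P x < 2 * θ
  · refine le_trans ?_ hx.le
    rw [pl, fiber]
    refine ENNReal.tsum_le_tsum fun A => ?_
    by_cases hA : jz ht z P A = x
    · rw [if_pos hA]; split_ifs <;> simp
    · rw [if_neg (fun h => hA h.2)]; exact zero_le
  · refine le_trans (le_of_eq (ENNReal.tsum_eq_zero.2 fun A => ?_)) (zero_le (a := 2 * θ))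
    rw [if_neg]
    rintro ⟨h, h'⟩
    rw [h'] at h
    exact hx h

open Classical in
lemma nosm_om (h1 : ∀ b, 1 ≤ ht b) (hΛ : ∑' b, Λ b = 1) (P j : ℕ) (θ u : ℝ≥0∞)
    (hu : u ≤ ∑' q, if pl Λ ht z P q < 2 * θ then pl Λ ht z P q else 0) :
    ∑' l, om Λ ht P j l * (if smal Λ ht z P θ l then 0 else 1) ≤ (1 - u) ^ j := by
  rw [om_sum]
  have key := nosmall (aL Λ ht P) (fun A => pl Λ ht z P (jz ht z P A) < 2 * θ) j
  have hk : SL (aL Λ ht P) j (fun l => if smal Λ ht z P θ l then 0 else 1)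
      ≤ (∑' A, if pl Λ ht z P (jz ht z P A) < 2 * θ then 0 else aL Λ ht P A) ^ j := by
    refine le_trans (SL_mono _ j fun l _ => ?_) (key.le.trans (le_of_eq (by
      congr 1; exact tsum_congr fun A => by split_ifs <;> rfl)))
    by_cases hh : smal Λ ht z P θ l
    · rw [if_pos hh]; exact zero_le
    · have hh' : ¬ ∃ b ∈ l, pl Λ ht z P (jz ht z P b) < 2 * θ := hh
      rw [if_neg hh, if_neg hh']
  refine hk.trans (pow_le_pow_left' ?_ j)
  have e1 : ∑' q, (if pl Λ ht z P q < 2 * θ then pl Λ ht z P q else 0)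
      = ∑' A : At ht P, (if pl Λ ht z P (jz ht z P A) < 2 * θ then aL Λ ht P A else 0) := by
    have h := fib (jz ht z P) (aL Λ ht P) (fun q => if pl Λ ht z P q < 2 * θ then 1 else 0)
    simp only [mul_ite, mul_one, mul_zero] at h
    exact h.symm
  have e2 : ∑' A : At ht P, (if pl Λ ht z P (jz ht z P A) < 2 * θ then 0 else aL Λ ht P A)
      + ∑' A : At ht P, (if pl Λ ht z P (jz ht z P A) < 2 * θ then aL Λ ht P A else 0) = 1 := by
    rw [← ENNReal.tsum_add, ← sum_at Λ ht h1 hΛ P]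
    refine tsum_congr fun A => ?_
    split_ifs <;> simp
  rw [← e1] at e2
  refine ENNReal.le_sub_of_add_le_right ?_ ?_
  · refine ne_top_of_le_ne_top ENNReal.one_ne_top (hu.trans ?_)
    rw [← e2]; exact le_add_self
  · rw [← e2]
    exact add_le_add le_rfl hu

open Classical in
lemma nonloc (P : ℕ) (θ u : ℝ≥0∞)
    (hu : (∑' q, if pl Λ ht z P q < θ then pl Λ ht z P q else 0) ≤ u) :
    ∑' A : At ht P, aL Λ ht P A * (if pl Λ ht z P (jz ht z P A) < θ then 1 else 0) ≤ u := by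
  have h := fib (jz ht z P) (aL Λ ht P) (fun q => if pl Λ ht z P q < θ then 1 else 0)
  rw [h]
  refine le_trans (le_of_eq ?_) hu
  refine tsum_congr fun q => ?_
  change pl Λ ht z P q * _ = _
  split_ifs <;> simp

/-- the local landing points of height `h` -/
noncomputable def EE (P : ℕ) (θ : ℝ≥0∞) (h : ℕ) : Set G := {x | θ ≤ pl Λ ht z P ((h : ℤ), x)}

lemma EE_card (h1 : ∀ b, 1 ≤ ht b) (hΛ : ∑' b, Λ b = 1) (P : ℕ) {θ : ℝ≥0∞} (hθ : θ ≠ 0) (h : ℕ) :
    ∃ E : Finset G, (∀ x, x ∈ E ↔ θ ≤ pl Λ ht z P ((h : ℤ), x)) ∧ θ * E.card ≤ 1 := by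
  classical
  have hs : ∑' x : G, pl Λ ht z P ((h : ℤ), x) ≤ 1 := by
    rw [← pl_sum Λ ht z h1 hΛ P]
    exact ENNReal.tsum_comp_le_tsum_of_injective
      (f := fun x : G => (((h : ℤ), x) : ℤ × G)) (fun x y hxy => by simpa using hxy) _
  obtain ⟨hf, hc⟩ := card_le (fun x : G => pl Λ ht z P ((h : ℤ), x)) hs hθ
  refine ⟨hf.toFinset, fun x => by simp, ?_⟩
  rw [Set.ncard_eq_toFinset_card _ hf] at hc
  rw [mul_comm]; exact hc

end Crest.Agent.R154.AsmD789
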