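import Crest.Agent.R154.AsmC_790

/-! Row 154, ROAD 801 (helper790): abstract assembly, part D: traces and the weight of a window. -/

set_option autoImplicit false

namespace Crest.Agent.R154.Asm790

open scoped ENNReal
open Crest.Agent.R154.B5A

section trace

variable {B G : Type*} [AddCommGroup G]

/-- lateral displacement of a list -/
def Dp (z : B → G) (L : List B) : G := (L.map z).sum

/-- trace (position, depth) of a list of blocks put at `(x, a)` -/
def TX (h : B → ℕ) (z : B → G) (sX : B → Set (G × ℕ)) : List B → G → ℕ → Set (G × ℕ)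
  | [], _, _ => ∅
  | b :: L, x, a => {p | ∃ q ∈ sX b, p = (x + q.1, a + q.2)} ∪ TX h z sX L (x + z b) (a + h b)

variable (h : B → ℕ) (z : B → G) (sX : B → Set (G × ℕ))

lemma Dp_append (L L' : List B) : Dp z (L ++ L') = Dp z L + Dp z L' := by simp [Dp]

lemma TX_append (L L' : List B) (x : G) (a : ℕ) :
    TX h z sX (L ++ L') x a = TX h z sX L x a ∪ TX h z sX L' (x + Dp z L) (a + HT h L) := by
  induction L generalizing x a with
  | nil => simp [TX, Dp, HT_nil]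
  | cons b L ih =>
    simp only [List.cons_append, TX]
    rw [ih, Set.union_assoc, HT_cons]
    congr 3
    · simp only [Dp, List.map_cons, List.sum_cons]; abel
    · ring

lemma TX_depth (hs : ∀ b q, q ∈ sX b → 1 ≤ q.2 ∧ q.2 ≤ h b) (L : List B) (x : G) (a : ℕ)
    (q : G × ℕ) (hq : q ∈ TX h z sX L x a) : a + 1 ≤ q.2 ∧ q.2 ≤ a + HT h L := by
  induction L generalizing x a with
  | nil => simp [TX] at hq
  | cons b L ih =>
    rw [HT_cons]
    rcases hq with ⟨q', hq', rfl⟩ | hq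
    · have := hs b q' hq'; simp only; omega
    · have := ih _ _ hq; omega

lemma TX_shift (L : List B) (x c : G) (a : ℕ) (y : G) (k : ℕ) :
    (y, k) ∈ TX h z sX L (x + c) a ↔ (y - c, k) ∈ TX h z sX L x a := by
  induction L generalizing x a with
  | nil => simp [TX]
  | cons b L ih =>
    simp only [TX, Set.mem_union, Set.mem_ofPred_eq]
    rw [show x + c + z b = (x + z b) + c by abel, ih]
    refine or_congr_left ⟨?_, ?_⟩
    · rintro ⟨q, hq, e⟩
      refine ⟨q, hq, ?_⟩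
      rw [Prod.mk.injEq] at e ⊢
      exact ⟨by rw [e.1]; abel, e.2⟩
    · rintro ⟨q, hq, e⟩
      refine ⟨q, hq, ?_⟩
      rw [Prod.mk.injEq] at e ⊢
      exact ⟨by rw [← sub_add_cancel y c, e.1]; abel, e.2⟩

end trace

section win

variable {BX BY G : Type*} [AddCommGroup G]
variable (ΛX : BX → ℝ≥0∞) (ΛY : BY → ℝ≥0∞) (hX : BX → ℕ) (hY : BY → ℕ) (zX : BX → G) (zY : BY → G)
  (sX : BX → Set (G × ℕ)) (sY : BY → Set (G × ℕ))

/-- some contact, and all contacts in `[lo, hi]` -/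
def Cc (lo hi : ℕ) (L : List BX) (L' : List BY) (x : G) (a a' : ℕ) : Prop :=
  (∃ z k, (z, k) ∈ TX hX zX sX L 0 a ∧ (z, k) ∈ TX hY zY sY L' x a') ∧
  (∀ z k, (z, k) ∈ TX hX zX sX L 0 a → (z, k) ∈ TX hY zY sY L' x a' → lo ≤ k ∧ k ≤ hi)

open Classical in
/-- **window lemma** (input): `sel` = locality of one of the two pieces -/
def Hloc (sel : List BX → List BY → Finset G → Prop) (C : ℝ≥0∞) (us : ℕ → ℕ → ℝ≥0∞) : Prop :=
  ∀ (i s h h' a a' lo hi : ℕ) (E : Finset G) (μ : G → ℝ≥0∞) (M lam : ℝ≥0∞),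
    ∑' x, μ x ≤ 1 → (∀ x, μ x ≤ M) → lam ≠ 0 → lam ≠ ⊤ →
    a ≤ a' + i → a' ≤ a + i → a + h ≤ a' + h' + i → a' + h' ≤ a + h + i →
    a + s ≤ lo → a' + s ≤ lo → hi + s ≤ a + h → hi + s ≤ a' + h' →
    ∑' x, μ x * ∑' L, ∑' L', (if HT hX L = h ∧ sel L L' E ∧ HT hY L' = h' ∧
      Cc hX hY zX zY sX sY lo hi L L' x a a' then LW ΛX L * LW ΛY L' else 0)
      ≤ C * (lam + M * E.card * us i s / lam + us i s)

open Classical in
/-- local part of a window for fixed tops -/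
noncomputable def Psi (τ i0 lo hi : ℕ) (loc : List BX → List BY → Prop) (a a' : ℕ) (y : G) :
    ℝ≥0∞ :=
  ∑' P, La ΛX hX τ i0 P * ∑' P', La ΛY hY τ i0 P' *
    (if loc P P' ∧ Cc hX hY zX zY sX sY lo hi P P' y a a' then 1 else 0)

open Classical in
lemma psi_le (sel : List BX → List BY → Finset G → Prop) (C : ℝ≥0∞) (us : ℕ → ℕ → ℝ≥0∞)
    (H : Hloc ΛX ΛY hX hY zX zY sX sY sel C us)
    (τ i0 j i s : ℕ) (hi0 : (j + 1) * i0 ≤ i) (hτ : s + 1 ≤ τ)
    (loc : List BX → List BY → Prop) (E : ℕ → ℕ → Finset G)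
    (hE : ∀ P P', loc P P' → sel P P' (E (HT hX P) (HT hY P')))
    (M cst lam : ℝ≥0∞) (hcard : ∀ h h', M * (E h h').card ≤ cst) (hl0 : lam ≠ 0) (hl1 : lam ≠ ⊤)
    (a a' : ℕ) (ha : j * τ ≤ a ∧ a ≤ j * τ + j * i0) (ha' : j * τ ≤ a' ∧ a' ≤ j * τ + j * i0)
    (μ : G → ℝ≥0∞) (hμ : ∑' y, μ y ≤ 1) (hM : ∀ y, μ y ≤ M) :
    ∑' y, μ y * Psi ΛX ΛY hX hY zX zY sX sY τ i0 (j * τ + i + s) ((j + 1) * τ - s - 1) loc a a' y
      ≤ (i0 + 1 : ℕ) * ((i0 + 1 : ℕ) * (C * (lam + cst * us i s / lam + us i s))) := by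
  set lo := j * τ + i + s with hlo
  set hi := (j + 1) * τ - s - 1 with hhi
  have h1 : ∀ y, Psi ΛX ΛY hX hY zX zY sX sY τ i0 lo hi loc a a' y
      ≤ ∑ h ∈ Finset.Icc τ (τ + i0), ∑ h' ∈ Finset.Icc τ (τ + i0), ∑' L, ∑' L',
        (if HT hX L = h ∧ sel L L' (E h h') ∧ HT hY L' = h' ∧
          Cc hX hY zX zY sX sY lo hi L L' y a a' then LW ΛX L * LW ΛY L' else 0) := by
    intro y
    rw [Psi]
    have e1 : ∑ h ∈ Finset.Icc τ (τ + i0), ∑ h' ∈ Finset.Icc τ (τ + i0), ∑' L, ∑' L',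
        (if HT hX L = h ∧ sel L L' (E h h') ∧ HT hY L' = h' ∧
          Cc hX hY zX zY sX sY lo hi L L' y a a' then LW ΛX L * LW ΛY L' else 0)
        = ∑' L, ∑' L', ∑ h ∈ Finset.Icc τ (τ + i0), ∑ h' ∈ Finset.Icc τ (τ + i0),
          (if HT hX L = h ∧ sel L L' (E h h') ∧ HT hY L' = h' ∧
          Cc hX hY zX zY sX sY lo hi L L' y a a' then LW ΛX L * LW ΛY L' else 0) := by
      simp_rw [← Summable.tsum_finsetSum (fun _ _ => ENNReal.summable)]
    rw [e1]
    refine ENNReal.tsum_le_tsum fun P => ?_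
    rw [← ENNReal.tsum_mul_left]
    refine ENNReal.tsum_le_tsum fun P' => ?_
    by_cases hP : La ΛX hX τ i0 P = 0
    · simp [hP]
    by_cases hP' : La ΛY hY τ i0 P' = 0
    · simp [hP']
    by_cases hc : loc P P' ∧ Cc hX hY zX zY sX sY lo hi P P' y a a'
    · obtain ⟨hf, hh⟩ := La_ne ΛX hX τ i0 P hP
      obtain ⟨hf', hh'⟩ := La_ne ΛY hY τ i0 P' hP'
      have g1 : HT hX P ∈ Finset.Icc τ (τ + i0) := Finset.mem_Icc.2 ⟨FP_le hX P τ hf, hh⟩
      have g2 : HT hY P' ∈ Finset.Icc τ (τ + i0) := Finset.mem_Icc.2 ⟨FP_le hY P' τ hf', hh'⟩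
      refine le_trans ?_ (Finset.single_le_sum (f := fun h => ∑ h' ∈ Finset.Icc τ (τ + i0),
          (if HT hX P = h ∧ sel P P' (E h h') ∧ HT hY P' = h' ∧
          Cc hX hY zX zY sX sY lo hi P P' y a a' then LW ΛX P * LW ΛY P' else 0))
          (fun _ _ => zero_le) g1)
      refine le_trans ?_ (Finset.single_le_sum (f := fun h' =>
          (if HT hX P = HT hX P ∧ sel P P' (E (HT hX P) h') ∧ HT hY P' = h' ∧
          Cc hX hY zX zY sX sY lo hi P P' y a a' then LW ΛX P * LW ΛY P' else 0))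
          (fun _ _ => zero_le) g2)
      simp only
      rw [if_pos hc, if_pos ⟨trivial, hE P P' hc.1, trivial, hc.2⟩, La, if_pos ⟨hf, hh⟩, La,
        if_pos ⟨hf', hh'⟩, mul_one]
    · rw [if_neg hc]; simp
  calc ∑' y, μ y * Psi ΛX ΛY hX hY zX zY sX sY τ i0 lo hi loc a a' y
      ≤ ∑' y, μ y * ∑ h ∈ Finset.Icc τ (τ + i0), ∑ h' ∈ Finset.Icc τ (τ + i0), ∑' L, ∑' L',
        (if HT hX L = h ∧ sel L L' (E h h') ∧ HT hY L' = h' ∧
          Cc hX hY zX zY sX sY lo hi L L' y a a' then LW ΛX L * LW ΛY L' else 0) :=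
        ENNReal.tsum_le_tsum fun y => mul_le_mul_right (h1 y) _
    _ = ∑ h ∈ Finset.Icc τ (τ + i0), ∑ h' ∈ Finset.Icc τ (τ + i0), ∑' y, μ y * ∑' L, ∑' L',
        (if HT hX L = h ∧ sel L L' (E h h') ∧ HT hY L' = h' ∧
          Cc hX hY zX zY sX sY lo hi L L' y a a' then LW ΛX L * LW ΛY L' else 0) := by
        simp_rw [Finset.mul_sum]
        rw [Summable.tsum_finsetSum (fun _ _ => ENNReal.summable)]
        refine Finset.sum_congr rfl fun h _ => ?_
        rw [Summable.tsum_finsetSum (fun _ _ => ENNReal.summable)]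
    _ ≤ ∑ h ∈ Finset.Icc τ (τ + i0), ∑ h' ∈ Finset.Icc τ (τ + i0),
        (C * (lam + cst * us i s / lam + us i s)) := by
        refine Finset.sum_le_sum fun h hh => Finset.sum_le_sum fun h' hh' => ?_
        have q1 := Finset.mem_Icc.1 hh
        have q2 := Finset.mem_Icc.1 hh'
        have e2 : (j + 1) * τ = j * τ + τ := by ring
        have e3 : (j + 1) * i0 = j * i0 + i0 := by ring
        refine (H i s h h' a a' lo hi (E h h') μ M lam hμ hM hl0 hl1 (by omega) (by omega)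
          (by omega) (by omega) (by omega) (by omega) (by omega) (by omega)).trans ?_
        gcongr
        exact hcard h h'
    _ = _ := by
        rw [Finset.sum_const, Finset.sum_const, Nat.card_Icc,
          show τ + i0 + 1 - τ = i0 + 1 by omega]
        simp only [nsmul_eq_mul]

end win

end Crest.Agent.R154.Asm790
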