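import Crest.Agent.R154.AsmC_834

/-! Row 154, T0219, ROAD 801 (helper834, hedge of 540's assembly): the window bound. -/

set_option autoImplicit false

namespace Crest.Agent.R154.Asm834

open scoped ENNReal
open Crest.Agent.R154.B5A
open Crest.Agent.R154.Ren480 (Stp AT DS e1)

variable {BX BY G : Type*} [AddCommGroup G]
  (ΛX : BX → ℝ≥0∞) (ΛY : BY → ℝ≥0∞) (hX : BX → ℕ) (hY : BY → ℕ) (zX : BX → G) (zY : BY → G)
  (sX : BX → Set (G × ℕ)) (sY : BY → Set (G × ℕ))

/-- 540's (H2): X local -/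
def H2 (C : ℝ≥0∞) (us : ℕ → ℝ≥0∞) : Prop :=
  ∀ (s h h' a a' lo : ℕ) (E : Finset G) (μ : G → ℝ≥0∞) (M lam : ℝ≥0∞), ∑' x, μ x ≤ 1 →
    (∀ x, μ x ≤ M) → lam ≠ 0 → lam ≠ ⊤ → a + s ≤ lo → a' + s ≤ lo →
    ∑' x, μ x * ∑' L, ∑' L', chi (HT hX L = h ∧ DS zX L ∈ E ∧ HT hY L' = h' ∧
      (∃ z k, (z, k) ∈ TR hX zX sX L 0 a ∧ (z, k) ∈ TR hY zY sY L' x a') ∧
      (∀ z k, (z, k) ∈ TR hX zX sX L 0 a → (z, k) ∈ TR hY zY sY L' x a' → lo ≤ k)) *
        (LW ΛX L * LW ΛY L') ≤ C * (lam + M * E.card * us s / lam + us s)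

/-- 540's (H3): Y local -/
def H3 (C : ℝ≥0∞) (us : ℕ → ℝ≥0∞) : Prop :=
  ∀ (s h h' a a' hi : ℕ) (E : Finset G) (μ : G → ℝ≥0∞) (M lam : ℝ≥0∞), ∑' x, μ x ≤ 1 →
    (∀ x, μ x ≤ M) → lam ≠ 0 → lam ≠ ⊤ → hi + s ≤ a + h → hi + s ≤ a' + h' →
    ∑' x, μ x * ∑' L, ∑' L', chi (HT hX L = h ∧ DS zY L' ∈ E ∧ HT hY L' = h' ∧
      (∃ z k, (z, k) ∈ TR hX zX sX L 0 a ∧ (z, k) ∈ TR hY zY sY L' x a') ∧
      (∀ z k, (z, k) ∈ TR hX zX sX L 0 a → (z, k) ∈ TR hY zY sY L' x a' → k ≤ hi)) *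
        (LW ΛX L * LW ΛY L') ≤ C * (lam + M * E.card * us s / lam + us s)

/-- local in X -/
def locX (T i0 lo hi c c' : ℕ) (E : Finset (ℕ × G)) (x : G) (P : List BX) (P' : List BY) : Prop :=
  (HT hX P - T, DS zX P) ∈ E ∧ HT hX P ≤ T + i0 ∧ HT hY P' ≤ T + i0 ∧
    CC hX hY zX zY sX sY lo hi c c' x P P'

/-- local in Y -/
def locY (T i0 lo hi c c' : ℕ) (E : Finset (ℕ × G)) (x : G) (P : List BX) (P' : List BY) : Prop :=
  (HT hY P' - T, DS zY P') ∈ E ∧ HT hX P ≤ T + i0 ∧ HT hY P' ≤ T + i0 ∧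
    CC hX hY zX zY sX sY lo hi c c' x P P'

/-- section of `E` -/
noncomputable def secE (E : Finset (ℕ × G)) (i : ℕ) : Finset G := by
  classical exact (E.filter (fun p => p.1 = i)).image Prod.snd

lemma mem_secE (E : Finset (ℕ × G)) (i : ℕ) (x : G) : x ∈ secE E i ↔ (i, x) ∈ E := by
  classical
  simp only [secE, Finset.mem_image, Finset.mem_filter, Prod.exists, exists_and_right,
    exists_eq_right]

lemma card_secE (E : Finset (ℕ × G)) (i : ℕ) : ((secE E i).card : ℝ≥0∞) ≤ E.card := by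
  classical
  have : (secE E i).card ≤ E.card := by
    unfold secE
    exact Finset.card_image_le.trans (Finset.card_filter_le _ _)
  exact_mod_cast this

lemma sum_pairs (S : Finset (ℕ × ℕ)) (J : ℕ × ℕ → List BX → List BY → ℝ≥0∞) :
    ∑' P, ∑' P', ∑ p ∈ S, J p P P' = ∑ p ∈ S, ∑' P, ∑' P', J p P P' := by
  rw [← Summable.tsum_finsetSum (fun _ _ => ENNReal.summable)]
  refine tsum_congr fun P => ?_
  rw [← Summable.tsum_finsetSum (fun _ _ => ENNReal.summable)]

/-- local X: sum over the pieces -/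
lemma locX_sum (C : ℝ≥0∞) (us : ℕ → ℝ≥0∞) (h2 : H2 ΛX ΛY hX hY zX zY sX sY C us)
    (T i0 lo hi c c' s : ℕ) (E : Finset (ℕ × G)) (μ : G → ℝ≥0∞) (M lam : ℝ≥0∞)
    (hμ : ∑' x, μ x ≤ 1) (hM : ∀ x, μ x ≤ M) (hl : lam ≠ 0) (hl' : lam ≠ ⊤)
    (h3 : c + s ≤ lo) (h4 : c' + s ≤ lo) :
    ∑' x, μ x * I (wP ΛX hX T) (fun P => I (wP ΛY hY T) (fun P' =>
      chi (locX hX hY zX zY sX sY T i0 lo hi c c' E x P P'))) ≤
      ((i0 + 1 : ℕ) : ℝ≥0∞) ^ 2 * (C * (lam + M * E.card * us s / lam + us s)) := by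
  set S := Finset.range (i0 + 1) ×ˢ Finset.range (i0 + 1) with hS
  set J : G → ℕ × ℕ → List BX → List BY → ℝ≥0∞ := fun x p L L' =>
    chi (HT hX L = T + p.1 ∧ DS zX L ∈ secE E p.1 ∧ HT hY L' = T + p.2 ∧
      (∃ z k, (z, k) ∈ TR hX zX sX L 0 c ∧ (z, k) ∈ TR hY zY sY L' x c') ∧
      (∀ z k, (z, k) ∈ TR hX zX sX L 0 c → (z, k) ∈ TR hY zY sY L' x c' → lo ≤ k)) *
        (LW ΛX L * LW ΛY L') with hJ
  have e1 : ∀ x, I (wP ΛX hX T) (fun P => I (wP ΛY hY T) (fun P' =>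
      chi (locX hX hY zX zY sX sY T i0 lo hi c c' E x P P'))) ≤ ∑ p ∈ S, ∑' P, ∑' P', J x p P P' := by
    intro x
    rw [← sum_pairs]
    refine ENNReal.tsum_le_tsum fun P => ?_
    simp only [I]
    rw [← ENNReal.tsum_mul_left]
    refine ENNReal.tsum_le_tsum fun P' => ?_
    by_cases hP : FP hX P T
    · by_cases hP' : FP hY P' T
      · by_cases hl : locX hX hY zX zY sX sY T i0 lo hi c c' E x P P'
        · have f1 := FP_le hX P T hP
          have f2 := FP_le hY P' T hP'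
          have hl0 := hl
          obtain ⟨g1, g2, g3, g4, g5⟩ := hl
          have hmem : (HT hX P - T, HT hY P' - T) ∈ S := by
            rw [hS, Finset.mem_product]
            simp only [Finset.mem_range]
            omega
          refine le_trans ?_ (Finset.single_le_sum (f := fun p => J x p P P')
            (fun _ _ => zero_le) hmem)
          simp only [hJ, wP]
          rw [chi_pos hP, chi_pos hP', chi_pos hl0, chi_pos]
          · simp
          · refine ⟨by omega, ?_, by omega, g4, fun z k hz hk => (g5 z k hz hk).1⟩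
            rw [mem_secE]
            exact g1
        · rw [chi_neg hl]; simp
      · simp [wP, chi_neg hP']
    · simp [wP, chi_neg hP]
  calc _ ≤ ∑' x, μ x * ∑ p ∈ S, ∑' P, ∑' P', J x p P P' :=
        ENNReal.tsum_le_tsum fun x => mul_le_mul_right (e1 x) _
    _ = ∑ p ∈ S, ∑' x, μ x * ∑' P, ∑' P', J x p P P' := by
        rw [← Summable.tsum_finsetSum (fun _ _ => ENNReal.summable)]
        exact tsum_congr fun x => Finset.mul_sum _ _ _
    _ ≤ ∑ p ∈ S, C * (lam + M * E.card * us s / lam + us s) := by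
        refine Finset.sum_le_sum fun p _ => ?_
        refine (h2 s (T + p.1) (T + p.2) c c' lo (secE E p.1) μ M lam hμ hM hl hl' h3 h4).trans ?_
        have := card_secE E p.1
        gcongr
    _ = _ := by
        rw [Finset.sum_const, nsmul_eq_mul, hS, Finset.card_product, Finset.card_range]
        push_cast
        ring

/-- local Y: sum over the pieces -/
lemma locY_sum (C : ℝ≥0∞) (us : ℕ → ℝ≥0∞) (h2 : H3 ΛX ΛY hX hY zX zY sX sY C us)
    (T i0 lo hi c c' s : ℕ) (E : Finset (ℕ × G)) (μ : G → ℝ≥0∞) (M lam : ℝ≥0∞)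
    (hμ : ∑' x, μ x ≤ 1) (hM : ∀ x, μ x ≤ M) (hl : lam ≠ 0) (hl' : lam ≠ ⊤)
    (h3 : hi + s ≤ c + T) (h4 : hi + s ≤ c' + T) :
    ∑' x, μ x * I (wP ΛX hX T) (fun P => I (wP ΛY hY T) (fun P' =>
      chi (locY hX hY zX zY sX sY T i0 lo hi c c' E x P P'))) ≤
      ((i0 + 1 : ℕ) : ℝ≥0∞) ^ 2 * (C * (lam + M * E.card * us s / lam + us s)) := by
  set S := Finset.range (i0 + 1) ×ˢ Finset.range (i0 + 1) with hS
  set J : G → ℕ × ℕ → List BX → List BY → ℝ≥0∞ := fun x p L L' =>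
    chi (HT hX L = T + p.1 ∧ DS zY L' ∈ secE E p.2 ∧ HT hY L' = T + p.2 ∧
      (∃ z k, (z, k) ∈ TR hX zX sX L 0 c ∧ (z, k) ∈ TR hY zY sY L' x c') ∧
      (∀ z k, (z, k) ∈ TR hX zX sX L 0 c → (z, k) ∈ TR hY zY sY L' x c' → k ≤ hi)) *
        (LW ΛX L * LW ΛY L') with hJ
  have e1 : ∀ x, I (wP ΛX hX T) (fun P => I (wP ΛY hY T) (fun P' =>
      chi (locY hX hY zX zY sX sY T i0 lo hi c c' E x P P'))) ≤ ∑ p ∈ S, ∑' P, ∑' P', J x p P P' := by
    intro x
    rw [← sum_pairs]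
    refine ENNReal.tsum_le_tsum fun P => ?_
    simp only [I]
    rw [← ENNReal.tsum_mul_left]
    refine ENNReal.tsum_le_tsum fun P' => ?_
    by_cases hP : FP hX P T
    · by_cases hP' : FP hY P' T
      · by_cases hl : locY hX hY zX zY sX sY T i0 lo hi c c' E x P P'
        · have f1 := FP_le hX P T hP
          have f2 := FP_le hY P' T hP'
          have hl0 := hl
          obtain ⟨g1, g2, g3, g4, g5⟩ := hl
          have hmem : (HT hX P - T, HT hY P' - T) ∈ S := by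
            rw [hS, Finset.mem_product]
            simp only [Finset.mem_range]
            omega
          refine le_trans ?_ (Finset.single_le_sum (f := fun p => J x p P P')
            (fun _ _ => zero_le) hmem)
          simp only [hJ, wP]
          rw [chi_pos hP, chi_pos hP', chi_pos hl0, chi_pos]
          · simp
          · refine ⟨by omega, ?_, by omega, g4, fun z k hz hk => (g5 z k hz hk).2⟩
            rw [mem_secE]
            exact g1
        · rw [chi_neg hl]; simp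
      · simp [wP, chi_neg hP']
    · simp [wP, chi_neg hP]
  calc _ ≤ ∑' x, μ x * ∑ p ∈ S, ∑' P, ∑' P', J x p P P' :=
        ENNReal.tsum_le_tsum fun x => mul_le_mul_right (e1 x) _
    _ = ∑ p ∈ S, ∑' x, μ x * ∑' P, ∑' P', J x p P P' := by
        rw [← Summable.tsum_finsetSum (fun _ _ => ENNReal.summable)]
        exact tsum_congr fun x => Finset.mul_sum _ _ _
    _ ≤ ∑ p ∈ S, C * (lam + M * E.card * us s / lam + us s) := by
        refine Finset.sum_le_sum fun p _ => ?_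
        refine (h2 s (T + p.1) (T + p.2) c c' hi (secE E p.2) μ M lam hμ hM hl hl'
          (by omega) (by omega)).trans ?_
        have := card_secE E p.2
        gcongr
    _ = _ := by
        rw [Finset.sum_const, nsmul_eq_mul, hS, Finset.card_product, Finset.card_range]
        push_cast
        ring

end Crest.Agent.R154.Asm834
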