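import Crest.Agent.R154.B5Rec_566

/-! Row 154, road 801 (helper850): density of the convolution powers of one piece law. -/

set_option autoImplicit false

namespace Crest.Agent.R154.Asm850

open scoped ENNReal
open Crest.Agent.R154.B5A

section Dens

variable {A Γ : Type*} [AddCommGroup Γ] (Λ : A → ℝ≥0∞) (v : A → Γ)

/-- law of the sum of `j` pieces -/
noncomputable def Pj : ℕ → Γ → ℝ≥0∞
  | 0, γ => by classical exact if γ = 0 then 1 else 0
  | j + 1, γ => ∑' a, Λ a * Pj j (γ - v a)

open Classical in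
/-- law of one piece -/
noncomputable def law (γ : Γ) : ℝ≥0∞ := ∑' a, if v a = γ then Λ a else 0

lemma Pj_sum (hΛ : ∑' a, Λ a ≤ 1) (j : ℕ) : ∑' γ, Pj Λ v j γ ≤ 1 := by
  classical
  induction j with
  | zero => simp [Pj]
  | succ j ih =>
    simp only [Pj]
    rw [ENNReal.tsum_comm]
    calc ∑' a, ∑' γ, Λ a * Pj Λ v j (γ - v a) = ∑' a, Λ a * ∑' γ, Pj Λ v j γ := by
          refine tsum_congr fun a => ?_
          rw [ENNReal.tsum_mul_left]
          congr 1
          exact (Equiv.subRight (v a)).tsum_eq (fun γ => Pj Λ v j γ)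
      _ ≤ ∑' a, Λ a * 1 := ENNReal.tsum_le_tsum fun a => mul_le_mul_right ih _
      _ ≤ 1 := by simpa using hΛ

open Classical in
lemma law_fiber (f : Γ → ℝ≥0∞) : ∑' a, Λ a * f (v a) = ∑' γ, law Λ v γ * f γ := by
  simp only [law]
  simp_rw [← ENNReal.tsum_mul_right]
  rw [ENNReal.tsum_comm]
  refine tsum_congr fun a => ?_
  rw [tsum_eq_single (v a)]
  · simp
  · intro γ hγ; simp [hγ.symm]

open Classical in
theorem dens (hΛ : ∑' a, Λ a ≤ 1) (th q G0 : ℝ≥0∞)
    (hq : ∑' a, (if th < law Λ v (v a) then Λ a else 0) ≤ q) (hG : th + q * G0 ≤ G0) (j : ℕ) :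
    ∃ b : Γ → ℝ≥0∞, ∑' γ, b γ ≤ q ^ j ∧ ∀ γ, Pj Λ v j γ ≤ G0 + b γ := by
  induction j with
  | zero =>
    refine ⟨Pj Λ v 0, ?_, fun γ => le_add_left le_rfl⟩
    simpa using Pj_sum Λ v hΛ 0
  | succ j ih =>
    obtain ⟨b, hb, hle⟩ := ih
    refine ⟨fun γ => ∑' a, (if th < law Λ v (v a) then Λ a else 0) * b (γ - v a), ?_, fun γ => ?_⟩
    · rw [ENNReal.tsum_comm]
      calc ∑' a, ∑' γ, (if th < law Λ v (v a) then Λ a else 0) * b (γ - v a)
          = ∑' a, (if th < law Λ v (v a) then Λ a else 0) * ∑' γ, b γ := by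
            refine tsum_congr fun a => ?_
            rw [ENNReal.tsum_mul_left]
            congr 1
            exact (Equiv.subRight (v a)).tsum_eq (fun γ => b γ)
        _ = (∑' a, (if th < law Λ v (v a) then Λ a else 0)) * ∑' γ, b γ := ENNReal.tsum_mul_right
        _ ≤ q * q ^ j := mul_le_mul' hq hb
        _ = q ^ (j + 1) := by rw [pow_succ, mul_comm]
    · have hsplit : Pj Λ v (j + 1) γ ≤
          (∑' a, Λ a * (if law Λ v (v a) ≤ th then Pj Λ v j (γ - v a) else 0)) +
          ∑' a, (if th < law Λ v (v a) then Λ a else 0) * Pj Λ v j (γ - v a) := by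
        rw [← ENNReal.tsum_add]
        refine ENNReal.tsum_le_tsum fun a => ?_
        by_cases h : law Λ v (v a) ≤ th
        · simp [h, not_lt.2 h]
        · simp [h, not_le.1 h]
      have h1 : (∑' a, Λ a * (if law Λ v (v a) ≤ th then Pj Λ v j (γ - v a) else 0)) ≤ th := by
        rw [law_fiber Λ v (fun γ' => if law Λ v γ' ≤ th then Pj Λ v j (γ - γ') else 0)]
        calc _ ≤ ∑' γ', th * Pj Λ v j (γ - γ') := by
              refine ENNReal.tsum_le_tsum fun γ' => ?_
              by_cases h : law Λ v γ' ≤ th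
              · rw [if_pos h]; exact mul_le_mul_left h _
              · simp [h]
          _ = th * ∑' γ', Pj Λ v j γ' := by
              rw [ENNReal.tsum_mul_left]
              congr 1
              exact (Equiv.subLeft γ).tsum_eq (fun γ' => Pj Λ v j γ')
          _ ≤ th * 1 := mul_le_mul_right (Pj_sum Λ v hΛ j) _
          _ = th := mul_one _
      have h2 : (∑' a, (if th < law Λ v (v a) then Λ a else 0) * Pj Λ v j (γ - v a)) ≤
          q * G0 + ∑' a, (if th < law Λ v (v a) then Λ a else 0) * b (γ - v a) := by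
        calc _ ≤ ∑' a, ((if th < law Λ v (v a) then Λ a else 0) * G0 +
              (if th < law Λ v (v a) then Λ a else 0) * b (γ - v a)) := by
              refine ENNReal.tsum_le_tsum fun a => ?_
              rw [← mul_add]
              exact mul_le_mul_right (hle _) _
          _ = (∑' a, (if th < law Λ v (v a) then Λ a else 0)) * G0 + _ := by
              rw [ENNReal.tsum_add, ENNReal.tsum_mul_right]
          _ ≤ _ := add_le_add_left (mul_le_mul_left hq _) _
      calc Pj Λ v (j + 1) γ ≤ th + (q * G0 + _) := hsplit.trans (add_le_add h1 h2)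
        _ ≤ G0 + _ := by rw [← add_assoc]; exact add_le_add_left hG _

end Dens

end Crest.Agent.R154.Asm850
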