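import Crest.Agent.R154.AsmC_857

/-! Row 154, ROAD 801 (helper857): the bound of one window, assembled. -/

set_option autoImplicit false

namespace Crest.Agent.R154.Asm857

open Crest.Agent.R154.B5A
open scoped ENNReal Topology

noncomputable section

open Classical

section one

variable {B G : Type*} [AddCommGroup G] (Λ : B → ℝ≥0∞) (ht : B → ℕ) (zz : B → G)

theorem coreA (h1 : ∀ b, 1 ≤ ht b) (hΛ : ∑' b, Λ b = 1) (α i0 : ℕ) (b : ℕ × G → ℝ≥0∞)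
    (Gc δ S : ℝ≥0∞) (hfb : ∀ x, pp Λ ht zz α x ≤ Gc + b x) (hb : ∑' x, b x ≤ δ)
    (Φ : ℕ → G → ℝ≥0∞) (hΦ : ∀ i x, Φ i x ≤ 1) (e : G ≃ G)
    (hS : ∀ i, i ≤ i0 → ∀ μ : G → ℝ≥0∞, ∑' x, μ x ≤ 1 → (∀ x, μ x ≤ Gc) →
      ∑' x, μ x * Φ (α + i) x ≤ S) :
    ∑' A, gw Λ ht α i0 A * Φ (HT ht A) (e (Dp zz A)) ≤ δ + ((i0 + 1 : ℕ) : ℝ≥0∞) * S := by
  have e1 : ∑' A, gw Λ ht α i0 A * Φ (HT ht A) (e (Dp zz A))
      = ∑' y : ℕ × G, (if y.1 ≤ i0 then pp Λ ht zz α y * Φ (α + y.1) (e y.2) else 0) := by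
    calc _ = ∑' A, (if FP ht α A then LW Λ A * (if HT ht A - α ≤ i0 then
          Φ (α + (HT ht A - α)) (e (Dp zz A)) else 0) else 0) := by
          refine tsum_congr fun A => ?_
          unfold gw
          by_cases h : FP ht α A
          · have h2 := le_of_FP ht A α h
            by_cases h3 : HT ht A ≤ α + i0
            · rw [if_pos ⟨h, h3⟩, if_pos h, if_pos (by omega),
                show α + (HT ht A - α) = HT ht A by omega]
            · rw [if_neg (fun h' => h3 h'.2), if_pos h, if_neg (by omega), zero_mul, mul_zero]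
          · rw [if_neg (fun h' => h h'.1), if_neg h, zero_mul]
      _ = ∑' y : ℕ × G, pp Λ ht zz α y * (if y.1 ≤ i0 then Φ (α + y.1) (e y.2) else 0) :=
          (fiber Λ ht zz α (fun y => if y.1 ≤ i0 then Φ (α + y.1) (e y.2) else 0)).symm
      _ = _ := by
          refine tsum_congr fun y => ?_
          split_ifs <;> simp
  rw [e1]
  exact core1 (pp Λ ht zz α) b Gc δ S i0 hfb hb (pp_total Λ ht zz h1 hΛ α).le
    (fun i x => Φ (α + i) x) (fun i x => hΦ _ _) e hS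

lemma nonloc (τ i0 : ℕ) (th u : ℝ≥0∞)
    (hu : ∑' x, (if pp Λ ht zz τ x < th then pp Λ ht zz τ x else 0) ≤ u) :
    ∑' P, (if Loc Λ ht zz τ th P then 0 else gw Λ ht τ i0 P) ≤ u := by
  refine le_trans ?_ hu
  calc _ ≤ ∑' P, (if FP ht τ P then LW Λ P * (if pp Λ ht zz τ (HT ht P - τ, Dp zz P) < th
        then 1 else 0) else 0) := by
        refine ENNReal.tsum_le_tsum fun P => ?_
        by_cases h : Loc Λ ht zz τ th P
        · rw [if_pos h]; exact zero_le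
        · rw [if_neg h]
          unfold Loc at h
          rw [if_pos (not_le.1 h), mul_one]
          unfold gw
          by_cases h2 : FP ht τ P
          · rw [if_pos h2]; split_ifs <;> simp
          · rw [if_neg (fun h' => h2 h'.1)]; exact zero_le
    _ = ∑' x : ℕ × G, pp Λ ht zz τ x * (if pp Λ ht zz τ x < th then 1 else 0) :=
        (fiber Λ ht zz τ (fun x => if pp Λ ht zz τ x < th then 1 else 0)).symm
    _ ≤ _ := by
        refine ENNReal.tsum_le_tsum fun x => ?_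
        split_ifs <;> simp

end one

variable {BX BY G : Type*} [AddCommGroup G] (ΛX : BX → ℝ≥0∞) (ΛY : BY → ℝ≥0∞)
  (hX : BX → ℕ) (hY : BY → ℕ) (zX : BX → G) (zY : BY → G)
  (TX : List BX → G → ℕ → Set (G × ℕ)) (TY : List BY → G → ℕ → Set (G × ℕ))

lemma inner (τ τ' i0 : ℕ) (thX thY : ℝ≥0∞) (lo hi a a' : ℕ) (x : G) :
    ∑' P, gw ΛX hX τ i0 P * ∑' P', gw ΛY hY τ' i0 P' *
      (if Ev TX TY lo hi x a a' P P' then 1 else 0)
      ≤ (∑' P, (if Loc ΛX hX zX τ thX P then 0 else gw ΛX hX τ i0 P))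
          * (∑' P', (if Loc ΛY hY zY τ' thY P' then 0 else gw ΛY hY τ' i0 P'))
        + (Ph2 ΛX ΛY hX hY zX TX TY τ τ' i0 thX lo hi a a' x
        + Ph3 ΛX ΛY hX hY zY TX TY τ τ' i0 thY lo hi a a' x) := by
  unfold Ph2 Ph3
  rw [← ENNReal.tsum_mul_right, ← ENNReal.tsum_add, ← ENNReal.tsum_add]
  refine ENNReal.tsum_le_tsum fun P => ?_
  rw [← ENNReal.tsum_mul_left, ← ENNReal.tsum_mul_left, ← ENNReal.tsum_add, ← ENNReal.tsum_add]
  refine ENNReal.tsum_le_tsum fun P' => ?_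
  by_cases hE : Ev TX TY lo hi x a a' P P'
  · by_cases h1 : Loc ΛX hX zX τ thX P
    · simp only [hE, h1, and_self, if_true, mul_one]
      exact le_trans le_self_add le_add_self
    · by_cases h2 : Loc ΛY hY zY τ' thY P'
      · simp only [hE, h2, and_self, if_true, mul_one]
        exact le_trans le_add_self le_add_self
      · simp only [hE, h1, h2, if_true, if_false, mul_one]
        exact le_self_add
  · simp [hE]

theorem Q2b {C : ℝ≥0∞} {us : ℕ → ℝ≥0∞} (H2 : H2L ΛX ΛY hX hY zX TX TY C us)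
    (h1X : ∀ b, 1 ≤ hX b) (h1Y : ∀ b, 1 ≤ hY b) (hΛX : ∑' b, ΛX b = 1) (hΛY : ∑' b, ΛY b = 1)
    (w : G) (α α' τ τ' i0 s lo hi : ℕ) (th Gc D lam δ : ℝ≥0∞) (hth : th ≠ 0)
    (hD : ∀ (j : ℕ) (E : Finset G), (∀ z ∈ E, th ≤ pp ΛX hX zX τ (j, z)) → Gc * E.card ≤ D)
    (hlam : lam ≠ 0) (hlam' : lam ≠ ⊤)
    (b : ℕ × G → ℝ≥0∞) (hfb : ∀ x, pp ΛX hX zX α x ≤ Gc + b x) (hb : ∑' x, b x ≤ δ)
    (haa : α + i0 ≤ α') (ha' : α' + i0 + s ≤ lo) :
    ∑' A, gw ΛX hX α i0 A * ∑' A', gw ΛY hY α' i0 A' *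
      Ph2 ΛX ΛY hX hY zX TX TY τ τ' i0 th lo hi (HT hX A) (HT hY A') (w + Dp zY A' - Dp zX A)
      ≤ δ + ((i0 + 1 : ℕ) : ℝ≥0∞) * (((i0 + 1 : ℕ) : ℝ≥0∞) * (((i0 + 1 : ℕ) : ℝ≥0∞) *
        (C * (lam + D * us s / lam + us s)))) := by
  calc _ = ∑' A', gw ΛY hY α' i0 A' * ∑' A, gw ΛX hX α i0 A *
      Ph2 ΛX ΛY hX hY zX TX TY τ τ' i0 th lo hi (HT hX A) (HT hY A')
        (w + Dp zY A' - Dp zX A) := by
        simp_rw [← ENNReal.tsum_mul_left]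
        rw [ENNReal.tsum_comm]
        refine tsum_congr fun A' => tsum_congr fun A => mul_left_comm _ _ _
    _ ≤ ∑' A', gw ΛY hY α' i0 A' * (δ + ((i0 + 1 : ℕ) : ℝ≥0∞) * (((i0 + 1 : ℕ) : ℝ≥0∞) *
        (((i0 + 1 : ℕ) : ℝ≥0∞) * (C * (lam + D * us s / lam + us s))))) := by
        refine ENNReal.tsum_le_tsum fun A' => ?_
        by_cases hg : α' ≤ HT hY A' ∧ HT hY A' ≤ α' + i0
        · refine mul_le_mul_right ?_ _
          exact coreA ΛX hX zX h1X hΛX α i0 b Gc δ _ hfb hb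
            (fun a x => Ph2 ΛX ΛY hX hY zX TX TY τ τ' i0 th lo hi a (HT hY A') x)
            (fun a x => Ph2_le ΛX ΛY hX hY zX TX TY h1X h1Y hΛX hΛY τ τ' i0 th lo hi a _ x)
            (Equiv.subLeft (w + Dp zY A')) (fun i hi' μ hμ hμ' =>
              S2b ΛX ΛY hX hY zX TX TY H2 h1X hΛX τ τ' i0 s lo hi (α + i) (HT hY A') th Gc D lam
                hth hD hlam hlam' (by omega) (by omega) (by omega) μ hμ hμ')
        · rw [gw_zero ΛY hY α' i0 A' hg, zero_mul, zero_mul]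
    _ = (∑' A', gw ΛY hY α' i0 A') * (δ + ((i0 + 1 : ℕ) : ℝ≥0∞) * (((i0 + 1 : ℕ) : ℝ≥0∞) *
        (((i0 + 1 : ℕ) : ℝ≥0∞) * (C * (lam + D * us s / lam + us s))))) :=
        ENNReal.tsum_mul_right
    _ ≤ 1 * _ := mul_le_mul_left (gw_mass ΛY hY h1Y hΛY α' i0) _
    _ = _ := one_mul _

theorem Q3b {C : ℝ≥0∞} {us : ℕ → ℝ≥0∞} (H3 : H3L ΛX ΛY hX hY zY TX TY C us)
    (h1X : ∀ b, 1 ≤ hX b) (h1Y : ∀ b, 1 ≤ hY b) (hΛX : ∑' b, ΛX b = 1) (hΛY : ∑' b, ΛY b = 1)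
    (w : G) (α α' τ τ' i0 s lo hi : ℕ) (th Gc D lam δ : ℝ≥0∞) (hth : th ≠ 0)
    (hD : ∀ (j : ℕ) (E : Finset G), (∀ z ∈ E, th ≤ pp ΛY hY zY τ' (j, z)) → Gc * E.card ≤ D)
    (hlam : lam ≠ 0) (hlam' : lam ≠ ⊤)
    (b : ℕ × G → ℝ≥0∞) (hfb : ∀ x, pp ΛY hY zY α' x ≤ Gc + b x) (hb : ∑' x, b x ≤ δ)
    (haa : α + τ + 2 * i0 ≤ α' + τ') (ha : hi + s ≤ α + τ) :
    ∑' A, gw ΛX hX α i0 A * ∑' A', gw ΛY hY α' i0 A' *
      Ph3 ΛX ΛY hX hY zY TX TY τ τ' i0 th lo hi (HT hX A) (HT hY A') (w + Dp zY A' - Dp zX A)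
      ≤ δ + ((i0 + 1 : ℕ) : ℝ≥0∞) * (((i0 + 1 : ℕ) : ℝ≥0∞) * (((i0 + 1 : ℕ) : ℝ≥0∞) *
        (C * (lam + D * us s / lam + us s)))) := by
  calc _ ≤ ∑' A, gw ΛX hX α i0 A * (δ + ((i0 + 1 : ℕ) : ℝ≥0∞) * (((i0 + 1 : ℕ) : ℝ≥0∞) *
        (((i0 + 1 : ℕ) : ℝ≥0∞) * (C * (lam + D * us s / lam + us s))))) := by
        refine ENNReal.tsum_le_tsum fun A => ?_
        by_cases hg : α ≤ HT hX A ∧ HT hX A ≤ α + i0
        · refine mul_le_mul_right ?_ _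
          have key := coreA ΛY hY zY h1Y hΛY α' i0 b Gc δ _ hfb hb
            (fun a' x => Ph3 ΛX ΛY hX hY zY TX TY τ τ' i0 th lo hi (HT hX A) a' x)
            (fun a x => Ph3_le ΛX ΛY hX hY zY TX TY h1X h1Y hΛX hΛY τ τ' i0 th lo hi _ a x)
            (Equiv.addLeft (w - Dp zX A)) (fun i hi' μ hμ hμ' =>
              S3b ΛX ΛY hX hY zY TX TY H3 h1Y hΛY τ τ' i0 s lo hi (HT hX A) (α' + i) th Gc D lam
                hth hD hlam hlam' (by omega) (by omega) (by omega) μ hμ hμ')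
          refine le_trans (le_of_eq ?_) key
          refine tsum_congr fun A' => ?_
          have e : w + Dp zY A' - Dp zX A = (Equiv.addLeft (w - Dp zX A)) (Dp zY A') := by
            simp only [Equiv.coe_addLeft]; abel
          rw [e]
        · rw [gw_zero ΛX hX α i0 A hg, zero_mul, zero_mul]
    _ = (∑' A, gw ΛX hX α i0 A) * (δ + ((i0 + 1 : ℕ) : ℝ≥0∞) * (((i0 + 1 : ℕ) : ℝ≥0∞) *
        (((i0 + 1 : ℕ) : ℝ≥0∞) * (C * (lam + D * us s / lam + us s))))) :=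
        ENNReal.tsum_mul_right
    _ ≤ 1 * _ := mul_le_mul_left (gw_mass ΛX hX h1X hΛX α i0) _
    _ = _ := one_mul _

/-- the event of one window -/
def Gev (w : G) (wlo whi slo shi lo hi : ℕ) (L : List BX) (L' : List BY) : Prop :=
  (∃ z k, wlo < k ∧ k ≤ whi ∧ (z, k) ∈ TX L 0 0 ∧ (z, k) ∈ TY L' w 0) ∧
    ∀ z k, (z, k) ∈ TX L 0 0 → (z, k) ∈ TY L' w 0 → slo < k → k ≤ shi → lo ≤ k ∧ k ≤ hi

theorem window {C : ℝ≥0∞} {us : ℕ → ℝ≥0∞} (H2 : H2L ΛX ΛY hX hY zX TX TY C us)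
    (H3 : H3L ΛX ΛY hX hY zY TX TY C us)
    (h1X : ∀ b, 1 ≤ hX b) (h1Y : ∀ b, 1 ≤ hY b) (hU1X : ∀ n, U ΛX hX n ≤ 1)
    (hU1Y : ∀ n, U ΛY hY n ≤ 1) (hΛX : ∑' b, ΛX b = 1) (hΛY : ∑' b, ΛY b = 1)
    (aX : ∀ L1 L2 x a, TX (L1 ++ L2) x a = TX L1 x a ∪ TX L2 (x + Dp zX L1) (a + HT hX L1))
    (aY : ∀ L1 L2 x a, TY (L1 ++ L2) x a = TY L1 x a ∪ TY L2 (x + Dp zY L1) (a + HT hY L1))
    (bX : ∀ L x a z k, (z, k) ∈ TX L x a → a < k ∧ k ≤ a + HT hX L)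
    (bY : ∀ L x a z k, (z, k) ∈ TY L x a → a < k ∧ k ≤ a + HT hY L)
    (tX : ∀ L x y a z k, (z, k) ∈ TX L (x + y) a ↔ (z - y, k) ∈ TX L x a)
    (tY : ∀ L x y a z k, (z, k) ∈ TY L (x + y) a ↔ (z - y, k) ∈ TY L x a)
    (w : G) (α α' τ τ' i0 s lo hi wlo whi n : ℕ) (thX thY GX GY D lam δX δY uX uY : ℝ≥0∞)
    (hthX : thX ≠ 0) (hthY : thY ≠ 0)
    (hDX : ∀ (j : ℕ) (E : Finset G), (∀ z ∈ E, thX ≤ pp ΛX hX zX τ (j, z)) → GX * E.card ≤ D)
    (hDY : ∀ (j : ℕ) (E : Finset G), (∀ z ∈ E, thY ≤ pp ΛY hY zY τ' (j, z)) → GY * E.card ≤ D)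
    (hlam : lam ≠ 0) (hlam' : lam ≠ ⊤)
    (cX : ℕ × G → ℝ≥0∞) (hfX : ∀ x, pp ΛX hX zX α x ≤ GX + cX x) (hcX : ∑' x, cX x ≤ δX)
    (cY : ℕ × G → ℝ≥0∞) (hfY : ∀ x, pp ΛY hY zY α' x ≤ GY + cY x) (hcY : ∑' x, cY x ≤ δY)
    (huX : ∑' x, (if pp ΛX hX zX τ x < thX then pp ΛX hX zX τ x else 0) ≤ uX)
    (huY : ∑' x, (if pp ΛY hY zY τ' x < thY then pp ΛY hY zY τ' x else 0) ≤ uY)
    (g1 : α + i0 ≤ α') (g2 : α' + i0 + s ≤ lo) (g3 : α + τ + 2 * i0 ≤ α' + τ')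
    (g4 : hi + s ≤ α + τ) (g5 : α + i0 + τ ≤ n) (g6 : α' + i0 + τ' ≤ n)
    (g7 : α' + i0 ≤ wlo) (g8 : whi ≤ α + τ) :
    ∑' L : List BX, ∑' L' : List BY, (if HT hX L = n ∧ HT hY L' = n ∧
        Gev TX TY w wlo whi α (α + τ + 2 * i0) lo hi L L' then LW ΛX L * LW ΛY L' else 0)
      ≤ 2 * ovs ΛX hX i0 + 2 * ovs ΛY hY i0 + (uX * uY +
        ((δX + ((i0 + 1 : ℕ) : ℝ≥0∞) * (((i0 + 1 : ℕ) : ℝ≥0∞) * (((i0 + 1 : ℕ) : ℝ≥0∞) *
        (C * (lam + D * us s / lam + us s))))) +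
        (δY + ((i0 + 1 : ℕ) : ℝ≥0∞) * (((i0 + 1 : ℕ) : ℝ≥0∞) * (((i0 + 1 : ℕ) : ℝ≥0∞) *
        (C * (lam + D * us s / lam + us s))))))) := by
  refine (win4 ΛX ΛY hX hY h1X h1Y hU1X hU1Y hΛX hΛY _
    (fun A A' P P' => if Ev TX TY lo hi (w + Dp zY A' - Dp zX A) (HT hX A) (HT hY A') P P'
      then 1 else 0) α τ α' τ' i0 n g5 g6 ?_).trans ?_
  · intro A P R A' P' R' hA hoA hP hoP hA' hoA' hP' hoP' hg
    rw [if_pos]
    have lA := le_of_FP hX A α hA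
    have lP := le_of_FP hX P τ hP
    have lA' := le_of_FP hY A' α' hA'
    have lP' := le_of_FP hY P' τ' hP'
    have mX : ∀ z k, (z, k) ∈ TX P 0 (HT hX A) → (z + Dp zX A, k) ∈ TX (A ++ (P ++ R)) 0 0 := by
      intro z k h
      rw [aX]
      refine Or.inr ?_
      rw [aX]
      refine Or.inl ?_
      rw [tX, zero_add]
      simpa using h
    have mY : ∀ z k, (z, k) ∈ TY P' (w + Dp zY A' - Dp zX A) (HT hY A') →
        (z + Dp zX A, k) ∈ TY (A' ++ (P' ++ R')) w 0 := by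
      intro z k h
      rw [aY]
      refine Or.inr ?_
      rw [aY]
      refine Or.inl ?_
      rw [zero_add]
      have h3 := (tY P' (w + Dp zY A' - Dp zX A) (Dp zX A) (HT hY A') (z + Dp zX A) k).2
        (by simpa using h)
      simpa using h3
    obtain ⟨⟨z, k, k1, k2, hzX, hzY⟩, hall⟩ := hg
    refine ⟨⟨z - Dp zX A, k, ?_, ?_⟩, ?_⟩
    · rw [aX] at hzX
      rcases hzX with h | h
      · have := bX _ _ _ _ _ h
        omega
      · rw [aX] at h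
        rcases h with h | h
        · rw [tX, zero_add] at h
          exact h
        · have := bX _ _ _ _ _ h
          omega
    · rw [aY] at hzY
      rcases hzY with h | h
      · have := bY _ _ _ _ _ h
        omega
      · rw [aY] at h
        rcases h with h | h
        · rw [zero_add] at h
          have h3 := (tY P' (w + Dp zY A' - Dp zX A) (Dp zX A) (HT hY A') z k).1
            (by simpa using h)
          exact h3
        · have := bY _ _ _ _ _ h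
          omega
    · intro z' k' h h'
      have := bX _ _ _ _ _ h
      exact hall _ _ (mX z' k' h) (mY z' k' h') (by omega) (by omega)
  · gcongr 2 * ovs ΛX hX i0 + 2 * ovs ΛY hY i0 + ?_
    set nX := ∑' P, (if Loc ΛX hX zX τ thX P then 0 else gw ΛX hX τ i0 P) with hnX
    set nY := ∑' P', (if Loc ΛY hY zY τ' thY P' then 0 else gw ΛY hY τ' i0 P') with hnY
    have hnXu : nX ≤ uX := nonloc ΛX hX zX τ i0 thX uX huX
    have hnYu : nY ≤ uY := nonloc ΛY hY zY τ' i0 thY uY huY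
    calc _ ≤ ∑' A, gw ΛX hX α i0 A * ∑' A', gw ΛY hY α' i0 A' * (nX * nY +
          (Ph2 ΛX ΛY hX hY zX TX TY τ τ' i0 thX lo hi (HT hX A) (HT hY A')
            (w + Dp zY A' - Dp zX A)
          + Ph3 ΛX ΛY hX hY zY TX TY τ τ' i0 thY lo hi (HT hX A) (HT hY A')
            (w + Dp zY A' - Dp zX A))) := by
          refine ENNReal.tsum_le_tsum fun A => mul_le_mul_right ?_ _
          refine ENNReal.tsum_le_tsum fun A' => mul_le_mul_right ?_ _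
          exact inner ΛX ΛY hX hY zX zY TX TY τ τ' i0 thX thY lo hi (HT hX A) (HT hY A') _
      _ = (∑' A, gw ΛX hX α i0 A) * ((∑' A', gw ΛY hY α' i0 A') * (nX * nY)) +
          ((∑' A, gw ΛX hX α i0 A * ∑' A', gw ΛY hY α' i0 A' *
            Ph2 ΛX ΛY hX hY zX TX TY τ τ' i0 thX lo hi (HT hX A) (HT hY A')
            (w + Dp zY A' - Dp zX A)) +
          ∑' A, gw ΛX hX α i0 A * ∑' A', gw ΛY hY α' i0 A' *
            Ph3 ΛX ΛY hX hY zY TX TY τ τ' i0 thY lo hi (HT hX A) (HT hY A')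
            (w + Dp zY A' - Dp zX A)) := by
          simp only [mul_add, ENNReal.tsum_add, ENNReal.tsum_mul_right]
      _ ≤ 1 * (1 * (uX * uY)) + _ := by
          refine add_le_add ?_ (add_le_add
            (Q2b ΛX ΛY hX hY zX zY TX TY H2 h1X h1Y hΛX hΛY w α α' τ τ' i0 s lo hi thX GX D lam
              δX hthX hDX hlam hlam' cX hfX hcX g1 g2)
            (Q3b ΛX ΛY hX hY zX zY TX TY H3 h1X h1Y hΛX hΛY w α α' τ τ' i0 s lo hi thY GY D lam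
              δY hthY hDY hlam hlam' cY hfY hcY g3 g4))
          exact mul_le_mul' (gw_mass ΛX hX h1X hΛX α i0)
            (mul_le_mul' (gw_mass ΛY hY h1Y hΛY α' i0) (mul_le_mul' hnXu hnYu))
      _ = _ := by rw [one_mul, one_mul]

end

end Crest.Agent.R154.Asm857
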