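import Crest.Agent.R154.AsmC_871

/-! Row 154 (helper871), ROAD 801: the pieces of one window. -/

set_option autoImplicit false

namespace Crest.Agent.R154.Asm871

open scoped ENNReal
open Crest.Agent.R154.B5A Crest.Agent.R154.FP178

variable {BX BY G : Type*} [AddCommGroup G] (ΛX : BX → ℝ≥0∞) (hX : BX → ℕ) (zX : BX → G)
  (sX : BX → Set (G × ℕ)) (ΛY : BY → ℝ≥0∞) (hY : BY → ℕ) (zY : BY → G) (sY : BY → Set (G × ℕ))

open Classical in
/-- window lemma (2) on lists: X local -/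
def H2P (us : ℕ → ℝ≥0∞) (C : ℝ≥0∞) : Prop :=
  ∀ (s h h' a a' lo : ℕ) (E : Finset G) (μ : G → ℝ≥0∞) (M lam : ℝ≥0∞),
    ∑' x, μ x ≤ 1 → (∀ x, μ x ≤ M) → lam ≠ 0 → lam ≠ ⊤ → a ≤ a' → a + s ≤ lo → a' + s ≤ lo →
    ∑' x, μ x * (∑' L : List BX, ∑' L' : List BY, if HT hX L = h ∧ (L.map zX).sum ∈ E ∧
        HT hY L' = h' ∧
        (∃ z k, (z, k) ∈ TT sX hX zX L 0 a ∧ (z, k) ∈ TT sY hY zY L' x a') ∧
        (∀ z k, (z, k) ∈ TT sX hX zX L 0 a → (z, k) ∈ TT sY hY zY L' x a' → lo ≤ k)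
        then LW ΛX L * LW ΛY L' else 0)
      ≤ C * (lam + M * E.card * us s / lam + us s)

open Classical in
/-- window lemma (3) on lists: Y local -/
def H3P (us : ℕ → ℝ≥0∞) (C : ℝ≥0∞) : Prop :=
  ∀ (s h h' a a' hi : ℕ) (E : Finset G) (μ : G → ℝ≥0∞) (M lam : ℝ≥0∞),
    ∑' x, μ x ≤ 1 → (∀ x, μ x ≤ M) → lam ≠ 0 → lam ≠ ⊤ → a + h ≤ a' + h' →
    hi + s ≤ a + h → hi + s ≤ a' + h' →
    ∑' x, μ x * (∑' L : List BX, ∑' L' : List BY, if HT hX L = h ∧ HT hY L' = h' ∧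
        (L'.map zY).sum ∈ E ∧
        (∃ z k, (z, k) ∈ TT sX hX zX L 0 a ∧ (z, k) ∈ TT sY hY zY L' x a') ∧
        (∀ z k, (z, k) ∈ TT sX hX zX L 0 a → (z, k) ∈ TT sY hY zY L' x a' → k ≤ hi)
        then LW ΛX L * LW ΛY L' else 0)
      ≤ C * (lam + M * E.card * us s / lam + us s)

/-- `Q` together with a side condition -/
def QE (lo hi : ℕ) (P : List BX) (x : G) (a : ℕ) (P' : List BY) (y : G) (a' : ℕ) (R : Prop) : Prop :=
  Q hX zX sX hY zY sY lo hi P x a P' y a' ∧ R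

open Classical in
lemma pieces_le (s1 s2 i0 : ℕ) (cond : List BX → List BY → Prop) :
    S ΛX hX s1 i0 (fun P => S ΛY hY s2 i0 (fun P' => if cond P P' then 1 else 0))
      ≤ ∑ h ∈ Finset.Icc s1 (s1 + i0), ∑ h' ∈ Finset.Icc s2 (s2 + i0),
        ∑' P, ∑' P', (if HT hX P = h ∧ HT hY P' = h' ∧ cond P P' then LW ΛX P * LW ΛY P' else 0) := by
  calc _ ≤ ∑' P, ∑' P', ∑ h ∈ Finset.Icc s1 (s1 + i0), ∑ h' ∈ Finset.Icc s2 (s2 + i0),
        (if HT hX P = h ∧ HT hY P' = h' ∧ cond P P' then LW ΛX P * LW ΛY P' else 0) := by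
        unfold S
        refine ENNReal.tsum_le_tsum fun P => ?_
        by_cases hP : fp hX s1 P ∧ HT hX P ≤ s1 + i0
        · rw [if_pos hP, ← ENNReal.tsum_mul_left]
          refine ENNReal.tsum_le_tsum fun P' => ?_
          by_cases hP' : fp hY s2 P' ∧ HT hY P' ≤ s2 + i0
          · rw [if_pos hP']
            beta_reduce
            by_cases hc : cond P P'
            · rw [if_pos hc, mul_one]
              calc LW ΛX P * LW ΛY P' = (if HT hX P = HT hX P ∧ HT hY P' = HT hY P' ∧ cond P P'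
                    then LW ΛX P * LW ΛY P' else 0) := by rw [if_pos ⟨rfl, rfl, hc⟩]
                _ ≤ ∑ h' ∈ Finset.Icc s2 (s2 + i0), (if HT hX P = HT hX P ∧ HT hY P' = h' ∧
                    cond P P' then LW ΛX P * LW ΛY P' else 0) :=
                    Finset.single_le_sum (f := fun h' => (if HT hX P = HT hX P ∧ HT hY P' = h' ∧
                      cond P P' then LW ΛX P * LW ΛY P' else 0)) (fun _ _ => zero_le)
                      (Finset.mem_Icc.2 ⟨le_HT_of_fp hY hP'.1, hP'.2⟩)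
                _ ≤ _ :=
                    Finset.single_le_sum (f := fun h => ∑ h' ∈ Finset.Icc s2 (s2 + i0),
                      (if HT hX P = h ∧ HT hY P' = h' ∧
                      cond P P' then LW ΛX P * LW ΛY P' else 0)) (fun _ _ => zero_le)
                      (Finset.mem_Icc.2 ⟨le_HT_of_fp hX hP.1, hP.2⟩)
            · rw [if_neg hc, mul_zero, mul_zero]; exact zero_le
          · rw [if_neg hP', mul_zero]; exact zero_le
        · rw [if_neg hP]; exact zero_le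
    _ = _ := by
        have e1 : ∀ P : List BX, (∑' P' : List BY, ∑ h ∈ Finset.Icc s1 (s1 + i0),
            ∑ h' ∈ Finset.Icc s2 (s2 + i0),
            (if HT hX P = h ∧ HT hY P' = h' ∧ cond P P' then LW ΛX P * LW ΛY P' else 0))
            = ∑ h ∈ Finset.Icc s1 (s1 + i0), ∑ h' ∈ Finset.Icc s2 (s2 + i0), ∑' P' : List BY,
            (if HT hX P = h ∧ HT hY P' = h' ∧ cond P P' then LW ΛX P * LW ΛY P' else 0) := by
          intro P
          rw [Summable.tsum_finsetSum (fun _ _ => ENNReal.summable)]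
          refine Finset.sum_congr rfl fun h _ => ?_
          rw [Summable.tsum_finsetSum (fun _ _ => ENNReal.summable)]
        rw [tsum_congr e1, Summable.tsum_finsetSum (fun _ _ => ENNReal.summable)]
        refine Finset.sum_congr rfl fun h _ => ?_
        rw [Summable.tsum_finsetSum (fun _ _ => ENNReal.summable)]

lemma sum_pieces (s1 s2 i0 : ℕ) (μ : G → ℝ≥0∞) (g : ℕ → ℕ → G → ℝ≥0∞) (κ : ℝ≥0∞)
    (hg : ∀ h h', s1 ≤ h → h ≤ s1 + i0 → s2 ≤ h' → h' ≤ s2 + i0 → ∑' x, μ x * g h h' x ≤ κ) :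
    ∑' x, μ x * (∑ h ∈ Finset.Icc s1 (s1 + i0), ∑ h' ∈ Finset.Icc s2 (s2 + i0), g h h' x)
      ≤ ((i0 + 1 : ℕ) : ℝ≥0∞) * ((i0 + 1 : ℕ) * κ) := by
  simp only [Finset.mul_sum]
  rw [Summable.tsum_finsetSum (fun _ _ => ENNReal.summable)]
  calc _ ≤ ∑ h ∈ Finset.Icc s1 (s1 + i0), ((i0 + 1 : ℕ) : ℝ≥0∞) * κ := by
        refine Finset.sum_le_sum fun h hh => ?_
        rw [Summable.tsum_finsetSum (fun _ _ => ENNReal.summable)]
        calc _ ≤ ∑ h' ∈ Finset.Icc s2 (s2 + i0), κ := by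
              refine Finset.sum_le_sum fun h' hh' => ?_
              rw [Finset.mem_Icc] at hh hh'
              exact hg h h' hh.1 hh.2 hh'.1 hh'.2
          _ = _ := by
              rw [Finset.sum_const, Nat.card_Icc, nsmul_eq_mul]
              congr 2
              omega
    _ = _ := by
        rw [Finset.sum_const, Nat.card_Icc, nsmul_eq_mul]
        congr 2
        omega

open Classical in
/-- X local -/
theorem ZX_le (h1X : ∀ b, 1 ≤ hX b) (h1Y : ∀ b, 1 ≤ hY b) (hΛX : ∑' b, ΛX b ≤ 1)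
    (hΛY : ∑' b, ΛY b ≤ 1) {us : ℕ → ℝ≥0∞} {C : ℝ≥0∞}
    (H2 : H2P ΛX hX zX sX ΛY hY zY sY us C) (w : G) (T t s i0 : ℕ) (ht : 2 * i0 + s ≤ t)
    (E : Finset G) (M δ κ lam : ℝ≥0∞) (hl0 : lam ≠ 0) (hl1 : lam ≠ ⊤)
    (b : ℤ × G → ℝ≥0∞) (hb : ∑' v, b v ≤ δ) (hbM : ∀ v, law ΛX hX zX T v ≤ M + b v)
    (hκ : C * (lam + M * E.card * us s / lam + us s) ≤ κ) :
    S ΛX hX T i0 (fun A => S ΛX hX (3 * t) i0 (fun P =>
          S ΛY hY (T + i0) i0 (fun A' => S ΛY hY (3 * t + i0) i0 (fun P' =>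
            if QE hX zX sX hY zY sY (T + t + 1) (T + 3 * t - s) P (Dp zX A) (HT hX A) P'
              (w + Dp zY A') (HT hY A') (Dp zX P ∈ E) then 1 else 0))))
      ≤ δ + (i0 + 1 : ℕ) * ((i0 + 1 : ℕ) * ((i0 + 1 : ℕ) * κ)) := by
  have e1 : ∀ A, S ΛX hX (3 * t) i0 (fun P =>
          S ΛY hY (T + i0) i0 (fun A' => S ΛY hY (3 * t + i0) i0 (fun P' =>
            if QE hX zX sX hY zY sY (T + t + 1) (T + 3 * t - s) P (Dp zX A) (HT hX A) P'
              (w + Dp zY A') (HT hY A') (Dp zX P ∈ E) then (1 : ℝ≥0∞) else 0)))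
      = S ΛY hY (T + i0) i0 (fun A' => S ΛX hX (3 * t) i0 (fun P =>
          S ΛY hY (3 * t + i0) i0 (fun P' =>
            if QE hX zX sX hY zY sY (T + t + 1) (T + 3 * t - s) P (Dp zX A) (HT hX A) P'
              (w + Dp zY A') (HT hY A') (Dp zX P ∈ E) then 1 else 0))) := fun A =>
    S_comm ΛX hX ΛY hY _ _ _ _ _
  simp only [e1]
  rw [S_comm]
  refine S_le ΛY hY h1Y hΛY (T + i0) i0 fun A' hA' hA'' => ?_
  have hA3 := le_HT_of_fp hY hA'
  refine local_bound ΛX hX zX h1X T i0 M ((i0 + 1 : ℕ) * ((i0 + 1 : ℕ) * κ)) δ hΛX b hb hbM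
    (fun a x => S ΛX hX (3 * t) i0 (fun P => S ΛY hY (3 * t + i0) i0 (fun P' =>
            if QE hX zX sX hY zY sY (T + t + 1) (T + 3 * t - s) P x a P'
              (w + Dp zY A') (HT hY A') (Dp zX P ∈ E) then 1 else 0))) ?_ ?_
  · intro a x
    refine S_le ΛX hX h1X hΛX (3 * t) i0 fun P _ _ => ?_
    refine S_le ΛY hY h1Y hΛY (3 * t + i0) i0 fun P' _ _ => ?_
    split_ifs <;> simp
  · intro a haT haT' μ hμ hμM
    set c := w + Dp zY A' with hc
    -- the sum over pieces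
    set g : ℕ → ℕ → G → ℝ≥0∞ := fun h h' x => ∑' P, ∑' P', (if HT hX P = h ∧ HT hY P' = h' ∧
        (QE hX zX sX hY zY sY (T + t + 1) (T + 3 * t - s) P 0 a P' x (HT hY A') (Dp zX P ∈ E))
        then LW ΛX P * LW ΛY P' else 0) with hg
    have h1 : ∀ x, S ΛX hX (3 * t) i0 (fun P => S ΛY hY (3 * t + i0) i0 (fun P' =>
            if QE hX zX sX hY zY sY (T + t + 1) (T + 3 * t - s) P x a P'
              c (HT hY A') (Dp zX P ∈ E) then (1 : ℝ≥0∞) else 0)) ≤
        ∑ h ∈ Finset.Icc (3 * t) (3 * t + i0), ∑ h' ∈ Finset.Icc (3 * t + i0) (3 * t + i0 + i0),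
          g h h' (c - x) := by
      intro x
      have h2 := pieces_le ΛX hX ΛY hY (3 * t) (3 * t + i0) i0 (fun P P' =>
        QE hX zX sX hY zY sY (T + t + 1) (T + 3 * t - s) P 0 a P' (c - x) (HT hY A') (Dp zX P ∈ E))
      refine le_trans (le_of_eq ?_) h2
      congr 1
      funext P
      congr 1
      funext P'
      exact if_congr (and_congr_left' (Q_shift hX zX sX hY zY sY (T + t + 1) (T + 3 * t - s) P x a P'
        c (HT hY A'))) rfl rfl
    calc _ ≤ ∑' x, μ x * (∑ h ∈ Finset.Icc (3 * t) (3 * t + i0),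
          ∑ h' ∈ Finset.Icc (3 * t + i0) (3 * t + i0 + i0), g h h' (c - x)) := by
          refine ENNReal.tsum_le_tsum fun x => ?_
          gcongr
          exact h1 x
      _ ≤ _ := by
          refine sum_pieces (3 * t) (3 * t + i0) i0 μ (fun h h' x => g h h' (c - x)) κ ?_
          intro h h' hh1 hh2 hh3 hh4
          have e2 : ∑' x, μ x * g h h' (c - x) = ∑' x, μ (c - x) * g h h' x := by
            rw [← (Equiv.subLeft c).tsum_eq (fun x => μ (c - x) * g h h' x)]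
            refine tsum_congr fun x => ?_
            simp only [Equiv.subLeft_apply, sub_sub_cancel]
          show ∑' x, μ x * g h h' (c - x) ≤ κ
          rw [e2]
          refine le_trans (ENNReal.tsum_le_tsum fun x => ?_)
            ((H2 s h h' a (HT hY A') (T + t + 1) E (fun x => μ (c - x)) M lam ?_ (fun x => hμM _)
              hl0 hl1 (by omega) (by omega) (by omega)).trans hκ)
          · gcongr
            refine ENNReal.tsum_le_tsum fun P => ENNReal.tsum_le_tsum fun P' => ?_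
            by_cases hcond : HT hX P = h ∧ HT hY P' = h' ∧
              (QE hX zX sX hY zY sY (T + t + 1) (T + 3 * t - s) P 0 a P' x (HT hY A') (Dp zX P ∈ E))
            · obtain ⟨q1, q2, ⟨⟨k, z, hz⟩, q4⟩, q5⟩ := hcond
              rw [if_pos ⟨q1, q2, ⟨⟨k, z, hz⟩, q4⟩, q5⟩,
                if_pos ⟨q1, q5, q2, ⟨z, k, hz.1, hz.2⟩, fun z k hz1 hz2 => (q4 k ⟨z, hz1, hz2⟩).1⟩]
            · rw [if_neg hcond]; exact zero_le
          · have e4 : ∑' x, μ (c - x) = ∑' x, μ x := (Equiv.subLeft c).tsum_eq μ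
            rw [e4]; exact hμ

open Classical in
/-- Y local -/
theorem ZY_le (h1X : ∀ b, 1 ≤ hX b) (h1Y : ∀ b, 1 ≤ hY b) (hΛX : ∑' b, ΛX b ≤ 1)
    (hΛY : ∑' b, ΛY b ≤ 1) {us : ℕ → ℝ≥0∞} {C : ℝ≥0∞}
    (H3 : H3P ΛX hX zX sX ΛY hY zY sY us C) (w : G) (T t s i0 : ℕ) (ht : 2 * i0 + s ≤ t)
    (E : Finset G) (M δ κ lam : ℝ≥0∞) (hl0 : lam ≠ 0) (hl1 : lam ≠ ⊤)
    (b : ℤ × G → ℝ≥0∞) (hb : ∑' v, b v ≤ δ) (hbM : ∀ v, law ΛY hY zY (T + i0) v ≤ M + b v)
    (hκ : C * (lam + M * E.card * us s / lam + us s) ≤ κ) :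
    S ΛX hX T i0 (fun A => S ΛX hX (3 * t) i0 (fun P =>
          S ΛY hY (T + i0) i0 (fun A' => S ΛY hY (3 * t + i0) i0 (fun P' =>
            if QE hX zX sX hY zY sY (T + t + 1) (T + 3 * t - s) P (Dp zX A) (HT hX A) P'
              (w + Dp zY A') (HT hY A') (Dp zY P' ∈ E) then 1 else 0))))
      ≤ δ + (i0 + 1 : ℕ) * ((i0 + 1 : ℕ) * ((i0 + 1 : ℕ) * κ)) := by
  have e1 : ∀ A, S ΛX hX (3 * t) i0 (fun P =>
          S ΛY hY (T + i0) i0 (fun A' => S ΛY hY (3 * t + i0) i0 (fun P' =>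
            if QE hX zX sX hY zY sY (T + t + 1) (T + 3 * t - s) P (Dp zX A) (HT hX A) P'
              (w + Dp zY A') (HT hY A') (Dp zY P' ∈ E) then (1 : ℝ≥0∞) else 0)))
      = S ΛY hY (T + i0) i0 (fun A' => S ΛX hX (3 * t) i0 (fun P =>
          S ΛY hY (3 * t + i0) i0 (fun P' =>
            if QE hX zX sX hY zY sY (T + t + 1) (T + 3 * t - s) P (Dp zX A) (HT hX A) P'
              (w + Dp zY A') (HT hY A') (Dp zY P' ∈ E) then 1 else 0))) := fun A =>
    S_comm ΛX hX ΛY hY _ _ _ _ _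
  simp only [e1]
  refine S_le ΛX hX h1X hΛX T i0 fun A hA hA'' => ?_
  have hA3 := le_HT_of_fp hX hA
  refine local_bound ΛY hY zY h1Y (T + i0) i0 M ((i0 + 1 : ℕ) * ((i0 + 1 : ℕ) * κ)) δ hΛY b hb hbM
    (fun a' y => S ΛX hX (3 * t) i0 (fun P => S ΛY hY (3 * t + i0) i0 (fun P' =>
            if QE hX zX sX hY zY sY (T + t + 1) (T + 3 * t - s) P (Dp zX A) (HT hX A) P'
              (w + y) a' (Dp zY P' ∈ E) then 1 else 0))) ?_ ?_
  · intro a x
    refine S_le ΛX hX h1X hΛX (3 * t) i0 fun P _ _ => ?_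
    refine S_le ΛY hY h1Y hΛY (3 * t + i0) i0 fun P' _ _ => ?_
    split_ifs <;> simp
  · intro a' haT haT' μ hμ hμM
    set c := w - Dp zX A with hc
    set g : ℕ → ℕ → G → ℝ≥0∞ := fun h h' x => ∑' P, ∑' P', (if HT hX P = h ∧ HT hY P' = h' ∧
        (QE hX zX sX hY zY sY (T + t + 1) (T + 3 * t - s) P 0 (HT hX A) P' x a' (Dp zY P' ∈ E))
        then LW ΛX P * LW ΛY P' else 0) with hg
    have h1 : ∀ y, S ΛX hX (3 * t) i0 (fun P => S ΛY hY (3 * t + i0) i0 (fun P' =>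
            if QE hX zX sX hY zY sY (T + t + 1) (T + 3 * t - s) P (Dp zX A) (HT hX A) P'
              (w + y) a' (Dp zY P' ∈ E) then (1 : ℝ≥0∞) else 0)) ≤
        ∑ h ∈ Finset.Icc (3 * t) (3 * t + i0), ∑ h' ∈ Finset.Icc (3 * t + i0) (3 * t + i0 + i0),
          g h h' (c + y) := by
      intro y
      have h2 := pieces_le ΛX hX ΛY hY (3 * t) (3 * t + i0) i0 (fun P P' =>
        QE hX zX sX hY zY sY (T + t + 1) (T + 3 * t - s) P 0 (HT hX A) P' (c + y) a' (Dp zY P' ∈ E))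
      refine le_trans (le_of_eq ?_) h2
      have e3 : w + y - Dp zX A = c + y := by rw [hc]; abel
      congr 1
      funext P
      congr 1
      funext P'
      rw [← e3]
      exact if_congr (and_congr_left' (Q_shift hX zX sX hY zY sY (T + t + 1) (T + 3 * t - s) P
        (Dp zX A) (HT hX A) P' (w + y) a')) rfl rfl
    calc _ ≤ ∑' y, μ y * (∑ h ∈ Finset.Icc (3 * t) (3 * t + i0),
          ∑ h' ∈ Finset.Icc (3 * t + i0) (3 * t + i0 + i0), g h h' (c + y)) := by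
          refine ENNReal.tsum_le_tsum fun x => ?_
          gcongr
          exact h1 x
      _ ≤ _ := by
          refine sum_pieces (3 * t) (3 * t + i0) i0 μ (fun h h' y => g h h' (c + y)) κ ?_
          intro h h' hh1 hh2 hh3 hh4
          have e2 : ∑' y, μ y * g h h' (c + y) = ∑' x, μ (x - c) * g h h' x := by
            rw [← (Equiv.addLeft c).tsum_eq (fun x => μ (x - c) * g h h' x)]
            refine tsum_congr fun x => ?_
            simp only [Equiv.coe_addLeft, add_sub_cancel_left]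
          show ∑' y, μ y * g h h' (c + y) ≤ κ
          rw [e2]
          refine le_trans (ENNReal.tsum_le_tsum fun x => ?_)
            ((H3 s h h' (HT hX A) a' (T + 3 * t - s) E (fun x => μ (x - c)) M lam ?_
              (fun x => hμM _) hl0 hl1 (by omega) (by omega) (by omega)).trans hκ)
          · gcongr
            refine ENNReal.tsum_le_tsum fun P => ENNReal.tsum_le_tsum fun P' => ?_
            by_cases hcond : HT hX P = h ∧ HT hY P' = h' ∧
              (QE hX zX sX hY zY sY (T + t + 1) (T + 3 * t - s) P 0 (HT hX A) P' x a' (Dp zY P' ∈ E))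
            · obtain ⟨q1, q2, ⟨⟨k, z, hz⟩, q4⟩, q5⟩ := hcond
              rw [if_pos ⟨q1, q2, ⟨⟨k, z, hz⟩, q4⟩, q5⟩,
                if_pos ⟨q1, q2, q5, ⟨z, k, hz.1, hz.2⟩, fun z k hz1 hz2 => (q4 k ⟨z, hz1, hz2⟩).2⟩]
            · rw [if_neg hcond]; exact zero_le
          · have e4 : ∑' x, μ (x - c) = ∑' x, μ x := (Equiv.subRight c).tsum_eq μ
            rw [e4]; exact hμ

open Classical in
/-- both pieces non-local -/
theorem ZN_le (h1X : ∀ b, 1 ≤ hX b) (h1Y : ∀ b, 1 ≤ hY b) (hΛX : ∑' b, ΛX b ≤ 1)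
    (hΛY : ∑' b, ΛY b ≤ 1) (T t i0 : ℕ) (EX EY : Finset G) (q : ℝ≥0∞)
    (hnX : ∑' P, (if fp hX (3 * t) P ∧ Dp zX P ∉ EX then LW ΛX P else 0) ≤ q)
    (hnY : ∑' P, (if fp hY (3 * t + i0) P ∧ Dp zY P ∉ EY then LW ΛY P else 0) ≤ q) :
    S ΛX hX T i0 (fun _ => S ΛX hX (3 * t) i0 (fun P =>
          S ΛY hY (T + i0) i0 (fun _ => S ΛY hY (3 * t + i0) i0 (fun P' =>
            if Dp zX P ∉ EX ∧ Dp zY P' ∉ EY then 1 else 0)))) ≤ q * q := by
  refine S_le ΛX hX h1X hΛX T i0 fun A _ _ => ?_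
  have hX1 : S ΛX hX (3 * t) i0 (fun P => if Dp zX P ∉ EX then 1 else 0) ≤ q := by
    refine le_trans (ENNReal.tsum_le_tsum fun P => ?_) hnX
    by_cases h : fp hX (3 * t) P ∧ HT hX P ≤ 3 * t + i0
    · rw [if_pos h]
      beta_reduce
      by_cases h' : Dp zX P ∉ EX
      · rw [if_pos h', if_pos ⟨h.1, h'⟩, mul_one]
      · rw [if_neg h', mul_zero]; exact zero_le
    · rw [if_neg h]; exact zero_le
  have hY1 : S ΛY hY (3 * t + i0) i0 (fun P => if Dp zY P ∉ EY then 1 else 0) ≤ q := by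
    refine le_trans (ENNReal.tsum_le_tsum fun P => ?_) hnY
    by_cases h : fp hY (3 * t + i0) P ∧ HT hY P ≤ 3 * t + i0 + i0
    · rw [if_pos h]
      beta_reduce
      by_cases h' : Dp zY P ∉ EY
      · rw [if_pos h', if_pos ⟨h.1, h'⟩, mul_one]
      · rw [if_neg h', mul_zero]; exact zero_le
    · rw [if_neg h]; exact zero_le
  calc _ ≤ S ΛX hX (3 * t) i0 (fun P => (if Dp zX P ∉ EX then 1 else 0) * q) := by
        refine S_mono ΛX hX _ _ fun P => ?_
        refine S_le ΛY hY h1Y hΛY (T + i0) i0 fun A' _ _ => ?_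
        calc _ = S ΛY hY (3 * t + i0) i0 (fun P' => (if Dp zX P ∉ EX then 1 else 0) *
              (if Dp zY P' ∉ EY then 1 else 0)) := by
              congr 1
              funext P'
              by_cases h : Dp zX P ∉ EX <;> by_cases h' : Dp zY P' ∉ EY <;> simp [h, h']
          _ = (if Dp zX P ∉ EX then 1 else 0) * S ΛY hY (3 * t + i0) i0
              (fun P' => (if Dp zY P' ∉ EY then 1 else 0)) := S_mulL _ _ _ _ _ _
          _ ≤ _ := by gcongr
    _ = S ΛX hX (3 * t) i0 (fun P => (if Dp zX P ∉ EX then 1 else 0)) * q := S_mul _ _ _ _ _ _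
    _ ≤ q * q := by gcongr

open Classical in
/-- the three cases -/
theorem Z_le (w : G) (T t s i0 : ℕ) (EX EY : Finset G) :
    S ΛX hX T i0 (fun A => S ΛX hX (3 * t) i0 (fun P =>
          S ΛY hY (T + i0) i0 (fun A' => S ΛY hY (3 * t + i0) i0 (fun P' =>
            if Q hX zX sX hY zY sY (T + t + 1) (T + 3 * t - s) P (Dp zX A) (HT hX A) P'
              (w + Dp zY A') (HT hY A') then 1 else 0)))) ≤
    S ΛX hX T i0 (fun A => S ΛX hX (3 * t) i0 (fun P =>
          S ΛY hY (T + i0) i0 (fun A' => S ΛY hY (3 * t + i0) i0 (fun P' =>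
            if QE hX zX sX hY zY sY (T + t + 1) (T + 3 * t - s) P (Dp zX A) (HT hX A) P'
              (w + Dp zY A') (HT hY A') (Dp zX P ∈ EX) then 1 else 0)))) +
    (S ΛX hX T i0 (fun A => S ΛX hX (3 * t) i0 (fun P =>
          S ΛY hY (T + i0) i0 (fun A' => S ΛY hY (3 * t + i0) i0 (fun P' =>
            if QE hX zX sX hY zY sY (T + t + 1) (T + 3 * t - s) P (Dp zX A) (HT hX A) P'
              (w + Dp zY A') (HT hY A') (Dp zY P' ∈ EY) then 1 else 0)))) +
    S ΛX hX T i0 (fun _ => S ΛX hX (3 * t) i0 (fun P =>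
          S ΛY hY (T + i0) i0 (fun _ => S ΛY hY (3 * t + i0) i0 (fun P' =>
            if Dp zX P ∉ EX ∧ Dp zY P' ∉ EY then 1 else 0))))) := by
  rw [← S_add, ← S_add]
  refine S_mono ΛX hX _ _ fun A => ?_
  rw [← S_add, ← S_add]
  refine S_mono ΛX hX _ _ fun P => ?_
  rw [← S_add, ← S_add]
  refine S_mono ΛY hY _ _ fun A' => ?_
  rw [← S_add, ← S_add]
  refine S_mono ΛY hY _ _ fun P' => ?_
  by_cases hQ : Q hX zX sX hY zY sY (T + t + 1) (T + 3 * t - s) P (Dp zX A) (HT hX A) P'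
              (w + Dp zY A') (HT hY A')
  · by_cases h1 : Dp zX P ∈ EX
    · simp [hQ, h1, QE]
    · by_cases h2 : Dp zY P' ∈ EY
      · simp [hQ, h1, h2, QE]
      · simp [hQ, h1, h2, QE]
  · simp [hQ]

end Crest.Agent.R154.Asm871
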