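import Crest.Agent.R154.AsmC_876

/-! Row 154 (helper876), ROAD 801: assembly, part D (the two local terms of one window). -/

set_option autoImplicit false

namespace Crest.Agent.R154.Asm876

open scoped ENNReal
open Crest.Agent.R154.B5A
open Crest.Agent.R154.FP178

section sums2

variable {B : Type*} (Λ : B → ℝ≥0∞) (ht : B → ℕ)

lemma FS_le_heights0 (a i0 : ℕ) (F : List B → ℝ≥0∞) :
    FS Λ ht a i0 F
      ≤ ∑ i ∈ Finset.range (i0 + 1), ∑' L, (if HT ht L = a + i then LW Λ L * F L else 0) := by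
  classical
  have := FS_le_heights Λ ht a i0 (fun _ => True) (fun _ _ => True) (fun _ _ _ _ => trivial) F
  simpa using this

lemma FS_ite {a i0 : ℕ} (p : Prop) [Decidable p] (F : List B → ℝ≥0∞) :
    (if p then FS Λ ht a i0 F else 0) = FS Λ ht a i0 (fun A => if p then F A else 0) := by
  by_cases hp : p
  · simp only [if_pos hp]
  · simp only [if_neg hp]
    symm
    rw [FS, ENNReal.tsum_eq_zero]
    intro A
    rw [mul_zero, ite_self]

end sums2

variable {BX BY G : Type*} [AddCommGroup G]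
  (ΛX : BX → ℝ≥0∞) (hX : BX → ℕ) (zX : BX → G) (sX : BX → Set (G × ℕ))
  (ΛY : BY → ℝ≥0∞) (hY : BY → ℕ) (zY : BY → G) (sY : BY → Set (G × ℕ))

open Classical in
lemma T2_le (h1X : ∀ b, 1 ≤ hX b) (h1Y : ∀ b, 1 ≤ hY b) (hΛX : ∑' b, ΛX b ≤ 1)
    (hΛY : ∑' b, ΛY b ≤ 1) (hU1Y : ∀ n, U ΛY hY n ≤ 1)
    (C : ℝ≥0∞) (us : ℕ → ℕ → ℝ≥0∞) (hH2 : H2 ΛX hX zX sX ΛY hY zY sY C us)
    (n a τ i0 s lo : ℕ) (w : G) (hlo : a + i0 + s ≤ lo)
    (LocX : List BX → Prop) (EX : ℕ → Finset G)
    (hEX : ∀ P, fp hX τ P → HT hX P ≤ τ + i0 → LocX P → dL zX P ∈ EX (HT hX P - τ))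
    (g b : G → ℝ≥0∞) (hgb : ∀ z, mL ΛX hX zX a z = g z + b z) (M K1 lam : ℝ≥0∞)
    (hg : ∀ z, g z ≤ M) (hME : ∀ i, M * (EX i).card ≤ K1) (hl0 : lam ≠ 0) (hl1 : lam ≠ ⊤) :
    FS ΛX hX a i0 (fun A => FS ΛX hX τ i0 (fun P => if LocX P then
      FS ΛY hY a i0 (fun A' => ES ΛY hY (n - HT hY A') (fun L' =>
        if C2 hX zX sX hY zY sY P (HT hX A) L' (w + dL zY A' - dL zX A) (HT hY A') lo
        then 1 else 0)) else 0))
      ≤ (i0 + 1) * ((i0 + 1) * (C * (lam + K1 * us i0 s / lam + us i0 s))) + ∑' z, b z := by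
  set RHS : ℝ≥0∞ := C * (lam + K1 * us i0 s / lam + us i0 s) with hRHS
  set Ψ : ℕ → G → ℝ≥0∞ := fun c z => FS ΛX hX τ i0 (fun P => if LocX P then
      FS ΛY hY a i0 (fun A' => ES ΛY hY (n - HT hY A') (fun L' =>
        if C2 hX zX sX hY zY sY P c L' (w + dL zY A' - z) (HT hY A') lo
        then 1 else 0)) else 0) with hΨ
  have hsum : ∑' z, g z ≤ 1 := by
    calc ∑' z, g z ≤ ∑' z, mL ΛX hX zX a z :=
          ENNReal.tsum_le_tsum fun z => by rw [hgb]; exact le_self_add
      _ ≤ 1 := sum_mL ΛX hX zX h1X hΛX a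
  have h0 := dens_apply ΛX hX zX hgb Ψ (a := a) (i0 := i0) (fun c z _ _ => by
    refine FS_le_const ΛX hX h1X hΛX fun P _ _ => ?_
    split_ifs
    · refine FS_le_const ΛY hY h1Y hΛY fun A' _ _ => ES_le_const ΛY hY hU1Y fun L' _ => ?_
      split_ifs
      · exact le_rfl
      · exact zero_le
    · exact zero_le)
  refine h0.trans (add_le_add ?_ le_rfl)
  have key : ∀ c ∈ Finset.range (i0 + 1), ∑' z, g z * Ψ (a + c) z ≤ (i0 + 1) * RHS := by
    intro c hc
    have hc' := Finset.mem_range.1 hc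
    have e1 : ∀ z, Ψ (a + c) z = FS ΛY hY a i0 (fun A' => FS ΛX hX τ i0 (fun P =>
        if LocX P then ES ΛY hY (n - HT hY A') (fun L' =>
        if C2 hX zX sX hY zY sY P (a + c) L' (w + dL zY A' - z) (HT hY A') lo
        then 1 else 0) else 0)) := by
      intro z
      simp only [hΨ, FS_ite]
      rw [FS_comm]
    simp only [e1]
    rw [tsum_mul_FS]
    refine FS_le_const ΛY hY h1Y hΛY fun A' hA' hA'2 => ?_
    have hA'1 := le_HT_of_fp hY hA'
    rw [← (Equiv.subLeft (w + dL zY A')).tsum_eq]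
    simp only [Equiv.subLeft_apply, sub_sub_cancel]
    set μ : G → ℝ≥0∞ := fun x => g (w + dL zY A' - x) with hμ
    have hμ1 : ∑' x, μ x ≤ 1 := (tsum_shift' g (w + dL zY A')).trans_le hsum
    have hstep : ∀ x, FS ΛX hX τ i0 (fun P =>
        if LocX P then ES ΛY hY (n - HT hY A') (fun L' =>
        if C2 hX zX sX hY zY sY P (a + c) L' x (HT hY A') lo then 1 else 0) else 0)
        ≤ ∑ i ∈ Finset.range (i0 + 1), ∑' L : List BX, ∑' L' : List BY,
          (if HT hX L = τ + i ∧ dL zX L ∈ EX i ∧ HT hY L' = n - HT hY A' ∧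
            C2 hX zX sX hY zY sY L (a + c) L' x (HT hY A') lo
            then LW ΛX L * LW ΛY L' else 0) := by
      intro x
      refine (FS_le_heights ΛX hX τ i0 LocX (fun i L => dL zX L ∈ EX i) hEX _).trans ?_
      refine Finset.sum_le_sum fun i _ => ENNReal.tsum_le_tsum fun L => ?_
      by_cases hL : HT hX L = τ + i ∧ dL zX L ∈ EX i
      · rw [if_pos hL, ES, ← ENNReal.tsum_mul_left]
        refine ENNReal.tsum_le_tsum fun L' => ?_
        by_cases h2 : HT hY L' = n - HT hY A'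
        · by_cases h3 : C2 hX zX sX hY zY sY L (a + c) L' x (HT hY A') lo
          · rw [if_pos h2, if_pos h3, if_pos ⟨hL.1, hL.2, h2, h3⟩, mul_one]
          · rw [if_pos h2, if_neg h3, mul_zero, mul_zero]; exact zero_le
        · rw [if_neg h2, mul_zero]; exact zero_le
      · rw [if_neg hL]; exact zero_le
    calc ∑' x, μ x * FS ΛX hX τ i0 (fun P =>
        if LocX P then ES ΛY hY (n - HT hY A') (fun L' =>
        if C2 hX zX sX hY zY sY P (a + c) L' x (HT hY A') lo then 1 else 0) else 0)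
        ≤ ∑' x, ∑ i ∈ Finset.range (i0 + 1), μ x * ∑' L : List BX, ∑' L' : List BY,
          (if HT hX L = τ + i ∧ dL zX L ∈ EX i ∧ HT hY L' = n - HT hY A' ∧
            C2 hX zX sX hY zY sY L (a + c) L' x (HT hY A') lo
            then LW ΛX L * LW ΛY L' else 0) := by
          refine ENNReal.tsum_le_tsum fun x => ?_
          rw [← Finset.mul_sum]
          exact mul_le_mul_right (hstep x) _
      _ = ∑ i ∈ Finset.range (i0 + 1), ∑' x, μ x * ∑' L : List BX, ∑' L' : List BY,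
          (if HT hX L = τ + i ∧ dL zX L ∈ EX i ∧ HT hY L' = n - HT hY A' ∧
            C2 hX zX sX hY zY sY L (a + c) L' x (HT hY A') lo
            then LW ΛX L * LW ΛY L' else 0) :=
          Summable.tsum_finsetSum (fun _ _ => ENNReal.summable)
      _ ≤ ∑ i ∈ Finset.range (i0 + 1), RHS := by
          refine Finset.sum_le_sum fun i _ => ?_
          refine (hH2 i0 s (τ + i) (n - HT hY A') (a + c) (HT hY A') lo (EX i) μ M lam hμ1
            (fun x => hg _) hl0 hl1 (by omega) (by omega) (by omega)).trans ?_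
          rw [hRHS]
          gcongr
          exact hME i
      _ = (i0 + 1) * RHS := by
          rw [Finset.sum_const, Finset.card_range, nsmul_eq_mul]
          push_cast
          rfl
  calc ∑ c ∈ Finset.range (i0 + 1), ∑' z, g z * Ψ (a + c) z
      ≤ ∑ c ∈ Finset.range (i0 + 1), (i0 + 1) * RHS := Finset.sum_le_sum key
    _ = (i0 + 1) * ((i0 + 1) * RHS) := by
        rw [Finset.sum_const, Finset.card_range, nsmul_eq_mul]
        push_cast
        rfl

open Classical in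
lemma T3_le (h1X : ∀ b, 1 ≤ hX b) (h1Y : ∀ b, 1 ≤ hY b) (hΛX : ∑' b, ΛX b ≤ 1)
    (hΛY : ∑' b, ΛY b ≤ 1)
    (C : ℝ≥0∞) (us : ℕ → ℕ → ℝ≥0∞) (hH3 : H3 ΛX hX zX sX ΛY hY zY sY C us)
    (a τ i0 s hi : ℕ) (w : G) (hhi : hi + s ≤ a + τ)
    (LocY : List BY → Prop) (EY : ℕ → Finset G)
    (hEY : ∀ P, fp hY τ P → HT hY P ≤ τ + i0 → LocY P → dL zY P ∈ EY (HT hY P - τ))
    (g b : G → ℝ≥0∞) (hgb : ∀ z, mL ΛY hY zY a z = g z + b z) (M K1 lam : ℝ≥0∞)
    (hg : ∀ z, g z ≤ M) (hME : ∀ i, M * (EY i).card ≤ K1) (hl0 : lam ≠ 0) (hl1 : lam ≠ ⊤) :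
    FS ΛX hX a i0 (fun A => FS ΛX hX τ i0 (fun P => FS ΛY hY a i0 (fun A' =>
      FS ΛY hY τ i0 (fun P' => if LocY P' then
        (if C3 hX zX sX hY zY sY P (HT hX A) P' (w + dL zY A' - dL zX A) (HT hY A') hi
        then 1 else 0) else 0))))
      ≤ (i0 + 1) * ((i0 + 1) * ((i0 + 1) *
        (C * (lam + K1 * us (2 * i0) s / lam + us (2 * i0) s)))) + ∑' z, b z := by
  set RHS : ℝ≥0∞ := C * (lam + K1 * us (2 * i0) s / lam + us (2 * i0) s) with hRHS
  have hsum : ∑' z, g z ≤ 1 := by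
    calc ∑' z, g z ≤ ∑' z, mL ΛY hY zY a z :=
          ENNReal.tsum_le_tsum fun z => by rw [hgb]; exact le_self_add
      _ ≤ 1 := sum_mL ΛY hY zY h1Y hΛY a
  refine FS_le_const ΛX hX h1X hΛX fun A hA hA2 => ?_
  have hA1 := le_HT_of_fp hX hA
  rw [FS_comm]
  set Ψ : ℕ → G → ℝ≥0∞ := fun c z => FS ΛX hX τ i0 (fun P =>
      FS ΛY hY τ i0 (fun P' => if LocY P' then
        (if C3 hX zX sX hY zY sY P (HT hX A) P' (w + z - dL zX A) c hi
        then 1 else 0) else 0)) with hΨ
  have h0 := dens_apply ΛY hY zY hgb Ψ (a := a) (i0 := i0) (fun c z _ _ => by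
    refine FS_le_const ΛX hX h1X hΛX fun P _ _ => FS_le_const ΛY hY h1Y hΛY fun P' _ _ => ?_
    split_ifs
    · exact le_rfl
    · exact zero_le
    · exact zero_le)
  refine h0.trans (add_le_add ?_ le_rfl)
  have key : ∀ c ∈ Finset.range (i0 + 1), ∑' z, g z * Ψ (a + c) z
      ≤ (i0 + 1) * ((i0 + 1) * RHS) := by
    intro c hc
    have hc' := Finset.mem_range.1 hc
    rw [← (Equiv.subRight (w - dL zX A)).tsum_eq]
    simp only [Equiv.subRight_apply]
    set μ : G → ℝ≥0∞ := fun x => g (x - (w - dL zX A)) with hμ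
    have hμ1 : ∑' x, μ x ≤ 1 := (tsum_shift g (w - dL zX A)).trans_le hsum
    have hstep : ∀ x, Ψ (a + c) (x - (w - dL zX A))
        ≤ ∑ i ∈ Finset.range (i0 + 1), ∑ i' ∈ Finset.range (i0 + 1),
          ∑' L : List BX, ∑' L' : List BY,
          (if HT hX L = τ + i ∧ HT hY L' = τ + i' ∧ dL zY L' ∈ EY i' ∧
            C3 hX zX sX hY zY sY L (HT hX A) L' x (a + c) hi
            then LW ΛX L * LW ΛY L' else 0) := by
      intro x
      have ex : w + (x - (w - dL zX A)) - dL zX A = x := by abel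
      simp only [hΨ, ex]
      refine (FS_le_heights0 ΛX hX τ i0 _).trans ?_
      refine Finset.sum_le_sum fun i _ => ?_
      rw [← Summable.tsum_finsetSum (fun _ _ => ENNReal.summable)]
      refine ENNReal.tsum_le_tsum fun L => ?_
      by_cases hL : HT hX L = τ + i
      · rw [if_pos hL]
        refine (mul_le_mul_right (FS_le_heights ΛY hY τ i0 LocY (fun i L => dL zY L ∈ EY i)
          hEY _) _).trans ?_
        rw [Finset.mul_sum]
        refine Finset.sum_le_sum fun i' _ => ?_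
        rw [← ENNReal.tsum_mul_left]
        refine ENNReal.tsum_le_tsum fun L' => ?_
        by_cases h2 : HT hY L' = τ + i' ∧ dL zY L' ∈ EY i'
        · by_cases h3 : C3 hX zX sX hY zY sY L (HT hX A) L' x (a + c) hi
          · rw [if_pos h2, if_pos h3, if_pos ⟨hL, h2.1, h2.2, h3⟩, mul_one]
          · rw [if_pos h2, if_neg h3, mul_zero, mul_zero]; exact zero_le
        · rw [if_neg h2, mul_zero]; exact zero_le
      · rw [if_neg hL]; exact zero_le
    calc ∑' x, μ x * Ψ (a + c) (x - (w - dL zX A))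
        ≤ ∑' x, ∑ i ∈ Finset.range (i0 + 1), ∑ i' ∈ Finset.range (i0 + 1),
          μ x * ∑' L : List BX, ∑' L' : List BY,
          (if HT hX L = τ + i ∧ HT hY L' = τ + i' ∧ dL zY L' ∈ EY i' ∧
            C3 hX zX sX hY zY sY L (HT hX A) L' x (a + c) hi
            then LW ΛX L * LW ΛY L' else 0) := by
          refine ENNReal.tsum_le_tsum fun x => ?_
          simp only [← Finset.mul_sum]
          exact mul_le_mul_right (hstep x) _
      _ = ∑ i ∈ Finset.range (i0 + 1), ∑ i' ∈ Finset.range (i0 + 1),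
          ∑' x, μ x * ∑' L : List BX, ∑' L' : List BY,
          (if HT hX L = τ + i ∧ HT hY L' = τ + i' ∧ dL zY L' ∈ EY i' ∧
            C3 hX zX sX hY zY sY L (HT hX A) L' x (a + c) hi
            then LW ΛX L * LW ΛY L' else 0) := by
          rw [Summable.tsum_finsetSum (fun _ _ => ENNReal.summable)]
          refine Finset.sum_congr rfl fun i _ => ?_
          rw [Summable.tsum_finsetSum (fun _ _ => ENNReal.summable)]
      _ ≤ ∑ i ∈ Finset.range (i0 + 1), ∑ i' ∈ Finset.range (i0 + 1), RHS := by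
          refine Finset.sum_le_sum fun i hi' => Finset.sum_le_sum fun i' _ => ?_
          have := Finset.mem_range.1 hi'
          refine (hH3 (2 * i0) s (τ + i) (τ + i') (HT hX A) (a + c) hi (EY i') μ M lam hμ1
            (fun x => hg _) hl0 hl1 (by omega) (by omega) (by omega)).trans ?_
          rw [hRHS]
          gcongr
          exact hME i'
      _ = (i0 + 1) * ((i0 + 1) * RHS) := by
          rw [Finset.sum_const, Finset.sum_const, Finset.card_range, nsmul_eq_mul, nsmul_eq_mul]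
          push_cast
          rfl
  calc ∑ c ∈ Finset.range (i0 + 1), ∑' z, g z * Ψ (a + c) z
      ≤ ∑ c ∈ Finset.range (i0 + 1), (i0 + 1) * ((i0 + 1) * RHS) := Finset.sum_le_sum key
    _ = (i0 + 1) * ((i0 + 1) * ((i0 + 1) * RHS)) := by
        rw [Finset.sum_const, Finset.card_range, nsmul_eq_mul]
        push_cast
        rfl

end Crest.Agent.R154.Asm876
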