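import Crest.Agent.R154.AsmC_887

/-! Row 154, ROAD 801 (helper887): abstract assembly, part D: the bound of one window. -/

set_option autoImplicit false

namespace Crest.Agent.R154.Asm887

open scoped ENNReal
open Crest.Agent.R154.B5A Crest.Agent.R154.FP178
open Crest.Agent.R154.KWB419 (TT)

variable {BX BY G : Type*} [AddCommGroup G] (X : Sys BX G) (Y : Sys BY G)

lemma wf_mem {B : Type*} (Λ : B → ℝ≥0∞) (ht : B → ℕ) (a i0 : ℕ) (L : List B)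
    (h : wf Λ ht a i0 L ≠ 0) : HT ht L ∈ Finset.Icc a (a + i0) := by
  classical
  rw [wf] at h
  split_ifs at h with h'
  · exact Finset.mem_Icc.2 ⟨le_HT_of_fp ht h'.1, h'.2⟩
  · exact absurd rfl h

lemma card_Icc' (a i0 : ℕ) : ((Finset.Icc a (a + i0)).card : ℝ≥0∞) = i0 + 1 := by
  rw [Nat.card_Icc]
  have : a + i0 + 1 - a = i0 + 1 := by omega
  rw [this]; push_cast; rfl

/-- constant of a local window -/
noncomputable def Bd0 (C lam : ℝ≥0∞) (us : ℕ → ℝ≥0∞) (i0 J s : ℕ) : ℝ≥0∞ :=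
  C * (lam + (i0 + 1) * J * us s / lam + us s)

lemma bd0_le (C lam θ : ℝ≥0∞) (us : ℕ → ℝ≥0∞) (i0 J s : ℕ) (c : ℕ) (hc : θ * c ≤ 1) :
    C * (lam + θ * (i0 + 1) * J * c * us s / lam + us s) ≤ Bd0 C lam us i0 J s := by
  unfold Bd0
  have h : θ * (i0 + 1) * J * c ≤ (i0 + 1) * J := by
    calc θ * (i0 + 1) * J * c = (θ * c) * ((i0 + 1) * J) := by ring
      _ ≤ 1 * ((i0 + 1) * J) := by gcongr
      _ = _ := one_mul _
  gcongr C * (lam + ?_ * us s / lam + us s)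

open Classical in
theorem coreX {C : ℝ≥0∞} {us : ℕ → ℝ≥0∞} (h2 : H2 X Y C us) (a b0 τ τ' i0 J s lo : ℕ)
    (lam θ bad : ℝ≥0∞) (hl0 : lam ≠ 0) (hlt : lam ≠ ⊤) (g1 : a + i0 ≤ b0) (g2 : b0 + i0 + s ≤ lo)
    (w : G) (E : ℕ → Finset G) (hE : ∀ η, θ * (E η).card ≤ 1)
    (b : ℕ → G → ℝ≥0∞) (hb : ∑' α, ∑' z, b α z ≤ bad)
    (hm : ∀ α z, (∑' A, if HT X.h A = α ∧ (A.map X.z).sum = z then wf X.Λ X.h a i0 A else 0)
      ≤ θ * (i0 + 1) * J + b α z)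
    (Q : ℕ → ℕ → G → List BX → List BY → Prop)
    (hQ1 : ∀ α α' x P P', Q α α' x P P' → (P.map X.z).sum ∈ E (HT X.h P))
    (hQ2 : ∀ α α' x P P', Q α α' x P P' → ∃ y k, Both X Y P P' x α α' y k)
    (hQ3 : ∀ α α' x P P', Q α α' x P P' → ∀ y k, Both X Y P P' x α α' y k → lo ≤ k) :
    CORE X Y a b0 τ τ' i0 w Q
      ≤ (i0 + 1) * ((i0 + 1) * (i0 + 1) * Bd0 C lam us i0 J s) + bad := by
  have h := core (wf X.Λ X.h a i0) (HT X.h) (fun A => (A.map X.z).sum)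
    (wf Y.Λ Y.h b0 i0) (HT Y.h) (fun A => (A.map Y.z).sum)
    (wf X.Λ X.h τ i0) (wf Y.Λ Y.h τ' i0)
    (sum_wf X.Λ X.h X.h1 X.hΛ.le a i0) (sum_wf Y.Λ Y.h Y.h1 Y.hΛ.le b0 i0)
    (sum_wf X.Λ X.h X.h1 X.hΛ.le τ i0) (sum_wf Y.Λ Y.h Y.h1 Y.hΛ.le τ' i0)
    (Finset.Icc a (a + i0)) (Finset.Icc b0 (b0 + i0))
    (fun A hA => wf_mem X.Λ X.h a i0 A hA) (fun A hA => wf_mem Y.Λ Y.h b0 i0 A hA)
    Q w (θ * (i0 + 1) * J) ((i0 + 1) * (i0 + 1) * Bd0 C lam us i0 J s) bad b hb hm ?_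
  · rw [card_Icc'] at h
    exact h
  intro α hα α' hα' μ hμ1 hμ2
  rw [Finset.mem_Icc] at hα hα'
  have := sum_heights X Y (Finset.Icc τ (τ + i0)) (Finset.Icc τ' (τ' + i0))
    (wf X.Λ X.h τ i0) (wf Y.Λ Y.h τ' i0)
    (fun A hA => wf_mem X.Λ X.h τ i0 A hA) (fun A hA => wf_mem Y.Λ Y.h τ' i0 A hA)
    (fun A => wf_le X.Λ X.h τ i0 A) (fun A => wf_le Y.Λ Y.h τ' i0 A)
    (fun x P P' => Q α α' x P P')
    (fun η η' x P P' => HT X.h P = η ∧ (P.map X.z).sum ∈ E η ∧ HT Y.h P' = η' ∧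
      (∃ y k, (y, k) ∈ TT X.s X.h X.z P 0 α ∧ (y, k) ∈ TT Y.s Y.h Y.z P' x α') ∧
      (∀ y k, (y, k) ∈ TT X.s X.h X.z P 0 α → (y, k) ∈ TT Y.s Y.h Y.z P' x α' → lo ≤ k))
    (by
      intro η η' x P P' e1 e2 hQ
      refine ⟨e1, e1 ▸ hQ1 _ _ _ _ _ hQ, e2, hQ2 _ _ _ _ _ hQ, fun y k h1 h2 =>
        hQ3 _ _ _ _ _ hQ y k ⟨h1, h2⟩⟩)
    μ (Bd0 C lam us i0 J s) (by
      intro η _ η' _
      have hh := h2 s η η' α α' lo (E η) μ (θ * (i0 + 1) * J) lam hμ1 hμ2 hl0 hlt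
        (by omega) (by omega) (by omega)
      refine le_trans (le_of_eq ?_) (hh.trans (bd0_le C lam θ us i0 J s _ (hE η)))
      refine tsum_congr fun x => ?_
      congr 1
      refine tsum_congr fun P => tsum_congr fun P' => ?_
      congr)
  rw [card_Icc', card_Icc'] at this
  exact this

open Classical in
theorem coreY {C : ℝ≥0∞} {us : ℕ → ℝ≥0∞} (h3 : H3 X Y C us) (a b0 τ τ' i0 J s hi : ℕ)
    (lam θ bad : ℝ≥0∞) (hl0 : lam ≠ 0) (hlt : lam ≠ ⊤)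
    (g1 : a + i0 + (τ + i0) ≤ b0 + τ') (g2 : hi + s ≤ a + τ)
    (w : G) (E : ℕ → Finset G) (hE : ∀ η, θ * (E η).card ≤ 1)
    (b : ℕ → G → ℝ≥0∞) (hb : ∑' α, ∑' z, b α z ≤ bad)
    (hm : ∀ α z, (∑' A, if HT Y.h A = α ∧ (A.map Y.z).sum = z then wf Y.Λ Y.h b0 i0 A else 0)
      ≤ θ * (i0 + 1) * J + b α z)
    (Q : ℕ → ℕ → G → List BX → List BY → Prop)
    (hQ1 : ∀ α α' x P P', Q α α' x P P' → (P'.map Y.z).sum ∈ E (HT Y.h P'))
    (hQ2 : ∀ α α' x P P', Q α α' x P P' → ∃ y k, Both X Y P P' x α α' y k)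
    (hQ3 : ∀ α α' x P P', Q α α' x P P' → ∀ y k, Both X Y P P' x α α' y k → k ≤ hi) :
    CORE X Y a b0 τ τ' i0 w Q
      ≤ (i0 + 1) * ((i0 + 1) * (i0 + 1) * Bd0 C lam us i0 J s) + bad := by
  have h := core (wf Y.Λ Y.h b0 i0) (HT Y.h) (fun A => (A.map Y.z).sum)
    (wf X.Λ X.h a i0) (HT X.h) (fun A => (A.map X.z).sum)
    (wf Y.Λ Y.h τ' i0) (wf X.Λ X.h τ i0)
    (sum_wf Y.Λ Y.h Y.h1 Y.hΛ.le b0 i0) (sum_wf X.Λ X.h X.h1 X.hΛ.le a i0)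
    (sum_wf Y.Λ Y.h Y.h1 Y.hΛ.le τ' i0) (sum_wf X.Λ X.h X.h1 X.hΛ.le τ i0)
    (Finset.Icc b0 (b0 + i0)) (Finset.Icc a (a + i0))
    (fun A hA => wf_mem Y.Λ Y.h b0 i0 A hA) (fun A hA => wf_mem X.Λ X.h a i0 A hA)
    (fun α' α x P' P => Q α α' (-x) P P') (-w) (θ * (i0 + 1) * J)
    ((i0 + 1) * (i0 + 1) * Bd0 C lam us i0 J s) bad b hb hm ?_
  · rw [card_Icc'] at h
    refine le_trans (le_of_eq ?_) h
    unfold CORE
    simp_rw [← ENNReal.tsum_mul_left]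
    rw [ENNReal.tsum_comm]
    refine tsum_congr fun A' => tsum_congr fun A => ?_
    rw [ENNReal.tsum_comm]
    refine tsum_congr fun P' => tsum_congr fun P => ?_
    have e : -(-w + (A.map X.z).sum - (A'.map Y.z).sum)
        = w + (A'.map Y.z).sum - (A.map X.z).sum := by abel
    rw [e]
    split_ifs
    · ring
    · simp
  intro α' hα' α hα μ hμ1 hμ2
  rw [Finset.mem_Icc] at hα hα'
  have := sum_heights X Y (Finset.Icc τ (τ + i0)) (Finset.Icc τ' (τ' + i0))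
    (wf X.Λ X.h τ i0) (wf Y.Λ Y.h τ' i0)
    (fun A hA => wf_mem X.Λ X.h τ i0 A hA) (fun A hA => wf_mem Y.Λ Y.h τ' i0 A hA)
    (fun A => wf_le X.Λ X.h τ i0 A) (fun A => wf_le Y.Λ Y.h τ' i0 A)
    (fun x P P' => Q α α' x P P')
    (fun η η' x P P' => HT X.h P = η ∧ HT Y.h P' = η' ∧ (P'.map Y.z).sum ∈ E η' ∧
      (∃ y k, (y, k) ∈ TT X.s X.h X.z P 0 α ∧ (y, k) ∈ TT Y.s Y.h Y.z P' x α') ∧
      (∀ y k, (y, k) ∈ TT X.s X.h X.z P 0 α → (y, k) ∈ TT Y.s Y.h Y.z P' x α' → k ≤ hi))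
    (by
      intro η η' x P P' e1 e2 hQ
      refine ⟨e1, e2, e2 ▸ hQ1 _ _ _ _ _ hQ, hQ2 _ _ _ _ _ hQ, fun y k h1 h2 =>
        hQ3 _ _ _ _ _ hQ y k ⟨h1, h2⟩⟩)
    (fun x => μ (-x)) (Bd0 C lam us i0 J s) (by
      intro η hη η' hη'
      rw [Finset.mem_Icc] at hη hη'
      have hμ3 : ∑' x, μ (-x) ≤ 1 := by
        calc ∑' x, μ (-x) = ∑' x, μ x := (Equiv.neg G).tsum_eq (fun x => μ x)
          _ ≤ 1 := hμ1
      have hh := h3 s η η' α α' hi (E η') (fun x => μ (-x)) (θ * (i0 + 1) * J) lam hμ3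
        (fun x => hμ2 _) hl0 hlt (by omega) (by omega) (by omega)
      refine le_trans (le_of_eq ?_) (hh.trans (bd0_le C lam θ us i0 J s _ (hE η')))
      refine tsum_congr fun x => ?_
      congr 1
      refine tsum_congr fun P => tsum_congr fun P' => ?_
      congr)
  rw [card_Icc', card_Icc'] at this
  refine le_trans (le_of_eq ?_) this
  have e := (Equiv.neg G).tsum_eq (fun x => μ (-x) * ∑' P, ∑' P',
    (if Q α α' x P P' then wf X.Λ X.h τ i0 P * wf Y.Λ Y.h τ' i0 P' else 0))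
  rw [← e]
  refine tsum_congr fun x => ?_
  simp only [Equiv.neg_apply, neg_neg]
  congr 1
  rw [ENNReal.tsum_comm]
  refine tsum_congr fun P => tsum_congr fun P' => ?_
  rw [mul_comm]

open Classical in
theorem coreN (a b0 τ τ' i0 : ℕ) (u : ℝ≥0∞) (w : G) (EX EY : ℕ → Finset G)
    (hX : ∑' P, (if (P.map X.z).sum ∈ EX (HT X.h P) then 0 else wf X.Λ X.h τ i0 P) ≤ u)
    (hY : ∑' P, (if (P.map Y.z).sum ∈ EY (HT Y.h P) then 0 else wf Y.Λ Y.h τ' i0 P) ≤ u)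
    (Q : ℕ → ℕ → G → List BX → List BY → Prop)
    (hQ : ∀ α α' x P P', Q α α' x P P' → (P.map X.z).sum ∉ EX (HT X.h P) ∧
      (P'.map Y.z).sum ∉ EY (HT Y.h P')) :
    CORE X Y a b0 τ τ' i0 w Q ≤ u * u := by
  unfold CORE
  calc ∑' A, wf X.Λ X.h a i0 A * ∑' A', wf Y.Λ Y.h b0 i0 A' * ∑' P, ∑' P',
        (if Q (HT X.h A) (HT Y.h A') (w + (A'.map Y.z).sum - (A.map X.z).sum) P P'
          then wf X.Λ X.h τ i0 P * wf Y.Λ Y.h τ' i0 P' else 0)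
      ≤ ∑' A, wf X.Λ X.h a i0 A * ∑' A', wf Y.Λ Y.h b0 i0 A' * (u * u) := by
        refine ENNReal.tsum_le_tsum fun A => mul_le_mul_right (ENNReal.tsum_le_tsum fun A' =>
          mul_le_mul_right ?_ _) _
        calc ∑' P, ∑' P', (if Q (HT X.h A) (HT Y.h A')
                (w + (A'.map Y.z).sum - (A.map X.z).sum) P P'
                then wf X.Λ X.h τ i0 P * wf Y.Λ Y.h τ' i0 P' else 0)
            ≤ ∑' P, ∑' P', (if (P.map X.z).sum ∈ EX (HT X.h P) then 0 else wf X.Λ X.h τ i0 P)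
              * (if (P'.map Y.z).sum ∈ EY (HT Y.h P') then 0 else wf Y.Λ Y.h τ' i0 P') := by
              refine ENNReal.tsum_le_tsum fun P => ENNReal.tsum_le_tsum fun P' => ?_
              by_cases h : Q (HT X.h A) (HT Y.h A')
                (w + (A'.map Y.z).sum - (A.map X.z).sum) P P'
              · obtain ⟨h1, h2⟩ := hQ _ _ _ _ _ h
                rw [if_pos h, if_neg h1, if_neg h2]
              · rw [if_neg h]; exact zero_le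
          _ = (∑' P, (if (P.map X.z).sum ∈ EX (HT X.h P) then 0 else wf X.Λ X.h τ i0 P))
              * ∑' P', (if (P'.map Y.z).sum ∈ EY (HT Y.h P') then 0 else
                wf Y.Λ Y.h τ' i0 P') := by
              simp_rw [ENNReal.tsum_mul_left, ENNReal.tsum_mul_right]
          _ ≤ u * u := mul_le_mul' hX hY
    _ = (∑' A, wf X.Λ X.h a i0 A) * ((∑' A', wf Y.Λ Y.h b0 i0 A') * (u * u)) := by
        rw [ENNReal.tsum_mul_right, ENNReal.tsum_mul_right]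
    _ ≤ 1 * (1 * (u * u)) := by
        gcongr
        · exact sum_wf X.Λ X.h X.h1 X.hΛ.le a i0
        · exact sum_wf Y.Λ Y.h Y.h1 Y.hΛ.le b0 i0
    _ = u * u := by rw [one_mul, one_mul]

lemma CORE_add (a b0 τ τ' i0 : ℕ) (w : G) (Q Q1 Q2 Q3 : ℕ → ℕ → G → List BX → List BY → Prop)
    (h : ∀ α α' x P P', Q α α' x P P' → Q1 α α' x P P' ∨ Q2 α α' x P P' ∨ Q3 α α' x P P') :
    CORE X Y a b0 τ τ' i0 w Q ≤ CORE X Y a b0 τ τ' i0 w Q1 + CORE X Y a b0 τ τ' i0 w Q2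
      + CORE X Y a b0 τ τ' i0 w Q3 := by
  classical
  unfold CORE
  rw [← ENNReal.tsum_add, ← ENNReal.tsum_add]
  refine ENNReal.tsum_le_tsum fun A => ?_
  rw [← mul_add, ← mul_add, ← ENNReal.tsum_add, ← ENNReal.tsum_add]
  refine mul_le_mul_right (ENNReal.tsum_le_tsum fun A' => ?_) _
  rw [← mul_add, ← mul_add, ← ENNReal.tsum_add, ← ENNReal.tsum_add]
  refine mul_le_mul_right (ENNReal.tsum_le_tsum fun P => ?_) _
  rw [← ENNReal.tsum_add, ← ENNReal.tsum_add]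
  refine ENNReal.tsum_le_tsum fun P' => ?_
  by_cases hQ : Q (HT X.h A) (HT Y.h A') (w + (A'.map Y.z).sum - (A.map X.z).sum) P P'
  · rw [if_pos hQ]
    rcases h _ _ _ _ _ hQ with h | h | h
    · rw [if_pos h, add_assoc]; exact le_self_add
    · rw [add_assoc, if_pos h]; exact le_add_left le_self_add
    · rw [if_pos h]; exact le_add_self
  · rw [if_neg hQ]; exact zero_le

end Crest.Agent.R154.Asm887
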