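import Crest.Agent.R154.AsmC_903

/-! Row 154, ROAD 801 (helper903): the assembly. -/

set_option autoImplicit false

namespace Crest.Agent.R154.Asm903

open scoped ENNReal Classical Topology
open Finset Filter
open Crest.Agent.R154.B5A Crest.Agent.R154.FP178

section one

variable {G B : Type*} [AddCommGroup G]
variable (s : B → Set (G × ℕ)) (z : B → G) (h : B → ℕ)

lemma piece_mem' (hs : ∀ b, ∀ q ∈ s b, 1 ≤ q.2 ∧ q.2 ≤ h b) (T i0 K : ℕ) (Ps : List (List B))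
    (hlen : Ps.length = K) (hP : ∀ P ∈ Ps, T ≤ HT h P ∧ HT h P ≤ T + i0) (R : List B) (x : G)
    (a0 : ℕ) (j : ℕ) (hj : j < K) :
    (j * T ≤ HT h (Ps.take j).flatten ∧ HT h (Ps.take j).flatten ≤ j * T + K * i0) ∧
    ((j + 1) * T ≤ HT h (Ps.take j).flatten + HT h (pc j Ps) ∧
      HT h (Ps.take j).flatten + HT h (pc j Ps) ≤ (j + 1) * T + K * i0) ∧
    (∀ y k, a0 + j * T + K * i0 < k → k ≤ a0 + (j + 1) * T →
      (y, k) ∈ TT s z h (Ps.flatten ++ R) x a0 →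
      (y, k) ∈ TT s z h (pc j Ps) (x + Dp z (Ps.take j).flatten)
        (a0 + HT h (Ps.take j).flatten)) ∧
    (∀ y k, (y, k) ∈ TT s z h (pc j Ps) (x + Dp z (Ps.take j).flatten)
      (a0 + HT h (Ps.take j).flatten) → (y, k) ∈ TT s z h (Ps.flatten ++ R) x a0) := by
  obtain ⟨rest, e, hmem⟩ := pc_spec j Ps (by omega)
  have hpc := hP _ hmem
  have htk := HT_pieces h T i0 (Ps.take j) (fun P hP' => hP P (List.mem_of_mem_take hP'))
  have hl : (Ps.take j).length = j := by rw [List.length_take]; omega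
  rw [hl] at htk
  have hji : j * i0 + i0 ≤ K * i0 := by
    have : (j + 1) * i0 ≤ K * i0 := Nat.mul_le_mul_right _ hj
    linarith [this, Nat.succ_mul j i0]
  have hT1 : (j + 1) * T = j * T + T := Nat.succ_mul j T
  have hfl : Ps.flatten ++ R = (Ps.take j).flatten ++ (pc j Ps ++ (rest.flatten ++ R)) := by
    conv_lhs => rw [e]
    simp [List.append_assoc]
  refine ⟨⟨htk.1, by omega⟩, ⟨by omega, by omega⟩, ?_, ?_⟩
  · intro y k h1 h2 hk
    rw [hfl, TT_append, TT_append] at hk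
    rcases hk with hk | hk | hk
    · have := (TT_depth s z h hs _ _ _ _ _ hk).2; omega
    · exact hk
    · have := (TT_depth s z h hs _ _ _ _ _ hk).1; omega
  · intro y k hk
    rw [hfl, TT_append, TT_append]
    exact Or.inr (Or.inl hk)

end one

section drop

variable {A : Type*} (Λ : List A → ℝ≥0∞)

lemma SL_drop (hΛ : ∑' P, Λ P ≤ 1) (K j : ℕ) (hj : j < K)
    (Φ : List (List A) → List A → ℝ≥0∞) :
    SL Λ K (fun Ps => Φ (Ps.take j) (pc j Ps)) ≤ SL Λ j (fun Ps => ∑' P, Λ P * Φ Ps P) := by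
  obtain ⟨r, rfl⟩ : ∃ r, K = j + (r + 1) := ⟨K - j - 1, by omega⟩
  rw [SL_add]
  refine SL_mono Λ j fun L hL => ?_
  rw [SL_succ]
  refine ENNReal.tsum_le_tsum fun P => mul_le_mul_right ?_ _
  refine le_trans (SL_mono Λ r (F' := fun _ => Φ L P) fun L' _ => ?_) (SL_le_const Λ hΛ r _)
  have e1 : (L ++ P :: L').take j = L := List.take_left' hL
  have e2 : pc j (L ++ P :: L') = P := by
    rw [pc, List.drop_left' hL]; rfl
  rw [e1, e2]

end drop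

section main

variable {G BX BY : Type*} [AddCommGroup G]
  {ΛX : BX → ℝ≥0∞} {hX : BX → ℕ} {zX : BX → G} {sX : BX → Set (G × ℕ)}
  {ΛY : BY → ℝ≥0∞} {hY : BY → ℕ} {zY : BY → G} {sY : BY → Set (G × ℕ)}

lemma CtL_shift (P : List BX) (v : G) (a : ℕ) (Q : List BY) (x : G) (a' k : ℕ) :
    CtL hX zX sX hY zY sY P v a Q x a' k ↔ CtL hX zX sX hY zY sY P 0 a Q (x - v) a' k := by
  constructor
  · rintro ⟨y, h1, h2⟩
    refine ⟨y - v, ?_, ?_⟩
    · rw [← TT_shift, zero_add]; exact h1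
    · rw [← TT_shift, sub_add_cancel]; exact h2
  · rintro ⟨y, h1, h2⟩
    refine ⟨y + v, ?_, ?_⟩
    · have := (TT_shift sX zX hX P 0 v a (y + v) k).2 (by rwa [add_sub_cancel_right])
      rwa [zero_add] at this
    · have := (TT_shift sY zY hY Q (x - v) v a' (y + v) k).2 (by rwa [add_sub_cancel_right])
      rwa [sub_add_cancel] at this

lemma pt (hsX : ∀ b, ∀ q ∈ sX b, 1 ≤ q.2 ∧ q.2 ≤ hX b) (hsY : ∀ b, ∀ q ∈ sY b, 1 ≤ q.2 ∧ q.2 ≤ hY b)
    (T i0 K J0 s m : ℕ) (w : G) (hT : 0 < T) (hJ0 : 1 ≤ J0) (hJT : J0 * T ≤ m)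
    (hKT : 2 * m ≤ K * T) (hsT : s ≤ T)
    (Ps : List (List BX)) (Qs : List (List BY)) (Q0 : List BY) (R : List BX) (R' : List BY)
    (hPl : Ps.length = K) (hQl : Qs.length = K)
    (hPs : ∀ P ∈ Ps, T ≤ HT hX P ∧ HT hX P ≤ T + i0)
    (hQs : ∀ Q ∈ Qs, T ≤ HT hY Q ∧ HT hY Q ≤ T + i0)
    (hQ0 : K * i0 + i0 ≤ HT hY Q0 ∧ HT hY Q0 ≤ K * i0 + i0 + i0)
    (hex : ∃ k, m < k ∧ k ≤ 2 * m ∧
      CtL hX zX sX hY zY sY (Ps.flatten ++ R) 0 0 (Q0 ++ (Qs.flatten ++ R')) w 0 k)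
    (hno : ∀ k i, J0 ≤ i → i ≤ K → i * T - s ≤ k → k < i * T - s + ((2 * K + 2) * i0 + 2 * s + 1) →
      ¬ CtL hX zX sX hY zY sY (Ps.flatten ++ R) 0 0 (Q0 ++ (Qs.flatten ++ R')) w 0 k) :
    ∃ j ∈ Ico J0 K, Ev hX zX sX hY zY sY (j * T + (2 * K + 2) * i0 + s) ((j + 1) * T - s)
      (pc j Ps) (HT hX (Ps.take j).flatten) (pc j Qs)
      (w + Dp zY Q0 + Dp zY (Qs.take j).flatten - Dp zX (Ps.take j).flatten)
      (HT hY Q0 + HT hY (Qs.take j).flatten) := by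
  obtain ⟨k, hmk, hk2, hct⟩ := hex
  set j := k / T with hjd
  have hdm := Nat.div_add_mod k T
  have hml := Nat.mod_lt k hT
  rw [← hjd] at hdm
  have hTj : T * j = j * T := Nat.mul_comm _ _
  have hT1 : (j + 1) * T = j * T + T := Nat.succ_mul j T
  have hK2 : (2 * K + 2) * i0 = K * i0 + K * i0 + 2 * i0 := by ring
  have hj1 : J0 ≤ j := by
    rw [hjd, Nat.le_div_iff_mul_le hT]; omega
  have hTle : T ≤ j * T := Nat.le_mul_of_pos_left _ (by omega)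
  have hjK : j ≤ K := by
    by_contra hc
    have : (K + 1) * T ≤ j * T := Nat.mul_le_mul_right _ (by omega)
    have h2 : (K + 1) * T = K * T + T := Nat.succ_mul K T
    omega
  have hn1 : ¬ (j * T - s ≤ k ∧ k < j * T - s + ((2 * K + 2) * i0 + 2 * s + 1)) := fun hc =>
    hno k j hj1 hjK hc.1 hc.2 hct
  have hjK' : j < K := by
    rcases hjK.lt_or_eq with h | h
    · exact h
    · exfalso
      have : j * T = K * T := by rw [h]
      omega
  have hn2 : ¬ ((j + 1) * T - s ≤ k ∧ k < (j + 1) * T - s + ((2 * K + 2) * i0 + 2 * s + 1)) :=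
    fun hc => hno k (j + 1) (by omega) (by omega) hc.1 hc.2 hct
  obtain ⟨pX1, pX2, pX3, pX4⟩ := piece_mem' sX zX hX hsX T i0 K Ps hPl hPs R 0 0 j hjK'
  obtain ⟨pY1, pY2, pY3, pY4⟩ := piece_mem' sY zY hY hsY T i0 K Qs hQl hQs R' (w + Dp zY Q0)
    (HT hY Q0) j hjK'
  have tr : ∀ k', CtL hX zX sX hY zY sY (pc j Ps) 0 (HT hX (Ps.take j).flatten) (pc j Qs)
      (w + Dp zY Q0 + Dp zY (Qs.take j).flatten - Dp zX (Ps.take j).flatten)
      (HT hY Q0 + HT hY (Qs.take j).flatten) k' ↔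
      CtL hX zX sX hY zY sY (pc j Ps) (0 + Dp zX (Ps.take j).flatten)
      (0 + HT hX (Ps.take j).flatten) (pc j Qs)
      (w + Dp zY Q0 + Dp zY (Qs.take j).flatten)
      (HT hY Q0 + HT hY (Qs.take j).flatten) k' := by
    intro k'
    rw [zero_add, zero_add, CtL_shift (v := Dp zX (Ps.take j).flatten)]
  refine ⟨j, by rw [Finset.mem_Ico]; exact ⟨hj1, hjK'⟩, ⟨k, ?_⟩, ?_⟩
  · rw [tr]
    obtain ⟨y, hy1, hy2⟩ := hct
    refine ⟨y, pX3 y k (by omega) (by omega) hy1, pY3 y k (by omega) (by omega) ?_⟩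
    rw [TT_append] at hy2
    rcases hy2 with hy2 | hy2
    · have := (TT_depth sY zY hY hsY _ _ _ _ _ hy2).2; omega
    · rwa [zero_add] at hy2
  · intro k' hk'
    rw [tr] at hk'
    obtain ⟨y, hy1, hy2⟩ := hk'
    have d1 := TT_depth sX zX hX hsX _ _ _ _ _ hy1
    have hct' : CtL hX zX sX hY zY sY (Ps.flatten ++ R) 0 0 (Q0 ++ (Qs.flatten ++ R')) w 0 k' := by
      refine ⟨y, pX4 y k' hy1, ?_⟩
      rw [TT_append]
      refine Or.inr ?_
      rw [zero_add]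
      exact pY4 y k' hy2
    have g1 : ¬ (j * T - s ≤ k' ∧ k' < j * T - s + ((2 * K + 2) * i0 + 2 * s + 1)) := fun hc =>
      hno k' j hj1 hjK hc.1 hc.2 hct'
    have g2 : ¬ ((j + 1) * T - s ≤ k' ∧
        k' < (j + 1) * T - s + ((2 * K + 2) * i0 + 2 * s + 1)) :=
      fun hc => hno k' (j + 1) (by omega) (by omega) hc.1 hc.2 hct'
    omega

/-- the clean part -/
theorem clean (h1X : ∀ b, 1 ≤ hX b) (h1Y : ∀ b, 1 ≤ hY b) (mX : ∑' b, ΛX b ≤ 1)
    (mY : ∑' b, ΛY b ≤ 1) (hUX : ∀ n, U ΛX hX n ≤ 1) (hUY : ∀ n, U ΛY hY n ≤ 1)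
    (hsX : ∀ b, ∀ q ∈ sX b, 1 ≤ q.2 ∧ q.2 ≤ hX b) (hsY : ∀ b, ∀ q ∈ sY b, 1 ≤ q.2 ∧ q.2 ≤ hY b)
    {C : ℝ≥0∞} {us : ℕ → ℝ≥0∞}
    (hH2 : H2 ΛX hX zX sX ΛY hY zY sY C us) (hH3 : H3 ΛX hX zX sX ΛY hY zY sY C us)
    (T i0 K J0 s m n : ℕ) (w : G) (hT : 0 < T) (hJ0 : 1 ≤ J0) (hJT : J0 * T ≤ m)
    (hKT : 2 * m ≤ K * T) (hsT : s ≤ T) (hn : K * i0 + i0 + i0 + K * (T + i0) ≤ n)
    (lam u : ℝ≥0∞) (hl0 : lam ≠ 0) (hlT : lam ≠ ⊤) (hu0 : u ≠ 0)
    (f : List BX → List BY → ℝ≥0∞) (hf1 : ∀ L L', f L L' ≤ 1)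
    (hf : ∀ L L', f L L' ≠ 0 → (∃ k, m < k ∧ k ≤ 2 * m ∧ CtL hX zX sX hY zY sY L 0 0 L' w 0 k) ∧
      ∀ k i, J0 ≤ i → i ≤ K → i * T - s ≤ k → k < i * T - s + ((2 * K + 2) * i0 + 2 * s + 1) →
        ¬ CtL hX zX sX hY zY sY L 0 0 L' w 0 k) :
    D ΛX hX n (fun LX => D ΛY hY n (fun LY => f LX LY))
      ≤ K * ∑' k, tail ΛX hX (i0 + k) + (K + 1) * ∑' k, tail ΛY hY (i0 + k)
        + K * (u * u + 2 * ((1 - u) ^ J0 + ((K * i0 + 1 : ℕ) : ℝ≥0∞) *
          (((K * i0 + 1 : ℕ) : ℝ≥0∞) * (((i0 + 1 : ℕ) : ℝ≥0∞) * ((i0 + 1 : ℕ) : ℝ≥0∞) *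
          (C * (lam + K * us s / lam + us s)))))) := by
  set ovX := ∑' k, tail ΛX hX (i0 + k)
  set ovY := ∑' k, tail ΛY hY (i0 + k)
  set off := K * i0 + i0 with hoff
  set LX := LP ΛX hX T i0 with hLX
  set LY := LP ΛY hY T i0 with hLY
  set L0 := LP ΛY hY off i0 with hL0
  have sX1 : ∑' P, LX P ≤ 1 := sum_LP ΛX hX h1X mX T i0
  have sY1 : ∑' P, LY P ≤ 1 := sum_LP ΛY hY h1Y mY T i0
  have s01 : ∑' P, L0 P ≤ 1 := sum_LP ΛY hY h1Y mY off i0
  set e : ℕ → List BY → List (List BX) → List BX → List (List BY) → List BY → ℝ≥0∞ :=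
    fun j Q0 Ps P Qs Q => if True ∧ Ev hX zX sX hY zY sY (j * T + (2 * K + 2) * i0 + s)
      ((j + 1) * T - s) P (HT hX Ps.flatten) Q
      (w + Dp zY Q0 + Dp zY Qs.flatten - Dp zX Ps.flatten)
      (HT hY Q0 + HT hY Qs.flatten) then 1 else 0 with he
  -- iterate for X
  refine (iter ΛX hX h1X hUX mX T i0 K n (by omega) _ (fun L => le_trans
    (D_mono ΛY hY n (F' := fun _ => 1) fun L' _ => hf1 L L') (D_const ΛY hY hUY n 1))).trans ?_
  have step2 : ∀ Ps : List (List BX), Ps.length = K → (∀ P ∈ Ps, LX P ≠ 0) →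
      D ΛX hX (n - HT hX Ps.flatten) (fun R => D ΛY hY n (fun LY => f (Ps.flatten ++ R) LY))
      ≤ (K + 1) * ovY + ∑' Q0, L0 Q0 * SL LY K (fun Qs =>
        ∑ j ∈ Ico J0 K, e j Q0 (Ps.take j) (pc j Ps) (Qs.take j) (pc j Qs)) := by
    intro Ps hPl hPs
    refine le_trans (D_mono ΛX hX _ (F' := fun _ => (K + 1) * ovY + ∑' Q0, L0 Q0 *
      SL LY K (fun Qs => ∑ j ∈ Ico J0 K, e j Q0 (Ps.take j) (pc j Ps) (Qs.take j) (pc j Qs)))
      fun R _ => ?_) (D_const ΛX hX hUX _ _)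
    refine (D_step ΛY hY h1Y hUY off i0 n (by omega) _ (fun L' => hf1 _ L')).trans ?_
    have e1 : ∀ Q0, L0 Q0 * D ΛY hY (n - HT hY Q0) (fun R' => f (Ps.flatten ++ R) (Q0 ++ R'))
        ≤ L0 Q0 * (K * ovY) + L0 Q0 * SL LY K (fun Qs =>
        ∑ j ∈ Ico J0 K, e j Q0 (Ps.take j) (pc j Ps) (Qs.take j) (pc j Qs)) := by
      intro Q0
      by_cases h0 : L0 Q0 = 0
      · rw [h0, zero_mul]; exact zero_le
      rw [← mul_add]
      refine mul_le_mul_right ?_ _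
      have hQ0 := LP_ne ΛY hY h0
      refine (iter ΛY hY h1Y hUY mY T i0 K (n - HT hY Q0) (by omega) _
        (fun L' => hf1 _ _)).trans ?_
      refine add_le_add le_rfl (SL_mono' _ K fun Qs hQl hQs => ?_)
      refine le_trans (D_mono ΛY hY _ (F' := fun _ =>
        ∑ j ∈ Ico J0 K, e j Q0 (Ps.take j) (pc j Ps) (Qs.take j) (pc j Qs))
        fun R' _ => ?_) (D_const ΛY hY hUY _ _)
      by_cases hf0 : f (Ps.flatten ++ R) (Q0 ++ (Qs.flatten ++ R')) = 0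
      · rw [hf0]; exact zero_le
      obtain ⟨hex, hno⟩ := hf _ _ hf0
      obtain ⟨j, hj, hE⟩ := pt hsX hsY T i0 K J0 s m w hT hJ0 hJT hKT hsT Ps Qs Q0 R R' hPl hQl
        (fun P hP => LP_ne ΛX hX (hPs P hP)) (fun Q hQ => LP_ne ΛY hY (hQs Q hQ)) hQ0 hex hno
      refine (hf1 _ _).trans ?_
      refine le_trans ?_ (Finset.single_le_sum (f := fun j =>
        e j Q0 (Ps.take j) (pc j Ps) (Qs.take j) (pc j Qs)) (fun _ _ => zero_le) hj)
      rw [he]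
      simp only
      rw [if_pos ⟨trivial, hE⟩]
    calc ovY + ∑' Q0, L0 Q0 * D ΛY hY (n - HT hY Q0) (fun R' => f (Ps.flatten ++ R) (Q0 ++ R'))
        ≤ ovY + ∑' Q0, (L0 Q0 * (K * ovY) + L0 Q0 * SL LY K (fun Qs =>
        ∑ j ∈ Ico J0 K, e j Q0 (Ps.take j) (pc j Ps) (Qs.take j) (pc j Qs))) := by
          gcongr ovY + ?_
          exact ENNReal.tsum_le_tsum e1
      _ = (ovY + (∑' Q0, L0 Q0) * (K * ovY)) + ∑' Q0, L0 Q0 * SL LY K (fun Qs =>
        ∑ j ∈ Ico J0 K, e j Q0 (Ps.take j) (pc j Ps) (Qs.take j) (pc j Qs)) := by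
          rw [ENNReal.tsum_add, ENNReal.tsum_mul_right, add_assoc]
      _ ≤ (ovY + 1 * (K * ovY)) + _ := by gcongr
      _ = _ := by ring
  have step3 : SL LX K (fun Ps => D ΛX hX (n - HT hX Ps.flatten)
      (fun R => D ΛY hY n (fun LY => f (Ps.flatten ++ R) LY)))
      ≤ (K + 1) * ovY + ∑' Q0, L0 Q0 * ∑ j ∈ Ico J0 K, SL LX K (fun Ps => SL LY K (fun Qs =>
        e j Q0 (Ps.take j) (pc j Ps) (Qs.take j) (pc j Qs))) := by
    refine (SL_mono' _ K step2).trans ?_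
    rw [SL_add_fun]
    refine add_le_add (SL_le_const LX sX1 K _) (le_of_eq ?_)
    rw [SL_tsum]
    refine tsum_congr fun Q0 => ?_
    rw [SL_const_mul]
    congr 1
    simp only [SL_sum]
  refine (add_le_add le_rfl step3).trans ?_
  rw [← add_assoc]
  refine add_le_add le_rfl ?_
  have step4 : ∀ Q0, L0 Q0 ≠ 0 → ∀ j ∈ Ico J0 K, SL LX K (fun Ps => SL LY K (fun Qs =>
        e j Q0 (Ps.take j) (pc j Ps) (Qs.take j) (pc j Qs)))
      ≤ (u * u + 2 * ((1 - u) ^ J0 + ((K * i0 + 1 : ℕ) : ℝ≥0∞) *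
          (((K * i0 + 1 : ℕ) : ℝ≥0∞) * (((i0 + 1 : ℕ) : ℝ≥0∞) * ((i0 + 1 : ℕ) : ℝ≥0∞) *
          (C * (lam + K * us s / lam + us s)))))) := by
    intro Q0 h0 j hj
    rw [Finset.mem_Ico] at hj
    have hQ0 := LP_ne ΛY hY h0
    have hjK : j ≤ K := by omega
    have hji : j * i0 ≤ K * i0 := Nat.mul_le_mul_right _ hjK
    have hw := window zX sX zY sY h1X h1Y mX mY hH2 hH3 T i0 K s j (HT hY Q0) (by omega) hsT
      (by omega) (by omega) (w + Dp zY Q0) lam u hl0 hlT hu0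
    refine le_trans ?_ (hw.trans ?_)
    · calc SL LX K (fun Ps => SL LY K (fun Qs =>
          e j Q0 (Ps.take j) (pc j Ps) (Qs.take j) (pc j Qs)))
          ≤ SL LX K (fun Ps => SL LY j (fun Qs => ∑' Q, LY Q *
            e j Q0 (Ps.take j) (pc j Ps) Qs Q)) :=
            SL_mono _ _ fun Ps _ => SL_drop LY sY1 K j hj.2
              (fun Qs Q => e j Q0 (Ps.take j) (pc j Ps) Qs Q)
        _ ≤ SL LX j (fun Ps => ∑' P, LX P * SL LY j (fun Qs => ∑' Q, LY Q *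
            e j Q0 Ps P Qs Q)) :=
            SL_drop LX sX1 K j hj.2
              (fun Ps P => SL LY j (fun Qs => ∑' Q, LY Q * e j Q0 Ps P Qs Q))
        _ = _ := by
            refine SL_congr _ _ fun Ps _ => ?_
            simp only [← SL_const_mul]
            rw [← SL_tsum]
            refine SL_congr _ _ fun Qs _ => ?_
            rw [Th]
            refine tsum_congr fun P => ?_
            rw [← ENNReal.tsum_mul_left]
            refine tsum_congr fun Q => ?_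
            rw [← mul_assoc]
            refine congrArg₂ (· * ·) rfl ?_
            simp only [he]
            split_ifs <;> rfl
    · gcongr ?_ + 2 * (?_ + ?_ * (?_ * (_ * (C * (lam + ?_ * us s / lam + us s)))))
      · exact le_rfl
      · exact pow_le_pow_right_of_le_one' tsub_le_self hj.1
      · exact_mod_cast (by omega : j * i0 + 1 ≤ K * i0 + 1)
      · exact_mod_cast (by omega : j * i0 + 1 ≤ K * i0 + 1)
      · exact_mod_cast hjK
  set Bd := (u * u + 2 * ((1 - u) ^ J0 + ((K * i0 + 1 : ℕ) : ℝ≥0∞) *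
          (((K * i0 + 1 : ℕ) : ℝ≥0∞) * (((i0 + 1 : ℕ) : ℝ≥0∞) * ((i0 + 1 : ℕ) : ℝ≥0∞) *
          (C * (lam + K * us s / lam + us s))))))
  calc ∑' Q0, L0 Q0 * ∑ j ∈ Ico J0 K, SL LX K (fun Ps => SL LY K (fun Qs =>
        e j Q0 (Ps.take j) (pc j Ps) (Qs.take j) (pc j Qs)))
      ≤ ∑' Q0, L0 Q0 * (K * Bd) := by
        refine ENNReal.tsum_le_tsum fun Q0 => ?_
        by_cases h0 : L0 Q0 = 0
        · rw [h0, zero_mul, zero_mul]
        refine mul_le_mul_right ?_ _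
        refine (Finset.sum_le_card_nsmul _ _ _ (step4 Q0 h0)).trans ?_
        rw [nsmul_eq_mul, Nat.card_Ico]
        gcongr
        omega
    _ = (∑' Q0, L0 Q0) * (K * Bd) := ENNReal.tsum_mul_right
    _ ≤ 1 * (K * Bd) := by gcongr
    _ = _ := one_mul _

end main

end Crest.Agent.R154.Asm903
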