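import Crest.Agent.R154.AsmC_937
import Crest.Agent.R154.Smooth_178

/-! Row 154, ROAD 801 (helper937): abstract assembly, part 2 (Y local, one window). -/

set_option autoImplicit false

namespace Crest.Agent.R154.Asm937

open scoped ENNReal
open Crest.Agent.R154.B5A Crest.Agent.R154.FP178
open Bind12 (TT Dp)

section pair

variable {BX BY G : Type*} [AddCommGroup G] (ΛX : BX → ℝ≥0∞) (ΛY : BY → ℝ≥0∞)
  (hX : BX → ℕ) (hY : BY → ℕ) (zX : BX → G) (zY : BY → G)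
  (sX : BX → Set (G × ℕ)) (sY : BY → Set (G × ℕ))

open Classical in
/-- the local term, `Y` local -/
theorem loc_Y (hX1 : ∀ b, 1 ≤ hX b) (hY1 : ∀ b, 1 ≤ hY b) (hΛX : ∑' b, ΛX b ≤ 1)
    (hΛY : ∑' b, ΛY b ≤ 1) (i0 aX τX aY τY lo hi : ℕ) (w : G) (E : ℕ → Finset G)
    (M β B3 : ℝ≥0∞) (hD : DD ΛY hY zY aY i0 M β)
    (hB3 : ∀ i i' i1 i2, i ≤ i0 → i' ≤ i0 → i1 ≤ i0 → i2 ≤ i0 → ∀ μ : G → ℝ≥0∞,
      ∑' x, μ x ≤ 1 → (∀ x, μ x ≤ M) →
      ∑' x, μ x * ∑' L, ∑' L', (if HT hX L = τX + i1 ∧ HT hY L' = τY + i2 ∧ Dp zY L' ∈ E i2 ∧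
        Ev hX hY zX zY sX sY lo hi x (aX + i) (aY + i') L L' then LW ΛX L * LW ΛY L' else 0) ≤ B3) :
    FS ΛX hX aX i0 (fun A1 => FS ΛX hX τX i0 (fun P1 =>
      FS ΛY hY aY i0 (fun A2 => FS ΛY hY τY i0 (fun P2 =>
        if Dp zY P2 ∈ E (HT hY P2 - τY) ∧ Ev hX hY zX zY sX sY lo hi
          (w + Dp zY A2 - Dp zX A1) (HT hX A1) (HT hY A2) P1 P2 then 1 else 0))))
      ≤ (i0 + 1 : ℕ) * ((i0 + 1 : ℕ) * ((i0 + 1 : ℕ) * B3)) + β := by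
  obtain ⟨g, hgM, hg1, hg⟩ := hD
  set F : G → ℕ → ℝ≥0∞ := fun z α => FS ΛX hX aX i0 (fun A1 => FS ΛX hX τX i0 (fun P1 =>
      FS ΛY hY τY i0 (fun P2 =>
        if Dp zY P2 ∈ E (HT hY P2 - τY) ∧ Ev hX hY zX zY sX sY lo hi
          (w + z - Dp zX A1) (HT hX A1) α P1 P2 then 1 else 0))) with hF
  have hF1 : ∀ x α, F x α ≤ 1 := fun x α =>
    FS_le ΛX hX hX1 hΛX _ _ fun _ _ _ => FS_le ΛX hX hX1 hΛX _ _ fun _ _ _ =>
      FS_le ΛY hY hY1 hΛY _ _ fun _ _ _ => by split_ifs <;> simp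
  have e0 : FS ΛX hX aX i0 (fun A1 => FS ΛX hX τX i0 (fun P1 =>
      FS ΛY hY aY i0 (fun A2 => FS ΛY hY τY i0 (fun P2 =>
        if Dp zY P2 ∈ E (HT hY P2 - τY) ∧ Ev hX hY zX zY sX sY lo hi
          (w + Dp zY A2 - Dp zX A1) (HT hX A1) (HT hY A2) P1 P2 then (1 : ℝ≥0∞) else 0))))
      = FS ΛY hY aY i0 (fun A2 => F (Dp zY A2) (HT hY A2)) := by
    refine (congrArg (FS ΛX hX aX i0) (funext fun A1 => FS_comm ΛX ΛY hX hY (fun P1 A2 =>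
      FS ΛY hY τY i0 (fun P2 => if Dp zY P2 ∈ E (HT hY P2 - τY) ∧ Ev hX hY zX zY sX sY lo hi
          (w + Dp zY A2 - Dp zX A1) (HT hX A1) (HT hY A2) P1 P2 then (1 : ℝ≥0∞) else 0)))).trans ?_
    exact FS_comm ΛX ΛY hX hY (fun A1 A2 => FS ΛX hX τX i0 (fun P1 =>
      FS ΛY hY τY i0 (fun P2 => if Dp zY P2 ∈ E (HT hY P2 - τY) ∧ Ev hX hY zX zY sX sY lo hi
          (w + Dp zY A2 - Dp zX A1) (HT hX A1) (HT hY A2) P1 P2 then (1 : ℝ≥0∞) else 0)))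
  rw [e0]
  refine (hg F hF1).trans (add_le_add ?_ le_rfl)
  have hI : ∀ i ∈ Finset.range (i0 + 1), ∑' x, g x (aY + i) * F x (aY + i)
      ≤ (i0 + 1 : ℕ) * ((i0 + 1 : ℕ) * B3) := by
    intro i hmi
    have e1 : ∀ x, g x (aY + i) * F x (aY + i) = FS ΛX hX aX i0 (fun A1 => g x (aY + i) *
        FS ΛX hX τX i0 (fun P1 => FS ΛY hY τY i0 (fun P2 =>
        if Dp zY P2 ∈ E (HT hY P2 - τY) ∧ Ev hX hY zX zY sX sY lo hi
          (w + x - Dp zX A1) (HT hX A1) (aY + i) P1 P2 then 1 else 0))) := by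
      intro x
      rw [FS_mul, hF]
    rw [tsum_congr e1, ← FS_tsum]
    refine FS_le ΛX hX hX1 hΛX _ _ fun A1 hA1 hA1' => ?_
    have a1 := le_HT_of_fp hX hA1
    have es : ∀ y : G, w + (y - (w - Dp zX A1)) - Dp zX A1 = y := fun y => by abel
    rw [← (Equiv.subRight (w - Dp zX A1)).tsum_eq]
    simp only [Equiv.subRight_apply, es]
    set μ : G → ℝ≥0∞ := fun x => g (x - (w - Dp zX A1)) (aY + i) with hμ
    have hμ1 : ∑' x, μ x ≤ 1 := by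
      have := (Equiv.subRight (w - Dp zX A1)).tsum_eq (fun x => g x (aY + i))
      simp only [Equiv.subRight_apply] at this
      rw [hμ, this]; exact hg1 _
    have h2 : ∀ x, g (x - (w - Dp zX A1)) (aY + i) * FS ΛX hX τX i0 (fun P1 =>
        FS ΛY hY τY i0 (fun P2 => if Dp zY P2 ∈ E (HT hY P2 - τY) ∧ Ev hX hY zX zY sX sY lo hi
          x (HT hX A1) (aY + i) P1 P2 then 1 else 0))
        ≤ ∑ i1 ∈ Finset.range (i0 + 1), ∑ i2 ∈ Finset.range (i0 + 1), μ x * ∑' L, ∑' L',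
        (if HT hX L = τX + i1 ∧ HT hY L' = τY + i2 ∧ Dp zY L' ∈ E i2 ∧
        Ev hX hY zX zY sX sY lo hi x (aX + (HT hX A1 - aX)) (aY + i) L L' then
          LW ΛX L * LW ΛY L' else 0) := by
      intro x
      simp_rw [← Finset.mul_sum]
      refine mul_le_mul_right ((two_le ΛX ΛY hX hY τX τY i0 _).trans ?_) _
      refine Finset.sum_le_sum fun i1 _ => Finset.sum_le_sum fun i2 _ =>
        ENNReal.tsum_le_tsum fun L => ENNReal.tsum_le_tsum fun L' => ?_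
      by_cases h : HT hX L = τX + i1 ∧ HT hY L' = τY + i2 ∧
        Dp zY L' ∈ E (HT hY L' - τY) ∧ Ev hX hY zX zY sX sY lo hi x (HT hX A1) (aY + i) L L'
      · rw [if_pos h, if_pos]
        refine ⟨h.1, h.2.1, ?_, ?_⟩
        · have := h.2.2.1
          rwa [h.2.1, Nat.add_sub_cancel_left] at this
        · rw [Nat.add_sub_cancel' a1]; exact h.2.2.2
      · rw [if_neg h]; exact zero_le
    refine (ENNReal.tsum_le_tsum h2).trans ?_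
    rw [Summable.tsum_finsetSum (fun _ _ => ENNReal.summable)]
    calc ∑ i1 ∈ Finset.range (i0 + 1), ∑' x, ∑ i2 ∈ Finset.range (i0 + 1), μ x * ∑' L, ∑' L',
        (if HT hX L = τX + i1 ∧ HT hY L' = τY + i2 ∧ Dp zY L' ∈ E i2 ∧
        Ev hX hY zX zY sX sY lo hi x (aX + (HT hX A1 - aX)) (aY + i) L L' then
          LW ΛX L * LW ΛY L' else 0)
        ≤ ∑ i1 ∈ Finset.range (i0 + 1), (i0 + 1 : ℕ) * B3 := by
          refine Finset.sum_le_sum fun i1 hi1 => ?_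
          rw [Summable.tsum_finsetSum (fun _ _ => ENNReal.summable)]
          refine (Finset.sum_le_card_nsmul _ _ B3 fun i2 hi2 => ?_).trans ?_
          · have q1 := Finset.mem_range.1 hmi
            have q2 := Finset.mem_range.1 hi1
            have q3 := Finset.mem_range.1 hi2
            exact hB3 (HT hX A1 - aX) i i1 i2 (by omega) (by omega) (by omega) (by omega) μ hμ1
              (fun x => hgM _ _)
          · rw [Finset.card_range, nsmul_eq_mul]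
      _ = _ := by rw [Finset.sum_const, Finset.card_range, nsmul_eq_mul]
  refine (Finset.sum_le_card_nsmul _ _ _ hI).trans ?_
  rw [Finset.card_range, nsmul_eq_mul]

open Classical in
/-- **one window** (four-fold sum) -/
theorem window_bound (hX1 : ∀ b, 1 ≤ hX b) (hY1 : ∀ b, 1 ≤ hY b) (hΛX : ∑' b, ΛX b ≤ 1)
    (hΛY : ∑' b, ΛY b ≤ 1) (i0 aX τX aY τY lo hi : ℕ) (w : G) (EX EY : ℕ → Finset G)
    (MX MY βX βY BB uX uY : ℝ≥0∞) (hDX : DD ΛX hX zX aX i0 MX βX) (hDY : DD ΛY hY zY aY i0 MY βY)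
    (hNX : FS ΛX hX τX i0 (fun P => if Dp zX P ∈ EX (HT hX P - τX) then 0 else 1) ≤ uX)
    (hNY : FS ΛY hY τY i0 (fun P => if Dp zY P ∈ EY (HT hY P - τY) then 0 else 1) ≤ uY)
    (hB2 : ∀ i i' i1 i2, i ≤ i0 → i' ≤ i0 → i1 ≤ i0 → i2 ≤ i0 → ∀ μ : G → ℝ≥0∞,
      ∑' x, μ x ≤ 1 → (∀ x, μ x ≤ MX) →
      ∑' x, μ x * ∑' L, ∑' L', (if HT hX L = τX + i1 ∧ HT hY L' = τY + i2 ∧ Dp zX L ∈ EX i1 ∧
        Ev hX hY zX zY sX sY lo hi x (aX + i) (aY + i') L L' then LW ΛX L * LW ΛY L' else 0) ≤ BB)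
    (hB3 : ∀ i i' i1 i2, i ≤ i0 → i' ≤ i0 → i1 ≤ i0 → i2 ≤ i0 → ∀ μ : G → ℝ≥0∞,
      ∑' x, μ x ≤ 1 → (∀ x, μ x ≤ MY) →
      ∑' x, μ x * ∑' L, ∑' L', (if HT hX L = τX + i1 ∧ HT hY L' = τY + i2 ∧ Dp zY L' ∈ EY i2 ∧
        Ev hX hY zX zY sX sY lo hi x (aX + i) (aY + i') L L' then LW ΛX L * LW ΛY L' else 0) ≤ BB) :
    FS ΛX hX aX i0 (fun A1 => FS ΛX hX τX i0 (fun P1 =>
      FS ΛY hY aY i0 (fun A2 => FS ΛY hY τY i0 (fun P2 =>
        if Ev hX hY zX zY sX sY lo hi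
          (w + Dp zY A2 - Dp zX A1) (HT hX A1) (HT hY A2) P1 P2 then 1 else 0))))
      ≤ ((i0 + 1 : ℕ) * ((i0 + 1 : ℕ) * ((i0 + 1 : ℕ) * BB)) + βX)
        + ((i0 + 1 : ℕ) * ((i0 + 1 : ℕ) * ((i0 + 1 : ℕ) * BB)) + βY) + uX * uY := by
  have h1 := loc_X ΛX ΛY hX hY zX zY sX sY hX1 hY1 hΛX hΛY i0 aX τX aY τY lo hi w EX MX βX BB hDX
    hB2
  have h2 := loc_Y ΛX ΛY hX hY zX zY sX sY hX1 hY1 hΛX hΛY i0 aX τX aY τY lo hi w EY MY βY BB hDY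
    hB3
  have h3 : FS ΛX hX aX i0 (fun A1 => FS ΛX hX τX i0 (fun P1 =>
      FS ΛY hY aY i0 (fun A2 => FS ΛY hY τY i0 (fun P2 =>
        (if Dp zX P1 ∈ EX (HT hX P1 - τX) then 0 else 1) *
          (if Dp zY P2 ∈ EY (HT hY P2 - τY) then 0 else 1))))) ≤ uX * uY := by
    refine FS_le ΛX hX hX1 hΛX _ _ fun A1 _ _ => ?_
    calc FS ΛX hX τX i0 (fun P1 => FS ΛY hY aY i0 (fun A2 => FS ΛY hY τY i0 (fun P2 =>
        (if Dp zX P1 ∈ EX (HT hX P1 - τX) then (0 : ℝ≥0∞) else 1) *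
          (if Dp zY P2 ∈ EY (HT hY P2 - τY) then 0 else 1))))
        ≤ FS ΛX hX τX i0 (fun P1 => uY * (if Dp zX P1 ∈ EX (HT hX P1 - τX) then 0 else 1)) := by
          refine FS_mono ΛX hX _ _ fun P1 _ _ => ?_
          refine FS_le ΛY hY hY1 hΛY _ _ fun A2 _ _ => ?_
          rw [FS_mul, mul_comm]
          exact mul_le_mul_left hNY _
      _ = uY * FS ΛX hX τX i0 (fun P1 => if Dp zX P1 ∈ EX (HT hX P1 - τX) then 0 else 1) := by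
          rw [FS_mul]
      _ ≤ uY * uX := mul_le_mul_right hNX _
      _ = _ := mul_comm _ _
  refine le_trans ?_ (add_le_add (add_le_add h1 h2) h3)
  simp only [← FS_add]
  refine FS_mono ΛX hX _ _ fun A1 _ _ => FS_mono ΛX hX _ _ fun P1 _ _ =>
    FS_mono ΛY hY _ _ fun A2 _ _ => FS_mono ΛY hY _ _ fun P2 _ _ => ?_
  by_cases hE : Ev hX hY zX zY sX sY lo hi (w + Dp zY A2 - Dp zX A1) (HT hX A1) (HT hY A2) P1 P2
  swap
  · rw [if_neg hE]; exact zero_le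
  rw [if_pos hE]
  by_cases hx : Dp zX P1 ∈ EX (HT hX P1 - τX)
  · rw [if_pos (⟨hx, hE⟩ : _ ∧ _), add_assoc]; exact le_self_add
  by_cases hy : Dp zY P2 ∈ EY (HT hY P2 - τY)
  · rw [if_pos (⟨hy, hE⟩ : Dp zY P2 ∈ EY (HT hY P2 - τY) ∧ _)]
    exact le_trans le_add_self le_self_add
  · rw [if_neg hx, if_neg hy, one_mul]
    exact le_add_self

end pair

end Crest.Agent.R154.Asm937
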