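import Crest.Agent.R154.AsmC_942

/-! Row 154, ROAD 801 (helper942): assembly, part D: one window. -/

set_option autoImplicit false

namespace Crest.Agent.R154.Asm942

open scoped ENNReal
open Crest.Agent.R154.B5A Crest.Agent.R154.FP178

section smooth

variable {G : Type*}

lemma smooth1 (f g K : G → ℝ≥0∞) (e : G → G ≃ G) (Gm V : ℝ≥0∞) (hf : ∑' z, f z ≤ 1)
    (hfG : ∀ z, f z ≤ Gm) (hg : ∑' z, g z ≤ 1)
    (hV : ∀ μ : G → ℝ≥0∞, ∑' x, μ x ≤ 1 → (∀ x, μ x ≤ Gm) → ∑' x, μ x * K x ≤ V) :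
    ∑' z, ∑' z', f z * (g z' * K (e z' z)) ≤ V := by
  have e1 : ∑' z, ∑' z', f z * (g z' * K (e z' z))
      = ∑' x, (∑' z', g z' * f ((e z').symm x)) * K x := by
    rw [ENNReal.tsum_comm]
    have e2 : ∀ z', ∑' z, f z * (g z' * K (e z' z))
        = ∑' x, g z' * f ((e z').symm x) * K x := by
      intro z'
      rw [← (e z').tsum_eq (fun x => g z' * f ((e z').symm x) * K x)]
      refine tsum_congr fun z => ?_
      rw [Equiv.symm_apply_apply]; ring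
    simp_rw [e2]
    rw [ENNReal.tsum_comm]
    refine tsum_congr fun x => ?_
    rw [ENNReal.tsum_mul_right]
  rw [e1]
  refine hV _ ?_ fun x => ?_
  · rw [ENNReal.tsum_comm]
    calc ∑' z', ∑' x, g z' * f ((e z').symm x) = ∑' z', g z' * ∑' x, f x := by
          refine tsum_congr fun z' => ?_
          rw [ENNReal.tsum_mul_left]
          congr 1
          exact (e z').symm.tsum_eq f
      _ ≤ ∑' z', g z' * 1 := by gcongr
      _ ≤ 1 := by simpa using hg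
  · calc ∑' z', g z' * f ((e z').symm x) ≤ ∑' z', g z' * Gm := by gcongr; exact hfG _
      _ = (∑' z', g z') * Gm := ENNReal.tsum_mul_right
      _ ≤ 1 * Gm := by gcongr
      _ = Gm := one_mul _

lemma smooth2 (i0 : ℕ) (f g : ℕ → G → ℝ≥0∞) (K : ℕ → ℕ → G → ℝ≥0∞) (e : G → G ≃ G)
    (Gm V β : ℝ≥0∞) (b : ℕ → G → ℝ≥0∞) (hf : ∑' j, ∑' z, f j z ≤ 1)
    (hg : ∑' j, ∑' z, g j z ≤ 1) (hK1 : ∀ j j' x, K j j' x ≤ 1)
    (hb : ∀ j z, f j z ≤ Gm + b j z) (hβ : ∑' j, ∑' z, b j z ≤ β)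
    (hV : ∀ j j', j ≤ i0 → j' ≤ i0 → ∀ μ : G → ℝ≥0∞, ∑' x, μ x ≤ 1 → (∀ x, μ x ≤ Gm) →
      ∑' x, μ x * K j j' x ≤ V) :
    ∑ j ∈ Finset.range (i0 + 1), ∑ j' ∈ Finset.range (i0 + 1),
      ∑' z, ∑' z', f j z * (g j' z' * K j j' (e z' z))
      ≤ ((i0 + 1 : ℕ) : ℝ≥0∞) * ((i0 + 1 : ℕ) : ℝ≥0∞) * V + β := by
  have hpt : ∀ j z, f j z ≤ min (f j z) Gm + b j z := by
    intro j z
    rcases le_total (f j z) Gm with h | h
    · rw [min_eq_left h]; exact le_self_add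
    · rw [min_eq_right h]; exact hb j z
  calc ∑ j ∈ Finset.range (i0 + 1), ∑ j' ∈ Finset.range (i0 + 1),
        ∑' z, ∑' z', f j z * (g j' z' * K j j' (e z' z))
      ≤ ∑ j ∈ Finset.range (i0 + 1), ∑ j' ∈ Finset.range (i0 + 1),
        ((∑' z, ∑' z', min (f j z) Gm * (g j' z' * K j j' (e z' z)))
          + (∑' z, b j z) * ∑' z', g j' z') := by
        refine Finset.sum_le_sum fun j _ => Finset.sum_le_sum fun j' _ => ?_
        rw [← ENNReal.tsum_mul_right, ← ENNReal.tsum_add]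
        refine ENNReal.tsum_le_tsum fun z => ?_
        rw [← ENNReal.tsum_mul_left, ← ENNReal.tsum_add]
        refine ENNReal.tsum_le_tsum fun z' => ?_
        calc f j z * (g j' z' * K j j' (e z' z))
            ≤ (min (f j z) Gm + b j z) * (g j' z' * K j j' (e z' z)) := by
              gcongr; exact hpt j z
          _ = min (f j z) Gm * (g j' z' * K j j' (e z' z))
              + b j z * (g j' z' * K j j' (e z' z)) := by ring
          _ ≤ min (f j z) Gm * (g j' z' * K j j' (e z' z)) + b j z * (g j' z' * 1) := by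
              gcongr; exact hK1 _ _ _
          _ = _ := by rw [mul_one]
    _ = (∑ j ∈ Finset.range (i0 + 1), ∑ j' ∈ Finset.range (i0 + 1),
          ∑' z, ∑' z', min (f j z) Gm * (g j' z' * K j j' (e z' z)))
        + (∑ j ∈ Finset.range (i0 + 1), ∑' z, b j z)
          * ∑ j' ∈ Finset.range (i0 + 1), ∑' z', g j' z' := by
        simp_rw [Finset.sum_add_distrib]
        rw [Finset.sum_mul_sum]
    _ ≤ (∑ _j ∈ Finset.range (i0 + 1), ∑ _j' ∈ Finset.range (i0 + 1), V) + β * 1 := by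
        refine add_le_add (Finset.sum_le_sum fun j hj => Finset.sum_le_sum fun j' hj' => ?_)
          (mul_le_mul' ((ENNReal.sum_le_tsum _).trans hβ) ((ENNReal.sum_le_tsum _).trans hg))
        rw [Finset.mem_range] at hj hj'
        refine smooth1 (fun z => min (f j z) Gm) (g j') (K j j') e Gm V ?_
          (fun z => min_le_right _ _) ?_ (hV j j' (by omega) (by omega))
        · calc ∑' z, min (f j z) Gm ≤ ∑' z, f j z := by gcongr; exact min_le_left _ _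
            _ ≤ 1 := (ENNReal.le_tsum j).trans hf
        · exact (ENNReal.le_tsum j').trans hg
    _ = _ := by
        rw [Finset.sum_const, Finset.sum_const, Finset.card_range, nsmul_eq_mul, nsmul_eq_mul,
          mul_one, mul_assoc]

end smooth

section win

variable {BX BY G : Type*} [AddCommGroup G]
variable (ΛX : BX → ℝ≥0∞) (hX : BX → ℕ) (zX : BX → G) (sX : BX → Set (G × ℕ))
variable (ΛY : BY → ℝ≥0∞) (hY : BY → ℕ) (zY : BY → G) (sY : BY → Set (G × ℕ))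

open Classical in
/-- window lemma (2) on lists: the up walker is local -/
def H2L (us : ℕ → ℝ≥0∞) (C : ℝ≥0∞) : Prop :=
  ∀ (s h h' a a' lo : ℕ) (E : Finset G) (μ : G → ℝ≥0∞) (M lam : ℝ≥0∞),
    ∑' x, μ x ≤ 1 → (∀ x, μ x ≤ M) → lam ≠ 0 → lam ≠ ⊤ → a ≤ a' → a + s ≤ lo → a' + s ≤ lo →
    ∑' x, μ x * (∑' L : List BX, ∑' L' : List BY, if HT hX L = h ∧
        Dp zX L ∈ E ∧ HT hY L' = h' ∧
        (∃ z k, (z, k) ∈ TT sX hX zX L 0 a ∧ (z, k) ∈ TT sY hY zY L' x a') ∧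
        (∀ z k, (z, k) ∈ TT sX hX zX L 0 a → (z, k) ∈ TT sY hY zY L' x a' → lo ≤ k)
        then LW ΛX L * LW ΛY L' else 0)
      ≤ C * (lam + M * E.card * us s / lam + us s)

open Classical in
/-- window lemma (3) on lists: the down walker is local -/
def H3L (us : ℕ → ℝ≥0∞) (C : ℝ≥0∞) : Prop :=
  ∀ (s h h' a a' hi : ℕ) (E : Finset G) (μ : G → ℝ≥0∞) (M lam : ℝ≥0∞),
    ∑' x, μ x ≤ 1 → (∀ x, μ x ≤ M) → lam ≠ 0 → lam ≠ ⊤ → a + h ≤ a' + h' →
    hi + s ≤ a + h → hi + s ≤ a' + h' →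
    ∑' x, μ x * (∑' L : List BX, ∑' L' : List BY, if HT hX L = h ∧
        Dp zY L' ∈ E ∧ HT hY L' = h' ∧
        (∃ z k, (z, k) ∈ TT sX hX zX L 0 a ∧ (z, k) ∈ TT sY hY zY L' x a') ∧
        (∀ z k, (z, k) ∈ TT sX hX zX L 0 a → (z, k) ∈ TT sY hY zY L' x a' → k ≤ hi)
        then LW ΛX L * LW ΛY L' else 0)
      ≤ C * (lam + M * E.card * us s / lam + us s)

/-- contact of two pieces, all contacts in `[lo, hi]` -/
def Q (lo hi : ℕ) (L2 : List BX) (M2 : List BY) (a a' : ℕ) (x : G) : Prop :=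
  (∃ z k, (z, k) ∈ TT sX hX zX L2 0 a ∧ (z, k) ∈ TT sY hY zY M2 x a') ∧
  (∀ z k, (z, k) ∈ TT sX hX zX L2 0 a → (z, k) ∈ TT sY hY zY M2 x a' → lo ≤ k ∧ k ≤ hi)

open Classical in
/-- sum over the pieces -/
noncomputable def KK (T T' i0 : ℕ) (R : List BX → List BY → Prop) : ℝ≥0∞ :=
  ∑' L2, (if fp hX T L2 ∧ HT hX L2 ≤ T + i0 then LW ΛX L2 *
    ∑' M2, (if fp hY T' M2 ∧ HT hY M2 ≤ T' + i0 then LW ΛY M2 *
      (if R L2 M2 then 1 else 0) else 0) else 0)

open Classical in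
lemma KK_eq (T T' i0 : ℕ) (R : List BX → List BY → Prop) :
    KK ΛX hX ΛY hY T T' i0 R = ∑' L2, ∑' M2, (if (fp hX T L2 ∧ HT hX L2 ≤ T + i0) ∧
      (fp hY T' M2 ∧ HT hY M2 ≤ T' + i0) ∧ R L2 M2 then LW ΛX L2 * LW ΛY M2 else 0) := by
  refine tsum_congr fun L2 => ?_
  by_cases h : fp hX T L2 ∧ HT hX L2 ≤ T + i0
  · rw [if_pos h, ← ENNReal.tsum_mul_left]
    refine tsum_congr fun M2 => ?_
    by_cases h2 : fp hY T' M2 ∧ HT hY M2 ≤ T' + i0
    · by_cases h3 : R L2 M2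
      · rw [if_pos h2, if_pos h3, if_pos ⟨h, h2, h3⟩, mul_one]
      · rw [if_pos h2, if_neg h3, if_neg (fun hh => h3 hh.2.2), mul_zero, mul_zero]
    · rw [if_neg h2, if_neg (fun hh => h2 hh.2.1), mul_zero]
  · rw [if_neg h, eq_comm, ENNReal.tsum_eq_zero]
    intro M2
    rw [if_neg (fun hh => h hh.1)]

lemma KK_le_one (h1X : ∀ b, 1 ≤ hX b) (h1Y : ∀ b, 1 ≤ hY b) (hΛX : ∑' b, ΛX b ≤ 1)
    (hΛY : ∑' b, ΛY b ≤ 1) (T T' i0 : ℕ) (R : List BX → List BY → Prop) :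
    KK ΛX hX ΛY hY T T' i0 R ≤ 1 := by
  classical
  rw [KK]
  calc _ ≤ ∑' L2, (if fp hX T L2 then LW ΛX L2 else 0) := by
        refine ENNReal.tsum_le_tsum fun L2 => ?_
        by_cases h : fp hX T L2 ∧ HT hX L2 ≤ T + i0
        · rw [if_pos h, if_pos h.1]
          calc _ ≤ LW ΛX L2 * 1 := by
                refine mul_le_mul_right ?_ _
                refine le_trans ?_ (sum_FP ΛY hY h1Y hΛY T')
                refine ENNReal.tsum_le_tsum fun M2 => ?_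
                by_cases h2 : fp hY T' M2 ∧ HT hY M2 ≤ T' + i0
                · rw [if_pos h2, if_pos h2.1]
                  split_ifs <;> simp
                · rw [if_neg h2]; exact zero_le
            _ = _ := mul_one _
        · rw [if_neg h]; exact zero_le
    _ ≤ 1 := sum_FP ΛX hX h1X hΛX T

/-- three way split of the pieces -/
lemma KK_split (T T' i0 : ℕ) (R : List BX → List BY → Prop) (PX : List BX → Prop)
    (PY : List BY → Prop) :
    KK ΛX hX ΛY hY T T' i0 R ≤ (KK ΛX hX ΛY hY T T' i0 (fun L M => R L M ∧ PX L)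
      + KK ΛX hX ΛY hY T T' i0 (fun L M => R L M ∧ PY M))
      + KK ΛX hX ΛY hY T T' i0 (fun L M => ¬ PX L ∧ ¬ PY M) := by
  classical
  simp only [KK_eq]
  rw [← ENNReal.tsum_add, ← ENNReal.tsum_add]
  refine ENNReal.tsum_le_tsum fun L => ?_
  rw [← ENNReal.tsum_add, ← ENNReal.tsum_add]
  refine ENNReal.tsum_le_tsum fun M => ?_
  by_cases h1 : (fp hX T L ∧ HT hX L ≤ T + i0) ∧ (fp hY T' M ∧ HT hY M ≤ T' + i0) ∧ R L M
  · rw [if_pos h1]
    by_cases h2 : PX L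
    · rw [if_pos ⟨h1.1, h1.2.1, h1.2.2, h2⟩]
      exact le_add_right (le_add_right le_rfl)
    · by_cases h3 : PY M
      · rw [if_pos (c := (fp hX T L ∧ HT hX L ≤ T + i0) ∧ (fp hY T' M ∧ HT hY M ≤ T' + i0) ∧
          R L M ∧ PY M) ⟨h1.1, h1.2.1, h1.2.2, h3⟩]
        exact le_add_right (le_add_left le_rfl)
      · rw [if_pos (c := (fp hX T L ∧ HT hX L ≤ T + i0) ∧ (fp hY T' M ∧ HT hY M ≤ T' + i0) ∧
          ¬ PX L ∧ ¬ PY M) ⟨h1.1, h1.2.1, h2, h3⟩]
        exact le_add_left le_rfl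
  · rw [if_neg h1]; exact zero_le

lemma KK_nn (T T' i0 : ℕ) (thX thY u : ℝ≥0∞)
    (hu : ∑' x : ℕ × G, (open Classical in if F ΛX hX zX T x.1 x.2 < thX then
      F ΛX hX zX T x.1 x.2 else 0) ≤ u)
    (hu' : ∑' x : ℕ × G, (open Classical in if F ΛY hY zY T' x.1 x.2 < thY then
      F ΛY hY zY T' x.1 x.2 else 0) ≤ u) :
    KK ΛX hX ΛY hY T T' i0 (fun L M => ¬ (thX ≤ F ΛX hX zX T (HT hX L - T) (Dp zX L)) ∧
      ¬ (thY ≤ F ΛY hY zY T' (HT hY M - T') (Dp zY M))) ≤ u * u := by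
  classical
  rw [KK_eq]
  calc _ ≤ ∑' L, ∑' M, (if fp hX T L ∧ ¬ (thX ≤ F ΛX hX zX T (HT hX L - T) (Dp zX L)) then
        LW ΛX L else 0) * (if fp hY T' M ∧ ¬ (thY ≤ F ΛY hY zY T' (HT hY M - T') (Dp zY M)) then
        LW ΛY M else 0) := by
        refine ENNReal.tsum_le_tsum fun L => ENNReal.tsum_le_tsum fun M => ?_
        by_cases h1 : (fp hX T L ∧ HT hX L ≤ T + i0) ∧ (fp hY T' M ∧ HT hY M ≤ T' + i0) ∧
            ¬ (thX ≤ F ΛX hX zX T (HT hX L - T) (Dp zX L)) ∧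
            ¬ (thY ≤ F ΛY hY zY T' (HT hY M - T') (Dp zY M))
        · rw [if_pos h1, if_pos ⟨h1.1.1, h1.2.2.1⟩, if_pos ⟨h1.2.1.1, h1.2.2.2⟩]
        · rw [if_neg h1]; exact zero_le
    _ = (∑' L, (if fp hX T L ∧ ¬ (thX ≤ F ΛX hX zX T (HT hX L - T) (Dp zX L)) then
        LW ΛX L else 0)) * ∑' M, (if fp hY T' M ∧
          ¬ (thY ≤ F ΛY hY zY T' (HT hY M - T') (Dp zY M)) then LW ΛY M else 0) := by
        simp_rw [ENNReal.tsum_mul_left]
        rw [ENNReal.tsum_mul_right]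
    _ ≤ u * u := by
        refine mul_le_mul' ?_ ?_
        · refine (nonloc ΛX hX zX T thX).trans ?_
          convert hu
        · refine (nonloc ΛY hY zY T' thY).trans ?_
          convert hu'

end win

end Crest.Agent.R154.Asm942
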