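import Crest.Agent.R154.FP_178

/-! Row 154 (helper95), ROAD 801: the density lemma on lists, first passage form. -/

set_option autoImplicit false

namespace Crest.Agent.R154.Asm95

open scoped ENNReal
open Crest.Agent.R154.B5A Crest.Agent.R154.FP178
open Classical

/-- pushforward of a sum -/
lemma push {ι K : Type*} (g : ι → ℝ≥0∞) (κ : ι → K) (Φ : K → ℝ≥0∞) :
    ∑' i, g i * Φ (κ i) = ∑' k, (∑' i, if κ i = k then g i else 0) * Φ k := by
  have : ∀ k, (∑' i, if κ i = k then g i else 0) * Φ k
      = ∑' i, (if κ i = k then g i * Φ (κ i) else 0) := by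
    intro k
    rw [← ENNReal.tsum_mul_right]
    refine tsum_congr fun i => ?_
    by_cases h : κ i = k
    · simp [h]
    · simp [h]
  rw [tsum_congr this, ENNReal.tsum_comm]
  refine tsum_congr fun i => ?_
  rw [tsum_eq_single (κ i)]
  · simp
  · intro k hk; rw [if_neg hk.symm]

variable {B G : Type*} [AddCommGroup G] (Λ : B → ℝ≥0∞) (ht : B → ℕ) (z : B → G)

def Dp (L : List B) : G := (L.map z).sum

lemma Dp_append (L L' : List B) : Dp z (L ++ L') = Dp z L + Dp z L' := by simp [Dp]

/-- law of the first passage of depth `T`: height and displacement -/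
noncomputable def pk (T : ℕ) (k : ℕ × G) : ℝ≥0∞ :=
  ∑' L, if HT ht L = k.1 ∧ Dp z L = k.2 then (if fp ht T L then LW Λ L else 0) else 0

lemma push_pk (T : ℕ) (Φ : ℕ × G → ℝ≥0∞) :
    ∑' L, (if fp ht T L then LW Λ L else 0) * Φ (HT ht L, Dp z L)
      = ∑' k, pk Λ ht z T k * Φ k := by
  rw [push (fun L => if fp ht T L then LW Λ L else 0) (fun L => (HT ht L, Dp z L)) Φ]
  refine tsum_congr fun k => ?_
  congr 1
  refine tsum_congr fun L => ?_
  by_cases h : HT ht L = k.1 ∧ Dp z L = k.2
  · rw [if_pos h, if_pos (Prod.ext h.1 h.2)]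
  · rw [if_neg h, if_neg (fun h' => h (Prod.ext_iff.1 h'))]

lemma pk_sum (h1 : ∀ b, 1 ≤ ht b) (hΛ : ∑' b, Λ b ≤ 1) (T : ℕ) : ∑' k, pk Λ ht z T k ≤ 1 := by
  have := push_pk Λ ht z T (fun _ => 1)
  simp only [mul_one] at this
  rw [← this]
  exact sum_FP Λ ht h1 hΛ T

lemma pk_sum_row (h1 : ∀ b, 1 ≤ ht b) (hΛ : ∑' b, Λ b ≤ 1) (T h : ℕ) :
    ∑' y, pk Λ ht z T (h, y) ≤ 1 :=
  (ENNReal.tsum_comp_le_tsum_of_injective (f := fun y : G => (h, y))
    (fun a b hab => (Prod.ext_iff.1 hab).2) _).trans (pk_sum Λ ht z h1 hΛ T)

/-- **density lemma, first passage form** -/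
theorem dens (h1 : ∀ b, 1 ≤ ht b) (hΛ : ∑' b, Λ b ≤ 1) (T i0 : ℕ) (th q ep G0 : ℝ≥0∞)
    (hε : ∀ T, ∑' L, (if fp ht T L ∧ T + i0 < HT ht L then LW Λ L else 0) ≤ ep)
    (hq : ∑' k, (if th < pk Λ ht z T k then pk Λ ht z T k else 0) ≤ q) (hq1 : q ≤ 1)
    (hG : ((i0 + 1 : ℕ) : ℝ≥0∞) * th + q * G0 ≤ G0) :
    ∀ J r, J * (T + i0) ≤ r → ∃ b : ℕ → G → ℝ≥0∞, (∑' j, ∑' y, b j y ≤ q ^ J + J * ep) ∧
      ∀ j y, pk Λ ht z r (r + j, y) ≤ G0 + b j y := by
  intro J
  induction J with
  | zero =>
    intro r _
    refine ⟨fun j y => pk Λ ht z r (r + j, y), ?_, fun j y => le_add_self⟩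
    rw [← ENNReal.tsum_prod (f := fun j y => pk Λ ht z r (r + j, y))]
    have hinj : Function.Injective (fun p : ℕ × G => (r + p.1, p.2)) := by
      rintro ⟨a, b⟩ ⟨a', b'⟩ h
      simp only [Prod.mk.injEq] at h
      exact Prod.ext (by simpa using h.1) h.2
    simpa using (ENNReal.tsum_comp_le_tsum_of_injective hinj (pk Λ ht z r)).trans
      (pk_sum Λ ht z h1 hΛ r)
  | succ J ih =>
    intro r hr
    have hr' : J * (T + i0) + (T + i0) ≤ r := by rw [Nat.succ_mul] at hr; exact hr
    have hTr : T ≤ r := by omega
    have hrem : ∀ h, h ≤ T + i0 → J * (T + i0) ≤ r - h := by intro h hh; omega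
    choose! b hb1 hb2 using fun h (hh : h ≤ T + i0) => ih (r - h) (hrem h hh)
    -- the three pieces
    set e : ℕ → G → ℝ≥0∞ := fun j y => ∑' A, (if fp ht T A ∧ T + i0 < HT ht A then LW Λ A else 0) *
      ∑' L, (if HT ht A + HT ht L = r + j ∧ Dp z A + Dp z L = y then
        (if fp ht (r - HT ht A) L then LW Λ L else 0) else 0) with he
    have hesum : ∑' j, ∑' y, e j y ≤ ep := by
      calc ∑' j, ∑' y, e j y = ∑' A, (if fp ht T A ∧ T + i0 < HT ht A then LW Λ A else 0) *
            ∑' j, ∑' y, ∑' L, (if HT ht A + HT ht L = r + j ∧ Dp z A + Dp z L = y then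
            (if fp ht (r - HT ht A) L then LW Λ L else 0) else 0) := by
            simp only [he]
            calc _ = ∑' j, ∑' A, ∑' y, _ := tsum_congr fun j => ENNReal.tsum_comm
              _ = ∑' A, ∑' j, ∑' y, _ := ENNReal.tsum_comm
              _ = _ := by
                refine tsum_congr fun A => ?_
                simp only [ENNReal.tsum_mul_left]
        _ ≤ ∑' A, (if fp ht T A ∧ T + i0 < HT ht A then LW Λ A else 0) * 1 := by
            refine ENNReal.tsum_le_tsum fun A => mul_le_mul_right ?_ _
            calc ∑' j, ∑' y, ∑' L, (if HT ht A + HT ht L = r + j ∧ Dp z A + Dp z L = y then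
                  (if fp ht (r - HT ht A) L then LW Λ L else 0) else 0)
                = ∑' L, ∑' j, ∑' y, (if HT ht A + HT ht L = r + j ∧ Dp z A + Dp z L = y then
                  (if fp ht (r - HT ht A) L then LW Λ L else 0) else 0) := by
                  calc _ = ∑' j, ∑' L, ∑' y, _ := tsum_congr fun j => ENNReal.tsum_comm
                    _ = _ := ENNReal.tsum_comm
              _ ≤ ∑' L, (if fp ht (r - HT ht A) L then LW Λ L else 0) := by
                  refine ENNReal.tsum_le_tsum fun L => ?_
                  calc ∑' j, ∑' y, (if HT ht A + HT ht L = r + j ∧ Dp z A + Dp z L = y then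
                      (if fp ht (r - HT ht A) L then LW Λ L else 0) else 0)
                      = ∑' j, (if HT ht A + HT ht L = r + j then
                      (if fp ht (r - HT ht A) L then LW Λ L else 0) else 0) := by
                        refine tsum_congr fun j => ?_
                        rw [tsum_eq_single (Dp z A + Dp z L)]
                        · simp
                        · intro y hy
                          rw [if_neg (fun h => hy h.2.symm)]
                    _ ≤ _ := by
                        by_cases hex : ∃ j, HT ht A + HT ht L = r + j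
                        · obtain ⟨j, hj⟩ := hex
                          rw [tsum_eq_single j]
                          · rw [if_pos hj]
                          · intro j' hj'
                            rw [if_neg (by omega)]
                        · rw [ENNReal.tsum_eq_zero.2]
                          · exact zero_le
                          · intro j
                            rw [if_neg (fun h => hex ⟨j, h⟩)]
              _ ≤ 1 := sum_FP Λ ht h1 hΛ _
        _ ≤ ep := by simpa using hε T
    have hrec : ∀ j y, pk Λ ht z r (r + j, y) ≤ (∑' k : ℕ × G, pk Λ ht z T k *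
        (if T ≤ k.1 ∧ k.1 ≤ T + i0 then pk Λ ht z (r - k.1) (r - k.1 + j, y - k.2) else 0))
        + e j y := by
      intro j y
      have e0 : pk Λ ht z r (r + j, y) = ∑' L, (if fp ht r L then LW Λ L *
          (if HT ht L = r + j ∧ Dp z L = y then 1 else 0) else 0) := by
        rw [pk]
        refine tsum_congr fun L => ?_
        by_cases h : fp ht r L <;> by_cases h' : HT ht L = r + j ∧ Dp z L = y <;>
          simp only [h, h', if_true, if_false, mul_one, mul_zero, and_self, ite_self]
      rw [e0, fp_split Λ ht h1 T r hTr, ← push_pk, he]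
      simp only
      rw [← ENNReal.tsum_add]
      refine ENNReal.tsum_le_tsum fun A => ?_
      by_cases hA : fp ht T A
      · have hTA := le_HT_of_fp ht hA
        simp only [hA, if_true, true_and]
        have eL : ∀ L : List B, (if fp ht (r - HT ht A) L then LW Λ L *
            (if HT ht (A ++ L) = r + j ∧ Dp z (A ++ L) = y then (1 : ℝ≥0∞) else 0) else 0)
            = (if HT ht A + HT ht L = r + j ∧ Dp z A + Dp z L = y then
              (if fp ht (r - HT ht A) L then LW Λ L else 0) else 0) := by
          intro L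
          rw [HT_append, Dp_append]
          by_cases h : fp ht (r - HT ht A) L <;>
            by_cases h' : HT ht A + HT ht L = r + j ∧ Dp z A + Dp z L = y <;>
            simp only [h, h', if_true, if_false, mul_one, mul_zero, and_self, ite_self]
        rw [tsum_congr eL]
        by_cases hA2 : HT ht A ≤ T + i0
        · refine le_add_right ?_
          rw [if_pos ⟨hTA, hA2⟩]
          refine mul_le_mul_right (le_of_eq ?_) _
          rw [pk]
          refine tsum_congr fun L => ?_
          have : (HT ht A + HT ht L = r + j ∧ Dp z A + Dp z L = y) ↔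
              (HT ht L = r - HT ht A + j ∧ Dp z L = y - Dp z A) := by
            constructor
            · rintro ⟨ha, hb⟩
              exact ⟨by omega, by rw [← hb]; abel⟩
            · rintro ⟨ha, hb⟩
              exact ⟨by omega, by rw [hb]; abel⟩
          by_cases h : HT ht L = r - HT ht A + j ∧ Dp z L = y - Dp z A
          · rw [if_pos h, if_pos (this.2 h)]
          · rw [if_neg h, if_neg (fun h' => h (this.1 h'))]
        · refine le_add_left ?_
          rw [if_pos (by omega)]
      · simp [hA]
    refine ⟨fun j y => e j y + ∑' k : ℕ × G, (if (T ≤ k.1 ∧ k.1 ≤ T + i0) ∧ th < pk Λ ht z T k then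
        pk Λ ht z T k * b k.1 j (y - k.2) else 0), ?_, ?_⟩
    · -- mass
      have hkey : ∀ k : ℕ × G, ∑' j, ∑' y, (if (T ≤ k.1 ∧ k.1 ≤ T + i0) ∧ th < pk Λ ht z T k then
          pk Λ ht z T k * b k.1 j (y - k.2) else 0)
          ≤ (if th < pk Λ ht z T k then pk Λ ht z T k else 0) * (q ^ J + J * ep) := by
        intro k
        by_cases hk : (T ≤ k.1 ∧ k.1 ≤ T + i0) ∧ th < pk Λ ht z T k
        · simp only [hk, and_self, if_true]
          simp only [ENNReal.tsum_mul_left]
          refine mul_le_mul_right ?_ _
          calc ∑' j, ∑' y, b k.1 j (y - k.2) = ∑' j, ∑' y, b k.1 j y :=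
                tsum_congr fun j => (Equiv.subRight k.2).tsum_eq (fun y => b k.1 j y)
            _ ≤ _ := hb1 k.1 hk.1.2
        · simp only [hk, if_false, tsum_zero]
          exact zero_le
      calc ∑' j, ∑' y, (e j y + ∑' k : ℕ × G, (if (T ≤ k.1 ∧ k.1 ≤ T + i0) ∧ th < pk Λ ht z T k then
            pk Λ ht z T k * b k.1 j (y - k.2) else 0))
          = (∑' j, ∑' y, e j y) + ∑' k : ℕ × G, ∑' j, ∑' y,
            (if (T ≤ k.1 ∧ k.1 ≤ T + i0) ∧ th < pk Λ ht z T k then
            pk Λ ht z T k * b k.1 j (y - k.2) else 0) := by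
            simp only [ENNReal.tsum_add]
            congr 1
            calc _ = ∑' j, ∑' k : ℕ × G, ∑' y, _ := tsum_congr fun j => ENNReal.tsum_comm
              _ = _ := ENNReal.tsum_comm
        _ ≤ ep + ∑' k : ℕ × G, (if th < pk Λ ht z T k then pk Λ ht z T k else 0)
              * (q ^ J + J * ep) := add_le_add hesum (ENNReal.tsum_le_tsum hkey)
        _ ≤ ep + q * (q ^ J + J * ep) := by
            rw [ENNReal.tsum_mul_right]
            gcongr
        _ ≤ ep + (q ^ (J + 1) + J * ep) := by
            rw [mul_add, pow_succ']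
            refine add_le_add le_rfl (add_le_add le_rfl ?_)
            calc q * (J * ep) ≤ 1 * (J * ep) := mul_le_mul_left hq1 _
              _ = _ := one_mul _
        _ = q ^ (J + 1) + (J + 1 : ℕ) * ep := by push_cast; ring
    · intro j y
      refine (hrec j y).trans ?_
      have hsplit : ∀ k : ℕ × G, pk Λ ht z T k * (if T ≤ k.1 ∧ k.1 ≤ T + i0 then
          pk Λ ht z (r - k.1) (r - k.1 + j, y - k.2) else 0)
          ≤ (if T ≤ k.1 ∧ k.1 ≤ T + i0 then th * pk Λ ht z (r - k.1) (r - k.1 + j, y - k.2) else 0)
            + ((if th < pk Λ ht z T k then pk Λ ht z T k else 0) * G0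
            + (if (T ≤ k.1 ∧ k.1 ≤ T + i0) ∧ th < pk Λ ht z T k then
              pk Λ ht z T k * b k.1 j (y - k.2) else 0)) := by
        intro k
        by_cases hk : T ≤ k.1 ∧ k.1 ≤ T + i0
        · by_cases hth : th < pk Λ ht z T k
          · refine le_add_left ?_
            simp only [hk, hth, and_self, if_true]
            rw [← mul_add]
            exact mul_le_mul_right (hb2 k.1 hk.2 j (y - k.2)) _
          · refine le_add_right ?_
            rw [if_pos hk, if_pos hk]
            exact mul_le_mul_left (not_lt.1 hth) _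
        · rw [if_neg hk, mul_zero]; exact zero_le
      have hth1 : ∑' k : ℕ × G, (if T ≤ k.1 ∧ k.1 ≤ T + i0 then
          th * pk Λ ht z (r - k.1) (r - k.1 + j, y - k.2) else 0) ≤ ((i0 + 1 : ℕ) : ℝ≥0∞) * th := by
        rw [ENNReal.tsum_prod']
        calc ∑' h : ℕ, ∑' w : G, (if T ≤ h ∧ h ≤ T + i0 then
              th * pk Λ ht z (r - h) (r - h + j, y - w) else 0)
            ≤ ∑' h : ℕ, (if h ∈ Finset.Icc T (T + i0) then th else 0) := by
              refine ENNReal.tsum_le_tsum fun h => ?_
              by_cases hh : T ≤ h ∧ h ≤ T + i0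
              · simp only [hh, and_self, if_true, Finset.mem_Icc]
                rw [ENNReal.tsum_mul_left]
                calc th * ∑' w : G, pk Λ ht z (r - h) (r - h + j, y - w) ≤ th * 1 := by
                      refine mul_le_mul_right ?_ _
                      have := (Equiv.subLeft y).tsum_eq
                        (fun w => pk Λ ht z (r - h) (r - h + j, w))
                      simp only [Equiv.subLeft_apply] at this
                      rw [this]
                      exact pk_sum_row Λ ht z h1 hΛ _ _
                  _ = th := mul_one _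
              · simp only [hh, if_false, tsum_zero]; exact zero_le
          _ = ∑ h ∈ Finset.Icc T (T + i0), th := by
              rw [tsum_eq_sum (s := Finset.Icc T (T + i0))]
              · exact Finset.sum_congr rfl fun h hh => if_pos hh
              · intro h hh; exact if_neg hh
          _ = ((i0 + 1 : ℕ) : ℝ≥0∞) * th := by
              rw [Finset.sum_const, Nat.card_Icc, nsmul_eq_mul]
              congr 2
              omega
          _ ≤ _ := le_rfl
      calc (∑' k : ℕ × G, pk Λ ht z T k * (if T ≤ k.1 ∧ k.1 ≤ T + i0 then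
            pk Λ ht z (r - k.1) (r - k.1 + j, y - k.2) else 0)) + e j y
          ≤ (∑' k : ℕ × G, ((if T ≤ k.1 ∧ k.1 ≤ T + i0 then
              th * pk Λ ht z (r - k.1) (r - k.1 + j, y - k.2) else 0)
            + ((if th < pk Λ ht z T k then pk Λ ht z T k else 0) * G0
            + (if (T ≤ k.1 ∧ k.1 ≤ T + i0) ∧ th < pk Λ ht z T k then
              pk Λ ht z T k * b k.1 j (y - k.2) else 0)))) + e j y := by
            gcongr with k
            exact hsplit k
        _ = (∑' k : ℕ × G, (if T ≤ k.1 ∧ k.1 ≤ T + i0 then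
              th * pk Λ ht z (r - k.1) (r - k.1 + j, y - k.2) else 0))
            + ((∑' k : ℕ × G, (if th < pk Λ ht z T k then pk Λ ht z T k else 0)) * G0
            + ∑' k : ℕ × G, (if (T ≤ k.1 ∧ k.1 ≤ T + i0) ∧ th < pk Λ ht z T k then
              pk Λ ht z T k * b k.1 j (y - k.2) else 0)) + e j y := by
            rw [ENNReal.tsum_add, ENNReal.tsum_add, ENNReal.tsum_mul_right]
        _ ≤ ((i0 + 1 : ℕ) : ℝ≥0∞) * th + (q * G0
            + ∑' k : ℕ × G, (if (T ≤ k.1 ∧ k.1 ≤ T + i0) ∧ th < pk Λ ht z T k then
              pk Λ ht z T k * b k.1 j (y - k.2) else 0)) + e j y := by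
            gcongr
        _ = (((i0 + 1 : ℕ) : ℝ≥0∞) * th + q * G0)
            + (e j y + ∑' k : ℕ × G, (if (T ≤ k.1 ∧ k.1 ≤ T + i0) ∧ th < pk Λ ht z T k then
              pk Λ ht z T k * b k.1 j (y - k.2) else 0)) := by ring
        _ ≤ _ := by gcongr

end Crest.Agent.R154.Asm95
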