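import Crest.Agent.R154.AsmC_97

/-! Row 154 (helper97), ROAD 801: the local part of one window. -/

set_option autoImplicit false

namespace Crest.Agent.R154.Asm97

open scoped ENNReal
open Crest.Agent.R154.B5A Crest.Agent.R154.FP178

variable {BX BY G : Type*} [AddCommGroup G]
  (ΛX : BX → ℝ≥0∞) (hX : BX → ℕ) (zX : BX → G) (TX : List BX → G → ℕ → Set (G × ℕ))
  (ΛY : BY → ℝ≥0∞) (hY : BY → ℕ) (zY : BY → G) (TY : List BY → G → ℕ → Set (G × ℕ))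

/-- indicator -/
noncomputable def ind (P : Prop) : ℝ≥0∞ := by classical exact if P then 1 else 0

lemma ind_pos {P : Prop} (h : P) : ind P = 1 := if_pos h
lemma ind_neg {P : Prop} (h : ¬ P) : ind P = 0 := if_neg h
lemma ind_le (P : Prop) : ind P ≤ 1 := by
  by_cases h : P
  · rw [ind_pos h]
  · rw [ind_neg h]; exact zero_le

open Classical in
lemma loc (hXX : Tr hX zX TX) (hYY : Tr hY zY TY) (h1X : ∀ b, 1 ≤ hX b) (h1Y : ∀ b, 1 ≤ hY b)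
    (hΛX : ∑' b, ΛX b = 1) (hΛY : ∑' b, ΛY b = 1) (a τ i0 : ℕ) (w : G)
    (SA QQ : List BX → List BY → Prop) (K : ℕ → Prop) (M bd : ℝ≥0∞)
    (hM : ∀ α α' x, S ΛX hX a (fun A => S ΛY hY a (fun A' =>
      (if SA A A' ∧ HT hX A = α ∧ HT hY A' = α' then 1 else 0) *
        (if w + Dp zY A' - Dp zX A = x then 1 else 0))) ≤ M)
    (hbd : ∀ α h α' h', a ≤ α → α ≤ a + i0 → τ ≤ h → h ≤ τ + i0 → a ≤ α' → α' ≤ a + i0 → τ ≤ h' →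
      h' ≤ τ + i0 → ∀ μ : G → ℝ≥0∞, ∑' x, μ x ≤ 1 → (∀ x, μ x ≤ M) →
      ∑' x, μ x * ∑' L, ∑' L', (if HT hX L = h ∧ HT hY L' = h' ∧ QQ L L' ∧
      (∃ z k, (z, k) ∈ TX L 0 α ∧ (z, k) ∈ TY L' x α') ∧
      (∀ z k, (z, k) ∈ TX L 0 α → (z, k) ∈ TY L' x α' → K k) then LW ΛX L * LW ΛY L' else 0)
      ≤ bd) :
    S4 ΛX hX ΛY hY a τ (fun A P A' P' => ind (SA A A' ∧ HT hX A ≤ a + i0 ∧ HT hX P ≤ τ + i0 ∧
        HT hY A' ≤ a + i0 ∧ HT hY P' ≤ τ + i0 ∧ QQ P P' ∧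
        (∃ z k, (z, k) ∈ TX P (Dp zX A) (HT hX A) ∧ (z, k) ∈ TY P' (w + Dp zY A') (HT hY A')) ∧
        (∀ z k, (z, k) ∈ TX P (Dp zX A) (HT hX A) → (z, k) ∈ TY P' (w + Dp zY A') (HT hY A') →
          K k))) ≤ ((i0 + 1 : ℕ) : ℝ≥0∞) ^ 4 * bd := by
  set Q : Finset (ℕ × ℕ × ℕ × ℕ) := Finset.Icc a (a + i0) ×ˢ Finset.Icc τ (τ + i0) ×ˢ
    Finset.Icc a (a + i0) ×ˢ Finset.Icc τ (τ + i0) with hQ
  have step1 : S4 ΛX hX ΛY hY a τ (fun A P A' P' => ind (SA A A' ∧ HT hX A ≤ a + i0 ∧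
        HT hX P ≤ τ + i0 ∧ HT hY A' ≤ a + i0 ∧ HT hY P' ≤ τ + i0 ∧ QQ P P' ∧
        (∃ z k, (z, k) ∈ TX P (Dp zX A) (HT hX A) ∧ (z, k) ∈ TY P' (w + Dp zY A') (HT hY A')) ∧
        (∀ z k, (z, k) ∈ TX P (Dp zX A) (HT hX A) → (z, k) ∈ TY P' (w + Dp zY A') (HT hY A') →
          K k))) ≤ S4 ΛX hX ΛY hY a τ (fun A P A' P' => ∑ q ∈ Q,
      (if SA A A' ∧ HT hX A = q.1 ∧ HT hY A' = q.2.2.1 then 1 else 0) *
      (if HT hX P = q.2.1 ∧ HT hY P' = q.2.2.2 ∧ QQ P P' ∧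
        (∃ z k, (z, k) ∈ TX P (Dp zX A) q.1 ∧ (z, k) ∈ TY P' (w + Dp zY A') q.2.2.1) ∧
        (∀ z k, (z, k) ∈ TX P (Dp zX A) q.1 → (z, k) ∈ TY P' (w + Dp zY A') q.2.2.1 → K k)
        then 1 else 0)) := by
    refine S4_mono _ _ _ _ _ _ fun A P A' P' hA hP hA' hP' => ?_
    by_cases hc : (SA A A' ∧ HT hX A ≤ a + i0 ∧
        HT hX P ≤ τ + i0 ∧ HT hY A' ≤ a + i0 ∧ HT hY P' ≤ τ + i0 ∧ QQ P P' ∧
        (∃ z k, (z, k) ∈ TX P (Dp zX A) (HT hX A) ∧ (z, k) ∈ TY P' (w + Dp zY A') (HT hY A')) ∧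
        (∀ z k, (z, k) ∈ TX P (Dp zX A) (HT hX A) → (z, k) ∈ TY P' (w + Dp zY A') (HT hY A') →
          K k))
    · rw [ind_pos hc]
      obtain ⟨c1, c2, c3, c4, c5, c6, c7, c8⟩ := hc
      have hmem : (HT hX A, HT hX P, HT hY A', HT hY P') ∈ Q := by
        simp only [hQ, Finset.mem_product, Finset.mem_Icc]
        exact ⟨⟨le_HT_of_fp hX hA, c2⟩, ⟨le_HT_of_fp hX hP, c3⟩, ⟨le_HT_of_fp hY hA', c4⟩,
          ⟨le_HT_of_fp hY hP', c5⟩⟩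
      refine le_trans ?_ (Finset.single_le_sum (f := fun q : ℕ × ℕ × ℕ × ℕ =>
        (if SA A A' ∧ HT hX A = q.1 ∧ HT hY A' = q.2.2.1 then (1 : ℝ≥0∞) else 0) *
      (if HT hX P = q.2.1 ∧ HT hY P' = q.2.2.2 ∧ QQ P P' ∧
        (∃ z k, (z, k) ∈ TX P (Dp zX A) q.1 ∧ (z, k) ∈ TY P' (w + Dp zY A') q.2.2.1) ∧
        (∀ z k, (z, k) ∈ TX P (Dp zX A) q.1 → (z, k) ∈ TY P' (w + Dp zY A') q.2.2.1 → K k)
        then 1 else 0)) (fun _ _ => zero_le) hmem)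
      refine le_of_eq (Eq.symm ?_)
      beta_reduce
      rw [if_pos ⟨c1, rfl, rfl⟩, if_pos ⟨rfl, rfl, c6, c7, c8⟩, mul_one]
    · rw [ind_neg hc]; exact zero_le
  refine step1.trans ?_
  rw [S4_sum]
  have hcard : Q.card = (i0 + 1) ^ 4 := by
    have c1 : ∀ b : ℕ, b + i0 + 1 - b = i0 + 1 := fun b => by omega
    simp only [hQ, Finset.card_product, Nat.card_Icc, c1]
    ring
  calc _ ≤ ∑ _q ∈ Q, bd := by
        refine Finset.sum_le_sum fun q hq => ?_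
        simp only [hQ, Finset.mem_product, Finset.mem_Icc] at hq
        obtain ⟨⟨q1, q2⟩, ⟨q3, q4⟩, ⟨q5, q6⟩, ⟨q7, q8⟩⟩ := hq
        refine (quad ΛX hX zX TX ΛY hY zY TY hXX hYY a τ q.1 q.2.1 q.2.2.1 q.2.2.2 w
          (fun A A' => if SA A A' ∧ HT hX A = q.1 ∧ HT hY A' = q.2.2.1 then 1 else 0)
          QQ K).trans ?_
        refine hbd q.1 q.2.1 q.2.2.1 q.2.2.2 q1 q2 q3 q4 q5 q6 q7 q8 _ ?_ (fun x => hM _ _ x)
        rw [← S_tsum]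
        refine S_le_one ΛX hX h1X hΛX a fun A => ?_
        rw [← S_tsum]
        refine S_le_one ΛY hY h1Y hΛY a fun A' => ?_
        rw [ENNReal.tsum_mul_left]
        have : ∑' x : G, (if w + Dp zY A' - Dp zX A = x then (1 : ℝ≥0∞) else 0) = 1 := by
          rw [tsum_eq_single (w + Dp zY A' - Dp zX A)]
          · rw [if_pos rfl]
          · intro x hx; rw [if_neg hx.symm]
        rw [this, mul_one]
        split_ifs <;> simp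
    _ = ((i0 + 1 : ℕ) : ℝ≥0∞) ^ 4 * bd := by
        rw [Finset.sum_const, hcard, nsmul_eq_mul]
        push_cast
        ring

open Classical in
/-- `X` local -/
lemma loc2 (hXX : Tr hX zX TX) (hYY : Tr hY zY TY) (h1X : ∀ b, 1 ≤ hX b) (h1Y : ∀ b, 1 ≤ hY b)
    (hΛX : ∑' b, ΛX b = 1) (hΛY : ∑' b, ΛY b = 1) {C : ℝ≥0∞} {us : ℕ → ℕ → ℝ≥0∞}
    (h2 : H2 ΛX hX zX TX ΛY hY TY C us) (a τ i0 J s lo : ℕ) (th lam : ℝ≥0∞) (E : Finset G)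
    (hJ : J * (τ + i0) ≤ a) (hE : th * E.card ≤ 1) (hl0 : lam ≠ 0) (hlt : lam ≠ ⊤)
    (hlo : a + i0 + s ≤ lo) (w : G) :
    S4 ΛX hX ΛY hY a τ (fun A P A' P' => ind (Sm ΛX hX zX τ i0 th J A ∧ HT hX A ≤ a + i0 ∧
        HT hX P ≤ τ + i0 ∧ HT hY A' ≤ a + i0 ∧ HT hY P' ≤ τ + i0 ∧ Dp zX P ∈ E ∧
        (∃ z k, (z, k) ∈ TX P (Dp zX A) (HT hX A) ∧ (z, k) ∈ TY P' (w + Dp zY A') (HT hY A')) ∧
        (∀ z k, (z, k) ∈ TX P (Dp zX A) (HT hX A) → (z, k) ∈ TY P' (w + Dp zY A') (HT hY A') →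
          lo ≤ k)))
      ≤ ((i0 + 1 : ℕ) : ℝ≥0∞) ^ 4 *
        (C * (lam + (J * (i0 + 1 : ℕ)) * us i0 s / lam + us i0 s)) := by
  refine loc ΛX hX zX TX ΛY hY zY TY hXX hYY h1X h1Y hΛX hΛY a τ i0 w
    (fun A _ => Sm ΛX hX zX τ i0 th J A) (fun P _ => Dp zX P ∈ E) (fun k => lo ≤ k)
    (J * ((i0 + 1 : ℕ) * th)) _ ?_ ?_
  · intro α α' x
    rw [S_comm]
    refine (S_mono ΛY hY a fun A' _ => (?_ : _ ≤ (J : ℝ≥0∞) * ((i0 + 1 : ℕ) * th))).trans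
      (S_const ΛY hY h1Y hΛY a _).le
    refine le_trans (S_mono ΛX hX a fun A _ => ?_)
      (good_le ΛX hX zX h1X hΛX τ i0 th J a hJ α (w + Dp zY A' - x))
    by_cases hc : Sm ΛX hX zX τ i0 th J A ∧ HT hX A = α ∧ HT hY A' = α'
    · by_cases hx : w + Dp zY A' - Dp zX A = x
      · rw [if_pos hc, if_pos hx, if_pos ⟨hc.1, by rw [← hx]; abel, hc.2.1⟩, mul_one]
      · rw [if_neg hx, mul_zero]; exact zero_le
    · rw [if_neg hc, zero_mul]; exact zero_le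
  · intro α h α' h' q1 q2 q3 q4 q5 q6 q7 q8 μ hμ1 hμM
    have := h2 i0 s h h' α α' lo E μ (J * ((i0 + 1 : ℕ) * th)) lam hμ1 hμM hl0 hlt (by omega)
      (by omega) (by omega) (by omega)
    have hME : (J * ((i0 + 1 : ℕ) * th) : ℝ≥0∞) * E.card ≤ J * (i0 + 1 : ℕ) := by
      calc (J * ((i0 + 1 : ℕ) * th) : ℝ≥0∞) * E.card = (J * (i0 + 1 : ℕ)) * (th * E.card) := by ring
        _ ≤ (J * (i0 + 1 : ℕ)) * 1 := by gcongr
        _ = _ := mul_one _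
    refine le_trans (le_of_eq ?_) (this.trans (mul_le_mul_right (add_le_add (add_le_add le_rfl
      (ENNReal.div_le_div_right (mul_le_mul_left hME _) _)) le_rfl) _))
    refine tsum_congr fun x => ?_
    congr 1
    refine tsum_congr fun L => tsum_congr fun L' => ?_
    split_ifs with c1 c2 c2
    · rfl
    · exact absurd ⟨c1.1, c1.2.2.1, c1.2.1, c1.2.2.2⟩ c2
    · exact absurd ⟨c2.1, c2.2.2.1, c2.2.1, c2.2.2.2⟩ c1
    · rfl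

open Classical in
/-- `Y` local -/
lemma loc3 (hXX : Tr hX zX TX) (hYY : Tr hY zY TY) (h1X : ∀ b, 1 ≤ hX b) (h1Y : ∀ b, 1 ≤ hY b)
    (hΛX : ∑' b, ΛX b = 1) (hΛY : ∑' b, ΛY b = 1) {C : ℝ≥0∞} {us : ℕ → ℕ → ℝ≥0∞}
    (h3 : H3 ΛX hX TX ΛY hY zY TY C us) (a τ i0 J s hi : ℕ) (th lam : ℝ≥0∞) (E : Finset G)
    (hJ : J * (τ + i0) ≤ a) (hE : th * E.card ≤ 1) (hl0 : lam ≠ 0) (hlt : lam ≠ ⊤)
    (hhi : hi + s ≤ a + τ) (w : G) :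
    S4 ΛX hX ΛY hY a τ (fun A P A' P' => ind (Sm ΛY hY zY τ i0 th J A' ∧ HT hX A ≤ a + i0 ∧
        HT hX P ≤ τ + i0 ∧ HT hY A' ≤ a + i0 ∧ HT hY P' ≤ τ + i0 ∧ Dp zY P' ∈ E ∧
        (∃ z k, (z, k) ∈ TX P (Dp zX A) (HT hX A) ∧ (z, k) ∈ TY P' (w + Dp zY A') (HT hY A')) ∧
        (∀ z k, (z, k) ∈ TX P (Dp zX A) (HT hX A) → (z, k) ∈ TY P' (w + Dp zY A') (HT hY A') →
          k ≤ hi)))
      ≤ ((i0 + 1 : ℕ) : ℝ≥0∞) ^ 4 *
        (C * (lam + (J * (i0 + 1 : ℕ)) * us (2 * i0) s / lam + us (2 * i0) s)) := by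
  refine loc ΛX hX zX TX ΛY hY zY TY hXX hYY h1X h1Y hΛX hΛY a τ i0 w
    (fun _ A' => Sm ΛY hY zY τ i0 th J A') (fun _ P' => Dp zY P' ∈ E) (fun k => k ≤ hi)
    (J * ((i0 + 1 : ℕ) * th)) _ ?_ ?_
  · intro α α' x
    refine (S_mono ΛX hX a fun A _ => (?_ : _ ≤ (J : ℝ≥0∞) * ((i0 + 1 : ℕ) * th))).trans
      (S_const ΛX hX h1X hΛX a _).le
    refine le_trans (S_mono ΛY hY a fun A' _ => ?_)
      (good_le ΛY hY zY h1Y hΛY τ i0 th J a hJ α' (x + Dp zX A - w))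
    by_cases hc : Sm ΛY hY zY τ i0 th J A' ∧ HT hX A = α ∧ HT hY A' = α'
    · by_cases hx : w + Dp zY A' - Dp zX A = x
      · rw [if_pos hc, if_pos hx, if_pos ⟨hc.1, by rw [← hx]; abel, hc.2.2⟩, mul_one]
      · rw [if_neg hx, mul_zero]; exact zero_le
    · rw [if_neg hc, zero_mul]; exact zero_le
  · intro α h α' h' q1 q2 q3 q4 q5 q6 q7 q8 μ hμ1 hμM
    have := h3 (2 * i0) s h h' α α' hi E μ (J * ((i0 + 1 : ℕ) * th)) lam hμ1 hμM hl0 hlt (by omega)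
      (by omega) (by omega) (by omega)
    have hME : (J * ((i0 + 1 : ℕ) * th) : ℝ≥0∞) * E.card ≤ J * (i0 + 1 : ℕ) := by
      calc (J * ((i0 + 1 : ℕ) * th) : ℝ≥0∞) * E.card = (J * (i0 + 1 : ℕ)) * (th * E.card) := by ring
        _ ≤ (J * (i0 + 1 : ℕ)) * 1 := by gcongr
        _ = _ := mul_one _
    refine le_trans (le_of_eq ?_) (this.trans (mul_le_mul_right (add_le_add (add_le_add le_rfl
      (ENNReal.div_le_div_right (mul_le_mul_left hME _) _)) le_rfl) _))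
    refine tsum_congr fun x => ?_
    congr 1
    refine tsum_congr fun L => tsum_congr fun L' => ?_
    split_ifs <;> rfl

end Crest.Agent.R154.Asm97
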