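import Crest.Agent.R154.AsmC_976

/-! Row 154, road 801 (helper976): one window, total. -/

set_option autoImplicit false

namespace Crest.Agent.R154.Asm976

open B5A
open scoped ENNReal
open Classical

section single
variable {B : Type*} (Λ : B → ℝ≥0∞) (h : B → ℕ)

/-- splitting `A ++ P ++ R` without overshoot -/
def Good (T1 S i0 : ℕ) (L : List B) : Prop :=
  ∃ A P R, L = A ++ P ++ R ∧ (FP h T1 A ∧ HT h A ≤ T1 + i0) ∧ (FP h S P ∧ HT h P ≤ S + i0)

lemma over_le (hU : ∀ n, U Λ h n ≤ 1) (S i0 m : ℕ) (e1 : ℝ≥0∞)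
    (ho : ∑' L, (if FP h S L ∧ S + i0 < HT h L then LW Λ L else 0) ≤ e1) :
    ∑' L, (if HT h L = m ∧ ∃ P R, L = P ++ R ∧ FP h S P ∧ S + i0 < HT h P then LW Λ L else 0)
      ≤ e1 := by
  refine (tsum_split_le (fun P => FP h S P ∧ S + i0 < HT h P) _ ?_).trans ?_
  · intro L hL
    by_contra hc
    apply hL
    rw [if_neg]
    rintro ⟨_, P, R, h1, h2, h3⟩
    exact hc ⟨P, R, h1, h2, h3⟩
  · calc _ ≤ ∑' P, ∑' R, (if FP h S P ∧ S + i0 < HT h P then LW Λ P else 0) *
          (if HT h R = m - HT h P then LW Λ R else 0) := by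
          refine ENNReal.tsum_le_tsum fun P => ENNReal.tsum_le_tsum fun R => ?_
          split_ifs with h1 h2 h3 h3
          · rw [LW_append]
          · exfalso
            have := h2.1
            rw [HT_append] at this; omega
          all_goals exact zero_le
      _ ≤ ∑' P, (if FP h S P ∧ S + i0 < HT h P then LW Λ P else 0) * 1 := by
          refine ENNReal.tsum_le_tsum fun P => ?_
          rw [ENNReal.tsum_mul_left]
          exact mul_le_mul_right (hU _) _
      _ ≤ e1 := by simpa using ho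

lemma bad_le (h1 : ∀ b, 1 ≤ h b) (hΛ : ∑' b, Λ b = 1) (hU : ∀ n, U Λ h n ≤ 1)
    (n T1 S i0 : ℕ) (hn : T1 + i0 + S ≤ n) (e1 : ℝ≥0∞)
    (ho : ∀ S, ∑' L, (if FP h S L ∧ S + i0 < HT h L then LW Λ L else 0) ≤ e1) :
    ∑' L, (if HT h L = n ∧ ¬ Good h T1 S i0 L then LW Λ L else 0) ≤ e1 + e1 := by
  refine (tsum_split_le (FP h T1) _ ?_).trans ?_
  · intro L hL
    have : HT h L = n := by
      by_contra hc
      apply hL
      rw [if_neg]
      exact fun h => hc h.1
    exact FP_exists h L T1 (by omega)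
  · calc _ ≤ ∑' A, ∑' R, ((if FP h T1 A ∧ T1 + i0 < HT h A then LW Λ A else 0) *
          (if HT h R = n - HT h A then LW Λ R else 0) +
          (if FP h T1 A then LW Λ A else 0) * (if HT h R = n - HT h A ∧
            ∃ P R', R = P ++ R' ∧ FP h S P ∧ S + i0 < HT h P then LW Λ R else 0)) := by
          refine ENNReal.tsum_le_tsum fun A => ENNReal.tsum_le_tsum fun R => ?_
          by_cases hA : FP h T1 A
          · rw [if_pos hA]
            by_cases hc : HT h (A ++ R) = n ∧ ¬ Good h T1 S i0 (A ++ R)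
            · rw [if_pos hc, LW_append]
              have hh := hc.1
              rw [HT_append] at hh
              by_cases hov : T1 + i0 < HT h A
              · rw [if_pos ⟨hA, hov⟩, if_pos (by omega)]
                exact le_self_add
              · refine le_trans ?_ (le_add_self)
                rw [if_pos hA, if_pos]
                refine ⟨by omega, ?_⟩
                obtain ⟨P, R', h2, h3⟩ := FP_exists h R S (by omega)
                refine ⟨P, R', h2, h3, ?_⟩
                by_contra hlt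
                exact hc.2 ⟨A, P, R', by rw [h2, List.append_assoc], ⟨hA, by omega⟩, h3, by omega⟩
            · rw [if_neg hc]; exact zero_le
          · rw [if_neg hA]; exact zero_le
      _ = (∑' A, (if FP h T1 A ∧ T1 + i0 < HT h A then LW Λ A else 0) *
          U Λ h (n - HT h A)) + ∑' A, (if FP h T1 A then LW Λ A else 0) *
          ∑' R, (if HT h R = n - HT h A ∧
            ∃ P R', R = P ++ R' ∧ FP h S P ∧ S + i0 < HT h P then LW Λ R else 0) := by
          rw [← ENNReal.tsum_add]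
          refine tsum_congr fun A => ?_
          rw [ENNReal.tsum_add, ENNReal.tsum_mul_left, ENNReal.tsum_mul_left, U]
      _ ≤ (∑' A, (if FP h T1 A ∧ T1 + i0 < HT h A then LW Λ A else 0) * 1)
          + ∑' A, (if FP h T1 A then LW Λ A else 0) * e1 := by
          refine add_le_add (ENNReal.tsum_le_tsum fun A => mul_le_mul_right (hU _) _)
            (ENNReal.tsum_le_tsum fun A => mul_le_mul_right (over_le Λ h hU S i0 _ e1 (ho S)) _)
      _ ≤ e1 + e1 := by
          refine add_le_add (by simpa using ho T1) ?_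
          rw [ENNReal.tsum_mul_right, FP_mass Λ h h1 hΛ, one_mul]

end single

variable {BX BY G : Type*} [AddCommGroup G]
variable (ΛX : BX → ℝ≥0∞) (hX : BX → ℕ) (zX : BX → G) (sX : BX → Set (G × ℕ))
  (ΛY : BY → ℝ≥0∞) (hY : BY → ℕ) (zY : BY → G) (sY : BY → Set (G × ℕ))

lemma ev_pieces (hsX : ∀ b, ∀ p ∈ sX b, 1 ≤ p.2 ∧ p.2 ≤ hX b)
    (hsY : ∀ b, ∀ p ∈ sY b, 1 ≤ p.2 ∧ p.2 ≤ hY b) (T1 S T1' S' i0 lo hi hs : ℕ) (w : G)
    (A P R : List BX) (A' P' R' : List BY)
    (hA : FP hX T1 A ∧ HT hX A ≤ T1 + i0) (hP : FP hX S P ∧ HT hX P ≤ S + i0)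
    (hA' : FP hY T1' A' ∧ HT hY A' ≤ T1' + i0) (hP' : FP hY S' P' ∧ HT hY P' ≤ S' + i0)
    (hlo : T1 + i0 < lo) (hhi : hi ≤ T1 + S) (hlo' : T1' + i0 < lo) (hhi' : hi ≤ T1' + S') (hhs : T1 + S + 2 * i0 ≤ hs)
    (h1 : ∃ z k, lo ≤ k ∧ k ≤ hi ∧ (z, k) ∈ TT hX zX sX (A ++ P ++ R) 0 0 ∧
      (z, k) ∈ TT hY zY sY (A' ++ P' ++ R') w 0)
    (h2 : ∀ z k, (z, k) ∈ TT hX zX sX (A ++ P ++ R) 0 0 →
      (z, k) ∈ TT hY zY sY (A' ++ P' ++ R') w 0 → lo ≤ k)
    (h3 : ¬ ∃ z k, hi < k ∧ k ≤ hs ∧ (z, k) ∈ TT hX zX sX (A ++ P ++ R) 0 0 ∧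
      (z, k) ∈ TT hY zY sY (A' ++ P' ++ R') w 0) :
    EP hX zX sX hY zY sY lo hi P P' (HT hX A) (HT hY A') (w + Dp zY A' - Dp zX A) := by
  have eX : TT hX zX sX (A ++ P ++ R) 0 0 = TT hX zX sX A 0 0 ∪
      TT hX zX sX P (Dp zX A) (HT hX A) ∪ TT hX zX sX R (Dp zX (A ++ P)) (HT hX (A ++ P)) := by
    rw [TT_append, TT_append]; simp
  have eY : TT hY zY sY (A' ++ P' ++ R') w 0 = TT hY zY sY A' w 0 ∪
      TT hY zY sY P' (w + Dp zY A') (HT hY A') ∪
      TT hY zY sY R' (w + Dp zY (A' ++ P')) (HT hY (A' ++ P')) := by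
    rw [TT_append, TT_append]; simp
  have t1 := FP_le hX A T1 hA.1
  have t2 := FP_le hX P S hP.1
  have t3 := FP_le hY A' T1' hA'.1
  have t4 := FP_le hY P' S' hP'.1
  have tX : ∀ z k, (z, k) ∈ TT hX zX sX P 0 (HT hX A) ↔
      (z + Dp zX A, k) ∈ TT hX zX sX P (Dp zX A) (HT hX A) := by
    intro z k
    have := TT_shift hX zX sX P 0 (Dp zX A) (HT hX A) (z + Dp zX A) k
    rw [zero_add, add_sub_cancel_right] at this
    exact this.symm
  have tY : ∀ z k, (z, k) ∈ TT hY zY sY P' (w + Dp zY A' - Dp zX A) (HT hY A') ↔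
      (z + Dp zX A, k) ∈ TT hY zY sY P' (w + Dp zY A') (HT hY A') := by
    intro z k
    have := TT_shift hY zY sY P' (w + Dp zY A' - Dp zX A) (Dp zX A) (HT hY A') (z + Dp zX A) k
    rw [add_sub_cancel_right, sub_add_cancel] at this
    exact this.symm
  refine ⟨?_, ?_⟩
  · obtain ⟨z, k, k1, k2, k3, k4⟩ := h1
    rw [eX] at k3
    rw [eY] at k4
    have d3 : (z, k) ∈ TT hX zX sX P (Dp zX A) (HT hX A) := by
      rcases k3 with (k3 | k3) | k3
      · have := (TT_depth hX zX sX hsX A _ _ _ k3).2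
        simp only at this
        omega
      · exact k3
      · have := (TT_depth hX zX sX hsX R _ _ _ k3).1
        rw [HT_append] at this
        simp only at this
        omega
    have d4 : (z, k) ∈ TT hY zY sY P' (w + Dp zY A') (HT hY A') := by
      rcases k4 with (k4 | k4) | k4
      · have := (TT_depth hY zY sY hsY A' _ _ _ k4).2
        simp only at this
        omega
      · exact k4
      · have := (TT_depth hY zY sY hsY R' _ _ _ k4).1
        rw [HT_append] at this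
        simp only at this
        omega
    refine ⟨z - Dp zX A, k, (tX _ _).2 ?_, (tY _ _).2 ?_⟩
    · rw [sub_add_cancel]; exact d3
    · rw [sub_add_cancel]; exact d4
  · intro z k k1 k2
    have d1 := (tX z k).1 k1
    have d2 := (tY z k).1 k2
    have m1 : (z + Dp zX A, k) ∈ TT hX zX sX (A ++ P ++ R) 0 0 := by
      rw [eX]; exact Or.inl (Or.inr d1)
    have m2 : (z + Dp zX A, k) ∈ TT hY zY sY (A' ++ P' ++ R') w 0 := by
      rw [eY]; exact Or.inl (Or.inr d2)
    refine ⟨h2 _ _ m1 m2, ?_⟩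
    by_contra hc
    refine h3 ⟨_, k, by omega, ?_, m1, m2⟩
    have := (TT_depth hX zX sX hsX P _ _ _ k1).2
    simp only at this
    omega

end Crest.Agent.R154.Asm976
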