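import Crest.Agent.R154.AsmC_999

/-! Row 154, ROAD 801, assembly part D (helper999): the bound for one window. -/

set_option autoImplicit false

namespace Crest.Agent.R154.Asm999

open scoped ENNReal
open Crest.Agent.R154.B5A
open Crest.Agent.R154.Asm540 (FP split_le fp_mass over_le e1 wA wA_mass fp_HT TR TR_append TR_depth
  TR_shift Dp)

section S5
variable {α β γ δ ε : Type*} (a : α → ℝ≥0∞) (b : β → ℝ≥0∞) (c : γ → ℝ≥0∞) (e : δ → ℝ≥0∞)
  (f : ε → ℝ≥0∞)

noncomputable def S5 (F : α → β → γ → δ → ε → ℝ≥0∞) : ℝ≥0∞ :=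
  ∑' A, a A * ∑' V, b V * ∑' V0, c V0 * ∑' A', e A' * ∑' V', f V' * F A V V0 A' V'

lemma S5_add (F F' : α → β → γ → δ → ε → ℝ≥0∞) :
    S5 a b c e f (fun A V V0 A' V' => F A V V0 A' V' + F' A V V0 A' V')
      = S5 a b c e f F + S5 a b c e f F' := by
  simp only [S5, mul_add, ENNReal.tsum_add]

lemma S5_mono {F F' : α → β → γ → δ → ε → ℝ≥0∞} (h : ∀ A V V0 A' V', F A V V0 A' V' ≤ F' A V V0 A' V') :
    S5 a b c e f F ≤ S5 a b c e f F' := by
  unfold S5
  gcongr
  exact h _ _ _ _ _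

lemma wsum_le {ι : Type*} (a : ι → ℝ≥0∞) (ha : ∑' i, a i ≤ 1) (F : ι → ℝ≥0∞) (K : ℝ≥0∞)
    (h : ∀ i, a i ≠ 0 → F i ≤ K) : ∑' i, a i * F i ≤ K := by
  calc ∑' i, a i * F i ≤ ∑' i, a i * K := by
        refine ENNReal.tsum_le_tsum fun i => ?_
        by_cases hi : a i = 0
        · simp [hi]
        · exact mul_le_mul_right (h i hi) _
    _ ≤ 1 * K := by rw [ENNReal.tsum_mul_right]; gcongr
    _ = K := one_mul K

lemma S5_X (hc : ∑' i, c i ≤ 1) (he : ∑' i, e i ≤ 1) (F : α → β → γ → δ → ε → ℝ≥0∞) (K : ℝ≥0∞)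
    (h : ∀ V0 A', c V0 ≠ 0 → e A' ≠ 0 →
      ∑' A, a A * ∑' V, ∑' V', b V * f V' * F A V V0 A' V' ≤ K) : S5 a b c e f F ≤ K := by
  have e1 : S5 a b c e f F = ∑' V0, c V0 * ∑' A', e A' *
      ∑' A, a A * ∑' V, ∑' V', b V * f V' * F A V V0 A' V' := by
    unfold S5
    simp_rw [← ENNReal.tsum_mul_left]
    calc ∑' A, ∑' V, ∑' V0, ∑' A', ∑' V', a A * (b V * (c V0 * (e A' * (f V' * F A V V0 A' V'))))
        = ∑' A, ∑' V0, ∑' V, ∑' A', ∑' V',
          a A * (b V * (c V0 * (e A' * (f V' * F A V V0 A' V')))) :=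
          tsum_congr fun A => ENNReal.tsum_comm
      _ = ∑' V0, ∑' A, ∑' V, ∑' A', ∑' V',
          a A * (b V * (c V0 * (e A' * (f V' * F A V V0 A' V')))) := ENNReal.tsum_comm
      _ = ∑' V0, ∑' A, ∑' A', ∑' V, ∑' V',
          a A * (b V * (c V0 * (e A' * (f V' * F A V V0 A' V')))) :=
          tsum_congr fun V0 => tsum_congr fun A => ENNReal.tsum_comm
      _ = ∑' V0, ∑' A', ∑' A, ∑' V, ∑' V',
          a A * (b V * (c V0 * (e A' * (f V' * F A V V0 A' V')))) :=
          tsum_congr fun V0 => ENNReal.tsum_comm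
      _ = _ := by
          refine tsum_congr fun V0 => tsum_congr fun A' => tsum_congr fun A => tsum_congr fun V =>
            tsum_congr fun V' => ?_
          ring
  rw [e1]
  exact wsum_le c hc _ K fun V0 h0 => wsum_le e he _ K fun A' h1 => h V0 A' h0 h1

lemma S5_Y (ha : ∑' i, a i ≤ 1) (hc : ∑' i, c i ≤ 1) (F : α → β → γ → δ → ε → ℝ≥0∞) (K : ℝ≥0∞)
    (h : ∀ A V0, a A ≠ 0 → c V0 ≠ 0 →
      ∑' A', e A' * ∑' V', ∑' V, f V' * b V * F A V V0 A' V' ≤ K) : S5 a b c e f F ≤ K := by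
  have e1 : S5 a b c e f F = ∑' A, a A * ∑' V0, c V0 *
      ∑' A', e A' * ∑' V', ∑' V, f V' * b V * F A V V0 A' V' := by
    unfold S5
    simp_rw [← ENNReal.tsum_mul_left]
    refine tsum_congr fun A => ?_
    calc ∑' V, ∑' V0, ∑' A', ∑' V', a A * (b V * (c V0 * (e A' * (f V' * F A V V0 A' V'))))
        = ∑' V0, ∑' V, ∑' A', ∑' V',
          a A * (b V * (c V0 * (e A' * (f V' * F A V V0 A' V')))) := ENNReal.tsum_comm
      _ = ∑' V0, ∑' A', ∑' V, ∑' V',
          a A * (b V * (c V0 * (e A' * (f V' * F A V V0 A' V')))) :=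
          tsum_congr fun V0 => ENNReal.tsum_comm
      _ = ∑' V0, ∑' A', ∑' V', ∑' V,
          a A * (b V * (c V0 * (e A' * (f V' * F A V V0 A' V')))) :=
          tsum_congr fun V0 => tsum_congr fun A' => ENNReal.tsum_comm
      _ = _ := by
          refine tsum_congr fun V0 => tsum_congr fun A' => tsum_congr fun V' => tsum_congr fun V => ?_
          ring
  rw [e1]
  exact wsum_le a ha _ K fun A h0 => wsum_le c hc _ K fun V0 h1 => h A V0 h0 h1

end S5

open Classical in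
/-- weight of the lists of length `j` -/
noncomputable def wj {B : Type*} (Λ : B → ℝ≥0∞) (j : ℕ) (L : List B) : ℝ≥0∞ :=
  if L.length = j then LW Λ L else 0

open Classical in
lemma SL_wj {B : Type*} (Λ : B → ℝ≥0∞) (j : ℕ) (F : List B → ℝ≥0∞) :
    SL Λ j F = ∑' L, wj Λ j L * F L := by
  unfold SL wj
  refine tsum_congr fun L => ?_
  split_ifs <;> simp

lemma wj_mass {B : Type*} (Λ : B → ℝ≥0∞) (hΛ : ∑' b, Λ b ≤ 1) (j : ℕ) : ∑' L, wj Λ j L ≤ 1 := by
  have := SL_le_one Λ hΛ j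
  rw [SL_wj] at this
  simpa using this

lemma wj_ne {B : Type*} (ht : B → ℕ) (Λ : B → ℝ≥0∞) (T i0 j : ℕ) (L : List (List B))
    (h : wj (wA Λ ht T i0) j L ≠ 0) :
    j * T ≤ (L.map (HT ht)).sum ∧ (L.map (HT ht)).sum ≤ j * T + j * i0 := by
  unfold wj at h
  split_ifs at h with h1
  · have h2 : ∀ V ∈ L, T ≤ HT ht V ∧ HT ht V ≤ T + i0 := by
      intro V hV
      refine wA_ne Λ ht T i0 V fun h0 => h ?_
      unfold LW
      exact List.prod_eq_zero (List.mem_map.2 ⟨V, hV, h0⟩)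
    have := sum_bd (HT ht) T i0 L h2
    rw [h1] at this
    exact this
  · exact absurd rfl h

section window
variable {BX BY G : Type*} [AddCommGroup G]
  (ΛX : BX → ℝ≥0∞) (ΛY : BY → ℝ≥0∞) (hX : BX → ℕ) (hY : BY → ℕ) (zX : BX → G) (zY : BY → G)
  (sX : BX → Set (G × ℕ)) (sY : BY → Set (G × ℕ))

open Classical in
/-- indicator of a window contact -/
noncomputable def ind (w : G) (lo hi : ℕ) (A : List (List BX)) (V : List BX) (V0 : List BY)
    (A' : List (List BY)) (V' : List BY) : ℝ≥0∞ :=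
  if PC hX hY zX zY sX sY V V' ((w + Dp zY V0 + (A'.map (Dp zY)).sum) - (A.map (Dp zX)).sum)
    (A.map (HT hX)).sum (HT hY V0 + (A'.map (HT hY)).sum) lo hi then 1 else 0

open Classical in
/-- **one window** -/
theorem window (h1X : ∀ b, 1 ≤ hX b) (h1Y : ∀ b, 1 ≤ hY b) (hΛX : ∑' b, ΛX b ≤ 1)
    (hΛY : ∑' b, ΛY b ≤ 1) (C : ℝ≥0∞) (us : ℕ → ℝ≥0∞)
    (H2 : H2s ΛX ΛY hX hY zX zY sX sY C us) (H3 : H3s ΛX ΛY hX hY zX zY sX sY C us)
    (T i0 j J s lo hi : ℕ) (w : G) (u lam : ℝ≥0∞) (hu0 : u ≠ 0) (hu1 : u ≤ 1) (hl0 : lam ≠ 0)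
    (hlt : lam ≠ ⊤) (hj : j < J)
    (hlo : j * T + 2 * (J * i0) + i0 + s ≤ lo) (hhi : hi + s ≤ (j + 1) * T) :
    S5 (wj (wA ΛX hX T i0) j) (wA ΛX hX T i0) (wA ΛY hY (J * i0) i0) (wj (wA ΛY hY T i0) j)
      (wA ΛY hY T i0) (ind hX hY zX zY sX sY w lo hi)
      ≤ u * u + (((j * i0 + 1 : ℕ) : ℝ≥0∞) * (((i0 + 1 : ℕ) : ℝ≥0∞) * ((i0 + 1 : ℕ) : ℝ≥0∞)
        * RR C u lam (us s))) + (1 - u) ^ j
        + (((j * i0 + 1 : ℕ) : ℝ≥0∞) * (((i0 + 1 : ℕ) : ℝ≥0∞) * ((i0 + 1 : ℕ) : ℝ≥0∞)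
        * RR C u lam (us s))) + (1 - u) ^ j := by
  have mX := wA_mass ΛX hX h1X hΛX T i0
  have mY := wA_mass ΛY hY h1Y hΛY T i0
  have m0 := wA_mass ΛY hY h1Y hΛY (J * i0) i0
  have mjX := wj_mass _ mX j
  have mjY := wj_mass _ mY j
  have hJ1 : (j + 1) * i0 ≤ J * i0 := Nat.mul_le_mul_right _ hj
  have hJ2 : (j + 1) * i0 = j * i0 + i0 := by ring
  have hJ3 : (j + 1) * T = j * T + T := by ring
  obtain ⟨θX, hX0, hXn, hXs⟩ := thr (wA ΛX hX T i0) (fun V => (HT hX V, Dp zX V)) mX u hu0 hu1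
  obtain ⟨θY, hY0, hYn, hYs⟩ := thr (wA ΛY hY T i0) (fun V => (HT hY V, Dp zY V)) mY u hu0 hu1
  set LX : List BX → Prop := LocP (wA ΛX hX T i0) (fun V => (HT hX V, Dp zX V)) θX with hLX
  set LY : List BY → Prop := LocP (wA ΛY hY T i0) (fun V => (HT hY V, Dp zY V)) θY with hLY
  set SX : List BX → Prop := SmP (wA ΛX hX T i0) (fun V => (HT hX V, Dp zX V)) θX with hSX
  set SY : List BY → Prop := SmP (wA ΛY hY T i0) (fun V => (HT hY V, Dp zY V)) θY with hSY
  set I := ind hX hY zX zY sX sY w lo hi with hI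
  set F1 : List (List BX) → List BX → List BY → List (List BY) → List BY → ℝ≥0∞ :=
    fun _ V _ _ V' => (if LX V then 0 else 1) * (if LY V' then 0 else 1) with hF1
  set F2 : List (List BX) → List BX → List BY → List (List BY) → List BY → ℝ≥0∞ :=
    fun A V V0 A' V' => (if ∃ a ∈ A, SX a then 1 else 0) * (if LX V then I A V V0 A' V' else 0)
    with hF2
  set F3 : List (List BX) → List BX → List BY → List (List BY) → List BY → ℝ≥0∞ :=
    fun A _ _ _ _ => (if ∃ a ∈ A, SX a then 0 else 1) with hF3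
  set F4 : List (List BX) → List BX → List BY → List (List BY) → List BY → ℝ≥0∞ :=
    fun A V V0 A' V' => (if ∃ a ∈ A', SY a then 1 else 0) * (if LY V' then I A V V0 A' V' else 0)
    with hF4
  set F5 : List (List BX) → List BX → List BY → List (List BY) → List BY → ℝ≥0∞ :=
    fun _ _ _ A' _ => (if ∃ a ∈ A', SY a then 0 else 1) with hF5
  have hpt : ∀ A V V0 A' V', I A V V0 A' V' ≤ F1 A V V0 A' V' + F2 A V V0 A' V'
      + F3 A V V0 A' V' + F4 A V V0 A' V' + F5 A V V0 A' V' := by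
    intro A V V0 A' V'
    have hI1 : I A V V0 A' V' ≤ 1 := by
      simp only [hI, ind]; split_ifs <;> simp
    by_cases c1 : ∃ a ∈ A, SX a
    · by_cases c2 : ∃ a ∈ A', SY a
      · by_cases c3 : LX V
        · simp only [hF2, if_pos c1, if_pos c3, one_mul]
          exact le_add_right (le_add_right (le_add_right le_add_self))
        · by_cases c4 : LY V'
          · simp only [hF4, if_pos c2, if_pos c4, one_mul]
            exact le_add_right le_add_self
          · simp only [hF1, if_neg c3, if_neg c4, one_mul]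
            exact hI1.trans (le_add_right (le_add_right (le_add_right (le_add_right le_rfl))))
      · simp only [hF5, if_neg c2]
        exact hI1.trans le_add_self
    · simp only [hF3, if_neg c1]
      exact hI1.trans (le_add_right (le_add_right le_add_self))
  refine (S5_mono _ _ _ _ _ hpt).trans ?_
  rw [S5_add _ _ _ _ _ (fun A V V0 A' V' => F1 A V V0 A' V' + F2 A V V0 A' V'
      + F3 A V V0 A' V' + F4 A V V0 A' V') F5,
    S5_add _ _ _ _ _ (fun A V V0 A' V' => F1 A V V0 A' V' + F2 A V V0 A' V'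
      + F3 A V V0 A' V') F4,
    S5_add _ _ _ _ _ (fun A V V0 A' V' => F1 A V V0 A' V' + F2 A V V0 A' V') F3,
    S5_add _ _ _ _ _ F1 F2]
  refine add_le_add (add_le_add (add_le_add (add_le_add ?_ ?_) ?_) ?_) ?_
  · -- both non local
    refine wsum_le _ mjX _ _ fun A _ => ?_
    calc ∑' V, wA ΛX hX T i0 V * ∑' V0, wA ΛY hY (J * i0) i0 V0 * ∑' A',
          wj (wA ΛY hY T i0) j A' * ∑' V', wA ΛY hY T i0 V' * F1 A V V0 A' V'
        ≤ ∑' V, (if LX V then 0 else wA ΛX hX T i0 V) * u := by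
          refine ENNReal.tsum_le_tsum fun V => ?_
          by_cases hV : LX V
          · simp [hF1, hV]
          · rw [if_neg hV]
            refine mul_le_mul_right ?_ _
            refine wsum_le _ m0 _ _ fun V0 _ => wsum_le _ mjY _ _ fun A' _ => ?_
            refine le_trans (ENNReal.tsum_le_tsum fun V' => ?_) hYn
            simp only [hF1, if_neg hV, one_mul]
            by_cases hV' : LY V'
            · rw [if_pos hV', if_pos (show LocP _ _ _ _ from hV'), mul_zero]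
            · rw [if_neg hV', if_neg (show ¬ LocP _ _ _ _ from hV'), mul_one]
      _ ≤ u * u := by
          rw [ENNReal.tsum_mul_right]
          exact mul_le_mul_left hXn _
  · -- `X` local
    refine S5_X _ _ _ _ _ m0 mjY _ _ fun V0 A' h0 h1 => ?_
    have g0 := wA_ne ΛY hY (J * i0) i0 V0 h0
    have g1 := wj_ne hY ΛY T i0 j A' h1
    have := termX ΛX ΛY hX hY zX zY sX sY h1X h1Y hΛX hΛY C us H2 T i0 j s lo hi
      (HT hY V0 + (A'.map (HT hY)).sum) (w + Dp zY V0 + (A'.map (Dp zY)).sum) u θX lam hu1 hX0 hl0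
      hlt hXs (by omega) (by omega) (by omega)
    rw [SL_wj] at this
    refine le_trans (ENNReal.tsum_le_tsum fun A => mul_le_mul_right ?_ _) this
    rw [← ENNReal.tsum_mul_left]
    refine ENNReal.tsum_le_tsum fun V => ?_
    rw [← ENNReal.tsum_mul_left]
    refine ENNReal.tsum_le_tsum fun V' => ?_
    simp only [hF2]
    by_cases hV : LX V
    · rw [if_pos hV]
      simp only [hI, ind]
      by_cases hP : PC hX hY zX zY sX sY V V' ((w + Dp zY V0 + (A'.map (Dp zY)).sum)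
          - (A.map (Dp zX)).sum) (A.map (HT hX)).sum (HT hY V0 + (A'.map (HT hY)).sum) lo hi
      · have hc := And.intro hV hP
        simp only [hLX] at hc
        rw [if_pos hP, if_pos hc, mul_one, mul_comm]
      · rw [if_neg hP]; simp
    · rw [if_neg hV]; simp
  · -- no small piece of `X`
    have := nosmall (wA ΛX hX T i0) SX (1 - u) hXs j
    rw [SL_wj] at this
    refine le_trans (ENNReal.tsum_le_tsum fun A => mul_le_mul_right ?_ _) this
    refine wsum_le _ mX _ _ fun V _ => wsum_le _ m0 _ _ fun V0 _ => wsum_le _ mjY _ _ fun A' _ =>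
      wsum_le _ mY _ _ fun V' _ => le_rfl
  · -- `Y` local
    refine S5_Y _ _ _ _ _ mjX m0 _ _ fun A V0 h1 h0 => ?_
    have g0 := wA_ne ΛY hY (J * i0) i0 V0 h0
    have g1 := wj_ne hX ΛX T i0 j A h1
    have := termY ΛX ΛY hX hY zX zY sX sY h1X h1Y hΛX hΛY C us H3 T i0 j s lo hi
      (A.map (HT hX)).sum (HT hY V0) (w + Dp zY V0 - (A.map (Dp zX)).sum) u θY lam hu1 hY0 hl0
      hlt hYs (by omega) (by omega) (by omega)
    rw [SL_wj] at this
    refine le_trans (ENNReal.tsum_le_tsum fun A' => mul_le_mul_right ?_ _) this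
    rw [← ENNReal.tsum_mul_left]
    refine ENNReal.tsum_le_tsum fun V' => ?_
    rw [← ENNReal.tsum_mul_left]
    refine ENNReal.tsum_le_tsum fun V => ?_
    simp only [hF4]
    have ex : w + Dp zY V0 - (A.map (Dp zX)).sum + (A'.map (Dp zY)).sum
        = (w + Dp zY V0 + (A'.map (Dp zY)).sum) - (A.map (Dp zX)).sum := by abel
    by_cases hV : LY V'
    · rw [if_pos hV]
      simp only [hI, ind]
      by_cases hP : PC hX hY zX zY sX sY V V' ((w + Dp zY V0 + (A'.map (Dp zY)).sum)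
          - (A.map (Dp zX)).sum) (A.map (HT hX)).sum (HT hY V0 + (A'.map (HT hY)).sum) lo hi
      · have hP' := hP
        rw [← ex] at hP'
        have hc := And.intro hV hP'
        simp only [hLY] at hc
        rw [if_pos hP, if_pos hc, mul_one, mul_comm]
      · rw [if_neg hP]; simp
    · rw [if_neg hV]; simp
  · -- no small piece of `Y`
    have := nosmall (wA ΛY hY T i0) SY (1 - u) hYs j
    rw [SL_wj] at this
    refine wsum_le _ mjX _ _ fun A _ => wsum_le _ mX _ _ fun V _ => wsum_le _ m0 _ _ fun V0 _ => ?_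
    refine le_trans (ENNReal.tsum_le_tsum fun A' => mul_le_mul_right ?_ _) this
    exact wsum_le _ mY _ _ fun V' _ => le_rfl

end window

end Crest.Agent.R154.Asm999
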