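import Crest.Agent.R154.AsmD_10

/-! Row 154, ROAD 801, abstract assembly, part E (helper10): decompositions of pairs of lists. -/

set_option autoImplicit false

namespace Crest.Agent.R154.Asm10

open scoped ENNReal Topology
open Filter Crest.Agent.R154.B5A

lemma one_ext {B : Type*} (Λ : B → ℝ≥0∞) (ht : B → ℕ) (hU1 : ∀ n, U Λ ht n ≤ 1) (n : ℕ)
    (f : List B) :
    ∑' L : List B, I (HT ht L = n) * (LW Λ L * ∑' R, I (L = f ++ R)) ≤ LW Λ f := by
  classical
  have h1 : ∀ L : List B, I (HT ht L = n) * (LW Λ L * ∑' R, I (L = f ++ R))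
      = ∑' R, I (HT ht L = n) * (LW Λ L * I (L = f ++ R)) := by
    intro L; rw [ENNReal.tsum_mul_left, ENNReal.tsum_mul_left]
  simp_rw [h1]
  rw [ENNReal.tsum_comm]
  have h2 : ∀ R : List B, ∑' L : List B, I (HT ht L = n) * (LW Λ L * I (L = f ++ R))
      = I (HT ht (f ++ R) = n) * LW Λ (f ++ R) := by
    intro R
    rw [tsum_eq_single (f ++ R)]
    · rw [I_pos (p := f ++ R = f ++ R) rfl, mul_one]
    · intro L hL; rw [I_neg (p := L = f ++ R) hL, mul_zero, mul_zero]
  simp_rw [h2]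
  calc ∑' R : List B, I (HT ht (f ++ R) = n) * LW Λ (f ++ R)
      ≤ ∑' R : List B, LW Λ f * (if HT ht R = n - HT ht f then LW Λ R else 0) := by
        refine ENNReal.tsum_le_tsum fun R => ?_
        rw [HT_append, LW_append]
        by_cases h : HT ht f + HT ht R = n
        · rw [I_pos h, if_pos (by omega), one_mul]
        · rw [I_neg h, zero_mul]; exact zero_le
    _ = LW Λ f * U Λ ht (n - HT ht f) := by rw [ENNReal.tsum_mul_left]; rfl
    _ ≤ LW Λ f * 1 := mul_le_mul_right (hU1 _) _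
    _ = _ := mul_one _

section Two

variable {BX BY : Type*} (ΛX : BX → ℝ≥0∞) (ΛY : BY → ℝ≥0∞) (hX : BX → ℕ) (hY : BY → ℕ)

/-- weight of the pairs of lists of height `n` with a property -/
noncomputable def NN (n : ℕ) (Q : List BX → List BY → Prop) : ℝ≥0∞ :=
  ∑' L : List BX, ∑' L' : List BY, I (HT hX L = n) * LW ΛX L * (I (HT hY L' = n) * LW ΛY L') *
    I (Q L L')

lemma NN_mono (n : ℕ) {Q Q' : List BX → List BY → Prop}
    (h : ∀ L L', HT hX L = n → HT hY L' = n → Q L L' → Q' L L') :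
    NN ΛX ΛY hX hY n Q ≤ NN ΛX ΛY hX hY n Q' := by
  refine ENNReal.tsum_le_tsum fun L => ENNReal.tsum_le_tsum fun L' => ?_
  by_cases h1 : HT hX L = n
  · by_cases h2 : HT hY L' = n
    · exact mul_le_mul_right (I_mono (h L L' h1 h2)) _
    · simp [I_neg h2]
  · simp [I_neg h1]

lemma NN_or (n : ℕ) {Q Q1 Q2 : List BX → List BY → Prop}
    (h : ∀ L L', HT hX L = n → HT hY L' = n → Q L L' → Q1 L L' ∨ Q2 L L') :
    NN ΛX ΛY hX hY n Q ≤ NN ΛX ΛY hX hY n Q1 + NN ΛX ΛY hX hY n Q2 := by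
  unfold NN
  rw [← ENNReal.tsum_add]
  refine ENNReal.tsum_le_tsum fun L => ?_
  rw [← ENNReal.tsum_add]
  refine ENNReal.tsum_le_tsum fun L' => ?_
  rw [← mul_add]
  by_cases h1 : HT hX L = n
  · by_cases h2 : HT hY L' = n
    · exact mul_le_mul_right (I_or (h L L' h1 h2)) _
    · simp [I_neg h2]
  · simp [I_neg h1]

lemma NN_fin {ι : Type*} (s : Finset ι) (n : ℕ) {Q : List BX → List BY → Prop}
    {q : ι → List BX → List BY → Prop}
    (h : ∀ L L', HT hX L = n → HT hY L' = n → Q L L' → ∃ i ∈ s, q i L L') :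
    NN ΛX ΛY hX hY n Q ≤ ∑ i ∈ s, NN ΛX ΛY hX hY n (q i) := by
  classical
  induction s using Finset.induction_on generalizing Q with
  | empty =>
    simp only [Finset.sum_empty]
    refine le_trans (NN_mono ΛX ΛY hX hY n (Q' := fun _ _ => False) ?_) ?_
    · intro L L' h1 h2 hQ
      obtain ⟨i, hi, _⟩ := h L L' h1 h2 hQ
      simp at hi
    · unfold NN
      have : I False = 0 := I_neg not_false
      simp [this]
  | insert a s ha ih =>
    rw [Finset.sum_insert ha]
    refine (NN_or ΛX ΛY hX hY n (Q1 := q a) (Q2 := fun L L' => ∃ i ∈ s, q i L L') ?_).trans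
      (add_le_add le_rfl (ih fun L L' _ _ hh => hh))
    intro L L' h1 h2 hQ
    obtain ⟨i, hi, hq⟩ := h L L' h1 h2 hQ
    rcases Finset.mem_insert.1 hi with rfl | hi
    · exact Or.inl hq
    · exact Or.inr ⟨i, hi, hq⟩

/-- **the decomposition bound** -/
lemma NN_exists (hUX : ∀ n, U ΛX hX n ≤ 1) (hUY : ∀ n, U ΛY hY n ≤ 1) (n : ℕ) {ι κ : Type*}
    (f : ι → List BX) (g : κ → List BY) (ψ : ι → κ → Prop) {Q : List BX → List BY → Prop}
    (h : ∀ L L', HT hX L = n → HT hY L' = n → Q L L' →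
      ∃ i j R R', L = f i ++ R ∧ L' = g j ++ R' ∧ ψ i j) :
    NN ΛX ΛY hX hY n Q ≤ ∑' i, ∑' j, LW ΛX (f i) * LW ΛY (g j) * I (ψ i j) := by
  classical
  set r : ι → List BX → ℝ≥0∞ := fun i L => ∑' R, I (L = f i ++ R) with hr
  set r' : κ → List BY → ℝ≥0∞ := fun j L' => ∑' R', I (L' = g j ++ R') with hr'
  have h1 : ∀ L L', I (HT hX L = n) * LW ΛX L * (I (HT hY L' = n) * LW ΛY L') * I (Q L L')
      ≤ ∑' i, ∑' j, (I (HT hX L = n) * (LW ΛX L * r i L)) *
        (I (HT hY L' = n) * (LW ΛY L' * r' j L')) * I (ψ i j) := by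
    intro L L'
    by_cases hL : HT hX L = n
    · by_cases hL' : HT hY L' = n
      · by_cases hQ : Q L L'
        · obtain ⟨i, j, R, R', e1, e2, e3⟩ := h L L' hL hL' hQ
          have a1 : 1 ≤ r i L := by
            refine le_trans (le_of_eq ?_) (ENNReal.le_tsum R)
            exact (I_pos e1).symm
          have a2 : 1 ≤ r' j L' := by
            refine le_trans (le_of_eq ?_) (ENNReal.le_tsum R')
            exact (I_pos e2).symm
          refine le_trans ?_ (ENNReal.le_tsum i)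
          refine le_trans ?_ (ENNReal.le_tsum j)
          rw [I_pos hQ, I_pos e3, mul_one, mul_one]
          refine mul_le_mul' ?_ ?_
          · refine mul_le_mul_right ?_ _
            calc LW ΛX L = LW ΛX L * 1 := (mul_one _).symm
              _ ≤ _ := mul_le_mul_right a1 _
          · refine mul_le_mul_right ?_ _
            calc LW ΛY L' = LW ΛY L' * 1 := (mul_one _).symm
              _ ≤ _ := mul_le_mul_right a2 _
        · rw [I_neg hQ, mul_zero]; exact zero_le
      · simp [I_neg hL']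
    · simp [I_neg hL]
  have h2 : NN ΛX ΛY hX hY n Q ≤ ∑' L, ∑' L', ∑' i, ∑' j, (I (HT hX L = n) * (LW ΛX L * r i L)) *
        (I (HT hY L' = n) * (LW ΛY L' * r' j L')) * I (ψ i j) :=
    ENNReal.tsum_le_tsum fun L => ENNReal.tsum_le_tsum fun L' => h1 L L'
  refine h2.trans ?_
  calc ∑' L, ∑' L', ∑' i, ∑' j, (I (HT hX L = n) * (LW ΛX L * r i L)) *
        (I (HT hY L' = n) * (LW ΛY L' * r' j L')) * I (ψ i j)
      = ∑' i, ∑' j, (∑' L, I (HT hX L = n) * (LW ΛX L * r i L)) *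
        (∑' L', I (HT hY L' = n) * (LW ΛY L' * r' j L')) * I (ψ i j) := by
        have e1 : ∀ L, ∑' L', ∑' i, ∑' j, (I (HT hX L = n) * (LW ΛX L * r i L)) *
            (I (HT hY L' = n) * (LW ΛY L' * r' j L')) * I (ψ i j)
            = ∑' i, ∑' j, ∑' L', (I (HT hX L = n) * (LW ΛX L * r i L)) *
            (I (HT hY L' = n) * (LW ΛY L' * r' j L')) * I (ψ i j) := by
          intro L
          rw [ENNReal.tsum_comm]
          exact tsum_congr fun i => ENNReal.tsum_comm
        simp_rw [e1]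
        rw [ENNReal.tsum_comm]
        refine tsum_congr fun i => ?_
        rw [ENNReal.tsum_comm]
        refine tsum_congr fun j => ?_
        rw [← ENNReal.tsum_mul_right, ← ENNReal.tsum_mul_right]
        refine tsum_congr fun L => ?_
        rw [ENNReal.tsum_mul_right, ENNReal.tsum_mul_left]
    _ ≤ _ := by
        refine ENNReal.tsum_le_tsum fun i => ENNReal.tsum_le_tsum fun j => ?_
        exact mul_le_mul' (mul_le_mul' (one_ext ΛX hX hUX n (f i)) (one_ext ΛY hY hUY n (g j)))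
          le_rfl

end Two

section Reorder2

variable {α β γ δ G : Type*} (wA : α → ℝ≥0∞) (wP : β → ℝ≥0∞) (wB : γ → ℝ≥0∞) (wQ : δ → ℝ≥0∞)

lemma reorder2 (y : α → γ → G) (χ : α → γ → Prop) (ψ : G → β → δ → Prop) :
    ∑' i : α × β, ∑' j : γ × δ, wA i.1 * wP i.2 * (wB j.1 * wQ j.2) *
        I (χ i.1 j.1 ∧ ψ (y i.1 j.1) i.2 j.2)
      = ∑' x, (∑' A, ∑' A', wA A * (wB A' * I (χ A A' ∧ y A A' = x))) *
        ∑' P, ∑' Q, wP P * (wQ Q * I (ψ x P Q)) := by
  classical
  set Ψ : G → ℝ≥0∞ := fun x => ∑' P, ∑' Q, wP P * (wQ Q * I (ψ x P Q)) with hΨ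
  have hb : ∀ A A', wA A * (wB A' * (I (χ A A') * Ψ (y A A')))
      = ∑' x, (wA A * (wB A' * I (χ A A' ∧ y A A' = x))) * Ψ x := by
    intro A A'
    rw [tsum_eq_single (y A A')]
    · rw [I_and, I_pos (p := y A A' = y A A') rfl, mul_one]; ring
    · intro x hx
      rw [I_neg (p := χ A A' ∧ y A A' = x) (fun hh => hx hh.2.symm)]; simp
  calc _ = ∑' A, ∑' A', wA A * (wB A' * (I (χ A A') * Ψ (y A A'))) := by
        rw [ENNReal.tsum_prod']
        refine tsum_congr fun A => ?_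
        have e : ∀ P, (∑' j : γ × δ, wA A * wP P * (wB j.1 * wQ j.2) *
            I (χ A j.1 ∧ ψ (y A j.1) P j.2)) = ∑' A', ∑' Q, wA A * wP P * (wB A' * wQ Q) *
            I (χ A A' ∧ ψ (y A A') P Q) := fun P => ENNReal.tsum_prod'
        simp only [e]
        rw [ENNReal.tsum_comm]
        refine tsum_congr fun A' => ?_
        simp only [hΨ, ← ENNReal.tsum_mul_left]
        refine tsum_congr fun P => tsum_congr fun Q => ?_
        rw [I_and]; ring
    _ = ∑' A, ∑' A', ∑' x, (wA A * (wB A' * I (χ A A' ∧ y A A' = x))) * Ψ x := by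
        simp_rw [hb]
    _ = _ := by
        have e1 : ∀ A, ∑' A', ∑' x, (wA A * (wB A' * I (χ A A' ∧ y A A' = x))) * Ψ x
            = ∑' x, ∑' A', (wA A * (wB A' * I (χ A A' ∧ y A A' = x))) * Ψ x :=
          fun A => ENNReal.tsum_comm
        simp_rw [e1]
        rw [ENNReal.tsum_comm]
        refine tsum_congr fun x => ?_
        simp_rw [ENNReal.tsum_mul_right]
        rfl

lemma mu2_mass (hA : ∑' A, wA A ≤ 1) (hB : ∑' A', wB A' ≤ 1) (y : α → γ → G)
    (χ : α → γ → Prop) :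
    ∑' x, (∑' A, ∑' A', wA A * (wB A' * I (χ A A' ∧ y A A' = x))) ≤ 1 := by
  classical
  rw [ENNReal.tsum_comm]
  have h1 : ∀ A, ∑' x, ∑' A', wA A * (wB A' * I (χ A A' ∧ y A A' = x)) ≤ wA A := by
    intro A
    rw [ENNReal.tsum_comm]
    calc _ ≤ ∑' A', wA A * wB A' := by
          refine ENNReal.tsum_le_tsum fun A' => ?_
          rw [ENNReal.tsum_mul_left, ENNReal.tsum_mul_left]
          refine mul_le_mul_right ?_ _
          rw [tsum_eq_single (y A A')]
          · exact (mul_le_mul_right (I_le _) _).trans (mul_one _).le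
          · intro x hx; exact I_neg fun hh => hx hh.2.symm
      _ = wA A * ∑' A', wB A' := ENNReal.tsum_mul_left
      _ ≤ wA A * 1 := mul_le_mul_right hB _
      _ = _ := mul_one _
  exact (ENNReal.tsum_le_tsum h1).trans hA

lemma mu2_supA (hB : ∑' A', wB A' ≤ 1) (y : α → γ → G) (χ : α → γ → Prop) (M : ℝ≥0∞) (x : G)
    (h : ∀ A', ∑' A, wA A * I (χ A A' ∧ y A A' = x) ≤ M) :
    (∑' A, ∑' A', wA A * (wB A' * I (χ A A' ∧ y A A' = x))) ≤ M := by
  rw [ENNReal.tsum_comm]
  calc _ = ∑' A', wB A' * ∑' A, wA A * I (χ A A' ∧ y A A' = x) := by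
        refine tsum_congr fun A' => ?_
        rw [← ENNReal.tsum_mul_left]
        exact tsum_congr fun A => by ring
    _ ≤ ∑' A', wB A' * M := ENNReal.tsum_le_tsum fun A' => mul_le_mul_right (h A') _
    _ = (∑' A', wB A') * M := ENNReal.tsum_mul_right
    _ ≤ 1 * M := mul_le_mul_left hB _
    _ = M := one_mul _

lemma mu2_supB (hA : ∑' A, wA A ≤ 1) (y : α → γ → G) (χ : α → γ → Prop) (M : ℝ≥0∞) (x : G)
    (h : ∀ A, ∑' A', wB A' * I (χ A A' ∧ y A A' = x) ≤ M) :
    (∑' A, ∑' A', wA A * (wB A' * I (χ A A' ∧ y A A' = x))) ≤ M := by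
  calc _ = ∑' A, wA A * ∑' A', wB A' * I (χ A A' ∧ y A A' = x) := by
        exact tsum_congr fun A => ENNReal.tsum_mul_left
    _ ≤ ∑' A, wA A * M := ENNReal.tsum_le_tsum fun A => mul_le_mul_right (h A) _
    _ = (∑' A, wA A) * M := ENNReal.tsum_mul_right
    _ ≤ 1 * M := mul_le_mul_left hA _
    _ = M := one_mul _

end Reorder2

end Crest.Agent.R154.Asm10
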