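import Crest.Agent.R154.AsmD_103

/-! Row 154, ROAD 801, assembly in pieces from the tie (helper103), part 3: one window, one side. -/

set_option autoImplicit false

namespace Crest.Agent.R154.Asm103

open scoped ENNReal
open Crest.Agent.R154.B5A Crest.Agent.R154.FP178

variable {G : Type*} [AddCommGroup G]

lemma tsum_SL {B γ : Type*} (Λ : B → ℝ≥0∞) (j : ℕ) (ρ : γ → ℝ≥0∞) (F : γ → List B → ℝ≥0∞) :
    ∑' x, ρ x * SL Λ j (F x) = SL Λ j (fun Q => ∑' x, ρ x * F x Q) := by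
  simp only [SL]
  simp only [← ENNReal.tsum_mul_left]
  rw [ENNReal.tsum_comm]
  refine tsum_congr fun L => ?_
  by_cases hL : L.length = j
  · simp only [hL, if_true]
    refine tsum_congr fun x => ?_
    ring
  · simp [hL]

lemma SL_sum {B ι : Type*} (Λ : B → ℝ≥0∞) (j : ℕ) (s : Finset ι) (F : ι → List B → ℝ≥0∞) :
    SL Λ j (fun Q => ∑ i ∈ s, F i Q) = ∑ i ∈ s, SL Λ j (F i) := by
  classical
  induction s using Finset.induction_on with
  | empty => simp [SL]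
  | insert a s ha ih => simp only [Finset.sum_insert ha]; rw [SL_add_fun, ih]

lemma SL_le_one {B : Type*} (Λ : B → ℝ≥0∞) (hΛ : ∑' b, Λ b = 1) (j : ℕ) (F : List B → ℝ≥0∞)
    (hF : ∀ Q, F Q ≤ 1) : SL Λ j F ≤ 1 :=
  (SL_mono Λ j fun L _ => hF L).trans (SL_one Λ hΛ j).le

lemma SL_le_const {B : Type*} (Λ : B → ℝ≥0∞) (hΛ : ∑' b, Λ b = 1) (j : ℕ) (F : List B → ℝ≥0∞)
    (c : ℝ≥0∞) (hF : ∀ Q, Q.length = j → F Q ≤ c) : SL Λ j F ≤ c :=
  (SL_mono Λ j fun L hL => hF L hL).trans (SL_const Λ hΛ j c).le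

lemma sum_out {α β γ ι : Type*} (s : Finset ι) (ρ : γ → ℝ≥0∞) (F : ι → γ → α → β → ℝ≥0∞) :
    ∑' x, ρ x * ∑' A, ∑' C, ∑ i ∈ s, F i x A C = ∑ i ∈ s, ∑' x, ρ x * ∑' A, ∑' C, F i x A C := by
  have h1 : ∀ x, ρ x * ∑' A, ∑' C, ∑ i ∈ s, F i x A C = ∑ i ∈ s, ρ x * ∑' A, ∑' C, F i x A C := by
    intro x
    rw [← Finset.mul_sum]
    congr 1
    have h2 : ∀ A, ∑' C, ∑ i ∈ s, F i x A C = ∑ i ∈ s, ∑' C, F i x A C := fun A =>
      Summable.tsum_finsetSum (fun _ _ => ENNReal.summable)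
    simp only [h2]
    exact Summable.tsum_finsetSum (fun _ _ => ENNReal.summable)
  simp only [h1]
  exact Summable.tsum_finsetSum (fun _ _ => ENNReal.summable)

section
variable {B : Type*}

/-- (height, displacement) of a piece -/
def ff (h : B → ℕ) (z : B → G) (A : List B) : ℤ × G := (((HT h A : ℕ) : ℤ), Dp z A)

lemma ff_sum (h : B → ℕ) (z : B → G) (Q : List (List B)) :
    (Q.map (ff h z)).sum = ff h z Q.flatten := by
  induction Q with
  | nil => simp only [ff, HT, Dp, List.flatten_nil, List.map_nil, List.sum_nil]; rfl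
  | cons A Q ih =>
    rw [List.map_cons, List.sum_cons, ih, List.flatten_cons]
    simp [ff, HT_append, Dp_append]

open Classical in
/-- law of (height, displacement) of a piece -/
noncomputable def pp (Λ : B → ℝ≥0∞) (h : B → ℕ) (z : B → G) (T : ℕ) (v : ℤ × G) : ℝ≥0∞ :=
  ∑' A, if ff h z A = v then PW Λ h T A else 0

lemma pp_sum (Λ : B → ℝ≥0∞) (h : B → ℕ) (z : B → G) (h1 : ∀ b, 1 ≤ h b) (hΛ : ∑' b, Λ b = 1)
    (T : ℕ) : ∑' v, pp Λ h z T v = 1 := by
  classical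
  unfold pp
  rw [ENNReal.tsum_comm]
  simp only [tsum_ite_eq']
  exact PW_sum Λ h h1 hΛ T

open Classical in
lemma pp_sum_if (Λ : B → ℝ≥0∞) (h : B → ℕ) (z : B → G) (T : ℕ) (P : ℤ × G → Prop) :
    ∑' v, (if P v then pp Λ h z T v else 0) = ∑' A, if P (ff h z A) then PW Λ h T A else 0 := by
  have : ∀ v, (if P v then pp Λ h z T v else 0)
      = ∑' A, if ff h z A = v then (if P (ff h z A) then PW Λ h T A else 0) else 0 := by
    intro v
    unfold pp
    by_cases hv : P v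
    · rw [if_pos hv]
      refine tsum_congr fun A => ?_
      by_cases hA : ff h z A = v
      · rw [if_pos hA, if_pos hA, hA, if_pos hv]
      · rw [if_neg hA, if_neg hA]
    · rw [if_neg hv]
      symm
      refine ENNReal.tsum_eq_zero.2 fun A => ?_
      by_cases hA : ff h z A = v
      · rw [if_pos hA, hA, if_neg hv]
      · rw [if_neg hA]
  simp only [this]
  rw [ENNReal.tsum_comm]
  simp only [tsum_ite_eq']

end

set_option maxHeartbeats 1000000 in
open Classical in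
theorem side {BP BO : Type*} (ΛP : BP → ℝ≥0∞) (hP : BP → ℕ) (zP : BP → G) (ΛO : BO → ℝ≥0∞)
    (hO : BO → ℕ) (h1P : ∀ b, 1 ≤ hP b) (hΛP : ∑' b, ΛP b = 1) (h1O : ∀ b, 1 ≤ hO b)
    (hΛO : ∑' b, ΛO b = 1) (T i0 j : ℕ) (θ q : ℝ≥0∞)
    (hq : ∑' A, (if pp ΛP hP zP T (ff hP zP A) < 2 * θ then 0 else PW ΛP hP T A) ≤ q)
    (Ψ : ℕ → G → List BP → List (List BO) → List BO → Prop) (bd : ℝ≥0∞)
    (hbd : ∀ (a h h' : ℕ) (Q' : List (List BO)), Q'.length = j →
      (∀ C ∈ Q', T ≤ HT hO C ∧ HT hO C ≤ T + i0) → j * T ≤ a → a ≤ j * (T + i0) →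
      T ≤ h → h ≤ T + i0 → T ≤ h' → h' ≤ T + i0 →
      ∀ ρ : G → ℝ≥0∞, ∑' x, ρ x ≤ 1 → (∀ x, ρ x ≤ j * (2 * θ)) →
      ∑' x, ρ x * ∑' A, ∑' C, (if HT hP A = h ∧ θ ≤ pp ΛP hP zP T ((h : ℤ), Dp zP A) ∧
        HT hO C = h' ∧ Ψ a x A Q' C then LW ΛP A * LW ΛO C else 0) ≤ bd) :
    SL (PW ΛP hP T) j (fun Q => SL (PW ΛO hO T) j (fun Q' => ∑' A, ∑' C,
      (if (∀ A ∈ Q, T ≤ HT hP A ∧ HT hP A ≤ T + i0) ∧ (∀ C ∈ Q', T ≤ HT hO C ∧ HT hO C ≤ T + i0) ∧
        (T ≤ HT hP A ∧ HT hP A ≤ T + i0) ∧ (T ≤ HT hO C ∧ HT hO C ≤ T + i0) ∧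
        θ ≤ pp ΛP hP zP T (ff hP zP A) ∧ Ψ (HT hP Q.flatten) (Dp zP Q.flatten) A Q' C
        then PW ΛP hP T A * PW ΛO hO T C else 0)))
      ≤ q ^ j + ((j * i0 + 1 : ℕ) : ℝ≥0∞) * (((i0 + 1 : ℕ) : ℝ≥0∞) * ((i0 + 1 : ℕ) : ℝ≥0∞) * bd) := by
  set PP := PW ΛP hP T with hPP
  set PO := PW ΛO hO T with hPO
  have sP : ∑' A, PP A = 1 := PW_sum ΛP hP h1P hΛP T
  have sO : ∑' A, PO A = 1 := PW_sum ΛO hO h1O hΛO T
  have hPle : ∀ A, PP A ≤ LW ΛP A := by
    intro A; rw [hPP, PW]; split_ifs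
    · exact le_rfl
    · exact zero_le
  have hOle : ∀ A, PO A ≤ LW ΛO A := by
    intro A; rw [hPO, PW]; split_ifs
    · exact le_rfl
    · exact zero_le
  obtain ⟨K, hK⟩ : ∃ K : ℕ → G → List (List BO) → List BP → List BO → ℝ≥0∞,
    ∀ a x Q' A C, K a x Q' A C =
    if (∀ C ∈ Q', T ≤ HT hO C ∧ HT hO C ≤ T + i0) ∧
        (T ≤ HT hP A ∧ HT hP A ≤ T + i0) ∧ (T ≤ HT hO C ∧ HT hO C ≤ T + i0) ∧
        θ ≤ pp ΛP hP zP T (ff hP zP A) ∧ Ψ a x A Q' C then PP A * PO C else 0 :=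
    ⟨_, fun _ _ _ _ _ => rfl⟩
  obtain ⟨g, hg⟩ : ∃ g : ℕ → G → ℝ≥0∞,
    ∀ a x, g a x = SL PO j (fun Q' => ∑' A, ∑' C, K a x Q' A C) := ⟨_, fun _ _ => rfl⟩
  have hg1 : ∀ a x, g a x ≤ 1 := by
    intro a x
    rw [hg]
    refine SL_le_one PO sO j _ fun Q' => ?_
    calc ∑' A, ∑' C, K a x Q' A C ≤ ∑' A, ∑' C, PP A * PO C := by
          refine ENNReal.tsum_le_tsum fun A => ENNReal.tsum_le_tsum fun C => ?_
          simp only [hK]
          split_ifs
          · exact le_rfl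
          · exact zero_le
      _ = 1 := by simp only [ENNReal.tsum_mul_left]; rw [ENNReal.tsum_mul_right, sP, sO, mul_one]
  set sm : List BP → Prop := fun A => pp ΛP hP zP T (ff hP zP A) < 2 * θ with hsm
  -- step 1
  have step1 : SL PP j (fun Q => SL PO j (fun Q' => ∑' A, ∑' C,
      (if (∀ A ∈ Q, T ≤ HT hP A ∧ HT hP A ≤ T + i0) ∧ (∀ C ∈ Q', T ≤ HT hO C ∧ HT hO C ≤ T + i0) ∧
        (T ≤ HT hP A ∧ HT hP A ≤ T + i0) ∧ (T ≤ HT hO C ∧ HT hO C ≤ T + i0) ∧
        θ ≤ pp ΛP hP zP T (ff hP zP A) ∧ Ψ (HT hP Q.flatten) (Dp zP Q.flatten) A Q' C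
        then PP A * PO C else 0)))
      ≤ SL PP j (fun Q => (if ∃ A ∈ Q, sm A then 0 else 1)
        + ∑ a ∈ Finset.Icc (j * T) (j * (T + i0)),
          (if (∃ A ∈ Q, sm A) ∧ HT hP Q.flatten = a then g a (Dp zP Q.flatten) else 0)) := by
    refine SL_mono PP j fun Q hQj => ?_
    by_cases hQ : ∀ A ∈ Q, T ≤ HT hP A ∧ HT hP A ≤ T + i0
    · have hE : SL PO j (fun Q' => ∑' A, ∑' C,
          (if (∀ A ∈ Q, T ≤ HT hP A ∧ HT hP A ≤ T + i0) ∧
            (∀ C ∈ Q', T ≤ HT hO C ∧ HT hO C ≤ T + i0) ∧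
            (T ≤ HT hP A ∧ HT hP A ≤ T + i0) ∧ (T ≤ HT hO C ∧ HT hO C ≤ T + i0) ∧
            θ ≤ pp ΛP hP zP T (ff hP zP A) ∧ Ψ (HT hP Q.flatten) (Dp zP Q.flatten) A Q' C
            then PP A * PO C else 0)) = g (HT hP Q.flatten) (Dp zP Q.flatten) := by
        simp only [hg, hK]
        refine SL_congr PO j fun Q' _ => tsum_congr fun A => tsum_congr fun C => ?_
        refine if_congr ?_ rfl rfl
        constructor
        · rintro ⟨_, h⟩; exact h
        · intro h; exact ⟨fun A hA => hQ A hA, h⟩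
      rw [hE]
      by_cases hs : ∃ A ∈ Q, sm A
      · rw [if_pos hs, zero_add]
        have hr := HT_take hP T i0 Q hQ j hQj.ge
        rw [← hQj, List.take_length, hQj] at hr
        have hmem : HT hP Q.flatten ∈ Finset.Icc (j * T) (j * (T + i0)) := Finset.mem_Icc.2 hr
        refine le_trans ?_ (Finset.single_le_sum (fun _ _ => zero_le) hmem)
        rw [if_pos ⟨hs, rfl⟩]
      · rw [if_neg hs]
        exact (hg1 _ _).trans (le_add_right le_rfl)
    · refine le_trans (le_of_eq ?_) zero_le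
      have : (fun Q' => ∑' A, ∑' C,
          (if (∀ A ∈ Q, T ≤ HT hP A ∧ HT hP A ≤ T + i0) ∧
            (∀ C ∈ Q', T ≤ HT hO C ∧ HT hO C ≤ T + i0) ∧
            (T ≤ HT hP A ∧ HT hP A ≤ T + i0) ∧ (T ≤ HT hO C ∧ HT hO C ≤ T + i0) ∧
            θ ≤ pp ΛP hP zP T (ff hP zP A) ∧ Ψ (HT hP Q.flatten) (Dp zP Q.flatten) A Q' C
            then PP A * PO C else 0)) = fun _ => (0 : ℝ≥0∞) := by
        funext Q'
        simp [hQ]
      rw [this]
      simp [SL]
  refine step1.trans ?_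
  rw [SL_add_fun, SL_sum]
  have hn := AsmA789.nosmall PP sm j
  refine add_le_add ?_ ?_
  · refine le_trans (le_of_eq ?_) (pow_le_pow_left' hq j)
    refine Eq.trans ?_ (hn.trans ?_)
    · refine SL_congr PP j fun Q _ => ?_
      split_ifs <;> rfl
    · congr 1
      refine tsum_congr fun A => ?_
      split_ifs <;> rfl
  · -- each a
    have hcard : (Finset.Icc (j * T) (j * (T + i0))).card = j * i0 + 1 := by
      rw [Nat.card_Icc, mul_add]; omega
    rw [← hcard]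
    refine (Finset.sum_le_card_nsmul _ _
      (((i0 + 1 : ℕ) : ℝ≥0∞) * ((i0 + 1 : ℕ) : ℝ≥0∞) * bd) ?_).trans (by rw [nsmul_eq_mul])
    intro a ha
    rw [Finset.mem_Icc] at ha
    obtain ⟨ρ, hρ⟩ : ∃ ρ : G → ℝ≥0∞, ∀ x, ρ x = SL PP j (fun Q =>
      if (∃ A ∈ Q, sm A) ∧ (Q.map (ff hP zP)).sum = ((a : ℤ), x) then 1 else 0) :=
      ⟨_, fun _ => rfl⟩
    have e1 : SL PP j (fun Q => if (∃ A ∈ Q, sm A) ∧ HT hP Q.flatten = a then
        g a (Dp zP Q.flatten) else 0) = ∑' x, g a x * ρ x := by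
      simp only [hρ]
      rw [tsum_SL]
      refine SL_congr PP j fun Q _ => ?_
      rw [tsum_eq_single (Dp zP Q.flatten)]
      · rw [ff_sum]
        by_cases h : (∃ A ∈ Q, sm A) ∧ HT hP Q.flatten = a
        · rw [if_pos h, if_pos ⟨h.1, by simp [ff, h.2]⟩, mul_one]
        · rw [if_neg h, if_neg, mul_zero]
          rintro ⟨h3, h4⟩
          apply h
          refine ⟨h3, ?_⟩
          simp only [ff, Prod.mk.injEq] at h4
          exact_mod_cast h4.1
      · intro x hx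
        rw [if_neg, mul_zero]
        rintro ⟨_, h4⟩
        rw [ff_sum] at h4
        simp only [ff, Prod.mk.injEq] at h4
        exact hx h4.2.symm
    rw [e1]
    have hρ1 : ∑' x, ρ x ≤ 1 := by
      have := tsum_SL PP j (fun _ : G => (1 : ℝ≥0∞)) (fun x Q =>
        if (∃ A ∈ Q, sm A) ∧ (Q.map (ff hP zP)).sum = ((a : ℤ), x) then 1 else 0)
      simp only [one_mul] at this
      simp only [hρ]
      rw [this]
      refine SL_le_one PP sP j _ fun Q => ?_
      rw [tsum_eq_single (Dp zP Q.flatten)]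
      · split_ifs <;> simp
      · intro x hx
        rw [if_neg]
        rintro ⟨_, h4⟩
        rw [ff_sum] at h4
        simp only [ff, Prod.mk.injEq] at h4
        exact hx h4.2.symm
    have hρ2 : ∀ x, ρ x ≤ j * (2 * θ) := by
      intro x
      have hM : ∀ v : ℤ × G, (∑' b, if sm b ∧ ff hP zP b = v then PP b else 0) ≤ 2 * θ := ?_
      · refine le_trans (le_of_eq ?_) (AsmA789.dens PP sP.le (ff hP zP) sm (2 * θ)
          (fun v => (le_of_eq (tsum_congr fun A => by split_ifs <;> rfl)).trans (hM v)) j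
          ((a : ℤ), x))
        rw [hρ]
        refine SL_congr PP j fun Q _ => ?_
        split_ifs <;> rfl
      intro v
      by_cases hv : pp ΛP hP zP T v < 2 * θ
      · refine le_trans ?_ hv.le
        rw [pp]
        refine ENNReal.tsum_le_tsum fun A => ?_
        by_cases hA : ff hP zP A = v
        · rw [if_pos hA]
          split_ifs
          · exact le_rfl
          · exact zero_le
        · rw [if_neg (fun h => hA h.2)]; exact zero_le
      · refine le_trans (le_of_eq ?_) zero_le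
        refine ENNReal.tsum_eq_zero.2 fun A => ?_
        rw [if_neg]
        rintro ⟨h3, h4⟩
        apply hv
        rw [← h4]; exact h3
    have e2 : ∑' x, g a x * ρ x = SL PO j (fun Q' => ∑' x, ρ x * ∑' A, ∑' C, K a x Q' A C) := by
      rw [← tsum_SL]
      refine tsum_congr fun x => ?_
      rw [mul_comm, hg]
    rw [e2]
    refine SL_le_const PO sO j _ _ fun Q' hQ'j => ?_
    by_cases hQ' : ∀ C ∈ Q', T ≤ HT hO C ∧ HT hO C ≤ T + i0
    · have hKle : ∀ x A C, K a x Q' A C ≤ ∑ i ∈ (Finset.Icc T (T + i0)) ×ˢ (Finset.Icc T (T + i0)),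
          (if HT hP A = i.1 ∧ θ ≤ pp ΛP hP zP T ((i.1 : ℤ), Dp zP A) ∧
            HT hO C = i.2 ∧ Ψ a x A Q' C then LW ΛP A * LW ΛO C else 0) := by
        intro x A C
        simp only [hK]
        split_ifs with hc
        · obtain ⟨_, hA, hC, hl, hΨ⟩ := hc
          have hmem : (HT hP A, HT hO C) ∈ (Finset.Icc T (T + i0)) ×ˢ (Finset.Icc T (T + i0)) := by
            rw [Finset.mem_product, Finset.mem_Icc, Finset.mem_Icc]
            exact ⟨hA, hC⟩
          refine le_trans ?_ (Finset.single_le_sum (fun _ _ => zero_le) hmem)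
          rw [if_pos ⟨rfl, hl, rfl, hΨ⟩]
          exact mul_le_mul' (hPle A) (hOle C)
        · exact zero_le
      calc ∑' x, ρ x * ∑' A, ∑' C, K a x Q' A C
          ≤ ∑' x, ρ x * ∑' A, ∑' C, ∑ i ∈ (Finset.Icc T (T + i0)) ×ˢ (Finset.Icc T (T + i0)),
            (if HT hP A = i.1 ∧ θ ≤ pp ΛP hP zP T ((i.1 : ℤ), Dp zP A) ∧
              HT hO C = i.2 ∧ Ψ a x A Q' C then LW ΛP A * LW ΛO C else 0) := by
            refine ENNReal.tsum_le_tsum fun x => mul_le_mul_right ?_ _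
            exact ENNReal.tsum_le_tsum fun A => ENNReal.tsum_le_tsum fun C => hKle x A C
        _ = ∑ i ∈ (Finset.Icc T (T + i0)) ×ˢ (Finset.Icc T (T + i0)), ∑' x, ρ x * ∑' A, ∑' C,
            (if HT hP A = i.1 ∧ θ ≤ pp ΛP hP zP T ((i.1 : ℤ), Dp zP A) ∧
              HT hO C = i.2 ∧ Ψ a x A Q' C then LW ΛP A * LW ΛO C else 0) :=
            sum_out _ ρ (fun (i : ℕ × ℕ) x A C => if HT hP A = i.1 ∧ θ ≤ pp ΛP hP zP T ((i.1 : ℤ), Dp zP A) ∧
              HT hO C = i.2 ∧ Ψ a x A Q' C then LW ΛP A * LW ΛO C else 0)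
        _ ≤ ((Finset.Icc T (T + i0)) ×ˢ (Finset.Icc T (T + i0))).card • bd := by
            refine Finset.sum_le_card_nsmul _ _ _ fun i hi => ?_
            rw [Finset.mem_product, Finset.mem_Icc, Finset.mem_Icc] at hi
            exact hbd a i.1 i.2 Q' hQ'j hQ' ha.1 ha.2 hi.1.1 hi.1.2 hi.2.1 hi.2.2 ρ hρ1 hρ2
        _ = _ := by
            rw [Finset.card_product, Nat.card_Icc, nsmul_eq_mul,
              show T + i0 + 1 - T = i0 + 1 by omega]
            push_cast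
            ring
    · refine le_trans (le_of_eq ?_) zero_le
      refine ENNReal.tsum_eq_zero.2 fun x => ?_
      have : ∀ A C, K a x Q' A C = 0 := by
        intro A C
        simp only [hK]
        rw [if_neg (fun h => hQ' h.1)]
      simp [this]

end Crest.Agent.R154.Asm103
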