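import Crest.Agent.R154.AsmD_12

/-! Row 154, ROAD 801 (helper12): union over the windows. -/

set_option autoImplicit false

namespace Crest.Agent.R154.AsmE12

open scoped ENNReal
open Crest.Agent.R154.B5A (LW HT LW_append HT_append HT_cons HT_nil LW_nil)
open Crest.Agent.R154.FP178
open Crest.Agent.R154.Hit12
open Crest.Agent.R154.AsmD12
open Crest.Agent.R154.Bind12 (TT)

lemma exists_fp {B : Type*} (ht : B → ℕ) (a : ℕ) (L : List B) (h : a ≤ HT ht L) :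
    ∃ P R, L = P ++ R ∧ fp ht a P := by
  induction L generalizing a with
  | nil =>
    rw [HT_nil] at h
    exact ⟨[], [], rfl, by rw [fp_nil]; omega⟩
  | cons b L ih =>
    rcases Nat.eq_zero_or_pos a with rfl | ha
    · exact ⟨[], b :: L, rfl, (fp_nil ht 0).2 rfl⟩
    · rw [HT_cons] at h
      obtain ⟨P, R, h1, h2⟩ := ih (a - ht b) (by omega)
      exact ⟨b :: P, R, by rw [h1]; rfl, (fp_cons ht a b P).2 ⟨ha, h2⟩⟩

section

variable {BX BY G : Type*} [AddCommGroup G]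
  (ΛX : BX → ℝ≥0∞) (hX : BX → ℕ) (zX : BX → G) (sX : BX → Set (G × ℕ))
  (ΛY : BY → ℝ≥0∞) (hY : BY → ℕ) (zY : BY → G) (sY : BY → Set (G × ℕ))

open Classical in
/-- weight of the pairs of lists of height `n` with `F` -/
noncomputable def pp (n : ℕ) (F : List BX → List BY → Prop) : ℝ≥0∞ :=
  ∑' LX, ∑' LY, (if HT hX LX = n ∧ HT hY LY = n ∧ F LX LY then LW ΛX LX * LW ΛY LY else 0)

lemma pp_or (n : ℕ) (F F1 F2 : List BX → List BY → Prop)
    (h : ∀ LX LY, HT hX LX = n → HT hY LY = n → F LX LY → F1 LX LY ∨ F2 LX LY) :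
    pp ΛX hX ΛY hY n F ≤ pp ΛX hX ΛY hY n F1 + pp ΛX hX ΛY hY n F2 := by
  classical
  simp only [pp]
  rw [← ENNReal.tsum_add]
  refine ENNReal.tsum_le_tsum fun LX => ?_
  rw [← ENNReal.tsum_add]
  refine ENNReal.tsum_le_tsum fun LY => ?_
  by_cases hc : HT hX LX = n ∧ HT hY LY = n ∧ F LX LY
  · rw [if_pos hc]
    rcases h LX LY hc.1 hc.2.1 hc.2.2 with h1 | h1
    · refine le_trans ?_ le_self_add
      rw [if_pos ⟨hc.1, hc.2.1, h1⟩]
    · refine le_trans ?_ le_add_self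
      rw [if_pos ⟨hc.1, hc.2.1, h1⟩]
  · rw [if_neg hc]; exact zero_le

lemma pp_union {ι : Type*} (n : ℕ) (F : List BX → List BY → Prop) (s : Finset ι)
    (Fi : ι → List BX → List BY → Prop)
    (h : ∀ LX LY, HT hX LX = n → HT hY LY = n → F LX LY → ∃ i ∈ s, Fi i LX LY) :
    pp ΛX hX ΛY hY n F ≤ ∑ i ∈ s, pp ΛX hX ΛY hY n (Fi i) := by
  classical
  simp only [pp]
  rw [← Summable.tsum_finsetSum (fun _ _ => ENNReal.summable)]
  refine ENNReal.tsum_le_tsum fun LX => ?_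
  rw [← Summable.tsum_finsetSum (fun _ _ => ENNReal.summable)]
  refine ENNReal.tsum_le_tsum fun LY => ?_
  by_cases hc : HT hX LX = n ∧ HT hY LY = n ∧ F LX LY
  · rw [if_pos hc]
    obtain ⟨i, hi, hFi⟩ := h LX LY hc.1 hc.2.1 hc.2.2
    refine le_trans ?_ (Finset.single_le_sum (f := fun i =>
      if HT hX LX = n ∧ HT hY LY = n ∧ Fi i LX LY then LW ΛX LX * LW ΛY LY else 0)
      (fun _ _ => zero_le) hi)
    rw [if_pos ⟨hc.1, hc.2.1, hFi⟩]
  · rw [if_neg hc]; exact zero_le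

/-- the window event of two pieces -/
def Wev (lo hi a a' : ℕ) (x : G) (Q : List BX) (Q' : List BY) : Prop :=
  (∃ y k, (y, k) ∈ TT sX zX hX Q 0 a ∧ (y, k) ∈ TT sY zY hY Q' x a') ∧
  ∀ y k, (y, k) ∈ TT sX zX hX Q 0 a → (y, k) ∈ TT sY zY hY Q' x a' → lo ≤ k ∧ k ≤ hi

/-- two good pieces with the window event -/
def Aev (L T i0 lo hi : ℕ) (w : G) (P Q : List BX) (P' Q' : List BY) : Prop :=
  (fp hX L P ∧ HT hX P ≤ L + i0 ∧ fp hY (L + i0) P' ∧ HT hY P' ≤ L + i0 + i0) ∧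
  (fp hX T Q ∧ HT hX Q ≤ T + i0 ∧ fp hY (T + i0) Q' ∧ HT hY Q' ≤ T + i0 + i0 ∧
    Wev hX zX sX hY zY sY lo hi (HT hX P) (HT hY P') (w + Dp zY P' - Dp zX P) Q Q')

/-- contact at depth `k` -/
def Ct (w : G) (k : ℕ) (LX : List BX) (LY : List BY) : Prop :=
  ∃ y, (y, k) ∈ TT sX zX hX LX 0 0 ∧ (y, k) ∈ TT sY zY hY LY w 0

/-- the window event of two lists -/
def Wn (L T i0 lo hi : ℕ) (w : G) (LX : List BX) (LY : List BY) : Prop :=
  ∃ P Q R P' Q' R', LX = P ++ (Q ++ R) ∧ LY = P' ++ (Q' ++ R') ∧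
    Aev hX zX sX hY zY sY L T i0 lo hi w P Q P' Q'

def O1 (ht : BX → ℕ) (a i : ℕ) (L : List BX) : Prop :=
  ∃ P Q R, L = P ++ (Q ++ R) ∧ ((fp ht a P ∧ a + i < HT ht P) ∧ Q = [])

def O2 (ht : BX → ℕ) (a T i : ℕ) (L : List BX) : Prop :=
  ∃ P Q R, L = P ++ (Q ++ R) ∧ (fp ht a P ∧ (fp ht T Q ∧ T + i < HT ht Q))

theorem ptw (hsX : ∀ b, ∀ q ∈ sX b, 1 ≤ q.2 ∧ q.2 ≤ hX b) (hsY : ∀ b, ∀ q ∈ sY b, 1 ≤ q.2 ∧ q.2 ≤ hY b)
    (L T i0 s n : ℕ) (w : G) (LX : List BX) (LY : List BY) (hn : L + T + 4 * i0 ≤ n)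
    (hnX : HT hX LX = n) (hnY : HT hY LY = n) (k : ℕ) (hk1 : L < k) (hk2 : k ≤ L + T)
    (hC : Ct hX zX sX hY zY sY w k LX LY)
    (hsl1 : ∀ k, L ≤ k + s → k ≤ L + 2 * i0 + s → ¬ Ct hX zX sX hY zY sY w k LX LY)
    (hsl2 : ∀ k, L + T ≤ k + s → k ≤ L + T + 2 * i0 + s → ¬ Ct hX zX sX hY zY sY w k LX LY) :
    O1 hX L i0 LX ∨ O2 hX L T i0 LX ∨ O1 hY (L + i0) i0 LY ∨ O2 hY (L + i0) (T + i0) i0 LY ∨
      Wn hX zX sX hY zY sY L T i0 (L + 2 * i0 + s) (L + T - s) w LX LY := by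
  by_cases e1 : O1 hX L i0 LX
  · exact Or.inl e1
  by_cases e2 : O2 hX L T i0 LX
  · exact Or.inr (Or.inl e2)
  by_cases e3 : O1 hY (L + i0) i0 LY
  · exact Or.inr (Or.inr (Or.inl e3))
  by_cases e4 : O2 hY (L + i0) (T + i0) i0 LY
  · exact Or.inr (Or.inr (Or.inr (Or.inl e4)))
  refine Or.inr (Or.inr (Or.inr (Or.inr ?_)))
  obtain ⟨P, R0, p1, p2⟩ := exists_fp hX L LX (by omega)
  have p3 : HT hX P ≤ L + i0 := by
    by_contra hc
    exact e1 ⟨P, [], R0, by rw [p1]; rfl, ⟨p2, not_le.1 hc⟩, rfl⟩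
  have p4 : HT hX R0 = n - HT hX P := by rw [p1, HT_append] at hnX; omega
  obtain ⟨Q, R, q1, q2⟩ := exists_fp hX T R0 (by omega)
  have q3 : HT hX Q ≤ T + i0 := by
    by_contra hc
    exact e2 ⟨P, Q, R, by rw [p1, q1], p2, q2, not_le.1 hc⟩
  obtain ⟨P', R0', p1', p2'⟩ := exists_fp hY (L + i0) LY (by omega)
  have p3' : HT hY P' ≤ L + i0 + i0 := by
    by_contra hc
    exact e3 ⟨P', [], R0', by rw [p1']; rfl, ⟨p2', not_le.1 hc⟩, rfl⟩
  have p4' : HT hY R0' = n - HT hY P' := by rw [p1', HT_append] at hnY; omega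
  obtain ⟨Q', R', q1', q2'⟩ := exists_fp hY (T + i0) R0' (by omega)
  have q3' : HT hY Q' ≤ T + i0 + i0 := by
    by_contra hc
    exact e4 ⟨P', Q', R', by rw [p1', q1'], p2', q2', not_le.1 hc⟩
  have g1 := le_HT_of_fp hX p2
  have g2 := le_HT_of_fp hX q2
  have g3 := le_HT_of_fp hY p2'
  have g4 := le_HT_of_fp hY q2'
  have eX : LX = P ++ (Q ++ R) := by rw [p1, q1]
  have eY : LY = P' ++ (Q' ++ R') := by rw [p1', q1']
  refine ⟨P, Q, R, P', Q', R', eX, eY, ⟨p2, p3, p2', p3'⟩, q2, q3, q2', q3', ?_, ?_⟩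
  · -- the contact lies in the pieces
    obtain ⟨y, hy1, hy2⟩ := hC
    have hkk : L + 2 * i0 + s < k := by
      by_contra hc
      exact hsl1 k (by omega) (by omega) ⟨y, hy1, hy2⟩
    have hkk2 : k + s < L + T := by
      by_contra hc
      exact hsl2 k (by omega) (by omega) ⟨y, hy1, hy2⟩
    rw [eX, TT_append, TT_append] at hy1
    rw [eY, TT_append, TT_append] at hy2
    refine ⟨y - Dp zX P, k, ?_, ?_⟩
    · rcases hy1 with hy1 | hy1 | hy1
      · have := TT_depth sX zX hX hsX _ _ _ _ _ hy1; omega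
      · have h1 := TT_shift sX zX hX Q 0 (Dp zX P) (0 + HT hX P) y k
        rw [zero_add, zero_add] at h1
        rw [zero_add, zero_add] at hy1
        exact h1.1 hy1
      · have := TT_depth sX zX hX hsX _ _ _ _ _ hy1; omega
    · rcases hy2 with hy2 | hy2 | hy2
      · have := TT_depth sY zY hY hsY _ _ _ _ _ hy2; omega
      · have h1 := TT_shift sY zY hY Q' (w + Dp zY P' - Dp zX P) (Dp zX P) (HT hY P') y k
        rw [sub_add_cancel] at h1
        rw [zero_add] at hy2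
        exact h1.1 hy2
      · have := TT_depth sY zY hY hsY _ _ _ _ _ hy2; omega
  · intro y k' hy1 hy2
    have hc : Ct hX zX sX hY zY sY w k' LX LY := by
      refine ⟨y + Dp zX P, ?_, ?_⟩
      · rw [eX, TT_append, TT_append]
        refine Or.inr (Or.inl ?_)
        have h1 := TT_shift sX zX hX Q 0 (Dp zX P) (HT hX P) (y + Dp zX P) k'
        rw [add_sub_cancel_right] at h1
        simpa using h1.2 hy1
      · rw [eY, TT_append, TT_append]
        refine Or.inr (Or.inl ?_)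
        have h1 := TT_shift sY zY hY Q' (w + Dp zY P' - Dp zX P) (Dp zX P) (HT hY P')
          (y + Dp zX P) k'
        rw [sub_add_cancel, add_sub_cancel_right] at h1
        simpa using h1.2 hy2
    have d1 := TT_depth sX zX hX hsX _ _ _ _ _ hy1
    have d2 := TT_depth sY zY hY hsY _ _ _ _ _ hy2
    have hkk : L + 2 * i0 + s < k' := by
      by_contra hc'
      exact hsl1 k' (by omega) (by omega) hc
    have hkk2 : k' + s < L + T := by
      by_contra hc'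
      exact hsl2 k' (by omega) (by omega) hc
    omega

end

end Crest.Agent.R154.AsmE12
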