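import Crest.Agent.R154.AsmD_129

/-! Row 154, KAPPA' (801 #38888): all windows and the choice of constants (helper129). -/

set_option autoImplicit false

namespace Crest.Agent.R154.Asm129

open scoped ENNReal Topology
open Filter
open Crest.Agent.R154.B5A
open Classical

lemma tendsto_ep {B : Type*} (Λ : B → ℝ≥0∞) (ht : B → ℕ) (h : ∑' b, Λ b * (ht b : ℝ≥0∞) ≠ ⊤) :
    Tendsto (ep Λ ht) atTop (𝓝 0) := by
  rw [ENNReal.tendsto_nhds_zero]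
  intro δ hδ
  have h1 := ENNReal.tendsto_tsum_compl_atTop_zero h
  obtain ⟨s, hs⟩ := ((ENNReal.tendsto_nhds_zero.1 h1) δ hδ).exists
  filter_upwards [eventually_ge_atTop (s.sup ht)] with i0 hi
  refine le_trans ?_ hs
  have e : ∑' b : {x // x ∉ s}, Λ b * (ht b : ℝ≥0∞)
      = ∑' b, ({x | x ∉ s} : Set B).indicator (fun b => Λ b * (ht b : ℝ≥0∞)) b :=
    tsum_subtype ({x | x ∉ s} : Set B) (fun b => Λ b * (ht b : ℝ≥0∞))
  rw [e, ep]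
  refine ENNReal.tsum_le_tsum fun b => ?_
  by_cases hb : b ∈ s
  · have h2 : ht b ≤ i0 := (Finset.le_sup hb).trans hi
    rw [Nat.sub_eq_zero_of_le h2]
    simp
  · rw [Set.indicator_of_mem (show b ∈ ({x | x ∉ s} : Set B) from hb)]
    refine mul_le_mul_right ?_ _
    exact_mod_cast Nat.sub_le _ _

lemma ex_small (c ε : ℝ≥0∞) (hc : c ≠ ⊤) (hε : ε ≠ 0) : ∃ x : ℝ≥0∞, x ≠ 0 ∧ x ≠ ⊤ ∧ c * x ≤ ε := by
  refine ⟨min 1 (ε / (c + 1)), ?_, ?_, ?_⟩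
  · refine (lt_min one_pos ?_).ne'
    refine ENNReal.div_pos hε ?_
    exact ENNReal.add_ne_top.2 ⟨hc, ENNReal.one_ne_top⟩
  · exact ne_top_of_le_ne_top ENNReal.one_ne_top (min_le_left _ _)
  · calc c * min 1 (ε / (c + 1)) ≤ (c + 1) * (ε / (c + 1)) :=
          mul_le_mul' le_self_add (min_le_right _ _)
      _ ≤ ε := ENNReal.mul_div_le

lemma ev_small (f : ℕ → ℝ≥0∞) (hf : Tendsto f atTop (𝓝 0)) (c ε : ℝ≥0∞) (hc : c ≠ ⊤)
    (hε : ε ≠ 0) : ∃ i, c * f i ≤ ε := by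
  have h := ENNReal.Tendsto.const_mul (a := c) hf (Or.inr hc)
  rw [mul_zero] at h
  exact ((ENNReal.tendsto_nhds_zero.1 h) ε (pos_iff_ne_zero.2 hε)).exists

lemma num1 (ε : ℝ≥0∞) (hε : ε ≠ 0) : ∃ (N : ℕ) (u : ℝ≥0∞), u ≠ 0 ∧ u < 1 ∧
    ((10 * N + 4 : ℕ) : ℝ≥0∞) * (u * u + 2 * (1 - u) ^ N) ≤ ε := by
  have h1 : Tendsto (fun K : ℕ => (14 : ℝ) * ((K : ℝ) ^ 2)⁻¹ + 28 * ((K : ℝ) ^ 4 * Real.exp (-K)))
      atTop (𝓝 (14 * 0 + 28 * 0)) := by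
    refine Tendsto.add (Tendsto.const_mul _ ?_) (Tendsto.const_mul _ ?_)
    · exact tendsto_inv_atTop_zero.comp ((tendsto_pow_atTop (by norm_num)).comp
        tendsto_natCast_atTop_atTop)
    · exact (Real.tendsto_pow_mul_exp_neg_atTop_nhds_zero 4).comp tendsto_natCast_atTop_atTop
  rw [mul_zero, mul_zero, add_zero] at h1
  have h2 : Tendsto (fun K : ℕ => ENNReal.ofReal ((14 : ℝ) * ((K : ℝ) ^ 2)⁻¹
      + 28 * ((K : ℝ) ^ 4 * Real.exp (-K)))) atTop (𝓝 0) := by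
    have := ENNReal.tendsto_ofReal h1
    rwa [ENNReal.ofReal_zero] at this
  obtain ⟨K, hK, hK2⟩ := (((ENNReal.tendsto_nhds_zero.1 h2) ε (pos_iff_ne_zero.2 hε)).and
    (eventually_ge_atTop 2)).exists
  have hKr : (2 : ℝ) ≤ K := by exact_mod_cast hK2
  have hK0 : (0 : ℝ) < K := by linarith
  set x : ℝ := ((K : ℝ) ^ 3)⁻¹ with hx
  have hx0 : 0 < x := by positivity
  have hx1 : x < 1 := by
    rw [hx]
    refine inv_lt_one_of_one_lt₀ ?_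
    nlinarith [pow_le_pow_left₀ (by norm_num) hKr 3]
  refine ⟨K ^ 4, ENNReal.ofReal x, ?_, ?_, le_trans ?_ hK⟩
  · simpa using hx0
  · rw [← ENNReal.ofReal_one]
    exact (ENNReal.ofReal_lt_ofReal_iff one_pos).2 hx1
  · have e1 : (1 : ℝ≥0∞) - ENNReal.ofReal x = ENNReal.ofReal (1 - x) := by
      rw [ENNReal.ofReal_sub _ hx0.le, ENNReal.ofReal_one]
    have e2 : ((10 * K ^ 4 + 4 : ℕ) : ℝ≥0∞) = ENNReal.ofReal (10 * (K : ℝ) ^ 4 + 4) := by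
      rw [← ENNReal.ofReal_natCast]; push_cast; rfl
    rw [e1, e2, ← ENNReal.ofReal_mul hx0.le, ← ENNReal.ofReal_pow (by linarith),
      show (2 : ℝ≥0∞) = ENNReal.ofReal 2 by simp, ← ENNReal.ofReal_mul (by norm_num),
      ← ENNReal.ofReal_add (by positivity) (by
        have : 0 ≤ 1 - x := by linarith
        positivity), ← ENNReal.ofReal_mul (by positivity)]
    refine ENNReal.ofReal_le_ofReal ?_
    have h3 : (1 - x) ^ (K ^ 4) ≤ Real.exp (-K) := by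
      calc (1 - x) ^ (K ^ 4) ≤ (Real.exp (-x)) ^ (K ^ 4) :=
            pow_le_pow_left₀ (by linarith) (Real.one_sub_le_exp_neg x) _
        _ = Real.exp (-K) := by
            rw [← Real.exp_nat_mul]
            congr 1
            push_cast
            rw [hx]
            field_simp
    have h4 : (10 : ℝ) * (K : ℝ) ^ 4 + 4 ≤ 14 * (K : ℝ) ^ 4 := by
      nlinarith [pow_le_pow_left₀ (by norm_num) hKr 4]
    have h5 : x * x = ((K : ℝ) ^ 6)⁻¹ := by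
      rw [hx, ← mul_inv]; ring_nf
    have h6 : 0 ≤ Real.exp (-(K : ℝ)) := (Real.exp_pos _).le
    calc (10 * (K : ℝ) ^ 4 + 4) * (x * x + 2 * (1 - x) ^ (K ^ 4))
        ≤ (14 * (K : ℝ) ^ 4) * (((K : ℝ) ^ 6)⁻¹ + 2 * Real.exp (-K)) := by
          rw [h5]
          have h7 : 0 ≤ 1 - x := by linarith
          refine mul_le_mul h4 (by linarith) (by positivity) (by positivity)
      _ = _ := by
          field_simp
          ring

lemma consts {eX eY us : ℕ → ℝ≥0∞} (heX : Tendsto eX atTop (𝓝 0)) (heY : Tendsto eY atTop (𝓝 0))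
    (hus : Tendsto us atTop (𝓝 0)) (C : ℝ≥0∞) (hC : C ≠ ⊤) (ε : ℝ≥0∞) (hε : ε ≠ 0) :
    ∃ (N : ℕ) (u : ℝ≥0∞) (i0 : ℕ) (lam : ℝ≥0∞) (s : ℕ) (η : ℝ≥0∞), u ≠ 0 ∧ u < 1 ∧ lam ≠ 0 ∧
      lam ≠ ⊤ ∧ η ≠ 0 ∧ ((10 * N + 4 : ℕ) : ℝ≥0∞) * ((2 * eX i0 + (2 * eY i0 + (u * u
        + ((((i0 + 1 : ℕ) : ℝ≥0∞) * ((i0 + 1 : ℕ) * (((i0 + 1 : ℕ) : ℝ≥0∞) * ((i0 + 1 : ℕ) *
          (C * (lam + N * (i0 + 1 : ℕ) * us s / lam + us s)))))
          + ((1 - u) ^ N + N * eX i0))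
        + (((i0 + 1 : ℕ) : ℝ≥0∞) * ((i0 + 1 : ℕ) * (((i0 + 1 : ℕ) : ℝ≥0∞) * ((i0 + 1 : ℕ) *
          (C * (lam + N * (i0 + 1 : ℕ) * us s / lam + us s)))))
          + ((1 - u) ^ N + N * eY i0)))))) + η) ≤ ε := by
  have hε5 : ε / 5 ≠ 0 := by
    rw [Ne, ENNReal.div_eq_zero_iff, not_or]
    exact ⟨hε, by norm_num⟩
  obtain ⟨N, u, hu0, hu1, hN⟩ := num1 (ε / 5) hε5
  set J : ℝ≥0∞ := ((10 * N + 4 : ℕ) : ℝ≥0∞) with hJ
  have hJt : J ≠ ⊤ := ENNReal.natCast_ne_top _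
  have hNt : (N : ℝ≥0∞) ≠ ⊤ := ENNReal.natCast_ne_top _
  have hsum : Tendsto (fun i => eX i + eY i) atTop (𝓝 0) := by
    have := heX.add heY
    rwa [add_zero] at this
  obtain ⟨i0, hi0⟩ := ev_small _ hsum (J * (2 + N)) (ε / 5)
    (ENNReal.mul_ne_top hJt (ENNReal.add_ne_top.2 ⟨by norm_num, hNt⟩)) hε5
  set P : ℝ≥0∞ := ((i0 + 1 : ℕ) : ℝ≥0∞) with hP
  have hPt : P ≠ ⊤ := ENNReal.natCast_ne_top _
  set c : ℝ≥0∞ := J * (2 * (P * (P * (P * (P * C))))) with hc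
  have hct : c ≠ ⊤ := ENNReal.mul_ne_top hJt (ENNReal.mul_ne_top (by norm_num)
    (ENNReal.mul_ne_top hPt (ENNReal.mul_ne_top hPt (ENNReal.mul_ne_top hPt
      (ENNReal.mul_ne_top hPt hC)))))
  obtain ⟨lam, hl0, hlt, hl⟩ := ex_small c (ε / 5) hct hε5
  obtain ⟨s, hs⟩ := ev_small us hus (c * (N * P / lam + 1)) (ε / 5)
    (ENNReal.mul_ne_top hct (ENNReal.add_ne_top.2 ⟨ENNReal.div_ne_top
      (ENNReal.mul_ne_top hNt hPt) hl0, ENNReal.one_ne_top⟩)) hε5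
  obtain ⟨η, hη0, _, hη⟩ := ex_small J (ε / 5) hJt hε5
  refine ⟨N, u, i0, lam, s, η, hu0, hu1, hl0, hlt, hη0, ?_⟩
  have e1 : (N : ℝ≥0∞) * P * us s / lam = (N * P / lam) * us s := by
    rw [div_eq_mul_inv, div_eq_mul_inv]; ring
  calc _ = J * (u * u + 2 * (1 - u) ^ N) + J * (2 + N) * (eX i0 + eY i0) + c * lam
        + c * (N * P / lam + 1) * us s + J * η := by
        rw [e1, hc]; ring
    _ ≤ ε / 5 + ε / 5 + ε / 5 + ε / 5 + ε / 5 :=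
        add_le_add (add_le_add (add_le_add (add_le_add hN hi0) hl) hs) hη
    _ = 5 * (ε / 5) := by ring
    _ ≤ ε := ENNReal.mul_div_le

end Crest.Agent.R154.Asm129
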