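import Crest.Agent.R154.AsmD_15

/-! Row 154, ROAD 801 (helper15): the window theorem, assembled. -/

set_option autoImplicit false

namespace Crest.Agent.R154.Asm15

open scoped ENNReal Classical
open Finset
open Crest.Agent.R154.B5A Crest.Agent.R154.FP178

/-- mass of the non-local pieces -/
lemma nl_sum {B G : Type*} [AddCommGroup G] (Λ : B → ℝ≥0∞) (ht : B → ℕ) (dz : B → G)
    (τ i0 : ℕ) (th u : ℝ≥0∞)
    (hq : ∑' i, ∑' z, (if law Λ ht dz τ i z < th then law Λ ht dz τ i z else 0) ≤ u) :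
    ∑' L, pw Λ ht i0 τ L * (if th ≤ law Λ ht dz τ (HT ht L - τ) (Dp dz L) then 0 else 1) ≤ u := by
  rw [fiber_pw Λ ht dz τ i0 (fun k z => if th ≤ law Λ ht dz τ (k - τ) z then 0 else 1)]
  refine le_trans ?_ hq
  refine le_trans ?_ (ENNReal.sum_le_tsum (range (i0 + 1)))
  refine sum_le_sum fun i _ => ENNReal.tsum_le_tsum fun z => ?_
  rw [show τ + i - τ = i by omega]
  by_cases h : th ≤ law Λ ht dz τ i z
  · rw [if_pos h, mul_zero]; exact zero_le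
  · rw [if_neg h, mul_one, if_pos (not_le.1 h)]

section window

variable {BX BY G : Type*} [AddCommGroup G]
  (ΛX : BX → ℝ≥0∞) (hX : BX → ℕ) (zX : BX → G) (sX : BX → Set (G × ℕ))
  (ΛY : BY → ℝ≥0∞) (hY : BY → ℕ) (zY : BY → G) (sY : BY → Set (G × ℕ))

lemma Cn_of_full (hsX : ∀ b, ∀ q ∈ sX b, 1 ≤ q.2 ∧ q.2 ≤ hX b)
    (hsY : ∀ b, ∀ q ∈ sY b, 1 ≤ q.2 ∧ q.2 ≤ hY b) (i0 α α' τ lo hi : ℕ)
    (h1 : α + i0 ≤ lo) (h2 : α' + i0 ≤ lo) (h3 : hi ≤ α + τ) (hαα : α ≤ α')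
    (L0 L1 L2 : List BX) (L0' L1' L2' : List BY) (w : G)
    (a0 : fp hX α L0) (b0 : HT hX L0 ≤ α + i0) (a1 : fp hX τ L1) (b1 : HT hX L1 ≤ τ + i0)
    (a0' : fp hY α' L0') (b0' : HT hY L0' ≤ α' + i0) (a1' : fp hY τ L1')
    (hc : ∃ k, lo < k ∧ k ≤ hi ∧ ∃ z, (z, k) ∈ TT hX zX sX (L0 ++ (L1 ++ L2)) 0 0 ∧
      (z, k) ∈ TT hY zY sY (L0' ++ (L1' ++ L2')) w 0)
    (hn : ∀ k, (α < k ∧ k ≤ lo) ∨ (hi < k ∧ k ≤ α + τ + 2 * i0) →
      ¬ ∃ z, (z, k) ∈ TT hX zX sX (L0 ++ (L1 ++ L2)) 0 0 ∧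
      (z, k) ∈ TT hY zY sY (L0' ++ (L1' ++ L2')) w 0) :
    Cn hX zX sX hY zY sY L1 (HT hX L0) L1' (w + Dp zY L0' - Dp zX L0) (HT hY L0') lo hi := by
  have c0 := le_HT_of_fp hX a0
  have c1 := le_HT_of_fp hX a1
  have c0' := le_HT_of_fp hY a0'
  have c1' := le_HT_of_fp hY a1'
  have eX : TT hX zX sX (L0 ++ (L1 ++ L2)) 0 0 = TT hX zX sX L0 0 0 ∪
      (TT hX zX sX L1 (0 + Dp zX L0) (0 + HT hX L0) ∪
        TT hX zX sX L2 (0 + Dp zX L0 + Dp zX L1) (0 + HT hX L0 + HT hX L1)) := by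
    rw [TT_append, TT_append]
  have eY : TT hY zY sY (L0' ++ (L1' ++ L2')) w 0 = TT hY zY sY L0' w 0 ∪
      (TT hY zY sY L1' (w + Dp zY L0') (0 + HT hY L0') ∪
        TT hY zY sY L2' (w + Dp zY L0' + Dp zY L1') (0 + HT hY L0' + HT hY L1')) := by
    rw [TT_append, TT_append]
  have sX' : ∀ p k, (p, k) ∈ TT hX zX sX L1 0 (HT hX L0) ↔
      (p + Dp zX L0, k) ∈ TT hX zX sX L1 (0 + Dp zX L0) (0 + HT hX L0) := by
    intro p k
    rw [TT_shift, zero_add]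
  have sY' : ∀ p k, (p, k) ∈ TT hY zY sY L1' (w + Dp zY L0' - Dp zX L0) (HT hY L0') ↔
      (p + Dp zX L0, k) ∈ TT hY zY sY L1' (w + Dp zY L0') (0 + HT hY L0') := by
    intro p k
    rw [show w + Dp zY L0' = (w + Dp zY L0' - Dp zX L0) + Dp zX L0 by abel, TT_shift, zero_add,
      add_sub_cancel_right]
  refine ⟨?_, ?_⟩
  · obtain ⟨k, hk1, hk2, z, hzX, hzY⟩ := hc
    refine ⟨z - Dp zX L0, k, ?_, ?_⟩
    · rw [sX', sub_add_cancel]
      rw [eX] at hzX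
      rcases hzX with h | h | h
      · have := TT_depth hX zX sX hsX _ _ _ _ h
        simp only at this
        omega
      · exact h
      · have := TT_depth hX zX sX hsX _ _ _ _ h
        simp only at this
        omega
    · rw [sY', sub_add_cancel]
      rw [eY] at hzY
      rcases hzY with h | h | h
      · have := TT_depth hY zY sY hsY _ _ _ _ h
        simp only at this
        omega
      · exact h
      · have := TT_depth hY zY sY hsY _ _ _ _ h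
        simp only at this
        omega
  · intro z k hz hz'
    have d1 := TT_depth hX zX sX hsX _ _ _ _ hz
    simp only at d1
    rw [sX'] at hz
    rw [sY'] at hz'
    by_contra hcon
    refine hn k ?_ ⟨z + Dp zX L0, ?_, ?_⟩
    · omega
    · rw [eX]; exact Or.inr (Or.inl hz)
    · rw [eY]; exact Or.inr (Or.inl hz')

/-- the four sums -/
lemma four_le (us : ℕ → ℝ≥0∞) (C : ℝ≥0∞)
    (h1X : ∀ b, 1 ≤ hX b) (hΛX : ∑' b, ΛX b = 1) (h1Y : ∀ b, 1 ≤ hY b) (hΛY : ∑' b, ΛY b = 1)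
    (hH2 : H2 ΛX hX zX sX ΛY hY zY sY us C) (hH3 : H3 ΛX hX zX sX ΛY hY zY sY us C)
    (i0 s α α' τ lo hi : ℕ) (hατ : α + 2 * i0 ≤ α')
    (hlo : α' + i0 + s ≤ lo) (hhi : hi + s ≤ α + τ)
    (thX thY : ℝ≥0∞) (hthX : thX ≠ 0) (hthY : thY ≠ 0) (K0 : ℝ≥0∞) (u δ : ℝ≥0∞)
    (hqX : ∑' i, ∑' z, (if law ΛX hX zX τ i z < thX then law ΛX hX zX τ i z else 0) ≤ u)
    (hqY : ∑' i, ∑' z, (if law ΛY hY zY τ i z < thY then law ΛY hY zY τ i z else 0) ≤ u)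
    (hsX : Sm (law ΛX hX zX α) (thX * K0) δ) (hsY : Sm (law ΛY hY zY α') (thY * K0) δ)
    (lam : ℝ≥0∞) (hl : lam ≠ 0) (hl' : lam ≠ ⊤) (w : G) :
    ∑' L0, ∑' L1, pw ΛX hX i0 α L0 * pw ΛX hX i0 τ L1 *
      (∑' L0', ∑' L1', pw ΛY hY i0 α' L0' * pw ΛY hY i0 τ L1' *
        (if Cn hX zX sX hY zY sY L1 (HT hX L0) L1'
          (w + Dp zY L0' - Dp zX L0) (HT hY L0') lo hi then 1 else 0))
    ≤ u * u + 2 * ((i0 + 1) ^ 4 * (C * (lam + K0 * us s / lam + us s)) + δ) := by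
  set lX : List BX → ℝ≥0∞ := fun L =>
    if thX ≤ law ΛX hX zX τ (HT hX L - τ) (Dp zX L) then 1 else 0 with hlX
  set nX : List BX → ℝ≥0∞ := fun L =>
    if thX ≤ law ΛX hX zX τ (HT hX L - τ) (Dp zX L) then 0 else 1 with hnX
  set lY : List BY → ℝ≥0∞ := fun L =>
    if thY ≤ law ΛY hY zY τ (HT hY L - τ) (Dp zY L) then 1 else 0 with hlY
  set nY : List BY → ℝ≥0∞ := fun L =>
    if thY ≤ law ΛY hY zY τ (HT hY L - τ) (Dp zY L) then 0 else 1 with hnY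
  set K : List BX → List BX → List BY → List BY → ℝ≥0∞ := fun L0 L1 L0' L1' =>
    (if Cn hX zX sX hY zY sY L1 (HT hX L0) L1'
      (w + Dp zY L0' - Dp zX L0) (HT hY L0') lo hi then 1 else 0) with hK
  have hK1 : ∀ L0 L1 L0' L1', K L0 L1 L0' L1' ≤ 1 := by
    intro L0 L1 L0' L1'
    simp only [hK]
    split_ifs <;> simp
  have hpt : ∀ L0 L1 L0' L1', K L0 L1 L0' L1' ≤ nX L1 * nY L1' +
      (lX L1 * 1 * K L0 L1 L0' L1' + 1 * lY L1' * K L0 L1 L0' L1') := by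
    intro L0 L1 L0' L1'
    simp only [hlX, hnX, hlY, hnY]
    by_cases h1 : thX ≤ law ΛX hX zX τ (HT hX L1 - τ) (Dp zX L1)
    · simp only [h1, if_true, one_mul]
      exact le_add_left le_self_add
    · by_cases h2 : thY ≤ law ΛY hY zY τ (HT hY L1' - τ) (Dp zY L1')
      · simp only [h2, if_true, one_mul]
        exact le_add_left (le_add_left le_rfl)
      · simp only [h1, h2, if_false, mul_one]
        exact (hK1 _ _ _ _).trans le_self_add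
  have hsum : ∑' L0, ∑' L1, pw ΛX hX i0 α L0 * pw ΛX hX i0 τ L1 *
      (∑' L0', ∑' L1', pw ΛY hY i0 α' L0' * pw ΛY hY i0 τ L1' * K L0 L1 L0' L1')
      ≤ ∑' L0, ∑' L1, pw ΛX hX i0 α L0 * pw ΛX hX i0 τ L1 *
        (∑' L0', ∑' L1', pw ΛY hY i0 α' L0' * pw ΛY hY i0 τ L1' * (nX L1 * nY L1'))
      + (∑' L0, ∑' L1, pw ΛX hX i0 α L0 * pw ΛX hX i0 τ L1 *
        (∑' L0', ∑' L1', pw ΛY hY i0 α' L0' * pw ΛY hY i0 τ L1' *
          (lX L1 * (fun _ => 1) L1' * K L0 L1 L0' L1'))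
      + ∑' L0, ∑' L1, pw ΛX hX i0 α L0 * pw ΛX hX i0 τ L1 *
        (∑' L0', ∑' L1', pw ΛY hY i0 α' L0' * pw ΛY hY i0 τ L1' *
          ((fun _ => 1) L1 * lY L1' * K L0 L1 L0' L1'))) := by
    simp_rw [← ENNReal.tsum_add, ← mul_add, ← ENNReal.tsum_add, ← mul_add]
    exact ENNReal.tsum_le_tsum fun L0 => ENNReal.tsum_le_tsum fun L1 => mul_le_mul_right
      (ENNReal.tsum_le_tsum fun L0' => ENNReal.tsum_le_tsum fun L1' => mul_le_mul_right
        (hpt L0 L1 L0' L1') _) _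
  refine hsum.trans ?_
  have hN : ∑' L0, ∑' L1, pw ΛX hX i0 α L0 * pw ΛX hX i0 τ L1 *
        (∑' L0', ∑' L1', pw ΛY hY i0 α' L0' * pw ΛY hY i0 τ L1' * (nX L1 * nY L1')) ≤ u * u := by
    have e1 : ∀ L1 : List BX, ∑' L0', ∑' L1', pw ΛY hY i0 α' L0' * pw ΛY hY i0 τ L1' *
        (nX L1 * nY L1') = nX L1 * ((∑' L0', pw ΛY hY i0 α' L0') *
          ∑' L1', pw ΛY hY i0 τ L1' * nY L1') := by
      intro L1
      calc _ = ∑' L0', pw ΛY hY i0 α' L0' * (nX L1 * ∑' L1', pw ΛY hY i0 τ L1' * nY L1') := by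
            refine tsum_congr fun L0' => ?_
            rw [← ENNReal.tsum_mul_left, ← ENNReal.tsum_mul_left]
            refine tsum_congr fun L1' => ?_
            ring
        _ = _ := by
            rw [ENNReal.tsum_mul_right]
            ring
    simp_rw [e1]
    have hT : (∑' L0', pw ΛY hY i0 α' L0') * (∑' L1', pw ΛY hY i0 τ L1' * nY L1') ≤ 1 * u :=
      mul_le_mul' (pw_sum ΛY hY h1Y hΛY i0 α') (nl_sum ΛY hY zY τ i0 thY u hqY)
    generalize (∑' L0', pw ΛY hY i0 α' L0') * (∑' L1', pw ΛY hY i0 τ L1' * nY L1') = T at hT ⊢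
    have e2 : ∑' L0, ∑' L1, pw ΛX hX i0 α L0 * pw ΛX hX i0 τ L1 * (nX L1 * T)
        = (∑' L0, pw ΛX hX i0 α L0) * (∑' L1, pw ΛX hX i0 τ L1 * nX L1) * T := by
      calc _ = ∑' L0, pw ΛX hX i0 α L0 * ((∑' L1, pw ΛX hX i0 τ L1 * nX L1) * T) := by
            refine tsum_congr fun L0 => ?_
            rw [← ENNReal.tsum_mul_right, ← ENNReal.tsum_mul_left]
            refine tsum_congr fun L1 => ?_
            ring
        _ = _ := by
            rw [ENNReal.tsum_mul_right]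
            ring
    rw [e2]
    calc _ ≤ 1 * u * (1 * u) := by
          refine mul_le_mul' (mul_le_mul' (pw_sum ΛX hX h1X hΛX i0 α)
            (nl_sum ΛX hX zX τ i0 thX u hqX)) hT
      _ = u * u := by rw [one_mul]
  obtain ⟨EX, hEX1, hEX2⟩ := level (law ΛX hX zX τ) (law_sum ΛX hX zX h1X hΛX τ).le thX hthX
  obtain ⟨EY, hEY1, hEY2⟩ := level (law ΛY hY zY τ) (law_sum ΛY hY zY h1Y hΛY τ).le thY hthY
  have hA := four ΛX hX zX sX ΛY hY zY sY i0 α α' τ lo hi lX (fun _ => 1) w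
  have hB := four ΛX hX zX sX ΛY hY zY sY i0 α α' τ lo hi (fun _ => 1) lY w
  have hlX1 : ∀ L, lX L ≤ 1 := by intro L; simp only [hlX]; split_ifs <;> simp
  have hlY1 : ∀ L, lY L ≤ 1 := by intro L; simp only [hlY]; split_ifs <;> simp
  have e4 : ((i0 : ℝ≥0∞) + 1) ^ 4 * (C * (lam + K0 * us s / lam + us s))
      = (i0 + 1) ^ 2 * ((i0 + 1) ^ 2 * (C * (lam + K0 * us s / lam + us s))) := by ring
  refine add_le_add hN ?_
  rw [two_mul, e4]
  refine add_le_add ?_ ?_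
  · rw [hA]
    refine core (law ΛX hX zX α) (law ΛY hY zY α') (law_sum ΛX hX zX h1X hΛX α).le
      (law_sum ΛY hY zY h1Y hΛY α').le
      (fun i j x => Phi ΛX hX zX sX ΛY hY zY sY i0 τ lo hi lX (fun _ => 1) (α + i) (α' + j) x)
      (fun i j x => Phi_le_one ΛX hX zX sX ΛY hY zY sY h1X hΛX h1Y hΛY i0 τ lo hi _ _ hlX1
        (fun _ => le_rfl) _ _ _) (thX * K0) δ _ (Or.inl hsX) i0 ?_ w
    intro i hi0 j hj0 μ hμ1 hμ
    refine phi_H2 ΛX hX zX sX ΛY hY zY sY us C hH2 i0 s α α' τ lo hi (by omega) hατ hlo hhi EX thX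
      K0 (fun i => by rw [mul_comm]; exact hEX2 i) lX hlX1 ?_ lam hl hl' i hi0 j hj0 μ hμ1 hμ
    intro L _ _ hne
    rw [hEX1]
    by_contra hcon
    exact hne (by simp only [hlX]; rw [if_neg hcon])
  · rw [hB]
    refine core (law ΛX hX zX α) (law ΛY hY zY α') (law_sum ΛX hX zX h1X hΛX α).le
      (law_sum ΛY hY zY h1Y hΛY α').le
      (fun i j x => Phi ΛX hX zX sX ΛY hY zY sY i0 τ lo hi (fun _ => 1) lY (α + i) (α' + j) x)
      (fun i j x => Phi_le_one ΛX hX zX sX ΛY hY zY sY h1X hΛX h1Y hΛY i0 τ lo hi _ _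
        (fun _ => le_rfl) hlY1 _ _ _) (thY * K0) δ _ (Or.inr hsY) i0 ?_ w
    intro i hi0 j hj0 μ hμ1 hμ
    refine phi_H3 ΛX hX zX sX ΛY hY zY sY us C hH3 i0 s α α' τ lo hi (by omega) hατ hlo hhi EY thY
      K0 (fun i => by rw [mul_comm]; exact hEY2 i) lY hlY1 ?_ lam hl hl' i hi0 j hj0 μ hμ1 hμ
    intro L _ _ hne
    rw [hEY1]
    by_contra hcon
    exact hne (by simp only [hlY]; rw [if_neg hcon])

end window

end Crest.Agent.R154.Asm15
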