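import Crest.Agent.R154.AsmD_151

/-! Row 154, ROAD 801 (helper151): one window, the bound. -/

set_option autoImplicit false

namespace Crest.Agent.R154.X151

open scoped ENNReal
open Crest.Agent.R154.B5A

variable {BX BY G : Type*} [AddCommGroup G]
  (ΛX : BX → ℝ≥0∞) (ΛY : BY → ℝ≥0∞) (hX : BX → ℕ) (hY : BY → ℕ) (zX : BX → G) (zY : BY → G)
  (sX : BX → Set (G × ℕ)) (sY : BY → Set (G × ℕ))
  (h1X : ∀ b, 1 ≤ hX b) (h1Y : ∀ b, 1 ≤ hY b)
  (hΛX : ∑' b, ΛX b = 1) (hΛY : ∑' b, ΛY b = 1)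
  (hUX : ∀ n, U ΛX hX n ≤ 1) (hUY : ∀ n, U ΛY hY n ≤ 1)
  (hsX : ∀ b, ∀ p ∈ sX b, 1 ≤ p.2 ∧ p.2 ≤ hX b) (hsY : ∀ b, ∀ p ∈ sY b, 1 ≤ p.2 ∧ p.2 ≤ hY b)

include h1X h1Y hΛX hΛY hUX hUY hsX hsY in
lemma Ws_le (n A A' l l' i0 lo mid hi top : ℕ) (w : G) (hn : A + i0 + l ≤ n)
    (hn' : A' + i0 + l' ≤ n) (hlo : A + i0 ≤ lo) (hlo' : A' + i0 ≤ lo) (hmid : mid ≤ A + l)
    (hmid' : mid ≤ A' + l') :
    Ws ΛX ΛY hX hY zX zY sX sY n lo mid hi top w
      ≤ (∑' k, tail ΛX hX (k + i0)) + (∑' k, tail ΛY hY (k + i0))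
        + FPE ΛX hX A (fun L1 => FPE ΛY hY A' (fun L1' =>
          KK ΛX ΛY hX hY zX zY sX sY A A' l l' i0 lo hi top (HT hX L1) (HT hY L1')
            (w + Dp zY L1' - Dp zX L1))) := by
  classical
  set c : List BX → List BX → List BY → List BY → ℝ≥0∞ := fun L1 P L1' P' =>
    if HT hX L1 ≤ A + i0 ∧ HT hY L1' ≤ A' + i0 ∧ Kp hX hY zX zY sX sY lo hi top P P'
      (w + Dp zY L1' - Dp zX L1) (HT hX L1) (HT hY L1') then 1 else 0 with hc
  set oY := FPE ΛY hY A' (fun L1 => if A' + i0 < HT hY L1 then 1 else 0) with hoY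
  set oX := FPE ΛX hX A (fun L1 => if A + i0 < HT hX L1 then 1 else 0) with hoX
  set Ψ : List BX → ℝ≥0∞ := fun LX => ∑' LY : List BY, (if HT hY LY = n then LW ΛY LY *
    (if We hX hY zX zY sX sY lo mid hi top w LX LY then 1 else 0) else 0) with hΨ
  have e0 : Ws ΛX ΛY hX hY zX zY sX sY n lo mid hi top w
      = ∑' LX : List BX, (if HT hX LX = n then LW ΛX LX * Ψ LX else 0) := by
    refine tsum_congr fun LX => ?_
    by_cases h : HT hX LX = n
    · rw [if_pos h, hΨ]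
      simp only
      rw [← ENNReal.tsum_mul_left]
      refine tsum_congr fun LY => ?_
      by_cases h' : HT hY LY = n <;> by_cases h2 : We hX hY zX zY sX sY lo mid hi top w LX LY <;>
        simp [h, h', h2]
    · simp [h]
  have hΨ1 : ∀ LX, Ψ LX ≤ 1 := by
    intro LX
    refine le_trans (ENNReal.tsum_le_tsum fun LY => ?_) (hUY n)
    split_ifs <;> simp
  have hcut : ∀ L1 P R, A ≤ HT hX L1 → HT hX L1 ≤ A + i0 → l ≤ HT hX P →
      HT hX (L1 ++ (P ++ R)) = n → Ψ (L1 ++ (P ++ R)) ≤ oY + FPE ΛY hY A' (fun L1' =>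
        FPE ΛY hY l' (fun P' => c L1 P L1' P')) := by
    intro L1 P R hA hA2 hl _
    refine (cut3 ΛY hY h1Y hUY A' l' i0 n hn'
      (fun LY => if We hX hY zX zY sX sY lo mid hi top w (L1 ++ (P ++ R)) LY then 1 else 0)
      (fun _ => by split_ifs <;> simp) (fun L1' P' => c L1 P L1' P') ?_).trans ?_
    · intro L1' P' R' hA' hA2' hl' _
      by_cases hW : We hX hY zX zY sX sY lo mid hi top w (L1 ++ (P ++ R)) (L1' ++ (P' ++ R'))
      · rw [if_pos hW]
        simp only [hc]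
        rw [if_pos ⟨hA2, hA2', We_Kp hX hY zX zY sX sY hsX hsY lo mid hi top w L1 P R L1' P' R'
          (by omega) (by omega) (by omega) (by omega) hW⟩]
      · rw [if_neg hW]; exact zero_le
    · refine add_le_add le_rfl (FPE_mono ΛY hY _ fun L1' _ => FPE_mono ΛY hY _ fun P' _ => ?_)
      split_ifs
      · exact le_rfl
      · exact zero_le
  rw [e0]
  refine (cut3 ΛX hX h1X hUX A l i0 n hn Ψ hΨ1 _ hcut).trans ?_
  have hoX' : oX ≤ ∑' k, tail ΛX hX (k + i0) := over_le ΛX hX h1X hUX i0 A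
  have hoY' : oY ≤ ∑' k, tail ΛY hY (k + i0) := over_le ΛY hY h1Y hUY i0 A'
  rw [add_assoc]
  refine add_le_add hoX' ?_
  calc FPE ΛX hX A (fun L1 => FPE ΛX hX l (fun P => if HT hX L1 ≤ A + i0 then
        oY + FPE ΛY hY A' (fun L1' => FPE ΛY hY l' (fun P' => c L1 P L1' P')) else 0))
      ≤ FPE ΛX hX A (fun L1 => oY + FPE ΛX hX l (fun P =>
          FPE ΛY hY A' (fun L1' => FPE ΛY hY l' (fun P' => c L1 P L1' P')))) := by
        refine FPE_mono ΛX hX _ fun L1 _ => ?_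
        rw [← FPE_const ΛX hX h1X hΛX l oY, ← FPE_add, FPE_const ΛX hX h1X hΛX l oY]
        refine FPE_mono ΛX hX _ fun P _ => ?_
        split_ifs
        · exact le_rfl
        · exact zero_le
    _ = oY + FPE ΛX hX A (fun L1 => FPE ΛX hX l (fun P =>
          FPE ΛY hY A' (fun L1' => FPE ΛY hY l' (fun P' => c L1 P L1' P')))) := by
        rw [FPE_add ΛX hX A (fun _ => oY), FPE_const ΛX hX h1X hΛX]
    _ ≤ _ := by
        refine add_le_add hoY' (le_of_eq ?_)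
        refine FPE_congr ΛX hX _ fun L1 _ => ?_
        rw [FPE_comm]
        rfl

open Classical in
include h1X h1Y hΛX hΛY hUX hUY in
/-- the pieces: over, both non-local, local -/
lemma KK_le (A A' l l' i0 lo hi top : ℕ) (thX thY u : ℝ≥0∞)
    (huX : FPE ΛX hX l (fun P => if law ΛX hX zX l (HT hX P - l) (Dp zX P) < thX then 1 else 0) ≤ u)
    (huY : FPE ΛY hY l' (fun P => if law ΛY hY zY l' (HT hY P - l') (Dp zY P) < thY
      then 1 else 0) ≤ u) (a a' : ℕ) (δ : G) :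
    KK ΛX ΛY hX hY zX zY sX sY A A' l l' i0 lo hi top a a' δ
      ≤ (∑' k, tail ΛX hX (k + i0)) + (∑' k, tail ΛY hY (k + i0)) + u * u
        + K2 ΛX ΛY hX hY zX zY sX sY A A' l l' i0 lo hi top thX a a' δ
        + K3 ΛX ΛY hX hY zX zY sX sY A A' l l' i0 lo hi top thY a a' δ := by
  have hoX' := over_le ΛX hX h1X hUX i0 l
  have hoY' := over_le ΛY hY h1Y hUY i0 l'
  set f1 : List BX → ℝ≥0∞ := fun P => if l + i0 < HT hX P then 1 else 0 with hf1
  set f2 : List BY → ℝ≥0∞ := fun P' => if l' + i0 < HT hY P' then 1 else 0 with hf2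
  set nX : List BX → ℝ≥0∞ := fun P =>
    if law ΛX hX zX l (HT hX P - l) (Dp zX P) < thX then 1 else 0 with hnX
  set nY : List BY → ℝ≥0∞ := fun P =>
    if law ΛY hY zY l' (HT hY P - l') (Dp zY P) < thY then 1 else 0 with hnY
  set F2 : List BX → List BY → ℝ≥0∞ := fun P P' =>
    if (a ≤ A + i0 ∧ a' ≤ A' + i0) ∧ HT hX P ≤ l + i0 ∧ HT hY P' ≤ l' + i0 ∧
      thX ≤ law ΛX hX zX l (HT hX P - l) (Dp zX P) ∧
      Kp hX hY zX zY sX sY lo hi top P P' δ a a' then 1 else 0 with hF2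
  set F3 : List BX → List BY → ℝ≥0∞ := fun P P' =>
    if (a ≤ A + i0 ∧ a' ≤ A' + i0) ∧ HT hX P ≤ l + i0 ∧ HT hY P' ≤ l' + i0 ∧
      thY ≤ law ΛY hY zY l' (HT hY P' - l') (Dp zY P') ∧
      Kp hX hY zX zY sX sY lo hi top P P' δ a a' then 1 else 0 with hF3
  have hpt : KK ΛX ΛY hX hY zX zY sX sY A A' l l' i0 lo hi top a a' δ
      ≤ FPE ΛX hX l (fun P => FPE ΛY hY l' (fun P' =>
        f1 P + f2 P' + nX P * nY P' + F2 P P' + F3 P P')) := by
    refine FPE_mono ΛX hX _ fun P _ => FPE_mono ΛY hY _ fun P' _ => ?_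
    by_cases hK : a ≤ A + i0 ∧ a' ≤ A' + i0 ∧ Kp hX hY zX zY sX sY lo hi top P P' δ a a'
    · rw [if_pos hK]
      by_cases ho : l + i0 < HT hX P
      · have : f1 P = 1 := if_pos ho
        rw [this]
        exact le_trans (le_trans (le_trans le_self_add le_self_add) le_self_add) le_self_add
      by_cases ho' : l' + i0 < HT hY P'
      · have : f2 P' = 1 := if_pos ho'
        rw [this]
        exact le_trans (le_trans (le_trans le_add_self le_self_add) le_self_add) le_self_add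
      by_cases hx : law ΛX hX zX l (HT hX P - l) (Dp zX P) < thX
      · by_cases hy : law ΛY hY zY l' (HT hY P' - l') (Dp zY P') < thY
        · have e1 : nX P = 1 := if_pos hx
          have e2 : nY P' = 1 := if_pos hy
          rw [e1, e2, mul_one]
          exact le_trans (le_trans le_add_self le_self_add) le_self_add
        · have e3 : F3 P P' = 1 := if_pos ⟨⟨hK.1, hK.2.1⟩, not_lt.1 ho, not_lt.1 ho',
            not_lt.1 hy, hK.2.2⟩
          rw [e3]; exact le_add_self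
      · have e2 : F2 P P' = 1 := if_pos ⟨⟨hK.1, hK.2.1⟩, not_lt.1 ho, not_lt.1 ho',
            not_lt.1 hx, hK.2.2⟩
        rw [e2]; exact le_trans le_add_self le_self_add
    · rw [if_neg hK]; exact zero_le
  refine hpt.trans ?_
  have e1 : FPE ΛX hX l (fun P => FPE ΛY hY l' (fun P' =>
        f1 P + f2 P' + nX P * nY P' + F2 P P' + F3 P P'))
      = FPE ΛX hX l f1 + FPE ΛY hY l' f2 + FPE ΛX hX l nX * FPE ΛY hY l' nY
        + FPE ΛX hX l (fun P => FPE ΛY hY l' (fun P' => F2 P P'))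
        + FPE ΛX hX l (fun P => FPE ΛY hY l' (fun P' => F3 P P')) := by
    have s1 : ∀ P, FPE ΛY hY l' (fun P' => f1 P + f2 P' + nX P * nY P' + F2 P P' + F3 P P')
        = f1 P + FPE ΛY hY l' f2 + nX P * FPE ΛY hY l' nY + FPE ΛY hY l' (fun P' => F2 P P')
          + FPE ΛY hY l' (fun P' => F3 P P') := by
      intro P
      rw [FPE_add ΛY hY l' (fun P' => f1 P + f2 P' + nX P * nY P' + F2 P P'),
        FPE_add ΛY hY l' (fun P' => f1 P + f2 P' + nX P * nY P'),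
        FPE_add ΛY hY l' (fun P' => f1 P + f2 P'), FPE_add ΛY hY l' (fun _ => f1 P),
        FPE_const ΛY hY h1Y hΛY, FPE_mul]
    simp_rw [s1]
    rw [FPE_add ΛX hX l (fun P => f1 P + FPE ΛY hY l' f2 + nX P * FPE ΛY hY l' nY +
        FPE ΛY hY l' (fun P' => F2 P P')),
      FPE_add ΛX hX l (fun P => f1 P + FPE ΛY hY l' f2 + nX P * FPE ΛY hY l' nY),
      FPE_add ΛX hX l (fun P => f1 P + FPE ΛY hY l' f2), FPE_add ΛX hX l f1,
      FPE_const ΛX hX h1X hΛX]
    congr 3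
    rw [mul_comm, ← FPE_mul]
    congr 1
    funext P
    rw [mul_comm]
  rw [e1]
  refine add_le_add (add_le_add (add_le_add (add_le_add hoX' hoY') (mul_le_mul' huX huY)) ?_) ?_
  · exact le_rfl
  · exact le_rfl

end Crest.Agent.R154.X151
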