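import Crest.Agent.R154.AsmD_201

/-! Row 154, ROAD 801: one window, local pieces (helper201). -/

set_option autoImplicit false

namespace Crest.Agent.R154.Asm201

open scoped ENNReal Classical
open Filter Topology Crest.Agent.R154.B5A

section pieces

variable {B G : Type*} [AddCommGroup G] (ht : B → ℕ) (Λ : B → ℝ≥0∞) (z : B → G)

/-- weight of a short first passage list -/
noncomputable def w1 (a i0 : ℕ) (T : List B) : ℝ≥0∞ :=
  if FP ht a T ∧ HT ht T ≤ a + i0 then LW Λ T else 0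

lemma wt_eq (a l i0 : ℕ) (T P : List B) : wt ht Λ a l i0 (T, P)
    = w1 ht Λ a i0 T * w1 ht Λ l i0 P := by
  unfold wt w1
  simp only
  by_cases h1 : FP ht a T ∧ HT ht T ≤ a + i0
  · by_cases h2 : FP ht l P ∧ HT ht P ≤ l + i0
    · rw [if_pos h1, if_pos h2, if_pos ⟨h1.1, h1.2, h2⟩]
    · rw [if_neg h2, if_neg (fun h => h2 h.2.2), mul_zero]
  · rw [if_neg h1, if_neg (fun h => h1 ⟨h.1, h.2.1⟩), zero_mul]

lemma w1_le (a i0 : ℕ) (T : List B) : w1 ht Λ a i0 T ≤ if FP ht a T then LW Λ T else 0 := by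
  unfold w1
  by_cases h1 : FP ht a T ∧ HT ht T ≤ a + i0
  · rw [if_pos h1, if_pos h1.1]
  · rw [if_neg h1]; exact zero_le

lemma w1_mass (h1 : ∀ b, 1 ≤ ht b) (hΛ : ∑' b, Λ b = 1) (a i0 : ℕ) :
    ∑' T, w1 ht Λ a i0 T ≤ 1 :=
  (ENNReal.tsum_le_tsum fun T => w1_le ht Λ a i0 T).trans (fp_mass ht Λ h1 hΛ a).le

lemma w1_group (a i0 : ℕ) (f : ℤ × G → ℝ≥0∞) :
    ∑' T, w1 ht Λ a i0 T * f (dd ht z T)
      = ∑' v : ℤ × G, V ht Λ z a v * ((if v.1.toNat ≤ a + i0 then 1 else 0) * f v) := by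
  rw [← V_group ht Λ z a (fun v => (if v.1.toNat ≤ a + i0 then 1 else 0) * f v)]
  refine tsum_congr fun T => ?_
  have e : (dd ht z T).1.toNat = HT ht T := by simp [dd]
  rw [e]
  unfold w1
  by_cases h1 : FP ht a T
  · by_cases h2 : HT ht T ≤ a + i0
    · simp [h1, h2]
    · simp [h2]
  · simp [h1]

lemma V_ne (a : ℕ) (v : ℤ × G) (hv : V ht Λ z a v ≠ 0) : ∃ i : ℕ, v.1 = ((a + i : ℕ) : ℤ) := by
  by_contra h
  apply hv
  rw [V, ENNReal.tsum_eq_zero]
  intro T
  by_cases h1 : dd ht z T = v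
  · rw [if_pos h1]
    by_cases h2 : FP ht a T
    · exfalso
      apply h
      have := FP_le ht h2
      refine ⟨HT ht T - a, ?_⟩
      rw [← h1, dd]
      simp only
      omega
    · rw [if_neg h2]
  · rw [if_neg h1]

/-- mass of the non local short pieces -/
lemma nonloc (l i0 : ℕ) (th u : ℝ≥0∞)
    (hth : ∑' c, (if V ht Λ z l c < th then V ht Λ z l c else 0) ≤ u) :
    ∑' P, w1 ht Λ l i0 P * (if V ht Λ z l (dd ht z P) < th then 1 else 0) ≤ u := by
  refine le_trans ?_ hth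
  calc _ ≤ ∑' P, (if FP ht l P then LW Λ P else 0) *
        (if V ht Λ z l (dd ht z P) < th then 1 else 0) := by
        gcongr with P
        exact w1_le ht Λ l i0 P
    _ = _ := by
        rw [V_group ht Λ z l (fun v => if V ht Λ z l v < th then 1 else 0)]
        refine tsum_congr fun v => ?_
        split_ifs <;> simp

end pieces

section two

variable {BX BY G : Type*} [AddCommGroup G]
  (ΛX : BX → ℝ≥0∞) (ΛY : BY → ℝ≥0∞) (hX : BX → ℕ) (hY : BY → ℕ) (zX : BX → G) (zY : BY → G)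
  (sX : BX → Set (G × ℕ)) (sY : BY → Set (G × ℕ))

/-- rearrangement -/
lemma rearr (a l a' l' i0 : ℕ) (Φ : List BX → List BY → List BX → List BY → ℝ≥0∞) :
    ∑' p, ∑' q, wt hX ΛX a l i0 p * (wt hY ΛY a' l' i0 q * Φ p.1 q.1 p.2 q.2)
      = ∑' T, w1 hX ΛX a i0 T * ∑' T', w1 hY ΛY a' i0 T' * ∑' P, ∑' P',
          w1 hX ΛX l i0 P * (w1 hY ΛY l' i0 P' * Φ T T' P P') := by
  rw [ENNReal.tsum_prod']
  refine tsum_congr fun T => ?_
  simp_rw [ENNReal.tsum_prod', wt_eq]
  rw [ENNReal.tsum_comm, ← ENNReal.tsum_mul_left]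
  refine tsum_congr fun T' => ?_
  rw [← ENNReal.tsum_mul_left, ← ENNReal.tsum_mul_left]
  refine tsum_congr fun P => ?_
  rw [← ENNReal.tsum_mul_left, ← ENNReal.tsum_mul_left]
  refine tsum_congr fun P' => ?_
  ring

/-- contact event of the pieces -/
def Q (b hi : ℕ) (P : List BX) (P' : List BY) (x : G) (a a' : ℕ) : Prop :=
  (∃ g k, Ct hX hY zX zY sX sY P P' x a a' g k) ∧
  (∀ g k, Ct hX hY zX zY sX sY P P' x a a' g k → b < k ∧ k ≤ hi)

/-- summand of the window lemmas -/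
noncomputable def gg (b hi : ℕ) (Loc : List BX → List BY → Prop) (k h k' h' : ℕ) (x : G) : ℝ≥0∞ :=
  ∑' P, ∑' P', if HT hX P = h ∧ HT hY P' = h' ∧ Loc P P' ∧
    Q hX hY zX zY sX sY b hi P P' x k k' then LW ΛX P * LW ΛY P' else 0

theorem loc_all (h1X : ∀ b, 1 ≤ hX b) (h1Y : ∀ b, 1 ≤ hY b) (hΛX : ∑' b, ΛX b = 1)
    (hΛY : ∑' b, ΛY b = 1) (a l a' l' i0 b hi : ℕ) (w : G) (Loc : List BX → List BY → Prop)
    (Ag Bb Ag' Bb' : ℤ × G → ℝ≥0∞) (M β bd : ℝ≥0∞)
    (c1 : ∀ v, V hX ΛX zX a v ≤ Ag v + Bb v) (c2 : ∀ v, Ag v ≤ V hX ΛX zX a v)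
    (d1 : ∀ v, V hY ΛY zY a' v ≤ Ag' v + Bb' v) (d2 : ∀ v, Ag' v ≤ V hY ΛY zY a' v)
    (hβ : ∑' v, Bb v + ∑' v, Bb' v ≤ β) (hM : (∀ v, Ag v ≤ M) ∨ (∀ v, Ag' v ≤ M))
    (H : ∀ i ≤ i0, ∀ i' ≤ i0, ∀ j ≤ i0, ∀ j' ≤ i0, ∀ μ : G → ℝ≥0∞, ∑' x, μ x ≤ 1 →
      (∀ x, μ x ≤ M) → ∑' x, μ x * gg ΛX ΛY hX hY zX zY sX sY b hi Loc
        (a + i) (l + j) (a' + i') (l' + j') x ≤ bd) :
    ∑' p, ∑' q, wt hX ΛX a l i0 p * (wt hY ΛY a' l' i0 q *
      (if Loc p.2 q.2 ∧ Q hX hY zX zY sX sY b hi p.2 q.2 (w + Dp zY q.1 - Dp zX p.1)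
        (HT hX p.1) (HT hY q.1) then 1 else 0)) ≤ β + ((i0 : ℝ≥0∞) + 1) ^ 4 * bd := by
  set K : ℤ × G → ℤ × G → ℝ≥0∞ := fun v v' => ∑' P, ∑' P', w1 hX ΛX l i0 P *
    (w1 hY ΛY l' i0 P' * (if Loc P P' ∧ Q hX hY zX zY sX sY b hi P P' (w + v'.2 - v.2)
      v.1.toNat v'.1.toNat then 1 else 0)) with hKd
  have hK1 : ∀ v v', K v v' ≤ 1 := by
    intro v v'
    calc _ ≤ ∑' P, ∑' P', w1 hX ΛX l i0 P * (w1 hY ΛY l' i0 P' * 1) := by
          refine ENNReal.tsum_le_tsum fun P => ENNReal.tsum_le_tsum fun P' => ?_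
          gcongr
          split_ifs
          · exact le_rfl
          · exact zero_le
      _ = (∑' P, w1 hX ΛX l i0 P) * ∑' P', w1 hY ΛY l' i0 P' := by
          rw [← ENNReal.tsum_mul_right]
          refine tsum_congr fun P => ?_
          rw [ENNReal.tsum_mul_left]
          simp only [mul_one]
      _ ≤ 1 * 1 := by
          gcongr
          · exact w1_mass hX ΛX h1X hΛX l i0
          · exact w1_mass hY ΛY h1Y hΛY l' i0
      _ = 1 := one_mul _
  -- indicator functions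
  set I : ℤ × G → ℝ≥0∞ := fun v => if v.1.toNat ≤ a + i0 then 1 else 0 with hI
  set I' : ℤ × G → ℝ≥0∞ := fun v => if v.1.toNat ≤ a' + i0 then 1 else 0 with hI'
  have hI1 : ∀ v, I v ≤ 1 := fun v => by rw [hI]; simp only; split_ifs <;> simp
  have hI1' : ∀ v, I' v ≤ 1 := fun v => by rw [hI']; simp only; split_ifs <;> simp
  have hVX := V_sum hX ΛX zX h1X hΛX a
  have hVY := V_sum hY ΛY zY h1Y hΛY a'
  have e0 : ∑' p, ∑' q, wt hX ΛX a l i0 p * (wt hY ΛY a' l' i0 q *
      (if Loc p.2 q.2 ∧ Q hX hY zX zY sX sY b hi p.2 q.2 (w + Dp zY q.1 - Dp zX p.1)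
        (HT hX p.1) (HT hY q.1) then 1 else 0))
      = ∑' v, V hX ΛX zX a v * (I v * ∑' v', V hY ΛY zY a' v' * (I' v' * K v v')) := by
    rw [rearr ΛX ΛY hX hY a l a' l' i0 (fun T T' P P' => if Loc P P' ∧
      Q hX hY zX zY sX sY b hi P P' (w + Dp zY T' - Dp zX T) (HT hX T) (HT hY T') then 1 else 0)]
    rw [← w1_group hX ΛX zX a i0 (fun v => ∑' v', V hY ΛY zY a' v' * (I' v' * K v v'))]
    refine tsum_congr fun T => ?_
    congr 1
    rw [← w1_group hY ΛY zY a' i0 (fun v' => K (dd hX zX T) v')]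
    refine tsum_congr fun T' => ?_
    congr 1
  rw [e0]
  have hS : ∀ v, ∑' v', V hY ΛY zY a' v' * (I' v' * K v v') ≤ 1 := by
    intro v
    calc _ ≤ ∑' v', V hY ΛY zY a' v' * (1 * 1) := by
          gcongr with v'
          · exact hI1' v'
          · exact hK1 v v'
      _ = 1 := by simp [hVY]
  have hAg : ∑' v, Ag v ≤ 1 := (ENNReal.tsum_le_tsum c2).trans hVX.le
  have hAg' : ∑' v, Ag' v ≤ 1 := (ENNReal.tsum_le_tsum d2).trans hVY.le
  have step1 : ∑' v, V hX ΛX zX a v * (I v * ∑' v', V hY ΛY zY a' v' * (I' v' * K v v'))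
      ≤ ∑' v, Bb v + ∑' v, Ag v * (I v * ∑' v', V hY ΛY zY a' v' * (I' v' * K v v')) := by
    rw [← ENNReal.tsum_add]
    refine ENNReal.tsum_le_tsum fun v => ?_
    calc _ ≤ (Ag v + Bb v) * (I v * ∑' v', V hY ΛY zY a' v' * (I' v' * K v v')) := by
          gcongr; exact c1 v
      _ = Bb v * (I v * ∑' v', V hY ΛY zY a' v' * (I' v' * K v v')) +
          Ag v * (I v * ∑' v', V hY ΛY zY a' v' * (I' v' * K v v')) := by ring
      _ ≤ Bb v * (1 * 1) + _ := by
          gcongr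
          · exact hI1 v
          · exact hS v
      _ = _ := by rw [mul_one, mul_one]
  have step2 : ∑' v, Ag v * (I v * ∑' v', V hY ΛY zY a' v' * (I' v' * K v v'))
      ≤ ∑' v, Bb' v + ∑' v, ∑' v', (I v * Ag v) * ((I' v' * Ag' v') * K v v') := by
    calc _ ≤ ∑' v, (Ag v * (∑' v', Bb' v') +
          ∑' v', (I v * Ag v) * ((I' v' * Ag' v') * K v v')) := by
          refine ENNReal.tsum_le_tsum fun v => ?_
          calc _ ≤ Ag v * (I v * (∑' v', (Bb' v' + I' v' * Ag' v' * K v v'))) := by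
                gcongr with v'
                calc _ ≤ (Ag' v' + Bb' v') * (I' v' * K v v') := by gcongr; exact d1 v'
                  _ = Bb' v' * (I' v' * K v v') + I' v' * Ag' v' * K v v' := by ring
                  _ ≤ Bb' v' * (1 * 1) + _ := by
                      gcongr
                      · exact hI1' v'
                      · exact hK1 v v'
                  _ = _ := by rw [mul_one, mul_one]
            _ = Ag v * (I v * ∑' v', Bb' v') +
                ∑' v', (I v * Ag v) * ((I' v' * Ag' v') * K v v') := by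
                rw [ENNReal.tsum_add, ENNReal.tsum_mul_left]
                ring
            _ ≤ Ag v * (1 * ∑' v', Bb' v') + _ := by
                gcongr
                exact hI1 v
            _ = _ := by rw [one_mul]
      _ = (∑' v, Ag v) * (∑' v', Bb' v') + _ := by
          rw [ENNReal.tsum_add, ENNReal.tsum_mul_right]
      _ ≤ 1 * (∑' v', Bb' v') + _ := by gcongr
      _ = _ := by rw [one_mul]
  have step3 : ∑' v, ∑' v', (I v * Ag v) * ((I' v' * Ag' v') * K v v')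
      ≤ ((i0 : ℝ≥0∞) + 1) ^ 4 * bd := by
    refine loc_term (fun v => I v * Ag v) (fun v => I' v * Ag' v) a a' l l' i0 w ?_ ?_ M bd ?_ K
      (gg ΛX ΛY hX hY zX zY sX sY b hi Loc) ?_ ?_ ?_ H
    · refine le_trans (ENNReal.tsum_le_tsum fun v => ?_) hAg
      calc _ ≤ 1 * Ag v := by gcongr; exact hI1 v
        _ = _ := one_mul _
    · refine le_trans (ENNReal.tsum_le_tsum fun v => ?_) hAg'
      calc _ ≤ 1 * Ag' v := by gcongr; exact hI1' v
        _ = _ := one_mul _
    · rcases hM with hM | hM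
      · refine Or.inl fun v => ?_
        calc _ ≤ 1 * Ag v := by gcongr; exact hI1 v
          _ = Ag v := one_mul _
          _ ≤ M := hM v
      · refine Or.inr fun v => ?_
        calc _ ≤ 1 * Ag' v := by gcongr; exact hI1' v
          _ = Ag' v := one_mul _
          _ ≤ M := hM v
    · intro v hv
      have h1 : Ag v ≠ 0 := fun h => hv (by simp [h])
      have h2 : V hX ΛX zX a v ≠ 0 := fun h => h1 (le_antisymm ((c2 v).trans h.le) (zero_le))
      obtain ⟨i, hi⟩ := V_ne hX ΛX zX a v h2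
      refine ⟨i, ?_, hi⟩
      by_contra hc
      apply hv
      simp only [hI]
      rw [if_neg, zero_mul]
      rw [hi]; simp; omega
    · intro v hv
      have h1 : Ag' v ≠ 0 := fun h => hv (by simp [h])
      have h2 : V hY ΛY zY a' v ≠ 0 := fun h => h1 (le_antisymm ((d2 v).trans h.le) (zero_le))
      obtain ⟨i, hi⟩ := V_ne hY ΛY zY a' v h2
      refine ⟨i, ?_, hi⟩
      by_contra hc
      apply hv
      simp only [hI']
      rw [if_neg, zero_mul]
      rw [hi]; simp; omega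
    · intro i z i' z'
      simp only [hKd, gg, Int.toNat_natCast]
      have e2 : ∑ j ∈ Finset.range (i0 + 1), ∑ j' ∈ Finset.range (i0 + 1), ∑' P : List BX,
          ∑' P' : List BY, (if HT hX P = l + j ∧ HT hY P' = l' + j' ∧ Loc P P' ∧
          Q hX hY zX zY sX sY b hi P P' (w + z' - z) (a + i) (a' + i')
            then LW ΛX P * LW ΛY P' else 0)
          = ∑' P : List BX, ∑' P' : List BY, ∑ j ∈ Finset.range (i0 + 1),
            ∑ j' ∈ Finset.range (i0 + 1), (if HT hX P = l + j ∧ HT hY P' = l' + j' ∧ Loc P P' ∧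
          Q hX hY zX zY sX sY b hi P P' (w + z' - z) (a + i) (a' + i')
            then LW ΛX P * LW ΛY P' else 0) := by
        symm
        calc _ = ∑' P : List BX, ∑ j ∈ Finset.range (i0 + 1), ∑ j' ∈ Finset.range (i0 + 1),
              ∑' P' : List BY, (if HT hX P = l + j ∧ HT hY P' = l' + j' ∧ Loc P P' ∧
          Q hX hY zX zY sX sY b hi P P' (w + z' - z) (a + i) (a' + i')
            then LW ΛX P * LW ΛY P' else 0) := by
              refine tsum_congr fun P => ?_
              rw [Summable.tsum_finsetSum fun _ _ => ENNReal.summable]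
              refine Finset.sum_congr rfl fun j _ => ?_
              rw [Summable.tsum_finsetSum fun _ _ => ENNReal.summable]
          _ = _ := by
              rw [Summable.tsum_finsetSum fun _ _ => ENNReal.summable]
              refine Finset.sum_congr rfl fun j _ => ?_
              rw [Summable.tsum_finsetSum fun _ _ => ENNReal.summable]
      rw [e2]
      refine ENNReal.tsum_le_tsum fun P => ENNReal.tsum_le_tsum fun P' => ?_
      by_cases hQ : Loc P P' ∧ Q hX hY zX zY sX sY b hi P P' (w + z' - z) (a + i) (a' + i')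
      swap
      · rw [if_neg hQ, mul_zero, mul_zero]; exact zero_le
      rw [if_pos hQ, mul_one]
      unfold w1
      by_cases hP : FP hX l P ∧ HT hX P ≤ l + i0
      swap
      · rw [if_neg hP, zero_mul]; exact zero_le
      by_cases hP' : FP hY l' P' ∧ HT hY P' ≤ l' + i0
      swap
      · rw [if_neg hP', mul_zero]; exact zero_le
      rw [if_pos hP, if_pos hP']
      have h3 := FP_le hX hP.1
      have h4 := FP_le hY hP'.1
      refine le_trans ?_ (Finset.single_le_sum (f := fun j => ∑ j' ∈ Finset.range (i0 + 1),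
        (if HT hX P = l + j ∧ HT hY P' = l' + j' ∧ Loc P P' ∧
          Q hX hY zX zY sX sY b hi P P' (w + z' - z) (a + i) (a' + i')
            then LW ΛX P * LW ΛY P' else 0)) (fun _ _ => zero_le)
        (Finset.mem_range.2 (show HT hX P - l < i0 + 1 by omega)))
      refine le_trans ?_ (Finset.single_le_sum (f := fun j' =>
        (if HT hX P = l + (HT hX P - l) ∧ HT hY P' = l' + j' ∧ Loc P P' ∧
          Q hX hY zX zY sX sY b hi P P' (w + z' - z) (a + i) (a' + i')
            then LW ΛX P * LW ΛY P' else 0)) (fun _ _ => zero_le)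
        (Finset.mem_range.2 (show HT hY P' - l' < i0 + 1 by omega)))
      rw [if_pos ⟨by omega, by omega, hQ⟩]
  calc _ ≤ ∑' v, Bb v + (∑' v, Bb' v + ((i0 : ℝ≥0∞) + 1) ^ 4 * bd) :=
        step1.trans (add_le_add le_rfl (step2.trans (add_le_add le_rfl step3)))
    _ = (∑' v, Bb v + ∑' v, Bb' v) + ((i0 : ℝ≥0∞) + 1) ^ 4 * bd := by rw [add_assoc]
    _ ≤ _ := by gcongr

end two

end Crest.Agent.R154.Asm201
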