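import Crest.Agent.R154.AsmD_207

/-! Row 154 (helper207), ROAD 801, assembly part E: the window estimate, conclusion. -/

set_option autoImplicit false

namespace Crest.Agent.R154.Asm207

open scoped ENNReal Topology
open Crest.Agent.R154.B5A
open Crest.Agent.R154.KWB419 (TT)

variable {BX BY : Type*} {G : Type*} [AddCommGroup G]
variable (ΛX : BX → ℝ≥0∞) (hX : BX → ℕ) (zX : BX → G) (sX : BX → Set (G × ℕ))
variable (ΛY : BY → ℝ≥0∞) (hY : BY → ℕ) (zY : BY → G) (sY : BY → Set (G × ℕ))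

open Classical in
/-- the inner sum, X local -/
lemma inner2 (E : ℕ → Finset G) (T i0 : ℕ) (thX : ℝ≥0∞)
    (hE : ∀ i y, y ∈ E i ↔ thX ≤ D ΛX hX zX T (i, y))
    (a a' lo hi : ℕ) (x : G) :
    FPS ΛX hX T (fun P => FPS ΛY hY T (fun P' =>
      if HT hX P ≤ T + i0 ∧ HT hY P' ≤ T + i0 ∧ thX ≤ D ΛX hX zX T (HT hX P - T, Dp zX P) ∧
        QQ hX zX sX hY zY sY P P' x a a' lo hi then 1 else 0))
      ≤ ∑ i2 ∈ Finset.range (i0 + 1), ∑ i3 ∈ Finset.range (i0 + 1),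
        S2 ΛX hX zX sX ΛY hY zY sY (E i2) (T + i2) (T + i3) a a' lo hi x := by
  unfold S2
  have sw : ∀ (f : ℕ → List BX → List BY → ℝ≥0∞),
      ∑ i ∈ Finset.range (i0 + 1), ∑' L, ∑' L', f i L L'
        = ∑' L, ∑' L', ∑ i ∈ Finset.range (i0 + 1), f i L L' := by
    intro f
    rw [← Summable.tsum_finsetSum (fun _ _ => ENNReal.summable)]
    refine tsum_congr fun q => ?_
    rw [← Summable.tsum_finsetSum (fun _ _ => ENNReal.summable)]
  simp only [sw]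
  unfold FPS
  refine ENNReal.tsum_le_tsum fun P => ?_
  by_cases hP : FP hX T P
  · rw [if_pos hP, ← ENNReal.tsum_mul_left]
    refine ENNReal.tsum_le_tsum fun P' => ?_
    by_cases hP' : FP hY T P'
    · rw [if_pos hP']
      beta_reduce
      by_cases hc : HT hX P ≤ T + i0 ∧ HT hY P' ≤ T + i0 ∧
          thX ≤ D ΛX hX zX T (HT hX P - T, Dp zX P) ∧ QQ hX zX sX hY zY sY P P' x a a' lo hi
      · rw [if_pos hc, mul_one]
        have c1 := FP_le hX hP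
        have c2 := FP_le hY hP'
        refine le_trans ?_ (Finset.single_le_sum (f := fun i2 => ∑ i3 ∈ Finset.range (i0 + 1),
          (if HT hX P = T + i2 ∧ Dp zX P ∈ E i2 ∧ HT hY P' = T + i3 ∧
            QQ hX zX sX hY zY sY P P' x a a' lo hi then LW ΛX P * LW ΛY P' else 0))
          (fun _ _ => zero_le) (Finset.mem_range.2 (by omega : HT hX P - T < i0 + 1)))
        refine le_trans ?_ (Finset.single_le_sum (f := fun i3 =>
          (if HT hX P = T + (HT hX P - T) ∧ Dp zX P ∈ E (HT hX P - T) ∧ HT hY P' = T + i3 ∧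
            QQ hX zX sX hY zY sY P P' x a a' lo hi then LW ΛX P * LW ΛY P' else 0))
          (fun _ _ => zero_le) (Finset.mem_range.2 (by omega : HT hY P' - T < i0 + 1)))
        rw [if_pos ⟨by omega, (hE _ _).2 hc.2.2.1, by omega, hc.2.2.2⟩]
      · rw [if_neg hc]; simp
    · rw [if_neg hP', mul_zero]; exact zero_le
  · rw [if_neg hP]; exact zero_le

open Classical in
/-- the inner sum, Y local -/
lemma inner3 (E : ℕ → Finset G) (T i0 : ℕ) (thY : ℝ≥0∞)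
    (hE : ∀ i y, y ∈ E i ↔ thY ≤ D ΛY hY zY T (i, y))
    (a a' lo hi : ℕ) (x : G) :
    FPS ΛX hX T (fun P => FPS ΛY hY T (fun P' =>
      if HT hX P ≤ T + i0 ∧ HT hY P' ≤ T + i0 ∧ thY ≤ D ΛY hY zY T (HT hY P' - T, Dp zY P') ∧
        QQ hX zX sX hY zY sY P P' x a a' lo hi then 1 else 0))
      ≤ ∑ i2 ∈ Finset.range (i0 + 1), ∑ i3 ∈ Finset.range (i0 + 1),
        S3 ΛX hX zX sX ΛY hY zY sY (E i3) (T + i2) (T + i3) a a' lo hi x := by
  unfold S3
  have sw : ∀ (f : ℕ → List BX → List BY → ℝ≥0∞),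
      ∑ i ∈ Finset.range (i0 + 1), ∑' L, ∑' L', f i L L'
        = ∑' L, ∑' L', ∑ i ∈ Finset.range (i0 + 1), f i L L' := by
    intro f
    rw [← Summable.tsum_finsetSum (fun _ _ => ENNReal.summable)]
    refine tsum_congr fun q => ?_
    rw [← Summable.tsum_finsetSum (fun _ _ => ENNReal.summable)]
  simp only [sw]
  unfold FPS
  refine ENNReal.tsum_le_tsum fun P => ?_
  by_cases hP : FP hX T P
  · rw [if_pos hP, ← ENNReal.tsum_mul_left]
    refine ENNReal.tsum_le_tsum fun P' => ?_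
    by_cases hP' : FP hY T P'
    · rw [if_pos hP']
      beta_reduce
      by_cases hc : HT hX P ≤ T + i0 ∧ HT hY P' ≤ T + i0 ∧
          thY ≤ D ΛY hY zY T (HT hY P' - T, Dp zY P') ∧ QQ hX zX sX hY zY sY P P' x a a' lo hi
      · rw [if_pos hc, mul_one]
        have c1 := FP_le hX hP
        have c2 := FP_le hY hP'
        refine le_trans ?_ (Finset.single_le_sum (f := fun i2 => ∑ i3 ∈ Finset.range (i0 + 1),
          (if HT hX P = T + i2 ∧ HT hY P' = T + i3 ∧ Dp zY P' ∈ E i3 ∧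
            QQ hX zX sX hY zY sY P P' x a a' lo hi then LW ΛX P * LW ΛY P' else 0))
          (fun _ _ => zero_le) (Finset.mem_range.2 (by omega : HT hX P - T < i0 + 1)))
        refine le_trans ?_ (Finset.single_le_sum (f := fun i3 =>
          (if HT hX P = T + (HT hX P - T) ∧ HT hY P' = T + i3 ∧ Dp zY P' ∈ E i3 ∧
            QQ hX zX sX hY zY sY P P' x a a' lo hi then LW ΛX P * LW ΛY P' else 0))
          (fun _ _ => zero_le) (Finset.mem_range.2 (by omega : HT hY P' - T < i0 + 1)))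
        rw [if_pos ⟨by omega, by omega, (hE _ _).2 hc.2.2.1, hc.2.2.2⟩]
      · rw [if_neg hc]; simp
    · rw [if_neg hP', mul_zero]; exact zero_le
  · rw [if_neg hP]; exact zero_le

variable (h1X : ∀ b, 1 ≤ hX b) (hΛX : ∑' b, ΛX b = 1) (hUX : ∀ n, U ΛX hX n ≤ 1)
variable (h1Y : ∀ b, 1 ≤ hY b) (hΛY : ∑' b, ΛY b = 1) (hUY : ∀ n, U ΛY hY n ≤ 1)

/-- hypothesis (2) for one cushion `s` -/
def HH2 (s : ℕ) (bd : ℝ≥0∞ → ℝ≥0∞) : Prop :=
  ∀ (h h' a a' lo hi : ℕ) (E : Finset G) (μ : G → ℝ≥0∞) (M : ℝ≥0∞), ∑' x, μ x ≤ 1 →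
    (∀ x, μ x ≤ M) → a + s ≤ lo → a' + s ≤ lo → hi + s ≤ a + h → hi + s ≤ a' + h' → a ≤ a' →
    a + h ≤ a' + h' →
    ∑' x, μ x * S2 ΛX hX zX sX ΛY hY zY sY E h h' a a' lo hi x ≤ bd (M * E.card)

/-- hypothesis (3) for one cushion `s` -/
def HH3 (s : ℕ) (bd : ℝ≥0∞ → ℝ≥0∞) : Prop :=
  ∀ (h h' a a' lo hi : ℕ) (E : Finset G) (μ : G → ℝ≥0∞) (M : ℝ≥0∞), ∑' x, μ x ≤ 1 →
    (∀ x, μ x ≤ M) → a + s ≤ lo → a' + s ≤ lo → hi + s ≤ a + h → hi + s ≤ a' + h' → a ≤ a' →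
    a + h ≤ a' + h' →
    ∑' x, μ x * S3 ΛX hX zX sX ΛY hY zY sY E h h' a a' lo hi x ≤ bd (M * E.card)

lemma mu_sum {G : Type*} [AddCommGroup G] (P P' : G → ℝ≥0∞) (w : G) :
    ∑' x, ∑' y', P' y' * P (w + y' - x) = (∑' y', P' y') * ∑' y, P y := by
  rw [ENNReal.tsum_comm, ← ENNReal.tsum_mul_right]
  refine tsum_congr fun y' => ?_
  rw [ENNReal.tsum_mul_left, tsum_sub_left]

/-- the tops have been fixed: sum over them -/
lemma tops {T i0 s t0 lo hi : ℕ} {bd : ℝ≥0∞ → ℝ≥0∞} (w : G)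
    (S : Finset G → ℕ → ℕ → ℕ → ℕ → ℕ → ℕ → G → ℝ≥0∞)
    (E : ℕ → ℕ → Finset G) (c : ℝ≥0∞) (hbd : Monotone bd)
    (hS : ∀ (h h' a a' lo hi : ℕ) (E : Finset G) (μ : G → ℝ≥0∞) (M : ℝ≥0∞), ∑' x, μ x ≤ 1 →
      (∀ x, μ x ≤ M) → a + s ≤ lo → a' + s ≤ lo → hi + s ≤ a + h → hi + s ≤ a' + h' → a ≤ a' →
      a + h ≤ a' + h' → ∑' x, μ x * S E h h' a a' lo hi x ≤ bd (M * E.card))
    (hlo : t0 + 3 * i0 + s ≤ lo) (hhi : hi + s ≤ t0 + T)
    (P P' : ℕ × G → ℝ≥0∞) (R : ℕ × G → ℕ × G → ℝ≥0∞)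
    (hP : ∀ i, ∑' y, P (i, y) ≤ 1) (hP' : ∀ i, ∑' y, P' (i, y) ≤ 1)
    (M : ℝ≥0∞) (hM : (∀ q, P q ≤ M) ∨ (∀ q, P' q ≤ M))
    (hME : ∀ i2 i3, M * (E i2 i3).card ≤ c)
    (hR : ∀ q q', R q q' ≤ if q.1 ≤ i0 ∧ q'.1 ≤ i0 then
      ∑ i2 ∈ Finset.range (i0 + 1), ∑ i3 ∈ Finset.range (i0 + 1),
        S (E i2 i3) (T + i2) (T + i3) (t0 + q.1) (t0 + 2 * i0 + q'.1) lo hi (w + q'.2 - q.2) else 0) :
    ∑' q, ∑' q', P q * P' q' * R q q' ≤ ((i0 + 1 : ℕ) : ℝ≥0∞) ^ 4 * bd c := by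
  refine mix P P' R i0 w (fun i i' i2 i3 x => S (E i2 i3) (T + i2) (T + i3) (t0 + i)
    (t0 + 2 * i0 + i') lo hi x) (bd c) hR ?_
  intro i hi i' hi' i2 hi2 i3 hi3
  refine (hS (T + i2) (T + i3) (t0 + i) (t0 + 2 * i0 + i') lo _ (E i2 i3)
    (fun x => ∑' y', P' (i', y') * P (i, w + y' - x)) M ?_ ?_ (by omega) (by omega) (by omega)
    (by omega) (by omega) (by omega)).trans (hbd (hME i2 i3))
  · rw [mu_sum (fun y => P (i, y)) (fun y => P' (i', y)) w]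
    exact mul_le_one' (hP' i') (hP i)
  · intro x
    rcases hM with hM | hM
    · calc ∑' y', P' (i', y') * P (i, w + y' - x) ≤ ∑' y', P' (i', y') * M :=
            ENNReal.tsum_le_tsum fun y' => mul_le_mul_right (hM _) _
        _ = (∑' y', P' (i', y')) * M := ENNReal.tsum_mul_right
        _ ≤ M := mul_le_of_le_one_left zero_le (hP' i')
    · calc ∑' y', P' (i', y') * P (i, w + y' - x) ≤ ∑' y', M * P (i, w + y' - x) :=
            ENNReal.tsum_le_tsum fun y' => mul_le_mul_left (hM _) _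
        _ = M * ∑' y', P (i, w + y' - x) := ENNReal.tsum_mul_left
        _ = M * ∑' y, P (i, y) := by
            congr 1
            have : ∀ y', P (i, w + y' - x) = P (i, y' - (x - w)) := fun y' => by
              congr 2; abel
            rw [tsum_congr this, tsum_sub_right (fun y => P (i, y))]
        _ ≤ M := mul_le_of_le_one_right zero_le (hP i)

end Crest.Agent.R154.Asm207
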