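import Crest.Agent.R154.AsmD_217

/-! Row 154, ROAD 801 (helper217): one window, both walkers. -/

set_option autoImplicit false

namespace Crest.Agent.R154.Asm217

open scoped ENNReal
open Crest.Agent.R154.B5A Crest.Agent.R154.AsmA789 Crest.Agent.R154.FP178

variable {G : Type*} [AddCommGroup G] {BX BY : Type*}

open Classical in
theorem window (ΛX : BX → ℝ≥0∞) (hX : BX → ℕ) (zX : BX → G)
    (TX : List BX → G → ℕ → Set (G × ℕ))
    (ΛY : BY → ℝ≥0∞) (hY : BY → ℕ) (zY : BY → G) (TY : List BY → G → ℕ → Set (G × ℕ))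
    (p1 : ∀ b, 1 ≤ hX b) (p2 : ∀ b, 1 ≤ hY b) (m1 : ∑' b, ΛX b = 1) (m2 : ∑' b, ΛY b = 1)
    (t1 : ∀ L x a z k, (z, k) ∈ TX L x a ↔ (z - x, k) ∈ TX L 0 a)
    (t2 : ∀ L x a z k, (z, k) ∈ TY L x a ↔ (z - x, k) ∈ TY L 0 a)
    (us : ℕ → ℕ → ℝ≥0∞) (C : ℝ≥0∞) (H2 : HypL ΛX hX zX TX ΛY hY TY us C)
    (H3 : HypL ΛY hY zY TY ΛX hX TX us C)
    (T i0 J j : ℕ) (hj : j + 1 ≤ J) (s lo hi : ℕ) (u lam : ℝ≥0∞)
    (hu0 : u ≠ 0) (hu1 : u < 1)
    (hl : lam ≠ 0) (hlt : lam ≠ ⊤)
    (hlo : j * T + J * i0 + s ≤ lo) (hhi : hi + s ≤ j * T + T) (w : G) :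
    SL (PW ΛX hX T) j (fun As => ∑' A, PW ΛX hX T A * SL (PW ΛY hY T) j (fun Bs =>
      ∑' B, PW ΛY hY T B * (if (∀ A' ∈ As, T ≤ HT hX A' ∧ HT hX A' ≤ T + i0) ∧
        (∀ B' ∈ Bs, T ≤ HT hY B' ∧ HT hY B' ≤ T + i0) ∧ HT hX A ≤ T + i0 ∧ HT hY B ≤ T + i0 ∧
        Ev TX TY lo hi A (Dp zX As.flatten) (HT hX As.flatten) B (w + Dp zY Bs.flatten)
          (HT hY Bs.flatten) then 1 else 0)))
      ≤ u * u + (((1 - u) ^ j + ((J * i0 + 1 : ℕ) : ℝ≥0∞) * Bd us C J i0 s lam)
        + ((1 - u) ^ j + ((J * i0 + 1 : ℕ) : ℝ≥0∞) * Bd us C J i0 s lam)) := by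
  set PX := PW ΛX hX T with hPX
  set PY := PW ΛY hY T with hPY
  have mX : ∑' A, PX A = 1 := sum_PW_one ΛX hX p1 m1 T
  have mY : ∑' B, PY B = 1 := sum_PW_one ΛY hY p2 m2 T
  obtain ⟨θ, hθ0, -, hθ1, hθ2⟩ := quant (law PX (hz hX zX)) (by rw [sum_law, mX]) hu0 hu1
  obtain ⟨θ', hθ0', -, hθ1', hθ2'⟩ := quant (law PY (hz hY zY)) (by rw [sum_law, mY]) hu0 hu1
  set sX : List BX → Prop := fun A => law PX (hz hX zX) (hz hX zX A) < θ with hsX
  set sY : List BY → Prop := fun B => law PY (hz hY zY) (hz hY zY B) < θ' with hsY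
  have hsXm : ∑' A, PX A * (if sX A then 1 else 0) ≤ u := by
    refine le_trans (le_of_eq ?_) hθ1
    rw [push_lt]
    refine tsum_congr fun A => ?_
    by_cases h : law PX (hz hX zX) (hz hX zX A) < θ
    · rw [if_pos h, if_pos h, mul_one]
    · rw [if_neg h, if_neg h, mul_zero]
  have hsYm : ∑' B, PY B * (if sY B then 1 else 0) ≤ u := by
    refine le_trans (le_of_eq ?_) hθ1'
    rw [push_lt]
    refine tsum_congr fun B => ?_
    by_cases h : law PY (hz hY zY) (hz hY zY B) < θ'
    · rw [if_pos h, if_pos h, mul_one]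
    · rw [if_neg h, if_neg h, mul_zero]
  set ok : List (List BX) → List (List BY) → List BX → List BY → Prop := fun As Bs A B =>
    (∀ A' ∈ As, T ≤ HT hX A' ∧ HT hX A' ≤ T + i0) ∧
        (∀ B' ∈ Bs, T ≤ HT hY B' ∧ HT hY B' ≤ T + i0) ∧ HT hX A ≤ T + i0 ∧ HT hY B ≤ T + i0 ∧
        Ev TX TY lo hi A (Dp zX As.flatten) (HT hX As.flatten) B (w + Dp zY Bs.flatten)
          (HT hY Bs.flatten) with hok
  -- the three parts
  set F1 : List (List BX) → List (List BY) → List BX → List BY → ℝ≥0∞ := fun _ _ A B =>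
    (if sX A then 1 else 0) * (if sY B then 1 else 0) with hF1
  set F2 : List (List BX) → List (List BY) → List BX → List BY → ℝ≥0∞ := fun As Bs A B =>
    if ¬ sX A ∧ ok As Bs A B then 1 else 0 with hF2
  set F3 : List (List BX) → List (List BY) → List BX → List BY → ℝ≥0∞ := fun As Bs A B =>
    if ¬ sY B ∧ ok As Bs A B then 1 else 0 with hF3
  set V : (List (List BX) → List (List BY) → List BX → List BY → ℝ≥0∞) → ℝ≥0∞ := fun F =>
    SL PX j (fun As => ∑' A, PX A * SL PY j (fun Bs => ∑' B, PY B * F As Bs A B)) with hV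
  have hadd : ∀ F F', V (fun As Bs A B => F As Bs A B + F' As Bs A B) = V F + V F' := by
    intro F F'
    rw [hV]
    simp only
    rw [← SL_add_fun]
    refine SL_congr _ j fun As _ => ?_
    rw [← ENNReal.tsum_add]
    refine tsum_congr fun A => ?_
    rw [← mul_add, ← SL_add_fun]
    congr 1
    refine SL_congr _ j fun Bs _ => ?_
    rw [← ENNReal.tsum_add]
    refine tsum_congr fun B => ?_
    rw [mul_add]
  have hmono : ∀ F F' : List (List BX) → List (List BY) → List BX → List BY → ℝ≥0∞,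
      (∀ As Bs A B, F As Bs A B ≤ F' As Bs A B) → V F ≤ V F' := by
    intro F F' h
    refine SL_mono _ j fun As _ => ENNReal.tsum_le_tsum fun A => mul_le_mul_right
      (SL_mono _ j fun Bs _ => ENNReal.tsum_le_tsum fun B => mul_le_mul_right (h _ _ _ _) _) _
  have b1 : V F1 ≤ u * u := by
    refine SL_le PX mX.le j _ _ fun As _ => ?_
    calc ∑' A, PX A * SL PY j (fun Bs => ∑' B, PY B * F1 As Bs A B)
        ≤ ∑' A, PX A * ((if sX A then 1 else 0) * u) := by
          refine ENNReal.tsum_le_tsum fun A => mul_le_mul_right ?_ _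
          refine SL_le PY mY.le j _ _ fun Bs _ => ?_
          calc ∑' B, PY B * F1 As Bs A B
              = (if sX A then 1 else 0) * ∑' B, PY B * (if sY B then 1 else 0) := by
                rw [← ENNReal.tsum_mul_left]
                refine tsum_congr fun B => ?_
                rw [hF1]; ring
            _ ≤ _ := mul_le_mul_right hsYm _
      _ = (∑' A, PX A * (if sX A then 1 else 0)) * u := by
          rw [← ENNReal.tsum_mul_right]
          exact tsum_congr fun A => by ring
      _ ≤ u * u := mul_le_mul_left hsXm _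
  have b2 : V F2 ≤ (1 - u) ^ j + ((J * i0 + 1 : ℕ) : ℝ≥0∞) * Bd us C J i0 s lam := by
    have e : V F2 = SL PY j (fun Bs => SL PX j (fun As => ∑' A, PX A * ∑' B, PY B *
        F2 As Bs A B)) := by
      rw [hV]
      simp only
      rw [SL_comm]
      refine SL_congr _ j fun As _ => ?_
      rw [tsum_SL]
    rw [e]
    refine SL_le PY mY.le j _ _ fun Bs hBs => ?_
    by_cases hB : ∀ B' ∈ Bs, T ≤ HT hY B' ∧ HT hY B' ≤ T + i0
    · have hb := flat_bounds hY T i0 Bs hB
      rw [hBs] at hb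
      have h3 : j * i0 ≤ J * i0 := Nat.mul_le_mul_right _ (by omega)
      refine le_trans (SL_mono _ j fun As _ => ?_)
        (loc_bound ΛX hX zX TX ΛY hY TY p1 p2 m1 m2 t1 t2 us C H2 T i0 J j hj s lo hi θ u lam
          hθ0 hl hlt (by convert hθ2) (HT hY Bs.flatten) hb.1 (by omega) (w + Dp zY Bs.flatten)
          hlo hhi)
      by_cases hA : ∀ A' ∈ As, T ≤ HT hX A' ∧ HT hX A' ≤ T + i0
      · rw [if_pos hA]
        unfold Qf
        refine ENNReal.tsum_le_tsum fun A => mul_le_mul_right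
          (ENNReal.tsum_le_tsum fun B => mul_le_mul_right ?_ _) _
        by_cases hc : ¬ sX A ∧ ok As Bs A B
        · obtain ⟨c1, c2, c3, c4, c5, c6⟩ := hc
          rw [hF2]
          simp only
          rw [if_pos ⟨c1, c2, c3, c4, c5, c6⟩, if_pos ⟨c1, c4, c5, c6⟩]
        · rw [hF2]
          simp only
          rw [if_neg hc]; exact zero_le
      · rw [if_neg hA]
        refine le_of_eq (ENNReal.tsum_eq_zero.2 fun A => ?_)
        rw [ENNReal.tsum_eq_zero.2 fun B => ?_, mul_zero]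
        rw [hF2]
        simp only
        rw [if_neg (fun hc => hA hc.2.1), mul_zero]
    · refine le_trans (le_of_eq ?_) zero_le
      rw [SL]
      refine ENNReal.tsum_eq_zero.2 fun As => ?_
      have : ∑' A, PX A * ∑' B, PY B * F2 As Bs A B = 0 := by
        refine ENNReal.tsum_eq_zero.2 fun A => ?_
        rw [ENNReal.tsum_eq_zero.2 fun B => ?_, mul_zero]
        rw [hF2]
        simp only
        rw [if_neg (fun hc => hB hc.2.2.1), mul_zero]
      rw [this, mul_zero, ite_self]
  have b3 : V F3 ≤ (1 - u) ^ j + ((J * i0 + 1 : ℕ) : ℝ≥0∞) * Bd us C J i0 s lam := by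
    have e : V F3 = SL PX j (fun As => SL PY j (fun Bs => ∑' B, PY B * ∑' A, PX A *
        F3 As Bs A B)) := by
      rw [hV]
      simp only
      refine SL_congr _ j fun As _ => ?_
      rw [tsum_SL]
      refine SL_congr _ j fun Bs _ => ?_
      simp_rw [← ENNReal.tsum_mul_left]
      rw [ENNReal.tsum_comm]
      exact tsum_congr fun B => tsum_congr fun A => by ring
    rw [e]
    refine SL_le PX mX.le j _ _ fun As hAs => ?_
    by_cases hA : ∀ A' ∈ As, T ≤ HT hX A' ∧ HT hX A' ≤ T + i0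
    · have hb := flat_bounds hX T i0 As hA
      rw [hAs] at hb
      have h3 : j * i0 ≤ J * i0 := Nat.mul_le_mul_right _ (by omega)
      refine le_trans (SL_mono _ j fun Bs _ => ?_)
        (loc_bound ΛY hY zY TY ΛX hX TX p2 p1 m2 m1 t2 t1 us C H3 T i0 J j hj s lo hi θ' u lam
          hθ0' hl hlt (by convert hθ2') (HT hX As.flatten) hb.1 (by omega) (Dp zX As.flatten - w)
          hlo hhi)
      by_cases hB : ∀ B' ∈ Bs, T ≤ HT hY B' ∧ HT hY B' ≤ T + i0
      · rw [if_pos hB]
        unfold Qf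
        refine ENNReal.tsum_le_tsum fun B => mul_le_mul_right
          (ENNReal.tsum_le_tsum fun A => mul_le_mul_right ?_ _) _
        by_cases hc : ¬ sY B ∧ ok As Bs A B
        · obtain ⟨c1, c2, c3, c4, c5, c6⟩ := hc
          have c7 : Ev TY TX lo hi B (Dp zY Bs.flatten) (HT hY Bs.flatten) A
              (Dp zX As.flatten - w) (HT hX As.flatten) := by
            rw [Ev_swap, Ev_shift TX TY t1 t2]
            rw [Ev_shift TX TY t1 t2] at c6
            have : Dp zY Bs.flatten - (Dp zX As.flatten - w)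
                = w + Dp zY Bs.flatten - Dp zX As.flatten := by abel
            rw [this]
            exact c6
          rw [hF3]
          simp only
          rw [if_pos ⟨c1, c2, c3, c4, c5, c6⟩, if_pos ⟨c1, c5, c4, c7⟩]
        · rw [hF3]
          simp only
          rw [if_neg hc]; exact zero_le
      · rw [if_neg hB]
        refine le_of_eq (ENNReal.tsum_eq_zero.2 fun B => ?_)
        rw [ENNReal.tsum_eq_zero.2 fun A => ?_, mul_zero]
        rw [hF3]
        simp only
        rw [if_neg (fun hc => hB hc.2.2.1), mul_zero]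
    · refine le_trans (le_of_eq ?_) zero_le
      rw [SL]
      refine ENNReal.tsum_eq_zero.2 fun Bs => ?_
      have : ∑' B, PY B * ∑' A, PX A * F3 As Bs A B = 0 := by
        refine ENNReal.tsum_eq_zero.2 fun B => ?_
        rw [ENNReal.tsum_eq_zero.2 fun A => ?_, mul_zero]
        rw [hF3]
        simp only
        rw [if_neg (fun hc => hA hc.2.1), mul_zero]
      rw [this, mul_zero, ite_self]
  calc V (fun As Bs A B => if ok As Bs A B then 1 else 0)
      ≤ V (fun As Bs A B => F1 As Bs A B + (F2 As Bs A B + F3 As Bs A B)) := by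
        refine hmono _ _ fun As Bs A B => ?_
        by_cases hc : ok As Bs A B
        · rw [if_pos hc, hF1, hF2, hF3]
          simp only
          by_cases h1 : sX A
          · by_cases h2 : sY B
            · rw [if_pos h1, if_pos h2, one_mul]; exact le_self_add
            · rw [if_pos (⟨h2, hc⟩ : ¬ sY B ∧ ok As Bs A B)]
              exact le_add_left (le_add_left le_rfl)
          · rw [if_pos (⟨h1, hc⟩ : ¬ sX A ∧ ok As Bs A B)]
            exact le_add_left le_self_add
        · rw [if_neg hc]; exact zero_le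
    _ = V F1 + (V F2 + V F3) := by rw [hadd F1 (fun As Bs A B => F2 As Bs A B + F3 As Bs A B), hadd]
    _ ≤ _ := add_le_add b1 (add_le_add b2 b3)

end Crest.Agent.R154.Asm217
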