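import Crest.Agent.R154.AsmD_222
import Crest.Agent.R154.Num_337
import Crest.Agent.R154.Dens_616

/-! Row 154, road 801 (helper222): the assembly on block lists. -/

set_option autoImplicit false
set_option linter.unusedSectionVars false

namespace Crest.Agent.R154.Asm222

open scoped ENNReal
open Crest.Agent.R154.B5A

section single

variable {B G : Type*} [AddCommGroup G] (Λ : B → ℝ≥0∞) (h : B → ℕ) (z : B → G)

open Classical in
/-- law of the attempt -/
noncomputable def law (T : ℕ) (v : ℕ × G) : ℝ≥0∞ :=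
  ∑' P, if FP h T P ∧ HT h P = v.1 ∧ Dp z P = v.2 then LW Λ P else 0

open Classical in
lemma SF_law (T : ℕ) (g : ℕ × G → ℝ≥0∞) :
    SF Λ h T (fun P => g (HT h P, Dp z P)) = ∑' v, law Λ h z T v * g v := by
  simp only [law]
  simp_rw [← ENNReal.tsum_mul_right]
  rw [ENNReal.tsum_comm]
  refine tsum_congr fun P => ?_
  rw [tsum_eq_single (HT h P, Dp z P)]
  · by_cases hP : FP h T P
    · simp [hP]
    · simp [hP]
  · intro v hv
    rw [if_neg, zero_mul]
    rintro ⟨_, h2, h3⟩
    exact hv (by rw [h2, h3])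

open Classical in
theorem single (h1 : ∀ b, 1 ≤ h b) (hΛ : ∑' b, Λ b = 1) (hU : ∀ n, U Λ h n ≤ 1)
    (T i0 J : ℕ) (u : ℝ≥0∞) (hu0 : u ≠ 0) (hu1 : u < 1) :
    ∃ (E : Finset (ℕ × G)) (M : ℝ≥0∞) (S : List B → Prop), M ≠ ⊤ ∧
      M * E.card ≤ ((i0 + 1 : ℕ) : ℝ≥0∞) / u ∧
      SF Λ h T (fun P => if (HT h P, Dp z P) ∈ E then 0 else 1) ≤ u ∧
      (∀ c, J * (T + i0) ≤ c → SF Λ h c (fun A => if S A then 0 else 1)
        ≤ (1 - u) ^ J + J * ep Λ h i0) ∧
      ∀ a y, ∑' A, (if HT h A = a ∧ Dp z A = y ∧ S A then LW Λ A else 0) ≤ M := by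
  have hut : u ≠ ⊤ := ne_top_of_lt hu1
  set p := law Λ h z T with hp
  have hp1 : ∑' v, p v = 1 := by
    have := SF_law Λ h z T (fun _ => 1)
    rw [SF_one Λ h h1 hΛ] at this
    simpa using this.symm
  obtain ⟨th, hth0, hth1, hq1, hq2⟩ := Dens616.quantile p hp1 hu0 hu1
  have hfin : {v | th ≤ p v}.Finite := by
    have := Dens616.finite_local p (by rw [hp1]; exact ENNReal.one_ne_top) hth0
    exact this
  have htht : th ≠ ⊤ := ne_top_of_le_ne_top ENNReal.one_ne_top hth1
  set E := hfin.toFinset with hE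
  set M : ℝ≥0∞ := ((i0 + 1 : ℕ) : ℝ≥0∞) * th / u with hM
  have hMt : M ≠ ⊤ := by
    rw [hM]
    exact ENNReal.div_ne_top (ENNReal.mul_ne_top (ENNReal.natCast_ne_top _) htht) hu0
  set S0 : ℕ → G → Prop := fun r y => p (r, y) ≤ th with hS0
  refine ⟨E, M, Sm h z T i0 S0 J, hMt, ?_, ?_, ?_, ?_⟩
  · have h3 : (E.card : ℝ≥0∞) * th ≤ ∑' v, p v :=
      Dens616.card_mul_le p th E (fun v hv => by simpa [hE] using hv)
    rw [hp1] at h3
    calc M * E.card = ((i0 + 1 : ℕ) : ℝ≥0∞) / u * (E.card * th) := by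
          rw [hM, div_eq_mul_inv, div_eq_mul_inv]; ring
      _ ≤ ((i0 + 1 : ℕ) : ℝ≥0∞) / u * 1 := by gcongr
      _ = _ := mul_one _
  · rw [SF_law Λ h z T (fun v => if v ∈ E then 0 else 1)]
    refine le_trans (le_of_eq ?_) hq1
    refine tsum_congr fun v => ?_
    by_cases hv : p v < th
    · rw [if_pos hv, if_neg (by simp only [hE, Set.Finite.mem_toFinset, Set.mem_setOf_eq]; exact not_le.2 hv), mul_one]
    · rw [if_neg hv, if_pos (by simp only [hE, Set.Finite.mem_toFinset, Set.mem_setOf_eq]; exact not_lt.1 hv), mul_zero]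
  · intro c hc
    refine Sm_rare Λ h h1 hΛ z T i0 S0 (1 - u) (ep Λ h i0) tsub_le_self ?_
      (over_le Λ h h1 hU i0 T) J c hc
    refine (SF_mono Λ h T (F' := fun P => if p (HT h P, Dp z P) ≤ th then 0 else 1)
      fun P _ => ?_).trans ?_
    · by_cases h5 : p (HT h P, Dp z P) ≤ th
      · rw [if_neg (fun hh => hh.2 h5)]; exact zero_le
      · rw [if_neg h5]; split_ifs <;> simp
    · rw [SF_law Λ h z T (fun v => if p v ≤ th then 0 else 1)]
      refine ENNReal.le_sub_of_add_le_left hut ?_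
      calc u + ∑' v, p v * (if p v ≤ th then 0 else 1)
          ≤ (∑' v, if p v ≤ th then p v else 0) + ∑' v, p v * (if p v ≤ th then 0 else 1) := by
            gcongr
        _ = ∑' v, p v := by
            rw [← ENNReal.tsum_add]
            refine tsum_congr fun v => ?_
            by_cases h5 : p v ≤ th
            · simp [h5]
            · simp [h5]
        _ = 1 := hp1
  · refine Sm_dens Λ h hU z T i0 S0 (1 - u) th M ?_ ?_ ?_ J
    · refine (SF_mono Λ h T (F' := fun P => if p (HT h P, Dp z P) ≤ th then 0 else 1)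
        fun P _ => ?_).trans ?_
      · by_cases h5 : p (HT h P, Dp z P) ≤ th
        · rw [if_neg (fun hh => hh.2 h5)]; exact zero_le
        · rw [if_neg h5]; split_ifs <;> simp
      · rw [SF_law Λ h z T (fun v => if p v ≤ th then 0 else 1)]
        refine ENNReal.le_sub_of_add_le_left hut ?_
        calc u + ∑' v, p v * (if p v ≤ th then 0 else 1)
            ≤ (∑' v, if p v ≤ th then p v else 0) + ∑' v, p v * (if p v ≤ th then 0 else 1) := by
              gcongr
          _ = ∑' v, p v := by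
              rw [← ENNReal.tsum_add]
              refine tsum_congr fun v => ?_
              by_cases h5 : p v ≤ th
              · simp [h5]
              · simp [h5]
          _ = 1 := hp1
    · intro r y hS
      exact hS
    · have h6 : ((i0 + 1 : ℕ) : ℝ≥0∞) * th = u * M := by
        rw [hM, ENNReal.mul_div_cancel hu0 hut]
      rw [h6, ← add_mul, add_tsub_cancel_of_le hu1.le, one_mul]

end single

end Crest.Agent.R154.Asm222
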