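import Crest.Agent.R154.AsmD_224

/-! Row 154, ROAD 801 (helper224): one window, two walkers. -/

set_option autoImplicit false

namespace Crest.Agent.R154.Asm224

open scoped ENNReal
open Crest.Agent.R154.B5A

variable {BX BY G : Type*} [AddCommGroup G] (SX : Sys BX G) (SY : Sys BY G)

open Classical in
/-- four-fold sum over the pieces -/
noncomputable def S4 (a T c V i0 : ℕ) (Q : List BX → List BX → List BY → List BY → Prop) : ℝ≥0∞ :=
  ∑' A, ∑' P, ∑' A', ∑' P', SX.wa a i0 A * SX.wa T i0 P * (SY.wa c i0 A' * SY.wa V i0 P') *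
    (if Q A P A' P' then 1 else 0)

open Classical in
lemma pair (EV : List BX → List BY → Prop) (Q : List BX → List BX → List BY → List BY → Prop)
    (n a T c V i0 : ℕ) (hn : a + i0 + T ≤ n) (hn' : c + i0 + V ≤ n)
    (hEQ : ∀ A P R A' P' R', FP SX.ht a A → HT SX.ht A ≤ a + i0 → FP SX.ht T P →
      HT SX.ht P ≤ T + i0 → FP SY.ht c A' → HT SY.ht A' ≤ c + i0 → FP SY.ht V P' →
      HT SY.ht P' ≤ V + i0 → EV (A ++ (P ++ R)) (A' ++ (P' ++ R')) → Q A P A' P') :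
    ∑' LX : List BX, ∑' LY : List BY, (if HT SX.ht LX = n ∧ HT SY.ht LY = n ∧ EV LX LY
      then LW SX.Λ LX * LW SY.Λ LY else 0)
      ≤ S4 SX SY a T c V i0 Q + (2 * SY.ov i0 + 2 * SX.ov i0) := by
  set f : List BX → ℝ≥0∞ := fun LX => ∑' LY : List BY, (if HT SY.ht LY = n then LW SY.Λ LY *
    (if EV LX LY then 1 else 0) else 0) with hf
  have hf1 : ∀ L, f L ≤ 1 := by
    intro L
    refine le_trans (ENNReal.tsum_le_tsum fun LY => ?_) (SY.hU n)
    split_ifs <;> simp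
  set g : List BX → List BX → ℝ≥0∞ := fun A P => (∑' A', ∑' P', SY.wa c i0 A' * SY.wa V i0 P' *
    (if Q A P A' P' then 1 else 0)) + 2 * SY.ov i0 with hg
  have hfg : ∀ A P R, FP SX.ht a A → HT SX.ht A ≤ a + i0 → FP SX.ht T P → HT SX.ht P ≤ T + i0 →
      f (A ++ (P ++ R)) ≤ g A P := by
    intro A P R hA hA2 hP hP2
    refine SY.x3 (fun LY => if EV (A ++ (P ++ R)) LY then 1 else 0) (fun LY => ?_)
      (fun A' P' => if Q A P A' P' then 1 else 0) n c V i0 hn' ?_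
    · split_ifs <;> simp
    · intro A' P' R' hA' hA2' hP' hP2'
      by_cases h : EV (A ++ (P ++ R)) (A' ++ (P' ++ R'))
      · have := hEQ A P R A' P' R' hA hA2 hP hP2 hA' hA2' hP' hP2' h
        simp [h, this]
      · simp [h]
  have hmain := SX.x3 f hf1 g n a T i0 hn hfg
  calc ∑' LX : List BX, ∑' LY : List BY, (if HT SX.ht LX = n ∧ HT SY.ht LY = n ∧ EV LX LY
      then LW SX.Λ LX * LW SY.Λ LY else 0)
      = ∑' LX : List BX, (if HT SX.ht LX = n then LW SX.Λ LX * f LX else 0) := by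
        refine tsum_congr fun LX => ?_
        by_cases h : HT SX.ht LX = n
        · rw [if_pos h, hf, ← ENNReal.tsum_mul_left]
          refine tsum_congr fun LY => ?_
          by_cases h2 : HT SY.ht LY = n <;> by_cases h3 : EV LX LY <;> simp [h, h2, h3]
        · rw [if_neg h]
          simp [h]
    _ ≤ _ := hmain
    _ = (∑' A, ∑' P, SX.wa a i0 A * SX.wa T i0 P * (∑' A', ∑' P', SY.wa c i0 A' *
          SY.wa V i0 P' * (if Q A P A' P' then 1 else 0)))
        + (∑' A, ∑' P, SX.wa a i0 A * SX.wa T i0 P) * (2 * SY.ov i0) + 2 * SX.ov i0 := by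
        congr 1
        rw [← ENNReal.tsum_mul_right, ← ENNReal.tsum_add]
        refine tsum_congr fun A => ?_
        rw [← ENNReal.tsum_mul_right, ← ENNReal.tsum_add]
        refine tsum_congr fun P => ?_
        rw [hg]; ring
    _ ≤ S4 SX SY a T c V i0 Q + 1 * (2 * SY.ov i0) + 2 * SX.ov i0 := by
        gcongr
        · rw [S4]
          refine ENNReal.tsum_le_tsum fun A => ENNReal.tsum_le_tsum fun P => ?_
          rw [← ENNReal.tsum_mul_left]
          refine ENNReal.tsum_le_tsum fun A' => ?_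
          rw [← ENNReal.tsum_mul_left]
          refine ENNReal.tsum_le_tsum fun P' => le_of_eq ?_
          ring
        · calc ∑' A, ∑' P, SX.wa a i0 A * SX.wa T i0 P
              = (∑' A, SX.wa a i0 A) * ∑' P, SX.wa T i0 P := by
                rw [← ENNReal.tsum_mul_right]
                refine tsum_congr fun A => ?_
                rw [ENNReal.tsum_mul_left]
            _ ≤ 1 * 1 := by gcongr; exacts [SX.wa_mass _ _, SX.wa_mass _ _]
            _ = 1 := one_mul 1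
    _ = _ := by ring

/-- contact depths of two placed lists -/
def CT (L : List BX) (a : ℕ) (L' : List BY) (a' : ℕ) (x : G) : Set ℕ :=
  {k | ∃ p, (p, k) ∈ TR SX.ht SX.z SX.s L 0 a ∧ (p, k) ∈ TR SY.ht SY.z SY.s L' x a'}

/-- the pieces are in contact, and all their contacts have depth in `[lo, hi]` -/
def Pcs (lo hi : ℕ) (L : List BX) (a : ℕ) (L' : List BY) (a' : ℕ) (x : G) : Prop :=
  (CT SX SY L a L' a' x).Nonempty ∧ ∀ k ∈ CT SX SY L a L' a' x, lo ≤ k ∧ k ≤ hi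

lemma CT_pieces (w : G) (A P R : List BX) (A' P' R' : List BY) (k : ℕ)
    (hk : k ∈ CT SX SY P (HT SX.ht A) P' (HT SY.ht A') (w + Dp SY.z A' - Dp SX.z A)) :
    k ∈ CT SX SY (A ++ (P ++ R)) 0 (A' ++ (P' ++ R')) 0 w := by
  obtain ⟨p, h1, h2⟩ := hk
  refine ⟨p + Dp SX.z A, ?_, ?_⟩
  · rw [TR_append, TR_append]
    refine Or.inr (Or.inl ?_)
    rw [TR_shift, zero_add]
    exact h1
  · rw [TR_append, TR_append]
    refine Or.inr (Or.inl ?_)
    rw [show w + Dp SY.z A' = (w + Dp SY.z A' - Dp SX.z A) + Dp SX.z A by abel, TR_shift, zero_add]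
    exact h2

lemma CT_pieces' (w : G) (A P R : List BX) (A' P' R' : List BY) (k : ℕ)
    (hk : k ∈ CT SX SY (A ++ (P ++ R)) 0 (A' ++ (P' ++ R')) 0 w)
    (h1 : HT SX.ht A < k) (h2 : k ≤ HT SX.ht A + HT SX.ht P)
    (h1' : HT SY.ht A' < k) (h2' : k ≤ HT SY.ht A' + HT SY.ht P') :
    k ∈ CT SX SY P (HT SX.ht A) P' (HT SY.ht A') (w + Dp SY.z A' - Dp SX.z A) := by
  obtain ⟨p, hX, hY⟩ := hk
  refine ⟨p - Dp SX.z A, ?_, ?_⟩
  · rw [TR_append, TR_append] at hX
    rcases hX with hX | hX | hX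
    · have := TR_depth _ _ _ SX.hs _ _ _ _ _ hX; omega
    · rw [← TR_shift _ _ _ _ _ (Dp SX.z A)]
      rw [show p - Dp SX.z A + Dp SX.z A = p by abel]
      simpa using hX
    · have := TR_depth _ _ _ SX.hs _ _ _ _ _ hX; omega
  · rw [TR_append, TR_append] at hY
    rcases hY with hY | hY | hY
    · have := TR_depth _ _ _ SY.hs _ _ _ _ _ hY; omega
    · rw [← TR_shift _ _ _ _ _ (Dp SX.z A)]
      rw [show p - Dp SX.z A + Dp SX.z A = p by abel,
        show w + Dp SY.z A' - Dp SX.z A + Dp SX.z A = w + Dp SY.z A' by abel]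
      simpa using hY
    · have := TR_depth _ _ _ SY.hs _ _ _ _ _ hY; omega

lemma CT_depth (w : G) (P : List BX) (P' : List BY) (a a' k : ℕ)
    (hk : k ∈ CT SX SY P a P' a' w) : a < k ∧ k ≤ a + HT SX.ht P := by
  obtain ⟨p, hX, _⟩ := hk
  have := TR_depth _ _ _ SX.hs _ _ _ _ _ hX
  omega

open Classical in
/-- 801 (2) -/
def H2 (us : ℕ → ℝ≥0∞) (C : ℝ≥0∞) : Prop :=
  ∀ (s h h' a a' lo hi : ℕ) (E : Finset G) (μ : G → ℝ≥0∞) (M lam : ℝ≥0∞), ∑' x, μ x ≤ 1 →
    (∀ x, μ x ≤ M) → lam ≠ 0 → lam ≠ ⊤ → a + s ≤ lo → a' + s ≤ lo → hi + s ≤ a + h →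
    hi + s ≤ a' + h' → a ≤ a' → a + h ≤ a' + h' →
    ∑' x, μ x * ∑' L : List BX, ∑' L' : List BY, (if HT SX.ht L = h ∧ Dp SX.z L ∈ E ∧
      HT SY.ht L' = h' ∧ Pcs SX SY lo hi L a L' a' x then LW SX.Λ L * LW SY.Λ L' else 0)
      ≤ C * (lam + M * E.card * us s / lam + us s)

open Classical in
/-- 801 (3) -/
def H3 (us : ℕ → ℝ≥0∞) (C : ℝ≥0∞) : Prop :=
  ∀ (s h h' a a' lo hi : ℕ) (E : Finset G) (μ : G → ℝ≥0∞) (M lam : ℝ≥0∞), ∑' x, μ x ≤ 1 →
    (∀ x, μ x ≤ M) → lam ≠ 0 → lam ≠ ⊤ → a + s ≤ lo → a' + s ≤ lo → hi + s ≤ a + h →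
    hi + s ≤ a' + h' → a ≤ a' → a + h ≤ a' + h' →
    ∑' x, μ x * ∑' L : List BX, ∑' L' : List BY, (if HT SX.ht L = h ∧ Dp SY.z L' ∈ E ∧
      HT SY.ht L' = h' ∧ Pcs SX SY lo hi L a L' a' x then LW SX.Λ L * LW SY.Λ L' else 0)
      ≤ C * (lam + M * E.card * us s / lam + us s)

end Crest.Agent.R154.Asm224
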