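import Crest.Agent.R154.AsmD_251
import Crest.Agent.R154.NumAsm_334

/-! Row 154, ROAD 801 (helper251): assembly, part E (one window, total). -/

set_option autoImplicit false

namespace Crest.Agent.R154.Asm251

open scoped ENNReal
open Crest.Agent.R154.B5A
open Crest.Agent.R154.KWB419 (TT)

variable {BX BY G : Type*} [AddCommGroup G]
  (ΛX : BX → ℝ≥0∞) (hX : BX → ℕ) (zX : BX → G) (sX : BX → Set (G × ℕ))
  (ΛY : BY → ℝ≥0∞) (hY : BY → ℕ) (zY : BY → G) (sY : BY → Set (G × ℕ))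

lemma Q4_A (h1X : ∀ b, 1 ≤ hX b) (hΛX : ∑' b, ΛX b = 1) (h1Y : ∀ b, 1 ≤ hY b)
    (hΛY : ∑' b, ΛY b = 1) (c T c' T' : ℕ) (f : List BX → ℝ≥0∞) :
    Q4 ΛX hX ΛY hY c T c' T' (fun A _ _ _ => f A) = PS ΛX hX c f := by
  simp only [Q4, PS_const ΛX hX h1X hΛX, PS_const ΛY hY h1Y hΛY]

lemma Q4_A' (h1X : ∀ b, 1 ≤ hX b) (hΛX : ∑' b, ΛX b = 1) (h1Y : ∀ b, 1 ≤ hY b)
    (hΛY : ∑' b, ΛY b = 1) (c T c' T' : ℕ) (f : List BY → ℝ≥0∞) :
    Q4 ΛX hX ΛY hY c T c' T' (fun _ _ A' _ => f A') = PS ΛY hY c' f := by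
  simp only [Q4, PS_const ΛX hX h1X hΛX, PS_const ΛY hY h1Y hΛY]

lemma Q4_PP (h1X : ∀ b, 1 ≤ hX b) (hΛX : ∑' b, ΛX b = 1) (h1Y : ∀ b, 1 ≤ hY b)
    (hΛY : ∑' b, ΛY b = 1) (c T c' T' : ℕ) (f : List BX → ℝ≥0∞) (g : List BY → ℝ≥0∞) :
    Q4 ΛX hX ΛY hY c T c' T' (fun _ P _ P' => f P * g P') = PS ΛX hX T f * PS ΛY hY T' g := by
  simp only [Q4, PS_mul]
  simp only [PS_const ΛY hY h1Y hΛY]
  have : (fun P : List BX => f P * PS ΛY hY T' g) = fun P => PS ΛY hY T' g * f P := by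
    funext P; ring
  rw [PS_const ΛX hX h1X hΛX, this, PS_mul, mul_comm]

/-- cost of one window -/
noncomputable def cost (us : ℕ → ℝ≥0∞) (C lam u ox oy : ℝ≥0∞) (J i0 s : ℕ) : ℝ≥0∞ :=
  2 * ox + 2 * oy + (u * u + (((1 - u) ^ J + J * ox) + ((i0 + 1 : ℕ) : ℝ≥0∞) ^ 4 *
    price us C lam J i0 s) + (((1 - u) ^ J + J * oy) + ((i0 + 1 : ℕ) : ℝ≥0∞) ^ 4 *
    price us C lam J i0 s))

section Win

variable (us : ℕ → ℝ≥0∞) (C : ℝ≥0∞)

open Classical in
theorem window (h1X : ∀ b, 1 ≤ hX b) (hΛX : ∑' b, ΛX b = 1) (h1Y : ∀ b, 1 ≤ hY b)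
    (hΛY : ∑' b, ΛY b = 1) (hsX : ∀ b q, q ∈ sX b → 1 ≤ q.2 ∧ q.2 ≤ hX b)
    (hsY : ∀ b q, q ∈ sY b → 1 ≤ q.2 ∧ q.2 ≤ hY b)
    (H2 : H2L ΛX hX zX sX ΛY hY zY sY us C) (H3 : H3L ΛX hX zX sX ΛY hY zY sY us C)
    (w : G) (n c t i0 s J : ℕ) (hn : c + 3 * t + 3 * i0 ≤ n) (hit : 2 * i0 ≤ t)
    (hs : s ≤ 3 * t) (hJ : J * (4 * t) ≤ c) (lam u : ℝ≥0∞) (l0 : lam ≠ 0) (l1 : lam ≠ ⊤)
    (u0 : u ≠ 0) (u1 : u < 1) :
    PS ΛX hX n (fun L => PS ΛY hY n (fun L' =>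
      if WE hX zX sX hY zY sY w c t i0 s L L' then 1 else 0))
      ≤ cost us C lam u (ov ΛX hX i0) (ov ΛY hY i0) J i0 s := by
  obtain ⟨tX, -, -, nlX, spX, fX⟩ := quant ΛX hX zX h1X hΛX (3 * t) u u0 u1
  obtain ⟨tY, -, -, nlY, spY, fY⟩ := quant ΛY hY zY h1Y hΛY (3 * t + i0) u u0 u1
  have hJ1 : J * (3 * t + i0) ≤ c := le_trans (Nat.mul_le_mul_left _ (by omega)) hJ
  have hJ2 : J * (3 * t + i0 + i0) ≤ c + i0 :=
    le_trans (le_trans (Nat.mul_le_mul_left _ (by omega)) hJ) (Nat.le_add_right _ _)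
  refine (two ΛX hX ΛY hY h1X hΛX h1Y hΛY n c (3 * t) (c + i0) (3 * t + i0) i0 (by omega)
    (by omega) _ (fun L L' => by split_ifs <;> simp)
    (fun A P A' P' => if Ev hX zX sX hY zY sY P P' (w + Dp zY A' - Dp zX A) (HT hX A) (HT hY A')
      (c + 2 * i0 + s) (c + 3 * t - s) then 1 else 0) ?_).trans ?_
  · intro A P R A' P' R' hA hP hAi hPi hA' hP' hAi' hPi'
    by_cases hW : WE hX zX sX hY zY sY w c t i0 s (A ++ (P ++ R)) (A' ++ (P' ++ R'))
    · rw [if_pos hW, if_pos]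
      exact contact hX zX sX hY zY sY hsX hsY w c t i0 s hit A P R A' P' R' (FP_le hX hA) hAi
        (FP_le hX hP) hPi (FP_le hY hA') hAi' (FP_le hY hP') hW
    · rw [if_neg hW]; exact zero_le
  rw [cost]
  refine add_le_add le_rfl ?_
  set R : Finset ℕ := Finset.range (i0 + 1) with hR
  set S : Finset (ℕ × ℕ × ℕ × ℕ) := R ×ˢ (R ×ˢ (R ×ˢ R)) with hS
  have hScard : (S.card : ℝ≥0∞) = ((i0 + 1 : ℕ) : ℝ≥0∞) ^ 4 := by
    rw [hS, Finset.card_product, Finset.card_product, Finset.card_product, hR, Finset.card_range]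
    push_cast; ring
  -- the five parts
  set nl : List BX → List BX → List BY → List BY → ℝ≥0∞ := fun _ P _ P' =>
    (if pp ΛX hX zX (3 * t) (HT hX P) (Dp zX P) < tX then 1 else 0) *
      (if pp ΛY hY zY (3 * t + i0) (HT hY P') (Dp zY P') < tY then 1 else 0) with hnl
  set nX : List BX → List BX → List BY → List BY → ℝ≥0∞ := fun A _ _ _ =>
    if Sm ΛX hX zX (3 * t) i0 tX J A then 0 else 1 with hnX
  set nY : List BX → List BX → List BY → List BY → ℝ≥0∞ := fun _ _ A' _ =>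
    if Sm ΛY hY zY (3 * t + i0) i0 tY J A' then 0 else 1 with hnY
  set fX2 : ℕ × ℕ × ℕ × ℕ → List BX → List BX → List BY → List BY → ℝ≥0∞ := fun i A P A' P' =>
      (if (Sm ΛX hX zX (3 * t) i0 tX J A ∧ HT hX A = c + i.1) ∧ HT hY A' = c + i0 + i.2.2.1
        then 1 else 0) *
      (if (HT hX P = 3 * t + i.2.1 ∧ tX ≤ pp ΛX hX zX (3 * t) (HT hX P) (Dp zX P)) ∧
        HT hY P' = 3 * t + i0 + i.2.2.2 ∧
        Ev hX zX sX hY zY sY P P' (w + Dp zY A' - Dp zX A) (c + i.1) (c + i0 + i.2.2.1)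
          (c + 2 * i0 + s) (c + 3 * t - s) then 1 else 0) with hfX2
  set fY3 : ℕ × ℕ × ℕ × ℕ → List BX → List BX → List BY → List BY → ℝ≥0∞ := fun i A P A' P' =>
      (if HT hX A = c + i.1 ∧ (Sm ΛY hY zY (3 * t + i0) i0 tY J A' ∧
        HT hY A' = c + i0 + i.2.2.1) then 1 else 0) *
      (if HT hX P = 3 * t + i.2.1 ∧ (HT hY P' = 3 * t + i0 + i.2.2.2 ∧
        tY ≤ pp ΛY hY zY (3 * t + i0) (HT hY P') (Dp zY P')) ∧
        Ev hX zX sX hY zY sY P P' (w + Dp zY A' - Dp zX A) (c + i.1) (c + i0 + i.2.2.1)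
          (c + 2 * i0 + s) (c + 3 * t - s) then 1 else 0) with hfY3
  have hpt : Q4 ΛX hX ΛY hY c (3 * t) (c + i0) (3 * t + i0) (fun A P A' P' =>
      if HT hX A ≤ c + i0 ∧ HT hX P ≤ 3 * t + i0 ∧ HT hY A' ≤ c + i0 + i0 ∧
        HT hY P' ≤ 3 * t + i0 + i0 then
        (if Ev hX zX sX hY zY sY P P' (w + Dp zY A' - Dp zX A) (HT hX A) (HT hY A')
          (c + 2 * i0 + s) (c + 3 * t - s) then 1 else 0) else 0)
      ≤ Q4 ΛX hX ΛY hY c (3 * t) (c + i0) (3 * t + i0) (fun A P A' P' =>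
        nl A P A' P' + (nX A P A' P' + ∑ i ∈ S, fX2 i A P A' P') +
          (nY A P A' P' + ∑ i ∈ S, fY3 i A P A' P')) := by
    refine Q4_mono _ _ _ _ fun A P A' P' hA hP hA' hP' => ?_
    by_cases h4 : HT hX A ≤ c + i0 ∧ HT hX P ≤ 3 * t + i0 ∧ HT hY A' ≤ c + i0 + i0 ∧
        HT hY P' ≤ 3 * t + i0 + i0
    swap
    · rw [if_neg h4]; exact zero_le
    rw [if_pos h4]
    by_cases hE : Ev hX zX sX hY zY sY P P' (w + Dp zY A' - Dp zX A) (HT hX A) (HT hY A')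
          (c + 2 * i0 + s) (c + 3 * t - s)
    swap
    · rw [if_neg hE]; exact zero_le
    rw [if_pos hE]
    obtain ⟨q1, q2, q3, q4⟩ := h4
    have a1 := FP_le hX hA
    have a2 := FP_le hX hP
    have a3 := FP_le hY hA'
    have a4 := FP_le hY hP'
    obtain ⟨i1, e1⟩ := Nat.exists_eq_add_of_le a1
    obtain ⟨i2, e2⟩ := Nat.exists_eq_add_of_le a2
    obtain ⟨i3, e3⟩ := Nat.exists_eq_add_of_le a3
    obtain ⟨i4, e4⟩ := Nat.exists_eq_add_of_le a4
    have hiS : (i1, i2, i3, i4) ∈ S := by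
      simp only [hS, hR, Finset.mem_product, Finset.mem_range]
      omega
    by_cases lX : pp ΛX hX zX (3 * t) (HT hX P) (Dp zX P) < tX
    · by_cases lY : pp ΛY hY zY (3 * t + i0) (HT hY P') (Dp zY P') < tY
      · refine le_trans ?_ (le_trans le_self_add le_self_add)
        simp only [hnl]
        rw [if_pos lX, if_pos lY, one_mul]
      · refine le_trans ?_ le_add_self
        by_cases sm : Sm ΛY hY zY (3 * t + i0) i0 tY J A'
        · refine le_trans ?_ le_add_self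
          refine le_trans ?_ (Finset.single_le_sum (f := fun i => fY3 i A P A' P')
            (fun _ _ => zero_le) hiS)
          simp only [hfY3]
          rw [← e1, ← e2, ← e3, ← e4]
          rw [if_pos ⟨rfl, sm, rfl⟩, if_pos ⟨rfl, ⟨rfl, not_lt.1 lY⟩, hE⟩, one_mul]
        · refine le_trans ?_ le_self_add
          simp only [hnY]
          rw [if_neg sm]
    · refine le_trans ?_ le_self_add
      refine le_trans ?_ le_add_self
      by_cases sm : Sm ΛX hX zX (3 * t) i0 tX J A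
      · refine le_trans ?_ le_add_self
        refine le_trans ?_ (Finset.single_le_sum (f := fun i => fX2 i A P A' P')
            (fun _ _ => zero_le) hiS)
        simp only [hfX2]
        rw [← e1, ← e2, ← e3, ← e4]
        rw [if_pos ⟨⟨sm, rfl⟩, rfl⟩, if_pos ⟨⟨rfl, not_lt.1 lX⟩, rfl, hE⟩, one_mul]
      · refine le_trans ?_ le_self_add
        simp only [hnX]
        rw [if_neg sm]
  refine hpt.trans ?_
  rw [Q4_add, Q4_add, Q4_add, Q4_add, Q4_sum, Q4_sum]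
  refine add_le_add (add_le_add ?_ (add_le_add ?_ ?_)) (add_le_add ?_ ?_)
  · rw [hnl, Q4_PP ΛX hX ΛY hY h1X hΛX h1Y hΛY]
    exact mul_le_mul' nlX nlY
  · rw [hnX, Q4_A ΛX hX ΛY hY h1X hΛX h1Y hΛY]
    exact nonsp ΛX hX zX h1X hΛX (3 * t) i0 tX (1 - u) tsub_le_self spX J c hJ1
  · calc _ ≤ ∑ i ∈ S, price us C lam J i0 s := by
          refine Finset.sum_le_sum fun i hi => ?_
          simp only [hS, hR, Finset.mem_product, Finset.mem_range] at hi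
          have := win2 ΛX hX zX sX ΛY hY zY sY us C h1X hΛX h1Y hΛY H2 w c t i0 s J hJ1 lam l0 l1
            tX fX (c + i.1) (3 * t + i.2.1) (c + i0 + i.2.2.1) (3 * t + i0 + i.2.2.2) (by omega)
            (by omega) (by omega)
          refine le_trans (le_of_eq ?_) this
          rw [hfX2]
      _ = _ := by rw [Finset.sum_const, nsmul_eq_mul, hScard]
  · rw [hnY, Q4_A' ΛX hX ΛY hY h1X hΛX h1Y hΛY]
    exact nonsp ΛY hY zY h1Y hΛY (3 * t + i0) i0 tY (1 - u) tsub_le_self spY J (c + i0) hJ2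
  · calc _ ≤ ∑ i ∈ S, price us C lam J i0 s := by
          refine Finset.sum_le_sum fun i hi => ?_
          simp only [hS, hR, Finset.mem_product, Finset.mem_range] at hi
          have := win3 ΛX hX zX sX ΛY hY zY sY us C h1X hΛX h1Y hΛY H3 w c t i0 s J hJ2 (by omega)
            lam l0 l1
            tY fY (c + i.1) (3 * t + i.2.1) (c + i0 + i.2.2.1) (3 * t + i0 + i.2.2.2) (by omega)
            (by omega)
          refine le_trans (le_of_eq ?_) this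
          rw [hfY3]
      _ = _ := by rw [Finset.sum_const, nsmul_eq_mul, hScard]

end Win

end Crest.Agent.R154.Asm251
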