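import Crest.Agent.R154.AsmD_262
import Crest.Agent.R154.KU_823

/-! Row 154 (helper262), ROAD 801: sum over the windows, constants. -/

set_option autoImplicit false

namespace Crest.Agent.R154.Asm262

open scoped ENNReal Topology
open Filter
open Crest.Agent.R154.B5A Crest.Agent.R154.FP178
open Crest.Agent.R154.Bind761 (TT)

section fin
variable {BX BY G : Type*} [AddCommGroup G]
  (ΛX : BX → ℝ≥0∞) (hX : BX → ℕ) (zX : BX → G) (sX : BX → Set (G × ℕ))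
  (ΛY : BY → ℝ≥0∞) (hY : BY → ℕ) (zY : BY → G) (sY : BY → Set (G × ℕ))

open Classical in
/-- slab input (`H5`) -/
def H5 : Prop := ∀ S : ℕ, ∀ η : ℝ≥0∞, η ≠ 0 → ∃ T : ℕ, ∀ a, T ≤ a → ∀ n, ∀ w : G,
  ∑' LX, ∑' LY, (if HT hX LX = n ∧ HT hY LY = n ∧
    (∃ y k, a ≤ k ∧ k < a + S ∧ Co hX zX sX hY zY sY LX 0 0 LY w 0 y k) then
      LW ΛX LX * LW ΛY LY else 0) ≤ η

/-- constants: `i0` -/
lemma over_small (Λ : BX → ℝ≥0∞) (ht : BX → ℕ) (h1 : ∀ b, 1 ≤ ht b) (hΛ : ∑' b, Λ b = 1)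
    (hE : ∑' b, Λ b * (ht b : ℝ≥0∞) ≠ ⊤) (η : ℝ≥0∞) (hη : η ≠ 0) :
    ∃ N : ℕ, ∀ i0, N ≤ i0 → ∀ a, ∑' L, (open Classical in
      if fp ht a L ∧ a + i0 < HT ht L then LW Λ L else 0) ≤ η := by
  have hsum : ∑' k, tail Λ ht k ≠ ⊤ := by rw [← sum_tail Λ ht hΛ]; exact hE
  have ht0 : Tendsto (fun i0 : ℕ => ∑' k : ℕ, tail Λ ht (k + i0)) atTop (𝓝 0) :=
    ENNReal.tendsto_sum_nat_add _ hsum
  obtain ⟨N, hN⟩ := eventually_atTop.1 (ht0.eventually_le_const (pos_iff_ne_zero.2 hη))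
  refine ⟨N, fun i0 hi a => ?_⟩
  refine (overshoot Λ ht h1 (U_le_one Λ ht h1 hΛ) i0 a).trans ?_
  refine le_trans (le_of_eq ?_) (hN i0 hi)
  exact tsum_congr fun k => by rw [add_comm]

open Classical in
/-- covering by windows -/
lemma cover (K t m n S : ℕ) (hK : m ≤ (K + 1) * t) (w : G)
    (W SL : ℝ≥0∞)
    (hW : ∀ q, q ≤ K → ∑' LX, ∑' LY, (if HT hX LX = n ∧ HT hY LY = n ∧
      EV hX zX sX hY zY sY (m + q * t) t S w LX LY then LW ΛX LX * LW ΛY LY else 0) ≤ W)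
    (hSL : ∀ q, q ≤ K → ∑' LX, ∑' LY, (if HT hX LX = n ∧ HT hY LY = n ∧
      (∃ y k, m + q * t + t + 1 ≤ k ∧ k < m + q * t + t + 1 + S ∧
        Co hX zX sX hY zY sY LX 0 0 LY w 0 y k) then LW ΛX LX * LW ΛY LY else 0) ≤ SL) :
    ∑' LX, ∑' LY, (if HT hX LX = n ∧ HT hY LY = n ∧
        (∀ y k, Co hX zX sX hY zY sY LX 0 0 LY w 0 y k → m < k) ∧
        (∃ y k, Co hX zX sX hY zY sY LX 0 0 LY w 0 y k ∧ k ≤ 2 * m) then
        LW ΛX LX * LW ΛY LY else 0) ≤ ((K + 1 : ℕ) : ℝ≥0∞) * (W + SL) := by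
  have hpt : ∀ LX LY, (if HT hX LX = n ∧ HT hY LY = n ∧
        (∀ y k, Co hX zX sX hY zY sY LX 0 0 LY w 0 y k → m < k) ∧
        (∃ y k, Co hX zX sX hY zY sY LX 0 0 LY w 0 y k ∧ k ≤ 2 * m) then
        LW ΛX LX * LW ΛY LY else 0) ≤ ∑ q ∈ Finset.range (K + 1),
        ((if HT hX LX = n ∧ HT hY LY = n ∧
      EV hX zX sX hY zY sY (m + q * t) t S w LX LY then LW ΛX LX * LW ΛY LY else 0) +
      (if HT hX LX = n ∧ HT hY LY = n ∧
      (∃ y k, m + q * t + t + 1 ≤ k ∧ k < m + q * t + t + 1 + S ∧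
        Co hX zX sX hY zY sY LX 0 0 LY w 0 y k) then LW ΛX LX * LW ΛY LY else 0)) := by
    intro LX LY
    split_ifs with h
    · obtain ⟨h1, h2, h3, h4⟩ := h
      -- first contact depth
      have hex : ∃ k, ∃ y, Co hX zX sX hY zY sY LX 0 0 LY w 0 y k := by
        obtain ⟨y, k, hk, _⟩ := h4
        exact ⟨k, y, hk⟩
      obtain ⟨y0, hy0⟩ := Nat.find_spec hex
      set k0 := Nat.find hex with hk0
      have hmin : ∀ y k, Co hX zX sX hY zY sY LX 0 0 LY w 0 y k → k0 ≤ k :=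
        fun y k hk => Nat.find_min' hex ⟨y, hk⟩
      have hk0m : m < k0 := h3 y0 k0 hy0
      have hk02 : k0 ≤ 2 * m := by
        obtain ⟨y, k, hk, hk2⟩ := h4
        exact (hmin y k hk).trans hk2
      have htpos : 0 < t := by
        rcases Nat.eq_zero_or_pos t with h | h
        · rw [h] at hK; omega
        · exact h
      set q := (k0 - m - 1) / t with hq
      have hq1 : q * t ≤ k0 - m - 1 := Nat.div_mul_le_self _ _
      have hq2 : k0 - m - 1 < (q + 1) * t := by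
        have := Nat.lt_div_mul_add (a := k0 - m - 1) htpos
        rw [← hq] at this
        rw [add_mul, one_mul]; exact this
      have hqK : q < K + 1 := by
        rw [hq]
        refine (Nat.div_lt_iff_lt_mul htpos).2 ?_
        omega
      have hq3 : (q + 1) * t = q * t + t := by ring
      refine le_trans ?_ (Finset.single_le_sum (f := fun q => ((if HT hX LX = n ∧ HT hY LY = n ∧
      EV hX zX sX hY zY sY (m + q * t) t S w LX LY then LW ΛX LX * LW ΛY LY else 0) +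
      (if HT hX LX = n ∧ HT hY LY = n ∧
      (∃ y k, m + q * t + t + 1 ≤ k ∧ k < m + q * t + t + 1 + S ∧
        Co hX zX sX hY zY sY LX 0 0 LY w 0 y k) then LW ΛX LX * LW ΛY LY else 0)))
        (fun _ _ => zero_le) (Finset.mem_range.2 hqK))
      by_cases h5 : ∃ y k, m + q * t + t + 1 ≤ k ∧ k < m + q * t + t + 1 + S ∧
        Co hX zX sX hY zY sY LX 0 0 LY w 0 y k
      · rw [if_pos (show HT hX LX = n ∧ HT hY LY = n ∧ (∃ y k, m + q * t + t + 1 ≤ k ∧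
          k < m + q * t + t + 1 + S ∧ Co hX zX sX hY zY sY LX 0 0 LY w 0 y k) from ⟨h1, h2, h5⟩)]
        exact le_add_self
      · have hEV : EV hX zX sX hY zY sY (m + q * t) t S w LX LY := by
          refine ⟨fun y k hk => ⟨?_, ?_⟩, ⟨y0, k0, hy0, by omega⟩⟩
          · have := hmin y k hk; omega
          · intro hcon
            exact h5 ⟨y, k, by omega, by omega, hk⟩
        rw [if_pos (show HT hX LX = n ∧ HT hY LY = n ∧
          EV hX zX sX hY zY sY (m + q * t) t S w LX LY from ⟨h1, h2, hEV⟩)]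
        exact le_self_add
    · exact zero_le
  calc _ ≤ ∑' LX, ∑' LY, ∑ q ∈ Finset.range (K + 1),
        ((if HT hX LX = n ∧ HT hY LY = n ∧
      EV hX zX sX hY zY sY (m + q * t) t S w LX LY then LW ΛX LX * LW ΛY LY else 0) +
      (if HT hX LX = n ∧ HT hY LY = n ∧
      (∃ y k, m + q * t + t + 1 ≤ k ∧ k < m + q * t + t + 1 + S ∧
        Co hX zX sX hY zY sY LX 0 0 LY w 0 y k) then LW ΛX LX * LW ΛY LY else 0)) :=
        ENNReal.tsum_le_tsum fun LX => ENNReal.tsum_le_tsum fun LY => hpt LX LY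
    _ = ∑ q ∈ Finset.range (K + 1), ((∑' LX, ∑' LY, (if HT hX LX = n ∧ HT hY LY = n ∧
      EV hX zX sX hY zY sY (m + q * t) t S w LX LY then LW ΛX LX * LW ΛY LY else 0)) +
      ∑' LX, ∑' LY, (if HT hX LX = n ∧ HT hY LY = n ∧
      (∃ y k, m + q * t + t + 1 ≤ k ∧ k < m + q * t + t + 1 + S ∧
        Co hX zX sX hY zY sY LX 0 0 LY w 0 y k) then LW ΛX LX * LW ΛY LY else 0)) := by
        simp_rw [Summable.tsum_finsetSum (fun _ _ => ENNReal.summable), ENNReal.tsum_add]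
    _ ≤ ∑ q ∈ Finset.range (K + 1), (W + SL) := by
        refine Finset.sum_le_sum fun q hq => ?_
        have hq' : q ≤ K := by have := Finset.mem_range.1 hq; omega
        exact add_le_add (hW q hq') (hSL q hq')
    _ = _ := by rw [Finset.sum_const, Finset.card_range, nsmul_eq_mul]

open Classical in
/-- **KAPPA' IN LISTS** -/
theorem kapS (C : ℕ → ℝ≥0∞) (hC : ∀ i, C i ≠ ⊤) (us : ℕ → ℕ → ℝ≥0∞)
    (hus : ∀ i, Tendsto (us i) atTop (𝓝 0))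
    (H2 : HW ΛX hX zX sX ΛY hY zY sY C us (fun E L _ => Dp zX L ∈ E))
    (H3 : HW ΛX hX zX sX ΛY hY zY sY C us (fun E _ L' => Dp zY L' ∈ E))
    (H5 : H5 ΛX hX zX sX ΛY hY zY sY)
    (hX1 : ∀ b, 1 ≤ hX b) (hΛX : ∑' b, ΛX b = 1) (hEX : ∑' b, ΛX b * (hX b : ℝ≥0∞) ≠ ⊤)
    (hY1 : ∀ b, 1 ≤ hY b) (hΛY : ∑' b, ΛY b = 1) (hEY : ∑' b, ΛY b * (hY b : ℝ≥0∞) ≠ ⊤)
    (hsX : ∀ b p, p ∈ sX b → 1 ≤ p.2 ∧ p.2 ≤ hX b)
    (hsY : ∀ b p, p ∈ sY b → 1 ≤ p.2 ∧ p.2 ≤ hY b) (ε : ℝ≥0∞) (hε : ε ≠ 0) :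
    ∃ M : ℕ, ∀ m, M ≤ m → ∃ n0, ∀ n, n0 ≤ n → ∀ w : G,
      ∑' LX, ∑' LY, (if HT hX LX = n ∧ HT hY LY = n ∧
        (∀ y k, Co hX zX sX hY zY sY LX 0 0 LY w 0 y k → m < k) ∧
        (∃ y k, Co hX zX sX hY zY sY LX 0 0 LY w 0 y k ∧ k ≤ 2 * m) then
        LW ΛX LX * LW ΛY LY else 0) ≤ ε := by
  obtain ⟨ε1, h10, h1t, h8⟩ : ∃ ε1 : ℝ≥0∞, ε1 ≠ 0 ∧ ε1 ≠ ⊤ ∧ 8 * ε1 ≤ ε := by
    refine ⟨min ε 1 / 8, ?_, ?_, ?_⟩
    · exact ENNReal.div_ne_zero.2 ⟨(lt_min (pos_iff_ne_zero.2 hε) one_pos).ne', by norm_num⟩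
    · exact ENNReal.div_ne_top (ne_top_of_le_ne_top ENNReal.one_ne_top (min_le_right _ _))
        (by norm_num)
    · rw [ENNReal.mul_div_cancel (by norm_num) (by norm_num)]
      exact min_le_left _ _
  obtain ⟨K, u0, hK1, hK1', hK2, hu00, hu01, hKu, hKJ⟩ :=
    KU823.exists_Ku 1 2 (by norm_num) ε1 h10 1
  set u := u0 / 2 with hu
  set J := K / 2 with hJ
  have hu_ne : u ≠ 0 := ENNReal.div_ne_zero.2 ⟨hu00, by norm_num⟩
  have hu_lt : u < 1 := by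
    calc u ≤ 1 / 2 := by rw [hu]; gcongr
      _ < 1 := by rw [one_div]; exact ENNReal.inv_lt_one.2 (by norm_num)
  have hu_le : u ≤ u0 := ENNReal.div_le_of_le_mul (by
    calc u0 = u0 * 1 := (mul_one _).symm
      _ ≤ u0 * 2 := by gcongr; norm_num)
  -- delta
  set N1 : ℝ≥0∞ := ((K : ℝ≥0∞) + 1) * (4 + 2 * J) with hN1
  have hN1t : N1 ≠ ⊤ := by
    rw [hN1]
    exact ENNReal.mul_ne_top (by simp) (ENNReal.add_ne_top.2 ⟨by norm_num,
      ENNReal.mul_ne_top (by norm_num) (ENNReal.natCast_ne_top _)⟩)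
  have hN10 : N1 ≠ 0 := by
    rw [hN1]
    refine mul_ne_zero (by simp) ?_
    simp
  set δ := ε1 / N1 with hδ
  have hδ0 : δ ≠ 0 := ENNReal.div_ne_zero.2 ⟨h10, hN1t⟩
  obtain ⟨NX, hNX⟩ := over_small ΛX hX hX1 hΛX hEX δ hδ0
  obtain ⟨NY, hNY⟩ := over_small ΛY hY hY1 hΛY hEY δ hδ0
  set i0 := max NX NY with hi0
  -- lam
  set A : ℝ≥0∞ := ((K : ℝ≥0∞) + 1) * (2 * (((i0 + 1 : ℕ) * (i0 + 1 : ℕ)) *
    (((i0 + 1 : ℕ) * (i0 + 1 : ℕ)) * C (2 * i0)))) with hA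
  have hAt : A ≠ ⊤ := by
    rw [hA]
    have hn : ((i0 + 1 : ℕ) : ℝ≥0∞) ≠ ⊤ := ENNReal.natCast_ne_top _
    have hnn := ENNReal.mul_ne_top hn hn
    exact ENNReal.mul_ne_top (by simp) (ENNReal.mul_ne_top (by norm_num)
      (ENNReal.mul_ne_top hnn (ENNReal.mul_ne_top hnn (hC _))))
  set lam := ε1 / (A + 1) with hlam
  have hl0 : lam ≠ 0 := ENNReal.div_ne_zero.2 ⟨h10, by simp [hAt]⟩
  have hlt : lam ≠ ⊤ := ENNReal.div_ne_top h1t (by simp)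
  have hAlam : A * lam ≤ ε1 := by
    calc A * lam ≤ (A + 1) * lam := by gcongr; exact le_self_add
      _ = ε1 := by rw [hlam]; exact ENNReal.mul_div_cancel (by simp) (by simp [hAt])
  -- s
  set A2 : ℝ≥0∞ := A * ((i0 + 1 : ℕ) / u / lam + 1) with hA2
  have hA2t : A2 ≠ ⊤ := by
    rw [hA2]
    refine ENNReal.mul_ne_top hAt (ENNReal.add_ne_top.2 ⟨?_, ENNReal.one_ne_top⟩)
    exact ENNReal.div_ne_top (ENNReal.div_ne_top (ENNReal.natCast_ne_top _) hu_ne) hl0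
  obtain ⟨s, _, hs⟩ := KU823.exists_small (us (2 * i0)) (hus _) A2 hA2t ε1 h10 0
  have hs' := hs s le_rfl
  set S := s + 2 * i0 with hS
  obtain ⟨T5, hT5⟩ := H5 S (ε1 / ((K : ℝ≥0∞) + 1)) (ENNReal.div_ne_zero.2 ⟨h10, by simp⟩)
  refine ⟨max T5 (max (K * K) (2 * (J * (2 * i0 + 2 * s) + i0 + s))), fun m hm => ?_⟩
  have hm1 : T5 ≤ m := (le_max_left _ _).trans hm
  have hm2 : K * K ≤ m := ((le_max_left _ _).trans (le_max_right _ _)).trans hm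
  have hm3 : 2 * (J * (2 * i0 + 2 * s) + i0 + s) ≤ m :=
    ((le_max_right _ _).trans (le_max_right _ _)).trans hm
  set t := m / K with ht
  have hKt : K * t ≤ m := Nat.mul_div_le m K
  have hKt2 : m < K * t + K := by
    have := Nat.lt_div_mul_add (a := m) (b := K) (by omega)
    rw [← ht] at this
    linarith [mul_comm t K]
  have htK : K ≤ t := by
    rw [ht]; exact (Nat.le_div_iff_mul_le (by omega)).2 hm2
  refine ⟨3 * m + s + i0, fun n hn w => ?_⟩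
  have hJK : 2 * J ≤ K := by rw [hJ]; omega
  have hJt : 2 * (J * t) ≤ m := by
    calc 2 * (J * t) = (2 * J) * t := by ring
      _ ≤ K * t := Nat.mul_le_mul_right _ hJK
      _ ≤ m := hKt
  have htm : t ≤ m := Nat.div_le_self _ _
  have hwin := window ΛX hX zX sX ΛY hY zY sY C us H2 H3 hX1 hΛX hY1 hΛY hsX hsY i0 s u δ lam
    hu_ne hu_lt hl0 hlt (fun a => hNX i0 (le_max_left _ _) a)
    (fun a => hNY i0 (le_max_right _ _) a) (t + i0 + 2 * s)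
  have hKc : ((K + 1 : ℕ) : ℝ≥0∞) = (K : ℝ≥0∞) + 1 := by push_cast; rfl
  set R : ℝ≥0∞ := 4 * δ + (u ^ 2 +
      (2 * (((i0 + 1 : ℕ) * (i0 + 1 : ℕ)) * (((i0 + 1 : ℕ) * (i0 + 1 : ℕ)) *
        (C (2 * i0) * (lam + ((i0 + 1 : ℕ) / u) * us (2 * i0) s / lam + us (2 * i0) s))))
        + 2 * ((1 - u) ^ J + J * δ))) with hR
  have hmK : m ≤ (K + 1) * t := by
    have : (K + 1) * t = K * t + t := by ring
    omega
  refine (cover ΛX hX zX sX ΛY hY zY sY K t m n S hmK w R (ε1 / ((K : ℝ≥0∞) + 1))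
    (fun q hq => ?_) (fun q hq => ?_)).trans ?_
  · have hqt : q * t ≤ m := (Nat.mul_le_mul_right t hq).trans hKt
    refine hwin (m + q * t) t S (m + q * t - i0 - s) n J w (by omega) (by omega) (by omega)
      (by omega) ?_
    have : J * (t + i0 + 2 * s + i0) = J * t + J * (2 * i0 + 2 * s) := by ring
    rw [this]
    omega
  · exact hT5 _ (by omega) n w
  · rw [hKc]
    have t1 : ((K : ℝ≥0∞) + 1) * (4 * δ + 2 * (J * δ)) ≤ ε1 := by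
      have : ((K : ℝ≥0∞) + 1) * (4 * δ + 2 * (J * δ)) = N1 * δ := by rw [hN1]; ring
      rw [this, hδ, ENNReal.mul_div_cancel hN10 hN1t]
    have t2 : ((K : ℝ≥0∞) + 1) * u ^ 2 ≤ ε1 := by
      refine le_trans ?_ (by simpa using hKu)
      gcongr
    have t3 : ((K : ℝ≥0∞) + 1) * (2 * (1 - u) ^ J) ≤ 2 * ε1 := by
      calc ((K : ℝ≥0∞) + 1) * (2 * (1 - u) ^ J) = 2 * (((K : ℝ≥0∞) + 1) * (1 - u) ^ J) := by ring
        _ ≤ 2 * ε1 := by gcongr; simpa using hKJ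
    have t4 : ((K : ℝ≥0∞) + 1) * (2 * (((i0 + 1 : ℕ) * (i0 + 1 : ℕ)) *
        (((i0 + 1 : ℕ) * (i0 + 1 : ℕ)) *
        (C (2 * i0) * (lam + ((i0 + 1 : ℕ) / u) * us (2 * i0) s / lam + us (2 * i0) s)))))
        ≤ 2 * ε1 := by
      have : ((K : ℝ≥0∞) + 1) * (2 * (((i0 + 1 : ℕ) * (i0 + 1 : ℕ)) *
        (((i0 + 1 : ℕ) * (i0 + 1 : ℕ)) *
        (C (2 * i0) * (lam + ((i0 + 1 : ℕ) / u) * us (2 * i0) s / lam + us (2 * i0) s)))))
          = A * lam + A2 * us (2 * i0) s := by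
        rw [hA2, hA]
        simp only [div_eq_mul_inv]
        ring
      rw [this, two_mul ε1]
      exact add_le_add hAlam hs'
    have t5 : ((K : ℝ≥0∞) + 1) * (ε1 / ((K : ℝ≥0∞) + 1)) ≤ ε1 := by
      rw [ENNReal.mul_div_cancel (by simp) (by simp)]
    calc ((K : ℝ≥0∞) + 1) * (R + ε1 / ((K : ℝ≥0∞) + 1))
        = ((K : ℝ≥0∞) + 1) * (4 * δ + 2 * (J * δ)) + ((K : ℝ≥0∞) + 1) * u ^ 2 +
          ((K : ℝ≥0∞) + 1) * (2 * (1 - u) ^ J) +
          ((K : ℝ≥0∞) + 1) * (2 * (((i0 + 1 : ℕ) * (i0 + 1 : ℕ)) *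
        (((i0 + 1 : ℕ) * (i0 + 1 : ℕ)) *
        (C (2 * i0) * (lam + ((i0 + 1 : ℕ) / u) * us (2 * i0) s / lam + us (2 * i0) s))))) +
          ((K : ℝ≥0∞) + 1) * (ε1 / ((K : ℝ≥0∞) + 1)) := by
          rw [hR]; ring
      _ ≤ ε1 + ε1 + 2 * ε1 + 2 * ε1 + ε1 := by gcongr
      _ = 7 * ε1 := by ring
      _ ≤ 8 * ε1 := by gcongr; norm_num
      _ ≤ ε := h8

end fin

end Crest.Agent.R154.Asm262
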