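import Crest.Agent.R154.AsmD_307
import Crest.Agent.R154.Dens_903
import Crest.Agent.R154.Num_869

set_option autoImplicit false

namespace Crest.Agent.R154.Asm307

open scoped ENNReal Topology
open Filter
open Crest.Agent.R154.B5A
open Crest.Agent.R154.Bind12 (TT)

variable {BX BY G : Type*} [AddCommGroup G] (ΛX : BX → ℝ≥0∞) (ΛY : BY → ℝ≥0∞)
  (hX : BX → ℕ) (hY : BY → ℕ) (zX : BX → G) (zY : BY → G)
  (sX : BX → Set (G × ℕ)) (sY : BY → Set (G × ℕ))

open Classical in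
/-- one window, lists to pieces -/
lemma win_pieces (h1X : ∀ b, 1 ≤ hX b) (hΛX : ∑' b, ΛX b = 1) (h1Y : ∀ b, 1 ≤ hY b) (hΛY : ∑' b, ΛY b = 1)
    (hsX : ∀ b q, q ∈ sX b → 1 ≤ q.2 ∧ q.2 ≤ hX b)
    (hsY : ∀ b q, q ∈ sY b → 1 ≤ q.2 ∧ q.2 ≤ hY b) (w : G) (a T i0 s lo hi n : ℕ)
    (hlo : lo = a + 3 * i0 + s) (hs : 1 ≤ s) (hhi : hi + s = a + T) (hn : a + 2 * i0 + i0 + T ≤ n) :
    ∑' L : List BX, ∑' L' : List BY, (if HT hX L = n ∧ HT hY L' = n ∧
        Ev hX hY zX zY sX sY w a T i0 lo hi L L' then LW ΛX L * LW ΛY L' else 0)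
      ≤ 2 * ep ΛX hX i0 + 2 * ep ΛY hY i0 +
      ∑' A : List BX, ∑' A' : List BY, (if (FP hX A a ∧ HT hX A ≤ a + i0) ∧ (FP hY A' (a + 2 * i0) ∧ HT hY A' ≤ a + 2 * i0 + i0)
      then LW ΛX A * LW ΛY A' * Ψt ΛX ΛY hX hY zX zY sX sY T i0 lo hi (HT hX A) (HT hY A') (w + Dp zY A' - Dp zX A) else 0) := by
  have hpt : ∀ (L : List BX) (L' : List BY), (if HT hX L = n ∧ HT hY L' = n ∧
        Ev hX hY zX zY sX sY w a T i0 lo hi L L' then LW ΛX L * LW ΛY L' else 0)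
      ≤ (if HT hX L = n ∧ ¬ Nov hX a T i0 L then LW ΛX L else 0) * (if HT hY L' = n then LW ΛY L' else 0)
        + (if HT hX L = n then LW ΛX L else 0) * (if HT hY L' = n ∧ ¬ Nov hY (a + 2 * i0) T i0 L' then LW ΛY L' else 0)
        + (if HT hX L = n ∧ Nov hX a T i0 L then
            (if HT hY L' = n ∧ Nov hY (a + 2 * i0) T i0 L' then
              (if Ev hX hY zX zY sX sY w a T i0 lo hi L L' then LW ΛX L * LW ΛY L' else 0) else 0) else 0) := by
    intro L L'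
    by_cases hc : HT hX L = n ∧ HT hY L' = n ∧ Ev hX hY zX zY sX sY w a T i0 lo hi L L'
    · obtain ⟨c1, c2, c3⟩ := hc
      by_cases n1 : Nov hX a T i0 L
      · by_cases n2 : Nov hY (a + 2 * i0) T i0 L'
        · simp [c1, c2, c3, n1, n2]
        · simp [c1, c2, c3, n1, n2]
      · simp only [c1, c2, c3, n1, if_true, not_false_eq_true, and_self]
        exact le_trans le_self_add le_self_add
    · rw [if_neg hc]; exact zero_le'
  refine le_trans (ENNReal.tsum_le_tsum fun L => ENNReal.tsum_le_tsum fun L' => hpt L L') ?_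
  simp only [ENNReal.tsum_add]
  refine add_le_add (add_le_add ?_ ?_) ?_
  · simp only [ENNReal.tsum_mul_left, ENNReal.tsum_mul_right]
    calc _ ≤ (2 * ep ΛX hX i0) * 1 := by
          gcongr
          · exact ov2 ΛX hX h1X hΛX a T i0 n (by omega)
          · exact U_le ΛY hY h1Y hΛY n
      _ = _ := mul_one _
  · simp only [ENNReal.tsum_mul_left, ENNReal.tsum_mul_right]
    calc _ ≤ 1 * (2 * ep ΛY hY i0) := by
          gcongr
          · exact U_le ΛX hX h1X hΛX n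
          · exact ov2 ΛY hY h1Y hΛY (a + 2 * i0) T i0 n (by omega)
      _ = _ := one_mul _
  · -- main
    set Φ : List BX → List BX → ℝ≥0∞ := fun A P => ∑' A' : List BY, ∑' P' : List BY,
      if (FP hY A' (a + 2 * i0) ∧ HT hY A' ≤ a + 2 * i0 + i0) ∧ (FP hY P' T ∧ HT hY P' ≤ T + i0) then
        LW ΛY A' * LW ΛY P' * (if EvP hX hY zX zY sX sY lo hi P P' (w + Dp zY A' - Dp zX A) (HT hX A) (HT hY A') then 1 else 0) else 0 with hΦ
    have key := three ΛX hX h1X hΛX a T i0 n (by omega)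
      (fun L => ∑' L' : List BY, (if HT hY L' = n ∧ Nov hY (a + 2 * i0) T i0 L' then
              (if Ev hX hY zX zY sX sY w a T i0 lo hi L L' then LW ΛX L * LW ΛY L' else 0) else 0)) Φ (by
      intro A P R hA hA2 hP hP2
      have key2 := three ΛY hY h1Y hΛY (a + 2 * i0) T i0 n (by omega)
        (fun L' => if Ev hX hY zX zY sX sY w a T i0 lo hi (A ++ (P ++ R)) L' then LW ΛX (A ++ (P ++ R)) * LW ΛY L' else 0)
        (fun A' P' => LW ΛX (A ++ (P ++ R)) * (if EvP hX hY zX zY sX sY lo hi P P' (w + Dp zY A' - Dp zX A) (HT hX A) (HT hY A') then 1 else 0)) (by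
        intro A' P' R' hA' hA2' hP' hP2'
        by_cases he : Ev hX hY zX zY sX sY w a T i0 lo hi (A ++ (P ++ R)) (A' ++ (P' ++ R'))
        · have := ev_imp hX hY zX zY sX sY hsX hsY w a T i0 s lo hi hlo hs hhi A P R A' P' R' hA hA2 hP hP2
            hA' hA2' hP' he
          simp only [he, this, if_true, mul_one]
          rw [mul_comm]
        · simp only [he, if_false]; exact zero_le')
      refine le_trans key2 (le_of_eq ?_)
      rw [hΦ]
      simp only [← ENNReal.tsum_mul_left]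
      refine tsum_congr fun A' => tsum_congr fun P' => ?_
      by_cases hc : (FP hY A' (a + 2 * i0) ∧ HT hY A' ≤ a + 2 * i0 + i0) ∧ (FP hY P' T ∧ HT hY P' ≤ T + i0)
      · rw [if_pos hc, if_pos hc]; ring
      · rw [if_neg hc, if_neg hc, mul_zero])
    refine le_trans (le_of_eq ?_) (le_trans key (le_of_eq ?_))
    · refine tsum_congr fun L => ?_
      by_cases hc : HT hX L = n ∧ Nov hX a T i0 L
      · simp only [if_pos hc]
      · simp only [if_neg hc, tsum_zero]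
    · refine tsum_congr fun A => ?_
      -- swap
      have e1 : ∀ P : List BX, (if (FP hX A a ∧ HT hX A ≤ a + i0) ∧ (FP hX P T ∧ HT hX P ≤ T + i0) then
          LW ΛX A * LW ΛX P * Φ A P else 0) = ∑' A' : List BY, ∑' P' : List BY,
          (if (FP hX A a ∧ HT hX A ≤ a + i0) ∧ (FP hX P T ∧ HT hX P ≤ T + i0) then
          LW ΛX A * LW ΛX P * (if (FP hY A' (a + 2 * i0) ∧ HT hY A' ≤ a + 2 * i0 + i0) ∧ (FP hY P' T ∧ HT hY P' ≤ T + i0) then
        LW ΛY A' * LW ΛY P' * (if EvP hX hY zX zY sX sY lo hi P P' (w + Dp zY A' - Dp zX A) (HT hX A) (HT hY A') then 1 else 0) else 0) else 0) := by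
        intro P
        by_cases hc : (FP hX A a ∧ HT hX A ≤ a + i0) ∧ (FP hX P T ∧ HT hX P ≤ T + i0)
        · simp only [if_pos hc, hΦ, ← ENNReal.tsum_mul_left]
        · simp only [if_neg hc, tsum_zero]
      simp only [e1]
      rw [ENNReal.tsum_comm]
      refine tsum_congr fun A' => ?_
      by_cases hA : (FP hX A a ∧ HT hX A ≤ a + i0) ∧ (FP hY A' (a + 2 * i0) ∧ HT hY A' ≤ a + 2 * i0 + i0)
      · rw [if_pos hA, Ψt]
        simp only [← ENNReal.tsum_mul_left]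
        refine tsum_congr fun P => tsum_congr fun P' => ?_
        by_cases h1 : FP hX P T ∧ HT hX P ≤ T + i0
        · by_cases h2 : FP hY P' T ∧ HT hY P' ≤ T + i0
          · by_cases h3 : EvP hX hY zX zY sX sY lo hi P P' (w + Dp zY A' - Dp zX A) (HT hX A) (HT hY A')
            · rw [if_pos ⟨hA.1, h1⟩, if_pos ⟨hA.2, h2⟩, if_pos h3, if_pos ⟨h1, h2, h3⟩]; ring
            · rw [if_pos ⟨hA.1, h1⟩, if_pos ⟨hA.2, h2⟩, if_neg h3, if_neg (fun h => h3 h.2.2)]; simp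
          · rw [if_pos ⟨hA.1, h1⟩, if_neg (fun h => h2 h.2), if_neg (fun h => h2 h.2.1)]; simp
        · rw [if_neg (fun h => h1 h.2), if_neg (fun h => h1 h.1)]; simp
      · rw [if_neg hA]
        refine ENNReal.tsum_eq_zero.2 fun P => ENNReal.tsum_eq_zero.2 fun P' => ?_
        by_cases h1 : FP hX A a ∧ HT hX A ≤ a + i0
        · have h2 : ¬ (FP hY A' (a + 2 * i0) ∧ HT hY A' ≤ a + 2 * i0 + i0) := fun h => hA ⟨h1, h⟩
          by_cases h3 : FP hX P T ∧ HT hX P ≤ T + i0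
          · rw [if_pos ⟨h1, h3⟩, if_neg (fun h => h2 h.1), mul_zero]
          · rw [if_neg (fun h => h3 h.2)]
        · rw [if_neg (fun h => h1 h.1)]

/-- quantile + good / bad for one walker -/
lemma one_walker {B : Type*} (Λ : B → ℝ≥0∞) (ht : B → ℕ) (h1 : ∀ b, 1 ≤ ht b) (hΛ : ∑' b, Λ b = 1)
    (z : B → G) (T i0 J : ℕ) (u : ℝ≥0∞) (hu0 : u ≠ 0) (hu1 : u ≤ 1) :
    ∃ th Gd : ℝ≥0∞, th ≠ 0 ∧ (∀ c : ℝ≥0∞, th * c ≤ 1 → Gd * c ≤ ((i0 + 1 : ℕ) : ℝ≥0∞) / u) ∧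
      ∑' h, ∑' g, (if V Λ ht z T h g < th then V Λ ht z T h g else 0) ≤ u ∧
      ∀ a, J * (T + i0) ≤ a → ∃ b : ℕ → G → ℝ≥0∞, (∀ h g, V Λ ht z a h g ≤ Gd + b h g) ∧
        ∑' h, ∑' g, b h g ≤ (1 - u) ^ J + J * ep Λ ht i0 := by
  classical
  have hsum : ∑' x : ℕ × G, V Λ ht z T x.1 x.2 = 1 := by
    rw [ENNReal.tsum_prod (f := fun h g => V Λ ht z T h g)]
    exact V_mass Λ ht h1 hΛ z T
  obtain ⟨th, hth0, hth1, hq1, hq2⟩ := Dens903.quantile (fun x : ℕ × G => V Λ ht z T x.1 x.2) hsum hu0 hu1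
  rw [ENNReal.tsum_prod (f := fun h g => if V Λ ht z T h g < th then V Λ ht z T h g else 0)] at hq1
  have hut : u ≠ ⊤ := ne_top_of_le_ne_top ENNReal.one_ne_top hu1
  refine ⟨th, ((i0 + 1 : ℕ) : ℝ≥0∞) * th / u, hth0, ?_, hq1, ?_⟩
  · intro c hc
    calc ((i0 + 1 : ℕ) : ℝ≥0∞) * th / u * c = ((i0 + 1 : ℕ) : ℝ≥0∞) / u * (th * c) := by
          rw [div_eq_mul_inv, div_eq_mul_inv]; ring
      _ ≤ ((i0 + 1 : ℕ) : ℝ≥0∞) / u * 1 := by gcongr
      _ = _ := mul_one _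
  · intro a ha
    refine good_bad Λ ht h1 hΛ z T i0 th (1 - u) (ep Λ ht i0) _ ?_ tsub_le_self ?_ ?_ J a ha
    · -- mass above th
      have e : ∑' x : ℕ × G, (if th < V Λ ht z T x.1 x.2 then V Λ ht z T x.1 x.2 else 0) +
          ∑' x : ℕ × G, (if V Λ ht z T x.1 x.2 ≤ th then V Λ ht z T x.1 x.2 else 0) = 1 := by
        rw [← ENNReal.tsum_add, ← hsum]
        refine tsum_congr fun x => ?_
        by_cases hx : th < V Λ ht z T x.1 x.2
        · simp [hx, not_le.2 hx]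
        · simp [hx, not_lt.1 hx]
      have e2 : ∑' x : ℕ × G, (if th < V Λ ht z T x.1 x.2 then V Λ ht z T x.1 x.2 else 0) ≤ 1 - u := by
        refine ENNReal.le_sub_of_add_le_right hut ?_
        calc _ ≤ _ + ∑' x : ℕ × G, (if V Λ ht z T x.1 x.2 ≤ th then V Λ ht z T x.1 x.2 else 0) := by gcongr
          _ = 1 := e
      refine le_trans ?_ e2
      rw [ENNReal.tsum_prod (f := fun h g => if th < V Λ ht z T h g then V Λ ht z T h g else 0)]
      refine ENNReal.tsum_le_tsum fun h => ENNReal.tsum_le_tsum fun g => ?_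
      by_cases hh : h ≤ T + i0 ∧ th < V Λ ht z T h g
      · rw [if_pos hh, if_pos hh.2]
      · rw [if_neg hh]; exact zero_le'
    · -- overshoot
      have := regroup Λ ht z T (fun h _ => if T + i0 < h then 1 else 0)
      refine le_trans (le_of_eq ?_) (overS Λ ht h1 hΛ T i0)
      rw [show (∑' h, ∑' g, (if T + i0 < h then V Λ ht z T h g else 0)) =
        ∑' h, ∑' g, V Λ ht z T h g * (if T + i0 < h then 1 else 0) from
        tsum_congr fun h => tsum_congr fun g => by by_cases hh : T + i0 < h <;> simp [hh]]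
      rw [← this]
      refine tsum_congr fun A => ?_
      by_cases hA : FP ht A T
      · by_cases h2 : T + i0 < HT ht A <;> simp [hA, h2]
      · simp [hA]
    · set c := ((i0 + 1 : ℕ) : ℝ≥0∞) * th
      calc c + (1 - u) * (c / u) = c / u * u + (1 - u) * (c / u) := by
            rw [ENNReal.div_mul_cancel hu0 hut]
        _ = c / u * (u + (1 - u)) := by ring
        _ = c / u := by rw [add_tsub_cancel_of_le hu1, mul_one]
        _ ≤ c / u := le_rfl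

open Classical in
/-- **one window** -/
theorem window (h1X : ∀ b, 1 ≤ hX b) (hΛX : ∑' b, ΛX b = 1) (h1Y : ∀ b, 1 ≤ hY b) (hΛY : ∑' b, ΛY b = 1)
    (hsX : ∀ b q, q ∈ sX b → 1 ≤ q.2 ∧ q.2 ≤ hX b)
    (hsY : ∀ b q, q ∈ sY b → 1 ≤ q.2 ∧ q.2 ≤ hY b) (C : ℝ≥0∞) (us : ℕ → ℝ≥0∞)
    (hH2 : H2 ΛX ΛY hX hY zX zY sX sY C us) (hH3 : H3 ΛX ΛY hX hY zX zY sX sY C us)
    (w : G) (a T i0 s lo hi n J : ℕ) (u lam : ℝ≥0∞) (hu0 : u ≠ 0) (hu1 : u ≤ 1) (hl0 : lam ≠ 0) (hl1 : lam ≠ ⊤)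
    (hJ : J * (T + i0) ≤ a)
    (hlo : lo = a + 3 * i0 + s) (hs : 1 ≤ s) (hhi : hi + s = a + T) (hn : a + 2 * i0 + i0 + T ≤ n) :
    ∑' L : List BX, ∑' L' : List BY, (if HT hX L = n ∧ HT hY L' = n ∧
        Ev hX hY zX zY sX sY w a T i0 lo hi L L' then LW ΛX L * LW ΛY L' else 0)
      ≤ 2 * ep ΛX hX i0 + 2 * ep ΛY hY i0 +
        (((i0 + 1 : ℕ) * QQ C us (((i0 + 1 : ℕ) : ℝ≥0∞) / u) lam i0 s + ((1 - u) ^ J + J * ep ΛX hX i0)) +
        ((i0 + 1 : ℕ) * QQ C us (((i0 + 1 : ℕ) : ℝ≥0∞) / u) lam i0 s + ((1 - u) ^ J + J * ep ΛY hY i0)) + u * u) := by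
  obtain ⟨thX, GX, x1, x2, x3, x4⟩ := one_walker ΛX hX h1X hΛX zX T i0 J u hu0 hu1
  obtain ⟨thY, GY, y1, y2, y3, y4⟩ := one_walker ΛY hY h1Y hΛY zY T i0 J u hu0 hu1
  refine le_trans (win_pieces ΛX ΛY hX hY zX zY sX sY h1X hΛX h1Y hΛY hsX hsY w a T i0 s lo hi n hlo hs hhi hn) ?_
  refine add_le_add_right ?_ _
  exact tops ΛX ΛY hX hY zX zY sX sY h1X hΛX h1Y hΛY C us hH2 hH3 w a T i0 s lo hi thX thY GX GY _ lam u _ _
    x1 y1 x2 y2 hl0 hl1 hlo hhi x3 y3 (x4 a hJ) (y4 (a + 2 * i0) (by omega))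

end Crest.Agent.R154.Asm307
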