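import Crest.Agent.R154.AsmD_309

/-! Row 154, ROAD 801 (helper309): one window of full lists. -/

set_option autoImplicit false

namespace Crest.Agent.R154.Asm309

open scoped ENNReal Topology
open B5A Filter

section W

variable {BX BY G : Type*} [AddCommGroup G]
variable (ΛX : BX → ℝ≥0∞) (hX : BX → ℕ) (zX : BX → G)
variable (ΛY : BY → ℝ≥0∞) (hY : BY → ℕ) (zY : BY → G)
variable (CX : List BX → G → ℕ → Set (G × ℕ)) (CY : List BY → G → ℕ → Set (G × ℕ))

/-- contact sets of concatenations -/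
def AppP {B : Type*} (h : B → ℕ) (z : B → G) (C : List B → G → ℕ → Set (G × ℕ)) : Prop :=
  ∀ (L L' : List B) (x : G) (a : ℕ), C (L ++ L') x a = C L x a ∪ C L' (x + Dp z L) (a + HT h L)

/-- depth range -/
def DepP {B : Type*} (h : B → ℕ) (C : List B → G → ℕ → Set (G × ℕ)) : Prop :=
  ∀ (L : List B) (x : G) (a : ℕ) (z : G) (k : ℕ), (z, k) ∈ C L x a → a < k ∧ k ≤ a + HT h L

/-- shift covariance -/
def ShP {B : Type*} (C : List B → G → ℕ → Set (G × ℕ)) : Prop :=
  ∀ (L : List B) (x v : G) (a : ℕ) (z : G) (k : ℕ), (z, k) ∈ C L (x + v) a ↔ (z - v, k) ∈ C L x a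

/-- common site -/
def Con (w : G) (LX : List BX) (LY : List BY) (z : G) (k : ℕ) : Prop :=
  (z, k) ∈ CX LX 0 0 ∧ (z, k) ∈ CY LY w 0

/-- window event of full lists -/
def EvW (aX lo hi c1 : ℕ) (w : G) (LX : List BX) (LY : List BY) : Prop :=
  (∃ z k, Con CX CY w LX LY z k ∧ lo ≤ k ∧ k ≤ hi) ∧
    (∀ z k, Con CX CY w LX LY z k → aX < k → k ≤ c1 → lo ≤ k ∧ k ≤ hi)

lemma piece_mem {B : Type*} {h : B → ℕ} {zz : B → G} {C : List B → G → ℕ → Set (G × ℕ)}
    (hA : AppP h zz C) (hD : DepP h C) {A P R : List B} {x : G} {z : G} {k : ℕ}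
    (hk : (z, k) ∈ C (A ++ (P ++ R)) x 0) (h1 : HT h A < k) (h2 : k ≤ HT h A + HT h P) :
    (z, k) ∈ C P (x + Dp zz A) (HT h A) := by
  rw [hA, hA] at hk
  rcases hk with hk | hk | hk
  · have := (hD _ _ _ _ _ hk).2; omega
  · rw [Nat.zero_add] at hk; exact hk
  · have := (hD _ _ _ _ _ hk).1; omega

lemma mem_piece {B : Type*} {h : B → ℕ} {zz : B → G} {C : List B → G → ℕ → Set (G × ℕ)}
    (hA : AppP h zz C) {A P R : List B} {x : G} {z : G} {k : ℕ}
    (hk : (z, k) ∈ C P (x + Dp zz A) (HT h A)) : (z, k) ∈ C (A ++ (P ++ R)) x 0 := by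
  rw [hA, hA]
  refine Or.inr (Or.inl ?_)
  rw [Nat.zero_add]; exact hk

open Classical in
theorem W_le (hX1 : ∀ b, 1 ≤ hX b) (hY1 : ∀ b, 1 ≤ hY b) (hΛX : ∑' b, ΛX b = 1)
    (hΛY : ∑' b, ΛY b = 1) (hUX : ∀ n, U ΛX hX n ≤ 1) (hUY : ∀ n, U ΛY hY n ≤ 1)
    (aPX : AppP hX zX CX) (dPX : DepP hX CX) (sPX : ShP CX)
    (aPY : AppP hY zY CY) (dPY : DepP hY CY) (sPY : ShP CY)
    (aX T aY T' i0 lo hi c1 n : ℕ) (w : G)
    (n1 : aX + i0 + T ≤ n) (n2 : aY + i0 + T' ≤ n) (l1 : aX + i0 < lo) (l2 : aY + i0 < lo)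
    (l3 : hi ≤ aX + T) (l4 : hi ≤ aY + T') (l5 : aX + i0 + (T + i0) ≤ c1) :
    ∑' p : List BX × List BY, (if HT hX p.1 = n ∧ HT hY p.2 = n ∧
      EvW CX CY aX lo hi c1 w p.1 p.2 then LW ΛX p.1 * LW ΛY p.2 else 0)
      ≤ 2 * ov ΛX hX i0 + 2 * ov ΛY hY i0 + MS ΛX hX zX ΛY hY zY CX CY aX T aY T' i0 lo hi w := by
  set F3 : List BX × List BY → ℝ≥0∞ := fun p => if HT hX p.1 = n ∧ HT hY p.2 = n ∧
    Gd hX aX T i0 p.1 ∧ Gd hY aY T' i0 p.2 ∧ EvW CX CY aX lo hi c1 w p.1 p.2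
    then LW ΛX p.1 * LW ΛY p.2 else 0 with hF3
  have key : ∀ p : List BX × List BY, (if HT hX p.1 = n ∧ HT hY p.2 = n ∧
      EvW CX CY aX lo hi c1 w p.1 p.2 then LW ΛX p.1 * LW ΛY p.2 else 0)
      ≤ (if HT hX p.1 = n ∧ ¬ Gd hX aX T i0 p.1 then LW ΛX p.1 else 0) *
          (if HT hY p.2 = n then LW ΛY p.2 else 0)
        + (if HT hX p.1 = n then LW ΛX p.1 else 0) *
          (if HT hY p.2 = n ∧ ¬ Gd hY aY T' i0 p.2 then LW ΛY p.2 else 0) + F3 p := by
    intro p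
    by_cases hc : HT hX p.1 = n ∧ HT hY p.2 = n ∧ EvW CX CY aX lo hi c1 w p.1 p.2
    · rw [if_pos hc]
      by_cases g1 : Gd hX aX T i0 p.1
      · by_cases g2 : Gd hY aY T' i0 p.2
        · refine le_trans (le_of_eq ?_) le_add_self
          simp only [hF3]
          rw [if_pos ⟨hc.1, hc.2.1, g1, g2, hc.2.2⟩]
        · refine le_trans (le_of_eq ?_) (le_add_self.trans le_self_add)
          rw [if_pos hc.1, if_pos ⟨hc.2.1, g2⟩]
      · refine le_trans (le_of_eq ?_) (le_self_add.trans le_self_add)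
        rw [if_pos ⟨hc.1, g1⟩, if_pos hc.2.1]
    · rw [if_neg hc]; exact zero_le
  refine (ENNReal.tsum_le_tsum key).trans ?_
  rw [ENNReal.tsum_add, ENNReal.tsum_add]
  refine add_le_add (add_le_add ?_ ?_) ?_
  · rw [tsum_prod_mul (fun L => if HT hX L = n ∧ ¬ Gd hX aX T i0 L then LW ΛX L else 0)
      (fun L => if HT hY L = n then LW ΛY L else 0)]
    calc _ ≤ (2 * ov ΛX hX i0) * 1 := mul_le_mul' (bad3 ΛX hX hX1 hΛX hUX aX T i0 n n1) (hUY n)
      _ = _ := mul_one _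
  · rw [tsum_prod_mul (fun L => if HT hX L = n then LW ΛX L else 0)
      (fun L => if HT hY L = n ∧ ¬ Gd hY aY T' i0 L then LW ΛY L else 0)]
    calc _ ≤ 1 * (2 * ov ΛY hY i0) := mul_le_mul' (hUX n) (bad3 ΛY hY hY1 hΛY hUY aY T' i0 n n2)
      _ = _ := one_mul _
  · set H : (List BX × List BY) × ((List BX × List BY) × (List BX × List BY)) → ℝ≥0∞ := fun c =>
      (cw ΛX hX aX i0 c.1.1 * cw ΛY hY aY i0 c.1.2) *
      ((if PEx CX CY lo hi (HT hX c.1.1) (HT hY c.1.2) (rel zX zY w c.1) c.2.1.1 c.2.1.2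
        then cw ΛX hX T i0 c.2.1.1 * cw ΛY hY T' i0 c.2.1.2 else 0) *
      ((if HT hX c.2.2.1 = n - HT hX c.1.1 - HT hX c.2.1.1 then LW ΛX c.2.2.1 else 0) *
        (if HT hY c.2.2.2 = n - HT hY c.1.2 - HT hY c.2.1.2 then LW ΛY c.2.2.2 else 0))) with hH
    have step : ∑' p, F3 p ≤ ∑' c, H c := by
      refine tsum_le_cover F3 H (fun c => (c.1.1 ++ (c.2.1.1 ++ c.2.2.1),
        c.1.2 ++ (c.2.1.2 ++ c.2.2.2))) ?_
      rintro ⟨LX, LY⟩ hL
      by_cases hc : HT hX LX = n ∧ HT hY LY = n ∧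
        Gd hX aX T i0 LX ∧ Gd hY aY T' i0 LY ∧ EvW CX CY aX lo hi c1 w LX LY
      · obtain ⟨hn1, hn2, ⟨A, P, R, e, hA, hP, hAi, hPi⟩, ⟨A', P', R', e', hA', hP', hAi', hPi'⟩,
          ⟨z, k, hzk, hlo, hhi⟩, hall⟩ := hc
        refine ⟨((A, A'), ((P, P'), (R, R'))), ?_, ?_⟩
        · simp only; rw [← e, ← e']
        have fA := FP_le hX _ _ hA
        have fP := FP_le hX _ _ hP
        have fA' := FP_le hY _ _ hA'
        have fP' := FP_le hY _ _ hP'
        have hn1' := hn1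
        have hn2' := hn2
        rw [e, HT_append, HT_append] at hn1'
        rw [e', HT_append, HT_append] at hn2'
        have hxe : rel zX zY w (A, A') + Dp zX A = w + Dp zY A' := by unfold rel; abel
        have hPE : PEx CX CY lo hi (HT hX A) (HT hY A') (rel zX zY w (A, A')) P P' := by
          constructor
          · refine ⟨z - Dp zX A, k, ?_, ?_⟩
            · have h1 := hzk.1
              rw [e] at h1
              exact (sPX P 0 (Dp zX A) _ z k).1 (piece_mem aPX dPX h1 (by omega) (by omega))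
            · have h1 := hzk.2
              rw [e'] at h1
              have h2 := piece_mem aPY dPY h1 (by omega) (by omega)
              rw [← hxe] at h2
              exact (sPY P' _ (Dp zX A) _ z k).1 h2
          · intro z' k' hz1 hz2
            have d1 := dPX _ _ _ _ _ hz1
            have e1 : (z' + Dp zX A, k') ∈ CX P (0 + Dp zX A) (HT hX A) :=
              (sPX P 0 (Dp zX A) _ _ k').2 (by rwa [add_sub_cancel_right])
            have e2 : (z' + Dp zX A, k') ∈ CY P' (rel zX zY w (A, A') + Dp zX A) (HT hY A') :=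
              (sPY P' _ (Dp zX A) _ _ k').2 (by rwa [add_sub_cancel_right])
            rw [hxe] at e2
            have m1 := mem_piece (R := R) aPX e1
            have m2 := mem_piece (R := R') aPY e2
            rw [← e] at m1
            rw [← e'] at m2
            exact hall (z' + Dp zX A) k' ⟨m1, m2⟩ (by omega) (by omega)
        simp only [hF3, hH]
        rw [if_pos ⟨hn1, hn2, ⟨A, P, R, e, hA, hP, hAi, hPi⟩, ⟨A', P', R', e', hA', hP', hAi', hPi'⟩,
          ⟨z, k, hzk, hlo, hhi⟩, hall⟩, if_pos hPE, if_pos (by omega), if_pos (by omega)]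
        rw [show cw ΛX hX aX i0 A = LW ΛX A from if_pos ⟨hA, hAi⟩,
          show cw ΛY hY aY i0 A' = LW ΛY A' from if_pos ⟨hA', hAi'⟩,
          show cw ΛX hX T i0 P = LW ΛX P from if_pos ⟨hP, hPi⟩,
          show cw ΛY hY T' i0 P' = LW ΛY P' from if_pos ⟨hP', hPi'⟩]
        refine le_of_eq ?_
        rw [e, e', LW_append, LW_append, LW_append, LW_append]
        ring
      · exact absurd (if_neg hc) hL
    refine step.trans ?_
    rw [ENNReal.tsum_prod']
    unfold MS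
    refine ENNReal.tsum_le_tsum fun p => ?_
    simp only [hH]
    rw [ENNReal.tsum_mul_left]
    refine mul_le_mul_right ?_ _
    rw [ENNReal.tsum_prod']
    refine ENNReal.tsum_le_tsum fun q => ?_
    simp only
    rw [ENNReal.tsum_mul_left]
    rw [tsum_prod_mul (fun R => if HT hX R = n - HT hX p.1 - HT hX q.1 then LW ΛX R else 0)
      (fun R => if HT hY R = n - HT hY p.2 - HT hY q.2 then LW ΛY R else 0)]
    calc _ ≤ (if PEx CX CY lo hi (HT hX p.1) (HT hY p.2) (rel zX zY w p) q.1 q.2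
      then cw ΛX hX T i0 q.1 * cw ΛY hY T' i0 q.2 else 0) * (1 * 1) :=
          mul_le_mul_right (mul_le_mul' (hUX _) (hUY _)) _
      _ = _ := by ring

end W

end Crest.Agent.R154.Asm309
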