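import Crest.Agent.R154.AsmD_325
import Crest.Agent.R154.Dens_616

/-! Row 154 (T0219, road 801), helper325: abstract assembly, part E: one window. -/

set_option autoImplicit false

namespace Crest.Agent.R154.Asm325

open scoped ENNReal Classical
open Crest.Agent.R154.B5A Crest.Agent.R154.FP178

variable {BX BY G : Type*} [AddCommGroup G]
variable (ΛX : BX → ℝ≥0∞) (hX : BX → ℕ) (zX : BX → G) (sX : BX → Set (G × ℕ))
  (ΛY : BY → ℝ≥0∞) (hY : BY → ℕ) (zY : BY → G) (sY : BY → Set (G × ℕ))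

/-- window lemma, `X` local -/
def H2 (C : ℝ≥0∞) (us : ℕ → ℝ≥0∞) : Prop :=
  ∀ (s h h' a a' lo : ℕ) (E : Finset G) (μ : G → ℝ≥0∞) (M lam : ℝ≥0∞),
    ∑' x, μ x ≤ 1 → (∀ x, μ x ≤ M) → lam ≠ 0 → lam ≠ ⊤ → a + s ≤ lo → a' + s ≤ lo →
    a ≤ a' →
    ∑' x, μ x * ∑' L, ∑' L', (if HT hX L = h ∧ dL zX L ∈ E ∧ HT hY L' = h' ∧
        (∃ p, p ∈ CM hX zX sX hY zY sY L L' x a a') ∧
        (∀ p ∈ CM hX zX sX hY zY sY L L' x a a', lo ≤ p.2)
      then LW ΛX L * LW ΛY L' else 0) ≤ C * (lam + M * E.card * us s / lam + us s)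

/-- window lemma, `Y` local -/
def H3 (C : ℝ≥0∞) (us : ℕ → ℝ≥0∞) : Prop :=
  ∀ (s h h' a a' hi : ℕ) (E : Finset G) (μ : G → ℝ≥0∞) (M lam : ℝ≥0∞),
    ∑' x, μ x ≤ 1 → (∀ x, μ x ≤ M) → lam ≠ 0 → lam ≠ ⊤ → hi + s ≤ a + h → hi + s ≤ a' + h' →
    a + h ≤ a' + h' →
    ∑' x, μ x * ∑' L, ∑' L', (if HT hX L = h ∧ dL zY L' ∈ E ∧ HT hY L' = h' ∧
        (∃ p, p ∈ CM hX zX sX hY zY sY L L' x a a') ∧
        (∀ p ∈ CM hX zX sX hY zY sY L L' x a a', p.2 ≤ hi)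
      then LW ΛX L * LW ΛY L' else 0) ≤ C * (lam + M * E.card * us s / lam + us s)

section one
variable {B : Type*} (Λ : B → ℝ≥0∞) (h : B → ℕ) (z : B → G)

lemma tsum_pL (h1 : ∀ b, 1 ≤ h b) (hΛ : ∑' b, Λ b = 1) (S : ℕ) :
    ∑' q : ℕ × G, pL Λ h z S q.1 q.2 = 1 := by
  rw [ENNReal.tsum_prod, ← fp_one Λ h h1 hΛ S]
  simp only [pL]
  calc _ = ∑' i, ∑' A, ∑' x, (if fp h S A then LW Λ A *
        (if HT h A = S + i ∧ dL z A = x then 1 else 0) else 0) :=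
        tsum_congr fun i => ENNReal.tsum_comm
    _ = ∑' A, ∑' i, ∑' x, (if fp h S A then LW Λ A *
        (if HT h A = S + i ∧ dL z A = x then 1 else 0) else 0) := ENNReal.tsum_comm
    _ = _ := by
        refine tsum_congr fun A => ?_
        by_cases hA : fp h S A
        · have hS := le_HT_of_fp h hA
          simp only [if_pos hA]
          rw [tsum_eq_single (HT h A - S), tsum_eq_single (dL z A)]
          · rw [if_pos ⟨by omega, rfl⟩, mul_one]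
          · intro x hx
            rw [if_neg (fun hh => hx hh.2.symm), mul_zero]
          · intro i hi
            rw [ENNReal.tsum_eq_zero]
            intro x
            rw [if_neg (fun hh => hi (by omega)), mul_zero]
        · simp [hA]

lemma wt_sum (S i0 : ℕ) (F : ℕ → G → ℝ≥0∞) :
    ∑' A, wt Λ h S i0 A * F (HT h A - S) (dL z A)
      = ∑ i ∈ Finset.range (i0 + 1), ∑' x, pL Λ h z S i x * F i x := by
  rw [← regroup]
  refine tsum_congr fun A => ?_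
  by_cases h1 : fp h S A
  · by_cases h2 : HT h A ≤ S + i0
    · rw [wt, if_pos ⟨h1, h2⟩, if_pos h1, if_pos h2]
    · rw [wt, if_neg (fun hh => h2 hh.2), if_pos h1, if_neg h2]; simp
  · rw [wt, if_neg (fun hh => h1 hh.1), if_neg h1]; simp

lemma fin_sum_le (i0 : ℕ) (F : ℕ → G → ℝ≥0∞) :
    ∑ i ∈ Finset.range (i0 + 1), ∑' x, F i x ≤ ∑' q : ℕ × G, F q.1 q.2 := by
  rw [ENNReal.tsum_prod]
  exact ENNReal.sum_le_tsum _

/-- the threshold data of one walker -/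
lemma exists_th (h1 : ∀ b, 1 ≤ h b) (hΛ : ∑' b, Λ b = 1) (S i0 : ℕ) (u : ℝ≥0∞) (hu : u ≠ 0)
    (hu1 : u < 1) : ∃ θ : ℝ≥0∞, θ ≠ 0 ∧ θ ≤ 1 ∧
      (∑' A, wt Λ h S i0 A * (if pL Λ h z S (HT h A - S) (dL z A) < θ then 1 else 0) ≤ u) ∧
      (∑ i ∈ Finset.range (i0 + 1), ∑' x, (if θ < pL Λ h z S i x then pL Λ h z S i x
        else 0) ≤ 1 - u) ∧
      ∀ i, ∃ E : Finset G, (∀ x, θ ≤ pL Λ h z S i x → x ∈ E) ∧ (E.card : ℝ≥0∞) * θ ≤ 1 := by
  have hp := tsum_pL Λ h z h1 hΛ S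
  obtain ⟨θ, hθ0, hθ1, hlt, hle⟩ := Dens616.quantile (fun q : ℕ × G => pL Λ h z S q.1 q.2) hp hu hu1
  refine ⟨θ, hθ0, hθ1, ?_, ?_, ?_⟩
  · rw [wt_sum Λ h z S i0 (fun i x => if pL Λ h z S i x < θ then 1 else 0)]
    refine (fin_sum_le i0 (fun i x => pL Λ h z S i x * (if pL Λ h z S i x < θ then 1 else 0))).trans
      (le_trans (le_of_eq ?_) hlt)
    refine tsum_congr fun q => ?_
    by_cases hq : pL Λ h z S q.1 q.2 < θ <;> simp [hq]
  · refine (fin_sum_le i0 (fun i x => if θ < pL Λ h z S i x then pL Λ h z S i x else 0)).trans ?_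
    have hs : ∑' q : ℕ × G, (if θ < pL Λ h z S q.1 q.2 then pL Λ h z S q.1 q.2 else 0)
        + ∑' q : ℕ × G, (if pL Λ h z S q.1 q.2 ≤ θ then pL Λ h z S q.1 q.2 else 0) = 1 := by
      rw [← ENNReal.tsum_add, ← hp]
      refine tsum_congr fun q => ?_
      by_cases hq : pL Λ h z S q.1 q.2 ≤ θ
      · rw [if_neg (not_lt.2 hq), if_pos hq, zero_add]
      · rw [if_pos (not_le.1 hq), if_neg hq, add_zero]
    refine ENNReal.le_sub_of_add_le_right hu1.ne_top ?_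
    calc _ ≤ _ := add_le_add le_rfl hle
      _ = 1 := hs
  · intro i
    have hpi : ∑' x, pL Λ h z S i x ≤ 1 := by
      rw [← hp, ENNReal.tsum_prod]
      exact ENNReal.le_tsum i
    have hfin : {x | θ ≤ pL Λ h z S i x}.Finite :=
      ENNReal.finite_const_le_of_tsum_ne_top (ne_top_of_le_ne_top ENNReal.one_ne_top hpi) hθ0
    refine ⟨hfin.toFinset, fun x hx => by simpa using hx, ?_⟩
    exact (Dens616.card_mul_le (fun x => pL Λ h z S i x) θ hfin.toFinset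
      (fun x hx => by simpa using hx)).trans hpi

end one

end Crest.Agent.R154.Asm325
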