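import Crest.Agent.R154.AsmD_354

/-! Row 154 (helper354), ROAD 801: assembly, part E: one window, the pieces. -/

set_option autoImplicit false

namespace Crest.Agent.R154.Asm354

open scoped ENNReal
open Crest.Agent.R154.B5A
open Crest.Agent.R154.FP178 (fp fp_nil fp_cons fp_zero le_HT_of_fp split sum_FP fp_split overshoot
  sum_fp_step sum_fp_zero)

lemma push4 {α β γ δ G : Type*} [AddCommGroup G] (f : α → ℝ≥0∞) (g : γ → ℝ≥0∞) (dx : α → G)
    (dy : γ → G) (w : G) (K : β → δ → G → ℝ≥0∞) :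
    ∑' i : (α × β) × (γ × δ), f i.1.1 * g i.2.1 * K i.1.2 i.2.2 (w + dy i.2.1 - dx i.1.1)
      = ∑' x, mu f g dx dy w x * ∑' P, ∑' P', K P P' x := by
  rw [mu_push f g dx dy w (fun x => ∑' P, ∑' P', K P P' x),
    reorder (fun a b c d => f a * g c * K b d (w + dy c - dx a))]
  refine tsum_congr fun a => tsum_congr fun c => ?_
  rw [← ENNReal.tsum_mul_left]
  exact tsum_congr fun b => ENNReal.tsum_mul_left

variable {BX BY G : Type*} [AddCommGroup G]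
variable (ΛX : BX → ℝ≥0∞) (ΛY : BY → ℝ≥0∞) (hX : BX → ℕ) (hY : BY → ℕ) (zX : BX → G) (zY : BY → G)
variable (sX : BX → Set (G × ℕ)) (sY : BY → Set (G × ℕ))

open Classical in
lemma sum_sub_fp {B : Type*} (Λ : B → ℝ≥0∞) (ht : B → ℕ) (h1 : ∀ b, 1 ≤ ht b)
    (hΛ : ∑' b, Λ b = 1) (a : ℕ) (Q : List B → Prop) :
    ∑' A, (if fp ht a A ∧ Q A then LW Λ A else 0) ≤ 1 := by
  refine le_trans (ENNReal.tsum_le_tsum fun A => ?_) (sum_FP Λ ht h1 hΛ.le a)
  by_cases h : fp ht a A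
  · rw [if_pos h]; split_ifs <;> simp
  · rw [if_neg h, if_neg (fun h' => h h'.1)]

/-- the box of heights -/
def box (α T i0 : ℕ) : Finset ((ℕ × ℕ) × (ℕ × ℕ)) :=
  (Finset.Icc α (α + i0) ×ˢ Finset.Icc T (T + i0)) ×ˢ
    (Finset.Icc (α + 2 * i0) (α + 2 * i0 + i0) ×ˢ Finset.Icc T (T + i0))

lemma box_card (α T i0 : ℕ) : (box α T i0).card = (i0 + 1) ^ 4 := by
  rw [box]
  simp only [Finset.card_product, Nat.card_Icc]
  have e1 : α + i0 + 1 - α = i0 + 1 := by omega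
  have e2 : T + i0 + 1 - T = i0 + 1 := by omega
  have e3 : α + 2 * i0 + i0 + 1 - (α + 2 * i0) = i0 + 1 := by omega
  rw [e1, e2, e3]; ring

open Classical in
theorem pieces (h1X : ∀ b, 1 ≤ hX b) (h1Y : ∀ b, 1 ≤ hY b) (hΛX : ∑' b, ΛX b = 1)
    (hΛY : ∑' b, ΛY b = 1) (C : ℝ≥0∞) (us : ℕ → ℝ≥0∞)
    (h2 : H2 ΛX ΛY hX hY zX zY sX sY C us) (h3 : H3 ΛX ΛY hX hY zX zY sX sY C us)
    (i0 s α T : ℕ) (w : G) (GX : List BX → Prop) (GY : List BY → Prop) (MX MY δ u D lam : ℝ≥0∞)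
    (hlam : lam ≠ 0) (hlam' : lam ≠ ⊤)
    (hGX : ∀ h v, ∑' L, (if fp hX α L ∧ GX L ∧ HT hX L = h ∧ Dp zX L = v then LW ΛX L else 0) ≤ MX)
    (hGY : ∀ h v, ∑' L, (if fp hY (α + 2 * i0) L ∧ GY L ∧ HT hY L = h ∧ Dp zY L = v then LW ΛY L
      else 0) ≤ MY)
    (hbX : ∑' L, (if fp hX α L ∧ ¬ GX L then LW ΛX L else 0) ≤ δ)
    (hbY : ∑' L, (if fp hY (α + 2 * i0) L ∧ ¬ GY L then LW ΛY L else 0) ≤ δ)
    (EX EY : ℕ → Finset G)
    (hEX : ∑' P, (if fp hX T P ∧ HT hX P ≤ T + i0 ∧ Dp zX P ∉ EX (HT hX P) then LW ΛX P else 0) ≤ u)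
    (hEY : ∑' P, (if fp hY T P ∧ HT hY P ≤ T + i0 ∧ Dp zY P ∉ EY (HT hY P) then LW ΛY P else 0) ≤ u)
    (hDX : ∀ h, MX * (EX h).card ≤ D) (hDY : ∀ h, MY * (EY h).card ≤ D) :
    ∑' p, ∑' p', wt ΛX hX α T i0 p * wt ΛY hY (α + 2 * i0) T i0 p' *
        (if pe hX hY zX zY sX sY s (w + Dp zY p'.1 - Dp zX p.1) p.2 (HT hX p.1) p'.2 (HT hY p'.1)
          then 1 else 0)
      ≤ 2 * δ + u * u + 2 * ((i0 + 1) ^ 4 : ℕ) * (C * (lam + D * us s / lam + us s)) := by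
  set R : ℝ≥0∞ := C * (lam + D * us s / lam + us s) with hR
  set WX := wt ΛX hX α T i0 with hWX
  set WY := wt ΛY hY (α + 2 * i0) T i0 with hWY
  let PE : List BX × List BX → List BY × List BY → Prop := fun p p' =>
    pe hX hY zX zY sX sY s (w + Dp zY p'.1 - Dp zX p.1) p.2 (HT hX p.1) p'.2 (HT hY p'.1)
  have hX1 : ∑' p, WX p ≤ 1 := wt_one ΛX hX h1X hΛX _ _ _
  have hY1 : ∑' p, WY p ≤ 1 := wt_one ΛY hY h1Y hΛY _ _ _
  -- pointwise split
  have hpt : ∀ p p', WX p * WY p' * (if PE p p' then 1 else 0) ≤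
      (WX p * (if ¬ GX p.1 ∧ True then 1 else 0)) * WY p'
      + WX p * (WY p' * (if ¬ GY p'.1 ∧ True then 1 else 0))
      + (WX p * (if True ∧ Dp zX p.2 ∉ EX (HT hX p.2) then 1 else 0)) *
        (WY p' * (if True ∧ Dp zY p'.2 ∉ EY (HT hY p'.2) then 1 else 0))
      + WX p * WY p' * (if GX p.1 ∧ Dp zX p.2 ∈ EX (HT hX p.2) ∧ PE p p' then 1 else 0)
      + WX p * WY p' * (if GY p'.1 ∧ Dp zY p'.2 ∈ EY (HT hY p'.2) ∧ PE p p' then 1 else 0) := by
    intro p p'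
    by_cases c1 : GX p.1 <;> by_cases c2 : GY p'.1 <;>
      by_cases c3 : Dp zX p.2 ∈ EX (HT hX p.2) <;> by_cases c4 : Dp zY p'.2 ∈ EY (HT hY p'.2) <;>
      by_cases c5 : PE p p' <;> simp [c1, c2, c3, c4, c5, add_assoc]
  have hsplit : ∑' p, ∑' p', WX p * WY p' * (if PE p p' then 1 else 0) ≤
      δ * 1 + 1 * δ + u * u
      + ∑' i : (List BX × List BX) × (List BY × List BY), WX i.1 * WY i.2 *
        (if GX i.1.1 ∧ Dp zX i.1.2 ∈ EX (HT hX i.1.2) ∧ PE i.1 i.2 then 1 else 0)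
      + ∑' i : (List BX × List BX) × (List BY × List BY), WX i.1 * WY i.2 *
        (if GY i.2.1 ∧ Dp zY i.2.2 ∈ EY (HT hY i.2.2) ∧ PE i.1 i.2 then 1 else 0) := by
    refine le_trans (ENNReal.tsum_le_tsum fun p => ENNReal.tsum_le_tsum fun p' => hpt p p') ?_
    rw [← ENNReal.tsum_prod (f := fun p p' =>
      (WX p * (if ¬ GX p.1 ∧ True then 1 else 0)) * WY p'
      + WX p * (WY p' * (if ¬ GY p'.1 ∧ True then 1 else 0))
      + (WX p * (if True ∧ Dp zX p.2 ∉ EX (HT hX p.2) then 1 else 0)) *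
        (WY p' * (if True ∧ Dp zY p'.2 ∉ EY (HT hY p'.2) then 1 else 0))
      + WX p * WY p' * (if GX p.1 ∧ Dp zX p.2 ∈ EX (HT hX p.2) ∧ PE p p' then 1 else 0)
      + WX p * WY p' * (if GY p'.1 ∧ Dp zY p'.2 ∈ EY (HT hY p'.2) ∧ PE p p' then 1 else 0))]
    rw [ENNReal.tsum_add, ENNReal.tsum_add, ENNReal.tsum_add, ENNReal.tsum_add]
    refine add_le_add (add_le_add (add_le_add (add_le_add ?_ ?_) ?_) le_rfl) le_rfl
    · rw [tsum_mul_prod (fun p => WX p * (if ¬ GX p.1 ∧ True then 1 else 0)) WY]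
      refine mul_le_mul' ?_ hY1
      refine le_trans ?_ (mul_one δ).le
      convert wt_le ΛX hX α T i0 (fun A => ¬ GX A) (fun _ => True) δ 1 (by convert hbX)
        (by convert sum_sub_fp ΛX hX h1X hΛX T (fun P => HT hX P ≤ T + i0) using 5; simp)
      rfl
    · rw [tsum_mul_prod WX (fun p' => WY p' * (if ¬ GY p'.1 ∧ True then 1 else 0))]
      refine mul_le_mul' hX1 ?_
      refine le_trans ?_ (mul_one δ).le
      convert wt_le ΛY hY (α + 2 * i0) T i0 (fun A => ¬ GY A) (fun _ => True) δ 1 (by convert hbY)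
        (by convert sum_sub_fp ΛY hY h1Y hΛY T (fun P => HT hY P ≤ T + i0) using 5; simp)
      rfl
    · rw [tsum_mul_prod (fun p => WX p * (if True ∧ Dp zX p.2 ∉ EX (HT hX p.2) then 1 else 0))
        (fun p' => WY p' * (if True ∧ Dp zY p'.2 ∉ EY (HT hY p'.2) then 1 else 0))]
      refine mul_le_mul' ?_ ?_
      · refine le_trans ?_ (one_mul u).le
        convert wt_le ΛX hX α T i0 (fun _ => True) (fun P => Dp zX P ∉ EX (HT hX P)) 1 u
          (by convert sum_sub_fp ΛX hX h1X hΛX α (fun _ => True)) (by convert hEX)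
        rfl
      · refine le_trans ?_ (one_mul u).le
        convert wt_le ΛY hY (α + 2 * i0) T i0 (fun _ => True)
          (fun P => Dp zY P ∉ EY (HT hY P)) 1 u
          (by convert sum_sub_fp ΛY hY h1Y hΛY (α + 2 * i0) (fun _ => True)) (by convert hEY)
        rfl
  let hts : (List BX × List BX) × (List BY × List BY) → (ℕ × ℕ) × (ℕ × ℕ) := fun i =>
    ((HT hX i.1.1, HT hX i.1.2), (HT hY i.2.1, HT hY i.2.2))
  have hbox : ∀ i, WX i.1 * WY i.2 ≠ 0 → hts i ∈ box α T i0 := by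
    intro i hi
    have c1 : WX i.1 ≠ 0 := left_ne_zero_of_mul hi
    have c2 : WY i.2 ≠ 0 := right_ne_zero_of_mul hi
    rw [hWX, wt] at c1
    rw [hWY, wt] at c2
    obtain ⟨d1, _⟩ := ite_ne_right_iff.1 c1
    obtain ⟨d2, _⟩ := ite_ne_right_iff.1 c2
    have e1 := le_HT_of_fp hX d1.1.1
    have e2 := le_HT_of_fp hX d1.2.1
    have e3 := le_HT_of_fp hY d2.1.1
    have e4 := le_HT_of_fp hY d2.2.1
    simp only [box, Finset.mem_product, Finset.mem_Icc, hts]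
    exact ⟨⟨⟨e1, d1.1.2⟩, ⟨e2, d1.2.2⟩⟩, ⟨⟨e3, d2.1.2⟩, ⟨e4, d2.2.2⟩⟩⟩
  have hT4 : ∑' i : (List BX × List BX) × (List BY × List BY), WX i.1 * WY i.2 *
        (if GX i.1.1 ∧ Dp zX i.1.2 ∈ EX (HT hX i.1.2) ∧ PE i.1 i.2 then 1 else 0)
        ≤ ((i0 + 1) ^ 4 : ℕ) * R := by
    rw [fin_split (box α T i0) hts _ (fun i hi => hbox i (left_ne_zero_of_mul hi)),
      ← box_card α T i0, ← nsmul_eq_mul, ← Finset.sum_const]
    refine Finset.sum_le_sum fun c hc => ?_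
    obtain ⟨⟨a, h⟩, ⟨a', h'⟩⟩ := c
    simp only [box, Finset.mem_product, Finset.mem_Icc] at hc
    let K : List BX → List BY → G → ℝ≥0∞ := fun P P' x => if HT hX P = h ∧ Dp zX P ∈ EX h ∧
      HT hY P' = h' ∧ (∃ k, cts hX hY zX zY sX sY x P a P' a' k) ∧
      (∀ k, cts hX hY zX zY sX sY x P a P' a' k → a' + s ≤ k) then LW ΛX P * LW ΛY P' else 0
    let f : List BX → ℝ≥0∞ := fun A => if fp hX α A ∧ (GX A ∧ HT hX A = a) then LW ΛX A else 0
    let g : List BY → ℝ≥0∞ := fun A' => if fp hY (α + 2 * i0) A' ∧ HT hY A' = a' then LW ΛY A' else 0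
    refine le_trans (b := ∑' i : (List BX × List BX) × (List BY × List BY),
      f i.1.1 * g i.2.1 * K i.1.2 i.2.2 (w + Dp zY i.2.1 - Dp zX i.1.1)) ?_ ?_
    · refine ENNReal.tsum_le_tsum fun i => ?_
      by_cases hc1 : hts i = ((a, h), (a', h'))
      swap
      · rw [if_neg hc1]; exact zero_le
      rw [if_pos hc1]
      simp only [hts, Prod.mk.injEq] at hc1
      obtain ⟨⟨k1, k2⟩, ⟨k3, k4⟩⟩ := hc1
      by_cases hc2 : GX i.1.1 ∧ Dp zX i.1.2 ∈ EX (HT hX i.1.2) ∧ PE i.1 i.2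
      swap
      · rw [if_neg hc2, mul_zero]; exact zero_le
      rw [if_pos hc2, mul_one, hWX, hWY, wt, wt]
      by_cases hc3 : (fp hX α i.1.1 ∧ HT hX i.1.1 ≤ α + i0) ∧
        (fp hX T i.1.2 ∧ HT hX i.1.2 ≤ T + i0)
      swap
      · rw [if_neg hc3, zero_mul]; exact zero_le
      by_cases hc4 : (fp hY (α + 2 * i0) i.2.1 ∧ HT hY i.2.1 ≤ α + 2 * i0 + i0) ∧
        (fp hY T i.2.2 ∧ HT hY i.2.2 ≤ T + i0)
      swap
      · rw [if_neg hc4, mul_zero]; exact zero_le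
      rw [if_pos hc3, if_pos hc4]
      have hpe : pe hX hY zX zY sX sY s (w + Dp zY i.2.1 - Dp zX i.1.1) i.1.2 (HT hX i.1.1) i.2.2
        (HT hY i.2.1) := hc2.2.2
      rw [k1, k3] at hpe
      have f1 : f i.1.1 = LW ΛX i.1.1 := if_pos ⟨hc3.1.1, hc2.1, k1⟩
      have g1 : g i.2.1 = LW ΛY i.2.1 := if_pos ⟨hc4.1.1, k3⟩
      have K1 : K i.1.2 i.2.2 (w + Dp zY i.2.1 - Dp zX i.1.1) = LW ΛX i.1.2 * LW ΛY i.2.2 :=
        if_pos ⟨k2, by rw [← k2]; exact hc2.2.1, k4, hpe.1, fun k hk => (hpe.2 k hk).1⟩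
      rw [f1, g1, K1]
      exact le_of_eq (by ring)
    · rw [push4]
      have hf1 : ∑' A, f A ≤ 1 := by
        convert sum_sub_fp ΛX hX h1X hΛX α (fun A => GX A ∧ HT hX A = a)
      have hg1 : ∑' A', g A' ≤ 1 := by
        convert sum_sub_fp ΛY hY h1Y hΛY (α + 2 * i0) (fun A => HT hY A = a')
      refine le_trans (h2 s h h' a a' (EX h) (mu f g (Dp zX) (Dp zY) w) MX lam
        (mu_sum f g _ _ w hf1 hg1) (mu_le_left f g _ _ w MX (fun v => ?_) hg1) hlam hlam'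
        (by omega)) ?_
      · refine le_trans (ENNReal.tsum_le_tsum fun A => ?_) (hGX a v)
        by_cases hv : Dp zX A = v
        · rw [if_pos hv]
          simp only [f]
          by_cases hA : fp hX α A ∧ (GX A ∧ HT hX A = a)
          · rw [if_pos hA, if_pos ⟨hA.1, hA.2.1, hA.2.2, hv⟩]
          · rw [if_neg hA]; exact zero_le
        · rw [if_neg hv]; exact zero_le
      · rw [hR]
        gcongr
        exact hDX h
  have hT5 : ∑' i : (List BX × List BX) × (List BY × List BY), WX i.1 * WY i.2 *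
        (if GY i.2.1 ∧ Dp zY i.2.2 ∈ EY (HT hY i.2.2) ∧ PE i.1 i.2 then 1 else 0)
        ≤ ((i0 + 1) ^ 4 : ℕ) * R := by
    rw [fin_split (box α T i0) hts _ (fun i hi => hbox i (left_ne_zero_of_mul hi)),
      ← box_card α T i0, ← nsmul_eq_mul, ← Finset.sum_const]
    refine Finset.sum_le_sum fun c hc => ?_
    obtain ⟨⟨a, h⟩, ⟨a', h'⟩⟩ := c
    simp only [box, Finset.mem_product, Finset.mem_Icc] at hc
    let K : List BX → List BY → G → ℝ≥0∞ := fun P P' x => if HT hX P = h ∧ Dp zY P' ∈ EY h' ∧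
      HT hY P' = h' ∧ (∃ k, cts hX hY zX zY sX sY x P a P' a' k) ∧
      (∀ k, cts hX hY zX zY sX sY x P a P' a' k → k + s ≤ a + h) then LW ΛX P * LW ΛY P' else 0
    let f : List BX → ℝ≥0∞ := fun A => if fp hX α A ∧ HT hX A = a then LW ΛX A else 0
    let g : List BY → ℝ≥0∞ := fun A' => if fp hY (α + 2 * i0) A' ∧ (GY A' ∧ HT hY A' = a')
      then LW ΛY A' else 0
    refine le_trans (b := ∑' i : (List BX × List BX) × (List BY × List BY),
      f i.1.1 * g i.2.1 * K i.1.2 i.2.2 (w + Dp zY i.2.1 - Dp zX i.1.1)) ?_ ?_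
    · refine ENNReal.tsum_le_tsum fun i => ?_
      by_cases hc1 : hts i = ((a, h), (a', h'))
      swap
      · rw [if_neg hc1]; exact zero_le
      rw [if_pos hc1]
      simp only [hts, Prod.mk.injEq] at hc1
      obtain ⟨⟨k1, k2⟩, ⟨k3, k4⟩⟩ := hc1
      by_cases hc2 : GY i.2.1 ∧ Dp zY i.2.2 ∈ EY (HT hY i.2.2) ∧ PE i.1 i.2
      swap
      · rw [if_neg hc2, mul_zero]; exact zero_le
      rw [if_pos hc2, mul_one, hWX, hWY, wt, wt]
      by_cases hc3 : (fp hX α i.1.1 ∧ HT hX i.1.1 ≤ α + i0) ∧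
        (fp hX T i.1.2 ∧ HT hX i.1.2 ≤ T + i0)
      swap
      · rw [if_neg hc3, zero_mul]; exact zero_le
      by_cases hc4 : (fp hY (α + 2 * i0) i.2.1 ∧ HT hY i.2.1 ≤ α + 2 * i0 + i0) ∧
        (fp hY T i.2.2 ∧ HT hY i.2.2 ≤ T + i0)
      swap
      · rw [if_neg hc4, mul_zero]; exact zero_le
      rw [if_pos hc3, if_pos hc4]
      have hpe : pe hX hY zX zY sX sY s (w + Dp zY i.2.1 - Dp zX i.1.1) i.1.2 (HT hX i.1.1) i.2.2
        (HT hY i.2.1) := hc2.2.2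
      rw [k1, k3] at hpe
      have f1 : f i.1.1 = LW ΛX i.1.1 := if_pos ⟨hc3.1.1, k1⟩
      have g1 : g i.2.1 = LW ΛY i.2.1 := if_pos ⟨hc4.1.1, hc2.1, k3⟩
      have K1 : K i.1.2 i.2.2 (w + Dp zY i.2.1 - Dp zX i.1.1) = LW ΛX i.1.2 * LW ΛY i.2.2 :=
        if_pos ⟨k2, by rw [← k4]; exact hc2.2.1, k4, hpe.1, fun k hk => by
          have := (hpe.2 k hk).2; rwa [k2] at this⟩
      rw [f1, g1, K1]
      exact le_of_eq (by ring)
    · rw [push4]
      have hf1 : ∑' A, f A ≤ 1 := by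
        convert sum_sub_fp ΛX hX h1X hΛX α (fun A => HT hX A = a)
      have hg1 : ∑' A', g A' ≤ 1 := by
        convert sum_sub_fp ΛY hY h1Y hΛY (α + 2 * i0) (fun A => GY A ∧ HT hY A = a')
      refine le_trans (h3 s h h' a a' (EY h') (mu f g (Dp zX) (Dp zY) w) MY lam
        (mu_sum f g _ _ w hf1 hg1) (mu_le_right f g _ _ w MY hf1 (fun v => ?_)) hlam hlam'
        (by omega)) ?_
      · refine le_trans (ENNReal.tsum_le_tsum fun A => ?_) (hGY a' v)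
        by_cases hv : Dp zY A = v
        · rw [if_pos hv]
          simp only [g]
          by_cases hA : fp hY (α + 2 * i0) A ∧ (GY A ∧ HT hY A = a')
          · rw [if_pos hA, if_pos ⟨hA.1, hA.2.1, hA.2.2, hv⟩]
          · rw [if_neg hA]; exact zero_le
        · rw [if_neg hv]; exact zero_le
      · rw [hR]
        gcongr
        exact hDY h'
  refine le_trans hsplit ?_
  calc δ * 1 + 1 * δ + u * u + _ + _ ≤ δ * 1 + 1 * δ + u * u + ((i0 + 1) ^ 4 : ℕ) * R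
        + ((i0 + 1) ^ 4 : ℕ) * R := add_le_add (add_le_add le_rfl hT4) hT5
    _ = _ := by ring

end Crest.Agent.R154.Asm354
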