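import Crest.Agent.R154.AsmD_366

/-! Row 154, ROAD 801, assembly (helper366), part E: sums over the tops of the pieces. -/

set_option autoImplicit false

namespace Crest.Agent.R154.Asm366

open scoped ENNReal
open Crest.Agent.R154.B5A
open Crest.Agent.R154.KWB419 (TT)

lemma sum_le_i0 (i0 : ℕ) (bd : ℝ≥0∞) :
    ∑' i : ℕ, ∑' i' : ℕ, (if i ≤ i0 ∧ i' ≤ i0 then bd else 0) = ((i0 : ℝ≥0∞) + 1) ^ 2 * bd := by
  have e : ∀ i : ℕ, ∑' i' : ℕ, (if i ≤ i0 ∧ i' ≤ i0 then bd else 0)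
      = if i ≤ i0 then ((i0 : ℝ≥0∞) + 1) * bd else 0 := by
    intro i
    by_cases hi : i ≤ i0
    · simp only [hi, true_and, if_true]
      rw [tsum_eq_sum (s := Finset.range (i0 + 1))]
      · rw [Finset.sum_congr rfl (fun j hj => if_pos (by have := Finset.mem_range.1 hj; omega))]
        simp
      · intro j hj
        rw [if_neg (by intro h; exact hj (Finset.mem_range.2 (by omega)))]
    · simp [hi]
  simp_rw [e]
  rw [tsum_eq_sum (s := Finset.range (i0 + 1))]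
  · rw [Finset.sum_congr rfl (fun j hj => if_pos (by have := Finset.mem_range.1 hj; omega))]
    simp only [Finset.sum_const, Finset.card_range, nsmul_eq_mul]
    push_cast
    ring
  · intro j hj
    rw [if_neg (by intro h; exact hj (Finset.mem_range.2 (by omega)))]

variable {G : Type*} [AddCommGroup G]

/-- weighted sum over the tops -/
noncomputable def ST (i0 : ℕ) (fX fY : ℕ → G → ℝ≥0∞) (w : G) (Ψ : ℕ → ℕ → G → ℝ≥0∞) : ℝ≥0∞ :=
  ∑' e, ∑' x, ∑' e', ∑' x', if e ≤ i0 ∧ e' ≤ i0 then fX e x * fY e' x' * Ψ e e' (w + x' - x) else 0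

lemma ST_le_aux (i0 : ℕ) (fX fY : ℕ → G → ℝ≥0∞) (w : G) (Ψ : ℕ → ℕ → G → ℝ≥0∞) (bd : ℝ≥0∞)
    (H : ∀ e e', e ≤ i0 → e' ≤ i0 → ∑' x, ∑' x', fX e x * fY e' x' * Ψ e e' (w + x' - x) ≤ bd) :
    ST i0 fX fY w Ψ ≤ ((i0 : ℝ≥0∞) + 1) ^ 2 * bd := by
  rw [← sum_le_i0, ST]
  refine ENNReal.tsum_le_tsum fun e => ?_
  rw [ENNReal.tsum_comm]
  refine ENNReal.tsum_le_tsum fun e' => ?_
  split_ifs with h
  · exact H e e' h.1 h.2
  · simp

lemma ST_mono (i0 : ℕ) {fX fY : ℕ → G → ℝ≥0∞} (w : G) {Ψ Ψ' : ℕ → ℕ → G → ℝ≥0∞}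
    (H : ∀ e e' δ, e ≤ i0 → e' ≤ i0 → Ψ e e' δ ≤ Ψ' e e' δ) :
    ST i0 fX fY w Ψ ≤ ST i0 fX fY w Ψ' := by
  refine ENNReal.tsum_le_tsum fun e => ENNReal.tsum_le_tsum fun x => ENNReal.tsum_le_tsum fun e' =>
    ENNReal.tsum_le_tsum fun x' => ?_
  split_ifs with h
  · gcongr
    exact H _ _ _ h.1 h.2
  · exact le_rfl

lemma ST_add (i0 : ℕ) (fX fY : ℕ → G → ℝ≥0∞) (w : G) (Ψ Ψ' : ℕ → ℕ → G → ℝ≥0∞) :
    ST i0 fX fY w (fun e e' δ => Ψ e e' δ + Ψ' e e' δ)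
      = ST i0 fX fY w Ψ + ST i0 fX fY w Ψ' := by
  simp only [ST]
  rw [← ENNReal.tsum_add]
  refine tsum_congr fun e => ?_
  rw [← ENNReal.tsum_add]
  refine tsum_congr fun x => ?_
  rw [← ENNReal.tsum_add]
  refine tsum_congr fun e' => ?_
  rw [← ENNReal.tsum_add]
  refine tsum_congr fun x' => ?_
  split_ifs
  · ring
  · simp

lemma ST_const (i0 : ℕ) (fX fY : ℕ → G → ℝ≥0∞) (hX : ∑' e, ∑' x, fX e x ≤ 1)
    (hY : ∑' e, ∑' x, fY e x ≤ 1) (w : G) (c : ℝ≥0∞) :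
    ST i0 fX fY w (fun _ _ _ => c) ≤ c := by
  calc ST i0 fX fY w (fun _ _ _ => c) ≤ ∑' e, ∑' x, ∑' e', ∑' x', fX e x * (fY e' x' * c) := by
        refine ENNReal.tsum_le_tsum fun e => ENNReal.tsum_le_tsum fun x =>
          ENNReal.tsum_le_tsum fun e' => ENNReal.tsum_le_tsum fun x' => ?_
        split_ifs
        · rw [mul_assoc]
        · exact zero_le
    _ = (∑' e, ∑' x, fX e x) * ((∑' e, ∑' x, fY e x) * c) := by
        simp_rw [ENNReal.tsum_mul_left, ENNReal.tsum_mul_right]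
    _ ≤ 1 * (1 * c) := by gcongr
    _ = c := by simp

/-- X local: smooth split of X's top. -/
lemma ST_X (i0 : ℕ) (fX fY : ℕ → G → ℝ≥0∞) (hX : ∑' e, ∑' x, fX e x ≤ 1)
    (hY : ∑' e, ∑' x, fY e x ≤ 1) (w : G) (Ψ : ℕ → ℕ → G → ℝ≥0∞) (hΨ : ∀ e e' δ, Ψ e e' δ ≤ 1)
    (M bm bd : ℝ≥0∞) (b : ℕ × G → ℝ≥0∞) (hb : ∑' w, b w ≤ bm)
    (hfb : ∀ w : ℕ × G, fX w.1 w.2 ≤ M + b w)
    (H : ∀ e e', e ≤ i0 → e' ≤ i0 → ∀ μ : G → ℝ≥0∞, ∑' x, μ x ≤ 1 → (∀ x, μ x ≤ M) →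
      ∑' x, μ x * Ψ e e' x ≤ bd) :
    ST i0 fX fY w Ψ ≤ bm + ((i0 : ℝ≥0∞) + 1) ^ 2 * bd := by
  have h1 : ST i0 fX fY w Ψ ≤ ST i0 (fun e x => b (e, x)) fY w Ψ
      + ST i0 (fun e x => min (fX e x) M) fY w Ψ := by
    simp only [ST]
    rw [← ENNReal.tsum_add]
    refine ENNReal.tsum_le_tsum fun e => ?_
    rw [← ENNReal.tsum_add]
    refine ENNReal.tsum_le_tsum fun x => ?_
    rw [← ENNReal.tsum_add]
    refine ENNReal.tsum_le_tsum fun e' => ?_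
    rw [← ENNReal.tsum_add]
    refine ENNReal.tsum_le_tsum fun x' => ?_
    split_ifs
    · rw [← add_mul, ← add_mul]
      gcongr
      rcases le_total (fX e x) M with h | h
      · rw [min_eq_left h]; exact le_add_self
      · rw [min_eq_right h, add_comm]; exact hfb (e, x)
    · simp
  refine h1.trans (add_le_add ?_ ?_)
  · calc ST i0 (fun e x => b (e, x)) fY w Ψ
        ≤ ∑' e, ∑' x, ∑' e', ∑' x', b (e, x) * fY e' x' := by
          refine ENNReal.tsum_le_tsum fun e => ENNReal.tsum_le_tsum fun x =>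
            ENNReal.tsum_le_tsum fun e' => ENNReal.tsum_le_tsum fun x' => ?_
          split_ifs
          · exact mul_le_of_le_one_right (zero_le) (hΨ _ _ _)
          · exact zero_le
      _ = (∑' e, ∑' x, b (e, x)) * (∑' e, ∑' x, fY e x) := by
          simp_rw [ENNReal.tsum_mul_left, ENNReal.tsum_mul_right]
      _ ≤ bm * 1 := by
          gcongr
          rw [← ENNReal.tsum_prod (f := fun e x => b (e, x))]
          exact hb
      _ = bm := mul_one _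
  · refine ST_le_aux i0 _ fY w Ψ bd ?_
    intro e e' he he'
    refine conv_left _ _ _ w M bd ?_ (fun x => min_le_right _ _) ?_ (H e e' he he')
    · calc ∑' x, min (fX e x) M ≤ ∑' x, fX e x := ENNReal.tsum_le_tsum fun x => min_le_left _ _
        _ ≤ ∑' e, ∑' x, fX e x := ENNReal.le_tsum (f := fun e => ∑' x, fX e x) e
        _ ≤ 1 := hX
    · exact (ENNReal.le_tsum (f := fun e => ∑' x, fY e x) e').trans hY

/-- Y local: smooth split of Y's top. -/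
lemma ST_Y (i0 : ℕ) (fX fY : ℕ → G → ℝ≥0∞) (hX : ∑' e, ∑' x, fX e x ≤ 1)
    (hY : ∑' e, ∑' x, fY e x ≤ 1) (w : G) (Ψ : ℕ → ℕ → G → ℝ≥0∞) (hΨ : ∀ e e' δ, Ψ e e' δ ≤ 1)
    (M bm bd : ℝ≥0∞) (b : ℕ × G → ℝ≥0∞) (hb : ∑' w, b w ≤ bm)
    (hfb : ∀ w : ℕ × G, fY w.1 w.2 ≤ M + b w)
    (H : ∀ e e', e ≤ i0 → e' ≤ i0 → ∀ μ : G → ℝ≥0∞, ∑' x, μ x ≤ 1 → (∀ x, μ x ≤ M) →
      ∑' x, μ x * Ψ e e' x ≤ bd) :
    ST i0 fX fY w Ψ ≤ bm + ((i0 : ℝ≥0∞) + 1) ^ 2 * bd := by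
  have h1 : ST i0 fX fY w Ψ ≤ ST i0 fX (fun e x => b (e, x)) w Ψ
      + ST i0 fX (fun e x => min (fY e x) M) w Ψ := by
    simp only [ST]
    rw [← ENNReal.tsum_add]
    refine ENNReal.tsum_le_tsum fun e => ?_
    rw [← ENNReal.tsum_add]
    refine ENNReal.tsum_le_tsum fun x => ?_
    rw [← ENNReal.tsum_add]
    refine ENNReal.tsum_le_tsum fun e' => ?_
    rw [← ENNReal.tsum_add]
    refine ENNReal.tsum_le_tsum fun x' => ?_
    split_ifs
    · rw [← add_mul, ← mul_add]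
      gcongr
      rcases le_total (fY e' x') M with h | h
      · rw [min_eq_left h]; exact le_add_self
      · rw [min_eq_right h, add_comm]; exact hfb (e', x')
    · simp
  refine h1.trans (add_le_add ?_ ?_)
  · calc ST i0 fX (fun e x => b (e, x)) w Ψ
        ≤ ∑' e, ∑' x, ∑' e', ∑' x', fX e x * b (e', x') := by
          refine ENNReal.tsum_le_tsum fun e => ENNReal.tsum_le_tsum fun x =>
            ENNReal.tsum_le_tsum fun e' => ENNReal.tsum_le_tsum fun x' => ?_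
          split_ifs
          · exact mul_le_of_le_one_right (zero_le) (hΨ _ _ _)
          · exact zero_le
      _ = (∑' e, ∑' x, fX e x) * (∑' e, ∑' x, b (e, x)) := by
          simp_rw [ENNReal.tsum_mul_left, ENNReal.tsum_mul_right]
      _ ≤ 1 * bm := by
          gcongr
          rw [← ENNReal.tsum_prod (f := fun e x => b (e, x))]
          exact hb
      _ = bm := one_mul _
  · refine ST_le_aux i0 fX _ w Ψ bd ?_
    intro e e' he he'
    refine conv_right _ _ _ w M bd ?_ (fun x => min_le_right _ _) ?_ (H e e' he he')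
    · exact (ENNReal.le_tsum (f := fun e => ∑' x, fX e x) e).trans hX
    · calc ∑' x, min (fY e' x) M ≤ ∑' x, fY e' x := ENNReal.tsum_le_tsum fun x => min_le_left _ _
        _ ≤ ∑' e, ∑' x, fY e x := ENNReal.le_tsum (f := fun e => ∑' x, fY e x) e'
        _ ≤ 1 := hY

end Crest.Agent.R154.Asm366
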