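import Crest.Agent.R154.AsmD_392

/-! Row 154, ROAD 801 (helper392): thresholds; one window: both wide, X local, Y local. -/

set_option autoImplicit false

namespace Crest.Agent.R154.Asm392

open scoped ENNReal
open Crest.Agent.R154.B5A Crest.Agent.R154.FP178

section thr

variable {B G : Type*} [AddCommGroup G] (Λ : B → ℝ≥0∞) (ht : B → ℕ) (dz : B → G) (T i0 : ℕ)

open Classical in
/-- thresholds of one walker -/
theorem thr (h1 : ∀ b, 1 ≤ ht b) (hΛ : ∑' b, Λ b = 1) (u : ℝ≥0∞) (hu0 : u ≠ 0) (hu1 : u ≤ 1) :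
    ∃ (ph : ℤ × G → ℝ≥0∞) (th Gc : ℝ≥0∞) (E : ℕ → Finset G),
      (∀ v, p (wt Λ ht T i0) (val ht dz) v ≤ ph v) ∧
      (∑' A, wt Λ ht T i0 A * (if ph (val ht dz A) < th then 1 else 0) ≤ u) ∧
      (∑' v, (if ph v ≤ th then 0 else p (wt Λ ht T i0) (val ht dz) v) ≤ 1 - u) ∧
      th + (1 - u) * Gc ≤ Gc ∧
      (∀ (h : ℕ) (z : G), th ≤ ph ((h : ℤ), z) → z ∈ E h) ∧
      (∀ h, Gc * (E h).card ≤ u⁻¹) := by
  have hut : u ≠ ⊤ := ne_top_of_le_ne_top ENNReal.one_ne_top hu1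
  set ph : ℤ × G → ℝ≥0∞ := p (wf Λ ht T) (val ht dz) with hph
  have hle : ∀ v, p (wt Λ ht T i0) (val ht dz) v ≤ ph v := by
    intro v
    exact ENNReal.tsum_le_tsum fun A => mul_le_mul_left (wt_le_wf Λ ht T i0 A) _
  have hp1 : ∑' v, ph v = 1 := by
    have := p_law (wf Λ ht T) (val ht dz) (fun _ => 1)
    simp only [mul_one] at this
    rw [hph, ← this]
    exact wf_sum Λ ht T h1 hΛ
  obtain ⟨th, hth0, hth1, hq1, hq2⟩ := Dens903.quantile ph hp1 hu0 hu1
  have hfin : {v | th ≤ ph v}.Finite :=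
    Dens616.finite_local ph (by rw [hp1]; exact ENNReal.one_ne_top) hth0
  have hfin' : ∀ h : ℕ, {z : G | th ≤ ph ((h : ℤ), z)}.Finite := by
    intro h
    exact hfin.preimage (f := fun z : G => ((h : ℤ), z)) (fun z _ z' _ hz => (Prod.mk.inj hz).2)
  refine ⟨ph, th, th * u⁻¹, fun h => (hfin' h).toFinset, hle, ?_, ?_, ?_, ?_, ?_⟩
  · rw [p_law (wt Λ ht T i0) (val ht dz) (fun v => if ph v < th then 1 else 0)]
    refine le_trans (ENNReal.tsum_le_tsum fun v => ?_) hq1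
    by_cases h : ph v < th
    · rw [if_pos h, if_pos h, mul_one]; exact hle v
    · rw [if_neg h, mul_zero]; exact zero_le
  · refine le_trans (ENNReal.tsum_le_tsum (g := fun v => if ph v ≤ th then 0 else ph v) fun v => ?_)
      ?_
    · by_cases h : ph v ≤ th
      · rw [if_pos h, if_pos h]
      · rw [if_neg h, if_neg h]; exact hle v
    · refine ENNReal.le_sub_of_add_le_right hut ?_
      calc ∑' v, (if ph v ≤ th then 0 else ph v) + u
          ≤ ∑' v, (if ph v ≤ th then 0 else ph v) + ∑' v, (if ph v ≤ th then ph v else 0) :=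
            add_le_add_right hq2 _
        _ = ∑' v, ph v := by
            rw [← ENNReal.tsum_add]
            refine tsum_congr fun v => ?_
            by_cases h : ph v ≤ th <;> simp [h]
        _ ≤ 1 := hp1.le
  · have e : th = u * (th * u⁻¹) := by
      rw [mul_comm, mul_assoc, ENNReal.inv_mul_cancel hu0 hut, mul_one]
    calc th + (1 - u) * (th * u⁻¹) = u * (th * u⁻¹) + (1 - u) * (th * u⁻¹) := by rw [← e]
      _ = (u + (1 - u)) * (th * u⁻¹) := by rw [add_mul]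
      _ = th * u⁻¹ := by rw [add_tsub_cancel_of_le hu1, one_mul]
      _ ≤ _ := le_rfl
  · intro h z hz
    exact (hfin' h).mem_toFinset.2 hz
  · intro h
    have hc := Dens616.card_mul_le (fun z : G => ph ((h : ℤ), z)) th (hfin' h).toFinset
      (fun z hz => (hfin' h).mem_toFinset.1 hz)
    have hs : ∑' z : G, ph ((h : ℤ), z) ≤ 1 :=
      (ENNReal.tsum_comp_le_tsum_of_injective (f := fun z : G => ((h : ℤ), z))
          (fun z z' hz => (Prod.mk.inj hz).2) ph).trans hp1.le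
    calc th * u⁻¹ * ((hfin' h).toFinset.card : ℝ≥0∞)
        = ((hfin' h).toFinset.card * th) * u⁻¹ := by ring
      _ ≤ 1 * u⁻¹ := mul_le_mul_left (hc.trans hs) _
      _ = u⁻¹ := one_mul _

end thr

variable {BX BY G : Type*} [AddCommGroup G]
  (ΛX : BX → ℝ≥0∞) (hX : BX → ℕ) (zX : BX → G) (ΛY : BY → ℝ≥0∞) (hY : BY → ℕ) (zY : BY → G)

open Classical in
/-- **one window** -/
theorem win (h1X : ∀ b, 1 ≤ hX b) (h1Y : ∀ b, 1 ≤ hY b) (hΛX : ∑' b, ΛX b = 1)
    (hΛY : ∑' b, ΛY b = 1) (T i0 j : ℕ) (u : ℝ≥0∞) (hu0 : u ≠ 0) (hu1 : u ≤ 1) (η : ℝ≥0∞)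
    (Cn' : ℕ → List BX → ℕ → List BY → G → Prop)
    (hF2 : ∀ a ∈ Finset.Icc (j * T) (j * (T + i0)), ∀ a' ∈ Finset.Icc (j * T) (j * (T + i0)),
      ∀ h ∈ Finset.Icc T (T + i0), ∀ h' ∈ Finset.Icc T (T + i0),
      ∀ (E : Finset G) (μ : G → ℝ≥0∞) (M : ℝ≥0∞), ∑' x, μ x ≤ 1 → (∀ x, μ x ≤ M) →
      M * E.card ≤ u⁻¹ →
      ∑' x, μ x * ∑' L, ∑' L', (if HT hX L = h ∧ Dp zX L ∈ E ∧ HT hY L' = h' ∧ Cn' a L a' L' x
        then LW ΛX L * LW ΛY L' else 0) ≤ η)
    (hF3 : ∀ a ∈ Finset.Icc (j * T) (j * (T + i0)), ∀ a' ∈ Finset.Icc (j * T) (j * (T + i0)),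
      ∀ h ∈ Finset.Icc T (T + i0), ∀ h' ∈ Finset.Icc T (T + i0),
      ∀ (E : Finset G) (μ : G → ℝ≥0∞) (M : ℝ≥0∞), ∑' x, μ x ≤ 1 → (∀ x, μ x ≤ M) →
      M * E.card ≤ u⁻¹ →
      ∑' x, μ x * ∑' L, ∑' L', (if HT hX L = h ∧ HT hY L' = h' ∧ Dp zY L' ∈ E ∧ Cn' a L a' L' x
        then LW ΛX L * LW ΛY L' else 0) ≤ η) (w : G) :
    It (wt ΛX hX T i0) j (fun P => It (wt ΛY hY T i0) j (fun Q =>
      ∑' A, wt ΛX hX T i0 A * ∑' A', wt ΛY hY T i0 A' *
        (if Cn' (HT hX P) A (HT hY Q) A' (w + Dp zY Q - Dp zX P) then 1 else 0)))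
      ≤ u * u + (((1 - u) ^ j + ((j * i0 + 1 : ℕ) * ((j * i0 + 1 : ℕ) * ((i0 + 1 : ℕ) *
            ((i0 + 1 : ℕ) * η)))))
          + ((1 - u) ^ j + ((j * i0 + 1 : ℕ) * ((j * i0 + 1 : ℕ) * ((i0 + 1 : ℕ) *
            ((i0 + 1 : ℕ) * η)))))) := by
  obtain ⟨phX, thX, GX, EX, x1, x2, x3, x4, x5, x6⟩ := thr ΛX hX zX T i0 h1X hΛX u hu0 hu1
  obtain ⟨phY, thY, GY, EY, y1, y2, y3, y4, y5, y6⟩ := thr ΛY hY zY T i0 h1Y hΛY u hu0 hu1
  have hsX := wt_sum ΛX hX T i0 h1X hΛX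
  have hsY := wt_sum ΛY hY T i0 h1Y hΛY
  set wX := wt ΛX hX T i0 with hwX
  set wY := wt ΛY hY T i0 with hwY
  have hpt : ∀ P Q A A', (if Cn' (HT hX P) A (HT hY Q) A' (w + Dp zY Q - Dp zX P) then (1 : ℝ≥0∞)
        else 0)
      ≤ (if phX (val hX zX A) < thX then 1 else 0) * (if phY (val hY zY A') < thY then 1 else 0)
        + ((if thX ≤ phX (val hX zX A) ∧ Cn' (HT hX P) A (HT hY Q) A' (w + Dp zY Q - Dp zX P)
            then 1 else 0)
          + (if thY ≤ phY (val hY zY A') ∧ Cn' (HT hX P) A (HT hY Q) A' (w + Dp zY Q - Dp zX P)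
            then 1 else 0)) := by
    intro P Q A A'
    by_cases hc : Cn' (HT hX P) A (HT hY Q) A' (w + Dp zY Q - Dp zX P)
    · rw [if_pos hc]
      by_cases h1 : phX (val hX zX A) < thX
      · by_cases h2 : phY (val hY zY A') < thY
        · rw [if_pos h1, if_pos h2, mul_one]; exact le_self_add
        · rw [if_pos (⟨not_lt.1 h2, hc⟩ : thY ≤ phY (val hY zY A') ∧ _)]
          exact le_trans le_add_self le_add_self
      · rw [if_pos (⟨not_lt.1 h1, hc⟩ : thX ≤ phX (val hX zX A) ∧ _)]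
        exact le_trans le_self_add le_add_self
    · rw [if_neg hc]; exact zero_le
  have hmono : It wX j (fun P => It wY j (fun Q =>
      ∑' A, wX A * ∑' A', wY A' *
        (if Cn' (HT hX P) A (HT hY Q) A' (w + Dp zY Q - Dp zX P) then 1 else 0)))
      ≤ It wX j (fun P => It wY j (fun Q => ∑' A, wX A * ∑' A', wY A' *
        ((if phX (val hX zX A) < thX then 1 else 0) * (if phY (val hY zY A') < thY then 1 else 0))))
      + (It wX j (fun P => It wY j (fun Q => ∑' A, wX A * ∑' A', wY A' *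
        (if thX ≤ phX (val hX zX A) ∧ Cn' (HT hX P) A (HT hY Q) A' (w + Dp zY Q - Dp zX P)
            then 1 else 0)))
      + It wX j (fun P => It wY j (fun Q => ∑' A, wX A * ∑' A', wY A' *
        (if thY ≤ phY (val hY zY A') ∧ Cn' (HT hX P) A (HT hY Q) A' (w + Dp zY Q - Dp zX P)
            then 1 else 0)))) := by
    rw [← It_add_fun, ← It_add_fun]
    refine It_mono' _ j fun P => ?_
    rw [← It_add_fun, ← It_add_fun]
    refine It_mono' _ j fun Q => ?_
    rw [← ENNReal.tsum_add, ← ENNReal.tsum_add]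
    refine ENNReal.tsum_le_tsum fun A => ?_
    rw [← mul_add, ← mul_add]
    refine mul_le_mul_right ?_ _
    rw [← ENNReal.tsum_add, ← ENNReal.tsum_add]
    refine ENNReal.tsum_le_tsum fun A' => ?_
    rw [← mul_add, ← mul_add]
    exact mul_le_mul_right (hpt P Q A A') _
  refine hmono.trans (add_le_add ?_ (add_le_add ?_ ?_))
  · -- both wide
    have hb : ∑' A, wX A * ∑' A', wY A' *
        ((if phX (val hX zX A) < thX then 1 else 0) * (if phY (val hY zY A') < thY then 1 else 0))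
        ≤ u * u := by
      have e : ∀ A, wX A * ∑' A', wY A' *
          ((if phX (val hX zX A) < thX then 1 else 0) * (if phY (val hY zY A') < thY then 1 else 0))
          = (wX A * (if phX (val hX zX A) < thX then 1 else 0)) *
            ∑' A', wY A' * (if phY (val hY zY A') < thY then 1 else 0) := by
        intro A
        rw [mul_assoc]
        congr 1
        rw [← ENNReal.tsum_mul_left]
        refine tsum_congr fun A' => ?_
        ring
      rw [tsum_congr e, ENNReal.tsum_mul_right]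
      exact mul_le_mul' x2 y2
    calc _ ≤ It wX j (fun _ => u * u) := by
          refine It_mono' _ j fun P => ?_
          exact (It_mono' _ j fun Q => hb).trans (It_const wY hsY j (u * u))
      _ ≤ u * u := It_const wX hsX j (u * u)
  · exact loc wX wY ΛX ΛY hX hY zX zY T i0 j (wt_range ΛX hX T i0) (wt_range ΛY hY T i0)
      (wt_le_LW ΛX hX T i0) (wt_le_LW ΛY hY T i0) hsX hsY phX thX (1 - u) GX u⁻¹ η x1
      (by convert x3) x4 EX x5 x6 Cn' hF2 w
  · have e1 : It wX j (fun P => It wY j (fun Q => ∑' A, wX A * ∑' A', wY A' *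
        (if thY ≤ phY (val hY zY A') ∧ Cn' (HT hX P) A (HT hY Q) A' (w + Dp zY Q - Dp zX P)
            then 1 else 0)))
        = It wY j (fun Q => It wX j (fun P => ∑' A', wY A' * ∑' A, wX A *
        (if thY ≤ phY (val hY zY A') ∧ Cn' (HT hX P) A (HT hY Q) A'
          (-(-w + Dp zX P - Dp zY Q)) then 1 else 0))) := by
      rw [It_comm]
      congr 1
      funext Q
      congr 1
      funext P
      have e2 : -(-w + Dp zX P - Dp zY Q) = w + Dp zY Q - Dp zX P := by abel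
      rw [e2]
      simp only [← ENNReal.tsum_mul_left]
      rw [ENNReal.tsum_comm]
      refine tsum_congr fun A' => tsum_congr fun A => ?_
      ring
    rw [e1]
    refine loc wY wX ΛY ΛX hY hX zY zX T i0 j (wt_range ΛY hY T i0) (wt_range ΛX hX T i0)
      (wt_le_LW ΛY hY T i0) (wt_le_LW ΛX hX T i0) hsY hsX phY thY (1 - u) GY u⁻¹ η y1
      (by convert y3) y4 EY y5 y6 (fun a' L' a L x => Cn' a L a' L' (-x)) ?_ (-w)
    intro a' ha' a ha h' hh' h hh E μ M hμ1 hμ2 hM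
    have hneg : ∑' x, μ (-x) = ∑' x, μ x := (Equiv.neg G).tsum_eq μ
    have := hF3 a ha a' ha' h hh h' hh' E (fun x => μ (-x)) M
      (hneg.trans_le hμ1) (fun x => hμ2 _) hM
    refine le_trans (le_of_eq ?_) this
    refine ((Equiv.neg G).tsum_eq _).symm.trans (tsum_congr fun x => ?_)
    simp only [Equiv.neg_apply, neg_neg]
    congr 1
    rw [ENNReal.tsum_comm]
    refine tsum_congr fun L => tsum_congr fun L' => ?_
    by_cases hc : HT hY L' = h' ∧ Dp zY L' ∈ E ∧ HT hX L = h ∧ Cn' a L a' L' x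
    · rw [if_pos hc, if_pos ⟨hc.2.2.1, hc.1, hc.2.1, hc.2.2.2⟩, mul_comm]
    · rw [if_neg hc, if_neg (fun h => hc ⟨h.2.1, h.2.2.1, h.1, h.2.2.2⟩)]

end Crest.Agent.R154.Asm392
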