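import Crest.Agent.R154.AsmD_4

/-! Row 154 (helper4), ROAD 801, assembly part E: the bound of one window. -/

set_option autoImplicit false

namespace Crest.Agent.R154.Asm4

open scoped ENNReal
open Crest.Agent.R154.B5A Crest.Agent.R154.FP178

variable {BX BY G : Type*} [AddCommGroup G]
  {ΛX : BX → ℝ≥0∞} {hX : BX → ℕ} {zX : BX → G} {sX : BX → Set (G × ℕ)}
  {ΛY : BY → ℝ≥0∞} {hY : BY → ℕ} {zY : BY → G} {sY : BY → Set (G × ℕ)}

open Classical in
lemma good_sum {B : Type*} {Λ : B → ℝ≥0∞} {ht : B → ℕ} (h1 : ∀ b, 1 ≤ ht b) (hΛ : ∑' b, Λ b = 1)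
    (a c : ℕ) : ∑' A, (if fp ht a A ∧ HT ht A ≤ c then LW Λ A else 0) ≤ 1 := by
  refine le_trans (ENNReal.tsum_le_tsum fun A => ?_) (sum_FP_eq Λ ht h1 hΛ a).le
  by_cases h : fp ht a A
  · rw [if_pos h]; split_ifs <;> simp
  · rw [if_neg (fun h' => h h'.1)]; exact zero_le

open Classical in
/-- X local part -/
lemma partX (h1X : ∀ b, 1 ≤ hX b) (hΛX : ∑' b, ΛX b = 1)
    (h1Y : ∀ b, 1 ≤ hY b) (hΛY : ∑' b, ΛY b = 1)
    (C : ℝ≥0∞) (us : ℕ → ℝ≥0∞) (h2 : H2L ΛX hX zX sX ΛY hY zY sY C us)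
    (a0 H i0 s J : ℕ) (hHs : s ≤ H) (hJ : J * (H + i0) ≤ a0) (εX : ℝ≥0∞)
    (hεX : ∀ a, ∑' L, (if fp hX a L ∧ a + i0 < HT hX L then LW ΛX L else 0) ≤ εX)
    (lam th : ℝ≥0∞) (hl0 : lam ≠ 0) (hl1 : lam ≠ ⊤) (hth : th ≠ 0) (hth' : th ≠ ⊤)
    (q Gd : ℝ≥0∞) (hq1 : q ≤ 1)
    (hq : ∑' P, (if fp hX H P ∧ ¬ pL ΛX hX zX H (HT hX P) (Dp zX P) ≤ th then LW ΛX P else 0) ≤ q)
    (hG : (i0 + 1 : ℕ) * th + q * Gd ≤ Gd) (w : G) :
    ∑' A, ∑' A', (if fp hX a0 A ∧ HT hX A ≤ a0 + i0 then LW ΛX A else 0) *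
        (if fp hY (a0 + i0) A' ∧ HT hY A' ≤ (a0 + i0) + i0 then LW ΛY A' else 0) *
        ∑' P, ∑' Q, (if (fp hX H P ∧ HT hX P ≤ H + i0) ∧ th ≤ pL ΛX hX zX H (HT hX P) (Dp zX P)
          ∧ (fp hY (H + 2 * i0) Q ∧ HT hY Q ≤ (H + 2 * i0) + i0) ∧
          PE hX zX sX hY zY sY (a0 + 2 * i0 + s) (a0 + H - s) (HT hX A) (HT hY A')
            (w + Dp zY A' - Dp zX A) P Q
          then LW ΛX P * LW ΛY Q else 0)
      ≤ ((i0 + 1 : ℕ) : ℝ≥0∞) * (i0 + 1 : ℕ) * (((i0 + 1 : ℕ) : ℝ≥0∞) * (i0 + 1 : ℕ) *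
          (C * (lam + Gd * th⁻¹ * us s / lam + us s))) + (q ^ J + J * εX) := by
  set Φ : ℕ → ℕ → G → ℝ≥0∞ := fun a a' x => ∑' P, ∑' Q,
    (if (fp hX H P ∧ HT hX P ≤ H + i0) ∧ th ≤ pL ΛX hX zX H (HT hX P) (Dp zX P)
          ∧ (fp hY (H + 2 * i0) Q ∧ HT hY Q ≤ (H + 2 * i0) + i0) ∧
          PE hX zX sX hY zY sY (a0 + 2 * i0 + s) (a0 + H - s) a a' x P Q
          then LW ΛX P * LW ΛY Q else 0) with hΦd
  have hΦ1 : ∀ a a' x, Φ a a' x ≤ 1 := by
    intro a a' x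
    calc Φ a a' x ≤ ∑' P, ∑' Q, (if fp hX H P ∧ HT hX P ≤ H + i0 then LW ΛX P else 0) *
          (if fp hY (H + 2 * i0) Q ∧ HT hY Q ≤ (H + 2 * i0) + i0 then LW ΛY Q else 0) := by
          refine ENNReal.tsum_le_tsum fun P => ENNReal.tsum_le_tsum fun Q => ?_
          by_cases hc : (fp hX H P ∧ HT hX P ≤ H + i0) ∧ th ≤ pL ΛX hX zX H (HT hX P) (Dp zX P)
            ∧ (fp hY (H + 2 * i0) Q ∧ HT hY Q ≤ (H + 2 * i0) + i0) ∧
            PE hX zX sX hY zY sY (a0 + 2 * i0 + s) (a0 + H - s) a a' x P Q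
          · rw [if_pos hc, if_pos hc.1, if_pos hc.2.2.1]
          · rw [if_neg hc]; exact zero_le
      _ = (∑' P, (if fp hX H P ∧ HT hX P ≤ H + i0 then LW ΛX P else 0)) *
          ∑' Q, (if fp hY (H + 2 * i0) Q ∧ HT hY Q ≤ (H + 2 * i0) + i0 then LW ΛY Q else 0) := by
          simp_rw [ENNReal.tsum_mul_left, ENNReal.tsum_mul_right]
      _ ≤ 1 * 1 := mul_le_mul' (good_sum h1X hΛX H _) (good_sum h1Y hΛY _ _)
      _ = 1 := one_mul 1
  -- local sets
  set E : ℕ → Finset G := fun h => (loc_fin (zf := zX) h1X hΛX H h hth).toFinset with hE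
  have hE1 : ∀ h z, th ≤ pL ΛX hX zX H h z → z ∈ E h := by
    intro h z hz
    rw [hE]
    simp only [Set.Finite.mem_toFinset]
    exact hz
  have hE2 : ∀ h, ((E h).card : ℝ≥0∞) ≤ th⁻¹ := by
    intro h
    refine loc_card h1X hΛX H h hth hth' (E h) (zf := zX) ?_
    intro z hz
    rw [hE] at hz
    simp only [Set.Finite.mem_toFinset] at hz
    exact hz
  set WA : List BX → ℝ≥0∞ := fun A =>
    if (fp hX a0 A ∧ HT hX A ≤ a0 + i0) ∧ Sm ΛX hX zX H i0 th J A then LW ΛX A else 0 with hWA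
  set WB : List BY → ℝ≥0∞ := fun A' =>
    if fp hY (a0 + i0) A' ∧ HT hY A' ≤ (a0 + i0) + i0 then LW ΛY A' else 0 with hWB
  have hWB1 : ∑' A', WB A' ≤ 1 := good_sum h1Y hΛY _ _
  have hWA1 : ∑' A, WA A ≤ 1 := by
    refine le_trans (ENNReal.tsum_le_tsum fun A => ?_) (sum_FP_eq ΛX hX h1X hΛX a0).le
    rw [hWA]
    by_cases h : fp hX a0 A
    · simp only [h, true_and, if_true]; split_ifs <;> simp
    · simp [h]
  have hsl := slice2 WA WB (HT hX) (HT hY) (fun A A' => w + Dp zY A' - Dp zX A)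
    (Finset.Icc a0 (a0 + i0)) (Finset.Icc (a0 + i0) (a0 + 2 * i0))
    (by
      intro A hA
      rw [hWA] at hA
      have hc : (fp hX a0 A ∧ HT hX A ≤ a0 + i0) ∧ Sm ΛX hX zX H i0 th J A := by
        by_contra hc; exact hA (if_neg hc)
      rw [Finset.mem_Icc]
      exact ⟨le_HT_of_fp hX hc.1.1, hc.1.2⟩)
    (by
      intro A hA
      rw [hWB] at hA
      have hc : fp hY (a0 + i0) A ∧ HT hY A ≤ (a0 + i0) + i0 := by
        by_contra hc; exact hA (if_neg hc)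
      rw [Finset.mem_Icc]
      exact ⟨le_HT_of_fp hY hc.1, by omega⟩)
    Φ Gd (((i0 + 1 : ℕ) : ℝ≥0∞) * (i0 + 1 : ℕ) * (C * (lam + Gd * th⁻¹ * us s / lam + us s)))
    (fun a ha a' ha' μ hμ1 hμM => hPhiX C us h2 a0 H i0 s hHs lam th hl0 hl1 E hE1 Gd th⁻¹ hE2
      a a' ha ha' μ hμ1 hμM)
    hWA1 hWB1
    (by
      intro a a' x
      rw [ENNReal.tsum_comm]
      calc ∑' A', ∑' A, (if HT hX A = a ∧ HT hY A' = a' ∧ w + Dp zY A' - Dp zX A = x then
            WA A * WB A' else 0)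
          ≤ ∑' A', WB A' * Gd := by
            refine ENNReal.tsum_le_tsum fun A' => ?_
            calc ∑' A, (if HT hX A = a ∧ HT hY A' = a' ∧ w + Dp zY A' - Dp zX A = x then
                  WA A * WB A' else 0)
                ≤ ∑' A, WB A' * (if fp hX a0 A ∧ HT hX A = a ∧ Dp zX A = w + Dp zY A' - x ∧
                    Sm ΛX hX zX H i0 th J A then LW ΛX A else 0) := by
                  refine ENNReal.tsum_le_tsum fun A => ?_
                  by_cases hc : HT hX A = a ∧ HT hY A' = a' ∧ w + Dp zY A' - Dp zX A = x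
                  swap
                  · rw [if_neg hc]; exact zero_le
                  rw [if_pos hc, mul_comm]
                  refine mul_le_mul_right ?_ _
                  rw [hWA]
                  simp only
                  by_cases hd : (fp hX a0 A ∧ HT hX A ≤ a0 + i0) ∧ Sm ΛX hX zX H i0 th J A
                  · rw [if_pos hd, if_pos]
                    refine ⟨hd.1.1, hc.1, ?_, hd.2⟩
                    rw [← hc.2.2]; abel
                  · rw [if_neg hd]; exact zero_le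
              _ = WB A' * ∑' A, (if fp hX a0 A ∧ HT hX A = a ∧ Dp zX A = w + Dp zY A' - x ∧
                    Sm ΛX hX zX H i0 th J A then LW ΛX A else 0) := ENNReal.tsum_mul_left
              _ ≤ WB A' * Gd := mul_le_mul_right
                  (dens_le h1X hΛX H i0 th q Gd hq hG J a0 hJ a _) _
        _ = (∑' A', WB A') * Gd := ENNReal.tsum_mul_right
        _ ≤ 1 * Gd := mul_le_mul_left hWB1 _
        _ = Gd := one_mul _)
  rw [Nat.card_Icc, Nat.card_Icc] at hsl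
  have e1 : a0 + i0 + 1 - a0 = i0 + 1 := by omega
  have e2 : a0 + 2 * i0 + 1 - (a0 + i0) = i0 + 1 := by omega
  rw [e1, e2] at hsl
  have hbad := bad_le (zf := zX) h1X hΛX H i0 th q εX hq hq1 (hεX H) J a0 hJ
  calc ∑' A, ∑' A', (if fp hX a0 A ∧ HT hX A ≤ a0 + i0 then LW ΛX A else 0) * WB A' *
        Φ (HT hX A) (HT hY A') (w + Dp zY A' - Dp zX A)
      ≤ ∑' A, ∑' A', (WA A * WB A' * Φ (HT hX A) (HT hY A') (w + Dp zY A' - Dp zX A)
          + (if fp hX a0 A ∧ ¬ Sm ΛX hX zX H i0 th J A then LW ΛX A else 0) * WB A') := by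
        refine ENNReal.tsum_le_tsum fun A => ENNReal.tsum_le_tsum fun A' => ?_
        by_cases hc : fp hX a0 A ∧ HT hX A ≤ a0 + i0
        swap
        · rw [if_neg hc, zero_mul, zero_mul]; exact zero_le
        rw [if_pos hc]
        by_cases hs : Sm ΛX hX zX H i0 th J A
        · refine le_trans ?_ le_self_add
          rw [hWA]
          simp only
          rw [if_pos ⟨hc, hs⟩]
        · refine le_trans ?_ le_add_self
          rw [if_pos ⟨hc.1, hs⟩]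
          calc LW ΛX A * WB A' * _ ≤ LW ΛX A * WB A' * 1 := mul_le_mul_right (hΦ1 _ _ _) _
            _ = _ := mul_one _
    _ = ∑' A, ∑' A', WA A * WB A' * Φ (HT hX A) (HT hY A') (w + Dp zY A' - Dp zX A)
        + (∑' A, (if fp hX a0 A ∧ ¬ Sm ΛX hX zX H i0 th J A then LW ΛX A else 0)) *
          ∑' A', WB A' := by
        simp_rw [ENNReal.tsum_add, ENNReal.tsum_mul_left, ENNReal.tsum_mul_right]
    _ ≤ _ := by
        refine add_le_add hsl ?_
        calc _ ≤ (q ^ J + J * εX) * 1 := mul_le_mul' hbad hWB1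
          _ = _ := mul_one _

open Classical in
/-- Y local part -/
lemma partY (h1X : ∀ b, 1 ≤ hX b) (hΛX : ∑' b, ΛX b = 1)
    (h1Y : ∀ b, 1 ≤ hY b) (hΛY : ∑' b, ΛY b = 1)
    (C : ℝ≥0∞) (us : ℕ → ℝ≥0∞) (h3 : H3L ΛX hX zX sX ΛY hY zY sY C us)
    (a0 H i0 s J : ℕ) (hHs : s ≤ H) (hJ : J * ((H + 2 * i0) + i0) ≤ a0 + i0) (εY : ℝ≥0∞)
    (hεY : ∀ a, ∑' L, (if fp hY a L ∧ a + i0 < HT hY L then LW ΛY L else 0) ≤ εY)
    (lam th : ℝ≥0∞) (hl0 : lam ≠ 0) (hl1 : lam ≠ ⊤) (hth : th ≠ 0) (hth' : th ≠ ⊤)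
    (q Gd : ℝ≥0∞) (hq1 : q ≤ 1)
    (hq : ∑' P, (if fp hY (H + 2 * i0) P ∧ ¬ pL ΛY hY zY (H + 2 * i0) (HT hY P) (Dp zY P) ≤ th
      then LW ΛY P else 0) ≤ q)
    (hG : (i0 + 1 : ℕ) * th + q * Gd ≤ Gd) (w : G) :
    ∑' A, ∑' A', (if fp hX a0 A ∧ HT hX A ≤ a0 + i0 then LW ΛX A else 0) *
        (if fp hY (a0 + i0) A' ∧ HT hY A' ≤ (a0 + i0) + i0 then LW ΛY A' else 0) *
        ∑' P, ∑' Q, (if (fp hX H P ∧ HT hX P ≤ H + i0) ∧
          th ≤ pL ΛY hY zY (H + 2 * i0) (HT hY Q) (Dp zY Q)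
          ∧ (fp hY (H + 2 * i0) Q ∧ HT hY Q ≤ (H + 2 * i0) + i0) ∧
          PE hX zX sX hY zY sY (a0 + 2 * i0 + s) (a0 + H - s) (HT hX A) (HT hY A')
            (w + Dp zY A' - Dp zX A) P Q
          then LW ΛX P * LW ΛY Q else 0)
      ≤ ((i0 + 1 : ℕ) : ℝ≥0∞) * (i0 + 1 : ℕ) * (((i0 + 1 : ℕ) : ℝ≥0∞) * (i0 + 1 : ℕ) *
          (C * (lam + Gd * th⁻¹ * us s / lam + us s))) + (q ^ J + J * εY) := by
  set Φ : ℕ → ℕ → G → ℝ≥0∞ := fun a a' x => ∑' P, ∑' Q,
    (if (fp hX H P ∧ HT hX P ≤ H + i0) ∧ th ≤ pL ΛY hY zY (H + 2 * i0) (HT hY Q) (Dp zY Q)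
          ∧ (fp hY (H + 2 * i0) Q ∧ HT hY Q ≤ (H + 2 * i0) + i0) ∧
          PE hX zX sX hY zY sY (a0 + 2 * i0 + s) (a0 + H - s) a a' x P Q
          then LW ΛX P * LW ΛY Q else 0) with hΦd
  have hΦ1 : ∀ a a' x, Φ a a' x ≤ 1 := by
    intro a a' x
    calc Φ a a' x ≤ ∑' P, ∑' Q, (if fp hX H P ∧ HT hX P ≤ H + i0 then LW ΛX P else 0) *
          (if fp hY (H + 2 * i0) Q ∧ HT hY Q ≤ (H + 2 * i0) + i0 then LW ΛY Q else 0) := by
          refine ENNReal.tsum_le_tsum fun P => ENNReal.tsum_le_tsum fun Q => ?_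
          by_cases hc : (fp hX H P ∧ HT hX P ≤ H + i0) ∧
            th ≤ pL ΛY hY zY (H + 2 * i0) (HT hY Q) (Dp zY Q)
            ∧ (fp hY (H + 2 * i0) Q ∧ HT hY Q ≤ (H + 2 * i0) + i0) ∧
            PE hX zX sX hY zY sY (a0 + 2 * i0 + s) (a0 + H - s) a a' x P Q
          · rw [if_pos hc, if_pos hc.1, if_pos hc.2.2.1]
          · rw [if_neg hc]; exact zero_le
      _ = (∑' P, (if fp hX H P ∧ HT hX P ≤ H + i0 then LW ΛX P else 0)) *
          ∑' Q, (if fp hY (H + 2 * i0) Q ∧ HT hY Q ≤ (H + 2 * i0) + i0 then LW ΛY Q else 0) := by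
          simp_rw [ENNReal.tsum_mul_left, ENNReal.tsum_mul_right]
      _ ≤ 1 * 1 := mul_le_mul' (good_sum h1X hΛX H _) (good_sum h1Y hΛY _ _)
      _ = 1 := one_mul 1
  set E : ℕ → Finset G := fun h => (loc_fin (zf := zY) h1Y hΛY (H + 2 * i0) h hth).toFinset with hE
  have hE1 : ∀ h z, th ≤ pL ΛY hY zY (H + 2 * i0) h z → z ∈ E h := by
    intro h z hz
    rw [hE]
    simp only [Set.Finite.mem_toFinset]
    exact hz
  have hE2 : ∀ h, ((E h).card : ℝ≥0∞) ≤ th⁻¹ := by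
    intro h
    refine loc_card h1Y hΛY (H + 2 * i0) h hth hth' (E h) (zf := zY) ?_
    intro z hz
    rw [hE] at hz
    simp only [Set.Finite.mem_toFinset] at hz
    exact hz
  set WA : List BX → ℝ≥0∞ := fun A =>
    if fp hX a0 A ∧ HT hX A ≤ a0 + i0 then LW ΛX A else 0 with hWA
  set WB : List BY → ℝ≥0∞ := fun A' =>
    if (fp hY (a0 + i0) A' ∧ HT hY A' ≤ (a0 + i0) + i0) ∧ Sm ΛY hY zY (H + 2 * i0) i0 th J A'
      then LW ΛY A' else 0 with hWB
  have hWA1 : ∑' A, WA A ≤ 1 := good_sum h1X hΛX _ _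
  have hWB1 : ∑' A', WB A' ≤ 1 := by
    refine le_trans (ENNReal.tsum_le_tsum fun A => ?_) (sum_FP_eq ΛY hY h1Y hΛY (a0 + i0)).le
    rw [hWB]
    by_cases h : fp hY (a0 + i0) A
    · simp only [h, true_and, if_true]; split_ifs <;> simp
    · simp [h]
  have hsl := slice2 WA WB (HT hX) (HT hY) (fun A A' => w + Dp zY A' - Dp zX A)
    (Finset.Icc a0 (a0 + i0)) (Finset.Icc (a0 + i0) (a0 + 2 * i0))
    (by
      intro A hA
      rw [hWA] at hA
      have hc : fp hX a0 A ∧ HT hX A ≤ a0 + i0 := by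
        by_contra hc; exact hA (if_neg hc)
      rw [Finset.mem_Icc]
      exact ⟨le_HT_of_fp hX hc.1, hc.2⟩)
    (by
      intro A hA
      rw [hWB] at hA
      have hc : (fp hY (a0 + i0) A ∧ HT hY A ≤ (a0 + i0) + i0) ∧
          Sm ΛY hY zY (H + 2 * i0) i0 th J A := by
        by_contra hc; exact hA (if_neg hc)
      rw [Finset.mem_Icc]
      exact ⟨le_HT_of_fp hY hc.1.1, by have := hc.1.2; omega⟩)
    Φ Gd (((i0 + 1 : ℕ) : ℝ≥0∞) * (i0 + 1 : ℕ) * (C * (lam + Gd * th⁻¹ * us s / lam + us s)))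
    (fun a ha a' ha' μ hμ1 hμM => hPhiY C us h3 a0 H i0 s hHs lam th hl0 hl1 E hE1 Gd th⁻¹ hE2
      a a' ha ha' μ hμ1 hμM)
    hWA1 hWB1
    (by
      intro a a' x
      calc ∑' A, ∑' A', (if HT hX A = a ∧ HT hY A' = a' ∧ w + Dp zY A' - Dp zX A = x then
            WA A * WB A' else 0)
          ≤ ∑' A, WA A * Gd := by
            refine ENNReal.tsum_le_tsum fun A => ?_
            calc ∑' A', (if HT hX A = a ∧ HT hY A' = a' ∧ w + Dp zY A' - Dp zX A = x then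
                  WA A * WB A' else 0)
                ≤ ∑' A', WA A * (if fp hY (a0 + i0) A' ∧ HT hY A' = a' ∧
                    Dp zY A' = x + Dp zX A - w ∧
                    Sm ΛY hY zY (H + 2 * i0) i0 th J A' then LW ΛY A' else 0) := by
                  refine ENNReal.tsum_le_tsum fun A' => ?_
                  by_cases hc : HT hX A = a ∧ HT hY A' = a' ∧ w + Dp zY A' - Dp zX A = x
                  swap
                  · rw [if_neg hc]; exact zero_le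
                  rw [if_pos hc]
                  refine mul_le_mul_right ?_ _
                  rw [hWB]
                  simp only
                  by_cases hd : (fp hY (a0 + i0) A' ∧ HT hY A' ≤ (a0 + i0) + i0) ∧
                      Sm ΛY hY zY (H + 2 * i0) i0 th J A'
                  · rw [if_pos hd, if_pos]
                    refine ⟨hd.1.1, hc.2.1, ?_, hd.2⟩
                    rw [← hc.2.2]; abel
                  · rw [if_neg hd]; exact zero_le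
              _ = WA A * ∑' A', (if fp hY (a0 + i0) A' ∧ HT hY A' = a' ∧
                    Dp zY A' = x + Dp zX A - w ∧
                    Sm ΛY hY zY (H + 2 * i0) i0 th J A' then LW ΛY A' else 0) :=
                  ENNReal.tsum_mul_left
              _ ≤ WA A * Gd := mul_le_mul_right
                  (dens_le h1Y hΛY (H + 2 * i0) i0 th q Gd hq hG J (a0 + i0) hJ a' _) _
        _ = (∑' A, WA A) * Gd := ENNReal.tsum_mul_right
        _ ≤ 1 * Gd := mul_le_mul_left hWA1 _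
        _ = Gd := one_mul _)
  rw [Nat.card_Icc, Nat.card_Icc] at hsl
  have e1 : a0 + i0 + 1 - a0 = i0 + 1 := by omega
  have e2 : a0 + 2 * i0 + 1 - (a0 + i0) = i0 + 1 := by omega
  rw [e1, e2] at hsl
  have hbad := bad_le (zf := zY) h1Y hΛY (H + 2 * i0) i0 th q εY hq hq1 (hεY _) J (a0 + i0) hJ
  calc ∑' A, ∑' A', WA A *
        (if fp hY (a0 + i0) A' ∧ HT hY A' ≤ (a0 + i0) + i0 then LW ΛY A' else 0) *
        Φ (HT hX A) (HT hY A') (w + Dp zY A' - Dp zX A)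
      ≤ ∑' A, ∑' A', (WA A * WB A' * Φ (HT hX A) (HT hY A') (w + Dp zY A' - Dp zX A)
          + WA A * (if fp hY (a0 + i0) A' ∧ ¬ Sm ΛY hY zY (H + 2 * i0) i0 th J A' then LW ΛY A'
            else 0)) := by
        refine ENNReal.tsum_le_tsum fun A => ENNReal.tsum_le_tsum fun A' => ?_
        by_cases hc : fp hY (a0 + i0) A' ∧ HT hY A' ≤ (a0 + i0) + i0
        swap
        · rw [if_neg hc, mul_zero, zero_mul]; exact zero_le
        rw [if_pos hc]
        by_cases hs : Sm ΛY hY zY (H + 2 * i0) i0 th J A'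
        · refine le_trans ?_ le_self_add
          rw [hWB]
          simp only
          rw [if_pos ⟨hc, hs⟩]
        · refine le_trans ?_ le_add_self
          rw [if_pos ⟨hc.1, hs⟩]
          calc WA A * LW ΛY A' * _ ≤ WA A * LW ΛY A' * 1 := mul_le_mul_right (hΦ1 _ _ _) _
            _ = _ := mul_one _
    _ = ∑' A, ∑' A', WA A * WB A' * Φ (HT hX A) (HT hY A') (w + Dp zY A' - Dp zX A)
        + (∑' A, WA A) *
          ∑' A', (if fp hY (a0 + i0) A' ∧ ¬ Sm ΛY hY zY (H + 2 * i0) i0 th J A' then LW ΛY A'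
            else 0) := by
        simp_rw [ENNReal.tsum_add, ENNReal.tsum_mul_left, ENNReal.tsum_mul_right]
    _ ≤ _ := by
        refine add_le_add hsl ?_
        calc _ ≤ 1 * (q ^ J + J * εY) := mul_le_mul' hWA1 hbad
          _ = _ := one_mul _

end Crest.Agent.R154.Asm4
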