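import Crest.Agent.R154.AsmD_474

/-! Row 154, ROAD 801 (helper474): abstract assembly, part E: constants and final statement. -/

set_option autoImplicit false
set_option linter.unusedVariables false
set_option linter.unusedSectionVars false

namespace Crest.Agent.R154.Asm474

open Filter Topology
open scoped ENNReal
open Crest.Agent.R154.B5A Crest.Agent.R154.FP178
open Crest.Agent.R154.KWB419 (TT)
open Classical

variable {BX BY G : Type*} [AddCommGroup G] (ΛX : BX → ℝ≥0∞) (ΛY : BY → ℝ≥0∞)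
  (hX : BX → ℕ) (hY : BY → ℕ) (zX : BX → G) (zY : BY → G)
  (sX : BX → Set (G × ℕ)) (sY : BY → Set (G × ℕ))

/-- thin slab input -/
def H5P (Wd : G → Prop) : Prop := ∀ (r : ℕ) (η : ℝ≥0∞), η ≠ 0 → ∃ T0 : ℕ, ∀ a, T0 ≤ a →
  ∀ n w, Wd w → PP ΛX ΛY hX hY n (Slab hX hY zX zY sX sY w a (a + r)) ≤ η

theorem win_PP (h1X : ∀ b, 1 ≤ hX b) (h1Y : ∀ b, 1 ≤ hY b) (ΛX1 : ∑' b, ΛX b = 1)
    (ΛY1 : ∑' b, ΛY b = 1) (hUX : ∀ n, U ΛX hX n ≤ 1) (hUY : ∀ n, U ΛY hY n ≤ 1)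
    (us : ℕ → ℝ≥0∞) (C : ℝ≥0∞)
    (H2 : H2P ΛX ΛY hX hY zX zY sX sY us C) (H3 : H3P ΛX ΛY hX hY zX zY sX sY us C)
    (n D T i0 s W j : ℕ) (w : G) (u lam : ℝ≥0∞) (hu0 : u ≠ 0) (hu1 : u ≤ 1)
    (hl0 : lam ≠ 0) (hlT : lam ≠ ⊤) :
    PP ΛX ΛY hX hY n (WinE hX hY zX zY sX sY w D T i0 s W j)
    ≤ ((((W + 1) * ((W + 1) * ((i0 + 1) * (i0 + 1))) : ℕ) : ℝ≥0∞) *
        (C * (lam + j * us s / lam + us s)) + (1 - u) ^ j)
      + ((((W + 1) * ((W + 1) * ((i0 + 1) * (i0 + 1))) : ℕ) : ℝ≥0∞) *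
        (C * (lam + j * us s / lam + us s)) + (1 - u) ^ j) + u * u := by
  have c1 : (Finset.Icc (j * T) (j * T + W)).card = W + 1 := by rw [Nat.card_Icc]; omega
  have c2 : (Finset.Icc T (T + i0)).card = i0 + 1 := by rw [Nat.card_Icc]; omega
  have h := win_total ΛX ΛY hX hY zX zY sX sY h1X h1Y ΛX1 ΛY1 us C H2 H3 D T s j
    (j * T + W + s) ((j + 1) * T - s) (Finset.Icc (j * T) (j * T + W)) (Finset.Icc T (T + i0)) w u lam
    hu0 hu1 hl0 hlT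
  rw [c1, c2] at h
  refine le_trans ?_ h
  refine dec2 ΛX ΛY hX hY (st hX zX) (st hY zY) hUX hUY (npD hX 0 T j) _
    (npD_sum ΛX hX (st hX zX) (st_nil hX zX) (st_append hX zX) 0 T j) (npD hY D T j) _
    (npD_sum ΛY hY (st hY zY) (st_nil hY zY) (st_append hY zY) D T j) n T _ _ ?_
  rintro LX LY - - ⟨A, P, R, A', P', R', hA, hP, e, hA', hP', e', hc⟩
  refine ⟨A, P, R, A', P', R', hA, hP, e, hA', hP', e', ?_⟩
  rw [if_pos hc]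

/-- the contact event -/
def Con (w : G) (m : ℕ) (L : List BX) (L' : List BY) : Prop :=
  ∃ z k, m < k ∧ k ≤ 2 * m ∧ (z, k) ∈ TT sX hX zX L 0 0 ∧ (z, k) ∈ TT sY hY zY L' w 0

theorem total (hsX : ∀ b, ∀ p ∈ sX b, 1 ≤ p.2 ∧ p.2 ≤ hX b)
    (hsY : ∀ b, ∀ p ∈ sY b, 1 ≤ p.2 ∧ p.2 ≤ hY b)
    (h1X : ∀ b, 1 ≤ hX b) (h1Y : ∀ b, 1 ≤ hY b) (ΛX1 : ∑' b, ΛX b = 1)
    (ΛY1 : ∑' b, ΛY b = 1) (hUX : ∀ n, U ΛX hX n ≤ 1) (hUY : ∀ n, U ΛY hY n ≤ 1)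
    (us : ℕ → ℝ≥0∞) (C : ℝ≥0∞)
    (H2 : H2P ΛX ΛY hX hY zX zY sX sY us C) (H3 : H3P ΛX ΛY hX hY zX zY sX sY us C)
    (K N D W T i0 s m n : ℕ) (w : G) (hK : 1 ≤ K) (hN : N = 2 * K + 1) (hD : D = N * i0 + 1)
    (hW : W = D + (N + 1) * i0) (hT : T = m / K) (hT2 : 2 * K ≤ T) (hTs : s ≤ T) (hm : W ≤ m)
    (hn : D + i0 + N * (T + i0) ≤ n) (u lam ov η : ℝ≥0∞) (hu0 : u ≠ 0) (hu1 : u ≤ 1)
    (hl0 : lam ≠ 0) (hlT : lam ≠ ⊤)
    (hoX : ∑' k, tail ΛX hX (i0 + k) ≤ ov) (hoY : ∑' k, tail ΛY hY (i0 + k) ≤ ov)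
    (hη : ∀ j, K ≤ j → PP ΛX ΛY hX hY n
      (Slab hX hY zX zY sX sY w (j * T - s) (j * T + W + s)) ≤ η) :
    PP ΛX ΛY hX hY n (Con hX hY zX zY sX sY w m)
      ≤ N * ov + (ov + (N * ov + ((K + 2 : ℕ) * η + ((K + 1 : ℕ) : ℝ≥0∞) *
        (((((W + 1) * ((W + 1) * ((i0 + 1) * (i0 + 1))) : ℕ) : ℝ≥0∞) *
        (C * (lam + (2 * K : ℕ) * us s / lam + us s)) + (1 - u) ^ K)
      + ((((W + 1) * ((W + 1) * ((i0 + 1) * (i0 + 1))) : ℕ) : ℝ≥0∞) *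
        (C * (lam + (2 * K : ℕ) * us s / lam + us s)) + (1 - u) ^ K) + u * u)))) := by
  have hbX : ∀ i, PP ΛX ΛY hX hY n (fun L _ => Bad hX (npD hX 0 T i) T i0 L) ≤ ov := fun i =>
    PP_X ΛX ΛY hX hY hUY n _ ov ((one_bad ΛX hX (st hX (zX)) h1X hUX (npD hX 0 T i) _
      (npD_sum ΛX hX (st hX zX) (st_nil hX zX) (st_append hX zX) 0 T i)
      (SD_sum ΛX hX (st hX zX) h1X ΛX1.le 0 T i) n T i0).trans hoX)
  have hbY : ∀ i, PP ΛX ΛY hX hY n (fun _ L => Bad hY (npD hY D T i) T i0 L) ≤ ov := fun i =>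
    PP_Y ΛX ΛY hX hY hUX n _ ov ((one_bad ΛY hY (st hY (zY)) h1Y hUY (npD hY D T i) _
      (npD_sum ΛY hY (st hY zY) (st_nil hY zY) (st_append hY zY) D T i)
      (SD_sum ΛY hY (st hY zY) h1Y ΛY1.le D T i) n T i0).trans hoY)
  have hbY0 : PP ΛX ΛY hX hY n (fun _ L => Bad hY (npD hY 0 D 0) D i0 L) ≤ ov :=
    PP_Y ΛX ΛY hX hY hUX n _ ov ((one_bad ΛY hY (st hY (zY)) h1Y hUY (npD hY 0 D 0) _
      (npD_sum ΛY hY (st hY zY) (st_nil hY zY) (st_append hY zY) 0 D 0)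
      (SD_sum ΛY hY (st hY zY) h1Y ΛY1.le 0 D 0) n D i0).trans hoY)
  refine (PP_mono ΛX ΛY hX hY n _ _ fun LX LY e1 e2 hc => path hX hY zX zY sX sY hsX hsY K N D W T
    i0 s m n w hK hN hD hW hT hT2 hTs hm hn LX LY e1 e2 hc).trans ?_
  refine (PP_or ΛX ΛY hX hY n _ _).trans (add_le_add ?_ ?_)
  · refine (PP_fin ΛX ΛY hX hY (Finset.range N) n
      (fun i L _ => Bad hX (npD hX 0 T i) T i0 L)).trans ?_
    refine (Finset.sum_le_card_nsmul _ _ ov fun i _ => hbX i).trans ?_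
    simp
  refine (PP_or ΛX ΛY hX hY n _ _).trans (add_le_add hbY0 ?_)
  refine (PP_or ΛX ΛY hX hY n _ _).trans (add_le_add ?_ ?_)
  · refine (PP_fin ΛX ΛY hX hY (Finset.range N) n
      (fun i _ L => Bad hY (npD hY D T i) T i0 L)).trans ?_
    refine (Finset.sum_le_card_nsmul _ _ ov fun i _ => hbY i).trans ?_
    simp
  refine (PP_or ΛX ΛY hX hY n _ _).trans (add_le_add ?_ ?_)
  · refine (PP_fin ΛX ΛY hX hY (Finset.Icc K (2 * K + 1)) n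
      (fun j => Slab hX hY zX zY sX sY w (j * T - s) (j * T + W + s))).trans ?_
    refine (Finset.sum_le_card_nsmul _ _ η fun i hi => hη i (Finset.mem_Icc.1 hi).1).trans ?_
    rw [Nat.card_Icc, nsmul_eq_mul, show 2 * K + 1 + 1 - K = K + 2 by omega]
  · refine (PP_fin ΛX ΛY hX hY (Finset.Icc K (2 * K)) n
      (fun j => WinE hX hY zX zY sX sY w D T i0 s W j)).trans ?_
    refine (Finset.sum_le_card_nsmul _ _ _ fun j hj => (?_ : _ ≤ _)).trans (le_of_eq (by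
      rw [Nat.card_Icc, nsmul_eq_mul, show 2 * K + 1 - K = K + 1 by omega]))
    have hj' := Finset.mem_Icc.1 hj
    refine (win_PP ΛX ΛY hX hY zX zY sX sY h1X h1Y ΛX1 ΛY1 hUX hUY us C H2 H3 n D T i0 s W j w u lam
      hu0 hu1 hl0 hlT).trans ?_
    have k1 : (j : ℝ≥0∞) ≤ (2 * K : ℕ) := by exact_mod_cast hj'.2
    have k2 : (1 - u) ^ j ≤ (1 - u) ^ K :=
      pow_le_pow_right_of_le_one' (tsub_le_self) hj'.1
    gcongr

/-- **the assembly** -/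
theorem kapS (Wd : G → Prop) (hsX : ∀ b, ∀ p ∈ sX b, 1 ≤ p.2 ∧ p.2 ≤ hX b)
    (hsY : ∀ b, ∀ p ∈ sY b, 1 ≤ p.2 ∧ p.2 ≤ hY b)
    (h1X : ∀ b, 1 ≤ hX b) (h1Y : ∀ b, 1 ≤ hY b) (ΛX1 : ∑' b, ΛX b = 1)
    (ΛY1 : ∑' b, ΛY b = 1) (hUX : ∀ n, U ΛX hX n ≤ 1) (hUY : ∀ n, U ΛY hY n ≤ 1)
    (htX : ∑' k, tail ΛX hX k ≠ ⊤) (htY : ∑' k, tail ΛY hY k ≠ ⊤)
    (us : ℕ → ℝ≥0∞) (hus : Tendsto us atTop (𝓝 0)) (C : ℝ≥0∞) (hC : C ≠ ⊤)
    (H2 : H2P ΛX ΛY hX hY zX zY sX sY us C) (H3 : H3P ΛX ΛY hX hY zX zY sX sY us C)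
    (H5 : H5P ΛX ΛY hX hY zX zY sX sY Wd) :
    ∀ ε : ℝ≥0∞, ε ≠ 0 → ∃ M : ℕ, ∀ m, M ≤ m → ∃ n0 : ℕ, ∀ n, n0 ≤ n → ∀ w, Wd w →
      PP ΛX ΛY hX hY n (Con hX hY zX zY sX sY w m) ≤ ε := by
  intro ε hε
  set δ := ε / 8 with hδ
  have hδ0 : δ ≠ 0 := by
    rw [hδ, Ne, ENNReal.div_eq_zero_iff, not_or]
    exact ⟨hε, by norm_num⟩
  have h8 : 8 * δ ≤ ε := by
    rw [hδ, ENNReal.mul_div_cancel (by norm_num) (by norm_num)]
  obtain ⟨K, u, -, hK, -, hu0, hu1, hKu, hKq⟩ := KU823.exists_Ku 1 1 one_pos δ hδ0 1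
  rw [Nat.div_one] at hKq
  set N := 2 * K + 1 with hN
  -- overshoot
  have hovt : Tendsto (fun i0 => (∑' k, tail ΛX hX (i0 + k)) + ∑' k, tail ΛY hY (i0 + k))
      atTop (𝓝 0) := by
    have e1 := ENNReal.tendsto_sum_nat_add (fun k => tail ΛX hX k) htX
    have e2 := ENNReal.tendsto_sum_nat_add (fun k => tail ΛY hY k) htY
    have e3 := e1.add e2
    rw [add_zero] at e3
    refine e3.congr fun i => ?_
    congr 1
    · exact tsum_congr fun k => by rw [add_comm]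
    · exact tsum_congr fun k => by rw [add_comm]
  obtain ⟨i0, -, hi0⟩ := KU823.exists_small _ hovt ((2 * N + 1 : ℕ) : ℝ≥0∞)
    (ENNReal.natCast_ne_top _) δ hδ0 0
  have hov := hi0 i0 le_rfl
  set ov := (∑' k, tail ΛX hX (i0 + k)) + ∑' k, tail ΛY hY (i0 + k) with hovd
  set D := N * i0 + 1 with hD
  set W := D + (N + 1) * i0 with hW
  set Rc : ℕ := (W + 1) * ((W + 1) * ((i0 + 1) * (i0 + 1))) with hRc
  set A1 : ℝ≥0∞ := ((K + 1 : ℕ) : ℝ≥0∞) * (2 * (Rc * C)) with hA1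
  have hA1T : A1 ≠ ⊤ := ENNReal.mul_ne_top (ENNReal.natCast_ne_top _)
    (ENNReal.mul_ne_top (by norm_num) (ENNReal.mul_ne_top (ENNReal.natCast_ne_top _) hC))
  set lam : ℝ≥0∞ := min δ 1 / (A1 + 1) with hlam
  have hmin0 : min δ 1 ≠ 0 := by
    rcases min_choice δ 1 with h | h <;> rw [h]
    · exact hδ0
    · exact one_ne_zero
  have hl0 : lam ≠ 0 := by
    rw [hlam, Ne, ENNReal.div_eq_zero_iff, not_or]
    exact ⟨hmin0, ENNReal.add_ne_top.2 ⟨hA1T, ENNReal.one_ne_top⟩⟩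
  have hlT : lam ≠ ⊤ := by
    rw [hlam]
    refine ENNReal.div_ne_top (ne_top_of_le_ne_top ENNReal.one_ne_top (min_le_right _ _)) ?_
    simp
  have hlA : A1 * lam ≤ δ := by
    calc A1 * lam ≤ (A1 + 1) * lam := by gcongr; exact le_self_add
      _ = min δ 1 := by
          rw [hlam, ENNReal.mul_div_cancel (by simp) (ENNReal.add_ne_top.2 ⟨hA1T, ENNReal.one_ne_top⟩)]
      _ ≤ δ := min_le_left _ _
  set A2 : ℝ≥0∞ := A1 * ((2 * K : ℕ) / lam + 1) with hA2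
  have hA2T : A2 ≠ ⊤ := ENNReal.mul_ne_top hA1T (ENNReal.add_ne_top.2
    ⟨ENNReal.div_ne_top (ENNReal.natCast_ne_top _) hl0, ENNReal.one_ne_top⟩)
  obtain ⟨s, -, hs⟩ := KU823.exists_small us hus A2 hA2T δ hδ0 0
  have hsA := hs s le_rfl
  set η : ℝ≥0∞ := δ / ((K + 2 : ℕ) : ℝ≥0∞) with hη
  have hη0 : η ≠ 0 := by
    rw [hη, Ne, ENNReal.div_eq_zero_iff, not_or]
    exact ⟨hδ0, ENNReal.natCast_ne_top _⟩
  have hηA : ((K + 2 : ℕ) : ℝ≥0∞) * η ≤ δ := by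
    rw [hη, ENNReal.mul_div_cancel (by positivity) (ENNReal.natCast_ne_top _)]
  obtain ⟨T0, hT0⟩ := H5 (W + 2 * s) η hη0
  refine ⟨K * (2 * K + s + T0) + W, fun m hm => ⟨D + i0 + N * (m / K + i0), fun n hn w hw => ?_⟩⟩
  have hTK : 2 * K + s + T0 ≤ m / K := by
    rw [Nat.le_div_iff_mul_le (by omega)]
    rw [mul_comm]; omega
  refine (total ΛX ΛY hX hY zX zY sX sY hsX hsY h1X h1Y ΛX1 ΛY1 hUX hUY us C H2 H3 K N D W (m / K) i0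
    s m n w hK hN hD hW rfl (by omega) (by omega) (by omega) hn u lam ov η hu0 hu1 hl0 hlT
    le_self_add le_add_self ?_).trans ?_
  · intro j hj
    have hjT : m / K ≤ j * (m / K) := Nat.le_mul_of_pos_left _ (by omega)
    have := hT0 (j * (m / K) - s) (by omega) n w hw
    rw [show j * (m / K) - s + (W + 2 * s) = j * (m / K) + W + s by omega] at this
    exact this
  · have k1 : (1 - u) ^ K ≤ (1 - u / 2) ^ K := by
      refine pow_le_pow_left₀ (zero_le) (tsub_le_tsub_left ?_ _) K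
      exact ENNReal.half_le_self
    have e1 : (N : ℝ≥0∞) * ov + (ov + N * ov) = ((2 * N + 1 : ℕ) : ℝ≥0∞) * ov := by
      push_cast; ring
    have e2 : ((K + 1 : ℕ) : ℝ≥0∞) * (((Rc : ℝ≥0∞) * (C * (lam + (2 * K : ℕ) * us s / lam + us s))
        + (1 - u) ^ K) + ((Rc : ℝ≥0∞) * (C * (lam + (2 * K : ℕ) * us s / lam + us s))
        + (1 - u) ^ K) + u * u)
        = A1 * lam + A2 * us s + 2 * (((K : ℝ≥0∞) + (1 : ℕ)) * (1 - u) ^ K)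
          + ((K : ℝ≥0∞) + (1 : ℕ)) * u ^ 2 := by
      rw [hA2, hA1]
      simp only [ENNReal.div_eq_inv_mul]
      push_cast
      ring
    calc _ = ((N : ℝ≥0∞) * ov + (ov + N * ov)) + ((K + 2 : ℕ) * η + ((K + 1 : ℕ) : ℝ≥0∞) *
        (((Rc : ℝ≥0∞) * (C * (lam + (2 * K : ℕ) * us s / lam + us s))
        + (1 - u) ^ K) + ((Rc : ℝ≥0∞) * (C * (lam + (2 * K : ℕ) * us s / lam + us s))
        + (1 - u) ^ K) + u * u)) := by ring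
      _ ≤ δ + (δ + (δ + δ + 2 * δ + δ)) := by
          rw [e1, e2]
          have k2 : ((K : ℝ≥0∞) + (1 : ℕ)) * (1 - u) ^ K ≤ δ :=
            le_trans (mul_le_mul_right k1 _) hKq
          gcongr
      _ ≤ 8 * δ := by
          have : δ + (δ + (δ + δ + 2 * δ + δ)) = 7 * δ := by ring
          rw [this]
          gcongr
          norm_num
      _ ≤ ε := h8

end Crest.Agent.R154.Asm474
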