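import Crest.Agent.R154.AsmD_508

/-! Row 154, ROAD 801 (helper508): one window, total. -/

set_option autoImplicit false

namespace Crest.Agent.R154.Asm508

open Crest.Agent.R154.B5A
open scoped ENNReal

variable {BX BY G : Type*} [AddCommGroup G] (ΛX : BX → ℝ≥0∞) (hX : BX → ℕ) (zX : BX → G)
  (sX : BX → Set (G × ℕ)) (ΛY : BY → ℝ≥0∞) (hY : BY → ℕ) (zY : BY → G) (sY : BY → Set (G × ℕ))

open Classical in
/-- weight of the pairs of height `n` with a common site at depth in `[lo, hi]` -/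
noncomputable def WS (n lo hi : ℕ) (w : G) : ℝ≥0∞ :=
  ∑' L, LW ΛX L * (if HT hX L = n then ∑' L', LW ΛY L' * (if HT hY L' = n then
    (if Con hX zX sX hY zY sY lo hi L L' 0 w 0 0 then 1 else 0) else 0) else 0)

lemma Con_piece (hsX : ∀ b, ∀ p ∈ sX b, 1 ≤ p.2 ∧ p.2 ≤ hX b)
    (hsY : ∀ b, ∀ p ∈ sY b, 1 ≤ p.2 ∧ p.2 ≤ hY b) (lo hi : ℕ) (w : G)
    (A P R : List BX) (A' P' R' : List BY) (h1 : HT hX A < lo) (h2 : hi ≤ HT hX A + HT hX P)
    (h1' : HT hY A' < lo) (h2' : hi ≤ HT hY A' + HT hY P')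
    (hc : Con hX zX sX hY zY sY lo hi (A ++ (P ++ R)) (A' ++ (P' ++ R')) 0 w 0 0) :
    Con hX zX sX hY zY sY lo hi P P' (Dp zX A) (w + Dp zY A') (HT hX A) (HT hY A') := by
  obtain ⟨y, k, hk1, hk2, hx, hy⟩ := hc
  refine ⟨y, k, hk1, hk2, ?_, ?_⟩
  · rw [Tr_append, Tr_append, zero_add, zero_add] at hx
    rcases hx with hx | hx | hx
    · have := Tr_depth hX zX sX hsX _ _ _ _ hx; simp only at this; omega
    · exact hx
    · have := Tr_depth hX zX sX hsX _ _ _ _ hx; simp only at this; omega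
  · rw [Tr_append, Tr_append, zero_add] at hy
    rcases hy with hy | hy | hy
    · have := Tr_depth hY zY sY hsY _ _ _ _ hy; simp only at this; omega
    · exact hy
    · have := Tr_depth hY zY sY hsY _ _ _ _ hy; simp only at this; omega

open Classical in
/-- the four-fold indicator -/
noncomputable def F4 (τ i0 lo hi a : ℕ) (w : G) (P0 : List BX → Prop) (Q0 : List BY → Prop)
    (A P : List BX) (A' P' : List BY) : ℝ≥0∞ :=
  if HT hX A ≤ a + i0 ∧ HT hX P ≤ τ + i0 ∧ P0 P ∧ HT hY A' ≤ a + i0 ∧ HT hY P' ≤ τ + i0 ∧ Q0 P' ∧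
    Con hX zX sX hY zY sY lo hi P P' (Dp zX A) (w + Dp zY A') (HT hX A) (HT hY A') then 1 else 0

open Classical in
lemma ws_step1 (h1X : ∀ b, 1 ≤ hX b) (hΛX : ∑' b, ΛX b = 1) (h1Y : ∀ b, 1 ≤ hY b)
    (hΛY : ∑' b, ΛY b = 1) (hsX : ∀ b, ∀ p ∈ sX b, 1 ≤ p.2 ∧ p.2 ≤ hX b)
    (hsY : ∀ b, ∀ p ∈ sY b, 1 ≤ p.2 ∧ p.2 ≤ hY b) (n τ i0 lo hi a : ℕ) (w : G)
    (hn : a + i0 + τ ≤ n) (hlo : a + i0 < lo) (hhi : hi ≤ a + τ) :
    WS ΛX hX zX sX ΛY hY zY sY n lo hi w ≤ 2 * ov ΛX hX i0 + (2 * ov ΛY hY i0 +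
      fpS ΛX hX a (fun A => fpS ΛX hX τ (fun P => fpS ΛY hY a (fun A' => fpS ΛY hY τ (fun P' =>
        F4 hX zX sX hY zY sY τ i0 lo hi a w (fun _ => True) (fun _ => True) A P A' P'))))) := by
  set Φ : List BX → List BX → ℝ≥0∞ := fun A P => 2 * ov ΛY hY i0 +
    fpS ΛY hY a (fun A' => if HT hY A' ≤ a + i0 then
      fpS ΛY hY τ (fun P' => if HT hY P' ≤ τ + i0 then
        (if Con hX zX sX hY zY sY lo hi P P' (Dp zX A) (w + Dp zY A') (HT hX A) (HT hY A')
          then 1 else 0) else 0) else 0) with hΦ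
  have s1 := red1 ΛX hX h1X hΛX a τ i0 n hn
    (fun L => ∑' L', LW ΛY L' * (if HT hY L' = n then
      (if Con hX zX sX hY zY sY lo hi L L' 0 w 0 0 then 1 else 0) else 0))
    (fun L => by
      have := sumHT_le ΛY hY h1Y hΛY 0 n
        (fun L' => if Con hX zX sX hY zY sY lo hi L L' 0 w 0 0 then 1 else 0) 1
        (fun L' => by split_ifs <;> simp)
      simpa only [zero_add] using this)
    Φ (fun A P R hA hA2 hP hP2 => by
      refine red1 ΛY hY h1Y hΛY a τ i0 n hn _ (fun L' => by split_ifs <;> simp) _ ?_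
      intro A' P' R' hA' hA2' hP' hP2'
      have g1 := FP_ge hX A a hA
      have g2 := FP_ge hX P τ hP
      have g3 := FP_ge hY A' a hA'
      have g4 := FP_ge hY P' τ hP'
      split_ifs with c1 c2
      · exact le_rfl
      · exact absurd (Con_piece hX zX sX hY zY sY hsX hsY lo hi w A P R A' P' R' (by omega)
          (by omega) (by omega) (by omega) c1) c2
      · exact zero_le
      · exact le_rfl)
  refine s1.trans (add_le_add le_rfl ?_)
  calc _ ≤ fpS ΛX hX a (fun A => fpS ΛX hX τ (fun P => 2 * ov ΛY hY i0 +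
        fpS ΛY hY a (fun A' => fpS ΛY hY τ (fun P' =>
        F4 hX zX sX hY zY sY τ i0 lo hi a w (fun _ => True) (fun _ => True) A P A' P')))) := by
        refine fpS_mono ΛX hX a fun A hA => ?_
        by_cases cA : HT hX A ≤ a + i0
        swap
        · rw [if_neg cA]; exact zero_le
        rw [if_pos cA]
        refine fpS_mono ΛX hX τ fun P hP => ?_
        by_cases cP : HT hX P ≤ τ + i0
        swap
        · rw [if_neg cP]; exact zero_le
        rw [if_pos cP, hΦ]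
        refine add_le_add le_rfl (fpS_mono ΛY hY a fun A' hA' => ?_)
        by_cases cA' : HT hY A' ≤ a + i0
        swap
        · rw [if_neg cA']; exact zero_le
        rw [if_pos cA']
        refine fpS_mono ΛY hY τ fun P' hP' => ?_
        by_cases cP' : HT hY P' ≤ τ + i0
        swap
        · rw [if_neg cP']; exact zero_le
        rw [if_pos cP']
        split_ifs with cc
        · rw [F4, if_pos ⟨cA, cP, trivial, cA', cP', trivial, cc⟩]
        · exact zero_le
    _ ≤ _ := by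
        have e1 : ∀ A, fpS ΛX hX τ (fun P => 2 * ov ΛY hY i0 +
          fpS ΛY hY a (fun A' => fpS ΛY hY τ (fun P' =>
          F4 hX zX sX hY zY sY τ i0 lo hi a w (fun _ => True) (fun _ => True) A P A' P')))
          ≤ 2 * ov ΛY hY i0 + fpS ΛX hX τ (fun P => fpS ΛY hY a (fun A' => fpS ΛY hY τ (fun P' =>
          F4 hX zX sX hY zY sY τ i0 lo hi a w (fun _ => True) (fun _ => True) A P A' P'))) := by
          intro A
          rw [fpS_add]
          exact add_le_add (fpS_le ΛX hX h1X hΛX _ fun _ _ => le_rfl) le_rfl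
        refine (fpS_mono ΛX hX a fun A _ => e1 A).trans ?_
        rw [fpS_add]
        exact add_le_add (fpS_le ΛX hX h1X hΛX _ fun _ _ => le_rfl) le_rfl

open Classical in
/-- the part in which the X-piece satisfies `P0` and the Y-piece `Q0`, as a sum over the laws -/
lemma F4_mix (τ i0 lo hi a : ℕ) (w : G) (P0 : List BX → Prop) (Q0 : List BY → Prop) :
    fpS ΛX hX a (fun A => fpS ΛX hX τ (fun P => fpS ΛY hY a (fun A' => fpS ΛY hY τ (fun P' =>
        F4 hX zX sX hY zY sY τ i0 lo hi a w P0 Q0 A P A' P'))))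
      = fpS ΛX hX a (fun A => fpS ΛY hY a (fun A' =>
        if HT hX A ≤ a + i0 ∧ HT hY A' ≤ a + i0 then
          PS ΛX hX zX sX ΛY hY zY sY τ i0 lo hi a P0 Q0 (HT hX A - a) (HT hY A' - a)
            (w + Dp zY A' - Dp zX A) else 0)) := by
  refine fpS_congr ΛX hX a fun A hA => ?_
  rw [fpS_comm]
  refine fpS_congr ΛY hY a fun A' hA' => ?_
  have g1 := FP_ge hX A a hA
  have g2 := FP_ge hY A' a hA'
  by_cases hc : HT hX A ≤ a + i0 ∧ HT hY A' ≤ a + i0
  · rw [if_pos hc, PS]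
    refine fpS_congr ΛX hX τ fun P hP => ?_
    by_cases hP0 : HT hX P ≤ τ + i0 ∧ P0 P
    · rw [if_pos hP0]
      refine fpS_congr ΛY hY τ fun P' hP' => ?_
      rw [F4]
      have e1 : a + (HT hX A - a) = HT hX A := by omega
      have e2 : a + (HT hY A' - a) = HT hY A' := by omega
      rw [e1, e2, Con_shift]
      by_cases hh : HT hY P' ≤ τ + i0 ∧ Q0 P' ∧ Con hX zX sX hY zY sY lo hi P P' 0
          (w + Dp zY A' - Dp zX A) (HT hX A) (HT hY A')
      · rw [if_pos hh, if_pos ⟨hc.1, hP0.1, hP0.2, hc.2, hh.1, hh.2.1, hh.2.2⟩]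
      · rw [if_neg hh, if_neg fun h => hh ⟨h.2.2.2.2.1, h.2.2.2.2.2.1, h.2.2.2.2.2.2⟩]
    · rw [if_neg hP0]
      refine le_antisymm ?_ zero_le
      refine le_trans (fpS_mono ΛY hY τ (G := fun _ => 0 * 0) fun P' hP' => ?_)
        (by rw [fpS_mul, zero_mul])
      rw [F4, if_neg fun h => hP0 ⟨h.2.1, h.2.2.1⟩]
      exact zero_le
  · rw [if_neg hc]
    refine le_antisymm ?_ zero_le
    refine le_trans (fpS_mono ΛX hX τ (G := fun _ => 0 * 0) fun P hP => ?_)
        (by rw [fpS_mul, zero_mul])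
    rw [zero_mul]
    refine le_trans (fpS_mono ΛY hY τ (G := fun _ => 0 * 0) fun P' hP' => ?_)
        (by rw [fpS_mul, zero_mul])
    rw [F4, if_neg fun h => hc ⟨h.1, h.2.2.2.1⟩]
    exact zero_le

end Crest.Agent.R154.Asm508
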