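import Crest.Agent.R154.AsmA_519

/-! Row 154 (helper519), ROAD 801: prefix / piece / rest decomposition, local pieces. -/

set_option autoImplicit false

namespace Crest.Agent.R154.Asm519

open scoped ENNReal
open Crest.Agent.R154.B5A Crest.Agent.R154.FP178
open Filter Topology

section one

variable {B G : Type*} [AddCommGroup G] (Λ : B → ℝ≥0∞) (ht : B → ℕ) (zz : B → G)

open Classical in
/-- weight of a first passage of height `a` with overshoot `≤ i0` -/
noncomputable def cw (i0 a : ℕ) (L : List B) : ℝ≥0∞ :=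
  if fp ht a L ∧ HT ht L ≤ a + i0 then LW Λ L else 0

lemma cw_le (i0 a : ℕ) (L : List B) : cw Λ ht i0 a L ≤ LW Λ L := by
  unfold cw; split_ifs
  · exact le_rfl
  · exact zero_le

lemma cw_sum (h1 : ∀ b, 1 ≤ ht b) (hΛ : ∑' b, Λ b = 1) (i0 a : ℕ) :
    ∑' L, cw Λ ht i0 a L ≤ 1 := by
  classical
  refine le_trans (ENNReal.tsum_le_tsum fun L => ?_) (sum_FP_eq Λ ht h1 hΛ a).le
  unfold cw
  by_cases h : fp ht a L
  · rw [if_pos h]
    split_ifs
    · exact le_rfl
    · exact zero_le
  · rw [if_neg (fun hh => h hh.1)]; exact zero_le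

/-- weight of a triple (prefix, piece, rest) -/
noncomputable def wt (i0 D T : ℕ) (p : List B × List B × List B) : ℝ≥0∞ :=
  cw Λ ht i0 D p.1 * (cw Λ ht i0 T p.2.1 * LW Λ p.2.2)

/-- the list of a triple -/
def cat3 (p : List B × List B × List B) : List B := p.1 ++ (p.2.1 ++ p.2.2)

lemma tsum3 (F : List B × List B × List B → ℝ≥0∞) :
    ∑' p, F p = ∑' P, ∑' A, ∑' R, F (P, A, R) := by
  rw [ENNReal.tsum_prod']
  refine tsum_congr fun P => ?_
  rw [ENNReal.tsum_prod']

lemma EE_le (h1 : ∀ b, 1 ≤ ht b) (i0 D T : ℕ) (f : List B → ℝ≥0∞) :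
    ∑' p, wt Λ ht i0 D T p * f (cat3 p) ≤ ∑' L, LW Λ L * f L := by
  classical
  rw [tsum3]
  calc ∑' P, ∑' A, ∑' R, wt Λ ht i0 D T (P, A, R) * f (cat3 (P, A, R))
      ≤ ∑' P, (if fp ht D P then LW Λ P * ∑' L2, LW Λ L2 * f (P ++ L2) else 0) := by
        refine ENNReal.tsum_le_tsum fun P => ?_
        by_cases hP : fp ht D P
        · rw [if_pos hP]
          calc ∑' A, ∑' R, wt Λ ht i0 D T (P, A, R) * f (cat3 (P, A, R))
              ≤ ∑' A, LW Λ P * (if fp ht T A then LW Λ A * ∑' R, LW Λ R * f (P ++ (A ++ R))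
                  else 0) := by
                refine ENNReal.tsum_le_tsum fun A => ?_
                by_cases hA : fp ht T A
                · rw [if_pos hA, ← ENNReal.tsum_mul_left, ← ENNReal.tsum_mul_left]
                  refine ENNReal.tsum_le_tsum fun R => ?_
                  simp only [wt, cat3]
                  calc _ ≤ LW Λ P * (LW Λ A * LW Λ R) * f (P ++ (A ++ R)) := by
                        gcongr
                        · exact cw_le Λ ht i0 D P
                        · exact cw_le Λ ht i0 T A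
                    _ = _ := by ring
                · have : ∀ R, wt Λ ht i0 D T (P, A, R) * f (cat3 (P, A, R)) = 0 := by
                    intro R
                    simp only [wt, cw]
                    rw [if_neg (fun hh : fp ht T A ∧ _ => hA hh.1)]
                    ring
                  rw [tsum_congr this, tsum_zero]
                  exact zero_le
            _ = LW Λ P * ∑' L2, (if T ≤ HT ht L2 then LW Λ L2 * f (P ++ L2) else 0) := by
                rw [ENNReal.tsum_mul_left, split Λ ht h1 T (fun L => f (P ++ L))]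
            _ ≤ LW Λ P * ∑' L2, LW Λ L2 * f (P ++ L2) := by
                gcongr with L2
                split_ifs
                · exact le_rfl
                · exact zero_le
        · have : ∀ A R, wt Λ ht i0 D T (P, A, R) * f (cat3 (P, A, R)) = 0 := by
            intro A R
            simp only [wt, cw]
            rw [if_neg (fun hh : fp ht D P ∧ _ => hP hh.1)]
            ring
          have h2 : ∀ A, ∑' R, wt Λ ht i0 D T (P, A, R) * f (cat3 (P, A, R)) = 0 := by
            intro A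
            rw [tsum_congr (this A), tsum_zero]
          rw [tsum_congr h2, tsum_zero]
          exact zero_le
    _ = ∑' L, (if D ≤ HT ht L then LW Λ L * f L else 0) := (split Λ ht h1 D f).symm
    _ ≤ ∑' L, LW Λ L * f L := by
        refine ENNReal.tsum_le_tsum fun L => ?_
        split_ifs
        · exact le_rfl
        · exact zero_le

open Classical in
lemma rest_le (hU1 : ∀ n, U Λ ht n ≤ 1) (n : ℕ) (P : List B) (f : List B → ℝ≥0∞)
    (hf : ∀ L, f L ≤ if HT ht L = n then 1 else 0) :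
    ∑' R, LW Λ R * f (P ++ R) ≤ 1 := by
  refine le_trans (ENNReal.tsum_le_tsum fun R => ?_) (hU1 (n - HT ht P))
  calc LW Λ R * f (P ++ R) ≤ LW Λ R * (if HT ht (P ++ R) = n then 1 else 0) := by
        gcongr; exact hf _
    _ ≤ (if HT ht R = n - HT ht P then LW Λ R else 0) := by
        rw [HT_append]
        by_cases h : HT ht P + HT ht R = n
        · rw [if_pos h, if_pos (by omega), mul_one]
        · rw [if_neg h, mul_zero]; exact zero_le

open Classical in
lemma le_EE (h1 : ∀ b, 1 ≤ ht b) (hΛ : ∑' b, Λ b = 1) (hU1 : ∀ n, U Λ ht n ≤ 1)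
    (i0 D T n : ℕ) (e1 : ℝ≥0∞)
    (he : ∀ a, ∑' L, (if fp ht a L ∧ a + i0 < HT ht L then LW Λ L else 0) ≤ e1)
    (hn : D + i0 + T ≤ n) (f : List B → ℝ≥0∞)
    (hf : ∀ L, f L ≤ if HT ht L = n then 1 else 0) :
    ∑' L, LW Λ L * f L ≤ ∑' p, wt Λ ht i0 D T p * f (cat3 p) + 2 * e1 := by
  have hf0 : ∀ L, HT ht L ≠ n → f L = 0 := by
    intro L hL
    have := hf L
    rw [if_neg hL] at this
    exact le_antisymm this zero_le
  have e0 : ∑' L, LW Λ L * f L = ∑' L, (if D ≤ HT ht L then LW Λ L * f L else 0) := by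
    refine tsum_congr fun L => ?_
    by_cases h : D ≤ HT ht L
    · rw [if_pos h]
    · rw [if_neg h, hf0 L (by omega), mul_zero]
  rw [e0, split Λ ht h1 D f, tsum3]
  set I : List B → ℝ≥0∞ := fun P => ∑' A, ∑' R, cw Λ ht i0 T A * LW Λ R * f (P ++ (A ++ R))
    with hI
  have key : ∀ P, (if fp ht D P then LW Λ P * ∑' L2, LW Λ L2 * f (P ++ L2) else 0)
      ≤ cw Λ ht i0 D P * I P + cw Λ ht i0 D P * e1
        + (if fp ht D P ∧ D + i0 < HT ht P then LW Λ P else 0) := by
    intro P
    by_cases hP : fp ht D P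
    · rw [if_pos hP]
      by_cases ho : HT ht P ≤ D + i0
      · have hc : cw Λ ht i0 D P = LW Λ P := by unfold cw; rw [if_pos ⟨hP, ho⟩]
        rw [hc]
        have h2 : ∑' L2, LW Λ L2 * f (P ++ L2) ≤ I P + e1 := by
          have e2 : ∑' L2, LW Λ L2 * f (P ++ L2)
              = ∑' L2, (if T ≤ HT ht L2 then LW Λ L2 * f (P ++ L2) else 0) := by
            refine tsum_congr fun L => ?_
            by_cases h : T ≤ HT ht L
            · rw [if_pos h]
            · rw [if_neg h, hf0 (P ++ L) (by rw [HT_append]; omega), mul_zero]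
          rw [e2, split Λ ht h1 T (fun L => f (P ++ L))]
          calc _ ≤ ∑' A, ((∑' R, cw Λ ht i0 T A * LW Λ R * f (P ++ (A ++ R)))
                + (if fp ht T A ∧ T + i0 < HT ht A then LW Λ A else 0)) := by
                refine ENNReal.tsum_le_tsum fun A => ?_
                by_cases hA : fp ht T A
                · rw [if_pos hA]
                  by_cases hoA : HT ht A ≤ T + i0
                  · have hc' : cw Λ ht i0 T A = LW Λ A := by unfold cw; rw [if_pos ⟨hA, hoA⟩]
                    rw [hc', ← ENNReal.tsum_mul_left]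
                    refine le_trans (le_of_eq ?_) le_self_add
                    refine tsum_congr fun R => ?_
                    ring
                  · rw [if_pos ⟨hA, not_le.1 hoA⟩]
                    refine le_trans ?_ le_add_self
                    have := rest_le Λ ht hU1 n (P ++ A) f hf
                    simp only [List.append_assoc] at this
                    calc _ ≤ LW Λ A * 1 := by gcongr
                      _ = _ := mul_one _
                · rw [if_neg hA]; exact zero_le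
            _ ≤ I P + e1 := by
                rw [ENNReal.tsum_add]
                gcongr
                exact he T
        calc LW Λ P * ∑' L2, LW Λ L2 * f (P ++ L2) ≤ LW Λ P * (I P + e1) := by gcongr
          _ = LW Λ P * I P + LW Λ P * e1 := mul_add _ _ _
          _ ≤ _ := le_self_add
      · rw [if_pos ⟨hP, not_le.1 ho⟩]
        refine le_trans ?_ le_add_self
        calc _ ≤ LW Λ P * 1 := by gcongr; exact rest_le Λ ht hU1 n P f hf
          _ = _ := mul_one _
    · rw [if_neg hP]; exact zero_le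
  calc _ ≤ ∑' P, (cw Λ ht i0 D P * I P + cw Λ ht i0 D P * e1
        + (if fp ht D P ∧ D + i0 < HT ht P then LW Λ P else 0)) := ENNReal.tsum_le_tsum key
    _ = ∑' P, cw Λ ht i0 D P * I P + (∑' P, cw Λ ht i0 D P) * e1
        + ∑' P, (if fp ht D P ∧ D + i0 < HT ht P then LW Λ P else 0) := by
        rw [ENNReal.tsum_add, ENNReal.tsum_add, ENNReal.tsum_mul_right]
    _ ≤ ∑' P, cw Λ ht i0 D P * I P + 1 * e1 + e1 := by
        gcongr
        · exact cw_sum Λ ht h1 hΛ i0 D
        · exact he D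
    _ = ∑' P, ∑' A, ∑' R, wt Λ ht i0 D T (P, A, R) * f (cat3 (P, A, R)) + 2 * e1 := by
        have : ∀ P, cw Λ ht i0 D P * I P
            = ∑' A, ∑' R, wt Λ ht i0 D T (P, A, R) * f (cat3 (P, A, R)) := by
          intro P
          simp only [hI, wt, cat3]
          rw [← ENNReal.tsum_mul_left]
          refine tsum_congr fun A => ?_
          rw [← ENNReal.tsum_mul_left]
          refine tsum_congr fun R => ?_
          ring
        rw [tsum_congr this, one_mul, two_mul, add_assoc]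

/-- drop the rest -/
lemma drop_rest (hU1 : ∀ n, U Λ ht n ≤ 1) (i0 D T n : ℕ)
    (g : List B → List B → ℝ≥0∞) (f : List B × List B × List B → ℝ≥0∞)
    (hf : ∀ p, f p ≤ g p.1 p.2.1) (hf0 : ∀ p, HT ht (cat3 p) ≠ n → f p = 0) :
    ∑' p, wt Λ ht i0 D T p * f p
      ≤ ∑' P, cw Λ ht i0 D P * ∑' A, cw Λ ht i0 T A * g P A := by
  classical
  rw [tsum3]
  refine ENNReal.tsum_le_tsum fun P => ?_
  rw [← ENNReal.tsum_mul_left]
  refine ENNReal.tsum_le_tsum fun A => ?_
  calc ∑' R, wt Λ ht i0 D T (P, A, R) * f (P, A, R)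
      ≤ ∑' R, (cw Λ ht i0 D P * (cw Λ ht i0 T A * g P A)) *
        (if HT ht R = n - HT ht P - HT ht A then LW Λ R else 0) := by
        refine ENNReal.tsum_le_tsum fun R => ?_
        by_cases h : HT ht (cat3 (P, A, R)) = n
        · have h' : HT ht R = n - HT ht P - HT ht A := by
            simp only [cat3, HT_append] at h; omega
          rw [if_pos h']
          simp only [wt]
          calc _ ≤ cw Λ ht i0 D P * (cw Λ ht i0 T A * LW Λ R) * g P A := by
                gcongr; exact hf (P, A, R)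
            _ = _ := by ring
        · rw [hf0 _ h, mul_zero]; exact zero_le
    _ = (cw Λ ht i0 D P * (cw Λ ht i0 T A * g P A)) * U Λ ht (n - HT ht P - HT ht A) := by
        rw [ENNReal.tsum_mul_left]; rfl
    _ ≤ (cw Λ ht i0 D P * (cw Λ ht i0 T A * g P A)) * 1 := by gcongr; exact hU1 _
    _ = _ := mul_one _

/-- dense piece -/
def loc (T : ℕ) (th : ℝ≥0∞) (A : List B) : Prop := th ≤ pl Λ ht zz T (HT ht A, Dz zz A)

open Classical in
/-- non-dense pieces -/
lemma nonloc (T i0 D n : ℕ) (th u : ℝ≥0∞) (h1 : ∀ b, 1 ≤ ht b) (hΛ : ∑' b, Λ b = 1)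
    (hU1 : ∀ n, U Λ ht n ≤ 1)
    (hth : ∑' x, (if pl Λ ht zz T x < th then pl Λ ht zz T x else 0) ≤ u) :
    ∑' p, wt Λ ht i0 D T p * (if HT ht (cat3 p) = n ∧ ¬ loc Λ ht zz T th p.2.1 then 1 else 0)
      ≤ u := by
  refine le_trans (drop_rest Λ ht hU1 i0 D T n
    (fun _ A => if ¬ loc Λ ht zz T th A then 1 else 0) _ ?_ ?_) ?_
  · intro p
    by_cases h : loc Λ ht zz T th p.2.1
    · rw [if_neg (fun hh => hh.2 h)]; exact zero_le
    · simp only [h, not_false_eq_true, if_true, and_true]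
      split_ifs
      · exact le_rfl
      · exact zero_le
  · intro p hp
    rw [if_neg (fun hh => hp hh.1)]
  · have h2 : ∑' A, cw Λ ht i0 T A * (if ¬ loc Λ ht zz T th A then 1 else 0) ≤ u := by
      refine le_trans ?_ hth
      have e := regroup Λ ht zz T (fun x => if pl Λ ht zz T x < th then 1 else 0)
      have e' : ∑' x, (if pl Λ ht zz T x < th then pl Λ ht zz T x else 0)
          = ∑' x, pl Λ ht zz T x * (if pl Λ ht zz T x < th then 1 else 0) := by
        refine tsum_congr fun x => ?_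
        split_ifs <;> simp
      rw [e', ← e]
      refine ENNReal.tsum_le_tsum fun A => ?_
      by_cases hA : fp ht T A
      · rw [if_pos hA]
        gcongr
        · exact cw_le Λ ht i0 T A
        · unfold loc
          by_cases h : th ≤ pl Λ ht zz T (HT ht A, Dz zz A)
          · simp [h]
          · rw [if_pos h, if_pos (not_le.1 h)]
      · unfold cw
        rw [if_neg (fun hh => hA hh.1), zero_mul]
        exact zero_le
    calc _ ≤ ∑' P, cw Λ ht i0 D P * u := by gcongr with P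
      _ = (∑' P, cw Λ ht i0 D P) * u := ENNReal.tsum_mul_right
      _ ≤ 1 * u := by gcongr; exact cw_sum Λ ht h1 hΛ i0 D
      _ = u := one_mul _

end one

section two

variable {B1 B2 G : Type*} [AddCommGroup G]
  (Λ1 : B1 → ℝ≥0∞) (h1 : B1 → ℕ) (z1 : B1 → G)
  (Λ2 : B2 → ℝ≥0∞) (h2 : B2 → ℕ) (z2 : B2 → G)

open Classical in
/-- **one local piece**: side 1 local. -/
theorem local_bound (g1 : ∀ b, 1 ≤ h1 b) (g2 : ∀ b, 1 ≤ h2 b)
    (hΛ1 : ∑' b, Λ1 b = 1) (hΛ2 : ∑' b, Λ2 b = 1)
    (hU1 : ∀ n, U Λ1 h1 n ≤ 1) (hU2 : ∀ n, U Λ2 h2 n ≤ 1)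
    (T i0 D n J : ℕ) (th q e1 Cc Ce : ℝ≥0∞) (hth0 : th ≠ 0) (hq1 : q ≤ 1)
    (hq : ∑' x, (if th < pl Λ1 h1 z1 T x then pl Λ1 h1 z1 T x else 0) ≤ q)
    (he : ∀ a, ∑' L, (if fp h1 a L ∧ a + i0 < HT h1 L then LW Λ1 L else 0) ≤ e1)
    (hJ : J * (T + i0) ≤ D)
    (Q : List B1 → List B2 → G → ℕ → ℕ → Prop) (w : G)
    (HQ : ∀ a a' i i' : ℕ, D ≤ a → a ≤ D + i0 → D ≤ a' → a' ≤ D + i0 → i ≤ i0 → i' ≤ i0 →
      ∀ (E : Finset G) (μ : G → ℝ≥0∞) (M : ℝ≥0∞), ∑' x, μ x ≤ 1 → (∀ x, μ x ≤ M) →
      ∑' x, μ x * ∑' A, ∑' A', (if HT h1 A = T + i ∧ Dz z1 A ∈ E ∧ HT h2 A' = T + i' ∧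
        Q A A' x a a' then LW Λ1 A * LW Λ2 A' else 0) ≤ Cc + M * E.card * Ce) :
    ∑' p, wt Λ1 h1 i0 D T p * ∑' p', wt Λ2 h2 i0 D T p' *
      (if HT h1 (cat3 p) = n ∧ HT h2 (cat3 p') = n ∧ loc Λ1 h1 z1 T th p.2.1 ∧
        Q p.2.1 p'.2.1 (w + Dz z2 p'.1 - Dz z1 p.1) (HT h1 p.1) (HT h2 p'.1) then 1 else 0)
      ≤ q ^ J + J * e1 + J * ((i0 + 1) * (((i0 + 1) * (i0 + 1)) * (Cc + Ce))) := by
  -- the functional
  set ind : List B1 → List B2 → List B2 → G → ℕ → ℝ≥0∞ := fun A P' A' z a =>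
    if loc Λ1 h1 z1 T th A ∧ Q A A' (w + Dz z2 P' - z) a (HT h2 P') then 1 else 0 with hind
  set F : ℕ → G → ℝ≥0∞ := fun a z => ∑' A, cw Λ1 h1 i0 T A * ∑' P', cw Λ2 h2 i0 D P' *
    ∑' A', cw Λ2 h2 i0 T A' * ind A P' A' z a with hF
  have hind1 : ∀ A P' A' z a, ind A P' A' z a ≤ 1 := by
    intro A P' A' z a
    simp only [hind]
    split_ifs
    · exact le_rfl
    · exact zero_le
  have hin1 : ∀ A P' z a, ∑' A', cw Λ2 h2 i0 T A' * ind A P' A' z a ≤ 1 := by
    intro A P' z a
    calc _ ≤ ∑' A', cw Λ2 h2 i0 T A' * 1 := by gcongr; exact hind1 _ _ _ _ _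
      _ ≤ 1 := by simpa using cw_sum Λ2 h2 g2 hΛ2 i0 T
  have hin2 : ∀ A z a, ∑' P', cw Λ2 h2 i0 D P' * ∑' A', cw Λ2 h2 i0 T A' * ind A P' A' z a
      ≤ 1 := by
    intro A z a
    calc _ ≤ ∑' P', cw Λ2 h2 i0 D P' * 1 := by gcongr; exact hin1 _ _ _ _
      _ ≤ 1 := by simpa using cw_sum Λ2 h2 g2 hΛ2 i0 D
  have hF1 : ∀ a z, F a z ≤ 1 := by
    intro a z
    calc _ ≤ ∑' A, cw Λ1 h1 i0 T A * 1 := by simp only [hF]; gcongr; exact hin2 _ _ _
      _ ≤ 1 := by simpa using cw_sum Λ1 h1 g1 hΛ1 i0 T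
  -- step 1
  have step1 : ∑' p, wt Λ1 h1 i0 D T p * ∑' p', wt Λ2 h2 i0 D T p' *
      (if HT h1 (cat3 p) = n ∧ HT h2 (cat3 p') = n ∧ loc Λ1 h1 z1 T th p.2.1 ∧
        Q p.2.1 p'.2.1 (w + Dz z2 p'.1 - Dz z1 p.1) (HT h1 p.1) (HT h2 p'.1) then 1 else 0)
      ≤ ∑' P, cw Λ1 h1 i0 D P * F (HT h1 P) (Dz z1 P) := by
    refine drop_rest Λ1 h1 hU1 i0 D T n (fun P A => ∑' P', cw Λ2 h2 i0 D P' *
      ∑' A', cw Λ2 h2 i0 T A' * ind A P' A' (Dz z1 P) (HT h1 P)) _ ?_ ?_
    · intro p
      refine drop_rest Λ2 h2 hU2 i0 D T n (fun P' A' => ind p.2.1 P' A' (Dz z1 p.1) (HT h1 p.1))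
        _ ?_ ?_
      · intro p'
        simp only [hind]
        split_ifs with h3 h4
        · exact le_rfl
        · exact absurd h3.2.2 h4
        · exact zero_le
        · exact le_rfl
      · intro p' hp'
        rw [if_neg (fun hh => hp' hh.2.1)]
    · intro p hp
      rw [ENNReal.tsum_eq_zero]
      intro p'
      rw [if_neg (fun hh => hp hh.1), mul_zero]
  refine step1.trans ?_
  have step2 : ∑' P, cw Λ1 h1 i0 D P * F (HT h1 P) (Dz z1 P)
      = ∑' L, (if fp h1 D L then LW Λ1 L * (if HT h1 L ≤ D + i0 then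
        F (HT h1 L) (Dz z1 L) else 0) else 0) := by
    refine tsum_congr fun L => ?_
    unfold cw
    by_cases ha : fp h1 D L <;> by_cases hb : HT h1 L ≤ D + i0 <;> simp [ha, hb]
  rw [step2]
  refine descent Λ1 h1 z1 g1 hΛ1 T i0 th q e1 _ hq1 hq he J D F hJ hF1 ?_
  intro a ha ha' ν hν hν'
  -- level sets
  have hplf : ∑' x, pl Λ1 h1 z1 T x ≤ 1 := (pl_sum Λ1 h1 z1 g1 hΛ1 T).le
  have hfin : ∀ i : ℕ, {z | th ≤ pl Λ1 h1 z1 T (T + i, z)}.Finite := by
    intro i
    have hs : ∑' z, pl Λ1 h1 z1 T (T + i, z) ≠ ⊤ := by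
      refine ne_top_of_le_ne_top ENNReal.one_ne_top (le_trans ?_ hplf)
      rw [ENNReal.tsum_prod']
      exact ENNReal.le_tsum (T + i)
    exact ENNReal.finite_const_le_of_tsum_ne_top hs hth0
  set E : ℕ → Finset G := fun i => (hfin i).toFinset with hE
  have hcard : ∀ i, th * ((E i).card : ℝ≥0∞) ≤ 1 := by
    intro i
    calc th * ((E i).card : ℝ≥0∞) = ∑ _z ∈ E i, th := by
          rw [Finset.sum_const, nsmul_eq_mul, mul_comm]
      _ ≤ ∑ z ∈ E i, pl Λ1 h1 z1 T (T + i, z) := by
          refine Finset.sum_le_sum fun z hz => ?_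
          have : z ∈ {z | th ≤ pl Λ1 h1 z1 T (T + i, z)} := (hfin i).mem_toFinset.1 hz
          exact this
      _ ≤ ∑' z, pl Λ1 h1 z1 T (T + i, z) := ENNReal.sum_le_tsum _
      _ ≤ ∑' x, pl Λ1 h1 z1 T x := by
          rw [ENNReal.tsum_prod']
          exact ENNReal.le_tsum (T + i)
      _ ≤ 1 := hplf
  -- swap
  have sw : ∑' z, ν z * F a z = ∑' P', cw Λ2 h2 i0 D P' *
      ∑' z, ν z * ∑' A, ∑' A', cw Λ1 h1 i0 T A * cw Λ2 h2 i0 T A' * ind A P' A' z a := by
    simp only [hF, ← ENNReal.tsum_mul_left]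
    calc ∑' z, ∑' A, ∑' P', ∑' A', ν z * (cw Λ1 h1 i0 T A * (cw Λ2 h2 i0 D P' *
          (cw Λ2 h2 i0 T A' * ind A P' A' z a)))
        = ∑' z, ∑' P', ∑' A, ∑' A', ν z * (cw Λ1 h1 i0 T A * (cw Λ2 h2 i0 D P' *
          (cw Λ2 h2 i0 T A' * ind A P' A' z a))) := by
          refine tsum_congr fun z => ?_
          exact ENNReal.tsum_comm
      _ = ∑' P', ∑' z, ∑' A, ∑' A', ν z * (cw Λ1 h1 i0 T A * (cw Λ2 h2 i0 D P' *
          (cw Λ2 h2 i0 T A' * ind A P' A' z a))) := ENNReal.tsum_comm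
      _ = _ := by
          refine tsum_congr fun P' => tsum_congr fun z => tsum_congr fun A =>
            tsum_congr fun A' => ?_
          ring
  rw [sw]
  have hP : ∀ P', cw Λ2 h2 i0 D P' *
      ∑' z, ν z * ∑' A, ∑' A', cw Λ1 h1 i0 T A * cw Λ2 h2 i0 T A' * ind A P' A' z a
      ≤ cw Λ2 h2 i0 D P' * (((i0 + 1) * (i0 + 1)) * (Cc + Ce)) := by
    intro P'
    by_cases hc : fp h2 D P' ∧ HT h2 P' ≤ D + i0
    · gcongr
      have hDP := le_HT_of_fp h2 hc.1
      set μ : G → ℝ≥0∞ := fun x => ν (w + Dz z2 P' - x) with hμ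
      have e5 : ∑' z, ν z * ∑' A, ∑' A', cw Λ1 h1 i0 T A * cw Λ2 h2 i0 T A' * ind A P' A' z a
          = ∑' x, μ x * ∑' A, ∑' A', cw Λ1 h1 i0 T A * cw Λ2 h2 i0 T A' *
            ind A P' A' (w + Dz z2 P' - x) a :=
        ((Equiv.subLeft (w + Dz z2 P')).tsum_eq (fun z => ν z * ∑' A, ∑' A',
          cw Λ1 h1 i0 T A * cw Λ2 h2 i0 T A' * ind A P' A' z a)).symm
      rw [e5]
      have hμ1 : ∑' x, μ x ≤ 1 := by
        have : ∑' x, μ x = ∑' z, ν z := (Equiv.subLeft (w + Dz z2 P')).tsum_eq ν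
        rw [this]; exact hν
      have hpt : ∀ x A A', cw Λ1 h1 i0 T A * cw Λ2 h2 i0 T A' *
            ind A P' A' (w + Dz z2 P' - x) a
          ≤ ∑ i ∈ Finset.range (i0 + 1), ∑ i' ∈ Finset.range (i0 + 1),
            (if HT h1 A = T + i ∧ Dz z1 A ∈ E i ∧ HT h2 A' = T + i' ∧
              Q A A' x a (HT h2 P') then LW Λ1 A * LW Λ2 A' else 0) := by
        intro x A A'
        by_cases hall : (fp h1 T A ∧ HT h1 A ≤ T + i0) ∧ (fp h2 T A' ∧ HT h2 A' ≤ T + i0) ∧
            loc Λ1 h1 z1 T th A ∧ Q A A' x a (HT h2 P')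
        · obtain ⟨⟨hA, hA'⟩, ⟨hB, hB'⟩, hl, hQ⟩ := hall
          have q1 := le_HT_of_fp h1 hA
          have q2 := le_HT_of_fp h2 hB
          have heq1 : HT h1 A = T + (HT h1 A - T) := by omega
          have heq2 : HT h2 A' = T + (HT h2 A' - T) := by omega
          have hmem : Dz z1 A ∈ E (HT h1 A - T) := by
            simp only [hE]
            rw [(hfin _).mem_toFinset]
            have := hl
            unfold loc at this
            rw [heq1] at this
            exact this
          calc cw Λ1 h1 i0 T A * cw Λ2 h2 i0 T A' * ind A P' A' (w + Dz z2 P' - x) a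
              ≤ LW Λ1 A * LW Λ2 A' * 1 := by
                gcongr
                · exact cw_le Λ1 h1 i0 T A
                · exact cw_le Λ2 h2 i0 T A'
                · exact hind1 _ _ _ _ _
            _ = (if HT h1 A = T + (HT h1 A - T) ∧ Dz z1 A ∈ E (HT h1 A - T) ∧
                  HT h2 A' = T + (HT h2 A' - T) ∧
                  Q A A' x a (HT h2 P') then LW Λ1 A * LW Λ2 A' else 0) := by
                rw [if_pos ⟨heq1, hmem, heq2, hQ⟩, mul_one]
            _ ≤ ∑ i' ∈ Finset.range (i0 + 1),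
                  (if HT h1 A = T + (HT h1 A - T) ∧ Dz z1 A ∈ E (HT h1 A - T) ∧
                  HT h2 A' = T + i' ∧
                  Q A A' x a (HT h2 P') then LW Λ1 A * LW Λ2 A' else 0) :=
                Finset.single_le_sum (f := fun i' =>
                  (if HT h1 A = T + (HT h1 A - T) ∧ Dz z1 A ∈ E (HT h1 A - T) ∧
                  HT h2 A' = T + i' ∧
                  Q A A' x a (HT h2 P') then LW Λ1 A * LW Λ2 A' else 0))
                  (fun _ _ => zero_le) (Finset.mem_range.2 (by omega))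
            _ ≤ _ := Finset.single_le_sum (f := fun i => ∑ i' ∈ Finset.range (i0 + 1),
                  (if HT h1 A = T + i ∧ Dz z1 A ∈ E i ∧
                  HT h2 A' = T + i' ∧
                  Q A A' x a (HT h2 P') then LW Λ1 A * LW Λ2 A' else 0))
                  (fun _ _ => zero_le) (Finset.mem_range.2 (by omega))
        · have : cw Λ1 h1 i0 T A * cw Λ2 h2 i0 T A' * ind A P' A' (w + Dz z2 P' - x) a = 0 := by
            simp only [cw, hind, sub_sub_cancel]
            by_cases b1 : fp h1 T A ∧ HT h1 A ≤ T + i0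
            · by_cases b2 : fp h2 T A' ∧ HT h2 A' ≤ T + i0
              · rw [if_neg (fun hh : loc Λ1 h1 z1 T th A ∧ Q A A' x a (HT h2 P') =>
                  hall ⟨b1, b2, hh.1, hh.2⟩), mul_zero]
              · rw [if_neg b2]; ring
            · rw [if_neg b1]; ring
          rw [this]; exact zero_le
      calc _ ≤ ∑' x, μ x * ∑' A, ∑' A', ∑ i ∈ Finset.range (i0 + 1),
            ∑ i' ∈ Finset.range (i0 + 1),
            (if HT h1 A = T + i ∧ Dz z1 A ∈ E i ∧ HT h2 A' = T + i' ∧
              Q A A' x a (HT h2 P') then LW Λ1 A * LW Λ2 A' else 0) := by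
            gcongr with x A A'
            exact hpt x A A'
        _ = ∑ i ∈ Finset.range (i0 + 1), ∑ i' ∈ Finset.range (i0 + 1),
            ∑' x, μ x * ∑' A, ∑' A', (if HT h1 A = T + i ∧ Dz z1 A ∈ E i ∧
              HT h2 A' = T + i' ∧
              Q A A' x a (HT h2 P') then LW Λ1 A * LW Λ2 A' else 0) := by
            have c1 : ∀ (x : G) (A : List B1), ∑' A', ∑ i ∈ Finset.range (i0 + 1),
                ∑ i' ∈ Finset.range (i0 + 1), (if HT h1 A = T + i ∧ Dz z1 A ∈ E i ∧
                HT h2 A' = T + i' ∧ Q A A' x a (HT h2 P') then LW Λ1 A * LW Λ2 A' else 0)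
                = ∑ i ∈ Finset.range (i0 + 1), ∑ i' ∈ Finset.range (i0 + 1), ∑' A',
                (if HT h1 A = T + i ∧ Dz z1 A ∈ E i ∧
                HT h2 A' = T + i' ∧ Q A A' x a (HT h2 P') then LW Λ1 A * LW Λ2 A' else 0) := by
              intro x A
              rw [Summable.tsum_finsetSum (fun _ _ => ENNReal.summable)]
              refine Finset.sum_congr rfl fun i _ => ?_
              rw [Summable.tsum_finsetSum (fun _ _ => ENNReal.summable)]
            have c2 : ∀ x : G, ∑' A, ∑ i ∈ Finset.range (i0 + 1),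
                ∑ i' ∈ Finset.range (i0 + 1), ∑' A', (if HT h1 A = T + i ∧ Dz z1 A ∈ E i ∧
                HT h2 A' = T + i' ∧ Q A A' x a (HT h2 P') then LW Λ1 A * LW Λ2 A' else 0)
                = ∑ i ∈ Finset.range (i0 + 1), ∑ i' ∈ Finset.range (i0 + 1), ∑' A, ∑' A',
                (if HT h1 A = T + i ∧ Dz z1 A ∈ E i ∧
                HT h2 A' = T + i' ∧ Q A A' x a (HT h2 P') then LW Λ1 A * LW Λ2 A' else 0) := by
              intro x
              rw [Summable.tsum_finsetSum (fun _ _ => ENNReal.summable)]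
              refine Finset.sum_congr rfl fun i _ => ?_
              rw [Summable.tsum_finsetSum (fun _ _ => ENNReal.summable)]
            simp only [c1, c2, Finset.mul_sum]
            rw [Summable.tsum_finsetSum (fun _ _ => ENNReal.summable)]
            refine Finset.sum_congr rfl fun i _ => ?_
            rw [Summable.tsum_finsetSum (fun _ _ => ENNReal.summable)]
        _ ≤ ∑ i ∈ Finset.range (i0 + 1), ∑ i' ∈ Finset.range (i0 + 1), (Cc + Ce) := by
            refine Finset.sum_le_sum fun i hi => Finset.sum_le_sum fun i' hi' => ?_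
            have r1 := Finset.mem_range.1 hi
            have r2 := Finset.mem_range.1 hi'
            refine (HQ a (HT h2 P') i i' ha ha' hDP hc.2 (by omega) (by omega) (E i) μ th hμ1
              (fun x => hν' _)).trans ?_
            have := hcard i
            calc Cc + th * ((E i).card : ℝ≥0∞) * Ce ≤ Cc + 1 * Ce := by gcongr
              _ = Cc + Ce := by rw [one_mul]
        _ = _ := by
            rw [Finset.sum_const, Finset.sum_const, Finset.card_range, nsmul_eq_mul,
              nsmul_eq_mul]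
            push_cast
            ring
    · have : cw Λ2 h2 i0 D P' = 0 := by unfold cw; rw [if_neg hc]
      rw [this, zero_mul, zero_mul]
  calc _ ≤ ∑' P', cw Λ2 h2 i0 D P' * (((i0 + 1) * (i0 + 1)) * (Cc + Ce)) :=
        ENNReal.tsum_le_tsum hP
    _ = (∑' P', cw Λ2 h2 i0 D P') * (((i0 + 1) * (i0 + 1)) * (Cc + Ce)) := ENNReal.tsum_mul_right
    _ ≤ 1 * (((i0 + 1) * (i0 + 1)) * (Cc + Ce)) := by gcongr; exact cw_sum Λ2 h2 g2 hΛ2 i0 D
    _ = _ := one_mul _

end two

end Crest.Agent.R154.Asm519
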