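import Crest.Agent.R154.AsmD_52

/-! Row 154 (helper52): the bound of one window. -/

set_option autoImplicit false

namespace Crest.Agent.R154.Asm52

open Crest.Agent.R154.B5A Crest.Agent.R154.FP52
open scoped ENNReal Classical
open Finset

section good

variable {BX BY G : Type*} [AddCommGroup G]
  (ΛX : BX → ℝ≥0∞) (hX : BX → ℕ) (zX : BX → G) (sX : BX → Set (G × ℕ))
  (ΛY : BY → ℝ≥0∞) (hY : BY → ℕ) (zY : BY → G) (sY : BY → Set (G × ℕ))

lemma Th_int (Q : List BX → List BY → Prop) (QQ : ℕ → ℕ → List BX → List BY → Prop)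
    (c S i0 s i i' : ℕ)
    (hQ : ∀ P P', S ≤ HT hX P → S + i0 ≤ HT hY P' → Q P P' →
      QQ (HT hX P - S) (HT hY P' - (S + i0)) P P') (μ : G → ℝ≥0∞) (D0 : ℝ≥0∞)
    (hD0 : ∀ j j', j ≤ i0 → j' ≤ i0 → ∑' x, μ x * ∑' L : List BX, ∑' L' : List BY,
        (if HT hX L = S + j ∧ HT hY L' = S + i0 + j' ∧ QQ j j' L L' ∧
          ev hX zX sX hY zY sY (c + i0 + i0 + s) (c + S - s) L L' x (c + i) (c + i0 + i')
          then LW ΛX L * LW ΛY L' else 0) ≤ D0) :
    ∑' x, μ x * Th ΛX hX zX sX ΛY hY zY sY Q c S i0 s i i' x ≤ ((i0 + 1 : ℕ) : ℝ≥0∞) ^ 2 * D0 := by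
  calc _ ≤ ∑' x, μ x * ∑ j ∈ range (i0 + 1), ∑ j' ∈ range (i0 + 1), ∑' L : List BX,
        ∑' L' : List BY, (if HT hX L = S + j ∧ HT hY L' = S + i0 + j' ∧ QQ j j' L L' ∧
          ev hX zX sX hY zY sY (c + i0 + i0 + s) (c + S - s) L L' x (c + i) (c + i0 + i')
          then LW ΛX L * LW ΛY L' else 0) := by
        refine ENNReal.tsum_le_tsum fun x => ?_
        gcongr
        exact Th_le_sum ΛX hX zX sX ΛY hY zY sY Q QQ c S i0 s i i' x hQ
    _ = ∑ j ∈ range (i0 + 1), ∑ j' ∈ range (i0 + 1), ∑' x, μ x * ∑' L : List BX,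
        ∑' L' : List BY, (if HT hX L = S + j ∧ HT hY L' = S + i0 + j' ∧ QQ j j' L L' ∧
          ev hX zX sX hY zY sY (c + i0 + i0 + s) (c + S - s) L L' x (c + i) (c + i0 + i')
          then LW ΛX L * LW ΛY L' else 0) := by
        simp_rw [Finset.mul_sum]
        rw [Summable.tsum_finsetSum (fun _ _ => ENNReal.summable)]
        refine Finset.sum_congr rfl fun j _ => ?_
        rw [Summable.tsum_finsetSum (fun _ _ => ENNReal.summable)]
    _ ≤ ∑ j ∈ range (i0 + 1), ∑ j' ∈ range (i0 + 1), D0 := by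
        refine Finset.sum_le_sum fun j hj => Finset.sum_le_sum fun j' hj' => ?_
        have a1 := Finset.mem_range.1 hj
        have a2 := Finset.mem_range.1 hj'
        exact hD0 j j' (by omega) (by omega)
    _ = _ := by
        simp only [Finset.sum_const, card_range, nsmul_eq_mul]
        ring

/-- **one window** -/
theorem good_le (h1X : ∀ b, 1 ≤ hX b) (h1Y : ∀ b, 1 ≤ hY b) (hΛX : ∑' b, ΛX b = 1)
    (hΛY : ∑' b, ΛY b = 1) (hU1X : ∀ n, U ΛX hX n ≤ 1) (hU1Y : ∀ n, U ΛY hY n ≤ 1)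
    (C : ℝ≥0∞) (us : ℕ → ℝ≥0∞)
    (HX : HWX ΛX hX zX sX ΛY hY zY sY C us) (HY : HWY ΛX hX zX sX ΛY hY zY sY C us)
    (J c S i0 s : ℕ) (u lam : ℝ≥0∞) (hu0 : u ≠ 0) (hu1 : u ≤ 1) (hl0 : lam ≠ 0) (hl : lam ≠ ⊤)
    (hs : s ≤ S) (hJ : J * (S + i0 + i0) ≤ c) (w : G) :
    Good ΛX hX zX sX ΛY hY zY sY c S i0 s w ≤
      u ^ 2 + (2 * ((i0 + 1 : ℕ) : ℝ≥0∞) ^ 4 *
        (C * (lam + ((i0 + 1 : ℕ) * J : ℝ≥0∞) * us s / lam + us s))
      + (2 * (1 - u) ^ J + (eo ΛX hX i0 + eo ΛY hY i0) * J)) := by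
  obtain ⟨thX, tX0, tX1, tX2, tX3⟩ := Dens903.quantile
    (fun a : ℕ × G => fl ΛX hX zX S a.1 a.2)
    (by rw [ENNReal.tsum_prod (f := fun j y => fl ΛX hX zX S j y)]; exact fl_sum ΛX hX zX h1X hΛX S)
    hu0 hu1
  obtain ⟨thY, tY0, tY1, tY2, tY3⟩ := Dens903.quantile
    (fun a : ℕ × G => fl ΛY hY zY (S + i0) a.1 a.2)
    (by rw [ENNReal.tsum_prod (f := fun j y => fl ΛY hY zY (S + i0) j y)]
        exact fl_sum ΛY hY zY h1Y hΛY (S + i0))
    hu0 hu1
  set locX : List BX → Prop := fun P => thX ≤ fl ΛX hX zX S (HT hX P - S) (Dp zX P) with hlocX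
  set locY : List BY → Prop :=
    fun P' => thY ≤ fl ΛY hY zY (S + i0) (HT hY P' - (S + i0)) (Dp zY P') with hlocY
  -- split
  have split : Good ΛX hX zX sX ΛY hY zY sY c S i0 s w ≤ u ^ 2
      + (GQ ΛX hX zX sX ΛY hY zY sY (fun P _ => locX P) c S i0 s w
      + GQ ΛX hX zX sX ΛY hY zY sY (fun _ P' => locY P') c S i0 s w) := by
    calc Good ΛX hX zX sX ΛY hY zY sY c S i0 s w
        ≤ EF ΛX hX c (fun A => EF ΛX hX S (fun P => EF ΛY hY (c + i0) (fun A' =>
          EF ΛY hY (S + i0) (fun P' =>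
          (if locX P then 0 else 1) * (if locY P' then 0 else 1) +
          ((if (HT hX A ≤ c + i0 ∧ HT hX P ≤ S + i0 ∧ HT hY A' ≤ c + i0 + i0 ∧
            HT hY P' ≤ S + i0 + i0) ∧ locX P ∧
            ev hX zX sX hY zY sY (c + i0 + i0 + s) (c + S - s) P P' (w + Dp zY A' - Dp zX A)
            (HT hX A) (HT hY A') then 1 else 0) +
          (if (HT hX A ≤ c + i0 ∧ HT hX P ≤ S + i0 ∧ HT hY A' ≤ c + i0 + i0 ∧
            HT hY P' ≤ S + i0 + i0) ∧ locY P' ∧
            ev hX zX sX hY zY sY (c + i0 + i0 + s) (c + S - s) P P' (w + Dp zY A' - Dp zX A)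
            (HT hX A) (HT hY A') then 1 else 0)))))) := by
          rw [Good]
          refine EF_mono _ _ _ fun A _ => EF_mono _ _ _ fun P _ => ?_
          by_cases q1 : HT hX A ≤ c + i0 ∧ HT hX P ≤ S + i0
          · rw [if_pos q1]
            refine EF_mono _ _ _ fun A' _ => EF_mono _ _ _ fun P' _ => ?_
            by_cases q2 : HT hY A' ≤ c + i0 + i0 ∧ HT hY P' ≤ S + i0 + i0
            · rw [if_pos q2]
              by_cases q3 : ev hX zX sX hY zY sY (c + i0 + i0 + s) (c + S - s) P P'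
                (w + Dp zY A' - Dp zX A) (HT hX A) (HT hY A')
              · rw [if_pos q3]
                by_cases q4 : locX P
                · rw [if_pos (⟨⟨q1.1, q1.2, q2.1, q2.2⟩, q4, q3⟩ : (HT hX A ≤ c + i0 ∧
                    HT hX P ≤ S + i0 ∧ HT hY A' ≤ c + i0 + i0 ∧ HT hY P' ≤ S + i0 + i0) ∧ locX P ∧
                    ev hX zX sX hY zY sY (c + i0 + i0 + s) (c + S - s) P P'
                    (w + Dp zY A' - Dp zX A) (HT hX A) (HT hY A'))]
                  exact le_trans le_self_add le_add_self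
                · by_cases q5 : locY P'
                  · rw [if_pos (⟨⟨q1.1, q1.2, q2.1, q2.2⟩, q5, q3⟩ : (HT hX A ≤ c + i0 ∧
                      HT hX P ≤ S + i0 ∧ HT hY A' ≤ c + i0 + i0 ∧ HT hY P' ≤ S + i0 + i0) ∧
                      locY P' ∧ ev hX zX sX hY zY sY (c + i0 + i0 + s) (c + S - s) P P'
                      (w + Dp zY A' - Dp zX A) (HT hX A) (HT hY A'))]
                    exact le_trans le_add_self le_add_self
                  · rw [if_neg q4, if_neg q5, one_mul]; exact le_self_add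
              · rw [if_neg q3]; exact zero_le
            · rw [if_neg q2]; exact zero_le
          · rw [if_neg q1]; exact zero_le
      _ = EF ΛX hX c (fun A => EF ΛX hX S (fun P => EF ΛY hY (c + i0) (fun A' =>
          EF ΛY hY (S + i0) (fun P' =>
          (if locX P then 0 else 1) * (if locY P' then 0 else 1)))))
          + (GQ ΛX hX zX sX ΛY hY zY sY (fun P _ => locX P) c S i0 s w
          + GQ ΛX hX zX sX ΛY hY zY sY (fun _ P' => locY P') c S i0 s w) := by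
          simp_rw [EF_add]
          unfold GQ
          congr!
      _ ≤ _ := by
          refine add_le_add ?_ le_rfl
          have n1 := nonloc ΛX hX zX S thX u tX2
          have n2 := nonloc ΛY hY zY (S + i0) thY u tY2
          calc _ ≤ EF ΛX hX c (fun A => EF ΛX hX S (fun P => EF ΛY hY (c + i0) (fun A' =>
                (if locX P then 0 else 1) * u))) := by
                refine EF_mono _ _ _ fun A _ => EF_mono _ _ _ fun P _ =>
                  EF_mono _ _ _ fun A' _ => ?_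
                rw [EF_const_mul]
                gcongr
            _ = EF ΛX hX c (fun A => EF ΛX hX S (fun P => (if locX P then 0 else 1) * u)) := by
                simp_rw [EF_const ΛY hY h1Y hΛY]
            _ ≤ EF ΛX hX c (fun A => u * u) := by
                refine EF_mono _ _ _ fun A _ => ?_
                rw [EF_mul_const]
                gcongr
            _ = u ^ 2 := by rw [EF_const ΛX hX h1X hΛX, sq]
  have hJX : J * (S + i0) ≤ c := le_trans (Nat.mul_le_mul_left _ (by omega)) hJ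
  have dX := dens_fl ΛX hX zX h1X hΛX hU1X S i0 thX u hu1 tX3 J c hJX
  have dY := dens_fl ΛY hY zY h1Y hΛY hU1Y (S + i0) i0 thY u hu1 tY3 J (c + i0) (by omega)
  have fin : ∀ th : ℝ≥0∞, th ≤ 1 → ((i0 : ℝ≥0∞) + 1) * th * J ≠ ⊤ := by
    intro th hth
    refine ENNReal.mul_ne_top (ENNReal.mul_ne_top ?_ (ne_top_of_le_ne_top ENNReal.one_ne_top hth))
      (ENNReal.natCast_ne_top J)
    exact ENNReal.add_ne_top.2 ⟨ENNReal.natCast_ne_top _, ENNReal.one_ne_top⟩
  have hW : ∀ (th : ℝ≥0∞) (k : ℕ), th * (k : ℝ≥0∞) ≤ 1 →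
      ((i0 : ℝ≥0∞) + 1) * th * J * k ≤ ((i0 + 1 : ℕ) * J : ℝ≥0∞) := by
    intro th k hk
    calc ((i0 : ℝ≥0∞) + 1) * th * J * k = ((i0 : ℝ≥0∞) + 1) * J * (th * k) := by ring
      _ ≤ ((i0 : ℝ≥0∞) + 1) * J * 1 := by gcongr
      _ = _ := by push_cast; ring
  -- X local
  have gX : GQ ΛX hX zX sX ΛY hY zY sY (fun P _ => locX P) c S i0 s w
      ≤ ((i0 + 1 : ℕ) : ℝ≥0∞) ^ 2 * (((i0 + 1 : ℕ) : ℝ≥0∞) ^ 2 *
        (C * (lam + ((i0 + 1 : ℕ) * J : ℝ≥0∞) * us s / lam + us s)))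
        + ((1 - u) ^ J + eo ΛX hX i0 * J) := by
    rw [GQ_eq]
    refine key (fl ΛX hX zX c) (fl ΛY hY zY (c + i0)) (fl_sum ΛX hX zX h1X hΛX c).le
      (fl_sum ΛY hY zY h1Y hΛY (c + i0)).le _
      (fun i i' x => Th_le_one ΛX hX zX sX ΛY hY zY sY h1X h1Y hΛX hΛY _ c S i0 s i i' x) i0
      (fun i i' x h => Th_zero ΛX hX zX sX ΛY hY zY sY _ c S i0 s i i' x h) w
      (((i0 : ℝ≥0∞) + 1) * thX * J) _ _ ?_ (Or.inl dX)
    intro i i' hi hi' μ hμ1 hμ2
    refine Th_int ΛX hX zX sX ΛY hY zY sY (fun P _ => locX P)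
      (fun j _ L _ => Dp zX L ∈ Eset ΛX hX zX h1X hΛX S thX tX0 j) c S i0 s i i' ?_ μ _ ?_
    · intro P P' _ _ hP
      rw [mem_Eset]
      exact hP
    · intro j j' hj hj'
      have := HX s (S + j) (S + i0 + j') (c + i) (c + i0 + i') (c + i0 + i0 + s) (c + S - s)
        (Eset ΛX hX zX h1X hΛX S thX tX0 j) μ (((i0 : ℝ≥0∞) + 1) * thX * J) lam hμ1 hμ2
        (fin thX tX1) hl0 hl (by omega) (by omega) (by omega) (by omega) (by omega) (by omega)
      refine le_trans (le_of_eq ?_) (this.trans ?_)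
      · refine tsum_congr fun x => ?_
        congr 1
        refine tsum_congr fun L => tsum_congr fun L' => ?_
        by_cases hh : (HT hX L = S + j ∧ HT hY L' = S + i0 + j' ∧
            Dp zX L ∈ Eset ΛX hX zX h1X hΛX S thX tX0 j ∧
            ev hX zX sX hY zY sY (c + i0 + i0 + s) (c + S - s) L L' x (c + i) (c + i0 + i'))
        · rw [if_pos hh, if_pos ⟨hh.1, hh.2.2.1, hh.2.1, hh.2.2.2⟩]
        · rw [if_neg hh, if_neg (fun h => hh ⟨h.1, h.2.2.1, h.2.1, h.2.2.2⟩)]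
      · have hh := hW thX _ (card_Eset ΛX hX zX h1X hΛX S thX tX0 j)
        exact mul_le_mul_right (add_le_add (add_le_add le_rfl
          (ENNReal.div_le_div_right (mul_le_mul_left hh _) _)) le_rfl) _
  -- Y local
  have gY : GQ ΛX hX zX sX ΛY hY zY sY (fun _ P' => locY P') c S i0 s w
      ≤ ((i0 + 1 : ℕ) : ℝ≥0∞) ^ 2 * (((i0 + 1 : ℕ) : ℝ≥0∞) ^ 2 *
        (C * (lam + ((i0 + 1 : ℕ) * J : ℝ≥0∞) * us s / lam + us s)))
        + ((1 - u) ^ J + eo ΛY hY i0 * J) := by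
    rw [GQ_eq]
    refine key (fl ΛX hX zX c) (fl ΛY hY zY (c + i0)) (fl_sum ΛX hX zX h1X hΛX c).le
      (fl_sum ΛY hY zY h1Y hΛY (c + i0)).le _
      (fun i i' x => Th_le_one ΛX hX zX sX ΛY hY zY sY h1X h1Y hΛX hΛY _ c S i0 s i i' x) i0
      (fun i i' x h => Th_zero ΛX hX zX sX ΛY hY zY sY _ c S i0 s i i' x h) w
      (((i0 : ℝ≥0∞) + 1) * thY * J) _ _ ?_ (Or.inr dY)
    intro i i' hi hi' μ hμ1 hμ2
    refine Th_int ΛX hX zX sX ΛY hY zY sY (fun _ P' => locY P')
      (fun _ j' _ L' => Dp zY L' ∈ Eset ΛY hY zY h1Y hΛY (S + i0) thY tY0 j') c S i0 s i i'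
      ?_ μ _ ?_
    · intro P P' _ _ hP
      rw [mem_Eset]
      exact hP
    · intro j j' hj hj'
      have := HY s (S + j) (S + i0 + j') (c + i) (c + i0 + i') (c + i0 + i0 + s) (c + S - s)
        (Eset ΛY hY zY h1Y hΛY (S + i0) thY tY0 j') μ (((i0 : ℝ≥0∞) + 1) * thY * J) lam hμ1 hμ2
        (fin thY tY1) hl0 hl (by omega) (by omega) (by omega) (by omega) (by omega) (by omega)
      refine le_trans (le_of_eq ?_) (this.trans ?_)
      · refine tsum_congr fun x => ?_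
        congr 1
        refine tsum_congr fun L => tsum_congr fun L' => ?_
        by_cases hh : (HT hX L = S + j ∧ HT hY L' = S + i0 + j' ∧
            Dp zY L' ∈ Eset ΛY hY zY h1Y hΛY (S + i0) thY tY0 j' ∧
            ev hX zX sX hY zY sY (c + i0 + i0 + s) (c + S - s) L L' x (c + i) (c + i0 + i'))
        · rw [if_pos hh, if_pos hh]
        · rw [if_neg hh, if_neg hh]
      · have hh := hW thY _ (card_Eset ΛY hY zY h1Y hΛY (S + i0) thY tY0 j')
        exact mul_le_mul_right (add_le_add (add_le_add le_rfl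
          (ENNReal.div_le_div_right (mul_le_mul_left hh _) _)) le_rfl) _
  refine split.trans ?_
  refine add_le_add le_rfl ?_
  refine (add_le_add gX gY).trans (le_of_eq ?_)
  ring

end good

end Crest.Agent.R154.Asm52
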