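import Crest.Agent.R154.AsmD_53
import Crest.Agent.R154.Num_337

/-! Row 154 (helper53), ROAD 801: abstract assembly of KAPPA', part E: one window, sum over
windows, KAPPA'. -/

set_option autoImplicit false

namespace Crest.Agent.R154.Asm53

open scoped ENNReal Topology
open Crest.Agent.R154.B5A Crest.Agent.R154.FP178
open Crest.Agent.R154.Asm540 (TR Cm H2 H3 H5 KS TR_append TR_depth TR_shift)
open Filter

section one

variable {B G : Type*} [AddCommGroup G] (ht : B → ℕ) (z : B → G) (Λ : B → ℝ≥0∞)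

open Classical in
/-- choice of the local set and of the density -/
lemma pick (h1 : ∀ b, 1 ≤ ht b) (hΛ : ∑' b, Λ b = 1) (hU1 : ∀ n, U Λ ht n ≤ 1) (i T : ℕ)
    (u e : ℝ≥0∞) (hu : u ≠ 0) (hue : u + e ≤ 1) (he : ∑' k, tail Λ ht (i + k) ≤ e) :
    ∃ (E : Finset G) (M : ℝ≥0∞), M * E.card ≤ (i + 1 : ℕ) * 2 / u ∧
      (∑' X2, V ht Λ i T X2 * (if Dp z X2 ∈ E then 0 else 1)) ≤ u ∧
      ∀ J a : ℕ, J * (T + i) ≤ a → ∑' p, (FL ht z Λ a p - M) ≤ (1 - u) ^ J + J * e := by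
  have hu1 : u ≤ 1 := le_self_add.trans hue
  have he1 : e ≤ 1 := le_add_self.trans hue
  have hut : u ≠ ⊤ := ne_top_of_le_ne_top ENNReal.one_ne_top hu1
  have het : e ≠ ⊤ := ne_top_of_le_ne_top ENNReal.one_ne_top he1
  have htot : ∑' p, PL ht z Λ i T p ≤ 1 :=
    (tsum_PL ht z Λ i T).le.trans (tsum_V_le ht Λ h1 hΛ.le i T)
  have huP : u ≤ ∑' p, PL ht z Λ i T p := by
    have h := one_le_V ht Λ h1 hΛ hU1 i T
    have h' : u + e ≤ ∑' p, PL ht z Λ i T p + e := by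
      rw [tsum_PL]
      exact hue.trans (h.trans (add_le_add_right he _))
    exact (ENNReal.add_le_add_iff_right het).1 h'
  obtain ⟨th, hth0, hth1, hq1, hq2⟩ := quant (PL ht z Λ i T) htot u hu huP
  have htht : th ≠ ⊤ := ne_top_of_le_ne_top ENNReal.one_ne_top hth1
  obtain ⟨hfin, hcard⟩ := ENNReal.finset_card_const_le_le_of_tsum_le ENNReal.one_ne_top htot hth0
  set E : Finset G := hfin.toFinset.image Prod.snd with hE
  set M : ℝ≥0∞ := (i + 1 : ℕ) * (2 * th) / u with hM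
  refine ⟨E, M, ?_, ?_, ?_⟩
  · have hc : (E.card : ℝ≥0∞) ≤ 1 / th :=
      le_trans (by exact_mod_cast Finset.card_image_le) hcard
    calc M * E.card ≤ M * (1 / th) := mul_le_mul_right hc _
      _ = (i + 1 : ℕ) * 2 / u * (th * th⁻¹) := by
          rw [hM, ENNReal.div_eq_inv_mul, ENNReal.div_eq_inv_mul, ENNReal.div_eq_inv_mul]
          ring
      _ = (i + 1 : ℕ) * 2 / u := by rw [ENNReal.mul_inv_cancel hth0 htht, mul_one]
  · refine le_trans ?_ hq1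
    have h := V_fib ht z Λ i T (fun p => if PL ht z Λ i T p < th then 1 else 0)
    have h' : ∑' p, PL ht z Λ i T p * (if PL ht z Λ i T p < th then 1 else 0)
        = ∑' p, (if PL ht z Λ i T p < th then PL ht z Λ i T p else 0) := by
      refine tsum_congr fun p => ?_
      rw [mul_ite, mul_one, mul_zero]
    rw [← h', ← h]
    refine ENNReal.tsum_le_tsum fun L => mul_le_mul_right ?_ _
    by_cases hL : Dp z L ∈ E
    · rw [if_pos hL]; exact zero_le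
    · rw [if_neg hL, if_pos]
      by_contra hcon
      refine hL (Finset.mem_image.2 ⟨(HT ht L - T, Dp z L), ?_, rfl⟩)
      rw [Set.Finite.mem_toFinset]
      exact not_lt.1 hcon
  · refine dens ht z Λ h1 hΛ.le hU1 T i (2 * th) (1 - u) M e he ?_ tsub_le_self ?_
    · refine ENNReal.le_sub_of_add_le_right hut ?_
      calc ∑' p, (if PL ht z Λ i T p < 2 * th then 0 else PL ht z Λ i T p) + u
          ≤ ∑' p, (if PL ht z Λ i T p < 2 * th then 0 else PL ht z Λ i T p)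
            + ∑' p, (if PL ht z Λ i T p < 2 * th then PL ht z Λ i T p else 0) :=
            add_le_add_right hq2 _
        _ = ∑' p, PL ht z Λ i T p := by
            rw [← ENNReal.tsum_add]
            refine tsum_congr fun p => ?_
            split_ifs
            · rw [zero_add]
            · rw [add_zero]
        _ ≤ 1 := htot
    · have hMu : (i + 1 : ℕ) * (2 * th) = u * M := by
        rw [hM, ENNReal.mul_div_cancel hu hut]
      rw [hMu, ← add_mul, add_tsub_cancel_of_le hu1, one_mul]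

omit [AddCommGroup G] in
lemma tail_tendsto {B : Type*} (ht : B → ℕ) (Λ : B → ℝ≥0∞) (h1 : ∑' b, Λ b = 1)
    (hm : ∑' b, Λ b * (ht b : ℝ≥0∞) ≠ ⊤) :
    Tendsto (fun i => ∑' k, tail Λ ht (i + k)) atTop (𝓝 0) := by
  rw [sum_tail Λ ht h1] at hm
  have := ENNReal.tendsto_sum_nat_add (tail Λ ht) hm
  refine this.congr fun i => tsum_congr fun k => ?_
  rw [add_comm]

/-- a list of height `a` is the first passage of `a` -/
lemma fp_of_HT (h1 : ∀ b, 1 ≤ ht b) (L : List B) (a : ℕ) (h : HT ht L = a) : fp ht a L := by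
  induction L generalizing a with
  | nil => rw [HT_nil] at h; rw [fp_nil]; exact h.symm
  | cons b L ih =>
    rw [HT_cons] at h
    have := h1 b
    rw [fp_cons]
    exact ⟨by omega, ih _ (by omega)⟩

/-- extension of the lists at the bottom -/
lemma ext (h1 : ∀ b, 1 ≤ ht b) (c : ℝ≥0∞) (n R : ℕ) (hc : c ≤ U Λ ht R)
    (f f' : List B → ℝ≥0∞) (hf : ∀ L1 L2, f L1 ≤ f' (L1 ++ L2)) :
    c * ∑' L, WX ht Λ n L * f L ≤ ∑' L, WX ht Λ (n + R) L * f' L := by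
  classical
  rw [WX_split ht Λ h1 (n + R) n (by omega) f', ← ENNReal.tsum_mul_left]
  refine ENNReal.tsum_le_tsum fun L1 => ?_
  unfold WX
  by_cases h : HT ht L1 = n
  · rw [if_pos h, if_pos (fp_of_HT ht h1 L1 n h), mul_left_comm]
    refine mul_le_mul_right ?_ _
    calc c * f L1 ≤ U Λ ht R * f L1 := mul_le_mul_left hc _
      _ = ∑' L2, (if HT ht L2 = R then LW Λ L2 else 0) * f L1 := by
          rw [U, ENNReal.tsum_mul_right]
      _ ≤ _ := by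
          refine ENNReal.tsum_le_tsum fun L2 => ?_
          by_cases h' : HT ht L2 = R
          · rw [if_pos h', if_pos (by omega)]
            exact mul_le_mul_right (hf _ _) _
          · rw [if_neg h', zero_mul]; exact zero_le
  · rw [if_neg h, zero_mul, mul_zero]; exact zero_le

end one

variable {BX BY G : Type*} [AddCommGroup G]
  (ΛX : BX → ℝ≥0∞) (ΛY : BY → ℝ≥0∞) (hX : BX → ℕ) (hY : BY → ℕ) (zX : BX → G) (zY : BY → G)
  (sX : BX → Set (G × ℕ)) (sY : BY → Set (G × ℕ))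

lemma KS_eq (n : ℕ) (w : G) (S : Set ℕ) :
    KS ΛX ΛY hX hY zX zY sX sY n w S
      = ∑' L : List BX, WX hX ΛX n L * ∑' L' : List BY, WX hY ΛY n L' *
        (open Classical in
          if ∃ g k, k ∈ S ∧ Cm hX hY zX zY sX sY L L' w 0 0 g k then 1 else 0) := by
  classical
  unfold KS
  refine tsum_congr fun L => ?_
  rw [← ENNReal.tsum_mul_left]
  refine tsum_congr fun L' => ?_
  unfold WX
  by_cases h1 : HT hX L = n
  · by_cases h2 : HT hY L' = n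
    · by_cases h3 : ∃ g k, k ∈ S ∧ Cm hX hY zX zY sX sY L L' w 0 0 g k
      · rw [if_pos ⟨h1, h2, h3⟩, if_pos h1, if_pos h2, if_pos h3, mul_one]
      · rw [if_neg (fun h => h3 h.2.2), if_neg h3, mul_zero, mul_zero]
    · rw [if_neg (fun h => h2 h.2.1), if_neg h2, zero_mul, mul_zero]
  · rw [if_neg (fun h => h1 h.1), if_neg h1, zero_mul]

lemma KS_ext (h1X : ∀ b, 1 ≤ hX b) (h1Y : ∀ b, 1 ≤ hY b) (c : ℝ≥0∞) (n R : ℕ)
    (hcX : c ≤ U ΛX hX R) (hcY : c ≤ U ΛY hY R) (w : G) (S : Set ℕ) :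
    c * (c * KS ΛX ΛY hX hY zX zY sX sY n w S)
      ≤ KS ΛX ΛY hX hY zX zY sX sY (n + R) w S := by
  classical
  rw [KS_eq, KS_eq]
  calc c * (c * ∑' L : List BX, WX hX ΛX n L * ∑' L' : List BY, WX hY ΛY n L' *
        (if ∃ g k, k ∈ S ∧ Cm hX hY zX zY sX sY L L' w 0 0 g k then 1 else 0))
      = c * ∑' L : List BX, WX hX ΛX n L * (c * ∑' L' : List BY, WX hY ΛY n L' *
        (if ∃ g k, k ∈ S ∧ Cm hX hY zX zY sX sY L L' w 0 0 g k then 1 else 0)) := by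
        congr 1
        rw [← ENNReal.tsum_mul_left]
        refine tsum_congr fun L => ?_
        ring
    _ ≤ _ := by
        refine ext hX ΛX h1X c n R hcX _ _ fun L1 L2 => ?_
        refine ext hY ΛY h1Y c n R hcY _ _ fun L1' L2' => ?_
        by_cases h : ∃ g k, k ∈ S ∧ Cm hX hY zX zY sX sY L1 L1' w 0 0 g k
        · rw [if_pos h, if_pos]
          obtain ⟨g, k, hk, hc1, hc2⟩ := h
          refine ⟨g, k, hk, ?_, ?_⟩
          · rw [TR_append]; exact Or.inl hc1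
          · rw [TR_append]; exact Or.inl hc2
        · rw [if_neg h]; exact zero_le

lemma KS_union (n : ℕ) (w : G) (S : Set ℕ) (K : ℕ) (T : ℕ → Set ℕ)
    (h : ∀ k ∈ S, ∃ j < K, k ∈ T j) :
    KS ΛX ΛY hX hY zX zY sX sY n w S
      ≤ ∑ j ∈ Finset.range K, KS ΛX ΛY hX hY zX zY sX sY n w (T j) := by
  classical
  unfold KS
  rw [← tsum_fs]
  refine ENNReal.tsum_le_tsum fun L => ?_
  rw [← tsum_fs]
  refine ENNReal.tsum_le_tsum fun L' => ?_
  by_cases h0 : HT hX L = n ∧ HT hY L' = n ∧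
    ∃ g k, k ∈ S ∧ Cm hX hY zX zY sX sY L L' w 0 0 g k
  · obtain ⟨h1, h2, g, k, hk, hc⟩ := h0
    obtain ⟨j, hj, hkj⟩ := h k hk
    refine le_trans ?_ (Finset.single_le_sum (f := fun j =>
      (if HT hX L = n ∧ HT hY L' = n ∧ ∃ g k, k ∈ T j ∧ Cm hX hY zX zY sX sY L L' w 0 0 g k
      then LW ΛX L * LW ΛY L' else 0)) (fun _ _ => zero_le) (Finset.mem_range.2 hj))
    rw [if_pos ⟨h1, h2, g, k, hk, hc⟩, if_pos ⟨h1, h2, g, k, hkj, hc⟩]
  · rw [if_neg h0]; exact zero_le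

/-- one window -/
lemma window (h1X : ∀ b, 1 ≤ hX b) (h1Y : ∀ b, 1 ≤ hY b) (hΛX : ∑' b, ΛX b = 1)
    (hΛY : ∑' b, ΛY b = 1) (hUX : ∀ n, U ΛX hX n ≤ 1) (hUY : ∀ n, U ΛY hY n ≤ 1)
    (hsX : ∀ b, ∀ p ∈ sX b, 1 ≤ p.2 ∧ p.2 ≤ hX b) (hsY : ∀ b, ∀ p ∈ sY b, 1 ≤ p.2 ∧ p.2 ≤ hY b)
    (C : ℝ≥0∞) (us : ℕ → ℝ≥0∞)
    (h2 : H2 ΛX ΛY hX hY zX zY sX sY C us) (h3 : H3 ΛX ΛY hX hY zX zY sX sY C us)
    (i t a s n J : ℕ) (hit : i ≤ t) (hst : s ≤ 3 * t) (hn : a + i + 3 * t + i ≤ n)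
    (hJ : J * (3 * t + i) ≤ a) (u e η lam : ℝ≥0∞) (hu : u ≠ 0) (hue : u + e ≤ 1)
    (heX : ∑' k, tail ΛX hX (i + k) ≤ e) (heY : ∑' k, tail ΛY hY (i + k) ≤ e)
    (hlam : lam ≠ 0) (hlam' : lam ≠ ⊤) (w : G)
    (hs1 : KS ΛX ΛY hX hY zX zY sX sY n w (Set.Ico a (a + (s + 2 * i + 1))) ≤ η)
    (hs2 : KS ΛX ΛY hX hY zX zY sX sY n w (Set.Ico (a + 3 * t - s)
      (a + 3 * t - s + (s + 2 * i + 1))) ≤ η) :
    KS ΛX ΛY hX hY zX zY sX sY n w (Set.Ioc (a + t) (a + 2 * t))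
      ≤ 2 * η + 4 * e + (u * u + 2 * ((1 - u) ^ J + J * e))
        + 2 * ((i + 1 : ℕ) * ((i + 1 : ℕ) * ((i + 1 : ℕ) * ((i + 1 : ℕ) *
            (C * (lam + (i + 1 : ℕ) * 2 / u * us s / lam + us s)))))) := by
  classical
  obtain ⟨EX, MX, hMX, hnX, hdX⟩ := pick hX zX ΛX h1X hΛX hUX i (3 * t) u e hu hue heX
  obtain ⟨EY, MY, hMY, hnY, hdY⟩ := pick hY zY ΛY h1Y hΛY hUY i (3 * t) u e hu hue heY
  have hS := S4f_le ΛX ΛY hX hY zX zY sX sY h1X h1Y hΛX.le hΛY.le C us h2 h3 i (3 * t) a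
    (a + (s + 2 * i + 1)) (a + 3 * t - s) s EX EY MX MY lam hlam hlam' (by omega) (by omega)
    ((1 - u) ^ J + J * e) u (hdX J a hJ) (hdY J a hJ) hnX hnY w
  have hK := KC_le ΛX ΛY hX hY zX zY sX sY h1X h1Y hΛX.le hΛY.le hUX hUY hsX hsY i t a s n hit
    hst hn e heX heY w
  have hKS := KS_le_KC ΛX ΛY hX hY zX zY sX sY n w (Set.Ioc (a + t) (a + 2 * t))
    (Set.Ico a (a + (s + 2 * i + 1)))
    (Set.Ico (a + 3 * t - s) (a + 3 * t - s + (s + 2 * i + 1)))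
  have hm : ∀ (M : ℝ≥0∞) (E : Finset G), M * E.card ≤ (i + 1 : ℕ) * 2 / u →
      ((i + 1 : ℕ) : ℝ≥0∞) * ((i + 1 : ℕ) * ((i + 1 : ℕ) * ((i + 1 : ℕ) *
            (C * (lam + M * E.card * us s / lam + us s)))))
      ≤ (i + 1 : ℕ) * ((i + 1 : ℕ) * ((i + 1 : ℕ) * ((i + 1 : ℕ) *
            (C * (lam + (i + 1 : ℕ) * 2 / u * us s / lam + us s))))) := by
    intro M E hM
    refine mul_le_mul_right (mul_le_mul_right (mul_le_mul_right (mul_le_mul_right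
      (mul_le_mul_right (add_le_add_left (add_le_add_right ?_ _) _) _) _) _) _) _
    exact ENNReal.div_le_div_right (mul_le_mul_left hM _) _
  calc KS ΛX ΛY hX hY zX zY sX sY n w (Set.Ioc (a + t) (a + 2 * t))
      ≤ _ := hKS
    _ ≤ η + η + (S4f ΛX ΛY hX hY zX zY sX sY i (3 * t) a (a + (s + 2 * i + 1))
          (a + 3 * t - s) w + 4 * e) := add_le_add (add_le_add hs1 hs2) hK
    _ ≤ η + η + ((u * u + ((i + 1 : ℕ) * ((i + 1 : ℕ) * ((i + 1 : ℕ) * ((i + 1 : ℕ) *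
            (C * (lam + (i + 1 : ℕ) * 2 / u * us s / lam + us s))))) + ((1 - u) ^ J + J * e))
        + ((i + 1 : ℕ) * ((i + 1 : ℕ) * ((i + 1 : ℕ) * ((i + 1 : ℕ) *
            (C * (lam + (i + 1 : ℕ) * 2 / u * us s / lam + us s))))) + ((1 - u) ^ J + J * e)))
          + 4 * e) := by
        refine add_le_add_right (add_le_add_left (hS.trans ?_) _) _
        exact add_le_add (add_le_add_right (add_le_add_left (hm MX EX hMX) _) _)
          (add_le_add_left (hm MY EY hMY) _)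
    _ = _ := by ring

/-- **KAPPA'** on lists of single-walker blocks -/
theorem kapS (h1X : ∀ b, 1 ≤ hX b) (h1Y : ∀ b, 1 ≤ hY b) (hΛX : ∑' b, ΛX b = 1)
    (hΛY : ∑' b, ΛY b = 1) (hUX : ∀ n, U ΛX hX n ≤ 1) (hUY : ∀ n, U ΛY hY n ≤ 1)
    (hmX : ∑' b, ΛX b * (hX b : ℝ≥0∞) ≠ ⊤) (hmY : ∑' b, ΛY b * (hY b : ℝ≥0∞) ≠ ⊤)
    (c : ℝ≥0∞) (hc0 : c ≠ 0) (hct : c ≠ ⊤) (hcX : ∀ n, c ≤ U ΛX hX n) (hcY : ∀ n, c ≤ U ΛY hY n)
    (hsX : ∀ b, ∀ p ∈ sX b, 1 ≤ p.2 ∧ p.2 ≤ hX b) (hsY : ∀ b, ∀ p ∈ sY b, 1 ≤ p.2 ∧ p.2 ≤ hY b)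
    (C : ℝ≥0∞) (hC : C ≠ ⊤) (us : ℕ → ℝ≥0∞) (hus : Tendsto us atTop (𝓝 0))
    (h2 : H2 ΛX ΛY hX hY zX zY sX sY C us) (h3 : H3 ΛX ΛY hX hY zX zY sX sY C us)
    (h5 : H5 ΛX ΛY hX hY zX zY sX sY) :
    ∀ ε : ℝ≥0∞, ε ≠ 0 → ∃ M : ℕ, ∀ m, M ≤ m → ∀ n, 2 * m ≤ n → ∀ w,
      KS ΛX ΛY hX hY zX zY sX sY n w (Set.Ioc m (2 * m)) ≤ ε := by
  intro ε hε
  -- the target after extension
  set δ : ℝ≥0∞ := min (c * (c * ε)) 1 with hδ
  have hδ0 : δ ≠ 0 := by
    rw [hδ]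
    intro h
    rcases min_eq_iff.1 h with h' | h'
    · rcases mul_eq_zero.1 h'.1 with h'' | h''
      · exact hc0 h''
      · rcases mul_eq_zero.1 h'' with h3 | h3
        · exact hc0 h3
        · exact hε h3
    · exact one_ne_zero h'.1
  have hδt : δ ≠ ⊤ := ne_top_of_le_ne_top ENNReal.one_ne_top (min_le_right _ _)
  set γ : ℝ≥0∞ := δ / 8 with hγ
  have hγ0 : γ ≠ 0 := by
    rw [hγ, Ne, ENNReal.div_eq_zero_iff, not_or]; exact ⟨hδ0, by norm_num⟩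
  have hγt : γ ≠ ⊤ := ENNReal.div_ne_top hδt (by norm_num)
  have hγ8 : 8 * γ = δ := ENNReal.mul_div_cancel (by norm_num) (by norm_num)
  obtain ⟨K0, u, hK0, hu0, hu1, hA, hB⟩ := Num337.exKu γ hγ0
  set J : ℕ := K0 / 4 with hJ
  have hJ1 : 1 ≤ J := by omega
  set KK : ℕ := 8 * J + 2 with hKK
  have hKK1 : KK ≤ 4 * K0 + 8 := by omega
  have hKKc : (KK : ℝ≥0∞) ≤ (4 * K0 + 8 : ℕ) := by exact_mod_cast hKK1
  have hA' : (KK : ℝ≥0∞) * (u * u) ≤ γ := (mul_le_mul_left hKKc _).trans hA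
  have hB' : (KK : ℝ≥0∞) * (1 - u) ^ J ≤ γ := (mul_le_mul_left hKKc _).trans hB
  -- the overshoot
  have hfe : Tendsto (fun i => ∑' k, tail ΛX hX (i + k) + ∑' k, tail ΛY hY (i + k)) atTop
      (𝓝 0) := by
    have := (tail_tendsto hX ΛX hΛX hmX).add (tail_tendsto hY ΛY hΛY hmY)
    rwa [add_zero] at this
  obtain ⟨i1, hi1⟩ := Num337.exSmall _ hfe ((KK : ℝ≥0∞) * (4 + 2 * J))
    (ENNReal.mul_ne_top (ENNReal.natCast_ne_top _) (ENNReal.add_ne_top.2 ⟨by norm_num,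
      ENNReal.mul_ne_top (by norm_num) (ENNReal.natCast_ne_top _)⟩)) γ hγ0
  obtain ⟨i2, hi2⟩ := Num337.exSmall _ hfe 1 ENNReal.one_ne_top (1 - u)
    (by rw [Ne, tsub_eq_zero_iff_le]; exact not_le.2 hu1)
  set i : ℕ := max i1 i2 with hi
  set e : ℝ≥0∞ := ∑' k, tail ΛX hX (i + k) + ∑' k, tail ΛY hY (i + k) with he
  have he1 : (KK : ℝ≥0∞) * (4 + 2 * J) * e ≤ γ := hi1 i (le_max_left _ _)
  have he2 : e ≤ 1 - u := by
    have := hi2 i (le_max_right _ _)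
    rwa [one_mul] at this
  have hue : u + e ≤ 1 := by
    calc u + e ≤ u + (1 - u) := add_le_add_right he2 _
      _ = 1 := add_tsub_cancel_of_le hu1.le
  -- lam and s
  have hD : (((i + 1 : ℕ) : ℝ≥0∞) * 2 / u) ≠ ⊤ :=
    ENNReal.div_ne_top (ENNReal.mul_ne_top (ENNReal.natCast_ne_top _) (by norm_num)) hu0
  have hAt : (KK : ℝ≥0∞) * (2 * ((i + 1 : ℕ) * ((i + 1 : ℕ) * ((i + 1 : ℕ) * ((i + 1 : ℕ) *
      C))))) ≠ ⊤ := by
    refine ENNReal.mul_ne_top (ENNReal.natCast_ne_top _) (ENNReal.mul_ne_top (by norm_num) ?_)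
    exact ENNReal.mul_ne_top (ENNReal.natCast_ne_top _) (ENNReal.mul_ne_top
      (ENNReal.natCast_ne_top _) (ENNReal.mul_ne_top (ENNReal.natCast_ne_top _)
      (ENNReal.mul_ne_top (ENNReal.natCast_ne_top _) hC)))
  obtain ⟨lam, hl0, hlt, -, s, hs⟩ := Num337.exLam _ _ hAt hD us hus γ hγ0
  have hs' := hs s le_rfl
  -- the slab
  obtain ⟨η, hη0, hη⟩ : ∃ η : ℝ≥0∞, η ≠ 0 ∧ (KK : ℝ≥0∞) * (2 * η) ≤ γ := by
    refine ⟨γ / (KK * 2), ?_, ?_⟩
    · rw [Ne, ENNReal.div_eq_zero_iff, not_or]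
      exact ⟨hγ0, ENNReal.mul_ne_top (ENNReal.natCast_ne_top _) (by norm_num)⟩
    · rw [← mul_assoc]
      exact ENNReal.mul_div_le
  obtain ⟨T5, hT5⟩ := h5 (s + 2 * i + 1) η hη0
  refine ⟨KK * (i + s + T5 + 1), fun m hm n hn w => ?_⟩
  set t : ℕ := m / KK + 1 with ht
  have hKKpos : 0 < KK := by omega
  have hdiv : i + s + T5 + 1 ≤ m / KK := by
    rw [Nat.le_div_iff_mul_le hKKpos, mul_comm]; exact hm
  have hmul : KK * (m / KK) ≤ m := Nat.mul_div_le m KK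
  have hlt' : m < KK * t := by
    rw [ht]; exact Nat.lt_mul_div_succ m hKKpos
  have hJt : (4 * J + 1) * t ≤ m := by
    have h1 : (4 * J + 1) * t ≤ (4 * J + 1) * (2 * (m / KK)) := Nat.mul_le_mul_left _ (by omega)
    have h2 : (4 * J + 1) * (2 * (m / KK)) = KK * (m / KK) := by rw [hKK]; ring
    omega
  have hJt' : J * (3 * t + i) + t ≤ m := by
    have h1 : J * (3 * t + i) ≤ J * (4 * t) := Nat.mul_le_mul_left _ (by omega)
    have h2 : J * (4 * t) + t = (4 * J + 1) * t := by ring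
    omega
  have htm : 5 * t ≤ m := by
    have : 5 * t ≤ (4 * J + 1) * t := Nat.mul_le_mul_right _ (by omega)
    omega
  set R : ℕ := KK * t + 3 * t + 2 * i with hR
  set Bd : ℝ≥0∞ := 2 * η + 4 * e + (u * u + 2 * ((1 - u) ^ J + J * e))
        + 2 * ((i + 1 : ℕ) * ((i + 1 : ℕ) * ((i + 1 : ℕ) * ((i + 1 : ℕ) *
            (C * (lam + (i + 1 : ℕ) * 2 / u * us s / lam + us s)))))) with hBd
  have hwin : ∀ j ∈ Finset.range KK, KS ΛX ΛY hX hY zX zY sX sY (n + R) w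
      (Set.Ioc (m + j * t) (m + j * t + t)) ≤ Bd := by
    intro j hj
    rw [Finset.mem_range] at hj
    have hjt : j * t + t ≤ KK * t := by
      calc j * t + t = (j + 1) * t := by ring
        _ ≤ KK * t := Nat.mul_le_mul_right _ hj
    have := window ΛX ΛY hX hY zX zY sX sY h1X h1Y hΛX hΛY hUX hUY hsX hsY C us h2 h3 i t
      (m - t + j * t) s (n + R) J (by omega) (by omega) (by omega) (by omega) u e η lam hu0 hue
      (by rw [he]; exact le_self_add) (by rw [he]; exact le_add_self) hl0 hlt w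
      (hT5 _ (by omega) _ _) (hT5 _ (by omega) _ _)
    have e1 : m - t + j * t + t = m + j * t := by omega
    have e2 : m - t + j * t + 2 * t = m + j * t + t := by omega
    rw [e1, e2] at this
    exact this
  have hcov : ∀ k ∈ Set.Ioc m (2 * m), ∃ j < KK, k ∈ Set.Ioc (m + j * t) (m + j * t + t) := by
    intro k hk
    have hk1 := hk.1
    have hk2 := hk.2
    have htpos : 0 < t := by omega
    refine ⟨(k - m - 1) / t, ?_, ?_⟩
    · rw [Nat.div_lt_iff_lt_mul htpos]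
      omega
    · have hdm := Nat.div_add_mod (k - m - 1) t
      have hmod := Nat.mod_lt (k - m - 1) htpos
      rw [mul_comm] at hdm
      constructor <;> omega
  have hsum := KS_union ΛX ΛY hX hY zX zY sX sY (n + R) w (Set.Ioc m (2 * m)) KK _ hcov
  have hext := KS_ext ΛX ΛY hX hY zX zY sX sY h1X h1Y c n R (hcX R) (hcY R) w
    (Set.Ioc m (2 * m))
  have htotal : (KK : ℝ≥0∞) * Bd ≤ δ := by
    calc (KK : ℝ≥0∞) * Bd = (KK : ℝ≥0∞) * (2 * η) + (KK : ℝ≥0∞) * (4 + 2 * J) * e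
          + (KK : ℝ≥0∞) * (u * u) + 2 * ((KK : ℝ≥0∞) * (1 - u) ^ J)
          + (KK : ℝ≥0∞) * (2 * ((i + 1 : ℕ) * ((i + 1 : ℕ) * ((i + 1 : ℕ) * ((i + 1 : ℕ) * C)))))
            * (lam + (i + 1 : ℕ) * 2 / u * us s / lam + us s) := by
          rw [hBd]; ring
      _ ≤ γ + γ + γ + 2 * γ + γ := by
          refine add_le_add (add_le_add (add_le_add (add_le_add hη he1) hA') ?_) hs'
          exact mul_le_mul_right hB' _
      _ = 6 * γ := by ring
      _ ≤ 8 * γ := mul_le_mul_left (by norm_num) _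
      _ = δ := hγ8
  have hfin : c * (c * KS ΛX ΛY hX hY zX zY sX sY n w (Set.Ioc m (2 * m))) ≤ c * (c * ε) := by
    calc c * (c * KS ΛX ΛY hX hY zX zY sX sY n w (Set.Ioc m (2 * m)))
        ≤ _ := hext
      _ ≤ _ := hsum
      _ ≤ ∑ j ∈ Finset.range KK, Bd := Finset.sum_le_sum hwin
      _ = (KK : ℝ≥0∞) * Bd := by rw [Finset.sum_const, Finset.card_range, nsmul_eq_mul]
      _ ≤ δ := htotal
      _ ≤ c * (c * ε) := min_le_left _ _
  exact (ENNReal.mul_le_mul_iff_right hc0 hct).1 ((ENNReal.mul_le_mul_iff_right hc0 hct).1 hfin)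

end Crest.Agent.R154.Asm53
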