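import Crest.Agent.R154.AsmD_540

/-! Row 154, KAPPA' (road 801), helper540: one window. -/

set_option autoImplicit false

namespace Crest.Agent.R154.Asm540

open scoped ENNReal
open Crest.Agent.R154.B5A

lemma pre_fp {B : Type*} (ht : B → ℕ) {r : ℕ} {L : List B} (h : r ≤ HT ht L) : FP ht r (pre ht r L) := by
  induction L generalizing r with
  | nil => rw [HT_nil] at h; simp only [pre, FP]; omega
  | cons b L ih =>
    rw [HT_cons] at h
    simp only [pre]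
    split_ifs with h0
    · simp only [FP]; exact h0
    · simp only [FP]
      exact ⟨by omega, ih (by omega)⟩

section sums
variable {α1 α2 α3 α4 : Type*}

lemma S4_swap (a : α1 → ℝ≥0∞) (b : α2 → ℝ≥0∞) (c : α3 → ℝ≥0∞) (e : α4 → ℝ≥0∞)
    (f : α1 → α2 → α3 → α4 → ℝ≥0∞) :
    S4 a b c e f = ∑' A, ∑' A', a A * c A' * ∑' P, ∑' P', b P * e P' * f A P A' P' := by
  simp only [S4]
  refine tsum_congr fun A => ?_
  have h1 : ∀ P, b P * ∑' A', c A' * ∑' P', e P' * f A P A' P'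
      = ∑' A', c A' * ∑' P', b P * e P' * f A P A' P' := by
    intro P
    rw [← ENNReal.tsum_mul_left]
    refine tsum_congr fun A' => ?_
    rw [← ENNReal.tsum_mul_left, ← ENNReal.tsum_mul_left, ← ENNReal.tsum_mul_left]
    exact tsum_congr fun P' => by ring
  simp_rw [h1]
  rw [ENNReal.tsum_comm, ← ENNReal.tsum_mul_left]
  refine tsum_congr fun A' => ?_
  rw [mul_assoc]
  congr 1
  rw [← ENNReal.tsum_mul_left]

lemma swap22 (R : Finset ℕ) (F : ℕ → ℕ → α1 → α3 → ℝ≥0∞) :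
    ∑ a ∈ R, ∑ a' ∈ R, ∑' A, ∑' A', F a a' A A' = ∑' A, ∑' A', ∑ a ∈ R, ∑ a' ∈ R, F a a' A A' := by
  simp_rw [← Summable.tsum_finsetSum (fun _ _ => ENNReal.summable)]

open Classical in
lemma gen2 {G : Type*} (R : Finset ℕ) (α : α1 → ℝ≥0∞) (β : α3 → ℝ≥0∞) (p : α1 → ℕ) (q : α3 → ℕ)
    (xx : α1 → α3 → G) (ψ : ℕ → ℕ → G → ℝ≥0∞) (hα : ∀ A, α A ≠ 0 → p A ∈ R)
    (hβ : ∀ A, β A ≠ 0 → q A ∈ R) :
    ∑' A, ∑' A', α A * β A' * ψ (p A) (q A') (xx A A')
      ≤ ∑ a ∈ R, ∑ a' ∈ R, ∑' x, (∑' A, ∑' A', (if p A = a ∧ q A' = a' ∧ xx A A' = x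
          then α A * β A' else 0)) * ψ a a' x := by
  have hrw : ∀ a a', ∑' x, (∑' A, ∑' A', (if p A = a ∧ q A' = a' ∧ xx A A' = x
          then α A * β A' else 0)) * ψ a a' x
      = ∑' A, ∑' A', ∑' x, (if p A = a ∧ q A' = a' ∧ xx A A' = x
          then α A * β A' else 0) * ψ a a' x := by
    intro a a'
    simp_rw [← ENNReal.tsum_mul_right]
    rw [ENNReal.tsum_comm]
    refine tsum_congr fun A => ?_
    rw [ENNReal.tsum_comm]
  simp_rw [hrw]
  rw [swap22 R (fun a a' A A' => ∑' x, (if p A = a ∧ q A' = a' ∧ xx A A' = x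
          then α A * β A' else 0) * ψ a a' x)]
  refine ENNReal.tsum_le_tsum fun A => ENNReal.tsum_le_tsum fun A' => ?_
  by_cases h1 : α A = 0
  · simp [h1]
  by_cases h2 : β A' = 0
  · simp [h2]
  refine le_trans ?_ (Finset.single_le_sum (f := fun a => ∑ a' ∈ R, ∑' x,
    (if p A = a ∧ q A' = a' ∧ xx A A' = x then α A * β A' else 0) * ψ a a' x)
    (fun _ _ => zero_le) (hα A h1))
  refine le_trans ?_ (Finset.single_le_sum (f := fun a' => ∑' x,
    (if p A = p A ∧ q A' = a' ∧ xx A A' = x then α A * β A' else 0) * ψ (p A) a' x)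
    (fun _ _ => zero_le) (hβ A' h2))
  refine le_trans ?_ (ENNReal.le_tsum (xx A A'))
  simp

end sums

section loc
variable {B G : Type*} [AddCommGroup G] (Λ : B → ℝ≥0∞) (ht : B → ℕ) (z : B → G)

open Classical in
lemma pp_sum (h1 : ∀ b, 1 ≤ ht b) (hΛ : ∑' b, Λ b ≤ 1) (r0 h : ℕ) : ∑' x, pp Λ ht z r0 h x ≤ 1 := by
  simp only [pp]
  rw [ENNReal.tsum_comm]
  refine le_trans (ENNReal.tsum_le_tsum fun P => ?_) (fp_mass Λ ht hΛ r0 h1)
  by_cases hP : FP ht r0 P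
  · rw [if_pos hP, tsum_eq_single (Dp z P)]
    · split_ifs
      · exact le_rfl
      · exact zero_le
    · intro x hx
      rw [if_neg (fun h => hx h.2.2.symm)]
  · rw [if_neg hP, ENNReal.tsum_eq_zero.2]
    intro x; rw [if_neg (fun h => hP h.1)]

/-- the local set of displacements -/
lemma exists_E (h1 : ∀ b, 1 ≤ ht b) (hΛ : ∑' b, Λ b ≤ 1) (r0 : ℕ) {th : ℝ≥0∞} (hth : th ≠ 0) :
    ∃ E : ℕ → Finset G, (∀ h x, x ∈ E h ↔ th ≤ pp Λ ht z r0 h x) ∧ ∀ h, (E h).card ≤ 1 / th := by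
  have h : ∀ h, ∃ E : Finset G, (∀ x, x ∈ E ↔ th ≤ pp Λ ht z r0 h x) ∧ (E.card : ℝ≥0∞) ≤ 1 / th := by
    intro h
    obtain ⟨hf, hc⟩ := ENNReal.finset_card_const_le_le_of_tsum_le (a := pp Λ ht z r0 h)
      ENNReal.one_ne_top (pp_sum Λ ht z h1 hΛ r0 h) hth
    exact ⟨hf.toFinset, by simp, hc⟩
  choose E hE using h
  exact ⟨E, fun h x => (hE h).1 x, fun h => (hE h).2⟩

end loc

end Crest.Agent.R154.Asm540
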