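import Crest.Agent.R154.AsmD_580
import Crest.Agent.R154.Num_869

/-! Row 154, ROAD 801, abstract assembly, part E: `kapS` (helper580). -/

set_option autoImplicit false

namespace Crest.Agent.R154.Asm580

open scoped ENNReal
open Crest.Agent.R154.B5A
open Crest.Agent.R154.Ren396 (FR FR_le split_FR mass_FR over_le TS tendsto_TS FR_zero)

section fin

variable {BX BY G : Type*} [AddCommGroup G]
  (ΛX : BX → ℝ≥0∞) (hX : BX → ℕ) (zX : BX → G) (sX : BX → Set (G × ℕ))
  (ΛY : BY → ℝ≥0∞) (hY : BY → ℕ) (zY : BY → G) (sY : BY → Set (G × ℕ))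

open Classical in
/-- contact at depth exactly `k` -/
noncomputable def PT (n k : ℕ) (w : G) : ℝ≥0∞ :=
  ∑' LX : List BX, ∑' LY : List BY, (if HT hX LX = n ∧ HT hY LY = n ∧
    ∃ t, (t, k) ∈ TT sX zX hX LX 0 0 ∧ (t, k) ∈ TT sY zY hY LY w 0
    then LW ΛX LX * LW ΛY LY else 0)

open Classical in
/-- contact in the octave `(m, 2m]` -/
noncomputable def KS (n m : ℕ) (w : G) : ℝ≥0∞ :=
  ∑' LX : List BX, ∑' LY : List BY, (if HT hX LX = n ∧ HT hY LY = n ∧
    ∃ k t, m < k ∧ k ≤ 2 * m ∧ (t, k) ∈ TT sX zX hX LX 0 0 ∧ (t, k) ∈ TT sY zY hY LY w 0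
    then LW ΛX LX * LW ΛY LY else 0)

/-- contact in the octave, no contact in `Sl` -/
def EE (w : G) (m : ℕ) (Sl : Finset ℕ) (LX : List BX) (LY : List BY) : Prop :=
  (∃ k t, m < k ∧ k ≤ 2 * m ∧ (t, k) ∈ TT sX zX hX LX 0 0 ∧ (t, k) ∈ TT sY zY hY LY w 0) ∧
  ∀ k t, (t, k) ∈ TT sX zX hX LX 0 0 → (t, k) ∈ TT sY zY hY LY w 0 → k ∉ Sl

open Classical in
lemma KS_split (Sl : Finset ℕ) (n m : ℕ) (w : G) :
    KS ΛX hX zX sX ΛY hY zY sY n m w ≤ ∑ k ∈ Sl, PT ΛX hX zX sX ΛY hY zY sY n k w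
      + ∑' LX : List BX, ∑' LY : List BY, (if HT hX LX = n ∧ HT hY LY = n ∧
        EE hX zX sX hY zY sY w m Sl LX LY then LW ΛX LX * LW ΛY LY else 0) := by
  simp only [PT]
  rw [← tsum_fin, ← ENNReal.tsum_add, KS]
  refine ENNReal.tsum_le_tsum fun LX => ?_
  rw [← tsum_fin, ← ENNReal.tsum_add]
  refine ENNReal.tsum_le_tsum fun LY => ?_
  by_cases hc : HT hX LX = n ∧ HT hY LY = n ∧
    ∃ k t, m < k ∧ k ≤ 2 * m ∧ (t, k) ∈ TT sX zX hX LX 0 0 ∧ (t, k) ∈ TT sY zY hY LY w 0
  · rw [if_pos hc]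
    by_cases hS : ∀ k t, (t, k) ∈ TT sX zX hX LX 0 0 → (t, k) ∈ TT sY zY hY LY w 0 → k ∉ Sl
    · refine le_add_left ?_
      rw [if_pos ⟨hc.1, hc.2.1, hc.2.2, hS⟩]
    · push Not at hS
      obtain ⟨k, t, h1, h2, h3⟩ := hS
      refine le_add_right ?_
      refine le_trans (le_of_eq ?_) (Finset.single_le_sum (f := fun k =>
        if HT hX LX = n ∧ HT hY LY = n ∧
        ∃ t, (t, k) ∈ TT sX zX hX LX 0 0 ∧ (t, k) ∈ TT sY zY hY LY w 0
        then LW ΛX LX * LW ΛY LY else 0) (fun _ _ => zero_le) h3)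
      rw [if_pos ⟨hc.1, hc.2.1, t, h1, h2⟩]
  · rw [if_neg hc]; exact zero_le

open Classical in
lemma restU {B : Type*} (Λ : B → ℝ≥0∞) (h : B → ℕ) (hU1 : ∀ n, U Λ h n ≤ 1) (c n : ℕ) :
    ∑' R : List B, (if c + HT h R = n then LW Λ R else 0) ≤ 1 := by
  by_cases hc : c ≤ n
  · refine le_trans (ENNReal.tsum_le_tsum fun R => ?_) (hU1 (n - c))
    by_cases h2 : c + HT h R = n
    · rw [if_pos h2, if_pos (by omega)]
    · rw [if_neg h2]; exact zero_le
  · refine le_trans (le_of_eq ?_) (zero_le_one)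
    rw [ENNReal.tsum_eq_zero]
    intro R
    rw [if_neg (by omega)]

open Classical in
lemma two_dec (hΛX : ∑' b, ΛX b ≤ 1) (h1X : ∀ b, 1 ≤ hX b) (hΛY : ∑' b, ΛY b ≤ 1)
    (h1Y : ∀ b, 1 ≤ hY b) (hUX : ∀ n, U ΛX hX n ≤ 1) (hUY : ∀ n, U ΛY hY n ≤ 1)
    (T i0 J : ℕ) (gX gY : ℝ≥0∞)
    (hgX : ∑' P : List BX, (if FR hX P T ∧ T + i0 < HT hX P then LW ΛX P else 0) ≤ gX)
    (hgY : ∑' P : List BY, (if FR hY P T ∧ T + i0 < HT hY P then LW ΛY P else 0) ≤ gY)
    (W : List (List BX) → List (List BY) → Prop) (E : List BX → List BY → Prop)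
    (hW : ∀ (Ps : List (List BX)) (Qs : List (List BY)), Ps.length = J → Qs.length = J →
      (∀ P ∈ Ps, T ≤ HT hX P ∧ HT hX P ≤ T + i0) → (∀ P ∈ Qs, T ≤ HT hY P ∧ HT hY P ≤ T + i0) →
      ∀ RX RY, E (Ps.flatten ++ RX) (Qs.flatten ++ RY) → W Ps Qs)
    (n : ℕ) (hn : J * (T + i0) ≤ n) :
    ∑' LX : List BX, ∑' LY : List BY, (if HT hX LX = n ∧ HT hY LY = n ∧ E LX LY
        then LW ΛX LX * LW ΛY LY else 0)
      ≤ SL (lam ΛX hX T i0) J (fun Ps => SL (lam ΛY hY T i0) J (fun Qs =>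
        if W Ps Qs then 1 else 0)) + J * gY + J * gX := by
  set F : List BX → ℝ≥0∞ := fun LX => ∑' LY : List BY,
    (if HT hY LY = n then LW ΛY LY * (if E LX LY then 1 else 0) else 0) with hF
  have hF1 : ∀ L, F L ≤ 1 := by
    intro L
    refine le_trans (ENNReal.tsum_le_tsum fun LY => ?_) (hUY n)
    by_cases h1 : HT hY LY = n
    · rw [if_pos h1, if_pos h1]
      exact mul_le_of_le_one_right' (by split_ifs <;> simp)
    · rw [if_neg h1]; exact zero_le
  have e1 : ∑' LX : List BX, ∑' LY : List BY, (if HT hX LX = n ∧ HT hY LY = n ∧ E LX LY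
        then LW ΛX LX * LW ΛY LY else 0) = ∑' LX, (if HT hX LX = n then LW ΛX LX * F LX else 0) := by
    refine tsum_congr fun LX => ?_
    by_cases h1 : HT hX LX = n
    · rw [if_pos h1, hF, ← ENNReal.tsum_mul_left]
      refine tsum_congr fun LY => ?_
      by_cases h2 : HT hY LY = n
      · by_cases h3 : E LX LY
        · rw [if_pos ⟨h1, h2, h3⟩, if_pos h2, if_pos h3, mul_one]
        · rw [if_neg (fun h => h3 h.2.2), if_pos h2, if_neg h3, mul_zero, mul_zero]
      · rw [if_neg (fun h => h2 h.2.1), if_neg h2, mul_zero]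
    · rw [if_neg h1, ENNReal.tsum_eq_zero]
      intro LY
      rw [if_neg (fun h => h1 h.1)]
  rw [e1]
  refine (decomp ΛX hX hΛX h1X hUX T i0 gX hgX J n hn F hF1).trans (add_le_add ?_ le_rfl)
  have hlX := tsum_lam_le ΛX hX hΛX h1X T i0
  refine le_trans (SL_mono' (lam ΛX hX T i0) J (F' := fun Ps => SL (lam ΛY hY T i0) J (fun Qs =>
        if W Ps Qs then 1 else 0) + J * gY) fun Ps hPs hPs' => ?_) ?_
  · have hB : ∀ R, F (Ps.flatten ++ R) ≤ SL (lam ΛY hY T i0) J (fun Qs =>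
        if W Ps Qs then 1 else 0) + J * gY := by
      intro R
      refine (decomp ΛY hY hΛY h1Y hUY T i0 gY hgY J n hn
        (fun LY => if E (Ps.flatten ++ R) LY then 1 else 0)
        (fun L => by split_ifs <;> simp)).trans (add_le_add ?_ le_rfl)
      refine SL_mono' (lam ΛY hY T i0) J fun Qs hQs hQs' => ?_
      by_cases hWW : W Ps Qs
      · rw [if_pos hWW]
        refine le_trans (ENNReal.tsum_le_tsum fun R' => ?_) (restU ΛY hY hUY (HT hY Qs.flatten) n)
        by_cases h1 : HT hY Qs.flatten + HT hY R' = n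
        · rw [if_pos h1, if_pos h1]
          exact mul_le_of_le_one_right' (by split_ifs <;> simp)
        · rw [if_neg h1]; exact zero_le
      · rw [if_neg hWW]
        refine le_of_eq ?_
        rw [ENNReal.tsum_eq_zero]
        intro R'
        have h2 : ¬ E (Ps.flatten ++ R) (Qs.flatten ++ R') := fun h => hWW
          (hW Ps Qs hPs hQs (fun P hP => lam_ne ΛX hX (hPs' P hP))
            (fun P hP => lam_ne ΛY hY (hQs' P hP)) R R' h)
        rw [if_neg h2, mul_zero, ite_self]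
    calc _ ≤ ∑' R, (if HT hX Ps.flatten + HT hX R = n then LW ΛX R else 0) *
            (SL (lam ΛY hY T i0) J (fun Qs => if W Ps Qs then 1 else 0) + J * gY) := by
          refine ENNReal.tsum_le_tsum fun R => ?_
          by_cases h1 : HT hX Ps.flatten + HT hX R = n
          · rw [if_pos h1, if_pos h1]
            exact mul_le_mul_right (hB R) _
          · rw [if_neg h1]; exact zero_le
      _ ≤ _ := by
          rw [ENNReal.tsum_mul_right]
          exact mul_le_of_le_one_left' (restU ΛX hX hUX _ n)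
  · rw [SL_add_fun]
    exact add_le_add le_rfl (SL_le_const _ hlX J _)

open Classical in
lemma win_sum (T i0 K J s : ℕ) (w : G)
    (hlX : ∑' P, lam ΛX hX T i0 P ≤ 1) (hlY : ∑' P, lam ΛY hY T i0 P ≤ 1) :
    SL (lam ΛX hX T i0) J (fun Ps => SL (lam ΛY hY T i0) J (fun Qs =>
        if ∃ j, K ≤ j ∧ j < J ∧ CC hX zX sX hY zY sY (Dp zX (Ps.take j).flatten)
      (HT hX (Ps.take j).flatten) (Ps.getD j []) (w + Dp zY (Qs.take j).flatten)
      (HT hY (Qs.take j).flatten) (Qs.getD j []) (j * T + J * i0 + s) ((j + 1) * T - s)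
        then 1 else 0))
      ≤ ∑ j ∈ Finset.Ico K J, Op (lam ΛX hX T i0) (lam ΛY hY T i0) j (fun A P C Q =>
      if CC hX zX sX hY zY sY (Dp zX A.flatten) (HT hX A.flatten) P
          (w + Dp zY C.flatten) (HT hY C.flatten) Q (j * T + J * i0 + s) ((j + 1) * T - s)
          then 1 else 0) := by
  calc _ ≤ SL (lam ΛX hX T i0) J (fun Ps => ∑ j ∈ Finset.Ico K J,
        SL (lam ΛY hY T i0) J (fun Qs =>
        if CC hX zX sX hY zY sY (Dp zX (Ps.take j).flatten)
      (HT hX (Ps.take j).flatten) (Ps.getD j []) (w + Dp zY (Qs.take j).flatten)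
      (HT hY (Qs.take j).flatten) (Qs.getD j []) (j * T + J * i0 + s) ((j + 1) * T - s)
        then 1 else 0)) := by
        refine SL_mono _ J fun Ps _ => ?_
        rw [← SL_fin]
        refine SL_mono _ J fun Qs _ => ?_
        by_cases hc : ∃ j, K ≤ j ∧ j < J ∧ CC hX zX sX hY zY sY (Dp zX (Ps.take j).flatten)
          (HT hX (Ps.take j).flatten) (Ps.getD j []) (w + Dp zY (Qs.take j).flatten)
          (HT hY (Qs.take j).flatten) (Qs.getD j []) (j * T + J * i0 + s) ((j + 1) * T - s)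
        · rw [if_pos hc]
          obtain ⟨j, h1, h2, h3⟩ := hc
          refine le_trans (le_of_eq ?_) (Finset.single_le_sum (f := fun j =>
            if CC hX zX sX hY zY sY (Dp zX (Ps.take j).flatten)
              (HT hX (Ps.take j).flatten) (Ps.getD j []) (w + Dp zY (Qs.take j).flatten)
              (HT hY (Qs.take j).flatten) (Qs.getD j []) (j * T + J * i0 + s) ((j + 1) * T - s)
            then (1 : ℝ≥0∞) else 0) (fun _ _ => zero_le) (Finset.mem_Ico.2 ⟨h1, h2⟩))
          rw [if_pos h3]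
        · rw [if_neg hc]; exact zero_le
    _ = ∑ j ∈ Finset.Ico K J, SL (lam ΛX hX T i0) J (fun Ps =>
        SL (lam ΛY hY T i0) J (fun Qs =>
        if CC hX zX sX hY zY sY (Dp zX (Ps.take j).flatten)
      (HT hX (Ps.take j).flatten) (Ps.getD j []) (w + Dp zY (Qs.take j).flatten)
      (HT hY (Qs.take j).flatten) (Qs.getD j []) (j * T + J * i0 + s) ((j + 1) * T - s)
        then 1 else 0)) := SL_fin _ _ J _
    _ ≤ _ := by
        refine Finset.sum_le_sum fun j hj => ?_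
        rw [Finset.mem_Ico] at hj
        obtain ⟨r, hr⟩ : ∃ r, J = j + (r + 1) := ⟨J - j - 1, by omega⟩
        rw [← Op_eq]
        have hs1 := SL_at (lam ΛX hX T i0) hlX j r [] (fun A P =>
          SL (lam ΛY hY T i0) J (fun Qs =>
            if CC hX zX sX hY zY sY (Dp zX A.flatten)
              (HT hX A.flatten) P (w + Dp zY (Qs.take j).flatten)
              (HT hY (Qs.take j).flatten) (Qs.getD j []) (j * T + J * i0 + s) ((j + 1) * T - s)
            then 1 else 0))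
        rw [← hr] at hs1
        refine hs1.trans (SL_mono _ j fun A _ => ENNReal.tsum_le_tsum fun P =>
          mul_le_mul_right ?_ _)
        have hs2 := SL_at (lam ΛY hY T i0) hlY j r [] (fun C Q =>
            if CC hX zX sX hY zY sY (Dp zX A.flatten)
              (HT hX A.flatten) P (w + Dp zY C.flatten)
              (HT hY C.flatten) Q (j * T + J * i0 + s) ((j + 1) * T - s)
            then 1 else 0)
        rw [← hr] at hs2
        exact hs2

end fin

end Crest.Agent.R154.Asm580
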