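import Crest.Agent.R154.AsmD_594

/-! Row 154, ROAD 801 (helper594): the one-window bound, end. Pure sums. -/

set_option autoImplicit false

namespace Crest.Agent.R154.Asm594

open scoped ENNReal
open Crest.Agent.R154.B5A
open Crest.Agent.R154.Bind12 (TT Dp)

section window

variable {BX BY G : Type*} [AddCommGroup G] (ΛX : BX → ℝ≥0∞) (ΛY : BY → ℝ≥0∞)
  (hX : BX → ℕ) (hY : BY → ℕ) (zX : BX → G) (zY : BY → G)
  (sX : BX → Set (G × ℕ)) (sY : BY → Set (G × ℕ))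

local notation "KKn" => KK ΛX ΛY hX hY zX zY sX sY

lemma locY (T T' i0 lo hi s D : ℕ) (R1 R2 : Finset ℕ) (hG : Geo T T' i0 lo hi s D R1 R2)
    (η Cst th M : ℝ≥0∞) (p : ℤ × G → ℝ≥0∞)
    (hE : ∀ h : ℕ, ∃ E : Finset G, (∀ x, x ∈ E ↔ th ≤ p ((h : ℤ), x)) ∧ M * E.card ≤ Cst)
    (hF : F3 ΛX ΛY hX hY zX zY sX sY η Cst s D)
    (a : ℕ) (ha : a ∈ R1) (a' : ℕ) (ha' : a' ∈ R2) (μ : G → ℝ≥0∞) (m1 : ∑' x, μ x ≤ 1)
    (m2 : ∀ x, μ x ≤ M) :
    ∑' x, μ x * KKn T T' i0 lo hi (fun _ P' => th ≤ p (vv (HT hY) (Dp zY) P')) a a' x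
      ≤ (i0 + 1 : ℕ) * (i0 + 1 : ℕ) * η := by
  classical
  choose E hE1 hE2 using hE
  set W : ℕ → ℕ → G → ℝ≥0∞ := fun h h' x => ∑' L : List BX, ∑' L' : List BY, (
        if HT hX L = h ∧ Dp zY L' ∈ E h' ∧ HT hY L' = h' ∧
          EV hX hY zX zY sX sY lo hi a a' 0 x L L' then LW ΛX L * LW ΛY L' else 0) with hW
  have hK : ∀ x, KKn T T' i0 lo hi (fun _ P' => th ≤ p (vv (HT hY) (Dp zY) P')) a a' x
      ≤ ∑ h ∈ Finset.Icc T (T + i0), ∑ h' ∈ Finset.Icc T' (T' + i0), W h h' x := by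
    intro x
    unfold KK
    have e : ∑ h ∈ Finset.Icc T (T + i0), ∑ h' ∈ Finset.Icc T' (T' + i0), W h h' x
        = ∑' L : List BX, ∑' L' : List BY, ∑ h ∈ Finset.Icc T (T + i0),
          ∑ h' ∈ Finset.Icc T' (T' + i0), (
        if HT hX L = h ∧ Dp zY L' ∈ E h' ∧ HT hY L' = h' ∧
          EV hX hY zX zY sX sY lo hi a a' 0 x L L' then LW ΛX L * LW ΛY L' else 0) := by
      exact fin_swap _ _ _
    rw [e]
    refine ENNReal.tsum_le_tsum fun P => ENNReal.tsum_le_tsum fun P' => ?_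
    split_ifs with hc
    · obtain ⟨c1, c2, c3, c4⟩ := hc
      unfold pw
      by_cases f1 : FP hX P T
      · by_cases f2 : FP hY P' T'
        · rw [if_pos f1, if_pos f2]
          have g1 := FP_le hX P T f1
          have g2 := FP_le hY P' T' f2
          refine le_trans ?_ (Finset.single_le_sum (f := fun h => ∑ h' ∈ Finset.Icc T' (T' + i0), (
            if HT hX P = h ∧ Dp zY P' ∈ E h' ∧ HT hY P' = h' ∧
            EV hX hY zX zY sX sY lo hi a a' 0 x P P' then LW ΛX P * LW ΛY P' else 0))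
            (fun _ _ => zero_le) (Finset.mem_Icc.2 ⟨g1, c2⟩))
          refine le_trans ?_ (Finset.single_le_sum (f := fun h' => (
            if HT hX P = HT hX P ∧ Dp zY P' ∈ E h' ∧ HT hY P' = h' ∧
            EV hX hY zX zY sX sY lo hi a a' 0 x P P' then LW ΛX P * LW ΛY P' else 0))
            (fun _ _ => zero_le) (Finset.mem_Icc.2 ⟨g2, c3⟩))
          rw [if_pos ⟨rfl, (hE1 _ _).2 c1, rfl, c4⟩]
        · rw [if_neg f2, mul_zero]; exact zero_le
      · rw [if_neg f1, zero_mul]; exact zero_le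
    · exact zero_le
  calc _ ≤ ∑' x, μ x * ∑ h ∈ Finset.Icc T (T + i0), ∑ h' ∈ Finset.Icc T' (T' + i0), W h h' x :=
        ENNReal.tsum_le_tsum fun x => mul_le_mul_right (hK x) _
    _ = ∑ h ∈ Finset.Icc T (T + i0), ∑ h' ∈ Finset.Icc T' (T' + i0), ∑' x, μ x * W h h' x := by
        simp_rw [Finset.mul_sum]
        rw [Summable.tsum_finsetSum (fun i _ => ENNReal.summable)]
        refine Finset.sum_congr rfl fun h _ => ?_
        rw [Summable.tsum_finsetSum (fun i _ => ENNReal.summable)]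
    _ ≤ ∑ h ∈ Finset.Icc T (T + i0), ∑ h' ∈ Finset.Icc T' (T' + i0), η := by
        refine Finset.sum_le_sum fun h hh => Finset.sum_le_sum fun h' hh' => ?_
        rw [Finset.mem_Icc] at hh hh'
        obtain ⟨q1, q2, q3, q4, q5, q6, q7, q8⟩ := hG a ha a' ha' h h' hh.1 hh.2 hh'.1 hh'.2
        exact hF a a' h h' lo hi q1 q2 q3 q4 q5 q6 q7 q8 (E h') μ M m1 m2 (hE2 h')
    _ = _ := by
        simp only [Finset.sum_const, Nat.card_Icc, nsmul_eq_mul]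
        rw [show T + i0 + 1 - T = i0 + 1 by omega, show T' + i0 + 1 - T' = i0 + 1 by omega]
        ring


lemma SL_le_of {C : Type*} (π : C → ℝ≥0∞) (hπ : ∑' c, π c ≤ 1) (j : ℕ) (F : List C → ℝ≥0∞)
    (c : ℝ≥0∞) (hF : ∀ L, F L ≤ c) : SL π j F ≤ c := by
  calc SL π j F ≤ SL π j (fun _ => c * 1) := SL_mono π j fun L _ => by rw [mul_one]; exact hF L
    _ = c * SL π j (fun _ => 1) := SL_const_mul π j c (fun _ => 1)
    _ ≤ c * 1 := mul_le_mul_right (SL_le_one π hπ j) _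
    _ = c := mul_one c

open Classical in
/-- **one window** -/
theorem window_le (h1X : ∀ b, 1 ≤ hX b) (h1Y : ∀ b, 1 ≤ hY b) (hΛX : ∑' b, ΛX b = 1)
    (hΛY : ∑' b, ΛY b = 1) (T T' i0 lo hi s D j : ℕ) (R1 R2 : Finset ℕ)
    (hG : Geo T T' i0 lo hi s D R1 R2) (η u : ℝ≥0∞) (hu : u ≠ 0) (hu1 : u < 1)
    (hF2 : F2 ΛX ΛY hX hY zX zY sX sY η u⁻¹ s D) (hF3 : F3 ΛX ΛY hX hY zX zY sX sY η u⁻¹ s D)
    (w : G) :
    SL (pw ΛX hX T) j (fun L => SL (pw ΛY hY T') j (fun L' =>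
      if HT (HT hX) L ∈ R1 ∧ HT (HT hY) L' ∈ R2 then
      KKn T T' i0 lo hi (fun _ _ => True) (HT (HT hX) L) (HT (HT hY) L')
        (w + (L'.map (Dp zY)).sum - (L.map (Dp zX)).sum) else 0))
      ≤ 2 * ((1 - u) ^ j + R1.card * R2.card * ((i0 + 1 : ℕ) * (i0 + 1 : ℕ) * η)) + u * u := by
  have hut : u ≠ ⊤ := ne_top_of_lt hu1
  obtain ⟨th, t0, t1, t2, t3⟩ := thr ΛX hX zX h1X hΛX T hu hu1
  obtain ⟨th', t0', t1', t2', t3'⟩ := thr ΛY hY zY h1Y hΛY T' hu hu1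
  set pX := pp (pw ΛX hX T) (vv (HT hX) (Dp zX)) with hpX
  set pY := pp (pw ΛY hY T') (vv (HT hY) (Dp zY)) with hpY
  have cst : ∀ (θ : ℝ≥0∞) (E : Finset G), (E.card : ℝ≥0∞) * θ ≤ 1 → θ / u * E.card ≤ u⁻¹ := by
    intro θ E hE
    calc θ / u * E.card = ((E.card : ℝ≥0∞) * θ) * u⁻¹ := by rw [div_eq_mul_inv]; ring
      _ ≤ 1 * u⁻¹ := mul_le_mul_left hE _
      _ = u⁻¹ := one_mul _
  have mX : ∑' c, pw ΛX hX T c ≤ 1 := (pw_sum ΛX hX h1X hΛX T).le
  have mY : ∑' c, pw ΛY hY T' c ≤ 1 := (pw_sum ΛY hY h1Y hΛY T').le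
  -- three parts
  have hK : ∀ a a' x, KKn T T' i0 lo hi (fun _ _ => True) a a' x ≤
      (KKn T T' i0 lo hi (fun P _ => th ≤ pX (vv (HT hX) (Dp zX) P)) a a' x +
      KKn T T' i0 lo hi (fun _ P' => th' ≤ pY (vv (HT hY) (Dp zY) P')) a a' x) + u * u := by
    intro a a' x
    have e4 : ∑' P : List BX, ∑' P' : List BY,
        ((if pX (vv (HT hX) (Dp zX) P) < th then pw ΛX hX T P else 0) *
        (if pY (vv (HT hY) (Dp zY) P') < th' then pw ΛY hY T' P' else 0)) ≤ u * u := by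
      simp_rw [ENNReal.tsum_mul_left]
      rw [ENNReal.tsum_mul_right]
      exact mul_le_mul' t1 t1'
    refine le_trans ?_ (add_le_add le_rfl e4)
    unfold KK
    rw [← ENNReal.tsum_add, ← ENNReal.tsum_add]
    refine ENNReal.tsum_le_tsum fun P => ?_
    rw [← ENNReal.tsum_add, ← ENNReal.tsum_add]
    refine ENNReal.tsum_le_tsum fun P' => ?_
    by_cases hc : HT hX P ≤ T + i0 ∧ HT hY P' ≤ T' + i0 ∧
        EV hX hY zX zY sX sY lo hi a a' 0 x P P'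
    · rw [if_pos (show True ∧ _ from ⟨trivial, hc⟩)]
      by_cases l1 : th ≤ pX (vv (HT hX) (Dp zX) P)
      · rw [if_pos (show _ ∧ _ from ⟨l1, hc⟩)]
        exact le_trans le_self_add le_self_add
      · by_cases l2 : th' ≤ pY (vv (HT hY) (Dp zY) P')
        · rw [if_pos (show (th' ≤ pY (vv (HT hY) (Dp zY) P')) ∧ _ from ⟨l2, hc⟩)]
          exact le_trans le_add_self le_self_add
        · rw [if_pos (not_le.1 l1), if_pos (not_le.1 l2)]
          exact le_add_self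
    · rw [if_neg (fun h => hc h.2)]
      exact zero_le
  -- X local part
  have pX2 : SL (pw ΛX hX T) j (fun L => SL (pw ΛY hY T') j (fun L' =>
      if HT (HT hX) L ∈ R1 ∧ HT (HT hY) L' ∈ R2 then
      KKn T T' i0 lo hi (fun P _ => th ≤ pX (vv (HT hX) (Dp zX) P)) (HT (HT hX) L)
        (HT (HT hY) L') (w + (L'.map (Dp zY)).sum - (L.map (Dp zX)).sum) else 0))
      ≤ (1 - u) ^ j + R1.card * R2.card * ((i0 + 1 : ℕ) * (i0 + 1 : ℕ) * η) := by
    refine win_sum (pw ΛX hX T) (pw ΛY hY T') (HT hX) (Dp zX) (HT hY) (Dp zY) mX mY th (1 - u)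
      (th / u) _ t2 (hM_ok th u hu hu1) j j R1 R2
      (fun a a' x => KKn T T' i0 lo hi (fun P _ => th ≤ pX (vv (HT hX) (Dp zX) P)) a a' x)
      (fun a a' x => KK_le_one ΛX ΛY hX hY zX zY sX sY h1X h1Y hΛX hΛY _ _ _ _ _ _ _ _ _) w ?_
    intro a ha a' ha' μ m1 m2
    refine locX ΛX ΛY hX hY zX zY sX sY T T' i0 lo hi s D R1 R2 hG η u⁻¹ th (th / u) pX ?_ hF2
      a ha a' ha' μ m1 m2
    intro h
    obtain ⟨E, hE, hE'⟩ := t3 h
    exact ⟨E, hE, cst th E hE'⟩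
  -- Y local part
  have pY2 : SL (pw ΛX hX T) j (fun L => SL (pw ΛY hY T') j (fun L' =>
      if HT (HT hX) L ∈ R1 ∧ HT (HT hY) L' ∈ R2 then
      KKn T T' i0 lo hi (fun _ P' => th' ≤ pY (vv (HT hY) (Dp zY) P')) (HT (HT hX) L)
        (HT (HT hY) L') (w + (L'.map (Dp zY)).sum - (L.map (Dp zX)).sum) else 0))
      ≤ (1 - u) ^ j + R1.card * R2.card * ((i0 + 1 : ℕ) * (i0 + 1 : ℕ) * η) := by
    rw [SL_swap]
    have hh := win_sum (pw ΛY hY T') (pw ΛX hX T) (HT hY) (Dp zY) (HT hX) (Dp zX) mY mX th' (1 - u)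
      (th' / u) ((i0 + 1 : ℕ) * (i0 + 1 : ℕ) * η) t2' (hM_ok th' u hu hu1) j j R2 R1
      (fun a' a x => KKn T T' i0 lo hi (fun _ P' => th' ≤ pY (vv (HT hY) (Dp zY) P')) a a' (-x))
      (fun a' a x => KK_le_one ΛX ΛY hX hY zX zY sX sY h1X h1Y hΛX hΛY _ _ _ _ _ _ _ _ _) (-w) ?_
    · refine le_trans (le_of_eq ?_) (hh.trans (le_of_eq ?_))
      · refine SL_congr _ _ fun L' _ => SL_congr _ _ fun L _ => ?_
        have e5 : -(-w + (L.map (Dp zX)).sum - (L'.map (Dp zY)).sum)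
            = w + (L'.map (Dp zY)).sum - (L.map (Dp zX)).sum := by abel
        rw [e5]
        by_cases q1 : HT (HT hX) L ∈ R1 <;> by_cases q2 : HT (HT hY) L' ∈ R2 <;> simp [q1, q2]
      · ring
    · intro a' ha' a ha μ m1 m2
      have e6 : ∑' x, μ x * KKn T T' i0 lo hi (fun _ P' => th' ≤ pY (vv (HT hY) (Dp zY) P')) a a' (-x)
          = ∑' x, μ (-x) * KKn T T' i0 lo hi (fun _ P' => th' ≤ pY (vv (HT hY) (Dp zY) P')) a a' x := by
        rw [← (Equiv.neg G).tsum_eq]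
        refine tsum_congr fun x => ?_
        simp
      rw [e6]
      refine locY ΛX ΛY hX hY zX zY sX sY T T' i0 lo hi s D R1 R2 hG η u⁻¹ th' (th' / u) pY ?_ hF3
        a ha a' ha' (fun x => μ (-x)) ?_ (fun x => m2 _)
      · intro h
        obtain ⟨E, hE, hE'⟩ := t3' h
        exact ⟨E, hE, cst th' E hE'⟩
      · exact ((Equiv.neg G).tsum_eq μ).le.trans m1
  -- conclusion
  calc _ ≤ SL (pw ΛX hX T) j (fun L => SL (pw ΛY hY T') j (fun L' =>
      (if HT (HT hX) L ∈ R1 ∧ HT (HT hY) L' ∈ R2 then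
      KKn T T' i0 lo hi (fun P _ => th ≤ pX (vv (HT hX) (Dp zX) P)) (HT (HT hX) L)
        (HT (HT hY) L') (w + (L'.map (Dp zY)).sum - (L.map (Dp zX)).sum) else 0)) +
      (SL (pw ΛY hY T') j (fun L' => (if HT (HT hX) L ∈ R1 ∧ HT (HT hY) L' ∈ R2 then
      KKn T T' i0 lo hi (fun _ P' => th' ≤ pY (vv (HT hY) (Dp zY) P')) (HT (HT hX) L)
        (HT (HT hY) L') (w + (L'.map (Dp zY)).sum - (L.map (Dp zX)).sum) else 0)) +
      SL (pw ΛY hY T') j (fun _ => u * u))) := by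
        refine SL_mono _ _ fun L _ => ?_
        rw [← SL_add_fun, ← SL_add_fun]
        refine SL_mono _ _ fun L' _ => ?_
        by_cases q : HT (HT hX) L ∈ R1 ∧ HT (HT hY) L' ∈ R2
        · rw [if_pos q, if_pos q, if_pos q, ← add_assoc]
          exact hK _ _ _
        · rw [if_neg q]; exact zero_le
    _ = _ + (_ + SL (pw ΛX hX T) j (fun _ => SL (pw ΛY hY T') j (fun _ => u * u))) := by
        rw [SL_add_fun, SL_add_fun]
    _ ≤ ((1 - u) ^ j + R1.card * R2.card * ((i0 + 1 : ℕ) * (i0 + 1 : ℕ) * η)) +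
        (((1 - u) ^ j + R1.card * R2.card * ((i0 + 1 : ℕ) * (i0 + 1 : ℕ) * η)) + u * u) := by
        refine add_le_add pX2 (add_le_add pY2 ?_)
        exact SL_le_of _ mX _ _ _ fun L => SL_le_of _ mY _ _ _ fun L' => le_rfl
    _ = _ := by ring

end window

end Crest.Agent.R154.Asm594
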