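import Crest.Agent.R154.AsmD_636

/-! Row 154, ROAD 801, abstract assembly (helper636), part E: window event, quantile. -/

set_option autoImplicit false

namespace Crest.Agent.R154.Asm636

open scoped ENNReal
open Crest.Agent.R154.B5A Crest.Agent.R154.FP178

variable {BX BY G : Type*} [AddCommGroup G]
variable (ΛX : BX → ℝ≥0∞) (hX : BX → ℕ) (zX : BX → G) (sX : BX → Set (G × ℕ))
variable (ΛY : BY → ℝ≥0∞) (hY : BY → ℕ) (zY : BY → G) (sY : BY → Set (G × ℕ))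

open Classical in
/-- two walkers -/
lemma red2 (hX1 : ∀ b, 1 ≤ hX b) (hXΛ : ∑' b, ΛX b ≤ 1) (hXU : ∀ n, U ΛX hX n ≤ 1)
    (hY1 : ∀ b, 1 ≤ hY b) (hYΛ : ∑' b, ΛY b ≤ 1) (hYU : ∀ n, U ΛY hY n ≤ 1)
    (aX aY tX tY i0 n : ℕ) (hnX : aX + i0 + tX ≤ n) (hnY : aY + i0 + tY ≤ n) (ε : ℝ≥0∞)
    (hoX : ∀ a, ∑' L, (if fp hX a L ∧ a + i0 < HT hX L then LW ΛX L else 0) ≤ ε)
    (hoY : ∀ a, ∑' L, (if fp hY a L ∧ a + i0 < HT hY L then LW ΛY L else 0) ≤ ε)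
    (Q : List BX → List BY → Prop) (R : List BX → List BX → List BY → List BY → Prop)
    (hQ : ∀ P1 P2 P3 Q1 Q2 Q3, fp hX aX P1 → HT hX P1 ≤ aX + i0 → fp hX tX P2 →
      HT hX P2 ≤ tX + i0 → fp hY aY Q1 → HT hY Q1 ≤ aY + i0 → fp hY tY Q2 →
      HT hY Q2 ≤ tY + i0 → Q (P1 ++ (P2 ++ P3)) (Q1 ++ (Q2 ++ Q3)) → R P1 P2 Q1 Q2) :
    ∑' L, ∑' L', (if HT hX L = n ∧ HT hY L' = n ∧ Q L L' then LW ΛX L * LW ΛY L' else 0)
      ≤ ∑' P1, V ΛX hX i0 aX P1 * ∑' P2, V ΛX hX i0 tX P2 * (∑' Q1, V ΛY hY i0 aY Q1 *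
      ∑' Q2, V ΛY hY i0 tY Q2 * (if R P1 P2 Q1 Q2 then 1 else 0)) + 4 * ε := by
  set F : List BX → ℝ≥0∞ := fun L => ∑' L', (if HT hY L' = n then
    LW ΛY L' * (if Q L L' then 1 else 0) else 0) with hF
  have e0 : ∑' L, ∑' L', (if HT hX L = n ∧ HT hY L' = n ∧ Q L L' then
      LW ΛX L * LW ΛY L' else 0) = ∑' L, (if HT hX L = n then LW ΛX L * F L else 0) := by
    refine tsum_congr fun L => ?_
    by_cases hL : HT hX L = n
    · rw [if_pos hL, hF]; dsimp only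
      rw [← ENNReal.tsum_mul_left]
      refine tsum_congr fun L' => ?_
      by_cases h2 : HT hY L' = n <;> by_cases h3 : Q L L' <;> simp [hL, h2, h3]
    · rw [if_neg hL]
      simp [hL]
  have hF1 : ∀ L, F L ≤ 1 := by
    intro L
    refine le_trans (ENNReal.tsum_le_tsum fun L' => ?_) (hYU n)
    split_ifs <;> simp
  rw [e0]
  have h4 := red ΛX hX hX1 hXΛ hXU aX tX i0 n hnX ε hoX F hF1
    (fun P1 P2 => (∑' Q1, V ΛY hY i0 aY Q1 *
      ∑' Q2, V ΛY hY i0 tY Q2 * (if R P1 P2 Q1 Q2 then 1 else 0)) + 2 * ε) (by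
      intro P1 P2 P3 p1 p2 p3 p4
      refine red ΛY hY hY1 hYΛ hYU aY tY i0 n hnY ε hoY
        (fun L' => if Q (P1 ++ (P2 ++ P3)) L' then 1 else 0) (fun L' => ?_)
        (fun Q1 Q2 => if R P1 P2 Q1 Q2 then 1 else 0) ?_
      · split_ifs <;> simp
      · intro Q1 Q2 Q3 q1 q2 q3 q4
        by_cases hc : Q (P1 ++ (P2 ++ P3)) (Q1 ++ (Q2 ++ Q3))
        · rw [if_pos hc, if_pos (hQ P1 P2 P3 Q1 Q2 Q3 p1 p2 p3 p4 q1 q2 q3 q4 hc)]
        · rw [if_neg hc]; exact zero_le)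
  refine le_trans h4 ?_
  have e5 : ∀ P1, (∑' P2, V ΛX hX i0 tX P2 * ((∑' Q1, V ΛY hY i0 aY Q1 *
      ∑' Q2, V ΛY hY i0 tY Q2 * (if R P1 P2 Q1 Q2 then 1 else 0)) + 2 * ε))
      ≤ (∑' P2, V ΛX hX i0 tX P2 * (∑' Q1, V ΛY hY i0 aY Q1 *
      ∑' Q2, V ΛY hY i0 tY Q2 * (if R P1 P2 Q1 Q2 then 1 else 0))) + 2 * ε := by
    intro P1
    simp_rw [mul_add]
    rw [ENNReal.tsum_add]
    refine add_le_add le_rfl ?_
    rw [ENNReal.tsum_mul_right]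
    calc _ ≤ 1 * (2 * ε) := mul_le_mul_left (V_sum ΛX hX hX1 hXΛ i0 tX) _
      _ = _ := one_mul _
  calc _ ≤ ∑' P1, V ΛX hX i0 aX P1 * ((∑' P2, V ΛX hX i0 tX P2 * (∑' Q1, V ΛY hY i0 aY Q1 *
      ∑' Q2, V ΛY hY i0 tY Q2 * (if R P1 P2 Q1 Q2 then 1 else 0))) + 2 * ε) + 2 * ε :=
        add_le_add (ENNReal.tsum_le_tsum fun P1 => mul_le_mul_right (e5 P1) _) le_rfl
    _ ≤ (∑' P1, V ΛX hX i0 aX P1 * ∑' P2, V ΛX hX i0 tX P2 * (∑' Q1, V ΛY hY i0 aY Q1 *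
      ∑' Q2, V ΛY hY i0 tY Q2 * (if R P1 P2 Q1 Q2 then 1 else 0)) + 2 * ε) + 2 * ε := by
        refine add_le_add ?_ le_rfl
        simp_rw [mul_add (V ΛX hX i0 aX _)]
        rw [ENNReal.tsum_add]
        refine add_le_add le_rfl ?_
        rw [ENNReal.tsum_mul_right]
        calc _ ≤ 1 * (2 * ε) := mul_le_mul_left (V_sum ΛX hX hX1 hXΛ i0 aX) _
          _ = _ := one_mul _
    _ = _ := by ring

/-- the event of one window -/
def QW (i0 s a t : ℕ) (w : G) (L : List BX) (L' : List BY) : Prop :=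
  (∃ z k, a + t < k ∧ k ≤ a + 2 * t ∧ (z, k) ∈ TS hX zX sX L 0 0 ∧ (z, k) ∈ TS hY zY sY L' w 0) ∧
  ∀ z k, (z, k) ∈ TS hX zX sX L 0 0 → (z, k) ∈ TS hY zY sY L' w 0 →
    ¬ (a ≤ k ∧ k < a + 2 * i0 + s) ∧ ¬ (a + 3 * t < k + s ∧ k ≤ a + 3 * t + 2 * i0)

lemma QW_clean (hsX : ∀ b, ∀ q ∈ sX b, 1 ≤ q.2 ∧ q.2 ≤ hX b)
    (hsY : ∀ b, ∀ q ∈ sY b, 1 ≤ q.2 ∧ q.2 ≤ hY b) (i0 s a t : ℕ) (hst : s ≤ 3 * t)
    (hit : 2 * i0 ≤ t) (w : G)
    (P1 P2 P3 : List BX) (Q1 Q2 Q3 : List BY)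
    (p1 : fp hX a P1) (p2 : HT hX P1 ≤ a + i0) (p3 : fp hX (3 * t) P2)
    (p4 : HT hX P2 ≤ 3 * t + i0) (q1 : fp hY (a + i0) Q1) (q2 : HT hY Q1 ≤ a + i0 + i0)
    (q3 : fp hY (3 * t + i0) Q2) (_q4 : HT hY Q2 ≤ 3 * t + i0 + i0)
    (h : QW hX zX sX hY zY sY i0 s a t w (P1 ++ (P2 ++ P3)) (Q1 ++ (Q2 ++ Q3))) :
    Cl (TS hX zX sX P2 (Dp zX P1) (HT hX P1)) (TS hY zY sY Q2 (w + Dp zY Q1) (HT hY Q1))
      (a + 2 * i0 + s) (a + 3 * t - s) := by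
  have p5 := le_HT_of_fp hX p1
  have p6 := le_HT_of_fp hX p3
  have q5 := le_HT_of_fp hY q1
  have q6 := le_HT_of_fp hY q3
  have eX : TS hX zX sX (P1 ++ (P2 ++ P3)) 0 0 = TS hX zX sX P1 0 0 ∪
      (TS hX zX sX P2 (Dp zX P1) (HT hX P1) ∪
        TS hX zX sX P3 (Dp zX P1 + Dp zX P2) (HT hX P1 + HT hX P2)) := by
    rw [TS_append, TS_append, zero_add, zero_add]
  have eY : TS hY zY sY (Q1 ++ (Q2 ++ Q3)) w 0 = TS hY zY sY Q1 w 0 ∪
      (TS hY zY sY Q2 (w + Dp zY Q1) (HT hY Q1) ∪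
        TS hY zY sY Q3 (w + Dp zY Q1 + Dp zY Q2) (HT hY Q1 + HT hY Q2)) := by
    rw [TS_append, TS_append, zero_add]
  obtain ⟨⟨z, k, k1, k2, m1, m2⟩, h2⟩ := h
  constructor
  · refine ⟨z, k, ?_, ?_⟩
    · rw [eX] at m1
      rcases m1 with m | m | m
      · have := TS_range hX zX sX hsX P1 0 0 _ m
        dsimp only at this
        omega
      · exact m
      · have := TS_range hX zX sX hsX P3 _ _ _ m
        dsimp only at this
        omega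
    · rw [eY] at m2
      rcases m2 with m | m | m
      · have := TS_range hY zY sY hsY Q1 w 0 _ m
        dsimp only at this
        omega
      · exact m
      · have := TS_range hY zY sY hsY Q3 _ _ _ m
        dsimp only at this
        omega
  · intro z' k' n1 n2
    have r1 := TS_range hX zX sX hsX P2 _ _ _ n1
    have := h2 z' k' (by rw [eX]; exact Or.inr (Or.inl n1)) (by rw [eY]; exact Or.inr (Or.inl n2))
    dsimp only at r1
    omega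

open Classical in
/-- quantile data of the attempts of height `T` -/
lemma qdata {B : Type*} (Λ : B → ℝ≥0∞) (h : B → ℕ) (z : B → G) (h1 : ∀ b, 1 ≤ h b)
    (hΛ : ∑' b, Λ b = 1) (T i0 : ℕ) (u : ℝ≥0∞) (hu0 : u ≠ 0) (hu1 : u < 1) (ε : ℝ≥0∞)
    (hov : ∀ a, ∑' L, (if fp h a L ∧ a + i0 < HT h L then LW Λ L else 0) ≤ ε) :
    ∃ (th Gd : ℝ≥0∞) (E : ℕ → Finset G),
      (∀ j, Gd * (E j).card ≤ ((i0 : ℝ≥0∞) + 1) / u) ∧
      (∀ j x, x ∉ E j → fd Λ h z T j x < th) ∧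
      (∑' j, ∑' x, (if fd Λ h z T j x < th then fd Λ h z T j x else 0) ≤ u) ∧
      ∀ J a, J * (T + i0) ≤ a → ∃ b : ℕ → G → ℝ≥0∞,
        (∑' j, ∑' x, b j x ≤ (1 - u) ^ J + J * ε) ∧ ∀ j x, fd Λ h z a j x ≤ Gd + b j x := by
  set p : ℕ × G → ℝ≥0∞ := fun y => fd Λ h z T y.1 y.2 with hp
  have hp1 : ∑' y, p y = 1 := by
    rw [ENNReal.tsum_prod']
    exact fd_sum_eq Λ h z h1 hΛ T
  obtain ⟨th, th0, th1, q1, q2⟩ := Dens616.quantile p hp1 hu0 hu1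
  have hfin : {y | th ≤ p y}.Finite := Dens616.finite_local p (by rw [hp1]; simp) th0
  have hfj : ∀ j, {x | th ≤ fd Λ h z T j x}.Finite := by
    intro j
    refine Set.Finite.of_finite_image (f := fun x => (j, x)) (hfin.subset ?_) ?_
    · rintro _ ⟨x, hx, rfl⟩; exact hx
    · intro x _ y _ hxy; exact (Prod.mk.inj hxy).2
  have hut : u ≠ ⊤ := ne_top_of_lt hu1
  have htht : th ≠ ⊤ := ne_top_of_le_ne_top ENNReal.one_ne_top th1
  refine ⟨th, ((i0 : ℝ≥0∞) + 1) * th / u, fun j => (hfj j).toFinset, ?_, ?_, ?_, ?_⟩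
  · intro j
    have hc : (((hfj j).toFinset.card : ℕ) : ℝ≥0∞) * th ≤ 1 := by
      refine le_trans (Dens616.card_mul_le (fd Λ h z T j) th _ (fun x hx => by simpa using hx)) ?_
      refine le_trans ?_ (fd_sum Λ h z h1 hΛ.le T)
      exact ENNReal.le_tsum (f := fun j => ∑' x, fd Λ h z T j x) j
    calc ((i0 : ℝ≥0∞) + 1) * th / u * ((hfj j).toFinset.card : ℝ≥0∞)
        = ((i0 : ℝ≥0∞) + 1) / u * (((hfj j).toFinset.card : ℝ≥0∞) * th) := by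
          simp only [div_eq_mul_inv]; ring
      _ ≤ ((i0 : ℝ≥0∞) + 1) / u * 1 := by gcongr
      _ = _ := mul_one _
  · intro j x hx
    simpa using hx
  · rw [ENNReal.tsum_prod'] at q1
    exact q1
  · intro J a hJ
    have hq : ∑' i, ∑' x, (if i ≤ i0 ∧ th < fd Λ h z T i x then fd Λ h z T i x else 0)
        ≤ 1 - u := by
      have s1 : (∑' y, if p y ≤ th then p y else 0) + (∑' y, if th < p y then p y else 0) = 1 := by
        rw [← ENNReal.tsum_add, ← hp1]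
        refine tsum_congr fun y => ?_
        by_cases hy : p y ≤ th
        · rw [if_pos hy, if_neg (not_lt.2 hy), add_zero]
        · rw [if_neg hy, if_pos (not_le.1 hy), zero_add]
      have s2 : u + (∑' y, if th < p y then p y else 0) ≤ 1 := by
        rw [← s1]; gcongr
      have s3 : (∑' y, if th < p y then p y else 0) ≤ 1 - u :=
        ENNReal.le_sub_of_add_le_left hut s2
      refine le_trans ?_ s3
      rw [ENNReal.tsum_prod']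
      refine ENNReal.tsum_le_tsum fun i => ENNReal.tsum_le_tsum fun x => ?_
      by_cases h2 : th < fd Λ h z T i x
      · have : th < p (i, x) := h2
        rw [if_pos this]; split_ifs <;> simp [hp]
      · rw [if_neg (fun hh => h2 hh.2)]; exact zero_le
    refine dens Λ h z h1 hΛ.le T i0 ε hov th (1 - u) _ hq tsub_le_self ?_ J a hJ
    have e1 : ((i0 + 1 : ℕ) : ℝ≥0∞) * th = u * (((i0 : ℝ≥0∞) + 1) * th / u) := by
      rw [ENNReal.mul_div_cancel hu0 hut]; push_cast; rfl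
    rw [e1, ← add_mul, add_tsub_cancel_of_le hu1.le, one_mul]

end Crest.Agent.R154.Asm636
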