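import Crest.Agent.R154.AsmD_667

/-! Row 154, ROAD 801 (helper667): abstract assembly, one window and the sum over the windows. -/

set_option autoImplicit false
set_option maxHeartbeats 1000000

namespace Crest.Agent.R154.AsmR667

open scoped ENNReal Classical Topology
open Filter
open Crest.Agent.R154.B5A (LW HT LW_nil LW_cons LW_append HT_nil HT_cons HT_append tsum_list U tail)

section pair

variable {BX BY G : Type*} [AddCommGroup G] {ΛX : BX → ℝ≥0∞} {ΛY : BY → ℝ≥0∞} {hX : BX → ℕ}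
  {hY : BY → ℕ} {zX : BX → G} {zY : BY → G} {sX : BX → Set (G × ℕ)} {sY : BY → Set (G × ℕ)}
  {us : ℕ → ℝ≥0∞} {C : ℝ≥0∞}

/-- outer integral over the tops -/
noncomputable def Tops (ΛX : BX → ℝ≥0∞) (ΛY : BY → ℝ≥0∞) (hX : BX → ℕ) (hY : BY → ℕ)
    (zX : BX → G) (zY : BY → G) (ℓ i0 : ℕ) (w : G) (Θ : ℕ → ℕ → G → ℝ≥0∞) : ℝ≥0∞ :=
  EA ΛX hX ℓ (fun A => (if HT hX A ≤ ℓ + i0 then 1 else 0) * EA ΛY hY (ℓ + i0) (fun A' =>
    (if HT hY A' ≤ ℓ + i0 + i0 then 1 else 0) * Θ (HT hX A) (HT hY A') (w + Dp zY A' - Dp zX A)))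

variable (h1X : ∀ b, 1 ≤ hX b) (h1Y : ∀ b, 1 ≤ hY b) (hΛX : ∑' b, ΛX b = 1)
  (hΛY : ∑' b, ΛY b = 1)

include h1X h1Y hΛX hΛY in
lemma topsX (H2 : H2P ΛX ΛY hX hY zX zY sX sY us C) (ℓ T i0 s hi J : ℕ) (hJ : J * (T + i0) ≤ ℓ)
    (th : ℝ≥0∞) (hth : th ≠ 0) (q : ℝ≥0∞) (hq1 : q ≤ 1)
    (hq : (∑' i, ∑' x, (if i ≤ i0 ∧ th < F ΛX hX zX T i x then F ΛX hX zX T i x else 0)) ≤ q)
    (lam : ℝ≥0∞) (hl0 : lam ≠ 0) (hlt : lam ≠ ⊤) (w : G) :
    Tops ΛX ΛY hX hY zX zY ℓ i0 w (Psi ΛX ΛY hX hY zX zY sX sY T (T + i0) i0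
      (ℓ + 1 + (2 * i0 + s)) hi
      (fun P => if th ≤ F ΛX hX zX T (HT hX P - T) (Dp zX P) then 1 else 0) (fun _ => 1))
      ≤ (q ^ J + J * rho ΛX hX i0) +
        (i0 + 1) ^ 4 * (C * (lam + J * (i0 + 1) * us s / lam + us s)) := by
  obtain ⟨Ag, Bb, a1, a2, a3⟩ := dens ΛX hX zX h1X hΛX T i0 th q hq1 hq J ℓ hJ
  rw [Tops, push2 ΛX hX ΛY hY zX zY ℓ (ℓ + i0) i0 (fun a a' y y' =>
    Psi ΛX ΛY hX hY zX zY sX sY T (T + i0) i0 (ℓ + 1 + (2 * i0 + s)) hi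
      (fun P => if th ≤ F ΛX hX zX T (HT hX P - T) (Dp zX P) then 1 else 0) (fun _ => 1)
      a a' (w + y' - y))]
  refine (mix (F ΛX hX zX ℓ) (F ΛY hY zY (ℓ + i0)) Ag Bb a1 (J * ((i0 + 1) * th)) a2
    (fun i => F_sum_le ΛX hX zX h1X hΛX ℓ i) (F_sum ΛY hY zY h1Y hΛY (ℓ + i0)).le i0 w
    (fun i i' x => Psi ΛX ΛY hX hY zX zY sX sY T (T + i0) i0 (ℓ + 1 + (2 * i0 + s)) hi
      (fun P => if th ≤ F ΛX hX zX T (HT hX P - T) (Dp zX P) then 1 else 0) (fun _ => 1)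
      (ℓ + i) (ℓ + i0 + i') x)
    (fun i i' x => Psi_le_one ΛX ΛY hX hY zX zY sX sY h1X h1Y hΛX hΛY _ _ _ _ _ _ _
      (fun P => by beta_reduce; split_ifs <;> simp) (fun _ => le_rfl) _ _ _)
    ((i0 + 1) ^ 2 * (C * (lam + J * (i0 + 1) * us s / lam + us s)))
    (fun i i' hi0 hi0' μ hμ hM => PsiX_le h1X hΛX H2 ℓ T i0 s hi J th hth lam hl0 hlt i i' hi0
      hi0' μ hμ hM)).trans ?_
  refine add_le_add a3 (le_of_eq ?_)
  ring

include h1X h1Y hΛX hΛY in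
lemma topsY (H3 : H3P ΛX ΛY hX hY zX zY sX sY us C) (ℓ T i0 s lo J : ℕ) (hTs : s ≤ T)
    (hJ : J * (T + i0 + i0) ≤ ℓ + i0)
    (th : ℝ≥0∞) (hth : th ≠ 0) (q : ℝ≥0∞) (hq1 : q ≤ 1)
    (hq : (∑' i, ∑' x, (if i ≤ i0 ∧ th < F ΛY hY zY (T + i0) i x then F ΛY hY zY (T + i0) i x
      else 0)) ≤ q)
    (lam : ℝ≥0∞) (hl0 : lam ≠ 0) (hlt : lam ≠ ⊤) (w : G) :
    Tops ΛX ΛY hX hY zX zY ℓ i0 w (Psi ΛX ΛY hX hY zX zY sX sY T (T + i0) i0
      lo (ℓ + T - s) (fun _ => 1)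
      (fun P => if th ≤ F ΛY hY zY (T + i0) (HT hY P - (T + i0)) (Dp zY P) then 1 else 0))
      ≤ (q ^ J + J * rho ΛY hY i0) +
        (i0 + 1) ^ 4 * (C * (lam + J * (i0 + 1) * us s / lam + us s)) := by
  obtain ⟨Ag, Bb, a1, a2, a3⟩ := dens ΛY hY zY h1Y hΛY (T + i0) i0 th q hq1 hq J (ℓ + i0) hJ
  rw [Tops, comm1]
  rw [push2 ΛY hY ΛX hX zY zX (ℓ + i0) ℓ i0 (fun a' a y' y =>
    Psi ΛX ΛY hX hY zX zY sX sY T (T + i0) i0 lo (ℓ + T - s) (fun _ => 1)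
      (fun P => if th ≤ F ΛY hY zY (T + i0) (HT hY P - (T + i0)) (Dp zY P) then 1 else 0)
      a a' (w + y' - y))]
  have e : ∀ (i' i : ℕ) (y' y : G),
      Psi ΛX ΛY hX hY zX zY sX sY T (T + i0) i0 lo (ℓ + T - s) (fun _ => 1)
      (fun P => if th ≤ F ΛY hY zY (T + i0) (HT hY P - (T + i0)) (Dp zY P) then 1 else 0)
      (ℓ + i) (ℓ + i0 + i') (w + y' - y)
      = (fun (i' i : ℕ) (x : G) => Psi ΛX ΛY hX hY zX zY sX sY T (T + i0) i0 lo (ℓ + T - s)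
        (fun _ => 1)
      (fun P => if th ≤ F ΛY hY zY (T + i0) (HT hY P - (T + i0)) (Dp zY P) then 1 else 0)
      (ℓ + i) (ℓ + i0 + i') (-x)) i' i (-w + y - y') := by
    intro i' i y' y
    beta_reduce
    congr 1
    abel
  simp_rw [e]
  refine (mix (F ΛY hY zY (ℓ + i0)) (F ΛX hX zX ℓ) Ag Bb a1 (J * ((i0 + 1) * th)) a2
    (fun i => F_sum_le ΛY hY zY h1Y hΛY (ℓ + i0) i) (F_sum ΛX hX zX h1X hΛX ℓ).le i0 (-w)
    (fun i' i x => Psi ΛX ΛY hX hY zX zY sX sY T (T + i0) i0 lo (ℓ + T - s) (fun _ => 1)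
      (fun P => if th ≤ F ΛY hY zY (T + i0) (HT hY P - (T + i0)) (Dp zY P) then 1 else 0)
      (ℓ + i) (ℓ + i0 + i') (-x))
    (fun i' i x => Psi_le_one ΛX ΛY hX hY zX zY sX sY h1X h1Y hΛX hΛY _ _ _ _ _ _ _
      (fun _ => le_rfl) (fun P => by beta_reduce; split_ifs <;> simp) _ _ _)
    ((i0 + 1) ^ 2 * (C * (lam + J * (i0 + 1) * us s / lam + us s)))
    (fun i' i hi0' hi0 μ hμ hM => ?_)).trans ?_
  · have := PsiY_le h1Y hΛY H3 ℓ T i0 s lo J hTs th hth lam hl0 hlt i i' hi0 hi0' (fun x => μ (-x))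
      ((le_of_eq ((Equiv.neg G).tsum_eq μ)).trans hμ) (fun x => hM (-x))
    refine le_trans (le_of_eq ?_) this
    rw [← (Equiv.neg G).tsum_eq]
    refine tsum_congr fun x => ?_
    simp
  · refine add_le_add a3 (le_of_eq ?_)
    ring

lemma add_const_le {B : Type*} (Λ : B → ℝ≥0∞) (ht : B → ℕ) (h1 : ∀ b, 1 ≤ ht b)
    (hΛ : ∑' b, Λ b = 1) (T : ℕ) (c f : List B → ℝ≥0∞) (hc : ∀ P, c P ≤ 1) (k : ℝ≥0∞) :
    EA Λ ht T (fun P => c P * (k + f P)) ≤ k + EA Λ ht T (fun P => c P * f P) := by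
  calc _ ≤ EA Λ ht T (fun P => k + c P * f P) := by
        refine EA_mono Λ ht T fun P _ => ?_
        calc _ = c P * k + c P * f P := mul_add _ _ _
          _ ≤ 1 * k + c P * f P := by
              gcongr
              exact hc P
          _ = _ := by rw [one_mul]
    _ = _ := by rw [EA_add, EA_const Λ ht h1 hΛ]

include h1X h1Y hΛX hΛY in
lemma psi_split (T T' i0 lo hi : ℕ) (hvX : List BX → Prop) (hvY : List BY → Prop)
    [DecidablePred hvX] [DecidablePred hvY] (u : ℝ≥0∞)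
    (huX : EA ΛX hX T (fun P => if hvX P then 0 else 1) ≤ u)
    (huY : EA ΛY hY T' (fun P => if hvY P then 0 else 1) ≤ u) (a a' : ℕ) (x : G) :
    EA ΛX hX T (fun P => (if HT hX P ≤ T + i0 then 1 else 0) *
      EA ΛY hY T' (fun P' => (if HT hY P' ≤ T' + i0 then 1 else 0) *
      (if Ev hX hY zX zY sX sY lo hi a a' x P P' then 1 else 0))) ≤ u * u +
      (Psi ΛX ΛY hX hY zX zY sX sY T T' i0 lo hi (fun P => if hvX P then 1 else 0) (fun _ => 1)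
        a a' x
      + Psi ΛX ΛY hX hY zX zY sX sY T T' i0 lo hi (fun _ => 1) (fun P => if hvY P then 1 else 0)
        a a' x) := by
  have key : ∀ P, FP hX T P → (if HT hX P ≤ T + i0 then (1 : ℝ≥0∞) else 0) *
      EA ΛY hY T' (fun P' => (if HT hY P' ≤ T' + i0 then 1 else 0) *
      (if Ev hX hY zX zY sX sY lo hi a a' x P P' then 1 else 0)) ≤
      u * (if hvX P then 0 else 1) +
      (((if HT hX P ≤ T + i0 then 1 else 0) * (if hvX P then 1 else 0)) *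
      EA ΛY hY T' (fun P' => ((if HT hY P' ≤ T' + i0 then 1 else 0) * 1) *
      (if Ev hX hY zX zY sX sY lo hi a a' x P P' then 1 else 0)) +
      ((if HT hX P ≤ T + i0 then 1 else 0) * 1) *
      EA ΛY hY T' (fun P' => ((if HT hY P' ≤ T' + i0 then 1 else 0) *
        (if hvY P' then 1 else 0)) *
      (if Ev hX hY zX zY sX sY lo hi a a' x P P' then 1 else 0))) := by
    intro P _
    by_cases hP : hvX P
    · simp only [if_pos hP, mul_one, mul_zero, zero_add]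
      exact le_self_add
    · simp only [if_neg hP, mul_one, mul_zero, zero_mul, zero_add]
      have e : EA ΛY hY T' (fun P' => (if HT hY P' ≤ T' + i0 then (1 : ℝ≥0∞) else 0) *
          (if Ev hX hY zX zY sX sY lo hi a a' x P P' then 1 else 0)) ≤ u +
          EA ΛY hY T' (fun P' => ((if HT hY P' ≤ T' + i0 then 1 else 0) *
            (if hvY P' then 1 else 0)) *
          (if Ev hX hY zX zY sX sY lo hi a a' x P P' then 1 else 0)) := by
        refine le_trans ?_ (add_le_add huY le_rfl)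
        rw [← EA_add]
        refine EA_mono ΛY hY T' fun P' _ => ?_
        by_cases hP' : hvY P'
        · simp only [if_pos hP', mul_one, zero_add]
          exact le_rfl
        · simp only [if_neg hP', mul_zero, zero_mul, add_zero]
          split_ifs <;> simp
      calc _ ≤ (if HT hX P ≤ T + i0 then (1 : ℝ≥0∞) else 0) * (u + _) := mul_le_mul_right e _
        _ = (if HT hX P ≤ T + i0 then (1 : ℝ≥0∞) else 0) * u + _ := mul_add _ _ _
        _ ≤ u + _ := by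
            refine add_le_add ?_ le_rfl
            split_ifs <;> simp
  refine (EA_mono ΛX hX T key).trans ?_
  rw [EA_add, EA_add, EA_mul_left]
  exact add_le_add (mul_le_mul_right huX _) le_rfl

include h1X h1Y hΛX hΛY in
/-- **one window** -/
theorem window (hsX : ∀ b, ∀ q ∈ sX b, 1 ≤ q.2 ∧ q.2 ≤ hX b)
    (hsY : ∀ b, ∀ q ∈ sY b, 1 ≤ q.2 ∧ q.2 ≤ hY b)
    (H2 : H2P ΛX ΛY hX hY zX zY sX sY us C) (H3 : H3P ΛX ΛY hX hY zX zY sX sY us C)
    (n ℓ T i0 s J : ℕ) (hn : ℓ + 3 * i0 + T ≤ n) (hTs : s ≤ T) (hJ : J * (T + 2 * i0) ≤ ℓ)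
    (u : ℝ≥0∞) (hu0 : u ≠ 0) (hu1 : u ≤ 1) (lam : ℝ≥0∞) (hl0 : lam ≠ 0) (hlt : lam ≠ ⊤)
    (η : ℝ≥0∞) (w : G)
    (hη : ∀ a, ℓ ≤ a → ∑' LX : List BX, ∑' LY : List BY, (if HT hX LX = n ∧ HT hY LY = n ∧
      ∃ y k, a ≤ k ∧ k < a + (2 * i0 + s) ∧ (y, k) ∈ TT sX hX zX LX 0 0 ∧
        (y, k) ∈ TT sY hY zY LY w 0 then LW ΛX LX * LW ΛY LY else 0) ≤ η) :
    ∑' LX : List BX, ∑' LY : List BY, (if HT hX LX = n ∧ HT hY LY = n ∧
      ∃ y k, (y, k) ∈ TT sX hX zX LX 0 0 ∧ (y, k) ∈ TT sY hY zY LY w 0 ∧ ℓ < k ∧ k ≤ ℓ + T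
      then LW ΛX LX * LW ΛY LY else 0)
      ≤ η + η + (2 * rho ΛX hX i0 + (2 * rho ΛY hY i0 + (u * u +
        (((1 - u) ^ J + J * rho ΛX hX i0) +
          (i0 + 1) ^ 4 * (C * (lam + J * (i0 + 1) * us s / lam + us s)) +
        (((1 - u) ^ J + J * rho ΛY hY i0) +
          (i0 + 1) ^ 4 * (C * (lam + J * (i0 + 1) * us s / lam + us s))))))) := by
  set lo := ℓ + 1 + (2 * i0 + s) with hlo
  set hi := ℓ + T - s with hhi
  set Fm : List BX → List BY → ℝ≥0∞ := fun LX LY => if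
    (∃ y k, (y, k) ∈ TT sX hX zX LX 0 0 ∧ (y, k) ∈ TT sY hY zY LY w 0 ∧ ℓ < k ∧ k ≤ ℓ + T) ∧
    (∀ y k, (y, k) ∈ TT sX hX zX LX 0 0 → (y, k) ∈ TT sY hY zY LY w 0 → ℓ < k →
      k ≤ ℓ + T + 2 * i0 → lo ≤ k ∧ k ≤ hi) then 1 else 0 with hFm
  have hFm1 : ∀ LX LY, Fm LX LY ≤ 1 := by
    intro LX LY; simp only [hFm]; split_ifs <;> simp
  -- slabs
  have hA : ∑' LX : List BX, ∑' LY : List BY, (if HT hX LX = n ∧ HT hY LY = n ∧
      ∃ y k, (y, k) ∈ TT sX hX zX LX 0 0 ∧ (y, k) ∈ TT sY hY zY LY w 0 ∧ ℓ < k ∧ k ≤ ℓ + T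
      then LW ΛX LX * LW ΛY LY else 0) ≤ η + η +
      EB ΛX hX 0 n (fun LX => EB ΛY hY 0 n (Fm LX)) := by
    have e : EB ΛX hX 0 n (fun LX => EB ΛY hY 0 n (Fm LX)) = ∑' LX, ∑' LY,
        if HT hX LX = n ∧ HT hY LY = n then LW ΛX LX * LW ΛY LY * Fm LX LY else 0 := by
      rw [EB]
      refine tsum_congr fun LX => ?_
      by_cases h : HT hX LX = n
      · rw [if_pos (by omega), EB, ← ENNReal.tsum_mul_left]
        refine tsum_congr fun LY => ?_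
        by_cases h' : HT hY LY = n
        · rw [if_pos (by omega), if_pos ⟨h, h'⟩, mul_assoc]
        · rw [if_neg (by omega), if_neg (fun h'' => h' h''.2), mul_zero]
      · rw [if_neg (by omega)]
        symm
        refine ENNReal.tsum_eq_zero.2 fun LY => ?_
        rw [if_neg (fun h'' => h h''.1)]
    rw [e]
    refine le_trans ?_ (add_le_add (add_le_add (hη (ℓ + 1) (by omega)) (hη (hi + 1) (by omega)))
      le_rfl)
    simp only [← ENNReal.tsum_add]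
    refine ENNReal.tsum_le_tsum fun LX => ENNReal.tsum_le_tsum fun LY => ?_
    by_cases hE : HT hX LX = n ∧ HT hY LY = n ∧
      ∃ y k, (y, k) ∈ TT sX hX zX LX 0 0 ∧ (y, k) ∈ TT sY hY zY LY w 0 ∧ ℓ < k ∧ k ≤ ℓ + T
    · rw [if_pos hE]
      by_cases hall : ∀ y k, (y, k) ∈ TT sX hX zX LX 0 0 → (y, k) ∈ TT sY hY zY LY w 0 → ℓ < k →
        k ≤ ℓ + T + 2 * i0 → lo ≤ k ∧ k ≤ hi
      · refine le_add_left ?_
        rw [if_pos ⟨hE.1, hE.2.1⟩]
        simp only [hFm]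
        rw [if_pos ⟨hE.2.2, hall⟩, mul_one]
      · refine le_add_right ?_
        push Not at hall
        obtain ⟨y, k, k1, k2, k3, k4, k5⟩ := hall
        by_cases hk : lo ≤ k
        · have := k5 hk
          refine le_add_left ?_
          rw [if_pos ⟨hE.1, hE.2.1, y, k, by omega, by omega, k1, k2⟩]
        · refine le_add_right ?_
          rw [if_pos ⟨hE.1, hE.2.1, y, k, by omega, by omega, k1, k2⟩]
    · rw [if_neg hE]; exact zero_le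
  refine hA.trans (add_le_add le_rfl ?_)
  -- cuts
  have hnX : ∀ A : List BX, (if HT hX A ≤ ℓ + i0 then (1 : ℝ≥0∞) else 0) ≤ 1 := fun A => by
    split_ifs <;> simp
  have hnP : ∀ A : List BX, (if HT hX A ≤ T + i0 then (1 : ℝ≥0∞) else 0) ≤ 1 := fun A => by
    split_ifs <;> simp
  have hnY : ∀ A : List BY, (if HT hY A ≤ ℓ + i0 + i0 then (1 : ℝ≥0∞) else 0) ≤ 1 := fun A => by
    split_ifs <;> simp
  have hB := cut2 ΛX hX h1X hΛX n ℓ T i0 (by omega) (fun LX => EB ΛY hY 0 n (Fm LX))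
    (fun LX => EB_le ΛY hY h1Y hΛY 0 n 1 fun LY _ => hFm1 LX LY)
    (fun A P => 2 * rho ΛY hY i0 + EA ΛY hY (ℓ + i0) (fun A' =>
      (if HT hY A' ≤ ℓ + i0 + i0 then 1 else 0) * EA ΛY hY (T + i0) (fun P' =>
        (if HT hY P' ≤ T + i0 + i0 then 1 else 0) *
        (if Ev hX hY zX zY sX sY lo hi (HT hX A) (HT hY A') (w + Dp zY A' - Dp zX A) P P'
          then 1 else 0))))
    (fun A P R hA hA2 hP hP2 => by
      refine cut2 ΛY hY h1Y hΛY n (ℓ + i0) (T + i0) i0 (by omega) (Fm (A ++ (P ++ R)))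
        (fun LY => hFm1 _ _) _ fun A' P' R' hA' hA2' hP' hP2' => ?_
      have g1 := FP_le hX ℓ A hA
      have g2 := FP_le hX T P hP
      have g3 := FP_le hY _ A' hA'
      have g4 := FP_le hY _ P' hP'
      simp only [hFm]
      by_cases hc : (∃ y k, (y, k) ∈ TT sX hX zX (A ++ (P ++ R)) 0 0 ∧
        (y, k) ∈ TT sY hY zY (A' ++ (P' ++ R')) w 0 ∧ ℓ < k ∧ k ≤ ℓ + T) ∧
        (∀ y k, (y, k) ∈ TT sX hX zX (A ++ (P ++ R)) 0 0 →
        (y, k) ∈ TT sY hY zY (A' ++ (P' ++ R')) w 0 → ℓ < k →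
        k ≤ ℓ + T + 2 * i0 → lo ≤ k ∧ k ≤ hi)
      · rw [if_pos hc, if_pos (geo hX hY zX zY sX sY hsX hsY ℓ T i0 lo hi w (by omega) A P R
          A' P' R' g1 hA2 g2 hP2 g3 hA2' g4 hc.1 hc.2)]
      · rw [if_neg hc]; exact zero_le)
  refine hB.trans (add_le_add le_rfl ?_)
  have hC : ∀ A, FP hX ℓ A → (if HT hX A ≤ ℓ + i0 then (1 : ℝ≥0∞) else 0) *
      EA ΛX hX T (fun P => (if HT hX P ≤ T + i0 then 1 else 0) * (2 * rho ΛY hY i0 +
      EA ΛY hY (ℓ + i0) (fun A' =>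
      (if HT hY A' ≤ ℓ + i0 + i0 then 1 else 0) * EA ΛY hY (T + i0) (fun P' =>
        (if HT hY P' ≤ T + i0 + i0 then 1 else 0) *
        (if Ev hX hY zX zY sX sY lo hi (HT hX A) (HT hY A') (w + Dp zY A' - Dp zX A) P P'
          then 1 else 0))))) ≤ (if HT hX A ≤ ℓ + i0 then (1 : ℝ≥0∞) else 0) *
      (2 * rho ΛY hY i0 + EA ΛY hY (ℓ + i0) (fun A' =>
      (if HT hY A' ≤ ℓ + i0 + i0 then 1 else 0) * EA ΛX hX T (fun P =>
      (if HT hX P ≤ T + i0 then 1 else 0) * EA ΛY hY (T + i0) (fun P' =>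
        (if HT hY P' ≤ T + i0 + i0 then 1 else 0) *
        (if Ev hX hY zX zY sX sY lo hi (HT hX A) (HT hY A') (w + Dp zY A' - Dp zX A) P P'
          then 1 else 0))))) := by
    intro A _
    refine mul_le_mul_right ?_ _
    refine (add_const_le ΛX hX h1X hΛX T (fun P => if HT hX P ≤ T + i0 then 1 else 0) _
      hnP (2 * rho ΛY hY i0)).trans ?_
    refine add_le_add le_rfl (le_of_eq ?_)
    exact comm1 ΛX hX ΛY hY T (ℓ + i0) (fun P => if HT hX P ≤ T + i0 then 1 else 0)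
      (fun A' => if HT hY A' ≤ ℓ + i0 + i0 then 1 else 0)
      (fun P A' => EA ΛY hY (T + i0) (fun P' =>
        (if HT hY P' ≤ T + i0 + i0 then 1 else 0) *
        (if Ev hX hY zX zY sX sY lo hi (HT hX A) (HT hY A') (w + Dp zY A' - Dp zX A) P P'
          then 1 else 0)))
  refine (EA_mono ΛX hX ℓ hC).trans ?_
  refine (add_const_le ΛX hX h1X hΛX ℓ (fun A => if HT hX A ≤ ℓ + i0 then 1 else 0) _
    hnX (2 * rho ΛY hY i0)).trans ?_
  refine add_le_add le_rfl ?_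
  -- locality
  obtain ⟨thX, tX0, -, tX2, tX3⟩ := loc_data ΛX hX zX h1X hΛX T i0 hu0 hu1
  obtain ⟨thY, tY0, -, tY2, tY3⟩ := loc_data ΛY hY zY h1Y hΛY (T + i0) i0 hu0 hu1
  have hD := split3 ΛX hX ΛY hY h1X hΛX h1Y hΛY ℓ (ℓ + i0)
    (fun A => if HT hX A ≤ ℓ + i0 then 1 else 0)
    (fun A' => if HT hY A' ≤ ℓ + i0 + i0 then 1 else 0) hnX hnY
    (fun A A' => EA ΛX hX T (fun P =>
      (if HT hX P ≤ T + i0 then 1 else 0) * EA ΛY hY (T + i0) (fun P' =>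
        (if HT hY P' ≤ T + i0 + i0 then 1 else 0) *
        (if Ev hX hY zX zY sX sY lo hi (HT hX A) (HT hY A') (w + Dp zY A' - Dp zX A) P P'
          then 1 else 0))))
    (fun A A' => Psi ΛX ΛY hX hY zX zY sX sY T (T + i0) i0 lo hi
      (fun P => if thX ≤ F ΛX hX zX T (HT hX P - T) (Dp zX P) then 1 else 0) (fun _ => 1)
      (HT hX A) (HT hY A') (w + Dp zY A' - Dp zX A))
    (fun A A' => Psi ΛX ΛY hX hY zX zY sX sY T (T + i0) i0 lo hi (fun _ => 1)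
      (fun P => if thY ≤ F ΛY hY zY (T + i0) (HT hY P - (T + i0)) (Dp zY P) then 1 else 0)
      (HT hX A) (HT hY A') (w + Dp zY A' - Dp zX A)) (u * u)
    (fun A A' _ _ => psi_split h1X h1Y hΛX hΛY T (T + i0) i0 lo hi
      (fun P => thX ≤ F ΛX hX zX T (HT hX P - T) (Dp zX P))
      (fun P => thY ≤ F ΛY hY zY (T + i0) (HT hY P - (T + i0)) (Dp zY P)) u
      (by
        refine le_trans (le_of_eq (EA_congr ΛX hX T fun P _ => ?_)) tX2
        by_cases h : F ΛX hX zX T (HT hX P - T) (Dp zX P) < thX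
        · rw [if_pos h, if_neg (not_le.2 h)]
        · rw [if_neg h, if_pos (not_lt.1 h)])
      (by
        refine le_trans (le_of_eq (EA_congr ΛY hY (T + i0) fun P _ => ?_)) tY2
        by_cases h : F ΛY hY zY (T + i0) (HT hY P - (T + i0)) (Dp zY P) < thY
        · rw [if_pos h, if_neg (not_le.2 h)]
        · rw [if_neg h, if_pos (not_lt.1 h)]) _ _ _)
  refine hD.trans (add_le_add le_rfl (add_le_add ?_ ?_))
  · exact topsX h1X h1Y hΛX hΛY H2 ℓ T i0 s hi J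
      (le_trans (Nat.mul_le_mul_left J (by omega)) hJ) thX tX0 (1 - u) tsub_le_self tX3
      lam hl0 hlt w
  · exact topsY h1X h1Y hΛX hΛY H3 ℓ T i0 s lo J hTs
      (le_trans (Nat.mul_le_mul_left J (by omega)) (hJ.trans (by omega))) thY tY0 (1 - u)
      tsub_le_self tY3 lam hl0 hlt w

end pair

end Crest.Agent.R154.AsmR667
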