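import Crest.Agent.R154.AsmD_780

/-! Row 154, ROAD 801 (helper780): density of a first passage with a small attempt. -/

set_option autoImplicit false

namespace Crest.Agent.R154.Asm780

open scoped ENNReal
open Crest.Agent.R154.B5A Crest.Agent.R154.FP178

variable {B G : Type*} [AddCommGroup G]
variable (Λ : B → ℝ≥0∞) (ht : B → ℕ) (z : B → G)

/-- displacement -/
def Dp (L : List B) : G := (L.map z).sum

lemma Dp_append (L L' : List B) : Dp z (L ++ L') = Dp z L + Dp z L' := by simp [Dp]

open Classical in
/-- law of (height, displacement) of the first passage of `a` -/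
noncomputable def pp (a : ℕ) (q : ℕ × G) : ℝ≥0∞ :=
  FF Λ ht a (fun P => if HT ht P = q.1 ∧ Dp z P = q.2 then 1 else 0)

lemma FF_tsum {ι : Type*} (a : ℕ) (f : ι → List B → ℝ≥0∞) :
    FF Λ ht a (fun L => ∑' i, f i L) = ∑' i, FF Λ ht a (f i) := by
  classical
  simp only [FF]
  rw [ENNReal.tsum_comm]
  refine tsum_congr fun L => ?_
  by_cases h : fp ht a L
  · simp only [if_pos h, ENNReal.tsum_mul_left]
  · simp only [if_neg h, tsum_zero]

lemma FF_mul_const (a : ℕ) (c : ℝ≥0∞) (f : List B → ℝ≥0∞) :
    FF Λ ht a (fun L => f L * c) = FF Λ ht a f * c := by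
  simp only [mul_comm _ c]
  exact FF_const_mul Λ ht a c f

lemma FF_key (a : ℕ) (φ : ℕ × G → ℝ≥0∞) :
    FF Λ ht a (fun P => φ (HT ht P, Dp z P)) = ∑' q, pp Λ ht z a q * φ q := by
  classical
  have e : ∀ P : List B, φ (HT ht P, Dp z P)
      = ∑' q : ℕ × G, (if HT ht P = q.1 ∧ Dp z P = q.2 then 1 else 0) * φ q := by
    intro P
    rw [tsum_eq_single (HT ht P, Dp z P)]
    · simp
    · rintro ⟨h, y⟩ hq
      rw [if_neg, zero_mul]
      rintro ⟨h1, h2⟩
      exact hq (by simp only at h1 h2; rw [h1, h2])
  simp only [e]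
  rw [FF_tsum]
  refine tsum_congr fun q => ?_
  rw [FF_mul_const]
  rfl

lemma tsum_pp_le (h1 : ∀ b, 1 ≤ ht b) (hΛ : ∑' b, Λ b = 1) (a : ℕ) :
    ∑' q, pp Λ ht z a q = 1 := by
  have := FF_key Λ ht z a (fun _ => 1)
  simp only [mul_one] at this
  rw [← this]
  exact FF_one_eq Λ ht h1 hΛ a

open Classical in
/-- continuation after a piece of height `h` and displacement `y` -/
noncomputable def II (a h : ℕ) (y : G) (q : ℕ × G) : ℝ≥0∞ :=
  FF Λ ht (a - h) (fun L => if h + HT ht L = q.1 ∧ y + Dp z L = q.2 then 1 else 0)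

lemma II_eq (a h : ℕ) (y : G) (q : ℕ × G) : II Λ ht z a h y q
    = if h ≤ q.1 then pp Λ ht z (a - h) (q.1 - h, q.2 - y) else 0 := by
  classical
  by_cases hh : h ≤ q.1
  · rw [if_pos hh, II, pp]
    congr 1
    funext L
    by_cases h2 : h + HT ht L = q.1 ∧ y + Dp z L = q.2
    · rw [if_pos h2, if_pos]
      exact ⟨by simp only; omega, by rw [← h2.2]; abel⟩
    · rw [if_neg h2, if_neg]
      rintro ⟨h3, h4⟩
      exact h2 ⟨by simp only at h3; omega, by simp only at h4; rw [h4]; abel⟩
  · rw [if_neg hh, II, FF]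
    refine ENNReal.tsum_eq_zero.2 fun L => ?_
    have hc : ¬ (h + HT ht L = q.1 ∧ y + Dp z L = q.2) := by omega
    rw [if_neg hc]
    simp

lemma tsum_II_le (h1 : ∀ b, 1 ≤ ht b) (hΛ : ∑' b, Λ b = 1) (a h : ℕ) (y : G) :
    ∑' q, II Λ ht z a h y q ≤ 1 := by
  classical
  simp only [II]
  rw [← FF_tsum]
  refine FF_le_one Λ ht h1 hΛ _ fun L => ?_
  rw [tsum_eq_single (h + HT ht L, y + Dp z L)]
  · simp
  · rintro ⟨k, x⟩ hq
    rw [if_neg]
    rintro ⟨h2, h3⟩
    exact hq (by simp only at h2 h3; rw [← h2, ← h3])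

lemma tsum_II_y_le (h1 : ∀ b, 1 ≤ ht b) (hΛ : ∑' b, Λ b = 1) (a h : ℕ) (q : ℕ × G) :
    ∑' y, II Λ ht z a h y q ≤ 1 := by
  classical
  simp only [II]
  rw [← FF_tsum]
  refine FF_le_one Λ ht h1 hΛ _ fun L => ?_
  rw [tsum_eq_single (q.2 - Dp z L)]
  · split_ifs <;> simp
  · intro y hy
    rw [if_neg]
    rintro ⟨h2, h3⟩
    exact hy (by rw [← h3]; abel)

lemma pp_split (h1 : ∀ b, 1 ≤ ht b) (a T : ℕ) (hT : T ≤ a) (q : ℕ × G) :
    pp Λ ht z a q = FF Λ ht T (fun P => II Λ ht z a (HT ht P) (Dp z P) q) := by
  classical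
  rw [pp, FF, fp_split Λ ht h1 T a hT]
  refine tsum_congr fun A => ?_
  by_cases hA : fp ht T A
  · rw [if_pos hA, if_pos hA]
    congr 1
    simp only [II, FF]
    refine tsum_congr fun L => ?_
    rw [HT_append, Dp_append]
  · rw [if_neg hA, if_neg hA]

open Classical in
/-- **density with a small attempt** -/
theorem dens (h1 : ∀ b, 1 ≤ ht b) (hΛ : ∑' b, Λ b = 1) (hU1 : ∀ n, U Λ ht n ≤ 1)
    (T i : ℕ) (θ r : ℝ≥0∞) (hr : r ≤ 1)
    (hsm : FF Λ ht T (fun P => if HT ht P ≤ T + i ∧ ¬ pp Λ ht z T (HT ht P, Dp z P) < θ then 1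
      else 0) ≤ r) :
    ∀ (J a : ℕ), J * (T + i) ≤ a → ∃ g b : ℕ × G → ℝ≥0∞, (∀ q, pp Λ ht z a q = g q + b q) ∧
      (∀ q, g q ≤ J * ((i + 1) * θ)) ∧ ∑' q, b q ≤ r ^ J + J * eta Λ ht i := by
  intro J
  induction J with
  | zero =>
    intro a _
    refine ⟨fun _ => 0, pp Λ ht z a, fun q => by simp, fun q => by simp, ?_⟩
    rw [tsum_pp_le Λ ht z h1 hΛ]
    simp
  | succ J ih =>
    intro a ha
    have hTa : T ≤ a := by nlinarith [Nat.zero_le (J * (T + i))]
    have ih' : ∀ h : ℕ, ∃ g b : ℕ × G → ℝ≥0∞, h ≤ T + i →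
        ((∀ q, pp Λ ht z (a - h) q = g q + b q) ∧
        (∀ q, g q ≤ J * ((i + 1) * θ)) ∧ ∑' q, b q ≤ r ^ J + J * eta Λ ht i) := by
      intro h
      by_cases hh : h ≤ T + i
      · obtain ⟨g, b, hgb⟩ := ih (a - h) (by
          have : (J + 1) * (T + i) = J * (T + i) + (T + i) := by ring
          omega)
        exact ⟨g, b, fun _ => hgb⟩
      · exact ⟨0, 0, fun h' => absurd h' hh⟩
    choose gh bh hgb using ih'
    set sm : List B → Prop := fun P => pp Λ ht z T (HT ht P, Dp z P) < θ with hsmdef
    let g : ℕ × G → ℝ≥0∞ := fun q =>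
      FF Λ ht T (fun P => if HT ht P ≤ T + i ∧ sm P then II Λ ht z a (HT ht P) (Dp z P) q else 0)
      + FF Λ ht T (fun P => if HT ht P ≤ T + i ∧ ¬ sm P then
          (if HT ht P ≤ q.1 then gh (HT ht P) (q.1 - HT ht P, q.2 - Dp z P) else 0) else 0)
    let b : ℕ × G → ℝ≥0∞ := fun q =>
      FF Λ ht T (fun P => if HT ht P ≤ T + i ∧ ¬ sm P then
          (if HT ht P ≤ q.1 then bh (HT ht P) (q.1 - HT ht P, q.2 - Dp z P) else 0) else 0)
      + FF Λ ht T (fun P => if HT ht P ≤ T + i then 0 else II Λ ht z a (HT ht P) (Dp z P) q)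
    refine ⟨g, b, ?_, ?_, ?_⟩
    · intro q
      rw [pp_split Λ ht z h1 a T hTa q]
      simp only [g, b]
      rw [← FF_add, ← FF_add, ← FF_add]
      congr 1
      funext P
      by_cases hP : HT ht P ≤ T + i
      · by_cases hs : sm P
        · simp [hP, hs]
        · simp only [hP, hs, and_false, not_false_eq_true, and_true, if_true, if_false, zero_add,
            add_zero]
          rw [II_eq]
          by_cases hq : HT ht P ≤ q.1
          · rw [if_pos hq, if_pos hq, if_pos hq]
            exact (hgb (HT ht P) hP).1 _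
          · rw [if_neg hq, if_neg hq, if_neg hq, add_zero]
      · simp [hP]
    · intro q
      have hA : FF Λ ht T (fun P => if HT ht P ≤ T + i ∧ sm P then
          II Λ ht z a (HT ht P) (Dp z P) q else 0) ≤ (i + 1) * θ := by
        have e := FF_key Λ ht z T (fun p => if p.1 ≤ T + i ∧ pp Λ ht z T p < θ then
          II Λ ht z a p.1 p.2 q else 0)
        have e0 : FF Λ ht T (fun P => if HT ht P ≤ T + i ∧ sm P then
          II Λ ht z a (HT ht P) (Dp z P) q else 0) = ∑' p : ℕ × G, pp Λ ht z T p *
            (if p.1 ≤ T + i ∧ pp Λ ht z T p < θ then II Λ ht z a p.1 p.2 q else 0) := e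
        rw [e0, ENNReal.tsum_prod']
        have hz : ∀ h : ℕ, (∑' y, pp Λ ht z T (h, y) *
            (if (h, y).1 ≤ T + i ∧ pp Λ ht z T (h, y) < θ then II Λ ht z a (h, y).1 (h, y).2 q
              else 0)) ≤ if h ∈ Finset.Icc T (T + i) then θ else 0 := by
          intro h
          by_cases hh : h ∈ Finset.Icc T (T + i)
          · rw [if_pos hh]
            calc _ ≤ ∑' y, θ * II Λ ht z a h y q := by
                  refine ENNReal.tsum_le_tsum fun y => ?_
                  by_cases hc : h ≤ T + i ∧ pp Λ ht z T (h, y) < θ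
                  · simp only
                    rw [if_pos hc]
                    exact mul_le_mul_left hc.2.le _
                  · simp only
                    rw [if_neg hc, mul_zero]; exact zero_le
              _ = θ * ∑' y, II Λ ht z a h y q := ENNReal.tsum_mul_left
              _ ≤ θ * 1 := mul_le_mul_right (tsum_II_y_le Λ ht z h1 hΛ a h q) _
              _ = θ := mul_one _
          · rw [if_neg hh]
            refine le_of_eq (ENNReal.tsum_eq_zero.2 fun y => ?_)
            simp only
            by_cases hc : h ≤ T + i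
            · have hlt : h < T := by
                by_contra hcon
                exact hh (Finset.mem_Icc.2 ⟨by omega, hc⟩)
              have hp : pp Λ ht z T (h, y) = 0 := by
                rw [pp, FF]
                refine ENNReal.tsum_eq_zero.2 fun L => ?_
                by_cases hL : fp ht T L
                · have := le_HT_of_fp ht hL
                  rw [if_pos hL, if_neg (by simp only; omega), mul_zero]
                · rw [if_neg hL]
              rw [hp, zero_mul]
            · rw [if_neg (fun h' => hc h'.1), mul_zero]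
        calc _ ≤ ∑' h : ℕ, (if h ∈ Finset.Icc T (T + i) then θ else 0) :=
              ENNReal.tsum_le_tsum hz
          _ = ∑ h ∈ Finset.Icc T (T + i), θ := by
              rw [tsum_eq_sum (s := Finset.Icc T (T + i))]
              · exact Finset.sum_congr rfl fun h hh => if_pos hh
              · intro h hh; exact if_neg hh
          _ = (i + 1) * θ := by
              rw [Finset.sum_const, Nat.card_Icc, nsmul_eq_mul,
                show T + i + 1 - T = i + 1 by omega]
              push_cast; ring
      have hB : FF Λ ht T (fun P => if HT ht P ≤ T + i ∧ ¬ sm P then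
          (if HT ht P ≤ q.1 then gh (HT ht P) (q.1 - HT ht P, q.2 - Dp z P) else 0) else 0)
          ≤ J * ((i + 1) * θ) := by
        calc _ ≤ FF Λ ht T (fun _ => (J * ((i + 1) * θ)) * 1) := by
              refine FF_mono Λ ht T fun P _ => ?_
              rw [mul_one]
              split_ifs with h2 h3
              · exact (hgb _ h2.1).2.1 _
              · exact zero_le
              · exact zero_le
          _ = _ := by rw [FF_const_mul, FF_one_eq Λ ht h1 hΛ, mul_one]
      calc g q ≤ (i + 1) * θ + J * ((i + 1) * θ) := add_le_add hA hB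
        _ = ((J + 1 : ℕ) : ℝ≥0∞) * ((i + 1) * θ) := by push_cast; ring
    · simp only [b]
      rw [ENNReal.tsum_add, ← FF_tsum, ← FF_tsum]
      have hA : FF Λ ht T (fun P => ∑' q : ℕ × G, if HT ht P ≤ T + i ∧ ¬ sm P then
          (if HT ht P ≤ q.1 then bh (HT ht P) (q.1 - HT ht P, q.2 - Dp z P) else 0) else 0)
          ≤ (r ^ J + J * eta Λ ht i) * r := by
        calc _ ≤ FF Λ ht T (fun P => (r ^ J + J * eta Λ ht i) *
              (if HT ht P ≤ T + i ∧ ¬ pp Λ ht z T (HT ht P, Dp z P) < θ then 1 else 0)) := by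
              refine FF_mono Λ ht T fun P _ => ?_
              by_cases hc : HT ht P ≤ T + i ∧ ¬ sm P
              · simp only [if_pos hc]
                have hc' : HT ht P ≤ T + i ∧ ¬ pp Λ ht z T (HT ht P, Dp z P) < θ := hc
                rw [if_pos hc', mul_one]
                refine le_trans ?_ (hgb _ hc.1).2.2
                have : ∀ q : ℕ × G, (if HT ht P ≤ q.1 then
                    bh (HT ht P) (q.1 - HT ht P, q.2 - Dp z P) else 0)
                    ≤ ∑' p : ℕ × G, if q = (HT ht P + p.1, Dp z P + p.2) then bh (HT ht P) p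
                      else 0 := by
                  intro q
                  by_cases hq : HT ht P ≤ q.1
                  · rw [if_pos hq]
                    refine le_trans ?_ (ENNReal.le_tsum (q.1 - HT ht P, q.2 - Dp z P))
                    rw [if_pos]
                    refine Prod.ext ?_ ?_
                    · simp only; omega
                    · simp only; abel
                  · rw [if_neg hq]; exact zero_le
                refine (ENNReal.tsum_le_tsum this).trans ?_
                rw [ENNReal.tsum_comm]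
                refine ENNReal.tsum_le_tsum fun p => ?_
                rw [tsum_eq_single (HT ht P + p.1, Dp z P + p.2)]
                · rw [if_pos rfl]
                · intro q hq; rw [if_neg hq]
              · simp only [if_neg hc, tsum_zero]; exact zero_le
          _ = (r ^ J + J * eta Λ ht i) * _ := FF_const_mul Λ ht T _ _
          _ ≤ _ := mul_le_mul_right hsm _
      have hB : FF Λ ht T (fun P => ∑' q : ℕ × G, if HT ht P ≤ T + i then 0 else
          II Λ ht z a (HT ht P) (Dp z P) q) ≤ eta Λ ht i := by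
        refine le_trans ?_ (overshoot Λ ht h1 hU1 i T)
        rw [FF]
        refine ENNReal.tsum_le_tsum fun P => ?_
        by_cases hP : fp ht T P
        · rw [if_pos hP]
          by_cases h2 : HT ht P ≤ T + i
          · simp only [if_pos h2, tsum_zero, mul_zero]; exact zero_le
          · rw [if_pos ⟨hP, by omega⟩]
            simp only [if_neg h2]
            calc _ ≤ LW Λ P * 1 := mul_le_mul_right (tsum_II_le Λ ht z h1 hΛ a _ _) _
              _ = _ := mul_one _
        · rw [if_neg hP]; exact zero_le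
      calc _ ≤ (r ^ J + J * eta Λ ht i) * r + eta Λ ht i := add_le_add hA hB
        _ ≤ r ^ (J + 1) + J * eta Λ ht i * 1 + eta Λ ht i := by
            rw [add_mul, pow_succ]
            gcongr
        _ = _ := by push_cast; ring

end Crest.Agent.R154.Asm780
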