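import Crest.Agent.R154.AsmD_789

/-! Row 154, ROAD 801, assembly, part E (helper789): one window, the five terms. -/

set_option autoImplicit false

namespace Crest.Agent.R154.AsmE789

open scoped ENNReal
open Crest.Agent.R154.B5A Crest.Agent.R154.FP178 Crest.Agent.R154.AsmA789
open Crest.Agent.R154.AsmB789 Crest.Agent.R154.AsmC789 Crest.Agent.R154.AsmD789

/-- indicator -/
noncomputable def ind (p : Prop) : ℝ≥0∞ := by classical exact if p then 1 else 0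

lemma ind_t {p : Prop} (h : p) : ind p = 1 := by rw [ind, if_pos h]
lemma ind_f {p : Prop} (h : ¬ p) : ind p = 0 := by rw [ind, if_neg h]
lemma ind_le (p : Prop) : ind p ≤ 1 := by
  by_cases h : p
  · rw [ind_t h]
  · rw [ind_f h]; exact zero_le

lemma tp {α β : Type*} (f : α → ℝ≥0∞) (g : β → ℝ≥0∞) :
    ∑' p : α × β, f p.1 * g p.2 = (∑' a, f a) * ∑' b, g b := by
  rw [ENNReal.tsum_prod (f := fun a b => f a * g b), ← ENNReal.tsum_mul_right]
  exact tsum_congr fun a => ENNReal.tsum_mul_left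

section S4
variable {BX BY : Type*} (ΛX : BX → ℝ≥0∞) (ΛY : BY → ℝ≥0∞) (hX : BX → ℕ) (hY : BY → ℕ)

/-- the four pieces -/
abbrev T4 (P : ℕ) := (List (At hX P) × List (At hY P)) × (At hX P × At hY P)

noncomputable def wt (P j : ℕ) (t : T4 hX hY P) : ℝ≥0∞ :=
  (om ΛX hX P j t.1.1 * om ΛY hY P j t.1.2) * (aL ΛX hX P t.2.1 * aL ΛY hY P t.2.2)

noncomputable def S4 (P j : ℕ) (V : T4 hX hY P → ℝ≥0∞) : ℝ≥0∞ := ∑' t, wt ΛX ΛY hX hY P j t * V t

lemma S4_mono (P j : ℕ) {V V' : T4 hX hY P → ℝ≥0∞}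
    (h : ∀ t, t.1.1.length = j → t.1.2.length = j → V t ≤ V' t) :
    S4 ΛX ΛY hX hY P j V ≤ S4 ΛX ΛY hX hY P j V' := by
  refine ENNReal.tsum_le_tsum fun t => ?_
  by_cases h1 : t.1.1.length = j
  · by_cases h2 : t.1.2.length = j
    · exact mul_le_mul_right (h t h1 h2) _
    · rw [wt, om.eq_def ΛY, if_neg h2]; simp
  · rw [wt, om.eq_def ΛX, if_neg h1]; simp

lemma S4_add (P j : ℕ) (V V' : T4 hX hY P → ℝ≥0∞) :
    S4 ΛX ΛY hX hY P j (fun t => V t + V' t) = S4 ΛX ΛY hX hY P j V + S4 ΛX ΛY hX hY P j V' := by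
  rw [S4, S4, S4, ← ENNReal.tsum_add]
  exact tsum_congr fun t => mul_add _ _ _

lemma S4_sum {ι : Type*} (P j : ℕ) (s : Finset ι) (V : ι → T4 hX hY P → ℝ≥0∞) :
    S4 ΛX ΛY hX hY P j (fun t => ∑ k ∈ s, V k t) = ∑ k ∈ s, S4 ΛX ΛY hX hY P j (V k) := by
  classical
  induction s using Finset.induction_on with
  | empty => simp [S4]
  | insert a s ha ih =>
    simp only [Finset.sum_insert ha]
    rw [S4_add, ih]

lemma S4_prod (P j : ℕ) (f : List (At hX P) → ℝ≥0∞) (g : List (At hY P) → ℝ≥0∞)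
    (p : At hX P → ℝ≥0∞) (q : At hY P → ℝ≥0∞) :
    S4 ΛX ΛY hX hY P j (fun t => (f t.1.1 * g t.1.2) * (p t.2.1 * q t.2.2))
      = ((∑' l, om ΛX hX P j l * f l) * (∑' l, om ΛY hY P j l * g l)) *
        ((∑' A, aL ΛX hX P A * p A) * (∑' A, aL ΛY hY P A * q A)) := by
  rw [S4, ← tp (fun A => aL ΛX hX P A * p A), ← tp (fun l => om ΛX hX P j l * f l), ← tp]
  refine tsum_congr fun t => ?_
  rw [wt]
  ring

open Classical in
theorem Q_le (P i0 j : ℕ) (W : List (At hX P) → At hX P → List (At hY P) → At hY P → ℝ≥0∞) :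
    Q ΛX ΛY hX hY P i0 j W ≤ S4 ΛX ΛY hX hY P j (fun t =>
      ind ((∀ A ∈ t.1.1, aH hX P A ≤ P + i0) ∧ (∀ A ∈ t.1.2, aH hY P A ≤ P + i0) ∧
        aH hX P t.2.1 ≤ P + i0 ∧ aH hY P t.2.2 ≤ P + i0) * W t.1.1 t.2.1 t.1.2 t.2.2) := by
  set gl : List (At hX P) → List (At hY P) → At hX P → At hY P → Prop := fun l l' A A' =>
    (∀ A ∈ l, aH hX P A ≤ P + i0) ∧ (∀ A ∈ l', aH hY P A ≤ P + i0) ∧
        aH hX P A ≤ P + i0 ∧ aH hY P A' ≤ P + i0 with hgl
  have e : S4 ΛX ΛY hX hY P j (fun t =>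
      ind (gl t.1.1 t.1.2 t.2.1 t.2.2) * W t.1.1 t.2.1 t.1.2 t.2.2)
      = ∑' l, ∑' A, ∑' l', ∑' A', (om ΛX hX P j l * om ΛY hY P j l') *
        (aL ΛX hX P A * aL ΛY hY P A') * (ind (gl l l' A A') * W l A l' A') := by
    rw [S4, ENNReal.tsum_prod (f := fun (p : List (At hX P) × List (At hY P))
      (q : At hX P × At hY P) => wt ΛX ΛY hX hY P j (p, q) *
        (ind (gl p.1 p.2 q.1 q.2) * W p.1 q.1 p.2 q.2))]
    rw [ENNReal.tsum_prod (f := fun (l : List (At hX P)) (l' : List (At hY P)) =>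
      ∑' q : At hX P × At hY P, wt ΛX ΛY hX hY P j ((l, l'), q) *
        (ind (gl l l' q.1 q.2) * W l q.1 l' q.2))]
    refine tsum_congr fun l => ?_
    refine Eq.trans ?_ (ENNReal.tsum_comm (f := fun (l' : List (At hY P)) (A : At hX P) =>
      ∑' A' : At hY P, (om ΛX hX P j l * om ΛY hY P j l') *
        (aL ΛX hX P A * aL ΛY hY P A') * (ind (gl l l' A A') * W l A l' A')))
    refine tsum_congr fun l' => ?_
    rw [ENNReal.tsum_prod (f := fun (A : At hX P) (A' : At hY P) =>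
      wt ΛX ΛY hX hY P j ((l, l'), (A, A')) * (ind (gl l l' A A') * W l A l' A'))]
    rfl
  have e' : S4 ΛX ΛY hX hY P j (fun t =>
      ind (gl t.1.1 t.1.2 t.2.1 t.2.2) * W t.1.1 t.2.1 t.1.2 t.2.2)
      = ∑' l, ∑' A, ∑' l', ∑' A', (om ΛX hX P j l * om ΛY hY P j l') *
        (aL ΛX hX P A * aL ΛY hY P A') * (ind (gl l l' A A') * W l A l' A') := e
  change _ ≤ S4 ΛX ΛY hX hY P j (fun t =>
      ind (gl t.1.1 t.1.2 t.2.1 t.2.2) * W t.1.1 t.2.1 t.1.2 t.2.2)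
  rw [e', Q, ← om_sum]
  refine ENNReal.tsum_le_tsum fun l => ?_
  by_cases hg : ∀ A ∈ l, aH hX P A ≤ P + i0
  · rw [if_pos hg, ← ENNReal.tsum_mul_left]
    refine ENNReal.tsum_le_tsum fun A => ?_
    by_cases hA : aH hX P A ≤ P + i0
    · rw [if_pos hA, ← om_sum, ← ENNReal.tsum_mul_left, ← ENNReal.tsum_mul_left]
      refine ENNReal.tsum_le_tsum fun l' => ?_
      by_cases hg' : ∀ A ∈ l', aH hY P A ≤ P + i0
      · rw [if_pos hg', ← ENNReal.tsum_mul_left, ← ENNReal.tsum_mul_left, ← ENNReal.tsum_mul_left]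
        refine ENNReal.tsum_le_tsum fun A' => ?_
        by_cases hA' : aH hY P A' ≤ P + i0
        · rw [if_pos hA', ind_t (show gl l l' A A' from ⟨hg, hg', hA, hA'⟩), one_mul]
          refine le_of_eq ?_
          ring
        · rw [if_neg hA']; simp
      · rw [if_neg hg']; simp
    · rw [if_neg hA]; simp
  · rw [if_neg hg]; simp

open Classical in
/-- the sum over the two pieces, for fixed heights -/
theorem main_term {G : Type*} (P j h h' : ℕ)
    (mm : List (At hX P) → List (At hY P) → ℝ≥0∞)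
    (xx : List (At hX P) → List (At hY P) → G) (Ev : List BX → List BY → G → Prop)
    (bound : ℝ≥0∞)
    (HH : ∑' x, fiber (fun p : List (At hX P) × List (At hY P) => xx p.1 p.2)
        (fun p => (om ΛX hX P j p.1 * om ΛY hY P j p.2) * mm p.1 p.2) x *
        ∑' L, ∑' L', (if HT hX L = h ∧ HT hY L' = h' ∧ Ev L L' x then LW ΛX L * LW ΛY L' else 0)
        ≤ bound) :
    S4 ΛX ΛY hX hY P j (fun t => mm t.1.1 t.1.2 *
      ind (HT hX t.2.1.1 = h ∧ HT hY t.2.2.1 = h' ∧ Ev t.2.1.1 t.2.2.1 (xx t.1.1 t.1.2)))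
      ≤ bound := by
  refine le_trans ?_ HH
  set K : G → ℝ≥0∞ := fun x => ∑' q : At hX P × At hY P, (aL ΛX hX P q.1 * aL ΛY hY P q.2) *
    ind (HT hX q.1.1 = h ∧ HT hY q.2.1 = h' ∧ Ev q.1.1 q.2.1 x) with hK
  have e1 : S4 ΛX ΛY hX hY P j (fun t => mm t.1.1 t.1.2 *
      ind (HT hX t.2.1.1 = h ∧ HT hY t.2.2.1 = h' ∧ Ev t.2.1.1 t.2.2.1 (xx t.1.1 t.1.2)))
      = ∑' p : List (At hX P) × List (At hY P),
        ((om ΛX hX P j p.1 * om ΛY hY P j p.2) * mm p.1 p.2) * K (xx p.1 p.2) := by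
    rw [S4, ENNReal.tsum_prod (f := fun (p : List (At hX P) × List (At hY P))
      (q : At hX P × At hY P) => wt ΛX ΛY hX hY P j (p, q) * (mm p.1 p.2 *
        ind (HT hX q.1.1 = h ∧ HT hY q.2.1 = h' ∧ Ev q.1.1 q.2.1 (xx p.1 p.2))))]
    refine tsum_congr fun p => ?_
    rw [hK]
    simp only
    rw [← ENNReal.tsum_mul_left]
    refine tsum_congr fun q => ?_
    rw [wt]
    ring
  rw [e1, fib (fun p : List (At hX P) × List (At hY P) => xx p.1 p.2)
    (fun p => (om ΛX hX P j p.1 * om ΛY hY P j p.2) * mm p.1 p.2) K]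
  refine ENNReal.tsum_le_tsum fun x => mul_le_mul_right ?_ _
  rw [hK]
  simp only
  rw [ENNReal.tsum_prod (f := fun (A : At hX P) (A' : At hY P) =>
    (aL ΛX hX P A * aL ΛY hY P A') * ind (HT hX A.1 = h ∧ HT hY A'.1 = h' ∧ Ev A.1 A'.1 x))]
  refine le_trans ?_ (ENNReal.tsum_comp_le_tsum_of_injective
    (Subtype.val_injective (p := fun A => fp hX P A)) _)
  refine ENNReal.tsum_le_tsum fun A => ?_
  refine le_trans ?_ (ENNReal.tsum_comp_le_tsum_of_injective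
    (Subtype.val_injective (p := fun A => fp hY P A)) _)
  refine ENNReal.tsum_le_tsum fun A' => ?_
  by_cases hc : HT hX A.1 = h ∧ HT hY A'.1 = h' ∧ Ev A.1 A'.1 x
  · rw [ind_t hc, if_pos hc, mul_one]
    exact le_rfl
  · rw [ind_f hc, mul_zero]; exact zero_le

end S4

end Crest.Agent.R154.AsmE789
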