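import Crest.Agent.R154.AsmD_790

/-! Row 154, ROAD 801 (helper790): abstract assembly, part E: total weight of one window. -/

set_option autoImplicit false

namespace Crest.Agent.R154.Asm790

open scoped ENNReal
open Crest.Agent.R154.B5A

section pc

variable {B G : Type*} [AddCommGroup G] (Λ : B → ℝ≥0∞) (ht : B → ℕ) (z : B → G)

/-- (height, displacement) of a piece -/
def dl (P : List B) : ℤ × G := ((HT ht P : ℤ), Dp z P)

lemma sum_dl (Q : List (List B)) :
    (Q.map (dl ht z)).sum = ((HT ht Q.flatten : ℤ), Dp z Q.flatten) := by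
  induction Q with
  | nil => simp [HT_nil, Dp]; rfl
  | cons P Q ih =>
    rw [List.map_cons, List.sum_cons, ih, List.flatten_cons, HT_append, Dp_append]
    simp [dl]

lemma HT_flatten (τ i0 : ℕ) (Q : List (List B)) (hQ : ∀ P ∈ Q, La Λ ht τ i0 P ≠ 0) :
    Q.length * τ ≤ HT ht Q.flatten ∧ HT ht Q.flatten ≤ Q.length * τ + Q.length * i0 := by
  induction Q with
  | nil => simp [HT_nil]
  | cons P Q ih =>
    have h1 := ih fun P' hP' => hQ P' (List.mem_cons_of_mem _ hP')
    obtain ⟨h2, h3⟩ := La_ne Λ ht τ i0 P (hQ P (List.mem_cons_self ..))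
    have h4 := FP_le ht P τ h2
    rw [List.flatten_cons, HT_append, List.length_cons]
    have e1 : (Q.length + 1) * τ = Q.length * τ + τ := by ring
    have e2 : (Q.length + 1) * i0 = Q.length * i0 + i0 := by ring
    omega

/-- support of the law of `j` pieces -/
lemma Dj_supp (τ i0 j : ℕ) (a : ℤ) (x : G)
    (ha : a ∉ Finset.Icc ((j * τ : ℕ) : ℤ) ((j * τ + j * i0 : ℕ) : ℤ)) :
    Dj (La Λ ht τ i0) (dl ht z) j (a, x) = 0 := by
  classical
  rw [Dj]
  refine le_antisymm ?_ zero_le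
  refine le_trans (SL_mono' _ j (F' := fun _ => 0) fun Q hQ hne => ?_) (by simp [SL])
  rw [sum_dl]
  have := HT_flatten Λ ht τ i0 Q hne
  rw [hQ] at this
  rw [if_neg]
  intro he
  rw [Prod.mk.injEq] at he
  apply ha
  rw [Finset.mem_Icc, ← he.1]
  exact ⟨by exact_mod_cast this.1, by exact_mod_cast this.2⟩

end pc

section win

variable {BX BY G : Type*} [AddCommGroup G]
variable (ΛX : BX → ℝ≥0∞) (ΛY : BY → ℝ≥0∞) (hX : BX → ℕ) (hY : BY → ℕ) (zX : BX → G) (zY : BY → G)
  (sX : BX → Set (G × ℕ)) (sY : BY → Set (G × ℕ))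

open Classical in
lemma Psi_le_one (h1X : ∀ b, 1 ≤ hX b) (h1Y : ∀ b, 1 ≤ hY b) (hΛX : ∑' b, ΛX b ≤ 1)
    (hΛY : ∑' b, ΛY b ≤ 1) (τ i0 lo hi : ℕ) (loc : List BX → List BY → Prop) (a a' : ℕ) (y : G) :
    Psi ΛX ΛY hX hY zX zY sX sY τ i0 lo hi loc a a' y ≤ 1 := by
  rw [Psi]
  calc _ ≤ ∑' P, La ΛX hX τ i0 P * ∑' P', La ΛY hY τ i0 P' * 1 := by
        refine ENNReal.tsum_le_tsum fun P => mul_le_mul_right
          (ENNReal.tsum_le_tsum fun P' => mul_le_mul_right ?_ _) _
        split_ifs <;> simp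
    _ ≤ ∑' P, La ΛX hX τ i0 P * 1 := by
        refine ENNReal.tsum_le_tsum fun P => mul_le_mul_right ?_ _
        simp only [mul_one]
        exact sum_La ΛY hY h1Y hΛY τ i0
    _ ≤ 1 := by simp only [mul_one]; exact sum_La ΛX hX h1X hΛX τ i0

open Classical in
/-- weight of the window `j` (after the decomposition) -/
noncomputable def Vw (τ i0 lo hi j : ℕ) (w : G) : ℝ≥0∞ :=
  SL (La ΛX hX τ i0) (j + 1) (fun Q => SL (La ΛY hY τ i0) (j + 1) (fun Q' =>
    if Cc hX hY zX zY sX sY lo hi (Q.getLastD []) (Q'.getLastD [])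
      (w + Dp zY Q'.dropLast.flatten - Dp zX Q.dropLast.flatten)
      (HT hX Q.dropLast.flatten) (HT hY Q'.dropLast.flatten) then 1 else 0))

open Classical in
lemma Vw_eq (τ i0 lo hi j : ℕ) (w : G) :
    Vw ΛX ΛY hX hY zX zY sX sY τ i0 lo hi j w
      = ∑' g, Dj (La ΛX hX τ i0) (dl hX zX) j g * ∑' g', Dj (La ΛY hY τ i0) (dl hY zY) j g' *
        Psi ΛX ΛY hX hY zX zY sX sY τ i0 lo hi (fun _ _ => True) g.1.toNat g'.1.toNat
          (w + g'.2 - g.2) := by
  rw [Vw, SL_snoc, ← law]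
  refine SL_congr _ j fun Q _ => ?_
  rw [sum_dl, ← law]
  simp only [List.getLastD_concat, List.dropLast_concat]
  simp_rw [SL_snoc, List.getLastD_concat, List.dropLast_concat, sum_dl, Int.toNat_natCast]
  simp only [Psi, true_and]
  rw [SL_tsum]
  refine tsum_congr fun P => ?_
  rw [← SL_const_mul]

end win

end Crest.Agent.R154.Asm790
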