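import Crest.Agent.R154.AsmD_834

/-! Row 154, T0219, ROAD 801 (helper834, hedge of 540's assembly): the window bound. -/

set_option autoImplicit false

namespace Crest.Agent.R154.Asm834

open scoped ENNReal
open Crest.Agent.R154.B5A
open Crest.Agent.R154.Ren480 (Stp AT DS e1)

variable {BX BY G : Type*} [AddCommGroup G]
  (ΛX : BX → ℝ≥0∞) (ΛY : BY → ℝ≥0∞) (hX : BX → ℕ) (hY : BY → ℕ) (zX : BX → G) (zY : BY → G)
  (sX : BX → Set (G × ℕ)) (sY : BY → Set (G × ℕ))

/-- fourfold sum -/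
noncomputable def I4 {a b c e : Type*} (w1 : a → ℝ≥0∞) (w2 : b → ℝ≥0∞) (w3 : c → ℝ≥0∞)
    (w4 : e → ℝ≥0∞) (F : a → b → c → e → ℝ≥0∞) : ℝ≥0∞ :=
  I w1 (fun A => I w2 (fun P => I w3 (fun A' => I w4 (fun P' => F A P A' P'))))

lemma I4_add {a b c e : Type*} (w1 : a → ℝ≥0∞) (w2 : b → ℝ≥0∞) (w3 : c → ℝ≥0∞)
    (w4 : e → ℝ≥0∞) (F F' : a → b → c → e → ℝ≥0∞) :
    I4 w1 w2 w3 w4 (fun A P A' P' => F A P A' P' + F' A P A' P')
      = I4 w1 w2 w3 w4 F + I4 w1 w2 w3 w4 F' := by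
  simp only [I4, I_add]

theorem window (hX1 : ∀ b, 1 ≤ hX b) (hY1 : ∀ b, 1 ≤ hY b) (hΛX : ∑' b, ΛX b = 1)
    (hΛY : ∑' b, ΛY b = 1) (hUX : ∀ n, U ΛX hX n ≤ 1) (hUY : ∀ n, U ΛY hY n ≤ 1)
    (hsX : ∀ b, ∀ p ∈ sX b, 1 ≤ p.2 ∧ p.2 ≤ hX b) (hsY : ∀ b, ∀ p ∈ sY b, 1 ≤ p.2 ∧ p.2 ≤ hY b)
    (C : ℝ≥0∞) (us : ℕ → ℝ≥0∞) (h2 : H2 ΛX ΛY hX hY zX zY sX sY C us)
    (h3 : H3 ΛX ΛY hX hY zX zY sX sY C us)
    (α T i0 s lo hi n : ℕ) (hlo : α + i0 + s ≤ lo) (hhi : hi + s ≤ α + T) (hn : α + i0 + T ≤ n)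
    (w : G) (lam : ℝ≥0∞) (hl : lam ≠ 0) (hl' : lam ≠ ⊤)
    (aX bX : ℕ × G → ℝ≥0∞) (δX MX : ℝ≥0∞)
    (habX : ∀ x, Ren480.a ΛX hX zX α x ≤ aX x + bX x) (hbX : ∑' x, bX x ≤ δX)
    (haX : ∀ i, ∑' x, aX (i, x) ≤ 1) (hMX : ∀ x, aX x ≤ MX)
    (aY bY : ℕ × G → ℝ≥0∞) (δY MY : ℝ≥0∞)
    (habY : ∀ x, Ren480.a ΛY hY zY α x ≤ aY x + bY x) (hbY : ∑' x, bY x ≤ δY)
    (haY : ∀ i, ∑' x, aY (i, x) ≤ 1) (hMY : ∀ x, aY x ≤ MY)
    (EX EY : Finset (ℕ × G)) (uX uY : ℝ≥0∞)
    (hEX : ∑' x, Ren480.a ΛX hX zX T x * chi (x ∉ EX) ≤ uX)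
    (hEY : ∑' x, Ren480.a ΛY hY zY T x * chi (x ∉ EY) ≤ uY)
    (η : ℝ≥0∞)
    (htop : I (wn ΛX hX n) (fun LX => I (wn ΛY hY n) (fun LY =>
      chi (CT hX hY zX zY sX sY α (α + i0 + s) w LX LY))) ≤ η)
    (hbot : I (wn ΛX hX n) (fun LX => I (wn ΛY hY n) (fun LY =>
      chi (CT hX hY zX zY sX sY (α + T - s) (α + T + 2 * i0) w LX LY))) ≤ η) :
    I (wn ΛX hX n) (fun LX => I (wn ΛY hY n) (fun LY =>
      chi (CT hX hY zX zY sX sY lo hi w LX LY))) ≤
      η + (η + (e1 ΛX hX i0 + (e1 ΛY hY i0 + (e1 ΛX hX i0 + (e1 ΛY hY i0 + (uX * uY +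
        ((δX + ((i0 + 1 : ℕ) : ℝ≥0∞) * (((i0 + 1 : ℕ) : ℝ≥0∞) ^ 2 *
          (C * (lam + MX * EX.card * us s / lam + us s)))) +
        (δY + ((i0 + 1 : ℕ) : ℝ≥0∞) * (((i0 + 1 : ℕ) : ℝ≥0∞) ^ 2 *
          (C * (lam + MY * EY.card * us s / lam + us s))))))))))) := by
  set good : List BX → List BY → Prop := fun LX LY => CT hX hY zX zY sX sY lo hi w LX LY ∧
    ¬ CT hX hY zX zY sX sY α (α + i0 + s) w LX LY ∧
    ¬ CT hX hY zX zY sX sY (α + T - s) (α + T + 2 * i0) w LX LY with hgood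
  have sX1 := wn_sum ΛX hX hUX n
  have sY1 := wn_sum ΛY hY hUY n
  have sAX := wA_sum ΛX hX hX1 hΛX α i0
  have sAY := wA_sum ΛY hY hY1 hΛY α i0
  have sPX := wP_sum ΛX hX hX1 hΛX T
  have sPY := wP_sum ΛY hY hY1 hΛY T
  -- step 0
  have st0 : I (wn ΛX hX n) (fun LX => I (wn ΛY hY n) (fun LY =>
      chi (CT hX hY zX zY sX sY lo hi w LX LY))) ≤ η + (η + I (wn ΛX hX n) (fun LX =>
        I (wn ΛY hY n) (fun LY => chi (good LX LY)))) := by
    calc _ ≤ I (wn ΛX hX n) (fun LX => I (wn ΛY hY n) (fun LY =>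
          chi (CT hX hY zX zY sX sY α (α + i0 + s) w LX LY) +
          (chi (CT hX hY zX zY sX sY (α + T - s) (α + T + 2 * i0) w LX LY) +
            chi (good LX LY)))) := by
          refine I_mono fun LX _ => I_mono fun LY _ => ?_
          refine le_trans ?_ (add_le_add le_rfl (chi_or_le _ _))
          refine le_trans ?_ (chi_or_le _ _)
          refine chi_mono fun hc => ?_
          by_cases c1 : CT hX hY zX zY sX sY α (α + i0 + s) w LX LY
          · exact Or.inl c1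
          · by_cases c2 : CT hX hY zX zY sX sY (α + T - s) (α + T + 2 * i0) w LX LY
            · exact Or.inr (Or.inl c2)
            · exact Or.inr (Or.inr ⟨hc, c1, c2⟩)
      _ ≤ _ := by
          simp only [I_add]
          exact add_le_add htop (add_le_add hbot le_rfl)
  refine st0.trans (add_le_add le_rfl (add_le_add le_rfl ?_))
  -- step 1
  have st1 := split_I ΛX hX hUX n α T i0 hn
    (fun LX => I (wn ΛY hY n) (fun LY => chi (good LX LY)))
    (fun LX => I_le sY1 fun LY _ => chi_le_one _)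
    (fun A P => I (wn ΛY hY n) (fun LY => chi (∃ R, good (A ++ P ++ R) LY)))
    (fun A P R => I_mono fun LY _ => chi_mono fun hg => ⟨R, hg⟩)
  refine st1.trans (add_le_add (tall_le ΛX hX hΛX hX1 α i0) ?_)
  -- step 2
  have st2 : ∀ A P, I (wn ΛY hY n) (fun LY => chi (∃ R, good (A ++ P ++ R) LY)) ≤
      e1 ΛY hY i0 + I (wA ΛY hY α i0) (fun A' => I (wP ΛY hY T) (fun P' =>
        chi (∃ R R', good (A ++ P ++ R) (A' ++ P' ++ R')))) := fun A P => by
    refine (split_I ΛY hY hUY n α T i0 hn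
      (fun LY => chi (∃ R, good (A ++ P ++ R) LY)) (fun LY => chi_le_one _)
      (fun A' P' => chi (∃ R R', good (A ++ P ++ R) (A' ++ P' ++ R')))
      (fun A' P' R' => chi_mono fun ⟨R, hR⟩ => ⟨R, R', hR⟩)).trans ?_
    exact add_le_add (tall_le ΛY hY hΛY hY1 α i0) le_rfl
  have st3 : I (wA ΛX hX α i0) (fun A => I (wP ΛX hX T) (fun P =>
      I (wn ΛY hY n) (fun LY => chi (∃ R, good (A ++ P ++ R) LY)))) ≤ e1 ΛY hY i0 +
      I4 (wA ΛX hX α i0) (wP ΛX hX T) (wA ΛY hY α i0) (wP ΛY hY T) (fun A P A' P' =>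
        chi (∃ R R', good (A ++ P ++ R) (A' ++ P' ++ R'))) := by
    refine (I_mono fun A _ => I_mono fun P _ => st2 A P).trans ?_
    simp only [I_add]
    refine add_le_add (I_le sAX fun A _ => I_le sPX fun P _ => le_rfl) le_rfl
  refine st3.trans (add_le_add le_rfl ?_)
  -- step 3
  have st4 : I4 (wA ΛX hX α i0) (wP ΛX hX T) (wA ΛY hY α i0) (wP ΛY hY T) (fun A P A' P' =>
        chi (∃ R R', good (A ++ P ++ R) (A' ++ P' ++ R'))) ≤
      I4 (wA ΛX hX α i0) (wP ΛX hX T) (wA ΛY hY α i0) (wP ΛY hY T) (fun A P A' P' =>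
        chi (T + i0 < HT hX P) + (chi (T + i0 < HT hY P') +
        (chi ((HT hX P - T, DS zX P) ∉ EX ∧ (HT hY P' - T, DS zY P') ∉ EY) +
        (chi (locX hX hY zX zY sX sY T i0 (α + i0 + s) (α + T - s) (HT hX A) (HT hY A') EX
            (w + DS zY A' - DS zX A) P P') +
         chi (locY hX hY zX zY sX sY T i0 (α + i0 + s) (α + T - s) (HT hX A) (HT hY A') EY
            (w + DS zY A' - DS zX A) P P'))))) := by
    refine I_mono fun A hA => I_mono fun P hP => I_mono fun A' hA' => I_mono fun P' hP' => ?_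
    have fA := wA_ne ΛX hX hA
    have fP := wP_ne ΛX hX hP
    have fA' := wA_ne ΛY hY hA'
    have fP' := wP_ne ΛY hY hP'
    refine le_trans ?_ (add_le_add le_rfl (add_le_add le_rfl (add_le_add le_rfl (chi_or_le _ _))))
    refine le_trans ?_ (add_le_add le_rfl (add_le_add le_rfl (chi_or_le _ _)))
    refine le_trans ?_ (add_le_add le_rfl (chi_or_le _ _))
    refine le_trans ?_ (chi_or_le _ _)
    refine chi_mono ?_
    rintro ⟨R, R', g1, g2, g3⟩
    by_cases t1 : T + i0 < HT hX P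
    · exact Or.inl t1
    by_cases t2 : T + i0 < HT hY P'
    · exact Or.inr (Or.inl t2)
    have hcc := CC_of hX hY zX zY sX sY hsX hsY α T i0 s lo hi hlo hhi w A P R A' P' R'
      fA.1 fA.2 fP (by omega) fA'.1 fA'.2 fP' (by omega) g1 g2 g3
    by_cases l1 : (HT hX P - T, DS zX P) ∈ EX
    · exact Or.inr (Or.inr (Or.inr (Or.inl ⟨l1, by omega, by omega, hcc⟩)))
    by_cases l2 : (HT hY P' - T, DS zY P') ∈ EY
    · exact Or.inr (Or.inr (Or.inr (Or.inr ⟨l2, by omega, by omega, hcc⟩)))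
    · exact Or.inr (Or.inr (Or.inl ⟨l1, l2⟩))
  refine st4.trans ?_
  rw [I4_add, I4_add, I4_add, I4_add]
  refine add_le_add ?_ (add_le_add ?_ (add_le_add ?_ (add_le_add ?_ ?_)))
  · -- tall P
    refine I_le sAX fun A _ => ?_
    refine le_trans (I_mono fun P _ => I_le (c := chi (T + i0 < HT hX P)) sAY fun A' _ =>
      I_le sPY fun P' _ => le_rfl) ?_
    rw [I_wP_tall]
    exact tall_le ΛX hX hΛX hX1 T i0
  · -- tall P'
    refine I_le sAX fun A _ => I_le sPX fun P _ => I_le sAY fun A' _ => ?_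
    rw [I_wP_tall]
    exact tall_le ΛY hY hΛY hY1 T i0
  · -- both non local
    refine I_le sAX fun A _ => ?_
    have k1 : ∀ P, I (wA ΛY hY α i0) (fun A' => I (wP ΛY hY T) (fun P' =>
        chi ((HT hX P - T, DS zX P) ∉ EX ∧ (HT hY P' - T, DS zY P') ∉ EY))) ≤
        chi ((HT hX P - T, DS zX P) ∉ EX) * uY := fun P => by
      refine I_le sAY fun A' _ => ?_
      simp only [chi_and]
      rw [I_mul]
      refine mul_le_mul_right ?_ _
      rw [I_wP_fun ΛY hY zY T (fun x => chi (x ∉ EY))]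
      exact hEY
    refine (I_mono fun P _ => k1 P).trans ?_
    rw [I_mul']
    refine mul_le_mul_left ?_ _
    rw [I_wP_fun ΛX hX zX T (fun x => chi (x ∉ EX))]
    exact hEX
  · -- X local
    have r1 : I4 (wA ΛX hX α i0) (wP ΛX hX T) (wA ΛY hY α i0) (wP ΛY hY T) (fun A P A' P' =>
        chi (locX hX hY zX zY sX sY T i0 (α + i0 + s) (α + T - s) (HT hX A) (HT hY A') EX
            (w + DS zY A' - DS zX A) P P')) =
        I (wA ΛY hY α i0) (fun A' => I (wA ΛX hX α i0) (fun A => I (wP ΛX hX T) (fun P =>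
          I (wP ΛY hY T) (fun P' => chi (locX hX hY zX zY sX sY T i0 (α + i0 + s) (α + T - s)
            (HT hX A) (HT hY A') EX (w + DS zY A' - DS zX A) P P'))))) := by
      refine Eq.trans ?_ (I_swap (wA ΛX hX α i0) (wA ΛY hY α i0) (fun A A' => I (wP ΛX hX T)
        (fun P => I (wP ΛY hY T) (fun P' => chi (locX hX hY zX zY sX sY T i0 (α + i0 + s)
          (α + T - s) (HT hX A) (HT hY A') EX (w + DS zY A' - DS zX A) P P')))))
      rw [I4]
      congr 1
      funext A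
      exact I_swap _ _ _
    rw [r1]
    refine I_le sAY fun A' hA' => ?_
    have fA' := wA_ne ΛY hY hA'
    refine (smooth_use ΛX hX zX α i0 aX bX δX habX hbX (fun c x => I (wP ΛX hX T) (fun P =>
          I (wP ΛY hY T) (fun P' => chi (locX hX hY zX zY sX sY T i0 (α + i0 + s) (α + T - s)
            c (HT hY A') EX (w + DS zY A' - x) P P'))))
        (fun c x => I_le sPX fun P _ => I_le sPY fun P' _ => chi_le_one _)).trans ?_
    refine add_le_add le_rfl ?_
    refine (Finset.sum_le_sum (g := fun _ => (((i0 + 1 : ℕ) : ℝ≥0∞) ^ 2 *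
          (C * (lam + MX * EX.card * us s / lam + us s)))) fun i hi' => ?_).trans ?_
    · have hi2 := Finset.mem_range.1 hi'
      have eqv := (Equiv.subLeft (w + DS zY A')).tsum_eq (fun x => aX (i, x) *
        I (wP ΛX hX T) (fun P => I (wP ΛY hY T) (fun P' => chi (locX hX hY zX zY sX sY T i0
          (α + i0 + s) (α + T - s) (α + i) (HT hY A') EX (w + DS zY A' - x) P P'))))
      rw [← eqv]
      simp only [Equiv.subLeft_apply, sub_sub_cancel]
      refine locX_sum ΛX ΛY hX hY zX zY sX sY C us h2 T i0 (α + i0 + s) (α + T - s) (α + i)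
        (HT hY A') s EX (fun x => aX (i, w + DS zY A' - x)) MX lam ?_ (fun x => hMX _) hl hl'
        (by omega) (by omega)
      have eqv2 := (Equiv.subLeft (w + DS zY A')).tsum_eq (fun x => aX (i, x))
      simp only [Equiv.subLeft_apply] at eqv2
      rw [eqv2]
      exact haX i
    · rw [Finset.sum_const, nsmul_eq_mul, Finset.card_range]
  · -- Y local
    refine I_le sAX fun A hA => ?_
    have fA := wA_ne ΛX hX hA
    have fAl := FP_le hX A α fA.1
    rw [I_swap]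
    refine (smooth_use ΛY hY zY α i0 aY bY δY habY hbY (fun c x => I (wP ΛX hX T) (fun P =>
          I (wP ΛY hY T) (fun P' => chi (locY hX hY zX zY sX sY T i0 (α + i0 + s) (α + T - s)
            (HT hX A) c EY (w + x - DS zX A) P P'))))
        (fun c x => I_le sPX fun P _ => I_le sPY fun P' _ => chi_le_one _)).trans ?_
    refine add_le_add le_rfl ?_
    refine (Finset.sum_le_sum (g := fun _ => (((i0 + 1 : ℕ) : ℝ≥0∞) ^ 2 *
          (C * (lam + MY * EY.card * us s / lam + us s)))) fun i hi' => ?_).trans ?_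
    · have hi2 := Finset.mem_range.1 hi'
      have eqv := (Equiv.addRight (-(w - DS zX A))).tsum_eq (fun x => aY (i, x) *
        I (wP ΛX hX T) (fun P => I (wP ΛY hY T) (fun P' => chi (locY hX hY zX zY sX sY T i0
          (α + i0 + s) (α + T - s) (HT hX A) (α + i) EY (w + x - DS zX A) P P'))))
      rw [← eqv]
      have e5 : ∀ x, w + (x + -(w - DS zX A)) - DS zX A = x := fun x => by abel
      simp only [Equiv.coe_addRight, e5]
      refine locY_sum ΛX ΛY hX hY zX zY sX sY C us h3 T i0 (α + i0 + s) (α + T - s)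
        (HT hX A) (α + i) s EY (fun x => aY (i, x + -(w - DS zX A))) MY lam ?_ (fun x => hMY _)
        hl hl' (by omega) (by omega)
      have eqv2 := (Equiv.addRight (-(w - DS zX A))).tsum_eq (fun x => aY (i, x))
      simp only [Equiv.coe_addRight] at eqv2
      rw [eqv2]
      exact haY i
    · rw [Finset.sum_const, nsmul_eq_mul, Finset.card_range]

end Crest.Agent.R154.Asm834
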