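import Crest.Agent.R154.AsmD_850
import Crest.Agent.R154.FP_178

/-! Row 154, road 801 (helper850): traces of lists, pieces, iterated splitting. -/

set_option autoImplicit false

namespace Crest.Agent.R154.Asm850

open scoped ENNReal
open Crest.Agent.R154.B5A Crest.Agent.R154.FP178

section Trace

variable {B G : Type*} [AddCommGroup G] (h : B → ℕ) (z : B → G) (s : B → Set (G × ℕ))

/-- trace of a list -/
def TX : List B → G → ℕ → Set (G × ℕ)
  | [], _, _ => ∅
  | b :: L, x, a => {p | ∃ q ∈ s b, p = (x + q.1, a + q.2)} ∪ TX L (x + z b) (a + h b)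

/-- displacement of a list -/
def Dp (L : List B) : G := (L.map z).sum

lemma TX_append (L L' : List B) (x : G) (a : ℕ) :
    TX h z s (L ++ L') x a = TX h z s L x a ∪ TX h z s L' (x + Dp z L) (a + HT h L) := by
  induction L generalizing x a with
  | nil => simp [TX, Dp, HT]
  | cons b L ih =>
    simp only [List.cons_append, TX, ih, Set.union_assoc]
    simp [Dp, HT, add_assoc]

lemma TX_shift (L : List B) (x c : G) (a : ℕ) (p : G) (k : ℕ) :
    (p, k) ∈ TX h z s L (x + c) a ↔ (p - c, k) ∈ TX h z s L x a := by
  induction L generalizing x a with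
  | nil => simp [TX]
  | cons b L ih =>
    simp only [TX, Set.mem_union, Set.mem_ofPred_eq, Prod.mk.injEq]
    refine or_congr ?_ ?_
    · refine exists_congr fun q => and_congr_right fun _ => and_congr_left fun _ => ?_
      constructor
      · intro h; rw [h]; abel
      · intro h; rw [sub_eq_iff_eq_add] at h; rw [h]; abel
    · rw [show x + c + z b = (x + z b) + c by abel]
      exact ih _ _

lemma TX_depth (hs : ∀ b, ∀ q ∈ s b, 1 ≤ q.2 ∧ q.2 ≤ h b) (L : List B) (x : G) (a : ℕ) (p : G)
    (k : ℕ) (hp : (p, k) ∈ TX h z s L x a) : a < k ∧ k ≤ a + HT h L := by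
  induction L generalizing x a with
  | nil => simp [TX] at hp
  | cons b L ih =>
    rw [HT_cons]
    rcases hp with ⟨q, hq, he⟩ | hp
    · have := hs b q hq
      have h2 : k = a + q.2 := (Prod.mk.injEq _ _ _ _ ▸ he).2
      omega
    · have := ih _ _ hp
      omega

lemma TX_flat (Q : List (List B)) (R : List B) (x : G) (a : ℕ) (p : G × ℕ)
    (hp : p ∈ TX h z s (Q.flatten ++ R) x a) :
    (∃ Q0 A Q1, Q = Q0 ++ A :: Q1 ∧
      p ∈ TX h z s A (x + Dp z Q0.flatten) (a + HT h Q0.flatten)) ∨
      p ∈ TX h z s R (x + Dp z Q.flatten) (a + HT h Q.flatten) := by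
  induction Q generalizing x a with
  | nil => right; simpa [Dp, HT] using hp
  | cons A Q ih =>
    rw [List.flatten_cons, List.append_assoc, TX_append] at hp
    rcases hp with hp | hp
    · exact Or.inl ⟨[], A, Q, rfl, by simpa [Dp, HT] using hp⟩
    · rcases ih _ _ hp with ⟨Q0, A', Q1, hQ, h2⟩ | h2
      · refine Or.inl ⟨A :: Q0, A', Q1, by rw [hQ]; rfl, ?_⟩
        rw [List.flatten_cons]
        have e1 : Dp z (A ++ Q0.flatten) = Dp z A + Dp z Q0.flatten := by simp [Dp]
        rw [e1, HT_append, ← add_assoc, ← add_assoc]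
        exact h2
      · right
        rw [List.flatten_cons]
        have e1 : Dp z (A ++ Q.flatten) = Dp z A + Dp z Q.flatten := by simp [Dp]
        rw [e1, HT_append, ← add_assoc, ← add_assoc]
        exact h2

lemma TX_sub (Q0 : List (List B)) (A : List B) (Q1 : List (List B)) (R : List B) (x : G) (a : ℕ) :
    TX h z s A (x + Dp z Q0.flatten) (a + HT h Q0.flatten) ⊆
      TX h z s ((Q0 ++ A :: Q1).flatten ++ R) x a := by
  intro p hp
  rw [List.flatten_append, List.flatten_cons, List.append_assoc, List.append_assoc, TX_append,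
    TX_append]
  exact Or.inr (Or.inl hp)

end Trace

section Split

variable {B : Type*} (Λ : B → ℝ≥0∞) (ht : B → ℕ)

open Classical in
/-- weight of a piece (first passage of `T`, overshoot at most `i0`) -/
noncomputable def LP (T i0 : ℕ) (A : List B) : ℝ≥0∞ :=
  if fp ht T A ∧ HT ht A ≤ T + i0 then LW Λ A else 0

lemma LP_sum (h1 : ∀ b, 1 ≤ ht b) (hΛ : ∑' b, Λ b ≤ 1) (T i0 : ℕ) :
    ∑' A, LP Λ ht T i0 A ≤ 1 := by
  classical
  refine le_trans (ENNReal.tsum_le_tsum fun A => ?_) (sum_FP Λ ht h1 hΛ T)
  unfold LP
  split_ifs with h h' h' <;> first | exact le_rfl | exact absurd h.1 h' | exact zero_le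

open Classical in
theorem it_split (h1 : ∀ b, 1 ≤ ht b) (hΛ : ∑' b, Λ b ≤ 1) (hU1 : ∀ n, U Λ ht n ≤ 1)
    (T i0 : ℕ) (ε : ℝ≥0∞)
    (hε : ∑' A, (if fp ht T A ∧ T + i0 < HT ht A then LW Λ A else 0) ≤ ε) :
    ∀ (j n : ℕ), j * (T + i0) ≤ n → ∀ f : List B → ℝ≥0∞, (∀ L, f L ≤ 1) →
      ∑' L, (if HT ht L = n then LW Λ L * f L else 0) ≤
        SL (LP Λ ht T i0) j (fun Q => ∑' R, if HT ht Q.flatten + HT ht R = n then
          LW Λ R * f (Q.flatten ++ R) else 0) + j * ε := by
  intro j
  induction j with
  | zero =>
    intro n _ f _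
    rw [SL_zero]
    simp [HT_nil]
  | succ j ih =>
    intro n hn f hf
    have hTn : T ≤ n := by nlinarith
    have e1 : ∑' L, (if HT ht L = n then LW Λ L * f L else 0) =
        ∑' L, (if T ≤ HT ht L then LW Λ L * (if HT ht L = n then f L else 0) else 0) := by
      refine tsum_congr fun L => ?_
      by_cases hL : HT ht L = n
      · rw [if_pos hL, if_pos (by omega), if_pos hL]
      · rw [if_neg hL]; simp [hL]
    rw [e1, split Λ ht h1 T]
    have key : ∀ A, (if fp ht T A then LW Λ A * ∑' L2, LW Λ L2 *
        (if HT ht (A ++ L2) = n then f (A ++ L2) else 0) else 0) ≤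
        LP Λ ht T i0 A * (SL (LP Λ ht T i0) j (fun Q => ∑' R,
          if HT ht (A ++ Q.flatten) + HT ht R = n then LW Λ R * f (A ++ Q.flatten ++ R) else 0)
            + j * ε) + (if fp ht T A ∧ T + i0 < HT ht A then LW Λ A else 0) := by
      intro A
      by_cases hA : fp ht T A
      · rw [if_pos hA]
        by_cases hov : HT ht A ≤ T + i0
        · refine le_trans ?_ le_self_add
          rw [show LP Λ ht T i0 A = LW Λ A by unfold LP; rw [if_pos ⟨hA, hov⟩]]
          refine mul_le_mul_right ?_ _
          have hn' : j * (T + i0) ≤ n - HT ht A := by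
            have : (j + 1) * (T + i0) = j * (T + i0) + (T + i0) := by ring
            omega
          have hAn : HT ht A ≤ n := by
            have : (j + 1) * (T + i0) = j * (T + i0) + (T + i0) := by ring
            have h0 : 0 ≤ j * (T + i0) := Nat.zero_le _
            omega
          have := ih (n - HT ht A) hn' (fun L => f (A ++ L)) (fun L => hf _)
          refine le_trans (le_of_eq ?_) (this.trans (le_of_eq ?_))
          · refine tsum_congr fun L2 => ?_
            rw [HT_append]
            by_cases hL : HT ht L2 = n - HT ht A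
            · rw [if_pos hL, if_pos (by omega)]
            · rw [if_neg hL, if_neg (by omega), mul_zero]
          · congr 1
            refine SL_congr _ j fun Q _ => tsum_congr fun R => ?_
            rw [HT_append, List.append_assoc]
            by_cases hL : HT ht Q.flatten + HT ht R = n - HT ht A
            · rw [if_pos hL, if_pos (by omega)]
            · rw [if_neg hL, if_neg (by omega)]
        · refine le_trans ?_ le_add_self
          rw [if_pos ⟨hA, by omega⟩]
          calc LW Λ A * _ ≤ LW Λ A * 1 := by
                refine mul_le_mul_right ?_ _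
                calc ∑' L2, LW Λ L2 * (if HT ht (A ++ L2) = n then f (A ++ L2) else 0)
                    ≤ ∑' L2, (if HT ht L2 = n - HT ht A then LW Λ L2 else 0) := by
                      refine ENNReal.tsum_le_tsum fun L2 => ?_
                      rw [HT_append]
                      by_cases hL : HT ht A + HT ht L2 = n
                      · rw [if_pos hL, if_pos (by omega)]
                        calc LW Λ L2 * f (A ++ L2) ≤ LW Λ L2 * 1 := mul_le_mul_right (hf _) _
                          _ = _ := mul_one _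
                      · simp [hL]
                  _ ≤ 1 := hU1 _
            _ = LW Λ A := mul_one _
      · rw [if_neg hA]; exact zero_le
    calc _ ≤ ∑' A, (LP Λ ht T i0 A * (SL (LP Λ ht T i0) j (fun Q => ∑' R,
          if HT ht (A ++ Q.flatten) + HT ht R = n then LW Λ R * f (A ++ Q.flatten ++ R) else 0)
            + j * ε) + (if fp ht T A ∧ T + i0 < HT ht A then LW Λ A else 0)) :=
          ENNReal.tsum_le_tsum key
      _ = (∑' A, LP Λ ht T i0 A * SL (LP Λ ht T i0) j (fun Q => ∑' R,
          if HT ht (A ++ Q.flatten) + HT ht R = n then LW Λ R * f (A ++ Q.flatten ++ R) else 0))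
          + (∑' A, LP Λ ht T i0 A) * (j * ε) +
          ∑' A, (if fp ht T A ∧ T + i0 < HT ht A then LW Λ A else 0) := by
          rw [ENNReal.tsum_add]
          congr 1
          rw [← ENNReal.tsum_mul_right, ← ENNReal.tsum_add]
          exact tsum_congr fun A => mul_add _ _ _
      _ ≤ SL (LP Λ ht T i0) (j + 1) (fun Q => ∑' R, if HT ht Q.flatten + HT ht R = n then
          LW Λ R * f (Q.flatten ++ R) else 0) + 1 * (j * ε) + ε := by
          refine add_le_add (add_le_add (le_of_eq ?_) (mul_le_mul_left (LP_sum Λ ht h1 hΛ T i0) _)) hε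
          rw [SL_succ]
          simp only [List.flatten_cons]
      _ = _ := by push_cast; ring

end Split

end Crest.Agent.R154.Asm850
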