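import Crest.Agent.R154.AsmD_857
import Crest.Agent.R154.Num_337

/-! Row 154, ROAD 801 (helper857): sum over the windows, order of the constants: KAPPA' on lists. -/

set_option autoImplicit false

namespace Crest.Agent.R154.Asm857

open Crest.Agent.R154.B5A Filter
open scoped ENNReal Topology

noncomputable section

open Classical

section one

variable {B G : Type*} [AddCommGroup G] (Λ : B → ℝ≥0∞) (ht : B → ℕ) (zz : B → G)

theorem densX (h1 : ∀ b, 1 ≤ ht b) (hΛ : ∑' b, Λ b = 1) (hU1 : ∀ n, U Λ ht n ≤ 1)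
    (τ i0 : ℕ) (u : ℝ≥0∞) (hu0 : u ≠ 0) (hu1 : u < 1) :
    ∃ th Gc : ℝ≥0∞, th ≠ 0 ∧
      (∀ (j : ℕ) (E : Finset G), (∀ z ∈ E, th ≤ pp Λ ht zz τ (j, z)) →
        Gc * E.card ≤ ((i0 + 1 : ℕ) : ℝ≥0∞) / u) ∧
      (∑' x, (if pp Λ ht zz τ x < th then pp Λ ht zz τ x else 0) ≤ u) ∧
      ∀ J r, J * (τ + i0) ≤ r → ∃ b : ℕ × G → ℝ≥0∞,
        ∑' x, b x ≤ (1 - u) ^ J + J * ovs Λ ht i0 ∧ ∀ x, pp Λ ht zz r x ≤ Gc + b x := by
  have htot := pp_total Λ ht zz h1 hΛ τ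
  have hut : u ≠ ⊤ := ne_top_of_lt hu1
  obtain ⟨th, hth0, hth1, hA, hB⟩ := Dens616.quantile (pp Λ ht zz τ) htot hu0 hu1
  refine ⟨th, ((i0 + 1 : ℕ) : ℝ≥0∞) * th / u, hth0, ?_, hA, ?_⟩
  · intro j E hE
    have h2 : (E.card : ℝ≥0∞) * th ≤ 1 := by
      refine (Dens616.card_mul_le (fun z => pp Λ ht zz τ (j, z)) th E hE).trans ?_
      rw [← htot]
      exact ENNReal.tsum_comp_le_tsum_of_injective
        (f := fun z' : G => ((j, z') : ℕ × G)) (fun a b h => by simpa using h) _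
    calc ((i0 + 1 : ℕ) : ℝ≥0∞) * th / u * E.card
        = ((i0 + 1 : ℕ) : ℝ≥0∞) / u * (E.card * th) := by
          simp only [div_eq_mul_inv]; ring
      _ ≤ ((i0 + 1 : ℕ) : ℝ≥0∞) / u * 1 := mul_le_mul_right h2 _
      _ = _ := mul_one _
  · refine dens (fun r => pp Λ ht zz r) (pp Λ ht zz τ) τ i0 th (1 - u) (ovs Λ ht i0) _
      (fun r hr => pp_rec Λ ht zz h1 hΛ hU1 τ i0 r hr) (fun r => (pp_total Λ ht zz h1 hΛ r).le)
      ?_ tsub_le_self ?_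
    · have hsum : (∑' x, (if pp Λ ht zz τ x ≤ th then pp Λ ht zz τ x else 0)) +
          ∑' x, (if th < pp Λ ht zz τ x then pp Λ ht zz τ x else 0) = 1 := by
        rw [← ENNReal.tsum_add, ← htot]
        refine tsum_congr fun x => ?_
        by_cases h : pp Λ ht zz τ x ≤ th
        · rw [if_pos h, if_neg (not_lt.2 h), add_zero]
        · rw [if_neg h, if_pos (not_le.1 h), zero_add]
      refine ENNReal.le_sub_of_add_le_left hut ?_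
      calc _ ≤ _ := add_le_add hB le_rfl
        _ = 1 := hsum
    · have e : ((i0 + 1 : ℕ) : ℝ≥0∞) * th = u * (((i0 + 1 : ℕ) : ℝ≥0∞) * th / u) :=
        (ENNReal.mul_div_cancel hu0 hut).symm
      calc ((i0 + 1 : ℕ) : ℝ≥0∞) * th + (1 - u) * (((i0 + 1 : ℕ) : ℝ≥0∞) * th / u)
          = (u + (1 - u)) * (((i0 + 1 : ℕ) : ℝ≥0∞) * th / u) := by
            rw [add_mul, ← e]
        _ = 1 * (((i0 + 1 : ℕ) : ℝ≥0∞) * th / u) := by
            rw [add_tsub_cancel_of_le hu1.le]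
        _ ≤ _ := by rw [one_mul]

end one

/-- the order of the constants -/
theorem consts (oX oY us : ℕ → ℝ≥0∞) (hoX : Tendsto oX atTop (𝓝 0)) (hoY : Tendsto oY atTop (𝓝 0))
    (hus : Tendsto us atTop (𝓝 0)) (C : ℝ≥0∞) (hC : C ≠ ⊤) (ε : ℝ≥0∞) (hε : ε ≠ 0) :
    ∃ (K : ℕ) (u : ℝ≥0∞) (i0 : ℕ) (lam : ℝ≥0∞) (s : ℕ) (η : ℝ≥0∞), 4 ≤ K ∧ u ≠ 0 ∧ u < 1 ∧
      lam ≠ 0 ∧ lam ≠ ⊤ ∧ η ≠ 0 ∧
      ((4 * K + 8 : ℕ) : ℝ≥0∞) * ((2 * oX i0 + 2 * oY i0 + (u * u +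
        (((1 - u) ^ (K / 4) + (K / 4 : ℕ) * oX i0 + ((i0 + 1 : ℕ) : ℝ≥0∞) *
          (((i0 + 1 : ℕ) : ℝ≥0∞) * (((i0 + 1 : ℕ) : ℝ≥0∞) *
        (C * (lam + ((i0 + 1 : ℕ) : ℝ≥0∞) / u * us s / lam + us s))))) +
        ((1 - u) ^ (K / 4) + (K / 4 : ℕ) * oY i0 + ((i0 + 1 : ℕ) : ℝ≥0∞) *
          (((i0 + 1 : ℕ) : ℝ≥0∞) * (((i0 + 1 : ℕ) : ℝ≥0∞) *
        (C * (lam + ((i0 + 1 : ℕ) : ℝ≥0∞) / u * us s / lam + us s)))))))) + (η + η)) ≤ ε := by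
  set ε1 := ε / 6 with hε1
  have hε10 : ε1 ≠ 0 := by
    rw [hε1, Ne, ENNReal.div_eq_zero_iff, not_or]
    exact ⟨hε, by norm_num⟩
  obtain ⟨K, u, hK, hu0, hu1, hA, hB⟩ := Num337.exKu ε1 hε10
  set N : ℝ≥0∞ := ((4 * K + 8 : ℕ) : ℝ≥0∞) with hN
  have hNt : N ≠ ⊤ := ENNReal.natCast_ne_top _
  have hN0 : N ≠ 0 := by rw [hN]; exact_mod_cast (by omega : 4 * K + 8 ≠ 0)
  -- i0
  have hlim : Tendsto (fun i => N * (2 * oX i + 2 * oY i + ((K / 4 : ℕ) : ℝ≥0∞) * oX i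
      + ((K / 4 : ℕ) : ℝ≥0∞) * oY i)) atTop (𝓝 0) := by
    have a1 : Tendsto (fun i => 2 * oX i) atTop (𝓝 0) := by
      simpa using ENNReal.Tendsto.const_mul hoX (Or.inr (by norm_num : (2 : ℝ≥0∞) ≠ ⊤))
    have a2 : Tendsto (fun i => 2 * oY i) atTop (𝓝 0) := by
      simpa using ENNReal.Tendsto.const_mul hoY (Or.inr (by norm_num : (2 : ℝ≥0∞) ≠ ⊤))
    have a3 : Tendsto (fun i => ((K / 4 : ℕ) : ℝ≥0∞) * oX i) atTop (𝓝 0) := by
      simpa using ENNReal.Tendsto.const_mul hoX (Or.inr (ENNReal.natCast_ne_top (K / 4)))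
    have a4 : Tendsto (fun i => ((K / 4 : ℕ) : ℝ≥0∞) * oY i) atTop (𝓝 0) := by
      simpa using ENNReal.Tendsto.const_mul hoY (Or.inr (ENNReal.natCast_ne_top (K / 4)))
    have a5 := ((a1.add a2).add a3).add a4
    simp only [add_zero] at a5
    simpa using ENNReal.Tendsto.const_mul a5 (Or.inr hNt)
  obtain ⟨i0, hi0⟩ := (hlim.eventually (ge_mem_nhds (pos_iff_ne_zero.2 hε10))).exists
  -- lam, s
  set I1 : ℝ≥0∞ := ((i0 + 1 : ℕ) : ℝ≥0∞) with hI1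
  have hI1t : I1 ≠ ⊤ := ENNReal.natCast_ne_top _
  have hAt : N * (2 * (I1 * (I1 * (I1 * C)))) ≠ ⊤ :=
    ENNReal.mul_ne_top hNt (ENNReal.mul_ne_top (by norm_num) (ENNReal.mul_ne_top hI1t
      (ENNReal.mul_ne_top hI1t (ENNReal.mul_ne_top hI1t hC))))
  have hDt : I1 / u ≠ ⊤ := ENNReal.div_ne_top hI1t hu0
  obtain ⟨lam, hl0, hlt, -, s, hs⟩ := Num337.exLam _ _ hAt hDt us hus ε1 hε10
  have hs' := hs s le_rfl
  have hη0 : ε1 / (2 * N) ≠ 0 := by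
    rw [Ne, ENNReal.div_eq_zero_iff, not_or]
    exact ⟨hε10, ENNReal.mul_ne_top (by norm_num) hNt⟩
  refine ⟨K, u, i0, lam, s, ε1 / (2 * N), hK, hu0, hu1, hl0, hlt, hη0, ?_⟩
  set Z := lam + I1 / u * us s / lam + us s with hZ
  have hη : N * (ε1 / (2 * N) + ε1 / (2 * N)) ≤ ε1 := by
    calc N * (ε1 / (2 * N) + ε1 / (2 * N)) = (2 * N) * (ε1 / (2 * N)) := by ring
      _ ≤ ε1 := ENNReal.mul_div_le
  calc N * ((2 * oX i0 + 2 * oY i0 + (u * u +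
        (((1 - u) ^ (K / 4) + (K / 4 : ℕ) * oX i0 + I1 * (I1 * (I1 * (C * Z)))) +
        ((1 - u) ^ (K / 4) + (K / 4 : ℕ) * oY i0 + I1 * (I1 * (I1 * (C * Z)))))))
          + (ε1 / (2 * N) + ε1 / (2 * N)))
      = N * (2 * oX i0 + 2 * oY i0 + ((K / 4 : ℕ) : ℝ≥0∞) * oX i0
          + ((K / 4 : ℕ) : ℝ≥0∞) * oY i0) + N * (u * u) + N * (1 - u) ^ (K / 4)
          + N * (1 - u) ^ (K / 4) + N * (2 * (I1 * (I1 * (I1 * C)))) * Z
          + N * (ε1 / (2 * N) + ε1 / (2 * N)) := by ring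
    _ ≤ ε1 + ε1 + ε1 + ε1 + ε1 + ε1 := by gcongr
    _ = 6 * (ε / 6) := by rw [hε1]; ring
    _ ≤ ε := ENNReal.mul_div_le

variable {BX BY G : Type*} [AddCommGroup G] (ΛX : BX → ℝ≥0∞) (ΛY : BY → ℝ≥0∞)
  (hX : BX → ℕ) (hY : BY → ℕ) (zX : BX → G) (zY : BY → G)
  (TX : List BX → G → ℕ → Set (G × ℕ)) (TY : List BY → G → ℕ → Set (G × ℕ))

/-- thin slabs -/
def H5L : Prop :=
  ∀ (s : ℕ) (η : ℝ≥0∞), η ≠ 0 → ∃ T, ∀ a, T ≤ a → ∀ n, ∀ w : G, ∑' L : List BX, ∑' L' : List BY,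
      (if HT hX L = n ∧ HT hY L' = n ∧ ∃ y k, a ≤ k ∧ k < a + s ∧
          (y, k) ∈ TX L 0 0 ∧ (y, k) ∈ TY L' w 0
        then LW ΛX L * LW ΛY L' else 0) ≤ η

theorem kapS {C : ℝ≥0∞} (hC : C ≠ ⊤) {us : ℕ → ℝ≥0∞} (hus : Tendsto us atTop (𝓝 0))
    (H2 : H2L ΛX ΛY hX hY zX TX TY C us) (H3 : H3L ΛX ΛY hX hY zY TX TY C us)
    (H5 : H5L ΛX ΛY hX hY TX TY)
    (h1X : ∀ b, 1 ≤ hX b) (h1Y : ∀ b, 1 ≤ hY b) (hU1X : ∀ n, U ΛX hX n ≤ 1)
    (hU1Y : ∀ n, U ΛY hY n ≤ 1) (hΛX : ∑' b, ΛX b = 1) (hΛY : ∑' b, ΛY b = 1)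
    (hoX : Tendsto (fun i0 => ovs ΛX hX i0) atTop (𝓝 0))
    (hoY : Tendsto (fun i0 => ovs ΛY hY i0) atTop (𝓝 0))
    (aX : ∀ L1 L2 x a, TX (L1 ++ L2) x a = TX L1 x a ∪ TX L2 (x + Dp zX L1) (a + HT hX L1))
    (aY : ∀ L1 L2 x a, TY (L1 ++ L2) x a = TY L1 x a ∪ TY L2 (x + Dp zY L1) (a + HT hY L1))
    (bX : ∀ L x a z k, (z, k) ∈ TX L x a → a < k ∧ k ≤ a + HT hX L)
    (bY : ∀ L x a z k, (z, k) ∈ TY L x a → a < k ∧ k ≤ a + HT hY L)
    (tX : ∀ L x y a z k, (z, k) ∈ TX L (x + y) a ↔ (z - y, k) ∈ TX L x a)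
    (tY : ∀ L x y a z k, (z, k) ∈ TY L (x + y) a ↔ (z - y, k) ∈ TY L x a) :
    ∀ ε : ℝ≥0∞, ε ≠ 0 → ∃ M : ℕ, ∀ m, M ≤ m → ∃ n0, ∀ n, n0 ≤ n → ∀ w : G,
      ∑' L : List BX, ∑' L' : List BY, (if HT hX L = n ∧ HT hY L' = n ∧
        (∃ k z, m < k ∧ k ≤ 2 * m ∧ (z, k) ∈ TX L 0 0 ∧ (z, k) ∈ TY L' w 0)
        then LW ΛX L * LW ΛY L' else 0) ≤ ε := by
  intro ε hε
  obtain ⟨K, u, i0, lam, s, η, hK, hu0, hu1, hl0, hlt, hη0, hfin⟩ :=
    consts (fun i0 => ovs ΛX hX i0) (fun i0 => ovs ΛY hY i0) us hoX hoY hus C hC ε hε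
  obtain ⟨T5, hT5⟩ := H5 (2 * i0 + s) η hη0
  refine ⟨(K + 1) * (T5 + 2 * i0 + s + 2 * K + 2), fun m hm => ?_⟩
  set t := m / (K + 1) with ht
  have ht1 : T5 + 2 * i0 + s + 2 * K + 2 ≤ t := by
    rw [ht, Nat.le_div_iff_mul_le (by omega), mul_comm]; exact hm
  have hmt : (K + 1) * t ≤ m := Nat.mul_div_le m (K + 1)
  have hmt' : m < (K + 1) * t + (K + 1) := by
    have := Nat.lt_mul_div_succ m (show 0 < K + 1 by omega)
    rw [← ht] at this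
    linarith [mul_add (K + 1) t 1]
  refine ⟨(2 * K + 6) * t + 3 * i0, fun n hn w => ?_⟩
  obtain ⟨thX, GX, hthX, hDX, huX, hdX⟩ := densX ΛX hX zX h1X hΛX hU1X (3 * t) i0 u hu0 hu1
  obtain ⟨thY, GY, hthY, hDY, huY, hdY⟩ := densX ΛY hY zY h1Y hΛY hU1Y (3 * t + i0) i0 u hu0 hu1
  set TT : ℝ≥0∞ := 2 * ovs ΛX hX i0 + 2 * ovs ΛY hY i0 + (u * u +
        (((1 - u) ^ (K / 4) + (K / 4 : ℕ) * ovs ΛX hX i0 + ((i0 + 1 : ℕ) : ℝ≥0∞) *
          (((i0 + 1 : ℕ) : ℝ≥0∞) * (((i0 + 1 : ℕ) : ℝ≥0∞) *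
        (C * (lam + ((i0 + 1 : ℕ) : ℝ≥0∞) / u * us s / lam + us s))))) +
        ((1 - u) ^ (K / 4) + (K / 4 : ℕ) * ovs ΛY hY i0 + ((i0 + 1 : ℕ) : ℝ≥0∞) *
          (((i0 + 1 : ℕ) : ℝ≥0∞) * (((i0 + 1 : ℕ) : ℝ≥0∞) *
        (C * (lam + ((i0 + 1 : ℕ) : ℝ≥0∞) / u * us s / lam + us s))))))) with hTT
  -- one window
  have hwin : ∀ v, v < K + 2 → ∑' L : List BX, ∑' L' : List BY, (if HT hX L = n ∧ HT hY L' = n ∧
        (∃ k z, (K + 1 + v) * t < k ∧ k ≤ (K + 2 + v) * t ∧ (z, k) ∈ TX L 0 0 ∧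
          (z, k) ∈ TY L' w 0)
        then LW ΛX L * LW ΛY L' else 0) ≤ TT + (η + η) := by
    intro v hv
    have q1 : (K + 1 + v) * t = (K + v) * t + t := by ring
    have q2 : (K + 2 + v) * t = (K + v) * t + 2 * t := by ring
    have q3 : K * t ≤ (K + v) * t := Nat.mul_le_mul_right t (by omega)
    have q4 : (K + v) * t ≤ (2 * K + 1) * t := Nat.mul_le_mul_right t (by omega)
    have q5 : (2 * K + 6) * t = (2 * K + 1) * t + 5 * t := by ring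
    have q6 : 1 * t ≤ K * t := Nat.mul_le_mul_right t (by omega)
    have q7 : (K / 4) * (3 * t + i0) ≤ (K + v) * t := by
      have : 4 * (K / 4) ≤ K := Nat.mul_div_le K 4
      have h3 : (K / 4) * (3 * t + i0) ≤ (K / 4) * (4 * t) := Nat.mul_le_mul_left _ (by omega)
      have h4 : (K / 4) * (4 * t) = (4 * (K / 4)) * t := by ring
      have h5 : (4 * (K / 4)) * t ≤ K * t := Nat.mul_le_mul_right t this
      omega
    have q8 : (K / 4) * (3 * t + i0 + i0) ≤ (K + v) * t + i0 := by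
      have : 4 * (K / 4) ≤ K := Nat.mul_div_le K 4
      have h3 : (K / 4) * (3 * t + i0 + i0) ≤ (K / 4) * (4 * t) := Nat.mul_le_mul_left _ (by omega)
      have h4 : (K / 4) * (4 * t) = (4 * (K / 4)) * t := by ring
      have h5 : (4 * (K / 4)) * t ≤ K * t := Nat.mul_le_mul_right t this
      omega
    set α := (K + v) * t with hα
    rw [q1, q2]
    obtain ⟨cX, hcX, hfX⟩ := hdX (K / 4) α q7
    obtain ⟨cY, hcY, hfY⟩ := hdY (K / 4) (α + i0) q8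
    have key := window ΛX ΛY hX hY zX zY TX TY H2 H3 h1X h1Y hU1X hU1Y hΛX hΛY aX aY bX bY tX tY
      w α (α + i0) (3 * t) (3 * t + i0) i0 s (α + 2 * i0 + s) (α + 3 * t - s) (α + t) (α + 2 * t) n
      thX thY GX GY (((i0 + 1 : ℕ) : ℝ≥0∞) / u) lam _ _ u u hthX hthY hDX hDY hl0 hlt
      cX hfX hcX cY hfY hcY huX huY (by omega) (by omega) (by omega) (by omega) (by omega)
      (by omega) (by omega) (by omega)
    have s1 := hT5 α (by omega) n w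
    have s2 := hT5 (α + 3 * t - s + 1) (by omega) n w
    refine le_trans ?_ (add_le_add key (add_le_add s1 s2))
    rw [← ENNReal.tsum_add, ← ENNReal.tsum_add]
    refine ENNReal.tsum_le_tsum fun L => ?_
    rw [← ENNReal.tsum_add, ← ENNReal.tsum_add]
    refine ENNReal.tsum_le_tsum fun L' => ?_
    by_cases h : HT hX L = n ∧ HT hY L' = n ∧
        (∃ k z, α + t < k ∧ k ≤ α + 2 * t ∧ (z, k) ∈ TX L 0 0 ∧ (z, k) ∈ TY L' w 0)
    · rw [if_pos h]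
      obtain ⟨e1, e2, k, z, k1, k2, k3, k4⟩ := h
      by_cases hs1 : ∃ y k, α ≤ k ∧ k < α + (2 * i0 + s) ∧
          (y, k) ∈ TX L 0 0 ∧ (y, k) ∈ TY L' w 0
      · refine le_trans ?_ le_add_self
        refine le_trans ?_ le_self_add
        rw [if_pos ⟨e1, e2, hs1⟩]
      · by_cases hs2 : ∃ y k, α + 3 * t - s + 1 ≤ k ∧ k < α + 3 * t - s + 1 + (2 * i0 + s) ∧
            (y, k) ∈ TX L 0 0 ∧ (y, k) ∈ TY L' w 0
        · refine le_trans ?_ le_add_self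
          refine le_trans ?_ le_add_self
          rw [if_pos ⟨e1, e2, hs2⟩]
        · refine le_trans ?_ le_self_add
          rw [if_pos]
          refine ⟨e1, e2, ⟨z, k, k1, k2, k3, k4⟩, ?_⟩
          intro z' k' hz hz' h1 h2
          constructor
          · by_contra hcon
            exact hs1 ⟨z', k', by omega, by omega, hz, hz'⟩
          · by_contra hcon
            exact hs2 ⟨z', k', by omega, by omega, hz, hz'⟩
    · rw [if_neg h]; exact zero_le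
  -- all windows
  have hcov : ∀ (L : List BX) (L' : List BY), (if HT hX L = n ∧ HT hY L' = n ∧
        (∃ k z, m < k ∧ k ≤ 2 * m ∧ (z, k) ∈ TX L 0 0 ∧ (z, k) ∈ TY L' w 0)
        then LW ΛX L * LW ΛY L' else 0) ≤ ∑ v ∈ Finset.range (K + 2),
        (if HT hX L = n ∧ HT hY L' = n ∧
        (∃ k z, (K + 1 + v) * t < k ∧ k ≤ (K + 2 + v) * t ∧ (z, k) ∈ TX L 0 0 ∧
          (z, k) ∈ TY L' w 0)
        then LW ΛX L * LW ΛY L' else 0) := by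
    intro L L'
    by_cases h : HT hX L = n ∧ HT hY L' = n ∧
        (∃ k z, m < k ∧ k ≤ 2 * m ∧ (z, k) ∈ TX L 0 0 ∧ (z, k) ∈ TY L' w 0)
    · obtain ⟨e1, e2, k, z, k1, k2, k3, k4⟩ := h
      -- the window of `k`
      have hk0 : (K + 1) * t < k := by omega
      have hk1 : k ≤ (2 * K + 3) * t := by
        have a1 : (2 * K + 3) * t = 2 * ((K + 1) * t) + t := by ring
        omega
      set q := (k - 1) / t with hq
      have htpos : 0 < t := by omega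
      have hq1 : q * t ≤ k - 1 := Nat.div_mul_le_self _ _
      have hq2 : k - 1 < (q + 1) * t := by
        have := Nat.lt_div_mul_add htpos (a := k - 1)
        rw [← hq] at this
        calc k - 1 < q * t + t := this
          _ = (q + 1) * t := by ring
      have hq3 : K + 1 ≤ q := by
        by_contra hcon
        have : (q + 1) * t ≤ (K + 1) * t := Nat.mul_le_mul_right t (by omega)
        omega
      have hq4 : q ≤ 2 * K + 2 := by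
        by_contra hcon
        have : (2 * K + 3) * t ≤ q * t := Nat.mul_le_mul_right t (by omega)
        omega
      obtain ⟨v, hv⟩ := Nat.exists_eq_add_of_le hq3
      refine le_trans ?_ (Finset.single_le_sum (f := fun v => (if HT hX L = n ∧ HT hY L' = n ∧
        (∃ k z, (K + 1 + v) * t < k ∧ k ≤ (K + 2 + v) * t ∧ (z, k) ∈ TX L 0 0 ∧
          (z, k) ∈ TY L' w 0)
        then LW ΛX L * LW ΛY L' else 0)) (fun _ _ => zero_le)
        (Finset.mem_range.2 (show v < K + 2 by omega)))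
      rw [if_pos ⟨e1, e2, k, z, k1, k2, k3, k4⟩, if_pos]
      refine ⟨e1, e2, k, z, ?_, ?_, k3, k4⟩
      · rw [← hv]; omega
      · have : (K + 2 + v) = q + 1 := by omega
        rw [this]; omega
    · rw [if_neg h]; exact zero_le
  calc _ ≤ ∑' L : List BX, ∑' L' : List BY, ∑ v ∈ Finset.range (K + 2),
        (if HT hX L = n ∧ HT hY L' = n ∧
        (∃ k z, (K + 1 + v) * t < k ∧ k ≤ (K + 2 + v) * t ∧ (z, k) ∈ TX L 0 0 ∧
          (z, k) ∈ TY L' w 0)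
        then LW ΛX L * LW ΛY L' else 0) :=
        ENNReal.tsum_le_tsum fun L => ENNReal.tsum_le_tsum fun L' => hcov L L'
    _ = ∑ v ∈ Finset.range (K + 2), ∑' L : List BX, ∑' L' : List BY,
        (if HT hX L = n ∧ HT hY L' = n ∧
        (∃ k z, (K + 1 + v) * t < k ∧ k ≤ (K + 2 + v) * t ∧ (z, k) ∈ TX L 0 0 ∧
          (z, k) ∈ TY L' w 0)
        then LW ΛX L * LW ΛY L' else 0) := by
        simp only [Summable.tsum_finsetSum (fun _ _ => ENNReal.summable)]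
    _ ≤ ∑ v ∈ Finset.range (K + 2), (TT + (η + η)) :=
        Finset.sum_le_sum fun v hv => hwin v (Finset.mem_range.1 hv)
    _ = ((K + 2 : ℕ) : ℝ≥0∞) * (TT + (η + η)) := by
        rw [Finset.sum_const, Finset.card_range, nsmul_eq_mul]
    _ ≤ ((4 * K + 8 : ℕ) : ℝ≥0∞) * (TT + (η + η)) := by
        refine mul_le_mul_left ?_ _
        exact_mod_cast (by omega : K + 2 ≤ 4 * K + 8)
    _ ≤ ε := hfin

end

end Crest.Agent.R154.Asm857
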