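import Crest.Agent.R154.AsmD_871
import Crest.Agent.R154.Sel_300
import Crest.Agent.R154.NumK_658

/-! Row 154 (helper871), ROAD 801, frame A: the whole assembly on lists. -/

set_option autoImplicit false

namespace Crest.Agent.R154.Asm871

open scoped ENNReal Topology
open Filter
open Crest.Agent.R154.B5A Crest.Agent.R154.FP178

variable {BX BY G : Type*} [AddCommGroup G] (ΛX : BX → ℝ≥0∞) (hX : BX → ℕ) (zX : BX → G)
  (sX : BX → Set (G × ℕ)) (ΛY : BY → ℝ≥0∞) (hY : BY → ℕ) (zY : BY → G) (sY : BY → Set (G × ℕ))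

open Classical in
lemma over_law {B : Type*} (Λ : B → ℝ≥0∞) (ht : B → ℕ) (dz : B → G) (h1 : ∀ b, 1 ≤ ht b)
    (hU1 : ∀ n, U Λ ht n ≤ 1) (s i0 : ℕ) :
    ∑' v, (if s + i0 < v.1.toNat then law Λ ht dz s v else 0) ≤ ov Λ ht i0 := by
  have h := law_sum Λ ht dz s (fun v => if s + i0 < v.1.toNat then 1 else 0)
  calc ∑' v, (if s + i0 < v.1.toNat then law Λ ht dz s v else 0)
      = ∑' v, law Λ ht dz s v * (if s + i0 < v.1.toNat then 1 else 0) := by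
        refine tsum_congr fun v => ?_
        split_ifs <;> simp
    _ = ∑' A, (if fp ht s A then LW Λ A * (if s + i0 < (vL ht dz A).1.toNat then 1 else 0)
          else 0) := h.symm
    _ = ∑' A, (if fp ht s A ∧ s + i0 < HT ht A then LW Λ A else 0) := by
        refine tsum_congr fun A => ?_
        have e1 : (vL ht dz A).1.toNat = HT ht A := by simp [vL]
        rw [e1]
        by_cases h : fp ht s A <;> by_cases h' : s + i0 < HT ht A <;> simp [h, h']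
    _ ≤ _ := overshoot Λ ht h1 hU1 i0 s

open Classical in
/-- **one window, total** -/
theorem win_total (h1X : ∀ b, 1 ≤ hX b) (h1Y : ∀ b, 1 ≤ hY b) (hΛX : ∑' b, ΛX b = 1)
    (hΛY : ∑' b, ΛY b = 1) (hUX : ∀ n, U ΛX hX n ≤ 1) (hUY : ∀ n, U ΛY hY n ≤ 1)
    (hsX : ∀ b, ∀ p ∈ sX b, 1 ≤ p.2 ∧ p.2 ≤ hX b)
    (hsY : ∀ b, ∀ p ∈ sY b, 1 ≤ p.2 ∧ p.2 ≤ hY b)
    {us : ℕ → ℝ≥0∞} {C : ℝ≥0∞}
    (H2 : H2P ΛX hX zX sX ΛY hY zY sY us C) (H3 : H3P ΛX hX zX sX ΛY hY zY sY us C)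
    (w : G) (T t s i0 n J : ℕ) (u lam e κ : ℝ≥0∞) (hu0 : u ≠ 0) (hu1 : u ≤ 1)
    (hl0 : lam ≠ 0) (hl1 : lam ≠ ⊤) (heX : ov ΛX hX i0 ≤ e) (heY : ov ΛY hY i0 ≤ e)
    (hκ : C * (lam + (i0 + 1 : ℕ) * u⁻¹ * us s / lam + us s) ≤ κ)
    (ht : 2 * i0 + s ≤ t) (hn : T + 3 * t + 4 * i0 ≤ n) (hJ : J * (3 * t + 2 * i0) ≤ T) :
    ∑' LX, (if HT hX LX = n then LW ΛX LX * ∑' LY, (if HT hY LY = n then LW ΛY LY *
      (if Ev hX zX sX hY zY sY w T t s i0 LX LY then 1 else 0) else 0) else 0)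
      ≤ 4 * e + (u * u + 2 * (((1 - u) ^ J + J * e) +
        (i0 + 1 : ℕ) * ((i0 + 1 : ℕ) * ((i0 + 1 : ℕ) * κ)))) := by
  obtain ⟨thX, MX, EX, hX1, hX2, hX3, hX4⟩ := quant ΛX hX zX h1X hΛX (3 * t) i0 hu0 hu1
  obtain ⟨thY, MY, EY, hY1, hY2, hY3, hY4⟩ := quant ΛY hY zY h1Y hΛY (3 * t + i0) i0 hu0 hu1
  obtain ⟨bX, hbX, hbMX⟩ := smooth ΛX hX zX h1X hΛX.le (3 * t) i0 thX (1 - u) e MX
    ((over_law ΛX hX zX h1X hUX (3 * t) i0).trans heX) hX2 tsub_le_self hX3 J T (by nlinarith)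
  obtain ⟨bY, hbY, hbMY⟩ := smooth ΛY hY zY h1Y hΛY.le (3 * t + i0) i0 thY (1 - u) e MY
    ((over_law ΛY hY zY h1Y hUY (3 * t + i0) i0).trans heY) hY2 tsub_le_self hY3 J (T + i0)
    (by nlinarith)
  have hκX : C * (lam + MX * EX.card * us s / lam + us s) ≤ κ := by
    refine le_trans ?_ hκ
    gcongr
  have hκY : C * (lam + MY * EY.card * us s / lam + us s) ≤ κ := by
    refine le_trans ?_ hκ
    gcongr
  have hZX := ZX_le ΛX hX zX sX ΛY hY zY sY h1X h1Y hΛX.le hΛY.le H2 w T t s i0 ht EX MX _ κ lam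
    hl0 hl1 bX hbX hbMX hκX
  have hZY := ZY_le ΛX hX zX sX ΛY hY zY sY h1X h1Y hΛX.le hΛY.le H3 w T t s i0 ht EY MY _ κ lam
    hl0 hl1 bY hbY hbMY hκY
  have hZN := ZN_le ΛX hX zX ΛY hY zY h1X h1Y hΛX.le hΛY.le T t i0 EX EY u hX1 hY1
  refine (window1 ΛX hX zX sX ΛY hY zY sY h1X h1Y hΛX.le hΛY.le hUX hUY hsX hsY w T t s i0 n ht
    hn).trans ?_
  calc _ ≤ 2 * e + (2 * e + (((1 - u) ^ J + J * e) +
        (i0 + 1 : ℕ) * ((i0 + 1 : ℕ) * ((i0 + 1 : ℕ) * κ)) + ((((1 - u) ^ J + J * e) +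
        (i0 + 1 : ℕ) * ((i0 + 1 : ℕ) * ((i0 + 1 : ℕ) * κ))) + u * u))) := by
        gcongr
        exact (Z_le ΛX hX zX sX ΛY hY zY sY w T t s i0 EX EY).trans
          (add_le_add hZX (add_le_add hZY hZN))
    _ = _ := by ring

open Classical in
/-- **the assembly** -/
theorem kapS (h1X : ∀ b, 1 ≤ hX b) (h1Y : ∀ b, 1 ≤ hY b) (hΛX : ∑' b, ΛX b = 1)
    (hΛY : ∑' b, ΛY b = 1) (hUX : ∀ n, U ΛX hX n ≤ 1) (hUY : ∀ n, U ΛY hY n ≤ 1)
    (hEX : ∑' b, ΛX b * (hX b : ℝ≥0∞) ≠ ⊤) (hEY : ∑' b, ΛY b * (hY b : ℝ≥0∞) ≠ ⊤)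
    (hsX : ∀ b, ∀ p ∈ sX b, 1 ≤ p.2 ∧ p.2 ≤ hX b)
    (hsY : ∀ b, ∀ p ∈ sY b, 1 ≤ p.2 ∧ p.2 ≤ hY b)
    {us : ℕ → ℝ≥0∞} (hus : Tendsto us atTop (𝓝 0)) {C : ℝ≥0∞} (hC : C ≠ ⊤)
    (H2 : H2P ΛX hX zX sX ΛY hY zY sY us C) (H3 : H3P ΛX hX zX sX ΛY hY zY sY us C)
    (H5 : ∀ (s : ℕ) (η : ℝ≥0∞), η ≠ 0 → ∃ T0, ∀ a, T0 ≤ a → ∀ n, ∀ w : G,
      ∑' LX : List BX, ∑' LY : List BY,
      (if HT hX LX = n ∧ HT hY LY = n ∧ ∃ y k, a ≤ k ∧ k < a + s ∧
          (y, k) ∈ TT sX hX zX LX 0 0 ∧ (y, k) ∈ TT sY hY zY LY w 0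
        then LW ΛX LX * LW ΛY LY else 0) ≤ η) :
    ∀ ε : ℝ≥0∞, ε ≠ 0 → ∃ M : ℕ, ∀ m, M ≤ m → ∃ n0 : ℕ, ∀ n, n0 ≤ n → ∀ w : G,
      (∑' LX : List BX, ∑' LY : List BY, if HT hX LX = n ∧ HT hY LY = n ∧
        (∀ z k, (z, k) ∈ TT sX hX zX LX 0 0 → (z, k) ∈ TT sY hY zY LY w 0 → m < k) ∧
        (∃ z k, (z, k) ∈ TT sX hX zX LX 0 0 ∧ (z, k) ∈ TT sY hY zY LY w 0 ∧ k ≤ 2 * m)
        then LW ΛX LX * LW ΛY LY else 0) ≤ ε := by
  intro ε hε
  have hε4 : ε / 4 ≠ 0 := (ENNReal.div_pos hε (by norm_num)).ne'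
  have hε8 : ε / 4 / 2 ≠ 0 := (ENNReal.div_pos hε4 (by norm_num)).ne'
  obtain ⟨u, K, hu0, hu1, hK8, hK⟩ := Sel300.sel 2 8 8 (by norm_num) hε4
  set J := K / 8 with hJd
  have hJ1 : 1 ≤ J := by omega
  have hJK : 8 * J ≤ K := by omega
  have hutop : u⁻¹ ≠ ⊤ := ENNReal.inv_ne_top.2 hu0
  -- overshoot
  have htX : Tendsto (fun i => ov ΛX hX i) atTop (𝓝 0) := by
    have h := ENNReal.tendsto_sum_nat_add (fun k => tail ΛX hX k)
      (by rw [← sum_tail ΛX hX hΛX]; exact hEX)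
    refine h.congr fun i => ?_
    unfold ov
    exact tsum_congr fun k => by rw [add_comm]
  have htY : Tendsto (fun i => ov ΛY hY i) atTop (𝓝 0) := by
    have h := ENNReal.tendsto_sum_nat_add (fun k => tail ΛY hY k)
      (by rw [← sum_tail ΛY hY hΛY]; exact hEY)
    refine h.congr fun i => ?_
    unfold ov
    exact tsum_congr fun k => by rw [add_comm]
  have htt : Tendsto (fun i => ov ΛX hX i + ov ΛY hY i) atTop (𝓝 0) := by
    simpa using htX.add htY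
  obtain ⟨i0, hi0⟩ := NumK658.chooseNat _ htt ((K : ℝ≥0∞) * (4 + 2 * J))
    (ENNReal.mul_ne_top (ENNReal.natCast_ne_top _)
      (ENNReal.add_ne_top.2 ⟨by norm_num, ENNReal.mul_ne_top (by norm_num)
        (ENNReal.natCast_ne_top _)⟩)) (ε / 4) hε4
  have hi0' := hi0 i0 le_rfl
  set e := ov ΛX hX i0 + ov ΛY hY i0 with he
  -- lam
  set D : ℝ≥0∞ := (K : ℝ≥0∞) * (2 * ((i0 + 1 : ℕ) * ((i0 + 1 : ℕ) * ((i0 + 1 : ℕ) * C)))) with hD
  have hDtop : D ≠ ⊤ := by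
    have h1 := ENNReal.natCast_ne_top (i0 + 1)
    exact ENNReal.mul_ne_top (ENNReal.natCast_ne_top _) (ENNReal.mul_ne_top (by norm_num)
      (ENNReal.mul_ne_top h1 (ENNReal.mul_ne_top h1 (ENNReal.mul_ne_top h1 hC))))
  obtain ⟨lam, hl0, hl1, -, hlam⟩ := NumK658.chooseLam D hDtop (ε / 4 / 2) hε8
  obtain ⟨s, hs⟩ := NumK658.chooseNat us hus (D * ((i0 + 1 : ℕ) * u⁻¹ / lam + 1))
    (ENNReal.mul_ne_top hDtop (ENNReal.add_ne_top.2 ⟨ENNReal.div_ne_top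
      (ENNReal.mul_ne_top (ENNReal.natCast_ne_top _) hutop) hl0, ENNReal.one_ne_top⟩))
    (ε / 4 / 2) hε8
  have hs' := hs s le_rfl
  set κ : ℝ≥0∞ := C * (lam + (i0 + 1 : ℕ) * u⁻¹ * us s / lam + us s) with hκ
  have hκε : (K : ℝ≥0∞) * (2 * ((i0 + 1 : ℕ) * ((i0 + 1 : ℕ) * ((i0 + 1 : ℕ) * κ)))) ≤ ε / 4 := by
    calc (K : ℝ≥0∞) * (2 * ((i0 + 1 : ℕ) * ((i0 + 1 : ℕ) * ((i0 + 1 : ℕ) * κ))))
        = D * lam + D * ((i0 + 1 : ℕ) * u⁻¹ / lam + 1) * us s := by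
          rw [hκ, hD, div_eq_mul_inv, div_eq_mul_inv]; ring
      _ ≤ ε / 4 / 2 + ε / 4 / 2 := add_le_add hlam hs'
      _ = ε / 4 := ENNReal.add_halves _
  obtain ⟨η, hη, hKη⟩ := NumK658.chooseEta (K : ℝ≥0∞) (ENNReal.natCast_ne_top _) (ε / 4) hε4
  obtain ⟨T0, hT0⟩ := H5 (s + 2 * i0) η hη
  refine ⟨T0 + K * (2 * i0 + s + 8) , fun m hm => ?_⟩
  set t := m / K + 1 with htd
  have hKpos : 0 < K := by omega
  have hKt : m < K * t := by
    have := Nat.lt_mul_div_succ m hKpos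
    rw [htd]; exact this
  have hKt' : K * t ≤ m + K := by
    have := Nat.mul_div_le m K
    rw [htd, Nat.mul_add, mul_one]; omega
  have htbig : 2 * i0 + s + 8 ≤ t := by
    have h1 : K * (2 * i0 + s + 8) ≤ m := by omega
    have h2 : 2 * i0 + s + 8 ≤ m / K := (Nat.le_div_iff_mul_le hKpos).2 (by rw [mul_comm]; exact h1)
    omega
  have htm : t ≤ m := by nlinarith
  refine ⟨m + K * t + 3 * t + 4 * i0, fun n hn w => ?_⟩
  -- parameters of the windows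
  have hJT : ∀ j, J * (3 * t + 2 * i0) ≤ m + j * t - t := by
    intro j
    have h1 : J * (3 * t + 2 * i0) + t ≤ m := by
      have h2 : 8 * J * t ≤ m + K := by nlinarith
      have h3 : K ≤ 8 * J + 7 := by omega
      have h4 : J * (2 * i0 + s + 8) ≤ J * t := Nat.mul_le_mul_left _ htbig
      have h5 : 1 * t ≤ J * t := Nat.mul_le_mul_right _ hJ1
      nlinarith [Nat.mul_le_mul_left K htbig]
    omega
  have hwin : ∀ j ∈ Finset.range K, ∑' LX, (if HT hX LX = n then LW ΛX LX *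
      ∑' LY, (if HT hY LY = n then LW ΛY LY *
      (if Ev hX zX sX hY zY sY w (m + j * t - t) t s i0 LX LY then 1 else 0) else 0) else 0)
      ≤ 4 * e + (u * u + 2 * (((1 - u) ^ J + J * e) +
        (i0 + 1 : ℕ) * ((i0 + 1 : ℕ) * ((i0 + 1 : ℕ) * κ)))) := by
    intro j hj
    rw [Finset.mem_range] at hj
    have hjt : j * t ≤ K * t := Nat.mul_le_mul_right _ hj.le
    exact win_total ΛX hX zX sX ΛY hY zY sY h1X h1Y hΛX hΛY hUX hUY hsX hsY H2 H3 w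
      (m + j * t - t) t s i0 n J u lam e κ hu0 hu1 hl0 hl1 le_self_add le_add_self le_rfl
      (by omega) (by omega) (hJT j)
  have hslab : ∀ j ∈ Finset.range K, ∑' LX : List BX, ∑' LY : List BY,
      (if HT hX LX = n ∧ HT hY LY = n ∧ ∃ y k, m + j * t - t + 3 * t - s + 1 ≤ k ∧
          k < m + j * t - t + 3 * t - s + 1 + (s + 2 * i0) ∧
          (y, k) ∈ TT sX hX zX LX 0 0 ∧ (y, k) ∈ TT sY hY zY LY w 0
        then LW ΛX LX * LW ΛY LY else 0) ≤ η := by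
    intro j hj
    exact hT0 _ (by omega) n w
  -- covering
  have hcov : ∀ (LX : List BX) (LY : List BY), (if HT hX LX = n ∧ HT hY LY = n ∧
        (∀ z k, (z, k) ∈ TT sX hX zX LX 0 0 → (z, k) ∈ TT sY hY zY LY w 0 → m < k) ∧
        (∃ z k, (z, k) ∈ TT sX hX zX LX 0 0 ∧ (z, k) ∈ TT sY hY zY LY w 0 ∧ k ≤ 2 * m)
        then LW ΛX LX * LW ΛY LY else 0) ≤ ∑ j ∈ Finset.range K,
        ((if HT hX LX = n then LW ΛX LX * (if HT hY LY = n then LW ΛY LY *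
          (if Ev hX zX sX hY zY sY w (m + j * t - t) t s i0 LX LY then 1 else 0) else 0) else 0) +
        (if HT hX LX = n ∧ HT hY LY = n ∧ ∃ y k, m + j * t - t + 3 * t - s + 1 ≤ k ∧
          k < m + j * t - t + 3 * t - s + 1 + (s + 2 * i0) ∧
          (y, k) ∈ TT sX hX zX LX 0 0 ∧ (y, k) ∈ TT sY hY zY LY w 0
        then LW ΛX LX * LW ΛY LY else 0)) := by
    intro LX LY
    by_cases hcond : HT hX LX = n ∧ HT hY LY = n ∧
        (∀ z k, (z, k) ∈ TT sX hX zX LX 0 0 → (z, k) ∈ TT sY hY zY LY w 0 → m < k) ∧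
        (∃ z k, (z, k) ∈ TT sX hX zX LX 0 0 ∧ (z, k) ∈ TT sY hY zY LY w 0 ∧ k ≤ 2 * m)
    · rw [if_pos hcond]
      obtain ⟨hnX, hnY, hall, z, k, hz1, hz2, hk2⟩ := hcond
      -- minimal contact depth
      have hex : ∃ k, Cn hX zX sX hY zY sY LX 0 0 LY w 0 k := ⟨k, z, hz1, hz2⟩
      set k0 := Nat.find hex with hk0
      have hk0c : Cn hX zX sX hY zY sY LX 0 0 LY w 0 k0 := Nat.find_spec hex
      have hk0m : ∀ k', Cn hX zX sX hY zY sY LX 0 0 LY w 0 k' → k0 ≤ k' :=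
        fun k' h => Nat.find_min' hex h
      have hk0lo : m < k0 := by
        obtain ⟨z', h1, h2⟩ := hk0c
        exact hall z' k0 h1 h2
      have hk0hi : k0 ≤ 2 * m := (hk0m k ⟨z, hz1, hz2⟩).trans hk2
      set j := (k0 - m - 1) / t with hj
      have htpos : 0 < t := by omega
      have hj1 : j * t ≤ k0 - m - 1 := Nat.div_mul_le_self _ _
      have hj2 : k0 - m - 1 < (j + 1) * t := by
        have := Nat.lt_mul_div_succ (k0 - m - 1) htpos
        rw [mul_comm]; exact this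
      have hjK : j < K := by
        by_contra hcon
        rw [not_lt] at hcon
        have : K * t ≤ j * t := Nat.mul_le_mul_right _ hcon
        omega
      have hj3 : (j + 1) * t = j * t + t := by ring
      refine le_trans ?_ (Finset.single_le_sum (f := fun j => ((if HT hX LX = n then LW ΛX LX *
          (if HT hY LY = n then LW ΛY LY *
          (if Ev hX zX sX hY zY sY w (m + j * t - t) t s i0 LX LY then 1 else 0) else 0) else 0) +
        (if HT hX LX = n ∧ HT hY LY = n ∧ ∃ y k, m + j * t - t + 3 * t - s + 1 ≤ k ∧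
          k < m + j * t - t + 3 * t - s + 1 + (s + 2 * i0) ∧
          (y, k) ∈ TT sX hX zX LX 0 0 ∧ (y, k) ∈ TT sY hY zY LY w 0
        then LW ΛX LX * LW ΛY LY else 0))) (fun _ _ => zero_le) (Finset.mem_range.2 hjK))
      by_cases hsl : ∃ y k, m + j * t - t + 3 * t - s + 1 ≤ k ∧
          k < m + j * t - t + 3 * t - s + 1 + (s + 2 * i0) ∧
          (y, k) ∈ TT sX hX zX LX 0 0 ∧ (y, k) ∈ TT sY hY zY LY w 0
      · beta_reduce
        rw [if_pos (⟨hnX, hnY, hsl⟩ : HT hX LX = n ∧ HT hY LY = n ∧ _)]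
        exact le_add_self
      · have hEv : Ev hX zX sX hY zY sY w (m + j * t - t) t s i0 LX LY := by
          refine ⟨⟨k0, hk0c, ?_⟩, ?_, ?_⟩
          · omega
          · intro k' hk'
            have := hk0m k' hk'
            omega
          · rintro k' ⟨y, hy1, hy2⟩ ⟨h1, h2⟩
            exact hsl ⟨y, k', h1, h2, hy1, hy2⟩
        beta_reduce
        rw [if_pos hnX, if_pos hnY, if_pos hEv, mul_one]
        exact le_self_add
    · rw [if_neg hcond]; exact zero_le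
  calc _ ≤ ∑' LX : List BX, ∑' LY : List BY, ∑ j ∈ Finset.range K,
        ((if HT hX LX = n then LW ΛX LX * (if HT hY LY = n then LW ΛY LY *
          (if Ev hX zX sX hY zY sY w (m + j * t - t) t s i0 LX LY then 1 else 0) else 0) else 0) +
        (if HT hX LX = n ∧ HT hY LY = n ∧ ∃ y k, m + j * t - t + 3 * t - s + 1 ≤ k ∧
          k < m + j * t - t + 3 * t - s + 1 + (s + 2 * i0) ∧
          (y, k) ∈ TT sX hX zX LX 0 0 ∧ (y, k) ∈ TT sY hY zY LY w 0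
        then LW ΛX LX * LW ΛY LY else 0)) :=
        ENNReal.tsum_le_tsum fun LX => ENNReal.tsum_le_tsum fun LY => hcov LX LY
    _ = ∑ j ∈ Finset.range K, ((∑' LX, (if HT hX LX = n then LW ΛX LX *
          ∑' LY, (if HT hY LY = n then LW ΛY LY *
          (if Ev hX zX sX hY zY sY w (m + j * t - t) t s i0 LX LY then 1 else 0) else 0) else 0)) +
        ∑' LX : List BX, ∑' LY : List BY,
        (if HT hX LX = n ∧ HT hY LY = n ∧ ∃ y k, m + j * t - t + 3 * t - s + 1 ≤ k ∧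
          k < m + j * t - t + 3 * t - s + 1 + (s + 2 * i0) ∧
          (y, k) ∈ TT sX hX zX LX 0 0 ∧ (y, k) ∈ TT sY hY zY LY w 0
        then LW ΛX LX * LW ΛY LY else 0)) := by
        have e1 : ∀ LX : List BX, (∑' LY : List BY, ∑ j ∈ Finset.range K,
            ((if HT hX LX = n then LW ΛX LX * (if HT hY LY = n then LW ΛY LY *
            (if Ev hX zX sX hY zY sY w (m + j * t - t) t s i0 LX LY then 1 else 0) else 0) else 0) +
            (if HT hX LX = n ∧ HT hY LY = n ∧ ∃ y k, m + j * t - t + 3 * t - s + 1 ≤ k ∧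
            k < m + j * t - t + 3 * t - s + 1 + (s + 2 * i0) ∧
            (y, k) ∈ TT sX hX zX LX 0 0 ∧ (y, k) ∈ TT sY hY zY LY w 0
            then LW ΛX LX * LW ΛY LY else 0)))
            = ∑ j ∈ Finset.range K, ((if HT hX LX = n then LW ΛX LX *
            ∑' LY, (if HT hY LY = n then LW ΛY LY *
            (if Ev hX zX sX hY zY sY w (m + j * t - t) t s i0 LX LY then 1 else 0) else 0) else 0) +
            ∑' LY : List BY, (if HT hX LX = n ∧ HT hY LY = n ∧ ∃ y k,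
            m + j * t - t + 3 * t - s + 1 ≤ k ∧
            k < m + j * t - t + 3 * t - s + 1 + (s + 2 * i0) ∧
            (y, k) ∈ TT sX hX zX LX 0 0 ∧ (y, k) ∈ TT sY hY zY LY w 0
            then LW ΛX LX * LW ΛY LY else 0)) := by
          intro LX
          rw [Summable.tsum_finsetSum (fun _ _ => ENNReal.summable)]
          refine Finset.sum_congr rfl fun j _ => ?_
          rw [ENNReal.tsum_add]
          congr 1
          split_ifs with h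
          · rw [ENNReal.tsum_mul_left]
          · simp
        rw [tsum_congr e1, Summable.tsum_finsetSum (fun _ _ => ENNReal.summable)]
        refine Finset.sum_congr rfl fun j _ => ?_
        rw [ENNReal.tsum_add]
    _ ≤ ∑ j ∈ Finset.range K, ((4 * e + (u * u + 2 * (((1 - u) ^ J + J * e) +
        (i0 + 1 : ℕ) * ((i0 + 1 : ℕ) * ((i0 + 1 : ℕ) * κ))))) + η) :=
        Finset.sum_le_sum fun j hj => add_le_add (hwin j hj) (hslab j hj)
    _ = K * ((4 * e + (u * u + 2 * (((1 - u) ^ J + J * e) +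
        (i0 + 1 : ℕ) * ((i0 + 1 : ℕ) * ((i0 + 1 : ℕ) * κ))))) + η) := by
        rw [Finset.sum_const, Finset.card_range, nsmul_eq_mul]
    _ ≤ (((2 : ℕ) : ℝ≥0∞) * K * (u ^ 2 + (1 - u) ^ J) + (K : ℝ≥0∞) * (4 + 2 * J) * e) +
        ((K : ℝ≥0∞) * (2 * ((i0 + 1 : ℕ) * ((i0 + 1 : ℕ) * ((i0 + 1 : ℕ) * κ)))) + K * η) := by
        have h0 : (K : ℝ≥0∞) * (u * u) ≤ 2 * K * u ^ 2 := by
          calc (K : ℝ≥0∞) * (u * u) = 1 * (K * u ^ 2) := by ring
            _ ≤ 2 * (K * u ^ 2) := by gcongr; norm_num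
            _ = _ := by ring
        calc _ = (K : ℝ≥0∞) * (u * u) + (2 * K * (1 - u) ^ J + (K : ℝ≥0∞) * (4 + 2 * J) * e +
              ((K : ℝ≥0∞) * (2 * ((i0 + 1 : ℕ) * ((i0 + 1 : ℕ) * ((i0 + 1 : ℕ) * κ)))) + K * η)) := by
              ring
          _ ≤ 2 * K * u ^ 2 + (2 * K * (1 - u) ^ J + (K : ℝ≥0∞) * (4 + 2 * J) * e +
              ((K : ℝ≥0∞) * (2 * ((i0 + 1 : ℕ) * ((i0 + 1 : ℕ) * ((i0 + 1 : ℕ) * κ)))) + K * η)) := by
              gcongr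
          _ = _ := by push_cast; ring
    _ ≤ (ε / 4 + ε / 4) + (ε / 4 + ε / 4) := by
        gcongr
    _ = ε := by
        have h4 : ε / 4 + ε / 4 = ε / 2 := by
          rw [← two_mul, ← mul_div_assoc, mul_comm, mul_div_assoc]
          rw [div_eq_mul_inv ε 2]
          congr 1
          rw [show (4 : ℝ≥0∞) = 2 * 2 by norm_num, ENNReal.div_eq_inv_mul,
            ENNReal.mul_inv (Or.inl (by norm_num)) (Or.inl (by norm_num)), mul_assoc,
            ENNReal.inv_mul_cancel (by norm_num) (by norm_num), mul_one]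
        rw [h4, ENNReal.add_halves]

end Crest.Agent.R154.Asm871
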