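import Crest.Agent.R154.AsmD_876

/-! Row 154 (helper876), ROAD 801: assembly, part E (one window). -/

set_option autoImplicit false

namespace Crest.Agent.R154.Asm876

open scoped ENNReal
open Crest.Agent.R154.B5A
open Crest.Agent.R154.FP178

variable {BX BY G : Type*} [AddCommGroup G]
  (ΛX : BX → ℝ≥0∞) (hX : BX → ℕ) (zX : BX → G) (sX : BX → Set (G × ℕ))
  (ΛY : BY → ℝ≥0∞) (hY : BY → ℕ) (zY : BY → G) (sY : BY → Set (G × ℕ))

open Classical in
/-- **one window** -/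
theorem window (hsX : ∀ b y k, (y, k) ∈ sX b → 1 ≤ k ∧ k ≤ hX b)
    (hsY : ∀ b y k, (y, k) ∈ sY b → 1 ≤ k ∧ k ≤ hY b)
    (h1X : ∀ b, 1 ≤ hX b) (h1Y : ∀ b, 1 ≤ hY b) (hΛX : ∑' b, ΛX b ≤ 1)
    (hΛY : ∑' b, ΛY b ≤ 1) (hU1X : ∀ n, U ΛX hX n ≤ 1) (hU1Y : ∀ n, U ΛY hY n ≤ 1)
    (C : ℝ≥0∞) (us : ℕ → ℕ → ℝ≥0∞) (hH2 : H2 ΛX hX zX sX ΛY hY zY sY C us)
    (hH3 : H3 ΛX hX zX sX ΛY hY zY sY C us)
    (n a τ i0 s lo hi1 hi : ℕ) (w : G) (hn : a + i0 + τ ≤ n) (hlo : a + i0 + s ≤ lo)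
    (hlt : a + i0 < lo) (hhi1 : hi1 ≤ a + τ) (hhi : hi + s ≤ a + τ)
    (e u : ℝ≥0∞) (hoX : ∀ c, OV ΛX hX c i0 ≤ e) (hoY : ∀ c, OV ΛY hY c i0 ≤ e)
    (LocX : List BX → Prop) (EX : ℕ → Finset G)
    (hEX : ∀ P, fp hX τ P → HT hX P ≤ τ + i0 → LocX P → dL zX P ∈ EX (HT hX P - τ))
    (LocY : List BY → Prop) (EY : ℕ → Finset G)
    (hEY : ∀ P, fp hY τ P → HT hY P ≤ τ + i0 → LocY P → dL zY P ∈ EY (HT hY P - τ))
    (huX : FS ΛX hX τ i0 (fun P => if LocX P then 0 else 1) ≤ u)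
    (huY : FS ΛY hY τ i0 (fun P => if LocY P then 0 else 1) ≤ u)
    (gX bX : G → ℝ≥0∞) (hgbX : ∀ z, mL ΛX hX zX a z = gX z + bX z)
    (gY bY : G → ℝ≥0∞) (hgbY : ∀ z, mL ΛY hY zY a z = gY z + bY z) (MX MY K1 lam : ℝ≥0∞)
    (hgX : ∀ z, gX z ≤ MX) (hMX : ∀ i, MX * (EX i).card ≤ K1)
    (hgY : ∀ z, gY z ≤ MY) (hMY : ∀ i, MY * (EY i).card ≤ K1) (hl0 : lam ≠ 0) (hl1 : lam ≠ ⊤) :
    ES ΛX hX n (fun LX => ES ΛY hY n (fun LY =>
      if Ev hX zX sX hY zY sY w lo hi1 hi (a + τ + 2 * i0) LX LY then 1 else 0))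
      ≤ 4 * e + u * u
        + ((i0 + 1) * ((i0 + 1) * (C * (lam + K1 * us i0 s / lam + us i0 s))) + ∑' z, bX z)
        + ((i0 + 1) * ((i0 + 1) * ((i0 + 1) *
          (C * (lam + K1 * us (2 * i0) s / lam + us (2 * i0) s)))) + ∑' z, bY z) := by
  set Φ : List BX → List BY → ℝ≥0∞ := fun LX LY =>
    if Ev hX zX sX hY zY sY w lo hi1 hi (a + τ + 2 * i0) LX LY then 1 else 0 with hΦ
  have hΦ1 : ∀ LX LY, Φ LX LY ≤ 1 := by
    intro LX LY
    simp only [hΦ]
    split_ifs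
    · exact le_rfl
    · exact zero_le
  set g : List BX → ℝ≥0∞ := fun LX => ES ΛY hY n (Φ LX) with hg
  have hg1 : ∀ L, g L ≤ 1 := fun L => ES_le_const ΛY hY hU1Y fun _ _ => hΦ1 _ _
  set t2 : List BX → List BX → ℝ≥0∞ := fun A P => if LocX P then
      FS ΛY hY a i0 (fun A' => ES ΛY hY (n - HT hY A') (fun L' =>
        if C2 hX zX sX hY zY sY P (HT hX A) L' (w + dL zY A' - dL zX A) (HT hY A') lo
        then 1 else 0)) else 0 with ht2
  set K : ℝ≥0∞ := FS ΛY hY a i0 (fun _ => FS ΛY hY τ i0 (fun P' => if LocY P' then 0 else 1))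
    with hK
  set t3 : List BX → List BX → ℝ≥0∞ := fun A P => FS ΛY hY a i0 (fun A' =>
      FS ΛY hY τ i0 (fun P' => if LocY P' then
        (if C3 hX zX sX hY zY sY P (HT hX A) P' (w + dL zY A' - dL zX A) (HT hY A') hi
        then 1 else 0) else 0)) with ht3
  have hW : ∀ A P R, fp hX a A → HT hX A ≤ a + i0 → fp hX τ P → HT hX P ≤ τ + i0 →
      g (A ++ (P ++ R)) ≤ (t2 A P + K * (if LocX P then 0 else 1)) + (t3 A P + (e + e)) := by
    intro A P R hA hA2 hP hP2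
    have hA1 := le_HT_of_fp hX hA
    have hP1 := le_HT_of_fp hX hP
    have h0 := ES_split ΛY hY h1Y hU1Y (n := n) (a := a) (i0 := i0) (by omega)
      (Φ (A ++ (P ++ R))) (hΦ1 _)
    refine h0.trans ?_
    by_cases hloc : LocX P
    · have h1 : FS ΛY hY a i0 (fun A' => ES ΛY hY (n - HT hY A')
          (fun L' => Φ (A ++ (P ++ R)) (A' ++ L'))) ≤ t2 A P := by
        simp only [ht2, if_pos hloc]
        refine FS_mono ΛY hY fun A' hA' hA'2 => ES_mono ΛY hY fun L' _ => ?_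
        simp only [hΦ]
        by_cases hev : Ev hX zX sX hY zY sY w lo hi1 hi (a + τ + 2 * i0) (A ++ (P ++ R)) (A' ++ L')
        · rw [if_pos hev, if_pos (ev_C2 hX zX sX hY zY sY hsX hsY hev (by omega) (by omega)
            (by omega))]
        · rw [if_neg hev]; exact zero_le
      calc _ ≤ t2 A P + e := add_le_add h1 (hoY a)
        _ ≤ (t2 A P + K * (if LocX P then 0 else 1)) + (t3 A P + (e + e)) := by
          refine add_le_add le_self_add ?_
          exact le_add_left le_self_add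
    · have h1 : FS ΛY hY a i0 (fun A' => ES ΛY hY (n - HT hY A')
          (fun L' => Φ (A ++ (P ++ R)) (A' ++ L'))) ≤ K + (t3 A P + e) := by
        have h2 : ∀ A', fp hY a A' → HT hY A' ≤ a + i0 → ES ΛY hY (n - HT hY A')
            (fun L' => Φ (A ++ (P ++ R)) (A' ++ L'))
            ≤ FS ΛY hY τ i0 (fun P' => if LocY P' then 0 else 1)
              + (FS ΛY hY τ i0 (fun P' => if LocY P' then
                (if C3 hX zX sX hY zY sY P (HT hX A) P' (w + dL zY A' - dL zX A) (HT hY A') hi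
                then 1 else 0) else 0) + e) := by
          intro A' hA' hA'2
          have hA'1 := le_HT_of_fp hY hA'
          have h3 := ES_split ΛY hY h1Y hU1Y (n := n - HT hY A') (a := τ) (i0 := i0) (by omega)
            (fun L' => Φ (A ++ (P ++ R)) (A' ++ L')) (fun L' => hΦ1 _ _)
          refine h3.trans ?_
          rw [← add_assoc, ← FS_add]
          refine add_le_add (FS_mono ΛY hY fun P' hP' hP'2 => ?_) (hoY τ)
          have hP'1 := le_HT_of_fp hY hP'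
          by_cases hl : LocY P'
          · rw [if_pos hl, if_pos hl, zero_add]
            refine ES_le_const ΛY hY hU1Y fun R' _ => ?_
            simp only [hΦ]
            by_cases hev : Ev hX zX sX hY zY sY w lo hi1 hi (a + τ + 2 * i0) (A ++ (P ++ R))
                (A' ++ (P' ++ R'))
            · rw [if_pos hev, if_pos (ev_C3 hX zX sX hY zY sY hsX hsY hev (by omega) (by omega)
                (by omega) (by omega) (by omega))]
            · rw [if_neg hev]; exact zero_le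
          · rw [if_neg hl, if_neg hl, add_zero]
            exact ES_le_const ΛY hY hU1Y fun R' _ => hΦ1 _ _
        refine (FS_mono ΛY hY h2).trans ?_
        rw [FS_add, FS_add]
        refine add_le_add le_rfl (add_le_add le_rfl ?_)
        exact FS_le_const ΛY hY h1Y hΛY fun _ _ _ => le_rfl
      calc _ ≤ (K + (t3 A P + e)) + e := add_le_add h1 (hoY a)
        _ = 0 + K * 1 + (t3 A P + (e + e)) := by ring
        _ ≤ (t2 A P + K * (if LocX P then 0 else 1)) + (t3 A P + (e + e)) := by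
          rw [if_neg hloc]
          refine add_le_add (add_le_add zero_le le_rfl) le_rfl
  have hKu : K ≤ u := FS_le_const ΛY hY h1Y hΛY fun _ _ _ => huY
  have hin : ∀ A, fp hX a A → HT hX A ≤ a + i0 → ES ΛX hX (n - HT hX A) (fun L => g (A ++ L))
      ≤ (FS ΛX hX τ i0 (t2 A) + u * u) + ((FS ΛX hX τ i0 (t3 A) + (e + e)) + e) := by
    intro A hA hA2
    have hA1 := le_HT_of_fp hX hA
    have h3 := ES_split ΛX hX h1X hU1X (n := n - HT hX A) (a := τ) (i0 := i0) (by omega)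
      (fun L => g (A ++ L)) (fun L => hg1 _)
    refine h3.trans ?_
    have h4 : FS ΛX hX τ i0 (fun P => ES ΛX hX (n - HT hX A - HT hX P)
        (fun R => g (A ++ (P ++ R))))
        ≤ FS ΛX hX τ i0 (fun P => (t2 A P + K * (if LocX P then 0 else 1))
          + (t3 A P + (e + e))) :=
      FS_mono ΛX hX fun P hP hP2 => ES_le_const ΛX hX hU1X fun R _ => hW A P R hA hA2 hP hP2
    have h5 : FS ΛX hX τ i0 (fun P => (t2 A P + K * (if LocX P then 0 else 1))
          + (t3 A P + (e + e))) ≤ (FS ΛX hX τ i0 (t2 A) + u * u)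
            + (FS ΛX hX τ i0 (t3 A) + (e + e)) := by
      rw [FS_add, FS_add, FS_add, FS_mul_left]
      refine add_le_add (add_le_add le_rfl (mul_le_mul' hKu huX)) (add_le_add le_rfl ?_)
      exact FS_le_const ΛX hX h1X hΛX fun _ _ _ => le_rfl
    calc _ ≤ ((FS ΛX hX τ i0 (t2 A) + u * u) + (FS ΛX hX τ i0 (t3 A) + (e + e))) + e :=
          add_le_add (h4.trans h5) (hoX τ)
      _ = _ := by ring
  have hout := ES_split ΛX hX h1X hU1X (n := n) (a := a) (i0 := i0) (by omega) g hg1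
  have hT2 := T2_le ΛX hX zX sX ΛY hY zY sY h1X h1Y hΛX hΛY hU1Y C us hH2 n a τ i0 s lo w hlo
    LocX EX hEX gX bX hgbX MX K1 lam hgX hMX hl0 hl1
  have hT3 := T3_le ΛX hX zX sX ΛY hY zY sY h1X h1Y hΛX hΛY C us hH3 a τ i0 s hi w hhi
    LocY EY hEY gY bY hgbY MY K1 lam hgY hMY hl0 hl1
  have h6 : FS ΛX hX a i0 (fun A => ES ΛX hX (n - HT hX A) (fun L => g (A ++ L)))
      ≤ (FS ΛX hX a i0 (fun A => FS ΛX hX τ i0 (t2 A)) + u * u)
        + ((FS ΛX hX a i0 (fun A => FS ΛX hX τ i0 (t3 A)) + (e + e)) + e) := by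
    refine (FS_mono ΛX hX hin).trans ?_
    rw [FS_add, FS_add, FS_add, FS_add]
    refine add_le_add (add_le_add le_rfl ?_) (add_le_add (add_le_add le_rfl ?_) ?_)
    · exact FS_le_const ΛX hX h1X hΛX fun _ _ _ => le_rfl
    · exact FS_le_const ΛX hX h1X hΛX fun _ _ _ => le_rfl
    · exact FS_le_const ΛX hX h1X hΛX fun _ _ _ => le_rfl
  calc ES ΛX hX n g ≤ _ + OV ΛX hX a i0 := hout
    _ ≤ ((FS ΛX hX a i0 (fun A => FS ΛX hX τ i0 (t2 A)) + u * u)
        + ((FS ΛX hX a i0 (fun A => FS ΛX hX τ i0 (t3 A)) + (e + e)) + e)) + e :=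
        add_le_add h6 (hoX a)
    _ = 4 * e + u * u + FS ΛX hX a i0 (fun A => FS ΛX hX τ i0 (t2 A))
        + FS ΛX hX a i0 (fun A => FS ΛX hX τ i0 (t3 A)) := by ring
    _ ≤ _ := add_le_add (add_le_add le_rfl hT2) hT3

end Crest.Agent.R154.Asm876
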