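import Crest.Agent.R154.AsmD_887

/-! Row 154, ROAD 801 (helper887): abstract assembly, part E: one window, all cases. -/

set_option autoImplicit false

namespace Crest.Agent.R154.Asm887

open scoped ENNReal
open Crest.Agent.R154.B5A Crest.Agent.R154.FP178
open Crest.Agent.R154.KWB419 (TT)

variable {BX BY G : Type*} [AddCommGroup G] (X : Sys BX G) (Y : Sys BY G)

/-- contact of two whole lists -/
def Con (w : G) (L : List BX) (L' : List BY) (y : G) (k : ℕ) : Prop :=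
  (y, k) ∈ TT X.s X.h X.z L 0 0 ∧ (y, k) ∈ TT Y.s Y.h Y.z L' w 0

/-- event of a window: some contact in `[a+t, a+2t)`, none above, none in the bottom slab -/
def EV (a t i0 s : ℕ) (w : G) (L : List BX) (L' : List BY) : Prop :=
  (∃ y k, a + t ≤ k ∧ k < a + 2 * t ∧ Con X Y w L L' y k) ∧
    (∀ y k, Con X Y w L L' y k → a + t ≤ k) ∧
    (∀ y k, Con X Y w L L' y k → ¬ (a + 3 * t - s + 1 ≤ k ∧ k < a + 3 * t - s + 1
      + (s + 2 * i0)))

/-- bound of a window -/
noncomputable def WB (C lam u : ℝ≥0∞) (us : ℕ → ℝ≥0∞) (i0 J s : ℕ) : ℝ≥0∞ :=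
  2 * ov X.Λ X.h i0 + 2 * ov Y.Λ Y.h i0 +
    (((i0 + 1) * ((i0 + 1) * (i0 + 1) * Bd0 C lam us i0 J s)
        + ((1 - u) ^ J + J * ov X.Λ X.h i0)) +
      ((i0 + 1) * ((i0 + 1) * (i0 + 1) * Bd0 C lam us i0 J s)
        + ((1 - u) ^ J + J * ov Y.Λ Y.h i0)) + u * u)

open Classical in
theorem win {C : ℝ≥0∞} {us : ℕ → ℝ≥0∞} (h2 : H2 X Y C us) (h3 : H3 X Y C us)
    {lam u : ℝ≥0∞} (hl0 : lam ≠ 0) (hlt : lam ≠ ⊤) (hu0 : u ≠ 0) (hu1 : u < 1)
    (a t i0 s J n : ℕ) (ht : 2 * i0 + s + 1 ≤ t) (hJ : J * (4 * t) ≤ a)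
    (hn : a + 3 * i0 + 3 * t ≤ n) (w : G) :
    ∑' L : List BX, ∑' L' : List BY, (if HT X.h L = n ∧ HT Y.h L' = n ∧
      EV X Y a t i0 s w L L' then LW X.Λ L * LW Y.Λ L' else 0)
      ≤ WB X Y C lam u us i0 J s := by
  set τ := 3 * t with hτ
  set b0 := a + i0 with hb0
  set τ' := 3 * t + i0 with hτ'
  have j1 : J * (τ + i0) ≤ a := by
    refine le_trans (Nat.mul_le_mul_left J ?_) hJ
    omega
  have j2 : J * (τ' + i0) ≤ b0 := by
    refine le_trans (le_trans (Nat.mul_le_mul_left J ?_) hJ) (by omega)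
    omega
  obtain ⟨EX, θX, -, -, hEX, hNX, hdX⟩ := sys_one X hu0 hu1 τ i0 J
  obtain ⟨EY, θY, -, -, hEY, hNY, hdY⟩ := sys_one Y hu0 hu1 τ' i0 J
  obtain ⟨bX, hbX, hmX⟩ := hdX a j1
  obtain ⟨bY, hbY, hmY⟩ := hdY b0 j2
  set Q : ℕ → ℕ → G → List BX → List BY → Prop := fun α α' x P P' =>
    (∃ y k, Both X Y P P' x α α' y k) ∧
    (∀ y k, Both X Y P P' x α α' y k → a + t ≤ k ∧ k ≤ a + 3 * t - s) with hQ
  refine (two X Y n a b0 τ τ' i0 (by omega) (by omega) w (EV X Y a t i0 s w) Q ?_).trans ?_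
  · intro A P R A' P' R' f1 f2 f3 f4 f1' f2' f3' f4' hE
    obtain ⟨⟨y, k, k1, k2, hc⟩, hall, hslab⟩ := hE
    have q1 := le_HT_of_fp X.h f1
    have q2 := le_HT_of_fp X.h f3
    have q1' := le_HT_of_fp Y.h f1'
    have q2' := le_HT_of_fp Y.h f3'
    have tX : TT X.s X.h X.z (A ++ (P ++ R)) 0 0 = TT X.s X.h X.z A 0 0 ∪
        (TT X.s X.h X.z P ((A.map X.z).sum) (HT X.h A) ∪
          TT X.s X.h X.z R ((A.map X.z).sum + (P.map X.z).sum) (HT X.h A + HT X.h P)) := by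
      rw [TT_append, TT_append, zero_add, zero_add]
    have tY : TT Y.s Y.h Y.z (A' ++ (P' ++ R')) w 0 = TT Y.s Y.h Y.z A' w 0 ∪
        (TT Y.s Y.h Y.z P' (w + (A'.map Y.z).sum) (HT Y.h A') ∪
          TT Y.s Y.h Y.z R' (w + (A'.map Y.z).sum + (P'.map Y.z).sum)
            (HT Y.h A' + HT Y.h P')) := by
      rw [TT_append, TT_append, zero_add]
    have sub : ∀ y k, Both X Y P P' (w + (A'.map Y.z).sum - (A.map X.z).sum) (HT X.h A)
        (HT Y.h A') y k → Con X Y w (A ++ (P ++ R)) (A' ++ (P' ++ R'))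
          (y + (A.map X.z).sum) k := by
      intro y k hb
      have := (both_shift X Y P P' ((A.map X.z).sum) (w + (A'.map Y.z).sum) (HT X.h A)
        (HT Y.h A') (y + (A.map X.z).sum) k).2 (by rw [add_sub_cancel_right]; exact hb)
      refine ⟨?_, ?_⟩
      · rw [tX]; exact Or.inr (Or.inl this.1)
      · rw [tY]; exact Or.inr (Or.inl this.2)
    refine ⟨⟨y - (A.map X.z).sum, k, ?_⟩, ?_⟩
    · rw [← both_shift]
      obtain ⟨c1, c2⟩ := hc
      rw [tX] at c1
      rw [tY] at c2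
      constructor
      · rcases c1 with c | c | c
        · have := TT_depth X.s X.z X.h X.hs _ _ _ _ c
          simp only at this
          omega
        · exact c
        · have := TT_depth X.s X.z X.h X.hs _ _ _ _ c
          simp only at this
          omega
      · rcases c2 with c | c | c
        · have := TT_depth Y.s Y.z Y.h Y.hs _ _ _ _ c
          simp only at this
          omega
        · exact c
        · have := TT_depth Y.s Y.z Y.h Y.hs _ _ _ _ c
          simp only at this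
          omega
    · intro y' k' hb
      have hc' := sub y' k' hb
      have r1 := hall _ _ hc'
      have r2 := hslab _ _ hc'
      have r3 := TT_depth X.s X.z X.h X.hs _ _ _ _ hb.1
      simp only at r3
      refine ⟨r1, ?_⟩
      omega
  · unfold WB
    gcongr
    refine (CORE_add X Y a b0 τ τ' i0 w Q
      (fun α α' x P P' => (P.map X.z).sum ∈ EX (HT X.h P) ∧ Q α α' x P P')
      (fun α α' x P P' => (P'.map Y.z).sum ∈ EY (HT Y.h P') ∧ Q α α' x P P')
      (fun α α' x P P' => (P.map X.z).sum ∉ EX (HT X.h P) ∧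
        (P'.map Y.z).sum ∉ EY (HT Y.h P')) ?_).trans ?_
    · intro α α' x P P' h
      by_cases h1 : (P.map X.z).sum ∈ EX (HT X.h P)
      · exact Or.inl ⟨h1, h⟩
      · by_cases h2 : (P'.map Y.z).sum ∈ EY (HT Y.h P')
        · exact Or.inr (Or.inl ⟨h2, h⟩)
        · exact Or.inr (Or.inr ⟨h1, h2⟩)
    · refine add_le_add (add_le_add ?_ ?_) ?_
      · exact coreX X Y h2 a b0 τ τ' i0 J s (a + t) lam θX _ hl0 hlt (by omega) (by omega) w EX
          hEX bX hbX hmX _ (fun _ _ _ _ _ h => h.1) (fun _ _ _ _ _ h => h.2.1)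
          (fun _ _ _ _ _ h y k hb => (h.2.2 y k hb).1)
      · exact coreY X Y h3 a b0 τ τ' i0 J s (a + 3 * t - s) lam θY _ hl0 hlt (by omega)
          (by omega) w EY hEY bY hbY hmY _ (fun _ _ _ _ _ h => h.1)
          (fun _ _ _ _ _ h => h.2.1) (fun _ _ _ _ _ h y k hb => (h.2.2 y k hb).2)
      · exact coreN X Y a b0 τ τ' i0 u w EX EY hNX hNY _ (fun _ _ _ _ _ h => h)

end Crest.Agent.R154.Asm887
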