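import Crest.Agent.R154.AsmD_903

/-! Row 154, ROAD 801 (helper903): the assembly, order of the constants. -/

set_option autoImplicit false

namespace Crest.Agent.R154.Asm903

open scoped ENNReal Classical Topology
open Finset Filter
open Crest.Agent.R154.B5A Crest.Agent.R154.FP178

lemma small (Z : ℝ≥0∞) (hZ : Z ≠ ⊤) {ε : ℝ≥0∞} (hε : ε ≠ 0) :
    ∃ x : ℝ≥0∞, x ≠ 0 ∧ x ≠ ⊤ ∧ Z * x ≤ ε := by
  obtain ⟨n, hn, h⟩ := ENNReal.exists_nnreal_pos_mul_lt hZ hε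
  refine ⟨n, ?_, ENNReal.coe_ne_top, ?_⟩
  · exact_mod_cast hn.ne'
  · rw [mul_comm]; exact h.le

section main

variable {G BX BY : Type*} [AddCommGroup G]
  {ΛX : BX → ℝ≥0∞} {hX : BX → ℕ} {zX : BX → G} {sX : BX → Set (G × ℕ)}
  {ΛY : BY → ℝ≥0∞} {hY : BY → ℕ} {zY : BY → G} {sY : BY → Set (G × ℕ)}

/-- **the assembly** -/
theorem kap (h1X : ∀ b, 1 ≤ hX b) (h1Y : ∀ b, 1 ≤ hY b) (mX : ∑' b, ΛX b ≤ 1)
    (mY : ∑' b, ΛY b ≤ 1) (hUX : ∀ n, U ΛX hX n ≤ 1) (hUY : ∀ n, U ΛY hY n ≤ 1)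
    (htX : Tendsto (fun i => ∑' k, tail ΛX hX (i + k)) atTop (𝓝 0))
    (htY : Tendsto (fun i => ∑' k, tail ΛY hY (i + k)) atTop (𝓝 0))
    (hsX : ∀ b, ∀ q ∈ sX b, 1 ≤ q.2 ∧ q.2 ≤ hX b) (hsY : ∀ b, ∀ q ∈ sY b, 1 ≤ q.2 ∧ q.2 ≤ hY b)
    {C : ℝ≥0∞} (hC : C ≠ ⊤) {us : ℕ → ℝ≥0∞} (hus : Tendsto us atTop (𝓝 0))
    (hH2 : H2 ΛX hX zX sX ΛY hY zY sY C us) (hH3 : H3 ΛX hX zX sX ΛY hY zY sY C us)
    (hH5 : ∀ (s : ℕ) (η : ℝ≥0∞), η ≠ 0 → ∃ T, ∀ a, T ≤ a → ∀ n, ∀ w : G,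
      ∑' LX : List BX, ∑' LY : List BY, (if HT hX LX = n ∧ HT hY LY = n ∧
        ∃ y k, a ≤ k ∧ k < a + s ∧ (y, k) ∈ TT sX zX hX LX 0 0 ∧ (y, k) ∈ TT sY zY hY LY w 0
        then LW ΛX LX * LW ΛY LY else 0) ≤ η)
    (ε : ℝ≥0∞) (hε : ε ≠ 0) :
    ∃ M, ∀ m, M ≤ m → ∃ n0, ∀ n, n0 ≤ n → ∀ w : G,
      ∑' LX : List BX, ∑' LY : List BY, (if HT hX LX = n ∧ HT hY LY = n ∧
        ∃ y k, m < k ∧ k ≤ 2 * m ∧ (y, k) ∈ TT sX zX hX LX 0 0 ∧ (y, k) ∈ TT sY zY hY LY w 0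
        then LW ΛX LX * LW ΛY LY else 0) ≤ ε := by
  have hε4 : ε / 4 ≠ 0 := by
    rw [Ne, ENNReal.div_eq_zero_iff, not_or]; exact ⟨hε, by simp⟩
  have hε8 : ε / 4 / 2 ≠ 0 := by
    rw [Ne, ENNReal.div_eq_zero_iff, not_or]; exact ⟨hε4, by simp⟩
  obtain ⟨N, hN2, hN⟩ := AsmA789.num hε4 6
  set J0 := N ^ 3 with hJ0
  set K := 3 * N ^ 3 with hK
  set u : ℝ≥0∞ := (2 * (N : ℝ≥0∞) ^ 2)⁻¹ with hu
  have hJ1 : 1 ≤ J0 := Nat.one_le_pow _ _ (by omega)
  have hu0 : u ≠ 0 := by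
    rw [hu, ENNReal.inv_ne_zero]
    exact ENNReal.mul_ne_top (by simp) (ENNReal.pow_ne_top (ENNReal.natCast_ne_top _))
  have hun : u ≤ ((N : ℝ≥0∞) ^ 2)⁻¹ := by
    rw [hu, ENNReal.inv_le_inv]
    calc (N : ℝ≥0∞) ^ 2 = 1 * (N : ℝ≥0∞) ^ 2 := (one_mul _).symm
      _ ≤ 2 * (N : ℝ≥0∞) ^ 2 := by gcongr; exact one_le_two
  -- i0
  obtain ⟨i0, hi0⟩ : ∃ i0 : ℕ, (K : ℝ≥0∞) * ∑' k, tail ΛX hX (i0 + k)
      + (K + 1) * ∑' k, tail ΛY hY (i0 + k) ≤ ε / 4 := by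
    have t1 : Tendsto (fun i => (K : ℝ≥0∞) * ∑' k, tail ΛX hX (i + k)
        + (K + 1) * ∑' k, tail ΛY hY (i + k)) atTop (𝓝 ((K : ℝ≥0∞) * 0 + (K + 1) * 0)) :=
      (ENNReal.Tendsto.const_mul htX (Or.inr (ENNReal.natCast_ne_top _))).add
        (ENNReal.Tendsto.const_mul htY (Or.inr (by
          exact ENNReal.add_ne_top.2 ⟨ENNReal.natCast_ne_top _, ENNReal.one_ne_top⟩)))
    rw [mul_zero, mul_zero, add_zero] at t1
    obtain ⟨i, hi⟩ := (t1.eventually (gt_mem_nhds (pos_iff_ne_zero.2 hε4))).exists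
    exact ⟨i, hi.le⟩
  -- lam, s
  set Z : ℝ≥0∞ := K * (2 * (((K * i0 + 1 : ℕ) : ℝ≥0∞) *
          (((K * i0 + 1 : ℕ) : ℝ≥0∞) * (((i0 + 1 : ℕ) : ℝ≥0∞) * ((i0 + 1 : ℕ) : ℝ≥0∞) * C)))) with hZ
  have hZT : Z ≠ ⊤ := by
    have hn : ∀ n : ℕ, (n : ℝ≥0∞) ≠ ⊤ := ENNReal.natCast_ne_top
    exact ENNReal.mul_ne_top (hn _) (ENNReal.mul_ne_top (by simp) (ENNReal.mul_ne_top (hn _)
      (ENNReal.mul_ne_top (hn _) (ENNReal.mul_ne_top (ENNReal.mul_ne_top (hn _) (hn _)) hC))))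
  obtain ⟨lam, hl0, hlT, hl⟩ := small Z hZT hε8
  have hKl : (K : ℝ≥0∞) / lam + 1 ≠ ⊤ :=
    ENNReal.add_ne_top.2 ⟨ENNReal.div_ne_top (ENNReal.natCast_ne_top _) hl0, ENNReal.one_ne_top⟩
  obtain ⟨x, hx0, hxT, hx⟩ := small (Z * ((K : ℝ≥0∞) / lam + 1)) (ENNReal.mul_ne_top hZT hKl) hε8
  obtain ⟨s, hs⟩ : ∃ s, us s ≤ x := by
    obtain ⟨s, hs⟩ := (hus.eventually (gt_mem_nhds (pos_iff_ne_zero.2 hx0))).exists
    exact ⟨s, hs.le⟩
  -- slab
  set W := (2 * K + 2) * i0 + 2 * s + 1 with hW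
  obtain ⟨η, hη0, -, hη⟩ := small ((K + 1 : ℕ) : ℝ≥0∞) (ENNReal.natCast_ne_top _) hε4
  obtain ⟨T0, hT0⟩ := hH5 W η hη0
  refine ⟨J0 * (T0 + s + 1) + 3 * J0, fun m hm => ?_⟩
  set T := m / J0 with hT
  have hTm : J0 * T ≤ m := Nat.mul_div_le m J0
  have hTge : T0 + s + 1 ≤ T := by
    rw [hT, Nat.le_div_iff_mul_le (by omega)]
    calc (T0 + s + 1) * J0 = J0 * (T0 + s + 1) := Nat.mul_comm _ _
      _ ≤ m := by omega
  have hKT : 2 * m ≤ K * T := by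
    have h1 := Nat.div_add_mod m J0
    have h2 := Nat.mod_lt m (show 0 < J0 by omega)
    rw [← hT] at h1
    have h3 : K * T = 3 * (J0 * T) := by rw [hK, hJ0]; ring
    omega
  refine ⟨K * i0 + i0 + i0 + K * (T + i0), fun n hn w => ?_⟩
  -- split
  set CC : List BX → List BY → ℕ → Prop := fun LX LY k =>
    CtL hX zX sX hY zY sY LX 0 0 LY w 0 k with hCC
  set sl : ℕ → List BX → List BY → ℝ≥0∞ := fun i LX LY =>
    if ∃ k, i * T - s ≤ k ∧ k < i * T - s + W ∧ CC LX LY k then 1 else 0 with hsl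
  set fg : List BX → List BY → ℝ≥0∞ := fun LX LY =>
    if (∃ k, m < k ∧ k ≤ 2 * m ∧ CC LX LY k) ∧
      ∀ k i, J0 ≤ i → i ≤ K → i * T - s ≤ k → k < i * T - s + W → ¬ CC LX LY k then 1 else 0
    with hfg
  have hsplit : ∀ LX LY, (if ∃ k, m < k ∧ k ≤ 2 * m ∧ CC LX LY k then (1 : ℝ≥0∞) else 0)
      ≤ fg LX LY + ∑ i ∈ Icc J0 K, sl i LX LY := by
    intro LX LY
    by_cases h1 : ∃ k, m < k ∧ k ≤ 2 * m ∧ CC LX LY k
    · rw [if_pos h1]
      by_cases h2 : ∀ k i, J0 ≤ i → i ≤ K → i * T - s ≤ k → k < i * T - s + W → ¬ CC LX LY k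
      · refine le_add_right ?_
        rw [hfg]; simp only; rw [if_pos ⟨h1, h2⟩]
      · refine le_add_left ?_
        push Not at h2
        obtain ⟨k, i, a1, a2, a3, a4, a5⟩ := h2
        refine le_trans ?_ (Finset.single_le_sum (f := fun i => sl i LX LY)
          (fun _ _ => zero_le) (Finset.mem_Icc.2 ⟨a1, a2⟩))
        rw [hsl]; simp only; rw [if_pos ⟨k, a3, a4, a5⟩]
    · rw [if_neg h1]; exact zero_le
  have toD : ∀ (P : List BX → List BY → Prop),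
      ∑' LX : List BX, ∑' LY : List BY, (if HT hX LX = n ∧ HT hY LY = n ∧ P LX LY
        then LW ΛX LX * LW ΛY LY else 0)
      = D ΛX hX n (fun LX => D ΛY hY n (fun LY => if P LX LY then 1 else 0)) := by
    intro P
    rw [D]
    refine tsum_congr fun LX => ?_
    by_cases hL : HT hX LX = n
    · rw [if_pos hL, D, ← ENNReal.tsum_mul_left]
      refine tsum_congr fun LY => ?_
      by_cases hL' : HT hY LY = n
      · by_cases hP : P LX LY
        · rw [if_pos ⟨hL, hL', hP⟩, if_pos hL', if_pos hP, mul_one]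
        · rw [if_neg (fun h => hP h.2.2), if_pos hL', if_neg hP, mul_zero, mul_zero]
      · rw [if_neg (fun h => hL' h.2.1), if_neg hL', mul_zero]
    · rw [if_neg hL]
      refine ENNReal.tsum_eq_zero.2 fun LY => ?_
      rw [if_neg (fun h => hL h.1)]
  have hgoal : ∀ a b : ℕ → Prop, ∀ LX LY, (∃ y k, a k ∧ b k ∧ (y, k) ∈ TT sX zX hX LX 0 0 ∧
      (y, k) ∈ TT sY zY hY LY w 0) ↔ ∃ k, a k ∧ b k ∧ CC LX LY k := by
    intro a b LX LY
    constructor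
    · rintro ⟨y, k, h1, h2, h3, h4⟩; exact ⟨k, h1, h2, y, h3, h4⟩
    · rintro ⟨k, h1, h2, y, h3, h4⟩; exact ⟨y, k, h1, h2, h3, h4⟩
  simp only [hgoal (fun k => m < k) (fun k => k ≤ 2 * m)]
  rw [toD (fun LX LY => ∃ k, m < k ∧ k ≤ 2 * m ∧ CC LX LY k)]
  have hDadd : ∀ F F' : List BX → List BY → ℝ≥0∞,
      D ΛX hX n (fun LX => D ΛY hY n (fun LY => F LX LY + F' LX LY))
      = D ΛX hX n (fun LX => D ΛY hY n (F LX)) + D ΛX hX n (fun LX => D ΛY hY n (F' LX)) := by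
    intro F F'
    have e1 : ∀ LX, D ΛY hY n (fun LY => F LX LY + F' LX LY)
        = D ΛY hY n (F LX) + D ΛY hY n (F' LX) := by
      intro LX
      rw [D, D, D, ← ENNReal.tsum_add]
      refine tsum_congr fun LY => ?_
      split_ifs
      · rw [mul_add]
      · simp
    simp only [e1]
    rw [D, D, D, ← ENNReal.tsum_add]
    refine tsum_congr fun LY => ?_
    split_ifs
    · rw [mul_add]
    · simp
  have hDsum : ∀ (I : Finset ℕ) (F : ℕ → List BX → List BY → ℝ≥0∞),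
      D ΛX hX n (fun LX => D ΛY hY n (fun LY => ∑ i ∈ I, F i LX LY))
      = ∑ i ∈ I, D ΛX hX n (fun LX => D ΛY hY n (F i LX)) := by
    intro I F
    induction I using Finset.induction_on with
    | empty => simp [D]
    | insert i I hi ih =>
      simp only [Finset.sum_insert hi]
      rw [hDadd, ih]
  calc D ΛX hX n (fun LX => D ΛY hY n (fun LY =>
        if ∃ k, m < k ∧ k ≤ 2 * m ∧ CC LX LY k then 1 else 0))
      ≤ D ΛX hX n (fun LX => D ΛY hY n (fun LY => fg LX LY + ∑ i ∈ Icc J0 K, sl i LX LY)) :=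
        D_mono _ _ _ fun LX _ => D_mono _ _ _ fun LY _ => hsplit LX LY
    _ = D ΛX hX n (fun LX => D ΛY hY n (fun LY => fg LX LY))
        + ∑ i ∈ Icc J0 K, D ΛX hX n (fun LX => D ΛY hY n (sl i LX)) := by
        rw [hDadd, hDsum]
    _ ≤ (ε / 4 + (ε / 4 + ε / 4)) + ε / 4 := by
        refine add_le_add ?_ ?_
        · refine (clean h1X h1Y mX mY hUX hUY hsX hsY hH2 hH3 T i0 K J0 s m n w (by omega) hJ1 hTm
            hKT (by omega) hn lam u hl0 hlT hu0 fg ?_ ?_).trans ?_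
          · intro L L'
            rw [hfg]; simp only
            split_ifs
            · exact le_rfl
            · exact zero_le
          · intro L L' h
            rw [hfg] at h
            simp only at h
            by_contra hc
            exact h (if_neg hc)
          · refine add_le_add hi0 ?_
            have e1 : (K : ℝ≥0∞) * (u * u + 2 * ((1 - u) ^ J0 + ((K * i0 + 1 : ℕ) : ℝ≥0∞) *
                (((K * i0 + 1 : ℕ) : ℝ≥0∞) * (((i0 + 1 : ℕ) : ℝ≥0∞) * ((i0 + 1 : ℕ) : ℝ≥0∞) *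
                (C * (lam + K * us s / lam + us s))))))
                = (K : ℝ≥0∞) * (u * u + 2 * (1 - u) ^ J0)
                  + (Z * lam + Z * ((K : ℝ≥0∞) / lam + 1) * us s) := by
              rw [hZ]
              simp only [div_eq_mul_inv]
              ring
            rw [e1]
            refine add_le_add ?_ ?_
            · refine le_trans ?_ hN
              rw [hK]
              push_cast
              have huu : u * u ≤ 2 * (((N : ℝ≥0∞) ^ 2)⁻¹ ^ 2) := by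
                calc u * u ≤ ((N : ℝ≥0∞) ^ 2)⁻¹ * ((N : ℝ≥0∞) ^ 2)⁻¹ := by gcongr
                  _ = 1 * (((N : ℝ≥0∞) ^ 2)⁻¹ ^ 2) := by ring
                  _ ≤ 2 * (((N : ℝ≥0∞) ^ 2)⁻¹ ^ 2) :=
                      mul_le_mul' one_le_two le_rfl
              calc (3 * (N : ℝ≥0∞) ^ 3) * (u * u + 2 * (1 - u) ^ J0)
                  ≤ (3 * (N : ℝ≥0∞) ^ 3) * (2 * (((N : ℝ≥0∞) ^ 2)⁻¹ ^ 2)
                    + 2 * (1 - u) ^ J0) := mul_le_mul' le_rfl (add_le_add huu le_rfl)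
                _ = 6 * (N : ℝ≥0∞) ^ 3 * (((N : ℝ≥0∞) ^ 2)⁻¹ ^ 2 + (1 - u) ^ J0) := by ring
                _ ≤ 6 * ((N : ℝ≥0∞) ^ 3 + 6) * (((N : ℝ≥0∞) ^ 2)⁻¹ ^ 2 + (1 - u) ^ J0) := by
                    gcongr
                    exact le_self_add
            · calc Z * lam + Z * ((K : ℝ≥0∞) / lam + 1) * us s
                  ≤ ε / 4 / 2 + Z * ((K : ℝ≥0∞) / lam + 1) * x := by gcongr
                _ ≤ ε / 4 / 2 + ε / 4 / 2 := by gcongr
                _ = ε / 4 := ENNReal.add_halves _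
        · calc ∑ i ∈ Icc J0 K, D ΛX hX n (fun LX => D ΛY hY n (sl i LX))
              ≤ (Icc J0 K).card • η := by
                refine Finset.sum_le_card_nsmul _ _ _ fun i hi => ?_
                rw [Finset.mem_Icc] at hi
                have hiT : T ≤ i * T := Nat.le_mul_of_pos_left _ (by omega)
                have := hT0 (i * T - s) (by omega) n w
                simp only [hgoal (fun k => i * T - s ≤ k) (fun k => k < i * T - s + W)] at this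
                rw [toD (fun LX LY => ∃ k, i * T - s ≤ k ∧ k < i * T - s + W ∧ CC LX LY k)] at this
                exact this
            _ ≤ ((K + 1 : ℕ) : ℝ≥0∞) * η := by
                rw [nsmul_eq_mul, Nat.card_Icc]
                gcongr
                omega
            _ ≤ ε / 4 := hη
    _ = ε := by
        have : ε / 4 + (ε / 4 + ε / 4) + ε / 4 = (ε / 4) * 4 := by ring
        rw [this]
        exact ENNReal.div_mul_cancel (by simp) (by simp)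

end main

end Crest.Agent.R154.Asm903
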