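import Crest.Agent.R154.FP_178
import Crest.Agent.R154.Dens_903

/-! Row 154 (helper905): expectation over first passage lists, density lemma in total form. -/

set_option autoImplicit false

namespace Crest.Agent.R154.Asm905

open scoped ENNReal Classical
open Crest.Agent.R154.B5A Crest.Agent.R154.FP178
open Finset

section E

variable {B : Type*} (Λ : B → ℝ≥0∞) (ht : B → ℕ)

/-- expectation over the first passage lists of depth `T` -/
noncomputable def E (T : ℕ) (f : List B → ℝ≥0∞) : ℝ≥0∞ :=
  ∑' L, if fp ht T L then LW Λ L * f L else 0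

lemma E_mono (T : ℕ) {f g : List B → ℝ≥0∞} (h : ∀ L, fp ht T L → f L ≤ g L) :
    E Λ ht T f ≤ E Λ ht T g := by
  refine ENNReal.tsum_le_tsum fun L => ?_
  by_cases hL : fp ht T L
  · rw [if_pos hL, if_pos hL]; exact mul_le_mul_right (h L hL) _
  · rw [if_neg hL, if_neg hL]

lemma E_congr (T : ℕ) {f g : List B → ℝ≥0∞} (h : ∀ L, fp ht T L → f L = g L) :
    E Λ ht T f = E Λ ht T g :=
  le_antisymm (E_mono Λ ht T fun L hL => (h L hL).le) (E_mono Λ ht T fun L hL => (h L hL).ge)

lemma E_add (T : ℕ) (f g : List B → ℝ≥0∞) :
    E Λ ht T (fun L => f L + g L) = E Λ ht T f + E Λ ht T g := by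
  unfold E
  rw [← ENNReal.tsum_add]
  refine tsum_congr fun L => ?_
  by_cases hL : fp ht T L
  · simp only [if_pos hL, mul_add]
  · simp only [if_neg hL, add_zero]

lemma E_mul (T : ℕ) (c : ℝ≥0∞) (f : List B → ℝ≥0∞) :
    E Λ ht T (fun L => c * f L) = c * E Λ ht T f := by
  unfold E
  rw [← ENNReal.tsum_mul_left]
  refine tsum_congr fun L => ?_
  by_cases hL : fp ht T L
  · simp only [if_pos hL]; ring
  · simp only [if_neg hL, mul_zero]

lemma E_tsum (T : ℕ) {ι : Type*} (f : ι → List B → ℝ≥0∞) :
    E Λ ht T (fun L => ∑' i, f i L) = ∑' i, E Λ ht T (f i) := by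
  unfold E
  rw [ENNReal.tsum_comm]
  refine tsum_congr fun L => ?_
  by_cases hL : fp ht T L
  · simp only [if_pos hL, ENNReal.tsum_mul_left]
  · simp only [if_neg hL, tsum_zero]

lemma E_comm {B' : Type*} (Λ' : B' → ℝ≥0∞) (ht' : B' → ℕ) (T T' : ℕ)
    (f : List B → List B' → ℝ≥0∞) :
    E Λ ht T (fun A => E Λ' ht' T' (fun A' => f A A'))
      = E Λ' ht' T' (fun A' => E Λ ht T (fun A => f A A')) := by
  have e : ∀ A : List B, E Λ' ht' T' (fun A' => f A A')
      = ∑' A', (if fp ht' T' A' then LW Λ' A' * f A A' else 0) := fun A => rfl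
  simp_rw [e]
  rw [E_tsum]
  show ∑' A', E Λ ht T (fun A => if fp ht' T' A' then LW Λ' A' * f A A' else 0) = _
  unfold E
  refine tsum_congr fun A' => ?_
  by_cases h : fp ht' T' A'
  · simp only [if_pos h]
    rw [← ENNReal.tsum_mul_left]
    refine tsum_congr fun A => ?_
    by_cases hA : fp ht T A
    · simp only [if_pos hA]; ring
    · simp only [if_neg hA, mul_zero]
  · simp only [if_neg h, mul_zero, ite_self, tsum_zero]

lemma E_le (h1 : ∀ b, 1 ≤ ht b) (hΛ : ∑' b, Λ b ≤ 1) (T : ℕ) {f : List B → ℝ≥0∞} {c : ℝ≥0∞}
    (h : ∀ L, fp ht T L → f L ≤ c) : E Λ ht T f ≤ c := by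
  calc E Λ ht T f ≤ E Λ ht T (fun _ => c * 1) := E_mono Λ ht T fun L hL => by
        rw [mul_one]; exact h L hL
    _ = c * E Λ ht T (fun _ => 1) := E_mul Λ ht T c _
    _ ≤ c * 1 := by
        gcongr
        have := sum_FP Λ ht h1 hΛ T
        unfold E
        simpa using this
    _ = c := mul_one c

/-- overshoot -/
lemma E_over (h1 : ∀ b, 1 ≤ ht b) (hU1 : ∀ n, U Λ ht n ≤ 1) (i a : ℕ) :
    E Λ ht a (fun L => if a + i < HT ht L then 1 else 0) ≤ ∑' k, tail Λ ht (i + k) := by
  refine le_trans (le_of_eq ?_) (overshoot Λ ht h1 hU1 i a)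
  unfold E
  refine tsum_congr fun L => ?_
  by_cases hL : fp ht a L <;> by_cases h : a + i < HT ht L <;> simp [hL, h]

/-- cut at the first passage of `b` -/
lemma cut1 (h1 : ∀ b, 1 ≤ ht b) (n b : ℕ) (hb : b ≤ n) (F : List B → ℝ≥0∞) :
    ∑' L, (if HT ht L = n then LW Λ L * F L else 0)
      = E Λ ht b (fun A => ∑' R, if HT ht A + HT ht R = n then LW Λ R * F (A ++ R) else 0) := by
  have := split Λ ht h1 b (fun L => if HT ht L = n then F L else 0)
  have e1 : ∀ L : List B, (if b ≤ HT ht L then LW Λ L * (if HT ht L = n then F L else 0) else 0)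
      = if HT ht L = n then LW Λ L * F L else 0 := by
    intro L
    by_cases h : HT ht L = n
    · rw [if_pos (by omega), if_pos h, if_pos h]
    · rw [if_neg h, if_neg h, mul_zero, ite_self]
  rw [tsum_congr e1] at this
  rw [this]
  unfold E
  refine tsum_congr fun A => ?_
  by_cases hA : fp ht b A
  · rw [if_pos hA, if_pos hA]
    congr 1
    refine tsum_congr fun R => ?_
    rw [HT_append]
    by_cases h : HT ht A + HT ht R = n
    · rw [if_pos h, if_pos h]
    · rw [if_neg h, if_neg h, mul_zero]
  · rw [if_neg hA, if_neg hA]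

/-- cut at the first passages of `b` and then of `c` -/
lemma cut2 (h1 : ∀ b, 1 ≤ ht b) (hU1 : ∀ n, U Λ ht n ≤ 1) (n b c i0 : ℕ) (hn : b + i0 + c ≤ n)
    (F : List B → ℝ≥0∞) (hF : ∀ L, F L ≤ 1) (G : List B → List B → ℝ≥0∞)
    (hG : ∀ A P R, fp ht b A → fp ht c P → HT ht A ≤ b + i0 → HT ht (A ++ (P ++ R)) = n →
      F (A ++ (P ++ R)) ≤ G A P) :
    ∑' L, (if HT ht L = n then LW Λ L * F L else 0)
      ≤ E Λ ht b (fun A => (if b + i0 < HT ht A then 1 else 0) + E Λ ht c (fun P => G A P)) := by
  have hUR : ∀ k, ∑' R, (if k + HT ht R = n then LW Λ R else 0) ≤ 1 := by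
    intro k
    by_cases hk : k ≤ n
    · refine le_trans (le_of_eq ?_) (hU1 (n - k))
      unfold U
      refine tsum_congr fun R => ?_
      by_cases h : k + HT ht R = n
      · rw [if_pos h, if_pos (by omega)]
      · rw [if_neg h, if_neg (by omega)]
    · refine le_trans (le_of_eq ?_) zero_le_one
      rw [ENNReal.tsum_eq_zero]
      intro R
      rw [if_neg (by omega)]
  rw [cut1 Λ ht h1 n b (by omega) F]
  refine E_mono Λ ht b fun A hA => ?_
  by_cases hov : b + i0 < HT ht A
  · rw [if_pos hov]
    refine le_trans ?_ (le_trans (hUR (HT ht A)) le_self_add)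
    refine ENNReal.tsum_le_tsum fun R => ?_
    by_cases h : HT ht A + HT ht R = n
    · rw [if_pos h, if_pos h]
      calc LW Λ R * F (A ++ R) ≤ LW Λ R * 1 := mul_le_mul_right (hF _) _
        _ = LW Λ R := mul_one _
    · rw [if_neg h, if_neg h]
  · rw [if_neg hov, zero_add]
    have hA2 := le_HT_of_fp ht hA
    have e := cut1 Λ ht h1 (n - HT ht A) c (by omega) (fun R => F (A ++ R))
    have e2 : ∑' R, (if HT ht A + HT ht R = n then LW Λ R * F (A ++ R) else 0)
        = ∑' R, (if HT ht R = n - HT ht A then LW Λ R * F (A ++ R) else 0) := by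
      refine tsum_congr fun R => ?_
      by_cases h : HT ht A + HT ht R = n
      · rw [if_pos h, if_pos (by omega)]
      · rw [if_neg h, if_neg (by omega)]
    rw [e2, e]
    refine E_mono Λ ht c fun P hP => ?_
    calc ∑' R, (if HT ht P + HT ht R = n - HT ht A then LW Λ R * F (A ++ (P ++ R)) else 0)
        ≤ ∑' R, G A P * (if (HT ht A + HT ht P) + HT ht R = n then LW Λ R else 0) := by
          refine ENNReal.tsum_le_tsum fun R => ?_
          by_cases h : HT ht P + HT ht R = n - HT ht A
          · rw [if_pos h, if_pos (by omega), mul_comm]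
            exact mul_le_mul_left (hG A P R hA hP (by omega) (by
              rw [HT_append, HT_append]; omega)) _
          · rw [if_neg h]; exact zero_le
      _ = G A P * ∑' R, (if (HT ht A + HT ht P) + HT ht R = n then LW Λ R else 0) :=
          ENNReal.tsum_mul_left
      _ ≤ G A P * 1 := by gcongr; exact hUR _
      _ = G A P := mul_one _

end E

section dens

variable {B : Type*} (Λ : B → ℝ≥0∞) (ht : B → ℕ) {G : Type*} [AddCommGroup G] (z : B → G)

/-- displacement -/
def Dp (L : List B) : G := (L.map z).sum

lemma Dp_nil : Dp z ([] : List B) = 0 := rfl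

lemma Dp_append (L L' : List B) : Dp z (L ++ L') = Dp z L + Dp z L' := by simp [Dp]

/-- law of (overshoot, displacement) at the first passage of `b` -/
noncomputable def law (b : ℕ) (o : ℕ) (x : G) : ℝ≥0∞ :=
  E Λ ht b (fun L => if HT ht L = b + o ∧ Dp z L = x then 1 else 0)

lemma E_law (b : ℕ) (Ψ : ℕ → G → ℝ≥0∞) :
    E Λ ht b (fun L => Ψ (HT ht L - b) (Dp z L)) = ∑' o, ∑' x, law Λ ht z b o x * Ψ o x := by
  have e : ∀ L, fp ht b L → Ψ (HT ht L - b) (Dp z L)
      = ∑' o, ∑' x, Ψ o x * (if HT ht L = b + o ∧ Dp z L = x then 1 else 0) := by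
    intro L hL
    have hb := le_HT_of_fp ht hL
    rw [tsum_eq_single (HT ht L - b), tsum_eq_single (Dp z L)]
    · rw [if_pos ⟨by omega, rfl⟩, mul_one]
    · intro x hx
      rw [if_neg (fun h => hx h.2.symm), mul_zero]
    · intro o ho
      rw [ENNReal.tsum_eq_zero]
      intro x
      rw [if_neg (fun h => ho (by omega)), mul_zero]
  rw [E_congr Λ ht b e, E_tsum]
  refine tsum_congr fun o => ?_
  rw [E_tsum]
  refine tsum_congr fun x => ?_
  rw [E_mul, mul_comm, law]

lemma law_mass (h1 : ∀ b, 1 ≤ ht b) (hΛ : ∑' b, Λ b ≤ 1) (b : ℕ) :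
    ∑' o, ∑' x, law Λ ht z b o x ≤ 1 := by
  have := E_law Λ ht z b (fun _ _ => 1)
  simp only [mul_one] at this
  rw [← this]
  exact E_le Λ ht h1 hΛ b fun _ _ => le_rfl

/-- renewal step for the law -/
lemma law_step (h1 : ∀ b, 1 ≤ ht b) (c b : ℕ) (hcb : c ≤ b) (o : ℕ) (x : G) :
    law Λ ht z b o x = E Λ ht c (fun P => E Λ ht (b - HT ht P)
      (fun L => if HT ht P + HT ht L = b + o ∧ Dp z P + Dp z L = x then 1 else 0)) := by
  have := fp_split Λ ht h1 c b hcb (fun L => if HT ht L = b + o ∧ Dp z L = x then 1 else 0)
  unfold law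
  unfold E
  rw [this]
  refine tsum_congr fun P => ?_
  by_cases hP : fp ht c P
  · rw [if_pos hP, if_pos hP]
    congr 1
    refine tsum_congr fun L => ?_
    rw [HT_append, Dp_append]
  · rw [if_neg hP, if_neg hP]

/-- **density lemma, total form** -/
theorem dens (h1 : ∀ b, 1 ≤ ht b) (hΛ : ∑' b, Λ b ≤ 1) (c i0 : ℕ) (th q ε : ℝ≥0∞)
    (hq : ∑' i, ∑' x, (if i ≤ i0 ∧ th < law Λ ht z c i x then law Λ ht z c i x else 0) ≤ q)
    (hε : E Λ ht c (fun L => if c + i0 < HT ht L then 1 else 0) ≤ ε) (J : ℕ) :
    ∀ b, J * (c + i0) ≤ b → ∃ bad : ℕ → G → ℝ≥0∞,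
      (∀ o x, law Λ ht z b o x ≤ (i0 + 1) * th * ∑ j ∈ range J, q ^ j + bad o x) ∧
      ∑' o, ∑' x, bad o x ≤ q ^ J + ε * ∑ j ∈ range J, q ^ j := by
  induction J with
  | zero =>
    intro b _
    refine ⟨law Λ ht z b, fun o x => by simp, ?_⟩
    simpa using law_mass Λ ht z h1 hΛ b
  | succ J ih =>
    intro b hb
    have hJ1 : (J + 1) * (c + i0) = J * (c + i0) + (c + i0) := by ring
    have hcb : c ≤ b := by omega
    have hch : ∀ i, ∃ bad : ℕ → G → ℝ≥0∞, i ≤ i0 →
        (∀ o x, law Λ ht z (b - (c + i)) o x ≤ (i0 + 1) * th * ∑ j ∈ range J, q ^ j + bad o x) ∧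
        ∑' o, ∑' x, bad o x ≤ q ^ J + ε * ∑ j ∈ range J, q ^ j := by
      intro i
      by_cases hi : i ≤ i0
      · obtain ⟨bad, hbad⟩ := ih (b - (c + i)) (by omega)
        exact ⟨bad, fun _ => hbad⟩
      · exact ⟨0, fun h => absurd h hi⟩
    choose bd hbd using hch
    set p := law Λ ht z c with hp
    set M := (i0 + 1) * th * ∑ j ∈ range J, q ^ j with hM
    -- the far part
    set far : ℕ → G → ℝ≥0∞ := fun o x => E Λ ht c (fun P => (if c + i0 < HT ht P then 1 else 0) *
      E Λ ht (b - HT ht P)
      (fun L => if HT ht P + HT ht L = b + o ∧ Dp z P + Dp z L = x then 1 else 0)) with hfar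
    refine ⟨fun o x => far o x + ∑' i, ∑' x', (if i ≤ i0 ∧ th < p i x' then
      p i x' * bd i o (x - x') else 0), ?_, ?_⟩
    · intro o x
      have hstep : law Λ ht z b o x ≤ far o x + ∑' i, ∑' x', p i x' *
          (if i ≤ i0 then law Λ ht z (b - (c + i)) o (x - x') else 0) := by
        rw [law_step Λ ht z h1 c b hcb o x]
        have e1 : ∀ P, fp ht c P → E Λ ht (b - HT ht P)
            (fun L => if HT ht P + HT ht L = b + o ∧ Dp z P + Dp z L = x then 1 else 0)
            ≤ (if c + i0 < HT ht P then 1 else 0) * E Λ ht (b - HT ht P)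
              (fun L => if HT ht P + HT ht L = b + o ∧ Dp z P + Dp z L = x then 1 else 0)
            + (fun (i : ℕ) (x' : G) => if i ≤ i0 then law Λ ht z (b - (c + i)) o (x - x') else 0)
              (HT ht P - c) (Dp z P) := by
          intro P hP
          have hc := le_HT_of_fp ht hP
          by_cases h : c + i0 < HT ht P
          · rw [if_pos h, one_mul]; exact le_self_add
          · rw [if_neg h, zero_mul, zero_add]
            simp only
            rw [if_pos (by omega), show c + (HT ht P - c) = HT ht P by omega]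
            refine E_mono Λ ht _ fun L hL => ?_
            by_cases h2 : HT ht P + HT ht L = b + o ∧ Dp z P + Dp z L = x
            · rw [if_pos h2, if_pos ⟨by omega, by rw [← h2.2]; abel⟩]
            · rw [if_neg h2]; exact zero_le
        refine (E_mono Λ ht c e1).trans ?_
        rw [E_add]
        exact le_of_eq (congrArg _ (E_law Λ ht z c (fun (i : ℕ) (x' : G) =>
          if i ≤ i0 then law Λ ht z (b - (c + i)) o (x - x') else 0)))
      refine hstep.trans ?_
      have hsplit : ∑' i, ∑' x', p i x' *
          (if i ≤ i0 then law Λ ht z (b - (c + i)) o (x - x') else 0)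
          ≤ ∑' i, ∑' x', (if i ≤ i0 then th * law Λ ht z (b - (c + i)) o (x - x') else 0)
            + (∑' i, ∑' x', (if i ≤ i0 ∧ th < p i x' then p i x' * M else 0)
            + ∑' i, ∑' x', (if i ≤ i0 ∧ th < p i x' then p i x' * bd i o (x - x') else 0)) := by
        rw [← ENNReal.tsum_add, ← ENNReal.tsum_add]
        refine ENNReal.tsum_le_tsum fun i => ?_
        rw [← ENNReal.tsum_add, ← ENNReal.tsum_add]
        refine ENNReal.tsum_le_tsum fun x' => ?_
        by_cases hi : i ≤ i0
        · by_cases hth : th < p i x'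
          · simp only [hi, hth, and_self, if_true]
            calc p i x' * law Λ ht z (b - (c + i)) o (x - x')
                ≤ p i x' * (M + bd i o (x - x')) := by
                  gcongr
                  exact (hbd i hi).1 o (x - x')
              _ = p i x' * M + p i x' * bd i o (x - x') := mul_add _ _ _
              _ ≤ _ := le_add_self
          · simp only [hi, hth, and_false, if_true, if_false, add_zero]
            gcongr
            exact not_lt.1 hth
        · simp [hi]
      have hA : ∑' i, ∑' x', (if i ≤ i0 then th * law Λ ht z (b - (c + i)) o (x - x') else 0)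
          ≤ (i0 + 1) * th := by
        calc _ ≤ ∑' i : ℕ, (if i ≤ i0 then th else 0) := by
              refine ENNReal.tsum_le_tsum fun i => ?_
              by_cases hi : i ≤ i0
              · simp only [if_pos hi]
                rw [ENNReal.tsum_mul_left, Dens903.tsum_sub (fun y => law Λ ht z (b - (c + i)) o y)]
                calc th * ∑' x', law Λ ht z (b - (c + i)) o x' ≤ th * 1 := by
                      gcongr
                      exact (ENNReal.le_tsum o).trans (law_mass Λ ht z h1 hΛ _)
                  _ = th := mul_one _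
              · simp [hi]
          _ = ∑ i ∈ range (i0 + 1), (if i ≤ i0 then th else 0) := by
              refine tsum_eq_sum fun i hi => ?_
              rw [Finset.mem_range, not_lt] at hi
              rw [if_neg (by omega)]
          _ = (i0 + 1) * th := by
              rw [Finset.sum_congr rfl fun i hi => if_pos (by
                have := Finset.mem_range.1 hi; omega)]
              simp
      have hB : ∑' i, ∑' x', (if i ≤ i0 ∧ th < p i x' then p i x' * M else 0) ≤ q * M := by
        refine le_trans (le_of_eq ?_) (mul_le_mul_left hq M)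
        rw [← ENNReal.tsum_mul_right]
        refine tsum_congr fun i => ?_
        rw [← ENNReal.tsum_mul_right]
        refine tsum_congr fun x' => ?_
        by_cases h : i ≤ i0 ∧ th < p i x'
        · rw [if_pos h, if_pos h]
        · rw [if_neg h, if_neg h, zero_mul]
      have hgeo : (i0 + 1) * th * ∑ j ∈ range (J + 1), q ^ j = (i0 + 1) * th + q * M := by
        rw [hM, Finset.sum_range_succ']
        simp only [pow_succ, pow_zero]
        rw [← Finset.sum_mul]
        ring
      rw [hgeo]
      calc far o x + ∑' i, ∑' x', p i x' *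
            (if i ≤ i0 then law Λ ht z (b - (c + i)) o (x - x') else 0)
          ≤ far o x + ((i0 + 1) * th + (q * M
            + ∑' i, ∑' x', (if i ≤ i0 ∧ th < p i x' then p i x' * bd i o (x - x') else 0))) := by
            gcongr
            exact hsplit.trans (add_le_add hA (add_le_add hB le_rfl))
        _ = _ := by ring
    · have hfm : ∑' o, ∑' x, far o x ≤ ε := by
        have : ∑' o, ∑' x, far o x ≤ E Λ ht c (fun P => (if c + i0 < HT ht P then 1 else 0) * 1) := by
          calc ∑' o, ∑' x, far o x = E Λ ht c (fun P => ∑' o, ∑' x,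
                ((if c + i0 < HT ht P then 1 else 0) * E Λ ht (b - HT ht P) (fun L =>
                if HT ht P + HT ht L = b + o ∧ Dp z P + Dp z L = x then 1 else 0))) := by
                rw [E_tsum]
                refine tsum_congr fun o => ?_
                rw [E_tsum]
            _ ≤ _ := by
                refine E_mono Λ ht c fun P hP => ?_
                simp_rw [ENNReal.tsum_mul_left]
                gcongr
                have : ∀ L : List B, ∑' o : ℕ, ∑' x : G, (if HT ht P + HT ht L = b + o ∧
                    Dp z P + Dp z L = x then (1 : ℝ≥0∞) else 0) ≤ 1 := by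
                  intro L
                  by_cases hle : b ≤ HT ht P + HT ht L
                  · rw [tsum_eq_single (HT ht P + HT ht L - b), tsum_eq_single (Dp z P + Dp z L)]
                    · split_ifs <;> simp
                    · intro x hx
                      rw [if_neg (fun h => hx h.2.symm)]
                    · intro o ho
                      rw [ENNReal.tsum_eq_zero]
                      intro x
                      rw [if_neg (fun h => ho (by omega))]
                  · refine le_trans (le_of_eq ?_) zero_le_one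
                    rw [ENNReal.tsum_eq_zero]
                    intro o
                    rw [ENNReal.tsum_eq_zero]
                    intro x
                    rw [if_neg (fun h => hle (by omega))]
                calc ∑' o, ∑' x, E Λ ht (b - HT ht P) (fun L =>
                      if HT ht P + HT ht L = b + o ∧ Dp z P + Dp z L = x then 1 else 0)
                    = E Λ ht (b - HT ht P) (fun L => ∑' o, ∑' x,
                      if HT ht P + HT ht L = b + o ∧ Dp z P + Dp z L = x then 1 else 0) := by
                      rw [E_tsum]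
                      refine tsum_congr fun o => ?_
                      rw [E_tsum]
                  _ ≤ 1 := E_le Λ ht h1 hΛ _ fun L _ => this L
        refine this.trans (le_trans (le_of_eq ?_) hε)
        simp
      have hbm : ∑' o, ∑' x, ∑' i, ∑' x', (if i ≤ i0 ∧ th < p i x' then
          p i x' * bd i o (x - x') else 0) ≤ q * (q ^ J + ε * ∑ j ∈ range J, q ^ j) := by
        calc _ = ∑' i, ∑' x', ∑' o, ∑' x, (if i ≤ i0 ∧ th < p i x' then
              p i x' * bd i o (x - x') else 0) := by
              have e1 : ∀ o, ∑' x, ∑' i, ∑' x', (if i ≤ i0 ∧ th < p i x' then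
                  p i x' * bd i o (x - x') else 0) = ∑' i, ∑' x', ∑' x,
                  (if i ≤ i0 ∧ th < p i x' then p i x' * bd i o (x - x') else 0) := by
                intro o
                rw [ENNReal.tsum_comm]
                refine tsum_congr fun i => ENNReal.tsum_comm
              simp_rw [e1]
              rw [ENNReal.tsum_comm]
              refine tsum_congr fun i => ENNReal.tsum_comm
          _ ≤ ∑' i, ∑' x', (if i ≤ i0 ∧ th < p i x' then p i x' else 0)
                * (q ^ J + ε * ∑ j ∈ range J, q ^ j) := by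
              refine ENNReal.tsum_le_tsum fun i => ENNReal.tsum_le_tsum fun x' => ?_
              by_cases h : i ≤ i0 ∧ th < p i x'
              · simp only [if_pos h]
                simp_rw [ENNReal.tsum_mul_left]
                gcongr
                refine le_trans (le_of_eq ?_) (hbd i h.1).2
                refine tsum_congr fun o => ?_
                exact (Equiv.subRight x').tsum_eq (fun y => bd i o y)
              · simp [if_neg h]
          _ = (∑' i, ∑' x', (if i ≤ i0 ∧ th < p i x' then p i x' else 0))
                * (q ^ J + ε * ∑ j ∈ range J, q ^ j) := by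
              rw [← ENNReal.tsum_mul_right]
              refine tsum_congr fun i => ?_
              rw [ENNReal.tsum_mul_right]
          _ ≤ _ := by gcongr
      calc _ = ∑' o, ∑' x, far o x + ∑' o, ∑' x, ∑' i, ∑' x', (if i ≤ i0 ∧ th < p i x' then
            p i x' * bd i o (x - x') else 0) := by
              rw [← ENNReal.tsum_add]
              refine tsum_congr fun o => ?_
              rw [← ENNReal.tsum_add]
        _ ≤ ε + q * (q ^ J + ε * ∑ j ∈ range J, q ^ j) := add_le_add hfm hbm
        _ = q ^ (J + 1) + ε * ∑ j ∈ range (J + 1), q ^ j := by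
            rw [Finset.sum_range_succ']
            simp only [pow_succ, pow_zero]
            rw [← Finset.sum_mul]
            ring

end dens

end Crest.Agent.R154.Asm905
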