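import Crest.Agent.R154.AsmD_937
import Crest.Agent.R154.Dens_903
import Crest.Agent.R154.KU_823

/-! Row 154, ROAD 801 (helper937): abstract assembly, part 3 (data of one walker). -/

set_option autoImplicit false

namespace Crest.Agent.R154.Asm937

open scoped ENNReal
open Crest.Agent.R154.B5A Crest.Agent.R154.FP178
open Bind12 (TT Dp)

section one

variable {B G : Type*} [AddCommGroup G] (Λ : B → ℝ≥0∞) (ht : B → ℕ) (z : B → G)

open Classical in
theorem sumFP (h1 : ∀ b, 1 ≤ ht b) (hΛ : ∑' b, Λ b = 1) (a : ℕ) :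
    ∑' L, (if fp ht a L then LW Λ L else 0) = 1 := by
  induction a using Nat.strong_induction_on with
  | _ a ih =>
    rcases Nat.eq_zero_or_pos a with rfl | ha
    · have := sum_fp_zero Λ ht (fun _ => 1)
      simp only [mul_one] at this
      exact this
    · have := sum_fp_step Λ ht a ha (fun _ => 1)
      simp only [mul_one] at this
      rw [this]
      have e : ∀ b, Λ b * ∑' L, (if fp ht (a - ht b) L then LW Λ L else 0) = Λ b := fun b => by
        rw [ih (a - ht b) (by have := h1 b; omega), mul_one]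
      rw [tsum_congr e, hΛ]

/-- joint displacement -/
def dz (b : B) : G × ℤ := (z b, (ht b : ℤ))

lemma dL_dz (L : List B) : dL (dz ht z) L = (Dp z L, (HT ht L : ℤ)) := by
  induction L with
  | nil => simp [dL, Dp, HT]; rfl
  | cons b L ih =>
    rw [dL_cons, ih]
    simp [dz, Dp, HT]

open Classical in
theorem data (h1 : ∀ b, 1 ≤ ht b) (hΛ : ∑' b, Λ b = 1) (τ i0 : ℕ) {u : ℝ≥0∞} (hu0 : u ≠ 0)
    (hu1 : u ≤ 1) :
    ∃ (E : ℕ → Finset G) (θ : ℝ≥0∞), θ ≠ 0 ∧ θ ≤ 1 ∧ (∀ i, ((E i).card : ℝ≥0∞) * θ ≤ 1) ∧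
      FS Λ ht τ i0 (fun P => if Dp z P ∈ E (HT ht P - τ) then 0 else 1) ≤ u ∧
      ∀ J a, J * (τ + i0) ≤ a → DD Λ ht z a i0 (θ * (i0 + 1) * u⁻¹) ((1 - u) ^ J + J * ov Λ ht i0) := by
  have hU : ∀ n, U Λ ht n ≤ 1 := U_le Λ ht h1 hΛ.le
  set p : ℕ × (G × ℤ) → ℝ≥0∞ := fun q => pL Λ ht (dz ht z) τ q.1 q.2 with hp
  -- push forward
  have push : ∀ φ : ℕ × (G × ℤ) → ℝ≥0∞, ∑' q, p q * φ q
      = ∑' L, (if fp ht τ L then LW Λ L * φ (HT ht L - τ, dL (dz ht z) L) else 0) := by
    intro φ
    have e1 : ∀ q, p q * φ q = ∑' L, (if fp ht τ L then LW Λ L * ((if HT ht L = τ + q.1 ∧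
        dL (dz ht z) L = q.2 then 1 else 0) * φ q) else 0) := by
      intro q
      simp only [hp, pL]
      rw [← ENNReal.tsum_mul_right]
      refine tsum_congr fun L => ?_
      by_cases h : fp ht τ L
      · rw [if_pos h, if_pos h, mul_assoc]
        congr!
      · rw [if_neg h, if_neg h, zero_mul]
    rw [tsum_congr e1, ENNReal.tsum_comm]
    refine tsum_congr fun L => ?_
    by_cases h : fp ht τ L
    · simp only [if_pos h]
      rw [ENNReal.tsum_mul_left]
      congr 1
      have hle := le_HT_of_fp ht h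
      rw [tsum_eq_single (HT ht L - τ, dL (dz ht z) L)]
      · rw [if_pos ⟨by simp only; omega, rfl⟩, one_mul]
      · intro q hq
        rw [if_neg, zero_mul]
        rintro ⟨h2, h3⟩
        exact hq (Prod.ext (by simp only; omega) h3.symm)
    · simp [if_neg h]
  have hsum : ∑' q, p q = 1 := by
    have := push (fun _ => 1)
    simp only [mul_one] at this
    rw [this, sumFP Λ ht h1 hΛ]
  obtain ⟨θ, hθ0, hθ1, hlow, hhigh⟩ := Dens903.quantile p hsum hu0 hu1
  have hfin : ∀ i, {x : G | θ ≤ p (i, (x, ((τ + i : ℕ) : ℤ)))}.Finite := by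
    intro i
    have h2 : {q | θ ≤ p q}.Finite :=
      ENNReal.finite_const_le_of_tsum_ne_top (by rw [hsum]; exact ENNReal.one_ne_top) hθ0
    refine Set.Finite.preimage (f := fun x : G => ((i, (x, ((τ + i : ℕ) : ℤ))) : ℕ × (G × ℤ)))
      ?_ h2
    intro x _ y _ hxy
    simpa using hxy
  refine ⟨fun i => (hfin i).toFinset, θ, hθ0, hθ1, ?_, ?_, ?_⟩
  · intro i
    calc (((hfin i).toFinset.card : ℕ) : ℝ≥0∞) * θ = ∑ _x ∈ (hfin i).toFinset, θ := by
          rw [Finset.sum_const, nsmul_eq_mul]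
      _ ≤ ∑ x ∈ (hfin i).toFinset, p (i, (x, ((τ + i : ℕ) : ℤ))) :=
          Finset.sum_le_sum fun x hx => by simpa using ((hfin i).mem_toFinset.1 hx)
      _ ≤ ∑' x : G, p (i, (x, ((τ + i : ℕ) : ℤ))) := ENNReal.sum_le_tsum _
      _ ≤ ∑' q, p q := ENNReal.tsum_comp_le_tsum_of_injective
          (f := fun x : G => ((i, (x, ((τ + i : ℕ) : ℤ))) : ℕ × (G × ℤ)))
          (fun x y hxy => by simpa using hxy) p
      _ = 1 := hsum
  · refine le_trans ?_ hlow
    have h2 := push (fun q => if p q < θ then 1 else 0)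
    have e3 : ∀ q, p q * (if p q < θ then 1 else 0) = (if p q < θ then p q else 0) := fun q => by
      split_ifs <;> simp
    rw [tsum_congr e3] at h2
    rw [h2, FS]
    refine ENNReal.tsum_le_tsum fun P => ?_
    by_cases hP : fp ht τ P ∧ HT ht P ≤ τ + i0
    swap
    · rw [if_neg hP]; exact zero_le
    rw [if_pos hP, if_pos hP.1]
    refine mul_le_mul_right ?_ _
    by_cases hm : Dp z P ∈ (hfin (HT ht P - τ)).toFinset
    · rw [if_pos hm]; exact zero_le
    · rw [if_neg hm, if_pos]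
      rw [Set.Finite.mem_toFinset, Set.mem_ofPred_eq, not_le] at hm
      have hle := le_HT_of_fp ht hP.1
      rw [dL_dz]
      rwa [Nat.add_sub_cancel' hle] at hm
  · intro J a ha
    set r : ℝ≥0∞ := ∑ i ∈ Finset.range (i0 + 1), ∑' q : G × ℤ,
      (if θ < pL Λ ht (dz ht z) τ i q then pL Λ ht (dz ht z) τ i q else 0) with hr
    have hr0 : r ≤ ∑' q, (if θ < p q then p q else 0) := by
      rw [ENNReal.tsum_prod']
      exact ENNReal.sum_le_tsum (f := fun i => ∑' q : G × ℤ, (if θ < p (i, q) then p (i, q) else 0))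
        (Finset.range (i0 + 1))
    have hru : r + u ≤ 1 := by
      calc r + u ≤ ∑' q, (if θ < p q then p q else 0) + ∑' q, (if p q ≤ θ then p q else 0) :=
            add_le_add hr0 hhigh
        _ = ∑' q, p q := by
            rw [← ENNReal.tsum_add]
            refine tsum_congr fun q => ?_
            by_cases h : θ < p q
            · rw [if_pos h, if_neg (not_le.2 h), add_zero]
            · rw [if_neg h, if_pos (not_lt.1 h), zero_add]
        _ = 1 := hsum
    have hutop : u ≠ ⊤ := ne_top_of_le_ne_top ENNReal.one_ne_top hu1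
    have hr1u : r ≤ 1 - u := ENNReal.le_sub_of_add_le_right hutop hru
    have hr1 : r ≤ 1 := hr1u.trans tsub_le_self
    obtain ⟨g, b, hgb, hg, hb⟩ := smooth Λ ht (dz ht z) h1 hΛ.le τ i0 θ r (ov Λ ht i0) hr1 le_rfl
      (overshoot Λ ht h1 hU i0 τ) J a ha
    have hgeo : ∑ j ∈ Finset.range J, r ^ j ≤ u⁻¹ := by
      calc ∑ j ∈ Finset.range J, r ^ j ≤ ∑' j, r ^ j := ENNReal.sum_le_tsum _
        _ = (1 - r)⁻¹ := ENNReal.tsum_geometric r
        _ ≤ u⁻¹ := by
            refine ENNReal.inv_le_inv.2 ?_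
            exact ENNReal.le_sub_of_add_le_left (ne_top_of_le_ne_top ENNReal.one_ne_top hr1) hru
    refine ⟨fun x α => g (x, (α : ℤ)), fun x α => ?_, fun α => ?_, fun F hF => ?_⟩
    · exact (hg _).trans (mul_le_mul_right hgeo _)
    · calc ∑' x, g (x, (α : ℤ)) ≤ ∑' x, mL Λ ht (dz ht z) a (x, (α : ℤ)) :=
            ENNReal.tsum_le_tsum fun x => by rw [hgb]; exact le_self_add
        _ ≤ ∑' q, mL Λ ht (dz ht z) a q := ENNReal.tsum_comp_le_tsum_of_injective
            (f := fun x : G => ((x, (α : ℤ)) : G × ℤ)) (fun x y hxy => by simpa using hxy) _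
        _ ≤ 1 := sum_mL Λ ht (dz ht z) h1 hΛ.le a
    · -- main
      have hA : ∀ A, (if fp ht a A ∧ HT ht A ≤ a + i0 then LW Λ A * F (Dp z A) (HT ht A) else 0)
          ≤ ∑ i ∈ Finset.range (i0 + 1), ∑' x, (if fp ht a A then LW Λ A *
            (if dL (dz ht z) A = (x, ((a + i : ℕ) : ℤ)) then 1 else 0) else 0) * F x (a + i) := by
        intro A
        by_cases hAc : fp ht a A ∧ HT ht A ≤ a + i0
        swap
        · rw [if_neg hAc]; exact zero_le
        have hle := le_HT_of_fp ht hAc.1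
        rw [if_pos hAc]
        calc LW Λ A * F (Dp z A) (HT ht A)
            = (if fp ht a A then LW Λ A * (if dL (dz ht z) A
                = (Dp z A, ((a + (HT ht A - a) : ℕ) : ℤ)) then 1 else 0) else 0)
                * F (Dp z A) (a + (HT ht A - a)) := by
              rw [if_pos hAc.1, if_pos, mul_one, Nat.add_sub_cancel' hle]
              rw [dL_dz, Nat.add_sub_cancel' hle]
          _ ≤ ∑' x, (if fp ht a A then LW Λ A * (if dL (dz ht z) A
                = (x, ((a + (HT ht A - a) : ℕ) : ℤ)) then 1 else 0) else 0)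
                * F x (a + (HT ht A - a)) :=
              ENNReal.le_tsum (f := fun x => (if fp ht a A then LW Λ A * (if dL (dz ht z) A
                = (x, ((a + (HT ht A - a) : ℕ) : ℤ)) then 1 else 0) else 0)
                * F x (a + (HT ht A - a))) (Dp z A)
          _ ≤ _ := Finset.single_le_sum (f := fun i => ∑' x, (if fp ht a A then LW Λ A *
              (if dL (dz ht z) A = (x, ((a + i : ℕ) : ℤ)) then 1 else 0) else 0) * F x (a + i))
              (fun _ _ => zero_le) (Finset.mem_range.2 (by omega))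
      rw [FS]
      refine (ENNReal.tsum_le_tsum hA).trans ?_
      rw [Summable.tsum_finsetSum (fun _ _ => ENNReal.summable)]
      have hB : ∀ i, ∑' A, ∑' x, (if fp ht a A then LW Λ A *
            (if dL (dz ht z) A = (x, ((a + i : ℕ) : ℤ)) then 1 else 0) else 0) * F x (a + i)
          ≤ ∑' x, g (x, ((a + i : ℕ) : ℤ)) * F x (a + i) + ∑' x, b (x, ((a + i : ℕ) : ℤ)) := by
        intro i
        rw [ENNReal.tsum_comm, ← ENNReal.tsum_add]
        refine ENNReal.tsum_le_tsum fun x => ?_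
        rw [ENNReal.tsum_mul_right]
        have : ∑' A, (if fp ht a A then LW Λ A *
            (if dL (dz ht z) A = (x, ((a + i : ℕ) : ℤ)) then 1 else 0) else 0)
            = mL Λ ht (dz ht z) a (x, ((a + i : ℕ) : ℤ)) := by
          simp only [mL]
          congr!
        rw [this, hgb, add_mul]
        refine add_le_add le_rfl ?_
        calc b (x, ((a + i : ℕ) : ℤ)) * F x (a + i) ≤ b (x, ((a + i : ℕ) : ℤ)) * 1 :=
              mul_le_mul_right (hF _ _) _
          _ = _ := mul_one _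
      refine (Finset.sum_le_sum fun i _ => hB i).trans ?_
      rw [Finset.sum_add_distrib]
      refine add_le_add le_rfl ?_
      calc ∑ i ∈ Finset.range (i0 + 1), ∑' x, b (x, ((a + i : ℕ) : ℤ))
          ≤ ∑' i : ℕ, ∑' x, b (x, ((a + i : ℕ) : ℤ)) := ENNReal.sum_le_tsum _
        _ = ∑' q : ℕ × G, b (q.2, ((a + q.1 : ℕ) : ℤ)) := by rw [ENNReal.tsum_prod']
        _ ≤ ∑' q, b q := ENNReal.tsum_comp_le_tsum_of_injective
            (f := fun q : ℕ × G => ((q.2, ((a + q.1 : ℕ) : ℤ)) : G × ℤ)) (by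
              rintro ⟨i, x⟩ ⟨j, y⟩ hxy
              simp only [Prod.mk.injEq, Nat.cast_inj] at hxy
              exact Prod.ext (by simp only; omega) hxy.1) b
        _ ≤ r ^ J + J * ov Λ ht i0 := hb
        _ ≤ (1 - u) ^ J + J * ov Λ ht i0 := add_le_add (pow_le_pow_left' hr1u J) le_rfl

end one

end Crest.Agent.R154.Asm937
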