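import Crest.Agent.R154.AsmD_942

/-! Row 154, ROAD 801 (helper942): assembly, part E: the window bound. -/

set_option autoImplicit false

namespace Crest.Agent.R154.Asm942

open scoped ENNReal
open Crest.Agent.R154.B5A Crest.Agent.R154.FP178

section win

variable {BX BY G : Type*} [AddCommGroup G]
variable (ΛX : BX → ℝ≥0∞) (hX : BX → ℕ) (zX : BX → G) (sX : BX → Set (G × ℕ))
variable (ΛY : BY → ℝ≥0∞) (hY : BY → ℕ) (zY : BY → G) (sY : BY → Set (G × ℕ))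

open Classical in
lemma KK_le_sum (T T' i0 : ℕ) (R : List BX → List BY → Prop)
    (W2 : ℕ → ℕ → List BX → List BY → Prop)
    (hRW : ∀ L M, fp hX T L → fp hY T' M → R L M → W2 (HT hX L - T) (HT hY M - T') L M) :
    KK ΛX hX ΛY hY T T' i0 R ≤ ∑ i ∈ Finset.range (i0 + 1), ∑ i' ∈ Finset.range (i0 + 1),
      ∑' L, ∑' M, (if W2 i i' L M then LW ΛX L * LW ΛY M else 0) := by
  rw [KK_eq]
  have e1 : ∑ i ∈ Finset.range (i0 + 1), ∑ i' ∈ Finset.range (i0 + 1),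
      ∑' L, ∑' M, (if W2 i i' L M then LW ΛX L * LW ΛY M else 0)
      = ∑' L, ∑' M, ∑ i ∈ Finset.range (i0 + 1), ∑ i' ∈ Finset.range (i0 + 1),
        (if W2 i i' L M then LW ΛX L * LW ΛY M else 0) := by
    have k1 : ∀ i, ∑ i' ∈ Finset.range (i0 + 1),
        ∑' L, ∑' M, (if W2 i i' L M then LW ΛX L * LW ΛY M else 0)
        = ∑' L, ∑' M, ∑ i' ∈ Finset.range (i0 + 1),
          (if W2 i i' L M then LW ΛX L * LW ΛY M else 0) := by
      intro i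
      rw [← Summable.tsum_finsetSum (fun _ _ => ENNReal.summable)]
      refine tsum_congr fun L => ?_
      rw [← Summable.tsum_finsetSum (fun _ _ => ENNReal.summable)]
    simp_rw [k1]
    rw [← Summable.tsum_finsetSum (fun _ _ => ENNReal.summable)]
    refine tsum_congr fun L => ?_
    rw [← Summable.tsum_finsetSum (fun _ _ => ENNReal.summable)]
  rw [e1]
  refine ENNReal.tsum_le_tsum fun L => ENNReal.tsum_le_tsum fun M => ?_
  by_cases h : (fp hX T L ∧ HT hX L ≤ T + i0) ∧ (fp hY T' M ∧ HT hY M ≤ T' + i0) ∧ R L M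
  · rw [if_pos h]
    have m1 : HT hX L - T ∈ Finset.range (i0 + 1) := by
      rw [Finset.mem_range]; have := h.1.2; omega
    have m2 : HT hY M - T' ∈ Finset.range (i0 + 1) := by
      rw [Finset.mem_range]; have := h.2.1.2; omega
    refine le_trans ?_ (Finset.single_le_sum (f := fun i => ∑ i' ∈ Finset.range (i0 + 1),
      (if W2 i i' L M then LW ΛX L * LW ΛY M else 0)) (fun _ _ => zero_le) m1)
    refine le_trans ?_ (Finset.single_le_sum (f := fun i' =>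
      (if W2 (HT hX L - T) i' L M then LW ΛX L * LW ΛY M else 0)) (fun _ _ => zero_le) m2)
    rw [if_pos (hRW L M h.1.1 h.2.1.1 h.2.2)]
  · rw [if_neg h]; exact zero_le

open Classical in
lemma sum_swap (i0 : ℕ) (μ : G → ℝ≥0∞) (g : ℕ → ℕ → G → ℝ≥0∞) (V : ℝ≥0∞)
    (hV : ∀ i i', i ≤ i0 → i' ≤ i0 → ∑' x, μ x * g i i' x ≤ V) :
    ∑' x, μ x * ∑ i ∈ Finset.range (i0 + 1), ∑ i' ∈ Finset.range (i0 + 1), g i i' x
      ≤ ((i0 + 1 : ℕ) : ℝ≥0∞) * ((i0 + 1 : ℕ) : ℝ≥0∞) * V := by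
  have e1 : ∑' x, μ x * ∑ i ∈ Finset.range (i0 + 1), ∑ i' ∈ Finset.range (i0 + 1), g i i' x
      = ∑ i ∈ Finset.range (i0 + 1), ∑ i' ∈ Finset.range (i0 + 1), ∑' x, μ x * g i i' x := by
    have k1 : ∀ i, ∑ i' ∈ Finset.range (i0 + 1), ∑' x, μ x * g i i' x
        = ∑' x, ∑ i' ∈ Finset.range (i0 + 1), μ x * g i i' x := by
      intro i
      rw [← Summable.tsum_finsetSum (fun _ _ => ENNReal.summable)]
    simp_rw [k1]
    rw [← Summable.tsum_finsetSum (fun _ _ => ENNReal.summable)]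
    refine tsum_congr fun x => ?_
    rw [Finset.mul_sum]
    refine Finset.sum_congr rfl fun i _ => ?_
    rw [Finset.mul_sum]
  rw [e1]
  calc _ ≤ ∑ _i ∈ Finset.range (i0 + 1), ∑ _i' ∈ Finset.range (i0 + 1), V := by
        refine Finset.sum_le_sum fun i hi => Finset.sum_le_sum fun i' hi' => ?_
        rw [Finset.mem_range] at hi hi'
        exact hV i i' (by omega) (by omega)
    _ = _ := by
        rw [Finset.sum_const, Finset.sum_const, Finset.card_range, nsmul_eq_mul, nsmul_eq_mul,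
          mul_assoc]

lemma locX_V (us : ℕ → ℝ≥0∞) (C : ℝ≥0∞) (H : H2L ΛX hX zX sX ΛY hY zY sY us C)
    (s lo hi T T' i0 a a' : ℕ) (haa : a ≤ a') (h1 : a + s ≤ lo) (h2 : a' + s ≤ lo)
    (thX Gm D lam : ℝ≥0∞) (hl0 : lam ≠ 0) (hl : lam ≠ ⊤) (E : ℕ → Finset G)
    (hE : ∀ i z, thX ≤ F ΛX hX zX T i z → z ∈ E i) (hD : ∀ i, Gm * (E i).card ≤ D)
    (μ : G → ℝ≥0∞) (hμ1 : ∑' x, μ x ≤ 1) (hμ2 : ∀ x, μ x ≤ Gm) :
    ∑' x, μ x * KK ΛX hX ΛY hY T T' i0 (fun L M => Q hX zX sX hY zY sY lo hi L M a a' x ∧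
      thX ≤ F ΛX hX zX T (HT hX L - T) (Dp zX L))
      ≤ ((i0 + 1 : ℕ) : ℝ≥0∞) * ((i0 + 1 : ℕ) : ℝ≥0∞) *
        (C * (lam + D * us s / lam + us s)) := by
  classical
  refine le_trans ?_ (sum_swap i0 μ (fun i i' x => ∑' L, ∑' M, (if HT hX L = T + i ∧
    Dp zX L ∈ E i ∧ HT hY M = T' + i' ∧
    (∃ z k, (z, k) ∈ TT sX hX zX L 0 a ∧ (z, k) ∈ TT sY hY zY M x a') ∧
    (∀ z k, (z, k) ∈ TT sX hX zX L 0 a → (z, k) ∈ TT sY hY zY M x a' → lo ≤ k)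
    then LW ΛX L * LW ΛY M else 0)) _ ?_)
  · refine ENNReal.tsum_le_tsum fun x => mul_le_mul_right ?_ _
    refine (KK_le_sum ΛX hX ΛY hY T T' i0 _ (fun i i' L M => HT hX L = T + i ∧
      Dp zX L ∈ E i ∧ HT hY M = T' + i' ∧
      (∃ z k, (z, k) ∈ TT sX hX zX L 0 a ∧ (z, k) ∈ TT sY hY zY M x a') ∧
      (∀ z k, (z, k) ∈ TT sX hX zX L 0 a → (z, k) ∈ TT sY hY zY M x a' → lo ≤ k)) ?_).trans
      (le_of_eq ?_)
    · rintro L M hL hM ⟨⟨hQ1, hQ2⟩, hloc⟩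
      have k1 := le_HT_of_fp hX hL
      have k2 := le_HT_of_fp hY hM
      exact ⟨by omega, hE _ _ hloc, by omega, hQ1, fun z k g1 g2 => (hQ2 z k g1 g2).1⟩
    · refine Finset.sum_congr rfl fun i _ => Finset.sum_congr rfl fun i' _ => ?_
      refine tsum_congr fun L => tsum_congr fun M => ?_
      congr
  · intro i i' _ _
    refine le_trans (le_of_eq ?_) ((H s (T + i) (T' + i') a a' lo (E i) μ Gm lam hμ1 hμ2 hl0 hl
      haa h1 h2).trans ?_)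
    · refine tsum_congr fun x => ?_
      congr 1
    · gcongr
      exact hD i

lemma locY_V (us : ℕ → ℝ≥0∞) (C : ℝ≥0∞) (H : H3L ΛX hX zX sX ΛY hY zY sY us C)
    (s lo hi T T' i0 a a' : ℕ) (haa : a + (T + i0) ≤ a' + T') (h1 : hi + s ≤ a + T)
    (h2 : hi + s ≤ a' + T')
    (thY Gm D lam : ℝ≥0∞) (hl0 : lam ≠ 0) (hl : lam ≠ ⊤) (E : ℕ → Finset G)
    (hE : ∀ i z, thY ≤ F ΛY hY zY T' i z → z ∈ E i) (hD : ∀ i, Gm * (E i).card ≤ D)
    (μ : G → ℝ≥0∞) (hμ1 : ∑' x, μ x ≤ 1) (hμ2 : ∀ x, μ x ≤ Gm) :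
    ∑' x, μ x * KK ΛX hX ΛY hY T T' i0 (fun L M => Q hX zX sX hY zY sY lo hi L M a a' x ∧
      thY ≤ F ΛY hY zY T' (HT hY M - T') (Dp zY M))
      ≤ ((i0 + 1 : ℕ) : ℝ≥0∞) * ((i0 + 1 : ℕ) : ℝ≥0∞) *
        (C * (lam + D * us s / lam + us s)) := by
  classical
  refine le_trans ?_ (sum_swap i0 μ (fun i i' x => ∑' L, ∑' M, (if HT hX L = T + i ∧
    Dp zY M ∈ E i' ∧ HT hY M = T' + i' ∧
    (∃ z k, (z, k) ∈ TT sX hX zX L 0 a ∧ (z, k) ∈ TT sY hY zY M x a') ∧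
    (∀ z k, (z, k) ∈ TT sX hX zX L 0 a → (z, k) ∈ TT sY hY zY M x a' → k ≤ hi)
    then LW ΛX L * LW ΛY M else 0)) _ ?_)
  · refine ENNReal.tsum_le_tsum fun x => mul_le_mul_right ?_ _
    refine (KK_le_sum ΛX hX ΛY hY T T' i0 _ (fun i i' L M => HT hX L = T + i ∧
      Dp zY M ∈ E i' ∧ HT hY M = T' + i' ∧
      (∃ z k, (z, k) ∈ TT sX hX zX L 0 a ∧ (z, k) ∈ TT sY hY zY M x a') ∧
      (∀ z k, (z, k) ∈ TT sX hX zX L 0 a → (z, k) ∈ TT sY hY zY M x a' → k ≤ hi)) ?_).trans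
      (le_of_eq ?_)
    · rintro L M hL hM ⟨⟨hQ1, hQ2⟩, hloc⟩
      have k1 := le_HT_of_fp hX hL
      have k2 := le_HT_of_fp hY hM
      exact ⟨by omega, hE _ _ hloc, by omega, hQ1, fun z k g1 g2 => (hQ2 z k g1 g2).2⟩
    · refine Finset.sum_congr rfl fun i _ => Finset.sum_congr rfl fun i' _ => ?_
      refine tsum_congr fun L => tsum_congr fun M => ?_
      congr
  · intro i i' hi1 _
    refine le_trans (le_of_eq ?_) ((H s (T + i) (T' + i') a a' hi (E i') μ Gm lam hμ1 hμ2 hl0 hl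
      (by omega) (by omega) (by omega)).trans ?_)
    · refine tsum_congr fun x => ?_
      congr 1
    · gcongr
      exact hD i'

open Classical in
/-- grouping both tops -/
lemma group2 (A A' i0 : ℕ) (w : G) (K : ℕ → ℕ → G → ℝ≥0∞) :
    ∑' L1, (if fp hX A L1 ∧ HT hX L1 ≤ A + i0 then LW ΛX L1 *
      ∑' M1, (if fp hY A' M1 ∧ HT hY M1 ≤ A' + i0 then LW ΛY M1 *
        K (HT hX L1) (HT hY M1) (w + Dp zY M1 - Dp zX L1) else 0) else 0)
      ≤ ∑ j ∈ Finset.range (i0 + 1), ∑ j' ∈ Finset.range (i0 + 1), ∑' z, ∑' z',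
        F ΛX hX zX A j z * (F ΛY hY zY A' j' z' * K (A + j) (A' + j') (w + z' - z)) := by
  calc ∑' L1, (if fp hX A L1 ∧ HT hX L1 ≤ A + i0 then LW ΛX L1 *
      ∑' M1, (if fp hY A' M1 ∧ HT hY M1 ≤ A' + i0 then LW ΛY M1 *
        K (HT hX L1) (HT hY M1) (w + Dp zY M1 - Dp zX L1) else 0) else 0)
      ≤ ∑' L1, (if fp hX A L1 ∧ HT hX L1 ≤ A + i0 then LW ΛX L1 *
        ∑ j' ∈ Finset.range (i0 + 1), ∑' z', F ΛY hY zY A' j' z' *
          K (HT hX L1) (A' + j') (w + z' - Dp zX L1) else 0) := by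
        refine ENNReal.tsum_le_tsum fun L1 => ?_
        by_cases h : fp hX A L1 ∧ HT hX L1 ≤ A + i0
        · rw [if_pos h, if_pos h]
          refine mul_le_mul_right ?_ _
          exact group ΛY hY zY A' i0 (fun a' z' => K (HT hX L1) a' (w + z' - Dp zX L1))
        · rw [if_neg h]; exact zero_le
    _ ≤ ∑ j ∈ Finset.range (i0 + 1), ∑' z, F ΛX hX zX A j z *
        ∑ j' ∈ Finset.range (i0 + 1), ∑' z', F ΛY hY zY A' j' z' *
          K (A + j) (A' + j') (w + z' - z) :=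
        group ΛX hX zX A i0 (fun a z => ∑ j' ∈ Finset.range (i0 + 1), ∑' z',
          F ΛY hY zY A' j' z' * K a (A' + j') (w + z' - z))
    _ = _ := by
        refine Finset.sum_congr rfl fun j _ => ?_
        rw [← Summable.tsum_finsetSum (fun _ _ => ENNReal.summable)]
        refine tsum_congr fun z => ?_
        rw [Finset.mul_sum]
        refine Finset.sum_congr rfl fun j' _ => ?_
        rw [ENNReal.tsum_mul_left]

/-- threshold, local sets and density for one walker -/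
lemma thr (h1 : ∀ b, 1 ≤ hX b) (hΛ : ∑' b, ΛX b = 1) (hU1 : ∀ n, U ΛX hX n ≤ 1) (T i0 : ℕ)
    (u q : ℝ≥0∞) (huq : u + q = 1) (hu0 : u ≠ 0) (hu1 : u < 1) (J r : ℕ)
    (hr : J * (T + i0) ≤ r) :
    ∃ (th Gm : ℝ≥0∞) (E : ℕ → Finset G) (b : ℕ → G → ℝ≥0∞),
      (∑' x : ℕ × G, (open Classical in if F ΛX hX zX T x.1 x.2 < th then
        F ΛX hX zX T x.1 x.2 else 0) ≤ u) ∧
      (∀ i z, th ≤ F ΛX hX zX T i z → z ∈ E i) ∧
      (∀ i, Gm * (E i).card ≤ ((i0 + 1 : ℕ) : ℝ≥0∞) * u⁻¹) ∧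
      (∑' j, ∑' z, b j z ≤ q ^ J + J * ∑' k, tail ΛX hX (i0 + k)) ∧
      (∀ j z, F ΛX hX zX r j z ≤ Gm + b j z) := by
  classical
  have hsum : ∑' x : ℕ × G, F ΛX hX zX T x.1 x.2 = 1 := by
    rw [ENNReal.tsum_prod (f := fun i z => F ΛX hX zX T i z)]
    exact F_sum_eq ΛX hX zX h1 hΛ T
  obtain ⟨th, ht0, ht1, hq1, hq2⟩ := Dens616.quantile
    (fun x : ℕ × G => F ΛX hX zX T x.1 x.2) hsum hu0 hu1
  have hut : u ≠ ⊤ := ne_top_of_lt hu1
  have hFi : ∀ i, ∑' z, F ΛX hX zX T i z ≤ 1 := fun i => by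
    rw [← F_sum_eq ΛX hX zX h1 hΛ T]
    exact ENNReal.le_tsum i
  have hfin : ∀ i, {z | th ≤ F ΛX hX zX T i z}.Finite := fun i =>
    Dens616.finite_local (fun z => F ΛX hX zX T i z)
      (ne_top_of_le_ne_top ENNReal.one_ne_top (hFi i)) ht0
  obtain ⟨b, hb1, hb2⟩ := F_dens ΛX hX zX h1 hΛ hU1 T i0 u q th
    (((i0 + 1 : ℕ) : ℝ≥0∞) * th * u⁻¹) huq (by convert hq2) (by
      rw [mul_comm (((i0 + 1 : ℕ) : ℝ≥0∞) * th) u⁻¹, ← mul_assoc,
        ENNReal.mul_inv_cancel hu0 hut, one_mul]) J r hr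
  refine ⟨th, ((i0 + 1 : ℕ) : ℝ≥0∞) * th * u⁻¹, fun i => (hfin i).toFinset, b, ?_, ?_, ?_, hb1,
    hb2⟩
  · convert hq1
  · intro i z hz
    rw [Set.Finite.mem_toFinset]
    exact hz
  · intro i
    have hc := Dens616.card_mul_le (fun z => F ΛX hX zX T i z) th (hfin i).toFinset (by
      intro z hz
      rw [Set.Finite.mem_toFinset] at hz
      exact hz)
    calc ((i0 + 1 : ℕ) : ℝ≥0∞) * th * u⁻¹ * ((hfin i).toFinset.card : ℝ≥0∞)
        = ((i0 + 1 : ℕ) : ℝ≥0∞) * u⁻¹ * (((hfin i).toFinset.card : ℝ≥0∞) * th) := by ring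
      _ ≤ ((i0 + 1 : ℕ) : ℝ≥0∞) * u⁻¹ * 1 := by
          gcongr
          exact hc.trans (hFi i)
      _ = _ := mul_one _

end win

end Crest.Agent.R154.Asm942
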