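import Crest.Agent.R154.AsmD_97

/-! Row 154 (helper97), ROAD 801: one window, complete bound. -/

set_option autoImplicit false

namespace Crest.Agent.R154.Asm97

open scoped ENNReal
open Crest.Agent.R154.B5A Crest.Agent.R154.FP178

variable {BX BY G : Type*} [AddCommGroup G]
  (ΛX : BX → ℝ≥0∞) (hX : BX → ℕ) (zX : BX → G) (TX : List BX → G → ℕ → Set (G × ℕ))
  (ΛY : BY → ℝ≥0∞) (hY : BY → ℕ) (zY : BY → G) (TY : List BY → G → ℕ → Set (G × ℕ))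

lemma ind_eq (P : Prop) [Decidable P] : ind P = if P then 1 else 0 := by
  by_cases h : P
  · rw [ind_pos h, if_pos h]
  · rw [ind_neg h, if_neg h]

section
variable (h1X : ∀ b, 1 ≤ hX b) (h1Y : ∀ b, 1 ≤ hY b) (hΛX : ∑' b, ΛX b = 1) (hΛY : ∑' b, ΛY b = 1)
include h1X h1Y hΛX hΛY

lemma S4_X1 (a τ : ℕ) (f : List BX → ℝ≥0∞) :
    S4 ΛX hX ΛY hY a τ (fun A _ _ _ => f A) = S ΛX hX a f := by
  simp only [S4, S_const ΛX hX h1X hΛX, S_const ΛY hY h1Y hΛY]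

lemma S4_X2 (a τ : ℕ) (f : List BX → ℝ≥0∞) :
    S4 ΛX hX ΛY hY a τ (fun _ P _ _ => f P) = S ΛX hX τ f := by
  simp only [S4, S_const ΛX hX h1X hΛX, S_const ΛY hY h1Y hΛY]

lemma S4_Y1 (a τ : ℕ) (f : List BY → ℝ≥0∞) :
    S4 ΛX hX ΛY hY a τ (fun _ _ A' _ => f A') = S ΛY hY a f := by
  simp only [S4, S_const ΛX hX h1X hΛX, S_const ΛY hY h1Y hΛY]

lemma S4_Y2 (a τ : ℕ) (f : List BY → ℝ≥0∞) :
    S4 ΛX hX ΛY hY a τ (fun _ _ _ P' => f P') = S ΛY hY τ f := by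
  simp only [S4, S_const ΛX hX h1X hΛX, S_const ΛY hY h1Y hΛY]

lemma S4_XY (a τ : ℕ) (f : List BX → ℝ≥0∞) (g : List BY → ℝ≥0∞) :
    S4 ΛX hX ΛY hY a τ (fun _ P _ P' => f P * g P') = S ΛX hX τ f * S ΛY hY τ g := by
  have e : ∀ P : List BX, S ΛY hY τ (fun P' => f P * g P') = f P * S ΛY hY τ g :=
    fun P => S_const_mul _ _ _ _ _
  have e2 : S ΛX hX τ (fun P => f P * S ΛY hY τ g) = S ΛX hX τ f * S ΛY hY τ g := by
    simp_rw [mul_comm (f _)]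
    rw [S_const_mul, mul_comm]
  simp only [S4, e, S_const ΛY hY h1Y hΛY, e2, S_const ΛX hX h1X hΛX]

end

/-- the pieces of the window -/
def W (a τ i0 lo hi : ℕ) (w : G) (A P : List BX) (A' P' : List BY) : Prop :=
  HT hX A ≤ a + i0 ∧ HT hY A' ≤ a + i0 ∧
  (∃ z k, (z, k) ∈ TX P (Dp zX A) (HT hX A) ∧ (z, k) ∈ TY P' (w + Dp zY A') (HT hY A')) ∧
  (∀ z k, (z, k) ∈ TX P (Dp zX A) (HT hX A) → (z, k) ∈ TY P' (w + Dp zY A') (HT hY A') →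
    lo ≤ k ∧ (HT hX P ≤ τ + i0 → k ≤ hi))

/-- **one window** -/
theorem window (hXX : Tr hX zX TX) (hYY : Tr hY zY TY) (h1X : ∀ b, 1 ≤ hX b)
    (h1Y : ∀ b, 1 ≤ hY b) (hΛX : ∑' b, ΛX b = 1) (hΛY : ∑' b, ΛY b = 1)
    (hUX : ∀ n, U ΛX hX n ≤ 1) (hUY : ∀ n, U ΛY hY n ≤ 1) {C : ℝ≥0∞} {us : ℕ → ℕ → ℝ≥0∞}
    (h2 : H2 ΛX hX zX TX ΛY hY TY C us) (h3 : H3 ΛX hX TX ΛY hY zY TY C us)
    (a τ i0 J s lo hi n : ℕ) (thX thY lam u δ b : ℝ≥0∞) (EX EY : Finset G)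
    (hJ : J * (τ + i0) ≤ a) (hu : u ≤ 1)
    (hEX : thX * EX.card ≤ 1) (hEX' : ∀ h y, thX ≤ p ΛX hX zX τ (h, y) → y ∈ EX)
    (hEY : thY * EY.card ≤ 1) (hEY' : ∀ h y, thY ≤ p ΛY hY zY τ (h, y) → y ∈ EY)
    (hnX : S ΛX hX τ (fun P => ind (p ΛX hX zX τ (HT hX P, Dp zX P) < thX)) ≤ u)
    (hnY : S ΛY hY τ (fun P => ind (p ΛY hY zY τ (HT hY P, Dp zY P) < thY)) ≤ u)
    (hqX : S ΛX hX a (fun A => ind (¬ Sm ΛX hX zX τ i0 thX J A)) ≤ b)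
    (hqY : S ΛY hY a (fun A => ind (¬ Sm ΛY hY zY τ i0 thY J A)) ≤ b)
    (hδX : ∀ a, ov ΛX hX i0 a ≤ δ) (hδY : ∀ a, ov ΛY hY i0 a ≤ δ)
    (hl0 : lam ≠ 0) (hlt : lam ≠ ⊤)
    (hlo : a + i0 + s ≤ lo) (hhi : hi + s ≤ a + τ) (hn : a + i0 + τ ≤ n) (w : G)
    (F : List BX → List BY → ℝ≥0∞) (hF1 : ∀ L L', F L L' ≤ 1)
    (hF : ∀ A P R A' P' R', fp hX a A → fp hX τ P → fp hY a A' → fp hY τ P' →
      HT hX A ≤ a + i0 → HT hY A' ≤ a + i0 →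
      F (A ++ (P ++ R)) (A' ++ (P' ++ R')) ≤ ind (W hX zX TX hY zY TY a τ i0 lo hi w A P A' P')) :
    CR ΛX hX n (fun L => CR ΛY hY n (fun L' => F L L')) ≤
      4 * δ + 2 * b + u ^ 2
      + (((i0 + 1 : ℕ) : ℝ≥0∞) ^ 4 * (C * (lam + (J * (i0 + 1 : ℕ)) * us i0 s / lam + us i0 s))
      + ((i0 + 1 : ℕ) : ℝ≥0∞) ^ 4 *
        (C * (lam + (J * (i0 + 1 : ℕ)) * us (2 * i0) s / lam + us (2 * i0) s))) := by
  have step1 : CR ΛX hX n (fun L => CR ΛY hY n (fun L' => F L L')) ≤ ov ΛX hX i0 a +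
      (ov ΛY hY i0 a + S4 ΛX hX ΛY hY a τ (fun A P A' P' =>
        ind (W hX zX TX hY zY TY a τ i0 lo hi w A P A' P'))) := by
    refine (CR_two ΛX hX h1X hUX a τ i0 n hn _
      (fun L => CR_le_one ΛY hY hUY n fun L' => hF1 L L') (fun A P => ov ΛY hY i0 a +
        S ΛY hY a (fun A' => S ΛY hY τ (fun P' =>
          ind (W hX zX TX hY zY TY a τ i0 lo hi w A P A' P')))) ?_).trans ?_
    · intro A P R hA hHA hP
      exact CR_two ΛY hY h1Y hUY a τ i0 n hn _ (fun L' => hF1 _ L')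
        (fun A' P' => ind (W hX zX TX hY zY TY a τ i0 lo hi w A P A' P'))
        (fun A' P' R' hA' hHA' hP' => hF A P R A' P' R' hA hP hA' hP' hHA hHA')
    · refine add_le_add le_rfl (le_of_eq ?_)
      simp only [S4, S_add, S_const ΛX hX h1X hΛX]
  refine step1.trans ?_
  -- pointwise splitting
  have step2 : S4 ΛX hX ΛY hY a τ (fun A P A' P' =>
        ind (W hX zX TX hY zY TY a τ i0 lo hi w A P A' P')) ≤
      S4 ΛX hX ΛY hY a τ (fun A P A' P' => ind (τ + i0 < HT hX P) + (ind (τ + i0 < HT hY P') +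
        (ind (¬ Sm ΛX hX zX τ i0 thX J A) + (ind (¬ Sm ΛY hY zY τ i0 thY J A') +
        (ind (p ΛX hX zX τ (HT hX P, Dp zX P) < thX) * ind (p ΛY hY zY τ (HT hY P', Dp zY P') < thY)
        + (ind (Sm ΛX hX zX τ i0 thX J A ∧ HT hX A ≤ a + i0 ∧
        HT hX P ≤ τ + i0 ∧ HT hY A' ≤ a + i0 ∧ HT hY P' ≤ τ + i0 ∧ Dp zX P ∈ EX ∧
        (∃ z k, (z, k) ∈ TX P (Dp zX A) (HT hX A) ∧ (z, k) ∈ TY P' (w + Dp zY A') (HT hY A')) ∧
        (∀ z k, (z, k) ∈ TX P (Dp zX A) (HT hX A) → (z, k) ∈ TY P' (w + Dp zY A') (HT hY A') →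
          lo ≤ k))
        + ind (Sm ΛY hY zY τ i0 thY J A' ∧ HT hX A ≤ a + i0 ∧
        HT hX P ≤ τ + i0 ∧ HT hY A' ≤ a + i0 ∧ HT hY P' ≤ τ + i0 ∧ Dp zY P' ∈ EY ∧
        (∃ z k, (z, k) ∈ TX P (Dp zX A) (HT hX A) ∧ (z, k) ∈ TY P' (w + Dp zY A') (HT hY A')) ∧
        (∀ z k, (z, k) ∈ TX P (Dp zX A) (HT hX A) → (z, k) ∈ TY P' (w + Dp zY A') (HT hY A') →
          k ≤ hi))))))))  := by
    refine S4_mono _ _ _ _ _ _ fun A P A' P' hA hP hA' hP' => ?_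
    by_cases hW : W hX zX TX hY zY TY a τ i0 lo hi w A P A' P'
    swap
    · rw [ind_neg hW]; exact zero_le
    rw [ind_pos hW]
    obtain ⟨w1, w2, w3, w4⟩ := hW
    by_cases c1 : τ + i0 < HT hX P
    · rw [ind_pos c1]; exact le_self_add
    refine le_trans ?_ le_add_self
    by_cases c2 : τ + i0 < HT hY P'
    · rw [ind_pos c2]; exact le_self_add
    refine le_trans ?_ le_add_self
    by_cases c3 : Sm ΛX hX zX τ i0 thX J A
    swap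
    · rw [ind_pos c3]; exact le_self_add
    refine le_trans ?_ le_add_self
    by_cases c4 : Sm ΛY hY zY τ i0 thY J A'
    swap
    · rw [ind_pos c4]; exact le_self_add
    refine le_trans ?_ le_add_self
    by_cases c5 : p ΛX hX zX τ (HT hX P, Dp zX P) < thX
    · by_cases c6 : p ΛY hY zY τ (HT hY P', Dp zY P') < thY
      · rw [ind_pos c5, ind_pos c6, mul_one]; exact le_self_add
      · refine le_trans ?_ le_add_self
        refine le_trans ?_ le_add_self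
        rw [ind_pos ⟨c4, w1, by omega, w2, by omega, hEY' _ _ (not_lt.1 c6), w3,
          fun z k h h' => (w4 z k h h').2 (by omega)⟩]
    · refine le_trans ?_ le_add_self
      refine le_trans ?_ le_self_add
      rw [ind_pos ⟨c3, w1, by omega, w2, by omega, hEX' _ _ (not_lt.1 c5), w3,
          fun z k h h' => (w4 z k h h').1⟩]
  have e1 : ∀ a', S ΛX hX a' (fun P => ind (a' + i0 < HT hX P)) ≤ δ := by
    intro a'
    refine le_trans (le_of_eq ?_) (hδX a')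
    rw [ov]; congr 1; funext P; exact ind_eq _
  have e2 : ∀ a', S ΛY hY a' (fun P => ind (a' + i0 < HT hY P)) ≤ δ := by
    intro a'
    refine le_trans (le_of_eq ?_) (hδY a')
    rw [ov]; congr 1; funext P; exact ind_eq _
  have l2 := loc2 ΛX hX zX TX ΛY hY zY TY hXX hYY h1X h1Y hΛX hΛY h2 a τ i0 J s lo thX lam EX hJ
    hEX hl0 hlt hlo w
  have l3 := loc3 ΛX hX zX TX ΛY hY zY TY hXX hYY h1X h1Y hΛX hΛY h3 a τ i0 J s hi thY lam EY hJ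
    hEY hl0 hlt hhi w
  have step3 := step2
  rw [S4_add, S4_add, S4_add, S4_add, S4_add, S4_add, S4_X2 ΛX hX ΛY hY h1X h1Y hΛX hΛY,
    S4_Y2 ΛX hX ΛY hY h1X h1Y hΛX hΛY, S4_X1 ΛX hX ΛY hY h1X h1Y hΛX hΛY,
    S4_Y1 ΛX hX ΛY hY h1X h1Y hΛX hΛY, S4_XY ΛX hX ΛY hY h1X h1Y hΛX hΛY] at step3
  calc _ ≤ δ + (δ + (δ + (δ + (b + (b + (u * u
        + (((i0 + 1 : ℕ) : ℝ≥0∞) ^ 4 * (C * (lam + (J * (i0 + 1 : ℕ)) * us i0 s / lam + us i0 s))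
      + ((i0 + 1 : ℕ) : ℝ≥0∞) ^ 4 *
        (C * (lam + (J * (i0 + 1 : ℕ)) * us (2 * i0) s / lam + us (2 * i0) s))))))))) := by
        refine add_le_add (hδX a) (add_le_add (hδY a) (step3.trans ?_))
        refine add_le_add (e1 τ) (add_le_add (e2 τ) (add_le_add hqX (add_le_add hqY (add_le_add
          (mul_le_mul' hnX hnY) (add_le_add l2 l3)))))
    _ = _ := by ring

end Crest.Agent.R154.Asm97
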