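import Crest.Agent.R154.AsmD_976

/-! Row 154, road 801 (helper976): one window, total. -/

set_option autoImplicit false

namespace Crest.Agent.R154.Asm976

open B5A
open scoped ENNReal
open Classical

variable {BX BY G : Type*} [AddCommGroup G]
variable (ΛX : BX → ℝ≥0∞) (hX : BX → ℕ) (zX : BX → G) (sX : BX → Set (G × ℕ))
  (ΛY : BY → ℝ≥0∞) (hY : BY → ℕ) (zY : BY → G) (sY : BY → Set (G × ℕ))

/-- first passage list without overshoot -/
def Fo {B : Type*} (h : B → ℕ) (T i0 : ℕ) (A : List B) : Prop := FP h T A ∧ HT h A ≤ T + i0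

/-- non local mass -/
lemma nonloc_le {B : Type*} (Λ : B → ℝ≥0∞) (h : B → ℕ) (dp : List B → G) (S : ℕ) (th uu : ℝ≥0∞)
    (hnl : ∑' q, (if al Λ h dp S q < th then al Λ h dp S q else 0) ≤ uu) :
    ∑' P, (if FP h S P ∧ al Λ h dp S (HT h P, dp P) < th then LW Λ P else 0) ≤ uu := by
  have := tsum_fiber Λ h dp S (fun q => if al Λ h dp S q < th then 1 else 0)
  simp only [mul_ite, mul_one, mul_zero] at this
  refine le_trans (le_of_eq ?_) (this.le.trans hnl)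
  refine tsum_congr fun P => ?_
  by_cases h1 : FP h S P <;> by_cases h2 : al Λ h dp S (HT h P, dp P) < th <;> simp [h1, h2]

lemma tie_sum (T1 T1' i0 : ℕ) (w : G) (V : ℕ → ℕ → G → ℝ≥0∞) (hΛ : True) :
    ∑' A, ∑' A', (if Fo hX T1 i0 A ∧ Fo hY T1' i0 A' then
      LW ΛX A * LW ΛY A' * V (HT hX A) (HT hY A') (w + Dp zY A' - Dp zX A) else 0)
    ≤ ∑' q, ∑' q', al ΛX hX (Dp zX) T1 q * al ΛY hY (Dp zY) T1' q' *
      (if q.1 ∈ Finset.Icc T1 (T1 + i0) ∧ q'.1 ∈ Finset.Icc T1' (T1' + i0)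
        then V q.1 q'.1 (w + q'.2 - q.2) else 0) := by
  have e1 : ∀ q, (∑' q', al ΛX hX (Dp zX) T1 q * al ΛY hY (Dp zY) T1' q' *
      (if q.1 ∈ Finset.Icc T1 (T1 + i0) ∧ q'.1 ∈ Finset.Icc T1' (T1' + i0)
        then V q.1 q'.1 (w + q'.2 - q.2) else 0)) = al ΛX hX (Dp zX) T1 q *
      ∑' A', (if FP hY T1' A' then LW ΛY A' *
        (if q.1 ∈ Finset.Icc T1 (T1 + i0) ∧ HT hY A' ∈ Finset.Icc T1' (T1' + i0)
        then V q.1 (HT hY A') (w + Dp zY A' - q.2) else 0) else 0) := by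
    intro q
    rw [tsum_fiber ΛY hY (Dp zY) T1' (fun q' => if q.1 ∈ Finset.Icc T1 (T1 + i0) ∧
      q'.1 ∈ Finset.Icc T1' (T1' + i0) then V q.1 q'.1 (w + q'.2 - q.2) else 0),
      ← ENNReal.tsum_mul_left]
    exact tsum_congr fun q' => mul_assoc _ _ _
  simp_rw [e1]
  rw [← tsum_fiber ΛX hX (Dp zX) T1 (fun q => ∑' A', (if FP hY T1' A' then LW ΛY A' *
        (if q.1 ∈ Finset.Icc T1 (T1 + i0) ∧ HT hY A' ∈ Finset.Icc T1' (T1' + i0)
        then V q.1 (HT hY A') (w + Dp zY A' - q.2) else 0) else 0))]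
  refine ENNReal.tsum_le_tsum fun A => ?_
  by_cases hA : Fo hX T1 i0 A
  · rw [if_pos hA.1, ← ENNReal.tsum_mul_left]
    refine ENNReal.tsum_le_tsum fun A' => ?_
    by_cases hA' : Fo hY T1' i0 A'
    · rw [if_pos ⟨hA, hA'⟩, if_pos hA'.1, if_pos ⟨Finset.mem_Icc.2 ⟨FP_le hX A T1 hA.1, hA.2⟩,
        Finset.mem_Icc.2 ⟨FP_le hY A' T1' hA'.1, hA'.2⟩⟩, mul_assoc]
    · rw [if_neg (fun h => hA' h.2)]; exact zero_le
  · simp [hA]

/-- one window -/
theorem window (hX1 : ∀ b, 1 ≤ hX b) (hY1 : ∀ b, 1 ≤ hY b) (hΛX : ∑' b, ΛX b = 1)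
    (hΛY : ∑' b, ΛY b = 1) (hUX : ∀ n, U ΛX hX n ≤ 1) (hUY : ∀ n, U ΛY hY n ≤ 1)
    (hsX : ∀ b, ∀ p ∈ sX b, 1 ≤ p.2 ∧ p.2 ≤ hX b) (hsY : ∀ b, ∀ p ∈ sY b, 1 ≤ p.2 ∧ p.2 ≤ hY b)
    (C us : ℝ≥0∞) (r0 s : ℕ) (h2 : H2 ΛX hX zX sX ΛY hY zY sY r0 s C us)
    (h3 : H3 ΛX hX zX sX ΛY hY zY sY r0 s C us)
    (n T1 S T1' S' i0 lo hi : ℕ) (thX thY uX uY e1 η βX βY MX MY lam : ℝ≥0∞) (hthX : thX ≠ 0)
    (hthY : thY ≠ 0) (hlam : lam ≠ 0) (hlam' : lam ≠ ⊤)
    (hMX : MX ≠ ⊤) (hMY : MY ≠ ⊤) (hTT : T1 + i0 < T1') (hSS : S + i0 ≤ S')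
    (hr1 : T1' + i0 ≤ T1 + r0) (hr2 : T1' + S' + 2 * i0 ≤ T1 + S + r0)
    (hlo : T1' + i0 + s < lo) (hhi : hi + s ≤ T1 + S) (hn : T1' + i0 + S' ≤ n)
    (hoX : ∀ S, ∑' L, (if FP hX S L ∧ S + i0 < HT hX L then LW ΛX L else 0) ≤ e1)
    (hoY : ∀ S, ∑' L, (if FP hY S L ∧ S + i0 < HT hY L then LW ΛY L else 0) ≤ e1)
    (hnlX : ∑' q, (if al ΛX hX (Dp zX) S q < thX then al ΛX hX (Dp zX) S q else 0) ≤ uX)
    (hnlY : ∑' q, (if al ΛY hY (Dp zY) S' q < thY then al ΛY hY (Dp zY) S' q else 0) ≤ uY)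
    (gX bX gY bY : ℕ × G → ℝ≥0∞)
    (hgX : ∀ q, al ΛX hX (Dp zX) T1 q ≤ gX q + bX q) (hgX' : ∀ q, gX q ≤ al ΛX hX (Dp zX) T1 q)
    (hgXM : ∀ q, gX q ≤ MX) (hbX : ∑' q, bX q ≤ βX)
    (hgY : ∀ q, al ΛY hY (Dp zY) T1' q ≤ gY q + bY q) (hgY' : ∀ q, gY q ≤ al ΛY hY (Dp zY) T1' q)
    (hgYM : ∀ q, gY q ≤ MY) (hbY : ∑' q, bY q ≤ βY) (w : G)
    (hslab : ∑' LX, ∑' LY, (if HT hX LX = n ∧ HT hY LY = n ∧ ∃ z k, hi < k ∧
      k ≤ T1 + S + 2 * i0 ∧ (z, k) ∈ TT hX zX sX LX 0 0 ∧ (z, k) ∈ TT hY zY sY LY w 0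
      then LW ΛX LX * LW ΛY LY else 0) ≤ η) :
    ∑' LX, ∑' LY, (if HT hX LX = n ∧ HT hY LY = n ∧
      (∃ z k, lo ≤ k ∧ k ≤ hi ∧ (z, k) ∈ TT hX zX sX LX 0 0 ∧ (z, k) ∈ TT hY zY sY LY w 0) ∧
      (∀ z k, (z, k) ∈ TT hX zX sX LX 0 0 → (z, k) ∈ TT hY zY sY LY w 0 → lo ≤ k)
      then LW ΛX LX * LW ΛY LY else 0)
    ≤ (e1 + e1) + (e1 + e1) + η + (uX * uY
      + (((i0 + 1 : ℕ) : ℝ≥0∞) * ((i0 + 1 : ℕ) : ℝ≥0∞) * (((i0 + 1 : ℕ) : ℝ≥0∞) *
        ((i0 + 1 : ℕ) : ℝ≥0∞) * (C * (lam + MX * (1 / thX) * us / lam + us))) + βX)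
      + (((i0 + 1 : ℕ) : ℝ≥0∞) * ((i0 + 1 : ℕ) : ℝ≥0∞) * (((i0 + 1 : ℕ) : ℝ≥0∞) *
        ((i0 + 1 : ℕ) : ℝ≥0∞) * (C * (lam + MY * (1 / thY) * us / lam + us))) + βY)) := by
  have hIc : (Finset.Icc T1 (T1 + i0)).card = i0 + 1 := by rw [Nat.card_Icc]; omega
  have hIc' : (Finset.Icc T1' (T1' + i0)).card = i0 + 1 := by rw [Nat.card_Icc]; omega
  -- the main part
  set Mn : List BX → List BY → ℝ≥0∞ := fun LX LY => if HT hX LX = n ∧ HT hY LY = n ∧
      Good hX T1 S i0 LX ∧ Good hY T1' S' i0 LY ∧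
      (∃ z k, lo ≤ k ∧ k ≤ hi ∧ (z, k) ∈ TT hX zX sX LX 0 0 ∧ (z, k) ∈ TT hY zY sY LY w 0) ∧
      (∀ z k, (z, k) ∈ TT hX zX sX LX 0 0 → (z, k) ∈ TT hY zY sY LY w 0 → lo ≤ k) ∧
      ¬ ∃ z k, hi < k ∧ k ≤ T1 + S + 2 * i0 ∧ (z, k) ∈ TT hX zX sX LX 0 0 ∧
        (z, k) ∈ TT hY zY sY LY w 0
      then LW ΛX LX * LW ΛY LY else 0 with hMn
  set CX : List BX × List BX → Prop := fun u => Fo hX T1 i0 u.1 ∧ Fo hX S i0 u.2 with hCX
  set CY : List BY × List BY → Prop := fun u => Fo hY T1' i0 u.1 ∧ Fo hY S' i0 u.2 with hCY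
  set Hh : (List BX × List BX) → (List BY × List BY) → ℝ≥0∞ := fun u u' =>
    if CX u ∧ CY u' ∧ EP hX zX sX hY zY sY lo hi u.2 u'.2 (HT hX u.1) (HT hY u'.1)
      (w + Dp zY u'.1 - Dp zX u.1) then 1 else 0 with hHh
  have hmain : ∑' LX, ∑' LY, Mn LX LY ≤ ∑' u : List BX × List BX, ∑' u' : List BY × List BY,
      (LW ΛX u.1 * LW ΛX u.2) * (LW ΛY u'.1 * LW ΛY u'.2) * Hh u u' := by
    refine pair_split ΛX hX ΛY hY hUX hUY n Mn Hh ?_
    intro LX LY h0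
    have hc : HT hX LX = n ∧ HT hY LY = n ∧
      Good hX T1 S i0 LX ∧ Good hY T1' S' i0 LY ∧
      (∃ z k, lo ≤ k ∧ k ≤ hi ∧ (z, k) ∈ TT hX zX sX LX 0 0 ∧ (z, k) ∈ TT hY zY sY LY w 0) ∧
      (∀ z k, (z, k) ∈ TT hX zX sX LX 0 0 → (z, k) ∈ TT hY zY sY LY w 0 → lo ≤ k) ∧
      ¬ ∃ z k, hi < k ∧ k ≤ T1 + S + 2 * i0 ∧ (z, k) ∈ TT hX zX sX LX 0 0 ∧
        (z, k) ∈ TT hY zY sY LY w 0 := by
      by_contra hc
      exact h0 (if_neg hc)
    obtain ⟨c1, c2, ⟨A, P, R, e1, gA, gP⟩, ⟨A', P', R', e2, gA', gP'⟩, c5, c6, c7⟩ := hc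
    refine ⟨A, P, R, A', P', R', e1, e2, c1, c2, ?_⟩
    have hEP := ev_pieces hX zX sX hY zY sY hsX hsY T1 S T1' S' i0 lo hi (T1 + S + 2 * i0) w A P R A' P' R'
      gA gP gA' gP' (by omega) (by omega) (by omega) (by omega) le_rfl (by rw [← e1, ← e2]; exact c5)
      (by rw [← e1, ← e2]; exact c6) (by rw [← e1, ← e2]; exact c7)
    have : Hh (A, P) (A', P') = 1 := if_pos ⟨⟨gA, gP⟩, ⟨gA', gP'⟩, hEP⟩
    rw [this, mul_one]
    exact (if_pos ⟨c1, c2, ⟨A, P, R, e1, gA, gP⟩, ⟨A', P', R', e2, gA', gP'⟩, c5, c6, c7⟩).le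
  -- the three cases
  set VXf := VX ΛX hX zX sX ΛY hY zY sY S S' i0 lo hi thX with hVXf
  set VYf := VY ΛX hX zX sX ΛY hY zY sY S S' i0 lo hi thY with hVYf
  set NL : List BX → List BY → ℝ≥0∞ := fun P P' =>
    (if FP hX S P ∧ al ΛX hX (Dp zX) S (HT hX P, Dp zX P) < thX then LW ΛX P else 0) *
    (if FP hY S' P' ∧ al ΛY hY (Dp zY) S' (HT hY P', Dp zY P') < thY then LW ΛY P' else 0) with hNL
  have hNLs : ∑' P, ∑' P', NL P P' ≤ uX * uY := by
    simp only [hNL]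
    simp_rw [ENNReal.tsum_mul_left]
    rw [ENNReal.tsum_mul_right]
    exact mul_le_mul' (nonloc_le ΛX hX (Dp zX) S thX uX hnlX)
      (nonloc_le ΛY hY (Dp zY) S' thY uY hnlY)
  have hcases : ∑' u : List BX × List BX, ∑' u' : List BY × List BY,
      (LW ΛX u.1 * LW ΛX u.2) * (LW ΛY u'.1 * LW ΛY u'.2) * Hh u u'
      ≤ ∑' A, ∑' A', (if Fo hX T1 i0 A ∧ Fo hY T1' i0 A' then LW ΛX A * LW ΛY A' *
        (uX * uY + VXf (HT hX A) (HT hY A') (w + Dp zY A' - Dp zX A)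
          + VYf (HT hX A) (HT hY A') (w + Dp zY A' - Dp zX A)) else 0) := by
    rw [ENNReal.tsum_prod']
    refine ENNReal.tsum_le_tsum fun A => ?_
    calc ∑' P, ∑' u' : List BY × List BY, (LW ΛX A * LW ΛX P) * (LW ΛY u'.1 * LW ΛY u'.2) *
          Hh (A, P) u'
        = ∑' P, ∑' A', ∑' P', (LW ΛX A * LW ΛX P) * (LW ΛY A' * LW ΛY P') *
          Hh (A, P) (A', P') := tsum_congr fun P => by rw [ENNReal.tsum_prod']
      _ = ∑' A', ∑' P, ∑' P', (LW ΛX A * LW ΛX P) * (LW ΛY A' * LW ΛY P') *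
          Hh (A, P) (A', P') := ENNReal.tsum_comm
      _ ≤ _ := by
        refine ENNReal.tsum_le_tsum fun A' => ?_
        by_cases hAA : Fo hX T1 i0 A ∧ Fo hY T1' i0 A'
        · rw [if_pos hAA]
          set x := w + Dp zY A' - Dp zX A with hx
          calc ∑' P, ∑' P', (LW ΛX A * LW ΛX P) * (LW ΛY A' * LW ΛY P') * Hh (A, P) (A', P')
              ≤ ∑' P, ∑' P', LW ΛX A * LW ΛY A' * (NL P P' +
                (if (FP hX S P ∧ HT hX P ≤ S + i0 ∧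
                  thX ≤ al ΛX hX (Dp zX) S (HT hX P, Dp zX P)) ∧
                  (FP hY S' P' ∧ HT hY P' ≤ S' + i0) ∧
                  EP hX zX sX hY zY sY lo hi P P' (HT hX A) (HT hY A') x
                  then LW ΛX P * LW ΛY P' else 0) +
                (if (FP hX S P ∧ HT hX P ≤ S + i0) ∧
                  (FP hY S' P' ∧ HT hY P' ≤ S' + i0 ∧
                  thY ≤ al ΛY hY (Dp zY) S' (HT hY P', Dp zY P')) ∧
                  EP hX zX sX hY zY sY lo hi P P' (HT hX A) (HT hY A') x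
                  then LW ΛX P * LW ΛY P' else 0)) := by
                refine ENNReal.tsum_le_tsum fun P => ENNReal.tsum_le_tsum fun P' => ?_
                by_cases hc : CX (A, P) ∧ CY (A', P') ∧ EP hX zX sX hY zY sY lo hi P P'
                    (HT hX A) (HT hY A') x
                · have e1 : Hh (A, P) (A', P') = 1 := if_pos hc
                  obtain ⟨⟨_, p1, p2⟩, ⟨_, p3, p4⟩, p5⟩ := hc
                  rw [e1, mul_one, show LW ΛX A * LW ΛX P * (LW ΛY A' * LW ΛY P')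
                    = LW ΛX A * LW ΛY A' * (LW ΛX P * LW ΛY P') by ring]
                  refine mul_le_mul_right ?_ _
                  by_cases q1 : thX ≤ al ΛX hX (Dp zX) S (HT hX P, Dp zX P)
                  · rw [if_pos (c := (FP hX S P ∧ HT hX P ≤ S + i0 ∧
                      thX ≤ al ΛX hX (Dp zX) S (HT hX P, Dp zX P)) ∧ _)
                      ⟨⟨p1, p2, q1⟩, ⟨p3, p4⟩, p5⟩]
                    exact le_trans le_add_self le_self_add
                  · by_cases q2 : thY ≤ al ΛY hY (Dp zY) S' (HT hY P', Dp zY P')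
                    · rw [if_pos (c := (FP hX S P ∧ HT hX P ≤ S + i0) ∧ (FP hY S' P' ∧ _ ∧ _) ∧ _)
                        ⟨⟨p1, p2⟩, ⟨p3, p4, q2⟩, p5⟩]
                      exact le_add_self
                    · refine le_trans ?_ (le_trans le_self_add le_self_add)
                      simp only [hNL]
                      rw [if_pos ⟨p1, not_le.1 q1⟩, if_pos ⟨p3, not_le.1 q2⟩]
                · have e1 : Hh (A, P) (A', P') = 0 := if_neg hc
                  rw [e1, mul_zero]; exact zero_le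
            _ = LW ΛX A * LW ΛY A' * (∑' P, ∑' P', NL P P' + VXf (HT hX A) (HT hY A') x
                + VYf (HT hX A) (HT hY A') x) := by
                simp_rw [ENNReal.tsum_mul_left, ENNReal.tsum_add]
                rfl
            _ ≤ _ := by
                refine mul_le_mul_right ?_ _
                exact add_le_add (add_le_add hNLs le_rfl) le_rfl
        · rw [if_neg hAA]
          refine le_of_eq ?_
          rw [ENNReal.tsum_eq_zero]
          intro P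
          rw [ENNReal.tsum_eq_zero]
          intro P'
          have e1 : Hh (A, P) (A', P') = 0 := if_neg (fun h => hAA ⟨h.1.1, h.2.1.1⟩)
          rw [e1, mul_zero]
  -- sums of the three cases
  have hsum : ∑' A, ∑' A', (if Fo hX T1 i0 A ∧ Fo hY T1' i0 A' then LW ΛX A * LW ΛY A' *
        (uX * uY + VXf (HT hX A) (HT hY A') (w + Dp zY A' - Dp zX A)
          + VYf (HT hX A) (HT hY A') (w + Dp zY A' - Dp zX A)) else 0)
      ≤ uX * uY
      + (((i0 + 1 : ℕ) : ℝ≥0∞) * ((i0 + 1 : ℕ) : ℝ≥0∞) * (((i0 + 1 : ℕ) : ℝ≥0∞) *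
        ((i0 + 1 : ℕ) : ℝ≥0∞) * (C * (lam + MX * (1 / thX) * us / lam + us))) + βX)
      + (((i0 + 1 : ℕ) : ℝ≥0∞) * ((i0 + 1 : ℕ) : ℝ≥0∞) * (((i0 + 1 : ℕ) : ℝ≥0∞) *
        ((i0 + 1 : ℕ) : ℝ≥0∞) * (C * (lam + MY * (1 / thY) * us / lam + us))) + βY) := by
    have e : ∀ A A', (if Fo hX T1 i0 A ∧ Fo hY T1' i0 A' then LW ΛX A * LW ΛY A' *
        (uX * uY + VXf (HT hX A) (HT hY A') (w + Dp zY A' - Dp zX A)
          + VYf (HT hX A) (HT hY A') (w + Dp zY A' - Dp zX A)) else 0)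
        = (if Fo hX T1 i0 A ∧ Fo hY T1' i0 A' then LW ΛX A * LW ΛY A' else 0) * (uX * uY)
        + (if Fo hX T1 i0 A ∧ Fo hY T1' i0 A' then LW ΛX A * LW ΛY A' *
          VXf (HT hX A) (HT hY A') (w + Dp zY A' - Dp zX A) else 0)
        + (if Fo hX T1 i0 A ∧ Fo hY T1' i0 A' then LW ΛX A * LW ΛY A' *
          VYf (HT hX A) (HT hY A') (w + Dp zY A' - Dp zX A) else 0) := by
      intro A A'
      split_ifs
      · ring
      · simp
    simp_rw [e, ENNReal.tsum_add]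
    refine add_le_add (add_le_add ?_ ?_) ?_
    · simp_rw [ENNReal.tsum_mul_right]
      calc _ ≤ 1 * (uX * uY) := mul_le_mul_left (FP2_mass ΛX hX ΛY hY hX1 hY1 hΛX hΛY T1 T1' _
            (fun _ _ h => ⟨h.1.1, h.2.1⟩)) _
        _ = _ := one_mul _
    · refine (tie_sum ΛX hX zX ΛY hY zY T1 T1' i0 w VXf trivial).trans ?_
      have := tie (al ΛX hX (Dp zX) T1) (al ΛY hY (Dp zY) T1') gX bX VXf
        (Finset.Icc T1 (T1 + i0)) (Finset.Icc T1' (T1' + i0)) w MX (((i0 + 1 : ℕ) : ℝ≥0∞) *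
        ((i0 + 1 : ℕ) : ℝ≥0∞) * (C * (lam + MX * (1 / thX) * us / lam + us))) βX
        (al_mass ΛY hY hY1 hΛY (Dp zY) T1').le (al_mass ΛX hX hX1 hΛX (Dp zX) T1).le
        hgX hgX' hgXM hbX (VX_le_one ΛX hX zX sX ΛY hY zY sY hX1 hY1 hΛX hΛY S S' i0 lo hi thX)
        (fun a ha a' ha' μ m1 m2 => VX_bound ΛX hX zX sX ΛY hY zY sY C us r0 s h2 hX1 hΛX S S' i0 lo hi
          thX MX lam hthX hlam hlam' hMX a a'
          (by have := Finset.mem_Icc.1 ha; have := Finset.mem_Icc.1 ha'; omega)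
          (by have := Finset.mem_Icc.1 ha; have := Finset.mem_Icc.1 ha'; omega)
          (by have := Finset.mem_Icc.1 ha; have := Finset.mem_Icc.1 ha'; omega)
          (by have := Finset.mem_Icc.1 ha; have := Finset.mem_Icc.1 ha'; omega)
          (by have := Finset.mem_Icc.1 ha; have := Finset.mem_Icc.1 ha'; omega) μ m1 m2)
      rw [hIc, hIc'] at this
      exact this
    · refine (tie_sum ΛX hX zX ΛY hY zY T1 T1' i0 w VYf trivial).trans ?_
      have := tie (al ΛY hY (Dp zY) T1') (al ΛX hX (Dp zX) T1) gY bY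
        (fun a' a x => VYf a a' (-x))
        (Finset.Icc T1' (T1' + i0)) (Finset.Icc T1 (T1 + i0)) (-w) MY (((i0 + 1 : ℕ) : ℝ≥0∞) *
        ((i0 + 1 : ℕ) : ℝ≥0∞) * (C * (lam + MY * (1 / thY) * us / lam + us))) βY
        (al_mass ΛX hX hX1 hΛX (Dp zX) T1).le (al_mass ΛY hY hY1 hΛY (Dp zY) T1').le
        hgY hgY' hgYM hbY
        (fun a' a x => VY_le_one ΛX hX zX sX ΛY hY zY sY hX1 hY1 hΛX hΛY S S' i0 lo hi thY a a' (-x))
        (fun a' ha' a ha μ m1 m2 => by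
          rw [← (Equiv.neg G).tsum_eq]
          simp only [Equiv.neg_apply, neg_neg]
          refine VY_bound ΛX hX zX sX ΛY hY zY sY C us r0 s h3 hY1 hΛY S S' i0 lo hi
            thY MY lam hthY hlam hlam' hMY a a'
            (by have := Finset.mem_Icc.1 ha; have := Finset.mem_Icc.1 ha'; omega)
            (by have := Finset.mem_Icc.1 ha; have := Finset.mem_Icc.1 ha'; omega)
            (by have := Finset.mem_Icc.1 ha; have := Finset.mem_Icc.1 ha'; omega)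
            (by have := Finset.mem_Icc.1 ha; have := Finset.mem_Icc.1 ha'; omega)
            (by have := Finset.mem_Icc.1 ha; have := Finset.mem_Icc.1 ha'; omega) (fun x => μ (-x)) ?_ (fun x => m2 _)
          have hneg := (Equiv.neg G).tsum_eq μ
          simp only [Equiv.neg_apply] at hneg
          rw [hneg]
          exact m1)
      rw [hIc, hIc'] at this
      refine le_trans (le_of_eq ?_) this
      rw [ENNReal.tsum_comm]
      refine tsum_congr fun q' => tsum_congr fun q => ?_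
      rw [mul_comm (al ΛX hX (Dp zX) T1 q),
        show -(-w + q.2 - q'.2) = w + q'.2 - q.2 by abel]
      congr 1
      by_cases h1 : q.1 ∈ Finset.Icc T1 (T1 + i0) <;> by_cases h2 : q'.1 ∈ Finset.Icc T1' (T1' + i0) <;>
        simp [h1, h2]
  -- total
  have hbadX := bad_le ΛX hX hX1 hΛX hUX n T1 S i0 (by omega) e1 hoX
  have hbadY := bad_le ΛY hY hY1 hΛY hUY n T1' S' i0 hn e1 hoY
  calc _ ≤ ∑' LX, ∑' LY, ((if HT hX LX = n ∧ ¬ Good hX T1 S i0 LX then LW ΛX LX else 0) *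
        (if HT hY LY = n then LW ΛY LY else 0) +
        (if HT hX LX = n then LW ΛX LX else 0) *
        (if HT hY LY = n ∧ ¬ Good hY T1' S' i0 LY then LW ΛY LY else 0) +
        (if HT hX LX = n ∧ HT hY LY = n ∧ ∃ z k, hi < k ∧
          k ≤ T1 + S + 2 * i0 ∧ (z, k) ∈ TT hX zX sX LX 0 0 ∧ (z, k) ∈ TT hY zY sY LY w 0
          then LW ΛX LX * LW ΛY LY else 0) + Mn LX LY) := by
        refine ENNReal.tsum_le_tsum fun LX => ENNReal.tsum_le_tsum fun LY => ?_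
        by_cases hc : HT hX LX = n ∧ HT hY LY = n ∧
            (∃ z k, lo ≤ k ∧ k ≤ hi ∧ (z, k) ∈ TT hX zX sX LX 0 0 ∧ (z, k) ∈ TT hY zY sY LY w 0) ∧
            (∀ z k, (z, k) ∈ TT hX zX sX LX 0 0 → (z, k) ∈ TT hY zY sY LY w 0 → lo ≤ k)
        swap
        · exact (if_neg hc).trans_le zero_le
        · refine (if_pos hc).trans_le ?_
          by_cases hGX : Good hX T1 S i0 LX
          swap
          · have e1' : (if HT hX LX = n ∧ ¬ Good hX T1 S i0 LX then LW ΛX LX else 0) = LW ΛX LX :=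
              if_pos ⟨hc.1, hGX⟩
            have e2' : (if HT hY LY = n then LW ΛY LY else 0) = LW ΛY LY := if_pos hc.2.1
            rw [e1', e2']
            exact le_add_right (le_add_right (le_add_right le_rfl))
          by_cases hGY : Good hY T1' S' i0 LY
          swap
          · have e1' : (if HT hY LY = n ∧ ¬ Good hY T1' S' i0 LY then LW ΛY LY else 0) = LW ΛY LY :=
              if_pos ⟨hc.2.1, hGY⟩
            have e2' : (if HT hX LX = n then LW ΛX LX else 0) = LW ΛX LX := if_pos hc.1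
            rw [e1', e2']
            exact le_add_right (le_add_right (le_add_left le_rfl))
          by_cases hSl : ∃ z k, hi < k ∧ k ≤ T1 + S + 2 * i0 ∧ (z, k) ∈ TT hX zX sX LX 0 0 ∧
            (z, k) ∈ TT hY zY sY LY w 0
          · have e3' : (if HT hX LX = n ∧ HT hY LY = n ∧ ∃ z k, hi < k ∧
              k ≤ T1 + S + 2 * i0 ∧ (z, k) ∈ TT hX zX sX LX 0 0 ∧ (z, k) ∈ TT hY zY sY LY w 0
              then LW ΛX LX * LW ΛY LY else 0) = LW ΛX LX * LW ΛY LY :=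
              if_pos ⟨hc.1, hc.2.1, hSl⟩
            rw [e3']
            exact le_add_right (le_add_left le_rfl)
          · have e4' : Mn LX LY = LW ΛX LX * LW ΛY LY :=
              if_pos ⟨hc.1, hc.2.1, hGX, hGY, hc.2.2.1, hc.2.2.2, hSl⟩
            rw [e4']
            exact le_add_left le_rfl
    _ = (∑' LX, (if HT hX LX = n ∧ ¬ Good hX T1 S i0 LX then LW ΛX LX else 0)) * U ΛY hY n
        + U ΛX hX n * (∑' LY, (if HT hY LY = n ∧ ¬ Good hY T1' S' i0 LY then LW ΛY LY else 0))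
        + (∑' LX, ∑' LY, (if HT hX LX = n ∧ HT hY LY = n ∧ ∃ z k, hi < k ∧
          k ≤ T1 + S + 2 * i0 ∧ (z, k) ∈ TT hX zX sX LX 0 0 ∧ (z, k) ∈ TT hY zY sY LY w 0
          then LW ΛX LX * LW ΛY LY else 0)) + ∑' LX, ∑' LY, Mn LX LY := by
        simp_rw [ENNReal.tsum_add]
        congr 3
        · simp_rw [ENNReal.tsum_mul_left]
          rw [ENNReal.tsum_mul_right, U]
        · simp_rw [ENNReal.tsum_mul_left]
          rw [ENNReal.tsum_mul_right, U]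
    _ ≤ _ := by
        refine add_le_add (add_le_add (add_le_add ?_ ?_) hslab) (hmain.trans (hcases.trans hsum))
        · calc _ ≤ (e1 + e1) * 1 := mul_le_mul' hbadX (hUY n)
            _ = _ := mul_one _
        · calc _ ≤ 1 * (e1 + e1) := mul_le_mul' (hUX n) hbadY
            _ = _ := one_mul _

end Crest.Agent.R154.Asm976
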