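import Crest.Agent.R154.AsmD_999

/-! Row 154, ROAD 801, assembly part E (helper999): geometry and the sum over the windows. -/

set_option autoImplicit false

namespace Crest.Agent.R154.Asm999

open scoped ENNReal
open Crest.Agent.R154.B5A
open Crest.Agent.R154.Asm540 (FP split_le fp_mass over_le e1 wA wA_mass fp_HT TR TR_append TR_depth
  TR_shift Dp)

section geo
variable {BX BY G : Type*} [AddCommGroup G]
  (ΛX : BX → ℝ≥0∞) (ΛY : BY → ℝ≥0∞) (hX : BX → ℕ) (hY : BY → ℕ) (zX : BX → G) (zY : BY → G)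
  (sX : BX → Set (G × ℕ)) (sY : BY → Set (G × ℕ))

/-- the slab number `j` -/
def inSlab (T i0 J s j k : ℕ) : Prop := j * T ≤ k + s ∧ k ≤ j * T + 2 * (J * i0) + i0 + s

/-- good pairs of lists: a contact with depth in `(m, 2m]`, no contact in the slabs -/
def QQ (T i0 J K s m : ℕ) (w : G) (L : List BX) (L' : List BY) : Prop :=
  (∃ g k, m < k ∧ k ≤ 2 * m ∧ Asm540.Cm hX hY zX zY sX sY L L' w 0 0 g k) ∧
    ∀ g k, Asm540.Cm hX hY zX zY sX sY L L' w 0 0 g k → ∀ j, K ≤ j → j ≤ J →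
      ¬ inSlab T i0 J s j k

/-- window contact in the lists of pieces -/
def WW (T i0 J s j : ℕ) (w : G) (VV : List (List BX)) (V0 : List BY) (VV' : List (List BY)) :
    Prop :=
  ∃ A V B A' V' B', VV = A ++ V :: B ∧ A.length = j ∧ VV' = A' ++ V' :: B' ∧ A'.length = j ∧
    PC hX hY zX zY sX sY V V' ((w + Dp zY V0 + (A'.map (Dp zY)).sum) - (A.map (Dp zX)).sum)
      (A.map (HT hX)).sum (HT hY V0 + (A'.map (HT hY)).sum)
      (j * T + 2 * (J * i0) + i0 + s) ((j + 1) * T - s)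

lemma take_bd {B : Type*} (ht : B → ℕ) (T i0 J : ℕ) (VV : List (List B))
    (hVV : ∀ V ∈ VV, T ≤ HT ht V ∧ HT ht V ≤ T + i0) (hl : VV.length = J) (j : ℕ) (hj : j ≤ J) :
    j * T ≤ ((VV.take j).map (HT ht)).sum ∧ ((VV.take j).map (HT ht)).sum ≤ j * T + j * i0 := by
  have := sum_bd (HT ht) T i0 (VV.take j) fun b hb => hVV b (List.mem_of_mem_take hb)
  rwa [List.length_take, hl, min_eq_left hj] at this

lemma len_bd {B : Type*} (ht : B → ℕ) (T i0 j : ℕ) (A : List (List B)) (V : List B)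
    (B' : List (List B)) (hVV : ∀ V' ∈ A ++ V :: B', T ≤ HT ht V' ∧ HT ht V' ≤ T + i0)
    (hl : A.length = j) :
    j * T ≤ (A.map (HT ht)).sum ∧ (A.map (HT ht)).sum ≤ j * T + j * i0 ∧ HT ht V ≤ T + i0 := by
  have := sum_bd (HT ht) T i0 A fun b hb => hVV b (List.mem_append_left _ hb)
  rw [hl] at this
  exact ⟨this.1, this.2, (hVV V (by simp)).2⟩

theorem geo (hsX : ∀ b, ∀ p ∈ sX b, 1 ≤ p.2 ∧ p.2 ≤ hX b)
    (hsY : ∀ b, ∀ p ∈ sY b, 1 ≤ p.2 ∧ p.2 ≤ hY b) (T i0 J K s m : ℕ) (hT : 0 < T)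
    (hKm : K * T ≤ m) (hmJ : 2 * m ≤ J * T) (w : G)
    (VV : List (List BX)) (R : List BX) (V0 : List BY) (VV' : List (List BY)) (R' : List BY)
    (hVV : ∀ V ∈ VV, T ≤ HT hX V ∧ HT hX V ≤ T + i0) (hl : VV.length = J)
    (hV0 : J * i0 ≤ HT hY V0 ∧ HT hY V0 ≤ J * i0 + i0)
    (hVV' : ∀ V ∈ VV', T ≤ HT hY V ∧ HT hY V ≤ T + i0) (hl' : VV'.length = J)
    (hQ : QQ hX hY zX zY sX sY T i0 J K s m w (VV.flatten ++ R) (V0 ++ (VV'.flatten ++ R'))) :
    ∃ j, K ≤ j ∧ j < J ∧ WW hX hY zX zY sX sY T i0 J s j w VV V0 VV' := by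
  obtain ⟨⟨g, k, hk1, hk2, hgX, hgY⟩, hns⟩ := hQ
  obtain ⟨j, hj⟩ : ∃ j, j = k / T := ⟨_, rfl⟩
  have hjk : j * T ≤ k := by rw [hj]; exact Nat.div_mul_le_self k T
  have hjk2 : k < (j + 1) * T := by
    rw [hj]
    have := Nat.lt_div_mul_add hT (a := k)
    nlinarith
  have hKj : K ≤ j := by
    rw [hj]; exact (Nat.le_div_iff_mul_le hT).2 (by omega)
  have hjJ : j ≤ J := by
    by_contra hc
    have : (J + 1) * T ≤ j * T := Nat.mul_le_mul_right _ (by omega)
    nlinarith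
  have hC : Asm540.Cm hX hY zX zY sX sY (VV.flatten ++ R) (V0 ++ (VV'.flatten ++ R')) w 0 0 g k :=
    ⟨hgX, hgY⟩
  have hjJ' : j < J := by
    rcases Nat.lt_or_ge j J with h | h
    · exact h
    · have : j = J := le_antisymm hjJ h
      subst this
      exact absurd ⟨by omega, by omega⟩ (hns g k hC j hKj le_rfl)
  have hJ1 : (j + 1) * i0 ≤ J * i0 := Nat.mul_le_mul_right _ hjJ'
  have hJ2 : (j + 1) * i0 = j * i0 + i0 := by ring
  have hJ3 : (j + 1) * T = j * T + T := by ring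
  have hs1 : ∀ g' k', Asm540.Cm hX hY zX zY sX sY (VV.flatten ++ R)
      (V0 ++ (VV'.flatten ++ R')) w 0 0 g' k' → j * T ≤ k' → k' ≤ (j + 1) * T + (j + 1) * i0 →
      j * T + 2 * (J * i0) + i0 + s < k' ∧ k' + s < (j + 1) * T := by
    intro g' k' hc h1 h2
    have a1 := hns g' k' hc j hKj hjJ
    have a2 := hns g' k' hc (j + 1) (by omega) hjJ'
    unfold inSlab at a1 a2
    constructor
    · by_contra h3
      exact a1 ⟨by omega, by omega⟩
    · by_contra h3
      exact a2 ⟨by omega, by omega⟩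
  obtain ⟨k1, k2⟩ := hs1 g k hC hjk (by omega)
  have tX := take_bd hX T i0 J VV hVV hl
  have tY := take_bd hY T i0 J VV' hVV' hl'
  have tXj := tX j hjJ
  have tXj1 := tX (j + 1) hjJ'
  have tYj := tY j hjJ
  have tYj1 := tY (j + 1) hjJ'
  obtain ⟨A, V, B, eA, lA, cA, dA⟩ := piece_at hX zX sX hsX VV R j (by omega) 0 0 g k hgX
    (by omega) (by omega)
  have hgY' : (g, k) ∈ TR sY zY hY (VV'.flatten ++ R') (w + Dp zY V0) (0 + HT hY V0) := by
    have h0 := hgY
    rw [TR_append] at h0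
    rcases h0 with h0 | h0
    · have := (TR_depth _ _ _ hsY _ _ _ _ h0).2
      simp only at this
      omega
    · exact h0
  obtain ⟨A', V', B', eA', lA', cA', dA'⟩ := piece_at hY zY sY hsY VV' R' j (by omega)
    (w + Dp zY V0) (0 + HT hY V0) g k hgY' (by omega) (by omega)
  refine ⟨j, hKj, hjJ', A, V, B, A', V', B', eA, lA, eA', lA', ?_, ?_⟩
  · refine ⟨g - (A.map (Dp zX)).sum, k, ?_, ?_⟩
    · rw [← TR_shift]
      rwa [Nat.zero_add] at cA
    · rw [← TR_shift, sub_add_cancel]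
      rwa [Nat.zero_add] at cA'
  · intro g' k' hc
    obtain ⟨c1, c2⟩ := hc
    have bA := len_bd hX T i0 j A V B (by rw [← eA]; exact hVV) lA
    have d1 := TR_depth _ _ _ hsX _ _ _ _ c1
    simp only at d1
    have c1' : (g' + (A.map (Dp zX)).sum, k') ∈ TR sX zX hX V (0 + (A.map (Dp zX)).sum)
        (0 + (A.map (HT hX)).sum) := by
      rw [TR_shift, add_sub_cancel_right, zero_add]
      exact c1
    have c2' : (g' + (A.map (Dp zX)).sum, k') ∈ TR sY zY hY V'
        (w + Dp zY V0 + (A'.map (Dp zY)).sum) (0 + HT hY V0 + (A'.map (HT hY)).sum) := by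
      have : w + Dp zY V0 + (A'.map (Dp zY)).sum
          = (w + Dp zY V0 + (A'.map (Dp zY)).sum - (A.map (Dp zX)).sum) + (A.map (Dp zX)).sum := by
        abel
      rw [this, TR_shift, add_sub_cancel_right, zero_add]
      exact c2
    have e1 := dA _ _ c1'
    have e2 := dA' _ _ c2'
    have hc' : Asm540.Cm hX hY zX zY sX sY (VV.flatten ++ R) (V0 ++ (VV'.flatten ++ R')) w 0 0
        (g' + (A.map (Dp zX)).sum) k' := by
      refine ⟨e1, ?_⟩
      rw [TR_append]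
      exact Or.inr e2
    obtain ⟨f1, f2⟩ := hs1 _ _ hc' (by omega) (by omega)
    constructor <;> omega

open Classical in
/-- total weight of the good pairs -/
theorem good_le (h1X : ∀ b, 1 ≤ hX b) (h1Y : ∀ b, 1 ≤ hY b) (hΛX : ∑' b, ΛX b ≤ 1)
    (hΛY : ∑' b, ΛY b ≤ 1) (hUX : ∀ n, U ΛX hX n ≤ 1) (hUY : ∀ n, U ΛY hY n ≤ 1)
    (hsX : ∀ b, ∀ p ∈ sX b, 1 ≤ p.2 ∧ p.2 ≤ hX b)
    (hsY : ∀ b, ∀ p ∈ sY b, 1 ≤ p.2 ∧ p.2 ≤ hY b) (T i0 J K s m n : ℕ) (hT : 0 < T)
    (hKm : K * T ≤ m) (hmJ : 2 * m ≤ J * T) (w : G)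
    (hn : J * i0 + i0 + J * (T + i0) ≤ n) :
    ∑' L : List BX, ∑' L' : List BY, (if HT hX L = n ∧ HT hY L' = n ∧
        QQ hX hY zX zY sX sY T i0 J K s m w L L' then LW ΛX L * LW ΛY L' else 0)
      ≤ J * e1 ΛX hX i0 + (J + 1) * e1 ΛY hY i0 + ∑ j ∈ Finset.Ico K J,
        S5 (wj (wA ΛX hX T i0) j) (wA ΛX hX T i0) (wA ΛY hY (J * i0) i0) (wj (wA ΛY hY T i0) j)
      (wA ΛY hY T i0) (ind hX hY zX zY sX sY w (j * T + 2 * (J * i0) + i0 + s) ((j + 1) * T - s)) := by
  have mX := wA_mass ΛX hX h1X hΛX T i0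
  have mY := wA_mass ΛY hY h1Y hΛY T i0
  have m0 := wA_mass ΛY hY h1Y hΛY (J * i0) i0
  set F : List BX → ℝ≥0∞ := fun L => ∑' L' : List BY, (if HT hY L' = n then LW ΛY L' *
    (if QQ hX hY zX zY sX sY T i0 J K s m w L L' then 1 else 0) else 0) with hF
  have e0 : ∑' L : List BX, ∑' L' : List BY, (if HT hX L = n ∧ HT hY L' = n ∧
        QQ hX hY zX zY sX sY T i0 J K s m w L L' then LW ΛX L * LW ΛY L' else 0)
      = ∑' L : List BX, (if HT hX L = n then LW ΛX L * F L else 0) := by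
    refine tsum_congr fun L => ?_
    by_cases h : HT hX L = n
    · rw [if_pos h, hF, ← ENNReal.tsum_mul_left]
      refine tsum_congr fun L' => ?_
      by_cases h' : HT hY L' = n
      · by_cases h'' : QQ hX hY zX zY sX sY T i0 J K s m w L L'
        · simp [h, h', h'']
        · simp [h', h'']
      · simp [h']
    · simp [h]
  rw [e0]
  set IW : ℕ → List (List BX) → List BY → List (List BY) → ℝ≥0∞ := fun j VV V0 VV' =>
    if WW hX hY zX zY sX sY T i0 J s j w VV V0 VV' then 1 else 0 with hIW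
  set Fh : List (List BX) → ℝ≥0∞ := fun VV => e1 ΛY hY i0 + ∑' V0, wA ΛY hY (J * i0) i0 V0 *
    (J * e1 ΛY hY i0 + SL (wA ΛY hY T i0) J (fun VV' => ∑ j ∈ Finset.Ico K J, IW j VV V0 VV'))
    with hFh
  have hF1 : ∀ L, F L ≤ 1 := by
    intro L
    refine le_trans (ENNReal.tsum_le_tsum fun L' => ?_) (hUY n)
    by_cases h : HT hY L' = n
    · rw [if_pos h, if_pos h]
      split_ifs <;> simp
    · rw [if_neg h, if_neg h]
  refine (pieces ΛX hX h1X hΛX hUX T i0 J n F Fh (by omega) hF1 ?_).trans ?_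
  · intro VV R hVV hl
    refine (piece_step ΛY hY h1Y hUY (J * i0) i0 n (by omega) _ (fun V0 => J * e1 ΛY hY i0 +
      SL (wA ΛY hY T i0) J (fun VV' => ∑ j ∈ Finset.Ico K J, IW j VV V0 VV')) ?_ ?_)
    · intro L'; split_ifs <;> simp
    · intro V0 hV0 hV0'
      have hV00 := fp_HT hY hV0
      refine pieces ΛY hY h1Y hΛY hUY T i0 J (n - HT hY V0) _ _ (by omega) ?_ ?_
      · intro L'; split_ifs <;> simp
      · intro VV' R' hVV' hl'
        split_ifs with hQ
        · obtain ⟨j, hj1, hj2, hW⟩ := geo hX hY zX zY sX sY hsX hsY T i0 J K s m hT hKm hmJ w VV R V0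
            VV' R' hVV hl ⟨hV00, hV0'⟩ hVV' hl' hQ
          refine le_trans ?_ (Finset.single_le_sum (f := fun j => IW j VV V0 VV')
            (fun _ _ => zero_le) (Finset.mem_Ico.2 ⟨hj1, hj2⟩))
          simp only [hIW, if_pos hW]
          exact le_rfl
        · exact zero_le
  · rw [add_assoc]
    gcongr
    -- now the sum over pieces
    have step1 : SL (wA ΛX hX T i0) J Fh ≤ (J + 1) * e1 ΛY hY i0 +
        SL (wA ΛX hX T i0) J (fun VV => ∑ j ∈ Finset.Ico K J, ∑' V0, wA ΛY hY (J * i0) i0 V0 *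
          SL (wA ΛY hY T i0) J (fun VV' => IW j VV V0 VV')) := by
      have hle : ∀ VV, Fh VV ≤ (J + 1) * e1 ΛY hY i0 + ∑ j ∈ Finset.Ico K J, ∑' V0,
          wA ΛY hY (J * i0) i0 V0 * SL (wA ΛY hY T i0) J (fun VV' => IW j VV V0 VV') := by
        intro VV
        simp only [hFh, mul_add, ENNReal.tsum_add]
        have hsum : ∑' V0, wA ΛY hY (J * i0) i0 V0 * SL (wA ΛY hY T i0) J
            (fun VV' => ∑ j ∈ Finset.Ico K J, IW j VV V0 VV')
            = ∑ j ∈ Finset.Ico K J, ∑' V0, wA ΛY hY (J * i0) i0 V0 *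
              SL (wA ΛY hY T i0) J (fun VV' => IW j VV V0 VV') := by
          rw [← Summable.tsum_finsetSum (fun _ _ => ENNReal.summable)]
          refine tsum_congr fun V0 => ?_
          rw [← Finset.mul_sum]
          congr 1
          simp only [SL_wj]
          rw [← Summable.tsum_finsetSum (fun _ _ => ENNReal.summable)]
          refine tsum_congr fun VV' => ?_
          rw [Finset.mul_sum]
        rw [hsum, ← add_assoc]
        gcongr
        rw [ENNReal.tsum_mul_right]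
        calc e1 ΛY hY i0 + (∑' V, wA ΛY hY (J * i0) i0 V) * (J * e1 ΛY hY i0)
            ≤ e1 ΛY hY i0 + 1 * (J * e1 ΛY hY i0) := by gcongr
          _ = (J + 1) * e1 ΛY hY i0 := by ring
      refine (SL_mono _ J fun VV _ => hle VV).trans ?_
      rw [SL_add_fun]
      gcongr
      exact SL_const_le _ mX J _
    refine step1.trans ?_
    gcongr
    have hsw : SL (wA ΛX hX T i0) J (fun VV => ∑ j ∈ Finset.Ico K J, ∑' V0,
          wA ΛY hY (J * i0) i0 V0 * SL (wA ΛY hY T i0) J (fun VV' => IW j VV V0 VV'))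
        = ∑ j ∈ Finset.Ico K J, SL (wA ΛX hX T i0) J (fun VV => ∑' V0,
          wA ΛY hY (J * i0) i0 V0 * SL (wA ΛY hY T i0) J (fun VV' => IW j VV V0 VV')) := by
      simp only [SL_wj (wA ΛX hX T i0)]
      rw [← Summable.tsum_finsetSum (fun _ _ => ENNReal.summable)]
      refine tsum_congr fun VV => ?_
      rw [Finset.mul_sum]
    rw [hsw]
    refine Finset.sum_le_sum fun j hj => ?_
    rw [Finset.mem_Ico] at hj
    refine (SL_pick (wA ΛX hX T i0) mX j J hj.2 _ (fun A V => ∑' V0, wA ΛY hY (J * i0) i0 V0 *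
      SL (wA ΛY hY T i0) j (fun A' => ∑' V', wA ΛY hY T i0 V' *
        ind hX hY zX zY sX sY w (j * T + 2 * (J * i0) + i0 + s) ((j + 1) * T - s) A V V0 A' V'))
      ?_).trans ?_
    · intro A V B hA
      refine ENNReal.tsum_le_tsum fun V0 => mul_le_mul_right ?_ _
      refine SL_pick (wA ΛY hY T i0) mY j J hj.2 _ _ fun A' V' B' hA' => ?_
      simp only [hIW]
      by_cases hW : WW hX hY zX zY sX sY T i0 J s j w (A ++ V :: B) V0 (A' ++ V' :: B')
      · rw [if_pos hW]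
        obtain ⟨A1, V1, B1, A1', V1', B1', q1, q2, q3, q4, q5⟩ := hW
        have r1 := List.append_inj q1 (by rw [hA, q2])
        have r2 := List.append_inj q3 (by rw [hA', q4])
        have r3 := List.cons.inj r1.2
        have r4 := List.cons.inj r2.2
        rw [← r1.1, ← r2.1, ← r3.1, ← r4.1] at q5
        rw [ind, if_pos q5]
      · rw [if_neg hW]; exact zero_le
    · simp only [SL_wj, S5]
      exact le_rfl

end geo

end Crest.Agent.R154.Asm999
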