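import Crest.Agent.R154.B5Rec_566
import Crest.Agent.R154.Dens_280
import Crest.Agent.R154.Dens_616

/-! Row 154, ROAD 801, abstract assembly, part 1 (helper543): first passage lists. -/

set_option autoImplicit false

namespace Crest.Agent.R154.Asm543

open Crest.Agent.R154.B5A Filter Topology
open scoped ENNReal

variable {B G : Type*} (Λ : B → ℝ≥0∞) (ht : B → ℕ)

/-- first passage lists of height `≥ a` -/
def FP (ht : B → ℕ) : List B → ℕ → Prop
  | [], a => a = 0
  | b :: L, a => 0 < a ∧ FP ht L (a - ht b)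

lemma FP_nil (a : ℕ) : FP ht [] a ↔ a = 0 := Iff.rfl

lemma FP_cons (b : B) (L : List B) (a : ℕ) : FP ht (b :: L) a ↔ 0 < a ∧ FP ht L (a - ht b) := Iff.rfl

lemma FP_le (L : List B) (a : ℕ) (h : FP ht L a) : a ≤ HT ht L := by
  induction L generalizing a with
  | nil => rw [FP_nil] at h; omega
  | cons b L ih => rw [HT_cons]; have := ih _ h.2; omega

open Classical in
lemma sum_FP_zero (F : List B → ℝ≥0∞) : ∑' A, (if FP ht A 0 then F A else 0) = F [] := by
  rw [tsum_list]
  simp [FP_nil, FP_cons]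

open Classical in
lemma sum_FP_pos {a : ℕ} (ha : 0 < a) (F : List B → ℝ≥0∞) :
    ∑' A, (if FP ht A a then F A else 0)
      = ∑' b, ∑' A, (if FP ht A (a - ht b) then F (b :: A) else 0) := by
  rw [tsum_list]
  have h0 : ¬ a = 0 := by omega
  simp [FP_nil, FP_cons, ha, h0]

open Classical in
lemma FP_split (h1 : ∀ b, 1 ≤ ht b) (a : ℕ) (F : List B → ℝ≥0∞) :
    ∑' L, (if a ≤ HT ht L then F L else 0)
      = ∑' A, (if FP ht A a then ∑' R, F (A ++ R) else 0) := by
  induction a using Nat.strong_induction_on generalizing F with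
  | _ a ih =>
    rcases Nat.eq_zero_or_pos a with rfl | ha
    · rw [sum_FP_zero]; simp
    · rw [sum_FP_pos ht ha, tsum_list]
      have h0 : ¬ a ≤ HT ht ([] : List B) := by rw [HT_nil]; omega
      rw [if_neg h0, zero_add]
      refine tsum_congr fun b => ?_
      have hb := h1 b
      simp only [List.cons_append]
      rw [← ih (a - ht b) (by omega) (fun L => F (b :: L))]
      refine tsum_congr fun L => ?_
      rw [HT_cons]
      by_cases h : a ≤ ht b + HT ht L
      · rw [if_pos h, if_pos (by omega)]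
      · rw [if_neg h, if_neg (by omega)]

open Classical in
/-- Markov: first passage of `T`, then of the rest -/
lemma FP_markov (h1 : ∀ b, 1 ≤ ht b) (T : ℕ) (a : ℕ) (hTa : T ≤ a) (F : List B → ℝ≥0∞) :
    ∑' A, (if FP ht A a then F A else 0)
      = ∑' P, (if FP ht P T then ∑' A, (if FP ht A (a - HT ht P) then F (P ++ A) else 0) else 0) := by
  induction T using Nat.strong_induction_on generalizing a F with
  | _ T ih =>
    rcases Nat.eq_zero_or_pos T with rfl | hT
    · rw [sum_FP_zero]; simp [HT_nil]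
    · rw [sum_FP_pos ht (show 0 < a by omega), sum_FP_pos ht hT]
      refine tsum_congr fun b => ?_
      have hb := h1 b
      rw [ih (T - ht b) (by omega) (a - ht b) (by omega) (fun L => F (b :: L))]
      refine tsum_congr fun P => ?_
      rw [HT_cons, Nat.sub_sub]
      rfl

open Classical in
lemma FP_mass (h1 : ∀ b, 1 ≤ ht b) (hΛ : ∑' b, Λ b = 1) (a : ℕ) :
    ∑' A, (if FP ht A a then LW Λ A else 0) = 1 := by
  induction a using Nat.strong_induction_on with
  | _ a ih =>
    rcases Nat.eq_zero_or_pos a with rfl | ha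
    · rw [sum_FP_zero, LW_nil]
    · rw [sum_FP_pos ht ha]
      calc ∑' b, ∑' A, (if FP ht A (a - ht b) then LW Λ (b :: A) else 0)
          = ∑' b, Λ b * 1 := by
            refine tsum_congr fun b => ?_
            have hb := h1 b
            rw [← ih (a - ht b) (by omega), ← ENNReal.tsum_mul_left]
            refine tsum_congr fun A => ?_
            rw [LW_cons]; split_ifs <;> simp
        _ = 1 := by simpa using hΛ

lemma U_le_one (h1 : ∀ b, 1 ≤ ht b) (hΛ : ∑' b, Λ b = 1) (n : ℕ) : U Λ ht n ≤ 1 := by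
  have h := renewal_one Λ ht h1 hΛ n
  have h0 : tail Λ ht 0 = 1 := by
    rw [← hΛ, tail]
    refine tsum_congr fun b => ?_
    rw [if_pos (by have := h1 b; omega)]
  calc U Λ ht n = U Λ ht (n - 0) * tail Λ ht 0 := by rw [h0, mul_one, Nat.sub_zero]
    _ ≤ ∑ k ∈ Finset.range (n + 1), U Λ ht (n - k) * tail Λ ht k :=
        Finset.single_le_sum (f := fun k => U Λ ht (n - k) * tail Λ ht k)
          (fun _ _ => zero_le) (Finset.mem_range.2 (by omega))
    _ = 1 := h

/-- overshoot bound -/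
noncomputable def ep (Λ : B → ℝ≥0∞) (ht : B → ℕ) (i0 : ℕ) : ℝ≥0∞ := ∑' j, tail Λ ht (j + (i0 + 1))

lemma ep_tendsto (hΛ : ∑' b, Λ b = 1) (hE : ∑' b, Λ b * (ht b : ℝ≥0∞) ≠ ⊤) :
    Tendsto (ep Λ ht) atTop (𝓝 0) := by
  rw [sum_tail Λ ht hΛ] at hE
  have h := (ENNReal.tendsto_sum_nat_add _ hE).comp (tendsto_add_atTop_nat 1)
  exact h

open Classical in
lemma FP_over_aux (h1 : ∀ b, 1 ≤ ht b) (hΛ : ∑' b, Λ b = 1) (i0 a : ℕ) :
    ∑' A, (if FP ht A a ∧ a + i0 < HT ht A then LW Λ A else 0)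
      ≤ ∑ j ∈ Finset.range a, tail Λ ht (j + (i0 + 1)) := by
  induction a using Nat.strong_induction_on with
  | _ a ih =>
    have e : ∀ A, (if FP ht A a ∧ a + i0 < HT ht A then LW Λ A else 0)
        = (if FP ht A a then (if a + i0 < HT ht A then LW Λ A else 0) else 0) := fun A => by
      by_cases h : FP ht A a <;> simp [h]
    simp_rw [e]
    rcases Nat.eq_zero_or_pos a with rfl | ha
    · rw [sum_FP_zero]; simp [HT_nil]
    · rw [sum_FP_pos ht ha]
      have hb : ∀ b, ∑' A, (if FP ht A (a - ht b) then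
          (if a + i0 < HT ht (b :: A) then LW Λ (b :: A) else 0) else 0)
          ≤ (if a - 1 + (i0 + 1) < ht b then Λ b else 0)
            + Λ b * ∑ j ∈ Finset.range (a - 1), tail Λ ht (j + (i0 + 1)) := by
        intro b
        have hb1 := h1 b
        by_cases hlt : ht b < a
        · refine le_add_left ?_
          calc _ = Λ b * ∑' A, (if FP ht A (a - ht b) ∧ (a - ht b) + i0 < HT ht A
                then LW Λ A else 0) := by
                rw [← ENNReal.tsum_mul_left]
                refine tsum_congr fun A => ?_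
                rw [HT_cons, LW_cons]
                by_cases h : FP ht A (a - ht b)
                · by_cases h' : a + i0 < ht b + HT ht A
                  · rw [if_pos h, if_pos h', if_pos ⟨h, by omega⟩]
                  · rw [if_pos h, if_neg h', if_neg (fun hh => h' (by omega)), mul_zero]
                · rw [if_neg h, if_neg (fun hh => h hh.1), mul_zero]
            _ ≤ Λ b * ∑ j ∈ Finset.range (a - ht b), tail Λ ht (j + (i0 + 1)) :=
                mul_le_mul_right (ih _ (by omega)) _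
            _ ≤ _ := mul_le_mul_right (Finset.sum_le_sum_of_subset
                (Finset.range_mono (by omega))) _
        · refine le_add_right ?_
          rw [show a - ht b = 0 by omega, sum_FP_zero]
          simp only [HT_cons, HT_nil, LW_cons, LW_nil, add_zero, mul_one]
          by_cases h' : a + i0 < ht b
          · rw [if_pos h', if_pos (by omega)]
          · rw [if_neg h']; exact zero_le
      refine (ENNReal.tsum_le_tsum hb).trans ?_
      rw [ENNReal.tsum_add, ENNReal.tsum_mul_right, hΛ, one_mul]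
      obtain ⟨c, rfl⟩ : ∃ c, a = c + 1 := ⟨a - 1, by omega⟩
      rw [Finset.sum_range_succ, add_comm]
      exact le_of_eq rfl

open Classical in
lemma FP_over (h1 : ∀ b, 1 ≤ ht b) (hΛ : ∑' b, Λ b = 1) (i0 a : ℕ) :
    ∑' A, (if FP ht A a ∧ a + i0 < HT ht A then LW Λ A else 0) ≤ ep Λ ht i0 :=
  (FP_over_aux Λ ht h1 hΛ i0 a).trans (ENNReal.sum_le_tsum _)

/-- total displacement -/
def Dp [AddCommGroup G] (z : B → G) (L : List B) : G := (L.map z).sum

lemma Dp_append [AddCommGroup G] (z : B → G) (L L' : List B) :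
    Dp z (L ++ L') = Dp z L + Dp z L' := by simp [Dp]

open Classical in
/-- law of overshoot and displacement of the first passage list of height `≥ a` -/
noncomputable def Fq [AddCommGroup G] (Λ : B → ℝ≥0∞) (ht : B → ℕ) (z : B → G) (a j : ℕ) (x : G) :
    ℝ≥0∞ := ∑' A : List B, if FP ht A a ∧ HT ht A = a + j ∧ Dp z A = x then LW Λ A else 0

open Classical in
lemma Fq_sum [AddCommGroup G] (z : B → G) (a : ℕ) (Ψ : ℕ → G → ℝ≥0∞) :
    ∑' j, ∑' x, Fq Λ ht z a j x * Ψ j x
      = ∑' A, (if FP ht A a then LW Λ A * Ψ (HT ht A - a) (Dp z A) else 0) := by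
  simp only [Fq, ← ENNReal.tsum_mul_right]
  have : ∀ j, ∑' (x : G), ∑' (A : List B), (if FP ht A a ∧ HT ht A = a + j ∧ Dp z A = x
      then LW Λ A else 0) * Ψ j x = ∑' (A : List B), ∑' (x : G), (if FP ht A a ∧ HT ht A = a + j ∧
      Dp z A = x then LW Λ A else 0) * Ψ j x := fun j => ENNReal.tsum_comm
  simp_rw [this]
  rw [ENNReal.tsum_comm]
  refine tsum_congr fun A => ?_
  by_cases h : FP ht A a
  · have hle := FP_le ht A a h
    rw [if_pos h, tsum_eq_single (HT ht A - a), tsum_eq_single (Dp z A)]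
    · rw [if_pos ⟨h, by omega, rfl⟩]
    · intro x hx
      rw [if_neg (fun hh => hx hh.2.2.symm), zero_mul]
    · intro j hj
      refine ENNReal.tsum_eq_zero.2 fun x => ?_
      rw [if_neg (fun hh => hj (by omega)), zero_mul]
  · rw [if_neg h]
    refine ENNReal.tsum_eq_zero.2 fun j => ENNReal.tsum_eq_zero.2 fun x => ?_
    rw [if_neg (fun hh => h hh.1), zero_mul]

open Classical in
lemma Fq_mass [AddCommGroup G] (h1 : ∀ b, 1 ≤ ht b) (hΛ : ∑' b, Λ b = 1) (z : B → G) (a : ℕ) :
    ∑' j, ∑' x, Fq Λ ht z a j x = 1 := by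
  have := Fq_sum Λ ht z a (fun _ _ => 1)
  simp only [mul_one] at this
  rw [this, FP_mass Λ ht h1 hΛ]

open Classical in
lemma Fq_over [AddCommGroup G] (h1 : ∀ b, 1 ≤ ht b) (hΛ : ∑' b, Λ b = 1) (z : B → G) (a i0 : ℕ) :
    ∑' j, ∑' x, (if i0 < j then Fq Λ ht z a j x else 0) ≤ ep Λ ht i0 := by
  have := Fq_sum Λ ht z a (fun j _ => if i0 < j then 1 else 0)
  simp only [mul_ite, mul_one, mul_zero] at this
  rw [this]
  refine le_trans (ENNReal.tsum_le_tsum fun A => ?_) (FP_over Λ ht h1 hΛ i0 a)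
  by_cases h : FP ht A a
  · have hle := FP_le ht A a h
    rw [if_pos h]
    by_cases h2 : i0 < HT ht A - a
    · rw [if_pos h2, if_pos ⟨h, by omega⟩]
    · rw [if_neg h2]; exact zero_le
  · rw [if_neg h]; exact zero_le

open Classical in
/-- the attempt which jumps over `a` itself -/
noncomputable def Fe [AddCommGroup G] (Λ : B → ℝ≥0∞) (ht : B → ℕ) (z : B → G) (T a j : ℕ) (x : G) :
    ℝ≥0∞ := ∑' P : List B, if FP ht P T ∧ a < HT ht P ∧ HT ht P = a + j ∧ Dp z P = x
      then LW Λ P else 0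

open Classical in
lemma Fq_rec [AddCommGroup G] (h1 : ∀ b, 1 ≤ ht b) (z : B → G) (T a : ℕ) (hTa : T ≤ a) (j : ℕ)
    (x : G) : Fq Λ ht z a j x ≤ (∑' i, ∑' x', if T + i ≤ a then
      Fq Λ ht z T i x' * Fq Λ ht z (a - T - i) j (x - x') else 0) + Fe Λ ht z T a j x := by
  have e0 : Fq Λ ht z a j x = ∑' A : List B, if FP ht A a then
      (if HT ht A = a + j ∧ Dp z A = x then LW Λ A else 0) else 0 := by
    rw [Fq]
    refine tsum_congr fun A => ?_
    by_cases h : FP ht A a <;> simp [h]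
  have e1 : ∑' i, ∑' x', (if T + i ≤ a then
      Fq Λ ht z T i x' * Fq Λ ht z (a - T - i) j (x - x') else 0)
      = ∑' P, (if FP ht P T then LW Λ P * (if HT ht P ≤ a then
          Fq Λ ht z (a - HT ht P) j (x - Dp z P) else 0) else 0) := by
    have := Fq_sum Λ ht z T (fun i x' => if T + i ≤ a then Fq Λ ht z (a - T - i) j (x - x') else 0)
    simp only [mul_ite, mul_zero] at this
    rw [this]
    refine tsum_congr fun P => ?_
    by_cases h : FP ht P T
    · have hle := FP_le ht P T h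
      rw [if_pos h, if_pos h]
      by_cases h2 : HT ht P ≤ a
      · rw [if_pos (by omega), if_pos h2, show a - T - (HT ht P - T) = a - HT ht P by omega]
      · rw [if_neg (by omega), if_neg h2, mul_zero]
    · rw [if_neg h, if_neg h]
  rw [e0, e1, FP_markov ht h1 T a hTa, Fe, ← ENNReal.tsum_add]
  refine ENNReal.tsum_le_tsum fun P => ?_
  by_cases h : FP ht P T
  · rw [if_pos h, if_pos h]
    by_cases h2 : HT ht P ≤ a
    · refine le_add_right ?_
      rw [if_pos h2, Fq, ← ENNReal.tsum_mul_left]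
      refine ENNReal.tsum_le_tsum fun A => ?_
      by_cases h3 : FP ht A (a - HT ht P)
      · rw [if_pos h3, HT_append, Dp_append, LW_append]
        by_cases h4 : HT ht P + HT ht A = a + j ∧ Dp z P + Dp z A = x
        · rw [if_pos h4, if_pos ⟨h3, by omega, by rw [← h4.2]; abel⟩]
        · rw [if_neg h4]; exact zero_le
      · rw [if_neg h3]; exact zero_le
    · refine le_add_left ?_
      rw [show a - HT ht P = 0 by omega, sum_FP_zero, List.append_nil]
      by_cases h4 : HT ht P = a + j ∧ Dp z P = x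
      · rw [if_pos h4, if_pos ⟨h, by omega, h4.1, h4.2⟩]
      · rw [if_neg h4]; exact zero_le
  · rw [if_neg h]; exact zero_le

open Classical in
lemma Fe_mass [AddCommGroup G] (h1 : ∀ b, 1 ≤ ht b) (hΛ : ∑' b, Λ b = 1) (z : B → G)
    (T i0 a : ℕ) (ha : T + i0 ≤ a) :
    (∑' i, ∑' x', (if i0 < i ∧ T + i ≤ a then Fq Λ ht z T i x' else 0))
      + ∑' j, ∑' x, Fe Λ ht z T a j x ≤ ep Λ ht i0 := by
  have e1 : ∑' i, ∑' x', (if i0 < i ∧ T + i ≤ a then Fq Λ ht z T i x' else 0)
      = ∑' P, (if FP ht P T ∧ T + i0 < HT ht P ∧ HT ht P ≤ a then LW Λ P else 0) := by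
    have := Fq_sum Λ ht z T (fun i _ => if i0 < i ∧ T + i ≤ a then 1 else 0)
    simp only [mul_ite, mul_zero, mul_one] at this
    rw [this]
    refine tsum_congr fun P => ?_
    by_cases h : FP ht P T
    · have hle := FP_le ht P T h
      rw [if_pos h]
      by_cases h2 : i0 < HT ht P - T ∧ T + (HT ht P - T) ≤ a
      · rw [if_pos h2, if_pos ⟨h, by omega, by omega⟩]
      · rw [if_neg h2, if_neg (fun hh => h2 ⟨by omega, by omega⟩)]
    · rw [if_neg h, if_neg (fun hh => h hh.1)]
  have e2 : ∑' j, ∑' x, Fe Λ ht z T a j x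
      ≤ ∑' P, (if FP ht P T ∧ a < HT ht P then LW Λ P else 0) := by
    have : ∀ j, ∑' x, Fe Λ ht z T a j x = ∑' P : List B, ∑' x, (if FP ht P T ∧ a < HT ht P ∧
        HT ht P = a + j ∧ Dp z P = x then LW Λ P else 0) := fun j => by
      simp only [Fe]; exact ENNReal.tsum_comm
    simp_rw [this]
    rw [ENNReal.tsum_comm]
    refine ENNReal.tsum_le_tsum fun P => ?_
    by_cases h : FP ht P T ∧ a < HT ht P
    · rw [if_pos h, tsum_eq_single (HT ht P - a), tsum_eq_single (Dp z P)]
      · split_ifs <;> simp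
      · intro x hx
        rw [if_neg (fun hh => hx hh.2.2.2.symm)]
      · intro j hj
        refine ENNReal.tsum_eq_zero.2 fun x => ?_
        rw [if_neg (fun hh => hj (by omega))]
    · rw [if_neg h]
      refine le_of_eq (ENNReal.tsum_eq_zero.2 fun j => ENNReal.tsum_eq_zero.2 fun x => ?_)
      rw [if_neg (fun hh => h ⟨hh.1, hh.2.1⟩)]
  rw [e1]
  refine (add_le_add le_rfl e2).trans ?_
  rw [← ENNReal.tsum_add]
  refine le_trans (ENNReal.tsum_le_tsum fun P => ?_) (FP_over Λ ht h1 hΛ i0 T)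
  by_cases h : FP ht P T
  · by_cases h2 : HT ht P ≤ a
    · rw [if_neg (show ¬ (FP ht P T ∧ a < HT ht P) by rintro ⟨-, h3⟩; omega), add_zero]
      by_cases h3 : T + i0 < HT ht P
      · rw [if_pos ⟨h, h3, h2⟩, if_pos ⟨h, h3⟩]
      · rw [if_neg (fun hh => h3 hh.2.1)]; exact zero_le
    · rw [if_neg (fun hh => h2 hh.2.2), zero_add, if_pos ⟨h, by omega⟩, if_pos ⟨h, by omega⟩]
  · rw [if_neg (fun hh => h hh.1), if_neg (fun hh => h hh.1), zero_add]; exact zero_le

/-- **smooth law at first passage** (280's `dens` on lists) -/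
theorem Fq_dens [AddCommGroup G] (h1 : ∀ b, 1 ≤ ht b) (hΛ : ∑' b, Λ b = 1) (z : B → G)
    (T i0 : ℕ) (th q D : ℝ≥0∞)
    (hq : ∑' i, ∑' x, (if i ≤ i0 ∧ th < Fq Λ ht z T i x then Fq Λ ht z T i x else 0) ≤ q)
    (hq1 : q ≤ 1) (hD : (i0 + 1 : ℕ) * th + q * D ≤ D) (J a : ℕ) (ha : J * (T + i0) ≤ a) :
    ∃ b : ℕ → G → ℝ≥0∞, (∑' j, ∑' x, b j x ≤ q ^ J + J * ep Λ ht i0) ∧
      ∀ j x, Fq Λ ht z a j x ≤ D + b j x :=
  Dens280.dens (Fq Λ ht z T) (Fq Λ ht z) (Fe Λ ht z T) T i0 th q (ep Λ ht i0) D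
    (fun r hr j x => Fq_rec Λ ht h1 z T r hr j x)
    (fun r => (Fq_mass Λ ht h1 hΛ z r).le)
    (fun r hr => Fe_mass Λ ht h1 hΛ z T i0 r hr) hq hq1 hD J a ha

end Crest.Agent.R154.Asm543
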