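import Crest.Agent.R154.B5Abs_566

/-! Row 154, road 801: first passage functional of a list of blocks (helper933). -/

set_option autoImplicit false
set_option linter.unusedSectionVars false
set_option linter.unusedVariables false

namespace Crest.Agent.R154.FP933

open Crest.Agent.R154.B5A
open scoped ENNReal

variable {B : Type*} (Λ : B → ℝ≥0∞) (ht : B → ℕ)

/-- first passage sum: over the lists `T` with `a ≤ HT T` minimal for this -/
noncomputable def FPS : ℕ → (List B → ℝ≥0∞) → ℝ≥0∞
  | 0, F => F []
  | (a + 1), F => ∑' b, Λ b * FPS (a - (ht b - 1)) (fun T => F (b :: T))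
  termination_by a _ => a
  decreasing_by omega

lemma FPS_zero (F : List B → ℝ≥0∞) : FPS Λ ht 0 F = F [] := by rw [FPS]

lemma FPS_succ (h1 : ∀ b, 1 ≤ ht b) (a : ℕ) (F : List B → ℝ≥0∞) :
    FPS Λ ht (a + 1) F = ∑' b, Λ b * FPS Λ ht (a + 1 - ht b) (fun T => F (b :: T)) := by
  rw [FPS]
  refine tsum_congr fun b => ?_
  rw [show a - (ht b - 1) = a + 1 - ht b by have := h1 b; omega]

lemma FPS_mono' (h1 : ∀ b, 1 ≤ ht b) (a : ℕ) : ∀ {F F' : List B → ℝ≥0∞},
    (∀ T, a ≤ HT ht T → F T ≤ F' T) → FPS Λ ht a F ≤ FPS Λ ht a F' := by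
  induction a using Nat.strong_induction_on with
  | _ a ih =>
    intro F F' h
    rcases a with _ | a
    · rw [FPS_zero, FPS_zero]; exact h [] (by simp)
    · rw [FPS_succ Λ ht h1, FPS_succ Λ ht h1]
      refine ENNReal.tsum_le_tsum fun b => ?_
      refine mul_le_mul_right (ih _ (by have := h1 b; omega) fun T hT => h _ ?_) _
      rw [HT_cons]; omega

lemma FPS_mono (h1 : ∀ b, 1 ≤ ht b) (a : ℕ) {F F' : List B → ℝ≥0∞}
    (h : ∀ T, F T ≤ F' T) : FPS Λ ht a F ≤ FPS Λ ht a F' := FPS_mono' Λ ht h1 a fun T _ => h T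

lemma FPS_congr' (h1 : ∀ b, 1 ≤ ht b) (a : ℕ) {F F' : List B → ℝ≥0∞}
    (h : ∀ T, a ≤ HT ht T → F T = F' T) : FPS Λ ht a F = FPS Λ ht a F' :=
  le_antisymm (FPS_mono' Λ ht h1 a fun T hT => (h T hT).le)
    (FPS_mono' Λ ht h1 a fun T hT => (h T hT).ge)

lemma FPS_tsum {ι : Type*} (h1 : ∀ b, 1 ≤ ht b) (a : ℕ) : ∀ (F : ι → List B → ℝ≥0∞),
    FPS Λ ht a (fun T => ∑' c, F c T) = ∑' c, FPS Λ ht a (F c) := by
  induction a using Nat.strong_induction_on with
  | _ a ih =>
    intro F
    rcases a with _ | a
    · simp only [FPS_zero]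
    · simp only [FPS_succ Λ ht h1]
      rw [ENNReal.tsum_comm]
      refine tsum_congr fun b => ?_
      rw [ih _ (by have := h1 b; omega) (fun c T => F c (b :: T)), ENNReal.tsum_mul_left]

lemma FPS_const_mul (h1 : ∀ b, 1 ≤ ht b) (a : ℕ) (c : ℝ≥0∞) : ∀ (F : List B → ℝ≥0∞),
    FPS Λ ht a (fun T => c * F T) = c * FPS Λ ht a F := by
  induction a using Nat.strong_induction_on with
  | _ a ih =>
    intro F
    rcases a with _ | a
    · simp only [FPS_zero]
    · simp only [FPS_succ Λ ht h1]
      rw [← ENNReal.tsum_mul_left]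
      refine tsum_congr fun b => ?_
      rw [ih _ (by have := h1 b; omega) (fun T => F (b :: T)), mul_left_comm]

lemma FPS_add (h1 : ∀ b, 1 ≤ ht b) (a : ℕ) : ∀ (F F' : List B → ℝ≥0∞),
    FPS Λ ht a (fun T => F T + F' T) = FPS Λ ht a F + FPS Λ ht a F' := by
  induction a using Nat.strong_induction_on with
  | _ a ih =>
    intro F F'
    rcases a with _ | a
    · simp only [FPS_zero]
    · simp only [FPS_succ Λ ht h1]
      rw [← ENNReal.tsum_add]
      refine tsum_congr fun b => ?_
      rw [ih _ (by have := h1 b; omega) (fun T => F (b :: T)) (fun T => F' (b :: T)), mul_add]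

lemma FPS_const (h1 : ∀ b, 1 ≤ ht b) (hΛ : ∑' b, Λ b = 1) (a : ℕ) (c : ℝ≥0∞) :
    FPS Λ ht a (fun _ => c) = c := by
  induction a using Nat.strong_induction_on with
  | _ a ih =>
    rcases a with _ | a
    · simp only [FPS_zero]
    · simp only [FPS_succ Λ ht h1]
      rw [tsum_congr (fun b => by rw [ih _ (by have := h1 b; omega)]), ENNReal.tsum_mul_right, hΛ,
        one_mul]

lemma FPS_le (h1 : ∀ b, 1 ≤ ht b) (hΛ : ∑' b, Λ b = 1) (a : ℕ) {F : List B → ℝ≥0∞} {c : ℝ≥0∞}
    (h : ∀ T, a ≤ HT ht T → F T ≤ c) : FPS Λ ht a F ≤ c :=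
  (FPS_mono' Λ ht h1 a h).trans (FPS_const Λ ht h1 hΛ a c).le

/-- a list of height `n ≥ a` is a first passage of `a` followed by a rest -/
lemma split (h1 : ∀ b, 1 ≤ ht b) (a : ℕ) : ∀ (n : ℕ), a ≤ n → ∀ (F : List B → ℝ≥0∞),
    (∑' L, if HT ht L = n then LW Λ L * F L else 0) ≤
      FPS Λ ht a (fun T => ∑' R, if HT ht T + HT ht R = n then LW Λ R * F (T ++ R) else 0) := by
  induction a using Nat.strong_induction_on with
  | _ a ih =>
    intro n han F
    rcases a with _ | a
    · rw [FPS_zero]; simp [HT_nil]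
    · rw [FPS_succ Λ ht h1, tsum_list]
      rw [if_neg (by rw [HT_nil]; omega), zero_add]
      refine ENNReal.tsum_le_tsum fun b => ?_
      by_cases hb : ht b ≤ n
      · have := ih (a + 1 - ht b) (by have := h1 b; omega) (n - ht b) (by omega)
          (fun L => F (b :: L))
        calc (∑' L, if HT ht (b :: L) = n then LW Λ (b :: L) * F (b :: L) else 0)
            = Λ b * ∑' L, if HT ht L = n - ht b then LW Λ L * F (b :: L) else 0 := by
              rw [← ENNReal.tsum_mul_left]
              refine tsum_congr fun L => ?_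
              rw [HT_cons, LW_cons]
              by_cases hL : HT ht L = n - ht b
              · rw [if_pos (by omega), if_pos hL, mul_assoc]
              · rw [if_neg (by omega), if_neg hL, mul_zero]
          _ ≤ _ := by
              refine mul_le_mul_right (this.trans (FPS_mono Λ ht h1 _ fun T => ?_)) _
              refine ENNReal.tsum_le_tsum fun R => ?_
              rw [HT_cons, List.cons_append]
              by_cases hR : HT ht T + HT ht R = n - ht b
              · rw [if_pos hR, if_pos (by omega)]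
              · rw [if_neg hR]; exact zero_le
      · rw [ENNReal.tsum_eq_zero.2]
        · exact zero_le
        · intro L
          rw [HT_cons, if_neg (by omega)]

/-- two successive first passages -/
lemma FPS_append (h1 : ∀ b, 1 ≤ ht b) (s : ℕ) : ∀ (h : ℕ), s ≤ h → ∀ (F : List B → ℝ≥0∞),
    FPS Λ ht h F = FPS Λ ht s (fun P => FPS Λ ht (h - HT ht P) (fun T => F (P ++ T))) := by
  induction s using Nat.strong_induction_on with
  | _ s ih =>
    intro h hs F
    rcases s with _ | s
    · rw [FPS_zero]; simp [HT_nil]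
    · obtain ⟨h, rfl⟩ : ∃ h', h = h' + 1 := ⟨h - 1, by omega⟩
      rw [FPS_succ Λ ht h1, FPS_succ Λ ht h1]
      refine tsum_congr fun b => ?_
      rw [ih (s + 1 - ht b) (by have := h1 b; omega) (h + 1 - ht b) (by omega)]
      congr 1
      refine FPS_congr' Λ ht h1 _ fun P _ => ?_
      rw [HT_cons, Nat.sub_sub]
      rfl

/-- last block of a first passage -/
lemma FPS_last (h1 : ∀ b, 1 ≤ ht b) (a : ℕ) (ha : 1 ≤ a) : ∀ (F : List B → ℝ≥0∞),
    FPS Λ ht a F ≤ ∑' T, if HT ht T < a then LW Λ T *
      ∑' b, (if a ≤ HT ht T + ht b then Λ b * F (T ++ [b]) else 0) else 0 := by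
  induction a using Nat.strong_induction_on with
  | _ a ih =>
    intro F
    obtain ⟨a, rfl⟩ : ∃ a', a = a' + 1 := ⟨a - 1, by omega⟩
    rw [FPS_succ Λ ht h1, tsum_list]
    simp only [HT_nil, HT_cons, LW_nil, LW_cons, zero_add, one_mul, List.nil_append]
    rw [if_pos (by omega), ← ENNReal.tsum_add]
    refine ENNReal.tsum_le_tsum fun b => ?_
    by_cases hb : a + 1 ≤ ht b
    · rw [if_pos hb, show a + 1 - ht b = 0 by omega, FPS_zero]
      exact le_self_add
    · rw [if_neg hb, zero_add]
      refine (mul_le_mul_right (ih (a + 1 - ht b) (by have := h1 b; omega) (by omega)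
        (fun T => F (b :: T))) _).trans ?_
      rw [← ENNReal.tsum_mul_left]
      refine ENNReal.tsum_le_tsum fun T => ?_
      by_cases hT : HT ht T < a + 1 - ht b
      · rw [if_pos hT, if_pos (by omega), ← mul_assoc]
        refine mul_le_mul_right (ENNReal.tsum_le_tsum fun c => ?_) _
        by_cases hc : a + 1 - ht b ≤ HT ht T + ht c
        · rw [if_pos hc, if_pos (by omega)]; rfl
        · rw [if_neg hc]; exact zero_le
      · rw [if_neg hT, mul_zero]; exact zero_le

/-- **overshoot** -/
lemma FPS_over (h1 : ∀ b, 1 ≤ ht b) (hU1 : ∀ n, U Λ ht n ≤ 1) (a i : ℕ) :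
    FPS Λ ht a (fun T => if a + i < HT ht T then 1 else 0) ≤ ∑' j, tail Λ ht (i + j) := by
  rcases Nat.eq_zero_or_pos a with rfl | ha
  · rw [FPS_zero]; simp [HT_nil]
  · refine (FPS_last Λ ht h1 a ha _).trans ?_
    calc (∑' T, if HT ht T < a then LW Λ T * ∑' b, (if a ≤ HT ht T + ht b then
          Λ b * (if a + i < HT ht (T ++ [b]) then 1 else 0) else 0) else 0)
        ≤ ∑' T, ∑ k ∈ Finset.range a, (if HT ht T = k then LW Λ T * tail Λ ht (i + (a - k))
            else 0) := by
          refine ENNReal.tsum_le_tsum fun T => ?_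
          by_cases hT : HT ht T < a
          · rw [if_pos hT, Finset.sum_eq_single (HT ht T)]
            · rw [if_pos rfl, tail]
              refine mul_le_mul_right (ENNReal.tsum_le_tsum fun b => ?_) _
              rw [HT_append, HT_cons, HT_nil, add_zero]
              by_cases hb : a + i < HT ht T + ht b
              · rw [if_pos hb, if_pos (by omega), if_pos (by omega), mul_one]
              · rw [if_neg hb]; simp
            · intro k _ hk; rw [if_neg hk.symm]
            · intro h; exact absurd (Finset.mem_range.2 hT) h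
          · rw [if_neg hT]; exact zero_le
      _ = ∑ k ∈ Finset.range a, U Λ ht k * tail Λ ht (i + (a - k)) := by
          rw [Summable.tsum_finsetSum (fun _ _ => ENNReal.summable)]
          refine Finset.sum_congr rfl fun k _ => ?_
          rw [U, ← ENNReal.tsum_mul_right]
          refine tsum_congr fun T => ?_
          split_ifs <;> simp
      _ ≤ ∑ k ∈ Finset.range a, tail Λ ht (i + (a - k)) :=
          Finset.sum_le_sum fun k _ => (mul_le_mul_left (hU1 k) _).trans (one_mul _).le
      _ = ∑ k ∈ Finset.range a, tail Λ ht (i + (k + 1)) := by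
          rw [← Finset.sum_range_reflect]
          refine Finset.sum_congr rfl fun k hk => ?_
          have := Finset.mem_range.1 hk
          rw [show a - (a - 1 - k) = k + 1 by omega]
      _ ≤ ∑' k, tail Λ ht (i + (k + 1)) := ENNReal.sum_le_tsum _
      _ ≤ ∑' j, tail Λ ht (i + j) :=
          ENNReal.tsum_comp_le_tsum_of_injective (f := fun k : ℕ => k + 1)
            (add_left_injective 1) (fun j => tail Λ ht (i + j))

/-- the overshoot bound tends to zero -/
lemma over_tendsto (hΛ : ∑' b, Λ b = 1) (hm : ∑' b, Λ b * (ht b : ℝ≥0∞) ≠ ⊤) :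
    Filter.Tendsto (fun i => ∑' j, tail Λ ht (i + j)) Filter.atTop (nhds 0) := by
  have h := ENNReal.tendsto_sum_nat_add (fun k => tail Λ ht k) (by rwa [← sum_tail Λ ht hΛ])
  simpa [add_comm] using h

/-! ### the law of a first passage -/

variable {G : Type*} [AddCommGroup G] (zz : B → G)

/-- displacement of a list -/
def Dp (L : List B) : G := (L.map zz).sum

lemma Dp_nil : Dp zz ([] : List B) = 0 := by simp [Dp]
lemma Dp_append (L L' : List B) : Dp zz (L ++ L') = Dp zz L + Dp zz L' := by simp [Dp]

open Classical in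
/-- law of (overshoot, displacement) at the first passage of `a` -/
noncomputable def Pl (a : ℕ) (x : ℕ × G) : ℝ≥0∞ :=
  FPS Λ ht a (fun T => if HT ht T = a + x.1 ∧ Dp zz T = x.2 then 1 else 0)

lemma FPS_law (h1 : ∀ b, 1 ≤ ht b) (a : ℕ) (f : ℕ × G → ℝ≥0∞) :
    FPS Λ ht a (fun T => f (HT ht T - a, Dp zz T)) = ∑' x, Pl Λ ht zz a x * f x := by
  classical
  have e : ∀ x, Pl Λ ht zz a x * f x
      = FPS Λ ht a (fun T => f x * (if HT ht T = a + x.1 ∧ Dp zz T = x.2 then 1 else 0)) := by
    intro x
    rw [FPS_const_mul Λ ht h1, mul_comm]; rfl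
  rw [tsum_congr e, ← FPS_tsum Λ ht h1]
  refine FPS_congr' Λ ht h1 a fun T hT => ?_
  rw [tsum_eq_single (HT ht T - a, Dp zz T)]
  · rw [if_pos ⟨by simp only; omega, rfl⟩, mul_one]
  · rintro ⟨i, z⟩ hx
    rw [if_neg, mul_zero]
    rintro ⟨h2, h3⟩
    refine hx (Prod.ext ?_ h3.symm)
    simp only at h2 ⊢; omega

lemma Pl_sum (h1 : ∀ b, 1 ≤ ht b) (hΛ : ∑' b, Λ b = 1) (a : ℕ) : ∑' x, Pl Λ ht zz a x = 1 := by
  have := FPS_law Λ ht zz h1 a (fun _ => 1)
  simp only [mul_one] at this
  rw [← this, FPS_const Λ ht h1 hΛ]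

/-- near part of the law at `h` through the law at `s` -/
lemma Pl_rec (h1 : ∀ b, 1 ≤ ht b) (s i0 h : ℕ) (hh : s + i0 ≤ h) (i : ℕ) (z : G) :
    Pl Λ ht zz h (i, z) = (∑' x : ℕ × G, (if x.1 ≤ i0 then Pl Λ ht zz s x *
      Pl Λ ht zz (h - s - x.1) (i, z - x.2) else 0)) +
      FPS Λ ht s (fun P => if s + i0 < HT ht P then
        FPS Λ ht (h - HT ht P) (fun T => open Classical in
          if HT ht (P ++ T) = h + i ∧ Dp zz (P ++ T) = z then 1 else 0) else 0) := by
  classical
  have e1 : (∑' x : ℕ × G, (if x.1 ≤ i0 then Pl Λ ht zz s x *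
      Pl Λ ht zz (h - s - x.1) (i, z - x.2) else 0))
      = ∑' x : ℕ × G, Pl Λ ht zz s x * (if x.1 ≤ i0 then
        Pl Λ ht zz (h - s - x.1) (i, z - x.2) else 0) := by
    refine tsum_congr fun x => ?_
    split_ifs <;> simp
  rw [e1, ← FPS_law Λ ht zz h1 s (fun x => if x.1 ≤ i0 then
        Pl Λ ht zz (h - s - x.1) (i, z - x.2) else 0), ← FPS_add Λ ht h1, Pl,
    FPS_append Λ ht h1 s h (by omega)]
  refine FPS_congr' Λ ht h1 s fun P hP => ?_
  by_cases hc : s + i0 < HT ht P
  · rw [if_pos hc, if_neg (by simp only; omega), zero_add]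
  · rw [if_neg hc, if_pos (by simp only; omega), add_zero, Pl]
    rw [show h - s - (HT ht P - s) = h - HT ht P by omega]
    refine FPS_congr' Λ ht h1 _ fun T _ => ?_
    simp only [HT_append, Dp_append]
    by_cases h2 : HT ht P + HT ht T = h + i ∧ Dp zz P + Dp zz T = z
    · rw [if_pos h2, if_pos ⟨by omega, by rw [← h2.2]; abel⟩]
    · rw [if_neg h2, if_neg]
      rintro ⟨h3, h4⟩
      exact h2 ⟨by omega, by rw [h4]; abel⟩

/-- **smooth density**: the failure is paid once -/
theorem dens (h1 : ∀ b, 1 ≤ ht b) (hΛ : ∑' b, Λ b = 1) (s i0 : ℕ) (th q ε : ℝ≥0∞)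
    (hNG : ∑' x, (if x.1 ≤ i0 ∧ th < Pl Λ ht zz s x then Pl Λ ht zz s x else 0) ≤ q)
    (hFar : ∑' x, (if i0 < x.1 then Pl Λ ht zz s x else 0) ≤ ε) (J : ℕ) :
    ∀ h, J * (s + i0) ≤ h → ∃ Ag Bb : ℕ × G → ℝ≥0∞, (∀ x, Pl Λ ht zz h x ≤ Ag x + Bb x) ∧
      (∀ x, Ag x ≤ (i0 + 1) * th * ∑ j ∈ Finset.range J, q ^ j) ∧
      ∑' x, Bb x ≤ q ^ J + ε * ∑ j ∈ Finset.range J, q ^ j := by
  classical
  induction J with
  | zero =>
    intro h _
    refine ⟨fun _ => 0, Pl Λ ht zz h, fun x => by simp, fun x => by simp, ?_⟩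
    rw [Pl_sum Λ ht zz h1 hΛ]; simp
  | succ J ih =>
    intro h hh
    choose! Ag Bb hAB hAg hBb using ih
    have hh' : s + i0 ≤ h := by nlinarith [hh, Nat.zero_le (J * (s + i0))]
    have hJ : ∀ j, j ≤ i0 → J * (s + i0) ≤ h - s - j := by
      intro j hj
      have : (J + 1) * (s + i0) = J * (s + i0) + (s + i0) := by ring
      omega
    set M : ℝ≥0∞ := (i0 + 1) * th * ∑ j ∈ Finset.range J, q ^ j with hM
    set Rf : ℝ≥0∞ := q ^ J + ε * ∑ j ∈ Finset.range J, q ^ j with hRf
    set p := Pl Λ ht zz s with hp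
    set Far : ℕ × G → ℝ≥0∞ := fun y => FPS Λ ht s (fun P => if s + i0 < HT ht P then
        FPS Λ ht (h - HT ht P) (fun T =>
          if HT ht (P ++ T) = h + y.1 ∧ Dp zz (P ++ T) = y.2 then 1 else 0) else 0) with hFarD
    refine ⟨fun y => (∑' x : ℕ × G, (if x.1 ≤ i0 ∧ th < p x then p x *
        Ag (h - s - x.1) (y.1, y.2 - x.2) else 0)) + (i0 + 1) * th,
      fun y => (∑' x : ℕ × G, (if x.1 ≤ i0 ∧ th < p x then p x *
        Bb (h - s - x.1) (y.1, y.2 - x.2) else 0)) + Far y, ?_, ?_, ?_⟩
    · rintro ⟨i, z⟩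
      rw [Pl_rec Λ ht zz h1 s i0 h hh' i z]
      have hlow : ∑' x : ℕ × G, (if x.1 ≤ i0 ∧ ¬ th < p x then th *
          Pl Λ ht zz (h - s - x.1) (i, z - x.2) else 0) ≤ (i0 + 1) * th := by
        calc _ ≤ ∑' x : ℕ × G, (if x.1 ≤ i0 then th *
              Pl Λ ht zz (h - s - x.1) (i, z - x.2) else 0) := by
              refine ENNReal.tsum_le_tsum fun x => ?_
              by_cases hx : x.1 ≤ i0
              · rw [if_pos hx]; split_ifs <;> simp
              · rw [if_neg hx, if_neg (fun h => hx h.1)]
          _ = ∑' j : ℕ, ∑' z' : G, (if j ≤ i0 then th *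
              Pl Λ ht zz (h - s - j) (i, z - z') else 0) := by
              rw [← ENNReal.tsum_prod]
          _ = ∑' j : ℕ, (if j ≤ i0 then th * ∑' z' : G,
              Pl Λ ht zz (h - s - j) (i, z - z') else 0) := by
              refine tsum_congr fun j => ?_
              by_cases hj : j ≤ i0
              · simp only [if_pos hj, ENNReal.tsum_mul_left]
              · simp only [if_neg hj, tsum_zero]
          _ ≤ ∑' j : ℕ, (if j ≤ i0 then th else 0) := by
              refine ENNReal.tsum_le_tsum fun j => ?_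
              by_cases hj : j ≤ i0
              · rw [if_pos hj, if_pos hj]
                refine (mul_le_mul_right ?_ th).trans (mul_one th).le
                calc ∑' z' : G, Pl Λ ht zz (h - s - j) (i, z - z')
                    = ∑' z' : G, Pl Λ ht zz (h - s - j) (i, z') :=
                      (Equiv.subLeft z).tsum_eq (fun z' => Pl Λ ht zz (h - s - j) (i, z'))
                  _ ≤ ∑' x : ℕ × G, Pl Λ ht zz (h - s - j) x :=
                      ENNReal.tsum_comp_le_tsum_of_injective (f := fun z' : G => (i, z'))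
                        (fun a b hab => (Prod.ext_iff.1 hab).2) _
                  _ = 1 := Pl_sum Λ ht zz h1 hΛ _
              · rw [if_neg hj, if_neg hj]
          _ = (i0 + 1) * th := by
              rw [tsum_eq_sum (s := Finset.range (i0 + 1))]
              · rw [Finset.sum_congr rfl (fun j hj => if_pos (by
                  have := Finset.mem_range.1 hj; omega))]
                simp
              · intro j hj
                rw [if_neg (by simpa using hj)]
      calc _ ≤ ((∑' x : ℕ × G, ((if x.1 ≤ i0 ∧ th < p x then p x *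
              Ag (h - s - x.1) (i, z - x.2) else 0) + (if x.1 ≤ i0 ∧ th < p x then p x *
              Bb (h - s - x.1) (i, z - x.2) else 0) + (if x.1 ≤ i0 ∧ ¬ th < p x then th *
              Pl Λ ht zz (h - s - x.1) (i, z - x.2) else 0)))) + Far (i, z) := by
            refine add_le_add (ENNReal.tsum_le_tsum fun x => ?_) le_rfl
            by_cases hx : x.1 ≤ i0
            · by_cases hx2 : th < p x
              · rw [if_pos hx, if_pos ⟨hx, hx2⟩, if_pos ⟨hx, hx2⟩, if_neg (by tauto), add_zero,
                  ← mul_add]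
                exact mul_le_mul_right (hAB _ (hJ _ hx) _) _
              · rw [if_pos hx, if_neg (by tauto), if_neg (by tauto), if_pos ⟨hx, hx2⟩, zero_add,
                  zero_add]
                exact mul_le_mul_left (not_lt.1 hx2) _
            · rw [if_neg hx]; exact zero_le
        _ ≤ _ := by
            rw [ENNReal.tsum_add, ENNReal.tsum_add]
            have : ∀ a b c d f : ℝ≥0∞, c ≤ f → a + b + c + d ≤ a + f + (b + d) := by
              intro a b c d f hcf
              calc a + b + c + d ≤ a + b + f + d := by gcongr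
                _ = a + f + (b + d) := by ring
            exact this _ _ _ _ _ hlow
    · rintro ⟨i, z⟩
      have hs : ∑' x : ℕ × G, (if x.1 ≤ i0 ∧ th < p x then p x *
          Ag (h - s - x.1) (i, z - x.2) else 0) ≤ q * M := by
        calc _ ≤ ∑' x : ℕ × G, (if x.1 ≤ i0 ∧ th < p x then p x else 0) * M := by
              refine ENNReal.tsum_le_tsum fun x => ?_
              by_cases hx : x.1 ≤ i0 ∧ th < p x
              · rw [if_pos hx, if_pos hx]
                exact mul_le_mul_right (hAg _ (hJ _ hx.1) _) _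
              · rw [if_neg hx]; exact zero_le
          _ = (∑' x : ℕ × G, (if x.1 ≤ i0 ∧ th < p x then p x else 0)) * M :=
              ENNReal.tsum_mul_right
          _ ≤ q * M := mul_le_mul_left hNG _
      calc _ ≤ q * M + (i0 + 1) * th := add_le_add hs le_rfl
        _ = (i0 + 1) * th * ∑ j ∈ Finset.range (J + 1), q ^ j := by
            rw [Finset.sum_range_succ', hM]
            simp only [pow_succ, pow_zero]
            rw [← Finset.sum_mul]; ring
    · rw [ENNReal.tsum_add]
      have hb1 : ∑' y : ℕ × G, ∑' x : ℕ × G, (if x.1 ≤ i0 ∧ th < p x then p x *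
          Bb (h - s - x.1) (y.1, y.2 - x.2) else 0) ≤ q * Rf := by
        rw [ENNReal.tsum_comm]
        calc _ ≤ ∑' x : ℕ × G, (if x.1 ≤ i0 ∧ th < p x then p x else 0) * Rf := by
              refine ENNReal.tsum_le_tsum fun x => ?_
              by_cases hx : x.1 ≤ i0 ∧ th < p x
              · simp only [if_pos hx, ENNReal.tsum_mul_left]
                refine mul_le_mul_right ?_ _
                calc ∑' y : ℕ × G, Bb (h - s - x.1) (y.1, y.2 - x.2)
                    = ∑' y : ℕ × G, Bb (h - s - x.1) y :=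
                      ((Equiv.refl ℕ).prodCongr (Equiv.subRight x.2)).tsum_eq
                        (fun y => Bb (h - s - x.1) y)
                  _ ≤ Rf := hBb _ (hJ _ hx.1)
              · simp only [if_neg hx, tsum_zero]; exact zero_le
          _ = (∑' x : ℕ × G, (if x.1 ≤ i0 ∧ th < p x then p x else 0)) * Rf :=
              ENNReal.tsum_mul_right
          _ ≤ q * Rf := mul_le_mul_left hNG _
      have hb2 : ∑' y, Far y ≤ ε := by
        rw [hFarD, ← FPS_tsum Λ ht h1]
        calc _ ≤ FPS Λ ht s (fun P => (fun x : ℕ × G => if i0 < x.1 then (1 : ℝ≥0∞) else 0)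
              (HT ht P - s, Dp zz P)) := by
              refine FPS_mono' Λ ht h1 s fun P hP => ?_
              by_cases hc : s + i0 < HT ht P
              · simp only [if_pos hc]
                rw [if_pos (by omega), ← FPS_tsum Λ ht h1]
                refine (FPS_le Λ ht h1 hΛ _ fun T hT => ?_)
                by_cases hex : h ≤ HT ht (P ++ T)
                · rw [tsum_eq_single (HT ht (P ++ T) - h, Dp zz (P ++ T))]
                  · split_ifs <;> simp
                  · rintro ⟨i, z⟩ hx
                    rw [if_neg]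
                    rintro ⟨h2, h3⟩
                    refine hx (Prod.ext ?_ h3.symm)
                    simp only at h2 ⊢; omega
                · rw [ENNReal.tsum_eq_zero.2]
                  · exact zero_le
                  · rintro ⟨i, z⟩
                    rw [if_neg]; rintro ⟨h2, -⟩; simp only at h2; omega
              · simp only [if_neg hc, tsum_zero]; exact zero_le
          _ = ∑' x, (if i0 < x.1 then p x else 0) := by
              rw [FPS_law Λ ht zz h1 s (fun x => if i0 < x.1 then (1 : ℝ≥0∞) else 0)]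
              refine tsum_congr fun x => ?_
              split_ifs <;> simp [hp]
          _ ≤ ε := hFar
      calc _ ≤ q * Rf + ε := add_le_add hb1 hb2
        _ = q ^ (J + 1) + ε * ∑ j ∈ Finset.range (J + 1), q ^ j := by
            rw [Finset.sum_range_succ', hRf]
            simp only [pow_succ, pow_zero]
            rw [← Finset.sum_mul]; ring

end Crest.Agent.R154.FP933
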