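import Crest.Agent.R154.AsmE_10

/-! Row 154, ROAD 801, abstract assembly, part F (helper10): the good decompositions, one-sided sums. -/

set_option autoImplicit false

namespace Crest.Agent.R154.Asm10

open scoped ENNReal Topology
open Filter Crest.Agent.R154.B5A

section One

variable {B : Type*} (Λ : B → ℝ≥0∞) (h : B → ℕ) (T i0 : ℕ)

lemma LW_fl (A : List (Pc h T)) : LW Λ (fl h T A) = LW (LP Λ h T) A := by
  induction A with
  | nil => simp [LW_nil]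
  | cons P A ih => rw [fl_cons, LW_append, ih, LW_cons]; rfl

lemma Gd_bound (A : List (Pc h T)) (hA : Gd h T i0 A) :
    A.length * T ≤ HT h (fl h T A) ∧ HT h (fl h T A) ≤ A.length * T + A.length * i0 := by
  induction A with
  | nil => simp [HT_nil]
  | cons P A ih =>
    have h1 := ih fun Q hQ => hA Q (List.mem_cons_of_mem _ hQ)
    have h2 : HP h T P ≤ T + i0 := hA P List.mem_cons_self
    have h3 : T ≤ HP h T P := P.2.1
    rw [fl_cons, HT_append, List.length_cons, add_mul, add_mul, one_mul, one_mul]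
    unfold HP at h2 h3
    omega

lemma exists_good (L : List B) : ∀ l : ℕ, l * T + l * i0 ≤ HT h L →
    (∃ (A : List (Pc h T)) (R : List B), L = fl h T A ++ R ∧ A.length = l ∧ Gd h T i0 A) ∨
    ∃ l', l' < l ∧ ∃ (A : List (Pc h T)) (P : Pc h T) (R : List B),
      L = fl h T A ++ P.1 ++ R ∧ A.length = l' ∧ T + i0 < HP h T P := by
  intro l
  induction l with
  | zero => intro _; exact Or.inl ⟨[], L, by simp, rfl, fun P hP => absurd hP (by simp)⟩
  | succ l ih =>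
    intro hl
    rw [add_mul, add_mul, one_mul, one_mul] at hl
    rcases ih (by omega) with ⟨A, R, e, hA, hG⟩ | ⟨l', hl', hh⟩
    · have hb := Gd_bound h T i0 A hG
      rw [hA] at hb
      have hR : T ≤ HT h R := by
        have := congrArg (HT h) e
        rw [HT_append] at this
        omega
      obtain ⟨P, R2, e2, hP⟩ := exists_fp h T R hR
      by_cases hov : T + i0 < HP h T ⟨P, hP⟩
      · refine Or.inr ⟨l, by omega, A, ⟨P, hP⟩, R2, ?_, hA, hov⟩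
        rw [e, e2, List.append_assoc]
      · refine Or.inl ⟨A ++ [⟨P, hP⟩], R2, ?_, by simp [hA], ?_⟩
        · rw [fl_append, e, e2]; simp
        · intro Q hQ
          rcases List.mem_append.1 hQ with hQ | hQ
          · exact hG Q hQ
          · rw [List.mem_singleton] at hQ; subst hQ; exact not_lt.1 hov
    · exact Or.inr ⟨l', by omega, hh⟩

lemma exists_good' (j : ℕ) (L : List B) (hL : (j + 1) * T + (j + 1) * i0 ≤ HT h L) :
    (∃ (A : List (Pc h T)) (P : Pc h T) (R : List B), L = fl h T A ++ P.1 ++ R ∧ A.length = j ∧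
      Gd h T i0 A ∧ HP h T P ≤ T + i0) ∨
    ∃ l', l' < j + 1 ∧ ∃ (A : List (Pc h T)) (P : Pc h T) (R : List B),
      L = fl h T A ++ P.1 ++ R ∧ A.length = l' ∧ T + i0 < HP h T P := by
  rcases exists_good h T i0 L (j + 1) hL with ⟨A, R, e, hA, hG⟩ | h2
  · left
    rcases List.eq_nil_or_concat A with h0 | ⟨A0, P, h0⟩
    · subst h0; simp at hA
    · rw [List.concat_eq_append] at h0
      subst h0
      refine ⟨A0, P, R, ?_, by simpa using hA, fun Q hQ => hG Q (List.mem_append_left _ hQ),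
        hG P (by simp)⟩
      rw [e, fl_append]; simp
  · exact Or.inr h2

/-- weight of the lists of `j` pieces -/
noncomputable def wL (j : ℕ) (A : List (Pc h T)) : ℝ≥0∞ := I (A.length = j) * LW (LP Λ h T) A

lemma wL_SL (j : ℕ) (F : List (Pc h T) → ℝ≥0∞) :
    ∑' A, wL Λ h T j A * F A = SL (LP Λ h T) j F := by
  classical
  rw [SL]
  refine tsum_congr fun A => ?_
  unfold wL
  by_cases hA : A.length = j
  · rw [I_pos hA, if_pos hA, one_mul]
  · rw [I_neg hA, if_neg hA, zero_mul, zero_mul]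

lemma wL_mass (h1 : ∀ b, 1 ≤ h b) (hΛ : ∑' b, Λ b = 1) (j : ℕ) : ∑' A, wL Λ h T j A = 1 := by
  have := wL_SL Λ h T j (fun _ => 1)
  simp only [mul_one] at this
  rw [this, SL_one _ (mass_fp_eq Λ h h1 hΛ T)]

end One

section Two

variable {BX BY : Type*} (ΛX : BX → ℝ≥0∞) (ΛY : BY → ℝ≥0∞) (hX : BX → ℕ) (hY : BY → ℕ)

lemma NN_left (hUX : ∀ n, U ΛX hX n ≤ 1) (hUY : ∀ n, U ΛY hY n ≤ 1) (n : ℕ) {ι : Type*}
    (f : ι → List BX) (φ : ι → Prop) {q : List BX → Prop}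
    (hq : ∀ L, HT hX L = n → q L → ∃ i R, L = f i ++ R ∧ φ i) :
    NN ΛX ΛY hX hY n (fun L _ => q L) ≤ ∑' i, LW ΛX (f i) * I (φ i) := by
  refine (NN_exists ΛX ΛY hX hY hUX hUY n f (fun _ : Unit => ([] : List BY))
    (fun i _ => φ i) ?_).trans (le_of_eq ?_)
  · intro L L' hL _ hh
    obtain ⟨i, R, e, hφ⟩ := hq L hL hh
    exact ⟨i, (), R, L', e, by simp, hφ⟩
  · refine tsum_congr fun i => ?_
    rw [tsum_fintype]
    simp [LW_nil]

lemma NN_right (hUX : ∀ n, U ΛX hX n ≤ 1) (hUY : ∀ n, U ΛY hY n ≤ 1) (n : ℕ) {κ : Type*}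
    (g : κ → List BY) (φ : κ → Prop) {q : List BY → Prop}
    (hq : ∀ L, HT hY L = n → q L → ∃ i R, L = g i ++ R ∧ φ i) :
    NN ΛX ΛY hX hY n (fun _ L' => q L') ≤ ∑' i, LW ΛY (g i) * I (φ i) := by
  refine (NN_exists ΛX ΛY hX hY hUX hUY n (fun _ : Unit => ([] : List BX)) g
    (fun _ i => φ i) ?_).trans (le_of_eq ?_)
  · intro L L' _ hL' hh
    obtain ⟨i, R, e, hφ⟩ := hq L' hL' hh
    exact ⟨(), i, L, R, by simp, e, hφ⟩
  · rw [tsum_fintype]
    simp [LW_nil]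

lemma sum_pair {B : Type*} (Λ : B → ℝ≥0∞) (h : B → ℕ) (T j : ℕ)
    (Φ : List (Pc h T) → Pc h T → Prop) :
    ∑' i : List (Pc h T) × Pc h T, LW Λ (fl h T i.1 ++ i.2.1) * I (i.1.length = j ∧ Φ i.1 i.2)
      = ∑' A, wL Λ h T j A * ∑' P, LP Λ h T P * I (Φ A P) := by
  rw [ENNReal.tsum_prod']
  refine tsum_congr fun A => ?_
  rw [← ENNReal.tsum_mul_left]
  refine tsum_congr fun P => ?_
  rw [LW_append, LW_fl, I_and, wL, LP]
  ring

/-- overshoot in the first `j + 1` pieces -/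
lemma ovsum {B : Type*} (Λ : B → ℝ≥0∞) (h : B → ℕ) (T i0 l : ℕ) (h1 : ∀ b, 1 ≤ h b)
    (hΛ : ∑' b, Λ b = 1) :
    ∑' i : List (Pc h T) × Pc h T, LW Λ (fl h T i.1 ++ i.2.1) *
      I (i.1.length = l ∧ T + i0 < HP h T i.2) ≤ ov Λ h T i0 := by
  classical
  have e := sum_pair Λ h T l (fun _ P => T + i0 < HP h T P)
  rw [e]
  have e2 : ∑' P, LP Λ h T P * I (T + i0 < HP h T P) = ov Λ h T i0 := by
    rw [ov]
    refine tsum_congr fun P => ?_
    by_cases hP : T + i0 < HP h T P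
    · rw [I_pos hP, if_pos hP, mul_one]
    · rw [I_neg hP, if_neg hP, mul_zero]
  rw [e2, ENNReal.tsum_mul_right, wL_mass Λ h T h1 hΛ, one_mul]

/-- two first passage lists -/
lemma exists_two {B : Type*} (h : B → ℕ) (t T2 i0 : ℕ) (L : List B)
    (hL : t + i0 + T2 ≤ HT h L) :
    (∃ (A : Pc h t) (P : Pc h T2) (R : List B), L = A.1 ++ P.1 ++ R ∧ HP h t A ≤ t + i0 ∧
      HP h T2 P ≤ T2 + i0) ∨
    (∃ (A : Pc h t) (R : List B), L = A.1 ++ R ∧ t + i0 < HP h t A) ∨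
    ∃ (A : Pc h t) (P : Pc h T2) (R : List B), L = A.1 ++ P.1 ++ R ∧ T2 + i0 < HP h T2 P := by
  obtain ⟨A, R, e, hA⟩ := exists_fp h t L (by omega)
  by_cases h1 : t + i0 < HP h t ⟨A, hA⟩
  · exact Or.inr (Or.inl ⟨⟨A, hA⟩, R, e, h1⟩)
  · have h2 : T2 ≤ HT h R := by
      have := congrArg (HT h) e
      rw [HT_append] at this
      unfold HP at h1
      simp only at h1
      omega
    obtain ⟨P, R2, e2, hP⟩ := exists_fp h T2 R h2
    by_cases h3 : T2 + i0 < HP h T2 ⟨P, hP⟩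
    · exact Or.inr (Or.inr ⟨⟨A, hA⟩, ⟨P, hP⟩, R2, by rw [e, e2, List.append_assoc], h3⟩)
    · exact Or.inl ⟨⟨A, hA⟩, ⟨P, hP⟩, R2, by rw [e, e2, List.append_assoc], not_lt.1 h1,
        not_lt.1 h3⟩

lemma ovsum1 {B : Type*} (Λ : B → ℝ≥0∞) (h : B → ℕ) (t i0 : ℕ) :
    ∑' A : Pc h t, LW Λ A.1 * I (t + i0 < HP h t A) = ov Λ h t i0 := by
  classical
  rw [ov]
  refine tsum_congr fun P => ?_
  by_cases hP : t + i0 < HP h t P
  · rw [I_pos hP, if_pos hP, mul_one]; rfl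
  · rw [I_neg hP, if_neg hP, mul_zero]

lemma ovsum2 {B : Type*} (Λ : B → ℝ≥0∞) (h : B → ℕ) (t T2 i0 : ℕ) (h1 : ∀ b, 1 ≤ h b)
    (hΛ : ∑' b, Λ b = 1) :
    ∑' i : Pc h t × Pc h T2, LW Λ (i.1.1 ++ i.2.1) * I (T2 + i0 < HP h T2 i.2)
      ≤ ov Λ h T2 i0 := by
  classical
  rw [ENNReal.tsum_prod']
  have e : ∀ A : Pc h t, ∑' P : Pc h T2, LW Λ (A.1 ++ P.1) * I (T2 + i0 < HP h T2 P)
      = LP Λ h t A * ov Λ h T2 i0 := by
    intro A
    rw [← ovsum1 Λ h T2 i0, ← ENNReal.tsum_mul_left]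
    refine tsum_congr fun P => ?_
    rw [LW_append, LP, mul_assoc]
  simp only [e]
  rw [ENNReal.tsum_mul_right, mass_fp_eq Λ h h1 hΛ, one_mul]

lemma nosm_sum {B : Type*} (Λ : B → ℝ≥0∞) (h : B → ℕ) (T j : ℕ) (S : Pc h T → Prop) (v : ℝ≥0∞)
    (hv : ∑' P, LP Λ h T P * I (¬ S P) ≤ v) :
    ∑' A : List (Pc h T), LW Λ (fl h T A) * I (A.length = j ∧ ¬ ∃ b ∈ A, S b) ≤ v ^ j := by
  classical
  have e1 : ∑' A : List (Pc h T), LW Λ (fl h T A) * I (A.length = j ∧ ¬ ∃ b ∈ A, S b)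
      = SL (LP Λ h T) j (fun L => if ∃ b ∈ L, S b then 0 else 1) := by
    rw [SL]
    refine tsum_congr fun A => ?_
    rw [LW_fl, I_and]
    by_cases hA : A.length = j
    · rw [I_pos hA, if_pos hA, one_mul]
      by_cases hS : ∃ b ∈ A, S b
      · rw [if_pos hS, I_neg (not_not.2 hS)]
      · rw [if_neg hS, I_pos hS]
    · rw [I_neg hA, if_neg hA, zero_mul, mul_zero]
  rw [e1, nosmall]
  refine pow_le_pow_left₀ zero_le ?_ j
  refine le_trans (le_of_eq ?_) hv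
  refine tsum_congr fun P => ?_
  by_cases hS : S P
  · rw [if_pos hS, I_neg (not_not.2 hS), mul_zero]
  · rw [if_neg hS, I_pos hS, mul_one]

lemma nl_sum (hUX : ∀ n, U ΛX hX n ≤ 1) (hUY : ∀ n, U ΛY hY n ≤ 1)
    (h1X : ∀ b, 1 ≤ hX b) (h1Y : ∀ b, 1 ≤ hY b) (hΛX : ∑' b, ΛX b = 1) (hΛY : ∑' b, ΛY b = 1)
    (n T j : ℕ) (SX : Pc hX T → Prop) (SY : Pc hY T → Prop) (u : ℝ≥0∞)
    (huX : ∑' P, LP ΛX hX T P * I (SX P) ≤ u) (huY : ∑' P, LP ΛY hY T P * I (SY P) ≤ u) :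
    NN ΛX ΛY hX hY n (fun L L' => (∃ (A : List (Pc hX T)) (P : Pc hX T) (R : List BX),
        L = fl hX T A ++ P.1 ++ R ∧ A.length = j ∧ SX P) ∧
      ∃ (A : List (Pc hY T)) (P : Pc hY T) (R : List BY),
        L' = fl hY T A ++ P.1 ++ R ∧ A.length = j ∧ SY P) ≤ u * u := by
  classical
  refine (NN_exists ΛX ΛY hX hY hUX hUY n
    (fun i : List (Pc hX T) × Pc hX T => fl hX T i.1 ++ i.2.1)
    (fun i : List (Pc hY T) × Pc hY T => fl hY T i.1 ++ i.2.1)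
    (fun i k => (i.1.length = j ∧ SX i.2) ∧ (k.1.length = j ∧ SY k.2)) ?_).trans ?_
  · rintro L L' _ _ ⟨⟨A, P, R, e, hA, hS⟩, ⟨A', P', R', e', hA', hS'⟩⟩
    exact ⟨(A, P), (A', P'), R, R', e, e', ⟨hA, hS⟩, ⟨hA', hS'⟩⟩
  · have ex := sum_pair ΛX hX T j (fun _ P => SX P)
    have ey := sum_pair ΛY hY T j (fun _ P => SY P)
    rw [ENNReal.tsum_mul_right, wL_mass ΛX hX T h1X hΛX, one_mul] at ex
    rw [ENNReal.tsum_mul_right, wL_mass ΛY hY T h1Y hΛY, one_mul] at ey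
    calc _ = (∑' i : List (Pc hX T) × Pc hX T, LW ΛX (fl hX T i.1 ++ i.2.1) *
              I (i.1.length = j ∧ SX i.2)) *
            ∑' k : List (Pc hY T) × Pc hY T, LW ΛY (fl hY T k.1 ++ k.2.1) *
              I (k.1.length = j ∧ SY k.2) := by
          rw [← ENNReal.tsum_mul_right]
          refine tsum_congr fun i => ?_
          rw [← ENNReal.tsum_mul_left]
          refine tsum_congr fun k => ?_
          rw [I_and (p := i.1.length = j ∧ SX i.2)]; ring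
      _ = _ := by rw [ex, ey]
      _ ≤ u * u := mul_le_mul' huX huY

end Two

end Crest.Agent.R154.Asm10
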