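import Crest.Agent.R154.AsmE_103

/-! Row 154, ROAD 801, assembly in pieces from the tie (helper103), part 4: one window. -/

set_option autoImplicit false

namespace Crest.Agent.R154.Asm103

open scoped ENNReal
open Crest.Agent.R154.B5A Crest.Agent.R154.FP178

variable {BX BY G : Type*} [AddCommGroup G]
  (ΛX : BX → ℝ≥0∞) (hX : BX → ℕ) (zX : BX → G) (sX : BX → Set (G × ℕ))
  (ΛY : BY → ℝ≥0∞) (hY : BY → ℕ) (zY : BY → G) (sY : BY → Set (G × ℕ))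

open Classical in
/-- window lemma, X local (H2) -/
def H2 (C : ℝ≥0∞) (us : ℕ → ℕ → ℝ≥0∞) : Prop :=
  ∀ (i0 s h h' a a' lo : ℕ) (E : Finset G) (μ : G → ℝ≥0∞) (M lam : ℝ≥0∞), ∑' x, μ x ≤ 1 →
    (∀ x, μ x ≤ M) → lam ≠ 0 → lam ≠ ⊤ → a ≤ a' + i0 → a + s ≤ lo → a' + s ≤ lo →
    ∑' x, μ x * ∑' L, ∑' L', (if HT hX L = h ∧ Dp zX L ∈ E ∧ HT hY L' = h' ∧
      (∃ z k, (z, k) ∈ TT sX zX hX L 0 a ∧ (z, k) ∈ TT sY zY hY L' x a') ∧
      (∀ z k, (z, k) ∈ TT sX zX hX L 0 a → (z, k) ∈ TT sY zY hY L' x a' → lo ≤ k)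
      then LW ΛX L * LW ΛY L' else 0) ≤ C * (lam + M * E.card * us i0 s / lam + us i0 s)

open Classical in
/-- window lemma, Y local (H3) -/
def H3 (C : ℝ≥0∞) (us : ℕ → ℕ → ℝ≥0∞) : Prop :=
  ∀ (i0 s h h' a a' hi : ℕ) (E : Finset G) (μ : G → ℝ≥0∞) (M lam : ℝ≥0∞), ∑' x, μ x ≤ 1 →
    (∀ x, μ x ≤ M) → lam ≠ 0 → lam ≠ ⊤ → a + h ≤ a' + h' + i0 → hi + s ≤ a + h →
    hi + s ≤ a' + h' →
    ∑' x, μ x * ∑' L, ∑' L', (if HT hX L = h ∧ Dp zY L' ∈ E ∧ HT hY L' = h' ∧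
      (∃ z k, (z, k) ∈ TT sX zX hX L 0 a ∧ (z, k) ∈ TT sY zY hY L' x a') ∧
      (∀ z k, (z, k) ∈ TT sX zX hX L 0 a → (z, k) ∈ TT sY zY hY L' x a' → k ≤ hi)
      then LW ΛX L * LW ΛY L' else 0) ≤ C * (lam + M * E.card * us i0 s / lam + us i0 s)

lemma SL_swap {B B' : Type*} (Λ : B → ℝ≥0∞) (Λ' : B' → ℝ≥0∞) (j j' : ℕ)
    (F : List B → List B' → ℝ≥0∞) :
    SL Λ j (fun Q => SL Λ' j' (fun Q' => F Q Q')) = SL Λ' j' (fun Q' => SL Λ j (fun Q => F Q Q')) := by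
  simp only [SL]
  have e1 : ∀ L : List B, (if L.length = j then LW Λ L *
      ∑' L', (if L'.length = j' then LW Λ' L' * F L L' else 0) else 0)
      = ∑' L', (if L.length = j ∧ L'.length = j' then LW Λ L * (LW Λ' L' * F L L') else 0) := by
    intro L
    by_cases h : L.length = j
    · rw [if_pos h, ← ENNReal.tsum_mul_left]
      refine tsum_congr fun L' => ?_
      by_cases h' : L'.length = j' <;> simp [h, h']
    · simp [h]
  have e2 : ∀ L' : List B', (if L'.length = j' then LW Λ' L' *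
      ∑' L, (if L.length = j then LW Λ L * F L L' else 0) else 0)
      = ∑' L, (if L.length = j ∧ L'.length = j' then LW Λ L * (LW Λ' L' * F L L') else 0) := by
    intro L'
    by_cases h : L'.length = j'
    · rw [if_pos h, ← ENNReal.tsum_mul_left]
      refine tsum_congr fun L => ?_
      by_cases h' : L.length = j <;> simp [h, h', mul_left_comm]
    · simp [h]
  simp only [e1, e2]
  exact ENNReal.tsum_comm

/-- the contact event of two pieces -/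
def Con (lo hi : ℕ) (A : List BX) (C : List BY) (x x' : G) (a a' : ℕ) : Prop :=
  (∃ y k, (y, k) ∈ TT sX zX hX A x a ∧ (y, k) ∈ TT sY zY hY C x' a') ∧
  (∀ y k, (y, k) ∈ TT sX zX hX A x a → (y, k) ∈ TT sY zY hY C x' a' → lo ≤ k ∧ k ≤ hi)

lemma con_shift (lo hi : ℕ) (A : List BX) (C : List BY) (x x' : G) (a a' : ℕ)
    (h : Con hX zX sX hY zY sY lo hi A C x x' a a') :
    (∃ y k, (y, k) ∈ TT sX zX hX A 0 a ∧ (y, k) ∈ TT sY zY hY C (x' - x) a') ∧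
    (∀ y k, (y, k) ∈ TT sX zX hX A 0 a → (y, k) ∈ TT sY zY hY C (x' - x) a' →
      lo ≤ k ∧ k ≤ hi) := by
  have hx : x = 0 + x := by abel
  have hx' : x' = (x' - x) + x := by abel
  obtain ⟨⟨y, k, h1, h2⟩, h3⟩ := h
  constructor
  · refine ⟨y - x, k, ?_, ?_⟩
    · rw [hx, TT_shift] at h1; simpa using h1
    · rw [hx', TT_shift] at h2; exact h2
  · intro y k g1 g2
    refine h3 (y + x) k ?_ ?_
    · rw [hx, TT_shift]; simpa using g1
    · rw [hx', TT_shift]; simpa using g2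

/-- cost of one side -/
noncomputable def cost (C lam v : ℝ≥0∞) (j i0 : ℕ) : ℝ≥0∞ :=
  ((j * i0 + 1 : ℕ) : ℝ≥0∞) * (((i0 + 1 : ℕ) : ℝ≥0∞) * ((i0 + 1 : ℕ) : ℝ≥0∞) *
    (C * (lam + (2 * j) * v / lam + v)))

open Classical in
lemma card_E {B : Type*} (Λ : B → ℝ≥0∞) (h : B → ℕ) (z : B → G) (h1 : ∀ b, 1 ≤ h b)
    (hΛ : ∑' b, Λ b = 1) (T : ℕ) (θ : ℝ≥0∞) (hθ : θ ≠ 0) (n : ℤ) :
    ∃ E : Finset G, (∀ x, θ ≤ pp Λ h z T (n, x) → x ∈ E) ∧ (E.card : ℝ≥0∞) * θ ≤ 1 := by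
  have hs : ∑' x : G, pp Λ h z T (n, x) ≤ 1 := by
    rw [← pp_sum Λ h z h1 hΛ T]
    exact ENNReal.tsum_comp_le_tsum_of_injective (f := fun x : G => (n, x))
      (fun x y hxy => (Prod.mk.inj hxy).2) _
  obtain ⟨hf, hc⟩ := AsmA789.card_le (fun x : G => pp Λ h z T (n, x)) hs hθ
  refine ⟨hf.toFinset, fun x hx => by simpa using hx, ?_⟩
  rwa [Set.ncard_eq_toFinset_card _ hf] at hc

open Classical in
theorem windowX (C : ℝ≥0∞) (us : ℕ → ℕ → ℝ≥0∞) (hH2 : H2 ΛX hX zX sX ΛY hY zY sY C us)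
    (h1X : ∀ b, 1 ≤ hX b) (hΛX : ∑' b, ΛX b = 1) (h1Y : ∀ b, 1 ≤ hY b)
    (hΛY : ∑' b, ΛY b = 1) (T i0 j : ℕ) (θ q lam : ℝ≥0∞) (hθ : θ ≠ 0)
    (hq : ∑' A, (if pp ΛX hX zX T (ff hX zX A) < 2 * θ then 0 else PW ΛX hX T A) ≤ q)
    (hl0 : lam ≠ 0) (hlt : lam ≠ ⊤) (s lo hi : ℕ) (hlo : j * (T + i0) + s ≤ lo) (w : G) :
    SL (PW ΛX hX T) j (fun Q => SL (PW ΛY hY T) j (fun Q' => ∑' A, ∑' A',
      (if (∀ A ∈ Q, T ≤ HT hX A ∧ HT hX A ≤ T + i0) ∧ (∀ C ∈ Q', T ≤ HT hY C ∧ HT hY C ≤ T + i0) ∧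
        (T ≤ HT hX A ∧ HT hX A ≤ T + i0) ∧ (T ≤ HT hY A' ∧ HT hY A' ≤ T + i0) ∧
        θ ≤ pp ΛX hX zX T (ff hX zX A) ∧
        Con hX zX sX hY zY sY lo hi A A' (Dp zX Q.flatten) (w + Dp zY Q'.flatten)
          (HT hX Q.flatten) (HT hY Q'.flatten)
        then PW ΛX hX T A * PW ΛY hY T A' else 0)))
      ≤ q ^ j + cost C lam (us (j * i0) s) j i0 := by
  refine side ΛX hX zX ΛY hY h1X hΛX h1Y hΛY T i0 j θ q hq
    (fun a x A Q' A' => Con hX zX sX hY zY sY lo hi A A' x (w + Dp zY Q'.flatten) a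
      (HT hY Q'.flatten)) (C * (lam + (2 * j) * us (j * i0) s / lam + us (j * i0) s)) ?_
  intro a h h' Q' hQ'j hQ' ha1 ha2 _ _ _ _ ρ hρ1 hρ2
  obtain ⟨E, hE, hEc⟩ := card_E ΛX hX zX h1X hΛX T θ hθ (h : ℤ)
  have hr := HT_take hY T i0 Q' hQ' j hQ'j.ge
  rw [← hQ'j, List.take_length, hQ'j] at hr
  set W := w + Dp zY Q'.flatten with hW
  set a' := HT hY Q'.flatten with ha'
  have key := hH2 (j * i0) s h h' a a' lo E (fun y => ρ (W - y)) (j * (2 * θ)) lam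
    (by
      have := (Equiv.subLeft W).tsum_eq ρ
      simp only [Equiv.subLeft_apply] at this
      rw [this]; exact hρ1)
    (fun y => hρ2 _) hl0 hlt (by nlinarith) (by omega) (by omega)
  calc ∑' x, ρ x * ∑' A, ∑' A', (if HT hX A = h ∧ θ ≤ pp ΛX hX zX T ((h : ℤ), Dp zX A) ∧
        HT hY A' = h' ∧ Con hX zX sX hY zY sY lo hi A A' x W a a' then LW ΛX A * LW ΛY A' else 0)
      ≤ ∑' x, ρ x * ∑' L, ∑' L', (if HT hX L = h ∧ Dp zX L ∈ E ∧ HT hY L' = h' ∧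
      (∃ z k, (z, k) ∈ TT sX zX hX L 0 a ∧ (z, k) ∈ TT sY zY hY L' (W - x) a') ∧
      (∀ z k, (z, k) ∈ TT sX zX hX L 0 a → (z, k) ∈ TT sY zY hY L' (W - x) a' → lo ≤ k)
      then LW ΛX L * LW ΛY L' else 0) := by
        refine ENNReal.tsum_le_tsum fun x => mul_le_mul_right ?_ _
        refine ENNReal.tsum_le_tsum fun A => ENNReal.tsum_le_tsum fun A' => ?_
        split_ifs with c1 c2
        · exact le_rfl
        · exfalso
          apply c2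
          have := con_shift hX zX sX hY zY sY lo hi A A' x W a a' c1.2.2.2
          exact ⟨c1.1, hE _ c1.2.1, c1.2.2.1, this.1, fun z k g1 g2 => (this.2 z k g1 g2).1⟩
        · exact zero_le
        · exact le_rfl
    _ = _ := by
        rw [← (Equiv.subLeft W).tsum_eq (fun x => ρ x * ∑' L, ∑' L',
          (if HT hX L = h ∧ Dp zX L ∈ E ∧ HT hY L' = h' ∧
          (∃ z k, (z, k) ∈ TT sX zX hX L 0 a ∧ (z, k) ∈ TT sY zY hY L' (W - x) a') ∧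
          (∀ z k, (z, k) ∈ TT sX zX hX L 0 a → (z, k) ∈ TT sY zY hY L' (W - x) a' → lo ≤ k)
          then LW ΛX L * LW ΛY L' else 0))]
        simp only [Equiv.subLeft_apply, sub_sub_cancel]
    _ ≤ _ := key
    _ ≤ _ := by
        refine mul_le_mul_right (add_le_add (add_le_add le_rfl ?_) le_rfl) _
        rw [ENNReal.div_eq_inv_mul, ENNReal.div_eq_inv_mul]
        refine mul_le_mul_right (mul_le_mul_left ?_ _) _
        calc (j : ℝ≥0∞) * (2 * θ) * E.card = (2 * j) * (E.card * θ) := by ring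
          _ ≤ (2 * j) * 1 := mul_le_mul_right hEc _
          _ = _ := mul_one _

end Crest.Agent.R154.Asm103
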