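import Crest.Agent.R154.AsmE_129

/-! Row 154, KAPPA' (801 #38888): the abstract assembly (helper129). -/

set_option autoImplicit false

namespace Crest.Agent.R154.Asm129

open scoped ENNReal Topology
open Filter
open Crest.Agent.R154.B5A
open Classical

variable {BX BY G : Type*} [AddCommGroup G]
variable (ΛX : BX → ℝ≥0∞) (hX : BX → ℕ) (zX : BX → G)
  (ΛY : BY → ℝ≥0∞) (hY : BY → ℕ) (zY : BY → G)
  (Ct : ℕ → ℕ → G → List BX → List BY → Set ℕ)

lemma NS_eq (n : ℕ) (Q : List BX → List BY → Prop) : NS ΛX hX ΛY hY n Q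
    = ∑' L, ∑' L', if HT hX L = n ∧ HT hY L' = n ∧ Q L L' then LW ΛX L * LW ΛY L' else 0 := by
  rw [NS]
  refine tsum_congr fun L => ?_
  by_cases hL : HT hX L = n
  · rw [if_pos hL, ← ENNReal.tsum_mul_left]
    refine tsum_congr fun L' => ?_
    by_cases hL' : HT hY L' = n
    · by_cases hQ : Q L L'
      · rw [if_pos hL', if_pos hQ, if_pos ⟨hL, hL', hQ⟩, mul_one]
      · rw [if_pos hL', if_neg hQ, if_neg (fun h => hQ h.2.2), mul_zero, mul_zero]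
    · rw [if_neg hL', if_neg (fun h => hL' h.2.1), mul_zero]
  · rw [if_neg hL]
    simp [hL]

lemma NS_le_sum (n : ℕ) (Q : List BX → List BY → Prop) (J : ℕ)
    (E S : ℕ → List BX → List BY → Prop)
    (h : ∀ L L', Q L L' → ∃ j < J, E j L L' ∨ S j L L') :
    NS ΛX hX ΛY hY n Q
      ≤ ∑ j ∈ Finset.range J, (NS ΛX hX ΛY hY n (E j) + NS ΛX hX ΛY hY n (S j)) := by
  simp only [NS_eq]
  simp only [← ENNReal.tsum_add]
  rw [← Summable.tsum_finsetSum (fun _ _ => ENNReal.summable)]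
  refine ENNReal.tsum_le_tsum fun L => ?_
  rw [← Summable.tsum_finsetSum (fun _ _ => ENNReal.summable)]
  refine ENNReal.tsum_le_tsum fun L' => ?_
  by_cases hQ : HT hX L = n ∧ HT hY L' = n ∧ Q L L'
  · rw [if_pos hQ]
    obtain ⟨j, hj, hES⟩ := h L L' hQ.2.2
    refine le_trans ?_ (Finset.single_le_sum (f := fun j =>
      (if HT hX L = n ∧ HT hY L' = n ∧ E j L L' then LW ΛX L * LW ΛY L' else 0) +
      (if HT hX L = n ∧ HT hY L' = n ∧ S j L L' then LW ΛX L * LW ΛY L' else 0))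
      (fun _ _ => zero_le) (Finset.mem_range.2 hj))
    rcases hES with hE | hS
    · rw [if_pos ⟨hQ.1, hQ.2.1, hE⟩]; exact le_self_add
    · rw [if_pos (⟨hQ.1, hQ.2.1, hS⟩ : HT hX L = n ∧ HT hY L' = n ∧ S j L L')]
      exact le_add_self
  · rw [if_neg hQ]; exact zero_le

/-- **KAPPA' in list form** -/
theorem kapS (h1X : ∀ b, 1 ≤ hX b) (h1Y : ∀ b, 1 ≤ hY b) (hΛX : ∑' b, ΛX b = 1)
    (hΛY : ∑' b, ΛY b = 1) (hUX : ∀ n, U ΛX hX n ≤ 1) (hUY : ∀ n, U ΛY hY n ≤ 1)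
    (hmX : ∑' b, ΛX b * (hX b : ℝ≥0∞) ≠ ⊤) (hmY : ∑' b, ΛY b * (hY b : ℝ≥0∞) ≠ ⊤)
    (hCt1 : ∀ (A P R : List BX) (A' P' R' : List BY) (w : G),
      Ct (HT hX A) (HT hY A') (w + Dp zY A' - Dp zX A) P P'
        ⊆ Ct 0 0 w (A ++ (P ++ R)) (A' ++ (P' ++ R')))
    (hCt2 : ∀ (A P R : List BX) (A' P' R' : List BY) (w : G) (k : ℕ),
      k ∈ Ct 0 0 w (A ++ (P ++ R)) (A' ++ (P' ++ R')) → HT hX A < k → k ≤ HT hX A + HT hX P →
      HT hY A' < k → k ≤ HT hY A' + HT hY P' →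
      k ∈ Ct (HT hX A) (HT hY A') (w + Dp zY A' - Dp zX A) P P')
    (hCt3 : ∀ a a' x (P : List BX) (P' : List BY) k, k ∈ Ct a a' x P P' → k ≤ a + HT hX P)
    (C : ℝ≥0∞) (hC : C ≠ ⊤) (us : ℕ → ℝ≥0∞) (hus : Tendsto us atTop (𝓝 0))
    (hH2 : H2 ΛX hX zX ΛY hY Ct C us)
    (hH3 : H3 ΛX hX ΛY hY zY Ct C us)
    (hH5 : H5 ΛX hX ΛY hY Ct) :
    ∀ ε : ℝ≥0∞, ε ≠ 0 → ∃ M0 : ℕ, ∀ m, M0 ≤ m → ∀ n, 10 * m ≤ n → ∀ w,
      NS ΛX hX ΛY hY n (fun L L' => (∀ k ∈ Ct 0 0 w L L', m < k) ∧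
        ∃ k ∈ Ct 0 0 w L L', k ≤ 2 * m) ≤ ε := by
  intro ε hε
  obtain ⟨N, u, i0, lam, s, η, hu0, hu1, hl0, hlt, hη0, hfin⟩ :=
    consts (tendsto_ep ΛX hX hmX) (tendsto_ep ΛY hY hmY) hus C hC ε hε
  obtain ⟨T0, hT0⟩ := hH5 (s + 2 * i0) η hη0
  refine ⟨(5 * N + 2) * (2 * i0 + s + 1) + T0, fun m hm n hn w => ?_⟩
  set t := m / (5 * N + 2) with ht
  have hpos : 0 < 5 * N + 2 := by omega
  have ht1 : 2 * i0 + s + 1 ≤ t := by
    rw [ht, Nat.le_div_iff_mul_le hpos, mul_comm]; omega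
  have ht2 : (5 * N + 2) * t ≤ m := by rw [mul_comm]; exact Nat.div_mul_le_self m _
  have ht3 : m < (5 * N + 2) * (t + 1) := by
    have := Nat.lt_mul_div_succ m hpos
    exact this
  have ht4 : 5 * (N * t) + 2 * t ≤ m := by nlinarith
  have ht5 : N * i0 ≤ N * t := Nat.mul_le_mul_left _ (by omega)
  have ht6 : m < (10 * N + 4) * t := by nlinarith
  have ht7 : (10 * N + 4) * t ≤ 2 * m := by nlinarith
  refine (NS_le_sum ΛX hX ΛY hY n _ (10 * N + 4)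
    (fun j => Ev Ct w (m + j * t) t s i0)
    (fun j L L' => ∃ k ∈ Ct 0 0 w L L', m + j * t + 2 * t - s < k ∧
      k ≤ m + j * t + 2 * t - s + (s + 2 * i0)) ?_).trans ?_
  · rintro L L' ⟨h1, k1, hk1, hk1m⟩
    -- the first contact
    have hne : ∃ k, k ∈ Ct 0 0 w L L' := ⟨k1, hk1⟩
    set k0 := Nat.find hne with hk0
    have hk0mem : k0 ∈ Ct 0 0 w L L' := Nat.find_spec hne
    have hk0min : ∀ k ∈ Ct 0 0 w L L', k0 ≤ k := fun k hk => Nat.find_min' hne hk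
    have hk0m := h1 k0 hk0mem
    have hk0le : k0 ≤ 2 * m := (hk0min k1 hk1).trans hk1m
    set j := (k0 - m - 1) / t with hj
    have htp : 0 < t := by omega
    have hj1 : j * t ≤ k0 - m - 1 := Nat.div_mul_le_self _ _
    have hj2 : k0 - m - 1 < (j + 1) * t := by
      have := Nat.lt_mul_div_succ (k0 - m - 1) htp
      rw [mul_comm]; exact this
    have hjJ : j < 10 * N + 4 := by
      rw [hj, Nat.div_lt_iff_lt_mul htp]
      omega
    refine ⟨j, hjJ, ?_⟩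
    by_cases hS : ∃ k ∈ Ct 0 0 w L L', m + j * t + 2 * t - s < k ∧
      k ≤ m + j * t + 2 * t - s + (s + 2 * i0)
    · exact Or.inr hS
    · refine Or.inl ⟨fun k hk => ?_, ⟨k0, hk0mem, ?_⟩, fun k hk h5 h6 => hS ⟨k, hk, ?_, ?_⟩⟩
      · have := hk0min k hk; omega
      · rw [add_mul, one_mul] at hj2; omega
      · omega
      · omega
  · calc _ ≤ ∑ j ∈ Finset.range (10 * N + 4), ((2 * ep ΛX hX i0 + (2 * ep ΛY hY i0 + (u * u
        + ((((i0 + 1 : ℕ) : ℝ≥0∞) * ((i0 + 1 : ℕ) * (((i0 + 1 : ℕ) : ℝ≥0∞) * ((i0 + 1 : ℕ) *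
          (C * (lam + N * (i0 + 1 : ℕ) * us s / lam + us s)))))
          + ((1 - u) ^ N + N * ep ΛX hX i0))
        + (((i0 + 1 : ℕ) : ℝ≥0∞) * ((i0 + 1 : ℕ) * (((i0 + 1 : ℕ) : ℝ≥0∞) * ((i0 + 1 : ℕ) *
          (C * (lam + N * (i0 + 1 : ℕ) * us s / lam + us s)))))
          + ((1 - u) ^ N + N * ep ΛY hY i0)))))) + η) := by
          refine Finset.sum_le_sum fun j hj => ?_
          rw [Finset.mem_range] at hj
          have hjt : j * t + t ≤ (10 * N + 4) * t := by nlinarith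
          refine add_le_add ?_ ?_
          · refine window ΛX hX zX ΛY hY zY Ct h1X h1Y hΛX hΛY hUX hUY hCt1 hCt2 hCt3 C us hH2 hH3
              u hu0 hu1 N i0 s t (m + j * t) n lam hl0 hlt (by omega) (by omega) ?_ (by omega) w
            have : N * (4 * t + i0) = 4 * (N * t) + N * i0 := by ring
            rw [this]
            omega
          · rw [NS_eq]
            exact hT0 (m + j * t + 2 * t - s) (by omega) n (by omega) w
      _ ≤ ε := by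
          rw [Finset.sum_const, Finset.card_range, nsmul_eq_mul]
          exact hfin

end Crest.Agent.R154.Asm129
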