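import Crest.Agent.R154.AsmE_15
import Crest.Agent.R154.Dens_903

/-! Row 154, ROAD 801 (helper15): one window, total bound. -/

set_option autoImplicit false

namespace Crest.Agent.R154.Asm15

open scoped ENNReal Classical
open Finset
open Crest.Agent.R154.B5A Crest.Agent.R154.FP178

section window

variable {BX BY G : Type*} [AddCommGroup G]
  (ΛX : BX → ℝ≥0∞) (hX : BX → ℕ) (zX : BX → G) (sX : BX → Set (G × ℕ))
  (ΛY : BY → ℝ≥0∞) (hY : BY → ℕ) (zY : BY → G) (sY : BY → Set (G × ℕ))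

/-- weight of the contacts at depth `k` -/
noncomputable def PtW (n k : ℕ) (w : G) : ℝ≥0∞ :=
  ∑' L, ∑' L', (if HT hX L = n ∧ HT hY L' = n ∧
    (∃ z, (z, k) ∈ TT hX zX sX L 0 0 ∧ (z, k) ∈ TT hY zY sY L' w 0)
    then LW ΛX L * LW ΛY L' else 0)

/-- weight of the contacts at depth in `(lo, hi]` -/
noncomputable def WinW (n lo hi : ℕ) (w : G) : ℝ≥0∞ :=
  ∑' L, ∑' L', (if HT hX L = n ∧ HT hY L' = n ∧
    (∃ k, lo < k ∧ k ≤ hi ∧ ∃ z, (z, k) ∈ TT hX zX sX L 0 0 ∧ (z, k) ∈ TT hY zY sY L' w 0)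
    then LW ΛX L * LW ΛY L' else 0)

theorem window (us : ℕ → ℝ≥0∞) (C : ℝ≥0∞)
    (h1X : ∀ b, 1 ≤ hX b) (hΛX : ∑' b, ΛX b = 1) (h1Y : ∀ b, 1 ≤ hY b) (hΛY : ∑' b, ΛY b = 1)
    (hUX : ∀ n, U ΛX hX n ≤ 1) (hUY : ∀ n, U ΛY hY n ≤ 1)
    (hdX : ∀ b, ∀ q ∈ sX b, 1 ≤ q.2 ∧ q.2 ≤ hX b)
    (hdY : ∀ b, ∀ q ∈ sY b, 1 ≤ q.2 ∧ q.2 ≤ hY b)
    (hH2 : H2 ΛX hX zX sX ΛY hY zY sY us C) (hH3 : H3 ΛX hX zX sX ΛY hY zY sY us C)
    (i0 s α α' τ lo hi n : ℕ) (hατ : α + 2 * i0 ≤ α')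
    (hlo : α' + i0 + s ≤ lo) (hhi : hi + s ≤ α + τ) (hn : α' + i0 + τ ≤ n)
    (thX thY : ℝ≥0∞) (hthX : thX ≠ 0) (hthY : thY ≠ 0) (K0 : ℝ≥0∞) (u δ ov η : ℝ≥0∞)
    (hovX : ∀ a, ∑' L, (if fp hX a L ∧ a + i0 < HT hX L then LW ΛX L else 0) ≤ ov)
    (hovY : ∀ a, ∑' L, (if fp hY a L ∧ a + i0 < HT hY L then LW ΛY L else 0) ≤ ov)
    (hqX : ∑' i, ∑' z, (if law ΛX hX zX τ i z < thX then law ΛX hX zX τ i z else 0) ≤ u)
    (hqY : ∑' i, ∑' z, (if law ΛY hY zY τ i z < thY then law ΛY hY zY τ i z else 0) ≤ u)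
    (hsX : Sm (law ΛX hX zX α) (thX * K0) δ) (hsY : Sm (law ΛY hY zY α') (thY * K0) δ)
    (lam : ℝ≥0∞) (hl : lam ≠ 0) (hl' : lam ≠ ⊤) (w : G)
    (hPt : ∀ k ∈ Ioc α lo ∪ Ioc hi (α + τ + 2 * i0),
      PtW ΛX hX zX sX ΛY hY zY sY n k w ≤ η) :
    WinW ΛX hX zX sX ΛY hY zY sY n lo hi w
      ≤ (Ioc α lo ∪ Ioc hi (α + τ + 2 * i0)).card * η + (4 * ov +
        (u * u + 2 * ((i0 + 1) ^ 4 * (C * (lam + K0 * us s / lam + us s)) + δ))) := by
  set Sl := Ioc α lo ∪ Ioc hi (α + τ + 2 * i0) with hSl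
  set Com : List BX → List BY → ℕ → Prop := fun L L' k =>
    ∃ z, (z, k) ∈ TT hX zX sX L 0 0 ∧ (z, k) ∈ TT hY zY sY L' w 0 with hCom
  set F : List BX → List BY → ℝ≥0∞ := fun L L' =>
    if (∃ k, lo < k ∧ k ≤ hi ∧ Com L L' k) ∧ ∀ k ∈ Sl, ¬ Com L L' k then 1 else 0 with hF
  have hF1 : ∀ L L', F L L' ≤ 1 := by
    intro L L'
    simp only [hF]
    split_ifs <;> simp
  -- separation of the slab
  have hA : WinW ΛX hX zX sX ΛY hY zY sY n lo hi w
      ≤ ∑ k ∈ Sl, PtW ΛX hX zX sX ΛY hY zY sY n k w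
        + ∑' L, (if HT hX L = n then LW ΛX L *
          ∑' L', (if HT hY L' = n then LW ΛY L' * F L L' else 0) else 0) := by
    simp only [WinW, PtW]
    rw [← Summable.tsum_finsetSum (fun _ _ => ENNReal.summable), ← ENNReal.tsum_add]
    refine ENNReal.tsum_le_tsum fun L => ?_
    rw [← Summable.tsum_finsetSum (fun _ _ => ENNReal.summable)]
    by_cases hL : HT hX L = n
    · rw [if_pos hL, ← ENNReal.tsum_mul_left, ← ENNReal.tsum_add]
      refine ENNReal.tsum_le_tsum fun L' => ?_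
      by_cases hL' : HT hY L' = n
      · rw [if_pos hL']
        by_cases hc : ∃ k, lo < k ∧ k ≤ hi ∧ Com L L' k
        · rw [if_pos ⟨hL, hL', hc⟩]
          by_cases hs : ∀ k ∈ Sl, ¬ Com L L' k
          · refine le_add_left ?_
            simp only [hF]
            rw [if_pos ⟨hc, hs⟩, mul_one]
          · refine le_add_right ?_
            push Not at hs
            obtain ⟨k, hk, hck⟩ := hs
            refine le_trans ?_ (single_le_sum (f := fun k => (if HT hX L = n ∧ HT hY L' = n ∧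
              (∃ z, (z, k) ∈ TT hX zX sX L 0 0 ∧ (z, k) ∈ TT hY zY sY L' w 0)
              then LW ΛX L * LW ΛY L' else 0)) (fun _ _ => zero_le) hk)
            rw [if_pos ⟨hL, hL', hck⟩]
        · rw [if_neg (fun h => hc h.2.2)]; exact zero_le
      · rw [if_neg (fun h => hL' h.2.1)]; exact zero_le
    · refine le_trans (le_of_eq ?_) zero_le
      rw [ENNReal.tsum_eq_zero]
      intro L'
      rw [if_neg (fun h => hL h.1)]
  refine hA.trans (add_le_add ?_ ?_)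
  · calc ∑ k ∈ Sl, PtW ΛX hX zX sX ΛY hY zY sY n k w ≤ ∑ k ∈ Sl, η :=
          sum_le_sum fun k hk => hPt k hk
      _ = Sl.card * η := by simp
  -- two first passages, X
  set Gf : List BX → List BX → List BY → ℝ≥0∞ := fun L0 L1 L' =>
    ⨆ L2 : List BX, ⨆ _ : fp hX α L0 ∧ HT hX L0 ≤ α + i0 ∧ fp hX τ L1 ∧ HT hX L1 ≤ τ + i0,
      F (L0 ++ (L1 ++ L2)) L' with hGf
  have hX2 := two_fp' ΛX hX h1X hΛX hUX α τ i0 n (by omega) ov hovX
    (fun L => ∑' L', (if HT hY L' = n then LW ΛY L' * F L L' else 0))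
    (fun L => by
      refine le_trans (ENNReal.tsum_le_tsum fun L' => ?_) (hUY n)
      by_cases hL' : HT hY L' = n
      · rw [if_pos hL', if_pos hL']
        calc LW ΛY L' * F L L' ≤ LW ΛY L' * 1 := mul_le_mul_right (hF1 _ _) _
          _ = _ := mul_one _
      · rw [if_neg hL', if_neg hL'])
    (fun L0 L1 => ∑' L', (if HT hY L' = n then LW ΛY L' * Gf L0 L1 L' else 0))
    (fun L0 L1 L2 a0 b0 a1 b1 _ => by
      refine ENNReal.tsum_le_tsum fun L' => ?_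
      by_cases hL' : HT hY L' = n
      · rw [if_pos hL', if_pos hL']
        refine mul_le_mul_right ?_ _
        simp only [hGf]
        exact le_iSup₂_of_le L2 ⟨a0, b0, a1, b1⟩ le_rfl
      · rw [if_neg hL', if_neg hL'])
  refine hX2.trans ?_
  -- two first passages, Y
  have hY2 : ∀ L0 L1, ∑' L', (if HT hY L' = n then LW ΛY L' * Gf L0 L1 L' else 0)
      ≤ 2 * ov + ∑' L0', ∑' L1', pw ΛY hY i0 α' L0' * pw ΛY hY i0 τ L1' *
        (if Cn hX zX sX hY zY sY L1 (HT hX L0) L1'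
          (w + Dp zY L0' - Dp zX L0) (HT hY L0') lo hi then 1 else 0) := by
    intro L0 L1
    refine two_fp' ΛY hY h1Y hΛY hUY α' τ i0 n (by omega) ov hovY (Gf L0 L1) (fun L' => ?_)
      _ ?_
    · simp only [hGf]
      exact iSup₂_le fun L2 _ => hF1 _ _
    · intro L0' L1' L2' a0' b0' a1' b1' _
      simp only [hGf]
      refine iSup₂_le fun L2 hh => ?_
      simp only [hF]
      by_cases hc : (∃ k, lo < k ∧ k ≤ hi ∧ Com (L0 ++ (L1 ++ L2)) (L0' ++ (L1' ++ L2')) k) ∧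
          ∀ k ∈ Sl, ¬ Com (L0 ++ (L1 ++ L2)) (L0' ++ (L1' ++ L2')) k
      · rw [if_pos hc, if_pos]
        refine Cn_of_full hX zX sX hY zY sY hdX hdY i0 α α' τ lo hi (by omega) (by omega)
          (by omega) (by omega) L0 L1 L2 L0' L1' L2' w hh.1 hh.2.1 hh.2.2.1 hh.2.2.2
          a0' b0' a1' hc.1 ?_
        intro k hk
        refine hc.2 k ?_
        rw [hSl, mem_union, mem_Ioc, mem_Ioc]
        exact hk
      · rw [if_neg hc]; exact zero_le
  have h4 := four_le ΛX hX zX sX ΛY hY zY sY us C h1X hΛX h1Y hΛY hH2 hH3 i0 s α α' τ lo hi hατ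
    hlo hhi thX thY hthX hthY K0 u δ hqX hqY hsX hsY lam hl hl' w
  have h5 : ∑' L0, ∑' L1, pw ΛX hX i0 α L0 * pw ΛX hX i0 τ L1 *
      ∑' L', (if HT hY L' = n then LW ΛY L' * Gf L0 L1 L' else 0)
      ≤ 2 * ov + (u * u + 2 * ((i0 + 1) ^ 4 * (C * (lam + K0 * us s / lam + us s)) + δ)) := by
    calc _ ≤ ∑' L0, ∑' L1, (pw ΛX hX i0 α L0 * pw ΛX hX i0 τ L1 * (2 * ov) +
          pw ΛX hX i0 α L0 * pw ΛX hX i0 τ L1 *
          (∑' L0', ∑' L1', pw ΛY hY i0 α' L0' * pw ΛY hY i0 τ L1' *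
          (if Cn hX zX sX hY zY sY L1 (HT hX L0) L1'
          (w + Dp zY L0' - Dp zX L0) (HT hY L0') lo hi then 1 else 0))) := by
          refine ENNReal.tsum_le_tsum fun L0 => ENNReal.tsum_le_tsum fun L1 => ?_
          rw [← mul_add]
          exact mul_le_mul_right (hY2 L0 L1) _
      _ = (∑' L0, pw ΛX hX i0 α L0) * (∑' L1, pw ΛX hX i0 τ L1) * (2 * ov) +
          ∑' L0, ∑' L1, pw ΛX hX i0 α L0 * pw ΛX hX i0 τ L1 *
          (∑' L0', ∑' L1', pw ΛY hY i0 α' L0' * pw ΛY hY i0 τ L1' *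
          (if Cn hX zX sX hY zY sY L1 (HT hX L0) L1'
          (w + Dp zY L0' - Dp zX L0) (HT hY L0') lo hi then 1 else 0)) := by
          simp_rw [ENNReal.tsum_add]
          congr 1
          rw [← ENNReal.tsum_mul_right, ← ENNReal.tsum_mul_right]
          refine tsum_congr fun L0 => ?_
          rw [ENNReal.tsum_mul_right, ENNReal.tsum_mul_left]
      _ ≤ 1 * 1 * (2 * ov) + _ := by
          refine add_le_add (mul_le_mul_left (mul_le_mul' (pw_sum ΛX hX h1X hΛX i0 α)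
            (pw_sum ΛX hX h1X hΛX i0 τ)) _) h4
      _ = _ := by rw [one_mul, one_mul]
  calc _ ≤ 2 * ov + (2 * ov + (u * u + 2 * ((i0 + 1) ^ 4 *
        (C * (lam + K0 * us s / lam + us s)) + δ))) := add_le_add le_rfl h5
    _ = _ := by ring

end window

end Crest.Agent.R154.Asm15
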