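import Crest.Agent.R154.AsmE_151
import Crest.Agent.R154.Dens_903

/-! Row 154, ROAD 801 (helper151): one window from the two window lemmas. -/

set_option autoImplicit false

namespace Crest.Agent.R154.X151

open scoped ENNReal
open Crest.Agent.R154.B5A

section one

variable {B G : Type*} [AddCommGroup G] (Λ : B → ℝ≥0∞) (ht : B → ℕ) (z : B → G)
  (h1 : ∀ b, 1 ≤ ht b) (hΛ : ∑' b, Λ b = 1) (hU1 : ∀ n, U Λ ht n ≤ 1)

include h1 hΛ in
open Classical in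
lemma quant (l : ℕ) (u : ℝ≥0∞) (hu0 : u ≠ 0) (hu1 : u ≤ 1) (i0 : ℕ) :
    ∃ th : ℝ≥0∞, th ≠ 0 ∧ th ≤ 1 ∧
      FPE Λ ht l (fun P => if law Λ ht z l (HT ht P - l) (Dp z P) < th then 1 else 0) ≤ u ∧
      FPE Λ ht l (fun P => if HT ht P ≤ l + i0 ∧ ¬ law Λ ht z l (HT ht P - l) (Dp z P) ≤ th
        then 1 else 0) ≤ 1 - u := by
  obtain ⟨th, h0, hle, ha, hb⟩ := Dens903.quantile
    (fun p : ℕ × G => law Λ ht z l p.1 p.2) (law_sum Λ ht z h1 hΛ l) hu0 hu1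
  refine ⟨th, h0, hle, ?_, ?_⟩
  · have e := law_expand Λ ht z l (fun n y => if law Λ ht z l (n - l) y < th then 1 else 0)
    change FPE Λ ht l (fun L => (fun n y => if law Λ ht z l (n - l) y < th then (1 : ℝ≥0∞) else 0)
      (HT ht L) (Dp z L)) ≤ u
    rw [e]
    refine le_trans (ENNReal.tsum_le_tsum fun p => ?_) ha
    rw [Nat.add_sub_cancel_left]
    split_ifs <;> simp
  · have e := law_expand Λ ht z l (fun n y => if n ≤ l + i0 ∧ ¬ law Λ ht z l (n - l) y ≤ th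
      then 1 else 0)
    change FPE Λ ht l (fun L => (fun n y => if n ≤ l + i0 ∧ ¬ law Λ ht z l (n - l) y ≤ th
      then (1 : ℝ≥0∞) else 0) (HT ht L) (Dp z L)) ≤ 1 - u
    rw [e]
    have h2 : ∑' p : ℕ × G, law Λ ht z l p.1 p.2 * (if l + p.1 ≤ l + i0 ∧
        ¬ law Λ ht z l (l + p.1 - l) p.2 ≤ th then 1 else 0)
        ≤ ∑' p : ℕ × G, (if law Λ ht z l p.1 p.2 ≤ th then 0 else law Λ ht z l p.1 p.2) := by
      refine ENNReal.tsum_le_tsum fun p => ?_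
      rw [Nat.add_sub_cancel_left]
      by_cases h : law Λ ht z l p.1 p.2 ≤ th
      · simp [h]
      · simp only [h, not_false_eq_true, and_true, if_false]
        split_ifs <;> simp
    refine h2.trans ?_
    refine ENNReal.le_sub_of_add_le_right (ne_top_of_le_ne_top ENNReal.one_ne_top hu1) ?_
    refine (add_le_add le_rfl hb).trans ?_
    rw [← ENNReal.tsum_add, ← law_sum Λ ht z h1 hΛ l]
    refine ENNReal.tsum_le_tsum fun p => ?_
    by_cases h : law Λ ht z l p.1 p.2 ≤ th <;> simp [h]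

include h1 hΛ in
open Classical in
lemma Efin (l i : ℕ) (th : ℝ≥0∞) (h0 : th ≠ 0) : ∃ E : Finset G, (∀ y, th ≤ law Λ ht z l i y →
    y ∈ E) ∧ th * E.card ≤ 1 := by
  have hf : {y | th ≤ law Λ ht z l i y}.Finite :=
    ENNReal.finite_const_le_of_tsum_ne_top
      (ne_top_of_le_ne_top ENNReal.one_ne_top (law_row Λ ht z h1 hΛ l i)) h0
  refine ⟨hf.toFinset, fun y hy => by simpa using hy, ?_⟩
  calc th * hf.toFinset.card = ∑ _ ∈ hf.toFinset, th := by simp [mul_comm]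
    _ ≤ ∑ y ∈ hf.toFinset, law Λ ht z l i y :=
        Finset.sum_le_sum fun y hy => by simpa using hy
    _ ≤ ∑' y, law Λ ht z l i y := ENNReal.sum_le_tsum _
    _ ≤ 1 := law_row Λ ht z h1 hΛ l i

lemma geo (u : ℝ≥0∞) (hu1 : u ≤ 1) (N : ℕ) (c : ℝ≥0∞) :
    ∑ k ∈ Finset.range N, (1 - u) ^ k * c ≤ u⁻¹ * c := by
  rw [← Finset.sum_mul]
  refine mul_le_mul_left ?_ _
  calc ∑ k ∈ Finset.range N, (1 - u) ^ k ≤ ∑' k, (1 - u) ^ k := ENNReal.sum_le_tsum _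
    _ = (1 - (1 - u))⁻¹ := ENNReal.tsum_geometric _
    _ = u⁻¹ := by rw [ENNReal.sub_sub_cancel ENNReal.one_ne_top hu1]

end one

variable {BX BY G : Type*} [AddCommGroup G]
  (ΛX : BX → ℝ≥0∞) (ΛY : BY → ℝ≥0∞) (hX : BX → ℕ) (hY : BY → ℕ) (zX : BX → G) (zY : BY → G)
  (sX : BX → Set (G × ℕ)) (sY : BY → Set (G × ℕ))

/-- common site -/
def Cm (L : List BX) (L' : List BY) (x : G) (a a' : ℕ) (g : G) (k : ℕ) : Prop :=
  (g, k) ∈ TR hX zX sX L 0 a ∧ (g, k) ∈ TR hY zY sY L' x a'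

open Classical in
/-- window lemma (2) -/
def H2A (us : ℕ → ℝ≥0∞) (C : ℝ≥0∞) : Prop :=
  ∀ (s h h' a a' lo : ℕ) (E : Finset G) (μ : G → ℝ≥0∞) (M lam : ℝ≥0∞), ∑' x, μ x ≤ 1 →
    (∀ x, μ x ≤ M) → M ≠ ⊤ → lam ≠ 0 → lam ≠ ⊤ → a + s ≤ lo → a' + s ≤ lo → a < a' →
    a + h < a' + h' →
    ∑' x, μ x * ∑' L : List BX, ∑' L' : List BY,
      (if HT hX L = h ∧ Dp zX L ∈ E ∧ HT hY L' = h' ∧
          (∃ g k, Cm hX hY zX zY sX sY L L' x a a' g k) ∧
          (∀ g k, Cm hX hY zX zY sX sY L L' x a a' g k → lo ≤ k) then LW ΛX L * LW ΛY L' else 0)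
      ≤ C * (lam + M * E.card * us s / lam + us s)

open Classical in
/-- window lemma (3) -/
def H3A (us : ℕ → ℝ≥0∞) (C : ℝ≥0∞) : Prop :=
  ∀ (s h h' a a' hi : ℕ) (E : Finset G) (μ : G → ℝ≥0∞) (M lam : ℝ≥0∞), ∑' x, μ x ≤ 1 →
    (∀ x, μ x ≤ M) → M ≠ ⊤ → lam ≠ 0 → lam ≠ ⊤ → hi + s ≤ a + h → hi + s ≤ a' + h' → a < a' →
    a + h < a' + h' →
    ∑' x, μ x * ∑' L : List BX, ∑' L' : List BY,
      (if HT hX L = h ∧ HT hY L' = h' ∧ Dp zY L' ∈ E ∧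
          (∃ g k, Cm hX hY zX zY sX sY L L' x a a' g k) ∧
          (∀ g k, Cm hX hY zX zY sX sY L L' x a a' g k → k ≤ hi) then LW ΛX L * LW ΛY L' else 0)
      ≤ C * (lam + M * E.card * us s / lam + us s)

variable (h1X : ∀ b, 1 ≤ hX b) (h1Y : ∀ b, 1 ≤ hY b)
  (hΛX : ∑' b, ΛX b = 1) (hΛY : ∑' b, ΛY b = 1)
  (hUX : ∀ n, U ΛX hX n ≤ 1) (hUY : ∀ n, U ΛY hY n ≤ 1)
  (hsX : ∀ b, ∀ p ∈ sX b, 1 ≤ p.2 ∧ p.2 ≤ hX b) (hsY : ∀ b, ∀ p ∈ sY b, 1 ≤ p.2 ∧ p.2 ≤ hY b)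

include hsX in
lemma Kp_iff (lo hi top : ℕ) (P : List BX) (P' : List BY) (δ : G) (a a' : ℕ)
    (ht : a + HT hX P ≤ top) (hK : Kp hX hY zX zY sX sY lo hi top P P' δ a a') :
    (∃ g k, Cm hX hY zX zY sX sY P P' δ a a' g k) ∧
      (∀ g k, Cm hX hY zX zY sX sY P P' δ a a' g k → lo ≤ k) ∧
      (∀ g k, Cm hX hY zX zY sX sY P P' δ a a' g k → k ≤ hi) := by
  obtain ⟨⟨p, hp⟩, hall⟩ := hK
  refine ⟨⟨p.1, p.2, hp⟩, fun g k h => ?_, fun g k h => ?_⟩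
  · exact (hall (g, k) h).1.le
  · have h2 := (hall (g, k) h).2
    have h3 := TR_depth hX zX sX hsX _ _ _ _ h.1
    simp only at h2 h3
    omega

/-- sum over finitely many heights -/
lemma sumK (i0 : ℕ) (μ : G → ℝ≥0∞) (K : G → ℝ≥0∞) (q : ℕ → ℕ → G → ℝ≥0∞) (η : ℝ≥0∞)
    (hK : ∀ x, K x ≤ ∑ i ∈ Finset.range (i0 + 1), ∑ i' ∈ Finset.range (i0 + 1), q i i' x)
    (hq : ∀ i i', i ≤ i0 → i' ≤ i0 → ∑' x, μ x * q i i' x ≤ η) :
    ∑' x, μ x * K x ≤ ((i0 + 1 : ℕ) : ℝ≥0∞) * ((i0 + 1 : ℕ) * η) := by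
  calc ∑' x, μ x * K x
      ≤ ∑' x, ∑ i ∈ Finset.range (i0 + 1), ∑ i' ∈ Finset.range (i0 + 1), μ x * q i i' x := by
        refine ENNReal.tsum_le_tsum fun x => ?_
        refine (mul_le_mul_right (hK x) _).trans (le_of_eq ?_)
        rw [Finset.mul_sum]
        refine Finset.sum_congr rfl fun i _ => ?_
        rw [Finset.mul_sum]
    _ = ∑ i ∈ Finset.range (i0 + 1), ∑ i' ∈ Finset.range (i0 + 1), ∑' x, μ x * q i i' x := by
        rw [Summable.tsum_finsetSum (fun _ _ => ENNReal.summable)]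
        refine Finset.sum_congr rfl fun i _ => ?_
        rw [Summable.tsum_finsetSum (fun _ _ => ENNReal.summable)]
    _ ≤ ∑ i ∈ Finset.range (i0 + 1), ∑ i' ∈ Finset.range (i0 + 1), η :=
        Finset.sum_le_sum fun i hi => Finset.sum_le_sum fun i' hi' =>
          hq i i' (by have := Finset.mem_range.1 hi; omega) (by have := Finset.mem_range.1 hi'; omega)
    _ = _ := by simp

include h1X h1Y hΛX hΛY hUX hUY hsX hsY in
/-- **one window** -/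
theorem window {us : ℕ → ℝ≥0∞} {C : ℝ≥0∞} (H2 : H2A ΛX ΛY hX hY zX zY sX sY us C)
    (H3 : H3A ΛX ΛY hX hY zX zY sX sY us C) (u lam : ℝ≥0∞) (hu0 : u ≠ 0) (hu1 : u ≤ 1)
    (hl0 : lam ≠ 0) (hl1 : lam ≠ ⊤) (N i0 s A l n lo mid : ℕ) (w : G)
    (hNA : N * (l + 2 * i0) ≤ A) (hn : A + 4 * i0 + 1 + l ≤ n) (hlo : A + 2 * i0 + 1 + s ≤ lo)
    (hmid : mid + s ≤ A + l) :
    Ws ΛX ΛY hX hY zX zY sX sY n lo mid mid (A + l + 2 * i0) w
      ≤ (2 + u⁻¹) * (∑' k, tail ΛX hX (k + i0)) + (2 + u⁻¹) * (∑' k, tail ΛY hY (k + i0))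
        + u * u + 2 * (1 - u) ^ N
        + 2 * (((i0 + 1 : ℕ) : ℝ≥0∞) * ((i0 + 1 : ℕ) * (((i0 + 1 : ℕ) : ℝ≥0∞) * ((i0 + 1 : ℕ) *
          (C * (lam + (u⁻¹ * (i0 + 1 : ℕ)) * us s / lam + us s)))))) := by
  classical
  set tX := ∑' k, tail ΛX hX (k + i0) with htX
  set tY := ∑' k, tail ΛY hY (k + i0) with htY
  set A' := A + i0 + 1 with hA'
  set l' := l + i0 with hl'
  set η := C * (lam + (u⁻¹ * (i0 + 1 : ℕ)) * us s / lam + us s) with hη
  set top := A + l + 2 * i0 with htop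
  obtain ⟨thX, tx0, tx1, huX, hrX⟩ := quant ΛX hX zX h1X hΛX l u hu0 hu1 i0
  obtain ⟨thY, ty0, ty1, huY, hrY⟩ := quant ΛY hY zY h1Y hΛY l' u hu0 hu1 i0
  obtain ⟨gX, bX, hgbX, hgX, hbX⟩ := smooth ΛX hX zX h1X hΛX l i0 thX (1 - u) tX hrX
    (over_le ΛX hX h1X hUX i0 l) N A (le_trans (Nat.mul_le_mul_left _ (by omega)) hNA)
  obtain ⟨gY, bY, hgbY, hgY, hbY⟩ := smooth ΛY hY zY h1Y hΛY l' i0 thY (1 - u) tY hrY
    (over_le ΛY hY h1Y hUY i0 l') N A' (le_trans (Nat.mul_le_mul_left _ (by omega))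
      (hNA.trans (by omega)))
  have hut : u⁻¹ ≠ ⊤ := ENNReal.inv_ne_top.2 hu0
  have hstep := Ws_le ΛX ΛY hX hY zX zY sX sY h1X h1Y hΛX hΛY hUX hUY hsX hsY n A A' l l' i0 lo mid
    mid top w (by omega) (by omega) (by omega) (by omega) (by omega) (by omega)
  -- local X
  have hM2 : ∀ a a', A ≤ a → a ≤ A + i0 → A' ≤ a' → a' ≤ A' + i0 → ∀ μ : G → ℝ≥0∞,
      ∑' x, μ x ≤ 1 → (∀ x, μ x ≤ u⁻¹ * ((i0 + 1 : ℕ) * thX)) →
      ∑' x, μ x * K2 ΛX ΛY hX hY zX zY sX sY A A' l l' i0 lo mid top thX a a' x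
        ≤ ((i0 + 1 : ℕ) : ℝ≥0∞) * ((i0 + 1 : ℕ) * η) := by
    intro a a' ha1 ha2 ha3 ha4 μ hμ1 hμM
    choose E hE1 hE2 using fun i => Efin ΛX hX zX h1X hΛX l i thX tx0
    refine sumK i0 μ _ (fun i i' x => ∑' L : List BX, ∑' L' : List BY,
      (if HT hX L = l + i ∧ Dp zX L ∈ E i ∧ HT hY L' = l' + i' ∧
          (∃ g k, Cm hX hY zX zY sX sY L L' x a a' g k) ∧
          (∀ g k, Cm hX hY zX zY sX sY L L' x a a' g k → lo ≤ k) then LW ΛX L * LW ΛY L' else 0))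
      η ?_ ?_
    · intro x
      refine (FPE2_le ΛX ΛY hX hY l l' i0 _ ?_).trans ?_
      · intro P P' h
        rw [if_neg]
        rintro ⟨_, h2, h3, _⟩
        exact h ⟨h2, h3⟩
      · refine Finset.sum_le_sum fun i hi => Finset.sum_le_sum fun i' hi' =>
          ENNReal.tsum_le_tsum fun P => ENNReal.tsum_le_tsum fun P' => ?_
        have hi2 := Finset.mem_range.1 hi
        by_cases hh : HT hX P = l + i ∧ HT hY P' = l' + i'
        · rw [if_pos hh]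
          by_cases hK : (a ≤ A + i0 ∧ a' ≤ A' + i0) ∧ HT hX P ≤ l + i0 ∧ HT hY P' ≤ l' + i0 ∧
              thX ≤ law ΛX hX zX l (HT hX P - l) (Dp zX P) ∧
              Kp hX hY zX zY sX sY lo mid top P P' x a a'
          · rw [if_pos hK, mul_one, if_pos]
            have hk := Kp_iff hX hY zX zY sX sY hsX lo mid top P P' x a a' (by omega) hK.2.2.2.2
            refine ⟨hh.1, hE1 i _ ?_, hh.2, hk.1, hk.2.1⟩
            have := hK.2.2.2.1
            rwa [hh.1, Nat.add_sub_cancel_left] at this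
          · rw [if_neg hK, mul_zero]; exact zero_le
        · rw [if_neg hh]; exact zero_le
    · intro i i' hi hi'
      refine (H2 s (l + i) (l' + i') a a' lo (E i) μ (u⁻¹ * ((i0 + 1 : ℕ) * thX)) lam hμ1 hμM
        (ENNReal.mul_ne_top hut (ENNReal.mul_ne_top (ENNReal.natCast_ne_top _)
          (ne_top_of_le_ne_top ENNReal.one_ne_top tx1))) hl0 hl1 (by omega) (by omega) (by omega)
        (by omega)).trans ?_
      rw [hη]
      refine mul_le_mul_right (add_le_add (add_le_add le_rfl ?_) le_rfl) _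
      refine ENNReal.div_le_div_right (mul_le_mul_left ?_ _) _
      calc u⁻¹ * ((i0 + 1 : ℕ) * thX) * (E i).card = u⁻¹ * (i0 + 1 : ℕ) * (thX * (E i).card) := by
            ring
        _ ≤ u⁻¹ * (i0 + 1 : ℕ) * 1 := mul_le_mul_right (hE2 i) _
        _ = _ := mul_one _
  have hM3 : ∀ a a', A ≤ a → a ≤ A + i0 → A' ≤ a' → a' ≤ A' + i0 → ∀ μ : G → ℝ≥0∞,
      ∑' x, μ x ≤ 1 → (∀ x, μ x ≤ u⁻¹ * ((i0 + 1 : ℕ) * thY)) →
      ∑' x, μ x * K3 ΛX ΛY hX hY zX zY sX sY A A' l l' i0 lo mid top thY a a' x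
        ≤ ((i0 + 1 : ℕ) : ℝ≥0∞) * ((i0 + 1 : ℕ) * η) := by
    intro a a' ha1 ha2 ha3 ha4 μ hμ1 hμM
    choose E hE1 hE2 using fun i => Efin ΛY hY zY h1Y hΛY l' i thY ty0
    refine sumK i0 μ _ (fun i i' x => ∑' L : List BX, ∑' L' : List BY,
      (if HT hX L = l + i ∧ HT hY L' = l' + i' ∧ Dp zY L' ∈ E i' ∧
          (∃ g k, Cm hX hY zX zY sX sY L L' x a a' g k) ∧
          (∀ g k, Cm hX hY zX zY sX sY L L' x a a' g k → k ≤ mid) then LW ΛX L * LW ΛY L' else 0))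
      η ?_ ?_
    · intro x
      refine (FPE2_le ΛX ΛY hX hY l l' i0 _ ?_).trans ?_
      · intro P P' h
        rw [if_neg]
        rintro ⟨_, h2, h3, _⟩
        exact h ⟨h2, h3⟩
      · refine Finset.sum_le_sum fun i hi => Finset.sum_le_sum fun i' hi' =>
          ENNReal.tsum_le_tsum fun P => ENNReal.tsum_le_tsum fun P' => ?_
        have hi2 := Finset.mem_range.1 hi
        by_cases hh : HT hX P = l + i ∧ HT hY P' = l' + i'
        · rw [if_pos hh]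
          by_cases hK : (a ≤ A + i0 ∧ a' ≤ A' + i0) ∧ HT hX P ≤ l + i0 ∧ HT hY P' ≤ l' + i0 ∧
              thY ≤ law ΛY hY zY l' (HT hY P' - l') (Dp zY P') ∧
              Kp hX hY zX zY sX sY lo mid top P P' x a a'
          · rw [if_pos hK, mul_one, if_pos]
            have hk := Kp_iff hX hY zX zY sX sY hsX lo mid top P P' x a a' (by omega) hK.2.2.2.2
            refine ⟨hh.1, hh.2, hE1 i' _ ?_, hk.1, hk.2.2⟩
            have := hK.2.2.2.1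
            rwa [hh.2, Nat.add_sub_cancel_left] at this
          · rw [if_neg hK, mul_zero]; exact zero_le
        · rw [if_neg hh]; exact zero_le
    · intro i i' hi hi'
      refine (H3 s (l + i) (l' + i') a a' mid (E i') μ (u⁻¹ * ((i0 + 1 : ℕ) * thY)) lam hμ1 hμM
        (ENNReal.mul_ne_top hut (ENNReal.mul_ne_top (ENNReal.natCast_ne_top _)
          (ne_top_of_le_ne_top ENNReal.one_ne_top ty1))) hl0 hl1 (by omega) (by omega) (by omega)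
        (by omega)).trans ?_
      rw [hη]
      refine mul_le_mul_right (add_le_add (add_le_add le_rfl ?_) le_rfl) _
      refine ENNReal.div_le_div_right (mul_le_mul_left ?_ _) _
      calc u⁻¹ * ((i0 + 1 : ℕ) * thY) * (E i').card = u⁻¹ * (i0 + 1 : ℕ) * (thY * (E i').card) := by
            ring
        _ ≤ u⁻¹ * (i0 + 1 : ℕ) * 1 := mul_le_mul_right (hE2 i') _
        _ = _ := mul_one _
  have hK2 := smX ΛX ΛY hX hY zX zY h1X h1Y hΛX hΛY A A' i0 w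
    (K2 ΛX ΛY hX hY zX zY sX sY A A' l l' i0 lo mid top thX)
    (fun a a' δ => FPE_le_one ΛX hX h1X hΛX _ _ fun _ _ => FPE_le_one ΛY hY h1Y hΛY _ _ fun _ _ => by
      split_ifs <;> simp)
    (fun a a' δ h => by
      have : ∀ P P', (if (a ≤ A + i0 ∧ a' ≤ A' + i0) ∧ HT hX P ≤ l + i0 ∧ HT hY P' ≤ l' + i0 ∧
        thX ≤ law ΛX hX zX l (HT hX P - l) (Dp zX P) ∧
        Kp hX hY zX zY sX sY lo mid top P P' δ a a' then (1 : ℝ≥0∞) else 0) = 0 :=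
          fun P P' => if_neg fun hh => h hh.1
      rw [K2]
      simp_rw [this]
      rw [FPE_const ΛX hX h1X hΛX, FPE_const ΛY hY h1Y hΛY])
    gX bX (u⁻¹ * ((i0 + 1 : ℕ) * thX)) ((1 - u) ^ N + u⁻¹ * tX) _ hgbX
    (fun j y => (hgX j y).trans (geo u hu1 N _)) (hbX.trans (add_le_add le_rfl (geo u hu1 N _)))
    hM2
  have hK3 := smY ΛX ΛY hX hY zX zY h1X h1Y hΛX hΛY A A' i0 w
    (K3 ΛX ΛY hX hY zX zY sX sY A A' l l' i0 lo mid top thY)
    (fun a a' δ => FPE_le_one ΛX hX h1X hΛX _ _ fun _ _ => FPE_le_one ΛY hY h1Y hΛY _ _ fun _ _ => by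
      split_ifs <;> simp)
    (fun a a' δ h => by
      have : ∀ P P', (if (a ≤ A + i0 ∧ a' ≤ A' + i0) ∧ HT hX P ≤ l + i0 ∧ HT hY P' ≤ l' + i0 ∧
        thY ≤ law ΛY hY zY l' (HT hY P' - l') (Dp zY P') ∧
        Kp hX hY zX zY sX sY lo mid top P P' δ a a' then (1 : ℝ≥0∞) else 0) = 0 :=
          fun P P' => if_neg fun hh => h hh.1
      rw [K3]
      simp_rw [this]
      rw [FPE_const ΛX hX h1X hΛX, FPE_const ΛY hY h1Y hΛY])
    gY bY (u⁻¹ * ((i0 + 1 : ℕ) * thY)) ((1 - u) ^ N + u⁻¹ * tY) _ hgbY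
    (fun j y => (hgY j y).trans (geo u hu1 N _)) (hbY.trans (add_le_add le_rfl (geo u hu1 N _)))
    hM3
  refine hstep.trans ?_
  have hKK : FPE ΛX hX A (fun L1 => FPE ΛY hY A' (fun L1' =>
      KK ΛX ΛY hX hY zX zY sX sY A A' l l' i0 lo mid top (HT hX L1) (HT hY L1')
        (w + Dp zY L1' - Dp zX L1)))
      ≤ (tX + tY + u * u) + FPE ΛX hX A (fun L1 => FPE ΛY hY A' (fun L1' =>
      K2 ΛX ΛY hX hY zX zY sX sY A A' l l' i0 lo mid top thX (HT hX L1) (HT hY L1')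
        (w + Dp zY L1' - Dp zX L1)))
        + FPE ΛX hX A (fun L1 => FPE ΛY hY A' (fun L1' =>
      K3 ΛX ΛY hX hY zX zY sX sY A A' l l' i0 lo mid top thY (HT hX L1) (HT hY L1')
        (w + Dp zY L1' - Dp zX L1))) := by
    refine (FPE_mono ΛX hX _ fun L1 _ => FPE_mono ΛY hY _ fun L1' _ =>
      KK_le ΛX ΛY hX hY zX zY sX sY h1X h1Y hΛX hΛY hUX hUY A A' l l' i0 lo mid top thX thY u
        huX huY _ _ _).trans (le_of_eq ?_)
    have s1 : ∀ L1 : List BX, FPE ΛY hY A' (fun L1' => tX + tY + u * u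
        + K2 ΛX ΛY hX hY zX zY sX sY A A' l l' i0 lo mid top thX (HT hX L1) (HT hY L1')
        (w + Dp zY L1' - Dp zX L1) + K3 ΛX ΛY hX hY zX zY sX sY A A' l l' i0 lo mid top thY
        (HT hX L1) (HT hY L1') (w + Dp zY L1' - Dp zX L1))
        = (tX + tY + u * u) + FPE ΛY hY A' (fun L1' =>
          K2 ΛX ΛY hX hY zX zY sX sY A A' l l' i0 lo mid top thX (HT hX L1) (HT hY L1')
          (w + Dp zY L1' - Dp zX L1)) + FPE ΛY hY A' (fun L1' =>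
          K3 ΛX ΛY hX hY zX zY sX sY A A' l l' i0 lo mid top thY
          (HT hX L1) (HT hY L1') (w + Dp zY L1' - Dp zX L1)) := by
      intro L1
      rw [FPE_add ΛY hY A' (fun L1' => tX + tY + u * u
        + K2 ΛX ΛY hX hY zX zY sX sY A A' l l' i0 lo mid top thX (HT hX L1) (HT hY L1')
        (w + Dp zY L1' - Dp zX L1)), FPE_add ΛY hY A' (fun _ => tX + tY + u * u),
        FPE_const ΛY hY h1Y hΛY]
    simp only [← htX, ← htY]
    simp_rw [s1]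
    rw [FPE_add ΛX hX A (fun L1 => (tX + tY + u * u) + FPE ΛY hY A' (fun L1' =>
          K2 ΛX ΛY hX hY zX zY sX sY A A' l l' i0 lo mid top thX (HT hX L1) (HT hY L1')
          (w + Dp zY L1' - Dp zX L1))), FPE_add ΛX hX A (fun _ => tX + tY + u * u),
        FPE_const ΛX hX h1X hΛX]
  refine (add_le_add le_rfl (hKK.trans (add_le_add (add_le_add le_rfl hK2) hK3))).trans ?_
  refine le_of_eq ?_
  ring

end Crest.Agent.R154.X151
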