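import Crest.Agent.R154.AsmW_190
import Crest.Agent.R154.AsmA_789

/-! Row 154, ROAD 801 (helper190): the abstract assembly. -/

set_option autoImplicit false

namespace Crest.Agent.R154.Asm190

open scoped ENNReal Topology
open Crest.Agent.R154.B5A
open Crest.Agent.R154.FP178

lemma choose_nat (f : ℕ → ℝ≥0∞) (hf : Filter.Tendsto f Filter.atTop (𝓝 0)) {c : ℝ≥0∞} (hc : c ≠ ⊤)
    {ε : ℝ≥0∞} (hε : ε ≠ 0) (i1 : ℕ) : ∃ i, i1 ≤ i ∧ c * f i ≤ ε := by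
  have h := ENNReal.Tendsto.const_mul hf (Or.inr hc)
  rw [mul_zero] at h
  have h2 := ((tendsto_order.1 h).2 ε (pos_iff_ne_zero.2 hε)).and (Filter.eventually_ge_atTop i1)
  obtain ⟨i, hi, hi2⟩ := h2.exists
  exact ⟨i, hi2, hi.le⟩

lemma choose_lam {c : ℝ≥0∞} (hc : c ≠ ⊤) {ε : ℝ≥0∞} (hε : ε ≠ 0) :
    ∃ lam : ℝ≥0∞, lam ≠ 0 ∧ lam ≠ ⊤ ∧ c * lam ≤ ε := by
  have hc1 : c + 1 ≠ ⊤ := ENNReal.add_ne_top.2 ⟨hc, ENNReal.one_ne_top⟩
  have hc0 : c + 1 ≠ 0 := by simp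
  have hm : min ε 1 ≠ ⊤ := ne_top_of_le_ne_top ENNReal.one_ne_top (min_le_right _ _)
  have hm0 : min ε 1 ≠ 0 := (lt_min (pos_iff_ne_zero.2 hε) one_pos).ne'
  refine ⟨min ε 1 / (c + 1), ?_, ?_, ?_⟩
  · exact ENNReal.div_ne_zero.2 ⟨hm0, hc1⟩
  · exact ENNReal.div_ne_top hm hc0
  · calc c * (min ε 1 / (c + 1)) ≤ (c + 1) * (min ε 1 / (c + 1)) := by gcongr; exact le_self_add
      _ = min ε 1 := ENNReal.mul_div_cancel hc0 hc1
      _ ≤ ε := min_le_left _ _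

variable {B B' G : Type*} [AddCommGroup G] (Λ : B → ℝ≥0∞) (ht : B → ℕ) (z : B → G)
  (Λ' : B' → ℝ≥0∞) (ht' : B' → ℕ) (z' : B' → G)
  (TX : List B → G → ℕ → Set (G × ℕ)) (TY : List B' → G → ℕ → Set (G × ℕ))

open Classical in
/-- weight of the pairs of crossings of height `n` with a common site at depth in `[p, q)` -/
noncomputable def Ksum (n : ℕ) (w : G) (S : ℕ → Prop) : ℝ≥0∞ :=
  ∑' L, ∑' L', (if HT ht L = n ∧ HT ht' L' = n ∧
      ∃ y k, S k ∧ (y, k) ∈ TX L 0 0 ∧ (y, k) ∈ TY L' w 0 then LW Λ L * LW Λ' L' else 0)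

open Classical in
/-- **the abstract assembly** -/
theorem kap (h1 : ∀ b, 1 ≤ ht b) (hΛ : ∑' b, Λ b = 1) (hU1 : ∀ n, U Λ ht n ≤ 1)
    (h1' : ∀ b, 1 ≤ ht' b) (hΛ' : ∑' b, Λ' b = 1) (hU1' : ∀ n, U Λ' ht' n ≤ 1)
    (hX : ∀ L x v a y k, (y, k) ∈ TX L (x + v) a ↔ (y - v, k) ∈ TX L x a)
    (hY : ∀ L x v a y k, (y, k) ∈ TY L (x + v) a ↔ (y - v, k) ∈ TY L x a)
    (hXa : ∀ L1 L2 x a, TX (L1 ++ L2) x a = TX L1 x a ∪ TX L2 (x + (L1.map z).sum) (a + HT ht L1))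
    (hYa : ∀ L1 L2 x a, TY (L1 ++ L2) x a
      = TY L1 x a ∪ TY L2 (x + (L1.map z').sum) (a + HT ht' L1))
    (hXr : ∀ L x a y k, (y, k) ∈ TX L x a → a < k ∧ k ≤ a + HT ht L)
    (hYr : ∀ L x a y k, (y, k) ∈ TY L x a → a < k ∧ k ≤ a + HT ht' L)
    (C : ℝ≥0∞) (hC : C ≠ ⊤) (us : ℕ → ℝ≥0∞) (hus : Filter.Tendsto us Filter.atTop (𝓝 0))
    (hH2 : H2 Λ ht z Λ' ht' TX TY C us) (hH3 : H3 Λ ht Λ' ht' z' TX TY C us)
    (ovb : ℕ → ℝ≥0∞) (hovb : Filter.Tendsto ovb Filter.atTop (𝓝 0))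
    (hov : ∀ i0 a, ∑' L, (if fp ht a L ∧ a + i0 < HT ht L then LW Λ L else 0) ≤ ovb i0)
    (hov' : ∀ i0 a, ∑' L, (if fp ht' a L ∧ a + i0 < HT ht' L then LW Λ' L else 0) ≤ ovb i0)
    (hH5 : ∀ (s : ℕ) (η : ℝ≥0∞), η ≠ 0 → ∃ T0, ∀ a, T0 ≤ a → ∀ n w,
      Ksum Λ ht Λ' ht' TX TY n w (fun k => a ≤ k ∧ k < a + s) ≤ η)
    (ε : ℝ≥0∞) (hε : ε ≠ 0) :
    ∃ M, ∀ m, M ≤ m → ∀ n, 3 * m ≤ n → ∀ w,
      Ksum Λ ht Λ' ht' TX TY n w (fun k => m < k ∧ k ≤ 2 * m) ≤ ε := by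
  -- constants
  wlog hεt : ε ≠ ⊤ generalizing ε
  · obtain ⟨M, hM⟩ := this 1 one_ne_zero ENNReal.one_ne_top
    refine ⟨M, fun m hm n hn w => (hM m hm n hn w).trans ?_⟩
    rw [not_not.1 hεt]
    exact le_top
  set ε' := ε / 5 with hε'
  have h50 : (5 : ℝ≥0∞) ≠ 0 := by norm_num
  have h5t : (5 : ℝ≥0∞) ≠ ⊤ := by norm_num
  have hε'0 : ε' ≠ 0 := ENNReal.div_ne_zero.2 ⟨hε, h5t⟩
  obtain ⟨q, hq2, hq⟩ := AsmA789.num hε'0 4
  set J := q ^ 3 with hJdef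
  set u : ℝ≥0∞ := ((q : ℝ≥0∞) ^ 2)⁻¹ with hu
  have hq0 : (q : ℝ≥0∞) ≠ 0 := by exact_mod_cast (by omega : q ≠ 0)
  have hqt : (q : ℝ≥0∞) ≠ ⊤ := ENNReal.natCast_ne_top q
  have hu0 : u ≠ 0 := ENNReal.inv_ne_zero.2 (ENNReal.pow_ne_top hqt)
  have hu1 : u < 1 := by
    rw [hu, ENNReal.inv_lt_one]
    have : (1 : ℝ≥0∞) < ((q ^ 2 : ℕ) : ℝ≥0∞) := by
      exact_mod_cast (by nlinarith : 1 < q ^ 2)
    simpa using this
  have hJ1 : 1 ≤ J := Nat.one_le_pow _ _ (by omega)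
  set K := 2 * J with hK
  set N := K + 1 with hN
  have hNt : (N : ℝ≥0∞) ≠ ⊤ := ENNReal.natCast_ne_top N
  have b1 : (N : ℝ≥0∞) * (u * u + 2 * (1 - u) ^ J) ≤ ε' := by
    refine le_trans ?_ hq
    have e1 : (1 - u) ^ J ≤ (1 - (2 * (q : ℝ≥0∞) ^ 2)⁻¹) ^ (q ^ 3) := by
      rw [hJdef]
      gcongr
      rw [hu]
      refine ENNReal.inv_le_inv.2 ?_
      calc (q : ℝ≥0∞) ^ 2 = 1 * (q : ℝ≥0∞) ^ 2 := (one_mul _).symm
        _ ≤ _ := by gcongr; norm_num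
    calc (N : ℝ≥0∞) * (u * u + 2 * (1 - u) ^ J)
        ≤ (N : ℝ≥0∞) * (2 * (((q : ℝ≥0∞) ^ 2)⁻¹ ^ 2 + (1 - (2 * (q : ℝ≥0∞) ^ 2)⁻¹) ^ (q ^ 3))) := by
          refine mul_le_mul_right ?_ _
          rw [mul_add]
          refine add_le_add ?_ (mul_le_mul_right e1 _)
          rw [sq, two_mul]
          exact le_self_add
      _ = ((2 * N : ℕ) : ℝ≥0∞) * (((q : ℝ≥0∞) ^ 2)⁻¹ ^ 2
          + (1 - (2 * (q : ℝ≥0∞) ^ 2)⁻¹) ^ (q ^ 3)) := by
          push_cast; ring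
      _ ≤ _ := by
          gcongr
          have : ((2 * N : ℕ) : ℝ≥0∞) ≤ ((4 * (q ^ 3 + 4) : ℕ) : ℝ≥0∞) := by
            exact_mod_cast (by omega : 2 * N ≤ 4 * (q ^ 3 + 4))
          refine this.trans (le_of_eq ?_)
          push_cast
          ring
  obtain ⟨i0, -, b2⟩ := choose_nat ovb hovb (c := (N : ℝ≥0∞) * (4 + 2 * J))
    (ENNReal.mul_ne_top hNt (by
      exact ENNReal.add_ne_top.2 ⟨by norm_num, ENNReal.mul_ne_top (by norm_num)
        (ENNReal.natCast_ne_top J)⟩)) hε'0 0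
  set W4 : ℝ≥0∞ := (N : ℝ≥0∞) * (2 * (((i0 + 1 : ℕ) : ℝ≥0∞) ^ 4 * C)) with hW4
  have hW4t : W4 ≠ ⊤ := ENNReal.mul_ne_top hNt (ENNReal.mul_ne_top (by norm_num)
    (ENNReal.mul_ne_top (ENNReal.pow_ne_top (ENNReal.natCast_ne_top _)) hC))
  obtain ⟨lam, hl0, hlt, b3⟩ := choose_lam hW4t hε'0
  obtain ⟨s, hs1, b4⟩ := choose_nat us hus
    (c := W4 * (((i0 + 1 : ℕ) : ℝ≥0∞) / u / lam + 1))
    (ENNReal.mul_ne_top hW4t (ENNReal.add_ne_top.2 ⟨ENNReal.div_ne_top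
      (ENNReal.div_ne_top (ENNReal.natCast_ne_top _) hu0) hl0, ENNReal.one_ne_top⟩)) hε'0 1
  obtain ⟨η, hη0, -, b5⟩ := choose_lam (c := (N : ℝ≥0∞) * 2)
    (ENNReal.mul_ne_top hNt (by norm_num)) hε'0
  set s' := 2 * i0 + s + 1 with hs'
  obtain ⟨T0, hT0⟩ := hH5 s' η hη0
  set Tm := T0 + 3 * i0 + 2 * s + 2 * K + 1 with hTm
  refine ⟨K * Tm, fun m hm n hn w => ?_⟩
  set T := m / K with hT
  have hKpos : 0 < K := by omega
  have hTle : Tm ≤ T := by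
    rw [hT, Nat.le_div_iff_mul_le hKpos]
    rwa [mul_comm]
  have hKT : K * T ≤ m := Nat.mul_div_le m K
  have hmK : m < K * (T + 1) := by
    have := Nat.lt_mul_div_succ m hKpos
    exact this
  -- one window
  have hwin : ∀ j ∈ Finset.Icc K (2 * K),
      ∑' L, ∑' L', (if HT ht L = n ∧ HT ht' L' = n ∧ Ev TX TY (j * T) T i0 s w L L'
        then LW Λ L * LW Λ' L' else 0)
      ≤ 4 * ovb i0 + u * u + 2 * ((1 - u) ^ J + J * ovb i0) +
        2 * ((i0 + 1 : ℕ) ^ 4 * (C * (lam + ((i0 + 1 : ℕ) / u) * us s / lam + us s))) := by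
    intro j hj
    rw [Finset.mem_Icc] at hj
    have hjT : K * T ≤ j * T := Nat.mul_le_mul_right T hj.1
    have hjT2 : j * T ≤ 2 * K * T := Nat.mul_le_mul_right T hj.2
    refine window Λ ht z Λ' ht' z' TX TY h1 hΛ hU1 h1' hΛ' hU1' hX hY hXa hYa hXr hYr C us hH2 hH3
      i0 (ovb i0) (hov i0) (hov' i0) u hu0 hu1 lam hl0 hlt J T s (j * T) n ?_ ?_ hs1 (by omega) w
    · refine le_trans ?_ hjT
      calc J * (T + 2 * i0) ≤ J * (2 * T) := Nat.mul_le_mul_left J (by omega)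
        _ = K * T := by rw [hK]; ring
    · have h3 : 2 * K * T + 2 * T ≤ 3 * (K * T) := by
        have : 2 * T ≤ K * T := Nat.mul_le_mul_right T (by omega)
        nlinarith
      have h4 : 3 * (K * T) ≤ n := le_trans (Nat.mul_le_mul_left 3 hKT) hn
      omega
  have hslab : ∀ j ∈ Finset.Icc K (2 * K),
      Ksum Λ ht Λ' ht' TX TY n w (fun k => j * T ≤ k ∧ k < j * T + s') ≤ η := by
    intro j hj
    rw [Finset.mem_Icc] at hj
    refine hT0 _ ?_ n w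
    have : 1 * T ≤ j * T := Nat.mul_le_mul_right T (by omega)
    omega
  have hslab2 : ∀ j ∈ Finset.Icc K (2 * K),
      Ksum Λ ht Λ' ht' TX TY n w
        (fun k => j * T + T - s ≤ k ∧ k < j * T + T - s + s') ≤ η := by
    intro j hj
    rw [Finset.mem_Icc] at hj
    refine hT0 _ ?_ n w
    have : 1 * T ≤ j * T := Nat.mul_le_mul_right T (by omega)
    omega
  -- covering
  have hcov : Ksum Λ ht Λ' ht' TX TY n w (fun k => m < k ∧ k ≤ 2 * m)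
      ≤ ∑ j ∈ Finset.Icc K (2 * K),
        ((∑' L, ∑' L', (if HT ht L = n ∧ HT ht' L' = n ∧ Ev TX TY (j * T) T i0 s w L L'
          then LW Λ L * LW Λ' L' else 0))
        + (Ksum Λ ht Λ' ht' TX TY n w (fun k => j * T ≤ k ∧ k < j * T + s')
        + Ksum Λ ht Λ' ht' TX TY n w
          (fun k => j * T + T - s ≤ k ∧ k < j * T + T - s + s'))) := by
    unfold Ksum
    simp_rw [← ENNReal.tsum_add]
    rw [← Summable.tsum_finsetSum (fun _ _ => ENNReal.summable)]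
    refine ENNReal.tsum_le_tsum fun L => ?_
    rw [← Summable.tsum_finsetSum (fun _ _ => ENNReal.summable)]
    refine ENNReal.tsum_le_tsum fun L' => ?_
    by_cases h : HT ht L = n ∧ HT ht' L' = n ∧
      ∃ y k, (m < k ∧ k ≤ 2 * m) ∧ (y, k) ∈ TX L 0 0 ∧ (y, k) ∈ TY L' w 0
    · rw [if_pos h]
      obtain ⟨hL, hL', y, k, ⟨hk1, hk2⟩, hy1, hy2⟩ := h
      have hTpos : 0 < T := by omega
      set j := k / T with hj
      have hjk : j * T ≤ k := Nat.div_mul_le_self k T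
      have hjk2 : k < j * T + T := by
        have := Nat.lt_mul_div_succ k hTpos
        calc k < T * (k / T + 1) := this
          _ = j * T + T := by rw [hj]; ring
      have hjm : j ∈ Finset.Icc K (2 * K) := by
        rw [Finset.mem_Icc]
        constructor
        · rw [hj, Nat.le_div_iff_mul_le hTpos]; omega
        · have h5 : k < (2 * K + 1) * T := by
            have h6 : K * (T + 1) = K * T + K := by ring
            have h7 : (2 * K + 1) * T = 2 * (K * T) + T := by ring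
            omega
          have h8 : k / T < 2 * K + 1 := (Nat.div_lt_iff_lt_mul hTpos).2 h5
          omega
      refine le_trans ?_ (Finset.single_le_sum (f := fun j =>
        ((if HT ht L = n ∧ HT ht' L' = n ∧ Ev TX TY (j * T) T i0 s w L L'
          then LW Λ L * LW Λ' L' else 0)
        + ((if HT ht L = n ∧ HT ht' L' = n ∧
            ∃ y k, (j * T ≤ k ∧ k < j * T + s') ∧ (y, k) ∈ TX L 0 0 ∧ (y, k) ∈ TY L' w 0
            then LW Λ L * LW Λ' L' else 0)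
        + (if HT ht L = n ∧ HT ht' L' = n ∧
            ∃ y k, (j * T + T - s ≤ k ∧ k < j * T + T - s + s') ∧ (y, k) ∈ TX L 0 0 ∧
              (y, k) ∈ TY L' w 0
            then LW Λ L * LW Λ' L' else 0)))) (fun _ _ => zero_le) hjm)
      by_cases hS1 : ∃ y k, (j * T ≤ k ∧ k < j * T + s') ∧ (y, k) ∈ TX L 0 0 ∧ (y, k) ∈ TY L' w 0
      · rw [if_pos (⟨hL, hL', hS1⟩ : HT ht L = n ∧ HT ht' L' = n ∧
            ∃ y k, (j * T ≤ k ∧ k < j * T + s') ∧ (y, k) ∈ TX L 0 0 ∧ (y, k) ∈ TY L' w 0)]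
        exact le_trans le_self_add le_add_self
      by_cases hS2 : ∃ y k, (j * T + T - s ≤ k ∧ k < j * T + T - s + s') ∧ (y, k) ∈ TX L 0 0 ∧
              (y, k) ∈ TY L' w 0
      · rw [if_pos (⟨hL, hL', hS2⟩ : HT ht L = n ∧ HT ht' L' = n ∧
            ∃ y k, (j * T + T - s ≤ k ∧ k < j * T + T - s + s') ∧ (y, k) ∈ TX L 0 0 ∧
              (y, k) ∈ TY L' w 0)]
        exact le_trans le_add_self le_add_self
      push_neg at hS1 hS2
      have hEv : Ev TX TY (j * T) T i0 s w L L' := by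
        refine ⟨⟨y, k, ?_, ?_, hy1, hy2⟩, ?_⟩
        · by_contra hc
          exact hS1 y k ⟨hjk, by omega⟩ hy1 hy2
        · by_contra hc
          exact hS2 y k ⟨by omega, by omega⟩ hy1 hy2
        · intro y' k' h5 h6 h7 h8
          constructor
          · by_contra hc
            exact hS1 y' k' ⟨by omega, by omega⟩ h5 h6
          · by_contra hc
            exact hS2 y' k' ⟨by omega, by omega⟩ h5 h6
      rw [if_pos (⟨hL, hL', hEv⟩ : HT ht L = n ∧ HT ht' L' = n ∧ Ev TX TY (j * T) T i0 s w L L')]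
      exact le_self_add
    · rw [if_neg h]; exact zero_le
  refine hcov.trans ?_
  have hcard : (Finset.Icc K (2 * K)).card = N := by rw [Nat.card_Icc]; omega
  calc _ ≤ ∑ _j ∈ Finset.Icc K (2 * K), ((4 * ovb i0 + u * u + 2 * ((1 - u) ^ J + J * ovb i0) +
        2 * ((i0 + 1 : ℕ) ^ 4 * (C * (lam + ((i0 + 1 : ℕ) / u) * us s / lam + us s))))
        + (η + η)) := by
        refine Finset.sum_le_sum fun j hj => ?_
        exact add_le_add (hwin j hj) (add_le_add (hslab j hj) (hslab2 j hj))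
    _ = N * ((4 * ovb i0 + u * u + 2 * ((1 - u) ^ J + J * ovb i0) +
        2 * ((i0 + 1 : ℕ) ^ 4 * (C * (lam + ((i0 + 1 : ℕ) / u) * us s / lam + us s))))
        + (η + η)) := by
        rw [Finset.sum_const, hcard, nsmul_eq_mul]
    _ = N * (u * u + 2 * (1 - u) ^ J) + N * (4 + 2 * J) * ovb i0 + W4 * lam
        + W4 * (((i0 + 1 : ℕ) : ℝ≥0∞) / u / lam + 1) * us s + N * 2 * η := by
        rw [hW4]
        simp only [div_eq_mul_inv]
        ring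
    _ ≤ ε' + ε' + ε' + ε' + ε' := by gcongr
    _ = 5 * ε' := by ring
    _ = ε := ENNReal.mul_div_cancel h50 h5t

end Crest.Agent.R154.Asm190
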