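import Crest.Agent.R154.AsmE_201

/-! Row 154, ROAD 801: one window (helper201). -/

set_option autoImplicit false

namespace Crest.Agent.R154.Asm201

open scoped ENNReal Classical
open Filter Topology Crest.Agent.R154.B5A

section local_set

variable {B G : Type*} [AddCommGroup G] (ht : B → ℕ) (Λ : B → ℝ≥0∞) (z : B → G)

lemma loc_fin (h1 : ∀ b, 1 ≤ ht b) (hΛ : ∑' b, Λ b = 1) (l : ℕ) (th : ℝ≥0∞) (hth : th ≠ 0)
    (h : ℕ) : {x : G | th ≤ V ht Λ z l ((h : ℤ), x)}.Finite := by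
  refine ENNReal.finite_const_le_of_tsum_ne_top (a := fun x : G => V ht Λ z l ((h : ℤ), x)) ?_ hth
  have : ∑' x : G, V ht Λ z l ((h : ℤ), x) ≤ 1 := by
    rw [← V_sum ht Λ z h1 hΛ l, ENNReal.tsum_prod']
    exact ENNReal.le_tsum (f := fun n : ℤ => ∑' x, V ht Λ z l (n, x)) _
  exact ne_top_of_le_ne_top ENNReal.one_ne_top this

lemma loc_card (h1 : ∀ b, 1 ≤ ht b) (hΛ : ∑' b, Λ b = 1) (l : ℕ) (th : ℝ≥0∞) (hth : th ≠ 0)
    (h : ℕ) : th * ((loc_fin ht Λ z h1 hΛ l th hth h).toFinset.card : ℝ≥0∞) ≤ 1 := by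
  have h2 : ∑' x : G, V ht Λ z l ((h : ℤ), x) ≤ 1 := by
    rw [← V_sum ht Λ z h1 hΛ l, ENNReal.tsum_prod']
    exact ENNReal.le_tsum (f := fun n : ℤ => ∑' x, V ht Λ z l (n, x)) _
  calc _ = ∑ x ∈ (loc_fin ht Λ z h1 hΛ l th hth h).toFinset, th := by
        rw [Finset.sum_const, nsmul_eq_mul, mul_comm]
    _ ≤ ∑ x ∈ (loc_fin ht Λ z h1 hΛ l th hth h).toFinset, V ht Λ z l ((h : ℤ), x) := by
        refine Finset.sum_le_sum fun x hx => ?_
        simpa using hx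
    _ ≤ _ := (ENNReal.sum_le_tsum _).trans h2

end local_set

section two

variable {BX BY G : Type*} [AddCommGroup G]
  (ΛX : BX → ℝ≥0∞) (ΛY : BY → ℝ≥0∞) (hX : BX → ℕ) (hY : BY → ℕ) (zX : BX → G) (zY : BY → G)
  (sX : BX → Set (G × ℕ)) (sY : BY → Set (G × ℕ))

/-- `X` local window lemma -/
def H2 (C : ℝ≥0∞) (us : ℕ → ℝ≥0∞) : Prop :=
  ∀ (s h h' a a' lo : ℕ) (E : Finset G) (μ : G → ℝ≥0∞) (M lam : ℝ≥0∞), ∑' x, μ x ≤ 1 →
    (∀ x, μ x ≤ M) → lam ≠ 0 → lam ≠ ⊤ → a ≤ a' → a + s ≤ lo → a' + s ≤ lo →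
    ∑' x, μ x * ∑' L : List BX, ∑' L' : List BY,
      (if HT hX L = h ∧ Dp zX L ∈ E ∧ HT hY L' = h' ∧
          (∃ g k, Ct hX hY zX zY sX sY L L' x a a' g k) ∧
          (∀ g k, Ct hX hY zX zY sX sY L L' x a a' g k → lo ≤ k) then LW ΛX L * LW ΛY L' else 0)
      ≤ C * (lam + M * E.card * us s / lam + us s)

/-- `Y` local window lemma -/
def H3 (C : ℝ≥0∞) (us : ℕ → ℝ≥0∞) : Prop :=
  ∀ (s h h' a a' hi : ℕ) (E : Finset G) (μ : G → ℝ≥0∞) (M lam : ℝ≥0∞), ∑' x, μ x ≤ 1 →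
    (∀ x, μ x ≤ M) → lam ≠ 0 → lam ≠ ⊤ → a + h ≤ a' + h' → hi + s ≤ a + h → hi + s ≤ a' + h' →
    ∑' x, μ x * ∑' L : List BX, ∑' L' : List BY,
      (if HT hX L = h ∧ HT hY L' = h' ∧ Dp zY L' ∈ E ∧
          (∃ g k, Ct hX hY zX zY sX sY L L' x a a' g k) ∧
          (∀ g k, Ct hX hY zX zY sX sY L L' x a a' g k → k ≤ hi) then LW ΛX L * LW ΛY L' else 0)
      ≤ C * (lam + M * E.card * us s / lam + us s)

/-- crossing pairs with a common site at depth in `(hi, hi + sl]` -/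
noncomputable def Slab (n : ℕ) (w : G) (hi sl : ℕ) : ℝ≥0∞ :=
  ∑' L : List BX, ∑' L' : List BY,
    (if HT hX L = n ∧ HT hY L' = n ∧ ∃ g k, hi < k ∧ k ≤ hi + sl ∧
      Ct hX hY zX zY sX sY L L' w 0 0 g k then LW ΛX L * LW ΛY L' else 0)

/-- crossing pairs with first contact in `(b, b + t]` -/
noncomputable def Win (n : ℕ) (w : G) (b t : ℕ) : ℝ≥0∞ :=
  ∑' L : List BX, ∑' L' : List BY,
    (if HT hX L = n ∧ HT hY L' = n ∧ (∀ g k, Ct hX hY zX zY sX sY L L' w 0 0 g k → b < k) ∧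
      (∃ g k, Ct hX hY zX zY sX sY L L' w 0 0 g k ∧ k ≤ b + t) then LW ΛX L * LW ΛY L' else 0)

/-- first contact in the window, no contact in the slab -/
def EvP (w : G) (b t hi sl : ℕ) (L : List BX) (L' : List BY) : Prop :=
  (∀ g k, Ct hX hY zX zY sX sY L L' w 0 0 g k → b < k ∧ ¬ (hi < k ∧ k ≤ hi + sl)) ∧
      (∃ g k, Ct hX hY zX zY sX sY L L' w 0 0 g k ∧ k ≤ b + t)

theorem window (h1X : ∀ b, 1 ≤ hX b) (h1Y : ∀ b, 1 ≤ hY b) (hΛX : ∑' b, ΛX b = 1)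
    (hΛY : ∑' b, ΛY b = 1) (hsX : ∀ b, ∀ q ∈ sX b, 1 ≤ q.2 ∧ q.2 ≤ hX b)
    (hsY : ∀ b, ∀ q ∈ sY b, 1 ≤ q.2 ∧ q.2 ≤ hY b) (C : ℝ≥0∞) (us : ℕ → ℝ≥0∞)
    (hH2 : H2 ΛX ΛY hX hY zX zY sX sY C us) (hH3 : H3 ΛX ΛY hX hY zX zY sX sY C us)
    (n A l i0 b t hi s J : ℕ) (w : G) (u lam thX thY : ℝ≥0∞) (hu1 : u ≤ 1) (hlam : lam ≠ 0)
    (hlam' : lam ≠ ⊤) (hX0 : thX ≠ 0) (hY0 : thY ≠ 0)
    (qX1 : ∑' c, (if V hX ΛX zX l c < thX then V hX ΛX zX l c else 0) ≤ u)
    (qX2 : u ≤ ∑' c, (if V hX ΛX zX l c ≤ thX then V hX ΛX zX l c else 0))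
    (qY1 : ∑' c, (if V hY ΛY zY (l + i0) c < thY then V hY ΛY zY (l + i0) c else 0) ≤ u)
    (qY2 : u ≤ ∑' c, (if V hY ΛY zY (l + i0) c ≤ thY then V hY ΛY zY (l + i0) c else 0))
    (p1 : A + 2 * i0 + s ≤ b) (p2 : b + t ≤ A + l) (p3 : hi + s = A + l)
    (p4 : J * (l + 2 * i0) ≤ A) (p5 : A + l + 3 * i0 ≤ n) :
    Win ΛX ΛY hX hY zX zY sX sY n w b t ≤ Slab ΛX ΛY hX hY zX zY sX sY n w hi (s + 2 * i0) +
      (2 * e1 hX ΛX i0 + 2 * e1 hY ΛY i0 + (u * u +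
        (((1 - u) ^ J + J * e1 hX ΛX i0) + ((i0 : ℝ≥0∞) + 1) ^ 4 *
          (C * (lam + (J * (i0 + 1)) * us s / lam + us s)) +
        (((1 - u) ^ J + J * e1 hY ΛY i0) + ((i0 : ℝ≥0∞) + 1) ^ 4 *
          (C * (lam + (J * (i0 + 1)) * us s / lam + us s)))))) := by
  have hp4 : J * (l + i0) ≤ A := le_trans (Nat.mul_le_mul_left _ (by omega)) p4
  have hp4' : J * (l + i0 + i0) ≤ A + i0 := by
    rw [show l + i0 + i0 = l + 2 * i0 by ring]; omega
  obtain ⟨AgX, BbX, x1, x2, x3, x4⟩ := V_dens hX ΛX zX h1X hΛX l i0 thX u hu1 qX2 J A hp4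
  obtain ⟨AgY, BbY, y1, y2, y3, y4⟩ := V_dens hY ΛY zY h1Y hΛY (l + i0) i0 thY u hu1 qY2 J (A + i0)
    hp4'
  have s1 : Win ΛX ΛY hX hY zX zY sX sY n w b t ≤
      Slab ΛX ΛY hX hY zX zY sX sY n w hi (s + 2 * i0) +
      ∑' L, ∑' L', (if HT hX L = n ∧ HT hY L' = n ∧
        EvP hX hY zX zY sX sY w b t hi (s + 2 * i0) L L' then LW ΛX L * LW ΛY L' else 0) := by
    unfold Win Slab
    rw [← ENNReal.tsum_add]
    refine ENNReal.tsum_le_tsum fun L => ?_
    rw [← ENNReal.tsum_add]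
    refine ENNReal.tsum_le_tsum fun L' => ?_
    by_cases hc : HT hX L = n ∧ HT hY L' = n ∧
      (∀ g k, Ct hX hY zX zY sX sY L L' w 0 0 g k → b < k) ∧
      (∃ g k, Ct hX hY zX zY sX sY L L' w 0 0 g k ∧ k ≤ b + t)
    swap
    · rw [if_neg hc]; exact zero_le
    rw [if_pos hc]
    by_cases hS : ∃ g k, hi < k ∧ k ≤ hi + (s + 2 * i0) ∧ Ct hX hY zX zY sX sY L L' w 0 0 g k
    · rw [if_pos ⟨hc.1, hc.2.1, hS⟩]; exact le_add_right le_rfl
    · rw [if_neg (fun h => hS h.2.2), if_pos, zero_add]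
      refine ⟨hc.1, hc.2.1, fun g k hk => ⟨hc.2.2.1 g k hk, fun h => hS ⟨g, k, h.1, h.2, hk⟩⟩, ?_⟩
      exact hc.2.2.2
  refine s1.trans (add_le_add le_rfl ?_)
  refine (two_piece ΛX ΛY hX hY h1X h1Y hΛX hΛY A l (A + i0) (l + i0) n i0 (by omega) (by omega)
    (EvP hX hY zX zY sX sY w b t hi (s + 2 * i0))).trans (add_le_add le_rfl ?_)
  set NX : List BX → Prop := fun P => V hX ΛX zX l (dd hX zX P) < thX with hNX
  set NY : List BY → Prop := fun P => V hY ΛY zY (l + i0) (dd hY zY P) < thY with hNY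
  set LX : List BX → List BY → Prop := fun P _ => ¬ NX P with hLX
  set LY : List BX → List BY → Prop := fun _ P' => ¬ NY P' with hLY
  have lX := loc_all ΛX ΛY hX hY zX zY sX sY h1X h1Y hΛX hΛY A l (A + i0) (l + i0) i0 b hi w LX
    AgX BbX (V hY ΛY zY (A + i0)) (fun _ => 0) (J * ((i0 + 1) * thX))
    ((1 - u) ^ J + J * e1 hX ΛX i0) (C * (lam + (J * (i0 + 1)) * us s / lam + us s))
    x1 x2 (fun v => by simp) (fun v => le_rfl) (by simpa using x4) (Or.inl x3) (by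
      intro i hi1 i' hi1' j hj j' hj' μ hμ hμM
      have hfin := loc_fin hX ΛX zX h1X hΛX l thX hX0 (l + j)
      have := hH2 s (l + j) (l + i0 + j') (A + i) (A + i0 + i') (b + 1) hfin.toFinset μ
        (J * ((i0 + 1) * thX)) lam hμ hμM hlam hlam' (by omega) (by omega) (by omega)
      refine le_trans ?_ (this.trans ?_)
      · gcongr with x
        unfold gg
        refine ENNReal.tsum_le_tsum fun P => ENNReal.tsum_le_tsum fun P' => ?_
        by_cases hc : HT hX P = l + j ∧ HT hY P' = l + i0 + j' ∧ LX P P' ∧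
          Q hX hY zX zY sX sY b hi P P' x (A + i) (A + i0 + i')
        swap
        · rw [if_neg hc]; exact zero_le
        rw [if_pos hc, if_pos]
        refine ⟨hc.1, ?_, hc.2.1, hc.2.2.2.1, fun g k hk => (hc.2.2.2.2 g k hk).1⟩
        rw [Set.Finite.mem_toFinset, Set.mem_setOf_eq]
        have h3 := not_lt.1 hc.2.2.1
        rwa [dd, hc.1] at h3
      · gcongr C * (lam + ?_ / lam + us s)
        have hcard := loc_card hX ΛX zX h1X hΛX l thX hX0 (l + j)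
        calc _ = J * (i0 + 1) * (thX * (hfin.toFinset.card : ℝ≥0∞)) * us s := by ring
          _ ≤ J * (i0 + 1) * 1 * us s := by gcongr
          _ = _ := by rw [mul_one])
  have lY := loc_all ΛX ΛY hX hY zX zY sX sY h1X h1Y hΛX hΛY A l (A + i0) (l + i0) i0 b hi w LY
    (V hX ΛX zX A) (fun _ => 0) AgY BbY (J * ((i0 + 1) * thY))
    ((1 - u) ^ J + J * e1 hY ΛY i0) (C * (lam + (J * (i0 + 1)) * us s / lam + us s))
    (fun v => by simp) (fun v => le_rfl) y1 y2 (by simpa using y4) (Or.inr y3) (by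
      intro i hi1 i' hi1' j hj j' hj' μ hμ hμM
      have hfin := loc_fin hY ΛY zY h1Y hΛY (l + i0) thY hY0 (l + i0 + j')
      have := hH3 s (l + j) (l + i0 + j') (A + i) (A + i0 + i') hi hfin.toFinset μ
        (J * ((i0 + 1) * thY)) lam hμ hμM hlam hlam' (by omega) (by omega) (by omega)
      refine le_trans ?_ (this.trans ?_)
      · gcongr with x
        unfold gg
        refine ENNReal.tsum_le_tsum fun P => ENNReal.tsum_le_tsum fun P' => ?_
        by_cases hc : HT hX P = l + j ∧ HT hY P' = l + i0 + j' ∧ LY P P' ∧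
          Q hX hY zX zY sX sY b hi P P' x (A + i) (A + i0 + i')
        swap
        · rw [if_neg hc]; exact zero_le
        rw [if_pos hc, if_pos]
        refine ⟨hc.1, hc.2.1, ?_, hc.2.2.2.1, fun g k hk => (hc.2.2.2.2 g k hk).2⟩
        rw [Set.Finite.mem_toFinset, Set.mem_setOf_eq]
        have h3 := not_lt.1 hc.2.2.1
        rwa [dd, hc.2.1] at h3
      · gcongr C * (lam + ?_ / lam + us s)
        have hcard := loc_card hY ΛY zY h1Y hΛY (l + i0) thY hY0 (l + i0 + j')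
        calc _ = J * (i0 + 1) * (thY * (hfin.toFinset.card : ℝ≥0∞)) * us s := by ring
          _ ≤ J * (i0 + 1) * 1 * us s := by gcongr
          _ = _ := by rw [mul_one])
  have nn : ∑' p, ∑' q, wt hX ΛX A l i0 p * (wt hY ΛY (A + i0) (l + i0) i0 q *
      ((if NX p.2 then 1 else 0) * (if NY q.2 then 1 else 0))) ≤ u * u := by
    have mX : ∑' p, wt hX ΛX A l i0 p * (if NX p.2 then 1 else 0) ≤ u := by
      rw [ENNReal.tsum_prod']
      calc _ = ∑' T, w1 hX ΛX A i0 T * ∑' P, w1 hX ΛX l i0 P * (if NX P then 1 else 0) := by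
            refine tsum_congr fun T => ?_
            rw [← ENNReal.tsum_mul_left]
            refine tsum_congr fun P => ?_
            rw [wt_eq, mul_assoc]
        _ ≤ ∑' T, w1 hX ΛX A i0 T * u := by
            gcongr with T
            exact nonloc hX ΛX zX l i0 thX u qX1
        _ ≤ 1 * u := by
            rw [ENNReal.tsum_mul_right]
            gcongr
            exact w1_mass hX ΛX h1X hΛX A i0
        _ = u := one_mul _
    have mY : ∑' p, wt hY ΛY (A + i0) (l + i0) i0 p * (if NY p.2 then 1 else 0) ≤ u := by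
      rw [ENNReal.tsum_prod']
      calc _ = ∑' T, w1 hY ΛY (A + i0) i0 T *
            ∑' P, w1 hY ΛY (l + i0) i0 P * (if NY P then 1 else 0) := by
            refine tsum_congr fun T => ?_
            rw [← ENNReal.tsum_mul_left]
            refine tsum_congr fun P => ?_
            rw [wt_eq, mul_assoc]
        _ ≤ ∑' T, w1 hY ΛY (A + i0) i0 T * u := by
            gcongr with T
            exact nonloc hY ΛY zY (l + i0) i0 thY u qY1
        _ ≤ 1 * u := by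
            rw [ENNReal.tsum_mul_right]
            gcongr
            exact w1_mass hY ΛY h1Y hΛY (A + i0) i0
        _ = u := one_mul _
    calc _ = (∑' p, wt hX ΛX A l i0 p * (if NX p.2 then 1 else 0)) *
          ∑' q, wt hY ΛY (A + i0) (l + i0) i0 q * (if NY q.2 then 1 else 0) := by
          rw [← ENNReal.tsum_mul_right]
          refine tsum_congr fun p => ?_
          rw [← ENNReal.tsum_mul_left]
          refine tsum_congr fun q => ?_
          ring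
      _ ≤ _ := mul_le_mul' mX mY
  refine le_trans ?_ (add_le_add nn (add_le_add lX lY))
  rw [← ENNReal.tsum_add, ← ENNReal.tsum_add]
  refine ENNReal.tsum_le_tsum fun p => ?_
  rw [← ENNReal.tsum_add, ← ENNReal.tsum_add]
  refine ENNReal.tsum_le_tsum fun q => ?_
  rw [← mul_add, ← mul_add, ← mul_add, ← mul_add]
  by_cases w1 : FP hX A p.1 ∧ HT hX p.1 ≤ A + i0 ∧ FP hX l p.2 ∧ HT hX p.2 ≤ l + i0
  swap
  · rw [wt, if_neg w1, zero_mul, zero_mul]
  by_cases w2 : FP hY (A + i0) q.1 ∧ HT hY q.1 ≤ A + i0 + i0 ∧ FP hY (l + i0) q.2 ∧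
      HT hY q.2 ≤ l + i0 + i0
  swap
  · rw [show wt hY ΛY (A + i0) (l + i0) i0 q = 0 from if_neg w2, zero_mul, zero_mul]
  refine mul_le_mul_right (mul_le_mul_right ?_ _) _
  by_cases hE : ∃ R R', EvP hX hY zX zY sX sY w b t hi (s + 2 * i0)
    (p.1 ++ (p.2 ++ R)) (q.1 ++ (q.2 ++ R'))
  swap
  · rw [if_neg hE]; exact zero_le
  rw [if_pos hE]
  obtain ⟨R, R', hE⟩ := hE
  have g1 := FP_le hX w1.1
  have g2 := FP_le hX w1.2.2.1
  have g3 := FP_le hY w2.1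
  have g4 := FP_le hY w2.2.2.1
  have hQ := deep hX hY zX zY sX sY hsX hsY p.1 p.2 R q.1 q.2 R' w b t hi (s + 2 * i0) hE.1 hE.2
    (by omega) (by omega) (by omega) (by omega) (by omega)
  by_cases n1 : NX p.2
  · by_cases n2 : NY q.2
    · rw [if_pos n1, if_pos n2, one_mul]; exact le_add_right le_rfl
    · refine le_add_left (le_add_left ?_)
      rw [if_pos ⟨n2, hQ⟩]
  · refine le_add_left (le_add_right ?_)
    rw [if_pos ⟨n1, hQ⟩]

end two

end Crest.Agent.R154.Asm201
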