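import Crest.Agent.R154.AsmE_207

/-! Row 154 (helper207), ROAD 801, assembly part F: the window theorem. -/

set_option autoImplicit false

namespace Crest.Agent.R154.Asm207

open scoped ENNReal Topology
open Crest.Agent.R154.B5A
open Crest.Agent.R154.KWB419 (TT)

variable {BX BY : Type*} {G : Type*} [AddCommGroup G]
variable (ΛX : BX → ℝ≥0∞) (hX : BX → ℕ) (zX : BX → G) (sX : BX → Set (G × ℕ))
variable (ΛY : BY → ℝ≥0∞) (hY : BY → ℕ) (zY : BY → G) (sY : BY → Set (G × ℕ))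
variable (h1X : ∀ b, 1 ≤ hX b) (hΛX : ∑' b, ΛX b = 1) (hUX : ∀ n, U ΛX hX n ≤ 1)
variable (h1Y : ∀ b, 1 ≤ hY b) (hΛY : ∑' b, ΛY b = 1) (hUY : ∀ n, U ΛY hY n ≤ 1)

/-- cost of one window -/
noncomputable def cost (ovX ovY u b : ℝ≥0∞) (i0 J : ℕ) : ℝ≥0∞ :=
  2 * ovX + 2 * ovY + u ^ 2 + (((i0 + 1 : ℕ) : ℝ≥0∞) ^ 4 * b + ((1 - u) ^ J + ovX * J))
    + (((i0 + 1 : ℕ) : ℝ≥0∞) ^ 4 * b + ((1 - u) ^ J + ovY * J))

include h1X hΛX hUX h1Y hΛY hUY in
open Classical in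
theorem window (s : ℕ) (bd : ℝ≥0∞ → ℝ≥0∞) (hbd : Monotone bd)
    (hH2 : HH2 ΛX hX zX sX ΛY hY zY sY s bd) (hH3 : HH3 ΛX hX zX sX ΛY hY zY sY s bd)
    (n t0 T i0 J lo hi : ℕ) (w : G) (u : ℝ≥0∞) (hu0 : u ≠ 0) (hu1 : u ≤ 1)
    (hJ : J * (T + i0) ≤ t0) (hn : t0 + 3 * i0 + T ≤ n)
    (hlo : t0 + 3 * i0 + s ≤ lo) (hhi : hi + s ≤ t0 + T)
    (Φ : List BX → List BY → ℝ≥0∞) (hΦ1 : ∀ L L', Φ L L' ≤ 1)
    (hΦ : ∀ U1 P U2 V1 P' V2, FP hX t0 U1 → FP hX T P → FP hY (t0 + 2 * i0) V1 → FP hY T P' →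
      HT hX U1 ≤ t0 + i0 → HT hY V1 ≤ t0 + 3 * i0 →
      HT hX (U1 ++ (P ++ U2)) = n → HT hY (V1 ++ (P' ++ V2)) = n →
      Φ (U1 ++ (P ++ U2)) (V1 ++ (P' ++ V2)) ≠ 0 →
      QQ hX zX sX hY zY sY P P' (w + Dp zY V1 - Dp zX U1) (HT hX U1) (HT hY V1) lo hi) :
    ∑' L, ∑' L', (if HT hX L = n ∧ HT hY L' = n then LW ΛX L * LW ΛY L' * Φ L L' else 0)
      ≤ cost (ov ΛX hX i0) (ov ΛY hY i0) u (bd (((i0 + 1 : ℕ) : ℝ≥0∞) * J)) i0 J := by
  -- step 1: split X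
  set PX : List BX → List BX → List BY → ℝ≥0∞ := fun U1 P L' =>
    if ∃ U2, HT hX (U1 ++ (P ++ U2)) = n ∧ Φ (U1 ++ (P ++ U2)) L' ≠ 0 then 1 else 0 with hPX
  set PY : List BX → List BX → List BY → List BY → ℝ≥0∞ := fun U1 P V1 P' =>
    if ∃ U2 V2, HT hX (U1 ++ (P ++ U2)) = n ∧ HT hY (V1 ++ (P' ++ V2)) = n ∧
      Φ (U1 ++ (P ++ U2)) (V1 ++ (P' ++ V2)) ≠ 0 then 1 else 0 with hPY
  have eX : ∑' L, ∑' L', (if HT hX L = n ∧ HT hY L' = n then LW ΛX L * LW ΛY L' * Φ L L' else 0)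
      ≤ FPS ΛX hX t0 (fun U1 => if HT hX U1 ≤ t0 + i0 then FPS ΛX hX T (fun P =>
          ∑' L', (if HT hY L' = n then LW ΛY L' * PX U1 P L' else 0)) else 0) + ov ΛX hX i0 := by
    refine le_trans (le_of_eq ?_) (split ΛX hX h1X hUX
      (fun L => ∑' L', (if HT hY L' = n then LW ΛY L' * Φ L L' else 0)) ?_
      (fun U1 P => ∑' L', (if HT hY L' = n then LW ΛY L' * PX U1 P L' else 0))
      n t0 T i0 (by omega) ?_)
    · refine tsum_congr fun L => ?_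
      by_cases hL : HT hX L = n
      · rw [if_pos hL, ← ENNReal.tsum_mul_left]
        refine tsum_congr fun L' => ?_
        by_cases hL' : HT hY L' = n
        · rw [if_pos ⟨hL, hL'⟩, if_pos hL']; ring
        · rw [if_neg (fun h => hL' h.2), if_neg hL', mul_zero]
      · rw [if_neg hL]
        rw [ENNReal.tsum_eq_zero]
        intro L'
        rw [if_neg (fun h => hL h.1)]
    · intro L
      refine le_trans (ENNReal.tsum_le_tsum fun L' => ?_) (hUY n)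
      by_cases hL' : HT hY L' = n
      · rw [if_pos hL', if_pos hL']
        exact mul_le_of_le_one_right zero_le (hΦ1 _ _)
      · rw [if_neg hL', if_neg hL']
    · intro U1 P U2 _ _ _ hT
      refine ENNReal.tsum_le_tsum fun L' => ?_
      by_cases hL' : HT hY L' = n
      · rw [if_pos hL', if_pos hL']
        refine mul_le_mul_right ?_ _
        by_cases h0 : Φ (U1 ++ (P ++ U2)) L' = 0
        · rw [h0]; exact zero_le
        · rw [hPX]
          simp only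
          rw [if_pos ⟨U2, hT, h0⟩]
          exact hΦ1 _ _
      · rw [if_neg hL', if_neg hL']
  -- step 2: split Y
  have eY : ∀ U1 P, ∑' L', (if HT hY L' = n then LW ΛY L' * PX U1 P L' else 0)
      ≤ FPS ΛY hY (t0 + 2 * i0) (fun V1 => if HT hY V1 ≤ t0 + 2 * i0 + i0 then
          FPS ΛY hY T (fun P' => PY U1 P V1 P') else 0) + ov ΛY hY i0 := by
    intro U1 P
    refine split ΛY hY h1Y hUY (fun L' => PX U1 P L') ?_ (fun V1 P' => PY U1 P V1 P')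
      n (t0 + 2 * i0) T i0 (by omega) ?_
    · intro L'
      rw [hPX]
      simp only
      split_ifs <;> simp
    · intro V1 P' V2 _ _ _ hT
      rw [hPX, hPY]
      simp only
      by_cases h : ∃ U2, HT hX (U1 ++ (P ++ U2)) = n ∧ Φ (U1 ++ (P ++ U2)) (V1 ++ (P' ++ V2)) ≠ 0
      · obtain ⟨U2, h2, h3⟩ := h
        rw [if_pos ⟨U2, h2, h3⟩, if_pos ⟨U2, V2, h2, hT, h3⟩]
      · rw [if_neg h]; exact zero_le
  have e4 : ∑' L, ∑' L', (if HT hX L = n ∧ HT hY L' = n then LW ΛX L * LW ΛY L' * Φ L L' else 0)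
      ≤ E4 ΛX hX ΛY hY t0 (t0 + 2 * i0) T (fun U1 P V1 P' =>
          if HT hX U1 ≤ t0 + i0 ∧ HT hY V1 ≤ t0 + 3 * i0 then PY U1 P V1 P' else 0)
        + ov ΛY hY i0 + ov ΛX hX i0 := by
    refine eX.trans (add_le_add ?_ le_rfl)
    have c1 : FPS ΛX hX t0 (fun U1 => FPS ΛX hX T (fun P => FPS ΛY hY (t0 + 2 * i0) (fun V1 =>
        FPS ΛY hY T (fun P' => if HT hX U1 ≤ t0 + i0 ∧ HT hY V1 ≤ t0 + 3 * i0 then
          PY U1 P V1 P' else 0)) + ov ΛY hY i0))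
        = E4 ΛX hX ΛY hY t0 (t0 + 2 * i0) T (fun U1 P V1 P' =>
          if HT hX U1 ≤ t0 + i0 ∧ HT hY V1 ≤ t0 + 3 * i0 then PY U1 P V1 P' else 0)
          + ov ΛY hY i0 := by
      unfold E4
      simp only [FPS_add, FPS_const ΛX hX h1X hΛX]
    rw [← c1]
    refine FPS_mono _ _ _ fun U1 _ => ?_
    by_cases hU : HT hX U1 ≤ t0 + i0
    · rw [if_pos hU]
      refine FPS_mono _ _ _ fun P _ => (eY U1 P).trans (add_le_add ?_ le_rfl)
      refine FPS_mono _ _ _ fun V1 _ => ?_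
      by_cases hV : HT hY V1 ≤ t0 + 2 * i0 + i0
      · rw [if_pos hV]
        refine FPS_mono _ _ _ fun P' _ => ?_
        rw [if_pos ⟨hU, by omega⟩]
      · rw [if_neg hV]; exact zero_le
    · rw [if_neg hU]; exact zero_le
  refine e4.trans ?_
  -- locality data
  obtain ⟨thX, MX, EX, AX, BbX, hEX, hnX, hdX, hAX, hMX, hbX, hcX⟩ :=
    loc ΛX hX zX h1X hΛX hUX T i0 J t0 hJ u hu0 hu1
  obtain ⟨thY, MY, EY, AY, BbY, hEY, hnY, hdY, hAY, hMY, hbY, hcY⟩ :=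
    loc ΛY hY zY h1Y hΛY hUY T i0 J (t0 + 2 * i0) (by omega) u hu0 hu1
  set IX : ℕ × G → List BX → ℕ × G → List BY → ℝ≥0∞ := fun q P q' P' =>
    if q.1 ≤ i0 ∧ q'.1 ≤ i0 then (if HT hX P ≤ T + i0 ∧ HT hY P' ≤ T + i0 ∧
      thX ≤ D ΛX hX zX T (HT hX P - T, Dp zX P) ∧
      QQ hX zX sX hY zY sY P P' (w + q'.2 - q.2) (t0 + q.1) (t0 + 2 * i0 + q'.1) lo hi
      then 1 else 0) else 0 with hIX
  set IY : ℕ × G → List BX → ℕ × G → List BY → ℝ≥0∞ := fun q P q' P' =>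
    if q.1 ≤ i0 ∧ q'.1 ≤ i0 then (if HT hX P ≤ T + i0 ∧ HT hY P' ≤ T + i0 ∧
      thY ≤ D ΛY hY zY T (HT hY P' - T, Dp zY P') ∧
      QQ hX zX sX hY zY sY P P' (w + q'.2 - q.2) (t0 + q.1) (t0 + 2 * i0 + q'.1) lo hi
      then 1 else 0) else 0 with hIY
  set N0 : List BX → List BY → ℝ≥0∞ := fun P P' =>
    (if D ΛX hX zX T (HT hX P - T, Dp zX P) < thX then 1 else 0) *
    (if D ΛY hY zY T (HT hY P' - T, Dp zY P') < thY then 1 else 0) with hN0
  have hpt : ∀ U1 P V1 P', FP hX t0 U1 → FP hX T P → FP hY (t0 + 2 * i0) V1 → FP hY T P' →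
      (if HT hX U1 ≤ t0 + i0 ∧ HT hY V1 ≤ t0 + 3 * i0 then PY U1 P V1 P' else 0)
      ≤ ((((if T + i0 < HT hX P then 1 else 0) + (if T + i0 < HT hY P' then 1 else 0))
        + N0 P P') + IX (HT hX U1 - t0, Dp zX U1) P (HT hY V1 - (t0 + 2 * i0), Dp zY V1) P')
        + IY (HT hX U1 - t0, Dp zX U1) P (HT hY V1 - (t0 + 2 * i0), Dp zY V1) P' := by
    intro U1 P V1 P' hU hP hV hP'
    have l1 := FP_le hX hU
    have l2 := FP_le hY hV
    by_cases hh : HT hX U1 ≤ t0 + i0 ∧ HT hY V1 ≤ t0 + 3 * i0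
    swap
    · rw [if_neg hh]; exact zero_le
    rw [if_pos hh, hPY]
    simp only
    by_cases hex : ∃ U2 V2, HT hX (U1 ++ (P ++ U2)) = n ∧ HT hY (V1 ++ (P' ++ V2)) = n ∧
      Φ (U1 ++ (P ++ U2)) (V1 ++ (P' ++ V2)) ≠ 0
    swap
    · rw [if_neg hex]; exact zero_le
    rw [if_pos hex]
    obtain ⟨U2, V2, h2, h3, h4⟩ := hex
    have hQ := hΦ U1 P U2 V1 P' V2 hU hP hV hP' hh.1 hh.2 h2 h3 h4
    by_cases o1 : T + i0 < HT hX P
    · rw [if_pos o1, add_assoc, add_assoc, add_assoc]; exact le_self_add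
    by_cases o2 : T + i0 < HT hY P'
    · rw [if_neg o1, if_pos o2, zero_add, add_assoc, add_assoc]; exact le_self_add
    have eq1 : t0 + (HT hX U1 - t0) = HT hX U1 := by omega
    have eq2 : t0 + 2 * i0 + (HT hY V1 - (t0 + 2 * i0)) = HT hY V1 := by omega
    by_cases p1 : thX ≤ D ΛX hX zX T (HT hX P - T, Dp zX P)
    · refine le_trans ?_ le_self_add
      refine le_trans ?_ le_add_self
      rw [hIX]
      simp only
      rw [if_pos ⟨by omega, by omega⟩, eq1, eq2, if_pos ⟨by omega, by omega, p1, hQ⟩]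
    by_cases p2 : thY ≤ D ΛY hY zY T (HT hY P' - T, Dp zY P')
    · refine le_trans ?_ le_add_self
      rw [hIY]
      simp only
      rw [if_pos ⟨by omega, by omega⟩, eq1, eq2, if_pos ⟨by omega, by omega, p2, hQ⟩]
    · refine le_trans ?_ le_self_add
      refine le_trans ?_ le_self_add
      refine le_trans ?_ le_add_self
      rw [hN0]
      simp only
      rw [if_pos (not_le.1 p1), if_pos (not_le.1 p2), one_mul]
  have hsum := E4_mono (ΛX := ΛX) (hX := hX) (ΛY := ΛY) (hY := hY) (t0 := t0)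
    (t1 := t0 + 2 * i0) (T := T) hpt
  rw [E4_add, E4_add, E4_add, E4_add] at hsum
  -- the five terms
  have T1 : E4 ΛX hX ΛY hY t0 (t0 + 2 * i0) T
      (fun _ P _ _ => if T + i0 < HT hX P then (1 : ℝ≥0∞) else 0) ≤ ov ΛX hX i0 := by
    unfold E4
    simp only [FPS_const ΛY hY h1Y hΛY, FPS_const ΛX hX h1X hΛX]
    exact FPS_over ΛX hX h1X hUX T i0
  have T2 : E4 ΛX hX ΛY hY t0 (t0 + 2 * i0) T
      (fun _ _ _ P' => if T + i0 < HT hY P' then (1 : ℝ≥0∞) else 0) ≤ ov ΛY hY i0 := by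
    unfold E4
    simp only [FPS_const ΛY hY h1Y hΛY, FPS_const ΛX hX h1X hΛX]
    exact FPS_over ΛY hY h1Y hUY T i0
  have T3 : E4 ΛX hX ΛY hY t0 (t0 + 2 * i0) T (fun _ P _ P' => N0 P P') ≤ u ^ 2 := by
    unfold E4
    rw [hN0]
    simp only [FPS_const_mul]
    simp only [FPS_const ΛY hY h1Y hΛY]
    have e : ∀ (c : ℝ≥0∞), FPS ΛX hX T (fun P => (if D ΛX hX zX T (HT hX P - T, Dp zX P) < thX
        then 1 else 0) * c) = c * FPS ΛX hX T (fun P =>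
          (if D ΛX hX zX T (HT hX P - T, Dp zX P) < thX then 1 else 0)) := by
      intro c
      rw [← FPS_const_mul]
      exact FPS_congr _ _ _ fun P _ => mul_comm _ _
    simp only [e, FPS_const ΛX hX h1X hΛX]
    rw [sq]
    exact mul_le_mul' hnY hnX
  have hDX : ∀ i, ∑' y, D ΛX hX zX t0 (i, y) ≤ 1 := fun i => D_sum_z ΛX hX zX h1X hΛX t0 i
  have hDY : ∀ i, ∑' y, D ΛY hY zY (t0 + 2 * i0) (i, y) ≤ 1 := fun i =>
    D_sum_z ΛY hY zY h1Y hΛY (t0 + 2 * i0) i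
  have T4 : E4 ΛX hX ΛY hY t0 (t0 + 2 * i0) T (fun U1 P V1 P' =>
      IX (HT hX U1 - t0, Dp zX U1) P (HT hY V1 - (t0 + 2 * i0), Dp zY V1) P')
      ≤ ((i0 + 1 : ℕ) : ℝ≥0∞) ^ 4 * bd (((i0 + 1 : ℕ) : ℝ≥0∞) * J)
        + ((1 - u) ^ J + ov ΛX hX i0 * J) := by
    refine (E4_push (zX := zX) (zY := zY) h1X hΛX h1Y hΛY IX _
      (fun _ _ _ _ => le_rfl)).trans ?_
    set R : ℕ × G → ℕ × G → ℝ≥0∞ := fun q q' =>
      FPS ΛX hX T (fun P => FPS ΛY hY T (fun P' => IX q P q' P')) with hR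
    have hR1 : ∀ q q', R q q' ≤ 1 := by
      intro q q'
      refine FPS_le_one ΛX hX h1X hΛX T fun P => FPS_le_one ΛY hY h1Y hΛY T fun P' => ?_
      rw [hIX]; simp only; split_ifs <;> simp
    have a1 : ∑' q, ∑' q', D ΛX hX zX t0 q * D ΛY hY zY (t0 + 2 * i0) q' * R q q'
        ≤ ∑' q, ∑' q', AX q * D ΛY hY zY (t0 + 2 * i0) q' * R q q'
          + ∑' q, ∑' q', BbX q * D ΛY hY zY (t0 + 2 * i0) q' * R q q' := by
      rw [← ENNReal.tsum_add]
      refine ENNReal.tsum_le_tsum fun q => ?_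
      rw [← ENNReal.tsum_add]
      refine ENNReal.tsum_le_tsum fun q' => ?_
      rw [← add_mul, ← add_mul]
      exact mul_le_mul_left (mul_le_mul_left (hdX q) _) _
    refine a1.trans (add_le_add ?_ ?_)
    · refine tops w (S2 ΛX hX zX sX ΛY hY zY sY)
        (fun i2 _ => EX i2) (((i0 + 1 : ℕ) : ℝ≥0∞) * J) hbd hH2 hlo hhi AX
        (D ΛY hY zY (t0 + 2 * i0)) R (fun i => ?_) hDY MX (Or.inl hMX) (fun i2 _ => hcX i2) ?_
      · exact (ENNReal.tsum_le_tsum fun y => hAX (i, y)).trans (hDX i)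
      · intro q q'
        by_cases hq : q.1 ≤ i0 ∧ q'.1 ≤ i0
        · rw [if_pos hq]
          refine le_trans (le_of_eq ?_) (inner2 ΛX hX zX sX ΛY hY zY sY EX T i0 thX hEX
            (t0 + q.1) (t0 + 2 * i0 + q'.1) lo hi (w + q'.2 - q.2))
          rw [hR, hIX]
          simp only [if_pos hq]
        · rw [if_neg hq, hR, hIX]
          simp only [if_neg hq, FPS_const ΛX hX h1X hΛX, FPS_const ΛY hY h1Y hΛY]
          exact le_rfl
    · calc _ ≤ ∑' q, ∑' q', BbX q * D ΛY hY zY (t0 + 2 * i0) q' :=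
            ENNReal.tsum_le_tsum fun q => ENNReal.tsum_le_tsum fun q' =>
              mul_le_of_le_one_right zero_le (hR1 q q')
        _ = ∑' q, BbX q := tsum_congr fun q => by
            rw [ENNReal.tsum_mul_left, D_sum ΛY hY zY h1Y hΛY, mul_one]
        _ ≤ _ := hbX
  have T5 : E4 ΛX hX ΛY hY t0 (t0 + 2 * i0) T (fun U1 P V1 P' =>
      IY (HT hX U1 - t0, Dp zX U1) P (HT hY V1 - (t0 + 2 * i0), Dp zY V1) P')
      ≤ ((i0 + 1 : ℕ) : ℝ≥0∞) ^ 4 * bd (((i0 + 1 : ℕ) : ℝ≥0∞) * J)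
        + ((1 - u) ^ J + ov ΛY hY i0 * J) := by
    refine (E4_push (zX := zX) (zY := zY) h1X hΛX h1Y hΛY IY _
      (fun _ _ _ _ => le_rfl)).trans ?_
    set R : ℕ × G → ℕ × G → ℝ≥0∞ := fun q q' =>
      FPS ΛX hX T (fun P => FPS ΛY hY T (fun P' => IY q P q' P')) with hR
    have hR1 : ∀ q q', R q q' ≤ 1 := by
      intro q q'
      refine FPS_le_one ΛX hX h1X hΛX T fun P => FPS_le_one ΛY hY h1Y hΛY T fun P' => ?_
      rw [hIY]; simp only; split_ifs <;> simp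
    have a1 : ∑' q, ∑' q', D ΛX hX zX t0 q * D ΛY hY zY (t0 + 2 * i0) q' * R q q'
        ≤ ∑' q, ∑' q', D ΛX hX zX t0 q * AY q' * R q q'
          + ∑' q, ∑' q', D ΛX hX zX t0 q * BbY q' * R q q' := by
      rw [← ENNReal.tsum_add]
      refine ENNReal.tsum_le_tsum fun q => ?_
      rw [← ENNReal.tsum_add]
      refine ENNReal.tsum_le_tsum fun q' => ?_
      rw [← add_mul, ← mul_add]
      exact mul_le_mul_left (mul_le_mul_right (hdY q') _) _
    refine a1.trans (add_le_add ?_ ?_)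
    · refine tops w (S3 ΛX hX zX sX ΛY hY zY sY)
        (fun _ i3 => EY i3) (((i0 + 1 : ℕ) : ℝ≥0∞) * J) hbd hH3 hlo hhi (D ΛX hX zX t0)
        AY R hDX (fun i => ?_) MY (Or.inr hMY) (fun _ i3 => hcY i3) ?_
      · exact (ENNReal.tsum_le_tsum fun y => hAY (i, y)).trans (hDY i)
      · intro q q'
        by_cases hq : q.1 ≤ i0 ∧ q'.1 ≤ i0
        · rw [if_pos hq]
          refine le_trans (le_of_eq ?_) (inner3 ΛX hX zX sX ΛY hY zY sY EY T i0 thY hEY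
            (t0 + q.1) (t0 + 2 * i0 + q'.1) lo hi (w + q'.2 - q.2))
          rw [hR, hIY]
          simp only [if_pos hq]
        · rw [if_neg hq, hR, hIY]
          simp only [if_neg hq, FPS_const ΛX hX h1X hΛX, FPS_const ΛY hY h1Y hΛY]
          exact le_rfl
    · calc _ ≤ ∑' q, ∑' q', D ΛX hX zX t0 q * BbY q' :=
            ENNReal.tsum_le_tsum fun q => ENNReal.tsum_le_tsum fun q' =>
              mul_le_of_le_one_right zero_le (hR1 q q')
        _ = (∑' q, D ΛX hX zX t0 q) * ∑' q', BbY q' := by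
            rw [← ENNReal.tsum_mul_right]
            exact tsum_congr fun q => ENNReal.tsum_mul_left
        _ ≤ ∑' q', BbY q' := by rw [D_sum ΛX hX zX h1X hΛX, one_mul]
        _ ≤ _ := hbY
  have hfin := add_le_add (add_le_add (hsum.trans (add_le_add (add_le_add (add_le_add
    (add_le_add T1 T2) T3) T4) T5)) (le_refl (ov ΛY hY i0))) (le_refl (ov ΛX hX i0))
  refine hfin.trans (le_of_eq ?_)
  unfold cost
  ring

end Crest.Agent.R154.Asm207
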