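import Crest.Agent.R154.AsmE_222

/-! Row 154, road 801 (helper222): KAPPA' on block lists from the window lemmas. -/

set_option autoImplicit false
set_option linter.unusedSectionVars false

namespace Crest.Agent.R154.Asm222

open scoped ENNReal
open Crest.Agent.R154.B5A

variable {BX BY G : Type*} [AddCommGroup G]
variable (ΛX : BX → ℝ≥0∞) (hX : BX → ℕ) (zX : BX → G) (sX : BX → Set (G × ℕ))
variable (ΛY : BY → ℝ≥0∞) (hY : BY → ℕ) (zY : BY → G) (sY : BY → Set (G × ℕ))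

open Classical in
/-- window lemma, `X` local -/
def H2L : Prop :=
  ∃ C : ℝ≥0∞, C ≠ ⊤ ∧ ∀ r0 : ℕ, ∀ η : ℝ≥0∞, η ≠ 0 → ∃ s0 : ℕ, ∀ s, s0 ≤ s →
    ∀ (h h' a a' lo hi : ℕ) (E : Finset G) (μ : G → ℝ≥0∞) (M lam : ℝ≥0∞),
      a ≤ a' → a' ≤ a + r0 → a + h ≤ a' + h' → a' + h' ≤ a + h + r0 →
      a + s ≤ lo → a' + s ≤ lo → hi + s ≤ a + h → hi + s ≤ a' + h' →
      ∑' x, μ x ≤ 1 → (∀ x, μ x ≤ M) → M ≠ ⊤ → lam ≠ 0 → lam ≠ ⊤ →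
      ∑' x, μ x * ∑' P, ∑' P', (if HT hX P = h ∧ HT hY P' = h' ∧ Dp zX P ∈ E ∧
        Ev (TT hX zX sX P 0 a) (TT hY zY sY P' x a') lo hi then LW ΛX P * LW ΛY P' else 0)
      ≤ C * (lam + M * E.card * η / lam + η)

open Classical in
/-- window lemma, `Y` local -/
def H3L : Prop :=
  ∃ C : ℝ≥0∞, C ≠ ⊤ ∧ ∀ r0 : ℕ, ∀ η : ℝ≥0∞, η ≠ 0 → ∃ s0 : ℕ, ∀ s, s0 ≤ s →
    ∀ (h h' a a' lo hi : ℕ) (E : Finset G) (μ : G → ℝ≥0∞) (M lam : ℝ≥0∞),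
      a ≤ a' → a' ≤ a + r0 → a + h ≤ a' + h' → a' + h' ≤ a + h + r0 →
      a + s ≤ lo → a' + s ≤ lo → hi + s ≤ a + h → hi + s ≤ a' + h' →
      ∑' x, μ x ≤ 1 → (∀ x, μ x ≤ M) → M ≠ ⊤ → lam ≠ 0 → lam ≠ ⊤ →
      ∑' x, μ x * ∑' P, ∑' P', (if HT hX P = h ∧ HT hY P' = h' ∧ Dp zY P' ∈ E ∧
        Ev (TT hX zX sX P 0 a) (TT hY zY sY P' x a') lo hi then LW ΛX P * LW ΛY P' else 0)
      ≤ C * (lam + M * E.card * η / lam + η)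

open Classical in
/-- thin slab -/
def PtL (Wok : G → Prop) : Prop :=
  ∀ (S : ℕ) (η : ℝ≥0∞), η ≠ 0 → ∃ D0 : ℕ, ∀ D, D0 ≤ D → ∀ n, D + S ≤ n → ∀ w, Wok w →
    ∑' LX, ∑' LY, (if HT hX LX = n ∧ HT hY LY = n ∧
      (∃ p, p ∈ TT hX zX sX LX 0 0 ∧ p ∈ TT hY zY sY LY w 0 ∧ D ≤ p.2 ∧ p.2 ≤ D + S)
      then LW ΛX LX * LW ΛY LY else 0) ≤ η

/-- the piece is in the local set -/
def Loc {B : Type*} (h : B → ℕ) (z : B → G) (E : Finset (ℕ × G)) (P : List B) : Prop :=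
  (HT h P, Dp z P) ∈ E

open Classical in
lemma slice (EX : Finset (ℕ × G)) (h : ℕ) :
    ∃ E : Finset G, E.card ≤ EX.card ∧ ∀ y, (h, y) ∈ EX → y ∈ E := by
  refine ⟨EX.image Prod.snd, Finset.card_image_le, fun y hy => ?_⟩
  exact Finset.mem_image.2 ⟨(h, y), hy, rfl⟩

open Classical in
lemma betaX {r0 s : ℕ} {η C : ℝ≥0∞}
    (H : ∀ (h h' a a' lo hi : ℕ) (E : Finset G) (μ : G → ℝ≥0∞) (M lam : ℝ≥0∞),
      a ≤ a' → a' ≤ a + r0 → a + h ≤ a' + h' → a' + h' ≤ a + h + r0 →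
      a + s ≤ lo → a' + s ≤ lo → hi + s ≤ a + h → hi + s ≤ a' + h' →
      ∑' x, μ x ≤ 1 → (∀ x, μ x ≤ M) → M ≠ ⊤ → lam ≠ 0 → lam ≠ ⊤ →
      ∑' x, μ x * ∑' P, ∑' P', (if HT hX P = h ∧ HT hY P' = h' ∧ Dp zX P ∈ E ∧
        Ev (TT hX zX sX P 0 a) (TT hY zY sY P' x a') lo hi then LW ΛX P * LW ΛY P' else 0)
      ≤ C * (lam + M * E.card * η / lam + η))
    (c t i0 : ℕ) (hr : 4 * i0 ≤ r0) (hs : s ≤ t) (EX : Finset (ℕ × G)) (M D lam : ℝ≥0∞)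
    (hM : M ≠ ⊤) (hD : M * EX.card ≤ D) (hl0 : lam ≠ 0) (hlt : lam ≠ ⊤) :
    ∀ a a' h h', c ≤ a → a ≤ c + i0 → c + i0 ≤ a' → a' ≤ c + i0 + i0 → 3 * t ≤ h →
      h ≤ 3 * t + i0 → 3 * t + i0 ≤ h' → h' ≤ 3 * t + i0 + i0 →
      ∀ μ : G → ℝ≥0∞, ∑' x, μ x ≤ 1 → (∀ x, μ x ≤ M) →
      ∑' x, μ x * ∑' P, ∑' P', (if HT hX P = h ∧ HT hY P' = h' ∧
        Loc hX zX EX P ∧
        Ev (TT hX zX sX P 0 a) (TT hY zY sY P' x a') (c + 2 * i0 + s) (c + 3 * t - s)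
        then LW ΛX P * LW ΛY P' else 0) ≤ C * (lam + D * η / lam + η) := by
  intro a a' h h' g1 g2 g3 g4 g5 g6 g7 g8 μ hμ hμM
  obtain ⟨E, hE1, hE2⟩ := slice EX h
  have key := H h h' a a' (c + 2 * i0 + s) (c + 3 * t - s) E μ M lam (by omega) (by omega)
    (by omega) (by omega) (by omega) (by omega) (by omega) (by omega) hμ hμM hM hl0 hlt
  refine le_trans (ENNReal.tsum_le_tsum fun x => mul_le_mul_right (ENNReal.tsum_le_tsum fun P =>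
    ENNReal.tsum_le_tsum fun P' => ?_) _) (key.trans ?_)
  · by_cases hc : HT hX P = h ∧ HT hY P' = h' ∧ Loc hX zX EX P ∧
        Ev (TT hX zX sX P 0 a) (TT hY zY sY P' x a') (c + 2 * i0 + s) (c + 3 * t - s)
    · rw [if_pos hc, if_pos]
      exact ⟨hc.1, hc.2.1, hE2 _ (by have := hc.2.2.1; unfold Loc at this; rwa [hc.1] at this), hc.2.2.2⟩
    · rw [if_neg hc]; exact zero_le
  · have : M * (E.card : ℝ≥0∞) ≤ D := le_trans (by gcongr) hD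
    gcongr

open Classical in
lemma betaY {r0 s : ℕ} {η C : ℝ≥0∞}
    (H : ∀ (h h' a a' lo hi : ℕ) (E : Finset G) (μ : G → ℝ≥0∞) (M lam : ℝ≥0∞),
      a ≤ a' → a' ≤ a + r0 → a + h ≤ a' + h' → a' + h' ≤ a + h + r0 →
      a + s ≤ lo → a' + s ≤ lo → hi + s ≤ a + h → hi + s ≤ a' + h' →
      ∑' x, μ x ≤ 1 → (∀ x, μ x ≤ M) → M ≠ ⊤ → lam ≠ 0 → lam ≠ ⊤ →
      ∑' x, μ x * ∑' P, ∑' P', (if HT hX P = h ∧ HT hY P' = h' ∧ Dp zY P' ∈ E ∧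
        Ev (TT hX zX sX P 0 a) (TT hY zY sY P' x a') lo hi then LW ΛX P * LW ΛY P' else 0)
      ≤ C * (lam + M * E.card * η / lam + η))
    (c t i0 : ℕ) (hr : 4 * i0 ≤ r0) (hs : s ≤ t) (EY : Finset (ℕ × G)) (M D lam : ℝ≥0∞)
    (hM : M ≠ ⊤) (hD : M * EY.card ≤ D) (hl0 : lam ≠ 0) (hlt : lam ≠ ⊤) :
    ∀ a a' h h', c ≤ a → a ≤ c + i0 → c + i0 ≤ a' → a' ≤ c + i0 + i0 → 3 * t ≤ h →
      h ≤ 3 * t + i0 → 3 * t + i0 ≤ h' → h' ≤ 3 * t + i0 + i0 →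
      ∀ μ : G → ℝ≥0∞, ∑' x, μ x ≤ 1 → (∀ x, μ x ≤ M) →
      ∑' x, μ x * ∑' P, ∑' P', (if HT hX P = h ∧ HT hY P' = h' ∧
        Loc hY zY EY P' ∧
        Ev (TT hX zX sX P 0 a) (TT hY zY sY P' x a') (c + 2 * i0 + s) (c + 3 * t - s)
        then LW ΛX P * LW ΛY P' else 0) ≤ C * (lam + D * η / lam + η) := by
  intro a a' h h' g1 g2 g3 g4 g5 g6 g7 g8 μ hμ hμM
  obtain ⟨E, hE1, hE2⟩ := slice EY h'
  have key := H h h' a a' (c + 2 * i0 + s) (c + 3 * t - s) E μ M lam (by omega) (by omega)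
    (by omega) (by omega) (by omega) (by omega) (by omega) (by omega) hμ hμM hM hl0 hlt
  refine le_trans (ENNReal.tsum_le_tsum fun x => mul_le_mul_right (ENNReal.tsum_le_tsum fun P =>
    ENNReal.tsum_le_tsum fun P' => ?_) _) (key.trans ?_)
  · by_cases hc : HT hX P = h ∧ HT hY P' = h' ∧ Loc hY zY EY P' ∧
        Ev (TT hX zX sX P 0 a) (TT hY zY sY P' x a') (c + 2 * i0 + s) (c + 3 * t - s)
    · rw [if_pos hc, if_pos]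
      exact ⟨hc.1, hc.2.1, hE2 _ (by have := hc.2.2.1; unfold Loc at this; rwa [hc.2.1] at this), hc.2.2.2⟩
    · rw [if_neg hc]; exact zero_le
  · have : M * (E.card : ℝ≥0∞) ≤ D := le_trans (by gcongr) hD
    gcongr

/-- covering of the contact depth by windows -/
lemma cover (m k t K' i0 s : ℕ) (hK' : 1 ≤ K') (htm : t = m / K') (ht : K' ≤ t) (h1 : m < k)
    (h2 : k ≤ 2 * m) :
    ∃ j, j < K' + 1 ∧ m + j * t - t + t < k ∧ k ≤ m + j * t - t + 2 * t := by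
  have ht0 : 0 < t := by omega
  have e1 : K' * t ≤ m := by rw [htm]; exact Nat.mul_div_le m K'
  have e2 : m < K' * (t + 1) := by
    rw [htm]; exact Nat.lt_mul_div_succ m (by omega)
  have e3 : t ≤ m := le_trans (by nlinarith) e1
  refine ⟨(k - m - 1) / t, ?_, ?_, ?_⟩
  · rw [Nat.div_lt_iff_lt_mul ht0]
    have : K' * (t + 1) ≤ (K' + 1) * t := by ring_nf; omega
    omega
  · have := Nat.div_mul_le_self (k - m - 1) t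
    omega
  · have := Nat.lt_div_mul_add (a := k - m - 1) ht0
    omega

end Crest.Agent.R154.Asm222
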