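import Crest.Agent.R154.AsmE_224

/-! Row 154, ROAD 801 (helper224): the window estimate. -/

set_option autoImplicit false

namespace Crest.Agent.R154.Asm224

open scoped ENNReal
open Crest.Agent.R154.B5A

variable {BX BY G : Type*} [AddCommGroup G] (SX : Sys BX G) (SY : Sys BY G)

open Classical in
lemma S4_split (a T c V i0 : ℕ) (Q Q1 Q2 Q3 : List BX → List BX → List BY → List BY → Prop)
    (h : ∀ A P A' P', Q A P A' P' → Q1 A P A' P' ∨ Q2 A P A' P' ∨ Q3 A P A' P') :
    S4 SX SY a T c V i0 Q ≤ S4 SX SY a T c V i0 Q1 + S4 SX SY a T c V i0 Q2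
      + S4 SX SY a T c V i0 Q3 := by
  simp only [S4, ← ENNReal.tsum_add]
  refine ENNReal.tsum_le_tsum fun A => ENNReal.tsum_le_tsum fun P => ENNReal.tsum_le_tsum fun A' =>
    ENNReal.tsum_le_tsum fun P' => ?_
  rw [← mul_add, ← mul_add]
  gcongr
  by_cases hQ : Q A P A' P'
  · rw [if_pos hQ]
    rcases h _ _ _ _ hQ with h1 | h1 | h1
    · rw [if_pos h1]; exact le_trans le_self_add le_self_add
    · rw [if_pos h1]; exact le_trans le_add_self le_self_add
    · rw [if_pos h1]; exact le_add_self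
  · rw [if_neg hQ]; exact zero_le

open Classical in
lemma S4_NN (a T c V i0 : ℕ) (N : List BX → Prop) (N' : List BY → Prop) (u u' : ℝ≥0∞)
    (hN : ∑' P, SX.wa T i0 P * (if N P then 1 else 0) ≤ u)
    (hN' : ∑' P', SY.wa V i0 P' * (if N' P' then 1 else 0) ≤ u') :
    S4 SX SY a T c V i0 (fun _ P _ P' => N P ∧ N' P') ≤ u * u' := by
  calc S4 SX SY a T c V i0 (fun _ P _ P' => N P ∧ N' P')
      = ∑' A, ∑' P, ∑' A', ∑' P', (SX.wa a i0 A * (SX.wa T i0 P * (if N P then 1 else 0))) *
          (SY.wa c i0 A' * (SY.wa V i0 P' * (if N' P' then 1 else 0))) := by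
        refine tsum_congr fun A => tsum_congr fun P => tsum_congr fun A' => tsum_congr fun P' => ?_
        by_cases h : N P <;> by_cases h' : N' P' <;> simp [h, h', mul_assoc]
    _ = ((∑' A, SX.wa a i0 A) * ∑' P, SX.wa T i0 P * (if N P then 1 else 0)) *
          ((∑' A', SY.wa c i0 A') * ∑' P', SY.wa V i0 P' * (if N' P' then 1 else 0)) := by
        simp_rw [ENNReal.tsum_mul_left, ENNReal.tsum_mul_right, ENNReal.tsum_mul_left,
          ENNReal.tsum_mul_right]
    _ ≤ (1 * u) * (1 * u') := by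
        gcongr
        exacts [SX.wa_mass _ _, SY.wa_mass _ _]
    _ = u * u' := by rw [one_mul, one_mul]

open Classical in
/-- rearrangement: `A'` outside -/
lemma S4_outY (a T c V i0 : ℕ) (Q : List BX → List BX → List BY → List BY → Prop) :
    S4 SX SY a T c V i0 Q = ∑' A', SY.wa c i0 A' * ∑' A, SX.wa a i0 A * ∑' P, SX.wa T i0 P *
      ∑' P', SY.wa V i0 P' * (if Q A P A' P' then 1 else 0) := by
  rw [S4]
  calc _ = ∑' A, ∑' P, ∑' A', SY.wa c i0 A' * (SX.wa a i0 A * (SX.wa T i0 P *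
        ∑' P', SY.wa V i0 P' * (if Q A P A' P' then 1 else 0))) := by
        refine tsum_congr fun A => tsum_congr fun P => tsum_congr fun A' => ?_
        rw [← ENNReal.tsum_mul_left, ← ENNReal.tsum_mul_left, ← ENNReal.tsum_mul_left]
        refine tsum_congr fun P' => ?_
        ring
    _ = ∑' A, ∑' A', ∑' P, SY.wa c i0 A' * (SX.wa a i0 A * (SX.wa T i0 P *
        ∑' P', SY.wa V i0 P' * (if Q A P A' P' then 1 else 0))) :=
        tsum_congr fun A => ENNReal.tsum_comm
    _ = ∑' A', ∑' A, ∑' P, SY.wa c i0 A' * (SX.wa a i0 A * (SX.wa T i0 P *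
        ∑' P', SY.wa V i0 P' * (if Q A P A' P' then 1 else 0))) := ENNReal.tsum_comm
    _ = _ := by
        refine tsum_congr fun A' => ?_
        rw [← ENNReal.tsum_mul_left]
        refine tsum_congr fun A => ?_
        rw [ENNReal.tsum_mul_left, ENNReal.tsum_mul_left]

open Classical in
/-- rearrangement: `A` outside -/
lemma S4_outX (a T c V i0 : ℕ) (Q : List BX → List BX → List BY → List BY → Prop) :
    S4 SX SY a T c V i0 Q = ∑' A, SX.wa a i0 A * ∑' A', SY.wa c i0 A' * ∑' P', SY.wa V i0 P' *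
      ∑' P, SX.wa T i0 P * (if Q A P A' P' then 1 else 0) := by
  rw [S4]
  refine tsum_congr fun A => ?_
  calc ∑' P, ∑' A', ∑' P', SX.wa a i0 A * SX.wa T i0 P * (SY.wa c i0 A' * SY.wa V i0 P') *
        (if Q A P A' P' then 1 else 0)
      = ∑' A', ∑' P, ∑' P', SX.wa a i0 A * SX.wa T i0 P * (SY.wa c i0 A' * SY.wa V i0 P') *
        (if Q A P A' P' then 1 else 0) := ENNReal.tsum_comm
    _ = ∑' A', ∑' P', ∑' P, SX.wa a i0 A * SX.wa T i0 P * (SY.wa c i0 A' * SY.wa V i0 P') *
        (if Q A P A' P' then 1 else 0) := tsum_congr fun A' => ENNReal.tsum_comm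
    _ = _ := by
        rw [← ENNReal.tsum_mul_left]
        refine tsum_congr fun A' => ?_
        rw [← ENNReal.tsum_mul_left, ← ENNReal.tsum_mul_left]
        refine tsum_congr fun P' => ?_
        rw [← ENNReal.tsum_mul_left, ← ENNReal.tsum_mul_left, ← ENNReal.tsum_mul_left]
        refine tsum_congr fun P => ?_
        ring

open Classical in
/-- weight of the pairs with a contact at depth exactly `k` -/
noncomputable def PT (n k : ℕ) (w : G) : ℝ≥0∞ :=
  ∑' LX : List BX, ∑' LY : List BY, (if HT SX.ht LX = n ∧ HT SY.ht LY = n ∧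
    k ∈ CT SX SY LX 0 LY 0 w then LW SX.Λ LX * LW SY.Λ LY else 0)

open Classical in
/-- weight of the pairs with a contact of depth in `(m1, m2]` -/
noncomputable def KS (n m1 m2 : ℕ) (w : G) : ℝ≥0∞ :=
  ∑' LX : List BX, ∑' LY : List BY, (if HT SX.ht LX = n ∧ HT SY.ht LY = n ∧
    (∃ k ∈ CT SX SY LX 0 LY 0 w, m1 < k ∧ k ≤ m2) then LW SX.Λ LX * LW SY.Λ LY else 0)

open Classical in
/-- **one window** -/
theorem window (us : ℕ → ℝ≥0∞) (C : ℝ≥0∞) (h2 : H2 SX SY us C) (h3 : H3 SX SY us C)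
    (w : G) (n a T i0 s : ℕ) (hT : 2 * i0 + s < T) (hn : a + 3 * i0 + 3 * T ≤ n)
    (thX thY GX GY κ δ u lam : ℝ≥0∞) (hl : lam ≠ 0) (hl' : lam ≠ ⊤)
    (bX bY : ℤ × G → ℝ≥0∞) (hbX : ∑' v, bX v ≤ δ) (hbY : ∑' v, bY v ≤ δ)
    (hFX : ∀ v, FL SX.Λ SX.ht SX.z a v ≤ GX + bX v)
    (hFY : ∀ v, FL SY.Λ SY.ht SY.z (a + i0) v ≤ GY + bY v)
    (EX EY : ℕ → Finset G)
    (hEX : ∀ h : ℕ, ∀ x, thX ≤ FL SX.Λ SX.ht SX.z (3 * T) ((h : ℤ), x) → x ∈ EX h)
    (hEY : ∀ h : ℕ, ∀ x, thY ≤ FL SY.Λ SY.ht SY.z (3 * T + i0) ((h : ℤ), x) → x ∈ EY h)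
    (hκX : ∀ h, GX * (EX h).card ≤ κ) (hκY : ∀ h, GY * (EY h).card ≤ κ)
    (huX : ∑' v, (if FL SX.Λ SX.ht SX.z (3 * T) v < thX then FL SX.Λ SX.ht SX.z (3 * T) v else 0)
      ≤ u)
    (huY : ∑' v, (if FL SY.Λ SY.ht SY.z (3 * T + i0) v < thY
      then FL SY.Λ SY.ht SY.z (3 * T + i0) v else 0) ≤ u) :
    KS SX SY n (a + T) (a + 2 * T) w ≤
      (∑ k ∈ Finset.Icc a (a + 2 * i0 + s) ∪ Finset.Icc (a + 3 * T - s) (a + 3 * T + 2 * i0),
        PT SX SY n k w) + (2 * SY.ov i0 + 2 * SX.ov i0) + u * u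
      + 2 * (δ + (i0 + 1 : ℕ) ^ 3 * (C * (lam + κ * us s / lam + us s))) := by
  set D := Finset.Icc a (a + 2 * i0 + s) ∪ Finset.Icc (a + 3 * T - s) (a + 3 * T + 2 * i0) with hD
  set Rb := C * (lam + κ * us s / lam + us s) with hRb
  set EV : List BX → List BY → Prop := fun LX LY => (∃ k ∈ CT SX SY LX 0 LY 0 w, a + T < k ∧
    k ≤ a + 2 * T) ∧ ∀ k ∈ D, k ∉ CT SX SY LX 0 LY 0 w with hEV
  set lo := a + 2 * i0 + s with hlo
  set hi := a + 3 * T - s with hhi
  set Q : List BX → List BX → List BY → List BY → Prop := fun A P A' P' =>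
    (a ≤ HT SX.ht A ∧ HT SX.ht A ≤ a + i0 ∧ a + i0 ≤ HT SY.ht A' ∧ HT SY.ht A' ≤ a + i0 + i0 ∧
     3 * T ≤ HT SX.ht P ∧ HT SX.ht P ≤ 3 * T + i0 ∧ 3 * T + i0 ≤ HT SY.ht P') ∧
    Pcs SX SY lo hi P (HT SX.ht A) P' (HT SY.ht A') (w + Dp SY.z A' - Dp SX.z A) with hQ
  -- step 1: the slabs
  have step1 : KS SX SY n (a + T) (a + 2 * T) w ≤ (∑ k ∈ D, PT SX SY n k w)
      + ∑' LX : List BX, ∑' LY : List BY, (if HT SX.ht LX = n ∧ HT SY.ht LY = n ∧ EV LX LY
        then LW SX.Λ LX * LW SY.Λ LY else 0) := by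
    have e : (∑ k ∈ D, PT SX SY n k w) = ∑' LX : List BX, ∑' LY : List BY, ∑ k ∈ D,
        (if HT SX.ht LX = n ∧ HT SY.ht LY = n ∧ k ∈ CT SX SY LX 0 LY 0 w
          then LW SX.Λ LX * LW SY.Λ LY else 0) := by
      simp only [PT]
      rw [← Summable.tsum_finsetSum (fun _ _ => ENNReal.summable)]
      refine tsum_congr fun LX => ?_
      rw [← Summable.tsum_finsetSum (fun _ _ => ENNReal.summable)]
    rw [e, ← ENNReal.tsum_add, KS]
    refine ENNReal.tsum_le_tsum fun LX => ?_
    rw [← ENNReal.tsum_add]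
    refine ENNReal.tsum_le_tsum fun LY => ?_
    by_cases h : HT SX.ht LX = n ∧ HT SY.ht LY = n ∧
      (∃ k ∈ CT SX SY LX 0 LY 0 w, a + T < k ∧ k ≤ a + 2 * T)
    · rw [if_pos h]
      by_cases hE : ∀ k ∈ D, k ∉ CT SX SY LX 0 LY 0 w
      · have hev : HT SX.ht LX = n ∧ HT SY.ht LY = n ∧ EV LX LY := ⟨h.1, h.2.1, h.2.2, hE⟩
        rw [if_pos hev]; exact le_add_self
      · push Not at hE
        obtain ⟨k, hk, hkC⟩ := hE
        refine le_trans ?_ le_self_add
        refine le_trans ?_ (Finset.single_le_sum (f := fun k =>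
          (if HT SX.ht LX = n ∧ HT SY.ht LY = n ∧ k ∈ CT SX SY LX 0 LY 0 w
          then LW SX.Λ LX * LW SY.Λ LY else 0)) (fun _ _ => zero_le) hk)
        rw [if_pos ⟨h.1, h.2.1, hkC⟩]
    · rw [if_neg h]; exact zero_le
  -- step 2: the pieces
  have step2 : ∑' LX : List BX, ∑' LY : List BY, (if HT SX.ht LX = n ∧ HT SY.ht LY = n ∧ EV LX LY
        then LW SX.Λ LX * LW SY.Λ LY else 0)
      ≤ S4 SX SY a (3 * T) (a + i0) (3 * T + i0) i0 Q + (2 * SY.ov i0 + 2 * SX.ov i0) := by
    refine le_trans (le_of_eq ?_)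
      (pair SX SY EV Q n a (3 * T) (a + i0) (3 * T + i0) i0 (by omega) (by omega) ?_)
    · refine tsum_congr fun LX => tsum_congr fun LY => ?_
      congr
    intro A P R A' P' R' hA hA2 hP hP2 hA' hA2' hP' hP2' hev
    have hA1 := FP_le _ _ _ hA
    have hP1 := FP_le _ _ _ hP
    have hA1' := FP_le _ _ _ hA'
    have hP1' := FP_le _ _ _ hP'
    refine ⟨⟨hA1, hA2, hA1', hA2', hP1, hP2, hP1'⟩, ?_, ?_⟩
    · obtain ⟨⟨k, hk, hk1, hk2⟩, _⟩ := hev
      exact ⟨k, CT_pieces' SX SY w A P R A' P' R' k hk (by omega) (by omega) (by omega) (by omega)⟩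
    · intro k hk
      have hd := CT_depth SX SY _ _ _ _ _ _ hk
      have hd2 : HT SY.ht A' < k := by
        obtain ⟨p, _, hY⟩ := hk
        have := TR_depth _ _ _ SY.hs _ _ _ _ _ hY
        omega
      have hkC := CT_pieces SX SY w A P R A' P' R' k hk
      have hnD : k ∉ D := fun h => hev.2 k h hkC
      rw [hD, Finset.mem_union, Finset.mem_Icc, Finset.mem_Icc] at hnD
      push Not at hnD
      constructor
      · by_contra hcon
        have := hnD.1 (by omega)
        omega
      · by_contra hcon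
        have := hnD.2 (by omega)
        omega
  -- step 3: three cases
  set NX : List BX → Prop := fun P => FL SX.Λ SX.ht SX.z (3 * T) (vec SX.ht SX.z P) < thX with hNX
  set NY : List BY → Prop := fun P => FL SY.Λ SY.ht SY.z (3 * T + i0) (vec SY.ht SY.z P) < thY
    with hNY
  have step3 := S4_split SX SY a (3 * T) (a + i0) (3 * T + i0) i0 Q
    (fun _ P _ P' => NX P ∧ NY P') (fun A P A' P' => (¬ NX P) ∧ Q A P A' P')
    (fun A P A' P' => (¬ NY P') ∧ Q A P A' P') (by
      intro A P A' P' h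
      by_cases h1 : NX P
      · by_cases h2 : NY P'
        · exact Or.inl ⟨h1, h2⟩
        · exact Or.inr (Or.inr ⟨h2, h⟩)
      · exact Or.inr (Or.inl ⟨h1, h⟩))
  have hNN : S4 SX SY a (3 * T) (a + i0) (3 * T + i0) i0 (fun _ P _ P' => NX P ∧ NY P') ≤ u * u :=
    S4_NN SX SY _ _ _ _ _ NX NY u u
      (le_trans (le_of_eq (tsum_congr fun P => by congr)) (SX.nonloc (3 * T) i0 thX u huX))
      (le_trans (le_of_eq (tsum_congr fun P => by congr)) (SY.nonloc (3 * T + i0) i0 thY u huY))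
  have hL2 : S4 SX SY a (3 * T) (a + i0) (3 * T + i0) i0 (fun A P A' P' => (¬ NX P) ∧ Q A P A' P')
      ≤ δ + (i0 + 1 : ℕ) ^ 3 * Rb := by
    rw [S4_outY]
    calc _ ≤ ∑' A', SY.wa (a + i0) i0 A' * (δ + (i0 + 1 : ℕ) ^ 3 * Rb) := by
          refine ENNReal.tsum_le_tsum fun A' => ?_
          gcongr
          refine le_trans (le_of_eq ?_)
            (half SX SY a (3 * T) (3 * T + i0) i0 thX GX δ Rb bX hbX hFX EX hEX
            (fun α x P P' => (a ≤ α ∧ α ≤ a + i0 ∧ a + i0 ≤ HT SY.ht A' ∧ HT SY.ht A' ≤ a + i0 + i0 ∧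
              3 * T ≤ HT SX.ht P ∧ HT SX.ht P ≤ 3 * T + i0 ∧ 3 * T + i0 ≤ HT SY.ht P') ∧
              Pcs SX SY lo hi P α P' (HT SY.ht A') (w + Dp SY.z A' - x)) ?_)
          · refine tsum_congr fun A => ?_
            congr 1
            refine tsum_congr fun P => ?_
            congr 1
            refine tsum_congr fun P' => ?_
            congr 1
            congr
          intro α h h' hα hh hh' μ hμ1 hμM
          by_cases hAc : a + i0 ≤ HT SY.ht A' ∧ HT SY.ht A' ≤ a + i0 + i0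
          · have hα' := Finset.mem_Icc.1 hα
            have hh1 := Finset.mem_Icc.1 hh
            have hh1' := Finset.mem_Icc.1 hh'
            have hmain := h2 s h h' α (HT SY.ht A') lo hi (EX h)
              (fun y => μ (w + Dp SY.z A' - y)) GX lam
              (by
                rw [show (∑' y, μ (w + Dp SY.z A' - y)) = ∑' y, μ y from
                  (Equiv.subLeft (w + Dp SY.z A')).tsum_eq fun y => μ y]
                exact hμ1)
              (fun y => hμM _) hl hl' (by omega) (by omega) (by omega) (by omega) (by omega)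
              (by omega)
            refine le_trans ?_ (hmain.trans ?_)
            · rw [← (Equiv.subLeft (w + Dp SY.z A')).tsum_eq]
              refine ENNReal.tsum_le_tsum fun y => ?_
              simp only [Equiv.subLeft_apply]
              rw [show w + Dp SY.z A' - (w + Dp SY.z A' - y) = y by abel]
              gcongr with L L'
              split_ifs with hc1 hc2 hc2
              · exact le_rfl
              · exact absurd ⟨hc1.1, hc1.2.1, hc1.2.2.1, hc1.2.2.2.2⟩ hc2
              · exact zero_le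
              · exact le_rfl
            · rw [hRb]
              gcongr
              exact hκX h
          · refine le_trans (le_of_eq ?_) zero_le
            rw [ENNReal.tsum_eq_zero]
            intro x
            rw [mul_eq_zero]
            right
            rw [ENNReal.tsum_eq_zero]; intro L
            rw [ENNReal.tsum_eq_zero]; intro L'
            rw [if_neg]
            rintro ⟨_, _, _, ⟨_, _, q1, q2, _⟩, _⟩
            exact hAc ⟨q1, q2⟩
      _ = (∑' A', SY.wa (a + i0) i0 A') * (δ + (i0 + 1 : ℕ) ^ 3 * Rb) := ENNReal.tsum_mul_right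
      _ ≤ 1 * (δ + (i0 + 1 : ℕ) ^ 3 * Rb) := by gcongr; exact SY.wa_mass _ _
      _ = _ := one_mul _
  have hL3 : S4 SX SY a (3 * T) (a + i0) (3 * T + i0) i0 (fun A P A' P' => (¬ NY P') ∧ Q A P A' P')
      ≤ δ + (i0 + 1 : ℕ) ^ 3 * Rb := by
    rw [S4_outX]
    calc _ ≤ ∑' A, SX.wa a i0 A * (δ + (i0 + 1 : ℕ) ^ 3 * Rb) := by
          refine ENNReal.tsum_le_tsum fun A => ?_
          gcongr
          refine le_trans (le_of_eq ?_)
            (half SY SX (a + i0) (3 * T + i0) (3 * T) i0 thY GY δ Rb bY hbY hFY EY hEY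
            (fun α x P' P => (a ≤ HT SX.ht A ∧ HT SX.ht A ≤ a + i0 ∧ a + i0 ≤ α ∧ α ≤ a + i0 + i0 ∧
              3 * T ≤ HT SX.ht P ∧ HT SX.ht P ≤ 3 * T + i0 ∧ 3 * T + i0 ≤ HT SY.ht P') ∧
              Pcs SX SY lo hi P (HT SX.ht A) P' α (w + x - Dp SX.z A)) ?_)
          · refine tsum_congr fun A' => ?_
            congr 1
            refine tsum_congr fun P' => ?_
            congr 1
            refine tsum_congr fun P => ?_
            congr 1
            congr
          intro α h h' hα hh hh' μ hμ1 hμM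
          by_cases hAc : HT SX.ht A ≤ a + i0 ∧ a ≤ HT SX.ht A
          · have hα' := Finset.mem_Icc.1 hα
            have hh1 := Finset.mem_Icc.1 hh
            have hh1' := Finset.mem_Icc.1 hh'
            have hmain := h3 s h' h (HT SX.ht A) α lo hi (EY h)
              (fun y => μ (y - (w - Dp SX.z A))) GY lam
              (by
                rw [show (∑' y, μ (y - (w - Dp SX.z A))) = ∑' y, μ y from
                  (Equiv.subRight (w - Dp SX.z A)).tsum_eq fun y => μ y]
                exact hμ1)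
              (fun y => hμM _) hl hl' (by omega) (by omega) (by omega) (by omega) (by omega)
              (by omega)
            refine le_trans ?_ (hmain.trans ?_)
            · rw [← (Equiv.subRight (w - Dp SX.z A)).tsum_eq]
              refine ENNReal.tsum_le_tsum fun y => ?_
              simp only [Equiv.subRight_apply]
              rw [show w + (y - (w - Dp SX.z A)) - Dp SX.z A = y by abel]
              gcongr
              rw [ENNReal.tsum_comm]
              gcongr with L L'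
              split_ifs with hc1 hc2 hc2
              · exact (mul_comm _ _).le
              · exact absurd ⟨hc1.2.2.1, hc1.2.1, hc1.1, hc1.2.2.2.2⟩ hc2
              · exact zero_le
              · exact le_rfl
            · rw [hRb]
              gcongr
              exact hκY h
          · refine le_trans (le_of_eq ?_) zero_le
            rw [ENNReal.tsum_eq_zero]
            intro x
            rw [mul_eq_zero]
            right
            rw [ENNReal.tsum_eq_zero]; intro L'
            rw [ENNReal.tsum_eq_zero]; intro L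
            rw [if_neg]
            rintro ⟨_, _, _, ⟨q1, q2, _⟩, _⟩
            exact hAc ⟨q2, q1⟩
      _ = (∑' A, SX.wa a i0 A) * (δ + (i0 + 1 : ℕ) ^ 3 * Rb) := ENNReal.tsum_mul_right
      _ ≤ 1 * (δ + (i0 + 1 : ℕ) ^ 3 * Rb) := by gcongr; exact SX.wa_mass _ _
      _ = _ := one_mul _
  calc KS SX SY n (a + T) (a + 2 * T) w ≤ _ := step1
    _ ≤ (∑ k ∈ D, PT SX SY n k w) + (((u * u) + (δ + (i0 + 1 : ℕ) ^ 3 * Rb)
        + (δ + (i0 + 1 : ℕ) ^ 3 * Rb)) + (2 * SY.ov i0 + 2 * SX.ov i0)) := by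
        gcongr
        refine step2.trans ?_
        gcongr
        refine step3.trans ?_
        gcongr
    _ = _ := by ring

end Crest.Agent.R154.Asm224
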