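import Crest.Agent.R154.AsmV_247
import Crest.Agent.R154.Dens_903
import Crest.Agent.R154.NumAsm_334

/-! Row 154, ROAD 801, assembly (helper247), part 6: sum over the windows. -/

set_option autoImplicit false

namespace Crest.Agent.R154.Asm247

open scoped ENNReal
open Filter Topology
open Crest.Agent.R154.B5A Crest.Agent.R154.FP178

lemma ov_tendsto {B : Type*} (Λ : B → ℝ≥0∞) (ht : B → ℕ) (hΛ : ∑' b, Λ b = 1)
    (hm : ∑' b, Λ b * (ht b : ℝ≥0∞) ≠ ⊤) :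
    Tendsto (fun i0 : ℕ => ∑' k, tail Λ ht (i0 + k)) atTop (𝓝 0) := by
  rw [sum_tail Λ ht hΛ] at hm
  have := ENNReal.tendsto_sum_nat_add (fun k => tail Λ ht k) hm
  refine this.congr fun i => tsum_congr fun k => ?_
  rw [add_comm]

variable {G : Type*} [AddCommGroup G]

open Classical in
/-- threshold and smooth density of a first passage -/
lemma density {B : Type*} (Λ : B → ℝ≥0∞) (ht : B → ℕ) (z : B → G) (h1 : ∀ b, 1 ≤ ht b)
    (hU : ∀ n, U Λ ht n ≤ 1) (hΛ : ∑' b, Λ b = 1) (τ i0 J : ℕ) (u : ℝ≥0∞) (hu0 : u ≠ 0)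
    (hu1 : u ≤ 1) :
    ∃ θ : ℝ≥0∞, θ ≠ 0 ∧ ∑' κ, (if mk Λ ht z τ κ < θ then mk Λ ht z τ κ else 0) ≤ u ∧
      ∀ c, J * (τ + i0) ≤ c → ∃ g b : ℤ × G → ℝ≥0∞, (∀ κ, mk Λ ht z c κ ≤ g κ + b κ) ∧
        (∀ κ, g κ ≤ J * ((i0 + 1) * θ)) ∧
          ∑' κ, b κ ≤ (1 - u) ^ J + J * ∑' k, tail Λ ht (i0 + k) := by
  obtain ⟨θ, hθ, -, hlt, hle⟩ := Dens903.quantile (mk Λ ht z τ) (mk_mass_eq Λ ht z h1 hΛ τ) hu0 hu1
  refine ⟨θ, hθ, hlt, fun c hc => ?_⟩
  refine dens Λ ht z h1 hΛ.le τ i0 θ (1 - u) _ ?_ (tsub_le_self) ?_ J c hc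
  · refine ENNReal.le_sub_of_add_le_right (ne_top_of_le_ne_top ENNReal.one_ne_top hu1) ?_
    refine (add_le_add le_rfl hle).trans ?_
    rw [← ENNReal.tsum_add]
    refine le_trans (ENNReal.tsum_le_tsum fun κ => ?_) (mk_mass_eq Λ ht z h1 hΛ τ).le
    by_cases h : θ < mk Λ ht z τ κ
    · rw [if_pos h, if_neg (not_le.2 h), add_zero]
    · rw [if_neg h, if_pos (not_lt.1 h), zero_add]
  · have := keysum Λ ht z τ (fun κ => if (τ : ℤ) + i0 < κ.1 then 1 else 0)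
    have e : ∀ κ : ℤ × G, mk Λ ht z τ κ * (if (τ : ℤ) + i0 < κ.1 then 1 else 0)
        = (if (τ : ℤ) + i0 < κ.1 then mk Λ ht z τ κ else 0) := by
      intro κ; split_ifs <;> simp
    rw [tsum_congr e] at this
    rw [← this]
    refine le_trans (le_of_eq (tsum_congr fun L => ?_)) (overshoot Λ ht h1 hU i0 τ)
    have hk : ((τ : ℤ) + i0 < (ky ht z L).1) ↔ τ + i0 < HT ht L := by
      simp only [ky]; constructor <;> intro h <;> exact_mod_cast h
    by_cases h : fp ht τ L <;> by_cases h' : τ + i0 < HT ht L <;> simp [h, h', hk]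

variable {BX BY : Type*}
  (ΛX : BX → ℝ≥0∞) (hX : BX → ℕ) (zX : BX → G) (sX : BX → Set (G × ℕ))
  (ΛY : BY → ℝ≥0∞) (hY : BY → ℕ) (zY : BY → G) (sY : BY → Set (G × ℕ))

open Classical in
/-- thin slab -/
def H5P : Prop := ∀ (s : ℕ) (η : ℝ≥0∞), η ≠ 0 → ∃ T, ∀ a, T ≤ a → ∀ (n : ℕ) (w : G),
  ∑' L : List BX, ∑' L' : List BY, (if HT hX L = n ∧ HT hY L' = n ∧
    (∃ v k, a ≤ k ∧ k < a + s ∧ (v, k) ∈ TR hX zX sX L 0 0 ∧ (v, k) ∈ TR hY zY sY L' w 0)
    then LW ΛX L * LW ΛY L' else 0) ≤ η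

open Classical in
/-- **KAPPA on lists** -/
theorem kapS (h1X : ∀ b, 1 ≤ hX b) (h1Y : ∀ b, 1 ≤ hY b)
    (hUX : ∀ n, U ΛX hX n ≤ 1) (hUY : ∀ n, U ΛY hY n ≤ 1)
    (hΛX : ∑' b, ΛX b = 1) (hΛY : ∑' b, ΛY b = 1)
    (hmX : ∑' b, ΛX b * (hX b : ℝ≥0∞) ≠ ⊤) (hmY : ∑' b, ΛY b * (hY b : ℝ≥0∞) ≠ ⊤)
    (hsX : ∀ b, ∀ q ∈ sX b, 1 ≤ q.2 ∧ q.2 ≤ hX b) (hsY : ∀ b, ∀ q ∈ sY b, 1 ≤ q.2 ∧ q.2 ≤ hY b)
    (C : ℝ≥0∞) (hC : C ≠ ⊤) (us : ℕ → ℝ≥0∞) (hus : Tendsto us atTop (𝓝 0))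
    (H2 : H2P ΛX hX zX sX ΛY hY zY sY C us) (H3 : H3P ΛX hX zX sX ΛY hY zY sY C us)
    (H5 : H5P ΛX hX zX sX ΛY hY zY sY) (ε : ℝ≥0∞) (hε : ε ≠ 0) :
    ∃ M : ℕ, ∀ m, M ≤ m → ∃ n0 : ℕ, ∀ n, n0 ≤ n → ∀ w : G,
      ∑' L : List BX, ∑' L' : List BY, (if HT hX L = n ∧ HT hY L' = n ∧
        (∀ v k, (v, k) ∈ TR hX zX sX L 0 0 → (v, k) ∈ TR hY zY sY L' w 0 → m < k) ∧
        (∃ v k, k ≤ 2 * m ∧ (v, k) ∈ TR hX zX sX L 0 0 ∧ (v, k) ∈ TR hY zY sY L' w 0)
        then LW ΛX L * LW ΛY L' else 0) ≤ ε := by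
  set ov : ℕ → ℝ≥0∞ := fun i0 => (∑' k, tail ΛX hX (i0 + k)) + ∑' k, tail ΛY hY (i0 + k) with hov
  have hov0 : Tendsto ov atTop (𝓝 0) := by
    have := (ov_tendsto ΛX hX hΛX hmX).add (ov_tendsto ΛY hY hΛY hmY)
    rwa [add_zero] at this
  obtain ⟨K, hK, u, hu0, hu1, i0, lam, η, hl, hl', hη, s, hnum⟩ := Num334.num hC hus hov0 hε
  obtain ⟨T5, hT5⟩ := H5 (s + 2 * i0) η hη
  refine ⟨K * (T5 + 4 * i0 + s + 2 * K + 1), fun m hm => ?_⟩
  set T := m / K with hT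
  have hTge : T5 + 4 * i0 + s + 2 * K + 1 ≤ T := by
    rw [hT, Nat.le_div_iff_mul_le (by omega), mul_comm]; exact hm
  have hTm : K * T ≤ m := Nat.mul_div_le m K
  have hmT : m < K * T + K := by
    have := Nat.lt_mul_div_succ m (show 0 < K by omega)
    rw [← hT] at this
    calc m < K * (T + 1) := this
      _ = _ := by ring
  refine ⟨(2 * K + 5) * T, fun n hn w => ?_⟩
  set J := K / 8 with hJ
  obtain ⟨θX, hθX, huX, hdX⟩ := density ΛX hX zX h1X hUX hΛX (3 * T) i0 J u hu0 hu1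
  obtain ⟨θY, hθY, huY, hdY⟩ := density ΛY hY zY h1Y hUY hΛY (3 * T + i0) i0 J u hu0 hu1
  have hJK : J * (4 * T) ≤ (K - 1) * T := by
    have : 4 * J ≤ K - 1 := by omega
    calc J * (4 * T) = (4 * J) * T := by ring
      _ ≤ (K - 1) * T := Nat.mul_le_mul_right T this
  set P : ℕ → ℕ := fun t => (K - 1 + t) * T with hP
  have hPge : ∀ t, (K - 1) * T ≤ P t := fun t => Nat.mul_le_mul_right T (by omega)
  set W : ℝ≥0∞ := u * u + 2 * (((1 - u) ^ J + J * ov i0) + (i0 + 1) * ((i0 + 1) * ((i0 + 1) *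
    ((i0 + 1) * (C * (lam + J * (i0 + 1) * us s / lam + us s))))))
        + (2 * ∑' k, tail ΛY hY (i0 + k) + 2 * ∑' k, tail ΛX hX (i0 + k)) with hW
  have hwin : ∀ t ∈ Finset.range (K + 1),
      ∑' L : List BX, ∑' L' : List BY, (if HT hX L = n ∧ HT hY L' = n ∧
        WE (TR hX zX sX L 0 0) (TR hY zY sY L' w 0) (P t + T + 1) (P t + 3 * T - s)
          (P t + 3 * T + 2 * i0) then LW ΛX L * LW ΛY L' else 0) ≤ W := by
    intro t ht
    rw [Finset.mem_range] at ht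
    have hPt : P t + 5 * T ≤ (2 * K + 5) * T := by
      have : P t ≤ (2 * K) * T := Nat.mul_le_mul_right T (by omega)
      calc P t + 5 * T ≤ (2 * K) * T + 5 * T := by omega
        _ = _ := by ring
    have hJ1 : J * (3 * T + i0) ≤ P t := by
      have h1 : J * (3 * T + i0) ≤ J * (4 * T) := Nat.mul_le_mul_left J (by omega)
      have := hPge t
      omega
    have hJ2 : J * (3 * T + i0 + i0) ≤ P t + i0 := by
      have h1 : J * (3 * T + i0 + i0) ≤ J * (4 * T) := Nat.mul_le_mul_left J (by omega)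
      have := hPge t
      omega
    obtain ⟨gX, bX, x1, x2, x3⟩ := hdX (P t) hJ1
    obtain ⟨gY, bY, y1, y2, y3⟩ := hdY (P t + i0) hJ2
    refine window ΛX hX zX sX ΛY hY zY sY h1X h1Y hUX hUY hΛX.le hΛY.le hsX hsY C us H2 H3
      (P t) (3 * T) i0 n (P t + T + 1) (P t + 3 * T - s) (P t + 3 * T + 2 * i0) s J w (by omega)
      (by omega) (by omega) (by omega) lam u ((1 - u) ^ J + J * ov i0) θX θY hl hl' hθX hθY
      huX huY ⟨gX, bX, x1, x2, x3.trans ?_⟩ ⟨gY, bY, y1, y2, y3.trans ?_⟩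
    · gcongr
      exact le_self_add
    · gcongr
      exact le_add_self
  have hslab : ∀ t ∈ Finset.range (K + 1),
      ∑' L : List BX, ∑' L' : List BY, (if HT hX L = n ∧ HT hY L' = n ∧
        (∃ v k, (P t + 3 * T - s + 1) ≤ k ∧ k < (P t + 3 * T - s + 1) + (s + 2 * i0) ∧
          (v, k) ∈ TR hX zX sX L 0 0 ∧ (v, k) ∈ TR hY zY sY L' w 0)
        then LW ΛX L * LW ΛY L' else 0) ≤ η := by
    intro t _
    exact hT5 _ (by omega) n w
  -- pointwise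
  have hpt : ∀ (L : List BX) (L' : List BY), (if HT hX L = n ∧ HT hY L' = n ∧
        (∀ v k, (v, k) ∈ TR hX zX sX L 0 0 → (v, k) ∈ TR hY zY sY L' w 0 → m < k) ∧
        (∃ v k, k ≤ 2 * m ∧ (v, k) ∈ TR hX zX sX L 0 0 ∧ (v, k) ∈ TR hY zY sY L' w 0)
        then LW ΛX L * LW ΛY L' else 0)
      ≤ ∑ t ∈ Finset.range (K + 1), ((if HT hX L = n ∧ HT hY L' = n ∧
        WE (TR hX zX sX L 0 0) (TR hY zY sY L' w 0) (P t + T + 1) (P t + 3 * T - s)
          (P t + 3 * T + 2 * i0) then LW ΛX L * LW ΛY L' else 0)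
        + (if HT hX L = n ∧ HT hY L' = n ∧
        (∃ v k, (P t + 3 * T - s + 1) ≤ k ∧ k < (P t + 3 * T - s + 1) + (s + 2 * i0) ∧
          (v, k) ∈ TR hX zX sX L 0 0 ∧ (v, k) ∈ TR hY zY sY L' w 0)
        then LW ΛX L * LW ΛY L' else 0)) := by
    intro L L'
    by_cases hE : HT hX L = n ∧ HT hY L' = n ∧
        (∀ v k, (v, k) ∈ TR hX zX sX L 0 0 → (v, k) ∈ TR hY zY sY L' w 0 → m < k) ∧
        (∃ v k, k ≤ 2 * m ∧ (v, k) ∈ TR hX zX sX L 0 0 ∧ (v, k) ∈ TR hY zY sY L' w 0)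
    swap
    · rw [if_neg hE]; exact zero_le
    rw [if_pos hE]
    obtain ⟨hn1, hn2, hall, v0, kk, hkk, hv1, hv2⟩ := hE
    -- smallest contact depth
    have hex : ∃ k, ∃ v, (v, k) ∈ TR hX zX sX L 0 0 ∧ (v, k) ∈ TR hY zY sY L' w 0 :=
      ⟨kk, v0, hv1, hv2⟩
    obtain ⟨v1, hk1, hk2⟩ := Nat.find_spec hex
    set k0 := Nat.find hex with hk0
    have hmin : ∀ v k, (v, k) ∈ TR hX zX sX L 0 0 → (v, k) ∈ TR hY zY sY L' w 0 → k0 ≤ k :=
      fun v k h1 h2 => Nat.find_min' hex ⟨v, h1, h2⟩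
    have hk0m : m < k0 := hall v1 k0 hk1 hk2
    have hk02 : k0 ≤ 2 * m := (hmin v0 kk hv1 hv2).trans hkk
    set q := (k0 - 1) / T with hq
    have hT0 : 0 < T := by omega
    have hq1 : T * q ≤ k0 - 1 := Nat.mul_div_le _ _
    have hq2 : k0 - 1 < T * q + T := by
      have := Nat.lt_mul_div_succ (k0 - 1) hT0
      rw [← hq] at this
      calc k0 - 1 < T * (q + 1) := this
        _ = _ := by ring
    have hqK : K ≤ q := by
      rw [hq, Nat.le_div_iff_mul_le hT0]; omega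
    have hq2K : q ≤ 2 * K := by
      by_contra h
      have h1 : T * (2 * K + 1) ≤ T * q := Nat.mul_le_mul_left T (by omega)
      have h2 : T * (2 * K + 1) = 2 * (K * T) + T := by ring
      omega
    have hmem : q - K ∈ Finset.range (K + 1) := by rw [Finset.mem_range]; omega
    refine le_trans ?_ (Finset.single_le_sum (f := fun t => ((if HT hX L = n ∧ HT hY L' = n ∧
        WE (TR hX zX sX L 0 0) (TR hY zY sY L' w 0) (P t + T + 1) (P t + 3 * T - s)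
          (P t + 3 * T + 2 * i0) then LW ΛX L * LW ΛY L' else 0)
        + (if HT hX L = n ∧ HT hY L' = n ∧
        (∃ v k, (P t + 3 * T - s + 1) ≤ k ∧ k < (P t + 3 * T - s + 1) + (s + 2 * i0) ∧
          (v, k) ∈ TR hX zX sX L 0 0 ∧ (v, k) ∈ TR hY zY sY L' w 0)
        then LW ΛX L * LW ΛY L' else 0))) (fun _ _ => zero_le) hmem)
    have hPq : P (q - K) + T = T * q := by
      simp only [hP]
      have : K - 1 + (q - K) = q - 1 := by omega
      rw [this]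
      obtain ⟨q', hq'⟩ : ∃ q', q = q' + 1 := ⟨q - 1, by omega⟩
      rw [hq']
      simp only [Nat.add_sub_cancel]
      ring
    by_cases hs : ∃ v k, (P (q - K) + 3 * T - s + 1) ≤ k ∧
        k < (P (q - K) + 3 * T - s + 1) + (s + 2 * i0) ∧
          (v, k) ∈ TR hX zX sX L 0 0 ∧ (v, k) ∈ TR hY zY sY L' w 0
    · rw [if_pos (show HT hX L = n ∧ HT hY L' = n ∧ _ from ⟨hn1, hn2, hs⟩)]
      exact le_add_self
    · have hWE : WE (TR hX zX sX L 0 0) (TR hY zY sY L' w 0) (P (q - K) + T + 1)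
          (P (q - K) + 3 * T - s) (P (q - K) + 3 * T + 2 * i0) := by
        refine ⟨⟨v1, k0, by omega, hk1, hk2⟩, fun v k g1 g2 => ⟨?_, ?_⟩⟩
        · have := hmin v k g1 g2
          omega
        · rintro ⟨g3, g4⟩
          exact hs ⟨v, k, by omega, by omega, g1, g2⟩
      rw [if_pos (show HT hX L = n ∧ HT hY L' = n ∧ _ from ⟨hn1, hn2, hWE⟩)]
      exact le_self_add
  calc _ ≤ ∑' L : List BX, ∑' L' : List BY, ∑ t ∈ Finset.range (K + 1),
        ((if HT hX L = n ∧ HT hY L' = n ∧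
        WE (TR hX zX sX L 0 0) (TR hY zY sY L' w 0) (P t + T + 1) (P t + 3 * T - s)
          (P t + 3 * T + 2 * i0) then LW ΛX L * LW ΛY L' else 0)
        + (if HT hX L = n ∧ HT hY L' = n ∧
        (∃ v k, (P t + 3 * T - s + 1) ≤ k ∧ k < (P t + 3 * T - s + 1) + (s + 2 * i0) ∧
          (v, k) ∈ TR hX zX sX L 0 0 ∧ (v, k) ∈ TR hY zY sY L' w 0)
        then LW ΛX L * LW ΛY L' else 0)) :=
        ENNReal.tsum_le_tsum fun L => ENNReal.tsum_le_tsum fun L' => hpt L L'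
    _ ≤ ∑ t ∈ Finset.range (K + 1), (W + η) := by
        simp_rw [Summable.tsum_finsetSum (fun _ _ => ENNReal.summable)]
        refine Finset.sum_le_sum fun t ht => ?_
        simp_rw [ENNReal.tsum_add]
        exact add_le_add (hwin t ht) (hslab t ht)
    _ = ((K + 1 : ℕ) : ℝ≥0∞) * (W + η) := by
        rw [Finset.sum_const, Finset.card_range, nsmul_eq_mul]
    _ ≤ (4 * (K : ℝ≥0∞) + 8) * (4 * ov i0 + 4 * η + u ^ 2
        + 2 * ((1 - u) ^ (K / 8) + K * ov i0 / u)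
        + 2 * ((i0 : ℝ≥0∞) + 1) ^ 4 * (C * (lam + (K * ((i0 : ℝ≥0∞) + 1) / u) * us s / lam
          + us s))) := by
        have hui : ∀ x : ℝ≥0∞, x ≤ x / u := by
          intro x
          rw [ENNReal.le_div_iff_mul_le (Or.inl hu0)
            (Or.inl (ne_top_of_le_ne_top ENNReal.one_ne_top hu1))]
          calc x * u ≤ x * 1 := by gcongr
            _ = x := mul_one x
        have hJK' : (J : ℝ≥0∞) ≤ K := by
          have : J ≤ K := by omega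
          exact_mod_cast this
        have b1 : (J : ℝ≥0∞) * ov i0 ≤ K * ov i0 / u :=
          le_trans (by gcongr) (hui (K * ov i0))
        have b2 : (J : ℝ≥0∞) * (i0 + 1) ≤ K * ((i0 : ℝ≥0∞) + 1) / u :=
          le_trans (by gcongr) (hui _)
        refine mul_le_mul' ?_ ?_
        · have : (K + 1 : ℕ) ≤ 4 * K + 8 := by omega
          exact_mod_cast this
        · calc W + η = (2 * (∑' k, tail ΛY hY (i0 + k)) + 2 * ∑' k, tail ΛX hX (i0 + k)) + η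
                + u * u + 2 * ((1 - u) ^ J + J * ov i0)
                + 2 * ((i0 : ℝ≥0∞) + 1) ^ 4 * (C * (lam + J * (i0 + 1) * us s / lam + us s)) := by
                  simp only [hW]; ring
            _ ≤ _ := by
                gcongr ?_ + ?_ + ?_ + 2 * ((1 - u) ^ J + ?_) +
                  2 * ((i0 : ℝ≥0∞) + 1) ^ 4 * (C * (lam + ?_ * us s / lam + us s))
                · calc 2 * (∑' k, tail ΛY hY (i0 + k)) + 2 * ∑' k, tail ΛX hX (i0 + k)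
                      = 2 * ov i0 := by simp only [hov]; ring
                    _ ≤ 4 * ov i0 := by gcongr; norm_num
                · calc η = 1 * η := (one_mul η).symm
                    _ ≤ 4 * η := by gcongr; norm_num
                · rw [sq]
    _ ≤ ε := hnum

end Crest.Agent.R154.Asm247
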