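import Crest.Agent.R154.AsmE_251

/-! Row 154, ROAD 801 (helper251): assembly, part F (sum over the windows, choice of the
parameters): window lemmas (2), (3) and POINT give the list form of KAPPA'. -/

set_option autoImplicit false

namespace Crest.Agent.R154.Asm251

open scoped ENNReal Topology
open Filter
open Crest.Agent.R154.B5A
open Crest.Agent.R154.KWB419 (TT)

/-- choice of the parameters -/
lemma numbers {us ox oy : ℕ → ℝ≥0∞} {C : ℝ≥0∞} (hC : C ≠ ⊤) (hus : Tendsto us atTop (𝓝 0))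
    (hox : Tendsto ox atTop (𝓝 0)) (hoy : Tendsto oy atTop (𝓝 0)) {ε : ℝ≥0∞} (hε : ε ≠ 0) :
    ∃ (J : ℕ) (u : ℝ≥0∞) (i0 : ℕ) (lam : ℝ≥0∞) (s : ℕ) (e : ℝ≥0∞), u ≠ 0 ∧ u < 1 ∧ lam ≠ 0 ∧
      lam ≠ ⊤ ∧ e ≠ 0 ∧
      ((4 * J + 7 : ℕ) : ℝ≥0∞) * (cost us C lam u (ox i0) (oy i0) J i0 s +
        ((2 * i0 + s + 1 : ℕ) : ℝ≥0∞) * (e + e)) ≤ ε := by
  obtain ⟨δ, hδ0, hδ1, hδε⟩ : ∃ δ : ℝ≥0∞, δ ≠ 0 ∧ δ ≤ 1 ∧ 4 * δ ≤ ε := by
    refine ⟨min 1 (ε / 4), ?_, min_le_left _ _, ?_⟩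
    · exact (lt_min zero_lt_one (ENNReal.div_pos hε (by norm_num))).ne'
    · calc 4 * min 1 (ε / 4) ≤ 4 * (ε / 4) := by gcongr; exact min_le_right _ _
        _ = ε := ENNReal.mul_div_cancel (by norm_num) (by norm_num)
  have hδt : δ ≠ ⊤ := ne_top_of_le_ne_top ENNReal.one_ne_top hδ1
  obtain ⟨N, hN1, hN⟩ := Num334.choose_K hδ0
  have hN2 : 2 ≤ N := by
    by_contra hlt
    have : N = 1 := by omega
    subst this
    have h40 : (40 : ℝ≥0∞) ≤ 1 := by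
      refine le_trans ?_ (hN.trans hδ1)
      simp
      norm_num
    norm_num at h40
  set J : ℕ := N ^ 3 with hJ
  set u : ℝ≥0∞ := ((N : ℝ≥0∞) ^ 2)⁻¹ with hu
  have hu0 : u ≠ 0 := by
    rw [hu, Ne, ENNReal.inv_eq_zero]
    exact ENNReal.pow_ne_top (ENNReal.natCast_ne_top N)
  have hu1 : u < 1 := by
    rw [hu, ENNReal.inv_lt_one]
    exact one_lt_pow₀ (by exact_mod_cast hN2) (by norm_num)
  set W : ℝ≥0∞ := ((4 * J + 7 : ℕ) : ℝ≥0∞) with hW
  have hWt : W ≠ ⊤ := ENNReal.natCast_ne_top _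
  have hA : W * (u * u + (1 - u) ^ J + (1 - u) ^ J) ≤ δ := by
    refine le_trans ?_ hN
    have e1 : u * u + (1 - u) ^ J + (1 - u) ^ J = u ^ 2 + 2 * (1 - u) ^ J := by ring
    rw [e1]
    refine mul_le_mul_left ?_ _
    rw [hW, hJ]
    push_cast
    gcongr <;> norm_num
  -- i0
  have hB : ∀ᶠ i in atTop, W * (2 + J) * (ox i + oy i) ≤ δ := by
    have hsum : Tendsto (fun i => ox i + oy i) atTop (𝓝 0) := by
      have := hox.add hoy
      simpa using this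
    refine Num334.small_mul hsum ?_ hδ0
    exact ENNReal.mul_ne_top hWt (ENNReal.add_ne_top.2 ⟨by norm_num, ENNReal.natCast_ne_top _⟩)
  obtain ⟨i0, hi0⟩ := hB.exists
  set D : ℝ≥0∞ := W * (2 * ((i0 + 1 : ℕ) : ℝ≥0∞) ^ 4 * C) with hD
  have hDt : D ≠ ⊤ := by
    refine ENNReal.mul_ne_top hWt (ENNReal.mul_ne_top (ENNReal.mul_ne_top (by norm_num)
      (ENNReal.pow_ne_top (ENNReal.natCast_ne_top _))) hC)
  have hδ2 : δ / 2 ≠ 0 := by
    rw [Ne, ENNReal.div_eq_zero_iff, not_or]; exact ⟨hδ0, by norm_num⟩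
  have hδ2t : δ / 2 ≠ ⊤ := ENNReal.div_ne_top hδt (by norm_num)
  obtain ⟨lam, l0, l1, hlam⟩ := Num334.small_const hDt hδ2 hδ2t
  set D' : ℝ≥0∞ := D * ((J * ((i0 + 1 : ℕ) : ℝ≥0∞)) / lam + 1) with hD'
  have hD't : D' ≠ ⊤ := by
    refine ENNReal.mul_ne_top hDt (ENNReal.add_ne_top.2 ⟨?_, ENNReal.one_ne_top⟩)
    exact ENNReal.div_ne_top (ENNReal.mul_ne_top (ENNReal.natCast_ne_top _)
      (ENNReal.natCast_ne_top _)) l0
  obtain ⟨s, hs⟩ := (Num334.small_mul hus hD't hδ2).exists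
  have hF : W * ((2 * i0 + s + 1 : ℕ) : ℝ≥0∞) * 2 ≠ ⊤ :=
    ENNReal.mul_ne_top (ENNReal.mul_ne_top hWt (ENNReal.natCast_ne_top _)) (by norm_num)
  obtain ⟨e, e0, e1, he⟩ := Num334.small_const hF hδ0 hδt
  refine ⟨J, u, i0, lam, s, e, hu0, hu1, l0, l1, e0, ?_⟩
  have hcost : W * cost us C lam u (ox i0) (oy i0) J i0 s
      = W * (u * u + (1 - u) ^ J + (1 - u) ^ J) + W * (2 + J) * (ox i0 + oy i0) +
        (D * lam + D' * us s) := by
    rw [cost, price, hD', hD]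
    have e2 : (J * ((i0 + 1 : ℕ) : ℝ≥0∞)) * us s / lam
        = (J * ((i0 + 1 : ℕ) : ℝ≥0∞)) / lam * us s := by
      rw [div_eq_mul_inv, div_eq_mul_inv]; ring
    rw [e2]
    ring
  calc W * (cost us C lam u (ox i0) (oy i0) J i0 s + ((2 * i0 + s + 1 : ℕ) : ℝ≥0∞) * (e + e))
      = W * cost us C lam u (ox i0) (oy i0) J i0 s
        + W * ((2 * i0 + s + 1 : ℕ) : ℝ≥0∞) * 2 * e := by ring
    _ ≤ (δ + δ + (δ / 2 + δ / 2)) + δ := by
        rw [hcost]
        gcongr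
    _ = 4 * δ := by rw [ENNReal.add_halves]; ring
    _ ≤ ε := hδε

variable {BX BY G : Type*} [AddCommGroup G]
  (ΛX : BX → ℝ≥0∞) (hX : BX → ℕ) (zX : BX → G) (sX : BX → Set (G × ℕ))
  (ΛY : BY → ℝ≥0∞) (hY : BY → ℕ) (zY : BY → G) (sY : BY → Set (G × ℕ))

open Classical in
lemma tsum2_le_PS (h1X : ∀ b, 1 ≤ hX b) (h1Y : ∀ b, 1 ≤ hY b) (n : ℕ)
    (I : List BX → List BY → Prop) :
    (∑' L : List BX, ∑' L' : List BY, if HT hX L = n ∧ HT hY L' = n ∧ I L L'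
      then LW ΛX L * LW ΛY L' else 0)
    ≤ PS ΛX hX n (fun L => PS ΛY hY n (fun L' => if I L L' then 1 else 0)) := by
  rw [PS]
  refine ENNReal.tsum_le_tsum fun L => ?_
  by_cases hL : HT hX L = n
  · rw [if_pos (by rw [← hL]; exact FP_HT hX h1X L), PS, ← ENNReal.tsum_mul_left]
    refine ENNReal.tsum_le_tsum fun L' => ?_
    by_cases hL' : HT hY L' = n
    · rw [if_pos (show FP hY n L' by rw [← hL']; exact FP_HT hY h1Y L')]
      by_cases hI : I L L'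
      · rw [if_pos ⟨hL, hL', hI⟩, if_pos hI, mul_one]
      · rw [if_neg (fun h => hI h.2.2)]; exact zero_le
    · rw [if_neg (fun h => hL' h.2.1)]; exact zero_le
  · have : ∀ L' : List BY, (if HT hX L = n ∧ HT hY L' = n ∧ I L L'
      then LW ΛX L * LW ΛY L' else 0) = 0 := fun L' => if_neg fun h => hL h.1
    simp only [this, tsum_zero]
    exact zero_le

open Classical in
/-- weight of a contact at depth exactly `k` -/
noncomputable def Pt (n k : ℕ) (w : G) : ℝ≥0∞ :=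
  ∑' L : List BX, ∑' L' : List BY, if HT hX L = n ∧ HT hY L' = n ∧
    (∃ g, (g, k) ∈ TT sX hX zX L 0 0 ∧ (g, k) ∈ TT sY hY zY L' w 0)
    then LW ΛX L * LW ΛY L' else 0

open Classical in
/-- **assembly**: contact depth in `(m, 2m]`, crossings of height `n ≥ 3m` -/
theorem kap (h1X : ∀ b, 1 ≤ hX b) (hΛX : ∑' b, ΛX b = 1) (h1Y : ∀ b, 1 ≤ hY b)
    (hΛY : ∑' b, ΛY b = 1) (hmX : ∑' b, ΛX b * (hX b : ℝ≥0∞) ≠ ⊤)
    (hmY : ∑' b, ΛY b * (hY b : ℝ≥0∞) ≠ ⊤)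
    (hsX : ∀ b q, q ∈ sX b → 1 ≤ q.2 ∧ q.2 ≤ hX b)
    (hsY : ∀ b q, q ∈ sY b → 1 ≤ q.2 ∧ q.2 ≤ hY b)
    (us : ℕ → ℝ≥0∞) (C : ℝ≥0∞) (hC : C ≠ ⊤) (hus : Tendsto us atTop (𝓝 0))
    (H2 : H2L ΛX hX zX sX ΛY hY zY sY us C) (H3 : H3L ΛX hX zX sX ΛY hY zY sY us C)
    (Q : G → Prop)
    (hPt : ∀ ε : ℝ≥0∞, ε ≠ 0 → ∃ k0 : ℕ, ∀ k, k0 ≤ k → ∀ n, k ≤ n → ∀ w, Q w →
      Pt ΛX hX zX sX ΛY hY zY sY n k w ≤ ε) :
    ∀ ε : ℝ≥0∞, ε ≠ 0 → ∃ M : ℕ, ∀ m, M ≤ m → ∀ n, 3 * m ≤ n → ∀ w, Q w →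
      (∑' L : List BX, ∑' L' : List BY, if HT hX L = n ∧ HT hY L' = n ∧
        (∃ g k, m < k ∧ k ≤ 2 * m ∧ (g, k) ∈ TT sX hX zX L 0 0 ∧ (g, k) ∈ TT sY hY zY L' w 0)
        then LW ΛX L * LW ΛY L' else 0) ≤ ε := by
  intro ε hε
  obtain ⟨J, u, i0, lam, s, e, u0, u1, l0, l1, e0, hfin⟩ :=
    numbers hC hus (ov_tendsto ΛX hX hΛX hmX) (ov_tendsto ΛY hY hΛY hmY) hε
  obtain ⟨k0, hk0⟩ := hPt e e0
  set K : ℕ := 4 * J + 5 with hK
  refine ⟨K * (k0 + 2 * i0 + s + K + 10), fun m hm n hn w hw => ?_⟩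
  set t : ℕ := m / K with ht
  have hKpos : 0 < K := by omega
  have htge : k0 + 2 * i0 + s + K + 10 ≤ t := by
    rw [ht, Nat.le_div_iff_mul_le hKpos, mul_comm]; exact hm
  have hKt : K * t ≤ m := Nat.mul_div_le m K
  have hmlt : m < (K + 1) * t := by
    have h1 : m < K * (t + 1) := Nat.lt_mul_div_succ m hKpos
    have h2 : K * (t + 1) = K * t + K := by ring
    have h3 : (K + 1) * t = K * t + t := by ring
    omega
  have htpos : 0 < t := by omega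
  -- facts about a window
  have hwin : ∀ p ∈ Finset.Ico (K - 1) (2 * K + 1), k0 ≤ p * t ∧ p * t + 3 * t + 3 * i0 ≤ n ∧
      J * (4 * t) ≤ p * t := by
    intro p hp
    obtain ⟨hp1, hp2⟩ := Finset.mem_Ico.1 hp
    refine ⟨?_, ?_, ?_⟩
    · have : 1 * t ≤ p * t := Nat.mul_le_mul_right t (by omega)
      omega
    · have h1 : p * t ≤ (2 * K) * t := Nat.mul_le_mul_right t (by omega)
      have h2 : (2 * K + 5) * t ≤ (3 * K) * t := Nat.mul_le_mul_right t (by omega)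
      have h3 : (2 * K + 5) * t = (2 * K) * t + 5 * t := by ring
      have h4 : (3 * K) * t = 3 * (K * t) := by ring
      omega
    · have : (4 * J) * t ≤ p * t := Nat.mul_le_mul_right t (by omega)
      calc J * (4 * t) = (4 * J) * t := by ring
        _ ≤ _ := this
  set S : Finset ℕ := Finset.range (2 * i0 + s + 1) with hS
  set c0 : List BX → List BY → ℝ≥0∞ := fun L L' => LW ΛX L * LW ΛY L' with hc0
  -- pointwise
  have hpoint : ∀ (L : List BX) (L' : List BY), (if HT hX L = n ∧ HT hY L' = n ∧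
        (∃ g k, m < k ∧ k ≤ 2 * m ∧ (g, k) ∈ TT sX hX zX L 0 0 ∧ (g, k) ∈ TT sY hY zY L' w 0)
        then LW ΛX L * LW ΛY L' else 0)
      ≤ ∑ p ∈ Finset.Ico (K - 1) (2 * K + 1), ((if HT hX L = n ∧ HT hY L' = n ∧
          WE hX zX sX hY zY sY w (p * t) t i0 s L L' then LW ΛX L * LW ΛY L' else 0)
        + ∑ r ∈ S, ((if HT hX L = n ∧ HT hY L' = n ∧ (∃ g, (g, p * t + r) ∈ TT sX hX zX L 0 0 ∧
            (g, p * t + r) ∈ TT sY hY zY L' w 0) then LW ΛX L * LW ΛY L' else 0)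
          + (if HT hX L = n ∧ HT hY L' = n ∧ (∃ g, (g, p * t + 3 * t + 2 * i0 - r) ∈
            TT sX hX zX L 0 0 ∧ (g, p * t + 3 * t + 2 * i0 - r) ∈ TT sY hY zY L' w 0)
            then LW ΛX L * LW ΛY L' else 0))) := by
    intro L L'
    by_cases hc : HT hX L = n ∧ HT hY L' = n ∧
        (∃ g k, m < k ∧ k ≤ 2 * m ∧ (g, k) ∈ TT sX hX zX L 0 0 ∧ (g, k) ∈ TT sY hY zY L' w 0)
    swap
    · rw [if_neg hc]; exact zero_le
    rw [if_pos hc]
    obtain ⟨hL, hL', g, k, hk1, hk2, hgX, hgY⟩ := hc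
    set q : ℕ := (k - 1) / t with hq
    have hqK : K ≤ q := by
      rw [hq, Nat.le_div_iff_mul_le htpos]; omega
    have hq2 : q < 2 * K + 2 := by
      rw [hq, Nat.div_lt_iff_lt_mul htpos]
      have : (2 * K + 2) * t = 2 * ((K + 1) * t) := by ring
      omega
    have hq3 : q * t ≤ k - 1 := Nat.div_mul_le_self _ _
    have hq4 : k - 1 < q * t + t := by
      have := Nat.lt_mul_div_succ (k - 1) htpos
      rw [← hq] at this
      calc k - 1 < t * (q + 1) := this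
        _ = q * t + t := by ring
    have hp : q - 1 ∈ Finset.Ico (K - 1) (2 * K + 1) := Finset.mem_Ico.2 ⟨by omega, by omega⟩
    have hqp : q * t = (q - 1) * t + t := by
      obtain ⟨q', hq'⟩ : ∃ q', q = q' + 1 := ⟨q - 1, by omega⟩
      rw [hq', Nat.add_sub_cancel]; ring
    refine le_trans ?_ (Finset.single_le_sum (f := fun p => (if HT hX L = n ∧ HT hY L' = n ∧
          WE hX zX sX hY zY sY w (p * t) t i0 s L L' then LW ΛX L * LW ΛY L' else 0)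
        + ∑ r ∈ S, ((if HT hX L = n ∧ HT hY L' = n ∧ (∃ g, (g, p * t + r) ∈ TT sX hX zX L 0 0 ∧
            (g, p * t + r) ∈ TT sY hY zY L' w 0) then LW ΛX L * LW ΛY L' else 0)
          + (if HT hX L = n ∧ HT hY L' = n ∧ (∃ g, (g, p * t + 3 * t + 2 * i0 - r) ∈
            TT sX hX zX L 0 0 ∧ (g, p * t + 3 * t + 2 * i0 - r) ∈ TT sY hY zY L' w 0)
            then LW ΛX L * LW ΛY L' else 0))) (fun _ _ => zero_le) hp)
    by_cases hsl : ∀ g k, (((q - 1) * t < k ∧ k < (q - 1) * t + 2 * i0 + s) ∨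
        ((q - 1) * t + 3 * t < k + s ∧ k ≤ (q - 1) * t + 3 * t + 2 * i0)) →
      (g, k) ∈ TT sX hX zX L 0 0 → (g, k) ∈ TT sY hY zY L' w 0 → False
    · refine le_trans ?_ le_self_add
      rw [if_pos]
      exact ⟨hL, hL', ⟨g, k, by omega, by omega, hgX, hgY⟩, hsl⟩
    · refine le_trans ?_ le_add_self
      push Not at hsl
      obtain ⟨g', k', hk', hgX', hgY', -⟩ := hsl
      rcases hk' with hk' | hk'
      · have hr : k' - (q - 1) * t ∈ S := Finset.mem_range.2 (by omega)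
        refine le_trans ?_ (Finset.single_le_sum (f := fun r => (if HT hX L = n ∧ HT hY L' = n ∧
            (∃ g, (g, (q - 1) * t + r) ∈ TT sX hX zX L 0 0 ∧
            (g, (q - 1) * t + r) ∈ TT sY hY zY L' w 0) then LW ΛX L * LW ΛY L' else 0)
          + (if HT hX L = n ∧ HT hY L' = n ∧ (∃ g, (g, (q - 1) * t + 3 * t + 2 * i0 - r) ∈
            TT sX hX zX L 0 0 ∧ (g, (q - 1) * t + 3 * t + 2 * i0 - r) ∈ TT sY hY zY L' w 0)
            then LW ΛX L * LW ΛY L' else 0)) (fun _ _ => zero_le) hr)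
        refine le_trans ?_ le_self_add
        rw [if_pos]
        refine ⟨hL, hL', g', ?_⟩
        rw [show (q - 1) * t + (k' - (q - 1) * t) = k' by omega]
        exact ⟨hgX', hgY'⟩
      · have hr : (q - 1) * t + 3 * t + 2 * i0 - k' ∈ S := Finset.mem_range.2 (by omega)
        refine le_trans ?_ (Finset.single_le_sum (f := fun r => (if HT hX L = n ∧ HT hY L' = n ∧
            (∃ g, (g, (q - 1) * t + r) ∈ TT sX hX zX L 0 0 ∧
            (g, (q - 1) * t + r) ∈ TT sY hY zY L' w 0) then LW ΛX L * LW ΛY L' else 0)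
          + (if HT hX L = n ∧ HT hY L' = n ∧ (∃ g, (g, (q - 1) * t + 3 * t + 2 * i0 - r) ∈
            TT sX hX zX L 0 0 ∧ (g, (q - 1) * t + 3 * t + 2 * i0 - r) ∈ TT sY hY zY L' w 0)
            then LW ΛX L * LW ΛY L' else 0)) (fun _ _ => zero_le) hr)
        refine le_trans ?_ le_add_self
        rw [if_pos]
        refine ⟨hL, hL', g', ?_⟩
        rw [show (q - 1) * t + 3 * t + 2 * i0 - ((q - 1) * t + 3 * t + 2 * i0 - k') = k' by omega]
        exact ⟨hgX', hgY'⟩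
  refine le_trans (ENNReal.tsum_le_tsum fun L => ENNReal.tsum_le_tsum fun L' => hpoint L L') ?_
  have hsw : (∑' L : List BX, ∑' L' : List BY, ∑ p ∈ Finset.Ico (K - 1) (2 * K + 1),
        ((if HT hX L = n ∧ HT hY L' = n ∧
          WE hX zX sX hY zY sY w (p * t) t i0 s L L' then LW ΛX L * LW ΛY L' else 0)
        + ∑ r ∈ S, ((if HT hX L = n ∧ HT hY L' = n ∧ (∃ g, (g, p * t + r) ∈ TT sX hX zX L 0 0 ∧
            (g, p * t + r) ∈ TT sY hY zY L' w 0) then LW ΛX L * LW ΛY L' else 0)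
          + (if HT hX L = n ∧ HT hY L' = n ∧ (∃ g, (g, p * t + 3 * t + 2 * i0 - r) ∈
            TT sX hX zX L 0 0 ∧ (g, p * t + 3 * t + 2 * i0 - r) ∈ TT sY hY zY L' w 0)
            then LW ΛX L * LW ΛY L' else 0))))
      = ∑ p ∈ Finset.Ico (K - 1) (2 * K + 1), ((∑' L : List BX, ∑' L' : List BY,
          if HT hX L = n ∧ HT hY L' = n ∧
          WE hX zX sX hY zY sY w (p * t) t i0 s L L' then LW ΛX L * LW ΛY L' else 0)
        + ∑ r ∈ S, (Pt ΛX hX zX sX ΛY hY zY sY n (p * t + r) w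
          + Pt ΛX hX zX sX ΛY hY zY sY n (p * t + 3 * t + 2 * i0 - r) w)) := by
    simp only [Pt]
    simp_rw [Summable.tsum_finsetSum (fun _ _ => ENNReal.summable), ENNReal.tsum_add,
      Summable.tsum_finsetSum (fun _ _ => ENNReal.summable), ENNReal.tsum_add]
  rw [hsw]
  calc _ ≤ ∑ p ∈ Finset.Ico (K - 1) (2 * K + 1),
        (cost us C lam u (ov ΛX hX i0) (ov ΛY hY i0) J i0 s +
          ((2 * i0 + s + 1 : ℕ) : ℝ≥0∞) * (e + e)) := by
        refine Finset.sum_le_sum fun p hp => ?_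
        obtain ⟨w1, w2, w3⟩ := hwin p hp
        refine add_le_add ?_ ?_
        · refine (tsum2_le_PS ΛX hX ΛY hY h1X h1Y n _).trans ?_
          exact window ΛX hX zX sX ΛY hY zY sY us C h1X hΛX h1Y hΛY hsX hsY H2 H3 w n (p * t) t
            i0 s J w2 (by omega) (by omega) w3 lam u l0 l1 u0 u1
        · refine le_trans (Finset.sum_le_sum fun r hr => add_le_add
            (hk0 (p * t + r) (by omega) n ?_ w hw)
            (hk0 (p * t + 3 * t + 2 * i0 - r) ?_ n (by omega) w hw)) ?_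
          · have := Finset.mem_range.1 hr; omega
          · have := Finset.mem_range.1 hr; omega
          · rw [Finset.sum_const, hS, Finset.card_range, nsmul_eq_mul]
    _ ≤ ε := by
        rw [Finset.sum_const, Nat.card_Ico, nsmul_eq_mul,
          show 2 * K + 1 - (K - 1) = 4 * J + 7 by omega]
        exact hfin

end Crest.Agent.R154.Asm251
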