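import Crest.Agent.R154.AsmC_295

/-! Row 154, KAPPA' (801), list assembly, part F (helper295): density of the top, quantile. -/

set_option autoImplicit false

namespace Crest.Agent.R154.Asm295

open scoped ENNReal
open Crest.Agent.R154.B5A (LW HT LW_nil LW_cons LW_append HT_nil HT_cons HT_append tsum_list)
open Crest.Agent.R154.Asm540 (Dp Dp_append)

variable {B G : Type*} [AddCommGroup G] {Λ : B → ℝ≥0∞} {h : B → ℕ}

open Classical in
lemma fibre_le (z : B → G) (r : ℕ) (F : List B → ℝ≥0∞) :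
    ∑' α : ℕ, ∑' x : G, ∑' L, (if HT h L = r + α ∧ Dp z L = x then F L else 0) ≤ ∑' L, F L := by
  have e2 : ∀ α : ℕ, ∑' x : G, ∑' L, (if HT h L = r + α ∧ Dp z L = x then F L else 0)
      = ∑' L, ∑' x : G, (if HT h L = r + α ∧ Dp z L = x then F L else 0) :=
    fun α => ENNReal.tsum_comm
  simp_rw [e2]
  rw [ENNReal.tsum_comm]
  refine ENNReal.tsum_le_tsum fun L => ?_
  rw [tsum_eq_single (HT h L - r)]
  · rw [tsum_eq_single (Dp z L)]
    · split_ifs
      · exact le_rfl
      · exact bot_le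
    · intro x hx
      exact if_neg fun e => hx e.2.symm
  · intro α hα
    refine ENNReal.tsum_eq_zero.2 fun x => if_neg fun e => hα ?_
    omega

/-- the constants of one walker -/
theorem cst (hΛ : ∑' b, Λ b = 1) (h1 : ∀ b, 1 ≤ h b)
    (hU : ∀ n, ∑' L, (open Classical in if HT h L = n then LW Λ L else 0) ≤ 1) (z : B → G)
    (T i0 : ℕ) {u : ℝ≥0∞} (hu0 : u ≠ 0) (hu1 : u < 1) :
    ∃ th : ℝ≥0∞, th ≠ 0 ∧ th ≤ 1 ∧
      (open Classical in ∑' i, ∑' x, nf Λ h z T i x * (if nf Λ h z T i x < th then 1 else 0) ≤ u) ∧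
      ∀ J D, J * (T + i0) ≤ D → ∃ b : ℕ → G → ℝ≥0∞,
        (∑' α, ∑' x, b α x ≤ (1 - u) ^ J + J * (2 * ∑' b, Λ b * ((h b - i0 : ℕ) : ℝ≥0∞))) ∧
        ∀ α x, nf Λ h z D α x ≤ ((i0 + 1 : ℕ) : ℝ≥0∞) * th / u + b α x := by
  classical
  have hut : u ≠ ⊤ := (hu1.trans ENNReal.one_lt_top).ne
  have hs : ∑' y : ℕ × G, nf Λ h z T y.1 y.2 = 1 := by
    rw [ENNReal.tsum_prod (f := fun i x => nf Λ h z T i x)]
    exact nf_sum hΛ h1 z T
  obtain ⟨th, t0, t1, t2, t3⟩ := Dens616.quantile (fun y : ℕ × G => nf Λ h z T y.1 y.2) hs hu0 hu1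
  refine ⟨th, t0, t1, ?_, ?_⟩
  · have : ∀ i x, nf Λ h z T i x * (if nf Λ h z T i x < th then 1 else 0)
        = if nf Λ h z T i x < th then nf Λ h z T i x else 0 := by
      intro i x; split_ifs <;> simp
    simp_rw [this]
    rw [← ENNReal.tsum_prod (f := fun i x => if nf Λ h z T i x < th then nf Λ h z T i x else 0)]
    exact t2
  · have hq : ∑' i, ∑' x, (if i ≤ i0 ∧ th < nf Λ h z T i x then nf Λ h z T i x else 0) ≤ 1 - u := by
      have hle : ∑' i, ∑' x, (if i ≤ i0 ∧ th < nf Λ h z T i x then nf Λ h z T i x else 0) ≤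
          ∑' y : ℕ × G, (if th < nf Λ h z T y.1 y.2 then nf Λ h z T y.1 y.2 else 0) := by
        rw [ENNReal.tsum_prod (f := fun i x => if th < nf Λ h z T i x then nf Λ h z T i x else 0)]
        refine ENNReal.tsum_le_tsum fun i => ENNReal.tsum_le_tsum fun x => ?_
        by_cases e : th < nf Λ h z T i x
        · rw [if_pos e]; split_ifs <;> simp
        · rw [if_neg e, if_neg (fun e' => e e'.2)]
      refine hle.trans ?_
      refine ENNReal.le_sub_of_add_le_right hut ?_
      calc _ ≤ ∑' y : ℕ × G, (if th < nf Λ h z T y.1 y.2 then nf Λ h z T y.1 y.2 else 0) +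
            ∑' y : ℕ × G, (if nf Λ h z T y.1 y.2 ≤ th then nf Λ h z T y.1 y.2 else 0) := by
            gcongr
        _ = ∑' y : ℕ × G, nf Λ h z T y.1 y.2 := by
            rw [← ENNReal.tsum_add]
            refine tsum_congr fun y => ?_
            by_cases e : th < nf Λ h z T y.1 y.2
            · rw [if_pos e, if_neg (not_le.2 e), add_zero]
            · rw [if_neg e, if_pos (not_lt.1 e), zero_add]
        _ = 1 := hs
    have hG : ((i0 + 1 : ℕ) : ℝ≥0∞) * th + (1 - u) * (((i0 + 1 : ℕ) : ℝ≥0∞) * th / u)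
        ≤ ((i0 + 1 : ℕ) : ℝ≥0∞) * th / u := by
      have e1 : ((i0 + 1 : ℕ) : ℝ≥0∞) * th = u * (((i0 + 1 : ℕ) : ℝ≥0∞) * th / u) := by
        rw [ENNReal.mul_div_cancel hu0 hut]
      calc _ = u * (((i0 + 1 : ℕ) : ℝ≥0∞) * th / u) + (1 - u) * (((i0 + 1 : ℕ) : ℝ≥0∞) * th / u) := by
            rw [← e1]
        _ = (u + (1 - u)) * (((i0 + 1 : ℕ) : ℝ≥0∞) * th / u) := by rw [add_mul]
        _ = 1 * (((i0 + 1 : ℕ) : ℝ≥0∞) * th / u) := by rw [add_tsub_cancel_of_le hu1.le]
        _ ≤ _ := (one_mul _).le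
    refine dens (fun i x => nf Λ h z T i x) (fun r α x => nf Λ h z r α x)
      (fun r α x => ∑' L, if HT h L = r + α ∧ Dp z L = x then
        (if fp h L T ∧ r < HT h L then LW Λ L else 0) else 0) T i0 th (1 - u) _ _
      (fun r hr α x => nf_rec z T r hr α x) (fun r => (nf_sum hΛ h1 z r).le) ?_ ?_ hq
      tsub_le_self hG
    · intro r hr
      refine (fibre_le z r _).trans ?_
      refine le_trans (ENNReal.tsum_le_tsum fun L => ?_) (ovs hU T i0)
      by_cases e : fp h L T ∧ r < HT h L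
      · rw [if_pos e, if_pos ⟨e.1, by omega⟩]
      · rw [if_neg e]; exact bot_le
    · have := fib (Λ := Λ) (h := h) z T (fun i _ => if i0 < i then 1 else 0)
      have e3 : ∀ i x, (if i0 < i then nf Λ h z T i x else 0)
        = nf Λ h z T i x * (if i0 < i then 1 else 0) := by
        intro i x; split_ifs <;> simp
      simp_rw [e3]
      rw [← this]
      refine le_trans (ENNReal.tsum_le_tsum fun L => ?_) (ovs hU T i0)
      by_cases e : fp h L T ∧ T + i0 < HT h L
      · rw [if_pos e, if_pos e.1]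
        split_ifs <;> simp
      · rw [if_neg e]
        by_cases e1 : fp h L T
        · have := fp_le L T e1
          have e4 : ¬ i0 < HT h L - T := fun e5 => e ⟨e1, by omega⟩
          rw [if_neg e4, mul_zero]
        · rw [if_neg e1, zero_mul]

end Crest.Agent.R154.Asm295
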