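import Crest.Agent.R154.AsmE_307

set_option autoImplicit false

namespace Crest.Agent.R154.Asm307

open scoped ENNReal Topology
open Filter
open Crest.Agent.R154.B5A
open Crest.Agent.R154.Bind12 (TT)

variable {BX BY G : Type*} [AddCommGroup G] (ΛX : BX → ℝ≥0∞) (ΛY : BY → ℝ≥0∞)
  (hX : BX → ℕ) (hY : BY → ℕ) (zX : BX → G) (zY : BY → G)
  (sX : BX → Set (G × ℕ)) (sY : BY → Set (G × ℕ))

/-- numbers of one window -/
lemma num_win (C : ℝ≥0∞) (us : ℕ → ℝ≥0∞) (K i0 s : ℕ) (u lam eX eY : ℝ≥0∞) (hK : 1 ≤ K)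
    (hu1 : u ≤ 1) (hl0 : lam ≠ 0) (hl1 : lam ≤ 1) :
    2 * eX + 2 * eY +
        (((i0 + 1 : ℕ) * QQ C us (((i0 + 1 : ℕ) : ℝ≥0∞) / u) lam i0 s + ((1 - u) ^ K + K * eX)) +
        ((i0 + 1 : ℕ) * QQ C us (((i0 + 1 : ℕ) : ℝ≥0∞) / u) lam i0 s + ((1 - u) ^ K + K * eY)) + u * u)
      ≤ 4 * ((u + (eX + eY)) ^ 2 + ((1 - u / 2) ^ K + K * (eX + eY)) +
        ((i0 : ℝ≥0∞) + 1) ^ 3 * (C * lam + C * (((i0 : ℝ≥0∞) + 1) / u) * us s / lam)) := by
  have hK' : (1 : ℝ≥0∞) ≤ K := by exact_mod_cast hK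
  set I : ℝ≥0∞ := (i0 : ℝ≥0∞) + 1 with hI
  have hIe : ((i0 + 1 : ℕ) : ℝ≥0∞) = I := by push_cast; rfl
  rw [hIe, QQ, hIe]
  have a1 : (1 - u) ^ K ≤ (1 - u / 2) ^ K := by
    gcongr
    exact ENNReal.half_le_self
  have a2 : us s ≤ I / u * us s / lam := by
    have b1 : (1 : ℝ≥0∞) ≤ I / u := by
      rw [ENNReal.le_div_iff_mul_le (Or.inr (by rw [hI]; simp)) (Or.inr (by rw [hI]; simp))]
      rw [one_mul]
      refine le_trans hu1 ?_
      rw [hI]; exact le_add_self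
    have b2 : (1 : ℝ≥0∞) ≤ lam⁻¹ := ENNReal.one_le_inv.2 hl1
    calc us s = 1 * us s * 1 := by ring
      _ ≤ I / u * us s * lam⁻¹ := by gcongr
      _ = _ := by rw [div_eq_mul_inv (I / u * us s) lam]
  have a3 : I * (I * (I * (C * (lam + I / u * us s / lam + us s))))
      ≤ 2 * (I ^ 3 * (C * lam + C * (I / u) * us s / lam)) := by
    calc _ ≤ I * (I * (I * (C * (lam + I / u * us s / lam + I / u * us s / lam)))) := by gcongr
      _ = I ^ 3 * (C * lam + 2 * (C * (I / u) * us s / lam)) := by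
          rw [div_eq_mul_inv _ lam, div_eq_mul_inv _ lam]; ring
      _ ≤ I ^ 3 * (2 * (C * lam) + 2 * (C * (I / u) * us s / lam)) := by
          have c1 : C * lam ≤ 2 * (C * lam) := by rw [two_mul]; exact le_self_add
          exact mul_le_mul_right (add_le_add_left c1 _) _
      _ = _ := by ring
  set R := I ^ 3 * (C * lam + C * (I / u) * us s / lam) with hR
  calc _ ≤ 2 * (K * eX) + 2 * (K * eY) + ((2 * R + ((1 - u / 2) ^ K + K * eX)) + (2 * R + ((1 - u / 2) ^ K + K * eY))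
          + (u + (eX + eY)) ^ 2) := by
        gcongr
        · calc eX = 1 * eX := (one_mul _).symm
            _ ≤ _ := by gcongr
        · calc eY = 1 * eY := (one_mul _).symm
            _ ≤ _ := by gcongr
        · rw [sq]
          gcongr <;> exact le_self_add
    _ ≤ 2 * (K * eX) + 2 * (K * eY) + ((2 * R + ((1 - u / 2) ^ K + K * eX)) + (2 * R + ((1 - u / 2) ^ K + K * eY))
          + (u + (eX + eY)) ^ 2) + (2 * (1 - u / 2) ^ K + K * eX + K * eY + 3 * (u + (eX + eY)) ^ 2) := le_self_add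
    _ = _ := by ring

open Classical in
lemma slab_sum (n m K T i0 S : ℕ) (w : G) (hKm : 2 * K * T ≤ m) (hm : m < (2 * K + 1) * T) (hT : 3 * i0 + 2 * S + 2 ≤ T)
    (hK : 1 ≤ K) :
    KS ΛX ΛY hX hY zX zY sX sY n w {k | m < k ∧ k ≤ 2 * m} ≤
      ∑ j ∈ Finset.Icc (2 * K) (4 * K + 3), KS ΛX ΛY hX hY zX zY sX sY n w
        (Set.Ico (j * T - S) (j * T - S + (3 * i0 + 2 * S + 2)))
      + ∑ j ∈ Finset.Icc (2 * K) (4 * K + 2), ∑' L : List BX, ∑' L' : List BY, (if HT hX L = n ∧ HT hY L' = n ∧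
        Ev hX hY zX zY sX sY w (j * T) T i0 (j * T + 3 * i0 + S) (j * T + T - S) L L' then LW ΛX L * LW ΛY L' else 0) := by
  simp only [KS]
  simp only [← Summable.tsum_finsetSum (fun _ _ => ENNReal.summable)]
  rw [← ENNReal.tsum_add]
  refine ENNReal.tsum_le_tsum fun L => ?_
  rw [← ENNReal.tsum_add]
  refine ENNReal.tsum_le_tsum fun L' => ?_
  by_cases hc : HT hX L = n ∧ HT hY L' = n ∧ ∃ g k, k ∈ {k | m < k ∧ k ≤ 2 * m} ∧ Cs hX hY zX zY sX sY L L' w 0 0 (g, k)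
  · rw [if_pos hc]
    obtain ⟨c1, c2, g, k, ⟨hk1, hk2⟩, hcs⟩ := hc
    by_cases hsl : ∃ j ∈ Finset.Icc (2 * K) (4 * K + 3), ∃ g k, k ∈ Set.Ico (j * T - S) (j * T - S + (3 * i0 + 2 * S + 2)) ∧
        Cs hX hY zX zY sX sY L L' w 0 0 (g, k)
    · obtain ⟨j, hj, h2⟩ := hsl
      refine le_trans (le_trans (le_of_eq ?_) (Finset.single_le_sum (f := fun j => if HT hX L = n ∧ HT hY L' = n ∧ ∃ g k, k ∈ Set.Ico (j * T - S) (j * T - S + (3 * i0 + 2 * S + 2)) ∧
        Cs hX hY zX zY sX sY L L' w 0 0 (g, k) then LW ΛX L * LW ΛY L' else 0) (fun _ _ => zero_le') hj)) le_self_add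
      rw [if_pos ⟨c1, c2, h2⟩]
    · push_neg at hsl
      have hT0 : 0 < T := by omega
      set j := k / T with hj
      have hj1 : j * T ≤ k := Nat.div_mul_le_self k T
      have hj2 : k < (j + 1) * T := by
        have := Nat.lt_succ_iff.2 (le_refl (k / T))
        exact (Nat.div_lt_iff_lt_mul hT0).1 (Nat.lt_succ_self (k / T))
      have hj3 : 2 * K ≤ j := by
        rw [hj, Nat.le_div_iff_mul_le hT0]; omega
      have hj4 : j ≤ 4 * K + 2 := by
        have : k < (4 * K + 3) * T := by nlinarith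
        have := (Nat.div_lt_iff_lt_mul hT0).2 this
        omega
      have hjT : 2 * T ≤ j * T := Nat.mul_le_mul_right T (by omega)
      have hj2' : k < j * T + T := by rw [add_mul, one_mul] at hj2; exact hj2
      have s1 := hsl j (Finset.mem_Icc.2 ⟨hj3, by omega⟩)
      have s2 := hsl (j + 1) (Finset.mem_Icc.2 ⟨by omega, by omega⟩)
      have hcl : ∀ q : G × ℕ, j * T ≤ q.2 → q.2 ≤ j * T + T + 2 * i0 → Cs hX hY zX zY sX sY L L' w 0 0 q →
          j * T + 3 * i0 + S ≤ q.2 ∧ q.2 ≤ j * T + T - S := by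
        intro q hq1 hq2 hq3
        have e1 := s1 q.1 q.2
        have e2 := s2 q.1 q.2
        constructor
        · by_contra hcon
          exact e1 ⟨by omega, by omega⟩ hq3
        · by_contra hcon
          refine e2 ⟨?_, ?_⟩ hq3
          · rw [add_mul, one_mul]; omega
          · rw [add_mul, one_mul]; omega
      have hev : Ev hX hY zX zY sX sY w (j * T) T i0 (j * T + 3 * i0 + S) (j * T + T - S) L L' :=
        ⟨⟨(g, k), hcl (g, k) hj1 (by simp only; omega) hcs, hcs⟩, hcl⟩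
      refine le_trans (le_trans (le_of_eq ?_) (Finset.single_le_sum (f := fun j => if HT hX L = n ∧ HT hY L' = n ∧
        Ev hX hY zX zY sX sY w (j * T) T i0 (j * T + 3 * i0 + S) (j * T + T - S) L L' then LW ΛX L * LW ΛY L' else 0) (fun _ _ => zero_le')
          (Finset.mem_Icc.2 ⟨hj3, hj4⟩))) le_add_self
      rw [if_pos ⟨c1, c2, hev⟩]
  · rw [if_neg hc]; exact zero_le'

open Classical in
/-- **the assembly**: KAPPA' for lists from the two window lemmas and the thin slab -/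
theorem kapS (h1X : ∀ b, 1 ≤ hX b) (hΛX : ∑' b, ΛX b = 1) (h1Y : ∀ b, 1 ≤ hY b) (hΛY : ∑' b, ΛY b = 1)
    (heX : Tendsto (fun i0 : ℕ => ∑' b, ΛX b * ((hX b - i0 : ℕ) : ℝ≥0∞)) atTop (𝓝 0))
    (heY : Tendsto (fun i0 : ℕ => ∑' b, ΛY b * ((hY b - i0 : ℕ) : ℝ≥0∞)) atTop (𝓝 0))
    (hsX : ∀ b q, q ∈ sX b → 1 ≤ q.2 ∧ q.2 ≤ hX b)
    (hsY : ∀ b q, q ∈ sY b → 1 ≤ q.2 ∧ q.2 ≤ hY b) (C : ℝ≥0∞) (hC : C ≠ ⊤) (us : ℕ → ℝ≥0∞)
    (hus : Tendsto us atTop (𝓝 0))
    (hH2 : H2 ΛX ΛY hX hY zX zY sX sY C us) (hH3 : H3 ΛX ΛY hX hY zX zY sX sY C us)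
    (hH5 : H5 ΛX ΛY hX hY zX zY sX sY) (ε : ℝ≥0∞) (hε : ε ≠ 0) :
    ∃ M : ℕ, ∀ m, M ≤ m → ∃ n0 : ℕ, ∀ n, n0 ≤ n → ∀ w : G,
      KS ΛX ΛY hX hY zX zY sX sY n w {k | m < k ∧ k ≤ 2 * m} ≤ ε := by
  have hep : Tendsto (fun i0 => ep ΛX hX i0 + ep ΛY hY i0) atTop (𝓝 0) := by
    have := heX.add heY
    rw [add_zero] at this
    exact this
  have hus' : Tendsto (fun s => us (s + 1)) atTop (𝓝 0) := hus.comp (tendsto_add_atTop_nat 1)
  obtain ⟨K, u, hK, hu0, hu1, i0, lam, s, hl0, hl1, hl2, -, hnum⟩ :=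
    Num869.choose (fun s => us (s + 1)) (fun i0 => ep ΛX hX i0 + ep ΛY hY i0) hus' hep C hC 3 (ε / 48)
      (by simp [hε])
  have hη : ε / (2 * (6 * K : ℕ)) ≠ 0 := by
    refine (ENNReal.div_pos hε ?_).ne'
    exact ENNReal.mul_ne_top (by norm_num) (ENNReal.natCast_ne_top _)
  obtain ⟨T0, hT0⟩ := hH5 (3 * i0 + 2 * (s + 1) + 2) _ hη
  refine ⟨2 * K * (T0 + 3 * i0 + 2 * (s + 1) + 2 + 2 * K), fun m hm => ?_⟩
  set S := s + 1 with hS
  set T := m / (2 * K) with hTd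
  have hK2 : 0 < 2 * K := by omega
  have t1 : T0 + 3 * i0 + 2 * S + 2 + 2 * K ≤ T := by
    rw [hTd, Nat.le_div_iff_mul_le hK2]
    calc _ = 2 * K * (T0 + 3 * i0 + 2 * S + 2 + 2 * K) := by ring
      _ ≤ m := hm
  have t2 : 2 * K * T ≤ m := Nat.mul_div_le m (2 * K)
  have t3 : m < (2 * K + 1) * T := by
    have := Nat.lt_mul_div_succ m hK2
    rw [← hTd] at this
    nlinarith
  refine ⟨(4 * K + 2) * T + 3 * i0 + T, fun n hn w => ?_⟩
  refine le_trans (slab_sum ΛX ΛY hX hY zX zY sX sY n m K T i0 S w t2 t3 (by omega) hK) ?_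
  have b1 : ∑ j ∈ Finset.Icc (2 * K) (4 * K + 3), KS ΛX ΛY hX hY zX zY sX sY n w
        (Set.Ico (j * T - S) (j * T - S + (3 * i0 + 2 * S + 2))) ≤ ε / 2 := by
    calc _ ≤ ∑ j ∈ Finset.Icc (2 * K) (4 * K + 3), ε / (2 * (6 * K : ℕ)) := by
          refine Finset.sum_le_sum fun j hj => ?_
          have := (Finset.mem_Icc.1 hj).1
          have h2 : T ≤ j * T := Nat.le_mul_of_pos_left T (by omega)
          exact hT0 _ (by omega) n w
      _ ≤ (6 * K : ℕ) * (ε / (2 * (6 * K : ℕ))) := by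
          rw [Finset.sum_const, nsmul_eq_mul, Nat.card_Icc]
          gcongr
          omega
      _ = ε / 2 := by
          have h6 : ((6 * K : ℕ) : ℝ≥0∞) ≠ 0 := by
            simp only [ne_eq, Nat.cast_eq_zero]; omega
          rw [div_eq_mul_inv, div_eq_mul_inv, ENNReal.mul_inv (Or.inl (by norm_num)) (Or.inl (by norm_num))]
          calc ((6 * K : ℕ) : ℝ≥0∞) * (ε * (2⁻¹ * ((6 * K : ℕ) : ℝ≥0∞)⁻¹))
              = ε * 2⁻¹ * (((6 * K : ℕ) : ℝ≥0∞) * ((6 * K : ℕ) : ℝ≥0∞)⁻¹) := by ring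
            _ = _ := by rw [ENNReal.mul_inv_cancel h6 (ENNReal.natCast_ne_top _), mul_one]
  have b2 : ∑ j ∈ Finset.Icc (2 * K) (4 * K + 2), (∑' L : List BX, ∑' L' : List BY, (if HT hX L = n ∧ HT hY L' = n ∧
        Ev hX hY zX zY sX sY w (j * T) T i0 (j * T + 3 * i0 + S) (j * T + T - S) L L' then LW ΛX L * LW ΛY L' else 0)) ≤ ε / 2 := by
    set E := (u + (ep ΛX hX i0 + ep ΛY hY i0)) ^ 2 + ((1 - u / 2) ^ K + K * (ep ΛX hX i0 + ep ΛY hY i0)) +
        ((i0 : ℝ≥0∞) + 1) ^ 3 * (C * lam + C * (((i0 : ℝ≥0∞) + 1) / u) * us S / lam) with hE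
    calc _ ≤ ∑ j ∈ Finset.Icc (2 * K) (4 * K + 2), 4 * E := by
          refine Finset.sum_le_sum fun j hj => ?_
          have hj' := Finset.mem_Icc.1 hj
          have h2 : 2 * K * T ≤ j * T := Nat.mul_le_mul_right T hj'.1
          have h3 : j * T ≤ (4 * K + 2) * T := Nat.mul_le_mul_right T hj'.2
          have h4 : K * (T + i0) ≤ j * T := by
            refine le_trans ?_ h2
            calc K * (T + i0) ≤ K * (T + T) := Nat.mul_le_mul_left K (by omega)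
              _ = 2 * K * T := by ring
          refine le_trans (window ΛX ΛY hX hY zX zY sX sY h1X hΛX h1Y hΛY hsX hsY C us hH2 hH3 w (j * T) T i0 S
            (j * T + 3 * i0 + S) (j * T + T - S) n K u lam hu0 hu1 hl0 hl1 h4 rfl (by omega) (by omega) (by omega)) ?_
          exact num_win C us K i0 S u lam _ _ hK hu1 hl0 hl2
      _ ≤ (6 * K : ℕ) * (4 * E) := by
          rw [Finset.sum_const, nsmul_eq_mul, Nat.card_Icc]
          gcongr
          omega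
      _ = 24 * (K * E) := by push_cast; ring
      _ ≤ 24 * (ε / 48) := by gcongr
      _ = ε / 2 := by
          rw [div_eq_mul_inv, div_eq_mul_inv, show (48 : ℝ≥0∞) = 24 * 2 by norm_num,
            ENNReal.mul_inv (Or.inl (by norm_num)) (Or.inl (by norm_num))]
          calc (24 : ℝ≥0∞) * (ε * (24⁻¹ * 2⁻¹)) = ε * 2⁻¹ * (24 * 24⁻¹) := by ring
            _ = _ := by rw [ENNReal.mul_inv_cancel (by norm_num) (by norm_num), mul_one]
  calc _ ≤ ε / 2 + ε / 2 := add_le_add b1 b2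
    _ = ε := ENNReal.add_halves ε

end Crest.Agent.R154.Asm307
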