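import Crest.Agent.R154.AsmE_309
import Crest.Agent.R154.NumAsm_334

/-! Row 154, ROAD 801 (helper309): THE ASSEMBLY. -/

set_option autoImplicit false

namespace Crest.Agent.R154.Asm309

open scoped ENNReal Topology
open B5A Filter

section W

variable {BX BY G : Type*} [AddCommGroup G]
variable (ΛX : BX → ℝ≥0∞) (hX : BX → ℕ) (zX : BX → G)
variable (ΛY : BY → ℝ≥0∞) (hY : BY → ℕ) (zY : BY → G)
variable (CX : List BX → G → ℕ → Set (G × ℕ)) (CY : List BY → G → ℕ → Set (G × ℕ))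

open Classical in
/-- POINT -/
def HPt : Prop := ∀ η : ℝ≥0∞, η ≠ 0 → ∃ k0 : ℕ, ∀ k, k0 ≤ k → ∀ n, k ≤ n → ∀ w : G,
  ∑' LX : List BX, ∑' LY : List BY, (if HT hX LX = n ∧ HT hY LY = n ∧
    (∃ z, (z, k) ∈ CX LX 0 0 ∧ (z, k) ∈ CY LY w 0) then LW ΛX LX * LW ΛY LY else 0) ≤ η

open Classical in
theorem kapS {us : ℕ → ℝ≥0∞} {C : ℝ≥0∞} (hC : C ≠ ⊤) (hus : Tendsto us atTop (𝓝 0))
    (H2' : H2 ΛX hX zX ΛY hY CX CY us C) (H3' : H3 ΛX hX ΛY hY zY CX CY us C)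
    (hPt : HPt ΛX hX ΛY hY CX CY)
    (hX1 : ∀ b, 1 ≤ hX b) (hY1 : ∀ b, 1 ≤ hY b) (hΛX : ∑' b, ΛX b = 1) (hΛY : ∑' b, ΛY b = 1)
    (hUX : ∀ n, U ΛX hX n ≤ 1) (hUY : ∀ n, U ΛY hY n ≤ 1)
    (hEX : ∑' b, ΛX b * (hX b : ℝ≥0∞) ≠ ⊤) (hEY : ∑' b, ΛY b * (hY b : ℝ≥0∞) ≠ ⊤)
    (aPX : AppP hX zX CX) (dPX : DepP hX CX) (sPX : ShP CX)
    (aPY : AppP hY zY CY) (dPY : DepP hY CY) (sPY : ShP CY) :
    ∀ ε : ℝ≥0∞, ε ≠ 0 → ∃ M : ℕ, ∀ m, M ≤ m → ∀ n, 4 * m ≤ n → ∀ w : G,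
      ∑' LX : List BX, ∑' LY : List BY, (if HT hX LX = n ∧ HT hY LY = n ∧
        (∃ z k, (z, k) ∈ CX LX 0 0 ∧ (z, k) ∈ CY LY w 0 ∧ m < k ∧ k ≤ 2 * m)
        then LW ΛX LX * LW ΛY LY else 0) ≤ ε := by
  intro ε hε
  have hov : Tendsto (fun i => ov ΛX hX i + ov ΛY hY i) atTop (𝓝 0) := by
    have := (ov_tendsto ΛX hX hΛX hEX).add (ov_tendsto ΛY hY hΛY hEY)
    simpa using this
  obtain ⟨K, hK8, u, hu0, hu1, i0, lam, η, hl, hl', hη, s, hnum⟩ := Num334.num hC hus hov hε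
  set c : ℕ := 2 * s + 4 * i0 + 1 with hc
  have hη' : η / (c : ℝ≥0∞) ≠ 0 := by
    rw [Ne, ENNReal.div_eq_zero_iff, not_or]
    exact ⟨hη, ENNReal.natCast_ne_top _⟩
  obtain ⟨k0, hk0⟩ := hPt (η / c) hη'
  refine ⟨K * (k0 + 3 * i0 + s + 2 * K + 1) + K, fun m hm n hn w => ?_⟩
  set T : ℕ := m / K with hT
  have hKpos : 0 < K := by omega
  have hT1 : K * T ≤ m := Nat.mul_div_le m K
  have hT2 : m < K * T + K := by
    have := Nat.lt_mul_div_succ m hKpos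
    rw [Nat.mul_succ] at this; exact this
  have hT3 : k0 + 3 * i0 + s + 2 * K + 1 ≤ T := by
    by_contra hcon
    have h1 : T + 1 ≤ k0 + 3 * i0 + s + 2 * K + 1 := by omega
    have h2 : K * (T + 1) ≤ K * (k0 + 3 * i0 + s + 2 * K + 1) := Nat.mul_le_mul_left _ h1
    rw [Nat.mul_succ] at h2
    omega
  have hKT : 8 * T ≤ K * T := Nat.mul_le_mul_right _ hK8
  -- windows
  set Wj : ℕ → (List BX × List BY) → Prop := fun j p =>
    EvW CX CY (j * T) (j * T + 2 * i0 + s + 1) (j * T + T - s) (j * T + T + 2 * i0) w p.1 p.2 with hWj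
  set Pk : ℕ → (List BX × List BY) → Prop := fun k p =>
    ∃ z, (z, k) ∈ CX p.1 0 0 ∧ (z, k) ∈ CY p.2 w 0 with hPk
  set D : ℕ → Finset ℕ := fun j => Finset.Ioc (j * T) (j * T + 2 * i0 + s) ∪
    Finset.Ioc (j * T + T - s) (j * T + T + 2 * i0) with hD
  set J : Finset ℕ := Finset.Icc K (2 * K) with hJ
  have hDcard : ∀ j, (D j).card ≤ c := by
    intro j
    refine (Finset.card_union_le _ _).trans ?_
    rw [Nat.card_Ioc, Nat.card_Ioc]
    omega
  have hjb : ∀ j ∈ J, K * T ≤ j * T ∧ j * T ≤ 2 * (K * T) := by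
    intro j hj
    obtain ⟨h1, h2⟩ := Finset.mem_Icc.1 hj
    refine ⟨Nat.mul_le_mul_right _ h1, ?_⟩
    calc j * T ≤ (2 * K) * T := Nat.mul_le_mul_right _ h2
      _ = 2 * (K * T) := by ring
  have cover : ∀ p : List BX × List BY, (if HT hX p.1 = n ∧ HT hY p.2 = n ∧
        (∃ z k, (z, k) ∈ CX p.1 0 0 ∧ (z, k) ∈ CY p.2 w 0 ∧ m < k ∧ k ≤ 2 * m)
        then LW ΛX p.1 * LW ΛY p.2 else 0) ≤
      ∑ j ∈ J, ((if HT hX p.1 = n ∧ HT hY p.2 = n ∧ Wj j p then LW ΛX p.1 * LW ΛY p.2 else 0)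
        + ∑ k ∈ D j, (if HT hX p.1 = n ∧ HT hY p.2 = n ∧ Pk k p then LW ΛX p.1 * LW ΛY p.2 else 0)) := by
    intro p
    by_cases hcc : HT hX p.1 = n ∧ HT hY p.2 = n ∧
        (∃ z k, (z, k) ∈ CX p.1 0 0 ∧ (z, k) ∈ CY p.2 w 0 ∧ m < k ∧ k ≤ 2 * m)
    · rw [if_pos hcc]
      obtain ⟨hn1, hn2, z, k, hz1, hz2, hk1, hk2⟩ := hcc
      have hTpos : 0 < T := by omega
      set j := (k - 1) / T with hj
      have hj1 : j * T ≤ k - 1 := Nat.div_mul_le_self _ _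
      have hj2 : k - 1 < j * T + T := by
        have := Nat.lt_mul_div_succ (k - 1) hTpos
        rw [Nat.mul_succ, mul_comm] at this; exact this
      have hjK : K ≤ j := by
        rw [hj, Nat.le_div_iff_mul_le hTpos]; omega
      have hj2K : j ≤ 2 * K := by
        rw [← Nat.lt_succ_iff, hj, Nat.div_lt_iff_lt_mul hTpos]
        have : (2 * K).succ * T = 2 * (K * T) + T := by rw [Nat.succ_mul]; ring
        rw [this]; omega
      have hjJ : j ∈ J := Finset.mem_Icc.2 ⟨hjK, hj2K⟩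
      refine le_trans ?_ (Finset.single_le_sum (f := fun j =>
        ((if HT hX p.1 = n ∧ HT hY p.2 = n ∧ Wj j p then LW ΛX p.1 * LW ΛY p.2 else 0)
        + ∑ k ∈ D j, (if HT hX p.1 = n ∧ HT hY p.2 = n ∧ Pk k p then LW ΛX p.1 * LW ΛY p.2 else 0)))
        (fun _ _ => zero_le) hjJ)
      by_cases hs : ∃ k' ∈ D j, Pk k' p
      · obtain ⟨k', hk', hP⟩ := hs
        refine le_trans ?_ le_add_self
        refine le_trans (le_of_eq ?_) (Finset.single_le_sum (f := fun k =>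
          (if HT hX p.1 = n ∧ HT hY p.2 = n ∧ Pk k p then LW ΛX p.1 * LW ΛY p.2 else 0))
          (fun _ _ => zero_le) hk')
        rw [if_pos ⟨hn1, hn2, hP⟩]
      · refine le_trans (le_of_eq ?_) le_self_add
        have hall : ∀ z' k', Con CX CY w p.1 p.2 z' k' → j * T < k' → k' ≤ j * T + T + 2 * i0 →
            j * T + 2 * i0 + s + 1 ≤ k' ∧ k' ≤ j * T + T - s := by
          intro z' k' hcon h1 h2
          by_contra h3
          refine hs ⟨k', ?_, z', hcon.1, hcon.2⟩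
          simp only [hD, Finset.mem_union, Finset.mem_Ioc]
          omega
        have hw : Wj j p := by
          have h0 := hall z k ⟨hz1, hz2⟩ (by omega) (by omega)
          exact ⟨⟨z, k, ⟨hz1, hz2⟩, h0.1, h0.2⟩, hall⟩
        rw [if_pos ⟨hn1, hn2, hw⟩]
    · rw [if_neg hcc]; exact zero_le
  have e0 : ∑' LX : List BX, ∑' LY : List BY, (if HT hX LX = n ∧ HT hY LY = n ∧
        (∃ z k, (z, k) ∈ CX LX 0 0 ∧ (z, k) ∈ CY LY w 0 ∧ m < k ∧ k ≤ 2 * m)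
        then LW ΛX LX * LW ΛY LY else 0) = ∑' p : List BX × List BY,
      (if HT hX p.1 = n ∧ HT hY p.2 = n ∧
        (∃ z k, (z, k) ∈ CX p.1 0 0 ∧ (z, k) ∈ CY p.2 w 0 ∧ m < k ∧ k ≤ 2 * m)
        then LW ΛX p.1 * LW ΛY p.2 else 0) :=
    (ENNReal.tsum_prod' (f := fun p : List BX × List BY => (if HT hX p.1 = n ∧ HT hY p.2 = n ∧
        (∃ z k, (z, k) ∈ CX p.1 0 0 ∧ (z, k) ∈ CY p.2 w 0 ∧ m < k ∧ k ≤ 2 * m)
        then LW ΛX p.1 * LW ΛY p.2 else 0))).symm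
  rw [e0]
  refine (ENNReal.tsum_le_tsum cover).trans ?_
  rw [Summable.tsum_finsetSum (fun _ _ => ENNReal.summable)]
  set R : ℝ≥0∞ := 4 * (ov ΛX hX i0 + ov ΛY hY i0) + 4 * η + u ^ 2
        + 2 * ((1 - u) ^ (K / 8) + K * (ov ΛX hX i0 + ov ΛY hY i0) / u)
        + 2 * ((i0 : ℝ≥0∞) + 1) ^ 4 * (C * (lam + (K * ((i0 : ℝ≥0∞) + 1) / u) * us s / lam + us s))
    with hR
  have hwin : ∀ j ∈ J, ∑' p : List BX × List BY,
      ((if HT hX p.1 = n ∧ HT hY p.2 = n ∧ Wj j p then LW ΛX p.1 * LW ΛY p.2 else 0)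
        + ∑ k ∈ D j, (if HT hX p.1 = n ∧ HT hY p.2 = n ∧ Pk k p then LW ΛX p.1 * LW ΛY p.2 else 0))
      ≤ R := by
    intro j hj
    obtain ⟨hb1, hb2⟩ := hjb j hj
    have hut : u ≠ ⊤ := ne_top_of_le_ne_top ENNReal.one_ne_top hu1
    have hj8 : K / 8 * 8 ≤ K := Nat.div_mul_le_self K 8
    have hJa : K / 8 * (T + i0 + i0 + i0) ≤ K * T := by
      calc K / 8 * (T + i0 + i0 + i0) ≤ K / 8 * (8 * T) := Nat.mul_le_mul_left _ (by omega)
        _ = K / 8 * 8 * T := by ring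
        _ ≤ K * T := Nat.mul_le_mul_right _ hj8
    have hJ1 : K / 8 * (T + i0) ≤ j * T :=
      (Nat.mul_le_mul_left _ (by omega)).trans (hJa.trans hb1)
    have hJ2 : K / 8 * ((T + i0) + i0) ≤ j * T + i0 :=
      ((Nat.mul_le_mul_left _ (by omega)).trans (hJa.trans hb1)).trans (Nat.le_add_right _ _)
    rw [ENNReal.tsum_add, Summable.tsum_finsetSum (fun _ _ => ENNReal.summable)]
    have hW := W_le ΛX hX zX ΛY hY zY CX CY hX1 hY1 hΛX hΛY hUX hUY aPX dPX sPX aPY dPY sPY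
      (j * T) T (j * T + i0) (T + i0) i0 (j * T + 2 * i0 + s + 1) (j * T + T - s)
      (j * T + T + 2 * i0) n w (by omega) (by omega) (by omega) (by omega) (by omega) (by omega)
      (by omega)
    have hM := MS_le ΛX hX zX ΛY hY zY CX CY H2' H3' hX1 hY1 hΛX hΛY hUX hUY
      (j * T) T (j * T + i0) (T + i0) i0 (j * T + 2 * i0 + s + 1) (j * T + T - s) s (K / 8) w
      hu0 hu1 hl hl' (by omega) (by omega) (by omega) (by omega) (by omega) (by omega) hJ1 hJ2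
    have hS : ∑ k ∈ D j, ∑' p : List BX × List BY,
        (if HT hX p.1 = n ∧ HT hY p.2 = n ∧ Pk k p then LW ΛX p.1 * LW ΛY p.2 else 0) ≤ η := by
      calc _ ≤ ∑ _k ∈ D j, η / (c : ℝ≥0∞) := by
            refine Finset.sum_le_sum fun k hk => ?_
            simp only [hD, Finset.mem_union, Finset.mem_Ioc] at hk
            rw [ENNReal.tsum_prod']
            exact hk0 k (by omega) n (by omega) w
        _ = (D j).card * (η / (c : ℝ≥0∞)) := by rw [Finset.sum_const, nsmul_eq_mul]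
        _ ≤ (c : ℝ≥0∞) * (η / (c : ℝ≥0∞)) := by
            refine mul_le_mul_left ?_ _
            exact_mod_cast hDcard j
        _ = η := ENNReal.mul_div_cancel (by rw [hc]; simp) (ENNReal.natCast_ne_top _)
    refine (add_le_add (hW.trans (add_le_add le_rfl hM)) hS).trans ?_
    rw [hR]
    have i1 : ((i0 + 1 : ℕ) : ℝ≥0∞) = (i0 : ℝ≥0∞) + 1 := by push_cast; rfl
    rw [i1]
    have hK1 : (1 : ℝ≥0∞) ≤ (K : ℝ≥0∞) := by exact_mod_cast hKpos
    have hui : (1 : ℝ≥0∞) ≤ u⁻¹ := ENNReal.one_le_inv.2 hu1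
    have b1 : ∀ x : ℝ≥0∞, ((K / 8 : ℕ) : ℝ≥0∞) * x ≤ K * x / u := by
      intro x
      calc ((K / 8 : ℕ) : ℝ≥0∞) * x ≤ (K : ℝ≥0∞) * x := by
            refine mul_le_mul_left ?_ _
            exact_mod_cast Nat.div_le_self K 8
        _ = (K : ℝ≥0∞) * x * 1 := (mul_one _).symm
        _ ≤ K * x * u⁻¹ := mul_le_mul_right hui _
        _ = _ := by rw [div_eq_mul_inv]
    have b2 : C * (lam + (((i0 : ℝ≥0∞) + 1) / u) * us s / lam + us s)
        ≤ C * (lam + (K * ((i0 : ℝ≥0∞) + 1) / u) * us s / lam + us s) := by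
      refine mul_le_mul_right ?_ _
      refine add_le_add (add_le_add le_rfl ?_) le_rfl
      refine ENNReal.div_le_div_right (mul_le_mul_left ?_ _) _
      refine ENNReal.div_le_div_right ?_ _
      calc (i0 : ℝ≥0∞) + 1 = 1 * ((i0 : ℝ≥0∞) + 1) := (one_mul _).symm
        _ ≤ _ := mul_le_mul_left hK1 _
    calc 2 * ov ΛX hX i0 + 2 * ov ΛY hY i0 +
          (u * u + ((1 - u) ^ (K / 8) + ((K / 8 : ℕ) : ℝ≥0∞) * ov ΛX hX i0)
            + ((1 - u) ^ (K / 8) + ((K / 8 : ℕ) : ℝ≥0∞) * ov ΛY hY i0)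
            + 2 * (((i0 : ℝ≥0∞) + 1) ^ 4 * (C * (lam + (((i0 : ℝ≥0∞) + 1) / u) * us s / lam + us s)))) + η
        ≤ 2 * ov ΛX hX i0 + 2 * ov ΛY hY i0 +
          (u * u + ((1 - u) ^ (K / 8) + K * (ov ΛX hX i0) / u)
            + ((1 - u) ^ (K / 8) + K * (ov ΛY hY i0) / u)
            + 2 * (((i0 : ℝ≥0∞) + 1) ^ 4 *
              (C * (lam + (K * ((i0 : ℝ≥0∞) + 1) / u) * us s / lam + us s)))) + η := by
          refine add_le_add (add_le_add le_rfl (add_le_add (add_le_add (add_le_add le_rfl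
            (add_le_add le_rfl (b1 _))) (add_le_add le_rfl (b1 _)))
            (mul_le_mul_right (mul_le_mul_right b2 _) _))) le_rfl
      _ ≤ _ := by
          have e1 : (K : ℝ≥0∞) * (ov ΛX hX i0) / u + K * (ov ΛY hY i0) / u
              = K * (ov ΛX hX i0 + ov ΛY hY i0) / u := by
            simp only [div_eq_mul_inv]; ring
          set o1 := ov ΛX hX i0
          set o2 := ov ΛY hY i0
          set r := (1 - u) ^ (K / 8)
          set v := (K : ℝ≥0∞) * (o1 + o2) / u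
          set y := C * (lam + (K * ((i0 : ℝ≥0∞) + 1) / u) * us s / lam + us s)
          calc _ = 2 * (o1 + o2) + η + u ^ 2 + 2 * r + (K * o1 / u + K * o2 / u)
                + 2 * ((i0 : ℝ≥0∞) + 1) ^ 4 * y := by ring
            _ ≤ 4 * (o1 + o2) + 4 * η + u ^ 2 + 2 * r + 2 * v + 2 * ((i0 : ℝ≥0∞) + 1) ^ 4 * y := by
                rw [e1]
                refine add_le_add (add_le_add (add_le_add (add_le_add (add_le_add ?_ ?_) le_rfl)
                  le_rfl) ?_) le_rfl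
                · exact mul_le_mul_left (by norm_num) _
                · calc η = 1 * η := (one_mul _).symm
                    _ ≤ 4 * η := mul_le_mul_left (by norm_num) _
                · calc v = 1 * v := (one_mul _).symm
                    _ ≤ 2 * v := mul_le_mul_left (by norm_num) _
            _ = _ := by ring
  calc _ ≤ ∑ _j ∈ J, R := Finset.sum_le_sum hwin
    _ = (J.card : ℝ≥0∞) * R := by rw [Finset.sum_const, nsmul_eq_mul]
    _ ≤ (4 * (K : ℝ≥0∞) + 8) * R := by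
        refine mul_le_mul_left ?_ _
        rw [hJ, Nat.card_Icc]
        have : 2 * K + 1 - K ≤ 4 * K + 8 := by omega
        calc ((2 * K + 1 - K : ℕ) : ℝ≥0∞) ≤ ((4 * K + 8 : ℕ) : ℝ≥0∞) := by exact_mod_cast this
          _ = _ := by push_cast; rfl
    _ ≤ ε := hnum

end W

end Crest.Agent.R154.Asm309
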