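import Crest.Agent.R154.AsmE_325

/-! Row 154 (T0219, road 801), helper325: abstract assembly, part F: the bound of one window. -/

set_option autoImplicit false

namespace Crest.Agent.R154.Asm325

open scoped ENNReal Classical
open Crest.Agent.R154.B5A Crest.Agent.R154.FP178

variable {BX BY G : Type*} [AddCommGroup G]
variable (ΛX : BX → ℝ≥0∞) (hX : BX → ℕ) (zX : BX → G) (sX : BX → Set (G × ℕ))
  (ΛY : BY → ℝ≥0∞) (hY : BY → ℕ) (zY : BY → G) (sY : BY → Set (G × ℕ))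

lemma rearr (wA : List BX → ℝ≥0∞) (wP : List BX → ℝ≥0∞) (wA' wP' : List BY → ℝ≥0∞)
    (F : List BX → List BX → List BY → List BY → ℝ≥0∞) :
    ∑' A, wA A * ∑' P, wP P * ∑' A', wA' A' * ∑' P', wP' P' * F A P A' P'
      = ∑' A, wA A * ∑' A', wA' A' * ∑' P, wP P * ∑' P', wP' P' * F A P A' P' := by
  refine tsum_congr fun A => ?_
  congr 1
  simp only [← ENNReal.tsum_mul_left]
  rw [ENNReal.tsum_comm]
  refine tsum_congr fun A' => tsum_congr fun P => tsum_congr fun P' => ?_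
  ring

lemma four_add (wA : List BX → ℝ≥0∞) (wP : List BX → ℝ≥0∞) (wA' wP' : List BY → ℝ≥0∞)
    (F F' : List BX → List BX → List BY → List BY → ℝ≥0∞) :
    ∑' A, wA A * ∑' P, wP P * ∑' A', wA' A' * ∑' P', wP' P' * (F A P A' P' + F' A P A' P')
      = ∑' A, wA A * ∑' P, wP P * ∑' A', wA' A' * ∑' P', wP' P' * F A P A' P'
        + ∑' A, wA A * ∑' P, wP P * ∑' A', wA' A' * ∑' P', wP' P' * F' A P A' P' := by
  simp only [mul_add, ENNReal.tsum_add]

lemma four_mono (wA : List BX → ℝ≥0∞) (wP : List BX → ℝ≥0∞) (wA' wP' : List BY → ℝ≥0∞)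
    (F F' : List BX → List BX → List BY → List BY → ℝ≥0∞)
    (hF : ∀ A P A' P', F A P A' P' ≤ F' A P A' P') :
    ∑' A, wA A * ∑' P, wP P * ∑' A', wA' A' * ∑' P', wP' P' * F A P A' P'
      ≤ ∑' A, wA A * ∑' P, wP P * ∑' A', wA' A' * ∑' P', wP' P' * F' A P A' P' := by
  refine ENNReal.tsum_le_tsum fun A => mul_le_mul_right (ENNReal.tsum_le_tsum fun P =>
    mul_le_mul_right (ENNReal.tsum_le_tsum fun A' => mul_le_mul_right
      (ENNReal.tsum_le_tsum fun P' => mul_le_mul_right (hF _ _ _ _) _) _) _) _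

/-- from crossings of fixed heights to pieces -/
lemma piece_sum (S S' i0 : ℕ) (Pr : ℕ → ℕ → List BX → List BY → Prop)
    (Rr : List BX → List BY → Prop)
    (hPR : ∀ P P', Rr P P' → Pr (HT hX P) (HT hY P') P P') :
    ∑' P, wt ΛX hX S i0 P * ∑' P', wt ΛY hY S' i0 P' * (if Rr P P' then 1 else 0)
      ≤ ∑ k ∈ Finset.Icc S (S + i0), ∑ k' ∈ Finset.Icc S' (S' + i0),
        ∑' L, ∑' L', (if HT hX L = k ∧ HT hY L' = k' ∧ Pr k k' L L'
          then LW ΛX L * LW ΛY L' else 0) := by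
  have e1 : ∑ k ∈ Finset.Icc S (S + i0), ∑ k' ∈ Finset.Icc S' (S' + i0),
        ∑' L, ∑' L', (if HT hX L = k ∧ HT hY L' = k' ∧ Pr k k' L L'
          then LW ΛX L * LW ΛY L' else 0)
      = ∑' L, ∑' L', ∑ k ∈ Finset.Icc S (S + i0), ∑ k' ∈ Finset.Icc S' (S' + i0),
        (if HT hX L = k ∧ HT hY L' = k' ∧ Pr k k' L L' then LW ΛX L * LW ΛY L' else 0) := by
    symm
    calc _ = ∑' L, ∑ k ∈ Finset.Icc S (S + i0), ∑ k' ∈ Finset.Icc S' (S' + i0), ∑' L',
        (if HT hX L = k ∧ HT hY L' = k' ∧ Pr k k' L L' then LW ΛX L * LW ΛY L' else 0) := by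
          refine tsum_congr fun L => ?_
          rw [Summable.tsum_finsetSum (fun _ _ => ENNReal.summable)]
          exact Finset.sum_congr rfl fun k _ =>
            Summable.tsum_finsetSum (fun _ _ => ENNReal.summable)
      _ = _ := by
          rw [Summable.tsum_finsetSum (fun _ _ => ENNReal.summable)]
          exact Finset.sum_congr rfl fun k _ =>
            Summable.tsum_finsetSum (fun _ _ => ENNReal.summable)
  rw [e1]
  refine ENNReal.tsum_le_tsum fun P => ?_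
  rw [← ENNReal.tsum_mul_left]
  refine ENNReal.tsum_le_tsum fun P' => ?_
  by_cases h1 : fp hX S P ∧ HT hX P ≤ S + i0
  · by_cases h2 : fp hY S' P' ∧ HT hY P' ≤ S' + i0
    · by_cases h3 : Rr P P'
      · rw [wt, wt, if_pos h1, if_pos h2, if_pos h3, mul_one]
        have m1 : HT hX P ∈ Finset.Icc S (S + i0) :=
          Finset.mem_Icc.2 ⟨le_HT_of_fp hX h1.1, h1.2⟩
        have m2 : HT hY P' ∈ Finset.Icc S' (S' + i0) :=
          Finset.mem_Icc.2 ⟨le_HT_of_fp hY h2.1, h2.2⟩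
        calc LW ΛX P * LW ΛY P'
            = (if HT hX P = HT hX P ∧ HT hY P' = HT hY P' ∧ Pr (HT hX P) (HT hY P') P P'
              then LW ΛX P * LW ΛY P' else 0) := by rw [if_pos ⟨rfl, rfl, hPR P P' h3⟩]
          _ ≤ ∑ k' ∈ Finset.Icc S' (S' + i0), (if HT hX P = HT hX P ∧ HT hY P' = k' ∧
              Pr (HT hX P) k' P P' then LW ΛX P * LW ΛY P' else 0) :=
              Finset.single_le_sum (f := fun k' => (if HT hX P = HT hX P ∧ HT hY P' = k' ∧
              Pr (HT hX P) k' P P' then LW ΛX P * LW ΛY P' else 0)) (fun _ _ => bot_le) m2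
          _ ≤ _ := Finset.single_le_sum (f := fun k => ∑ k' ∈ Finset.Icc S' (S' + i0),
              (if HT hX P = k ∧ HT hY P' = k' ∧
              Pr k k' P P' then LW ΛX P * LW ΛY P' else 0)) (fun _ _ => bot_le) m1
      · rw [if_neg h3]; simp
    · rw [wt, wt, if_neg h2]; simp
  · rw [wt, if_neg h1]; simp

/-- **one window** -/
theorem window_bound (hX1 : ∀ b, 1 ≤ hX b) (hY1 : ∀ b, 1 ≤ hY b) (hΛX : ∑' b, ΛX b = 1)
    (hΛY : ∑' b, ΛY b = 1) (hUX : ∀ n, U ΛX hX n ≤ 1) (hUY : ∀ n, U ΛY hY n ≤ 1)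
    (hsX : ∀ b, ∀ q ∈ sX b, 1 ≤ q.2 ∧ q.2 ≤ hX b) (hsY : ∀ b, ∀ q ∈ sY b, 1 ≤ q.2 ∧ q.2 ≤ hY b)
    (C : ℝ≥0∞) (us : ℕ → ℝ≥0∞)
    (h2 : H2 ΛX hX zX sX ΛY hY zY sY C us) (h3 : H3 ΛX hX zX sX ΛY hY zY sY C us)
    (T S T' S' i0 n lo hi hw s J : ℕ) (hT' : T' = T + i0) (hS' : S' = S + i0)
    (hn : T' + i0 + S' + i0 ≤ n) (hlo : T' + i0 < lo)
    (hlo' : T' + i0 + s ≤ lo) (hhw : hw ≤ T + S) (hhi : hi + s ≤ T + S)
    (hJ : J * (S' + i0) ≤ T)
    (u lam : ℝ≥0∞) (hu : u ≠ 0) (hu1 : u < 1) (hlam : lam ≠ 0) (hlam' : lam ≠ ⊤)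
    (e : ℝ≥0∞) (hovX : ∀ T, ∑' A, (if fp hX T A ∧ T + i0 < HT hX A then LW ΛX A else 0) ≤ e)
    (hovY : ∀ T, ∑' A, (if fp hY T A ∧ T + i0 < HT hY A then LW ΛY A else 0) ≤ e) (w : G) :
    ∑' LX, ∑' LY, (if HT hX LX = n ∧ HT hY LY = n ∧
        Ev hX zX sX hY zY sY lo hi hw (T + S + 2 * i0) w LX LY
        then LW ΛX LX * LW ΛY LY else 0) ≤ 4 * e + u * u +
      2 * (((i0 + 1 : ℕ) : ℝ≥0∞) ^ 4 * (C * (lam + ((i0 + 1 : ℕ) : ℝ≥0∞) *
        (∑ j ∈ Finset.range J, (1 - u) ^ j) * us s / lam + us s)) +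
        ((1 - u) ^ J + J * e)) := by
  obtain ⟨θX, hθX0, hθX1, hnlX, hrX, hEX⟩ := exists_th ΛX hX zX hX1 hΛX S i0 u hu hu1
  obtain ⟨θY, hθY0, hθY1, hnlY, hrY, hEY⟩ := exists_th ΛY hY zY hY1 hΛY S' i0 u hu hu1
  choose EX hEX1 hEX2 using hEX
  choose EY hEY1 hEY2 using hEY
  obtain ⟨gX, bX, hgbX, hgX, hbX⟩ := smooth ΛX hX zX hX1 hΛX.le S i0 θX (1 - u) e tsub_le_self hrX
    (hovX S) J T (le_trans (Nat.mul_le_mul_left _ (by omega)) hJ)
  obtain ⟨gY, bY, hgbY, hgY, hbY⟩ := smooth ΛY hY zY hY1 hΛY.le S' i0 θY (1 - u) e tsub_le_self hrY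
    (hovY S') J T' (hJ.trans (by omega))
  set σ : ℝ≥0∞ := ∑ j ∈ Finset.range J, (1 - u) ^ j with hσ
  set β0 : ℝ≥0∞ := C * (lam + ((i0 + 1 : ℕ) : ℝ≥0∞) * σ * us s / lam + us s)
    with hβ0
  set Q := fun (A : List BX) (P : List BX) (A' : List BY) (P' : List BY) =>
    Qc hX zX sX hY zY sY lo hi P P' (w + dL zY A' - dL zX A) (HT hX A) (HT hY A') with hQ
  set lX : List BX → Prop := fun P => θX ≤ pL ΛX hX zX S (HT hX P - S) (dL zX P) with hlX
  set lY : List BY → Prop := fun P' => θY ≤ pL ΛY hY zY S' (HT hY P' - S') (dL zY P') with hlY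
  refine (pair_reduce ΛX hX zX sX ΛY hY zY sY hX1 hY1 hΛX hΛY hUX hUY hsX hsY T S T' S' i0 n lo hi hw
    (by omega) hn (by omega) hlo hhw (by omega) e hovX hovY w).trans ?_
  rw [add_assoc]
  refine add_le_add le_rfl ?_
  -- pointwise split
  have hpt : ∀ A P A' P', (if Q A P A' P' then (1 : ℝ≥0∞) else 0)
      ≤ (if pL ΛX hX zX S (HT hX P - S) (dL zX P) < θX then 1 else 0) *
          (if pL ΛY hY zY S' (HT hY P' - S') (dL zY P') < θY then 1 else 0)
        + ((if lX P ∧ Q A P A' P' then 1 else 0) + (if lY P' ∧ Q A P A' P' then 1 else 0)) := by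
    intro A P A' P'
    by_cases hq : Q A P A' P'
    · by_cases c1 : lX P
      · rw [if_pos hq]
        calc (1 : ℝ≥0∞) = (if lX P ∧ Q A P A' P' then 1 else 0) := by rw [if_pos ⟨c1, hq⟩]
          _ ≤ _ := le_self_add
          _ ≤ _ := le_add_self
      · by_cases c2 : lY P'
        · rw [if_pos hq]
          calc (1 : ℝ≥0∞) = (if lY P' ∧ Q A P A' P' then 1 else 0) := by rw [if_pos ⟨c2, hq⟩]
            _ ≤ _ := le_add_self
            _ ≤ _ := le_add_self
        · rw [if_pos hq, if_pos (not_le.1 c1), if_pos (not_le.1 c2), mul_one]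
          exact le_self_add
    · rw [if_neg hq]; exact bot_le
  refine (four_mono (wt ΛX hX T i0) (wt ΛX hX S i0) (wt ΛY hY T' i0) (wt ΛY hY S' i0) _ _
    hpt).trans ?_
  rw [four_add]
  refine add_le_add ?_ ?_
  · -- both non local
    have hswX := sum_wt_le ΛX hX hX1 hΛX T i0
    have hswY := sum_wt_le ΛY hY hY1 hΛY T' i0
    have e0 : ∑' A, wt ΛX hX T i0 A * ∑' P, wt ΛX hX S i0 P * ∑' A', wt ΛY hY T' i0 A' *
        ∑' P', wt ΛY hY S' i0 P' * ((if pL ΛX hX zX S (HT hX P - S) (dL zX P) < θX then 1 else 0) *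
          (if pL ΛY hY zY S' (HT hY P' - S') (dL zY P') < θY then 1 else 0))
        = (∑' A, wt ΛX hX T i0 A) * ((∑' P, wt ΛX hX S i0 P *
          (if pL ΛX hX zX S (HT hX P - S) (dL zX P) < θX then 1 else 0)) *
          ((∑' A', wt ΛY hY T' i0 A') * (∑' P', wt ΛY hY S' i0 P' *
          (if pL ΛY hY zY S' (HT hY P' - S') (dL zY P') < θY then 1 else 0)))) := by
      rw [← ENNReal.tsum_mul_right]
      refine tsum_congr fun A => ?_
      congr 1
      rw [← ENNReal.tsum_mul_right]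
      refine tsum_congr fun P => ?_
      rw [mul_assoc]
      congr 1
      rw [← ENNReal.tsum_mul_right, ← ENNReal.tsum_mul_left]
      refine tsum_congr fun A' => ?_
      rw [← ENNReal.tsum_mul_left, ← ENNReal.tsum_mul_left, ← ENNReal.tsum_mul_left]
      refine tsum_congr fun P' => ?_
      ring
    rw [e0]
    calc _ ≤ 1 * (u * (1 * u)) :=
          mul_le_mul' hswX (mul_le_mul' hnlX (mul_le_mul' hswY hnlY))
      _ = u * u := by rw [one_mul, one_mul]
  rw [four_add, two_mul]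
  have hcard : ∀ (θ : ℝ≥0∞) (E : Finset G), (E.card : ℝ≥0∞) * θ ≤ 1 →
      C * (lam + θ * (i0 + 1) * σ * E.card * us s / lam + us s) ≤ β0 := by
    intro θ E hE
    rw [hβ0]
    refine mul_le_mul_right (add_le_add (add_le_add le_rfl (ENNReal.div_le_div_right ?_ _)) le_rfl) _
    refine mul_le_mul_left ?_ _
    calc θ * (i0 + 1) * σ * E.card = (E.card * θ) * (((i0 + 1 : ℕ) : ℝ≥0∞) * σ) := by
          push_cast; ring
      _ ≤ 1 * (((i0 + 1 : ℕ) : ℝ≥0∞) * σ) := mul_le_mul_left hE _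
      _ = _ := one_mul _
  have hIc : (Finset.Icc S (S + i0)).card = i0 + 1 := by rw [Nat.card_Icc]; omega
  have hIc' : (Finset.Icc S' (S' + i0)).card = i0 + 1 := by rw [Nat.card_Icc]; omega
  refine add_le_add ?_ ?_
  · -- X local
    rw [rearr]
    set Hx : ℕ → ℕ → G → ℝ≥0∞ := fun a a' x => ∑' P, wt ΛX hX S i0 P * ∑' P', wt ΛY hY S' i0 P' *
      (if lX P ∧ Qc hX zX sX hY zY sY lo hi P P' x a a' then 1 else 0) with hHx
    have hH1 : ∀ a a' x, Hx a a' x ≤ 1 := by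
      intro a a' x
      calc Hx a a' x ≤ ∑' P, wt ΛX hX S i0 P * 1 := by
            refine ENNReal.tsum_le_tsum fun P => mul_le_mul_right ?_ _
            refine le_trans (ENNReal.tsum_le_tsum fun P' => ?_) (sum_wt_le ΛY hY hY1 hΛY S' i0)
            calc _ ≤ wt ΛY hY S' i0 P' * 1 := mul_le_mul_right (by split_ifs <;> simp) _
              _ = _ := mul_one _
        _ ≤ 1 := by simpa using sum_wt_le ΛX hX hX1 hΛX S i0
    refine le_trans (loc_sum ΛX hX zX ΛY hY zY hX1 hY1 hΛX hΛY T T' i0 Hx hH1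
      (((i0 + 1 : ℕ) : ℝ≥0∞) ^ 2 * β0) (θX * (i0 + 1) * σ) ((1 - u) ^ J + J * e) ?_ gX bX hgbX hgX
      hbX w) (le_of_eq (by ring))
    intro a a' ha1 ha2 ha1' ha2' μ hμ hμM
    obtain ⟨PrX, hPrX⟩ : ∃ PrX : G → ℕ → List BX → List BY → Prop, PrX = fun x k L L' =>
      dL zX L ∈ EX (k - S) ∧ Qc hX zX sX hY zY sY lo hi L L' x a a' := ⟨_, rfl⟩
    calc ∑' x, μ x * Hx a a' x ≤ ∑' x, μ x * ∑ k ∈ Finset.Icc S (S + i0),
          ∑ k' ∈ Finset.Icc S' (S' + i0), ∑' L, ∑' L', (if HT hX L = k ∧ HT hY L' = k' ∧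
            PrX x k L L' then LW ΛX L * LW ΛY L' else 0) := by
          refine ENNReal.tsum_le_tsum fun x => mul_le_mul_right ?_ _
          refine le_trans (le_of_eq ?_) (piece_sum ΛX hX ΛY hY S S' i0
            (fun k _ L L' => PrX x k L L')
            (fun P P' => lX P ∧ Qc hX zX sX hY zY sY lo hi P P' x a a')
            (fun P P' hh => by rw [hPrX]; exact ⟨hEX1 _ _ hh.1, hh.2⟩))
          refine tsum_congr fun P => ?_
          congr 1
          refine tsum_congr fun P' => ?_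
          by_cases hc : lX P ∧ Qc hX zX sX hY zY sY lo hi P P' x a a'
          · rw [if_pos hc, if_pos hc]
          · rw [if_neg hc, if_neg hc]
      _ = ∑ k ∈ Finset.Icc S (S + i0), ∑ k' ∈ Finset.Icc S' (S' + i0), ∑' x, μ x *
          ∑' L, ∑' L', (if HT hX L = k ∧ HT hY L' = k' ∧
            PrX x k L L' then LW ΛX L * LW ΛY L' else 0) := by
          simp only [Finset.mul_sum]
          rw [Summable.tsum_finsetSum fun _ _ => ENNReal.summable]
          refine Finset.sum_congr rfl fun k _ => ?_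
          rw [Summable.tsum_finsetSum fun _ _ => ENNReal.summable]
      _ ≤ ∑ k ∈ Finset.Icc S (S + i0), ∑ k' ∈ Finset.Icc S' (S' + i0), β0 := by
          refine Finset.sum_le_sum fun k hk => Finset.sum_le_sum fun k' hk' => ?_
          rw [Finset.mem_Icc] at hk hk'
          refine le_trans ?_ (hcard θX (EX (k - S)) (hEX2 _))
          refine le_trans ?_ (h2 s k k' a a' lo (EX (k - S)) μ (θX * (i0 + 1) * σ) lam hμ
            hμM hlam hlam' (by omega) (by omega) (by omega))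
          refine ENNReal.tsum_le_tsum fun x => mul_le_mul_right (ENNReal.tsum_le_tsum fun L =>
            ENNReal.tsum_le_tsum fun L' => ?_) _
          by_cases hc : HT hX L = k ∧ HT hY L' = k' ∧ PrX x k L L'
          · rw [if_pos hc]
            rw [hPrX] at hc
            rw [if_pos ⟨hc.1, hc.2.2.1, hc.2.1, hc.2.2.2.1, fun p hp => (hc.2.2.2.2 p hp).1⟩]
          · rw [if_neg hc]; exact bot_le
      _ = ((i0 + 1 : ℕ) : ℝ≥0∞) ^ 2 * β0 := by
          rw [Finset.sum_const, Finset.sum_const, hIc, hIc', nsmul_eq_mul, nsmul_eq_mul, ← mul_assoc, sq]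
  · -- Y local
    rw [rearr]
    set Hy : ℕ → ℕ → G → ℝ≥0∞ := fun a a' x => ∑' P, wt ΛX hX S i0 P * ∑' P', wt ΛY hY S' i0 P' *
      (if lY P' ∧ Qc hX zX sX hY zY sY lo hi P P' x a a' then 1 else 0) with hHy
    have hH1 : ∀ a a' x, Hy a a' x ≤ 1 := by
      intro a a' x
      calc Hy a a' x ≤ ∑' P, wt ΛX hX S i0 P * 1 := by
            refine ENNReal.tsum_le_tsum fun P => mul_le_mul_right ?_ _
            refine le_trans (ENNReal.tsum_le_tsum fun P' => ?_) (sum_wt_le ΛY hY hY1 hΛY S' i0)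
            calc _ ≤ wt ΛY hY S' i0 P' * 1 := mul_le_mul_right (by split_ifs <;> simp) _
              _ = _ := mul_one _
        _ ≤ 1 := by simpa using sum_wt_le ΛX hX hX1 hΛX S i0
    refine le_trans (loc_sum' ΛX hX zX ΛY hY zY hX1 hY1 hΛX hΛY T T' i0 Hy hH1
      (((i0 + 1 : ℕ) : ℝ≥0∞) ^ 2 * β0) (θY * (i0 + 1) * σ) ((1 - u) ^ J + J * e) ?_ gY bY hgbY hgY
      hbY w) (le_of_eq (by ring))
    intro a a' ha1 ha2 ha1' ha2' μ hμ hμM
    obtain ⟨PrY, hPrY⟩ : ∃ PrY : G → ℕ → List BX → List BY → Prop, PrY = fun x k' L L' =>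
      dL zY L' ∈ EY (k' - S') ∧ Qc hX zX sX hY zY sY lo hi L L' x a a' := ⟨_, rfl⟩
    calc ∑' x, μ x * Hy a a' x ≤ ∑' x, μ x * ∑ k ∈ Finset.Icc S (S + i0),
          ∑ k' ∈ Finset.Icc S' (S' + i0), ∑' L, ∑' L', (if HT hX L = k ∧ HT hY L' = k' ∧
            PrY x k' L L' then LW ΛX L * LW ΛY L' else 0) := by
          refine ENNReal.tsum_le_tsum fun x => mul_le_mul_right ?_ _
          refine le_trans (le_of_eq ?_) (piece_sum ΛX hX ΛY hY S S' i0
            (fun _ k' L L' => PrY x k' L L')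
            (fun P P' => lY P' ∧ Qc hX zX sX hY zY sY lo hi P P' x a a')
            (fun P P' hh => by rw [hPrY]; exact ⟨hEY1 _ _ hh.1, hh.2⟩))
          refine tsum_congr fun P => ?_
          congr 1
          refine tsum_congr fun P' => ?_
          by_cases hc : lY P' ∧ Qc hX zX sX hY zY sY lo hi P P' x a a'
          · rw [if_pos hc, if_pos hc]
          · rw [if_neg hc, if_neg hc]
      _ = ∑ k ∈ Finset.Icc S (S + i0), ∑ k' ∈ Finset.Icc S' (S' + i0), ∑' x, μ x *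
          ∑' L, ∑' L', (if HT hX L = k ∧ HT hY L' = k' ∧
            PrY x k' L L' then LW ΛX L * LW ΛY L' else 0) := by
          simp only [Finset.mul_sum]
          rw [Summable.tsum_finsetSum fun _ _ => ENNReal.summable]
          refine Finset.sum_congr rfl fun k _ => ?_
          rw [Summable.tsum_finsetSum fun _ _ => ENNReal.summable]
      _ ≤ ∑ k ∈ Finset.Icc S (S + i0), ∑ k' ∈ Finset.Icc S' (S' + i0), β0 := by
          refine Finset.sum_le_sum fun k hk => Finset.sum_le_sum fun k' hk' => ?_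
          rw [Finset.mem_Icc] at hk hk'
          refine le_trans ?_ (hcard θY (EY (k' - S')) (hEY2 _))
          refine le_trans ?_ (h3 s k k' a a' hi (EY (k' - S')) μ (θY * (i0 + 1) * σ) lam hμ
            hμM hlam hlam' (by omega) (by omega) (by omega))
          refine ENNReal.tsum_le_tsum fun x => mul_le_mul_right (ENNReal.tsum_le_tsum fun L =>
            ENNReal.tsum_le_tsum fun L' => ?_) _
          by_cases hc : HT hX L = k ∧ HT hY L' = k' ∧ PrY x k' L L'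
          · rw [if_pos hc]
            rw [hPrY] at hc
            rw [if_pos ⟨hc.1, hc.2.2.1, hc.2.1, hc.2.2.2.1, fun p hp => (hc.2.2.2.2 p hp).2⟩]
          · rw [if_neg hc]; exact bot_le
      _ = ((i0 + 1 : ℕ) : ℝ≥0∞) ^ 2 * β0 := by
          rw [Finset.sum_const, Finset.sum_const, hIc, hIc', nsmul_eq_mul, nsmul_eq_mul, ← mul_assoc, sq]

end Crest.Agent.R154.Asm325
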