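import Crest.Agent.R154.AsmE_354
import Crest.Agent.R154.Dens_903

/-! Row 154 (helper354), ROAD 801: assembly, part F: quantile, one window, extension, numbers. -/

set_option autoImplicit false

namespace Crest.Agent.R154.Asm354

open scoped ENNReal Topology
open Filter
open Crest.Agent.R154.B5A
open Crest.Agent.R154.FP178 (fp fp_nil fp_cons fp_zero le_HT_of_fp split sum_FP fp_split overshoot
  sum_fp_step sum_fp_zero)

section one
variable {B G : Type*} [AddCommGroup G] (Λ : B → ℝ≥0∞) (ht : B → ℕ) (z : B → G)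

open Classical in
theorem loc (h1 : ∀ b, 1 ≤ ht b) (hΛ : ∑' b, Λ b = 1) (i0 : ℕ) (η : ℝ≥0∞)
    (hη : ∀ a, ∑' L, (if fp ht a L ∧ a + i0 < HT ht L then LW Λ L else 0) ≤ η) (T : ℕ)
    (u : ℝ≥0∞) (hu0 : u ≠ 0) (hu1 : u ≤ 1) :
    ∃ (M : ℝ≥0∞) (E : ℕ → Finset G), (∀ h, M * (E h).card ≤ ((i0 + 1 : ℕ) : ℝ≥0∞) / u) ∧
      ∑' P, (if fp ht T P ∧ HT ht P ≤ T + i0 ∧ Dp z P ∉ E (HT ht P) then LW Λ P else 0) ≤ u ∧
      ∀ J a, J * (T + i0) ≤ a → ∃ Gd : List B → Prop,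
      (∀ h v, ∑' L, (if fp ht a L ∧ Gd L ∧ HT ht L = h ∧ Dp z L = v then LW Λ L else 0) ≤ M) ∧
      ∑' L, (if fp ht a L ∧ ¬ Gd L then LW Λ L else 0) ≤ (1 - u) ^ J + J * η := by
  have hutop : u ≠ ⊤ := ne_top_of_le_ne_top ENNReal.one_ne_top hu1
  obtain ⟨th, th0, th1, hq1, hq2⟩ := Crest.Agent.R154.Dens903.quantile
    (fun p : ℕ × G => pl Λ ht z T p.1 p.2) (sum_pl_one Λ ht z h1 hΛ T) hu0 hu1
  have hthtop : th ≠ ⊤ := ne_top_of_le_ne_top ENNReal.one_ne_top th1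
  have hsum : ∀ h, ∑' v, pl Λ ht z T h v ≤ 1 := fun h => by
    rw [← sum_pl_one Λ ht z h1 hΛ T, ENNReal.tsum_prod']
    exact ENNReal.le_tsum h
  choose hfin hcard using fun h =>
    ENNReal.finset_card_const_le_le_of_tsum_le (a := fun v => pl Λ ht z T h v)
      ENNReal.one_ne_top (hsum h) th0
  refine ⟨((i0 + 1 : ℕ) : ℝ≥0∞) * th / u, fun h => (hfin h).toFinset, fun h => ?_, ?_, ?_⟩
  · calc ((i0 + 1 : ℕ) : ℝ≥0∞) * th / u * ((hfin h).toFinset.card : ℝ≥0∞)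
        ≤ ((i0 + 1 : ℕ) : ℝ≥0∞) * th / u * (1 / th) := mul_le_mul_right (hcard h) _
      _ = ((i0 + 1 : ℕ) : ℝ≥0∞) / u * (th * th⁻¹) := by
          simp only [div_eq_mul_inv, one_mul]; ring
      _ = _ := by rw [ENNReal.mul_inv_cancel th0 hthtop, mul_one]
  · refine le_trans ?_ hq1
    have := sum_pl Λ ht z T (fun h v => if pl Λ ht z T h v < th then 1 else 0)
    have e : ∀ p : ℕ × G, pl Λ ht z T p.1 p.2 * (if pl Λ ht z T p.1 p.2 < th then 1 else 0)
        = (if pl Λ ht z T p.1 p.2 < th then pl Λ ht z T p.1 p.2 else 0) := fun p => by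
      split_ifs <;> simp
    rw [tsum_congr e] at this
    rw [this]
    refine ENNReal.tsum_le_tsum fun P => ?_
    by_cases hP : fp ht T P ∧ HT ht P ≤ T + i0 ∧ Dp z P ∉ (hfin (HT ht P)).toFinset
    · rw [if_pos hP, if_pos hP.1]
      have h3 := hP.2.2
      simp only [Set.Finite.mem_toFinset, Set.mem_setOf_eq, not_le] at h3
      rw [if_pos h3, mul_one]
    · rw [if_neg hP]; exact zero_le
  · refine dens Λ ht z h1 hΛ i0 η hη T th (1 - u) _ ?_ tsub_le_self ?_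
    · have h1' := sum_pl Λ ht z T (fun h v => if th < pl Λ ht z T h v then 1 else 0)
      have e : ∀ p : ℕ × G, pl Λ ht z T p.1 p.2 * (if th < pl Λ ht z T p.1 p.2 then 1 else 0)
          = (if th < pl Λ ht z T p.1 p.2 then pl Λ ht z T p.1 p.2 else 0) := fun p => by
        split_ifs <;> simp
      rw [tsum_congr e] at h1'
      have e2 : ∑' V, (if fp ht T V ∧ th < pl Λ ht z T (HT ht V) (Dp z V) then LW Λ V else 0)
          = ∑' V, (if fp ht T V then LW Λ V * (if th < pl Λ ht z T (HT ht V) (Dp z V) then 1 else 0)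
            else 0) := by
        refine tsum_congr fun V => ?_
        by_cases hV : fp ht T V
        · by_cases hV2 : th < pl Λ ht z T (HT ht V) (Dp z V)
          · rw [if_pos ⟨hV, hV2⟩, if_pos hV, if_pos hV2, mul_one]
          · rw [if_neg (fun h => hV2 h.2), if_pos hV, if_neg hV2, mul_zero]
        · rw [if_neg (fun h => hV h.1), if_neg hV]
      rw [e2, ← h1']
      refine ENNReal.le_sub_of_add_le_right hutop ?_
      refine le_trans (add_le_add le_rfl hq2) ?_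
      rw [← ENNReal.tsum_add, ← sum_pl_one Λ ht z h1 hΛ T]
      refine ENNReal.tsum_le_tsum fun p => ?_
      by_cases hp : th < pl Λ ht z T p.1 p.2
      · rw [if_pos hp, if_neg (not_le.2 hp), add_zero]
      · rw [if_neg hp, if_pos (not_lt.1 hp), zero_add]
    · have e : ((i0 + 1 : ℕ) : ℝ≥0∞) * th = u * (((i0 + 1 : ℕ) : ℝ≥0∞) * th / u) := by
        rw [ENNReal.mul_div_cancel hu0 hutop]
      calc ((i0 + 1 : ℕ) : ℝ≥0∞) * th + (1 - u) * (((i0 + 1 : ℕ) : ℝ≥0∞) * th / u)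
          = u * (((i0 + 1 : ℕ) : ℝ≥0∞) * th / u) + (1 - u) * (((i0 + 1 : ℕ) : ℝ≥0∞) * th / u) := by
            rw [← e]
        _ = (u + (1 - u)) * (((i0 + 1 : ℕ) : ℝ≥0∞) * th / u) := by rw [add_mul]
        _ ≤ _ := by rw [add_tsub_cancel_of_le hu1, one_mul]

open Classical in
/-- extension below -/
lemma ext1 (h1 : ∀ b, 1 ≤ ht b) (n r : ℕ) (c : ℝ≥0∞) (hc : c ≤ U Λ ht r) (φ φ' : List B → ℝ≥0∞)
    (hφ : ∀ L R, HT ht L = n → φ' L ≤ φ (L ++ R)) :
    c * ∑' L, (if HT ht L = n then LW Λ L * φ' L else 0)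
      ≤ ∑' L, (if HT ht L = n + r then LW Λ L * φ L else 0) := by
  have hfp : ∀ (L : List B) (m : ℕ), HT ht L = m → fp ht m L := by
    intro L
    induction L with
    | nil => intro m h; rw [HT_nil] at h; rw [fp_nil]; exact h.symm
    | cons b L ih =>
      intro m h
      rw [HT_cons] at h
      rw [fp_cons]
      have := h1 b
      exact ⟨by omega, ih _ (by omega)⟩
  have e0 : ∑' L, (if HT ht L = n + r then LW Λ L * φ L else 0)
      = ∑' L, (if n ≤ HT ht L then LW Λ L * (if HT ht L = n + r then φ L else 0) else 0) := by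
    refine tsum_congr fun L => ?_
    by_cases h : HT ht L = n + r
    · rw [if_pos h, if_pos (by omega), if_pos h]
    · rw [if_neg h, if_neg h, mul_zero, ite_self]
  rw [e0, split Λ ht h1 n (fun L => if HT ht L = n + r then φ L else 0), ← ENNReal.tsum_mul_left]
  refine ENNReal.tsum_le_tsum fun L => ?_
  by_cases h : HT ht L = n
  swap
  · rw [if_neg h, mul_zero]; exact zero_le
  rw [if_pos h, if_pos (hfp L n h)]
  calc c * (LW Λ L * φ' L) ≤ U Λ ht r * (LW Λ L * φ' L) := mul_le_mul_left hc _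
    _ = LW Λ L * ∑' R, (if HT ht R = r then LW Λ R else 0) * φ' L := by
        rw [ENNReal.tsum_mul_right, U]; ring
    _ ≤ _ := by
        refine mul_le_mul_right (ENNReal.tsum_le_tsum fun R => ?_) _
        by_cases hR : HT ht R = r
        · rw [if_pos hR, if_pos (by rw [HT_append]; omega)]
          exact mul_le_mul_right (hφ L R h) _
        · rw [if_neg hR, zero_mul]; exact zero_le

end one

lemma small (f : ℕ → ℝ≥0∞) (hf : Tendsto f atTop (𝓝 0)) (c e : ℝ≥0∞) (hc : c ≠ ⊤) (he : e ≠ 0) :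
    ∃ N, ∀ n, N ≤ n → c * f n ≤ e := by
  have h : Tendsto (fun n => c * f n) atTop (𝓝 (c * 0)) :=
    ENNReal.Tendsto.const_mul hf (Or.inr hc)
  rw [mul_zero] at h
  have := h.eventually (Iio_mem_nhds (pos_iff_ne_zero.2 he))
  obtain ⟨N, hN⟩ := eventually_atTop.1 this
  exact ⟨N, fun n hn => (hN n hn).le⟩

lemma nums (e : ℝ≥0∞) (he : e ≠ 0) : ∃ (K J : ℕ) (u : ℝ≥0∞), 5 ≤ K ∧ 4 * J + 1 ≤ K ∧ u ≠ 0 ∧
    u ≤ 1 ∧ ((K + 1 : ℕ) : ℝ≥0∞) * (u * u) ≤ e ∧ ((K + 1 : ℕ) : ℝ≥0∞) * (2 * (1 - u) ^ J) ≤ e := by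
  obtain ⟨e1, he1, he1'⟩ : ∃ e1 : ℝ, 0 < e1 ∧ ENNReal.ofReal e1 ≤ e := by
    by_cases h : e = ⊤
    · exact ⟨1, one_pos, by rw [h]; exact le_top⟩
    · exact ⟨e.toReal, ENNReal.toReal_pos he h, by rw [ENNReal.ofReal_toReal h]⟩
  -- δ
  set δ : ℝ := min 1 (e1 / 6) with hδ
  have hδ0 : 0 < δ := lt_min one_pos (by positivity)
  have hδ1 : δ ≤ 1 := min_le_left _ _
  have hδ2 : 6 * (δ * δ) ≤ e1 := by
    have : δ ≤ e1 / 6 := min_le_right _ _
    nlinarith
  set ρ : ℝ := Real.exp (-δ) with hρ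
  have hρ0 : 0 < ρ := Real.exp_pos _
  have hρ1 : ρ < 1 := by rw [hρ, Real.exp_lt_one_iff]; linarith
  have t1 : Tendsto (fun N : ℕ => (N : ℝ) ^ 2 * ρ ^ N) atTop (𝓝 0) :=
    tendsto_pow_const_mul_const_pow_of_abs_lt_one 2 (by rw [abs_of_pos hρ0]; exact hρ1)
  have t2 : Tendsto (fun N : ℕ => 12 * ((N : ℝ) ^ 2 * ρ ^ N)) atTop (𝓝 (12 * 0)) :=
    t1.const_mul 12
  rw [mul_zero] at t2
  obtain ⟨N0, hN0⟩ := eventually_atTop.1 (t2.eventually (Iio_mem_nhds he1))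
  set N := max N0 1 with hN
  have hN1 : 1 ≤ N := le_max_right _ _
  have hNr : (1 : ℝ) ≤ N := by exact_mod_cast hN1
  have hNp : (0 : ℝ) < N := by linarith
  have hk := hN0 N (le_max_left _ _)
  have hdN : δ / N ≤ 1 := by rw [div_le_one hNp]; linarith
  have hdN0 : 0 < δ / N := by positivity
  have hNsq : 1 ≤ N * N := Nat.one_le_iff_ne_zero.2 (by positivity)
  refine ⟨4 * (N * N) + 1, N * N, ENNReal.ofReal (δ / N), by omega, by omega, ?_, ?_, ?_, ?_⟩
  · rw [Ne, ENNReal.ofReal_eq_zero, not_le]; exact hdN0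
  · rw [← ENNReal.ofReal_one]; exact ENNReal.ofReal_le_ofReal hdN
  · refine le_trans ?_ he1'
    rw [← ENNReal.ofReal_natCast, ← ENNReal.ofReal_mul hdN0.le,
      ← ENNReal.ofReal_mul (Nat.cast_nonneg _)]
    refine ENNReal.ofReal_le_ofReal ?_
    have e2 : ((4 * (N * N) + 1 + 1 : ℕ) : ℝ) * (δ / N * (δ / N))
        = (4 * (N * N) + 2) / (N * N) * (δ * δ) := by
      push_cast; field_simp; ring
    have e3 : ((4 * (N * N) + 2) / (N * N) : ℝ) ≤ 6 := by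
      rw [div_le_iff₀ (by positivity)]; nlinarith
    rw [e2]
    have : (0 : ℝ) ≤ δ * δ := by positivity
    nlinarith
  · refine le_trans ?_ he1'
    have hu : (1 : ℝ≥0∞) - ENNReal.ofReal (δ / N) = ENNReal.ofReal (1 - δ / N) := by
      rw [ENNReal.ofReal_sub _ hdN0.le, ENNReal.ofReal_one]
    have h2 : (2 : ℝ≥0∞) = ENNReal.ofReal 2 := by simp
    have h0 : (0 : ℝ) ≤ 1 - δ / N := by linarith
    rw [hu, ← ENNReal.ofReal_pow h0, h2, ← ENNReal.ofReal_mul (by norm_num),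
      ← ENNReal.ofReal_natCast, ← ENNReal.ofReal_mul (Nat.cast_nonneg _)]
    refine ENNReal.ofReal_le_ofReal ?_
    have p1 : (1 - δ / N) ^ (N * N) ≤ ρ ^ N := by
      rw [pow_mul]
      refine pow_le_pow_left₀ (pow_nonneg h0 _) ?_ _
      calc (1 - δ / N) ^ N ≤ (Real.exp (-(δ / N))) ^ N :=
            pow_le_pow_left₀ h0 (Real.one_sub_le_exp_neg _) _
        _ = ρ := by
            rw [← Real.exp_nat_mul, hρ]
            congr 1
            field_simp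
    have p2 : (0 : ℝ) ≤ ρ ^ N := pow_nonneg hρ0.le _
    have p3 : 12 * ((N : ℝ) ^ 2 * ρ ^ N) < e1 := hk
    push_cast
    have p4 : (4 * ((N : ℝ) * N) + 1 + 1) * 2 ≤ 12 * (N : ℝ) ^ 2 := by nlinarith
    calc (4 * ((N : ℝ) * N) + 1 + 1) * (2 * (1 - δ / N) ^ (N * N))
        ≤ (4 * ((N : ℝ) * N) + 1 + 1) * (2 * ρ ^ N) := by gcongr
      _ = ((4 * ((N : ℝ) * N) + 1 + 1) * 2) * ρ ^ N := by ring
      _ ≤ (12 * (N : ℝ) ^ 2) * ρ ^ N := by gcongr
      _ = 12 * ((N : ℝ) ^ 2 * ρ ^ N) := by ring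
      _ ≤ e1 := p3.le

end Crest.Agent.R154.Asm354
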