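import Crest.Agent.R154.AsmE_366

/-! Row 154, ROAD 801, assembly (helper366), part F: the pieces. -/

set_option autoImplicit false

namespace Crest.Agent.R154.Asm366

open scoped ENNReal
open Crest.Agent.R154.B5A
open Crest.Agent.R154.KWB419 (TT)

variable {BX BY G : Type*} [AddCommGroup G]
variable (ΛX : BX → ℝ≥0∞) (hX : BX → ℕ) (sX : BX → Set (G × ℕ)) (zX : BX → G)
variable (ΛY : BY → ℝ≥0∞) (hY : BY → ℕ) (sY : BY → Set (G × ℕ)) (zY : BY → G)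

open Classical in
/-- window lemma (2), lists: X local -/
def H2L (us : ℕ → ℝ≥0∞) (C : ℝ≥0∞) : Prop :=
  ∀ (s h h' a a' lo : ℕ) (E : Finset G) (μ : G → ℝ≥0∞) (M lam : ℝ≥0∞),
    ∑' x, μ x ≤ 1 → (∀ x, μ x ≤ M) → lam ≠ 0 → lam ≠ ⊤ → a ≤ a' → a + s ≤ lo → a' + s ≤ lo →
    ∑' x, μ x * (∑' L : List BX, ∑' L' : List BY, if HT hX L = h ∧
        (L.map zX).sum ∈ E ∧ HT hY L' = h' ∧
        (∃ z k, (z, k) ∈ TT sX hX zX L 0 a ∧ (z, k) ∈ TT sY hY zY L' x a') ∧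
        (∀ z k, (z, k) ∈ TT sX hX zX L 0 a → (z, k) ∈ TT sY hY zY L' x a' → lo ≤ k)
        then LW ΛX L * LW ΛY L' else 0)
      ≤ C * (lam + M * E.card * us s / lam + us s)

open Classical in
/-- window lemma (3), lists: Y local -/
def H3L (us : ℕ → ℝ≥0∞) (C : ℝ≥0∞) : Prop :=
  ∀ (s h h' a a' hi : ℕ) (E : Finset G) (μ : G → ℝ≥0∞) (M lam : ℝ≥0∞),
    ∑' x, μ x ≤ 1 → (∀ x, μ x ≤ M) → lam ≠ 0 → lam ≠ ⊤ → a + h ≤ a' + h' →
    hi + s ≤ a + h → hi + s ≤ a' + h' →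
    ∑' x, μ x * (∑' L : List BX, ∑' L' : List BY, if HT hX L = h ∧ HT hY L' = h' ∧
        (L'.map zY).sum ∈ E ∧
        (∃ z k, (z, k) ∈ TT sX hX zX L 0 a ∧ (z, k) ∈ TT sY hY zY L' x a') ∧
        (∀ z k, (z, k) ∈ TT sX hX zX L 0 a → (z, k) ∈ TT sY hY zY L' x a' → k ≤ hi)
        then LW ΛX L * LW ΛY L' else 0)
      ≤ C * (lam + M * E.card * us s / lam + us s)

open Classical in
/-- weight of the pairs of pieces with a contact -/
noncomputable def Phi (T T' a a' i0 : ℕ) (P2 : List BX → List BY → Prop) (R : ℕ → Prop)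
    (e e' : ℕ) (δ : G) : ℝ≥0∞ :=
  ∑' Q : List BX, ∑' Q' : List BY, if (FP hX Q T ∧ HT hX Q ≤ T + i0) ∧
      (FP hY Q' T' ∧ HT hY Q' ≤ T' + i0) ∧ P2 Q Q' ∧
      (∃ z k, (z, k) ∈ TT sX hX zX Q 0 (a + e) ∧ (z, k) ∈ TT sY hY zY Q' δ (a' + e')) ∧
      (∀ z k, (z, k) ∈ TT sX hX zX Q 0 (a + e) → (z, k) ∈ TT sY hY zY Q' δ (a' + e') → R k)
    then LW ΛX Q * LW ΛY Q' else 0

open Classical in
lemma Phi_le_one (hΛX : ∑' b, ΛX b = 1) (hΛY : ∑' b, ΛY b = 1) (h1X : ∀ b, 1 ≤ hX b)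
    (h1Y : ∀ b, 1 ≤ hY b) (T T' a a' i0 : ℕ) (P2 : List BX → List BY → Prop) (R : ℕ → Prop)
    (e e' : ℕ) (δ : G) : Phi ΛX hX sX zX ΛY hY sY zY T T' a a' i0 P2 R e e' δ ≤ 1 := by
  calc Phi ΛX hX sX zX ΛY hY sY zY T T' a a' i0 P2 R e e' δ
      ≤ ∑' Q : List BX, ∑' Q' : List BY, (if FP hX Q T then LW ΛX Q else 0) *
          (if FP hY Q' T' then LW ΛY Q' else 0) := by
        refine ENNReal.tsum_le_tsum fun Q => ENNReal.tsum_le_tsum fun Q' => ?_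
        split_ifs with h h2 h3 h4 h5
        · exact le_rfl
        · exact absurd h.2.1.1 h3
        · exact absurd h.1.1 h2
        · exact absurd h.1.1 h2
        all_goals exact zero_le
    _ = 1 := by
        simp_rw [ENNReal.tsum_mul_left, ENNReal.tsum_mul_right]
        rw [mass_FP ΛX hΛX hX h1X, mass_FP ΛY hΛY hY h1Y, one_mul]

open Classical in
lemma nonloc {B : Type*} (Λ : B → ℝ≥0∞) (h : B → ℕ) (z : B → G) (T : ℕ) (th u : ℝ≥0∞)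
    (hnl : (∑' i, ∑' x, if fz Λ h z T i x < th then fz Λ h z T i x else 0) ≤ u) :
    ∑' Q : List B, (if FP h Q T ∧ ¬ th ≤ fz Λ h z T (HT h Q - T) (Dp z Q) then LW Λ Q else 0)
      ≤ u := by
  refine le_trans (le_of_eq ?_) hnl
  have := push Λ h z T (fun i x => if fz Λ h z T i x < th then 1 else 0)
  calc _ = ∑' Q : List B, (if FP h Q T then LW Λ Q *
        (if fz Λ h z T (HT h Q - T) (Dp z Q) < th then 1 else 0) else 0) := by
        refine tsum_congr fun Q => ?_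
        by_cases h1 : FP h Q T
        · by_cases h2 : fz Λ h z T (HT h Q - T) (Dp z Q) < th
          · rw [if_pos ⟨h1, not_le.2 h2⟩, if_pos h1, if_pos h2, mul_one]
          · rw [if_neg (fun hh => h2 (not_le.1 hh.2)), if_pos h1, if_neg h2, mul_zero]
        · rw [if_neg (fun hh => h1 hh.1), if_neg h1]
    _ = _ := this
    _ = _ := by
        refine tsum_congr fun i => tsum_congr fun x => ?_
        split_ifs <;> simp

open Classical in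
/-- splitting local / non local -/
lemma Phi_split (T T' a a' i0 lo hi : ℕ) (th th' u : ℝ≥0∞)
    (hnX : (∑' i, ∑' x, if fz ΛX hX zX T i x < th then fz ΛX hX zX T i x else 0) ≤ u)
    (hnY : (∑' i, ∑' x, if fz ΛY hY zY T' i x < th' then fz ΛY hY zY T' i x else 0) ≤ u)
    (e e' : ℕ) (δ : G) :
    Phi ΛX hX sX zX ΛY hY sY zY T T' a a' i0 (fun _ _ => True) (fun k => lo ≤ k ∧ k ≤ hi) e e' δ
      ≤ u ^ 2 + (Phi ΛX hX sX zX ΛY hY sY zY T T' a a' i0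
        (fun Q _ => th ≤ fz ΛX hX zX T (HT hX Q - T) (Dp zX Q)) (fun k => lo ≤ k) e e' δ
      + Phi ΛX hX sX zX ΛY hY sY zY T T' a a' i0
        (fun _ Q' => th' ≤ fz ΛY hY zY T' (HT hY Q' - T') (Dp zY Q')) (fun k => k ≤ hi) e e' δ) := by
  have hNN : (∑' Q : List BX, ∑' Q' : List BY,
      (if FP hX Q T ∧ ¬ th ≤ fz ΛX hX zX T (HT hX Q - T) (Dp zX Q) then LW ΛX Q else 0) *
      (if FP hY Q' T' ∧ ¬ th' ≤ fz ΛY hY zY T' (HT hY Q' - T') (Dp zY Q') then LW ΛY Q' else 0))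
      ≤ u ^ 2 := by
    simp_rw [ENNReal.tsum_mul_left, ENNReal.tsum_mul_right]
    rw [sq]
    gcongr
    · exact nonloc ΛX hX zX T th u hnX
    · exact nonloc ΛY hY zY T' th' u hnY
  refine le_trans ?_ (add_le_add hNN le_rfl)
  simp only [Phi]
  rw [← ENNReal.tsum_add, ← ENNReal.tsum_add]
  refine ENNReal.tsum_le_tsum fun Q => ?_
  rw [← ENNReal.tsum_add, ← ENNReal.tsum_add]
  refine ENNReal.tsum_le_tsum fun Q' => ?_
  by_cases hc : (FP hX Q T ∧ HT hX Q ≤ T + i0) ∧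
      (FP hY Q' T' ∧ HT hY Q' ≤ T' + i0) ∧ True ∧
      (∃ z k, (z, k) ∈ TT sX hX zX Q 0 (a + e) ∧ (z, k) ∈ TT sY hY zY Q' δ (a' + e')) ∧
      (∀ z k, (z, k) ∈ TT sX hX zX Q 0 (a + e) → (z, k) ∈ TT sY hY zY Q' δ (a' + e') →
        lo ≤ k ∧ k ≤ hi)
  · rw [if_pos hc]
    obtain ⟨h1, h2, -, h3, h4⟩ := hc
    by_cases hl : th ≤ fz ΛX hX zX T (HT hX Q - T) (Dp zX Q)
    · refine le_add_left (le_add_right ?_)
      rw [if_pos ⟨h1, h2, hl, h3, fun z k hz hk => (h4 z k hz hk).1⟩]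
    · by_cases hl' : th' ≤ fz ΛY hY zY T' (HT hY Q' - T') (Dp zY Q')
      · refine le_add_left (le_add_left ?_)
        rw [if_pos ⟨h1, h2, hl', h3, fun z k hz hk => (h4 z k hz hk).2⟩]
      · refine le_add_right ?_
        rw [if_pos ⟨h1.1, hl⟩, if_pos ⟨h2.1, hl'⟩]
  · rw [if_neg hc]; exact zero_le

open Classical in
lemma Phi_group (T T' a a' i0 : ℕ) (P2 P3 : List BX → List BY → Prop) (R : ℕ → Prop)
    (hP : ∀ Q Q', FP hX Q T → FP hY Q' T' → P2 Q Q' → P3 Q Q')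
    (e e' : ℕ) (δ : G) :
    Phi ΛX hX sX zX ΛY hY sY zY T T' a a' i0 P2 R e e' δ ≤ ∑' i : ℕ, ∑' i' : ℕ,
      (if i ≤ i0 ∧ i' ≤ i0 then (∑' L : List BX, ∑' L' : List BY,
        if HT hX L = T + i ∧ HT hY L' = T' + i' ∧ P3 L L' ∧
        (∃ z k, (z, k) ∈ TT sX hX zX L 0 (a + e) ∧ (z, k) ∈ TT sY hY zY L' δ (a' + e')) ∧
        (∀ z k, (z, k) ∈ TT sX hX zX L 0 (a + e) → (z, k) ∈ TT sY hY zY L' δ (a' + e') → R k)
        then LW ΛX L * LW ΛY L' else 0) else 0) := by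
  have e1 : ∀ i i' : ℕ, (if i ≤ i0 ∧ i' ≤ i0 then (∑' L : List BX, ∑' L' : List BY,
        if HT hX L = T + i ∧ HT hY L' = T' + i' ∧ P3 L L' ∧
        (∃ z k, (z, k) ∈ TT sX hX zX L 0 (a + e) ∧ (z, k) ∈ TT sY hY zY L' δ (a' + e')) ∧
        (∀ z k, (z, k) ∈ TT sX hX zX L 0 (a + e) → (z, k) ∈ TT sY hY zY L' δ (a' + e') → R k)
        then LW ΛX L * LW ΛY L' else 0) else 0) = ∑' L : List BX, ∑' L' : List BY,
        (if i ≤ i0 ∧ i' ≤ i0 then (if HT hX L = T + i ∧ HT hY L' = T' + i' ∧ P3 L L' ∧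
        (∃ z k, (z, k) ∈ TT sX hX zX L 0 (a + e) ∧ (z, k) ∈ TT sY hY zY L' δ (a' + e')) ∧
        (∀ z k, (z, k) ∈ TT sX hX zX L 0 (a + e) → (z, k) ∈ TT sY hY zY L' δ (a' + e') → R k)
        then LW ΛX L * LW ΛY L' else 0) else 0) := by
    intro i i'
    split_ifs with h
    · rfl
    · simp
  simp_rw [e1]
  have e2 : ∀ g : ℕ → ℕ → List BX → List BY → ℝ≥0∞, ∑' i, ∑' i', ∑' L, ∑' L', g i i' L L'
      = ∑' L, ∑' L', ∑' i, ∑' i', g i i' L L' := by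
    intro g
    calc ∑' i, ∑' i', ∑' L, ∑' L', g i i' L L' = ∑' i, ∑' L, ∑' i', ∑' L', g i i' L L' :=
          tsum_congr fun i => ENNReal.tsum_comm
      _ = ∑' L, ∑' i, ∑' i', ∑' L', g i i' L L' := ENNReal.tsum_comm
      _ = ∑' L, ∑' i, ∑' L', ∑' i', g i i' L L' :=
          tsum_congr fun L => tsum_congr fun i => ENNReal.tsum_comm
      _ = _ := tsum_congr fun L => ENNReal.tsum_comm
  rw [e2]
  refine ENNReal.tsum_le_tsum fun Q => ENNReal.tsum_le_tsum fun Q' => ?_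
  split_ifs with hc
  · obtain ⟨⟨h1, h1'⟩, ⟨h2, h2'⟩, h3, h4, h5⟩ := hc
    have k1 := le_HT_of_FP hX Q T h1
    have k2 := le_HT_of_FP hY Q' T' h2
    refine le_trans ?_ (ENNReal.le_tsum (HT hX Q - T))
    refine le_trans ?_ (ENNReal.le_tsum (HT hY Q' - T'))
    rw [if_pos ⟨by omega, by omega⟩, if_pos ⟨by omega, by omega, hP Q Q' h1 h2 h3, h4, h5⟩]
  · exact zero_le

/-- the set of local displacements -/
lemma exE {B : Type*} (Λ : B → ℝ≥0∞) (hΛ : ∑' b, Λ b = 1) (h : B → ℕ) (h1 : ∀ b, 1 ≤ h b)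
    (z : B → G) (T i : ℕ) {th c M : ℝ≥0∞} (hth : th ≠ 0) (hM : M = c * th) :
    ∃ E : Finset G, (∀ x, th ≤ fz Λ h z T i x → x ∈ E) ∧ M * E.card ≤ c := by
  have hs : ∑' x, fz Λ h z T i x ≤ 1 :=
    (ENNReal.le_tsum (f := fun i => ∑' x, fz Λ h z T i x) i).trans
      (fz_total Λ hΛ h h1 z T).le
  have hfin := Dens616.finite_local (fz Λ h z T i) (ne_top_of_le_ne_top ENNReal.one_ne_top hs) hth
  refine ⟨hfin.toFinset, fun x hx => by simpa using hx, ?_⟩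
  have hc := Dens616.card_mul_le (fz Λ h z T i) th hfin.toFinset (fun x hx => by simpa using hx)
  calc M * hfin.toFinset.card = c * (hfin.toFinset.card * th) := by rw [hM]; ring
    _ ≤ c * 1 := by gcongr; exact hc.trans hs
    _ = c := mul_one _

end Crest.Agent.R154.Asm366
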