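import Crest.Agent.R154.AsmE_392

/-! Row 154, ROAD 801 (helper392): the sum over the windows. -/

set_option autoImplicit false

namespace Crest.Agent.R154.Asm392

open scoped ENNReal
open Crest.Agent.R154.B5A Crest.Agent.R154.FP178

variable {BX BY G : Type*} [AddCommGroup G]
  (ΛX : BX → ℝ≥0∞) (hX : BX → ℕ) (zX : BX → G) (ΛY : BY → ℝ≥0∞) (hY : BY → ℕ) (zY : BY → G)
  (TX : List BX → G → ℕ → Set (G × ℕ)) (TY : List BY → G → ℕ → Set (G × ℕ))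

open Classical in
/-- reduction of a deep contact in window `j` to the pieces number `j` -/
theorem reduce (oX : TrOK hX zX TX) (oY : TrOK hY zY TY)
    (h1X : ∀ b, 1 ≤ hX b) (h1Y : ∀ b, 1 ≤ hY b) (hΛX : ∑' b, ΛX b = 1)
    (hΛY : ∑' b, ΛY b = 1) (K T s W i0 j r a0 : ℕ) (w : G)
    (hsT : s ≤ T) (hj1 : K ≤ j) (hj2 : j ≤ 2 * K) (hW : (2 * K + 1) * i0 ≤ W)
    (ha0 : a0 + (2 * K + 1) * i0 ≤ W) :
    It (wt ΛX hX T i0) (j + (r + 1)) (fun P => It (wt ΛY hY T i0) (j + (r + 1)) (fun Q =>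
      (if (∃ g k, j * T + W + s ≤ k ∧ k ≤ (j + 1) * T - s ∧ Co TX TY P Q 0 w 0 a0 g k) ∧
        (∀ g k, Co TX TY P Q 0 w 0 a0 g k → k ∉ SLs K T s W) then 1 else 0)))
      ≤ It (wt ΛX hX T i0) j (fun P => It (wt ΛY hY T i0) j (fun Q =>
        ∑' A, wt ΛX hX T i0 A * ∑' A', wt ΛY hY T i0 A' *
        (if Cn TX TY (j * T + W + s) ((j + 1) * T - s) (HT hX P) A (a0 + HT hY Q) A'
          (w + Dp zY Q - Dp zX P) then 1 else 0))) := by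
  have hsX := wt_sum ΛX hX T i0 h1X hΛX
  have hsY := wt_sum ΛY hY T i0 h1Y hΛY
  have rX := wt_range ΛX hX T i0
  have rY := wt_range ΛY hY T i0
  rw [It_add (wt ΛX hX T i0) j (r + 1)]
  refine It_mono _ hX T (T + i0) rX j fun P hP hP' => ?_
  have eR : It (wt ΛY hY T i0) j (fun Q =>
        ∑' A, wt ΛX hX T i0 A * ∑' A', wt ΛY hY T i0 A' *
        (if Cn TX TY (j * T + W + s) ((j + 1) * T - s) (HT hX P) A (a0 + HT hY Q) A'
          (w + Dp zY Q - Dp zX P) then 1 else 0))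
      = ∑' A, wt ΛX hX T i0 A * It (wt ΛY hY T i0) j (fun Q => ∑' A', wt ΛY hY T i0 A' *
        (if Cn TX TY (j * T + W + s) ((j + 1) * T - s) (HT hX P) A (a0 + HT hY Q) A'
          (w + Dp zY Q - Dp zX P) then 1 else 0)) := by
    rw [It_tsum (wt ΛY hY T i0) j (fun A Q => wt ΛX hX T i0 A * ∑' A', wt ΛY hY T i0 A' *
        (if Cn TX TY (j * T + W + s) ((j + 1) * T - s) (HT hX P) A (a0 + HT hY Q) A'
          (w + Dp zY Q - Dp zX P) then 1 else 0))]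
    refine tsum_congr fun A => ?_
    rw [It_mul]
  rw [eR, It_succ]
  refine ENNReal.tsum_le_tsum fun A => ?_
  by_cases hA0 : wt ΛX hX T i0 A = 0
  · simp [hA0]
  obtain ⟨hA, hA'⟩ := rX A hA0
  refine mul_le_mul_right ?_ _
  refine le_trans (It_mono' _ r fun P2 => ?_) (It_const _ hsX r _)
  rw [It_add (wt ΛY hY T i0) j (r + 1)]
  refine It_mono _ hY T (T + i0) rY j fun Q hQ hQ' => ?_
  rw [It_succ]
  refine ENNReal.tsum_le_tsum fun A' => ?_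
  by_cases hB0 : wt ΛY hY T i0 A' = 0
  · simp [hB0]
  obtain ⟨hB, hB'⟩ := rY A' hB0
  refine mul_le_mul_right ?_ _
  refine le_trans (It_mono' _ r fun Q2 => ?_) (It_const _ hsY r _)
  by_cases hc : (∃ g k, j * T + W + s ≤ k ∧ k ≤ (j + 1) * T - s ∧
      Co TX TY (P ++ (A ++ P2)) (Q ++ (A' ++ Q2)) 0 w 0 a0 g k) ∧
      (∀ g k, Co TX TY (P ++ (A ++ P2)) (Q ++ (A' ++ Q2)) 0 w 0 a0 g k → k ∉ SLs K T s W)
  · rw [if_pos hc, if_pos (path oX oY K T s W i0 j a0 w hsT hj1 hj2 hW ha0 P A P2 Q A' Q2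
      hP hP' hA hA' hQ hQ' hB hB' hc.1 hc.2)]
  · rw [if_neg hc]; exact zero_le

open Classical in
/-- hypothesis (2), weakest form -/
def Face2 : Prop :=
  ∀ Cst : ℝ≥0∞, Cst ≠ ⊤ → ∀ η : ℝ≥0∞, η ≠ 0 → ∃ s : ℕ, ∀ a a' h h' lo hi : ℕ, a ≤ a' →
    a + h ≤ a' + h' → a + s ≤ lo → a' + s ≤ lo → hi + s ≤ a + h → hi + s ≤ a' + h' →
    ∀ (E : Finset G) (μ : G → ℝ≥0∞) (M : ℝ≥0∞), ∑' x, μ x ≤ 1 → (∀ x, μ x ≤ M) →
    M * E.card ≤ Cst →
    ∑' x, μ x * ∑' L, ∑' L', (if HT hX L = h ∧ Dp zX L ∈ E ∧ HT hY L' = h' ∧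
      Cn TX TY lo hi a L a' L' x then LW ΛX L * LW ΛY L' else 0) ≤ η

open Classical in
/-- hypothesis (3), weakest form -/
def Face3 : Prop :=
  ∀ Cst : ℝ≥0∞, Cst ≠ ⊤ → ∀ η : ℝ≥0∞, η ≠ 0 → ∃ s : ℕ, ∀ a a' h h' lo hi : ℕ, a ≤ a' →
    a + h ≤ a' + h' → a + s ≤ lo → a' + s ≤ lo → hi + s ≤ a + h → hi + s ≤ a' + h' →
    ∀ (E : Finset G) (μ : G → ℝ≥0∞) (M : ℝ≥0∞), ∑' x, μ x ≤ 1 → (∀ x, μ x ≤ M) →
    M * E.card ≤ Cst →
    ∑' x, μ x * ∑' L, ∑' L', (if HT hX L = h ∧ HT hY L' = h' ∧ Dp zY L' ∈ E ∧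
      Cn TX TY lo hi a L a' L' x then LW ΛX L * LW ΛY L' else 0) ≤ η

/-- bound of one window -/
noncomputable def wb (u η : ℝ≥0∞) (i0 j : ℕ) : ℝ≥0∞ :=
  u * u + (((1 - u) ^ j + ((j * i0 + 1 : ℕ) * ((j * i0 + 1 : ℕ) * ((i0 + 1 : ℕ) *
            ((i0 + 1 : ℕ) * η)))))
          + ((1 - u) ^ j + ((j * i0 + 1 : ℕ) * ((j * i0 + 1 : ℕ) * ((i0 + 1 : ℕ) *
            ((i0 + 1 : ℕ) * η))))))

open Classical in
/-- the main sum, the `Y`-list placed at depth `a0` -/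
theorem main1 (oX : TrOK hX zX TX) (oY : TrOK hY zY TY)
    (h1X : ∀ b, 1 ≤ hX b) (h1Y : ∀ b, 1 ≤ hY b) (hΛX : ∑' b, ΛX b = 1)
    (hΛY : ∑' b, ΛY b = 1) (hUX : ∀ n, U ΛX hX n ≤ 1) (hUY : ∀ n, U ΛY hY n ≤ 1)
    (u η : ℝ≥0∞) (hu0 : u ≠ 0) (hu1 : u ≤ 1) (s : ℕ)
    (F2 : ∀ a a' h h' lo hi : ℕ, a ≤ a' →
    a + h ≤ a' + h' → a + s ≤ lo → a' + s ≤ lo → hi + s ≤ a + h → hi + s ≤ a' + h' →
    ∀ (E : Finset G) (μ : G → ℝ≥0∞) (M : ℝ≥0∞), ∑' x, μ x ≤ 1 → (∀ x, μ x ≤ M) →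
    M * E.card ≤ u⁻¹ →
    ∑' x, μ x * ∑' L, ∑' L', (if HT hX L = h ∧ Dp zX L ∈ E ∧ HT hY L' = h' ∧
      Cn TX TY lo hi a L a' L' x then LW ΛX L * LW ΛY L' else 0) ≤ η)
    (F3 : ∀ a a' h h' lo hi : ℕ, a ≤ a' →
    a + h ≤ a' + h' → a + s ≤ lo → a' + s ≤ lo → hi + s ≤ a + h → hi + s ≤ a' + h' →
    ∀ (E : Finset G) (μ : G → ℝ≥0∞) (M : ℝ≥0∞), ∑' x, μ x ≤ 1 → (∀ x, μ x ≤ M) →
    M * E.card ≤ u⁻¹ →
    ∑' x, μ x * ∑' L, ∑' L', (if HT hX L = h ∧ HT hY L' = h' ∧ Dp zY L' ∈ E ∧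
      Cn TX TY lo hi a L a' L' x then LW ΛX L * LW ΛY L' else 0) ≤ η)
    (ε1 : ℝ≥0∞) (K T i0 m a0 nX nY : ℕ) (w : G) (hT1 : 1 ≤ T)
    (hεX : ∑' L, (if fp hX T L ∧ T + i0 < HT hX L then LW ΛX L else 0) ≤ ε1)
    (hεY : ∑' L, (if fp hY T L ∧ T + i0 < HT hY L then LW ΛY L else 0) ≤ ε1)
    (hsT : s ≤ T) (hKT : 2 * K ≤ T) (hm1 : K * T ≤ m) (hm2 : m < K * T + K)
    (ha0 : (2 * K + 1) * i0 ≤ a0) (ha1 : a0 ≤ (2 * K + 1) * i0 + i0)
    (hnX : (2 * K + 1) * (T + i0) ≤ nX) (hnY : (2 * K + 1) * (T + i0) ≤ nY)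
    (W : ℕ) (hW : W = (2 * K + 1) * i0 + i0 + (2 * K + 1) * i0) :
    ∑' LX, ∑' LY, (if HT hX LX = nX ∧ HT hY LY = nY then LW ΛX LX * LW ΛY LY *
      (if (∃ g k, m < k ∧ k ≤ 2 * m ∧ Co TX TY LX LY 0 w 0 a0 g k) ∧
        (∀ g k, Co TX TY LX LY 0 w 0 a0 g k → k ∉ SLs K T s W) then 1 else 0) else 0)
      ≤ ∑ j ∈ Finset.Icc K (2 * K), wb u η i0 j
        + (((2 * K + 1 : ℕ) : ℝ≥0∞) * ε1 + ((2 * K + 1 : ℕ) : ℝ≥0∞) * ε1) := by
  set F' : List BX → List BY → ℝ≥0∞ := fun P Q => ∑ j ∈ Finset.Icc K (2 * K),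
    (if (∃ g k, j * T + W + s ≤ k ∧ k ≤ (j + 1) * T - s ∧ Co TX TY P Q 0 w 0 a0 g k) ∧
        (∀ g k, Co TX TY P Q 0 w 0 a0 g k → k ∉ SLs K T s W) then 1 else 0) with hF'
  have hJ : (2 * K + 1) * T = 2 * (K * T) + T := by ring
  refine (expand2 ΛX hX ΛY hY h1X h1Y hΛX hΛY hUX hUY T i0 ε1 hεX hεY (2 * K + 1) nX nY hnX hnY
    _ F' (fun L L' => by split_ifs <;> simp) ?_).trans (add_le_add_left ?_ _)
  · intro P R Q R' hP hQ
    by_cases hc : (∃ g k, m < k ∧ k ≤ 2 * m ∧ Co TX TY (P ++ R) (Q ++ R') 0 w 0 a0 g k) ∧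
        (∀ g k, Co TX TY (P ++ R) (Q ++ R') 0 w 0 a0 g k → k ∉ SLs K T s W)
    · rw [if_pos hc]
      obtain ⟨⟨g, k, hk1, hk2, hkX, hkY⟩, hn⟩ := hc
      have hk := hn g k ⟨hkX, hkY⟩
      have toX : ∀ g k, (g, k) ∈ TX P 0 0 → (g, k) ∈ TX (P ++ R) 0 0 := by
        intro g k h; rw [oX.app]; exact Or.inl h
      have toY : ∀ g k, (g, k) ∈ TY Q w a0 → (g, k) ∈ TY (Q ++ R') w a0 := by
        intro g k h; rw [oY.app]; exact Or.inl h
      have hX1 : (g, k) ∈ TX P 0 0 := by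
        rw [oX.app] at hkX
        rcases hkX with h | h
        · exact h
        · have := oX.dep _ _ _ _ h
          simp only at this
          omega
      have hY1 : (g, k) ∈ TY Q w a0 := by
        rw [oY.app] at hkY
        rcases hkY with h | h
        · exact h
        · have := oY.dep _ _ _ _ h
          simp only at this
          omega
      have hj := Nat.div_add_mod k T
      have hj' := Nat.mod_lt k (by omega : 0 < T)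
      set j := k / T with hjd
      have hTj : T * j = j * T := by ring
      have hjK : K ≤ j := by
        rw [hjd, Nat.le_div_iff_mul_le (by omega)]
        omega
      have hjK2 : j ≤ 2 * K := by
        have : k < (2 * K + 1) * T := by omega
        have := Nat.div_lt_of_lt_mul (by rw [mul_comm]; exact this : k < T * (2 * K + 1))
        omega
      have s1 := SLs_mem hk hjK (by omega)
      have s2 := SLs_mem (j := j + 1) hk (by omega) (by omega)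
      have hj1T : (j + 1) * T = j * T + T := by ring
      refine le_trans ?_ (Finset.single_le_sum (f := fun j =>
        (if (∃ g k, j * T + W + s ≤ k ∧ k ≤ (j + 1) * T - s ∧ Co TX TY P Q 0 w 0 a0 g k) ∧
        (∀ g k, Co TX TY P Q 0 w 0 a0 g k → k ∉ SLs K T s W) then (1 : ℝ≥0∞) else 0))
        (fun _ _ => zero_le) (Finset.mem_Icc.2 ⟨hjK, hjK2⟩))
      rw [if_pos]
      refine ⟨⟨g, k, ?_, ?_, hX1, hY1⟩, fun g k h => hn g k ⟨toX g k h.1, toY g k h.2⟩⟩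
      · omega
      · omega
    · rw [if_neg hc]; exact zero_le
  · simp only [hF']
    have e1 : It (wt ΛX hX T i0) (2 * K + 1) (fun P => It (wt ΛY hY T i0) (2 * K + 1) (fun Q =>
        ∑ j ∈ Finset.Icc K (2 * K),
        (if (∃ g k, j * T + W + s ≤ k ∧ k ≤ (j + 1) * T - s ∧ Co TX TY P Q 0 w 0 a0 g k) ∧
        (∀ g k, Co TX TY P Q 0 w 0 a0 g k → k ∉ SLs K T s W) then (1 : ℝ≥0∞) else 0)))
        = ∑ j ∈ Finset.Icc K (2 * K), It (wt ΛX hX T i0) (2 * K + 1) (fun P =>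
          It (wt ΛY hY T i0) (2 * K + 1) (fun Q =>
        (if (∃ g k, j * T + W + s ≤ k ∧ k ≤ (j + 1) * T - s ∧ Co TX TY P Q 0 w 0 a0 g k) ∧
        (∀ g k, Co TX TY P Q 0 w 0 a0 g k → k ∉ SLs K T s W) then (1 : ℝ≥0∞) else 0))) := by
      rw [← It_sum]
      congr 1
      funext P
      rw [← It_sum]
    rw [e1]
    refine Finset.sum_le_sum fun j hj => ?_
    obtain ⟨hj1, hj2⟩ := Finset.mem_Icc.1 hj
    have hJj : 2 * K + 1 = j + ((2 * K - j) + 1) := by omega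
    have hr := reduce ΛX hX zX ΛY hY zY TX TY oX oY h1X h1Y hΛX hΛY K T s W i0 j (2 * K - j) a0 w
      hsT hj1 hj2 (by omega) (by omega)
    rw [← hJj] at hr
    refine hr.trans ?_
    have hji : (j + 1) * i0 ≤ (2 * K + 1) * i0 := Nat.mul_le_mul_right _ (by omega)
    have e2 : j * (T + i0) = j * T + j * i0 := by ring
    have e3 : (j + 1) * T = j * T + T := by ring
    have e4 : (j + 1) * i0 = j * i0 + i0 := by ring
    refine win ΛX hX zX ΛY hY zY h1X h1Y hΛX hΛY T i0 j u hu0 hu1 η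
      (fun a L q L' x => Cn TX TY (j * T + W + s) ((j + 1) * T - s) a L (a0 + q) L' x) ?_ ?_ w
    · intro a ha a' ha' h hh h' hh' E μ M
      rw [Finset.mem_Icc] at ha ha' hh hh'
      exact F2 a (a0 + a') h h' _ _ (by omega) (by omega) (by omega) (by omega) (by omega)
        (by omega) E μ M
    · intro a ha a' ha' h hh h' hh' E μ M
      rw [Finset.mem_Icc] at ha ha' hh hh'
      exact F3 a (a0 + a') h h' _ _ (by omega) (by omega) (by omega) (by omega) (by omega)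
        (by omega) E μ M

end Crest.Agent.R154.Asm392
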