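import Crest.Agent.R154.AsmE_4

/-! Row 154 (helper4), ROAD 801, assembly part F: the bound of one window, final form. -/

set_option autoImplicit false

namespace Crest.Agent.R154.Asm4

open scoped ENNReal
open Crest.Agent.R154.B5A Crest.Agent.R154.FP178

section q
variable {B G : Type*} [AddCommGroup G] {Λ : B → ℝ≥0∞} {ht : B → ℕ} {zf : B → G}

open Classical in
lemma quant (h1 : ∀ b, 1 ≤ ht b) (hΛ : ∑' b, Λ b = 1) (τ : ℕ) {u : ℝ≥0∞} (hu0 : u ≠ 0)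
    (hu1 : u ≤ 1) : ∃ th : ℝ≥0∞, th ≠ 0 ∧ th ≤ 1 ∧
      ∑' P, (if fp ht τ P ∧ ¬ th ≤ pL Λ ht zf τ (HT ht P) (Dp zf P) then LW Λ P else 0) ≤ u ∧
      ∑' P, (if fp ht τ P ∧ ¬ pL Λ ht zf τ (HT ht P) (Dp zf P) ≤ th then LW Λ P else 0)
        ≤ 1 - u := by
  have hsum : ∑' x : ℕ × G, pL Λ ht zf τ x.1 x.2 = 1 := by
    rw [ENNReal.tsum_prod (f := fun h z => pL Λ ht zf τ h z)]
    exact pL_sum h1 hΛ τ
  obtain ⟨th, h2, h3, h4, h5⟩ := Dens903.quantile (fun x : ℕ × G => pL Λ ht zf τ x.1 x.2) hsum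
    hu0 hu1
  refine ⟨th, h2, h3, ?_, ?_⟩
  · refine le_trans (le_of_eq ?_) h4
    have := sum_hz (Λ := Λ) (ht := ht) (zf := zf) τ
      (fun h z => if pL Λ ht zf τ h z < th then 1 else 0)
    rw [ENNReal.tsum_prod (f := fun h z => if pL Λ ht zf τ h z < th then pL Λ ht zf τ h z else 0)]
    have e1 : ∀ P : List B, (if fp ht τ P ∧ ¬ th ≤ pL Λ ht zf τ (HT ht P) (Dp zf P) then LW Λ P
        else 0) = (if fp ht τ P then LW Λ P * (if pL Λ ht zf τ (HT ht P) (Dp zf P) < th then 1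
        else 0) else 0) := by
      intro P
      by_cases ha : fp ht τ P <;>
        by_cases hb : pL Λ ht zf τ (HT ht P) (Dp zf P) < th <;>
        simp [ha, hb, not_le]
    rw [tsum_congr e1, this]
    refine tsum_congr fun h => tsum_congr fun z => ?_
    by_cases hb : pL Λ ht zf τ h z < th <;> simp [hb]
  · set a := ∑' P, (if fp ht τ P ∧ pL Λ ht zf τ (HT ht P) (Dp zf P) ≤ th then LW Λ P else 0) with ha
    set b := ∑' P, (if fp ht τ P ∧ ¬ pL Λ ht zf τ (HT ht P) (Dp zf P) ≤ th then LW Λ P else 0)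
      with hb
    have hab : a + b = 1 := by
      rw [ha, hb, ← ENNReal.tsum_add, ← sum_FP_eq Λ ht h1 hΛ τ]
      refine tsum_congr fun P => ?_
      by_cases hc : fp ht τ P <;>
        by_cases hd : pL Λ ht zf τ (HT ht P) (Dp zf P) ≤ th <;> simp [hc, hd]
    have hua : u ≤ a := by
      refine le_trans h5 (le_of_eq ?_)
      have := sum_hz (Λ := Λ) (ht := ht) (zf := zf) τ
        (fun h z => if pL Λ ht zf τ h z ≤ th then 1 else 0)
      rw [ENNReal.tsum_prod (f := fun h z => if pL Λ ht zf τ h z ≤ th then pL Λ ht zf τ h z else 0)]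
      have e1 : ∀ P : List B, (if fp ht τ P ∧ pL Λ ht zf τ (HT ht P) (Dp zf P) ≤ th then LW Λ P
          else 0) = (if fp ht τ P then LW Λ P * (if pL Λ ht zf τ (HT ht P) (Dp zf P) ≤ th then 1
          else 0) else 0) := by
        intro P
        by_cases hc : fp ht τ P <;>
          by_cases hd : pL Λ ht zf τ (HT ht P) (Dp zf P) ≤ th <;> simp [hc, hd]
      rw [ha, tsum_congr e1, this]
      refine tsum_congr fun h => tsum_congr fun z => ?_
      by_cases hd : pL Λ ht zf τ h z ≤ th <;> simp [hd]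
    have hbu : u + b ≤ 1 := by
      rw [← hab]; exact add_le_add hua le_rfl
    exact ENNReal.le_sub_of_add_le_left (ne_top_of_le_ne_top ENNReal.one_ne_top hu1) hbu

end q

variable {BX BY G : Type*} [AddCommGroup G]
  {ΛX : BX → ℝ≥0∞} {hX : BX → ℕ} {zX : BX → G} {sX : BX → Set (G × ℕ)}
  {ΛY : BY → ℝ≥0∞} {hY : BY → ℕ} {zY : BY → G} {sY : BY → Set (G × ℕ)}

lemma Gd_eq (u th : ℝ≥0∞) (hu0 : u ≠ 0) (hu1 : u ≤ 1) (hth0 : th ≠ 0) (hth1 : th ≤ 1) (i0 : ℕ) :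
    ((i0 + 1 : ℕ) : ℝ≥0∞) * th + (1 - u) * (((i0 + 1 : ℕ) : ℝ≥0∞) * th * u⁻¹)
        ≤ ((i0 + 1 : ℕ) : ℝ≥0∞) * th * u⁻¹ ∧
      ((i0 + 1 : ℕ) : ℝ≥0∞) * th * u⁻¹ * th⁻¹ = ((i0 + 1 : ℕ) : ℝ≥0∞) * u⁻¹ := by
  have hut : u ≠ ⊤ := ne_top_of_le_ne_top ENNReal.one_ne_top hu1
  have htt : th ≠ ⊤ := ne_top_of_le_ne_top ENNReal.one_ne_top hth1
  constructor
  · set a := ((i0 + 1 : ℕ) : ℝ≥0∞) * th with ha
    have e1 : a = u * (a * u⁻¹) := by
      rw [mul_comm a, ← mul_assoc, ENNReal.mul_inv_cancel hu0 hut, one_mul]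
    calc a + (1 - u) * (a * u⁻¹) = u * (a * u⁻¹) + (1 - u) * (a * u⁻¹) := by rw [← e1]
      _ = (u + (1 - u)) * (a * u⁻¹) := by rw [add_mul]
      _ = a * u⁻¹ := by rw [add_tsub_cancel_of_le hu1, one_mul]
      _ ≤ _ := le_rfl
  · rw [mul_assoc, mul_comm u⁻¹, ← mul_assoc, mul_assoc _ th, ENNReal.mul_inv_cancel hth0 htt,
      mul_one]

open Classical in
/-- one window -/
theorem window_bd (h1X : ∀ b, 1 ≤ hX b) (hΛX : ∑' b, ΛX b = 1) (hUX : ∀ n, U ΛX hX n ≤ 1)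
    (h1Y : ∀ b, 1 ≤ hY b) (hΛY : ∑' b, ΛY b = 1) (hUY : ∀ n, U ΛY hY n ≤ 1)
    (hsX : ∀ b q, q ∈ sX b → 1 ≤ q.2 ∧ q.2 ≤ hX b) (hsY : ∀ b q, q ∈ sY b → 1 ≤ q.2 ∧ q.2 ≤ hY b)
    (C : ℝ≥0∞) (us : ℕ → ℝ≥0∞) (h2 : H2L ΛX hX zX sX ΛY hY zY sY C us)
    (h3 : H3L ΛX hX zX sX ΛY hY zY sY C us)
    (a0 H i0 s J n : ℕ) (hs1 : 1 ≤ s) (hn : a0 + H + 4 * i0 ≤ n) (hHs : s ≤ H)
    (hJ : J * (H + 3 * i0) ≤ a0) (ε : ℝ≥0∞)
    (hεX : ∀ a, ∑' L, (if fp hX a L ∧ a + i0 < HT hX L then LW ΛX L else 0) ≤ ε)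
    (hεY : ∀ a, ∑' L, (if fp hY a L ∧ a + i0 < HT hY L then LW ΛY L else 0) ≤ ε)
    (u lam : ℝ≥0∞) (hu0 : u ≠ 0) (hu1 : u ≤ 1) (hl0 : lam ≠ 0) (hl1 : lam ≠ ⊤) (w : G) :
    ∑' LX, ∑' LY, (if HT hX LX = n ∧ HT hY LY = n ∧
        EvW hX zX sX hY zY sY w (a0 + 2 * i0 + s) (a0 + H - s) a0 (a0 + H + 2 * i0) LX LY
        then LW ΛX LX * LW ΛY LY else 0)
      ≤ u * u + 2 * (((i0 + 1 : ℕ) : ℝ≥0∞) * (i0 + 1 : ℕ) * (((i0 + 1 : ℕ) : ℝ≥0∞) * (i0 + 1 : ℕ) *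
          (C * (lam + (((i0 + 1 : ℕ) : ℝ≥0∞) * u⁻¹) * us s / lam + us s)))
          + ((1 - u) ^ J + J * ε)) + 4 * ε := by
  obtain ⟨tX, htX0, htX1, hnX, hqX⟩ := quant (zf := zX) h1X hΛX H hu0 hu1
  obtain ⟨tY, htY0, htY1, hnY, hqY⟩ := quant (zf := zY) h1Y hΛY (H + 2 * i0) hu0 hu1
  have htXt : tX ≠ ⊤ := ne_top_of_le_ne_top ENNReal.one_ne_top htX1
  have htYt : tY ≠ ⊤ := ne_top_of_le_ne_top ENNReal.one_ne_top htY1
  have hJ1 : J * (H + i0) ≤ a0 := le_trans (Nat.mul_le_mul_left _ (by omega)) hJ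
  have hJ2 : J * ((H + 2 * i0) + i0) ≤ a0 + i0 := by
    have : (H + 2 * i0) + i0 = H + 3 * i0 := by omega
    rw [this]; omega
  have hq1 : (1 : ℝ≥0∞) - u ≤ 1 := tsub_le_self
  have pX := partX h1X hΛX h1Y hΛY C us h2 a0 H i0 s J hHs hJ1 ε hεX lam tX hl0 hl1 htX0 htXt
    (1 - u) _ hq1 hqX (Gd_eq u tX hu0 hu1 htX0 htX1 i0).1 w
  have pY := partY h1X hΛX h1Y hΛY C us h3 a0 H i0 s J hHs hJ2 ε hεY lam tY hl0 hl1 htY0 htYt
    (1 - u) _ hq1 hqY (Gd_eq u tY hu0 hu1 htY0 htY1 i0).1 w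
  rw [(Gd_eq u tX hu0 hu1 htX0 htX1 i0).2] at pX
  rw [(Gd_eq u tY hu0 hu1 htY0 htY1 i0).2] at pY
  have red := window_red (zX := zX) (zY := zY) h1X hΛX hUX h1Y hΛY hUY hsX hsY a0 H i0 s n hs1 hn hHs ε ε hεX hεY w
  refine red.trans ?_
  set wA : List BX → ℝ≥0∞ := fun A => if fp hX a0 A ∧ HT hX A ≤ a0 + i0 then LW ΛX A else 0 with hwA
  set wB : List BY → ℝ≥0∞ := fun A' =>
    if fp hY (a0 + i0) A' ∧ HT hY A' ≤ (a0 + i0) + i0 then LW ΛY A' else 0 with hwB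
  set wPn : List BX → ℝ≥0∞ := fun P =>
    if fp hX H P ∧ ¬ tX ≤ pL ΛX hX zX H (HT hX P) (Dp zX P) then LW ΛX P else 0 with hwPn
  set wQn : List BY → ℝ≥0∞ := fun Q =>
    if fp hY (H + 2 * i0) Q ∧ ¬ tY ≤ pL ΛY hY zY (H + 2 * i0) (HT hY Q) (Dp zY Q) then LW ΛY Q
      else 0 with hwQn
  set tXf : List BX → List BY → List BX → List BY → ℝ≥0∞ := fun A A' P Q =>
    (if (fp hX H P ∧ HT hX P ≤ H + i0) ∧ tX ≤ pL ΛX hX zX H (HT hX P) (Dp zX P)
          ∧ (fp hY (H + 2 * i0) Q ∧ HT hY Q ≤ (H + 2 * i0) + i0) ∧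
          PE hX zX sX hY zY sY (a0 + 2 * i0 + s) (a0 + H - s) (HT hX A) (HT hY A')
            (w + Dp zY A' - Dp zX A) P Q
          then LW ΛX P * LW ΛY Q else 0) with htXf
  set tYf : List BX → List BY → List BX → List BY → ℝ≥0∞ := fun A A' P Q =>
    (if (fp hX H P ∧ HT hX P ≤ H + i0) ∧ tY ≤ pL ΛY hY zY (H + 2 * i0) (HT hY Q) (Dp zY Q)
          ∧ (fp hY (H + 2 * i0) Q ∧ HT hY Q ≤ (H + 2 * i0) + i0) ∧
          PE hX zX sX hY zY sY (a0 + 2 * i0 + s) (a0 + H - s) (HT hX A) (HT hY A')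
            (w + Dp zY A' - Dp zX A) P Q
          then LW ΛX P * LW ΛY Q else 0) with htYf
  have main : ∑' A, (if fp hX a0 A ∧ HT hX A ≤ a0 + i0 then LW ΛX A *
          ∑' P, (if fp hX H P ∧ HT hX P ≤ H + i0 then LW ΛX P *
            ∑' A', (if fp hY (a0 + i0) A' ∧ HT hY A' ≤ (a0 + i0) + i0 then LW ΛY A' *
              ∑' P', (if fp hY (H + 2 * i0) P' ∧ HT hY P' ≤ (H + 2 * i0) + i0 then LW ΛY P' *
                (if PE hX zX sX hY zY sY (a0 + 2 * i0 + s) (a0 + H - s) (HT hX A) (HT hY A')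
                  (w + Dp zY A' - Dp zX A) P P' then 1 else 0) else 0) else 0) else 0) else 0)
      ≤ u * u + (∑' A, ∑' A', wA A * wB A' * ∑' P, ∑' Q, tXf A A' P Q)
        + ∑' A, ∑' A', wA A * wB A' * ∑' P, ∑' Q, tYf A A' P Q := by
    have hpt : ∀ A P A' Q, (if fp hX a0 A ∧ HT hX A ≤ a0 + i0 then LW ΛX A *
          (if fp hX H P ∧ HT hX P ≤ H + i0 then LW ΛX P *
            (if fp hY (a0 + i0) A' ∧ HT hY A' ≤ (a0 + i0) + i0 then LW ΛY A' *
              (if fp hY (H + 2 * i0) Q ∧ HT hY Q ≤ (H + 2 * i0) + i0 then LW ΛY Q *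
                (if PE hX zX sX hY zY sY (a0 + 2 * i0 + s) (a0 + H - s) (HT hX A) (HT hY A')
                  (w + Dp zY A' - Dp zX A) P Q then 1 else 0) else 0) else 0) else 0) else 0)
        ≤ wA A * (wPn P * (wB A' * wQn Q)) + wA A * (wB A' * tXf A A' P Q)
          + wA A * (wB A' * tYf A A' P Q) := by
      intro A P A' Q
      by_cases cA : fp hX a0 A ∧ HT hX A ≤ a0 + i0
      swap
      · rw [if_neg cA]; exact zero_le
      by_cases cP : fp hX H P ∧ HT hX P ≤ H + i0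
      swap
      · rw [if_neg cP, mul_zero, ite_self]; exact zero_le
      by_cases cB : fp hY (a0 + i0) A' ∧ HT hY A' ≤ (a0 + i0) + i0
      swap
      · rw [if_neg cB, mul_zero, ite_self, mul_zero, ite_self]; exact zero_le
      by_cases cQ : fp hY (H + 2 * i0) Q ∧ HT hY Q ≤ (H + 2 * i0) + i0
      swap
      · rw [if_neg cQ, mul_zero, ite_self, mul_zero, ite_self, mul_zero, ite_self]
        exact zero_le
      by_cases cE : PE hX zX sX hY zY sY (a0 + 2 * i0 + s) (a0 + H - s) (HT hX A) (HT hY A')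
                  (w + Dp zY A' - Dp zX A) P Q
      swap
      · rw [if_neg cE, mul_zero, ite_self, mul_zero, ite_self, mul_zero, ite_self, mul_zero,
          ite_self]
        exact zero_le
      rw [if_pos cA, if_pos cP, if_pos cB, if_pos cQ, if_pos cE, mul_one]
      have eA : wA A = LW ΛX A := if_pos cA
      have eB : wB A' = LW ΛY A' := if_pos cB
      by_cases lX : tX ≤ pL ΛX hX zX H (HT hX P) (Dp zX P)
      · refine le_trans ?_ (le_trans le_add_self le_self_add)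
        have : tXf A A' P Q = LW ΛX P * LW ΛY Q := if_pos ⟨cP, lX, cQ, cE⟩
        rw [this, eA, eB]
        exact le_of_eq (by ring)
      · by_cases lY : tY ≤ pL ΛY hY zY (H + 2 * i0) (HT hY Q) (Dp zY Q)
        · refine le_trans ?_ le_add_self
          have : tYf A A' P Q = LW ΛX P * LW ΛY Q := if_pos ⟨cP, lY, cQ, cE⟩
          rw [this, eA, eB]
          exact le_of_eq (by ring)
        · refine le_trans ?_ (le_trans le_self_add le_self_add)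
          have e1 : wPn P = LW ΛX P := if_pos ⟨cP.1, lX⟩
          have e2 : wQn Q = LW ΛY Q := if_pos ⟨cQ.1, lY⟩
          rw [e1, e2, eA, eB]
    have hL : ∑' A, (if fp hX a0 A ∧ HT hX A ≤ a0 + i0 then LW ΛX A *
          ∑' P, (if fp hX H P ∧ HT hX P ≤ H + i0 then LW ΛX P *
            ∑' A', (if fp hY (a0 + i0) A' ∧ HT hY A' ≤ (a0 + i0) + i0 then LW ΛY A' *
              ∑' P', (if fp hY (H + 2 * i0) P' ∧ HT hY P' ≤ (H + 2 * i0) + i0 then LW ΛY P' *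
                (if PE hX zX sX hY zY sY (a0 + 2 * i0 + s) (a0 + H - s) (HT hX A) (HT hY A')
                  (w + Dp zY A' - Dp zX A) P P' then 1 else 0) else 0) else 0) else 0) else 0)
        = ∑' A, ∑' P, ∑' A', ∑' Q, (if fp hX a0 A ∧ HT hX A ≤ a0 + i0 then LW ΛX A *
          (if fp hX H P ∧ HT hX P ≤ H + i0 then LW ΛX P *
            (if fp hY (a0 + i0) A' ∧ HT hY A' ≤ (a0 + i0) + i0 then LW ΛY A' *
              (if fp hY (H + 2 * i0) Q ∧ HT hY Q ≤ (H + 2 * i0) + i0 then LW ΛY Q *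
                (if PE hX zX sX hY zY sY (a0 + 2 * i0 + s) (a0 + H - s) (HT hX A) (HT hY A')
                  (w + Dp zY A' - Dp zX A) P Q then 1 else 0) else 0) else 0) else 0) else 0) := by
      refine tsum_congr fun A => ?_
      by_cases cA : fp hX a0 A ∧ HT hX A ≤ a0 + i0
      swap
      · simp [cA]
      simp only [cA, and_self, if_true]
      rw [← ENNReal.tsum_mul_left]
      refine tsum_congr fun P => ?_
      by_cases cP : fp hX H P ∧ HT hX P ≤ H + i0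
      swap
      · simp [cP]
      simp only [cP, and_self, if_true]
      rw [← mul_assoc, ← ENNReal.tsum_mul_left]
      refine tsum_congr fun A' => ?_
      by_cases cB : fp hY (a0 + i0) A' ∧ HT hY A' ≤ (a0 + i0) + i0
      swap
      · simp [cB]
      simp only [cB, and_self, if_true]
      rw [← mul_assoc, ← ENNReal.tsum_mul_left]
      refine tsum_congr fun Q => ?_
      rw [mul_assoc, mul_assoc]
    rw [hL]
    refine (ENNReal.tsum_le_tsum fun A => ENNReal.tsum_le_tsum fun P =>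
      ENNReal.tsum_le_tsum fun A' => ENNReal.tsum_le_tsum fun Q => hpt A P A' Q).trans ?_
    have sw : ∀ f : List BX → List BY → List BX → List BY → ℝ≥0∞,
        ∑' A, ∑' P, ∑' A', ∑' Q, wA A * (wB A' * f A A' P Q)
          = ∑' A, ∑' A', wA A * wB A' * ∑' P, ∑' Q, f A A' P Q := by
      intro f
      refine tsum_congr fun A => ?_
      rw [ENNReal.tsum_comm]
      refine tsum_congr fun A' => ?_
      simp_rw [← mul_assoc, ENNReal.tsum_mul_left]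
    simp_rw [ENNReal.tsum_add]
    rw [sw tXf, sw tYf]
    refine add_le_add (add_le_add ?_ le_rfl) le_rfl
    simp_rw [ENNReal.tsum_mul_left, ENNReal.tsum_mul_right]
    calc (∑' A, wA A) * ((∑' P, wPn P) * ((∑' A', wB A') * ∑' Q, wQn Q))
        ≤ 1 * (u * (1 * u)) := mul_le_mul' (good_sum h1X hΛX a0 _)
          (mul_le_mul' hnX (mul_le_mul' (good_sum h1Y hΛY _ _) hnY))
      _ = u * u := by ring
  set b1 := ((i0 + 1 : ℕ) : ℝ≥0∞) * (i0 + 1 : ℕ) * (((i0 + 1 : ℕ) : ℝ≥0∞) * (i0 + 1 : ℕ) *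
          (C * (lam + (((i0 + 1 : ℕ) : ℝ≥0∞) * u⁻¹) * us s / lam + us s)))
          + ((1 - u) ^ J + J * ε) with hb1
  calc _ ≤ (u * u + b1 + b1) + 2 * ε + 2 * ε := by
        refine add_le_add (add_le_add (main.trans ?_) le_rfl) le_rfl
        exact add_le_add (add_le_add le_rfl pX) pY
    _ = _ := by ring

end Crest.Agent.R154.Asm4
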