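import Crest.Agent.R154.AsmE_52
import Crest.Agent.R154.NumK_658
import Crest.Agent.R154.Num_337

/-! Row 154 (helper52): the sum over the windows and the choice of the constants. -/

set_option autoImplicit false

namespace Crest.Agent.R154.Asm52

open Crest.Agent.R154.B5A Crest.Agent.R154.FP52
open scoped ENNReal Classical Topology
open Finset

section kap

variable {BX BY G : Type*} [AddCommGroup G]
  (ΛX : BX → ℝ≥0∞) (hX : BX → ℕ) (zX : BX → G) (sX : BX → Set (G × ℕ))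
  (ΛY : BY → ℝ≥0∞) (hY : BY → ℕ) (zY : BY → G) (sY : BY → Set (G × ℕ))

lemma Kw_split (n m hi N t : ℕ) (ht : 0 < t) (hhi : hi ≤ m + N * t) (w : G) :
    Kw ΛX hX zX sX ΛY hY zY sY n m hi w
      ≤ ∑ q ∈ range N, Kw ΛX hX zX sX ΛY hY zY sY n (m + q * t) (m + q * t + t) w := by
  have e : ∑ q ∈ range N, Kw ΛX hX zX sX ΛY hY zY sY n (m + q * t) (m + q * t + t) w
      = ∑' LX : List BX, ∑' LY : List BY, ∑ q ∈ range N, (if HT hX LX = n ∧ HT hY LY = n ∧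
        (∃ y k, m + q * t < k ∧ k ≤ m + q * t + t ∧ (y, k) ∈ TR hX zX sX LX 0 0 ∧
          (y, k) ∈ TR hY zY sY LY w 0) then LW ΛX LX * LW ΛY LY else 0) := by
    simp only [Kw]
    rw [← Summable.tsum_finsetSum (fun _ _ => ENNReal.summable)]
    refine tsum_congr fun LX => ?_
    rw [← Summable.tsum_finsetSum (fun _ _ => ENNReal.summable)]
  rw [e, Kw]
  refine ENNReal.tsum_le_tsum fun LX => ENNReal.tsum_le_tsum fun LY => ?_
  by_cases hc : HT hX LX = n ∧ HT hY LY = n ∧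
      (∃ y k, m < k ∧ k ≤ hi ∧ (y, k) ∈ TR hX zX sX LX 0 0 ∧ (y, k) ∈ TR hY zY sY LY w 0)
  · rw [if_pos hc]
    obtain ⟨c1, c2, y, k, k1, k2, k3, k4⟩ := hc
    have q0 : (k - m - 1) / t < N := by
      rw [Nat.div_lt_iff_lt_mul ht]; omega
    have q1 : (k - m - 1) / t * t ≤ k - m - 1 := Nat.div_mul_le_self _ _
    have q2 : k - m - 1 < (k - m - 1) / t * t + t := by
      have := Nat.lt_div_mul_add ht (a := k - m - 1)
      exact this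
    refine le_trans ?_ (Finset.single_le_sum (fun _ _ => zero_le) (Finset.mem_range.2 q0))
    rw [if_pos ⟨c1, c2, y, k, by omega, by omega, k3, k4⟩]
  · rw [if_neg hc]; exact zero_le

/-- **KAPPA' on lists** (weak form: the height is large depending on `m`) -/
theorem kapS' (h1X : ∀ b, 1 ≤ hX b) (h1Y : ∀ b, 1 ≤ hY b)
    (hU1X : ∀ n, U ΛX hX n ≤ 1) (hU1Y : ∀ n, U ΛY hY n ≤ 1)
    (cX cY : ℝ≥0∞) (hcX : cX ≠ 0) (hcY : cY ≠ 0) (R : ℕ)
    (hUX : ∀ n, R ≤ n → cX ≤ U ΛX hX n) (hUY : ∀ n, R ≤ n → cY ≤ U ΛY hY n)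
    (hsX : ∀ b r, r ∈ sX b → 1 ≤ r.2 ∧ r.2 ≤ hX b)
    (hsY : ∀ b r, r ∈ sY b → 1 ≤ r.2 ∧ r.2 ≤ hY b)
    (C : ℝ≥0∞) (hC : C ≠ ⊤) (us : ℕ → ℝ≥0∞) (hus : Filter.Tendsto us Filter.atTop (𝓝 0))
    (HX : HWX ΛX hX zX sX ΛY hY zY sY C us) (HY : HWY ΛX hX zX sX ΛY hY zY sY C us)
    (hPt : ∀ ε : ℝ≥0∞, ε ≠ 0 → ∃ k0 : ℕ, ∀ k, k0 ≤ k → ∀ n, k ≤ n → ∀ w : G,
      Pt ΛX hX zX sX ΛY hY zY sY n k w ≤ ε) :
    ∀ ε : ℝ≥0∞, ε ≠ 0 → ∃ M : ℕ, ∀ m, M ≤ m → ∀ n, 8 * m ≤ n → ∀ w : G,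
      Kw ΛX hX zX sX ΛY hY zY sY n m (2 * m) w ≤ ε := by
  intro ε hε
  have hΛX : ∑' b, ΛX b = 1 :=
    le_antisymm (mass_le_one ΛX hX h1X hU1X) (mass_ge_one ΛX hX cX hcX R hUX)
  have hΛY : ∑' b, ΛY b = 1 :=
    le_antisymm (mass_le_one ΛY hY h1Y hU1Y) (mass_ge_one ΛY hY cY hcY R hUY)
  have heX : Filter.Tendsto (fun i => eo ΛX hX i) Filter.atTop (𝓝 0) :=
    Gap583.gap_tendsto ΛX hX h1X cX hcX R hUX hU1X
  have heY : Filter.Tendsto (fun i => eo ΛY hY i) Filter.atTop (𝓝 0) :=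
    Gap583.gap_tendsto ΛY hY h1Y cY hcY R hUY hU1Y
  have he : Filter.Tendsto (fun i => eo ΛX hX i + eo ΛY hY i) Filter.atTop (𝓝 0) := by
    have := heX.add heY
    rwa [add_zero] at this
  set δ : ℝ≥0∞ := ε / 5 with hδ
  have hδ0 : δ ≠ 0 := by
    rw [hδ, Ne, ENNReal.div_eq_zero_iff, not_or]
    exact ⟨hε, by norm_num⟩
  have h5 : δ + δ + δ + δ + δ ≤ ε := by
    have : (5 : ℝ≥0∞) * (ε / 5) = ε := ENNReal.mul_div_cancel (by norm_num) (by norm_num)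
    rw [← this, ← hδ]
    apply le_of_eq; ring
  obtain ⟨J, u, -, hJ1, hu0, hu1, hK1, hK2⟩ := NumK658.chooseK1 8 (by norm_num) δ hδ0 1
  obtain ⟨i0, hi0⟩ := Num337.exSmall _ he ((4 * ((J : ℝ≥0∞) + 1)) * (2 + J))
    (ENNReal.mul_ne_top (ENNReal.mul_ne_top (by norm_num)
      (ENNReal.add_ne_top.2 ⟨ENNReal.natCast_ne_top _, ENNReal.one_ne_top⟩))
      (ENNReal.add_ne_top.2 ⟨by norm_num, ENNReal.natCast_ne_top _⟩)) δ hδ0
  obtain ⟨lam, hl0, hl, -, s, hs⟩ := Num337.exLam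
    ((4 * ((J : ℝ≥0∞) + 1)) * (2 * ((i0 + 1 : ℕ) : ℝ≥0∞) ^ 4 * C)) ((i0 + 1 : ℕ) * J : ℝ≥0∞)
    (ENNReal.mul_ne_top (ENNReal.mul_ne_top (by norm_num)
      (ENNReal.add_ne_top.2 ⟨ENNReal.natCast_ne_top _, ENNReal.one_ne_top⟩))
      (ENNReal.mul_ne_top (ENNReal.mul_ne_top (by norm_num)
        (ENNReal.pow_ne_top (ENNReal.natCast_ne_top _))) hC))
    (ENNReal.mul_ne_top (ENNReal.natCast_ne_top _) (ENNReal.natCast_ne_top _)) us hus δ hδ0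
  obtain ⟨η, hη0, hη⟩ := NumK658.chooseEta
    ((4 * ((J : ℝ≥0∞) + 1)) * ((4 * i0 + 2 * s : ℕ) : ℝ≥0∞))
    (ENNReal.mul_ne_top (ENNReal.mul_ne_top (by norm_num)
      (ENNReal.add_ne_top.2 ⟨ENNReal.natCast_ne_top _, ENNReal.one_ne_top⟩))
      (ENNReal.natCast_ne_top _)) δ hδ0
  obtain ⟨k0, hk0⟩ := hPt η hη0
  refine ⟨(k0 + (4 * J + 1) + 2 * i0 + s) * (4 * J + 1), fun m hm n hn w => ?_⟩
  set t := m / (4 * J + 1) with ht
  have t1 : k0 + (4 * J + 1) + 2 * i0 + s ≤ t := by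
    rw [ht, Nat.le_div_iff_mul_le (by omega)]; exact hm
  have t2 : t * (4 * J + 1) ≤ m := Nat.div_mul_le_self _ _
  have t3 : m < t * (4 * J + 1) + (4 * J + 1) := by
    have := Nat.lt_div_mul_add (show 0 < 4 * J + 1 by omega) (a := m)
    exact this
  have t4 : t * (4 * J + 1) = 4 * (J * t) + t := by ring
  have t5 : (4 * J + 2) * t = 4 * (J * t) + 2 * t := by ring
  have t6 : t ≤ J * t := by nlinarith
  have hone : ∀ q, q < 4 * J + 2 →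
      Kw ΛX hX zX sX ΛY hY zY sY n (m + q * t) (m + q * t + t) w
        ≤ ((4 * i0 + 2 * s : ℕ) : ℝ≥0∞) * η + u ^ 2 + (2 * ((i0 + 1 : ℕ) : ℝ≥0∞) ^ 4 * C) *
          (lam + ((i0 + 1 : ℕ) * J : ℝ≥0∞) * us s / lam + us s) + 2 * (1 - u) ^ J
          + (2 + J) * (eo ΛX hX i0 + eo ΛY hY i0) := by
    intro q hq
    have q1 : q * t ≤ 4 * (J * t) + t := by
      calc q * t ≤ (4 * J + 1) * t := Nat.mul_le_mul_right _ (by omega)
        _ = _ := by ring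
    set c := m + q * t - t with hc
    have hw := window ΛX hX zX sX ΛY hY zY sY h1X h1Y hΛX hΛY hU1X hU1Y hsX hsY n (m + q * t)
      (m + q * t + t) c (3 * t) i0 s (by omega) (by omega) (by omega) w
    have hJc : J * (3 * t + i0 + i0) ≤ c := by
      have : J * (3 * t + i0 + i0) ≤ J * (4 * t) := Nat.mul_le_mul_left _ (by omega)
      have e : J * (4 * t) = 4 * (J * t) := by ring
      omega
    have hg := good_le ΛX hX zX sX ΛY hY zY sY h1X h1Y hΛX hΛY hU1X hU1Y C us HX HY J c (3 * t)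
      i0 s u lam hu0 hu1 hl0 hl (by omega) hJc w
    have hpt : (∑ k ∈ Kset c (3 * t) i0 s, Pt ΛX hX zX sX ΛY hY zY sY n k w)
        ≤ ((4 * i0 + 2 * s : ℕ) : ℝ≥0∞) * η := by
      calc _ ≤ ∑ k ∈ Kset c (3 * t) i0 s, η := by
            refine Finset.sum_le_sum fun k hk => ?_
            rw [Kset, Finset.mem_union, Finset.mem_Ico, Finset.mem_Ioc] at hk
            exact hk0 k (by omega) n (by omega) w
        _ = ((Kset c (3 * t) i0 s).card : ℝ≥0∞) * η := by rw [Finset.sum_const, nsmul_eq_mul]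
        _ ≤ _ := by
            refine mul_le_mul_left ?_ _
            have hcard : (Kset c (3 * t) i0 s).card ≤ 4 * i0 + 2 * s := by
              refine (Finset.card_union_le _ _).trans ?_
              rw [Nat.card_Ico, Nat.card_Ioc]
              omega
            exact_mod_cast hcard
    refine hw.trans ((add_le_add hpt (add_le_add le_rfl (add_le_add le_rfl hg))).trans
      (le_of_eq ?_))
    ring
  calc Kw ΛX hX zX sX ΛY hY zY sY n m (2 * m) w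
      ≤ ∑ q ∈ range (4 * J + 2),
          Kw ΛX hX zX sX ΛY hY zY sY n (m + q * t) (m + q * t + t) w :=
        Kw_split ΛX hX zX sX ΛY hY zY sY n m (2 * m) (4 * J + 2) t (by omega) (by omega) w
    _ ≤ ∑ q ∈ range (4 * J + 2), (((4 * i0 + 2 * s : ℕ) : ℝ≥0∞) * η + u ^ 2
          + (2 * ((i0 + 1 : ℕ) : ℝ≥0∞) ^ 4 * C) *
          (lam + ((i0 + 1 : ℕ) * J : ℝ≥0∞) * us s / lam + us s) + 2 * (1 - u) ^ J
          + (2 + J) * (eo ΛX hX i0 + eo ΛY hY i0)) :=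
        Finset.sum_le_sum fun q hq => hone q (Finset.mem_range.1 hq)
    _ = ((4 * J + 2 : ℕ) : ℝ≥0∞) * (((4 * i0 + 2 * s : ℕ) : ℝ≥0∞) * η + u ^ 2
          + (2 * ((i0 + 1 : ℕ) : ℝ≥0∞) ^ 4 * C) *
          (lam + ((i0 + 1 : ℕ) * J : ℝ≥0∞) * us s / lam + us s) + 2 * (1 - u) ^ J
          + (2 + J) * (eo ΛX hX i0 + eo ΛY hY i0)) := by
        rw [Finset.sum_const, card_range, nsmul_eq_mul]
    _ ≤ (4 * ((J : ℝ≥0∞) + 1)) * (((4 * i0 + 2 * s : ℕ) : ℝ≥0∞) * η + u ^ 2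
          + (2 * ((i0 + 1 : ℕ) : ℝ≥0∞) ^ 4 * C) *
          (lam + ((i0 + 1 : ℕ) * J : ℝ≥0∞) * us s / lam + us s) + 2 * (1 - u) ^ J
          + (2 + J) * (eo ΛX hX i0 + eo ΛY hY i0)) := by
        refine mul_le_mul_left ?_ _
        have : 4 * J + 2 ≤ 4 * (J + 1) := by omega
        calc ((4 * J + 2 : ℕ) : ℝ≥0∞) ≤ ((4 * (J + 1) : ℕ) : ℝ≥0∞) := by exact_mod_cast this
          _ = _ := by push_cast; ring
    _ = (4 * ((J : ℝ≥0∞) + 1)) * ((4 * i0 + 2 * s : ℕ) : ℝ≥0∞) * η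
          + 4 * (((J : ℝ≥0∞) + 1) * u ^ 2)
          + (4 * ((J : ℝ≥0∞) + 1)) * (2 * ((i0 + 1 : ℕ) : ℝ≥0∞) ^ 4 * C) *
          (lam + ((i0 + 1 : ℕ) * J : ℝ≥0∞) * us s / lam + us s)
          + 8 * (((J : ℝ≥0∞) + 1) * (1 - u) ^ J)
          + (4 * ((J : ℝ≥0∞) + 1)) * (2 + J) * (eo ΛX hX i0 + eo ΛY hY i0) := by ring
    _ ≤ δ + δ + δ + δ + δ := by
        refine add_le_add (add_le_add (add_le_add (add_le_add hη ?_) (hs s le_rfl)) hK2)
          (hi0 i0 le_rfl)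
        refine le_trans ?_ hK1
        refine mul_le_mul_left ?_ _
        norm_num
    _ ≤ ε := h5

end kap

end Crest.Agent.R154.Asm52
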