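import Crest.Agent.R154.AsmE_594
import Crest.Agent.R154.Gap_583

/-! Row 154, ROAD 801 (helper594): chains of pieces, overshoots. Pure sums. -/

set_option autoImplicit false

namespace Crest.Agent.R154.Asm594

open scoped ENNReal Topology
open Crest.Agent.R154.B5A
open Crest.Agent.R154.Bind12 (TT Dp)

section single

variable {B G : Type*} [AddCommGroup G] (Λ : B → ℝ≥0∞) (ht : B → ℕ) (z : B → G)

lemma HT_flat (PL : List (List B)) : HT ht PL.flatten = HT (HT ht) PL := by
  induction PL with
  | nil => rfl
  | cons P PL ih => rw [List.flatten_cons, HT_append, ih, HT_cons]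

lemma Dp_flat (PL : List (List B)) : Dp z PL.flatten = (PL.map (Dp z)).sum := by
  induction PL with
  | nil => rfl
  | cons P PL ih => rw [List.flatten_cons, Dp_append, ih, List.map_cons, List.sum_cons]

open Classical in
lemma LW_pw (T : ℕ) (PL : List (List B)) :
    LW (pw Λ ht T) PL = if (∀ P ∈ PL, FP ht P T) then LW Λ PL.flatten else 0 := by
  induction PL with
  | nil => simp [LW_nil]
  | cons P PL ih =>
    rw [LW_cons, ih, List.flatten_cons, LW_append]
    unfold pw
    by_cases h1 : FP ht P T
    · by_cases h2 : ∀ P ∈ PL, FP ht P T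
      · rw [if_pos h1, if_pos h2, if_pos]
        intro P' hP'
        rcases List.mem_cons.1 hP' with rfl | h
        · exact h1
        · exact h2 _ h
      · rw [if_neg h2, mul_zero, if_neg]
        intro h
        exact h2 fun P' hP' => h P' (List.mem_cons_of_mem _ hP')
    · rw [if_neg h1, zero_mul, if_neg]
      intro h
      exact h1 (h P (List.mem_cons_self))

/-- overshoot of the `j`-th piece -/
def OVR (T i0 j : ℕ) (L : List B) : Prop :=
  ∃ (PL : List (List B)) (P Q : List B), PL.flatten ++ (P ++ Q) = L ∧ PL.length = j ∧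
    (∀ P ∈ PL, FP ht P T) ∧ FP ht P T ∧ T + i0 < HT ht P

lemma HT_pieces_ge (T : ℕ) (PL : List (List B)) (h : ∀ P ∈ PL, FP ht P T) :
    PL.length * T ≤ HT ht PL.flatten := by
  induction PL with
  | nil => simp
  | cons P PL ih =>
    rw [List.flatten_cons, HT_append, List.length_cons]
    have h1 := FP_le ht P T (h P (List.mem_cons_self))
    have h2 := ih fun P' hP' => h P' (List.mem_cons_of_mem _ hP')
    rw [Nat.add_mul]
    omega

lemma chain (T i0 n J : ℕ) (hn : J * (T + i0) ≤ n) (L : List B) (hL : HT ht L = n)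
    (hno : ∀ j < J, ¬ OVR ht T i0 j L) : ∀ j ≤ J, ∃ (PL : List (List B)) (Q : List B),
      PL.flatten ++ Q = L ∧ PL.length = j ∧ (∀ P ∈ PL, FP ht P T) ∧
      HT ht PL.flatten ≤ j * (T + i0) := by
  intro j
  induction j with
  | zero =>
    intro _
    exact ⟨[], L, rfl, rfl, by simp, by simp [HT_nil]⟩
  | succ j ih =>
    intro hj
    obtain ⟨PL, Q, h1, h2, h3, h4⟩ := ih (by omega)
    have hQ : T ≤ HT ht Q := by
      have e : HT ht PL.flatten + HT ht Q = n := by rw [← HT_append, h1, hL]
      have e2 : (j + 1) * (T + i0) ≤ n := le_trans (Nat.mul_le_mul_right _ hj) hn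
      rw [Nat.add_mul] at e2
      omega
    obtain ⟨P, Q', hP, hFP⟩ := FP_exists ht Q T hQ
    have hle : HT ht P ≤ T + i0 := by
      by_contra hcon
      exact hno j (by omega) ⟨PL, P, Q', by rw [← hP, h1], h2, h3, hFP, by omega⟩
    refine ⟨PL ++ [P], Q', ?_, ?_, ?_, ?_⟩
    · rw [List.flatten_append, List.flatten_singleton, List.append_assoc, ← hP, h1]
    · simp [h2]
    · intro P' hP'
      rcases List.mem_append.1 hP' with h | h
      · exact h3 _ h
      · rw [List.mem_singleton.1 h]; exact hFP
    · rw [List.flatten_append, List.flatten_singleton, HT_append, Nat.add_mul]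
      omega

lemma piece (T i0 n J : ℕ) (hn : J * (T + i0) ≤ n) (L : List B) (hL : HT ht L = n)
    (hno : ∀ j < J, ¬ OVR ht T i0 j L) (j : ℕ) (hj : j < J) :
    ∃ (PL : List (List B)) (P Q : List B), PL.flatten ++ (P ++ Q) = L ∧ PL.length = j ∧
      (∀ P ∈ PL, FP ht P T) ∧ FP ht P T ∧ HT ht PL.flatten ≤ j * (T + i0) ∧
      HT ht P ≤ T + i0 := by
  obtain ⟨PL, Q, h1, h2, h3, h4⟩ := chain ht T i0 n J hn L hL hno j hj.le
  have hQ : T ≤ HT ht Q := by
    have e : HT ht PL.flatten + HT ht Q = n := by rw [← HT_append, h1, hL]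
    have e2 : (j + 1) * (T + i0) ≤ n := le_trans (Nat.mul_le_mul_right _ hj) hn
    rw [Nat.add_mul] at e2
    omega
  obtain ⟨P, Q', hP, hFP⟩ := FP_exists ht Q T hQ
  have hle : HT ht P ≤ T + i0 := by
    by_contra hcon
    exact hno j hj ⟨PL, P, Q', by rw [← hP, h1], h2, h3, hFP, by omega⟩
  exact ⟨PL, P, Q', by rw [← hP, h1], h2, h3, hFP, h4, hle⟩

open Classical in
lemma rest_le (hU1 : ∀ n, U Λ ht n ≤ 1) (c n : ℕ) :
    ∑' Q : List B, (if c + HT ht Q = n then LW Λ Q else 0) ≤ 1 := by
  by_cases h : c ≤ n
  · refine le_trans (le_of_eq ?_) (hU1 (n - c))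
    unfold U
    refine tsum_congr fun Q => ?_
    by_cases h' : HT ht Q = n - c
    · rw [if_pos h', if_pos (by omega)]
    · rw [if_neg h', if_neg (by omega)]
  · refine le_trans (le_of_eq ?_) zero_le_one
    rw [ENNReal.tsum_eq_zero]
    intro Q
    rw [if_neg (by omega)]

open Classical in
/-- weight of the pieces with a large overshoot -/
noncomputable def gp (T i0 : ℕ) : ℝ≥0∞ :=
  ∑' P : List B, if FP ht P T ∧ T + i0 < HT ht P then LW Λ P else 0

open Classical in
lemma ovr_le (h1 : ∀ b, 1 ≤ ht b) (hΛ : ∑' b, Λ b = 1) (hU1 : ∀ n, U Λ ht n ≤ 1)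
    (T i0 n j : ℕ) :
    ∑' L : List B, (if HT ht L = n ∧ OVR ht T i0 j L then LW Λ L else 0) ≤ gp Λ ht T i0 := by
  have e0 : ∀ L : List B, (if HT ht L = n ∧ OVR ht T i0 j L then LW Λ L else 0)
      = if ∃ t : (List (List B) × List B) × List B, t.1.1.flatten ++ (t.1.2 ++ t.2) = L ∧
        (t.1.1.length = j ∧ (∀ P ∈ t.1.1, FP ht P T) ∧ FP ht t.1.2 T ∧ T + i0 < HT ht t.1.2)
        then (if HT ht L = n then LW Λ L else 0) else 0 := by
    intro L
    have : OVR ht T i0 j L ↔ ∃ t : (List (List B) × List B) × List B,
        t.1.1.flatten ++ (t.1.2 ++ t.2) = L ∧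
        (t.1.1.length = j ∧ (∀ P ∈ t.1.1, FP ht P T) ∧ FP ht t.1.2 T ∧ T + i0 < HT ht t.1.2) := by
      constructor
      · rintro ⟨PL, P, Q, g1, g2, g3, g4, g5⟩
        exact ⟨((PL, P), Q), g1, g2, g3, g4, g5⟩
      · rintro ⟨⟨⟨PL, P⟩, Q⟩, g1, g2, g3, g4, g5⟩
        exact ⟨PL, P, Q, g1, g2, g3, g4, g5⟩
    rw [← this]
    by_cases q1 : HT ht L = n <;> by_cases q2 : OVR ht T i0 j L <;> simp [q1, q2]
  simp_rw [e0]
  refine (ub (fun L => if HT ht L = n then LW Λ L else 0)
    (fun t : (List (List B) × List B) × List B => t.1.1.flatten ++ (t.1.2 ++ t.2)) _).trans ?_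
  rw [ENNReal.tsum_prod']
  calc _ ≤ ∑' τ : List (List B) × List B, (if τ.1.length = j then LW (pw Λ ht T) τ.1 * 1 else 0) *
        (if FP ht τ.2 T ∧ T + i0 < HT ht τ.2 then LW Λ τ.2 else 0) := by
        refine ENNReal.tsum_le_tsum fun τ => ?_
        obtain ⟨PL, P⟩ := τ
        simp only
        by_cases q : PL.length = j ∧ (∀ P ∈ PL, FP ht P T) ∧ FP ht P T ∧ T + i0 < HT ht P
        · rw [if_pos q.1, if_pos q.2.2, LW_pw, if_pos q.2.1]
          calc _ = ∑' Q, (LW Λ PL.flatten * LW Λ P) *
                (if (HT ht PL.flatten + HT ht P) + HT ht Q = n then LW Λ Q else 0) := by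
                refine tsum_congr fun Q => ?_
                rw [if_pos q, HT_append, HT_append, LW_append, LW_append, add_assoc]
                split_ifs
                · ring
                · simp
            _ ≤ (LW Λ PL.flatten * LW Λ P) * 1 := by
                rw [ENNReal.tsum_mul_left]
                exact mul_le_mul_right (rest_le Λ ht hU1 _ _) _
            _ = _ := by ring
        · refine le_trans (le_of_eq ?_) zero_le
          rw [ENNReal.tsum_eq_zero]
          intro Q
          rw [if_neg q]
    _ = (SL (pw Λ ht T) j (fun _ => 1)) * gp Λ ht T i0 := by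
        rw [ENNReal.tsum_prod']
        simp_rw [ENNReal.tsum_mul_left]
        rw [ENNReal.tsum_mul_right]
        rfl
    _ ≤ 1 * gp Λ ht T i0 :=
        mul_le_mul_left (SL_le_one _ (pw_sum Λ ht h1 hΛ T).le j) _
    _ = _ := one_mul _

lemma FP_last (P : List B) (T : ℕ) (hT : T ≠ 0) (h : FP ht P T) :
    ∃ L1 b, L1 ++ [b] = P ∧ HT ht L1 < T := by
  induction P generalizing T with
  | nil => exact absurd h hT
  | cons b P ih =>
    obtain ⟨h0, h2⟩ := h
    by_cases h3 : T - ht b = 0
    · rw [h3] at h2
      cases P with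
      | nil => exact ⟨[], b, rfl, by rw [HT_nil]; omega⟩
      | cons b' P => exact absurd rfl h2.1
    · obtain ⟨L1, b', h4, h5⟩ := ih _ h3 h2
      refine ⟨b :: L1, b', by rw [← h4]; rfl, ?_⟩
      rw [HT_cons]; omega

open Classical in
lemma gp_le (hU1 : ∀ n, U Λ ht n ≤ 1) (T i0 : ℕ) :
    gp Λ ht T i0 ≤ ∑' b, Λ b * ((ht b - i0 : ℕ) : ℝ≥0∞) := by
  unfold gp
  calc _ ≤ ∑' P : List B, (if ∃ t : B × List B, t.2 ++ [t.1] = P ∧
        (HT ht t.2 < T ∧ T + i0 < HT ht t.2 + ht t.1) then LW Λ P else 0) := by
        refine ENNReal.tsum_le_tsum fun P => ?_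
        by_cases q : FP ht P T ∧ T + i0 < HT ht P
        · rw [if_pos q, if_pos]
          by_cases hT : T = 0
          · exfalso
            subst hT
            cases P with
            | nil => have := q.2; rw [HT_nil] at this; omega
            | cons b P => exact q.1.1 rfl
          · obtain ⟨L1, b, h4, h5⟩ := FP_last ht P T hT q.1
            refine ⟨(b, L1), h4, h5, ?_⟩
            have := q.2
            rw [← h4, HT_append, HT_cons, HT_nil] at this
            simpa using this
        · rw [if_neg q]; exact zero_le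
    _ ≤ _ := ub (LW Λ) (fun t : B × List B => t.2 ++ [t.1]) _
    _ = ∑' b, ∑' L : List B, (if HT ht L < T ∧ T + i0 < HT ht L + ht b then
        LW Λ (L ++ [b]) else 0) := by
        rw [ENNReal.tsum_prod']
        refine tsum_congr fun b => tsum_congr fun L => ?_
        congr
    _ ≤ _ := by
        refine ENNReal.tsum_le_tsum fun b => ?_
        calc ∑' L : List B, (if HT ht L < T ∧ T + i0 < HT ht L + ht b then LW Λ (L ++ [b]) else 0)
            = ∑' L : List B, ∑ n ∈ (Finset.range T).filter (fun n => T + i0 < n + ht b),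
              Λ b * (if HT ht L = n then LW Λ L else 0) := by
              refine tsum_congr fun L => ?_
              rw [LW_append, LW_cons, LW_nil, mul_one]
              by_cases q : HT ht L < T ∧ T + i0 < HT ht L + ht b
              · rw [if_pos q, Finset.sum_eq_single (HT ht L)]
                · rw [if_pos rfl, mul_comm]
                · intro n _ hn; rw [if_neg (Ne.symm hn), mul_zero]
                · intro hn
                  exact absurd (Finset.mem_filter.2 ⟨Finset.mem_range.2 q.1, q.2⟩) hn
              · rw [if_neg q]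
                symm
                refine Finset.sum_eq_zero fun n hn => ?_
                rw [Finset.mem_filter, Finset.mem_range] at hn
                rw [if_neg, mul_zero]
                rintro rfl
                exact q hn
          _ = ∑ n ∈ (Finset.range T).filter (fun n => T + i0 < n + ht b), Λ b * U Λ ht n := by
              rw [Summable.tsum_finsetSum (fun i _ => ENNReal.summable)]
              refine Finset.sum_congr rfl fun n _ => ?_
              rw [ENNReal.tsum_mul_left]; rfl
          _ ≤ ∑ n ∈ (Finset.range T).filter (fun n => T + i0 < n + ht b), Λ b :=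
              Finset.sum_le_sum fun n _ => mul_le_of_le_one_right' (hU1 n)
          _ = Λ b * (((Finset.range T).filter (fun n => T + i0 < n + ht b)).card : ℝ≥0∞) := by
              rw [Finset.sum_const, nsmul_eq_mul, mul_comm]
          _ ≤ _ := by
              refine mul_le_mul_right ?_ _
              have hcard : ((Finset.range T).filter (fun n => T + i0 < n + ht b)).card ≤ ht b - i0 := by
                have hsub : (Finset.range T).filter (fun n => T + i0 < n + ht b)
                    ⊆ Finset.Ico (T + i0 + 1 - ht b) T := by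
                  intro n hn
                  rw [Finset.mem_filter, Finset.mem_range] at hn
                  rw [Finset.mem_Ico]
                  omega
                refine (Finset.card_le_card hsub).trans ?_
                rw [Nat.card_Ico]
                omega
              exact_mod_cast hcard

end single

end Crest.Agent.R154.Asm594
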