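import Crest.Agent.R154.AsmE_636
import Crest.Agent.R154.Num_869

/-! Row 154, ROAD 801, abstract assembly (helper636), part F: sum over the windows, constants. -/

set_option autoImplicit false

namespace Crest.Agent.R154.Asm636

open scoped ENNReal Topology
open Filter
open Crest.Agent.R154.B5A Crest.Agent.R154.FP178

variable {BX BY G : Type*} [AddCommGroup G]
variable (ΛX : BX → ℝ≥0∞) (hX : BX → ℕ) (zX : BX → G) (sX : BX → Set (G × ℕ))
variable (ΛY : BY → ℝ≥0∞) (hY : BY → ℕ) (zY : BY → G) (sY : BY → Set (G × ℕ))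

/-- overshoot bound -/
noncomputable def ep {B : Type*} (Λ : B → ℝ≥0∞) (h : B → ℕ) (i : ℕ) : ℝ≥0∞ :=
  ∑' k, tail Λ h (i + k)

lemma ep_tendsto {B : Type*} (Λ : B → ℝ≥0∞) (h : B → ℕ) (hΛ : ∑' b, Λ b = 1)
    (hE : ∑' b, Λ b * (h b : ℝ≥0∞) ≠ ⊤) : Tendsto (ep Λ h) atTop (𝓝 0) := by
  have h1 : ∑' k, tail Λ h k ≠ ⊤ := by rw [← sum_tail Λ h hΛ]; exact hE
  have h2 := ENNReal.tendsto_sum_nat_add (tail Λ h) h1
  refine h2.congr fun i => ?_
  unfold ep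
  exact tsum_congr fun k => by rw [add_comm]

open Classical in
/-- common site at depth `k` -/
def PK (w : G) (L : List BX) (L' : List BY) (k : ℕ) : Prop :=
  ∃ z, (z, k) ∈ TS hX zX sX L 0 0 ∧ (z, k) ∈ TS hY zY sY L' w 0

open Classical in
/-- pointwise union bound over the windows -/
lemma cover (N t m i0 s : ℕ) (ht : 0 < t) (h1 : N * t ≤ m) (h2 : m < (N + 1) * t) (hN : 1 ≤ N)
    (hst : s ≤ 3 * t) (w : G) (L : List BX) (L' : List BY)
    (hex : ∃ z k, m < k ∧ k ≤ 2 * m ∧ (z, k) ∈ TS hX zX sX L 0 0 ∧ (z, k) ∈ TS hY zY sY L' w 0) :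
    (1 : ℝ≥0∞) ≤ ∑ q ∈ Finset.range (N + 2),
      ((if QW hX zX sX hY zY sY i0 s ((N - 1 + q) * t) t w L L' then 1 else 0)
        + ∑ k ∈ Finset.Ico ((N - 1 + q) * t) ((N - 1 + q) * t + 2 * i0 + s),
            (if PK hX zX sX hY zY sY w L L' k then 1 else 0)
        + ∑ k ∈ Finset.Ioc ((N - 1 + q) * t + 3 * t - s) ((N - 1 + q) * t + 3 * t + 2 * i0),
            (if PK hX zX sX hY zY sY w L L' k then 1 else 0)) := by
  obtain ⟨z, k, k1, k2, m1, m2⟩ := hex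
  set c := (k - 1) / t with hc
  have c1 : c * t ≤ k - 1 := Nat.div_mul_le_self _ _
  have c2 : k - 1 < (c + 1) * t := by
    have := Nat.lt_div_mul_add ht (a := k - 1)
    rw [← hc] at this
    nlinarith
  have c3 : N ≤ c := by
    rw [hc, Nat.le_div_iff_mul_le ht]
    omega
  have c4 : c < 2 * N + 2 := by
    rw [hc, Nat.div_lt_iff_lt_mul ht]
    have : (2 * N + 2) * t = 2 * ((N + 1) * t) := by ring
    omega
  set q := c - N with hq
  have hqc : N - 1 + q + 1 = c := by omega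
  set a := (N - 1 + q) * t with ha
  have hac : a + t = c * t := by rw [ha, ← hqc]; ring
  have hac2 : a + 2 * t = (c + 1) * t := by rw [ha, ← hqc]; ring
  refine le_trans ?_ (Finset.single_le_sum (fun _ _ => zero_le) (Finset.mem_range.2
    (by omega : q < N + 2)))
  rw [← ha]
  by_cases hQ : QW hX zX sX hY zY sY i0 s a t w L L'
  · rw [if_pos hQ, add_assoc]; exact le_self_add
  · have h3 : ∃ z' k', (z', k') ∈ TS hX zX sX L 0 0 ∧ (z', k') ∈ TS hY zY sY L' w 0 ∧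
        ((a ≤ k' ∧ k' < a + 2 * i0 + s) ∨ (a + 3 * t < k' + s ∧ k' ≤ a + 3 * t + 2 * i0)) := by
      by_contra hcon
      push_neg at hcon
      refine hQ ⟨⟨z, k, by omega, by omega, m1, m2⟩, fun z' k' n1 n2 => ?_⟩
      have := hcon z' k' n1 n2
      constructor
      · rintro ⟨r1, r2⟩
        have := this.1 r1
        omega
      · rintro ⟨r1, r2⟩
        have := this.2 r1
        omega
    obtain ⟨z', k', n1, n2, h4⟩ := h3
    have hPK : PK hX zX sX hY zY sY w L L' k' := ⟨z', n1, n2⟩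
    rcases h4 with h4 | h4
    · have h5 : (1 : ℝ≥0∞) ≤ ∑ k ∈ Finset.Ico a (a + 2 * i0 + s),
          (if PK hX zX sX hY zY sY w L L' k then 1 else 0) := by
        refine le_trans ?_ (Finset.single_le_sum (fun _ _ => zero_le)
          (Finset.mem_Ico.2 ⟨h4.1, h4.2⟩))
        rw [if_pos hPK]
      exact h5.trans (le_trans le_add_self le_self_add)
    · have h5 : (1 : ℝ≥0∞) ≤ ∑ k ∈ Finset.Ioc (a + 3 * t - s) (a + 3 * t + 2 * i0),
          (if PK hX zX sX hY zY sY w L L' k then 1 else 0) := by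
        refine le_trans ?_ (Finset.single_le_sum (fun _ _ => zero_le)
          (Finset.mem_Ioc.2 ⟨by omega, h4.2⟩))
        rw [if_pos hPK]
      exact h5.trans le_add_self

open Classical in
/-- total of one window, with the constants of `Num869.choose'` -/
lemma windowX (hX1 : ∀ b, 1 ≤ hX b) (hXΛ : ∑' b, ΛX b = 1) (hXU : ∀ n, U ΛX hX n ≤ 1)
    (hY1 : ∀ b, 1 ≤ hY b) (hYΛ : ∑' b, ΛY b = 1) (hYU : ∀ n, U ΛY hY n ≤ 1)
    (hsX : ∀ b, ∀ q ∈ sX b, 1 ≤ q.2 ∧ q.2 ≤ hX b)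
    (hsY : ∀ b, ∀ q ∈ sY b, 1 ≤ q.2 ∧ q.2 ≤ hY b)
    (us : ℕ → ℝ≥0∞) (C : ℝ≥0∞)
    (hWX : WinX ΛX hX zX sX ΛY hY zY sY us C) (hWY : WinY ΛX hX zX sX ΛY hY zY sY us C)
    (e : ℝ≥0∞) (i0 s a t n K : ℕ)
    (hoX : ∀ a, ∑' L, (if fp hX a L ∧ a + i0 < HT hX L then LW ΛX L else 0) ≤ e)
    (hoY : ∀ a, ∑' L, (if fp hY a L ∧ a + i0 < HT hY L then LW ΛY L else 0) ≤ e)
    (hst : s ≤ 3 * t) (hit : 2 * i0 ≤ t) (haK : 4 * K * t ≤ a) (hn : a + 3 * i0 + 3 * t ≤ n)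
    (lam u : ℝ≥0∞) (hl : lam ≠ 0) (hl' : lam ≠ ⊤) (hu0 : u ≠ 0) (hu1 : u ≤ 1) (X0 : ℝ≥0∞)
    (x1 : ((i0 : ℝ≥0∞) + 1) ^ 3 * (C * (lam + (((i0 : ℝ≥0∞) + 1) / u) * us s / lam + us s)) ≤ X0)
    (x2 : (1 - u / 2) ^ K + K * e ≤ X0) (x3 : u * u ≤ X0) (x4 : e ≤ X0) (w : G) :
    ∑' L, ∑' L', (if HT hX L = n ∧ HT hY L' = n ∧ QW hX zX sX hY zY sY i0 s a t w L L'
      then LW ΛX L * LW ΛY L' else 0) ≤ 11 * X0 := by
  have hu2 : u / 2 ≠ 0 := by simp [hu0]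
  have hu3 : u / 2 < 1 := lt_of_le_of_lt (ENNReal.div_le_div_right hu1 2) (by
    rw [one_div]; exact ENNReal.inv_lt_one.2 (by norm_num))
  obtain ⟨thX, GX, EX, qx1, qx2, qx3, qx4⟩ := qdata ΛX hX zX hX1 hXΛ (3 * t) i0 (u / 2) hu2 hu3 e
    hoX
  obtain ⟨thY, GY, EY, qy1, qy2, qy3, qy4⟩ := qdata ΛY hY zY hY1 hYΛ (3 * t + i0) i0 (u / 2)
    hu2 hu3 e hoY
  have d1 : K * (3 * t + i0) ≤ a := by nlinarith
  have d2 : K * (3 * t + i0 + i0) ≤ a + i0 := by nlinarith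
  have r := red2 ΛX hX ΛY hY hX1 hXΛ.le hXU hY1 hYΛ.le hYU a (a + i0) (3 * t) (3 * t + i0) i0 n
    (by omega) (by omega) e hoX hoY (QW hX zX sX hY zY sY i0 s a t w)
    (fun P1 P2 Q1 Q2 => Cl (TS hX zX sX P2 (Dp zX P1) (HT hX P1))
      (TS hY zY sY Q2 (w + Dp zY Q1) (HT hY Q1)) (a + 2 * i0 + s) (a + 3 * t - s))
    (fun P1 P2 P3 Q1 Q2 Q3 p1 p2 p3 p4 q1 q2 q3 q4 hq =>
      QW_clean hX zX sX hY zY sY hsX hsY i0 s a t hst hit w P1 P2 P3 Q1 Q2 Q3 p1 p2 p3 p4 q1 q2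
        q3 q4 hq)
  refine le_trans r ?_
  have ww := window ΛX hX zX sX ΛY hY zY sY hX1 hXΛ.le hY1 hYΛ.le us C hWX hWY w i0 s a (a + i0)
    (3 * t) (3 * t + i0) (a + 2 * i0 + s) (a + 3 * t - s) le_rfl (by omega) (by omega) (by omega)
    lam (((i0 : ℝ≥0∞) + 1) / (u / 2)) ((1 - u / 2) ^ K + K * e) (u / 2) GX GY thX thY hl hl'
    EX EY qx1 qy1 qx2 qx3 qy2 qy3 (qx4 K a d1) (qy4 K (a + i0) d2)
  have y1 : ((i0 + 1 : ℕ) : ℝ≥0∞) * (((i0 + 1 : ℕ) : ℝ≥0∞) ^ 2 *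
      (C * (lam + ((i0 : ℝ≥0∞) + 1) / (u / 2) * us s / lam + us s))) ≤ 2 * X0 := by
    have e1 : ((i0 : ℝ≥0∞) + 1) / (u / 2) * us s / lam
        = 2 * ((((i0 : ℝ≥0∞) + 1) / u) * us s / lam) := by
      have : (u / 2)⁻¹ = 2 * u⁻¹ := by
        rw [div_eq_mul_inv, ENNReal.mul_inv (Or.inr (by simp)) (Or.inl ?_), inv_inv, mul_comm]
        exact ne_top_of_le_ne_top ENNReal.one_ne_top hu1
      simp only [div_eq_mul_inv] at this ⊢
      rw [this]; ring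
    calc _ = ((i0 : ℝ≥0∞) + 1) ^ 3 *
          (C * (lam + 2 * ((((i0 : ℝ≥0∞) + 1) / u) * us s / lam) + us s)) := by
          rw [e1]; push_cast; ring
      _ ≤ ((i0 : ℝ≥0∞) + 1) ^ 3 *
          (C * (2 * (lam + (((i0 : ℝ≥0∞) + 1) / u) * us s / lam + us s))) := by
          gcongr
          calc lam + 2 * ((((i0 : ℝ≥0∞) + 1) / u) * us s / lam) + us s
              ≤ (lam + lam) + 2 * ((((i0 : ℝ≥0∞) + 1) / u) * us s / lam) + (us s + us s) := by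
                gcongr <;> exact le_self_add
            _ = _ := by ring
      _ = 2 * (((i0 : ℝ≥0∞) + 1) ^ 3 *
          (C * (lam + (((i0 : ℝ≥0∞) + 1) / u) * us s / lam + us s))) := by ring
      _ ≤ 2 * X0 := by gcongr
  have y2 : u / 2 * (u / 2) ≤ X0 := by
    refine le_trans ?_ x3
    have : u / 2 ≤ u := ENNReal.half_le_self
    gcongr
  calc _ ≤ (2 * (2 * X0 + X0) + X0) + 4 * X0 := by
        refine add_le_add (le_trans ww ?_) (by gcongr)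
        gcongr
    _ = 11 * X0 := by ring

open Classical in
/-- **KAPPA' for lists** -/
theorem kap (hX1 : ∀ b, 1 ≤ hX b) (hXΛ : ∑' b, ΛX b = 1) (hXU : ∀ n, U ΛX hX n ≤ 1)
    (hXE : ∑' b, ΛX b * (hX b : ℝ≥0∞) ≠ ⊤)
    (hY1 : ∀ b, 1 ≤ hY b) (hYΛ : ∑' b, ΛY b = 1) (hYU : ∀ n, U ΛY hY n ≤ 1)
    (hYE : ∑' b, ΛY b * (hY b : ℝ≥0∞) ≠ ⊤)
    (hsX : ∀ b, ∀ q ∈ sX b, 1 ≤ q.2 ∧ q.2 ≤ hX b)
    (hsY : ∀ b, ∀ q ∈ sY b, 1 ≤ q.2 ∧ q.2 ≤ hY b)
    (us : ℕ → ℝ≥0∞) (hus : Tendsto us atTop (𝓝 0)) (C : ℝ≥0∞) (hC : C ≠ ⊤)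
    (hWX : WinX ΛX hX zX sX ΛY hY zY sY us C) (hWY : WinY ΛX hX zX sX ΛY hY zY sY us C)
    (hPt : ∀ η : ℝ≥0∞, η ≠ 0 → ∃ k0, ∀ k, k0 ≤ k → ∀ n, k ≤ n → ∀ w : G,
      ∑' L, ∑' L', (if HT hX L = n ∧ HT hY L' = n ∧ PK hX zX sX hY zY sY w L L' k
        then LW ΛX L * LW ΛY L' else 0) ≤ η) :
    ∀ ε : ℝ≥0∞, ε ≠ 0 → ∃ M, ∀ m, M ≤ m → ∃ n0, ∀ n, n0 ≤ n → ∀ w : G,
      ∑' L, ∑' L', (if HT hX L = n ∧ HT hY L' = n ∧ (∃ z k, m < k ∧ k ≤ 2 * m ∧
        (z, k) ∈ TS hX zX sX L 0 0 ∧ (z, k) ∈ TS hY zY sY L' w 0)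
        then LW ΛX L * LW ΛY L' else 0) ≤ ε := by
  intro ε hε
  rcases eq_or_ne ε ⊤ with hεt | hεt
  · exact ⟨0, fun m _ => ⟨0, fun n _ w => by rw [hεt]; exact le_top⟩⟩
  have hep : Tendsto (fun i => ep ΛX hX i + ep ΛY hY i) atTop (𝓝 0) := by
    simpa using (ep_tendsto ΛX hX hXΛ hXE).add (ep_tendsto ΛY hY hYΛ hYE)
  obtain ⟨K, u, hK, hu0, hu1, i0, lam, s, hl0, hlt, hl1, hei, hN⟩ :=
    Num869.choose' us _ hus hep C hC 3 (ε / 154) (by
      simp only [ne_eq, ENNReal.div_eq_zero_iff, not_or]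
      exact ⟨hε, by norm_num⟩)
  set e : ℝ≥0∞ := ep ΛX hX i0 + ep ΛY hY i0 with he
  set X0 : ℝ≥0∞ := (u + e) ^ 2 + ((1 - u / 2) ^ K + K * e) +
        ((i0 : ℝ≥0∞) + 1) ^ 3 * (C * (lam + (((i0 : ℝ≥0∞) + 1) / u) * us s / lam + us s)) with hX0
  have hoX : ∀ a, ∑' L, (if fp hX a L ∧ a + i0 < HT hX L then LW ΛX L else 0) ≤ e := fun a =>
    (overshoot ΛX hX hX1 hXU i0 a).trans le_self_add
  have hoY : ∀ a, ∑' L, (if fp hY a L ∧ a + i0 < HT hY L then LW ΛY L else 0) ≤ e := fun a =>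
    (overshoot ΛY hY hY1 hYU i0 a).trans le_add_self
  have x1 : ((i0 : ℝ≥0∞) + 1) ^ 3 * (C * (lam + (((i0 : ℝ≥0∞) + 1) / u) * us s / lam + us s))
      ≤ X0 := le_add_self
  have x2 : (1 - u / 2) ^ K + K * e ≤ X0 := le_trans le_add_self le_self_add
  have x3 : u * u ≤ X0 := by
    refine le_trans ?_ (le_trans le_self_add le_self_add)
    rw [pow_two]
    gcongr <;> exact le_self_add
  have x4 : e ≤ X0 := by
    refine le_trans ?_ x2
    refine le_trans ?_ le_add_self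
    calc e = 1 * e := (one_mul e).symm
      _ ≤ K * e := by gcongr; exact_mod_cast hK
  set cc : ℕ := (4 * K + 3) * (2 * (2 * i0 + s)) with hcc
  obtain ⟨k0, hk0⟩ := hPt (ε / 2 / ((cc : ℝ≥0∞) + 1)) (by
    simp only [ne_eq, ENNReal.div_eq_zero_iff, not_or]
    exact ⟨⟨hε, by norm_num⟩, by simp⟩)
  set η : ℝ≥0∞ := ε / 2 / ((cc : ℝ≥0∞) + 1) with hη
  set N : ℕ := 4 * K + 1 with hNN
  set T0 : ℕ := N + 2 * i0 + s + k0 + 1 with hT0
  refine ⟨N * T0, fun m hm => ?_⟩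
  set t : ℕ := m / N with ht
  have hNpos : 0 < N := by omega
  have t1 : T0 ≤ t := by
    rw [ht, Nat.le_div_iff_mul_le hNpos, mul_comm]; exact hm
  have t2 : N * t ≤ m := Nat.mul_div_le m N
  have t3 : m < (N + 1) * t := by
    have h5 : m < N * t + N := by
      have := Nat.lt_div_mul_add hNpos (a := m)
      rw [← ht] at this
      rw [mul_comm N t]; exact this
    have : (N + 1) * t = N * t + t := by ring
    omega
  refine ⟨2 * N * t + 3 * t + 3 * i0, fun n hn w => ?_⟩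
  have hq : ∀ q ∈ Finset.range (N + 2), (N - 1 + q) * t ≤ 2 * N * t := by
    intro q hq
    have := Finset.mem_range.1 hq
    exact Nat.mul_le_mul_right t (by omega)
  have hq2 : ∀ q : ℕ, 4 * K * t ≤ (N - 1 + q) * t := fun q => Nat.mul_le_mul_right t (by omega)
  have hq3 : ∀ q : ℕ, t ≤ (N - 1 + q) * t := fun q => Nat.le_mul_of_pos_left t (by omega)
  -- union bound
  have key : ∀ L L', (if HT hX L = n ∧ HT hY L' = n ∧ (∃ z k, m < k ∧ k ≤ 2 * m ∧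
        (z, k) ∈ TS hX zX sX L 0 0 ∧ (z, k) ∈ TS hY zY sY L' w 0)
        then LW ΛX L * LW ΛY L' else 0)
      ≤ ∑ q ∈ Finset.range (N + 2),
      ((if HT hX L = n ∧ HT hY L' = n ∧ QW hX zX sX hY zY sY i0 s ((N - 1 + q) * t) t w L L'
          then LW ΛX L * LW ΛY L' else 0)
        + ∑ k ∈ Finset.Ico ((N - 1 + q) * t) ((N - 1 + q) * t + 2 * i0 + s),
            (if HT hX L = n ∧ HT hY L' = n ∧ PK hX zX sX hY zY sY w L L' k
              then LW ΛX L * LW ΛY L' else 0)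
        + ∑ k ∈ Finset.Ioc ((N - 1 + q) * t + 3 * t - s) ((N - 1 + q) * t + 3 * t + 2 * i0),
            (if HT hX L = n ∧ HT hY L' = n ∧ PK hX zX sX hY zY sY w L L' k
              then LW ΛX L * LW ΛY L' else 0)) := by
    intro L L'
    by_cases hc : HT hX L = n ∧ HT hY L' = n ∧ (∃ z k, m < k ∧ k ≤ 2 * m ∧
        (z, k) ∈ TS hX zX sX L 0 0 ∧ (z, k) ∈ TS hY zY sY L' w 0)
    · obtain ⟨c1, c2, c3⟩ := hc
      rw [if_pos ⟨c1, c2, c3⟩]
      have cov := cover hX zX sX hY zY sY N t m i0 s (by omega) t2 t3 hNpos (by omega) w L L' c3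
      have i1 : ∀ (p : Prop) [Decidable p], (if HT hX L = n ∧ HT hY L' = n ∧ p
          then LW ΛX L * LW ΛY L' else 0) = LW ΛX L * LW ΛY L' * (if p then 1 else 0) := by
        intro p _
        by_cases hp : p
        · rw [if_pos ⟨c1, c2, hp⟩, if_pos hp, mul_one]
        · rw [if_neg (fun hh => hp hh.2.2), if_neg hp, mul_zero]
      simp_rw [i1, ← Finset.mul_sum, ← mul_add, ← Finset.mul_sum]
      calc LW ΛX L * LW ΛY L' = LW ΛX L * LW ΛY L' * 1 := (mul_one _).symm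
        _ ≤ _ := mul_le_mul_right cov _
    · rw [if_neg hc]; exact zero_le
  refine le_trans (ENNReal.tsum_le_tsum fun L => ENNReal.tsum_le_tsum fun L' => key L L') ?_
  simp_rw [Summable.tsum_finsetSum (fun _ _ => ENNReal.summable), ENNReal.tsum_add,
    Summable.tsum_finsetSum (fun _ _ => ENNReal.summable)]
  calc _ ≤ ∑ q ∈ Finset.range (N + 2), (11 * X0
        + ∑ k ∈ Finset.Ico ((N - 1 + q) * t) ((N - 1 + q) * t + 2 * i0 + s), η
        + ∑ k ∈ Finset.Ioc ((N - 1 + q) * t + 3 * t - s) ((N - 1 + q) * t + 3 * t + 2 * i0), η) := by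
        refine Finset.sum_le_sum fun q hqq => ?_
        have b1 := hq q hqq
        have b2 := hq2 q
        have b3 := hq3 q
        refine add_le_add (add_le_add ?_ ?_) ?_
        · exact windowX ΛX hX zX sX ΛY hY zY sY hX1 hXΛ hXU hY1 hYΛ hYU hsX hsY us C hWX hWY e i0 s
            ((N - 1 + q) * t) t n K hoX hoY (by omega) (by omega) b2 (by omega) lam u hl0 hlt hu0
            hu1 X0 x1 x2 x3 x4 w
        · refine Finset.sum_le_sum fun k hk => ?_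
          have := Finset.mem_Ico.1 hk
          exact hk0 k (by omega) n (by omega) w
        · refine Finset.sum_le_sum fun k hk => ?_
          have := Finset.mem_Ioc.1 hk
          exact hk0 k (by omega) n (by omega) w
    _ ≤ ∑ q ∈ Finset.range (N + 2), (11 * X0 + ((2 * (2 * i0 + s) : ℕ) : ℝ≥0∞) * η) := by
        refine Finset.sum_le_sum fun q hqq => ?_
        rw [Finset.sum_const, Finset.sum_const, Nat.card_Ico, Nat.card_Ioc, nsmul_eq_mul,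
          nsmul_eq_mul, add_assoc, ← add_mul, ← Nat.cast_add]
        gcongr
        have b3 := hq3 q
        omega
    _ = (11 * (((N + 2 : ℕ) : ℝ≥0∞) * X0)) + (cc : ℝ≥0∞) * η := by
        rw [Finset.sum_const, Finset.card_range, nsmul_eq_mul, hcc, hNN]
        push_cast
        ring
    _ ≤ ε / 2 + ε / 2 := by
        refine add_le_add ?_ ?_
        · have h7 : ((N + 2 : ℕ) : ℝ≥0∞) ≤ 7 * K := by
            have : N + 2 ≤ 7 * K := by omega
            exact_mod_cast this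
          calc 11 * (((N + 2 : ℕ) : ℝ≥0∞) * X0) ≤ 11 * (7 * K * X0) := by gcongr
            _ = 77 * (K * X0) := by ring
            _ ≤ 77 * (ε / 154) := by gcongr
            _ = ε / 2 := by
              rw [div_eq_mul_inv, div_eq_mul_inv, mul_left_comm]
              congr 1
              rw [show (154 : ℝ≥0∞) = 77 * 2 by norm_num, ENNReal.mul_inv (by simp) (by simp),
                ← mul_assoc, ENNReal.mul_inv_cancel (by simp) (by simp), one_mul]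
        · rw [hη]
          calc (cc : ℝ≥0∞) * (ε / 2 / ((cc : ℝ≥0∞) + 1))
              ≤ ((cc : ℝ≥0∞) + 1) * (ε / 2 / ((cc : ℝ≥0∞) + 1)) := by
                gcongr; exact le_self_add
            _ = ε / 2 := ENNReal.mul_div_cancel (by simp) (by simp)
    _ = ε := ENNReal.add_halves ε

end Crest.Agent.R154.Asm636
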