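import Crest.Agent.R154.AsmE_667

/-! Row 154, ROAD 801 (helper667): abstract assembly, the sum over the windows. -/

set_option autoImplicit false
set_option maxHeartbeats 1000000

namespace Crest.Agent.R154.AsmR667

open scoped ENNReal Classical Topology
open Filter
open Crest.Agent.R154.B5A (LW HT LW_nil LW_cons LW_append HT_nil HT_cons HT_append tsum_list U tail)

variable {BX BY G : Type*} [AddCommGroup G] {ΛX : BX → ℝ≥0∞} {ΛY : BY → ℝ≥0∞} {hX : BX → ℕ}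
  {hY : BY → ℕ} {zX : BX → G} {zY : BY → G} {sX : BX → Set (G × ℕ)} {sY : BY → Set (G × ℕ)}
  {us : ℕ → ℝ≥0∞} {C : ℝ≥0∞}

/-- numbers: the window bound is at most the bracket of `Num334.num` -/
lemma bracket (η rX rY u v c lam U : ℝ≥0∞) (J K : ℕ) (hJK : J ≤ K) (i0 : ℝ≥0∞) (hu0 : u ≠ 0)
    (hu1 : u ≤ 1) :
    η + η + (2 * rX + (2 * rY + (u * u +
        ((v + J * rX) + (i0 + 1) ^ 4 * (c * (lam + J * (i0 + 1) * U / lam + U)) +
        ((v + J * rY) + (i0 + 1) ^ 4 * (c * (lam + J * (i0 + 1) * U / lam + U)))))))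
    ≤ 4 * (rX + rY) + 4 * η + u ^ 2 + 2 * (v + K * (rX + rY) / u)
      + 2 * (i0 + 1) ^ 4 * (c * (lam + (K * (i0 + 1) / u) * U / lam + U)) := by
  have hut : u ≠ ⊤ := ne_top_of_le_ne_top ENNReal.one_ne_top hu1
  have hJ : (J : ℝ≥0∞) ≤ K := by exact_mod_cast hJK
  have hdiv : ∀ x : ℝ≥0∞, x ≤ x / u := by
    intro x
    rw [ENNReal.le_div_iff_mul_le (Or.inl hu0) (Or.inl hut)]
    calc x * u ≤ x * 1 := mul_le_mul_right hu1 _
      _ = x := mul_one x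
  have e1 : (J : ℝ≥0∞) * (i0 + 1) ≤ K * (i0 + 1) / u :=
    (mul_le_mul_left hJ _).trans (hdiv _)
  have e2 : c * (lam + J * (i0 + 1) * U / lam + U)
      ≤ c * (lam + (K * (i0 + 1) / u) * U / lam + U) := by gcongr
  have e3 : (J : ℝ≥0∞) * rX ≤ K * (rX + rY) / u :=
    (mul_le_mul' hJ le_self_add).trans (hdiv _)
  have e4 : (J : ℝ≥0∞) * rY ≤ K * (rX + rY) / u :=
    (mul_le_mul' hJ le_add_self).trans (hdiv _)
  set Z := c * (lam + (K * (i0 + 1) / u) * U / lam + U)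
  set Y := (K : ℝ≥0∞) * (rX + rY) / u
  calc _ ≤ η + η + (2 * rX + (2 * rY + (u * u +
        ((v + Y) + (i0 + 1) ^ 4 * Z + ((v + Y) + (i0 + 1) ^ 4 * Z))))) := by gcongr
    _ = 2 * η + 2 * (rX + rY) + u ^ 2 + 2 * (v + Y) + 2 * (i0 + 1) ^ 4 * Z := by ring
    _ ≤ 4 * η + 4 * (rX + rY) + u ^ 2 + 2 * (v + Y) + 2 * (i0 + 1) ^ 4 * Z := by
        gcongr <;> norm_num
    _ = _ := by ring

/-- **KAPPA' on lists** from the window lemmas and the thin slab -/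
theorem kapS (h1X : ∀ b, 1 ≤ hX b) (h1Y : ∀ b, 1 ≤ hY b) (hΛX : ∑' b, ΛX b = 1)
    (hΛY : ∑' b, ΛY b = 1) (hEX : ∑' b, ΛX b * (hX b : ℝ≥0∞) ≠ ⊤)
    (hEY : ∑' b, ΛY b * (hY b : ℝ≥0∞) ≠ ⊤)
    (hsX : ∀ b, ∀ q ∈ sX b, 1 ≤ q.2 ∧ q.2 ≤ hX b)
    (hsY : ∀ b, ∀ q ∈ sY b, 1 ≤ q.2 ∧ q.2 ≤ hY b) (hC : C ≠ ⊤) (hus : Tendsto us atTop (𝓝 0))
    (H2 : H2P ΛX ΛY hX hY zX zY sX sY us C) (H3 : H3P ΛX ΛY hX hY zX zY sX sY us C)
    (H5 : ∀ (s : ℕ) (η : ℝ≥0∞), η ≠ 0 → ∃ T, ∀ a, T ≤ a → ∀ n, ∀ w : G,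
      ∑' LX : List BX, ∑' LY : List BY,
      (if HT hX LX = n ∧ HT hY LY = n ∧ ∃ y k, a ≤ k ∧ k < a + s ∧
          (y, k) ∈ TT sX hX zX LX 0 0 ∧ (y, k) ∈ TT sY hY zY LY w 0
        then LW ΛX LX * LW ΛY LY else 0) ≤ η) :
    ∀ ε : ℝ≥0∞, ε ≠ 0 → ∃ M : ℕ, ∀ m, M ≤ m → ∀ n, 4 * m ≤ n → ∀ w : G,
      ∑' LX : List BX, ∑' LY : List BY, (if HT hX LX = n ∧ HT hY LY = n ∧
      ∃ y k, (y, k) ∈ TT sX hX zX LX 0 0 ∧ (y, k) ∈ TT sY hY zY LY w 0 ∧ m < k ∧ k ≤ 2 * m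
      then LW ΛX LX * LW ΛY LY else 0) ≤ ε := by
  intro ε hε
  have hov : Tendsto (fun i => rho ΛX hX i + rho ΛY hY i) atTop (𝓝 0) := by
    simpa using (rho_tendsto ΛX hX hΛX hEX).add (rho_tendsto ΛY hY hΛY hEY)
  obtain ⟨K, hK8, u, hu0, hu1, i0, lam, η, hl0, hlt, hη0, s, hnum⟩ :=
    Num334.num hC hus hov hε
  obtain ⟨T0, hT0⟩ := H5 (2 * i0 + s) η hη0
  set J := K / 8 with hJ
  have hJ1 : 1 ≤ J := by omega
  refine ⟨2 * J * (2 * J + 2 * i0 + s + 1) + T0, fun m hm n hn w => ?_⟩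
  set T := m / (2 * J) with hT
  have hT1 : 2 * J + 2 * i0 + s + 1 ≤ T := by
    rw [hT, Nat.le_div_iff_mul_le (by omega)]
    calc _ = 2 * J * (2 * J + 2 * i0 + s + 1) := by ring
      _ ≤ m := by omega
  have hTm : 2 * J * T ≤ m := Nat.mul_div_le m (2 * J)
  have hTm2 : m < 2 * J * T + 2 * J := by
    have := Nat.lt_mul_div_succ m (show 0 < 2 * J by omega)
    rw [← hT] at this
    calc m < 2 * J * (T + 1) := this
      _ = _ := by ring
  have h2T : 2 * T ≤ m := by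
    refine le_trans ?_ hTm
    calc 2 * T = 2 * 1 * T := by ring
      _ ≤ 2 * J * T := by gcongr
  -- the windows
  have hwin : ∀ j, j < 2 * J + 1 → ∑' LX : List BX, ∑' LY : List BY,
      (if HT hX LX = n ∧ HT hY LY = n ∧
      ∃ y k, (y, k) ∈ TT sX hX zX LX 0 0 ∧ (y, k) ∈ TT sY hY zY LY w 0 ∧ m + j * T < k ∧
        k ≤ m + j * T + T then LW ΛX LX * LW ΛY LY else 0)
      ≤ 4 * (rho ΛX hX i0 + rho ΛY hY i0) + 4 * η + u ^ 2
        + 2 * ((1 - u) ^ (K / 8) + K * (rho ΛX hX i0 + rho ΛY hY i0) / u)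
        + 2 * ((i0 : ℝ≥0∞) + 1) ^ 4 * (C * (lam + (K * ((i0 : ℝ≥0∞) + 1) / u) * us s / lam
          + us s)) := by
    intro j hj
    have hjT : j * T ≤ 2 * J * T := Nat.mul_le_mul_right T (by omega)
    refine (window h1X h1Y hΛX hΛY hsX hsY H2 H3 n (m + j * T) T i0 s J (by omega) (by omega) ?_
      u hu0 hu1 lam hl0 hlt η w (fun a ha => hT0 a (by omega) n w)).trans ?_
    · calc J * (T + 2 * i0) ≤ J * (T + T) := Nat.mul_le_mul_left J (by omega)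
        _ = 2 * J * T := by ring
        _ ≤ m + j * T := by omega
    · exact bracket η _ _ u _ C lam (us s) J K (by omega) (i0 : ℝ≥0∞) hu0 hu1
  have hcover : ∑' LX : List BX, ∑' LY : List BY, (if HT hX LX = n ∧ HT hY LY = n ∧
      ∃ y k, (y, k) ∈ TT sX hX zX LX 0 0 ∧ (y, k) ∈ TT sY hY zY LY w 0 ∧ m < k ∧ k ≤ 2 * m
      then LW ΛX LX * LW ΛY LY else 0) ≤ ∑ j ∈ Finset.range (2 * J + 1),
      ∑' LX : List BX, ∑' LY : List BY,
      (if HT hX LX = n ∧ HT hY LY = n ∧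
      ∃ y k, (y, k) ∈ TT sX hX zX LX 0 0 ∧ (y, k) ∈ TT sY hY zY LY w 0 ∧ m + j * T < k ∧
        k ≤ m + j * T + T then LW ΛX LX * LW ΛY LY else 0) := by
    rw [(Summable.tsum_finsetSum (fun j _ => ENNReal.summable)).symm]
    refine ENNReal.tsum_le_tsum fun LX => ?_
    rw [(Summable.tsum_finsetSum (fun j _ => ENNReal.summable)).symm]
    refine ENNReal.tsum_le_tsum fun LY => ?_
    by_cases hE : HT hX LX = n ∧ HT hY LY = n ∧
      ∃ y k, (y, k) ∈ TT sX hX zX LX 0 0 ∧ (y, k) ∈ TT sY hY zY LY w 0 ∧ m < k ∧ k ≤ 2 * m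
    · rw [if_pos hE]
      obtain ⟨e1, e2, y, k, e3, e4, e5, e6⟩ := hE
      have hTpos : 0 < T := by omega
      set j := (k - m - 1) / T with hj
      have hj1 : j * T ≤ k - m - 1 := Nat.div_mul_le_self _ _
      have hj2 : k - m - 1 < j * T + T := by
        have := Nat.lt_mul_div_succ (k - m - 1) hTpos
        rw [← hj] at this
        calc _ < T * (j + 1) := this
          _ = _ := by ring
      have hjlt : j < 2 * J + 1 := by
        by_contra hcon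
        have h3 : (2 * J + 1) * T ≤ j * T := Nat.mul_le_mul_right T (not_lt.1 hcon)
        have h4 : (2 * J + 1) * T = 2 * J * T + T := by ring
        omega
      refine le_trans (le_of_eq ?_) (Finset.single_le_sum (f := fun j =>
        if HT hX LX = n ∧ HT hY LY = n ∧
        ∃ y k, (y, k) ∈ TT sX hX zX LX 0 0 ∧ (y, k) ∈ TT sY hY zY LY w 0 ∧ m + j * T < k ∧
        k ≤ m + j * T + T then LW ΛX LX * LW ΛY LY else 0) (fun _ _ => zero_le)
        (Finset.mem_range.2 hjlt))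
      beta_reduce
      rw [if_pos ⟨e1, e2, y, k, e3, e4, by omega, by omega⟩]
    · rw [if_neg hE]; exact zero_le
  refine hcover.trans ((Finset.sum_le_sum fun j hj => hwin j (Finset.mem_range.1 hj)).trans ?_)
  rw [Finset.sum_const, Finset.card_range, nsmul_eq_mul]
  refine le_trans (mul_le_mul_left ?_ _) hnum
  have : (2 * J + 1 : ℕ) ≤ 4 * K + 8 := by omega
  exact_mod_cast this

end Crest.Agent.R154.AsmR667
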