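import Crest.Agent.R154.AsmE_789

/-! Row 154, ROAD 801, assembly, part F (helper789): the bound of one window. -/

set_option autoImplicit false

namespace Crest.Agent.R154.AsmF789

open scoped ENNReal
open Crest.Agent.R154.B5A Crest.Agent.R154.FP178 Crest.Agent.R154.AsmA789
open Crest.Agent.R154.AsmB789 Crest.Agent.R154.AsmC789 Crest.Agent.R154.AsmD789
open Crest.Agent.R154.AsmE789

variable {BX BY : Type*} (ΛX : BX → ℝ≥0∞) (ΛY : BY → ℝ≥0∞) (hX : BX → ℕ) (hY : BY → ℕ)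
variable {G : Type*} [AddCommGroup G] (zX : BX → G) (zY : BY → G)

/-- total height / displacement of a list of attempts -/
def Hh {B : Type*} (ht : B → ℕ) {P : ℕ} (l : List (At ht P)) : ℕ := HT ht (flat ht l)
def Dd {B : Type*} (ht : B → ℕ) (z : B → G) {P : ℕ} (l : List (At ht P)) : G :=
  ((flat ht l).map z).sum

/-- relative displacement -/
def xr (w : G) {P : ℕ} (l : List (At hX P)) (l' : List (At hY P)) : G :=
  w + Dd hY zY l' - Dd hX zX l

/-- masses -/
noncomputable def mX (P : ℕ) (θ : ℝ≥0∞) (a a' : ℕ) (l : List (At hX P)) (l' : List (At hY P)) :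
    ℝ≥0∞ := ind (smal ΛX hX zX P θ l ∧ Hh hX l = a ∧ Hh hY l' = a')
noncomputable def mY (P : ℕ) (θ : ℝ≥0∞) (a a' : ℕ) (l : List (At hX P)) (l' : List (At hY P)) :
    ℝ≥0∞ := ind (smal ΛY hY zY P θ l' ∧ Hh hX l = a ∧ Hh hY l' = a')

/-- law of the relative displacement -/
noncomputable def muX (P j : ℕ) (θ : ℝ≥0∞) (w : G) (a a' : ℕ) (x : G) : ℝ≥0∞ :=
  fiber (fun p : List (At hX P) × List (At hY P) => xr hX hY zX zY w p.1 p.2)
    (fun p => (om ΛX hX P j p.1 * om ΛY hY P j p.2) * mX ΛX hX hY zX P θ a a' p.1 p.2) x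
noncomputable def muY (P j : ℕ) (θ : ℝ≥0∞) (w : G) (a a' : ℕ) (x : G) : ℝ≥0∞ :=
  fiber (fun p : List (At hX P) × List (At hY P) => xr hX hY zX zY w p.1 p.2)
    (fun p => (om ΛX hX P j p.1 * om ΛY hY P j p.2) * mY ΛY hX hY zY P θ a a' p.1 p.2) x

lemma fiber_sum_le {α β : Type*} (z : α → β) (m : α → ℝ≥0∞) : ∑' q, fiber z m q = ∑' a, m a := by
  have h := fib z m (fun _ => 1)
  simp only [mul_one] at h
  exact h.symm

section
variable (h1X : ∀ b, 1 ≤ hX b) (h1Y : ∀ b, 1 ≤ hY b) (hΛX : ∑' b, ΛX b = 1)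
  (hΛY : ∑' b, ΛY b = 1)
include h1X h1Y hΛX hΛY

lemma omom (P j : ℕ) (g : List (At hX P) → List (At hY P) → ℝ≥0∞) (hg : ∀ l l', g l l' ≤ 1) :
    ∑' p : List (At hX P) × List (At hY P), (om ΛX hX P j p.1 * om ΛY hY P j p.2) * g p.1 p.2
      ≤ 1 := by
  calc _ ≤ ∑' p : List (At hX P) × List (At hY P), om ΛX hX P j p.1 * om ΛY hY P j p.2 := by
        refine ENNReal.tsum_le_tsum fun p => ?_
        calc _ ≤ (om ΛX hX P j p.1 * om ΛY hY P j p.2) * 1 := mul_le_mul_right (hg _ _) _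
          _ = _ := mul_one _
    _ = 1 := by rw [tp, om_one ΛX hX h1X hΛX, om_one ΛY hY h1Y hΛY, one_mul]

lemma muX_sum (P j : ℕ) (θ : ℝ≥0∞) (w : G) (a a' : ℕ) :
    ∑' x, muX ΛX ΛY hX hY zX zY P j θ w a a' x ≤ 1 := by
  refine (fiber_sum_le _ _).le.trans ?_
  exact omom ΛX ΛY hX hY h1X h1Y hΛX hΛY P j _ fun _ _ => ind_le _

lemma muY_sum (P j : ℕ) (θ : ℝ≥0∞) (w : G) (a a' : ℕ) :
    ∑' x, muY ΛX ΛY hX hY zX zY P j θ w a a' x ≤ 1 := by
  refine (fiber_sum_le _ _).le.trans ?_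
  exact omom ΛX ΛY hX hY h1X h1Y hΛX hΛY P j _ fun _ _ => ind_le _

open Classical in
lemma muX_le (P j : ℕ) (θ : ℝ≥0∞) (w : G) (a a' : ℕ) (x : G) :
    muX ΛX ΛY hX hY zX zY P j θ w a a' x ≤ j * (2 * θ) := by
  rw [muX, fiber]
  calc _ ≤ ∑' p : List (At hX P) × List (At hY P), om ΛY hY P j p.2 * (om ΛX hX P j p.1 *
        (if smal ΛX hX zX P θ p.1 ∧ (p.1.map (jz hX zX P)).sum = ((a : ℤ), w + Dd hY zY p.2 - x)
          then 1 else 0)) := by
        refine ENNReal.tsum_le_tsum fun p => ?_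
        by_cases hx : xr hX hY zX zY w p.1 p.2 = x
        · rw [if_pos hx]
          by_cases hs : smal ΛX hX zX P θ p.1 ∧ Hh hX p.1 = a ∧ Hh hY p.2 = a'
          · have hq : (p.1.map (jz hX zX P)).sum = ((a : ℤ), w + Dd hY zY p.2 - x) := by
              rw [jz_sum, ← hx, xr, Prod.mk.injEq]
              refine ⟨by exact_mod_cast hs.2.1, ?_⟩
              rw [Dd]; abel
            rw [mX, ind_t hs, if_pos ⟨hs.1, hq⟩, mul_one, mul_one, mul_comm]
          · rw [mX, ind_f hs, mul_zero]; exact zero_le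
        · rw [if_neg hx]; exact zero_le
    _ = ∑' l', ∑' l, om ΛY hY P j l' * (om ΛX hX P j l *
        (if smal ΛX hX zX P θ l ∧ (l.map (jz hX zX P)).sum = ((a : ℤ), w + Dd hY zY l' - x)
          then 1 else 0)) := by
        rw [ENNReal.tsum_prod (f := fun (l : List (At hX P)) (l' : List (At hY P)) =>
          om ΛY hY P j l' * (om ΛX hX P j l * (if smal ΛX hX zX P θ l ∧
            (l.map (jz hX zX P)).sum = ((a : ℤ), w + Dd hY zY l' - x) then 1 else 0)))]
        exact ENNReal.tsum_comm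
    _ ≤ ∑' l', om ΛY hY P j l' * (j * (2 * θ)) := by
        refine ENNReal.tsum_le_tsum fun l' => ?_
        rw [ENNReal.tsum_mul_left]
        refine mul_le_mul_right ?_ _
        have := dens_om ΛX hX zX h1X hΛX P j θ ((a : ℤ), w + Dd hY zY l' - x)
        refine le_trans (le_of_eq (tsum_congr fun l => ?_)) this
        congr 1
    _ = j * (2 * θ) := by rw [ENNReal.tsum_mul_right, om_one ΛY hY h1Y hΛY, one_mul]

open Classical in
lemma muY_le (P j : ℕ) (θ : ℝ≥0∞) (w : G) (a a' : ℕ) (x : G) :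
    muY ΛX ΛY hX hY zX zY P j θ w a a' x ≤ j * (2 * θ) := by
  rw [muY, fiber]
  calc _ ≤ ∑' p : List (At hX P) × List (At hY P), om ΛX hX P j p.1 * (om ΛY hY P j p.2 *
        (if smal ΛY hY zY P θ p.2 ∧ (p.2.map (jz hY zY P)).sum = ((a' : ℤ), x - w + Dd hX zX p.1)
          then 1 else 0)) := by
        refine ENNReal.tsum_le_tsum fun p => ?_
        by_cases hx : xr hX hY zX zY w p.1 p.2 = x
        · rw [if_pos hx]
          by_cases hs : smal ΛY hY zY P θ p.2 ∧ Hh hX p.1 = a ∧ Hh hY p.2 = a'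
          · have hq : (p.2.map (jz hY zY P)).sum = ((a' : ℤ), x - w + Dd hX zX p.1) := by
              rw [jz_sum, ← hx, xr, Prod.mk.injEq]
              refine ⟨by exact_mod_cast hs.2.2, ?_⟩
              simp only [Dd]; abel
            rw [mY, ind_t hs, if_pos ⟨hs.1, hq⟩, mul_one, mul_one]
          · rw [mY, ind_f hs, mul_zero]; exact zero_le
        · rw [if_neg hx]; exact zero_le
    _ = ∑' l, ∑' l', om ΛX hX P j l * (om ΛY hY P j l' *
        (if smal ΛY hY zY P θ l' ∧ (l'.map (jz hY zY P)).sum = ((a' : ℤ), x - w + Dd hX zX l)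
          then 1 else 0)) := by
        rw [ENNReal.tsum_prod (f := fun (l : List (At hX P)) (l' : List (At hY P)) =>
          om ΛX hX P j l * (om ΛY hY P j l' * (if smal ΛY hY zY P θ l' ∧
            (l'.map (jz hY zY P)).sum = ((a' : ℤ), x - w + Dd hX zX l) then 1 else 0)))]
    _ ≤ ∑' l, om ΛX hX P j l * (j * (2 * θ)) := by
        refine ENNReal.tsum_le_tsum fun l => ?_
        rw [ENNReal.tsum_mul_left]
        refine mul_le_mul_right ?_ _
        have := dens_om ΛY hY zY h1Y hΛY P j θ ((a' : ℤ), x - w + Dd hX zX l)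
        refine le_trans (le_of_eq (tsum_congr fun l' => ?_)) this
        congr 1
    _ = j * (2 * θ) := by rw [ENNReal.tsum_mul_right, om_one ΛX hX h1X hΛX, one_mul]

end

end Crest.Agent.R154.AsmF789
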