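import Crest.Agent.R154.AsmE_790

/-! Row 154, ROAD 801 (helper790): abstract assembly, part F: bound of the weight of one window. -/

set_option autoImplicit false

namespace Crest.Agent.R154.Asm790

open scoped ENNReal
open Crest.Agent.R154.B5A

section pc

variable {B G : Type*} [AddCommGroup G] (Λ : B → ℝ≥0∞) (ht : B → ℕ) (z : B → G)

open Classical in
lemma sum_FP_one (h1 : ∀ b, 1 ≤ ht b) (hΛ : ∑' b, Λ b = 1) (τ : ℕ) :
    ∑' P, (if FP ht τ P then LW Λ P else 0) = 1 := by
  induction τ using Nat.strong_induction_on with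
  | _ τ ih =>
    rw [tsum_list]
    by_cases h0 : τ = 0
    · subst h0
      simp [FP, LW_nil]
    · have : (if FP ht τ ([] : List B) then LW Λ ([] : List B) else 0) = 0 := by
        simp [FP, h0]
      rw [this, zero_add]
      calc ∑' b, ∑' L, (if FP ht τ (b :: L) then LW Λ (b :: L) else 0)
          = ∑' b, Λ b * ∑' L, (if FP ht (τ - ht b) L then LW Λ L else 0) := by
            refine tsum_congr fun b => ?_
            rw [← ENNReal.tsum_mul_left]
            refine tsum_congr fun L => ?_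
            have : FP ht τ (b :: L) ↔ FP ht (τ - ht b) L := by
              simp only [FP]
              exact ⟨fun h => h.2, fun h => ⟨by omega, h⟩⟩
            by_cases h : FP ht (τ - ht b) L
            · rw [if_pos (this.2 h), if_pos h, LW_cons]
            · rw [if_neg (fun h' => h (this.1 h')), if_neg h, mul_zero]
        _ = ∑' b, Λ b * 1 := by
            refine tsum_congr fun b => ?_
            have := h1 b
            rw [ih _ (by omega)]
        _ = 1 := by simpa using hΛ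

open Classical in
/-- locality data of the pieces -/
lemma piece_data (h1 : ∀ b, 1 ≤ ht b) (hΛ : ∑' b, Λ b = 1) (u : ℝ≥0∞) (hu0 : u ≠ 0) (hu1 : u ≤ 1)
    (τ i0 : ℕ) : ∃ (M : ℝ≥0∞) (E : ℕ → Finset G) (loc : List B → Prop),
      (∑' P, (if loc P then 0 else La Λ ht τ i0 P) ≤ u) ∧
      (∀ P, loc P → Dp z P ∈ E (HT ht P)) ∧ (∀ h, M * (E h).card ≤ u⁻¹) ∧
      (∀ j, ∃ A Bb : ℤ × G → ℝ≥0∞, (∀ g, Dj (La Λ ht τ i0) (dl ht z) j g ≤ A g + Bb g) ∧
        (∀ g, A g ≤ M) ∧ ∑' g, A g ≤ 1 ∧ ∑' g, Bb g ≤ (1 - u) ^ j) := by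
  set p : ℤ × G → ℝ≥0∞ := fun g => ∑' P, (if FP ht τ P ∧ dl ht z P = g then LW Λ P else 0) with hp
  have hutop : u ≠ ⊤ := ne_top_of_le_ne_top ENNReal.one_ne_top hu1
  have push : ∀ f : ℤ × G → ℝ≥0∞, ∑' g, p g * f g
      = ∑' P, (if FP ht τ P then LW Λ P * f (dl ht z P) else 0) := by
    intro f
    simp only [hp]
    simp_rw [← ENNReal.tsum_mul_right]
    rw [ENNReal.tsum_comm]
    refine tsum_congr fun P => ?_
    rw [tsum_eq_single (dl ht z P)]
    · by_cases hP : FP ht τ P <;> simp [hP]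
    · intro g hg
      rw [if_neg (fun h => hg h.2.symm), zero_mul]
  have hp1 : ∑' g, p g = 1 := by
    have := push (fun _ => 1)
    simp only [mul_one] at this
    rw [this, sum_FP_one Λ ht h1 hΛ τ]
  obtain ⟨th, hth0, hth1, hq1, hq2⟩ := Dens903.quantile p hp1 hu0 hu1
  have hthtop : th ≠ ⊤ := ne_top_of_le_ne_top ENNReal.one_ne_top hth1
  have hLale : ∀ P, La Λ ht τ i0 P ≤ (if FP ht τ P then LW Λ P else 0) := by
    intro P
    simp only [La]
    by_cases hP : FP ht τ P
    · by_cases h2 : HT ht P ≤ τ + i0 <;> simp [hP, h2]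
    · simp [hP]
  have hfin : ∀ h : ℕ, {x : G | th ≤ p ((h : ℤ), x)}.Finite := by
    intro h
    refine ENNReal.finite_const_le_of_tsum_ne_top (ne_top_of_le_ne_top ENNReal.one_ne_top ?_) hth0
    rw [← hp1, ENNReal.tsum_prod']
    exact ENNReal.le_tsum (f := fun a : ℤ => ∑' x, p (a, x)) (h : ℤ)
  refine ⟨th / u, fun h => (hfin h).toFinset, fun P => th ≤ p (dl ht z P), ?_, ?_, ?_, ?_⟩
  · refine le_trans ?_ hq1
    have e : ∑' a, (if p a < th then p a else 0) = ∑' g, p g * (if p g < th then 1 else 0) :=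
      tsum_congr fun g => by by_cases h : p g < th <;> simp [h]
    rw [e, push]
    refine ENNReal.tsum_le_tsum fun P => ?_
    by_cases h : th ≤ p (dl ht z P)
    · simp [h]
    · rw [if_neg h, if_pos (not_le.1 h), mul_one]
      exact hLale P
  · intro P hP
    simp only [Set.Finite.mem_toFinset, Set.mem_ofPred_eq]
    exact hP
  · intro h
    have hc : th * ((hfin h).toFinset.card : ℝ≥0∞) ≤ 1 := by
      calc th * ((hfin h).toFinset.card : ℝ≥0∞)
          = ∑ x ∈ (hfin h).toFinset, th := by rw [Finset.sum_const, nsmul_eq_mul, mul_comm]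
        _ ≤ ∑ x ∈ (hfin h).toFinset, p ((h : ℤ), x) := by
            refine Finset.sum_le_sum fun x hx => ?_
            simpa using hx
        _ ≤ ∑' x, p ((h : ℤ), x) := ENNReal.sum_le_tsum _
        _ ≤ ∑' g, p g := by
            rw [ENNReal.tsum_prod']
            exact ENNReal.le_tsum (f := fun a : ℤ => ∑' x, p (a, x)) (h : ℤ)
        _ = 1 := hp1
    calc th / u * ((hfin h).toFinset.card : ℝ≥0∞) = (th * ((hfin h).toFinset.card : ℝ≥0∞)) * u⁻¹ := by
          rw [div_eq_mul_inv]; ring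
      _ ≤ 1 * u⁻¹ := mul_le_mul_left hc _
      _ = u⁻¹ := one_mul _
  · intro j
    refine dens (La Λ ht τ i0) (dl ht z) (sum_La Λ ht h1 hΛ.le τ i0)
      (fun P => p (dl ht z P) ≤ th) th (1 - u) (th / u) (fun g => ?_) ?_ ?_ j
    · by_cases hg : p g ≤ th
      · refine le_trans ?_ hg
        refine ENNReal.tsum_le_tsum fun P => ?_
        by_cases h : dl ht z P = g
        · refine le_trans ?_ ((hLale P).trans (le_of_eq ?_))
          · split_ifs <;> simp
          · simp [h]
        · rw [if_neg (fun h' => h h'.2)]; exact zero_le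
      · refine le_trans (le_of_eq ?_) zero_le
        rw [ENNReal.tsum_eq_zero]
        intro P
        rw [if_neg]
        rintro ⟨h2, h3⟩
        exact hg (h3 ▸ h2)
    · have e : ∑' a, (if p a ≤ th then p a else 0) = ∑' g, p g * (if p g ≤ th then 1 else 0) :=
        tsum_congr fun g => by by_cases h : p g ≤ th <;> simp [h]
      rw [e, push] at hq2
      have hsum : ∑' P, (if FP ht τ P then LW Λ P * (if p (dl ht z P) ≤ th then 1 else 0) else 0)
          + ∑' P, (if p (dl ht z P) ≤ th then 0 else (if FP ht τ P then LW Λ P else 0)) = 1 := by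
        rw [← ENNReal.tsum_add]
        refine Eq.trans ?_ (sum_FP_one Λ ht h1 hΛ τ)
        refine tsum_congr fun P => ?_
        by_cases h : p (dl ht z P) ≤ th <;> by_cases h2 : FP ht τ P <;> simp [h, h2]
      have h3 : ∑' P, (if p (dl ht z P) ≤ th then 0 else (if FP ht τ P then LW Λ P else 0))
          ≤ 1 - u := by
        refine ENNReal.le_sub_of_add_le_right hutop ?_
        rw [← hsum, add_comm]
        exact add_le_add_left hq2 _
      refine le_trans (ENNReal.tsum_le_tsum fun P => ?_) h3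
      by_cases h : p (dl ht z P) ≤ th
      · simp [h]
      · rw [if_neg h, if_neg h]; exact hLale P
    · have : th + (1 - u) * (th / u) = (u + (1 - u)) * (th / u) := by
        rw [add_mul]
        congr 1
        rw [mul_comm, ENNReal.div_mul_cancel hu0 hutop]
      rw [this, add_tsub_cancel_of_le hu1, one_mul]

end pc

lemma two_left {Γ : Type*} (D1 D2 A1 B1 : Γ → ℝ≥0∞) (F : Γ → Γ → ℝ≥0∞) (hF : ∀ g g', F g g' ≤ 1)
    (hD : ∀ g, D1 g ≤ A1 g + B1 g) (hD2 : ∑' g, D2 g ≤ 1) :
    ∑' g, D1 g * ∑' g', D2 g' * F g g' ≤ ∑' g, A1 g * ∑' g', D2 g' * F g g' + ∑' g, B1 g := by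
  rw [← ENNReal.tsum_add]
  refine ENNReal.tsum_le_tsum fun g => ?_
  calc D1 g * ∑' g', D2 g' * F g g' ≤ (A1 g + B1 g) * ∑' g', D2 g' * F g g' :=
        mul_le_mul_left (hD g) _
    _ = A1 g * ∑' g', D2 g' * F g g' + B1 g * ∑' g', D2 g' * F g g' := add_mul _ _ _
    _ ≤ A1 g * ∑' g', D2 g' * F g g' + B1 g * 1 := by
        refine add_le_add_right (mul_le_mul_right ?_ _) _
        refine le_trans (ENNReal.tsum_le_tsum fun g' => mul_le_mul_right (hF g g') _) ?_
        simpa using hD2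
    _ = _ := by rw [mul_one]

lemma two_right {Γ : Type*} (D1 D2 A2 B2 : Γ → ℝ≥0∞) (F : Γ → Γ → ℝ≥0∞) (hF : ∀ g g', F g g' ≤ 1)
    (hD : ∀ g, D2 g ≤ A2 g + B2 g) (hD1 : ∑' g, D1 g ≤ 1) :
    ∑' g, D1 g * ∑' g', D2 g' * F g g' ≤ ∑' g, D1 g * ∑' g', A2 g' * F g g' + ∑' g, B2 g := by
  have h : ∀ g, ∑' g', D2 g' * F g g' ≤ ∑' g', A2 g' * F g g' + ∑' g', B2 g' := by
    intro g
    rw [← ENNReal.tsum_add]
    refine ENNReal.tsum_le_tsum fun g' => ?_
    calc D2 g' * F g g' ≤ (A2 g' + B2 g') * F g g' := mul_le_mul_left (hD g') _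
      _ = A2 g' * F g g' + B2 g' * F g g' := add_mul _ _ _
      _ ≤ A2 g' * F g g' + B2 g' * 1 := add_le_add_right (mul_le_mul_right (hF g g') _) _
      _ = _ := by rw [mul_one]
  calc ∑' g, D1 g * ∑' g', D2 g' * F g g'
      ≤ ∑' g, D1 g * (∑' g', A2 g' * F g g' + ∑' g', B2 g') :=
        ENNReal.tsum_le_tsum fun g => mul_le_mul_right (h g) _
    _ = ∑' g, D1 g * ∑' g', A2 g' * F g g' + (∑' g, D1 g) * ∑' g', B2 g' := by
        simp_rw [mul_add]
        rw [ENNReal.tsum_add, ENNReal.tsum_mul_right]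
    _ ≤ _ := by
        refine add_le_add_right ?_ _
        calc (∑' g, D1 g) * ∑' g', B2 g' ≤ 1 * ∑' g', B2 g' := mul_le_mul_left hD1 _
          _ = _ := one_mul _

end Crest.Agent.R154.Asm790
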