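import Crest.Agent.R154.AsmE_834
import Crest.Agent.R154.Num_869
import Crest.Agent.R154.AsmD_540

/-! Row 154, T0219, ROAD 801 (helper834): choice of the constants, `KS` on `(m, 2m]`. -/

set_option autoImplicit false

namespace Crest.Agent.R154.Asm834

open scoped ENNReal
open Crest.Agent.R154.B5A
open Crest.Agent.R154.Ren480 (Stp AT DS e1)

/-- choice of `lam` and `s` -/
lemma choose_ls (A D q : ℝ≥0∞) (hA : A ≠ ⊤) (hD : D ≠ ⊤) (hq : q ≠ 0) (hq' : q ≠ ⊤)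
    (us : ℕ → ℝ≥0∞) (hus : ∀ x : ℝ≥0∞, x ≠ 0 → ∃ s, us s ≤ x) :
    ∃ (lam : ℝ≥0∞) (s : ℕ), lam ≠ 0 ∧ lam ≠ ⊤ ∧ A * (lam + D * us s / lam + us s) ≤ q := by
  set p := q / (A + 1) / 3 with hp
  have hA1 : A + 1 ≠ ⊤ := ENNReal.add_ne_top.2 ⟨hA, ENNReal.one_ne_top⟩
  have hA0 : A + 1 ≠ 0 := by simp
  have hD1 : D + 1 ≠ ⊤ := ENNReal.add_ne_top.2 ⟨hD, ENNReal.one_ne_top⟩
  have hD0 : D + 1 ≠ 0 := by simp
  have hp0 : p ≠ 0 := by
    rw [hp]
    refine (ENNReal.div_pos (ENNReal.div_pos hq hA1).ne' (by norm_num)).ne'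
  have hpt : p ≠ ⊤ := by
    rw [hp]
    exact ENNReal.div_ne_top (ENNReal.div_ne_top hq' hA0) (by norm_num)
  have hy : p * p / (D + 1) ≠ 0 := (ENNReal.div_pos (mul_ne_zero hp0 hp0) hD1).ne'
  obtain ⟨s, hs⟩ := hus (min p (p * p / (D + 1))) (by
    rw [Ne, min_eq_iff]
    rintro (⟨h, _⟩ | ⟨h, _⟩)
    · exact hp0 h
    · exact hy h)
  refine ⟨p, s, hp0, hpt, ?_⟩
  have h1 : us s ≤ p := hs.trans (min_le_left _ _)
  have h2 : D * us s / p ≤ p := by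
    refine ENNReal.div_le_of_le_mul ?_
    calc D * us s ≤ (D + 1) * (p * p / (D + 1)) := by
          refine mul_le_mul' le_self_add (hs.trans (min_le_right _ _))
      _ = p * p := ENNReal.mul_div_cancel hD0 hD1
  calc A * (p + D * us s / p + us s) ≤ (A + 1) * (p + p + p) := by
        refine mul_le_mul' le_self_add (add_le_add (add_le_add le_rfl h2) h1)
    _ = (A + 1) * (3 * p) := by ring
    _ = (A + 1) * (q / (A + 1)) := by
        rw [hp, ENNReal.mul_div_cancel (by norm_num) (by norm_num)]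
    _ = q := ENNReal.mul_div_cancel hA0 hA1

section one

variable {B : Type*} {G : Type*} [AddCommGroup G] (Λ : B → ℝ≥0∞) (h : B → ℕ) (z : B → G)

/-- data of one walker: quantile set and smooth density -/
lemma data (hΛ : ∑' b, Λ b = 1) (h1 : ∀ b, 1 ≤ h b) (T i0 N α : ℕ) (u : ℝ≥0∞) (hu : u ≠ 0)
    (hu1 : u ≤ 1) (hN : N * (T + i0) ≤ α) :
    ∃ (E : Finset (ℕ × G)) (a1 b1 : ℕ × G → ℝ≥0∞) (M : ℝ≥0∞),
      (∑' x, Ren480.a Λ h z T x * chi (x ∉ E) ≤ u) ∧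
      (∀ x, Ren480.a Λ h z α x ≤ a1 x + b1 x) ∧
      (∑' x, b1 x ≤ (1 - u) ^ N + e1 Λ h i0 * u⁻¹) ∧
      (∀ i, ∑' x, a1 (i, x) ≤ 1) ∧ (∀ x, a1 x ≤ M) ∧
      M * E.card ≤ 2 * ((i0 + 1 : ℕ) : ℝ≥0∞) * u⁻¹ := by
  classical
  obtain ⟨th, hth0, hth1, hq1, hq2⟩ := Ren480.quantile (Ren480.a_sum Λ h z hΛ h1 T) hu hu1
  obtain ⟨E, hE, hcard⟩ := Ren480.card_large (Ren480.a_sum Λ h z hΛ h1 T).le hth0
  have hut : u ≠ ⊤ := ne_top_of_le_ne_top ENNReal.one_ne_top hu1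
  have hv : ∑' y : ℕ × G, (if y.1 ≤ i0 ∧ 2 * th < Ren480.a Λ h z T y then Ren480.a Λ h z T y
      else 0) ≤ 1 - u := by
    have h4 : ∑' x, (if Ren480.a Λ h z T x < 2 * th then Ren480.a Λ h z T x else 0) +
        ∑' y : ℕ × G, (if y.1 ≤ i0 ∧ 2 * th < Ren480.a Λ h z T y then Ren480.a Λ h z T y
          else 0) ≤ 1 := by
      rw [← Ren480.a_sum Λ h z hΛ h1 T, ← ENNReal.tsum_add]
      refine ENNReal.tsum_le_tsum fun x => ?_
      by_cases hx : Ren480.a Λ h z T x < 2 * th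
      · rw [if_pos hx, if_neg (fun hh => absurd hh.2 (not_lt.2 hx.le)), add_zero]
      · rw [if_neg hx, zero_add]
        split_ifs
        · exact le_rfl
        · exact zero_le
    refine ENNReal.le_sub_of_add_le_left hut ?_
    exact (add_le_add hq2 le_rfl).trans h4
  obtain ⟨g, b, hgb, hg, hb⟩ := Ren480.smooth Λ h z hΛ h1 hv N α hN
  have h5 : (1 : ℝ≥0∞) - (1 - u) = u := ENNReal.sub_sub_cancel ENNReal.one_ne_top hu1
  rw [h5] at hg hb
  set M := ((i0 + 1 : ℕ) : ℝ≥0∞) * (2 * th) * u⁻¹ with hM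
  refine ⟨E, fun x => min (Ren480.a Λ h z α x) M, b, M, ?_, ?_, hb, ?_, fun x => min_le_right _ _, ?_⟩
  · refine le_trans (le_of_eq (tsum_congr fun x => ?_)) hq1
    by_cases hx : x ∈ E
    · rw [chi_neg (not_not.2 hx), mul_zero, if_neg (not_lt.2 ((hE x).1 hx))]
    · rw [chi_pos hx, mul_one, if_pos (not_le.1 fun hh => hx ((hE x).2 hh))]
  · intro x
    show Ren480.a Λ h z α x ≤ min (Ren480.a Λ h z α x) M + b x
    rcases le_total (Ren480.a Λ h z α x) M with hx | hx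
    · rw [min_eq_left hx]; exact le_self_add
    · rw [min_eq_right hx]
      exact (hgb x).trans (add_le_add (hg x) le_rfl)
  · intro i
    calc ∑' x, min (Ren480.a Λ h z α (i, x)) M ≤ ∑' x, Ren480.a Λ h z α (i, x) :=
          ENNReal.tsum_le_tsum fun x => min_le_left _ _
      _ ≤ ∑' x, Ren480.a Λ h z α x :=
          ENNReal.tsum_comp_le_tsum_of_injective (f := fun x : G => (i, x))
            (fun x y hxy => by simpa using hxy) (Ren480.a Λ h z α)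
      _ = 1 := Ren480.a_sum Λ h z hΛ h1 α
  · calc M * E.card = 2 * ((i0 + 1 : ℕ) : ℝ≥0∞) * u⁻¹ * (E.card * th) := by rw [hM]; ring
      _ ≤ 2 * ((i0 + 1 : ℕ) : ℝ≥0∞) * u⁻¹ * 1 := by gcongr
      _ = _ := mul_one _

lemma TR_eq (s : B → Set (G × ℕ)) (L : List B) (x : G) (a : ℕ) :
    TR h z s L x a = Asm540.TR s z h L x a := by
  induction L generalizing x a with
  | nil => rfl
  | cons b L ih => simp only [TR, Asm540.TR, ih]

end one

end Crest.Agent.R154.Asm834
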