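import Crest.Agent.R154.AsmE_876

/-! Row 154 (helper876), ROAD 801: assembly, part F (one system: quantile, density; constants). -/

set_option autoImplicit false

namespace Crest.Agent.R154.Asm876

open scoped ENNReal Topology
open Crest.Agent.R154.B5A
open Crest.Agent.R154.FP178

section sys

variable {B G : Type*} [AddCommGroup G] (Λ : B → ℝ≥0∞) (ht : B → ℕ) (dz : B → G)

open Classical in
lemma sum_FP_one (h1 : ∀ b, 1 ≤ ht b) (hΛ : ∑' b, Λ b = 1) (a : ℕ) :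
    ∑' L, (if fp ht a L then LW Λ L else 0) = 1 := by
  induction a using Nat.strong_induction_on with
  | _ a ih =>
    rcases Nat.eq_zero_or_pos a with rfl | ha
    · have := sum_fp_zero Λ ht (fun _ => 1)
      simpa only [mul_one] using this
    · have := sum_fp_step Λ ht a ha (fun _ => 1)
      simp only [mul_one] at this
      rw [this]
      calc ∑' b, Λ b * ∑' L, (if fp ht (a - ht b) L then LW Λ L else 0)
          = ∑' b, Λ b := by
            refine tsum_congr fun b => ?_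
            rw [ih (a - ht b) (by have := h1 b; omega), mul_one]
        _ = 1 := hΛ

open Classical in
lemma sum_pL (h1 : ∀ b, 1 ≤ ht b) (hΛ : ∑' b, Λ b = 1) (τ : ℕ) :
    ∑' q : ℕ × G, pL Λ ht dz τ q.1 q.2 = 1 := by
  rw [← sum_FP_one Λ ht h1 hΛ τ]
  simp only [pL]
  rw [ENNReal.tsum_comm]
  refine tsum_congr fun L => ?_
  by_cases h : fp ht τ L
  · simp only [if_pos h]
    have hle := le_HT_of_fp ht h
    rw [ENNReal.tsum_mul_left, tsum_eq_single (HT ht L - τ, dL dz L)]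
    · rw [if_pos ⟨by simp only; omega, rfl⟩, mul_one]
    · rintro ⟨i, z⟩ hq
      rw [if_neg]
      rintro ⟨h2, h3⟩
      exact hq (by simp only at h2 h3; rw [Prod.mk.injEq]; exact ⟨by omega, h3.symm⟩)
  · simp only [if_neg h, tsum_zero]

open Classical in
theorem sys (h1 : ∀ b, 1 ≤ ht b) (hΛ : ∑' b, Λ b = 1) (τ i0 J a : ℕ) (ha : J * (τ + i0) ≤ a)
    (e u : ℝ≥0∞) (hu0 : u ≠ 0) (hu1 : u < 1) (he : OV Λ ht τ i0 ≤ e) :
    ∃ (Loc : List B → Prop) (E : ℕ → Finset G) (g b : G → ℝ≥0∞) (M : ℝ≥0∞),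
      (∀ P, fp ht τ P → HT ht P ≤ τ + i0 → Loc P → dL dz P ∈ E (HT ht P - τ)) ∧
      FS Λ ht τ i0 (fun P => if Loc P then 0 else 1) ≤ u ∧
      (∀ z, mL Λ ht dz a z = g z + b z) ∧ (∀ z, g z ≤ M) ∧
      (∀ i, M * (E i).card ≤ ((i0 : ℝ≥0∞) + 1) * J) ∧ ∑' z, b z ≤ (1 - u) ^ J + J * e := by
  set p : ℕ × G → ℝ≥0∞ := fun q => pL Λ ht dz τ q.1 q.2 with hp
  have hp1 : ∑' q, p q = 1 := sum_pL Λ ht dz h1 hΛ τ
  obtain ⟨th, hth0, hth1, hlt, hge⟩ := Dens616.quantile p hp1 hu0 hu1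
  have hrow : ∀ i, ∑' z, pL Λ ht dz τ i z ≤ 1 := by
    intro i
    calc ∑' z, pL Λ ht dz τ i z ≤ ∑' i, ∑' z, pL Λ ht dz τ i z :=
          ENNReal.le_tsum (f := fun i => ∑' z, pL Λ ht dz τ i z) i
      _ = ∑' q, p q := (ENNReal.tsum_prod (f := fun i z => pL Λ ht dz τ i z)).symm
      _ = 1 := hp1
  have hfin : ∀ i, {z | th ≤ pL Λ ht dz τ i z}.Finite := fun i =>
    Dens616.finite_local (fun z => pL Λ ht dz τ i z)
      (ne_top_of_le_ne_top ENNReal.one_ne_top (hrow i)) hth0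
  set r : ℝ≥0∞ := 1 - u with hr
  have hr1 : r ≤ 1 := tsub_le_self
  have hrr : ∑ i ∈ Finset.range (i0 + 1), ∑' z, (if th < pL Λ ht dz τ i z then
      pL Λ ht dz τ i z else 0) ≤ r := by
    have h2 : (∑' q, if th < p q then p q else 0) + u ≤ 1 := by
      calc (∑' q, if th < p q then p q else 0) + u
          ≤ (∑' q, if th < p q then p q else 0) + ∑' q, (if p q ≤ th then p q else 0) :=
            add_le_add le_rfl hge
        _ = ∑' q, p q := by
          rw [← ENNReal.tsum_add]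
          refine tsum_congr fun q => ?_
          by_cases h : th < p q
          · rw [if_pos h, if_neg (not_le.2 h), add_zero]
          · rw [if_neg h, if_pos (not_lt.1 h), zero_add]
        _ ≤ 1 := hp1.le
    have hutop : u ≠ ⊤ := ne_top_of_lt hu1
    have h3 : (∑' q, if th < p q then p q else 0) ≤ r := by
      rw [hr]
      exact ENNReal.le_sub_of_add_le_right hutop h2
    refine le_trans ?_ h3
    rw [ENNReal.tsum_prod']
    exact ENNReal.sum_le_tsum (Finset.range (i0 + 1))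
  have hov : ∑' L, (if fp ht τ L ∧ τ + i0 < HT ht L then LW Λ L else 0) ≤ e := by
    unfold OV at he
    exact he
  obtain ⟨g, b, hgb, hg, hb⟩ := smooth Λ ht dz h1 hΛ.le τ i0 th r e hr1 hrr hov J a ha
  refine ⟨fun P => th ≤ pL Λ ht dz τ (HT ht P - τ) (dL dz P), fun i => (hfin i).toFinset, g, b,
    th * (i0 + 1) * ∑ j ∈ Finset.range J, r ^ j, ?_, ?_, hgb, hg, ?_, hb⟩
  · intro P _ _ hP
    rw [Set.Finite.mem_toFinset]
    exact hP
  · refine le_trans (FS_mono Λ ht (g := fun P => if th ≤ pL Λ ht dz τ (HT ht P - τ) (dL dz P)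
      then 0 else 1) fun P _ _ => ?_) ?_
    · beta_reduce
      by_cases h : th ≤ pL Λ ht dz τ (HT ht P - τ) (dL dz P)
      · rw [if_pos h, if_pos h]
      · rw [if_neg h, if_neg h]
    have h4 := regroup Λ ht dz τ i0 (fun i z => if th ≤ pL Λ ht dz τ i z then 0 else 1)
    have h5 : FS Λ ht τ i0 (fun P => if th ≤ pL Λ ht dz τ (HT ht P - τ) (dL dz P) then 0 else 1)
        = ∑' A, (if fp ht τ A then LW Λ A * (if HT ht A ≤ τ + i0 then
          (if th ≤ pL Λ ht dz τ (HT ht A - τ) (dL dz A) then 0 else 1) else 0) else 0) := by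
      refine tsum_congr fun A => ?_
      by_cases h : fp ht τ A
      · by_cases h' : HT ht A ≤ τ + i0
        · rw [if_pos ⟨h, h'⟩, if_pos h, if_pos h']
        · rw [if_neg (fun hh => h' hh.2), if_pos h, if_neg h', mul_zero]
      · rw [if_neg (fun hh => h hh.1), if_neg h]
    rw [h5, h4]
    refine le_trans ?_ hlt
    rw [ENNReal.tsum_prod']
    refine le_trans ?_ (ENNReal.sum_le_tsum (Finset.range (i0 + 1)))
    refine Finset.sum_le_sum fun i _ => ENNReal.tsum_le_tsum fun z => ?_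
    by_cases h : th ≤ pL Λ ht dz τ i z
    · rw [if_pos h, mul_zero]; exact zero_le
    · rw [if_neg h, mul_one]
      simp only [hp]
      rw [if_pos (not_le.1 h)]
  · intro i
    have h6 : ((hfin i).toFinset.card : ℝ≥0∞) * th ≤ 1 :=
      (Dens616.card_mul_le (fun z => pL Λ ht dz τ i z) th _ (fun x hx => by
        rw [Set.Finite.mem_toFinset] at hx; exact hx)).trans (hrow i)
    have h7 : ∑ j ∈ Finset.range J, r ^ j ≤ (J : ℝ≥0∞) := by
      calc ∑ j ∈ Finset.range J, r ^ j ≤ ∑ j ∈ Finset.range J, 1 :=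
            Finset.sum_le_sum fun j _ => pow_le_one' hr1 j
        _ = J := by simp
    calc th * (i0 + 1) * (∑ j ∈ Finset.range J, r ^ j) * ((hfin i).toFinset.card : ℝ≥0∞)
        = (i0 + 1) * (∑ j ∈ Finset.range J, r ^ j) * (((hfin i).toFinset.card : ℝ≥0∞) * th) := by
          ring
      _ ≤ (i0 + 1) * J * 1 := mul_le_mul' (mul_le_mul' le_rfl h7) h6
      _ = _ := mul_one _

end sys

/-! ### constants -/

lemma const1 (ε : ℝ≥0∞) (hε : ε ≠ 0) : ∃ (J : ℕ) (u : ℝ≥0∞), u ≠ 0 ∧ u < 1 ∧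
    (3 * (4 * J + 1 : ℕ) : ℝ≥0∞) * (u * u + 2 * (1 - u) ^ J) ≤ ε := by
  obtain ⟨δ, hδ0, hδ⟩ : ∃ δ : ℝ, 0 < δ ∧ ENNReal.ofReal δ ≤ ε := by
    refine ⟨(min ε 1).toReal, ?_, ?_⟩
    · exact ENNReal.toReal_pos (by simp [hε]) (ne_top_of_le_ne_top ENNReal.one_ne_top
        (min_le_right _ _))
    · rw [ENNReal.ofReal_toReal (ne_top_of_le_ne_top ENNReal.one_ne_top (min_le_right _ _))]
      exact min_le_left _ _
  obtain ⟨k0, hk0⟩ := exists_nat_gt (1000 / δ)
  set k : ℕ := max k0 2 with hk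
  have hk2 : (2 : ℝ) ≤ k := by exact_mod_cast le_max_right k0 2
  have hkk : 1000 / δ < k := hk0.trans_le (by exact_mod_cast le_max_left k0 2)
  have hkpos : (0 : ℝ) < k := by linarith
  set x : ℝ := 1 / (k : ℝ) ^ 2 with hx
  have hx0 : 0 < x := by positivity
  have hx1 : x < 1 := by
    rw [hx, div_lt_one (by positivity)]
    nlinarith
  have hexp : (1 - x) ^ (k ^ 3) ≤ 24 / (k : ℝ) ^ 4 := by
    have h1 : 1 - x ≤ Real.exp (-x) := by
      have := Real.add_one_le_exp (-x); linarith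
    have h2 : (1 - x) ^ (k ^ 3) ≤ Real.exp (-x) ^ (k ^ 3) :=
      pow_le_pow_left₀ (by linarith) h1 _
    have h3 : Real.exp (-x) ^ (k ^ 3) = Real.exp (-(k : ℝ)) := by
      rw [← Real.exp_nat_mul]
      congr 1
      rw [hx]
      push_cast
      field_simp
    have h4 : (k : ℝ) ^ 4 / (Nat.factorial 4 : ℕ) ≤ Real.exp k :=
      Real.pow_div_factorial_le_exp _ hkpos.le 4
    have h5 : Real.exp (-(k : ℝ)) ≤ 24 / (k : ℝ) ^ 4 := by
      rw [Real.exp_neg, le_div_iff₀ (by positivity), inv_mul_le_iff₀ (Real.exp_pos _)]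
      have : ((Nat.factorial 4 : ℕ) : ℝ) = 24 := by norm_num [Nat.factorial]
      rw [this, div_le_iff₀ (by norm_num)] at h4
      linarith
    rw [h3] at h2
    exact h2.trans h5
  refine ⟨k ^ 3, ENNReal.ofReal x, ?_, ?_, ?_⟩
  · simp [hx0]
  · rw [← ENNReal.ofReal_one]
    exact (ENNReal.ofReal_lt_ofReal_iff one_pos).2 hx1
  · have e1 : (1 : ℝ≥0∞) - ENNReal.ofReal x = ENNReal.ofReal (1 - x) := by
      rw [ENNReal.ofReal_sub _ hx0.le, ENNReal.ofReal_one]
    have e2 : (3 * (4 * k ^ 3 + 1 : ℕ) : ℝ≥0∞) * (ENNReal.ofReal x * ENNReal.ofReal x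
        + 2 * (1 - ENNReal.ofReal x) ^ (k ^ 3))
        = ENNReal.ofReal ((3 * (4 * (k : ℝ) ^ 3 + 1)) * (x * x + 2 * (1 - x) ^ (k ^ 3))) := by
      have hpw : 0 ≤ (1 - x) ^ (k ^ 3) := pow_nonneg (by linarith) _
      rw [ENNReal.ofReal_mul (p := 3 * (4 * (k : ℝ) ^ 3 + 1)) (by positivity),
        ENNReal.ofReal_add (p := x * x) (q := 2 * (1 - x) ^ (k ^ 3)) (by positivity)
          (by positivity),
        ENNReal.ofReal_mul (p := x) (q := x) hx0.le,
        ENNReal.ofReal_mul (p := 2) (q := (1 - x) ^ (k ^ 3)) (by norm_num),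
        ENNReal.ofReal_pow (by linarith), e1,
        ENNReal.ofReal_mul (p := 3) (q := 4 * (k : ℝ) ^ 3 + 1) (by norm_num),
        show (4 * (k : ℝ) ^ 3 + 1) = ((4 * k ^ 3 + 1 : ℕ) : ℝ) by push_cast; ring,
        ENNReal.ofReal_natCast]
      simp only [ENNReal.ofReal_ofNat]
    rw [e2]
    refine le_trans (ENNReal.ofReal_le_ofReal ?_) hδ
    have hb : x * x + 2 * (1 - x) ^ (k ^ 3) ≤ 49 / (k : ℝ) ^ 4 := by
      have : x * x = 1 / (k : ℝ) ^ 4 := by rw [hx]; field_simp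
      rw [this]
      have h9 : 2 * (24 / (k : ℝ) ^ 4) = 48 / (k : ℝ) ^ 4 := by ring
      have : 1 / (k : ℝ) ^ 4 + 48 / (k : ℝ) ^ 4 = 49 / (k : ℝ) ^ 4 := by ring
      linarith
    have hc : 3 * (4 * (k : ℝ) ^ 3 + 1) ≤ 15 * (k : ℝ) ^ 3 := by
      have : (1 : ℝ) ≤ (k : ℝ) ^ 3 := one_le_pow₀ (by linarith)
      linarith
    calc (3 * (4 * (k : ℝ) ^ 3 + 1)) * (x * x + 2 * (1 - x) ^ (k ^ 3))
        ≤ (15 * (k : ℝ) ^ 3) * (49 / (k : ℝ) ^ 4) :=
          mul_le_mul hc hb (by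
            have : 0 ≤ (1 - x) ^ (k ^ 3) := pow_nonneg (by linarith) _
            positivity) (by positivity)
      _ = 735 / k := by field_simp; norm_num
      _ ≤ δ := by
          rw [div_le_iff₀ hkpos]
          rw [div_lt_iff₀ hδ0] at hkk
          nlinarith

lemma exists_small {A δ : ℝ≥0∞} (hA : A ≠ ⊤) (hδ : δ ≠ 0) :
    ∃ x : ℝ≥0∞, x ≠ 0 ∧ x ≠ ⊤ ∧ A * x ≤ δ := by
  refine ⟨min δ 1 / (A + 1), ?_, ?_, ?_⟩
  · rw [Ne, ENNReal.div_eq_zero_iff, not_or]
    exact ⟨by simp [hδ], by simp [hA]⟩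
  · refine (ENNReal.div_lt_top (ne_top_of_le_ne_top ENNReal.one_ne_top (min_le_right _ _))
      (by simp)).ne
  · calc A * (min δ 1 / (A + 1)) ≤ (A + 1) * (min δ 1 / (A + 1)) :=
          mul_le_mul_left le_self_add _
      _ = min δ 1 := ENNReal.mul_div_cancel (by simp) (by simp [hA])
      _ ≤ δ := min_le_left _ _

lemma exists_tend {A δ : ℝ≥0∞} (hA : A ≠ ⊤) (hδ : δ ≠ 0) {f : ℕ → ℝ≥0∞}
    (hf : Filter.Tendsto f Filter.atTop (𝓝 0)) : ∃ N, ∀ n, N ≤ n → A * f n ≤ δ := by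
  have h := ENNReal.Tendsto.const_mul (a := A) hf (Or.inr hA)
  rw [mul_zero] at h
  have := h.eventually (gt_mem_nhds (pos_iff_ne_zero.2 hδ))
  obtain ⟨N, hN⟩ := Filter.eventually_atTop.1 this
  exact ⟨N, fun n hn => (hN n hn).le⟩

end Crest.Agent.R154.Asm876
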