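import Crest.Agent.R154.AsmE_887
import Crest.Agent.R154.Num_869

/-! Row 154, ROAD 801 (helper887): abstract assembly, part F: sum over the windows, constants.
**`kap`: KAPPA' on lists from the two window lemmas and the thin slab.** -/

set_option autoImplicit false

namespace Crest.Agent.R154.Asm887

open scoped ENNReal Topology
open Filter
open Crest.Agent.R154.B5A Crest.Agent.R154.FP178
open Crest.Agent.R154.KWB419 (TT)

lemma small (A : ℝ≥0∞) (hA : A ≠ ⊤) (δ : ℝ≥0∞) (hδ : δ ≠ 0) :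
    ∃ x : ℝ≥0∞, x ≠ 0 ∧ x ≤ 1 ∧ A * x ≤ δ := by
  have hA1 : A + 1 ≠ ⊤ := by finiteness
  refine ⟨min 1 (δ / (A + 1)), (lt_min one_pos (ENNReal.div_pos hδ hA1)).ne', min_le_left _ _, ?_⟩
  calc A * min 1 (δ / (A + 1)) ≤ (A + 1) * (δ / (A + 1)) := by
        gcongr
        · exact le_self_add
        · exact min_le_right _ _
    _ ≤ δ := ENNReal.mul_div_le

lemma small_seq (A : ℝ≥0∞) (hA : A ≠ ⊤) (δ : ℝ≥0∞) (hδ : δ ≠ 0) (f : ℕ → ℝ≥0∞)
    (hf : Tendsto f atTop (𝓝 0)) : ∃ i, A * f i ≤ δ := by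
  obtain ⟨x, hx0, -, hx⟩ := small A hA δ hδ
  obtain ⟨i, hi⟩ := ((ENNReal.tendsto_nhds_zero.1 hf) x (pos_iff_ne_zero.2 hx0)).exists
  exact ⟨i, (by gcongr : A * f i ≤ A * x).trans hx⟩

lemma ov_tendsto {B G : Type*} [AddCommGroup G] (S : Sys B G) :
    Tendsto (fun i => ov S.Λ S.h i) atTop (𝓝 0) := by
  have h : ∑' k, tail S.Λ S.h k ≠ ⊤ := by
    rw [← sum_tail S.Λ S.h S.hΛ]; exact S.hmean
  have := ENNReal.tendsto_sum_nat_add (fun k => tail S.Λ S.h k) h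
  refine this.congr fun i => ?_
  unfold ov
  refine tsum_congr fun k => ?_
  rw [add_comm]

variable {BX BY G : Type*} [AddCommGroup G] (X : Sys BX G) (Y : Sys BY G)

open Classical in
theorem kap {C : ℝ≥0∞} {us : ℕ → ℝ≥0∞} (hC : C ≠ ⊤) (hus : Tendsto us atTop (𝓝 0))
    (h2 : H2 X Y C us) (h3 : H3 X Y C us) (h5 : H5 X Y) :
    ∀ ε : ℝ≥0∞, ε ≠ 0 → ∃ M : ℕ, ∀ m, M ≤ m → ∃ n0 : ℕ, ∀ n, n0 ≤ n → ∀ w : G,
      (∑' L : List BX, ∑' L' : List BY, if HT X.h L = n ∧ HT Y.h L' = n ∧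
        (∀ z k, (z, k) ∈ TT X.s X.h X.z L 0 0 → (z, k) ∈ TT Y.s Y.h Y.z L' w 0 → m < k) ∧
        (∃ z k, (z, k) ∈ TT X.s X.h X.z L 0 0 ∧ (z, k) ∈ TT Y.s Y.h Y.z L' w 0 ∧ k ≤ 2 * m)
        then LW X.Λ L * LW Y.Λ L' else 0) ≤ ε := by
  intro ε hε
  have h4 : ε / 4 ≠ 0 := (ENNReal.div_pos hε (by norm_num)).ne'
  have h168 : ε / 4 / 42 ≠ 0 := (ENNReal.div_pos h4 (by norm_num)).ne'
  have h8 : ε / 4 / 2 ≠ 0 := (ENNReal.div_pos h4 (by norm_num)).ne'
  obtain ⟨K, u0, hK, hu0, hu1, hKu⟩ := Num869.choose_Ku (ε / 4 / 42) h168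
  have hKt : (K : ℝ≥0∞) ≠ ⊤ := ENNReal.natCast_ne_top K
  set u : ℝ≥0∞ := u0 / 2 with hu
  have hu0' : u ≠ 0 := (ENNReal.div_pos hu0 (by norm_num)).ne'
  have hu1' : u < 1 := by
    calc u ≤ 1 / 2 := by rw [hu]; gcongr
      _ < 1 := by
        rw [one_div]; exact ENNReal.inv_lt_one.2 (by norm_num)
  -- `i0`
  have hov : Tendsto (fun i => ov X.Λ X.h i + ov Y.Λ Y.h i) atTop (𝓝 0) := by
    have := (ov_tendsto X).add (ov_tendsto Y)
    simpa using this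
  obtain ⟨i0, hi0⟩ := small_seq (21 * K * (2 + K)) (by finiteness) (ε / 4) h4 _ hov
  -- `lam`
  set P : ℝ≥0∞ := 21 * K * (2 * ((i0 + 1) * ((i0 + 1) * (i0 + 1)))) * C with hP
  have hPt : P ≠ ⊤ := by rw [hP]; finiteness
  obtain ⟨lam, hl0, hl1, hl⟩ := small P hPt (ε / 4 / 2) h8
  have hlt : lam ≠ ⊤ := ne_top_of_le_ne_top ENNReal.one_ne_top hl1
  -- `s`
  have hDt : ((i0 : ℝ≥0∞) + 1) * K / lam + 1 ≠ ⊤ := by
    refine ENNReal.add_ne_top.2 ⟨ENNReal.div_ne_top (by finiteness) hl0, ENNReal.one_ne_top⟩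
  obtain ⟨s, hs⟩ := small_seq (P * (((i0 : ℝ≥0∞) + 1) * K / lam + 1))
    (ENNReal.mul_ne_top hPt hDt) (ε / 4 / 2) h8 us hus
  -- `η`
  obtain ⟨η, hη0, -, hη⟩ := small (21 * K) (by finiteness) (ε / 4) h4
  obtain ⟨T, hT⟩ := h5 (s + 2 * i0) η hη0
  -- the constant
  have hWB : 21 * K * (WB X Y C lam u us i0 K s + η) ≤ ε := by
    have e : 21 * K * (WB X Y C lam u us i0 K s + η)
        = 21 * K * (2 + K) * (ov X.Λ X.h i0 + ov Y.Λ Y.h i0)
          + 21 * K * (2 * (1 - u) ^ K + u * u)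
          + (P * lam + P * (((i0 : ℝ≥0∞) + 1) * K / lam + 1) * us s) + 21 * K * η := by
      unfold WB Bd0
      rw [hP]
      simp only [div_eq_mul_inv]
      ring
    rw [e]
    have huu : u * u ≤ 2 * (2 * u0) ^ 2 := by
      calc u * u ≤ u0 * u0 := by
            have : u ≤ u0 := by rw [hu]; exact ENNReal.half_le_self
            gcongr
        _ = 1 * (u0 * u0) := (one_mul _).symm
        _ ≤ 8 * (u0 * u0) := by gcongr; norm_num
        _ = 2 * (2 * u0) ^ 2 := by ring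
    have f1 : 21 * K * (2 * (1 - u) ^ K + u * u) ≤ ε / 4 := by
      calc 21 * K * (2 * (1 - u) ^ K + u * u)
          ≤ 21 * K * (2 * (1 - u) ^ K + 2 * (2 * u0) ^ 2) := by
            gcongr 21 * K * (2 * (1 - u) ^ K + ?_)
        _ = 42 * (K * ((2 * u0) ^ 2 + (1 - u) ^ K)) := by ring
        _ ≤ 42 * (ε / 4 / 42) := by gcongr
        _ ≤ ε / 4 := ENNReal.mul_div_le
    have f2 : P * lam + P * (((i0 : ℝ≥0∞) + 1) * K / lam + 1) * us s ≤ ε / 4 := by
      calc _ ≤ ε / 4 / 2 + ε / 4 / 2 := add_le_add hl hs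
        _ = ε / 4 := ENNReal.add_halves _
    calc _ ≤ ε / 4 + ε / 4 + ε / 4 + ε / 4 := by gcongr
      _ = ε := by
        have : ε / 4 + ε / 4 + ε / 4 + ε / 4 = 4 * (ε / 4) := by ring
        rw [this, ENNReal.mul_div_cancel (by norm_num) (by norm_num)]
  refine ⟨(4 * K + 1) * (T + 2 * i0 + s + 1), fun m hm => ?_⟩
  set t := m / (4 * K + 1) with ht
  have ht1 : T + 2 * i0 + s + 1 ≤ t := by
    rw [ht, Nat.le_div_iff_mul_le (by omega), mul_comm]; exact hm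
  have ht2 : (4 * K + 1) * t ≤ m := Nat.mul_div_le m _
  have ht3 : m < (4 * K + 1) * (t + 1) := by
    rw [ht]; exact Nat.lt_mul_div_succ m (by omega)
  refine ⟨4 * m + 3 * i0 + 3 * t, fun n hn w => ?_⟩
  refine le_trans ?_ hWB
  have h2m : 2 * m < 4 * (4 * K + 1) * t := by nlinarith
  set Js := Finset.Ico (4 * K + 1) (4 * (4 * K + 1)) with hJs
  have hcard : (Js.card : ℝ≥0∞) ≤ 21 * K := by
    have : Js.card ≤ 21 * K := by rw [hJs, Nat.card_Ico]; omega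
    calc (Js.card : ℝ≥0∞) ≤ ((21 * K : ℕ) : ℝ≥0∞) := by exact_mod_cast this
      _ = 21 * K := by push_cast; rfl
  set SL : ℕ → List BX → List BY → Prop := fun j L L' =>
    ∃ y k, (j - 1) * t + 3 * t - s + 1 ≤ k ∧ k < (j - 1) * t + 3 * t - s + 1 + (s + 2 * i0) ∧
      (y, k) ∈ TT X.s X.h X.z L 0 0 ∧ (y, k) ∈ TT Y.s Y.h Y.z L' w 0 with hSL
  have key : ∀ L : List BX, ∀ L' : List BY, (if HT X.h L = n ∧ HT Y.h L' = n ∧
        (∀ z k, (z, k) ∈ TT X.s X.h X.z L 0 0 → (z, k) ∈ TT Y.s Y.h Y.z L' w 0 → m < k) ∧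
        (∃ z k, (z, k) ∈ TT X.s X.h X.z L 0 0 ∧ (z, k) ∈ TT Y.s Y.h Y.z L' w 0 ∧ k ≤ 2 * m)
        then LW X.Λ L * LW Y.Λ L' else 0)
      ≤ ∑ j ∈ Js, ((if HT X.h L = n ∧ HT Y.h L' = n ∧ EV X Y ((j - 1) * t) t i0 s w L L' then
          LW X.Λ L * LW Y.Λ L' else 0) +
        (if HT X.h L = n ∧ HT Y.h L' = n ∧ SL j L L' then LW X.Λ L * LW Y.Λ L' else 0)) := by
    intro L L'
    by_cases h : HT X.h L = n ∧ HT Y.h L' = n ∧
        (∀ z k, (z, k) ∈ TT X.s X.h X.z L 0 0 → (z, k) ∈ TT Y.s Y.h Y.z L' w 0 → m < k) ∧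
        (∃ z k, (z, k) ∈ TT X.s X.h X.z L 0 0 ∧ (z, k) ∈ TT Y.s Y.h Y.z L' w 0 ∧ k ≤ 2 * m)
    · rw [if_pos h]
      obtain ⟨hL, hL', hall, z, k, hz1, hz2, hk⟩ := h
      have hex : ∃ k, ∃ z, Con X Y w L L' z k := ⟨k, z, hz1, hz2⟩
      set k0 := Nat.find hex with hk0
      obtain ⟨z0, hz0⟩ := Nat.find_spec hex
      have hmin : ∀ y k', Con X Y w L L' y k' → k0 ≤ k' := fun y k' hc =>
        Nat.find_min' hex ⟨y, hc⟩
      have hk0m : m < k0 := hall z0 k0 hz0.1 hz0.2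
      have hk02 : k0 ≤ 2 * m := (hmin z k ⟨hz1, hz2⟩).trans hk
      set j := k0 / t with hj
      have htpos : 0 < t := by omega
      have hj1 : j * t ≤ k0 := Nat.div_mul_le_self k0 t
      have hj2 : k0 < (j + 1) * t := by
        rw [hj, mul_comm]; exact Nat.lt_mul_div_succ k0 htpos
      have hjl : 4 * K + 1 ≤ j := by
        rw [hj, Nat.le_div_iff_mul_le htpos]; omega
      have hju : j < 4 * (4 * K + 1) := by
        rw [hj, Nat.div_lt_iff_lt_mul htpos]; omega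
      have hja : (j - 1) * t + t = j * t := by
        have hjj : j - 1 + 1 = j := by omega
        calc (j - 1) * t + t = (j - 1 + 1) * t := by ring
          _ = j * t := by rw [hjj]
      have hja2 : (j - 1) * t + 2 * t = (j + 1) * t := by
        have : (j + 1) * t = j * t + t := by ring
        omega
      refine le_trans ?_ (Finset.single_le_sum (f := fun j =>
        ((if HT X.h L = n ∧ HT Y.h L' = n ∧ EV X Y ((j - 1) * t) t i0 s w L L' then
          LW X.Λ L * LW Y.Λ L' else 0) +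
        (if HT X.h L = n ∧ HT Y.h L' = n ∧ SL j L L' then LW X.Λ L * LW Y.Λ L' else 0)))
        (fun _ _ => zero_le) (Finset.mem_Ico.2 ⟨hjl, hju⟩))
      by_cases hsl : SL j L L'
      · refine le_trans ?_ le_add_self
        rw [if_pos ⟨hL, hL', hsl⟩]
      · refine le_trans ?_ le_self_add
        rw [if_pos]
        refine ⟨hL, hL', ⟨z0, k0, by omega, by omega, hz0⟩, fun y k' hc => ?_,
          fun y k' hc hsl' => hsl ⟨y, k', hsl'.1, hsl'.2, hc.1, hc.2⟩⟩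
        have := hmin y k' hc
        omega
    · rw [if_neg h]; exact zero_le
  calc _ ≤ ∑' L : List BX, ∑' L' : List BY, ∑ j ∈ Js,
        ((if HT X.h L = n ∧ HT Y.h L' = n ∧ EV X Y ((j - 1) * t) t i0 s w L L' then
          LW X.Λ L * LW Y.Λ L' else 0) +
        (if HT X.h L = n ∧ HT Y.h L' = n ∧ SL j L L' then LW X.Λ L * LW Y.Λ L' else 0)) :=
        ENNReal.tsum_le_tsum fun L => ENNReal.tsum_le_tsum fun L' => key L L'
    _ = ∑ j ∈ Js, (∑' L : List BX, ∑' L' : List BY,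
          (if HT X.h L = n ∧ HT Y.h L' = n ∧ EV X Y ((j - 1) * t) t i0 s w L L' then
          LW X.Λ L * LW Y.Λ L' else 0) + ∑' L : List BX, ∑' L' : List BY,
        (if HT X.h L = n ∧ HT Y.h L' = n ∧ SL j L L' then LW X.Λ L * LW Y.Λ L' else 0)) := by
        simp_rw [tf, ENNReal.tsum_add]
    _ ≤ ∑ j ∈ Js, (WB X Y C lam u us i0 K s + η) := by
        refine Finset.sum_le_sum fun j hj => ?_
        rw [hJs, Finset.mem_Ico] at hj
        have hjt : (j - 1) * t ≤ 4 * m := by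
          calc (j - 1) * t ≤ (4 * (4 * K + 1)) * t := Nat.mul_le_mul_right t (by omega)
            _ = 4 * ((4 * K + 1) * t) := by ring
            _ ≤ 4 * m := Nat.mul_le_mul_left 4 ht2
        refine add_le_add ?_ ?_
        · refine win X Y h2 h3 hl0 hlt hu0' hu1' ((j - 1) * t) t i0 s K n (by omega) ?_ ?_ w
          · calc K * (4 * t) = (4 * K) * t := by ring
              _ ≤ (j - 1) * t := Nat.mul_le_mul_right t (by omega)
          · omega
        · exact hT _ (by omega) n w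
    _ = Js.card * (WB X Y C lam u us i0 K s + η) := by
        rw [Finset.sum_const, nsmul_eq_mul]
    _ ≤ _ := by gcongr

end Crest.Agent.R154.Asm887
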