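import Crest.Agent.R154.AsmE_942

/-! Row 154, ROAD 801 (helper942): assembly, part F: the window bound. -/

set_option autoImplicit false

namespace Crest.Agent.R154.Asm942

open scoped ENNReal
open Crest.Agent.R154.B5A Crest.Agent.R154.FP178

section win

variable {BX BY G : Type*} [AddCommGroup G]
variable (ΛX : BX → ℝ≥0∞) (hX : BX → ℕ) (zX : BX → G) (sX : BX → Set (G × ℕ))
variable (ΛY : BY → ℝ≥0∞) (hY : BY → ℕ) (zY : BY → G) (sY : BY → Set (G × ℕ))

/-- price of a local window -/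
noncomputable def Vl (C lam u : ℝ≥0∞) (us : ℕ → ℝ≥0∞) (s i0 : ℕ) : ℝ≥0∞ :=
  ((i0 + 1 : ℕ) : ℝ≥0∞) * ((i0 + 1 : ℕ) : ℝ≥0∞) *
    (C * (lam + (((i0 + 1 : ℕ) : ℝ≥0∞) * u⁻¹) * us s / lam + us s))

open Classical in
/-- **one window** -/
theorem window (h1X : ∀ b, 1 ≤ hX b) (h1Y : ∀ b, 1 ≤ hY b) (hΛX : ∑' b, ΛX b = 1)
    (hΛY : ∑' b, ΛY b = 1) (hUX : ∀ n, U ΛX hX n ≤ 1) (hUY : ∀ n, U ΛY hY n ≤ 1)
    (us : ℕ → ℝ≥0∞) (C : ℝ≥0∞) (H2 : H2L ΛX hX zX sX ΛY hY zY sY us C)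
    (H3 : H3L ΛX hX zX sX ΛY hY zY sY us C)
    (A T A' T' i0 n s lo hi J : ℕ) (hn : A + i0 + T ≤ n) (hn' : A' + i0 + T' ≤ n)
    (hAA : A + i0 ≤ A') (hlo : A' + i0 + s ≤ lo) (hend : A + i0 + (T + i0) ≤ A' + T')
    (hhi : hi + s ≤ A + T) (hJ : J * (T + i0) ≤ A) (hJ' : J * (T' + i0) ≤ A')
    (u q : ℝ≥0∞) (huq : u + q = 1) (hu0 : u ≠ 0) (hu1 : u < 1) (lam : ℝ≥0∞) (hl0 : lam ≠ 0)
    (hl : lam ≠ ⊤) (w : G) (P : List BX → List BY → Prop)
    (hP : ∀ L1 L2 L3 M1 M2 M3, fp hX A L1 → fp hX T L2 → HT hX L1 ≤ A + i0 →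
      HT hX L2 ≤ T + i0 → fp hY A' M1 → fp hY T' M2 → HT hY M1 ≤ A' + i0 → HT hY M2 ≤ T' + i0 →
      P (L1 ++ (L2 ++ L3)) (M1 ++ (M2 ++ M3)) →
      Q hX zX sX hY zY sY lo hi L2 M2 (HT hX L1) (HT hY M1) (w + Dp zY M1 - Dp zX L1)) :
    ∑' LX, ∑' LY, (if HT hX LX = n ∧ HT hY LY = n ∧ P LX LY then LW ΛX LX * LW ΛY LY else 0)
      ≤ ((((i0 + 1 : ℕ) : ℝ≥0∞) * ((i0 + 1 : ℕ) : ℝ≥0∞) * Vl C lam u us s i0
            + (q ^ J + J * ∑' k, tail ΛX hX (i0 + k)))
          + (((i0 + 1 : ℕ) : ℝ≥0∞) * ((i0 + 1 : ℕ) : ℝ≥0∞) * Vl C lam u us s i0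
            + (q ^ J + J * ∑' k, tail ΛY hY (i0 + k)))
          + u * u)
        + (2 * ∑' k, tail ΛY hY (i0 + k) + 2 * ∑' k, tail ΛX hX (i0 + k)) := by
  obtain ⟨thX, GX, EX, bX, x1, x2, x3, x4, x5⟩ :=
    thr ΛX hX zX h1X hΛX hUX T i0 u q huq hu0 hu1 J A hJ
  obtain ⟨thY, GY, EY, bY, y1, y2, y3, y4, y5⟩ :=
    thr ΛY hY zY h1Y hΛY hUY T' i0 u q huq hu0 hu1 J A' hJ'
  refine (dec2 ΛX hX ΛY hY h1X h1Y hΛX.le hΛY.le hUX hUY A T A' T' i0 n hn hn' P
    (fun L1 M1 L2 M2 => Q hX zX sX hY zY sY lo hi L2 M2 (HT hX L1) (HT hY M1)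
      (w + Dp zY M1 - Dp zX L1)) hP).trans ?_
  gcongr
  -- the three classes
  set KX : ℕ → ℕ → G → ℝ≥0∞ := fun a a' x => KK ΛX hX ΛY hY T T' i0 (fun L M =>
    Q hX zX sX hY zY sY lo hi L M a a' x ∧ thX ≤ F ΛX hX zX T (HT hX L - T) (Dp zX L)) with hKX
  set KY : ℕ → ℕ → G → ℝ≥0∞ := fun a a' x => KK ΛX hX ΛY hY T T' i0 (fun L M =>
    Q hX zX sX hY zY sY lo hi L M a a' x ∧ thY ≤ F ΛY hY zY T' (HT hY M - T') (Dp zY M)) with hKY
  have hKX1 : ∀ a a' x, KX a a' x ≤ 1 := fun a a' x =>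
    KK_le_one ΛX hX ΛY hY h1X h1Y hΛX.le hΛY.le T T' i0 _
  have hKY1 : ∀ a a' x, KY a a' x ≤ 1 := fun a a' x =>
    KK_le_one ΛX hX ΛY hY h1X h1Y hΛX.le hΛY.le T T' i0 _
  have hinner : ∀ (L1 : List BX) (M1 : List BY),
      (∑' L2, (if fp hX T L2 ∧ HT hX L2 ≤ T + i0 then LW ΛX L2 *
        ∑' M2, (if fp hY T' M2 ∧ HT hY M2 ≤ T' + i0 then LW ΛY M2 *
          (if Q hX zX sX hY zY sY lo hi L2 M2 (HT hX L1) (HT hY M1)
            (w + Dp zY M1 - Dp zX L1) then 1 else 0) else 0) else 0))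
      ≤ (KX (HT hX L1) (HT hY M1) (w + Dp zY M1 - Dp zX L1)
        + KY (HT hX L1) (HT hY M1) (w + Dp zY M1 - Dp zX L1)) + u * u := by
    intro L1 M1
    refine (KK_split ΛX hX ΛY hY T T' i0 (fun L2 M2 => Q hX zX sX hY zY sY lo hi L2 M2
      (HT hX L1) (HT hY M1) (w + Dp zY M1 - Dp zX L1))
      (fun L => thX ≤ F ΛX hX zX T (HT hX L - T) (Dp zX L))
      (fun M => thY ≤ F ΛY hY zY T' (HT hY M - T') (Dp zY M))).trans ?_
    gcongr
    exact KK_nn ΛX hX zX ΛY hY zY T T' i0 thX thY u x1 y1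
  calc _ ≤ ∑' L1, (if fp hX A L1 ∧ HT hX L1 ≤ A + i0 then LW ΛX L1 *
          ∑' M1, (if fp hY A' M1 ∧ HT hY M1 ≤ A' + i0 then LW ΛY M1 *
            ((KX (HT hX L1) (HT hY M1) (w + Dp zY M1 - Dp zX L1)
            + KY (HT hX L1) (HT hY M1) (w + Dp zY M1 - Dp zX L1)) + u * u) else 0) else 0) := by
        refine ENNReal.tsum_le_tsum fun L1 => ?_
        by_cases h : fp hX A L1 ∧ HT hX L1 ≤ A + i0
        · rw [if_pos h, if_pos h]
          refine mul_le_mul_right ?_ _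
          refine ENNReal.tsum_le_tsum fun M1 => ?_
          by_cases h' : fp hY A' M1 ∧ HT hY M1 ≤ A' + i0
          · rw [if_pos h', if_pos h']
            exact mul_le_mul_right (hinner L1 M1) _
          · rw [if_neg h']; exact zero_le
        · rw [if_neg h]; exact zero_le
    _ = (∑' L1, (if fp hX A L1 ∧ HT hX L1 ≤ A + i0 then LW ΛX L1 *
          ∑' M1, (if fp hY A' M1 ∧ HT hY M1 ≤ A' + i0 then LW ΛY M1 *
            KX (HT hX L1) (HT hY M1) (w + Dp zY M1 - Dp zX L1) else 0) else 0))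
        + (∑' L1, (if fp hX A L1 ∧ HT hX L1 ≤ A + i0 then LW ΛX L1 *
          ∑' M1, (if fp hY A' M1 ∧ HT hY M1 ≤ A' + i0 then LW ΛY M1 *
            KY (HT hX L1) (HT hY M1) (w + Dp zY M1 - Dp zX L1) else 0) else 0))
        + ∑' L1, (if fp hX A L1 ∧ HT hX L1 ≤ A + i0 then LW ΛX L1 *
          ∑' M1, (if fp hY A' M1 ∧ HT hY M1 ≤ A' + i0 then LW ΛY M1 * (u * u) else 0) else 0) := by
        rw [← ENNReal.tsum_add, ← ENNReal.tsum_add]
        refine tsum_congr fun L1 => ?_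
        by_cases h : fp hX A L1 ∧ HT hX L1 ≤ A + i0
        · simp only [if_pos h]
          rw [← mul_add, ← mul_add, ← ENNReal.tsum_add, ← ENNReal.tsum_add]
          congr 1
          refine tsum_congr fun M1 => ?_
          by_cases h' : fp hY A' M1 ∧ HT hY M1 ≤ A' + i0
          · simp only [if_pos h']; ring
          · simp only [if_neg h', add_zero]
        · simp only [if_neg h, add_zero]
    _ ≤ _ := by
        refine add_le_add (add_le_add ?_ ?_) ?_
        · -- X local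
          refine (group2 ΛX hX zX ΛY hY zY A A' i0 w KX).trans ?_
          exact smooth2 i0 (F ΛX hX zX A) (F ΛY hY zY A') (fun j j' x => KX (A + j) (A' + j') x)
            (fun z' => Equiv.subLeft (w + z')) GX (Vl C lam u us s i0) _ bX
            (F_sum ΛX hX zX h1X hΛX.le A) (F_sum ΛY hY zY h1Y hΛY.le A')
            (fun j j' x => hKX1 _ _ _) x5 x4 (fun j j' hj hj' μ hμ1 hμ2 =>
              locX_V ΛX hX zX sX ΛY hY zY sY us C H2 s lo hi T T' i0 (A + j) (A' + j')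
                (by omega) (by omega) (by omega) thX GX _ lam hl0 hl EX x2 x3 μ hμ1 hμ2)
        · -- Y local
          refine (group2 ΛX hX zX ΛY hY zY A A' i0 w KY).trans ?_
          have e1 : ∑ j ∈ Finset.range (i0 + 1), ∑ j' ∈ Finset.range (i0 + 1), ∑' z, ∑' z',
              F ΛX hX zX A j z * (F ΛY hY zY A' j' z' * KY (A + j) (A' + j') (w + z' - z))
              = ∑ j' ∈ Finset.range (i0 + 1), ∑ j ∈ Finset.range (i0 + 1), ∑' z', ∑' z,
              F ΛY hY zY A' j' z' * (F ΛX hX zX A j z * KY (A + j) (A' + j')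
                (((Equiv.addLeft w).trans (Equiv.subRight z)) z')) := by
            rw [Finset.sum_comm]
            refine Finset.sum_congr rfl fun j' _ => Finset.sum_congr rfl fun j _ => ?_
            rw [ENNReal.tsum_comm]
            refine tsum_congr fun z' => tsum_congr fun z => ?_
            have : ((Equiv.addLeft w).trans (Equiv.subRight z)) z' = w + z' - z := rfl
            rw [this]; ring
          rw [e1]
          exact smooth2 i0 (F ΛY hY zY A') (F ΛX hX zX A) (fun j' j x => KY (A + j) (A' + j') x)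
            (fun z => (Equiv.addLeft w).trans (Equiv.subRight z)) GY (Vl C lam u us s i0) _ bY
            (F_sum ΛY hY zY h1Y hΛY.le A') (F_sum ΛX hX zX h1X hΛX.le A)
            (fun j j' x => hKY1 _ _ _) y5 y4 (fun j' j hj' hj μ hμ1 hμ2 =>
              locY_V ΛX hX zX sX ΛY hY zY sY us C H3 s lo hi T T' i0 (A + j) (A' + j')
                (by omega) (by omega) (by omega) thY GY _ lam hl0 hl EY y2 y3 μ hμ1 hμ2)
        · -- both non-local
          calc _ ≤ ∑' L1, (if fp hX A L1 then LW ΛX L1 else 0) *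
                (∑' M1, (if fp hY A' M1 then LW ΛY M1 else 0) * (u * u)) := by
                refine ENNReal.tsum_le_tsum fun L1 => ?_
                by_cases h : fp hX A L1 ∧ HT hX L1 ≤ A + i0
                · rw [if_pos h, if_pos h.1]
                  refine mul_le_mul_right ?_ _
                  refine ENNReal.tsum_le_tsum fun M1 => ?_
                  by_cases h' : fp hY A' M1 ∧ HT hY M1 ≤ A' + i0
                  · rw [if_pos h', if_pos h'.1]
                  · rw [if_neg h']; exact zero_le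
                · rw [if_neg h]; exact zero_le
            _ = (∑' L1, (if fp hX A L1 then LW ΛX L1 else 0)) *
                ((∑' M1, (if fp hY A' M1 then LW ΛY M1 else 0)) * (u * u)) := by
                rw [ENNReal.tsum_mul_right, ENNReal.tsum_mul_right]
            _ ≤ 1 * (1 * (u * u)) := by
                gcongr
                · exact sum_FP ΛX hX h1X hΛX.le A
                · exact sum_FP ΛY hY h1Y hΛY.le A'
            _ = u * u := by rw [one_mul, one_mul]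

end win

end Crest.Agent.R154.Asm942
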