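import Crest.Agent.R154.AsmE_97

/-! Row 154 (helper97), ROAD 801: sum over the windows, choice of the constants. -/

set_option autoImplicit false

namespace Crest.Agent.R154.Asm97

open scoped ENNReal Topology
open Filter
open Crest.Agent.R154.B5A Crest.Agent.R154.FP178

section quant
variable {B G : Type*} [AddCommGroup G] (Λ : B → ℝ≥0∞) (ht : B → ℕ) (z : B → G)

open Classical in
lemma quant (h1 : ∀ b, 1 ≤ ht b) (hΛ : ∑' b, Λ b = 1) {u : ℝ≥0∞} (hu0 : u ≠ 0) (hu1 : u < 1)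
    (τ : ℕ) : ∃ (th : ℝ≥0∞) (E : Finset G), th * E.card ≤ 1 ∧
      (∀ h y, th ≤ p Λ ht z τ (h, y) → y ∈ E) ∧
      S Λ ht τ (fun P => ind (p Λ ht z τ (HT ht P, Dp z P) < th)) ≤ u ∧
      S Λ ht τ (fun P => if th < p Λ ht z τ (HT ht P, Dp z P) then 1 else 0) ≤ 1 - u := by
  have hp := p_sum Λ ht z h1 hΛ τ
  obtain ⟨th, hth0, hth1, hlt, hle⟩ := Dens616.quantile (p Λ ht z τ) hp hu0 hu1
  have hfin := Dens616.finite_local (p Λ ht z τ) (by rw [hp]; exact ENNReal.one_ne_top) hth0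
  refine ⟨th, hfin.toFinset.image Prod.snd, ?_, ?_, ?_, ?_⟩
  · have h2 := Dens616.card_mul_le (p Λ ht z τ) th hfin.toFinset
      (fun x hx => (hfin.mem_toFinset.1 hx))
    rw [hp] at h2
    calc th * ((hfin.toFinset.image Prod.snd).card : ℝ≥0∞) ≤ th * (hfin.toFinset.card : ℝ≥0∞) := by
          gcongr
          exact Finset.card_image_le
      _ = (hfin.toFinset.card : ℝ≥0∞) * th := mul_comm _ _
      _ ≤ 1 := h2
  · intro h y hy
    exact Finset.mem_image.2 ⟨(h, y), hfin.mem_toFinset.2 hy, rfl⟩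
  · rw [S_push Λ ht z τ (fun x => ind (p Λ ht z τ x < th))]
    refine le_trans (le_of_eq (tsum_congr fun x => ?_)) hlt
    by_cases h : p Λ ht z τ x < th
    · rw [ind_pos h, if_pos h, mul_one]
    · rw [ind_neg h, if_neg h, mul_zero]
  · rw [S_push Λ ht z τ (fun x => if th < p Λ ht z τ x then 1 else 0)]
    refine ENNReal.le_sub_of_add_le_right (ne_top_of_lt hu1) ?_
    calc _ ≤ (∑' x, p Λ ht z τ x * (if th < p Λ ht z τ x then 1 else 0))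
          + ∑' x, (if p Λ ht z τ x ≤ th then p Λ ht z τ x else 0) := add_le_add le_rfl hle
      _ = ∑' x, p Λ ht z τ x := by
          rw [← ENNReal.tsum_add]
          refine tsum_congr fun x => ?_
          by_cases h : th < p Λ ht z τ x
          · rw [if_pos h, if_neg (not_le.2 h), mul_one, add_zero]
          · rw [if_neg h, if_pos (not_lt.1 h), mul_zero, zero_add]
      _ = 1 := hp

lemma bad' (h1 : ∀ b, 1 ≤ ht b) (hΛ : ∑' b, Λ b = 1) (τ i0 : ℕ) (th q δ : ℝ≥0∞)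
    (hq : S Λ ht τ (fun P => by classical exact if th < p Λ ht z τ (HT ht P, Dp z P) then 1 else 0)
      ≤ q)
    (hq1 : q ≤ 1) (hδ : ov Λ ht i0 τ ≤ δ) (J a : ℕ) (ha : J * (τ + i0) ≤ a) :
      S Λ ht a (fun A => ind (¬ Sm Λ ht z τ i0 th J A)) ≤ q ^ J + J * δ := by
  classical
  refine le_trans (le_of_eq ?_) (bad_le Λ ht z h1 hΛ τ i0 th q δ hq hq1 hδ J a ha)
  congr 1
  funext A
  by_cases h : Sm Λ ht z τ i0 th J A
  · rw [ind_neg (fun h' => h' h), if_pos h]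
  · rw [ind_pos h, if_neg h]

end quant

variable {BX BY G : Type*} [AddCommGroup G]
  (ΛX : BX → ℝ≥0∞) (hX : BX → ℕ) (zX : BX → G) (TX : List BX → G → ℕ → Set (G × ℕ))
  (ΛY : BY → ℝ≥0∞) (hY : BY → ℕ) (zY : BY → G) (TY : List BY → G → ℕ → Set (G × ℕ))

/-- double crossing sum -/
noncomputable def D (n : ℕ) (F : List BX → List BY → ℝ≥0∞) : ℝ≥0∞ :=
  CR ΛX hX n (fun L => CR ΛY hY n (fun L' => F L L'))

lemma D_mono (n : ℕ) {F F' : List BX → List BY → ℝ≥0∞} (h : ∀ L L', F L L' ≤ F' L L') :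
    D ΛX hX ΛY hY n F ≤ D ΛX hX ΛY hY n F' :=
  CR_mono _ _ _ fun L _ => CR_mono _ _ _ fun L' _ => h L L'

lemma D_add (n : ℕ) (F F' : List BX → List BY → ℝ≥0∞) :
    D ΛX hX ΛY hY n (fun L L' => F L L' + F' L L') = D ΛX hX ΛY hY n F + D ΛX hX ΛY hY n F' := by
  simp only [D, CR_add]

lemma D_sum {ι : Type*} (s : Finset ι) (n : ℕ) (F : ι → List BX → List BY → ℝ≥0∞) :
    D ΛX hX ΛY hY n (fun L L' => ∑ i ∈ s, F i L L') = ∑ i ∈ s, D ΛX hX ΛY hY n (F i) := by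
  classical
  induction s using Finset.induction_on with
  | empty => simp [D, CR]
  | insert i s hi ih =>
    simp only [Finset.sum_insert hi]
    rw [D_add, ih]

open Classical in
lemma D_eq (n : ℕ) (Ev : List BX → List BY → Prop) :
    ∑' L, ∑' L', (if HT hX L = n ∧ HT hY L' = n ∧ Ev L L' then LW ΛX L * LW ΛY L' else 0)
      = D ΛX hX ΛY hY n (fun L L' => ind (Ev L L')) := by
  rw [D, CR]
  refine tsum_congr fun L => ?_
  by_cases hL : HT hX L = n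
  · rw [if_pos hL, CR, ← ENNReal.tsum_mul_left]
    refine tsum_congr fun L' => ?_
    by_cases hL' : HT hY L' = n
    · by_cases hE : Ev L L'
      · rw [if_pos ⟨hL, hL', hE⟩, if_pos hL', ind_pos hE, mul_one]
      · rw [if_neg (fun h => hE h.2.2), if_pos hL', ind_neg hE, mul_zero, mul_zero]
    · rw [if_neg (fun h => hL' h.2.1), if_neg hL', mul_zero]
  · rw [if_neg hL]
    simp [hL]

/-- one window, thresholds chosen -/
theorem window' (hXX : Tr hX zX TX) (hYY : Tr hY zY TY) (h1X : ∀ b, 1 ≤ hX b)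
    (h1Y : ∀ b, 1 ≤ hY b) (hΛX : ∑' b, ΛX b = 1) (hΛY : ∑' b, ΛY b = 1)
    (hUX : ∀ n, U ΛX hX n ≤ 1) (hUY : ∀ n, U ΛY hY n ≤ 1) {C : ℝ≥0∞} {us : ℕ → ℕ → ℝ≥0∞}
    (h2 : H2 ΛX hX zX TX ΛY hY TY C us) (h3 : H3 ΛX hX TX ΛY hY zY TY C us)
    (a τ i0 J s lo hi n : ℕ) (lam u δ : ℝ≥0∞)
    (hJ : J * (τ + i0) ≤ a) (hu0 : u ≠ 0) (hu : u < 1)
    (hδX : ∀ a, ov ΛX hX i0 a ≤ δ) (hδY : ∀ a, ov ΛY hY i0 a ≤ δ)
    (hl0 : lam ≠ 0) (hlt : lam ≠ ⊤)
    (hlo : a + i0 + s ≤ lo) (hhi : hi + s ≤ a + τ) (hn : a + i0 + τ ≤ n) (w : G)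
    (F : List BX → List BY → ℝ≥0∞) (hF1 : ∀ L L', F L L' ≤ 1)
    (hF : ∀ A P R A' P' R', fp hX a A → fp hX τ P → fp hY a A' → fp hY τ P' →
      HT hX A ≤ a + i0 → HT hY A' ≤ a + i0 →
      F (A ++ (P ++ R)) (A' ++ (P' ++ R')) ≤ ind (W hX zX TX hY zY TY a τ i0 lo hi w A P A' P')) :
    D ΛX hX ΛY hY n F ≤
      4 * δ + 2 * ((1 - u) ^ J + J * δ) + u ^ 2
      + (((i0 + 1 : ℕ) : ℝ≥0∞) ^ 4 * (C * (lam + (J * (i0 + 1 : ℕ)) * us i0 s / lam + us i0 s))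
      + ((i0 + 1 : ℕ) : ℝ≥0∞) ^ 4 *
        (C * (lam + (J * (i0 + 1 : ℕ)) * us (2 * i0) s / lam + us (2 * i0) s))) := by
  obtain ⟨thX, EX, x1, x2, x3, x4⟩ := quant ΛX hX zX h1X hΛX hu0 hu τ
  obtain ⟨thY, EY, y1, y2, y3, y4⟩ := quant ΛY hY zY h1Y hΛY hu0 hu τ
  exact window ΛX hX zX TX ΛY hY zY TY hXX hYY h1X h1Y hΛX hΛY hUX hUY h2 h3 a τ i0 J s lo hi n
    thX thY lam u δ _ EX EY hJ hu.le x1 x2 y1 y2 x3 y3
    (bad' ΛX hX zX h1X hΛX τ i0 thX (1 - u) δ x4 tsub_le_self (hδX τ) J a hJ)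
    (bad' ΛY hY zY h1Y hΛY τ i0 thY (1 - u) δ y4 tsub_le_self (hδY τ) J a hJ)
    hδX hδY hl0 hlt hlo hhi hn w F hF1 hF

end Crest.Agent.R154.Asm97
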