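import Crest.Agent.R154.LstA_2

/-! Row 154, ROAD 801 (helper2): density (1) on lists, quantile. -/

set_option autoImplicit false

namespace Crest.Agent.R154.Lst2

open Crest.Agent.R154.B5A
open scoped ENNReal Classical

theorem smooth {H : Type*} [AddCommGroup H] (hg : H → ℕ) (q : ℕ → H → ℝ≥0∞) (S i0 : ℕ)
    (th r e : ℝ≥0∞) (hq1 : ∀ T, ∑' v, q T v ≤ 1)
    (hren : ∀ T, S ≤ T → ∀ v, q T v ≤ ∑' y, q S y * q (T - hg y) (v - y))
    (hS : ∀ y, q S y ≠ 0 → S ≤ hg y)
    (hr : ∑' y, (if hg y ≤ S + i0 ∧ th < q S y then q S y else 0) ≤ r)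
    (he : ∑' y, (if S + i0 < hg y then q S y else 0) ≤ e) (N : ℕ) :
    ∀ T, N * (S + i0) ≤ T → ∃ g b : H → ℝ≥0∞, (∀ v, q T v ≤ g v + b v) ∧
      (∀ v, g v ≤ (i0 + 1 : ℕ) * th * ∑ k ∈ Finset.range N, r ^ k) ∧
      ∑' v, b v ≤ r ^ N + e * ∑ k ∈ Finset.range N, r ^ k := by
  induction N with
  | zero =>
    intro T _
    exact ⟨0, q T, fun v => by simp, fun v => by simp, by simpa using hq1 T⟩
  | succ N ih =>
    intro T hT
    choose! g b h1 h2 h3 using ih
    have hST : S ≤ T := by nlinarith
    have hsub : ∀ y, hg y ≤ S + i0 → N * (S + i0) ≤ T - hg y := by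
      intro y hy
      have : N * (S + i0) + (S + i0) ≤ T := by linarith [hT, add_mul N 1 (S + i0)]
      omega
    have hshift : ∀ (f : H → ℝ≥0∞) (y : H), ∑' v, f (v - y) = ∑' v, f v := fun f y =>
      (Equiv.subRight y).tsum_eq f
    have hshift' : ∀ (f : H → ℝ≥0∞) (v : H), ∑' y, f (v - y) = ∑' y, f y := fun f v =>
      (Equiv.subLeft v).tsum_eq f
    refine ⟨fun v => (i0 + 1 : ℕ) * th +
        ∑' y, (if hg y ≤ S + i0 ∧ th < q S y then q S y * g (T - hg y) (v - y) else 0),
      fun v => ∑' y, (if S + i0 < hg y then q S y * q (T - hg y) (v - y) else 0) +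
        ∑' y, (if hg y ≤ S + i0 ∧ th < q S y then q S y * b (T - hg y) (v - y) else 0),
      fun v => ?_, fun v => ?_, ?_⟩
    · have hlow : ∑' y, (if hg y ≤ S + i0 ∧ q S y ≤ th then q S y * q (T - hg y) (v - y) else 0)
          ≤ (i0 + 1 : ℕ) * th := by
        calc _ ≤ ∑' y, ∑ i ∈ Finset.range (i0 + 1), th * q (T - (S + i)) (v - y) := by
              refine ENNReal.tsum_le_tsum fun y => ?_
              split_ifs with h
              · by_cases h0 : q S y = 0
                · simp [h0]
                · have := hS y h0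
                  have hi : hg y - S ∈ Finset.range (i0 + 1) := Finset.mem_range.2 (by omega)
                  refine le_trans ?_ (Finset.single_le_sum
                    (f := fun i => th * q (T - (S + i)) (v - y)) (fun _ _ => zero_le) hi)
                  have e1 : S + (hg y - S) = hg y := by omega
                  simp only [e1]
                  exact mul_le_mul' h.2 le_rfl
              · exact zero_le
          _ = ∑ i ∈ Finset.range (i0 + 1), th * ∑' y, q (T - (S + i)) (v - y) := by
              rw [Summable.tsum_finsetSum (fun _ _ => ENNReal.summable)]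
              refine Finset.sum_congr rfl fun i _ => ?_
              rw [ENNReal.tsum_mul_left]
          _ ≤ ∑ i ∈ Finset.range (i0 + 1), th * 1 := by
              refine Finset.sum_le_sum fun i _ => mul_le_mul' le_rfl ?_
              rw [hshift' (q (T - (S + i))) v]; exact hq1 _
          _ = _ := by simp
      calc q T v ≤ ∑' y, q S y * q (T - hg y) (v - y) := hren T hST v
        _ ≤ ∑' y, ((if hg y ≤ S + i0 ∧ q S y ≤ th then q S y * q (T - hg y) (v - y) else 0)
            + (if hg y ≤ S + i0 ∧ th < q S y then q S y * g (T - hg y) (v - y) else 0)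
            + ((if S + i0 < hg y then q S y * q (T - hg y) (v - y) else 0)
            + (if hg y ≤ S + i0 ∧ th < q S y then q S y * b (T - hg y) (v - y) else 0))) := by
            refine ENNReal.tsum_le_tsum fun y => ?_
            by_cases hy : hg y ≤ S + i0
            · by_cases ht : th < q S y
              · have h4 := h1 (T - hg y) (hsub y hy) (v - y)
                simp only [hy, ht, not_le.2 ht, not_lt.2 hy, and_true, and_false, if_true, if_false,
                  zero_add]
                rw [← mul_add]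
                exact mul_le_mul' le_rfl h4
              · simp [hy, ht, not_lt.1 ht, not_lt.2 hy]
            · simp [hy, not_le.1 hy]
        _ ≤ _ := by
            rw [ENNReal.tsum_add, ENNReal.tsum_add, ENNReal.tsum_add]
            exact add_le_add (add_le_add hlow le_rfl) le_rfl
    · calc _ ≤ (i0 + 1 : ℕ) * th + ∑' y, (if hg y ≤ S + i0 ∧ th < q S y then q S y else 0) *
            ((i0 + 1 : ℕ) * th * ∑ k ∈ Finset.range N, r ^ k) := by
            refine add_le_add le_rfl (ENNReal.tsum_le_tsum fun y => ?_)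
            split_ifs with h
            · exact mul_le_mul' le_rfl (h2 _ (hsub y h.1) _)
            · simp
        _ ≤ (i0 + 1 : ℕ) * th + r * ((i0 + 1 : ℕ) * th * ∑ k ∈ Finset.range N, r ^ k) := by
            rw [ENNReal.tsum_mul_right]; gcongr
        _ = _ := by
            rw [Finset.sum_range_succ', pow_zero, mul_add, mul_one, add_comm]
            congr 1
            simp_rw [pow_succ]
            rw [← Finset.sum_mul]
            ring
    · rw [ENNReal.tsum_add]
      have e1 : ∑' v, ∑' y, (if S + i0 < hg y then q S y * q (T - hg y) (v - y) else 0) ≤ e := by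
        rw [ENNReal.tsum_comm]
        refine le_trans (ENNReal.tsum_le_tsum fun y => ?_) he
        split_ifs with h
        · rw [ENNReal.tsum_mul_left, hshift (q (T - hg y)) y]
          calc _ ≤ q S y * 1 := mul_le_mul' le_rfl (hq1 _)
            _ = _ := mul_one _
        · simp
      have e2 : ∑' v, ∑' y, (if hg y ≤ S + i0 ∧ th < q S y then q S y * b (T - hg y) (v - y) else 0)
          ≤ r * (r ^ N + e * ∑ k ∈ Finset.range N, r ^ k) := by
        rw [ENNReal.tsum_comm]
        calc _ ≤ ∑' y, (if hg y ≤ S + i0 ∧ th < q S y then q S y else 0) *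
              (r ^ N + e * ∑ k ∈ Finset.range N, r ^ k) := by
              refine ENNReal.tsum_le_tsum fun y => ?_
              split_ifs with h
              · rw [ENNReal.tsum_mul_left, hshift (b (T - hg y)) y]
                exact mul_le_mul' le_rfl (h3 _ (hsub y h.1))
              · simp
          _ ≤ _ := by rw [ENNReal.tsum_mul_right]; gcongr
      calc _ ≤ e + r * (r ^ N + e * ∑ k ∈ Finset.range N, r ^ k) := add_le_add e1 e2
        _ = _ := by
            rw [Finset.sum_range_succ' (fun k => r ^ k), pow_zero]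
            simp_rw [pow_succ]
            rw [← Finset.sum_mul]
            ring

theorem quantile {α : Type*} (p : α → ℝ≥0∞) (hp : ∑' a, p a ≠ ⊤) (u : ℝ≥0∞) (hu : u ≠ 0)
    (hu1 : u < ∑' a, p a) : ∃ th : ℝ≥0∞, th ≠ 0 ∧ th ≠ ⊤ ∧
      ∑' a, (if p a < th then p a else 0) ≤ u ∧ u ≤ ∑' a, (if p a ≤ th then p a else 0) := by
  set S : Set ℝ≥0∞ := {θ | ∑' a, (if p a < θ then p a else 0) ≤ u} with hS
  have hi : ∑' a, (if p a < sSup S then p a else 0) ≤ u := by
    rw [ENNReal.tsum_eq_iSup_sum]
    refine iSup_le fun F => ?_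
    by_cases hM : (F.filter (fun a => p a < sSup S)).Nonempty
    · obtain ⟨a0, ha0, hmax⟩ := Finset.exists_max_image _ p hM
      obtain ⟨θ, hθ, hlt⟩ := lt_sSup_iff.1 (Finset.mem_filter.1 ha0).2
      calc ∑ a ∈ F, (if p a < sSup S then p a else 0)
          ≤ ∑ a ∈ F, (if p a < θ then p a else 0) := by
            refine Finset.sum_le_sum fun a ha => ?_
            by_cases h : p a < sSup S
            · have := hmax a (Finset.mem_filter.2 ⟨ha, h⟩)
              rw [if_pos h, if_pos (lt_of_le_of_lt this hlt)]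
            · simp [h]
        _ ≤ _ := ENNReal.sum_le_tsum _
        _ ≤ u := hθ
    · rw [Finset.not_nonempty_iff_eq_empty] at hM
      rw [Finset.sum_eq_zero]
      · exact zero_le
      · intro a ha
        by_cases h : p a < sSup S
        · have : a ∈ F.filter (fun a => p a < sSup S) := Finset.mem_filter.2 ⟨ha, h⟩
          rw [hM] at this; simp at this
        · simp [h]
  have hfin : ∀ a, p a < ⊤ := fun a => lt_of_le_of_lt (ENNReal.le_tsum a) hp.lt_top
  have htop : sSup S ≠ ⊤ := by
    intro h
    rw [h] at hi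
    simp only [hfin, if_true] at hi
    exact absurd hu1 (not_lt.2 hi)
  have hii : u ≤ ∑' a, (if p a ≤ sSup S then p a else 0) := by
    by_contra hlt
    rw [not_le] at hlt
    have hut : u ≠ ⊤ := ne_top_of_lt hu1
    have hpos : 0 < u - ∑' a, (if p a ≤ sSup S then p a else 0) := tsub_pos_of_lt hlt
    have hten := ENNReal.tendsto_tsum_compl_atTop_zero hp
    obtain ⟨F, hF⟩ := (hten.eventually (gt_mem_nhds hpos)).exists
    have hF' : ∑' a, (if a ∈ F then 0 else p a) < u - ∑' a, (if p a ≤ sSup S then p a else 0) := by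
      refine lt_of_le_of_lt (le_of_eq ?_) hF
      refine Eq.trans ?_ (tsum_subtype {x | x ∉ F} p).symm
      refine tsum_congr fun a => ?_
      by_cases h : a ∈ F <;> simp [Set.indicator, h]
    have : ∃ θ, sSup S < θ ∧ ∀ a ∈ F, sSup S < p a → θ ≤ p a := by
      by_cases hM : (F.filter (fun a => sSup S < p a)).Nonempty
      · obtain ⟨a0, ha0, hmin⟩ := Finset.exists_min_image _ p hM
        exact ⟨p a0, (Finset.mem_filter.1 ha0).2, fun a ha h => hmin a (Finset.mem_filter.2 ⟨ha, h⟩)⟩
      · refine ⟨⊤, htop.lt_top, fun a ha h => ?_⟩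
        exact absurd ⟨a, Finset.mem_filter.2 ⟨ha, h⟩⟩ hM
    obtain ⟨θ, hθ1, hθ2⟩ := this
    have hθS : θ ∈ S := by
      change ∑' a, (if p a < θ then p a else 0) ≤ u
      calc _ ≤ ∑' a, ((if p a ≤ sSup S then p a else 0) + (if a ∈ F then 0 else p a)) := by
            refine ENNReal.tsum_le_tsum fun a => ?_
            by_cases h : p a < θ
            · by_cases h' : p a ≤ sSup S
              · simp [h, h']
              · have : a ∉ F := fun ha => absurd (hθ2 a ha (not_le.1 h')) (not_le.2 h)
                simp [h, h', this]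
            · simp [h]
        _ ≤ (∑' a, if p a ≤ sSup S then p a else 0) +
              (u - ∑' a, if p a ≤ sSup S then p a else 0) := by
            rw [ENNReal.tsum_add]; gcongr
        _ = u := add_tsub_cancel_of_le hlt.le
    exact absurd (le_sSup hθS) (not_le.2 hθ1)
  refine ⟨sSup S, ?_, htop, hi, hii⟩
  intro h0
  rw [h0] at hii
  have : ∀ a, (if p a ≤ 0 then p a else 0) = 0 := fun a => by
    by_cases h : p a ≤ 0
    · simp [nonpos_iff_eq_zero.1 h]
    · simp [h]
  simp only [this, tsum_zero] at hii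
  exact hu (nonpos_iff_eq_zero.1 hii)

section law

variable {B G : Type*} [AddCommGroup G] (Λ : B → ℝ≥0∞) (ht : B → ℕ) (z : B → G)

def DS (L : List B) : G := (L.map z).sum

lemma DS_app (A L : List B) : DS z (A ++ L) = DS z A + DS z L := by simp [DS]

def VV (L : List B) : ℤ × G := ((HT ht L : ℤ), DS z L)

lemma VV_app (A L : List B) : VV ht z (A ++ L) = VV ht z A + VV ht z L := by
  simp [VV, DS_app, HT_append]

noncomputable def q (T : ℕ) (v : ℤ × G) : ℝ≥0∞ :=
  ∑' L, if FP ht T L ∧ VV ht z L = v then LW Λ L else 0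

lemma fiber (T : ℕ) (F : ℤ × G → ℝ≥0∞) :
    ∑' A, (if FP ht T A then LW Λ A * F (VV ht z A) else 0) = ∑' y, q Λ ht z T y * F y := by
  simp only [q]
  simp_rw [← ENNReal.tsum_mul_right]
  rw [ENNReal.tsum_comm]
  refine tsum_congr fun A => ?_
  rw [tsum_eq_single (VV ht z A)]
  · by_cases h : FP ht T A <;> simp [h]
  · intro y hy
    rw [if_neg (fun h => hy h.2.symm), zero_mul]

lemma q_sum (h1 : ∀ b, 1 ≤ ht b) (hΛ : ∑' b, Λ b = 1) (T : ℕ) : ∑' v, q Λ ht z T v = 1 := by
  have := fiber Λ ht z T (fun _ => 1)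
  simp only [mul_one] at this
  rw [← this, FP_sum Λ ht h1 hΛ T]

lemma q_supp (T : ℕ) (v : ℤ × G) (h : q Λ ht z T v ≠ 0) : T ≤ v.1.toNat ∧ ((v.1.toNat : ℕ) : ℤ) = v.1 := by
  rw [q, Ne, ENNReal.tsum_eq_zero, not_forall] at h
  obtain ⟨L, hL⟩ := h
  by_cases h' : FP ht T L ∧ VV ht z L = v
  · have h2 := FP_le ht T L h'.1
    rw [← h'.2]; simp only [VV]; exact ⟨by simpa using h2, by simp⟩
  · simp [h'] at hL

lemma q_ren (S T : ℕ) (hST : S ≤ T) (v : ℤ × G) :
    q Λ ht z T v ≤ ∑' y, q Λ ht z S y * q Λ ht z (T - y.1.toNat) (v - y) := by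
  rw [← fiber Λ ht z S (fun y => q Λ ht z (T - y.1.toNat) (v - y))]
  have e : ∑' A, (if FP ht S A then LW Λ A *
        q Λ ht z (T - (VV ht z A).1.toNat) (v - VV ht z A) else 0)
      = ∑' p : List B × List B, (if FP ht S p.1 then LW Λ p.1 *
        (if FP ht (T - HT ht p.1) p.2 ∧ VV ht z p.2 = v - VV ht z p.1 then LW Λ p.2 else 0) else 0) := by
    rw [ENNReal.tsum_prod']
    refine tsum_congr fun A => ?_
    by_cases h : FP ht S A
    · simp only [h, if_true]
      rw [ENNReal.tsum_mul_left]
      have h5 : (VV ht z A).1.toNat = HT ht A := by simp [VV]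
      rw [h5]; rfl
    · simp [h]
  rw [e, q]
  have hinj : Function.Injective (fun L : List B => spl ht S L) := by
    intro L L' h
    simp only at h
    rw [← spl_app ht S L, ← spl_app ht S L', h]
  refine le_trans (ENNReal.tsum_le_tsum fun L => ?_) (ENNReal.tsum_comp_le_tsum_of_injective hinj _)
  by_cases h : FP ht T L ∧ VV ht z L = v
  · have hs := spl_app ht S L
    have hfp := spl_FP ht S L (hST.trans (FP_le ht T L h.1))
    have h2 : FP ht (T - HT ht (spl ht S L).1) (spl ht S L).2 := by
      rw [← FP_app ht S T hST _ _ hfp, hs]; exact h.1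
    have h3 : VV ht z (spl ht S L).2 = v - VV ht z (spl ht S L).1 := by
      rw [← h.2, ← hs, VV_app, hs]; abel
    rw [if_pos h, if_pos hfp, if_pos ⟨h2, h3⟩, ← LW_append, hs]
  · rw [if_neg h]; exact zero_le

end law

end Crest.Agent.R154.Lst2
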