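import Crest.Agent.R154.AsmE_976
import Crest.Agent.R154.LstB_2

/-! Row 154, road 801 (helper976): density of the first passage law. -/

set_option autoImplicit false

namespace Crest.Agent.R154.Asm976

open B5A
open scoped ENNReal
open Classical

variable {B G : Type*} [AddCommGroup G]

lemma FP_iff (h : B → ℕ) (T : ℕ) (L : List B) : Lst2.FP h T L ↔ FP h T L := by
  induction L generalizing T with
  | nil => exact Iff.rfl
  | cons b L ih => simp only [Lst2.FP, FP, ih]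

lemma al_eq (Λ : B → ℝ≥0∞) (h : B → ℕ) (z : B → G) (T : ℕ) (p : ℕ × G) :
    al Λ h (Dp z) T p = Lst2.q Λ h z T ((p.1 : ℤ), p.2) := by
  unfold al Lst2.q
  refine tsum_congr fun L => ?_
  have : (FP h T L ∧ HT h L = p.1 ∧ Dp z L = p.2) ↔
      (Lst2.FP h T L ∧ Lst2.VV h z L = ((p.1 : ℤ), p.2)) := by
    rw [FP_iff, Lst2.VV, Prod.mk.injEq, Nat.cast_inj]
    rfl
  by_cases hh : FP h T L ∧ HT h L = p.1 ∧ Dp z L = p.2
  · rw [if_pos hh, if_pos (this.1 hh)]
  · rw [if_neg hh, if_neg (fun h => hh (this.2 h))]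

/-- density -/
theorem dens (Λ : B → ℝ≥0∞) (h : B → ℕ) (z : B → G) (h1 : ∀ b, 1 ≤ h b) (hΛ : ∑' b, Λ b = 1)
    (S i0 : ℕ) (th u e : ℝ≥0∞) (hu : u ≠ 0) (hu1 : u ≤ 1)
    (hlow : u ≤ ∑' q, (if al Λ h (Dp z) S q ≤ th then al Λ h (Dp z) S q else 0))
    (he : ∑' L, (if FP h S L ∧ S + i0 < HT h L then LW Λ L else 0) ≤ e)
    (N T : ℕ) (hT : N * (S + i0) ≤ T) :
    ∃ g b : ℕ × G → ℝ≥0∞, (∀ q, al Λ h (Dp z) T q ≤ g q + b q) ∧
      (∀ q, g q ≤ al Λ h (Dp z) T q) ∧ (∀ q, g q ≤ ((i0 + 1 : ℕ) : ℝ≥0∞) * th * u⁻¹) ∧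
      ∑' q, b q ≤ (1 - u) ^ N + e * u⁻¹ := by
  set ι : ℕ × G → ℤ × G := fun p => ((p.1 : ℤ), p.2) with hι
  have hinj : Function.Injective ι := by
    intro p q hpq
    simp only [hι, Prod.mk.injEq, Nat.cast_inj] at hpq
    exact Prod.ext hpq.1 hpq.2
  have hut : u ≠ ⊤ := ne_top_of_le_ne_top ENNReal.one_ne_top hu1
  have hr : ∑' y : ℤ × G, (if y.1.toNat ≤ S + i0 ∧ th < Lst2.q Λ h z S y then
      Lst2.q Λ h z S y else 0) ≤ 1 - u := by
    refine ENNReal.le_sub_of_add_le_right hut ?_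
    have hle : ∑' y : ℤ × G, (if y.1.toNat ≤ S + i0 ∧ th < Lst2.q Λ h z S y then
        Lst2.q Λ h z S y else 0) ≤ ∑' y : ℤ × G, (if th < Lst2.q Λ h z S y then
        Lst2.q Λ h z S y else 0) := by
      refine ENNReal.tsum_le_tsum fun y => ?_
      by_cases h1 : th < Lst2.q Λ h z S y
      · rw [if_pos h1]; split_ifs <;> simp
      · rw [if_neg h1, if_neg (fun h => h1 h.2)]
    have hlow' : u ≤ ∑' y : ℤ × G, (if Lst2.q Λ h z S y ≤ th then Lst2.q Λ h z S y else 0) := by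
      refine hlow.trans ?_
      refine le_trans (le_of_eq ?_) (ENNReal.tsum_comp_le_tsum_of_injective hinj _)
      refine tsum_congr fun p => ?_
      rw [al_eq]
    calc _ ≤ (∑' y : ℤ × G, (if th < Lst2.q Λ h z S y then Lst2.q Λ h z S y else 0))
          + ∑' y : ℤ × G, (if Lst2.q Λ h z S y ≤ th then Lst2.q Λ h z S y else 0) :=
          add_le_add hle hlow'
      _ = ∑' y : ℤ × G, Lst2.q Λ h z S y := by
          rw [← ENNReal.tsum_add]
          refine tsum_congr fun y => ?_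
          by_cases h1 : th < Lst2.q Λ h z S y
          · rw [if_pos h1, if_neg (not_le.2 h1), add_zero]
          · rw [if_neg h1, if_pos (not_lt.1 h1), zero_add]
      _ = 1 := Lst2.q_sum Λ h z h1 hΛ S
  have he' : ∑' y : ℤ × G, (if S + i0 < y.1.toNat then Lst2.q Λ h z S y else 0) ≤ e := by
    refine le_trans (le_of_eq ?_) he
    have := Lst2.fiber Λ h z S (fun y : ℤ × G => if S + i0 < y.1.toNat then 1 else 0)
    simp only [mul_ite, mul_one, mul_zero] at this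
    rw [← this]
    refine tsum_congr fun L => ?_
    have e5 : (Lst2.VV h z L).1.toNat = HT h L := by simp [Lst2.VV]
    rw [e5]
    by_cases c1 : FP h S L
    · have c1' := (FP_iff h S L).2 c1
      by_cases c2 : S + i0 < HT h L <;> simp [c1, c1', c2]
    · have c1' : ¬ Lst2.FP h S L := fun h => c1 ((FP_iff _ _ _).1 h)
      simp [c1, c1']
  have hgeo : ∑ k ∈ Finset.range N, (1 - u) ^ k ≤ u⁻¹ := by
    refine (ENNReal.sum_le_tsum _).trans ?_
    rw [ENNReal.tsum_geometric, ENNReal.sub_sub_cancel ENNReal.one_ne_top hu1]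
  obtain ⟨g, b, c1, c2, c3⟩ := Lst2.smooth (fun y : ℤ × G => y.1.toNat) (Lst2.q Λ h z) S i0 th
    (1 - u) e (fun T => (Lst2.q_sum Λ h z h1 hΛ T).le)
    (fun T hST v => Lst2.q_ren Λ h z S T hST v)
    (fun y hy => (Lst2.q_supp Λ h z S y hy).1) hr he' N T hT
  refine ⟨fun p => min (g (ι p)) (al Λ h (Dp z) T p), fun p => b (ι p), ?_, ?_, ?_, ?_⟩
  · intro p
    show al Λ h (Dp z) T p ≤ min (g (ι p)) (al Λ h (Dp z) T p) + b (ι p)
    rcases le_total (g (ι p)) (al Λ h (Dp z) T p) with hh | hh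
    · rw [min_eq_left hh, al_eq]; exact c1 _
    · rw [min_eq_right hh]; exact le_self_add
  · intro p; exact min_le_right _ _
  · intro p
    refine (min_le_left _ _).trans ((c2 _).trans ?_)
    gcongr
  · refine (ENNReal.tsum_comp_le_tsum_of_injective hinj _).trans (c3.trans ?_)
    gcongr

end Crest.Agent.R154.Asm976
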