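import Crest.Agent.R154.AsmE_999

/-! Row 154, ROAD 801, assembly part F (helper999): choice of the constants. -/

set_option autoImplicit false

namespace Crest.Agent.R154.Asm999

open scoped ENNReal Topology
open Filter
open Crest.Agent.R154.B5A
open Crest.Agent.R154.Asm540 (FP split_le fp_mass over_le e1 wA wA_mass fp_HT TR TR_append TR_depth
  TR_shift Dp)

section fin
variable {BX BY G : Type*} [AddCommGroup G]
  (ΛX : BX → ℝ≥0∞) (ΛY : BY → ℝ≥0∞) (hX : BX → ℕ) (hY : BY → ℕ) (zX : BX → G) (zY : BY → G)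
  (sX : BX → Set (G × ℕ)) (sY : BY → Set (G × ℕ))

open Classical in
/-- split off the slabs -/
lemma KS_le (T i0 J K s m n : ℕ) (w : G) :
    Asm540.KS ΛX ΛY hX hY zX zY sX sY n w (Set.Ioc m (2 * m))
      ≤ (∑ j ∈ Finset.Icc K J, Asm540.KS ΛX ΛY hX hY zX zY sX sY n w
          (Set.Ico (j * T - s) (j * T - s + (2 * (J * i0) + i0 + 2 * s + 1))))
        + ∑' L : List BX, ∑' L' : List BY, (if HT hX L = n ∧ HT hY L' = n ∧
        QQ hX hY zX zY sX sY T i0 J K s m w L L' then LW ΛX L * LW ΛY L' else 0) := by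
  unfold Asm540.KS
  simp_rw [← Summable.tsum_finsetSum (fun _ _ => ENNReal.summable), ← ENNReal.tsum_add]
  refine ENNReal.tsum_le_tsum fun L => ENNReal.tsum_le_tsum fun L' => ?_
  by_cases h : HT hX L = n ∧ HT hY L' = n ∧ ∃ g k, k ∈ Set.Ioc m (2 * m) ∧
      Asm540.Cm hX hY zX zY sX sY L L' w 0 0 g k
  · rw [if_pos h]
    obtain ⟨h1, h2, g, k, hk, hc⟩ := h
    by_cases hs : ∀ g k, Asm540.Cm hX hY zX zY sX sY L L' w 0 0 g k → ∀ j, K ≤ j → j ≤ J →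
      ¬ inSlab T i0 J s j k
    · refine le_add_left ?_
      rw [if_pos ⟨h1, h2, ⟨g, k, hk.1, hk.2, hc⟩, hs⟩]
    · refine le_add_right ?_
      push Not at hs
      obtain ⟨g', k', hc', j, hj1, hj2, hj3⟩ := hs
      refine le_trans ?_ (Finset.single_le_sum (f := fun j => (if HT hX L = n ∧ HT hY L' = n ∧
        ∃ g k, k ∈ Set.Ico (j * T - s) (j * T - s + (2 * (J * i0) + i0 + 2 * s + 1)) ∧
          Asm540.Cm hX hY zX zY sX sY L L' w 0 0 g k then LW ΛX L * LW ΛY L' else 0))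
        (fun _ _ => zero_le) (Finset.mem_Icc.2 ⟨hj1, hj2⟩))
      rw [if_pos]
      refine ⟨h1, h2, g', k', ?_, hc'⟩
      obtain ⟨q1, q2⟩ := hj3
      constructor <;> omega
  · rw [if_neg h]; exact zero_le

/-- **assembly of ROAD 801** -/
theorem kapS (h1X : ∀ b, 1 ≤ hX b) (h1Y : ∀ b, 1 ≤ hY b) (hΛX : ∑' b, ΛX b ≤ 1)
    (hΛY : ∑' b, ΛY b ≤ 1) (hUX : ∀ n, U ΛX hX n ≤ 1) (hUY : ∀ n, U ΛY hY n ≤ 1)
    (hEX : ∑' b, ΛX b * (hX b : ℝ≥0∞) ≠ ⊤) (hEY : ∑' b, ΛY b * (hY b : ℝ≥0∞) ≠ ⊤)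
    (hsX : ∀ b, ∀ p ∈ sX b, 1 ≤ p.2 ∧ p.2 ≤ hX b)
    (hsY : ∀ b, ∀ p ∈ sY b, 1 ≤ p.2 ∧ p.2 ≤ hY b)
    (C : ℝ≥0∞) (hC : C ≠ ⊤) (us : ℕ → ℝ≥0∞) (hus : Tendsto us atTop (𝓝 0))
    (H2 : H2s ΛX ΛY hX hY zX zY sX sY C us) (H3 : H3s ΛX ΛY hX hY zX zY sX sY C us)
    (H5 : Asm540.H5 ΛX ΛY hX hY zX zY sX sY) :
    ∀ ε : ℝ≥0∞, ε ≠ 0 → ∃ M : ℕ, ∀ m, M ≤ m → ∃ n0 : ℕ, ∀ n, n0 ≤ n → ∀ w : G,
      Asm540.KS ΛX ΛY hX hY zX zY sX sY n w (Set.Ioc m (2 * m)) ≤ ε := by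
  intro ε hε
  have hε3 : ε / 3 ≠ 0 := (ENNReal.div_pos hε (by norm_num)).ne'
  -- `K`, `u`
  obtain ⟨u, K, hu0, hu1, hK1, hsel⟩ := Sel300.sel 4 1 1 le_rfl hε3
  rw [Nat.div_one] at hsel
  set J := 2 * K + 1 with hJ
  have hut : u⁻¹ ≠ ⊤ := ENNReal.inv_ne_top.2 hu0
  -- `i0`, `lam`, `s`
  have htl : Tendsto (fun i => e1 ΛX hX i + e1 ΛY hY i) atTop (𝓝 0) := by
    have a1 : Tendsto (fun i => e1 ΛX hX i) atTop (𝓝 0) :=
      ENNReal.tendsto_nhds_zero.2 fun η hη => by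
        obtain ⟨i0, h⟩ := Asm540.e1_small ΛX hX hEX hη.ne'
        exact eventually_atTop.2 ⟨i0, h⟩
    have a2 : Tendsto (fun i => e1 ΛY hY i) atTop (𝓝 0) :=
      ENNReal.tendsto_nhds_zero.2 fun η hη => by
        obtain ⟨i0, h⟩ := Asm540.e1_small ΛY hY hEY hη.ne'
        exact eventually_atTop.2 ⟨i0, h⟩
    simpa using a1.add a2
  have hc1 : ((J : ℝ≥0∞) + 1) ≠ ⊤ := by
    exact ENNReal.add_ne_top.2 ⟨ENNReal.natCast_ne_top _, ENNReal.one_ne_top⟩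
  have hc2 : (2 * J * (J + 1) * C : ℝ≥0∞) ≠ ⊤ := by
    refine ENNReal.mul_ne_top (ENNReal.mul_ne_top (ENNReal.mul_ne_top (by norm_num)
      (ENNReal.natCast_ne_top _)) hc1) hC
  have hc3 : (2 * J * (J + 1) * C * (2 * u⁻¹ + 1) : ℝ≥0∞) ≠ ⊤ := by
    refine ENNReal.mul_ne_top hc2 (ENNReal.add_ne_top.2 ⟨ENNReal.mul_ne_top (by norm_num) hut,
      ENNReal.one_ne_top⟩)
  obtain ⟨i0, lam, s, t0, hl0, hlt, hsel2⟩ := Sel300.sel2 hc1 hc2 hc3 (fun _ _ => 0)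
    (fun _ _ => ENNReal.zero_ne_top) _ (fun _ => 0) (fun _ => us) htl tendsto_const_nhds
    (fun _ => hus) 3 hε3
  have hsel2' := hsel2 _ le_rfl
  rw [mul_zero, add_zero] at hsel2'
  -- the slabs
  have hη : ε / 3 / (J + 1) ≠ 0 := (ENNReal.div_pos hε3 hc1).ne'
  obtain ⟨T0, hT0⟩ := H5 (2 * (J * i0) + i0 + 2 * s + 1) _ hη
  -- `M`
  refine ⟨K * (T0 + s + 2 * K + 1), fun m hm => ?_⟩
  obtain ⟨T, hTdef⟩ : ∃ T, T = m / K := ⟨_, rfl⟩
  have hK0 : 0 < K := hK1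
  have hT1 : T0 + s + 2 * K + 1 ≤ T := by
    rw [hTdef, Nat.le_div_iff_mul_le hK0]
    rw [mul_comm]; exact hm
  have hKm : K * T ≤ m := by
    rw [hTdef]; exact Nat.mul_div_le m K
  have hmJ : 2 * m ≤ J * T := by
    have h1 : m < K * T + K := by
      have := Nat.lt_div_mul_add hK0 (a := m)
      rw [← hTdef] at this
      nlinarith
    rw [hJ]
    nlinarith
  refine ⟨J * i0 + i0 + J * (T + i0), fun n hn w => ?_⟩
  refine (KS_le ΛX ΛY hX hY zX zY sX sY T i0 J K s m n w).trans ?_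
  have hslab : ∑ j ∈ Finset.Icc K J, Asm540.KS ΛX ΛY hX hY zX zY sX sY n w
          (Set.Ico (j * T - s) (j * T - s + (2 * (J * i0) + i0 + 2 * s + 1))) ≤ ε / 3 := by
    calc _ ≤ ∑ _j ∈ Finset.Icc K J, ε / 3 / (J + 1) := by
          refine Finset.sum_le_sum fun j hj => hT0 _ ?_ n w
          rw [Finset.mem_Icc] at hj
          have : 1 * T ≤ j * T := Nat.mul_le_mul_right _ (by omega)
          omega
      _ = ((Finset.Icc K J).card : ℝ≥0∞) * (ε / 3 / (J + 1)) := by simp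
      _ ≤ ((J + 1 : ℕ) : ℝ≥0∞) * (ε / 3 / (J + 1)) := by
          gcongr
          rw [Nat.card_Icc]; omega
      _ = ε / 3 := by
          push_cast
          exact ENNReal.mul_div_cancel (by positivity) hc1
  have hgood := good_le ΛX ΛY hX hY zX zY sX sY h1X h1Y hΛX hΛY hUX hUY hsX hsY T i0 J K s m n
    (by omega) hKm hmJ w hn
  have hwin : ∀ j ∈ Finset.Ico K J,
        S5 (wj (wA ΛX hX T i0) j) (wA ΛX hX T i0) (wA ΛY hY (J * i0) i0) (wj (wA ΛY hY T i0) j)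
      (wA ΛY hY T i0) (ind hX hY zX zY sX sY w (j * T + 2 * (J * i0) + i0 + s) ((j + 1) * T - s))
      ≤ (u * u + 2 * (1 - u) ^ K) + 2 * (((J : ℝ≥0∞) + 1) * ((i0 : ℝ≥0∞) + 1) ^ 3
        * RR C u lam (us s)) := by
    intro j hj
    rw [Finset.mem_Ico] at hj
    have hjT : 1 * T ≤ (j + 1) * T := Nat.mul_le_mul_right _ (by omega)
    refine (window ΛX ΛY hX hY zX zY sX sY h1X h1Y hΛX hΛY C us H2 H3 T i0 j J s _ _ w u lam hu0
      hu1 hl0 hlt hj.2 le_rfl (by omega)).trans ?_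
    have hq : (1 - u) ^ j ≤ (1 - u) ^ K :=
      pow_le_pow_right_of_le_one' (tsub_le_self) hj.1
    have hN : ((j * i0 + 1 : ℕ) : ℝ≥0∞) * (((i0 + 1 : ℕ) : ℝ≥0∞) * ((i0 + 1 : ℕ) : ℝ≥0∞)
        * RR C u lam (us s)) ≤ ((J : ℝ≥0∞) + 1) * ((i0 : ℝ≥0∞) + 1) ^ 3 * RR C u lam (us s) := by
      have h1 : ((j * i0 + 1 : ℕ) : ℝ≥0∞) ≤ ((J : ℝ≥0∞) + 1) * ((i0 : ℝ≥0∞) + 1) := by
        have : j * i0 + 1 ≤ (J + 1) * (i0 + 1) := by
          have : j * i0 ≤ J * i0 := Nat.mul_le_mul_right _ hj.2.le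
          nlinarith
        calc ((j * i0 + 1 : ℕ) : ℝ≥0∞) ≤ (((J + 1) * (i0 + 1) : ℕ) : ℝ≥0∞) := by
              exact_mod_cast this
          _ = _ := by push_cast; ring
      push_cast at h1 ⊢
      calc _ ≤ (((J : ℝ≥0∞) + 1) * ((i0 : ℝ≥0∞) + 1)) * (((i0 : ℝ≥0∞) + 1) * ((i0 : ℝ≥0∞) + 1)
            * RR C u lam (us s)) := by gcongr
        _ = _ := by ring
    calc _ ≤ u * u + (((J : ℝ≥0∞) + 1) * ((i0 : ℝ≥0∞) + 1) ^ 3 * RR C u lam (us s))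
          + (1 - u) ^ K + (((J : ℝ≥0∞) + 1) * ((i0 : ℝ≥0∞) + 1) ^ 3 * RR C u lam (us s))
          + (1 - u) ^ K := by gcongr
      _ = _ := by ring
  have hRR : RR C u lam (us s) ≤ C * lam + C * (2 * u⁻¹ + 1) * (us s / lam + us s) := by
    unfold RR
    have e1 : 2 * u⁻¹ * us s / lam = 2 * u⁻¹ * (us s / lam) := by rw [mul_div_assoc]
    rw [e1]
    calc C * (lam + 2 * u⁻¹ * (us s / lam) + us s)
        ≤ C * (lam + (2 * u⁻¹ + 1) * (us s / lam + us s)) := by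
          rw [add_assoc lam]
          refine mul_le_mul_right (add_le_add le_rfl ?_) _
          calc 2 * u⁻¹ * (us s / lam) + us s ≤ (2 * u⁻¹ + 1) * (us s / lam) + (2 * u⁻¹ + 1) * us s := by
                gcongr
                · exact le_self_add
                · calc us s = 1 * us s := (one_mul _).symm
                    _ ≤ (2 * u⁻¹ + 1) * us s := by gcongr; exact le_add_self
            _ = _ := by ring
      _ = _ := by ring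
  have hsum : ∑ j ∈ Finset.Ico K J,
        S5 (wj (wA ΛX hX T i0) j) (wA ΛX hX T i0) (wA ΛY hY (J * i0) i0) (wj (wA ΛY hY T i0) j)
      (wA ΛY hY T i0) (ind hX hY zX zY sX sY w (j * T + 2 * (J * i0) + i0 + s) ((j + 1) * T - s))
      ≤ ε / 3 + J * (2 * (((J : ℝ≥0∞) + 1) * ((i0 : ℝ≥0∞) + 1) ^ 3 * (C * lam + C * (2 * u⁻¹ + 1)
        * (us s / lam + us s)))) := by
    calc _ ≤ ∑ _j ∈ Finset.Ico K J, ((u * u + 2 * (1 - u) ^ K) + 2 * (((J : ℝ≥0∞) + 1) *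
          ((i0 : ℝ≥0∞) + 1) ^ 3 * RR C u lam (us s))) := Finset.sum_le_sum hwin
      _ = ((J - K : ℕ) : ℝ≥0∞) * (u * u + 2 * (1 - u) ^ K) + ((J - K : ℕ) : ℝ≥0∞) *
          (2 * (((J : ℝ≥0∞) + 1) * ((i0 : ℝ≥0∞) + 1) ^ 3 * RR C u lam (us s))) := by
          rw [Finset.sum_const, Nat.card_Ico, nsmul_eq_mul, mul_add]
      _ ≤ ε / 3 + J * (2 * (((J : ℝ≥0∞) + 1) * ((i0 : ℝ≥0∞) + 1) ^ 3 * (C * lam + C *
          (2 * u⁻¹ + 1) * (us s / lam + us s)))) := by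
          gcongr
          · refine le_trans ?_ hsel
            have h1 : J - K ≤ 2 * K := by omega
            calc ((J - K : ℕ) : ℝ≥0∞) * (u * u + 2 * (1 - u) ^ K)
                ≤ ((2 * K : ℕ) : ℝ≥0∞) * (2 * (u ^ 2 + (1 - u) ^ K)) := by
                  refine mul_le_mul' (by exact_mod_cast h1) ?_
                  rw [mul_add]
                  refine add_le_add ?_ le_rfl
                  calc u * u = 1 * u ^ 2 := by ring
                    _ ≤ 2 * u ^ 2 := by gcongr; norm_num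
              _ = _ := by push_cast; ring
          · omega
  calc _ ≤ ε / 3 + (J * e1 ΛX hX i0 + (J + 1) * e1 ΛY hY i0 + (ε / 3 + J * (2 * (((J : ℝ≥0∞) + 1)
        * ((i0 : ℝ≥0∞) + 1) ^ 3 * (C * lam + C * (2 * u⁻¹ + 1) * (us s / lam + us s)))))) :=
        add_le_add hslab (hgood.trans (add_le_add le_rfl hsum))
    _ ≤ ε / 3 + ε / 3 + (((J : ℝ≥0∞) + 1) * (e1 ΛX hX i0 + e1 ΛY hY i0)
        + 2 * J * (J + 1) * C * ((i0 : ℝ≥0∞) + 1) ^ 3 * lam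
        + 2 * J * (J + 1) * C * (2 * u⁻¹ + 1) * ((i0 : ℝ≥0∞) + 1) ^ 3
          * (us s / lam + us s)) := by
        have h1 : (J : ℝ≥0∞) * e1 ΛX hX i0 + (J + 1) * e1 ΛY hY i0
            ≤ ((J : ℝ≥0∞) + 1) * (e1 ΛX hX i0 + e1 ΛY hY i0) := by
          rw [mul_add]
          gcongr
          exact le_self_add
        calc _ ≤ ε / 3 + (((J : ℝ≥0∞) + 1) * (e1 ΛX hX i0 + e1 ΛY hY i0) + (ε / 3 + J * (2 *
              (((J : ℝ≥0∞) + 1) * ((i0 : ℝ≥0∞) + 1) ^ 3 * (C * lam + C * (2 * u⁻¹ + 1)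
              * (us s / lam + us s)))))) := by gcongr
          _ = _ := by ring
    _ ≤ ε / 3 + ε / 3 + ε / 3 := by
        gcongr
    _ = ε := ENNReal.add_thirds ε

end fin

end Crest.Agent.R154.Asm999
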