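import Crest.Agent.R154.AsmF_10

/-! Row 154, ROAD 801, abstract assembly, part G (helper10): the two window sums. -/

set_option autoImplicit false

namespace Crest.Agent.R154.Asm10

open scoped ENNReal Topology
open Filter Crest.Agent.R154.B5A

section Win

variable {BX BY G : Type*} [AddCommGroup G] (ΛX : BX → ℝ≥0∞) (ΛY : BY → ℝ≥0∞)
  (hX : BX → ℕ) (hY : BY → ℕ) (zX : BX → G) (zY : BY → G)
  (sX : BX → Set (G × ℕ)) (sY : BY → Set (G × ℕ))

/-- common site -/
def Ct (L : List BX) (L' : List BY) (x : G) (a a' : ℕ) (y : G) (k : ℕ) : Prop :=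
  (y, k) ∈ TT sX hX zX L 0 a ∧ (y, k) ∈ TT sY hY zY L' x a'

/-- there is a common site, and all of them have depth in `[lo, hi]` -/
def Ev (L : List BX) (L' : List BY) (x : G) (a a' lo hi : ℕ) : Prop :=
  (∃ y k, Ct hX hY zX zY sX sY L L' x a a' y k) ∧
    ∀ y k, Ct hX hY zX zY sX sY L L' x a a' y k → lo ≤ k ∧ k ≤ hi

/-- `X` local -/
def H2 (C : ℝ≥0∞) (us : ℕ → ℝ≥0∞) : Prop :=
  ∀ (s h h' a a' lo hi : ℕ) (E : Finset G) (μ : G → ℝ≥0∞) (M lam : ℝ≥0∞),
    ∑' x, μ x ≤ 1 → (∀ x, μ x ≤ M) → lam ≠ 0 → lam ≠ ⊤ → a ≤ a' → a + s ≤ lo → a' + s ≤ lo →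
    hi + s ≤ a + h → hi + s ≤ a' + h' →
    ∑' x, μ x * ∑' L : List BX, ∑' L' : List BY, LW ΛX L * (LW ΛY L' *
      I (HT hX L = h ∧ (L.map zX).sum ∈ E ∧ HT hY L' = h' ∧
        Ev hX hY zX zY sX sY L L' x a a' lo hi))
      ≤ C * (lam + M * E.card * us s / lam + us s)

/-- `Y` local -/
def H3 (C : ℝ≥0∞) (us : ℕ → ℝ≥0∞) : Prop :=
  ∀ (s h h' a a' lo hi : ℕ) (E : Finset G) (μ : G → ℝ≥0∞) (M lam : ℝ≥0∞),
    ∑' x, μ x ≤ 1 → (∀ x, μ x ≤ M) → lam ≠ 0 → lam ≠ ⊤ → a + h ≤ a' + h' → a + s ≤ lo →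
    a' + s ≤ lo → hi + s ≤ a + h → hi + s ≤ a' + h' →
    ∑' x, μ x * ∑' L : List BX, ∑' L' : List BY, LW ΛX L * (LW ΛY L' *
      I (HT hX L = h ∧ HT hY L' = h' ∧ (L'.map zY).sum ∈ E ∧
        Ev hX hY zX zY sX sY L L' x a a' lo hi))
      ≤ C * (lam + M * E.card * us s / lam + us s)

lemma pieces_le {B : Type*} (Λ : B → ℝ≥0∞) (h : B → ℕ) (T : ℕ) (F : List B → ℝ≥0∞) :
    ∑' P : Pc h T, LP Λ h T P * F P.1 ≤ ∑' L, LW Λ L * F L :=
  ENNReal.tsum_comp_le_tsum_of_injective (f := fun P : Pc h T => P.1)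
    Subtype.val_injective (fun L => LW Λ L * F L)

lemma card_bound (M0 θ us lam : ℝ≥0∞) (c k : ℕ) (hc : θ * c ≤ 1) (hM : M0 = k * (2 * θ)) :
    M0 * c * us / lam ≤ (2 * k : ℕ) * us / lam := by
  refine ENNReal.div_le_div_right (mul_le_mul_left ?_ _) _
  rw [hM]
  calc (k : ℝ≥0∞) * (2 * θ) * c = (2 * k : ℕ) * (θ * c) := by push_cast; ring
    _ ≤ (2 * k : ℕ) * 1 := mul_le_mul_right hc _
    _ = _ := mul_one _

theorem qx_bound (hUX : ∀ n, U ΛX hX n ≤ 1) (hUY : ∀ n, U ΛY hY n ≤ 1)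
    (h1X : ∀ b, 1 ≤ hX b) (h1Y : ∀ b, 1 ≤ hY b) (hΛX : ∑' b, ΛX b = 1) (hΛY : ∑' b, ΛY b = 1)
    {C : ℝ≥0∞} {us : ℕ → ℝ≥0∞} (H : H2 ΛX ΛY hX hY zX zY sX sY C us)
    (n T t T2 j i0 s lo hi : ℕ) (θ lam : ℝ≥0∞) (hθ : θ ≠ 0) (hl : lam ≠ 0) (hl' : lam ≠ ⊤) (w : G)
    (g1 : j * T + j * i0 ≤ t) (g2 : t + i0 + s ≤ lo) (g3 : hi + s ≤ j * T + T)
    (g4 : hi + s ≤ t + T2) :
    NN ΛX ΛY hX hY n (fun L L' => ∃ (A : List (Pc hX T)) (P : Pc hX T) (R : List BX)
        (A2 : Pc hY t) (P2 : Pc hY T2) (R2 : List BY),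
        L = fl hX T A ++ P.1 ++ R ∧ L' = A2.1 ++ P2.1 ++ R2 ∧ A.length = j ∧ Gd hX T i0 A ∧
        HP hX T P ≤ T + i0 ∧ HP hY t A2 ≤ t + i0 ∧ HP hY T2 P2 ≤ T2 + i0 ∧
        ¬ NL ΛX hX zX T θ P ∧ (∃ b ∈ A, Sm ΛX hX zX T i0 θ b) ∧
        Ev hX hY zX zY sX sY P.1 P2.1 (w + (A2.1.map zY).sum - ((fl hX T A).map zX).sum)
          (HT hX (fl hX T A)) (HT hY A2.1) lo hi)
      ≤ ((j * i0 + 1) * ((i0 + 1) * ((i0 + 1) * (i0 + 1))) : ℕ) *
        (C * (lam + (2 * (j * (i0 + 1)) : ℕ) * us s / lam + us s)) := by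
  classical
  set box := Finset.range (j * i0 + 1) ×ˢ (Finset.range (i0 + 1) ×ˢ (Finset.range (i0 + 1) ×ˢ
    Finset.range (i0 + 1))) with hbox
  have hcard : box.card = (j * i0 + 1) * ((i0 + 1) * ((i0 + 1) * (i0 + 1))) := by
    simp [hbox, Finset.card_product]
  refine (NN_fin ΛX ΛY hX hY box n (q := fun p L L' => ∃ (A : List (Pc hX T)) (P : Pc hX T)
        (R : List BX) (A2 : Pc hY t) (P2 : Pc hY T2) (R2 : List BY),
        L = fl hX T A ++ P.1 ++ R ∧ L' = A2.1 ++ P2.1 ++ R2 ∧ A.length = j ∧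
        (HT hX (fl hX T A) = j * T + p.1 ∧ HT hY A2.1 = t + p.2.2.1 ∧
          ∃ b ∈ A, Sm ΛX hX zX T i0 θ b) ∧
        HT hX P.1 = T + p.2.1 ∧ HT hY P2.1 = T2 + p.2.2.2 ∧ ¬ NL ΛX hX zX T θ P ∧
        Ev hX hY zX zY sX sY P.1 P2.1 (w + (A2.1.map zY).sum - ((fl hX T A).map zX).sum)
          (j * T + p.1) (t + p.2.2.1) lo hi) ?_).trans ?_
  · rintro L L' _ _ ⟨A, P, R, A2, P2, R2, e1, e2, hA, hG, b1, b2, b3, hNL, hSm, hEv⟩
    have c1 := Gd_bound hX T i0 A hG
    rw [hA] at c1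
    have c2 : T ≤ HP hX T P := P.2.1
    have c3 : t ≤ HP hY t A2 := A2.2.1
    have c4 : T2 ≤ HP hY T2 P2 := P2.2.1
    unfold HP at b1 b2 b3 c2 c3 c4
    refine ⟨(HT hX (fl hX T A) - j * T, HT hX P.1 - T, HT hY A2.1 - t, HT hY P2.1 - T2), ?_,
      A, P, R, A2, P2, R2, e1, e2, hA, ⟨?_, ?_, hSm⟩, ?_, ?_, hNL, ?_⟩
    · simp only [hbox, Finset.mem_product, Finset.mem_range]
      omega
    · simp only; omega
    · simp only; omega
    · simp only; omega
    · simp only; omega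
    · simp only
      rw [show j * T + (HT hX (fl hX T A) - j * T) = HT hX (fl hX T A) by omega,
        show t + (HT hY A2.1 - t) = HT hY A2.1 by omega]
      exact hEv
  · have key : ∀ p ∈ box, NN ΛX ΛY hX hY n (fun L L' => ∃ (A : List (Pc hX T)) (P : Pc hX T)
        (R : List BX) (A2 : Pc hY t) (P2 : Pc hY T2) (R2 : List BY),
        L = fl hX T A ++ P.1 ++ R ∧ L' = A2.1 ++ P2.1 ++ R2 ∧ A.length = j ∧
        (HT hX (fl hX T A) = j * T + p.1 ∧ HT hY A2.1 = t + p.2.2.1 ∧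
          ∃ b ∈ A, Sm ΛX hX zX T i0 θ b) ∧
        HT hX P.1 = T + p.2.1 ∧ HT hY P2.1 = T2 + p.2.2.2 ∧ ¬ NL ΛX hX zX T θ P ∧
        Ev hX hY zX zY sX sY P.1 P2.1 (w + (A2.1.map zY).sum - ((fl hX T A).map zX).sum)
          (j * T + p.1) (t + p.2.2.1) lo hi)
        ≤ C * (lam + (2 * (j * (i0 + 1)) : ℕ) * us s / lam + us s) := by
      rintro ⟨p1, p2, p3, p4⟩ hp
      simp only [hbox, Finset.mem_product, Finset.mem_range] at hp
      simp only
      obtain ⟨E, hE1, hE2⟩ := exists_E ΛX hX zX T h1X hΛX θ hθ (T + p2)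
      set y : List (Pc hX T) → Pc hY t → G :=
        fun A A2 => w + (A2.1.map zY).sum - ((fl hX T A).map zX).sum with hy
      set χ : List (Pc hX T) → Pc hY t → Prop := fun A A2 =>
        HT hX (fl hX T A) = j * T + p1 ∧ HT hY A2.1 = t + p3 ∧
          ∃ b ∈ A, Sm ΛX hX zX T i0 θ b with hχ
      set ψ : G → Pc hX T → Pc hY T2 → Prop := fun x P P2 =>
        HT hX P.1 = T + p2 ∧ (P.1.map zX).sum ∈ E ∧ HT hY P2.1 = T2 + p4 ∧
          Ev hX hY zX zY sX sY P.1 P2.1 x (j * T + p1) (t + p3) lo hi with hψ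
      refine (NN_exists ΛX ΛY hX hY hUX hUY n
        (fun i : List (Pc hX T) × Pc hX T => fl hX T i.1 ++ i.2.1)
        (fun k : Pc hY t × Pc hY T2 => k.1.1 ++ k.2.1)
        (fun i k => i.1.length = j ∧ (χ i.1 k.1 ∧ ψ (y i.1 k.1) i.2 k.2)) ?_).trans ?_
      · rintro L L' _ _ ⟨A, P, R, A2, P2, R2, e1, e2, hA, hc, f1, f2, hNL, hEv⟩
        refine ⟨(A, P), (A2, P2), R, R2, e1, e2, hA, hc, f1, ?_, f2, hEv⟩
        apply hE1
        have : ¬ (pl ΛX hX zX T (HP hX T P, DP hX zX T P) < θ) := hNL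
        rw [not_lt] at this
        rw [← f1]
        exact this
      · have er := reorder2 (wL ΛX hX T j) (LP ΛX hX T) (LP ΛY hY t) (LP ΛY hY T2) y χ ψ
        calc _ = ∑' i : List (Pc hX T) × Pc hX T, ∑' k : Pc hY t × Pc hY T2,
                wL ΛX hX T j i.1 * LP ΛX hX T i.2 * (LP ΛY hY t k.1 * LP ΛY hY T2 k.2) *
                I (χ i.1 k.1 ∧ ψ (y i.1 k.1) i.2 k.2) := by
              refine tsum_congr fun i => tsum_congr fun k => ?_
              rw [I_and (p := i.1.length = j), LW_append, LW_append, LW_fl, wL, LP, LP, LP]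
              ring
          _ = _ := er
          _ ≤ ∑' x, (∑' A, ∑' A', wL ΛX hX T j A * (LP ΛY hY t A' *
                I (χ A A' ∧ y A A' = x))) * ∑' L : List BX, ∑' L' : List BY, LW ΛX L *
                (LW ΛY L' * I (HT hX L = T + p2 ∧ (L.map zX).sum ∈ E ∧ HT hY L' = T2 + p4 ∧
                Ev hX hY zX zY sX sY L L' x (j * T + p1) (t + p3) lo hi)) := by
              refine ENNReal.tsum_le_tsum fun x => mul_le_mul_right ?_ _
              simp only [ENNReal.tsum_mul_left]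
              refine le_trans ?_ (pieces_le ΛX hX T (fun L => ∑' L' : List BY,
                (LW ΛY L' * I (HT hX L = T + p2 ∧ (L.map zX).sum ∈ E ∧ HT hY L' = T2 + p4 ∧
                Ev hX hY zX zY sX sY L L' x (j * T + p1) (t + p3) lo hi))))
              refine ENNReal.tsum_le_tsum fun P => mul_le_mul_right ?_ _
              exact pieces_le ΛY hY T2 (fun L' => I (HT hX P.1 = T + p2 ∧
                (P.1.map zX).sum ∈ E ∧ HT hY L' = T2 + p4 ∧
                Ev hX hY zX zY sX sY P.1 L' x (j * T + p1) (t + p3) lo hi))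
          _ ≤ C * (lam + ((j * (i0 + 1) : ℕ) * (2 * θ)) * E.card * us s / lam + us s) := by
              refine H s (T + p2) (T2 + p4) (j * T + p1) (t + p3) lo hi E _ _ lam ?_ ?_ hl hl'
                ?_ ?_ ?_ ?_ ?_
              · exact mu2_mass _ _ (wL_mass ΛX hX T h1X hΛX j).le
                  (mass_fp ΛY hY h1Y hΛY t) y χ
              · intro x
                refine mu2_supA _ _ (mass_fp ΛY hY h1Y hΛY t) y χ _ x ?_
                intro A'
                have hd := dens (LP ΛX hX T) (DP hX zX T) (mass_fp_eq ΛX hX h1X hΛX T)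
                  (Sm ΛX hX zX T i0 θ) ((i0 + 1 : ℕ) * (2 * θ))
                  (small_dens ΛX hX zX T i0 θ) j (w + (A'.1.map zY).sum - x)
                refine le_trans ?_ (hd.trans (le_of_eq (by push_cast; ring)))
                rw [← wL_SL]
                refine ENNReal.tsum_le_tsum fun A => mul_le_mul_right ?_ _
                by_cases hcc : χ A A' ∧ y A A' = x
                · rw [I_pos hcc, if_pos]
                  refine ⟨hcc.1.2.2, ?_⟩
                  have h5 : w + (A'.1.map zY).sum - ((fl hX T A).map zX).sum = x := hcc.2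
                  rw [← fl_sum, ← h5]
                  abel
                · rw [I_neg hcc]; exact zero_le
              · omega
              · omega
              · omega
              · omega
              · omega
          _ ≤ _ := by
              refine mul_le_mul_right (add_le_add (add_le_add le_rfl ?_) le_rfl) _
              exact card_bound _ θ _ _ _ (j * (i0 + 1)) hE2 rfl
    calc _ ≤ ∑ _p ∈ box, C * (lam + (2 * (j * (i0 + 1)) : ℕ) * us s / lam + us s) :=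
          Finset.sum_le_sum key
      _ = _ := by rw [Finset.sum_const, hcard, nsmul_eq_mul]

theorem qy_bound (hUX : ∀ n, U ΛX hX n ≤ 1) (hUY : ∀ n, U ΛY hY n ≤ 1)
    (h1X : ∀ b, 1 ≤ hX b) (h1Y : ∀ b, 1 ≤ hY b) (hΛX : ∑' b, ΛX b = 1) (hΛY : ∑' b, ΛY b = 1)
    {C : ℝ≥0∞} {us : ℕ → ℝ≥0∞} (H : H3 ΛX ΛY hX hY zX zY sX sY C us)
    (n T t T2 j i0 s lo hi : ℕ) (θ lam : ℝ≥0∞) (hθ : θ ≠ 0) (hl : lam ≠ 0) (hl' : lam ≠ ⊤) (w : G)
    (g1 : t + i0 + (T2 + i0) ≤ j * T + T) (g2 : t + i0 + s ≤ lo) (g2' : j * T + j * i0 + s ≤ lo)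
    (g3 : hi + s ≤ j * T + T) (g4 : hi + s ≤ t + T2) :
    NN ΛX ΛY hX hY n (fun L L' => ∃ (A : List (Pc hY T)) (P : Pc hY T) (R : List BY)
        (A2 : Pc hX t) (P2 : Pc hX T2) (R2 : List BX),
        L' = fl hY T A ++ P.1 ++ R ∧ L = A2.1 ++ P2.1 ++ R2 ∧ A.length = j ∧ Gd hY T i0 A ∧
        HP hY T P ≤ T + i0 ∧ HP hX t A2 ≤ t + i0 ∧ HP hX T2 P2 ≤ T2 + i0 ∧
        ¬ NL ΛY hY zY T θ P ∧ (∃ b ∈ A, Sm ΛY hY zY T i0 θ b) ∧
        Ev hX hY zX zY sX sY P2.1 P.1 (w + ((fl hY T A).map zY).sum - (A2.1.map zX).sum)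
          (HT hX A2.1) (HT hY (fl hY T A)) lo hi)
      ≤ ((j * i0 + 1) * ((i0 + 1) * ((i0 + 1) * (i0 + 1))) : ℕ) *
        (C * (lam + (2 * (j * (i0 + 1)) : ℕ) * us s / lam + us s)) := by
  classical
  set box := Finset.range (j * i0 + 1) ×ˢ (Finset.range (i0 + 1) ×ˢ (Finset.range (i0 + 1) ×ˢ
    Finset.range (i0 + 1))) with hbox
  have hcard : box.card = (j * i0 + 1) * ((i0 + 1) * ((i0 + 1) * (i0 + 1))) := by
    simp [hbox, Finset.card_product]
  refine (NN_fin ΛX ΛY hX hY box n (q := fun p L L' => ∃ (A : List (Pc hY T)) (P : Pc hY T)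
        (R : List BY) (A2 : Pc hX t) (P2 : Pc hX T2) (R2 : List BX),
        L' = fl hY T A ++ P.1 ++ R ∧ L = A2.1 ++ P2.1 ++ R2 ∧ A.length = j ∧
        (HT hY (fl hY T A) = j * T + p.1 ∧ HT hX A2.1 = t + p.2.2.1 ∧
          ∃ b ∈ A, Sm ΛY hY zY T i0 θ b) ∧
        HT hY P.1 = T + p.2.1 ∧ HT hX P2.1 = T2 + p.2.2.2 ∧ ¬ NL ΛY hY zY T θ P ∧
        Ev hX hY zX zY sX sY P2.1 P.1 (w + ((fl hY T A).map zY).sum - (A2.1.map zX).sum)
          (t + p.2.2.1) (j * T + p.1) lo hi) ?_).trans ?_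
  · rintro L L' _ _ ⟨A, P, R, A2, P2, R2, e1, e2, hA, hG, b1, b2, b3, hNL, hSm, hEv⟩
    have c1 := Gd_bound hY T i0 A hG
    rw [hA] at c1
    have c2 : T ≤ HP hY T P := P.2.1
    have c3 : t ≤ HP hX t A2 := A2.2.1
    have c4 : T2 ≤ HP hX T2 P2 := P2.2.1
    unfold HP at b1 b2 b3 c2 c3 c4
    refine ⟨(HT hY (fl hY T A) - j * T, HT hY P.1 - T, HT hX A2.1 - t, HT hX P2.1 - T2), ?_,
      A, P, R, A2, P2, R2, e1, e2, hA, ⟨?_, ?_, hSm⟩, ?_, ?_, hNL, ?_⟩
    · simp only [hbox, Finset.mem_product, Finset.mem_range]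
      omega
    · simp only; omega
    · simp only; omega
    · simp only; omega
    · simp only; omega
    · simp only
      rw [show j * T + (HT hY (fl hY T A) - j * T) = HT hY (fl hY T A) by omega,
        show t + (HT hX A2.1 - t) = HT hX A2.1 by omega]
      exact hEv
  · have key : ∀ p ∈ box, NN ΛX ΛY hX hY n (fun L L' => ∃ (A : List (Pc hY T)) (P : Pc hY T)
        (R : List BY) (A2 : Pc hX t) (P2 : Pc hX T2) (R2 : List BX),
        L' = fl hY T A ++ P.1 ++ R ∧ L = A2.1 ++ P2.1 ++ R2 ∧ A.length = j ∧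
        (HT hY (fl hY T A) = j * T + p.1 ∧ HT hX A2.1 = t + p.2.2.1 ∧
          ∃ b ∈ A, Sm ΛY hY zY T i0 θ b) ∧
        HT hY P.1 = T + p.2.1 ∧ HT hX P2.1 = T2 + p.2.2.2 ∧ ¬ NL ΛY hY zY T θ P ∧
        Ev hX hY zX zY sX sY P2.1 P.1 (w + ((fl hY T A).map zY).sum - (A2.1.map zX).sum)
          (t + p.2.2.1) (j * T + p.1) lo hi)
        ≤ C * (lam + (2 * (j * (i0 + 1)) : ℕ) * us s / lam + us s) := by
      rintro ⟨p1, p2, p3, p4⟩ hp
      simp only [hbox, Finset.mem_product, Finset.mem_range] at hp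
      simp only
      obtain ⟨E, hE1, hE2⟩ := exists_E ΛY hY zY T h1Y hΛY θ hθ (T + p2)
      set y : Pc hX t → List (Pc hY T) → G :=
        fun A2 A => w + ((fl hY T A).map zY).sum - (A2.1.map zX).sum with hy
      set χ : Pc hX t → List (Pc hY T) → Prop := fun A2 A =>
        HT hY (fl hY T A) = j * T + p1 ∧ HT hX A2.1 = t + p3 ∧
          ∃ b ∈ A, Sm ΛY hY zY T i0 θ b with hχ
      set ψ : G → Pc hX T2 → Pc hY T → Prop := fun x P2 P =>
        HT hX P2.1 = T2 + p4 ∧ HT hY P.1 = T + p2 ∧ (P.1.map zY).sum ∈ E ∧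
          Ev hX hY zX zY sX sY P2.1 P.1 x (t + p3) (j * T + p1) lo hi with hψ
      refine (NN_exists ΛX ΛY hX hY hUX hUY n
        (fun k : Pc hX t × Pc hX T2 => k.1.1 ++ k.2.1)
        (fun i : List (Pc hY T) × Pc hY T => fl hY T i.1 ++ i.2.1)
        (fun k i => i.1.length = j ∧ (χ k.1 i.1 ∧ ψ (y k.1 i.1) k.2 i.2)) ?_).trans ?_
      · rintro L L' _ _ ⟨A, P, R, A2, P2, R2, e1, e2, hA, hc, f1, f2, hNL, hEv⟩
        refine ⟨(A2, P2), (A, P), R2, R, e2, e1, hA, hc, f2, f1, ?_, hEv⟩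
        apply hE1
        have : ¬ (pl ΛY hY zY T (HP hY T P, DP hY zY T P) < θ) := hNL
        rw [not_lt] at this
        rw [← f1]
        exact this
      · have er := reorder2 (LP ΛX hX t) (LP ΛX hX T2) (wL ΛY hY T j) (LP ΛY hY T) y χ ψ
        calc _ = ∑' k : Pc hX t × Pc hX T2, ∑' i : List (Pc hY T) × Pc hY T,
                LP ΛX hX t k.1 * LP ΛX hX T2 k.2 * (wL ΛY hY T j i.1 * LP ΛY hY T i.2) *
                I (χ k.1 i.1 ∧ ψ (y k.1 i.1) k.2 i.2) := by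
              refine tsum_congr fun k => tsum_congr fun i => ?_
              rw [I_and (p := i.1.length = j), LW_append, LW_append, LW_fl, wL, LP, LP, LP]
              ring
          _ = _ := er
          _ ≤ ∑' x, (∑' A', ∑' A, LP ΛX hX t A' * (wL ΛY hY T j A *
                I (χ A' A ∧ y A' A = x))) * ∑' L : List BX, ∑' L' : List BY, LW ΛX L *
                (LW ΛY L' * I (HT hX L = T2 + p4 ∧ HT hY L' = T + p2 ∧ (L'.map zY).sum ∈ E ∧
                Ev hX hY zX zY sX sY L L' x (t + p3) (j * T + p1) lo hi)) := by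
              refine ENNReal.tsum_le_tsum fun x => mul_le_mul_right ?_ _
              simp only [ENNReal.tsum_mul_left]
              refine le_trans ?_ (pieces_le ΛX hX T2 (fun L => ∑' L' : List BY,
                (LW ΛY L' * I (HT hX L = T2 + p4 ∧ HT hY L' = T + p2 ∧ (L'.map zY).sum ∈ E ∧
                Ev hX hY zX zY sX sY L L' x (t + p3) (j * T + p1) lo hi))))
              refine ENNReal.tsum_le_tsum fun P2 => mul_le_mul_right ?_ _
              exact pieces_le ΛY hY T (fun L' => I (HT hX P2.1 = T2 + p4 ∧ HT hY L' = T + p2 ∧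
                (L'.map zY).sum ∈ E ∧
                Ev hX hY zX zY sX sY P2.1 L' x (t + p3) (j * T + p1) lo hi))
          _ ≤ C * (lam + ((j * (i0 + 1) : ℕ) * (2 * θ)) * E.card * us s / lam + us s) := by
              refine H s (T2 + p4) (T + p2) (t + p3) (j * T + p1) lo hi E _ _ lam ?_ ?_ hl hl'
                ?_ ?_ ?_ ?_ ?_
              · exact mu2_mass _ _ (mass_fp ΛX hX h1X hΛX t)
                  (wL_mass ΛY hY T h1Y hΛY j).le y χ
              · intro x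
                refine mu2_supB _ _ (mass_fp ΛX hX h1X hΛX t) y χ _ x ?_
                intro A'
                have hd := dens (LP ΛY hY T) (DP hY zY T) (mass_fp_eq ΛY hY h1Y hΛY T)
                  (Sm ΛY hY zY T i0 θ) ((i0 + 1 : ℕ) * (2 * θ))
                  (small_dens ΛY hY zY T i0 θ) j (x - w + (A'.1.map zX).sum)
                refine le_trans ?_ (hd.trans (le_of_eq (by push_cast; ring)))
                rw [← wL_SL]
                refine ENNReal.tsum_le_tsum fun A => mul_le_mul_right ?_ _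
                by_cases hcc : χ A' A ∧ y A' A = x
                · rw [I_pos hcc, if_pos]
                  refine ⟨hcc.1.2.2, ?_⟩
                  have h5 : w + ((fl hY T A).map zY).sum - (A'.1.map zX).sum = x := hcc.2
                  rw [← fl_sum, ← h5]
                  abel
                · rw [I_neg hcc]; exact zero_le
              · omega
              · omega
              · omega
              · omega
              · omega
          _ ≤ _ := by
              refine mul_le_mul_right (add_le_add (add_le_add le_rfl ?_) le_rfl) _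
              exact card_bound _ θ _ _ _ (j * (i0 + 1)) hE2 rfl
    calc _ ≤ ∑ _p ∈ box, C * (lam + (2 * (j * (i0 + 1)) : ℕ) * us s / lam + us s) :=
          Finset.sum_le_sum key
      _ = _ := by rw [Finset.sum_const, hcard, nsmul_eq_mul]

end Win

end Crest.Agent.R154.Asm10
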