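import Crest.Agent.R154.AsmF_15
import Crest.Agent.R154.NumAsm_334

/-! Row 154, ROAD 801 (helper15): **the assembly**, sum over the windows. -/

set_option autoImplicit false

namespace Crest.Agent.R154.Asm15

open scoped ENNReal Classical Topology
open Finset Filter
open Crest.Agent.R154.B5A Crest.Agent.R154.FP178

/-- quantile and density for one walker -/
lemma data_one {B G : Type*} [AddCommGroup G] (Λ : B → ℝ≥0∞) (ht : B → ℕ) (dz : B → G)
    (h1 : ∀ b, 1 ≤ ht b) (hΛ : ∑' b, Λ b = 1) (τ i0 J : ℕ) (u ov : ℝ≥0∞) (hu0 : u ≠ 0)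
    (hu1 : u ≤ 1)
    (hov : ∑' L, (if fp ht τ L ∧ τ + i0 < HT ht L then LW Λ L else 0) ≤ ov) :
    ∃ th : ℝ≥0∞, th ≠ 0 ∧
      ∑' i, ∑' z, (if law Λ ht dz τ i z < th then law Λ ht dz τ i z else 0) ≤ u ∧
      ∀ a, J * (τ + i0) ≤ a →
        Sm (law Λ ht dz a) (th * (((i0 : ℝ≥0∞) + 1) * J)) ((1 - u) ^ J + ov * J) := by
  have hp : ∑' q : ℕ × G, law Λ ht dz τ q.1 q.2 = 1 := by
    rw [ENNReal.tsum_prod (f := fun i z => law Λ ht dz τ i z)]
    exact law_sum Λ ht dz h1 hΛ τ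
  obtain ⟨th, hth0, hth1, hq1, hq2⟩ := Dens903.quantile (fun q : ℕ × G => law Λ ht dz τ q.1 q.2)
    hp hu0 hu1
  have hut : u ≠ ⊤ := ne_top_of_le_ne_top ENNReal.one_ne_top hu1
  refine ⟨th, hth0, ?_, ?_⟩
  · rw [ENNReal.tsum_prod (f := fun i z =>
      if law Λ ht dz τ i z < th then law Λ ht dz τ i z else 0)] at hq1
    exact hq1
  · have hsplit : ∑' q : ℕ × G, (if law Λ ht dz τ q.1 q.2 ≤ th then law Λ ht dz τ q.1 q.2 else 0)
        + ∑' q : ℕ × G, (if th < law Λ ht dz τ q.1 q.2 then law Λ ht dz τ q.1 q.2 else 0)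
        = 1 := by
      rw [← ENNReal.tsum_add, ← hp]
      refine tsum_congr fun q => ?_
      by_cases h : law Λ ht dz τ q.1 q.2 ≤ th
      · rw [if_pos h, if_neg (not_lt.2 h), add_zero]
      · rw [if_neg h, if_pos (not_le.1 h), zero_add]
    have hNG : ∑ i ∈ range (i0 + 1), ∑' z,
        (if th < law Λ ht dz τ i z then law Λ ht dz τ i z else 0) ≤ 1 - u := by
      refine (ENNReal.sum_le_tsum _).trans ?_
      rw [← ENNReal.tsum_prod (f := fun i z =>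
        if th < law Λ ht dz τ i z then law Λ ht dz τ i z else 0)]
      refine ENNReal.le_sub_of_add_le_right hut ?_
      calc _ ≤ ∑' q : ℕ × G, (if th < law Λ ht dz τ q.1 q.2 then law Λ ht dz τ q.1 q.2 else 0)
            + ∑' q : ℕ × G, (if law Λ ht dz τ q.1 q.2 ≤ th then law Λ ht dz τ q.1 q.2 else 0) :=
            add_le_add le_rfl hq2
        _ = 1 := by rw [add_comm]; exact hsplit
        _ ≤ 1 := le_rfl
    have hgeo : ∑ j ∈ range J, ((1 : ℝ≥0∞) - u) ^ j ≤ J := by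
      calc _ ≤ ∑ j ∈ range J, (1 : ℝ≥0∞) :=
            sum_le_sum fun j _ => pow_le_one₀ zero_le tsub_le_self
        _ = J := by simp
    intro a ha
    obtain ⟨g, b, hg1, hg2, hg3⟩ := law_dens Λ ht dz h1 hΛ τ i0 th (1 - u) ov hov hNG J a ha
    refine ⟨g, b, hg1, fun l z => (hg2 l z).trans ?_, hg3.trans ?_⟩
    · calc ((i0 : ℝ≥0∞) + 1) * th * ∑ j ∈ range J, (1 - u) ^ j ≤ (i0 + 1) * th * J :=
            mul_le_mul_right hgeo _
        _ = _ := by ring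
    · exact add_le_add le_rfl (mul_le_mul_right hgeo _)

section assembly

variable {BX BY G : Type*} [AddCommGroup G]
  (ΛX : BX → ℝ≥0∞) (hX : BX → ℕ) (zX : BX → G) (sX : BX → Set (G × ℕ))
  (ΛY : BY → ℝ≥0∞) (hY : BY → ℕ) (zY : BY → G) (sY : BY → Set (G × ℕ))

/-- **THE ASSEMBLY**: the weight of the pairs with a contact at depth in `(m, 2m]` is small. -/
theorem kapS (us : ℕ → ℝ≥0∞) (C : ℝ≥0∞) (hC : C ≠ ⊤) (hus : Tendsto us atTop (𝓝 0))
    (h1X : ∀ b, 1 ≤ hX b) (hΛX : ∑' b, ΛX b = 1) (h1Y : ∀ b, 1 ≤ hY b) (hΛY : ∑' b, ΛY b = 1)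
    (hUX : ∀ n, U ΛX hX n ≤ 1) (hUY : ∀ n, U ΛY hY n ≤ 1)
    (hEX : ∑' b, ΛX b * (hX b : ℝ≥0∞) ≠ ⊤) (hEY : ∑' b, ΛY b * (hY b : ℝ≥0∞) ≠ ⊤)
    (hdX : ∀ b, ∀ q ∈ sX b, 1 ≤ q.2 ∧ q.2 ≤ hX b)
    (hdY : ∀ b, ∀ q ∈ sY b, 1 ≤ q.2 ∧ q.2 ≤ hY b)
    (hH2 : H2 ΛX hX zX sX ΛY hY zY sY us C) (hH3 : H3 ΛX hX zX sX ΛY hY zY sY us C)
    (W : G → Prop)
    (hPt : ∀ ε : ℝ≥0∞, ε ≠ 0 → ∃ k0 : ℕ, ∀ k, k0 ≤ k → ∀ n, k ≤ n → ∀ w, W w →
      PtW ΛX hX zX sX ΛY hY zY sY n k w ≤ ε) :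
    ∀ ε : ℝ≥0∞, ε ≠ 0 → ∃ M : ℕ, ∀ m, M ≤ m → ∃ n0, ∀ n, n0 ≤ n → ∀ w, W w →
      WinW ΛX hX zX sX ΛY hY zY sY n m (2 * m) w ≤ ε := by
  intro ε hε
  have tX : Tendsto (fun i => ∑' k, tail ΛX hX (i + k)) atTop (𝓝 0) := by
    have h := ENNReal.tendsto_sum_nat_add (fun k => tail ΛX hX k)
      (by rw [← sum_tail ΛX hX hΛX]; exact hEX)
    refine h.congr fun i => tsum_congr fun k => ?_
    rw [add_comm]
  have tY : Tendsto (fun i => ∑' k, tail ΛY hY (i + k)) atTop (𝓝 0) := by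
    have h := ENNReal.tendsto_sum_nat_add (fun k => tail ΛY hY k)
      (by rw [← sum_tail ΛY hY hΛY]; exact hEY)
    refine h.congr fun i => tsum_congr fun k => ?_
    rw [add_comm]
  set ovf : ℕ → ℝ≥0∞ := fun i => ∑' k, tail ΛX hX (i + k) + ∑' k, tail ΛY hY (i + k) with hovf
  have tov : Tendsto ovf atTop (𝓝 0) := by
    have := tX.add tY
    rwa [add_zero] at this
  obtain ⟨K, hK8, u, hu0, hu1, i0, lam, η, hl0, hlt, hη, s, hmain⟩ :=
    Num334.num hC hus tov hε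
  set Q := 4 * K + 8 with hQ
  set J := K / 8 with hJ
  set ov := ovf i0 with hov
  have hovX : ∀ a, ∑' L, (if fp hX a L ∧ a + i0 < HT hX L then LW ΛX L else 0) ≤ ov := fun a =>
    (overshoot ΛX hX h1X hUX i0 a).trans le_self_add
  have hovY : ∀ a, ∑' L, (if fp hY a L ∧ a + i0 < HT hY L then LW ΛY L else 0) ≤ ov := fun a =>
    (overshoot ΛY hY h1Y hUY i0 a).trans le_add_self
  set N : ℕ := 2 * s + 5 * i0 with hN
  set η' : ℝ≥0∞ := η / ((N : ℝ≥0∞) + 1) with hη'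
  have hN1 : ((N : ℝ≥0∞) + 1) ≠ ⊤ := ENNReal.add_ne_top.2 ⟨ENNReal.natCast_ne_top N, ENNReal.one_ne_top⟩
  have hη'0 : η' ≠ 0 := (ENNReal.div_pos hη hN1).ne'
  have hNη : (N : ℝ≥0∞) * η' ≤ η := by
    calc (N : ℝ≥0∞) * η' ≤ ((N : ℝ≥0∞) + 1) * η' := mul_le_mul_left le_self_add _
      _ = η := by
        rw [hη', ENNReal.mul_div_cancel (by simp) hN1]
  obtain ⟨k0, hk0⟩ := hPt η' hη'0
  refine ⟨2 * (J * (1 + 2 * s + 4 * i0) + 3 * i0 + s + k0), fun m hm => ?_⟩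
  set t := m / Q + 1 with ht
  set τ := t + 2 * s + 3 * i0 with hτ
  refine ⟨m + Q * t + τ + 2 * i0 + s, fun n hn w hw => ?_⟩
  have hQ0 : 0 < Q := by omega
  have ht0 : 0 < t := Nat.succ_pos _
  have hJQ : 2 * (J * (m / Q)) ≤ m := by
    have h1 : 2 * J ≤ Q := by omega
    calc 2 * (J * (m / Q)) = (2 * J) * (m / Q) := by ring
      _ ≤ Q * (m / Q) := Nat.mul_le_mul_right _ h1
      _ ≤ m := Nat.mul_div_le m Q
  have hJτ : J * (τ + i0) + 3 * i0 + s ≤ m := by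
    have e : J * (τ + i0) = J * (m / Q) + J * (1 + 2 * s + 4 * i0) := by
      rw [hτ, ht]; ring
    omega
  have hk0m : k0 + 3 * i0 + s ≤ m := by
    have := Nat.zero_le (J * (1 + 2 * s + 4 * i0))
    omega
  have hcov : m < Q * t := by
    rw [ht]
    exact Nat.lt_mul_div_succ m hQ0
  obtain ⟨thX, hthX, hqX, hsX⟩ := data_one ΛX hX zX h1X hΛX τ i0 J u ov hu0 hu1 (hovX τ)
  obtain ⟨thY, hthY, hqY, hsY⟩ := data_one ΛY hY zY h1Y hΛY τ i0 J u ov hu0 hu1 (hovY τ)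
  set K0 : ℝ≥0∞ := ((i0 : ℝ≥0∞) + 1) * J with hK0
  set δ : ℝ≥0∞ := (1 - u) ^ J + ov * J with hδ
  -- one window
  have hwin : ∀ j ∈ range Q, WinW ΛX hX zX sX ΛY hY zY sY n (m + j * t) (m + (j + 1) * t) w
      ≤ N * η' + (4 * ov +
        (u * u + 2 * ((i0 + 1) ^ 4 * (C * (lam + K0 * us s / lam + us s)) + δ))) := by
    intro j hj
    have hj' := mem_range.1 hj
    have hjt : (j + 1) * t = j * t + t := by ring
    have hjQ : (j + 1) * t ≤ Q * t := Nat.mul_le_mul_right _ hj'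
    have hmj : m ≤ m + j * t := Nat.le_add_right _ _
    set lo := m + j * t with hlo
    have hhi : m + (j + 1) * t = lo + t := by rw [hlo, hjt]; ring
    rw [hhi]
    have hα : J * (τ + i0) ≤ lo - 3 * i0 - s := by omega
    have hcard : (Ioc (lo - 3 * i0 - s) lo ∪ Ioc (lo + t) (lo - 3 * i0 - s + τ + 2 * i0)).card
        ≤ N := by
      refine (card_union_le _ _).trans ?_
      rw [Nat.card_Ioc, Nat.card_Ioc]
      omega
    refine (window ΛX hX zX sX ΛY hY zY sY us C h1X hΛX h1Y hΛY hUX hUY hdX hdY hH2 hH3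
      i0 s (lo - 3 * i0 - s) (lo - i0 - s) τ lo (lo + t) n (by omega) (by omega) (by omega)
      (by omega) thX thY hthX hthY K0 u δ ov η' hovX hovY hqX hqY (hsX _ hα)
      (hsY _ (by omega)) lam hl0 hlt w ?_).trans ?_
    · intro k hk
      rw [mem_union, mem_Ioc, mem_Ioc] at hk
      refine hk0 k (by omega) n (by omega) w hw
    · refine add_le_add (mul_le_mul_left ?_ _) le_rfl
      exact_mod_cast hcard
  -- the windows cover
  have hsum : WinW ΛX hX zX sX ΛY hY zY sY n m (2 * m) w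
      ≤ ∑ j ∈ range Q, WinW ΛX hX zX sX ΛY hY zY sY n (m + j * t) (m + (j + 1) * t) w := by
    simp only [WinW]
    rw [← Summable.tsum_finsetSum (fun _ _ => ENNReal.summable)]
    refine ENNReal.tsum_le_tsum fun L => ?_
    rw [← Summable.tsum_finsetSum (fun _ _ => ENNReal.summable)]
    refine ENNReal.tsum_le_tsum fun L' => ?_
    by_cases hc : HT hX L = n ∧ HT hY L' = n ∧ (∃ k, m < k ∧ k ≤ 2 * m ∧
        ∃ z, (z, k) ∈ TT hX zX sX L 0 0 ∧ (z, k) ∈ TT hY zY sY L' w 0)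
    · rw [if_pos hc]
      obtain ⟨hL, hL', k, hk1, hk2, hz⟩ := hc
      have hj1 : (k - m - 1) / t < Q := by
        rw [Nat.div_lt_iff_lt_mul ht0]
        omega
      have hj2 : (k - m - 1) / t * t ≤ k - m - 1 := Nat.div_mul_le_self _ _
      have hj3 : k - m - 1 < ((k - m - 1) / t + 1) * t := by
        rw [mul_comm]
        exact Nat.lt_mul_div_succ _ ht0
      refine le_trans ?_ (single_le_sum (f := fun j => (if HT hX L = n ∧ HT hY L' = n ∧
        (∃ k, m + j * t < k ∧ k ≤ m + (j + 1) * t ∧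
          ∃ z, (z, k) ∈ TT hX zX sX L 0 0 ∧ (z, k) ∈ TT hY zY sY L' w 0)
        then LW ΛX L * LW ΛY L' else 0)) (fun _ _ => zero_le) (mem_range.2 hj1))
      rw [if_pos ⟨hL, hL', k, by omega, by omega, hz⟩]
    · rw [if_neg hc]; exact zero_le
  have hJK : (J : ℝ≥0∞) ≤ K := by
    have : J ≤ K := by omega
    exact_mod_cast this
  have hinv : (1 : ℝ≥0∞) ≤ 1 / u := by
    rw [one_div]
    exact ENNReal.one_le_inv.2 hu1
  have hK0le : K0 ≤ K * ((i0 : ℝ≥0∞) + 1) / u := by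
    calc K0 = J * ((i0 : ℝ≥0∞) + 1) * 1 := by rw [hK0]; ring
      _ ≤ K * ((i0 : ℝ≥0∞) + 1) * (1 / u) := by gcongr
      _ = _ := by rw [mul_one_div]
  have hδle : δ ≤ (1 - u) ^ J + K * ov / u := by
    rw [hδ]
    refine add_le_add le_rfl ?_
    calc ov * J = J * ov * 1 := by ring
      _ ≤ K * ov * (1 / u) := by gcongr
      _ = _ := by rw [mul_one_div]
  calc WinW ΛX hX zX sX ΛY hY zY sY n m (2 * m) w ≤ _ := hsum
    _ ≤ ∑ j ∈ range Q, (N * η' + (4 * ov +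
        (u * u + 2 * ((i0 + 1) ^ 4 * (C * (lam + K0 * us s / lam + us s)) + δ)))) :=
        sum_le_sum hwin
    _ = (4 * (K : ℝ≥0∞) + 8) * (N * η' + (4 * ov +
        (u * u + 2 * ((i0 + 1) ^ 4 * (C * (lam + K0 * us s / lam + us s)) + δ)))) := by
        simp only [sum_const, card_range, nsmul_eq_mul, hQ]
        push_cast
        ring
    _ ≤ (4 * (K : ℝ≥0∞) + 8) * (4 * ov + 4 * η + u ^ 2
        + 2 * ((1 - u) ^ J + K * ov / u)
        + 2 * ((i0 : ℝ≥0∞) + 1) ^ 4 *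
          (C * (lam + (K * ((i0 : ℝ≥0∞) + 1) / u) * us s / lam + us s))) := by
        refine mul_le_mul_right ?_ _
        calc _ ≤ 4 * η + (4 * ov + (u * u + 2 * ((i0 + 1) ^ 4 *
              (C * (lam + (K * ((i0 : ℝ≥0∞) + 1) / u) * us s / lam + us s))
              + ((1 - u) ^ J + K * ov / u)))) := by
              refine add_le_add (hNη.trans ?_) ?_
              · calc η = 1 * η := (one_mul η).symm
                  _ ≤ 4 * η := by gcongr; norm_num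
              · gcongr
          _ = _ := by ring
    _ ≤ ε := hmain

end assembly

end Crest.Agent.R154.Asm15
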