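import Crest.Agent.R154.AsmF_201
import Crest.Agent.R154.Dens_903

/-! Row 154, ROAD 801: sum over the windows, constants (helper201). -/

set_option autoImplicit false

namespace Crest.Agent.R154.Asm201

open scoped ENNReal Classical
open Filter Topology Crest.Agent.R154.B5A

lemma num (ε : ℝ≥0∞) (hε : ε ≠ 0) : ∃ (J : ℕ) (u : ℝ≥0∞), 1 ≤ J ∧ u ≠ 0 ∧ u ≤ 1 ∧
    ((3 * J + 1 : ℕ) : ℝ≥0∞) * (u * u + ((1 - u) ^ J + (1 - u) ^ J)) ≤ ε := by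
  obtain ⟨δ, hδ0, hδ⟩ : ∃ δ : ℝ, 0 < δ ∧ ENNReal.ofReal δ ≤ ε := by
    rcases eq_or_ne ε ⊤ with h | h
    · exact ⟨1, one_pos, by rw [h]; exact le_top⟩
    · exact ⟨ε.toReal, ENNReal.toReal_pos hε h, by rw [ENNReal.ofReal_toReal h]⟩
  have t1 : Tendsto (fun r : ℕ => 4 / (r : ℝ) ^ 2 + 8 * ((r : ℝ) ^ 4 * Real.exp (-(r : ℝ)))) atTop
      (𝓝 (0 + 8 * 0)) := by
    refine Tendsto.add ?_ (Tendsto.const_mul _ ?_)
    · exact (tendsto_const_nhds.div_atTop (tendsto_pow_atTop (by norm_num))).comp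
        tendsto_natCast_atTop_atTop
    · exact (Real.tendsto_pow_mul_exp_neg_atTop_nhds_zero 4).comp tendsto_natCast_atTop_atTop
  rw [mul_zero, add_zero] at t1
  obtain ⟨r, hr, hr1⟩ := ((t1.eventually (gt_mem_nhds hδ0)).and (eventually_ge_atTop 1)).exists
  have hr0 : (1 : ℝ) ≤ (r : ℝ) := by exact_mod_cast hr1
  have hrp : (0 : ℝ) < r := by linarith
  set x : ℝ := 1 / (r : ℝ) ^ 3 with hx
  have hx0 : 0 < x := by positivity
  have hx1 : x ≤ 1 := by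
    rw [hx, div_le_one (by positivity)]
    exact one_le_pow₀ hr0
  refine ⟨r ^ 4, ENNReal.ofReal x, Nat.one_le_pow _ _ hr1, ?_, ?_, ?_⟩
  · simpa using hx0
  · simpa using hx1
  have e1 : (1 : ℝ≥0∞) - ENNReal.ofReal x = ENNReal.ofReal (1 - x) := by
    rw [ENNReal.ofReal_sub 1 hx0.le, ENNReal.ofReal_one]
  have h1x : 0 ≤ 1 - x := by linarith
  have e2 : ((3 * r ^ 4 + 1 : ℕ) : ℝ≥0∞) = ENNReal.ofReal (3 * (r : ℝ) ^ 4 + 1) := by
    rw [← ENNReal.ofReal_natCast]; push_cast; rfl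
  rw [e1, e2, ← ENNReal.ofReal_pow h1x, ← ENNReal.ofReal_mul hx0.le,
    ← ENNReal.ofReal_add (by positivity) (by positivity),
    ← ENNReal.ofReal_add (by positivity) (by positivity), ← ENNReal.ofReal_mul (by positivity)]
  refine le_trans (ENNReal.ofReal_le_ofReal ?_) hδ
  refine le_trans ?_ hr.le
  have hexp : (1 - x) ^ (r ^ 4) ≤ Real.exp (-(r : ℝ)) := by
    calc (1 - x) ^ (r ^ 4) ≤ (Real.exp (-x)) ^ (r ^ 4) :=
          pow_le_pow_left₀ h1x (Real.one_sub_le_exp_neg x) _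
      _ = Real.exp (-(r : ℝ)) := by
          rw [← Real.exp_nat_mul]
          congr 1
          rw [hx]; push_cast; field_simp
  have hr4 : (1 : ℝ) ≤ (r : ℝ) ^ 4 := one_le_pow₀ hr0
  have hxx : (3 * (r : ℝ) ^ 4 + 1) * (x * x) ≤ 4 / (r : ℝ) ^ 2 := by
    calc _ ≤ (4 * (r : ℝ) ^ 4) * (x * x) := by
          apply mul_le_mul_of_nonneg_right (by linarith) (by positivity)
      _ = 4 / (r : ℝ) ^ 2 := by rw [hx]; field_simp
  have hee : (3 * (r : ℝ) ^ 4 + 1) * ((1 - x) ^ (r ^ 4) + (1 - x) ^ (r ^ 4))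
      ≤ 8 * ((r : ℝ) ^ 4 * Real.exp (-(r : ℝ))) := by
    calc _ ≤ (4 * (r : ℝ) ^ 4) * (Real.exp (-(r : ℝ)) + Real.exp (-(r : ℝ))) := by
          apply mul_le_mul (by linarith) (by linarith) (by positivity) (by positivity)
      _ = _ := by ring
  calc _ = (3 * (r : ℝ) ^ 4 + 1) * (x * x) +
        (3 * (r : ℝ) ^ 4 + 1) * ((1 - x) ^ (r ^ 4) + (1 - x) ^ (r ^ 4)) := by ring
    _ ≤ _ := add_le_add hxx hee

lemma ex_of_tendsto {f : ℕ → ℝ≥0∞} (h : Tendsto f atTop (𝓝 0)) {ε : ℝ≥0∞} (hε : ε ≠ 0) (N : ℕ) :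
    ∃ k, N ≤ k ∧ f k ≤ ε := by
  obtain ⟨k, h1, h2⟩ := ((h.eventually (gt_mem_nhds (pos_iff_ne_zero.2 hε))).and
    (eventually_ge_atTop N)).exists
  exact ⟨k, h2, h1.le⟩

section two

variable {BX BY G : Type*} [AddCommGroup G]
  (ΛX : BX → ℝ≥0∞) (ΛY : BY → ℝ≥0∞) (hX : BX → ℕ) (hY : BY → ℕ) (zX : BX → G) (zY : BY → G)
  (sX : BX → Set (G × ℕ)) (sY : BY → Set (G × ℕ))

lemma win_sum (n : ℕ) (w : G) (m t K : ℕ) (ht : 0 < t) (hm : m ≤ K * t) :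
    Win ΛX ΛY hX hY zX zY sX sY n w m m
      ≤ ∑ j ∈ Finset.range K, Win ΛX ΛY hX hY zX zY sX sY n w (m + j * t) t := by
  unfold Win
  have e : ∑ j ∈ Finset.range K, ∑' L : List BX, ∑' L' : List BY,
    (if HT hX L = n ∧ HT hY L' = n ∧
      (∀ g k, Ct hX hY zX zY sX sY L L' w 0 0 g k → m + j * t < k) ∧
      (∃ g k, Ct hX hY zX zY sX sY L L' w 0 0 g k ∧ k ≤ m + j * t + t)
        then LW ΛX L * LW ΛY L' else 0)
    = ∑' L : List BX, ∑' L' : List BY, ∑ j ∈ Finset.range K,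
    (if HT hX L = n ∧ HT hY L' = n ∧
      (∀ g k, Ct hX hY zX zY sX sY L L' w 0 0 g k → m + j * t < k) ∧
      (∃ g k, Ct hX hY zX zY sX sY L L' w 0 0 g k ∧ k ≤ m + j * t + t)
        then LW ΛX L * LW ΛY L' else 0) := by
    rw [← Summable.tsum_finsetSum fun _ _ => ENNReal.summable]
    refine tsum_congr fun L => ?_
    rw [← Summable.tsum_finsetSum fun _ _ => ENNReal.summable]
  rw [e]
  refine ENNReal.tsum_le_tsum fun L => ENNReal.tsum_le_tsum fun L' => ?_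
  by_cases hc : HT hX L = n ∧ HT hY L' = n ∧
      (∀ g k, Ct hX hY zX zY sX sY L L' w 0 0 g k → m < k) ∧
      (∃ g k, Ct hX hY zX zY sX sY L L' w 0 0 g k ∧ k ≤ m + m)
  swap
  · rw [if_neg hc]; exact zero_le
  rw [if_pos hc]
  obtain ⟨c1, c2, c3, g, k, hk, hkm⟩ := hc
  have hex : ∃ k, ∃ g, Ct hX hY zX zY sX sY L L' w 0 0 g k := ⟨k, g, hk⟩
  obtain ⟨g0, hg0⟩ := Nat.find_spec hex
  set k0 := Nat.find hex with hk0
  have hmin : ∀ g k, Ct hX hY zX zY sX sY L L' w 0 0 g k → k0 ≤ k := fun g k h =>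
    Nat.find_min' hex ⟨g, h⟩
  have h1 := c3 g0 k0 hg0
  have h2 := hmin g k hk
  have h3 := Nat.div_add_mod (k0 - m - 1) t
  have h4 := Nat.mod_lt (k0 - m - 1) ht
  set j := (k0 - m - 1) / t with hj
  have hjK : j < K := by
    rw [hj, Nat.div_lt_iff_lt_mul ht]
    omega
  refine le_trans ?_ (Finset.single_le_sum (f := fun j =>
    (if HT hX L = n ∧ HT hY L' = n ∧
      (∀ g k, Ct hX hY zX zY sX sY L L' w 0 0 g k → m + j * t < k) ∧
      (∃ g k, Ct hX hY zX zY sX sY L L' w 0 0 g k ∧ k ≤ m + j * t + t)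
        then LW ΛX L * LW ΛY L' else 0)) (fun _ _ => zero_le) (Finset.mem_range.2 hjK))
  rw [mul_comm t j] at h3
  rw [if_pos]
  refine ⟨c1, c2, fun g k h => ?_, g0, k0, hg0, ?_⟩
  · have := hmin g k h
    omega
  · omega

theorem kapS (h1X : ∀ b, 1 ≤ hX b) (h1Y : ∀ b, 1 ≤ hY b) (hΛX : ∑' b, ΛX b = 1)
    (hΛY : ∑' b, ΛY b = 1) (hmX : ∑' b, ΛX b * (hX b : ℝ≥0∞) ≠ ⊤)
    (hmY : ∑' b, ΛY b * (hY b : ℝ≥0∞) ≠ ⊤) (hsX : ∀ b, ∀ q ∈ sX b, 1 ≤ q.2 ∧ q.2 ≤ hX b)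
    (hsY : ∀ b, ∀ q ∈ sY b, 1 ≤ q.2 ∧ q.2 ≤ hY b) (C : ℝ≥0∞) (hC : C ≠ ⊤) (us : ℕ → ℝ≥0∞)
    (hus : Tendsto us atTop (𝓝 0))
    (hH2 : H2 ΛX ΛY hX hY zX zY sX sY C us) (hH3 : H3 ΛX ΛY hX hY zX zY sX sY C us)
    (hH5 : ∀ (s : ℕ) (η : ℝ≥0∞), η ≠ 0 → ∃ T, ∀ a, T ≤ a → ∀ n w,
      ∑' L : List BX, ∑' L' : List BY, (if HT hX L = n ∧ HT hY L' = n ∧
        ∃ g k, a ≤ k ∧ k < a + s ∧ Ct hX hY zX zY sX sY L L' w 0 0 g k
        then LW ΛX L * LW ΛY L' else 0) ≤ η)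
    (ε : ℝ≥0∞) (hε : ε ≠ 0) : ∃ M : ℕ, ∀ m, M ≤ m → ∃ n0, ∀ n, n0 ≤ n → ∀ w,
      Win ΛX ΛY hX hY zX zY sX sY n w m m ≤ ε := by
  have hε5 : ε / 5 ≠ 0 := by simp [hε]
  obtain ⟨J, u, hJ, hu0, hu1, n1⟩ := num (ε / 5) hε5
  set N : ℝ≥0∞ := ((3 * J + 1 : ℕ) : ℝ≥0∞) with hN
  have hNt : N ≠ ⊤ := ENNReal.natCast_ne_top _
  have hN0 : N ≠ 0 := by rw [hN]; simp
  have eX := e1_tendsto hX ΛX hΛX hmX
  have eY := e1_tendsto hY ΛY hΛY hmY
  have tt : Tendsto (fun i0 => N * (2 * e1 hX ΛX i0 + 2 * e1 hY ΛY i0 +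
      (J * e1 hX ΛX i0 + J * e1 hY ΛY i0))) atTop (𝓝 (N * (2 * 0 + 2 * 0 + (J * 0 + J * 0)))) := by
    refine ENNReal.Tendsto.const_mul ?_ (Or.inr hNt)
    refine Tendsto.add (Tendsto.add ?_ ?_) (Tendsto.add ?_ ?_)
    · exact ENNReal.Tendsto.const_mul eX (Or.inr (by simp))
    · exact ENNReal.Tendsto.const_mul eY (Or.inr (by simp))
    · exact ENNReal.Tendsto.const_mul eX (Or.inr (by simp))
    · exact ENNReal.Tendsto.const_mul eY (Or.inr (by simp))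
  simp only [mul_zero, add_zero] at tt
  obtain ⟨i0, -, n2⟩ := ex_of_tendsto tt hε5 0
  set P : ℝ≥0∞ := ((i0 : ℝ≥0∞) + 1) ^ 4 with hP
  have hPt : P ≠ ⊤ := by rw [hP]; exact ENNReal.pow_ne_top (by simp)
  have hDt : N * (2 * (P * C)) ≠ ⊤ :=
    ENNReal.mul_ne_top hNt (ENNReal.mul_ne_top (by simp) (ENNReal.mul_ne_top hPt hC))
  have tl : Tendsto (fun k : ℕ => N * (2 * (P * C)) * (k : ℝ≥0∞)⁻¹) atTop
      (𝓝 (N * (2 * (P * C)) * 0)) :=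
    ENNReal.Tendsto.const_mul ENNReal.tendsto_inv_nat_nhds_zero (Or.inr hDt)
  rw [mul_zero] at tl
  obtain ⟨k, hk1, n3⟩ := ex_of_tendsto tl hε5 1
  set lam : ℝ≥0∞ := (k : ℝ≥0∞)⁻¹ with hlam
  have hl0 : lam ≠ 0 := by rw [hlam]; simp
  have hlt : lam ≠ ⊤ := by
    rw [hlam]
    refine ENNReal.inv_ne_top.2 ?_
    exact_mod_cast (by omega : k ≠ 0)
  have hit : (J : ℝ≥0∞) * ((i0 : ℝ≥0∞) + 1) ≠ ⊤ := ENNReal.mul_ne_top (by simp) (by simp)
  have ts : Tendsto (fun s => N * (2 * (P * C)) *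
      ((J : ℝ≥0∞) * ((i0 : ℝ≥0∞) + 1) * us s / lam + us s)) atTop
      (𝓝 (N * (2 * (P * C)) * ((J : ℝ≥0∞) * ((i0 : ℝ≥0∞) + 1) * 0 / lam + 0))) := by
    refine ENNReal.Tendsto.const_mul ?_ (Or.inr hDt)
    refine Tendsto.add ?_ hus
    exact ENNReal.Tendsto.div_const (ENNReal.Tendsto.const_mul hus (Or.inr hit)) (Or.inr hl0)
  simp only [mul_zero, ENNReal.zero_div, add_zero] at ts
  obtain ⟨s, -, n4⟩ := ex_of_tendsto ts hε5 0
  have hη : ε / 5 / N ≠ 0 := by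
    rw [Ne, ENNReal.div_eq_zero_iff]; push Not; exact ⟨hε5, hNt⟩
  obtain ⟨T, hT⟩ := hH5 (s + 2 * i0) (ε / 5 / N) hη
  -- the threshold
  set t0 : ℕ := 4 * i0 + 2 * s + 3 * J + 1 with ht0
  refine ⟨3 * J * t0 + T, fun m hm => ?_⟩
  set t : ℕ := m / (3 * J) with ht
  have h3J : 0 < 3 * J := by omega
  have htt : t0 ≤ t := by
    rw [ht, Nat.le_div_iff_mul_le h3J, mul_comm]
    omega
  have hmt : 3 * J * t ≤ m := Nat.mul_div_le m (3 * J)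
  have hmt' : m < 3 * J * t + 3 * J := by
    have h5 := Nat.div_add_mod m (3 * J)
    have h6 := Nat.mod_lt m h3J
    rw [ht]
    omega
  refine ⟨m + 3 * J * t + 2 * t + 3 * i0, fun n hn w => ?_⟩
  have hcov : m ≤ (3 * J + 1) * t := by
    have : (3 * J + 1) * t = 3 * J * t + t := by ring
    omega
  obtain ⟨thX, a1, -, a3, a4⟩ := Dens903.quantile (V hX ΛX zX (2 * t)) (V_sum hX ΛX zX h1X hΛX _)
    hu0 hu1
  obtain ⟨thY, b1, -, b3, b4⟩ := Dens903.quantile (V hY ΛY zY (2 * t + i0))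
    (V_sum hY ΛY zY h1Y hΛY _) hu0 hu1
  refine (win_sum ΛX ΛY hX hY zX zY sX sY n w m t (3 * J + 1) (by omega) hcov).trans ?_
  have hwin : ∀ j ∈ Finset.range (3 * J + 1),
      Win ΛX ΛY hX hY zX zY sX sY n w (m + j * t) t ≤ ε / 5 / N +
      (2 * e1 hX ΛX i0 + 2 * e1 hY ΛY i0 + (u * u +
        (((1 - u) ^ J + J * e1 hX ΛX i0) + P *
          (C * (lam + (J * (i0 + 1)) * us s / lam + us s)) +
        (((1 - u) ^ J + J * e1 hY ΛY i0) + P *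
          (C * (lam + (J * (i0 + 1)) * us s / lam + us s)))))) := by
    intro j hj
    rw [Finset.mem_range] at hj
    have hjt : j * t ≤ 3 * J * t := Nat.mul_le_mul_right _ (by omega)
    have hJt : J * t0 ≤ J * t := Nat.mul_le_mul_left _ htt
    have hJ1 : J * (2 * t + 2 * i0) = 2 * (J * t) + 2 * (J * i0) := by ring
    have hJ2 : 3 * J * t = 3 * (J * t) := by ring
    have hJ3 : J * (4 * i0 + 2 * s) ≤ J * t0 := Nat.mul_le_mul_left _ (by omega)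
    have hJ4 : J * (4 * i0 + 2 * s) = 4 * (J * i0) + 2 * (J * s) := by ring
    have hJ5 : i0 ≤ J * i0 := Nat.le_mul_of_pos_left _ (by omega)
    have hJ6 : s ≤ J * s := Nat.le_mul_of_pos_left _ (by omega)
    have W := window ΛX ΛY hX hY zX zY sX sY h1X h1Y hΛX hΛY hsX hsY C us hH2 hH3 n
      (m + j * t - 2 * i0 - s) (2 * t) i0 (m + j * t) t (m + j * t - 2 * i0 - s + 2 * t - s) s J w
      u lam thX thY hu1 hl0 hlt a1 b1 a3 a4 b3 b4 (by omega) (by omega) (by omega) (by omega)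
      (by omega)
    refine W.trans (add_le_add ?_ le_rfl)
    refine le_trans (le_of_eq ?_) (hT (m + j * t - 2 * i0 - s + 2 * t - s + 1) (by omega) n w)
    unfold Slab
    refine tsum_congr fun L => tsum_congr fun L' => ?_
    congr 1
    simp only [eq_iff_iff]
    refine and_congr_right fun _ => and_congr_right fun _ => ?_
    refine exists_congr fun g => exists_congr fun k => ?_
    constructor
    · rintro ⟨h1, h2, h3⟩; exact ⟨by omega, by omega, h3⟩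
    · rintro ⟨h1, h2, h3⟩; exact ⟨by omega, by omega, h3⟩
  refine (Finset.sum_le_sum hwin).trans ?_
  rw [Finset.sum_const, Finset.card_range, nsmul_eq_mul, ← hN]
  have h5 : ε / 5 + (ε / 5 + (ε / 5 + (ε / 5 + ε / 5))) = ε := by
    have : ε / 5 + (ε / 5 + (ε / 5 + (ε / 5 + ε / 5))) = 5 * (ε / 5) := by ring
    rw [this]
    exact ENNReal.mul_div_cancel (by norm_num) (by norm_num)
  calc _ = N * (ε / 5 / N) + (N * (2 * e1 hX ΛX i0 + 2 * e1 hY ΛY i0 +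
          (J * e1 hX ΛX i0 + J * e1 hY ΛY i0)) +
        (N * (u * u + ((1 - u) ^ J + (1 - u) ^ J)) + (N * (2 * (P * C)) * lam +
        N * (2 * (P * C)) * ((J : ℝ≥0∞) * ((i0 : ℝ≥0∞) + 1) * us s / lam + us s)))) := by ring
    _ ≤ ε / 5 + (ε / 5 + (ε / 5 + (ε / 5 + ε / 5))) := by
        refine add_le_add ENNReal.mul_div_le (add_le_add n2 (add_le_add n1 (add_le_add n3 n4)))
    _ = ε := h5

end two

end Crest.Agent.R154.Asm201
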