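import Crest.Agent.R154.AsmF_222

/-! Row 154, road 801 (helper222): KAPPA' on block lists, final assembly. -/

set_option autoImplicit false
set_option linter.unusedSectionVars false

namespace Crest.Agent.R154.Asm222

open scoped ENNReal
open Crest.Agent.R154.B5A

variable {BX BY G : Type*} [AddCommGroup G]
variable (ΛX : BX → ℝ≥0∞) (hX : BX → ℕ) (zX : BX → G) (sX : BX → Set (G × ℕ))
variable (ΛY : BY → ℝ≥0∞) (hY : BY → ℕ) (zY : BY → G) (sY : BY → Set (G × ℕ))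

open Classical in
/-- union bound over the windows -/
lemma union (m t K' i0 s S n : ℕ) (w : G) (hK' : 1 ≤ K') (htm : t = m / K') (ht : K' ≤ t)
    (hS : S = s + 2 * i0) (hst : s ≤ t) :
    ∑' LX, ∑' LY, (if HT hX LX = n ∧ HT hY LY = n ∧ (∃ k z, m < k ∧ k ≤ 2 * m ∧
        (z, k) ∈ TT hX zX sX LX 0 0 ∧ (z, k) ∈ TT hY zY sY LY w 0)
        then LW ΛX LX * LW ΛY LY else 0)
      ≤ ∑ j ∈ Finset.range (K' + 1),
        ((∑' LX, ∑' LY, (if HT hX LX = n ∧ HT hY LY = n ∧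
          (∃ p, p ∈ TT hX zX sX LX 0 0 ∧ p ∈ TT hY zY sY LY w 0 ∧ (m + j * t - t) ≤ p.2 ∧
            p.2 ≤ (m + j * t - t) + S) then LW ΛX LX * LW ΛY LY else 0))
        + (∑' LX, ∑' LY, (if HT hX LX = n ∧ HT hY LY = n ∧
          (∃ p, p ∈ TT hX zX sX LX 0 0 ∧ p ∈ TT hY zY sY LY w 0 ∧
            (m + j * t - t + 3 * t - s) ≤ p.2 ∧ p.2 ≤ (m + j * t - t + 3 * t - s) + S)
            then LW ΛX LX * LW ΛY LY else 0))
        + (∑' LX, ∑' LY, (if HT hX LX = n ∧ HT hY LY = n ∧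
          EvW (TT hX zX sX LX 0 0) (TT hY zY sY LY w 0) (m + j * t - t) t i0 s
            then LW ΛX LX * LW ΛY LY else 0))) := by
  simp_rw [← ENNReal.tsum_add]
  rw [← Summable.tsum_finsetSum (fun _ _ => ENNReal.summable)]
  simp_rw [← Summable.tsum_finsetSum (fun _ _ => ENNReal.summable)]
  refine ENNReal.tsum_le_tsum fun LX => ENNReal.tsum_le_tsum fun LY => ?_
  by_cases hc : HT hX LX = n ∧ HT hY LY = n ∧ (∃ k z, m < k ∧ k ≤ 2 * m ∧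
        (z, k) ∈ TT hX zX sX LX 0 0 ∧ (z, k) ∈ TT hY zY sY LY w 0)
  · rw [if_pos hc]
    obtain ⟨g1, g2, k, z, g3, g4, g5, g6⟩ := hc
    obtain ⟨j, hj, j1, j2⟩ := cover m k t K' i0 s hK' htm ht g3 g4
    refine le_trans ?_ (Finset.single_le_sum (fun _ _ => zero_le) (Finset.mem_range.2 hj))
    by_cases s1 : ∃ p, p ∈ TT hX zX sX LX 0 0 ∧ p ∈ TT hY zY sY LY w 0 ∧ (m + j * t - t) ≤ p.2 ∧
            p.2 ≤ (m + j * t - t) + S
    · refine le_add_right (le_add_right ?_)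
      rw [if_pos ⟨g1, g2, s1⟩]
    · by_cases s2 : ∃ p, p ∈ TT hX zX sX LX 0 0 ∧ p ∈ TT hY zY sY LY w 0 ∧
            (m + j * t - t + 3 * t - s) ≤ p.2 ∧ p.2 ≤ (m + j * t - t + 3 * t - s) + S
      · refine le_add_right (le_add_left ?_)
        rw [if_pos ⟨g1, g2, s2⟩]
      · have hE : EvW (TT hX zX sX LX 0 0) (TT hY zY sY LY w 0) (m + j * t - t) t i0 s := by
          refine ⟨⟨(z, k), g5, g6, j1, j2⟩, fun p hp1 hp2 => ?_⟩
          push Not at s1 s2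
          have t1 := s1 p hp1 hp2
          have t2 := s2 p hp1 hp2
          constructor
          · by_contra hh
            push Not at hh
            have := t1 (by omega)
            omega
          · by_contra hh
            push Not at hh
            have := t2 (by omega)
            omega
        refine le_add_left ?_
        rw [if_pos ⟨g1, g2, hE⟩]
  · rw [if_neg hc]; exact zero_le

open Classical in
/-- **KAPPA' on block lists** -/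
theorem kapS (Wok : G → Prop) (h1X : ∀ b, 1 ≤ hX b) (h1Y : ∀ b, 1 ≤ hY b)
    (hΛX : ∑' b, ΛX b = 1) (hΛY : ∑' b, ΛY b = 1)
    (hUX : ∀ n, U ΛX hX n ≤ 1) (hUY : ∀ n, U ΛY hY n ≤ 1)
    (hEX : ∑' b, ΛX b * (hX b : ℝ≥0∞) ≠ ⊤) (hEY : ∑' b, ΛY b * (hY b : ℝ≥0∞) ≠ ⊤)
    (hsX : ∀ b, ∀ p ∈ sX b, 1 ≤ p.2 ∧ p.2 ≤ hX b)
    (hsY : ∀ b, ∀ p ∈ sY b, 1 ≤ p.2 ∧ p.2 ≤ hY b)
    (H2 : H2L ΛX hX zX sX ΛY hY zY sY) (H3 : H3L ΛX hX zX sX ΛY hY zY sY)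
    (hPt : PtL ΛX hX zX sX ΛY hY zY sY Wok) :
    ∀ ε : ℝ≥0∞, ε ≠ 0 → ∃ M : ℕ, ∀ m, M ≤ m → ∃ n0, ∀ n, n0 ≤ n → ∀ w, Wok w →
      ∑' LX, ∑' LY, (if HT hX LX = n ∧ HT hY LY = n ∧ (∃ k z, m < k ∧ k ≤ 2 * m ∧
        (z, k) ∈ TT hX zX sX LX 0 0 ∧ (z, k) ∈ TT hY zY sY LY w 0)
        then LW ΛX LX * LW ΛY LY else 0) ≤ ε := by
  intro ε hε
  -- a small unit
  obtain ⟨δ, hδ0, hδε⟩ : ∃ δ : ℝ≥0∞, δ ≠ 0 ∧ 8 * δ ≤ ε := by
    refine ⟨ε / 8, ENNReal.div_ne_zero.2 ⟨hε, by norm_num⟩, ?_⟩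
    rw [ENNReal.mul_div_cancel (by norm_num) (by norm_num)]
  obtain ⟨K, u, hK4, hu0, hu1, hA, hB⟩ := Num337.exKu δ hδ0
  set J := K / 4 with hJ
  have hJ1 : 1 ≤ J := by omega
  set Nw : ℕ := 4 * J + 2 with hNw
  have hNle : (Nw : ℝ≥0∞) ≤ ((4 * K + 8 : ℕ) : ℝ≥0∞) := by exact_mod_cast (by omega : Nw ≤ 4 * K + 8)
  have hut : u ≠ ⊤ := ne_top_of_lt hu1
  -- overshoot
  obtain ⟨iX, hiX⟩ := Num337.exSmall (ep ΛX hX) (ep_tendsto ΛX hX hΛX hEX)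
    ((Nw : ℝ≥0∞) * ((J + 2 : ℕ) : ℝ≥0∞)) (by finiteness) δ hδ0
  obtain ⟨iY, hiY⟩ := Num337.exSmall (ep ΛY hY) (ep_tendsto ΛY hY hΛY hEY)
    ((Nw : ℝ≥0∞) * ((J + 2 : ℕ) : ℝ≥0∞)) (by finiteness) δ hδ0
  set i0 := max iX iY with hi0
  have hepX := hiX i0 (le_max_left _ _)
  have hepY := hiY i0 (le_max_right _ _)
  -- lam, eta
  obtain ⟨C2, hC2, H2'⟩ := H2
  obtain ⟨C3, hC3, H3'⟩ := H3
  set D : ℝ≥0∞ := ((i0 + 1 : ℕ) : ℝ≥0∞) / u with hD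
  have hDt : D ≠ ⊤ := ENNReal.div_ne_top (ENNReal.natCast_ne_top _) hu0
  set A2 : ℝ≥0∞ := (Nw : ℝ≥0∞) * ((i0 + 1 : ℕ) : ℝ≥0∞) ^ 4 * (C2 + C3) with hA2
  have hA2t : A2 ≠ ⊤ := by
    rw [hA2]
    exact ENNReal.mul_ne_top (ENNReal.mul_ne_top (ENNReal.natCast_ne_top _)
      (ENNReal.pow_ne_top (ENNReal.natCast_ne_top _))) (ENNReal.add_ne_top.2 ⟨hC2, hC3⟩)
  obtain ⟨lam, hl0, hlt, -, s1, hs1⟩ := Num337.exLam A2 D hA2t hDt
    (fun n : ℕ => (n : ℝ≥0∞)⁻¹) ENNReal.tendsto_inv_nat_nhds_zero δ hδ0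
  set η : ℝ≥0∞ := ((s1 + 1 : ℕ) : ℝ≥0∞)⁻¹ with hη
  have hη0 : η ≠ 0 := ENNReal.inv_ne_zero.2 (ENNReal.natCast_ne_top _)
  have hlam : A2 * (lam + D * η / lam + η) ≤ δ := hs1 (s1 + 1) (by omega)
  obtain ⟨s2, hs2⟩ := H2' (4 * i0) η hη0
  obtain ⟨s3, hs3⟩ := H3' (4 * i0) η hη0
  set s := max s2 s3 with hs
  have H2s := hs2 s (le_max_left _ _)
  have H3s := hs3 s (le_max_right _ _)
  set S := s + 2 * i0 with hS
  obtain ⟨D0, hD0⟩ := hPt S (δ / (2 * Nw)) (ENNReal.div_ne_zero.2 ⟨hδ0, by finiteness⟩)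
  set K' := 4 * J + 1 with hK'
  refine ⟨K' * (2 * i0 + s + D0 + K' + 1), fun m hm => ⟨20 * m, fun n hn w hw => ?_⟩⟩
  set t := m / K' with ht
  have htX : 2 * i0 + s + D0 + K' + 1 ≤ t := by
    rw [ht, Nat.le_div_iff_mul_le (by omega), mul_comm]; exact hm
  have htm : K' * t ≤ m := by rw [ht]; exact Nat.mul_div_le m K'
  have htm' : (4 * J) * t + t ≤ m := by rw [hK'] at htm; linarith
  have hJt : 4 * t ≤ (4 * J) * t := Nat.mul_le_mul_right t (by omega)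
  refine (union ΛX hX zX sX ΛY hY zY sY m t K' i0 s S n w (by omega) ht (by omega) hS
    (by omega)).trans ?_
  -- the single walker data
  obtain ⟨EX, MX, SX, hMX, hMX2, hX1, hX2, hX3⟩ := single ΛX hX zX h1X hΛX hUX (3 * t) i0 J u
    hu0 hu1
  obtain ⟨EY, MY, SY, hMY, hMY2, hY1, hY2, hY3⟩ := single ΛY hY zY h1Y hΛY hUY (3 * t + i0) i0 J u
    hu0 hu1
  set β : ℝ≥0∞ := lam + D * η / lam + η with hβ
  set term : ℝ≥0∞ := δ / (2 * Nw) + δ / (2 * Nw) +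
    (2 * ep ΛX hX i0 + 2 * ep ΛY hY i0 + u * u + ((1 - u) ^ J + J * ep ΛX hX i0)
      + ((1 - u) ^ J + J * ep ΛY hY i0)
      + ((i0 + 1 : ℕ) : ℝ≥0∞) ^ 4 * (C2 * β + C3 * β)) with hterm
  have hj : ∀ j ∈ Finset.range (K' + 1),
      ((∑' LX, ∑' LY, (if HT hX LX = n ∧ HT hY LY = n ∧
          (∃ p, p ∈ TT hX zX sX LX 0 0 ∧ p ∈ TT hY zY sY LY w 0 ∧ (m + j * t - t) ≤ p.2 ∧
            p.2 ≤ (m + j * t - t) + S) then LW ΛX LX * LW ΛY LY else 0))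
        + (∑' LX, ∑' LY, (if HT hX LX = n ∧ HT hY LY = n ∧
          (∃ p, p ∈ TT hX zX sX LX 0 0 ∧ p ∈ TT hY zY sY LY w 0 ∧
            (m + j * t - t + 3 * t - s) ≤ p.2 ∧ p.2 ≤ (m + j * t - t + 3 * t - s) + S)
            then LW ΛX LX * LW ΛY LY else 0))
        + (∑' LX, ∑' LY, (if HT hX LX = n ∧ HT hY LY = n ∧
          EvW (TT hX zX sX LX 0 0) (TT hY zY sY LY w 0) (m + j * t - t) t i0 s
            then LW ΛX LX * LW ΛY LY else 0))) ≤ term := by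
    intro j hj
    have hjK : j ≤ K' := by have := Finset.mem_range.1 hj; omega
    have hjt : j * t ≤ m := le_trans (Nat.mul_le_mul_right t hjK) htm
    set c := m + j * t - t with hc
    have hc1 : (4 * J) * t ≤ c := by omega
    have hcJ1 : J * (3 * t + i0) ≤ c := by
      refine le_trans ?_ hc1
      nlinarith
    have hcJ2 : J * (3 * t + i0 + i0) ≤ c + i0 := by
      refine le_trans ?_ (le_trans hc1 (Nat.le_add_right _ _))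
      nlinarith
    refine add_le_add (add_le_add (hD0 c (by omega) n (by omega) w hw)
      (hD0 (c + 3 * t - s) (by omega) n (by omega) w hw)) ?_
    refine window ΛX hX zX sX ΛY hY zY sY h1X h1Y hΛX hΛY hUX hUY hsX hsY c t i0 s n
      (by omega) (by omega) w (Loc hX zX EX) (Loc hY zY EY) u u
      ((1 - u) ^ J + J * ep ΛX hX i0) ((1 - u) ^ J + J * ep ΛY hY i0) MX MY (C2 * β) (C3 * β)
      SX SY ?_ ?_ (hX2 c hcJ1) (hY2 (c + i0) hcJ2) hX3 hY3 ?_ ?_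
    · refine le_trans (SF_mono ΛX hX _ fun P _ => ?_) hX1
      by_cases hP : (HT hX P, Dp zX P) ∈ EX
      · have : Loc hX zX EX P := hP
        rw [if_pos this]; exact zero_le
      · rw [if_neg hP]; split_ifs <;> simp
    · refine le_trans (SF_mono ΛY hY _ fun P _ => ?_) hY1
      by_cases hP : (HT hY P, Dp zY P) ∈ EY
      · have : Loc hY zY EY P := hP
        rw [if_pos this]; exact zero_le
      · rw [if_neg hP]; split_ifs <;> simp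
    · exact betaX ΛX hX zX sX ΛY hY zY sY H2s c t i0 le_rfl (by omega) EX MX D lam hMX hMX2 hl0 hlt
    · exact betaY ΛX hX zX sX ΛY hY zY sY H3s c t i0 le_rfl (by omega) EY MY D lam hMY hMY2 hl0 hlt
  refine (Finset.sum_le_card_nsmul _ _ term hj).trans ?_
  rw [Finset.card_range, nsmul_eq_mul]
  have hNK : ((K' + 1 : ℕ) : ℝ≥0∞) = (Nw : ℝ≥0∞) := by
    congr 1
  rw [hNK]
  have hN0 : (Nw : ℝ≥0∞) ≠ 0 := by
    have : Nw ≠ 0 := by omega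
    exact_mod_cast this
  have v1 : (Nw : ℝ≥0∞) * (δ / (2 * Nw) + δ / (2 * Nw)) ≤ δ := by
    rw [← two_mul, ← mul_assoc, mul_comm (Nw : ℝ≥0∞) 2]
    rw [ENNReal.mul_div_cancel (mul_ne_zero (by norm_num) hN0) (by finiteness)]
  have v2 : (Nw : ℝ≥0∞) * (u * u) ≤ δ := le_trans (by gcongr) hA
  have v3 : (Nw : ℝ≥0∞) * (1 - u) ^ J ≤ δ := le_trans (by gcongr) hB
  have v4 : (Nw : ℝ≥0∞) * (((J + 2 : ℕ) : ℝ≥0∞) * ep ΛX hX i0) ≤ δ := by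
    rw [← mul_assoc]; exact hepX
  have v5 : (Nw : ℝ≥0∞) * (((J + 2 : ℕ) : ℝ≥0∞) * ep ΛY hY i0) ≤ δ := by
    rw [← mul_assoc]; exact hepY
  have v6 : (Nw : ℝ≥0∞) * (((i0 + 1 : ℕ) : ℝ≥0∞) ^ 4 * (C2 * β + C3 * β)) ≤ δ := by
    refine le_trans (le_of_eq ?_) hlam
    rw [hA2]; ring
  calc (Nw : ℝ≥0∞) * term
      = (Nw : ℝ≥0∞) * (δ / (2 * Nw) + δ / (2 * Nw)) + (Nw : ℝ≥0∞) * (u * u)
        + (Nw : ℝ≥0∞) * (1 - u) ^ J + (Nw : ℝ≥0∞) * (1 - u) ^ J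
        + (Nw : ℝ≥0∞) * (((J + 2 : ℕ) : ℝ≥0∞) * ep ΛX hX i0)
        + (Nw : ℝ≥0∞) * (((J + 2 : ℕ) : ℝ≥0∞) * ep ΛY hY i0)
        + (Nw : ℝ≥0∞) * (((i0 + 1 : ℕ) : ℝ≥0∞) ^ 4 * (C2 * β + C3 * β)) := by
        rw [hterm]; push_cast; ring
    _ ≤ δ + δ + δ + δ + δ + δ + δ := by gcongr
    _ ≤ 8 * δ := by
        have : (8 : ℝ≥0∞) * δ = δ + δ + δ + δ + δ + δ + δ + δ := by ring
        rw [this]; exact le_self_add
    _ ≤ ε := hδε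

end Crest.Agent.R154.Asm222
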