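import Crest.Agent.R154.AsmF_224
import Crest.Agent.R154.Num_337
import Crest.Agent.R154.NumK_658
import Crest.Agent.R154.Dens_616

/-! Row 154, ROAD 801 (helper224): order of constants, `kapS`. -/

set_option autoImplicit false

namespace Crest.Agent.R154.Asm224

open scoped ENNReal Topology
open Filter
open Crest.Agent.R154.B5A

variable {B G : Type*} [AddCommGroup G]

lemma tsum_split_lt {ι : Type*} (p : ι → ℝ≥0∞) (th u : ℝ≥0∞) (hp : ∑' x, p x = 1)
    (hu : u ≤ ∑' x, if p x ≤ th then p x else 0) (hu1 : u < 1) :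
    ∑' x, (if th < p x then p x else 0) ≤ 1 - u := by
  have h : (∑' x, if p x ≤ th then p x else 0) + ∑' x, (if th < p x then p x else 0) = 1 := by
    rw [← ENNReal.tsum_add, ← hp]
    refine tsum_congr fun x => ?_
    by_cases h : p x ≤ th
    · rw [if_pos h, if_neg (not_lt.2 h), add_zero]
    · rw [if_neg h, if_pos (not_le.1 h), zero_add]
  refine ENNReal.le_sub_of_add_le_left (ne_top_of_lt hu1) ?_
  rw [← h]
  gcongr

lemma side (S : Sys B G) (T i0 J a : ℕ) (u : ℝ≥0∞) (hu0 : u ≠ 0) (hu1 : u < 1)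
    (ha : J * (T + i0) ≤ a) : ∃ (th Gc : ℝ≥0∞) (b : ℤ × G → ℝ≥0∞) (E : ℕ → Finset G),
      (∑' v, b v ≤ (1 - u) ^ J + J * S.ov i0) ∧
      (∀ v, FL S.Λ S.ht S.z a v ≤ Gc + b v) ∧
      (∀ h : ℕ, ∀ x, th ≤ FL S.Λ S.ht S.z T ((h : ℤ), x) → x ∈ E h) ∧
      (∀ h, Gc * (E h).card ≤ (i0 + 1 : ℕ) / u) ∧
      (∑' v, (if FL S.Λ S.ht S.z T v < th then FL S.Λ S.ht S.z T v else 0) ≤ u) := by
  classical
  have hmass := FL_mass S.Λ S.ht S.z S.h1 S.hΛ T
  have hut : u ≠ ⊤ := ne_top_of_lt hu1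
  obtain ⟨th, hth0, hth1, hlow, hup⟩ := Dens616.quantile (FL S.Λ S.ht S.z T) hmass hu0 hu1
  have htht : th ≠ ⊤ := ne_top_of_le_ne_top ENNReal.one_ne_top hth1
  set Gc : ℝ≥0∞ := (i0 + 1 : ℕ) * th / u with hGc
  have hfin : {v | th ≤ FL S.Λ S.ht S.z T v}.Finite :=
    Dens616.finite_local _ (by rw [hmass]; exact ENNReal.one_ne_top) hth0
  have hfinh : ∀ h : ℕ, {x : G | th ≤ FL S.Λ S.ht S.z T ((h : ℤ), x)}.Finite := by
    intro h
    refine hfin.preimage (f := fun x : G => ((h : ℤ), x)) ?_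
    intro x _ y _ e
    exact (Prod.mk.inj e).2
  set E : ℕ → Finset G := fun h => (hfinh h).toFinset with hE
  have hq : ∑' v, (if th < FL S.Λ S.ht S.z T v then FL S.Λ S.ht S.z T v else 0) ≤ 1 - u :=
    tsum_split_lt _ th u hmass hup hu1
  obtain ⟨b, hb1, hb2⟩ := dens_FL S.Λ S.ht S.z S.h1 S.hΛ T i0 th (1 - u) (S.ov i0) Gc
    (le_trans (le_of_eq (tsum_congr fun A => by congr)) (fp_over S.Λ S.ht S.h1 S.hU i0 T))
    (le_trans (le_of_eq (tsum_congr fun v => by congr)) hq)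
    tsub_le_self (by
      have e1 : (i0 + 1 : ℕ) * th = u * Gc := by
        rw [hGc, mul_comm u, ENNReal.div_mul_cancel hu0 hut]
      rw [e1, ← add_mul, add_tsub_cancel_of_le hu1.le, one_mul]) J a ha
  refine ⟨th, Gc, b, E, hb1, hb2, ?_, ?_, ?_⟩
  · intro h x hx
    simp only [hE, Set.Finite.mem_toFinset, Set.mem_setOf_eq]
    exact hx
  · intro h
    have hc : ((E h).card : ℝ≥0∞) * th ≤ 1 := by
      calc ((E h).card : ℝ≥0∞) * th ≤ ∑' x, FL S.Λ S.ht S.z T ((h : ℤ), x) :=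
            Dens616.card_mul_le (fun x => FL S.Λ S.ht S.z T ((h : ℤ), x)) th (E h) (by
              intro x hx
              simpa [hE] using hx)
        _ ≤ ∑' v : ℤ × G, FL S.Λ S.ht S.z T v :=
            ENNReal.tsum_comp_le_tsum_of_injective
              (f := fun x : G => ((h : ℤ), x)) (fun x y e => (Prod.mk.inj e).2) _
        _ = 1 := hmass
    calc Gc * (E h).card = (i0 + 1 : ℕ) / u * ((E h).card * th) := by
          rw [hGc, div_eq_mul_inv, div_eq_mul_inv]; ring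
      _ ≤ (i0 + 1 : ℕ) / u * 1 := by gcongr
      _ = _ := mul_one _
  · refine le_trans (le_of_eq (tsum_congr fun v => by congr)) hlow

lemma ov_tendsto (S : Sys B G) (hE : ∑' k, tail S.Λ S.ht k ≠ ⊤) :
    Tendsto (fun i => S.ov i) atTop (𝓝 0) := by
  have := ENNReal.tendsto_sum_nat_add (fun k => tail S.Λ S.ht k) hE
  refine this.congr fun i => ?_
  rw [Sys.ov]
  exact tsum_congr fun k => by rw [add_comm]

variable {BX BY : Type*} (SX : Sys BX G) (SY : Sys BY G)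

lemma KS_sum (n m T W : ℕ) (hT : 0 < T) (hW : m ≤ W * T) (w : G) :
    KS SX SY n m (2 * m) w ≤ ∑ q ∈ Finset.range W, KS SX SY n (m + q * T) (m + q * T + T) w := by
  classical
  have e : (∑ q ∈ Finset.range W, KS SX SY n (m + q * T) (m + q * T + T) w)
      = ∑' LX : List BX, ∑' LY : List BY, ∑ q ∈ Finset.range W,
        (if HT SX.ht LX = n ∧ HT SY.ht LY = n ∧ (∃ k ∈ CT SX SY LX 0 LY 0 w, m + q * T < k ∧
          k ≤ m + q * T + T) then LW SX.Λ LX * LW SY.Λ LY else 0) := by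
    simp only [KS]
    rw [← Summable.tsum_finsetSum (fun _ _ => ENNReal.summable)]
    refine tsum_congr fun LX => ?_
    rw [← Summable.tsum_finsetSum (fun _ _ => ENNReal.summable)]
  rw [e, KS]
  refine ENNReal.tsum_le_tsum fun LX => ENNReal.tsum_le_tsum fun LY => ?_
  by_cases h : HT SX.ht LX = n ∧ HT SY.ht LY = n ∧
    (∃ k ∈ CT SX SY LX 0 LY 0 w, m < k ∧ k ≤ 2 * m)
  · rw [if_pos h]
    obtain ⟨h1, h2, k, hk, hk1, hk2⟩ := h
    have hq1 : (k - m - 1) / T < W := by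
      rw [Nat.div_lt_iff_lt_mul hT]
      omega
    have hd1 : (k - m - 1) / T * T ≤ k - m - 1 := Nat.div_mul_le_self _ _
    have hd2 : k - m - 1 < ((k - m - 1) / T + 1) * T := by
      have := Nat.lt_div_mul_add hT (a := k - m - 1)
      rw [add_mul, one_mul]; exact this
    rw [add_mul, one_mul] at hd2
    refine le_trans ?_ (Finset.single_le_sum (f := fun q =>
        (if HT SX.ht LX = n ∧ HT SY.ht LY = n ∧ (∃ k ∈ CT SX SY LX 0 LY 0 w, m + q * T < k ∧
          k ≤ m + q * T + T) then LW SX.Λ LX * LW SY.Λ LY else 0)) (fun _ _ => zero_le)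
          (Finset.mem_range.2 hq1))
    rw [if_pos ⟨h1, h2, k, hk, by omega, by omega⟩]
  · rw [if_neg h]; exact zero_le

/-- **KAPPA' in list letters** -/
theorem kapS (hEX : ∑' k, tail SX.Λ SX.ht k ≠ ⊤) (hEY : ∑' k, tail SY.Λ SY.ht k ≠ ⊤)
    (us : ℕ → ℝ≥0∞) (hus : Tendsto us atTop (𝓝 0)) (C : ℝ≥0∞) (hC : C ≠ ⊤)
    (h2 : H2 SX SY us C) (h3 : H3 SX SY us C)
    (hPt : ∀ ε : ℝ≥0∞, ε ≠ 0 → ∃ k0, ∀ k, k0 ≤ k → ∀ n, k ≤ n → ∀ w, PT SX SY n k w ≤ ε) :
    ∀ ε : ℝ≥0∞, ε ≠ 0 → ∃ M, ∀ m, M ≤ m → ∃ n0, ∀ n, n0 ≤ n → ∀ w,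
      KS SX SY n m (2 * m) w ≤ ε := by
  intro ε hε
  set η : ℝ≥0∞ := ε / 8 with hη
  have hη0 : η ≠ 0 := by
    rw [hη, Ne, ENNReal.div_eq_zero_iff, not_or]
    exact ⟨hε, by norm_num⟩
  obtain ⟨K, u, hK4, hu0, hu1, hKu, hKq⟩ := Num337.exKu η hη0
  set J := K / 4 with hJ
  have hJ1 : 1 ≤ J := by omega
  set W := 4 * J + 2 with hW
  have hWK : (W : ℝ≥0∞) ≤ ((4 * K + 8 : ℕ) : ℝ≥0∞) := by
    have : W ≤ 4 * K + 8 := by omega
    exact_mod_cast this
  have hWtop : (W : ℝ≥0∞) ≠ ⊤ := ENNReal.natCast_ne_top _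
  have hut : u ≠ ⊤ := ne_top_of_lt hu1
  -- choose `i0`
  have hov : Tendsto (fun i => SX.ov i + SY.ov i) atTop (𝓝 0) := by
    have := (ov_tendsto SX hEX).add (ov_tendsto SY hEY)
    simpa using this
  obtain ⟨i0, hi0⟩ := NumK658.chooseNat (fun i => SX.ov i + SY.ov i) hov
    ((W : ℝ≥0∞) * (2 + 2 * J)) (ENNReal.mul_ne_top hWtop (by
      refine ENNReal.add_ne_top.2 ⟨by norm_num, ENNReal.mul_ne_top (by norm_num)
        (ENNReal.natCast_ne_top _)⟩)) η hη0
  have hi0' := hi0 i0 le_rfl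
  set ep : ℝ≥0∞ := SX.ov i0 + SY.ov i0 with hep
  -- choose `lam`
  set c1 : ℝ≥0∞ := 2 * (W : ℝ≥0∞) * (i0 + 1 : ℕ) ^ 3 * C with hc1
  have hc1t : c1 ≠ ⊤ := by
    rw [hc1]
    refine ENNReal.mul_ne_top (ENNReal.mul_ne_top (ENNReal.mul_ne_top (by norm_num) hWtop)
      (ENNReal.pow_ne_top (ENNReal.natCast_ne_top _))) hC
  obtain ⟨lam, hl0, hlt, _, hlam⟩ := NumK658.chooseLam c1 hc1t η hη0
  -- choose `s`
  set κ : ℝ≥0∞ := (i0 + 1 : ℕ) / u with hκ
  have hκt : κ ≠ ⊤ := by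
    rw [hκ]
    exact ENNReal.div_ne_top (ENNReal.natCast_ne_top _) hu0
  obtain ⟨s, hs⟩ := NumK658.chooseNat us hus (c1 * (κ / lam + 1))
    (ENNReal.mul_ne_top hc1t (ENNReal.add_ne_top.2 ⟨ENNReal.div_ne_top hκt hl0, ENNReal.one_ne_top⟩))
    η hη0
  have hs' := hs s le_rfl
  -- choose the slab constant
  set Dc : ℕ := 2 * (2 * i0 + s + 1) with hDc
  obtain ⟨e0, he0, he0'⟩ := NumK658.chooseEta ((W : ℝ≥0∞) * Dc)
    (ENNReal.mul_ne_top hWtop (ENNReal.natCast_ne_top _)) η hη0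
  obtain ⟨k0, hk0⟩ := hPt e0 he0
  set T0 : ℕ := k0 + (4 * J + 1) + (2 * i0 + s + 1) with hT0
  refine ⟨(4 * J + 1) * T0, fun m hm => ?_⟩
  set T : ℕ := m / (4 * J + 1) with hT
  have hTT0 : T0 ≤ T := by
    rw [hT, Nat.le_div_iff_mul_le (by omega)]
    rw [mul_comm]; exact hm
  have hTm : (4 * J + 1) * T ≤ m := by
    rw [hT]; exact Nat.mul_div_le _ _
  have hmT : m < (4 * J + 1) * T + (4 * J + 1) := by
    have := Nat.lt_div_mul_add (a := m) (b := 4 * J + 1) (by omega)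
    rw [← hT] at this
    rw [mul_comm (4 * J + 1) T]
    exact this
  have hWT : m ≤ W * T := by
    have : W * T = (4 * J + 1) * T + T := by rw [hW]; ring
    rw [this]; omega
  have hTpos : 0 < T := by omega
  have h4 : 4 * J * T + T = (4 * J + 1) * T := by ring
  have hmT' : T ≤ m := by
    have : T ≤ (4 * J + 1) * T := Nat.le_mul_of_pos_left T (by omega)
    omega
  refine ⟨m + W * T + 3 * T + 3 * i0, fun n hn w => ?_⟩
  refine (KS_sum SX SY n m T W hTpos hWT w).trans ?_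
  have hwin : ∀ q ∈ Finset.range W, KS SX SY n (m + q * T) (m + q * T + T) w ≤
      (Dc * e0 + (2 * SY.ov i0 + 2 * SX.ov i0) + u * u
      + 2 * (((1 - u) ^ J + J * ep) + (i0 + 1 : ℕ) ^ 3 * (C * (lam + κ * us s / lam + us s)))) := by
    intro q hq
    have hqW := Finset.mem_range.1 hq
    have hqT : q * T ≤ W * T := Nat.mul_le_mul_right T hqW.le
    set a : ℕ := m - T + q * T with ha
    have haT : a + T = m + q * T := by omega
    have ha2T : a + 2 * T = m + q * T + T := by omega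
    have haJ : 4 * J * T ≤ a := by omega
    have hJ4 : J * (3 * T + i0) ≤ a := by
      have : J * (3 * T + i0) ≤ J * (4 * T) := Nat.mul_le_mul_left J (by omega)
      have h5 : J * (4 * T) = 4 * J * T := by ring
      omega
    have hJ4' : J * (3 * T + i0 + i0) ≤ a + i0 := by
      have : J * (3 * T + i0 + i0) ≤ J * (4 * T) := Nat.mul_le_mul_left J (by omega)
      have h5 : J * (4 * T) = 4 * J * T := by ring
      omega
    obtain ⟨thX, GX, bX, EX, hb1, hb2, hb3, hb4, hb5⟩ := side SX (3 * T) i0 J a u hu0 hu1 hJ4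
    obtain ⟨thY, GY, bY, EY, hc1', hc2, hc3, hc4, hc5⟩ :=
      side SY (3 * T + i0) i0 J (a + i0) u hu0 hu1 hJ4'
    have hwd := window SX SY us C h2 h3 w n a T i0 s (by omega) (by omega) thX thY GX GY κ
      ((1 - u) ^ J + J * ep) u lam hl0 hlt bX bY
      (hb1.trans (by gcongr; exact le_self_add)) (hc1'.trans (by gcongr; exact le_add_self))
      hb2 hc2 EX EY hb3 hc3 hb4 hc4
      (le_trans (le_of_eq (tsum_congr fun v => by congr)) hb5)
      (le_trans (le_of_eq (tsum_congr fun v => by congr)) hc5)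
    rw [haT, ha2T] at hwd
    refine hwd.trans ?_
    gcongr
    -- the slabs
    calc ∑ k ∈ Finset.Icc a (a + 2 * i0 + s) ∪ Finset.Icc (a + 3 * T - s) (a + 3 * T + 2 * i0),
          PT SX SY n k w
        ≤ ∑ _k ∈ Finset.Icc a (a + 2 * i0 + s) ∪ Finset.Icc (a + 3 * T - s) (a + 3 * T + 2 * i0),
          e0 := by
          refine Finset.sum_le_sum fun k hk => ?_
          rw [Finset.mem_union, Finset.mem_Icc, Finset.mem_Icc] at hk
          have h4J : T ≤ 4 * J * T := by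
            have : 1 * T ≤ 4 * J * T := Nat.mul_le_mul_right T (by omega)
            omega
          refine hk0 k ?_ n ?_ w
          · omega
          · omega
      _ = ((Finset.Icc a (a + 2 * i0 + s) ∪
            Finset.Icc (a + 3 * T - s) (a + 3 * T + 2 * i0)).card : ℝ≥0∞) * e0 := by
          rw [Finset.sum_const, nsmul_eq_mul]
      _ ≤ Dc * e0 := by
          gcongr
          refine (Finset.card_union_le _ _).trans ?_
          rw [Nat.card_Icc, Nat.card_Icc]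
          omega
  refine (Finset.sum_le_sum hwin).trans ?_
  rw [Finset.sum_const, Finset.card_range, nsmul_eq_mul]
  have p1 : (W : ℝ≥0∞) * (Dc * e0) ≤ η := by rw [← mul_assoc]; exact he0'
  have p2 : (W : ℝ≥0∞) * (2 * SY.ov i0 + 2 * SX.ov i0) + (W : ℝ≥0∞) * (2 * (J * ep)) ≤ η := by
    refine le_trans (le_of_eq ?_) hi0'
    rw [hep]; ring
  have p3 : (W : ℝ≥0∞) * (u * u) ≤ η := le_trans (by gcongr) hKu
  have p4 : (W : ℝ≥0∞) * ((1 - u) ^ J) ≤ η := le_trans (by gcongr) hKq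
  have p5 : c1 * lam ≤ η := hlam
  have p6 : c1 * (κ * us s / lam) + c1 * us s ≤ η := by
    refine le_trans (le_of_eq ?_) hs'
    rw [div_eq_mul_inv, div_eq_mul_inv]; ring
  calc (W : ℝ≥0∞) * (Dc * e0 + (2 * SY.ov i0 + 2 * SX.ov i0) + u * u
      + 2 * (((1 - u) ^ J + J * ep) + (i0 + 1 : ℕ) ^ 3 * (C * (lam + κ * us s / lam + us s))))
      = (W : ℝ≥0∞) * (Dc * e0)
        + ((W : ℝ≥0∞) * (2 * SY.ov i0 + 2 * SX.ov i0) + (W : ℝ≥0∞) * (2 * (J * ep)))
        + (W : ℝ≥0∞) * (u * u) + 2 * ((W : ℝ≥0∞) * ((1 - u) ^ J)) + c1 * lam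
        + (c1 * (κ * us s / lam) + c1 * us s) := by
        rw [hc1]; ring
    _ ≤ η + η + η + 2 * η + η + η := by gcongr
    _ = 7 * η := by ring
    _ ≤ 8 * η := by gcongr; norm_num
    _ = ε := by
        rw [hη]
        exact ENNReal.mul_div_cancel (by norm_num) (by norm_num)

end Crest.Agent.R154.Asm224
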