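import Crest.Agent.R154.AsmF_295

/-! Row 154, KAPPA' (801), list assembly, part G (helper295): one window. -/

set_option autoImplicit false

namespace Crest.Agent.R154.Asm295

open scoped ENNReal
open Crest.Agent.R154.B5A (LW HT LW_nil LW_cons LW_append HT_nil HT_cons HT_append tsum_list)
open Crest.Agent.R154.Asm540 (Dp Dp_append Cm H2 H3 TR TR_append TR_depth TR_shift)

variable {BX BY G : Type*} [AddCommGroup G]
  {ΛX : BX → ℝ≥0∞} {ΛY : BY → ℝ≥0∞} {hX : BX → ℕ} {hY : BY → ℕ} {zX : BX → G} {zY : BY → G}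
  {sX : BX → Set (G × ℕ)} {sY : BY → Set (G × ℕ)}

variable (hX hY zX zY sX sY) in
/-- window event of the whole lists -/
def ev (D E lo hi : ℕ) (w : G) (L : List BX) (L' : List BY) : Prop :=
  (∃ g k, lo ≤ k ∧ k ≤ hi ∧ Cm hX hY zX zY sX sY L L' w 0 0 g k) ∧
  (∀ g k, Cm hX hY zX zY sX sY L L' w 0 0 g k → D < k → k ≤ E → lo ≤ k ∧ k ≤ hi)

variable (hX hY zX zY sX sY) in
/-- window event of the pieces -/
def ct (lo hi : ℕ) (W : List BX) (W' : List BY) (a a' : ℕ) (x : G) : Prop :=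
  (∃ g k, Cm hX hY zX zY sX sY W W' x a a' g k) ∧
  (∀ g k, Cm hX hY zX zY sX sY W W' x a a' g k → lo ≤ k ∧ k ≤ hi)

lemma ct_of (hsX : ∀ b, ∀ p ∈ sX b, 1 ≤ p.2 ∧ p.2 ≤ hX b) (hsY : ∀ b, ∀ p ∈ sY b, 1 ≤ p.2 ∧ p.2 ≤ hY b)
    {D T i0 lo hi : ℕ} {w : G} (hlo : D + i0 < lo) (hhi : hi ≤ D + T)
    {A W R : List BX} {A' W' R' : List BY}
    (hA : D ≤ HT hX A) (hA2 : HT hX A ≤ D + i0) (hW : T ≤ HT hX W) (hW2 : HT hX W ≤ T + i0)
    (hA' : D ≤ HT hY A') (hA2' : HT hY A' ≤ D + i0) (hW' : T ≤ HT hY W')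
    (he : ev hX hY zX zY sX sY D (D + i0 + (T + i0)) lo hi w (A ++ (W ++ R)) (A' ++ (W' ++ R'))) :
    ct hX hY zX zY sX sY lo hi W W' (HT hX A) (HT hY A') (w + Dp zY A' - Dp zX A) := by
  obtain ⟨⟨g, k, h1, h2, h3, h4⟩, h5⟩ := he
  have hlift : ∀ g' k', Cm hX hY zX zY sX sY W W' (w + Dp zY A' - Dp zX A) (HT hX A) (HT hY A') g' k' →
      Cm hX hY zX zY sX sY (A ++ (W ++ R)) (A' ++ (W' ++ R')) w 0 0 (g' + Dp zX A) k' := by
    rintro g' k' ⟨m1, m2⟩
    constructor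
    · rw [TR_append, TR_append]
      refine Or.inr (Or.inl ?_)
      rw [zero_add (HT hX A)]
      exact (TR_shift hX zX sX W 0 (Dp zX A) (HT hX A) (g' + Dp zX A) k').2
        (by rw [add_sub_cancel_right]; exact m1)
    · rw [TR_append, TR_append]
      refine Or.inr (Or.inl ?_)
      rw [zero_add, show w + Dp zY A' = (w + Dp zY A' - Dp zX A) + Dp zX A by abel, TR_shift,
        add_sub_cancel_right]
      exact m2
  refine ⟨⟨g - Dp zX A, k, ?_, ?_⟩, ?_⟩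
  · rw [TR_append, TR_append] at h3
    rcases h3 with h3 | h3 | h3
    · have := TR_depth hX zX sX hsX _ _ _ _ h3
      simp only at this; omega
    · rw [zero_add (HT hX A)] at h3
      exact (TR_shift hX zX sX W 0 (Dp zX A) (HT hX A) g k).1 h3
    · have := TR_depth hX zX sX hsX _ _ _ _ h3
      simp only at this; omega
  · rw [TR_append, TR_append] at h4
    rcases h4 with h4 | h4 | h4
    · have := TR_depth hY zY sY hsY _ _ _ _ h4
      simp only at this; omega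
    · rw [zero_add, show w + Dp zY A' = (w + Dp zY A' - Dp zX A) + Dp zX A by abel, TR_shift] at h4
      exact h4
    · have := TR_depth hY zY sY hsY _ _ _ _ h4
      simp only at this; omega
  · intro g' k' hm
    refine h5 _ k' (hlift g' k' hm) ?_ ?_
    · have := TR_depth hX zX sX hsX _ _ _ _ hm.1
      simp only at this; omega
    · have := TR_depth hX zX sX hsX _ _ _ _ hm.1
      simp only at this; omega

open Classical in
/-- the weight of a first passage list with bounded overshoot -/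
noncomputable def wt {B : Type*} (Λ : B → ℝ≥0∞) (h : B → ℕ) (D i0 : ℕ) (A : List B) : ℝ≥0∞ :=
  if fp h A D ∧ HT h A ≤ D + i0 then LW Λ A else 0

lemma wt_sum {B : Type*} {Λ : B → ℝ≥0∞} {h : B → ℕ} (hΛ : ∑' b, Λ b = 1) (h1 : ∀ b, 1 ≤ h b)
    (D i0 : ℕ) : ∑' A, wt Λ h D i0 A ≤ 1 := by
  classical
  refine le_trans (ENNReal.tsum_le_tsum fun A => ?_) (sum_fp hΛ h1 D).le
  rw [wt]
  by_cases e : fp h A D ∧ HT h A ≤ D + i0
  · rw [if_pos e, if_pos e.1]
  · rw [if_neg e]; exact bot_le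

open Classical in
lemma two' {B : Type*} {Λ : B → ℝ≥0∞} {h : B → ℕ} (hΛ : ∑' b, Λ b = 1) (h1 : ∀ b, 1 ≤ h b)
    (hU : ∀ n, ∑' L, (if HT h L = n then LW Λ L else 0) ≤ 1) (D T i0 n : ℕ)
    (hn : D + i0 + (T + i0) ≤ n)
    (Φ : List B → ℝ≥0∞) (hΦ : ∀ L, Φ L ≤ 1) (Ψ : List B → List B → ℝ≥0∞)
    (hΨ : ∀ A W R, Φ (A ++ (W ++ R)) ≤ Ψ A W) :
    ∑' L, (if HT h L = n then LW Λ L * Φ L else 0) ≤
      2 * (∑' b, Λ b * ((h b - i0 : ℕ) : ℝ≥0∞)) +
      ∑' A, wt Λ h D i0 A * ∑' W, wt Λ h T i0 W * Ψ A W := by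
  refine (two hΛ h1 hU D T i0 n hn _ (fun a => ovs hU a i0) Φ Ψ hΦ
    (fun A W R _ _ _ _ => hΨ A W R)).trans ?_
  gcongr with A
  rw [← ENNReal.tsum_mul_left]
  refine ENNReal.tsum_le_tsum fun W => ?_
  rw [wt, wt]
  by_cases e1 : fp h A D ∧ HT h A ≤ D + i0
  · by_cases e2 : fp h W T ∧ HT h W ≤ T + i0
    · rw [if_pos ⟨e1, e2⟩, if_pos e1, if_pos e2, mul_assoc]
    · rw [if_neg (fun e => e2 e.2)]; exact bot_le
  · rw [if_neg (fun e => e1 e.1)]; exact bot_le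

open Classical in
/-- the truncated double sum over the tops -/
lemma tops (D i0 : ℕ) (w : G) (R : ℕ → ℕ → G → ℝ≥0∞) :
    ∑' A, wt ΛX hX D i0 A * ∑' A', wt ΛY hY D i0 A' *
      R (HT hX A - D) (HT hY A' - D) (w + Dp zY A' - Dp zX A)
    = ∑' α, ∑' x, nf ΛX hX zX D α x * ∑' β, ∑' x', nf ΛY hY zY D β x' *
      (if α ≤ i0 ∧ β ≤ i0 then R α β (w + x' - x) else 0) := by
  rw [← fib (Λ := ΛX) (h := hX) zX D (fun α x => ∑' β, ∑' x', nf ΛY hY zY D β x' *
      (if α ≤ i0 ∧ β ≤ i0 then R α β (w + x' - x) else 0))]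
  refine tsum_congr fun A => ?_
  by_cases hA : fp hX A D
  · have h3 := fp_le A D hA
    rw [if_pos hA, ← fib (Λ := ΛY) (h := hY) zY D (fun β x' =>
      (if HT hX A - D ≤ i0 ∧ β ≤ i0 then R (HT hX A - D) β (w + x' - Dp zX A) else 0))]
    by_cases hA2 : HT hX A ≤ D + i0
    · rw [wt, if_pos ⟨hA, hA2⟩]
      congr 1
      refine tsum_congr fun A' => ?_
      by_cases hA' : fp hY A' D
      · have h4 := fp_le A' D hA'
        rw [if_pos hA']
        by_cases hA2' : HT hY A' ≤ D + i0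
        · rw [wt, if_pos ⟨hA', hA2'⟩, if_pos ⟨by omega, by omega⟩]
        · rw [wt, if_neg (fun e => hA2' e.2), if_neg (fun e => hA2' (by omega)), mul_zero, zero_mul]
      · rw [wt, if_neg (fun e => hA' e.1), if_neg hA', zero_mul, zero_mul]
    · rw [wt, if_neg (fun e => hA2 e.2), zero_mul]
      have : ∀ β x', (if HT hX A - D ≤ i0 ∧ β ≤ i0 then R (HT hX A - D) β (w + x' - Dp zX A)
          else 0) = 0 := fun β x' => if_neg fun e => hA2 (by omega)
      simp only [this, mul_zero, tsum_zero]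
  · rw [wt, if_neg (fun e => hA e.1), if_neg hA, zero_mul, zero_mul]

end Crest.Agent.R154.Asm295
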