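import Crest.Agent.R154.AsmS_324

/-! Row 154, ROAD 801 (helper324): cuts of the pairs, slabs and windows. -/

set_option autoImplicit false

namespace Crest.Agent.R154.Asm324

open scoped ENNReal
open Crest.Agent.R154.B5A Crest.Agent.R154.FP178

section cut

variable {B : Type*} (Λ : B → ℝ≥0∞) (h : B → ℕ)

/-- overshoot functional of the two cuts -/
noncomputable def FO (t T i0 : ℕ) (L1 P : List B) : ℝ≥0∞ :=
  I (fp h t L1 ∧ t + i0 < HT h L1) * I (P = []) + I (fp h t L1) * I (fp h T P ∧ T + i0 < HT h P)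

/-- overshoot of a list -/
noncomputable def OV (t T i0 : ℕ) (L : List B) : ℝ≥0∞ :=
  ∑' p : List B × List B × List B, I (L = p.1 ++ (p.2.1 ++ p.2.2)) * FO h t T i0 p.1 p.2.1

lemma cutcase (t T i0 n : ℕ) (L : List B) (hn : t + i0 + T ≤ n) (hL : HT h L = n) :
    1 ≤ OV h t T i0 L ∨ ∃ p : List B × List B × List B, L = p.1 ++ (p.2.1 ++ p.2.2) ∧
      (fp h t p.1 ∧ HT h p.1 ≤ t + i0) ∧ (fp h T p.2.1 ∧ HT h p.2.1 ≤ T + i0) := by
  obtain ⟨L1, L2, hL12, hf1⟩ := cut_exists h t L (by omega)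
  by_cases ho : t + i0 < HT h L1
  · left
    refine le_trans ?_ (ENNReal.le_tsum (L1, ([] : List B), L2))
    simp only
    rw [I_pos (p := L = L1 ++ ([] ++ L2)) (by simpa using hL12), one_mul, FO, I_pos ⟨hf1, ho⟩,
      I_pos rfl, one_mul]
    exact le_self_add
  · have h2 : HT h L2 = n - HT h L1 := by
      rw [hL12, HT_append] at hL; omega
    have h3 : HT h L1 ≤ n := by
      rw [hL12, HT_append] at hL; omega
    obtain ⟨P, R, hPR, hf2⟩ := cut_exists h T L2 (by omega)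
    by_cases ho2 : T + i0 < HT h P
    · left
      refine le_trans ?_ (ENNReal.le_tsum (L1, P, R))
      simp only
      rw [I_pos (p := L = L1 ++ (P ++ R)) (by rw [hL12, hPR]), one_mul, FO, I_pos hf1,
        I_pos (p := fp h T P ∧ T + i0 < HT h P) ⟨hf2, ho2⟩, one_mul]
      exact le_add_self
    · right
      exact ⟨(L1, P, R), by rw [hL12, hPR], ⟨hf1, not_lt.1 ho⟩, ⟨hf2, not_lt.1 ho2⟩⟩

lemma EX_OV (h1 : ∀ b, 1 ≤ h b) (hΛ : ∑' b, Λ b ≤ 1) (hU1 : ∀ n, U Λ h n ≤ 1) (t T i0 n : ℕ)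
    (ov : ℝ≥0∞) (hov : ∀ t, ∑' L, I (fp h t L ∧ t + i0 < HT h L) * LW Λ L ≤ ov) :
    EX Λ h n (OV h t T i0) ≤ ov + ov := by
  refine le_trans (cutbound Λ h hU1 n _ (FO h t T i0) (fun L _ => le_rfl)) ?_
  have e0 : ∑' P : List B, LW Λ P * I (P = []) = 1 := by
    rw [tsum_eq_single ([] : List B), I_pos rfl, LW_nil, one_mul]
    intro P hP
    rw [I_neg hP, mul_zero]
  calc ∑' L1, LW Λ L1 * ∑' P, LW Λ P * FO h t T i0 L1 P
      = ∑' L1, (I (fp h t L1 ∧ t + i0 < HT h L1) * LW Λ L1 * ∑' P, LW Λ P * I (P = [])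
        + I (fp h t L1) * LW Λ L1 * ∑' P, I (fp h T P ∧ T + i0 < HT h P) * LW Λ P) := by
        refine tsum_congr fun L1 => ?_
        rw [← ENNReal.tsum_mul_left, ← ENNReal.tsum_mul_left, ← ENNReal.tsum_mul_left,
          ← ENNReal.tsum_add]
        refine tsum_congr fun P => ?_
        rw [FO]; ring
    _ ≤ ∑' L1, (I (fp h t L1 ∧ t + i0 < HT h L1) * LW Λ L1 * 1
        + I (fp h t L1) * LW Λ L1 * ov) :=
        ENNReal.tsum_le_tsum fun L1 => add_le_add (mul_le_mul_right e0.le _)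
          (mul_le_mul_right (hov T) _)
    _ = ∑' L1, I (fp h t L1 ∧ t + i0 < HT h L1) * LW Λ L1
        + (∑' L1, I (fp h t L1) * LW Λ L1) * ov := by
        simp only [mul_one]
        rw [ENNReal.tsum_add, ENNReal.tsum_mul_right]
    _ ≤ ov + ov := add_le_add (hov t) (mul_le_of_le_one_left' (sumFP Λ h h1 hΛ t))

end cut

section pairs

variable {BX BY G : Type*} [AddCommGroup G]
  (ΛX : BX → ℝ≥0∞) (hX : BX → ℕ) (zX : BX → G) (TX : List BX → G → ℕ → Set (G × ℕ))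
  (ΛY : BY → ℝ≥0∞) (hY : BY → ℕ) (zY : BY → G) (TY : List BY → G → ℕ → Set (G × ℕ))

/-- contact of the pair at a depth in `S` -/
def Ct (w : G) (S : ℕ → Prop) (L : List BX) (L' : List BY) : Prop :=
  ∃ g k, S k ∧ (g, k) ∈ TX L 0 0 ∧ (g, k) ∈ TY L' w 0

/-- two pieces are in contact, all the contacts have depth in `[lo, hi]` -/
def Rl (lo hi : ℕ) (x : G) (a a' : ℕ) (P : List BX) (P' : List BY) : Prop :=
  (∃ g k, (g, k) ∈ TX P 0 a ∧ (g, k) ∈ TY P' x a') ∧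
    ∀ g k, (g, k) ∈ TX P 0 a → (g, k) ∈ TY P' x a' → lo ≤ k ∧ k ≤ hi

lemma pair_eq (n : ℕ) (Q : List BX → List BY → Prop) :
    EX ΛX hX n (fun L => EX ΛY hY n (fun L' => I (Q L L')))
      = ∑' L, ∑' L', I (HT hX L = n ∧ HT hY L' = n ∧ Q L L') * (LW ΛX L * LW ΛY L') := by
  simp only [EX]
  refine tsum_congr fun L => ?_
  rw [← ENNReal.tsum_mul_left, ← ENNReal.tsum_mul_left]
  refine tsum_congr fun L' => ?_
  rw [I_and, I_and]; ring

/-- weight of the good cuts of a pair -/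
noncomputable def QQ (w : G) (t T t' T' i0 lo hi : ℕ) (L1 P : List BX) (L1' P' : List BY) : ℝ≥0∞ :=
  I (fp hX t L1 ∧ HT hX L1 ≤ t + i0) * I (fp hX T P ∧ HT hX P ≤ T + i0) *
    (I (fp hY t' L1' ∧ HT hY L1' ≤ t' + i0) * I (fp hY T' P' ∧ HT hY P' ≤ T' + i0)) *
    I (Rl TX TY lo hi (w + Dp zY L1' - Dp zX L1) (HT hX L1) (HT hY L1') P P')

/-- window functional of a pair -/
noncomputable def WN (w : G) (t T t' T' i0 lo hi : ℕ) (L : List BX) (L' : List BY) : ℝ≥0∞ :=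
  ∑' p : List BX × List BX × List BX, I (L = p.1 ++ (p.2.1 ++ p.2.2)) *
    ∑' p' : List BY × List BY × List BY, I (L' = p'.1 ++ (p'.2.1 ++ p'.2.2)) *
      QQ hX zX TX hY zY TY w t T t' T' i0 lo hi p.1 p.2.1 p'.1 p'.2.1

lemma EX_WN (hUX : ∀ n, U ΛX hX n ≤ 1) (hUY : ∀ n, U ΛY hY n ≤ 1) (n : ℕ)
    (w : G) (t T t' T' i0 lo hi : ℕ) :
    EX ΛX hX n (fun L => EX ΛY hY n (WN hX zX TX hY zY TY w t T t' T' i0 lo hi L)) ≤
      ∑' L1, (I (fp hX t L1 ∧ HT hX L1 ≤ t + i0) * LW ΛX L1) *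
        ∑' L1', (I (fp hY t' L1' ∧ HT hY L1' ≤ t' + i0) * LW ΛY L1') *
          (∑' P, (I (fp hX T P ∧ HT hX P ≤ T + i0) * LW ΛX P) *
            ∑' P', (I (fp hY T' P' ∧ HT hY P' ≤ T' + i0) * LW ΛY P') *
              I (Rl TX TY lo hi (w + Dp zY L1' - Dp zX L1) (HT hX L1) (HT hY L1') P P')) := by
  have h0 := cutbound ΛX hX hUX n
    (fun L => EX ΛY hY n (WN hX zX TX hY zY TY w t T t' T' i0 lo hi L))
    (fun L1 P => ∑' L1', LW ΛY L1' * ∑' P', LW ΛY P' *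
      QQ hX zX TX hY zY TY w t T t' T' i0 lo hi L1 P L1' P')
    (fun L _ => by
      have e : WN hX zX TX hY zY TY w t T t' T' i0 lo hi L = fun L' =>
          ∑' p : List BX × List BX × List BX, (fun p L' => I (L = p.1 ++ (p.2.1 ++ p.2.2)) *
          ∑' p' : List BY × List BY × List BY, I (L' = p'.1 ++ (p'.2.1 ++ p'.2.2)) *
          QQ hX zX TX hY zY TY w t T t' T' i0 lo hi p.1 p.2.1 p'.1 p'.2.1) p L' := rfl
      rw [e, EX_tsum]
      refine ENNReal.tsum_le_tsum fun p => ?_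
      rw [EX_mul]
      exact mul_le_mul_right (cutbound ΛY hY hUY n _
        (fun L1' P' => QQ hX zX TX hY zY TY w t T t' T' i0 lo hi p.1 p.2.1 L1' P')
        (fun L' _ => le_rfl)) _)
  refine le_trans h0 (le_of_eq (tsum_congr fun L1 => ?_))
  have e1 : ∀ P : List BX, LW ΛX P * ∑' L1', LW ΛY L1' * ∑' P', LW ΛY P' *
      QQ hX zX TX hY zY TY w t T t' T' i0 lo hi L1 P L1' P'
      = ∑' L1', LW ΛX P * (LW ΛY L1' * ∑' P', LW ΛY P' *
      QQ hX zX TX hY zY TY w t T t' T' i0 lo hi L1 P L1' P') := fun P => by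
    rw [ENNReal.tsum_mul_left]
  rw [tsum_congr e1, ENNReal.tsum_comm, ← ENNReal.tsum_mul_left, ← ENNReal.tsum_mul_left]
  refine tsum_congr fun L1' => ?_
  rw [← ENNReal.tsum_mul_left, ← ENNReal.tsum_mul_left, ← ENNReal.tsum_mul_left]
  refine tsum_congr fun P => ?_
  rw [← ENNReal.tsum_mul_left, ← ENNReal.tsum_mul_left, ← ENNReal.tsum_mul_left,
    ← ENNReal.tsum_mul_left, ← ENNReal.tsum_mul_left, ← ENNReal.tsum_mul_left]
  refine tsum_congr fun P' => ?_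
  rw [QQ]; ring

variable (TXa : ∀ L L' x a, TX (L ++ L') x a = TX L x a ∪ TX L' (x + Dp zX L) (a + HT hX L))
  (TXd : ∀ L x a g k, (g, k) ∈ TX L x a → a + 1 ≤ k ∧ k ≤ a + HT hX L)
  (TXs : ∀ L x y a g k, (g, k) ∈ TX L (x + y) a ↔ (g - y, k) ∈ TX L x a)
  (TYa : ∀ L L' x a, TY (L ++ L') x a = TY L x a ∪ TY L' (x + Dp zY L) (a + HT hY L))
  (TYd : ∀ L x a g k, (g, k) ∈ TY L x a → a + 1 ≤ k ∧ k ≤ a + HT hY L)
  (TYs : ∀ L x y a g k, (g, k) ∈ TY L (x + y) a ↔ (g - y, k) ∈ TY L x a)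

include TXa TXd TXs TYa TYd TYs in
/-- geometry of one window -/
lemma geo (w : G) (t T i0 s : ℕ) (p : List BX × List BX × List BX)
    (p' : List BY × List BY × List BY)
    (h1 : fp hX t p.1 ∧ HT hX p.1 ≤ t + i0) (h2 : fp hX T p.2.1 ∧ HT hX p.2.1 ≤ T + i0)
    (h1' : fp hY (t + i0) p'.1 ∧ HT hY p'.1 ≤ t + i0 + i0)
    (h2' : fp hY (T + i0) p'.2.1 ∧ HT hY p'.2.1 ≤ T + i0 + i0)
    (hsl : ∀ g k, (g, k) ∈ TX (p.1 ++ (p.2.1 ++ p.2.2)) 0 0 →
      (g, k) ∈ TY (p'.1 ++ (p'.2.1 ++ p'.2.2)) w 0 → t < k → k ≤ t + T + 2 * i0 →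
      t + 4 * i0 + s < k ∧ k < t + T - s)
    (g : G) (k : ℕ) (hg : (g, k) ∈ TX (p.1 ++ (p.2.1 ++ p.2.2)) 0 0)
    (hg' : (g, k) ∈ TY (p'.1 ++ (p'.2.1 ++ p'.2.2)) w 0) (hk1 : t < k) (hk2 : k ≤ t + T) :
    Rl TX TY (t + 2 * i0 + s) (t + T - s) (w + Dp zY p'.1 - Dp zX p.1) (HT hX p.1) (HT hY p'.1)
      p.2.1 p'.2.1 := by
  have b1 := le_HT_of_fp hX h1.1
  have b2 := le_HT_of_fp hX h2.1
  have b1' := le_HT_of_fp hY h1'.1
  have b2' := le_HT_of_fp hY h2'.1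
  have hX1 : ∀ g k, (g, k) ∈ TX p.2.1 0 (HT hX p.1) → (g + Dp zX p.1, k) ∈
      TX (p.1 ++ (p.2.1 ++ p.2.2)) 0 0 := by
    intro g k hq
    rw [TXa, TXa]
    right; left
    have := (TXs p.2.1 0 (Dp zX p.1) (HT hX p.1) (g + Dp zX p.1) k).2 (by simpa using hq)
    rw [zero_add (HT hX p.1)]
    exact this
  have hY1 : ∀ g k, (g, k) ∈ TY p'.2.1 (w + Dp zY p'.1 - Dp zX p.1) (HT hY p'.1) →
      (g + Dp zX p.1, k) ∈ TY (p'.1 ++ (p'.2.1 ++ p'.2.2)) w 0 := by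
    intro g k hq
    rw [TYa, TYa]
    right; left
    have := (TYs p'.2.1 (w + Dp zY p'.1 - Dp zX p.1) (Dp zX p.1) (HT hY p'.1)
      (g + Dp zX p.1) k).2 (by simpa using hq)
    rw [zero_add (HT hY p'.1)]
    simpa using this
  refine ⟨⟨g - Dp zX p.1, k, ?_, ?_⟩, ?_⟩
  · have hk := hsl g k hg hg' hk1 (by omega)
    rw [TXa, TXa] at hg
    rcases hg with hg | hg | hg
    · have := TXd _ _ _ _ _ hg; omega
    · rw [zero_add (HT hX p.1)] at hg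
      exact (TXs p.2.1 0 (Dp zX p.1) (HT hX p.1) g k).1 hg
    · have := TXd _ _ _ _ _ hg; omega
  · have hk := hsl g k hg hg' hk1 (by omega)
    rw [TYa, TYa] at hg'
    rcases hg' with hg' | hg' | hg'
    · have := TYd _ _ _ _ _ hg'; omega
    · rw [zero_add (HT hY p'.1)] at hg'
      refine (TYs p'.2.1 (w + Dp zY p'.1 - Dp zX p.1) (Dp zX p.1) (HT hY p'.1) g k).1 ?_
      simpa using hg'
    · have := TYd _ _ _ _ _ hg'; omega
  · intro g' k' hq hq'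
    have c1 := TXd _ _ _ _ _ hq
    have c2 := TYd _ _ _ _ _ hq'
    have := hsl _ k' (hX1 g' k' hq) (hY1 g' k' hq') (by omega) (by omega)
    constructor <;> omega

end pairs

end Crest.Agent.R154.Asm324
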