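import Crest.Agent.R154.AsmF_354
import Crest.Agent.R154.AsmD_540

/-! Row 154 (helper354), ROAD 801: assembly, part G: sum over the windows, in the letters of AsmD_540. -/

set_option autoImplicit false

namespace Crest.Agent.R154.Asm354

open scoped ENNReal Topology
open Filter
open Crest.Agent.R154.B5A
open Crest.Agent.R154.FP178 (fp fp_nil fp_cons fp_zero le_HT_of_fp split sum_FP fp_split overshoot
  sum_fp_step sum_fp_zero)

variable {BX BY G : Type*} [AddCommGroup G]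
variable (ΛX : BX → ℝ≥0∞) (ΛY : BY → ℝ≥0∞) (hX : BX → ℕ) (hY : BY → ℕ) (zX : BX → G) (zY : BY → G)
variable (sX : BX → Set (G × ℕ)) (sY : BY → Set (G × ℕ))

open Classical in
/-- crossing pairs of height `n` with a common site at a depth in `S` -/
noncomputable def KK (n : ℕ) (w : G) (S : ℕ → Prop) : ℝ≥0∞ :=
  ∑' LX, ∑' LY, (if HT hX LX = n ∧ HT hY LY = n ∧
    ∃ k, S k ∧ cts hX hY zX zY sX sY w LX 0 LY 0 k then LW ΛX LX * LW ΛY LY else 0)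

lemma KK_mono (n : ℕ) (w : G) (S S' : ℕ → Prop) (h : ∀ k, S k → S' k) :
    KK ΛX ΛY hX hY zX zY sX sY n w S ≤ KK ΛX ΛY hX hY zX zY sX sY n w S' := by
  refine ENNReal.tsum_le_tsum fun LX => ENNReal.tsum_le_tsum fun LY => ?_
  by_cases c : HT hX LX = n ∧ HT hY LY = n ∧ ∃ k, S k ∧ cts hX hY zX zY sX sY w LX 0 LY 0 k
  · rw [if_pos c, if_pos ⟨c.1, c.2.1, c.2.2.imp fun k hk => ⟨h k hk.1, hk.2⟩⟩]
  · rw [if_neg c]; exact zero_le

lemma KK_union (n : ℕ) (w : G) {ι : Type*} (F : Finset ι) (S : ι → ℕ → Prop) :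
    KK ΛX ΛY hX hY zX zY sX sY n w (fun k => ∃ i ∈ F, S i k)
      ≤ ∑ i ∈ F, KK ΛX ΛY hX hY zX zY sX sY n w (S i) := by
  classical
  unfold KK
  rw [← Summable.tsum_finsetSum (fun _ _ => ENNReal.summable)]
  refine ENNReal.tsum_le_tsum fun LX => ?_
  rw [← Summable.tsum_finsetSum (fun _ _ => ENNReal.summable)]
  refine ENNReal.tsum_le_tsum fun LY => ?_
  by_cases c : HT hX LX = n ∧ HT hY LY = n ∧ ∃ k, (∃ i ∈ F, S i k) ∧
      cts hX hY zX zY sX sY w LX 0 LY 0 k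
  · rw [if_pos c]
    obtain ⟨c1, c2, k, ⟨i, hi, hS⟩, hk⟩ := c
    refine le_trans ?_ (Finset.single_le_sum (f := fun i => if HT hX LX = n ∧ HT hY LY = n ∧
      ∃ k, S i k ∧ cts hX hY zX zY sX sY w LX 0 LY 0 k then LW ΛX LX * LW ΛY LY else 0)
      (fun _ _ => zero_le) hi)
    rw [if_pos ⟨c1, c2, k, hS, hk⟩]
  · rw [if_neg c]; exact zero_le

/-- one window with the slabs -/
theorem window (h1X : ∀ b, 1 ≤ hX b) (h1Y : ∀ b, 1 ≤ hY b) (hΛX : ∑' b, ΛX b = 1)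
    (hΛY : ∑' b, ΛY b = 1) (hsX : ∀ b, ∀ q ∈ sX b, 1 ≤ q.2 ∧ q.2 ≤ hX b)
    (hsY : ∀ b, ∀ q ∈ sY b, 1 ≤ q.2 ∧ q.2 ≤ hY b) (C : ℝ≥0∞) (us : ℕ → ℝ≥0∞)
    (h2 : H2 ΛX ΛY hX hY zX zY sX sY C us) (h3 : H3 ΛX ΛY hX hY zX zY sX sY C us)
    (i0 : ℕ) (η : ℝ≥0∞)
    (hηX : ∑' k, tail ΛX hX (i0 + k) ≤ η) (hηY : ∑' k, tail ΛY hY (i0 + k) ≤ η)
    (u : ℝ≥0∞) (hu0 : u ≠ 0) (hu1 : u ≤ 1) (lam : ℝ≥0∞) (hlam : lam ≠ 0) (hlam' : lam ≠ ⊤)
    (J s α t n : ℕ) (ht3 : 3 * i0 ≤ t) (hst : s ≤ t) (hJ : J * (3 * t + i0) ≤ α)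
    (hn : α + 3 * i0 + 3 * t ≤ n) (w : G) :
    KK ΛX ΛY hX hY zX zY sX sY n w (fun k => α + t < k ∧ k ≤ α + 2 * t)
      ≤ KK ΛX ΛY hX hY zX zY sX sY n w (fun k => α + 1 ≤ k ∧ k < α + 1 + (3 * i0 + s))
      + KK ΛX ΛY hX hY zX zY sX sY n w (fun k => α + 3 * t + 1 - s ≤ k ∧
          k < α + 3 * t + 1 - s + (3 * i0 + s))
      + (4 * η + (2 * ((1 - u) ^ J + J * η) + u * u + 2 * ((i0 + 1) ^ 4 : ℕ) *
        (C * (lam + (((i0 + 1 : ℕ) : ℝ≥0∞) / u) * us s / lam + us s)))) := by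
  classical
  have hηX' : ∀ a, ∑' L, (if fp hX a L ∧ a + i0 < HT hX L then LW ΛX L else 0) ≤ η := fun a => by
    refine le_trans ?_ hηX
    convert overshoot ΛX hX h1X (U_le_one ΛX hX h1X hΛX) i0 a
  have hηY' : ∀ a, ∑' L, (if fp hY a L ∧ a + i0 < HT hY L then LW ΛY L else 0) ≤ η := fun a => by
    refine le_trans ?_ hηY
    convert overshoot ΛY hY h1Y (U_le_one ΛY hY h1Y hΛY) i0 a
  obtain ⟨MX, EX, hDX, hEX, hgX⟩ := loc ΛX hX zX h1X hΛX i0 η (fun a => by convert hηX' a) (3 * t)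
    u hu0 hu1
  obtain ⟨MY, EY, hDY, hEY, hgY⟩ := loc ΛY hY zY h1Y hΛY i0 η (fun a => by convert hηY' a) (3 * t)
    u hu0 hu1
  obtain ⟨GX, hGX, hbX⟩ := hgX J α hJ
  obtain ⟨GY, hGY, hbY⟩ := hgY J (α + 2 * i0) (by omega)
  have hp := pieces ΛX ΛY hX hY zX zY sX sY h1X h1Y hΛX hΛY C us h2 h3 i0 s α (3 * t) w GX GY MX MY
    ((1 - u) ^ J + J * η) u (((i0 + 1 : ℕ) : ℝ≥0∞) / u) lam hlam hlam' hGX hGY hbX hbY EX EY
    hEX hEY hDX hDY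
  have hto := to_pieces ΛX ΛY hX hY zX zY sX sY h1X h1Y hΛX hΛY hsX hsY i0 η
    (fun a => by convert hηX' a) (fun a => by convert hηY' a) s α (3 * t) n (by omega) w
  refine le_trans ?_ (add_le_add le_rfl (le_trans hto (add_le_add le_rfl hp)))
  unfold KK
  rw [← ENNReal.tsum_add, ← ENNReal.tsum_add]
  refine ENNReal.tsum_le_tsum fun LX => ?_
  rw [← ENNReal.tsum_add, ← ENNReal.tsum_add]
  refine ENNReal.tsum_le_tsum fun LY => ?_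
  by_cases c : HT hX LX = n ∧ HT hY LY = n ∧ ∃ k, (α + t < k ∧ k ≤ α + 2 * t) ∧
      cts hX hY zX zY sX sY w LX 0 LY 0 k
  swap
  · rw [if_neg c]; exact zero_le
  rw [if_pos c]
  obtain ⟨c1, c2, k, ⟨k1, k2⟩, hk⟩ := c
  by_cases s1 : ∃ k, (α + 1 ≤ k ∧ k < α + 1 + (3 * i0 + s)) ∧ cts hX hY zX zY sX sY w LX 0 LY 0 k
  · rw [if_pos ⟨c1, c2, s1⟩]
    exact le_add_right (le_add_right le_rfl)
  by_cases s2 : ∃ k, (α + 3 * t + 1 - s ≤ k ∧ k < α + 3 * t + 1 - s + (3 * i0 + s)) ∧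
      cts hX hY zX zY sX sY w LX 0 LY 0 k
  · rw [if_pos (c := HT hX LX = n ∧ HT hY LY = n ∧ ∃ k, (α + 3 * t + 1 - s ≤ k ∧
      k < α + 3 * t + 1 - s + (3 * i0 + s)) ∧ cts hX hY zX zY sX sY w LX 0 LY 0 k) ⟨c1, c2, s2⟩]
    exact le_add_right (le_add_left le_rfl)
  rw [if_pos (c := HT hX LX = n ∧ HT hY LY = n ∧ Ev hX hY zX zY sX sY w i0 s α (3 * t) LX LY)]
  · exact le_add_left le_rfl
  refine ⟨c1, c2, ⟨k, by omega, by omega, hk⟩, fun k' hk' => ?_⟩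
  have n1 : ¬ (α + 1 ≤ k' ∧ k' < α + 1 + (3 * i0 + s)) := fun h => s1 ⟨k', h, hk'⟩
  have n2 : ¬ (α + 3 * t + 1 - s ≤ k' ∧ k' < α + 3 * t + 1 - s + (3 * i0 + s)) :=
    fun h => s2 ⟨k', h, hk'⟩
  omega

/-- extension below -/
lemma ext2 (h1X : ∀ b, 1 ≤ hX b) (h1Y : ∀ b, 1 ≤ hY b) (n r : ℕ) (c : ℝ≥0∞)
    (hcX : c ≤ U ΛX hX r) (hcY : c ≤ U ΛY hY r) (w : G) (S : ℕ → Prop) :
    c * (c * KK ΛX ΛY hX hY zX zY sX sY n w S) ≤ KK ΛX ΛY hX hY zX zY sX sY (n + r) w S := by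
  classical
  have hmono : ∀ (L R : List BX) (L' R' : List BY) (k : ℕ),
      cts hX hY zX zY sX sY w L 0 L' 0 k → cts hX hY zX zY sX sY w (L ++ R) 0 (L' ++ R') 0 k := by
    rintro L R L' R' k ⟨y, h1, h2⟩
    exact ⟨y, by rw [TR_append]; exact Or.inl h1, by rw [TR_append]; exact Or.inl h2⟩
  have e : ∀ m, KK ΛX ΛY hX hY zX zY sX sY m w S
      = ∑' LX, (if HT hX LX = m then LW ΛX LX * ∑' LY, (if HT hY LY = m then LW ΛY LY *
        (if ∃ k, S k ∧ cts hX hY zX zY sX sY w LX 0 LY 0 k then 1 else 0) else 0) else 0) := by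
    intro m
    unfold KK
    refine tsum_congr fun LX => ?_
    by_cases h : HT hX LX = m
    · rw [if_pos h, ← ENNReal.tsum_mul_left]
      refine tsum_congr fun LY => ?_
      by_cases h2 : HT hY LY = m
      · by_cases h3 : ∃ k, S k ∧ cts hX hY zX zY sX sY w LX 0 LY 0 k
        · rw [if_pos ⟨h, h2, h3⟩, if_pos h2, if_pos h3, mul_one]
        · rw [if_neg (fun h' => h3 h'.2.2), if_pos h2, if_neg h3, mul_zero, mul_zero]
      · rw [if_neg (fun h' => h2 h'.2.1), if_neg h2, mul_zero]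
    · rw [if_neg h]
      refine ENNReal.tsum_eq_zero.2 fun LY => ?_
      rw [if_neg (fun h' => h h'.1)]
  rw [e n, e (n + r)]
  refine le_trans ?_ (ext1 ΛX hX h1X n r c hcX _ (fun LX => c * ∑' LY, (if HT hY LY = n then
    LW ΛY LY * (if ∃ k, S k ∧ cts hX hY zX zY sX sY w LX 0 LY 0 k then 1 else 0) else 0))
    (fun L R _ => ?_))
  · refine mul_le_mul_right ?_ _
    rw [← ENNReal.tsum_mul_left]
    refine ENNReal.tsum_le_tsum fun LX => ?_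
    by_cases h : HT hX LX = n
    · rw [if_pos h, if_pos h]; exact le_of_eq (by ring)
    · rw [if_neg h, if_neg h, mul_zero]
  · refine ext1 ΛY hY h1Y n r c hcY _ _ (fun L' R' _ => ?_)
    by_cases h3 : ∃ k, S k ∧ cts hX hY zX zY sX sY w L 0 L' 0 k
    · rw [if_pos h3, if_pos]
      obtain ⟨k, hS, hk⟩ := h3
      exact ⟨k, hS, hmono L R L' R' k hk⟩
    · rw [if_neg h3]; exact zero_le

end Crest.Agent.R154.Asm354
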