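import Crest.Agent.R154.AsmF_366

/-! Row 154, ROAD 801, assembly (helper366), part G: one window. -/

set_option autoImplicit false

namespace Crest.Agent.R154.Asm366

open scoped ENNReal
open Crest.Agent.R154.B5A
open Crest.Agent.R154.KWB419 (TT)

variable {BX BY G : Type*} [AddCommGroup G]
variable (ΛX : BX → ℝ≥0∞) (hX : BX → ℕ) (sX : BX → Set (G × ℕ)) (zX : BX → G)
variable (ΛY : BY → ℝ≥0∞) (hY : BY → ℕ) (sY : BY → Set (G × ℕ)) (zY : BY → G)

/-- event of the pieces -/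
def Ev3 (w : G) (lo hi : ℕ) (P Q : List BX) (P' Q' : List BY) : Prop :=
  (∃ z k, (z, k) ∈ TT sX hX zX Q 0 (HT hX P) ∧
    (z, k) ∈ TT sY hY zY Q' (w + Dp zY P' - Dp zX P) (HT hY P')) ∧
  (∀ z k, (z, k) ∈ TT sX hX zX Q 0 (HT hX P) →
    (z, k) ∈ TT sY hY zY Q' (w + Dp zY P' - Dp zX P) (HT hY P') → lo ≤ k ∧ k ≤ hi)

open Classical in
lemma main_le (w : G) (a a' T T' i0 lo hi : ℕ) :
    (∑' P : List BX, ∑' Q : List BX, if (FP hX P a ∧ HT hX P ≤ a + i0) ∧
        (FP hX Q T ∧ HT hX Q ≤ T + i0) then LW ΛX P * LW ΛX Q *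
        (∑' P' : List BY, ∑' Q' : List BY, if (FP hY P' a' ∧ HT hY P' ≤ a' + i0) ∧
          (FP hY Q' T' ∧ HT hY Q' ≤ T' + i0) then LW ΛY P' * LW ΛY Q' *
            (if Ev3 hX sX zX hY sY zY w lo hi P Q P' Q' then 1 else 0) else 0) else 0)
      ≤ ST i0 (fz ΛX hX zX a) (fz ΛY hY zY a') w (Phi ΛX hX sX zX ΛY hY sY zY T T' a a' i0
        (fun _ _ => True) (fun k => lo ≤ k ∧ k ≤ hi)) := by
  set Ph := Phi ΛX hX sX zX ΛY hY sY zY T T' a a' i0
        (fun _ _ => True) (fun k => lo ≤ k ∧ k ≤ hi) with hPh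
  -- right side as a sum over lists
  have eR : ST i0 (fz ΛX hX zX a) (fz ΛY hY zY a') w Ph
      = ∑' P : List BX, (if FP hX P a then LW ΛX P * (if HT hX P - a ≤ i0 then
          (∑' P' : List BY, (if FP hY P' a' then LW ΛY P' *
            (if HT hY P' - a' ≤ i0 then Ph (HT hX P - a) (HT hY P' - a')
              (w + Dp zY P' - Dp zX P) else 0) else 0)) else 0) else 0) := by
    rw [push ΛX hX zX a (fun e x => if e ≤ i0 then
          (∑' P' : List BY, (if FP hY P' a' then LW ΛY P' *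
            (if HT hY P' - a' ≤ i0 then Ph e (HT hY P' - a')
              (w + Dp zY P' - x) else 0) else 0)) else 0), ST]
    refine tsum_congr fun e => tsum_congr fun x => ?_
    by_cases he : e ≤ i0
    · simp only [he, true_and, if_true]
      rw [push ΛY hY zY a' (fun e' x' => if e' ≤ i0 then Ph e e' (w + x' - x) else 0),
        ← ENNReal.tsum_mul_left]
      refine tsum_congr fun e' => ?_
      rw [← ENNReal.tsum_mul_left]
      refine tsum_congr fun x' => ?_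
      split_ifs
      · rw [mul_assoc]
      · simp
    · simp [he]
  rw [eR]
  refine ENNReal.tsum_le_tsum fun P => ?_
  by_cases hP : FP hX P a ∧ HT hX P ≤ a + i0
  · have kP := le_HT_of_FP hX P a hP.1
    rw [if_pos hP.1, if_pos (by omega : HT hX P - a ≤ i0)]
    have e1 : ∀ Q : List BX, (if (FP hX P a ∧ HT hX P ≤ a + i0) ∧
        (FP hX Q T ∧ HT hX Q ≤ T + i0) then LW ΛX P * LW ΛX Q *
        (∑' P' : List BY, ∑' Q' : List BY, if (FP hY P' a' ∧ HT hY P' ≤ a' + i0) ∧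
          (FP hY Q' T' ∧ HT hY Q' ≤ T' + i0) then LW ΛY P' * LW ΛY Q' *
            (if Ev3 hX sX zX hY sY zY w lo hi P Q P' Q' then 1 else 0) else 0) else 0)
        = LW ΛX P * ∑' P' : List BY, (if (FP hX Q T ∧ HT hX Q ≤ T + i0) then LW ΛX Q *
          (∑' Q' : List BY, if (FP hY P' a' ∧ HT hY P' ≤ a' + i0) ∧
          (FP hY Q' T' ∧ HT hY Q' ≤ T' + i0) then LW ΛY P' * LW ΛY Q' *
            (if Ev3 hX sX zX hY sY zY w lo hi P Q P' Q' then 1 else 0) else 0) else 0) := by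
      intro Q
      by_cases hQ : FP hX Q T ∧ HT hX Q ≤ T + i0
      · simp only [hP, hQ, and_self, if_true]
        rw [ENNReal.tsum_mul_left, mul_assoc]
      · rw [if_neg (fun hh => hQ hh.2)]
        simp [hQ]
    simp_rw [e1]
    rw [ENNReal.tsum_mul_left, ENNReal.tsum_comm]
    gcongr with P'
    by_cases hP' : FP hY P' a' ∧ HT hY P' ≤ a' + i0
    · have kP' := le_HT_of_FP hY P' a' hP'.1
      rw [if_pos hP'.1, if_pos (by omega : HT hY P' - a' ≤ i0), hPh, Phi,
        ← ENNReal.tsum_mul_left]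
      refine ENNReal.tsum_le_tsum fun Q => ?_
      rw [← ENNReal.tsum_mul_left]
      by_cases hQ : FP hX Q T ∧ HT hX Q ≤ T + i0
      · rw [if_pos hQ, ← ENNReal.tsum_mul_left]
        refine ENNReal.tsum_le_tsum fun Q' => ?_
        by_cases hQ' : FP hY Q' T' ∧ HT hY Q' ≤ T' + i0
        · rw [if_pos ⟨hP', hQ'⟩]
          by_cases hE : Ev3 hX sX zX hY sY zY w lo hi P Q P' Q'
          · have e2 : a + (HT hX P - a) = HT hX P := by omega
            have e3 : a' + (HT hY P' - a') = HT hY P' := by omega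
            rw [if_pos hE, if_pos, mul_one]
            · exact le_of_eq (by ring)
            · rw [e2, e3]
              exact ⟨hQ, hQ', trivial, hE.1, hE.2⟩
          · rw [if_neg hE, mul_zero, mul_zero]; exact zero_le
        · rw [if_neg (fun hh => hQ' hh.2), mul_zero]; exact zero_le
      · rw [if_neg hQ]; exact zero_le
    · have : ∀ Q : List BX, (if (FP hX Q T ∧ HT hX Q ≤ T + i0) then LW ΛX Q *
          (∑' Q' : List BY, if (FP hY P' a' ∧ HT hY P' ≤ a' + i0) ∧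
          (FP hY Q' T' ∧ HT hY Q' ≤ T' + i0) then LW ΛY P' * LW ΛY Q' *
            (if Ev3 hX sX zX hY sY zY w lo hi P Q P' Q' then 1 else 0) else 0) else 0) = 0 := by
        intro Q
        simp [hP']
      simp_rw [this]
      simp
  · have : ∀ Q : List BX, (if (FP hX P a ∧ HT hX P ≤ a + i0) ∧
        (FP hX Q T ∧ HT hX Q ≤ T + i0) then LW ΛX P * LW ΛX Q *
        (∑' P' : List BY, ∑' Q' : List BY, if (FP hY P' a' ∧ HT hY P' ≤ a' + i0) ∧
          (FP hY Q' T' ∧ HT hY Q' ≤ T' + i0) then LW ΛY P' * LW ΛY Q' *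
            (if Ev3 hX sX zX hY sY zY w lo hi P Q P' Q' then 1 else 0) else 0) else 0) = 0 := by
      intro Q
      rw [if_neg (fun hh => hP hh.1)]
    simp_rw [this]
    simp

/-- event of the full lists -/
def EvW (w : G) (a b lo hi : ℕ) (LX : List BX) (LY : List BY) : Prop :=
  (∃ z k, (z, k) ∈ TT sX hX zX LX 0 0 ∧ (z, k) ∈ TT sY hY zY LY w 0 ∧ lo ≤ k ∧ k ≤ hi) ∧
  (∀ z k, (z, k) ∈ TT sX hX zX LX 0 0 → (z, k) ∈ TT sY hY zY LY w 0 → a < k → k ≤ b →
    lo ≤ k ∧ k ≤ hi)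

lemma ev_imp (hsX : ∀ b q, q ∈ sX b → 1 ≤ q.2 ∧ q.2 ≤ hX b)
    (hsY : ∀ b q, q ∈ sY b → 1 ≤ q.2 ∧ q.2 ≤ hY b) (w : G) (a b lo hi : ℕ)
    (P Q R : List BX) (P' Q' R' : List BY) (hP0 : a ≤ HT hX P)
    (hP1 : HT hX P < lo) (hP'1 : HT hY P' < lo) (hQ1 : hi ≤ HT hX P + HT hX Q)
    (hQ'1 : hi ≤ HT hY P' + HT hY Q') (hQb : HT hX P + HT hX Q ≤ b)
    (hE : EvW hX sX zX hY sY zY w a b lo hi (P ++ (Q ++ R)) (P' ++ (Q' ++ R'))) :
    Ev3 hX sX zX hY sY zY w lo hi P Q P' Q' := by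
  have tX : ∀ z k, (z, k) ∈ TT sX hX zX Q (Dp zX P) (HT hX P) →
      (z, k) ∈ TT sX hX zX (P ++ (Q ++ R)) 0 0 := by
    intro z k hz
    rw [TT_append, TT_append]
    right; left
    simpa using hz
  have tY : ∀ z k, (z, k) ∈ TT sY hY zY Q' (w + Dp zY P') (HT hY P') →
      (z, k) ∈ TT sY hY zY (P' ++ (Q' ++ R')) w 0 := by
    intro z k hz
    rw [TT_append, TT_append]
    right; left
    simpa using hz
  have shX : ∀ z k, (z, k) ∈ TT sX hX zX Q (Dp zX P) (HT hX P) ↔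
      (z - Dp zX P, k) ∈ TT sX hX zX Q 0 (HT hX P) := by
    intro z k
    have := TT_shift sX hX zX Q 0 (Dp zX P) z (HT hX P) k
    rwa [zero_add] at this
  have shY : ∀ z k, (z, k) ∈ TT sY hY zY Q' (w + Dp zY P') (HT hY P') ↔
      (z - Dp zX P, k) ∈ TT sY hY zY Q' (w + Dp zY P' - Dp zX P) (HT hY P') := by
    intro z k
    have := TT_shift sY hY zY Q' (w + Dp zY P' - Dp zX P) (Dp zX P) z (HT hY P') k
    rwa [sub_add_cancel] at this
  obtain ⟨⟨z, k, hz1, hz2, hk1, hk2⟩, hall⟩ := hE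
  have cX : (z, k) ∈ TT sX hX zX Q (Dp zX P) (HT hX P) := by
    rw [TT_append, TT_append] at hz1
    rcases hz1 with h | h | h
    · have := TT_depth sX hX zX hsX P 0 0 _ h
      simp only at this; omega
    · simpa using h
    · have := TT_depth sX hX zX hsX R _ _ _ h
      simp only at this; omega
  have cY : (z, k) ∈ TT sY hY zY Q' (w + Dp zY P') (HT hY P') := by
    rw [TT_append, TT_append] at hz2
    rcases hz2 with h | h | h
    · have := TT_depth sY hY zY hsY P' w 0 _ h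
      simp only at this; omega
    · simpa using h
    · have := TT_depth sY hY zY hsY R' _ _ _ h
      simp only at this; omega
  refine ⟨⟨z - Dp zX P, k, (shX z k).1 cX, (shY z k).1 cY⟩, ?_⟩
  intro y j hy1 hy2
  have k1 : (y + Dp zX P, j) ∈ TT sX hX zX Q (Dp zX P) (HT hX P) := by
    rw [shX, add_sub_cancel_right]; exact hy1
  have k2 : (y + Dp zX P, j) ∈ TT sY hY zY Q' (w + Dp zY P') (HT hY P') := by
    rw [shY, add_sub_cancel_right]; exact hy2
  have k3 := TT_depth sX hX zX hsX Q _ _ _ k1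
  simp only at k3
  exact hall _ j (tX _ _ k1) (tY _ _ k2) (by omega) (by omega)

end Crest.Agent.R154.Asm366
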