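import Crest.Agent.R154.AsmF_392
import Crest.Agent.R154.NumK_658
import Crest.Agent.R154.Ext_944

/-! Row 154, ROAD 801 (helper392): the assembly. -/

set_option autoImplicit false

namespace Crest.Agent.R154.Asm392

open scoped ENNReal
open Crest.Agent.R154.B5A Crest.Agent.R154.FP178
open Filter Topology

variable {BX BY G : Type*} [AddCommGroup G]
  (ΛX : BX → ℝ≥0∞) (hX : BX → ℕ) (zX : BX → G) (ΛY : BY → ℝ≥0∞) (hY : BY → ℕ) (zY : BY → G)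
  (TX : List BX → G → ℕ → Set (G × ℕ)) (TY : List BY → G → ℕ → Set (G × ℕ))

open Classical in
theorem main2 (oX : TrOK hX zX TX) (oY : TrOK hY zY TY)
    (h1X : ∀ b, 1 ≤ hX b) (h1Y : ∀ b, 1 ≤ hY b) (hΛX : ∑' b, ΛX b = 1)
    (hΛY : ∑' b, ΛY b = 1) (hUX : ∀ n, U ΛX hX n ≤ 1) (hUY : ∀ n, U ΛY hY n ≤ 1)
    (u η : ℝ≥0∞) (hu0 : u ≠ 0) (hu1 : u ≤ 1) (s : ℕ)
    (F2 : ∀ a a' h h' lo hi : ℕ, a ≤ a' →
    a + h ≤ a' + h' → a + s ≤ lo → a' + s ≤ lo → hi + s ≤ a + h → hi + s ≤ a' + h' →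
    ∀ (E : Finset G) (μ : G → ℝ≥0∞) (M : ℝ≥0∞), ∑' x, μ x ≤ 1 → (∀ x, μ x ≤ M) →
    M * E.card ≤ u⁻¹ →
    ∑' x, μ x * ∑' L, ∑' L', (if HT hX L = h ∧ Dp zX L ∈ E ∧ HT hY L' = h' ∧
      Cn TX TY lo hi a L a' L' x then LW ΛX L * LW ΛY L' else 0) ≤ η)
    (F3 : ∀ a a' h h' lo hi : ℕ, a ≤ a' →
    a + h ≤ a' + h' → a + s ≤ lo → a' + s ≤ lo → hi + s ≤ a + h → hi + s ≤ a' + h' →
    ∀ (E : Finset G) (μ : G → ℝ≥0∞) (M : ℝ≥0∞), ∑' x, μ x ≤ 1 → (∀ x, μ x ≤ M) →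
    M * E.card ≤ u⁻¹ →
    ∑' x, μ x * ∑' L, ∑' L', (if HT hX L = h ∧ HT hY L' = h' ∧ Dp zY L' ∈ E ∧
      Cn TX TY lo hi a L a' L' x then LW ΛX L * LW ΛY L' else 0) ≤ η)
    (ε1 ε' : ℝ≥0∞) (K T i0 m n : ℕ) (w : G) (hT1 : 1 ≤ T)
    (hεX : ∀ a, ∑' L, (if fp hX a L ∧ a + i0 < HT hX L then LW ΛX L else 0) ≤ ε1)
    (hεY : ∀ a, ∑' L, (if fp hY a L ∧ a + i0 < HT hY L then LW ΛY L else 0) ≤ ε1)
    (hsT : s ≤ T) (hKT : 2 * K ≤ T) (hm1 : K * T ≤ m) (hm2 : m < K * T + K)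
    (hD : (2 * K + 1) * i0 + i0 ≤ m)
    (hn : (2 * K + 1) * i0 + i0 + (2 * K + 1) * (T + i0) ≤ n)
    (W : ℕ) (hW : W = (2 * K + 1) * i0 + i0 + (2 * K + 1) * i0)
    (hPt : ∀ k ∈ SLs K T s W, ∑' LX, ∑' LY, (if HT hX LX = n ∧ HT hY LY = n ∧
      ∃ g, Co TX TY LX LY 0 w 0 0 g k then LW ΛX LX * LW ΛY LY else 0) ≤ ε') :
    ∑' LX, ∑' LY, (if HT hX LX = n ∧ HT hY LY = n ∧
      (∃ k g, m < k ∧ k ≤ 2 * m ∧ Co TX TY LX LY 0 w 0 0 g k) then LW ΛX LX * LW ΛY LY else 0)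
      ≤ (((K + 2) * (W + 2 * s + 1) : ℕ) : ℝ≥0∞) * ε'
        + ((∑ j ∈ Finset.Icc K (2 * K), wb u η i0 j
        + (((2 * K + 1 : ℕ) : ℝ≥0∞) * ε1 + ((2 * K + 1 : ℕ) : ℝ≥0∞) * ε1)) + ε1) := by
  set D := (2 * K + 1) * i0 with hDd
  set B1 : ℝ≥0∞ := ∑ j ∈ Finset.Icc K (2 * K), wb u η i0 j
        + (((2 * K + 1 : ℕ) : ℝ≥0∞) * ε1 + ((2 * K + 1 : ℕ) : ℝ≥0∞) * ε1) with hB1
  set F0 : List BX → List BY → ℝ≥0∞ := fun LX LY =>
    (if (∃ g k, m < k ∧ k ≤ 2 * m ∧ Co TX TY LX LY 0 w 0 0 g k) ∧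
        (∀ g k, Co TX TY LX LY 0 w 0 0 g k → k ∉ SLs K T s W) then 1 else 0) with hF0
  have hpt : ∀ LX LY, (if HT hX LX = n ∧ HT hY LY = n ∧
      (∃ k g, m < k ∧ k ≤ 2 * m ∧ Co TX TY LX LY 0 w 0 0 g k) then LW ΛX LX * LW ΛY LY else 0)
      ≤ ∑ k ∈ SLs K T s W, (if HT hX LX = n ∧ HT hY LY = n ∧
          ∃ g, Co TX TY LX LY 0 w 0 0 g k then LW ΛX LX * LW ΛY LY else 0)
        + (if HT hX LX = n then LW ΛX LX else 0) *
          (if HT hY LY = n then LW ΛY LY * F0 LX LY else 0) := by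
    intro LX LY
    by_cases hc : HT hX LX = n ∧ HT hY LY = n ∧
      (∃ k g, m < k ∧ k ≤ 2 * m ∧ Co TX TY LX LY 0 w 0 0 g k)
    · rw [if_pos hc]
      obtain ⟨c1, c2, k, g, k1, k2, hk⟩ := hc
      by_cases hs : ∀ g k, Co TX TY LX LY 0 w 0 0 g k → k ∉ SLs K T s W
      · refine le_trans ?_ le_add_self
        rw [if_pos c1, if_pos c2]
        simp only [hF0]
        rw [if_pos ⟨⟨g, k, k1, k2, hk⟩, hs⟩, mul_one]
      · push Not at hs
        obtain ⟨g', k', h1, h2⟩ := hs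
        refine le_trans ?_ le_self_add
        refine le_trans ?_ (Finset.single_le_sum (f := fun k => (if HT hX LX = n ∧ HT hY LY = n ∧
          ∃ g, Co TX TY LX LY 0 w 0 0 g k then LW ΛX LX * LW ΛY LY else 0))
          (fun _ _ => zero_le) h2)
        rw [if_pos ⟨c1, c2, g', h1⟩]
    · rw [if_neg hc]; exact zero_le
  calc _ ≤ ∑' LX, ∑' LY, (∑ k ∈ SLs K T s W, (if HT hX LX = n ∧ HT hY LY = n ∧
          ∃ g, Co TX TY LX LY 0 w 0 0 g k then LW ΛX LX * LW ΛY LY else 0)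
        + (if HT hX LX = n then LW ΛX LX else 0) *
          (if HT hY LY = n then LW ΛY LY * F0 LX LY else 0)) :=
        ENNReal.tsum_le_tsum fun LX => ENNReal.tsum_le_tsum fun LY => hpt LX LY
    _ = ∑ k ∈ SLs K T s W, ∑' LX, ∑' LY, (if HT hX LX = n ∧ HT hY LY = n ∧
          ∃ g, Co TX TY LX LY 0 w 0 0 g k then LW ΛX LX * LW ΛY LY else 0)
        + ∑' LX, (if HT hX LX = n then LW ΛX LX else 0) *
          ∑' LY, (if HT hY LY = n then LW ΛY LY * F0 LX LY else 0) := by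
        simp only [ENNReal.tsum_add]
        congr 1
        · have e1 : ∀ LX, ∑' LY, ∑ k ∈ SLs K T s W, (if HT hX LX = n ∧ HT hY LY = n ∧
              ∃ g, Co TX TY LX LY 0 w 0 0 g k then LW ΛX LX * LW ΛY LY else 0)
              = ∑ k ∈ SLs K T s W, ∑' LY, (if HT hX LX = n ∧ HT hY LY = n ∧
              ∃ g, Co TX TY LX LY 0 w 0 0 g k then LW ΛX LX * LW ΛY LY else 0) := by
            intro LX
            exact Summable.tsum_finsetSum (fun _ _ => ENNReal.summable)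
          rw [tsum_congr e1]
          exact Summable.tsum_finsetSum (fun _ _ => ENNReal.summable)
        · exact tsum_congr fun LX => ENNReal.tsum_mul_left
    _ ≤ (((K + 2) * (W + 2 * s + 1) : ℕ) : ℝ≥0∞) * ε' + (B1 + ε1) := by
        refine add_le_add ?_ ?_
        · calc ∑ k ∈ SLs K T s W, _ ≤ ∑ _k ∈ SLs K T s W, ε' := Finset.sum_le_sum hPt
            _ = ((SLs K T s W).card : ℝ≥0∞) * ε' := by simp
            _ ≤ _ := mul_le_mul_left (by exact_mod_cast SLs_card K T s W) _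
        · -- the main part
          have hinner : ∀ LX, ∑' LY, (if HT hY LY = n then LW ΛY LY * F0 LX LY else 0)
              ≤ ∑' Q, wt ΛY hY D i0 Q * (∑' R, (if HT hY Q + HT hY R = n then
                LW ΛY R * F0 LX (Q ++ R) else 0)) + ε1 := by
            intro LX
            have h := expand ΛY hY D i0 h1Y hΛY hUY ε1 (hεY D) 1 n (by omega) (F0 LX)
              (fun L => by simp only [hF0]; split_ifs <;> simp)
            rw [It_succ] at h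
            simp only [It_zero, List.append_nil, Nat.cast_one, one_mul] at h
            exact h
          calc ∑' LX, (if HT hX LX = n then LW ΛX LX else 0) *
                ∑' LY, (if HT hY LY = n then LW ΛY LY * F0 LX LY else 0)
              ≤ ∑' LX, ((if HT hX LX = n then LW ΛX LX else 0) *
                (∑' Q, wt ΛY hY D i0 Q * (∑' R, (if HT hY Q + HT hY R = n then
                LW ΛY R * F0 LX (Q ++ R) else 0)))
                + (if HT hX LX = n then LW ΛX LX else 0) * ε1) := by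
                refine ENNReal.tsum_le_tsum fun LX => ?_
                rw [← mul_add]
                exact mul_le_mul_right (hinner LX) _
            _ = ∑' Q, wt ΛY hY D i0 Q * (∑' LX, (if HT hX LX = n then LW ΛX LX else 0) *
                (∑' R, (if HT hY Q + HT hY R = n then
                LW ΛY R * F0 LX (Q ++ R) else 0)))
                + (∑' LX, (if HT hX LX = n then LW ΛX LX else 0)) * ε1 := by
                rw [ENNReal.tsum_add, ENNReal.tsum_mul_right]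
                congr 1
                simp only [← ENNReal.tsum_mul_left]
                rw [ENNReal.tsum_comm]
                refine tsum_congr fun Q => tsum_congr fun LX => tsum_congr fun R => ?_
                ring
            _ ≤ ∑' Q, wt ΛY hY D i0 Q * B1 + 1 * ε1 := by
                refine add_le_add (ENNReal.tsum_le_tsum fun Q => ?_) (mul_le_mul_left (hUX n) _)
                by_cases hQ0 : wt ΛY hY D i0 Q = 0
                · simp [hQ0]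
                obtain ⟨hQ1, hQ2⟩ := wt_range ΛY hY D i0 Q hQ0
                refine mul_le_mul_right ?_ _
                have hm := main1 ΛX hX zX ΛY hY zY TX TY oX oY h1X h1Y hΛX hΛY hUX hUY u η hu0 hu1
                  s F2 F3 ε1 K T i0 m (HT hY Q) n (n - HT hY Q) (w + Dp zY Q) hT1 (hεX T) (hεY T)
                  hsT hKT hm1 hm2 hQ1 hQ2 (by omega) (by omega) W hW
                refine le_trans ?_ hm
                refine ENNReal.tsum_le_tsum fun LX => ?_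
                rw [← ENNReal.tsum_mul_left]
                refine ENNReal.tsum_le_tsum fun R => ?_
                by_cases c1 : HT hX LX = n
                · by_cases c2 : HT hY Q + HT hY R = n
                  · rw [if_pos c1, if_pos c2, if_pos ⟨c1, by omega⟩, ← mul_assoc]
                    refine mul_le_mul_right ?_ _
                    simp only [hF0]
                    by_cases hc : (∃ g k, m < k ∧ k ≤ 2 * m ∧
                        Co TX TY LX (Q ++ R) 0 w 0 0 g k) ∧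
                        (∀ g k, Co TX TY LX (Q ++ R) 0 w 0 0 g k → k ∉ SLs K T s W)
                    · rw [if_pos hc, if_pos]
                      obtain ⟨⟨g, k, k1, k2, kX, kY⟩, hns⟩ := hc
                      refine ⟨⟨g, k, k1, k2, kX, ?_⟩, fun g k h => hns g k ⟨h.1, ?_⟩⟩
                      · rw [oY.app] at kY
                        rcases kY with h | h
                        · have := oY.dep _ _ _ _ h
                          simp only at this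
                          omega
                        · rw [zero_add] at h
                          exact h
                      · rw [oY.app]
                        refine Or.inr ?_
                        rw [zero_add]
                        exact h.2
                    · rw [if_neg hc]; exact zero_le
                  · rw [if_neg c2, mul_zero]; exact zero_le
                · rw [if_neg c1, zero_mul]; exact zero_le
            _ = (∑' Q, wt ΛY hY D i0 Q) * B1 + ε1 := by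
                rw [ENNReal.tsum_mul_right, one_mul]
            _ ≤ 1 * B1 + ε1 := add_le_add_left (mul_le_mul_left (wt_sum ΛY hY D i0 h1Y hΛY) _) _
            _ = B1 + ε1 := by rw [one_mul]
    _ = _ := rfl

lemma wb_le (u η : ℝ≥0∞) (i0 j K : ℕ) (h1 : K ≤ j) (h2 : j ≤ 2 * K) :
    wb u η i0 j ≤ u * u + 2 * (1 - u) ^ K + 2 * ((((2 * K * i0 + 1) * ((2 * K * i0 + 1) *
      ((i0 + 1) * (i0 + 1))) : ℕ) : ℝ≥0∞) * η) := by
  have e1 : (1 - u) ^ j ≤ (1 - u) ^ K := pow_le_pow_right_of_le_one' tsub_le_self h1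
  have e2 : (((j * i0 + 1 : ℕ) : ℝ≥0∞) * (((j * i0 + 1 : ℕ) : ℝ≥0∞) * (((i0 + 1 : ℕ) : ℝ≥0∞) *
            (((i0 + 1 : ℕ) : ℝ≥0∞) * η))))
      ≤ (((2 * K * i0 + 1) * ((2 * K * i0 + 1) * ((i0 + 1) * (i0 + 1))) : ℕ) : ℝ≥0∞) * η := by
    have h3 : j * i0 + 1 ≤ 2 * K * i0 + 1 := Nat.succ_le_succ (Nat.mul_le_mul_right _ h2)
    have h3' : ((j * i0 + 1 : ℕ) : ℝ≥0∞) ≤ ((2 * K * i0 + 1 : ℕ) : ℝ≥0∞) := by exact_mod_cast h3
    calc _ ≤ (((2 * K * i0 + 1 : ℕ) : ℝ≥0∞) * (((2 * K * i0 + 1 : ℕ) : ℝ≥0∞) *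
          (((i0 + 1 : ℕ) : ℝ≥0∞) * (((i0 + 1 : ℕ) : ℝ≥0∞) * η)))) :=
          mul_le_mul' h3' (mul_le_mul_left h3' _)
      _ = _ := by
          rw [Nat.cast_mul, Nat.cast_mul, Nat.cast_mul]
          ring
  unfold wb
  calc _ ≤ u * u + (((1 - u) ^ K + (((2 * K * i0 + 1) * ((2 * K * i0 + 1) *
      ((i0 + 1) * (i0 + 1))) : ℕ) : ℝ≥0∞) * η) + ((1 - u) ^ K + (((2 * K * i0 + 1) *
      ((2 * K * i0 + 1) * ((i0 + 1) * (i0 + 1))) : ℕ) : ℝ≥0∞) * η)) := by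
        gcongr
    _ = _ := by ring

open Classical in
/-- **the assembly**, tall crossings -/
theorem kapN (oX : TrOK hX zX TX) (oY : TrOK hY zY TY)
    (h1X : ∀ b, 1 ≤ hX b) (h1Y : ∀ b, 1 ≤ hY b) (hΛX : ∑' b, ΛX b = 1)
    (hΛY : ∑' b, ΛY b = 1) (hUX : ∀ n, U ΛX hX n ≤ 1) (hUY : ∀ n, U ΛY hY n ≤ 1)
    (hEX : ∑' b, ΛX b * (hX b : ℝ≥0∞) ≠ ⊤) (hEY : ∑' b, ΛY b * (hY b : ℝ≥0∞) ≠ ⊤)
    (F2 : Face2 ΛX hX zX ΛY hY TX TY) (F3 : Face3 ΛX hX ΛY hY zY TX TY) (W0 : Set G)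
    (hPt : ∀ ε : ℝ≥0∞, ε ≠ 0 → ∃ k0 : ℕ, ∀ k, k0 ≤ k → ∀ n, ∀ w ∈ W0,
      ∑' LX, ∑' LY, (if HT hX LX = n ∧ HT hY LY = n ∧
      ∃ g, Co TX TY LX LY 0 w 0 0 g k then LW ΛX LX * LW ΛY LY else 0) ≤ ε) :
    ∀ ε : ℝ≥0∞, ε ≠ 0 → ∃ M : ℕ, ∀ m, M ≤ m → ∃ n0 : ℕ, ∀ n, n0 ≤ n → ∀ w ∈ W0,
      ∑' LX, ∑' LY, (if HT hX LX = n ∧ HT hY LY = n ∧
      (∃ k g, m < k ∧ k ≤ 2 * m ∧ Co TX TY LX LY 0 w 0 0 g k) then LW ΛX LX * LW ΛY LY else 0)
      ≤ ε := by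
  intro ε hε
  have h5 : ε / 5 ≠ 0 := by
    rw [Ne, ENNReal.div_eq_zero_iff, not_or]; exact ⟨hε, by norm_num⟩
  obtain ⟨K, u, -, hK1, hu0, hu1, n1, n2⟩ := NumK658.chooseK1 2 (by norm_num) (ε / 5) h5 0
  -- overshoot
  have tX : Tendsto (fun i : ℕ => ∑' k, tail ΛX hX (k + i)) atTop (𝓝 0) :=
    ENNReal.tendsto_sum_nat_add _ (by rw [← sum_tail ΛX hX hΛX]; exact hEX)
  have tY : Tendsto (fun i : ℕ => ∑' k, tail ΛY hY (k + i)) atTop (𝓝 0) :=
    ENNReal.tendsto_sum_nat_add _ (by rw [← sum_tail ΛY hY hΛY]; exact hEY)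
  have tXY : Tendsto (fun i : ℕ => ∑' k, tail ΛX hX (k + i) + ∑' k, tail ΛY hY (k + i)) atTop
      (𝓝 0) := by simpa using tX.add tY
  obtain ⟨i0, hi0⟩ := NumK658.chooseNat _ tXY ((2 * (2 * K + 1) + 1 : ℕ) : ℝ≥0∞)
    (ENNReal.natCast_ne_top _) (ε / 5) h5
  set ε1 := ∑' k, tail ΛX hX (k + i0) + ∑' k, tail ΛY hY (k + i0) with hε1
  have hi := hi0 i0 le_rfl
  rw [← hε1] at hi
  have hεX : ∀ a, ∑' L, (if fp hX a L ∧ a + i0 < HT hX L then LW ΛX L else 0) ≤ ε1 := by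
    intro a
    refine (overshoot ΛX hX h1X hUX i0 a).trans (le_trans (le_of_eq ?_) le_self_add)
    exact tsum_congr fun k => by rw [add_comm]
  have hεY : ∀ a, ∑' L, (if fp hY a L ∧ a + i0 < HT hY L then LW ΛY L else 0) ≤ ε1 := by
    intro a
    refine (overshoot ΛY hY h1Y hUY i0 a).trans (le_trans (le_of_eq ?_) le_add_self)
    exact tsum_congr fun k => by rw [add_comm]
  -- η
  set N : ℕ := (2 * K * i0 + 1) * ((2 * K * i0 + 1) * ((i0 + 1) * (i0 + 1))) with hN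
  obtain ⟨η, hη0, hη⟩ := NumK658.chooseEta (((K + 1) * (2 * N) : ℕ) : ℝ≥0∞)
    (ENNReal.natCast_ne_top _) (ε / 5) h5
  have hut : (u⁻¹ : ℝ≥0∞) ≠ ⊤ := ENNReal.inv_ne_top.2 hu0
  obtain ⟨s2, hs2⟩ := F2 u⁻¹ hut η hη0
  obtain ⟨s3, hs3⟩ := F3 u⁻¹ hut η hη0
  set s := max s2 s3 with hs
  have hs2' : s2 ≤ s := le_max_left _ _
  have hs3' : s3 ≤ s := le_max_right _ _
  set W : ℕ := (2 * K + 1) * i0 + i0 + (2 * K + 1) * i0 with hW
  obtain ⟨ε', hε'0, hε'⟩ := NumK658.chooseEta (((K + 2) * (W + 2 * s + 1) : ℕ) : ℝ≥0∞)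
    (ENNReal.natCast_ne_top _) (ε / 5) h5
  obtain ⟨k0, hk0⟩ := hPt ε' hε'0
  set T0 : ℕ := k0 + s + 2 * K + ((2 * K + 1) * i0 + i0) + 1 with hT0
  refine ⟨K * T0, fun m hm => ?_⟩
  set T := m / K with hT
  have hTT : T0 ≤ T := by
    rw [hT, Nat.le_div_iff_mul_le (by omega), mul_comm]; exact hm
  have hm1 : K * T ≤ m := Nat.mul_div_le m K
  have hm2 : m < K * T + K := by
    have := Nat.lt_mul_div_succ m (by omega : 0 < K)
    rw [← hT] at this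
    have e : K * (T + 1) = K * T + K := by ring
    omega
  have hKTle : T ≤ K * T := Nat.le_mul_of_pos_left _ (by omega)
  refine ⟨(2 * K + 1) * i0 + i0 + (2 * K + 1) * (T + i0), fun n hn w hw => ?_⟩
  have hmain := main2 ΛX hX zX ΛY hY zY TX TY oX oY h1X h1Y hΛX hΛY hUX hUY u η hu0 hu1 s
    (fun a a' h h' lo hi b1 b2 b3 b4 b5 b6 => hs2 a a' h h' lo hi b1 b2 (by omega) (by omega)
      (by omega) (by omega))
    (fun a a' h h' lo hi b1 b2 b3 b4 b5 b6 => hs3 a a' h h' lo hi b1 b2 (by omega) (by omega)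
      (by omega) (by omega))
    ε1 ε' K T i0 m n w (by omega) hεX hεY (by omega) (by omega) hm1 hm2 (by omega) hn W hW
    (fun k hk => hk0 k (by
      obtain ⟨j, hj, hkj⟩ := Finset.mem_biUnion.1 hk
      rw [Finset.mem_Icc] at hj hkj
      have : T ≤ j * T := Nat.le_mul_of_pos_left _ (by omega)
      omega) n w hw)
  refine hmain.trans ?_
  have hcard : (Finset.Icc K (2 * K)).card = K + 1 := by rw [Nat.card_Icc]; omega
  have hwb : ∑ j ∈ Finset.Icc K (2 * K), wb u η i0 j ≤ ((K + 1 : ℕ) : ℝ≥0∞) *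
      (u * u + 2 * (1 - u) ^ K + 2 * ((N : ℝ≥0∞) * η)) := by
    calc ∑ j ∈ Finset.Icc K (2 * K), wb u η i0 j
        ≤ ∑ _j ∈ Finset.Icc K (2 * K), (u * u + 2 * (1 - u) ^ K + 2 * ((N : ℝ≥0∞) * η)) :=
          Finset.sum_le_sum fun j hj => wb_le u η i0 j K (Finset.mem_Icc.1 hj).1
            (Finset.mem_Icc.1 hj).2
      _ = _ := by rw [Finset.sum_const, hcard, nsmul_eq_mul]
  calc _ ≤ (((K + 2) * (W + 2 * s + 1) : ℕ) : ℝ≥0∞) * ε'
        + ((((K + 1 : ℕ) : ℝ≥0∞) * (u * u + 2 * (1 - u) ^ K + 2 * ((N : ℝ≥0∞) * η))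
        + (((2 * K + 1 : ℕ) : ℝ≥0∞) * ε1 + ((2 * K + 1 : ℕ) : ℝ≥0∞) * ε1)) + ε1) := by
        gcongr
    _ = (((K + 2) * (W + 2 * s + 1) : ℕ) : ℝ≥0∞) * ε'
        + ((K + 1) * u ^ 2 + 2 * ((K + 1) * (1 - u) ^ K)
          + ((K + 1) * (2 * N) : ℕ) * η + ((2 * (2 * K + 1) + 1 : ℕ) : ℝ≥0∞) * ε1) := by
        push_cast
        ring
    _ ≤ ε / 5 + (ε / 5 + ε / 5 + ε / 5 + ε / 5) := by
        refine add_le_add hε' (add_le_add (add_le_add (add_le_add ?_ n2) hη) hi)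
        refine le_trans ?_ n1
        calc ((K : ℝ≥0∞) + 1) * u ^ 2 = 1 * ((K + 1) * u ^ 2) := (one_mul _).symm
          _ ≤ 2 * ((K + 1) * u ^ 2) := mul_le_mul_left (by norm_num) _
    _ = 5 * (ε / 5) := by ring
    _ ≤ ε := ENNReal.mul_div_le

open Classical in
/-- **the assembly** -/
theorem kapS (oX : TrOK hX zX TX) (oY : TrOK hY zY TY)
    (h1X : ∀ b, 1 ≤ hX b) (h1Y : ∀ b, 1 ≤ hY b) (hΛX : ∑' b, ΛX b = 1)
    (hΛY : ∑' b, ΛY b = 1) (hUX : ∀ n, U ΛX hX n ≤ 1) (hUY : ∀ n, U ΛY hY n ≤ 1)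
    (hEX : ∑' b, ΛX b * (hX b : ℝ≥0∞) ≠ ⊤) (hEY : ∑' b, ΛY b * (hY b : ℝ≥0∞) ≠ ⊤)
    (c : ℝ≥0∞) (hc : c ≠ 0) (hcX : ∀ n, c ≤ U ΛX hX n) (hcY : ∀ n, c ≤ U ΛY hY n)
    (F2 : Face2 ΛX hX zX ΛY hY TX TY) (F3 : Face3 ΛX hX ΛY hY zY TX TY) (W0 : Set G)
    (hPt : ∀ ε : ℝ≥0∞, ε ≠ 0 → ∃ k0 : ℕ, ∀ k, k0 ≤ k → ∀ n, ∀ w ∈ W0,
      ∑' LX, ∑' LY, (if HT hX LX = n ∧ HT hY LY = n ∧
      ∃ g, Co TX TY LX LY 0 w 0 0 g k then LW ΛX LX * LW ΛY LY else 0) ≤ ε) :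
    ∀ ε : ℝ≥0∞, ε ≠ 0 → ∃ M : ℕ, ∀ m, M ≤ m → ∀ n, 2 * m ≤ n → ∀ w ∈ W0,
      ∑' LX, ∑' LY, (if HT hX LX = n ∧ HT hY LY = n ∧
      (∃ k g, m < k ∧ k ≤ 2 * m ∧ Co TX TY LX LY 0 w 0 0 g k) then LW ΛX LX * LW ΛY LY else 0)
      ≤ ε := by
  intro ε hε
  have hc1 : c ≤ 1 := (hcX 0).trans (hUX 0)
  have hct : c ≠ ⊤ := ne_top_of_le_ne_top ENNReal.one_ne_top hc1
  obtain ⟨δ, hδ0, hδ⟩ := NumK658.chooseEta (c⁻¹ * c⁻¹)
    (ENNReal.mul_ne_top (ENNReal.inv_ne_top.2 hc) (ENNReal.inv_ne_top.2 hc)) ε hε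
  obtain ⟨M, hM⟩ := kapN ΛX hX zX ΛY hY zY TX TY oX oY h1X h1Y hΛX hΛY hUX hUY hEX hEY F2 F3 W0
    hPt δ hδ0
  refine ⟨M, fun m hm n hn w hw => ?_⟩
  obtain ⟨n0, hn0⟩ := hM m hm
  have h := Ext944.ext2_le ΛX hX ΛY hY h1X h1Y c c hc hct hc hct n n0 (hcX n0) (hcY n0)
    (fun LX LY => ∃ k g, m < k ∧ k ≤ 2 * m ∧ Co TX TY LX LY 0 w 0 0 g k)
    (fun LX LY => ∃ k g, m < k ∧ k ≤ 2 * m ∧ Co TX TY LX LY 0 w 0 0 g k)
    (by
      rintro LX LX' LY LY' - - - - ⟨k, g, h1, h2, h3, h4⟩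
      refine ⟨k, g, h1, h2, ?_, ?_⟩
      · rw [oX.app]; exact Or.inl h3
      · rw [oY.app]; exact Or.inl h4)
  refine h.trans (le_trans (mul_le_mul_right (hn0 (n + n0) (by omega) w hw) _) hδ)

end Crest.Agent.R154.Asm392
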