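import Crest.Agent.R154.AsmF_4

/-! Row 154 (helper4), ROAD 801, assembly part G: the numbers and KAPPA. -/

set_option autoImplicit false

namespace Crest.Agent.R154.Asm4

open scoped ENNReal Topology
open Crest.Agent.R154.B5A Crest.Agent.R154.FP178
open Filter

/-- the choice of the number of windows -/
lemma num1 {δ : ℝ≥0∞} (hδ : δ ≠ 0) : ∃ J : ℕ, 1 ≤ J ∧ ∃ u : ℝ≥0∞, u ≠ 0 ∧ u ≤ 1 ∧
    ((2 * J + 1 : ℕ) : ℝ≥0∞) * (u * u) ≤ δ ∧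
    ((2 * J + 1 : ℕ) : ℝ≥0∞) * (2 * (1 - u) ^ J) ≤ δ := by
  -- real statement
  have h1 : Tendsto (fun t : ℕ => ((2 * t ^ 3 + 1 : ℝ)) * ((1 / (t:ℝ) ^ 2) * (1 / (t:ℝ) ^ 2)))
      atTop (𝓝 0) := by
    have ha : Tendsto (fun t : ℕ => (3:ℝ) * (1 / (t:ℝ))) atTop (𝓝 0) := by
      have := (tendsto_one_div_atTop_nhds_zero_nat (𝕜 := ℝ)).const_mul (3:ℝ)
      simpa using this
    refine squeeze_zero' (Eventually.of_forall fun t => by positivity) ?_ ha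
    filter_upwards [eventually_ge_atTop 1] with t ht
    have ht' : (1:ℝ) ≤ t := by exact_mod_cast ht
    have hp : (0:ℝ) < t := by linarith
    have e : ((2 * (t:ℝ) ^ 3 + 1)) * ((1 / (t:ℝ) ^ 2) * (1 / (t:ℝ) ^ 2))
        = (2 * (t:ℝ) ^ 3 + 1) / (t:ℝ) ^ 4 := by field_simp
    have e2 : (3:ℝ) * (1 / (t:ℝ)) = 3 * (t:ℝ)^3 / (t:ℝ) ^ 4 := by field_simp
    have h3 : (1:ℝ) ≤ (t:ℝ) ^ 3 := one_le_pow₀ ht'
    calc ((2 * (t:ℝ) ^ 3 + 1)) * ((1 / (t:ℝ) ^ 2) * (1 / (t:ℝ) ^ 2))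
        = (2 * (t:ℝ) ^ 3 + 1) / (t:ℝ) ^ 4 := e
      _ ≤ 3 * (t:ℝ)^3 / (t:ℝ) ^ 4 := by gcongr; linarith
      _ = _ := e2.symm
  have h2 : Tendsto (fun t : ℕ => ((2 * t ^ 3 + 1 : ℝ)) * (2 * (1 - 1 / (t:ℝ) ^ 2) ^ (t ^ 3)))
      atTop (𝓝 0) := by
    have ha : Tendsto (fun t : ℕ => (6:ℝ) * ((t:ℝ) ^ 3 * Real.exp (-(t:ℝ)))) atTop (𝓝 0) := by
      have := ((Real.tendsto_pow_mul_exp_neg_atTop_nhds_zero 3).comp
        tendsto_natCast_atTop_atTop).const_mul (6:ℝ)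
      simpa using this
    refine squeeze_zero' ?_ ?_ ha
    · filter_upwards [eventually_ge_atTop 1] with t ht
      have ht' : (1:ℝ) ≤ t := by exact_mod_cast ht
      have : (1:ℝ) / (t:ℝ) ^ 2 ≤ 1 := by
        rw [div_le_one (by positivity)]
        exact one_le_pow₀ ht'
      have : (0:ℝ) ≤ 1 - 1 / (t:ℝ) ^ 2 := by linarith
      positivity
    · filter_upwards [eventually_ge_atTop 1] with t ht
      have ht' : (1:ℝ) ≤ t := by exact_mod_cast ht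
      have hp : (0:ℝ) < t := by linarith
      have h0 : (1:ℝ) / (t:ℝ) ^ 2 ≤ 1 := by
        rw [div_le_one (by positivity)]
        exact one_le_pow₀ ht'
      have h3 : (1:ℝ) ≤ (t:ℝ) ^ 3 := one_le_pow₀ ht'
      have h4 : (1 - 1 / (t:ℝ) ^ 2) ^ (t ^ 3) ≤ Real.exp (-(t:ℝ)) := by
        have h5 : (1 - 1 / (t:ℝ) ^ 2) ≤ Real.exp (-(1 / (t:ℝ) ^ 2)) := by
          have := Real.add_one_le_exp (-(1 / (t:ℝ) ^ 2))
          linarith
        calc (1 - 1 / (t:ℝ) ^ 2) ^ (t ^ 3) ≤ (Real.exp (-(1 / (t:ℝ) ^ 2))) ^ (t ^ 3) :=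
              pow_le_pow_left₀ (by linarith) h5 _
          _ = Real.exp (-(t:ℝ)) := by
              rw [← Real.exp_nat_mul]
              congr 1
              push_cast
              field_simp
      calc (2 * (t:ℝ) ^ 3 + 1) * (2 * (1 - 1 / (t:ℝ) ^ 2) ^ (t ^ 3))
          ≤ (3 * (t:ℝ) ^ 3) * (2 * Real.exp (-(t:ℝ))) := by
            refine mul_le_mul (by linarith) (by linarith) ?_ (by positivity)
            have : (0:ℝ) ≤ 1 - 1 / (t:ℝ) ^ 2 := by linarith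
            positivity
        _ = 6 * ((t:ℝ) ^ 3 * Real.exp (-(t:ℝ))) := by ring
  obtain ⟨δ', hδ'0, hδ'⟩ : ∃ δ' : ℝ, 0 < δ' ∧ ENNReal.ofReal δ' ≤ δ := by
    rcases eq_or_ne δ ⊤ with rfl | hd
    · exact ⟨1, one_pos, le_top⟩
    · exact ⟨δ.toReal, ENNReal.toReal_pos hδ hd, (ENNReal.ofReal_toReal hd).le⟩
  obtain ⟨t, ht1, ht2, ht3⟩ := ((eventually_ge_atTop 1).and
    ((h1.eventually (gt_mem_nhds hδ'0)).and (h2.eventually (gt_mem_nhds hδ'0)))).exists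
  have ht' : (1:ℝ) ≤ t := by exact_mod_cast ht1
  have hu1 : (1:ℝ) / (t:ℝ) ^ 2 ≤ 1 := by
    rw [div_le_one (by positivity)]
    exact one_le_pow₀ ht'
  refine ⟨t ^ 3, Nat.one_le_pow _ _ ht1, ENNReal.ofReal (1 / (t:ℝ) ^ 2), ?_, ?_, ?_, ?_⟩
  · rw [Ne, ENNReal.ofReal_eq_zero, not_le]; positivity
  · rw [← ENNReal.ofReal_one]; exact ENNReal.ofReal_le_ofReal hu1
  · refine le_trans ?_ hδ'
    rw [← ENNReal.ofReal_natCast, ← ENNReal.ofReal_mul (by positivity),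
      ← ENNReal.ofReal_mul (by positivity)]
    refine ENNReal.ofReal_le_ofReal ?_
    push_cast
    exact ht2.le
  · refine le_trans ?_ hδ'
    have e1 : (1:ℝ≥0∞) - ENNReal.ofReal (1 / (t:ℝ) ^ 2) = ENNReal.ofReal (1 - 1 / (t:ℝ) ^ 2) := by
      rw [ENNReal.ofReal_sub _ (by positivity), ENNReal.ofReal_one]
    have e2 : (2:ℝ≥0∞) = ENNReal.ofReal 2 := by simp
    rw [e1, ← ENNReal.ofReal_pow (by linarith), ← ENNReal.ofReal_natCast, e2,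
      ← ENNReal.ofReal_mul (by norm_num), ← ENNReal.ofReal_mul (by positivity)]
    refine ENNReal.ofReal_le_ofReal ?_
    push_cast
    exact ht3.le

/-- a null sequence times a finite constant -/
lemma num2 {f : ℕ → ℝ≥0∞} (hf : Tendsto f atTop (𝓝 0)) {c δ : ℝ≥0∞} (hc : c ≠ ⊤) (hδ : δ ≠ 0) :
    ∀ᶠ n in atTop, c * f n ≤ δ := by
  have h : Tendsto (fun n => c * f n) atTop (𝓝 (c * 0)) :=
    ENNReal.Tendsto.const_mul hf (Or.inr hc)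
  rw [mul_zero] at h
  exact (h.eventually (gt_mem_nhds (pos_iff_ne_zero.2 hδ))).mono fun n hn => hn.le

lemma num3 {c δ : ℝ≥0∞} (hc : c ≠ ⊤) (hδ : δ ≠ 0) : ∃ lam : ℝ≥0∞, lam ≠ 0 ∧ lam ≠ ⊤ ∧
    c * lam ≤ δ := by
  have h : Tendsto (fun n : ℕ => ((n : ℝ≥0∞))⁻¹) atTop (𝓝 0) := ENNReal.tendsto_inv_nat_nhds_zero
  obtain ⟨n, hn, hn1⟩ := ((num2 h hc hδ).and (eventually_ge_atTop 1)).exists
  refine ⟨(n : ℝ≥0∞)⁻¹, ENNReal.inv_ne_zero.2 (ENNReal.natCast_ne_top n), ?_, hn⟩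
  rw [Ne, ENNReal.inv_eq_top]
  exact_mod_cast (by omega : n ≠ 0)

end Crest.Agent.R154.Asm4
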