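import Crest.Agent.R154.AsmF_540

/-! Row 154, KAPPA' (road 801), helper540: the `Y` local term. -/

set_option autoImplicit false

namespace Crest.Agent.R154.Asm540

open scoped ENNReal
open Crest.Agent.R154.B5A

variable {BX BY G : Type*} [AddCommGroup G]
  (ΛX : BX → ℝ≥0∞) (ΛY : BY → ℝ≥0∞) (hX : BX → ℕ) (hY : BY → ℕ) (zX : BX → G) (zY : BY → G)
  (sX : BX → Set (G × ℕ)) (sY : BY → Set (G × ℕ))

open Classical in
theorem g3_bound (C : ℝ≥0∞) (us : ℕ → ℝ≥0∞) (hH : H3 ΛX ΛY hX hY zX zY sX sY C us)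
    (h1X : ∀ b, 1 ≤ hX b) (h1Y : ∀ b, 1 ≤ hY b) (hΛX : ∑' b, ΛX b ≤ 1) (hΛY : ∑' b, ΛY b ≤ 1)
    (hUY : ∀ n, U ΛY hY n ≤ 1) (r i0 r0 J s hi : ℕ) (hhi : hi + s ≤ r + r0)
    (th v lam : ℝ≥0∞) (hth : th ≠ 0) (htht : th ≠ ⊤) (hv : v ≤ 1) (hl : lam ≠ 0) (hlt : lam ≠ ⊤)
    (low : List BY → Prop)
    (hlow : ∀ P, FP hY r0 P → low P → HT hY P ≤ r0 + i0 ∧
      pp ΛY hY zY r0 (HT hY P) (Dp zY P) ≤ 2 * th)
    (hnl : ∑' P, (if FP hY r0 P ∧ ¬ low P then LW ΛY P else 0) ≤ v) (w : G) :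
    S4 (wA ΛX hX r i0) (wP ΛX hX r0) (wA ΛY hY r i0) (wP ΛY hY r0)
      (fun A P A' P' => if Sm hY r0 low J A' ∧ th ≤ pp ΛY hY zY r0 (HT hY P') (Dp zY P') ∧
          HT hX P ≤ r0 + i0 ∧ HT hY P' ≤ r0 + i0 ∧
          (∃ g k, Cm hX hY zX zY sX sY P P' (w + Dp zY A' - Dp zX A) (HT hX A) (HT hY A') g k) ∧
          (∀ g k, Cm hX hY zX zY sX sY P P' (w + Dp zY A' - Dp zX A) (HT hX A) (HT hY A') g k →
            k ≤ hi) then 1 else 0)
      ≤ ((i0 + 1 : ℕ) : ℝ≥0∞) ^ 4 * (C * (lam + (2 * (i0 + 1) * J : ℕ) * us s / lam + us s)) := by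
  obtain ⟨E, hE, hEc⟩ := exists_E ΛY hY zY h1Y hΛY r0 hth
  rw [S4_swap]
  set W : ℕ → ℕ → ℕ → ℕ → G → ℝ≥0∞ := fun h h' a a' x => ∑' L : List BX, ∑' L' : List BY,
      (if HT hX L = h ∧ HT hY L' = h' ∧ Dp zY L' ∈ E h' ∧
          (∃ g k, Cm hX hY zX zY sX sY L L' x a a' g k) ∧
          (∀ g k, Cm hX hY zX zY sX sY L L' x a a' g k → k ≤ hi) then LW ΛX L * LW ΛY L' else 0)
    with hW
  set R0 := Finset.Icc r0 (r0 + i0) with hR0
  set R := Finset.Icc r (r + i0) with hR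
  set α : List BX → ℝ≥0∞ := wA ΛX hX r i0 with hα
  set β : List BY → ℝ≥0∞ := fun A' => if Sm hY r0 low J A' then wA ΛY hY r i0 A' else 0 with hβ
  set xx : List BX → List BY → G := fun A A' => w + Dp zY A' - Dp zX A with hxx
  set bd : ℝ≥0∞ := C * (lam + (2 * (i0 + 1) * J : ℕ) * us s / lam + us s) with hbd
  have hwA : ∀ A : List BX, wA ΛX hX r i0 A ≠ 0 → HT hX A ∈ R := by
    intro A hA
    rw [wA] at hA
    have : FP hX r A ∧ HT hX A ≤ r + i0 := by
      by_contra h; rw [if_neg h] at hA; exact hA rfl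
    exact Finset.mem_Icc.2 ⟨fp_HT hX this.1, this.2⟩
  have hwA' : ∀ A : List BY, wA ΛY hY r i0 A ≠ 0 → HT hY A ∈ R := by
    intro A hA
    rw [wA] at hA
    have : FP hY r A ∧ HT hY A ≤ r + i0 := by
      by_contra h; rw [if_neg h] at hA; exact hA rfl
    exact Finset.mem_Icc.2 ⟨fp_HT hY this.1, this.2⟩
  -- step 1
  have step1 : ∀ A A', wA ΛX hX r i0 A * wA ΛY hY r i0 A' * (∑' P, ∑' P',
      wP ΛX hX r0 P * wP ΛY hY r0 P' * (if Sm hY r0 low J A' ∧
          th ≤ pp ΛY hY zY r0 (HT hY P') (Dp zY P') ∧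
          HT hX P ≤ r0 + i0 ∧ HT hY P' ≤ r0 + i0 ∧
          (∃ g k, Cm hX hY zX zY sX sY P P' (w + Dp zY A' - Dp zX A) (HT hX A) (HT hY A') g k) ∧
          (∀ g k, Cm hX hY zX zY sX sY P P' (w + Dp zY A' - Dp zX A) (HT hX A) (HT hY A') g k →
            k ≤ hi) then 1 else 0))
      ≤ α A * β A' * (∑ h ∈ R0, ∑ h' ∈ R0, W h h' (HT hX A) (HT hY A') (xx A A')) := by
    intro A A'
    by_cases hSm : Sm hY r0 low J A'
    · have ha : β A' = wA ΛY hY r i0 A' := if_pos hSm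
      rw [ha]
      refine mul_le_mul_right ?_ _
      simp only [hW]
      rw [swap22 R0 (fun h h' (L : List BX) (L' : List BY) =>
        (if HT hX L = h ∧ HT hY L' = h' ∧ Dp zY L' ∈ E h' ∧
          (∃ g k, Cm hX hY zX zY sX sY L L' (xx A A') (HT hX A) (HT hY A') g k) ∧
          (∀ g k, Cm hX hY zX zY sX sY L L' (xx A A') (HT hX A) (HT hY A') g k → k ≤ hi)
          then LW ΛX L * LW ΛY L' else 0))]
      refine ENNReal.tsum_le_tsum fun P => ENNReal.tsum_le_tsum fun P' => ?_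
      split_ifs with hc
      · obtain ⟨_, c1, c2, c3, c4, c5⟩ := hc
        rw [mul_one]
        by_cases hP : FP hX r0 P
        · by_cases hP' : FP hY r0 P'
          · refine le_trans ?_ (Finset.single_le_sum (f := fun h => ∑ h' ∈ R0,
              (if HT hX P = h ∧ HT hY P' = h' ∧ Dp zY P' ∈ E h' ∧
                (∃ g k, Cm hX hY zX zY sX sY P P' (xx A A') (HT hX A) (HT hY A') g k) ∧
                (∀ g k, Cm hX hY zX zY sX sY P P' (xx A A') (HT hX A) (HT hY A') g k → k ≤ hi)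
                then LW ΛX P * LW ΛY P' else 0)) (fun _ _ => zero_le)
                (Finset.mem_Icc.2 ⟨fp_HT hX hP, c2⟩))
            refine le_trans ?_ (Finset.single_le_sum (f := fun h' =>
              (if HT hX P = HT hX P ∧ HT hY P' = h' ∧ Dp zY P' ∈ E h' ∧
                (∃ g k, Cm hX hY zX zY sX sY P P' (xx A A') (HT hX A) (HT hY A') g k) ∧
                (∀ g k, Cm hX hY zX zY sX sY P P' (xx A A') (HT hX A) (HT hY A') g k → k ≤ hi)
                then LW ΛX P * LW ΛY P' else 0)) (fun _ _ => zero_le)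
                (Finset.mem_Icc.2 ⟨fp_HT hY hP', c3⟩))
            rw [if_pos ⟨rfl, rfl, (hE _ _).2 c1, c4, c5⟩]
            rw [wP, wP, if_pos hP, if_pos hP']
          · rw [show wP ΛY hY r0 P' = 0 from if_neg hP', mul_zero]; exact zero_le
        · rw [show wP ΛX hX r0 P = 0 from if_neg hP, zero_mul]; exact zero_le
      · rw [mul_zero]; exact zero_le
    · have : ∑' P, ∑' P', wP ΛX hX r0 P * wP ΛY hY r0 P' * (if Sm hY r0 low J A' ∧
          th ≤ pp ΛY hY zY r0 (HT hY P') (Dp zY P') ∧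
          HT hX P ≤ r0 + i0 ∧ HT hY P' ≤ r0 + i0 ∧
          (∃ g k, Cm hX hY zX zY sX sY P P' (w + Dp zY A' - Dp zX A) (HT hX A) (HT hY A') g k) ∧
          (∀ g k, Cm hX hY zX zY sX sY P P' (w + Dp zY A' - Dp zX A) (HT hX A) (HT hY A') g k →
            k ≤ hi) then (1 : ℝ≥0∞) else 0) = 0 := by
        rw [ENNReal.tsum_eq_zero]; intro P
        rw [ENNReal.tsum_eq_zero]; intro P'
        rw [if_neg (fun h => hSm h.1), mul_zero]
      rw [this, mul_zero]; exact zero_le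
  refine (ENNReal.tsum_le_tsum fun A => ENNReal.tsum_le_tsum fun A' => step1 A A').trans ?_
  refine (gen2 R α β (HT hX) (HT hY) xx
    (fun a a' x => ∑ h ∈ R0, ∑ h' ∈ R0, W h h' a a' x) hwA ?_).trans ?_
  · intro A hA
    refine hwA' A fun h0 => hA ?_
    simp only [hβ, h0, ite_self]
  -- step 3
  have hcard : R.card = i0 + 1 := by rw [hR, Nat.card_Icc]; omega
  have hcard0 : R0.card = i0 + 1 := by rw [hR0, Nat.card_Icc]; omega
  have hin : ∀ a ∈ R, ∀ a' ∈ R, ∑' x, (∑' A, ∑' A', (if HT hX A = a ∧ HT hY A' = a' ∧ xx A A' = x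
      then α A * β A' else 0)) * (∑ h ∈ R0, ∑ h' ∈ R0, W h h' a a' x)
      ≤ ((i0 + 1 : ℕ) : ℝ≥0∞) ^ 2 * bd := by
    intro a ha a' ha'
    set μ : G → ℝ≥0∞ := fun x => ∑' A, ∑' A', (if HT hX A = a ∧ HT hY A' = a' ∧ xx A A' = x
      then α A * β A' else 0) with hμ
    have hβm : ∑' A, β A ≤ 1 := by
      refine le_trans (ENNReal.tsum_le_tsum fun A => ?_) (wA_mass ΛY hY h1Y hΛY r i0)
      simp only [hβ]
      split_ifs
      · exact le_rfl
      · exact zero_le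
    have hαm : ∑' A, α A ≤ 1 := wA_mass ΛX hX h1X hΛX r i0
    have hμ1 : ∑' x, μ x ≤ 1 :=
      (mu_mass α β (HT hX) (HT hY) xx a a').trans ((mul_le_mul' hαm hβm).trans (mul_one _).le)
    have hμM : ∀ x, μ x ≤ ((i0 + 1 : ℕ) * (2 * th)) * ∑ j ∈ Finset.range J, v ^ j := by
      intro x
      refine mu_supY α β (HT hX) (HT hY) xx a a' x _ hαm fun A => ?_
      refine le_trans ?_ (dens ΛY hY zY h1Y hUY r0 i0 (2 * th) v low hlow hnl J a'
        (x + Dp zX A - w))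
      rw [DD]
      refine ENNReal.tsum_le_tsum fun A' => ?_
      by_cases h : HT hY A' = a' ∧ xx A A' = x
      · rw [if_pos h]
        simp only [hβ]
        by_cases hS : Sm hY r0 low J A'
        · rw [if_pos hS, if_pos ⟨h.1, by rw [← h.2]; simp only [hxx]; abel, hS⟩, wA]
          split_ifs
          · exact le_rfl
          · exact zero_le
        · rw [if_neg hS]; exact zero_le
      · rw [if_neg h]; exact zero_le
    calc ∑' x, μ x * (∑ h ∈ R0, ∑ h' ∈ R0, W h h' a a' x)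
        = ∑ h ∈ R0, ∑ h' ∈ R0, ∑' x, μ x * W h h' a a' x := by
          simp_rw [Finset.mul_sum]
          rw [Summable.tsum_finsetSum (fun _ _ => ENNReal.summable)]
          refine Finset.sum_congr rfl fun h _ => ?_
          rw [Summable.tsum_finsetSum (fun _ _ => ENNReal.summable)]
      _ ≤ ∑ h ∈ R0, ∑ h' ∈ R0, bd := by
          refine Finset.sum_le_sum fun h hh => Finset.sum_le_sum fun h' hh' => ?_
          have ha1 := (Finset.mem_Icc.1 ha).1
          have ha2 := (Finset.mem_Icc.1 ha').1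
          have ha3 := (Finset.mem_Icc.1 hh).1
          have ha4 := (Finset.mem_Icc.1 hh').1
          refine (hH s h h' a a' hi (E h') μ _ lam hμ1 hμM hl hlt (by omega) (by omega)).trans ?_
          rw [hbd]
          refine mul_le_mul_right (add_le_add_left (add_le_add_right ?_ _) _) _
          refine ENNReal.div_le_div_right (mul_le_mul_left ?_ _) _
          exact Mcard i0 J th v _ hth htht hv (hEc h')
      _ = ((i0 + 1 : ℕ) : ℝ≥0∞) ^ 2 * bd := by
          rw [Finset.sum_const, Finset.sum_const, hcard0, smul_smul, nsmul_eq_mul]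
          push_cast; ring
  calc _ ≤ ∑ a ∈ R, ∑ a' ∈ R, ((i0 + 1 : ℕ) : ℝ≥0∞) ^ 2 * bd :=
        Finset.sum_le_sum fun a ha => Finset.sum_le_sum fun a' ha' => hin a ha a' ha'
    _ = _ := by
        rw [Finset.sum_const, Finset.sum_const, hcard, smul_smul, nsmul_eq_mul]
        push_cast; ring

end Crest.Agent.R154.Asm540
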