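import Crest.Agent.R154.AsmF_594

/-! Row 154, ROAD 801 (helper594): pairs of chains, covering. Pure sums. -/

set_option autoImplicit false

namespace Crest.Agent.R154.Asm594

open scoped ENNReal Topology
open Crest.Agent.R154.B5A
open Crest.Agent.R154.Bind12 (TT Dp)

section pair

variable {BX BY G : Type*} [AddCommGroup G] (ΛX : BX → ℝ≥0∞) (ΛY : BY → ℝ≥0∞)
  (hX : BX → ℕ) (hY : BY → ℕ) (zX : BX → G) (zY : BY → G)
  (sX : BX → Set (G × ℕ)) (sY : BY → Set (G × ℕ))

/-- the data of a window -/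
def PHI (T T' i0 j lo hi : ℕ) (R1 R2 : Finset ℕ) (w : G)
    (τ : List (List BX) × List (List BY) × List BX × List BY) : Prop :=
  τ.1.length = j ∧ τ.2.1.length = j ∧ (∀ P ∈ τ.1, FP hX P T) ∧ (∀ P ∈ τ.2.1, FP hY P T') ∧
  FP hX τ.2.2.1 T ∧ FP hY τ.2.2.2 T' ∧ HT hX τ.1.flatten ∈ R1 ∧ HT hY τ.2.1.flatten ∈ R2 ∧
  HT hX τ.2.2.1 ≤ T + i0 ∧ HT hY τ.2.2.2 ≤ T' + i0 ∧
  EV hX hY zX zY sX sY lo hi (HT hX τ.1.flatten) (HT hY τ.2.1.flatten) (Dp zX τ.1.flatten)
    (w + Dp zY τ.2.1.flatten) τ.2.2.1 τ.2.2.2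

/-- reassemble -/
def cat2 (t : (List (List BX) × List (List BY) × List BX × List BY) × (List BX × List BY)) :
    List BX × List BY :=
  (t.1.1.flatten ++ (t.1.2.2.1 ++ t.2.1), t.1.2.1.flatten ++ (t.1.2.2.2 ++ t.2.2))

open Classical in
/-- weight of a pair of lists of height `n` -/
noncomputable def wt (n : ℕ) (p : List BX × List BY) : ℝ≥0∞ :=
  if HT hX p.1 = n ∧ HT hY p.2 = n then LW ΛX p.1 * LW ΛY p.2 else 0

open Classical in
lemma wt_sum (hU1X : ∀ n, U ΛX hX n ≤ 1) (hU1Y : ∀ n, U ΛY hY n ≤ 1) (n : ℕ)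
    (A P : List BX) (A' P' : List BY) :
    ∑' ρ : List BX × List BY, wt ΛX ΛY hX hY n (A ++ (P ++ ρ.1), A' ++ (P' ++ ρ.2))
      ≤ (LW ΛX A * LW ΛY A') * (LW ΛX P * LW ΛY P') := by
  rw [ENNReal.tsum_prod']
  calc _ = ∑' Q : List BX, ∑' Q' : List BY, ((LW ΛX A * LW ΛY A') * (LW ΛX P * LW ΛY P')) *
        ((if (HT hX A + HT hX P) + HT hX Q = n then LW ΛX Q else 0) *
        (if (HT hY A' + HT hY P') + HT hY Q' = n then LW ΛY Q' else 0)) := by
        refine tsum_congr fun Q => tsum_congr fun Q' => ?_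
        unfold wt
        simp only [HT_append, LW_append]
        rw [add_assoc, add_assoc]
        by_cases q1 : HT hX A + (HT hX P + HT hX Q) = n
        · by_cases q2 : HT hY A' + (HT hY P' + HT hY Q') = n
          · rw [if_pos ⟨q1, q2⟩, if_pos q1, if_pos q2]; ring
          · rw [if_neg (fun h => q2 h.2), if_neg q2]; simp
        · rw [if_neg (fun h => q1 h.1), if_neg q1]; simp
    _ = ((LW ΛX A * LW ΛY A') * (LW ΛX P * LW ΛY P')) *
        ((∑' Q : List BX, (if (HT hX A + HT hX P) + HT hX Q = n then LW ΛX Q else 0)) *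
        (∑' Q' : List BY, (if (HT hY A' + HT hY P') + HT hY Q' = n then LW ΛY Q' else 0))) := by
        simp_rw [ENNReal.tsum_mul_left]
        rw [ENNReal.tsum_mul_right]
    _ ≤ ((LW ΛX A * LW ΛY A') * (LW ΛX P * LW ΛY P')) * (1 * 1) :=
        mul_le_mul_right (mul_le_mul' (rest_le ΛX hX hU1X _ _) (rest_le ΛY hY hU1Y _ _)) _
    _ = _ := by ring

open Classical in
/-- the window part of the pair sum is at most the window expression -/
lemma wev_le (hU1X : ∀ n, U ΛX hX n ≤ 1) (hU1Y : ∀ n, U ΛY hY n ≤ 1)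
    (T T' i0 j lo hi n : ℕ) (R1 R2 : Finset ℕ) (w : G) :
    ∑' p : List BX × List BY, (if ∃ t, cat2 t = p ∧
      PHI hX hY zX zY sX sY T T' i0 j lo hi R1 R2 w t.1 then wt ΛX ΛY hX hY n p else 0)
    ≤ SL (pw ΛX hX T) j (fun L => SL (pw ΛY hY T') j (fun L' =>
      if HT (HT hX) L ∈ R1 ∧ HT (HT hY) L' ∈ R2 then
      KK ΛX ΛY hX hY zX zY sX sY T T' i0 lo hi (fun _ _ => True) (HT (HT hX) L) (HT (HT hY) L')
        (w + (L'.map (Dp zY)).sum - (L.map (Dp zX)).sum) else 0)) := by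
  refine (ub (wt ΛX ΛY hX hY n) cat2 _).trans ?_
  rw [ENNReal.tsum_prod']
  calc _ ≤ ∑' τ : List (List BX) × List (List BY) × List BX × List BY,
        (if PHI hX hY zX zY sX sY T T' i0 j lo hi R1 R2 w τ then
        (LW ΛX τ.1.flatten * LW ΛY τ.2.1.flatten) * (LW ΛX τ.2.2.1 * LW ΛY τ.2.2.2) else 0) := by
        refine ENNReal.tsum_le_tsum fun τ => ?_
        by_cases q : PHI hX hY zX zY sX sY T T' i0 j lo hi R1 R2 w τ
        · rw [if_pos q]
          refine le_trans (le_of_eq ?_) (wt_sum ΛX ΛY hX hY hU1X hU1Y n τ.1.flatten τ.2.2.1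
            τ.2.1.flatten τ.2.2.2)
          refine tsum_congr fun ρ => ?_
          rw [if_pos (show PHI hX hY zX zY sX sY T T' i0 j lo hi R1 R2 w (τ, ρ).1 from q)]
          rfl
        · rw [if_neg q]
          refine le_of_eq ?_
          rw [ENNReal.tsum_eq_zero]
          intro ρ
          exact if_neg q
    _ = ∑' PL : List (List BX), ∑' PL' : List (List BY), ∑' P : List BX, ∑' P' : List BY,
        (if PHI hX hY zX zY sX sY T T' i0 j lo hi R1 R2 w (PL, PL', P, P') then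
        (LW ΛX PL.flatten * LW ΛY PL'.flatten) * (LW ΛX P * LW ΛY P') else 0) := by
        rw [ENNReal.tsum_prod']
        refine tsum_congr fun PL => ?_
        rw [ENNReal.tsum_prod']
        refine tsum_congr fun PL' => ?_
        rw [ENNReal.tsum_prod']
    _ ≤ _ := by
        unfold SL
        refine ENNReal.tsum_le_tsum fun PL => ?_
        by_cases c1 : PL.length = j ∧ (∀ P ∈ PL, FP hX P T)
        · rw [if_pos c1.1, LW_pw, if_pos c1.2, ← ENNReal.tsum_mul_left]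
          refine ENNReal.tsum_le_tsum fun PL' => ?_
          by_cases c2 : PL'.length = j ∧ (∀ P ∈ PL', FP hY P T')
          · rw [if_pos c2.1, LW_pw, if_pos c2.2]
            by_cases c3 : HT hX PL.flatten ∈ R1 ∧ HT hY PL'.flatten ∈ R2
            · beta_reduce
              rw [← HT_flat, ← HT_flat, if_pos c3, ← Dp_flat, ← Dp_flat]
              unfold KK
              rw [← mul_assoc, ← ENNReal.tsum_mul_left]
              refine ENNReal.tsum_le_tsum fun P => ?_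
              rw [← ENNReal.tsum_mul_left]
              refine ENNReal.tsum_le_tsum fun P' => ?_
              by_cases q : PHI hX hY zX zY sX sY T T' i0 j lo hi R1 R2 w (PL, PL', P, P')
              · rw [if_pos q]
                obtain ⟨_, _, _, _, f1, f2, _, _, f3, f4, f5⟩ := q
                rw [if_pos ⟨trivial, f3, f4, (EV_shift hX hY zX zY sX sY lo hi _ _ _ _ P P').1 f5⟩]
                unfold pw
                rw [if_pos f1, if_pos f2]
              · rw [if_neg q]; exact zero_le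
            · refine le_trans (le_of_eq ?_) zero_le
              rw [ENNReal.tsum_eq_zero]; intro P
              rw [ENNReal.tsum_eq_zero]; intro P'
              rw [if_neg]
              rintro ⟨_, _, _, _, _, _, g1, g2, _⟩
              exact c3 ⟨g1, g2⟩
          · refine le_trans (le_of_eq ?_) zero_le
            rw [ENNReal.tsum_eq_zero]; intro P
            rw [ENNReal.tsum_eq_zero]; intro P'
            rw [if_neg]
            rintro ⟨_, g1, _, g2, _⟩
            exact c2 ⟨g1, g2⟩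
        · refine le_trans (le_of_eq ?_) zero_le
          rw [ENNReal.tsum_eq_zero]; intro PL'
          rw [ENNReal.tsum_eq_zero]; intro P
          rw [ENNReal.tsum_eq_zero]; intro P'
          rw [if_neg]
          rintro ⟨g1, _, g2, _⟩
          exact c1 ⟨g1, g2⟩

/-- contact of two lists with depth in a set -/
def CT (w : G) (S : ℕ → Prop) (LX : List BX) (LY : List BY) : Prop :=
  ∃ z k, S k ∧ (z, k) ∈ TT sX zX hX LX 0 0 ∧ (z, k) ∈ TT sY zY hY LY w 0

/-- **covering** -/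
lemma cover (hsX : ∀ b, ∀ p ∈ sX b, 1 ≤ p.2 ∧ p.2 ≤ hX b) (hsY : ∀ b, ∀ p ∈ sY b, 1 ≤ p.2 ∧ p.2 ≤ hY b)
    (T i0 s K0 m n : ℕ) (w : G) (hK0 : 1 ≤ K0) (hsT : s ≤ T) (hm1 : K0 * T ≤ m)
    (hm2 : 2 * m < (2 * K0 + 1) * T) (hn : (2 * K0 + 1) * (T + i0 + i0) ≤ n)
    (LX : List BX) (LY : List BY) (hLX : HT hX LX = n) (hLY : HT hY LY = n)
    (hc : CT hX hY zX zY sX sY w (fun k => m < k ∧ k ≤ 2 * m) LX LY)
    (hslab : ∀ j ∈ Finset.Icc K0 (2 * K0 + 1), ¬ CT hX hY zX zY sX sY w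
      (fun k => j * T - s ≤ k ∧ k < j * T - s + (2 * (2 * K0 + 1) * i0 + 2 * s + 1)) LX LY)
    (hoX : ∀ j < 2 * K0 + 1, ¬ OVR hX T i0 j LX) (hoY : ∀ j < 2 * K0 + 1, ¬ OVR hY (T + i0) i0 j LY) :
    ∃ j ∈ Finset.Icc K0 (2 * K0), ∃ t, cat2 t = (LX, LY) ∧
      PHI hX hY zX zY sX sY T (T + i0) i0 j (j * T + 2 * (2 * K0 + 1) * i0 + s) ((j + 1) * T - s)
        (Finset.Icc (j * T) (j * (T + i0))) (Finset.Icc (j * (T + i0)) (j * (T + i0 + i0))) w t.1 := by
  obtain ⟨z, k, ⟨hk1, hk2⟩, hzX, hzY⟩ := hc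
  have hT : 0 < T := by
    rcases Nat.eq_zero_or_pos T with h | h
    · subst h; omega
    · exact h
  set j := k / T with hj
  have hjk : j * T ≤ k := Nat.div_mul_le_self k T
  have hkj : k < (j + 1) * T := by
    rw [Nat.add_mul, one_mul]
    have := Nat.lt_div_mul_add hT (a := k)
    exact this
  have hj1 : K0 ≤ j := (Nat.le_div_iff_mul_le hT).2 (by omega)
  have hj2 : j < 2 * K0 + 1 := (Nat.div_lt_iff_lt_mul hT).2 (by omega)
  have hjT : T ≤ j * T := by
    calc T = 1 * T := (one_mul T).symm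
      _ ≤ j * T := Nat.mul_le_mul_right T (by omega)
  have hn1 : (2 * K0 + 1) * (T + i0) ≤ n := le_trans (Nat.mul_le_mul_left _ (by omega)) hn
  obtain ⟨PL, P, Q, x1, x2, x3, x4, x5, x6⟩ := piece hX T i0 n (2 * K0 + 1) hn1 LX hLX hoX j hj2
  obtain ⟨PL', P', Q', y1, y2, y3, y4, y5, y6⟩ :=
    piece hY (T + i0) i0 n (2 * K0 + 1) hn LY hLY hoY j hj2
  have xg := HT_pieces_ge hX T PL x3
  have yg := HT_pieces_ge hY (T + i0) PL' y3
  rw [x2] at xg
  rw [y2] at yg
  have xP := FP_le hX P T x4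
  have yP := FP_le hY P' (T + i0) y4
  have e1 : j * (T + i0) = j * T + j * i0 := Nat.mul_add _ _ _
  have e2 : j * (T + i0 + i0) = j * T + j * i0 + j * i0 := by ring
  have e3 : (j + 1) * T = j * T + T := by ring
  have e4 : 2 * (2 * K0 + 1) * i0 = (2 * K0 + 1) * i0 + (2 * K0 + 1) * i0 := by ring
  have e5 : (j + 1) * i0 ≤ (2 * K0 + 1) * i0 := Nat.mul_le_mul_right _ (by omega)
  have e6 : (j + 1) * i0 = j * i0 + i0 := by ring
  have sl1 : ∀ z' k', (z', k') ∈ TT sX zX hX LX 0 0 → (z', k') ∈ TT sY zY hY LY w 0 →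
      j * T - s ≤ k' → j * T - s + (2 * (2 * K0 + 1) * i0 + 2 * s + 1) ≤ k' := by
    intro z' k' g1 g2 g3
    by_contra hcon
    exact hslab j (Finset.mem_Icc.2 ⟨hj1, by omega⟩) ⟨z', k', ⟨g3, by omega⟩, g1, g2⟩
  have sl2 : ∀ z' k', (z', k') ∈ TT sX zX hX LX 0 0 → (z', k') ∈ TT sY zY hY LY w 0 →
      k' < (j + 1) * T - s + (2 * (2 * K0 + 1) * i0 + 2 * s + 1) → k' < (j + 1) * T - s := by
    intro z' k' g1 g2 g3
    by_contra hcon
    exact hslab (j + 1) (Finset.mem_Icc.2 ⟨by omega, by omega⟩) ⟨z', k', ⟨by omega, g3⟩, g1, g2⟩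
  have k1 := sl1 z k hzX hzY (by omega)
  have k2 := sl2 z k hzX hzY (by omega)
  -- the contact lies in the pieces
  have decX : ∀ z' k', (z', k') ∈ TT sX zX hX LX 0 0 ↔
      ((z', k') ∈ TT sX zX hX PL.flatten 0 0 ∨
      ((z', k') ∈ TT sX zX hX P (Dp zX PL.flatten) (HT hX PL.flatten) ∨
      (z', k') ∈ TT sX zX hX Q (Dp zX PL.flatten + Dp zX P) (HT hX PL.flatten + HT hX P))) := by
    intro z' k'
    rw [← x1, TT_append, TT_append, Set.mem_union, Set.mem_union, zero_add, zero_add]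
  have decY : ∀ z' k', (z', k') ∈ TT sY zY hY LY w 0 ↔
      ((z', k') ∈ TT sY zY hY PL'.flatten w 0 ∨
      ((z', k') ∈ TT sY zY hY P' (w + Dp zY PL'.flatten) (HT hY PL'.flatten) ∨
      (z', k') ∈ TT sY zY hY Q' (w + Dp zY PL'.flatten + Dp zY P')
        (HT hY PL'.flatten + HT hY P'))) := by
    intro z' k'
    rw [← y1, TT_append, TT_append, Set.mem_union, Set.mem_union, zero_add]
  refine ⟨j, Finset.mem_Icc.2 ⟨hj1, by omega⟩, ((PL, PL', P, P'), (Q, Q')), ?_, ?_⟩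
  · simp only [cat2]
    rw [x1, y1]
  · refine ⟨x2, y2, x3, y3, x4, y4, Finset.mem_Icc.2 ⟨xg, x5⟩, Finset.mem_Icc.2 ⟨yg, y5⟩, x6, y6, ?_⟩
    simp only
    refine ⟨⟨z, k, ?_, ?_⟩, ?_⟩
    · rcases (decX z k).1 hzX with g | g | g
      · have := TT_depth sX zX hX hsX _ _ _ _ _ g; omega
      · exact g
      · have := TT_depth sX zX hX hsX _ _ _ _ _ g; omega
    · rcases (decY z k).1 hzY with g | g | g
      · have := TT_depth sY zY hY hsY _ _ _ _ _ g; omega
      · exact g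
      · have := TT_depth sY zY hY hsY _ _ _ _ _ g; omega
    · intro z' k' g1 g2
      have g3 := (decX z' k').2 (Or.inr (Or.inl g1))
      have g4 := (decY z' k').2 (Or.inr (Or.inl g2))
      have d1 := TT_depth sX zX hX hsX _ _ _ _ _ g1
      have q1 := sl1 z' k' g3 g4 (by omega)
      have q2 := sl2 z' k' g3 g4 (by omega)
      constructor <;> omega

end pair

end Crest.Agent.R154.Asm594
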