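import Crest.Agent.R154.AsmF_790

/-! Row 154, ROAD 801 (helper790): abstract assembly, part G: bound of the weight of one window. -/

set_option autoImplicit false

namespace Crest.Agent.R154.Asm790

open scoped ENNReal
open Crest.Agent.R154.B5A

variable {BX BY G : Type*} [AddCommGroup G]
variable (ΛX : BX → ℝ≥0∞) (ΛY : BY → ℝ≥0∞) (hX : BX → ℕ) (hY : BY → ℕ) (zX : BX → G) (zY : BY → G)
  (sX : BX → Set (G × ℕ)) (sY : BY → Set (G × ℕ))

/-- **H2**: window lemma, piece of X local -/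
def H2 (C : ℝ≥0∞) (us : ℕ → ℕ → ℝ≥0∞) : Prop :=
  Hloc ΛX ΛY hX hY zX zY sX sY (fun L _ E => Dp zX L ∈ E) C us

/-- **H3**: window lemma, piece of Y local -/
def H3 (C : ℝ≥0∞) (us : ℕ → ℕ → ℝ≥0∞) : Prop :=
  Hloc ΛX ΛY hX hY zX zY sX sY (fun _ L' E => Dp zY L' ∈ E) C us

open Classical in
/-- **weight of the window `j`** -/
lemma Vw_le (h1X : ∀ b, 1 ≤ hX b) (h1Y : ∀ b, 1 ≤ hY b) (hΛX : ∑' b, ΛX b = 1)
    (hΛY : ∑' b, ΛY b = 1) (C : ℝ≥0∞) (us : ℕ → ℕ → ℝ≥0∞)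
    (hH2 : H2 ΛX ΛY hX hY zX zY sX sY C us) (hH3 : H3 ΛX ΛY hX hY zX zY sX sY C us)
    (u : ℝ≥0∞) (hu0 : u ≠ 0) (hu1 : u ≤ 1) (lam : ℝ≥0∞) (hl0 : lam ≠ 0) (hl1 : lam ≠ ⊤)
    (τ i0 j i s : ℕ) (hi0 : (j + 1) * i0 ≤ i) (hτ : s + 1 ≤ τ) (w : G) :
    Vw ΛX ΛY hX hY zX zY sX sY τ i0 (j * τ + i + s) ((j + 1) * τ - s - 1) j w
      ≤ 2 * ((j * i0 + 1 : ℕ) * ((j * i0 + 1 : ℕ) *
          ((i0 + 1 : ℕ) * ((i0 + 1 : ℕ) * (C * (lam + u⁻¹ * us i s / lam + us i s))))))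
        + 2 * (1 - u) ^ j + u * u := by
  obtain ⟨MX, EX, locX, x1, x2, x3, x4⟩ := piece_data ΛX hX zX h1X hΛX u hu0 hu1 τ i0
  obtain ⟨MY, EY, locY, y1, y2, y3, y4⟩ := piece_data ΛY hY zY h1Y hΛY u hu0 hu1 τ i0
  obtain ⟨AX, BbX, ax1, ax2, ax3, ax4⟩ := x4 j
  obtain ⟨AY, BbY, ay1, ay2, ay3, ay4⟩ := y4 j
  set lo := j * τ + i + s with hlo
  set hi := (j + 1) * τ - s - 1 with hhi
  set DX := Dj (La ΛX hX τ i0) (dl hX zX) j with hDX
  set DY := Dj (La ΛY hY τ i0) (dl hY zY) j with hDY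
  have dX1 : ∑' g, DX g ≤ 1 := sum_Dj _ _ (sum_La ΛX hX h1X hΛX.le τ i0) j
  have dY1 : ∑' g, DY g ≤ 1 := sum_Dj _ _ (sum_La ΛY hY h1Y hΛY.le τ i0) j
  set P1 : ℤ → ℤ → G → ℝ≥0∞ := fun a a' y => Psi ΛX ΛY hX hY zX zY sX sY τ i0 lo hi
    (fun P _ => locX P) a.toNat a'.toNat y with hP1
  set P2 : ℤ → ℤ → G → ℝ≥0∞ := fun a a' y => Psi ΛX ΛY hX hY zX zY sX sY τ i0 lo hi
    (fun _ P' => locY P') a.toNat a'.toNat y with hP2
  have hP1' : ∀ a a' y, P1 a a' y ≤ 1 := fun a a' y =>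
    Psi_le_one ΛX ΛY hX hY zX zY sX sY h1X h1Y hΛX.le hΛY.le τ i0 lo hi _ _ _ _
  have hP2' : ∀ a a' y, P2 a a' y ≤ 1 := fun a a' y =>
    Psi_le_one ΛX ΛY hX hY zX zY sX sY h1X h1Y hΛX.le hΛY.le τ i0 lo hi _ _ _ _
  set b := (i0 + 1 : ℕ) * ((i0 + 1 : ℕ) * (C * (lam + u⁻¹ * us i s / lam + us i s))) with hb
  -- pointwise split
  have hsplit : ∀ (a a' : ℤ) (y : G), Psi ΛX ΛY hX hY zX zY sX sY τ i0 lo hi (fun _ _ => True)
      a.toNat a'.toNat y ≤ P1 a a' y + P2 a a' y + u * u := by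
    intro a a' y
    have hnon : ∑' P, (if locX P then 0 else La ΛX hX τ i0 P) *
        ∑' P', (if locY P' then 0 else La ΛY hY τ i0 P') ≤ u * u := by
      rw [ENNReal.tsum_mul_right]; exact mul_le_mul' x1 y1
    refine le_trans ?_ (add_le_add_right hnon _)
    simp only [hP1, hP2, Psi]
    rw [← ENNReal.tsum_add, ← ENNReal.tsum_add]
    refine ENNReal.tsum_le_tsum fun P => ?_
    have e3 : (if locX P then 0 else La ΛX hX τ i0 P) *
        ∑' P', (if locY P' then 0 else La ΛY hY τ i0 P')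
        = La ΛX hX τ i0 P * ∑' P', (if locX P then 0 else 1) *
          (if locY P' then 0 else La ΛY hY τ i0 P') := by
      rw [ENNReal.tsum_mul_left]
      by_cases h : locX P <;> simp [h]
    rw [e3, ← mul_add, ← mul_add, ← ENNReal.tsum_add, ← ENNReal.tsum_add]
    refine mul_le_mul_right (ENNReal.tsum_le_tsum fun P' => ?_) _
    by_cases hx : locX P <;> by_cases hy : locY P' <;>
      by_cases hc : Cc hX hY zX zY sX sY lo hi P P' y a.toNat a'.toNat <;> simp [hx, hy, hc]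
  rw [Vw_eq]
  have hT : ∑' g, DX g * ∑' g', DY g' * Psi ΛX ΛY hX hY zX zY sX sY τ i0 lo hi (fun _ _ => True)
        g.1.toNat g'.1.toNat (w + g'.2 - g.2)
      ≤ ∑' g, DX g * ∑' g', DY g' * P1 g.1 g'.1 (w + g'.2 - g.2)
        + ∑' g, DX g * ∑' g', DY g' * P2 g.1 g'.1 (w + g'.2 - g.2) + u * u := by
    calc _ ≤ ∑' g, DX g * ∑' g', DY g' * (P1 g.1 g'.1 (w + g'.2 - g.2)
            + P2 g.1 g'.1 (w + g'.2 - g.2) + u * u) :=
          ENNReal.tsum_le_tsum fun g => mul_le_mul_right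
            (ENNReal.tsum_le_tsum fun g' => mul_le_mul_right (hsplit _ _ _) _) _
      _ = ∑' g, DX g * ∑' g', DY g' * P1 g.1 g'.1 (w + g'.2 - g.2)
          + ∑' g, DX g * ∑' g', DY g' * P2 g.1 g'.1 (w + g'.2 - g.2)
          + (∑' g, DX g) * ((∑' g', DY g') * (u * u)) := by
          simp_rw [mul_add, ENNReal.tsum_add, mul_add, ENNReal.tsum_add]
          rw [ENNReal.tsum_mul_right, ENNReal.tsum_mul_right]
      _ ≤ _ := by
          refine add_le_add_right ?_ _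
          calc (∑' g, DX g) * ((∑' g', DY g') * (u * u)) ≤ 1 * (1 * (u * u)) :=
                mul_le_mul' dX1 (mul_le_mul_left dY1 _)
            _ = u * u := by rw [one_mul, one_mul]
  refine hT.trans ?_
  set S : Finset ℤ := Finset.Icc ((j * τ : ℕ) : ℤ) ((j * τ + j * i0 : ℕ) : ℤ) with hS
  have hcard : S.card = j * i0 + 1 := by
    rw [hS, Int.card_Icc]; push_cast; omega
  have hrange : ∀ a ∈ S, j * τ ≤ a.toNat ∧ a.toNat ≤ j * τ + j * i0 := by
    intro a ha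
    rw [hS, Finset.mem_Icc] at ha
    omega
  have t1 : ∑' g, DX g * ∑' g', DY g' * P1 g.1 g'.1 (w + g'.2 - g.2)
      ≤ (j * i0 + 1 : ℕ) * ((j * i0 + 1 : ℕ) * b) + (1 - u) ^ j := by
    refine (two_left DX DY (fun g => min (AX g) (DX g)) BbX
      (fun g g' => P1 g.1 g'.1 (w + g'.2 - g.2)) (fun _ _ => hP1' _ _ _) (fun g => ?_) dY1).trans ?_
    · rcases le_total (AX g) (DX g) with h | h
      · simp only [min_eq_left h]; exact ax1 g
      · simp only [min_eq_right h]; exact le_self_add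
    refine add_le_add ?_ ax4
    have := local_part (fun g => min (AX g) (DX g)) DY
      ((ENNReal.tsum_le_tsum fun g => min_le_left _ _).trans ax3) dY1 S
      (fun a x ha => by
        have h0 := Dj_supp ΛX hX zX τ i0 j a x ha
        refine le_antisymm ((min_le_right _ _).trans ?_) zero_le
        exact h0.le)
      (fun a x ha => Dj_supp ΛY hY zY τ i0 j a x ha) MX
      (Or.inl fun g => (min_le_left _ _).trans (ax2 g)) P1 b (fun a ha a' ha' μ hμ hμM =>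
        psi_le ΛX ΛY hX hY zX zY sX sY _ C us hH2 τ i0 j i s hi0 hτ (fun P _ => locX P)
          (fun h _ => EX h) (fun P P' hP => x2 P hP) MX u⁻¹ lam (fun h h' => x3 h) hl0 hl1
          a.toNat a'.toNat (hrange a ha) (hrange a' ha') μ hμ hμM) w
    rwa [hcard] at this
  have t2 : ∑' g, DX g * ∑' g', DY g' * P2 g.1 g'.1 (w + g'.2 - g.2)
      ≤ (j * i0 + 1 : ℕ) * ((j * i0 + 1 : ℕ) * b) + (1 - u) ^ j := by
    refine (two_right DX DY (fun g => min (AY g) (DY g)) BbY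
      (fun g g' => P2 g.1 g'.1 (w + g'.2 - g.2)) (fun _ _ => hP2' _ _ _) (fun g => ?_) dX1).trans ?_
    · rcases le_total (AY g) (DY g) with h | h
      · simp only [min_eq_left h]; exact ay1 g
      · simp only [min_eq_right h]; exact le_self_add
    refine add_le_add ?_ ay4
    have := local_part DX (fun g => min (AY g) (DY g)) dX1
      ((ENNReal.tsum_le_tsum fun g => min_le_left _ _).trans ay3) S
      (fun a x ha => Dj_supp ΛX hX zX τ i0 j a x ha)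
      (fun a x ha => by
        have h0 := Dj_supp ΛY hY zY τ i0 j a x ha
        refine le_antisymm ((min_le_right _ _).trans ?_) zero_le
        exact h0.le) MY
      (Or.inr fun g => (min_le_left _ _).trans (ay2 g)) P2 b (fun a ha a' ha' μ hμ hμM =>
        psi_le ΛX ΛY hX hY zX zY sX sY _ C us hH3 τ i0 j i s hi0 hτ (fun _ P' => locY P')
          (fun _ h' => EY h') (fun P P' hP => y2 P' hP) MY u⁻¹ lam (fun h h' => y3 h') hl0 hl1
          a.toNat a'.toNat (hrange a ha) (hrange a' ha') μ hμ hμM) w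
    rwa [hcard] at this
  calc _ ≤ ((j * i0 + 1 : ℕ) * ((j * i0 + 1 : ℕ) * b) + (1 - u) ^ j)
        + ((j * i0 + 1 : ℕ) * ((j * i0 + 1 : ℕ) * b) + (1 - u) ^ j) + u * u :=
        add_le_add_left (add_le_add t1 t2) _
    _ = _ := by ring

end Crest.Agent.R154.Asm790
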