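import Crest.Agent.R154.AsmF_834

/-! Row 154, T0219, ROAD 801 (helper834): **`kapS`**: 540's `H2`, `H3`, `H5` give `KS` on `(m, 2m]`. -/

set_option autoImplicit false

namespace Crest.Agent.R154.Asm834

open scoped ENNReal
open Crest.Agent.R154.B5A
open Crest.Agent.R154.Ren480 (Stp AT DS e1)

variable {BX BY G : Type*} [AddCommGroup G]
  (ΛX : BX → ℝ≥0∞) (ΛY : BY → ℝ≥0∞) (hX : BX → ℕ) (hY : BY → ℕ) (zX : BX → G) (zY : BY → G)
  (sX : BX → Set (G × ℕ)) (sY : BY → Set (G × ℕ))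

lemma H2_of (C : ℝ≥0∞) (us : ℕ → ℝ≥0∞) (h2 : Asm540.H2 ΛX ΛY hX hY zX zY sX sY C us) :
    H2 ΛX ΛY hX hY zX zY sX sY C us := by
  intro s h h' a a' lo E μ M lam h3 h4 h5 h6 h7 h8
  refine le_trans (le_of_eq ?_) (h2 s h h' a a' lo E μ M lam h3 h4 h5 h6 h7 h8)
  refine tsum_congr fun x => congrArg _ (tsum_congr fun L => tsum_congr fun L' => ?_)
  rw [ite_chi]
  congr 1
  refine chi_congr ?_
  simp only [Asm540.Cm, TR_eq, DS, Asm540.Dp, and_imp]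

lemma H3_of (C : ℝ≥0∞) (us : ℕ → ℝ≥0∞) (h2 : Asm540.H3 ΛX ΛY hX hY zX zY sX sY C us) :
    H3 ΛX ΛY hX hY zX zY sX sY C us := by
  intro s h h' a a' lo E μ M lam h3 h4 h5 h6 h7 h8
  refine le_trans (le_of_eq ?_) (h2 s h h' a a' lo E μ M lam h3 h4 h5 h6 h7 h8)
  refine tsum_congr fun x => congrArg _ (tsum_congr fun L => tsum_congr fun L' => ?_)
  rw [ite_chi]
  congr 1
  refine chi_congr ?_
  simp only [Asm540.Cm, TR_eq, DS, Asm540.Dp, and_imp]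
  tauto

lemma KS_mono (n : ℕ) (w : G) {S S' : Set ℕ} (h : S ⊆ S') :
    Asm540.KS ΛX ΛY hX hY zX zY sX sY n w S ≤ Asm540.KS ΛX ΛY hX hY zX zY sX sY n w S' := by
  classical
  refine ENNReal.tsum_le_tsum fun L => ENNReal.tsum_le_tsum fun L' => ?_
  split_ifs with h1 h2
  · exact le_rfl
  · exfalso
    obtain ⟨a, b, g, k, hk, hc⟩ := h1
    exact h2 ⟨a, b, g, k, h hk, hc⟩
  · exact zero_le
  · exact le_rfl

lemma KS_sum (n : ℕ) (w : G) (S : Set ℕ) (F : Finset ℕ) (S' : ℕ → Set ℕ)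
    (h : ∀ k ∈ S, ∃ j ∈ F, k ∈ S' j) :
    Asm540.KS ΛX ΛY hX hY zX zY sX sY n w S ≤
      ∑ j ∈ F, Asm540.KS ΛX ΛY hX hY zX zY sX sY n w (S' j) := by
  classical
  unfold Asm540.KS
  rw [← Summable.tsum_finsetSum (fun _ _ => ENNReal.summable)]
  refine ENNReal.tsum_le_tsum fun L => ?_
  rw [← Summable.tsum_finsetSum (fun _ _ => ENNReal.summable)]
  refine ENNReal.tsum_le_tsum fun L' => ?_
  split_ifs with h1
  · obtain ⟨a, b, g, k, hk, hc⟩ := h1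
    obtain ⟨j, hj, hkj⟩ := h k hk
    refine le_trans ?_ (Finset.single_le_sum (f := fun j => if HT hX L = n ∧ HT hY L' = n ∧
      ∃ g k, k ∈ S' j ∧ Asm540.Cm hX hY zX zY sX sY L L' w 0 0 g k then LW ΛX L * LW ΛY L' else 0)
      (fun _ _ => zero_le) hj)
    rw [if_pos ⟨a, b, g, k, hkj, hc⟩]
  · exact zero_le

lemma I_eq_KS (n : ℕ) (w : G) (lo hi : ℕ) :
    I (wn ΛX hX n) (fun LX => I (wn ΛY hY n) (fun LY =>
      chi (CT hX hY zX zY sX sY lo hi w LX LY))) =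
    Asm540.KS ΛX ΛY hX hY zX zY sX sY n w (Set.Ioc lo hi) := by
  classical
  unfold Asm540.KS
  simp only [I, wn]
  refine tsum_congr fun L => ?_
  rw [← ENNReal.tsum_mul_left]
  refine tsum_congr fun L' => ?_
  rw [ite_chi, chi_and, chi_and]
  have e : chi (CT hX hY zX zY sX sY lo hi w L L') = chi (∃ g k, k ∈ Set.Ioc lo hi ∧
      Asm540.Cm hX hY zX zY sX sY L L' w 0 0 g k) := by
    refine chi_congr ?_
    simp only [CT, Asm540.Cm, TR_eq, Set.mem_Ioc, and_assoc]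
  rw [e]
  ring

/-- **THE ASSEMBLY**: `KAPPA'` in list form from the window lemmas and the thin slab. -/
theorem kapS (hX1 : ∀ b, 1 ≤ hX b) (hY1 : ∀ b, 1 ≤ hY b) (hΛX : ∑' b, ΛX b = 1)
    (hΛY : ∑' b, ΛY b = 1) (hUX : ∀ n, U ΛX hX n ≤ 1) (hUY : ∀ n, U ΛY hY n ≤ 1)
    (hsX : ∀ b, ∀ p ∈ sX b, 1 ≤ p.2 ∧ p.2 ≤ hX b) (hsY : ∀ b, ∀ p ∈ sY b, 1 ≤ p.2 ∧ p.2 ≤ hY b)
    (hmX : ∑' b, ΛX b * (hX b : ℝ≥0∞) ≠ ⊤) (hmY : ∑' b, ΛY b * (hY b : ℝ≥0∞) ≠ ⊤)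
    (C : ℝ≥0∞) (hC : C ≠ ⊤) (us : ℕ → ℝ≥0∞) (hus : ∀ x : ℝ≥0∞, x ≠ 0 → ∃ s, us s ≤ x)
    (h2 : Asm540.H2 ΛX ΛY hX hY zX zY sX sY C us) (h3 : Asm540.H3 ΛX ΛY hX hY zX zY sX sY C us)
    (h5 : Asm540.H5 ΛX ΛY hX hY zX zY sX sY) :
    ∀ ε : ℝ≥0∞, ε ≠ 0 → ∃ M : ℕ, ∀ m, M ≤ m → ∀ n, 4 * m ≤ n → ∀ w : G,
      Asm540.KS ΛX ΛY hX hY zX zY sX sY n w (Set.Ioc m (2 * m)) ≤ ε := by
  intro ε hε
  set e := min ε 1 with he
  have he0 : e ≠ 0 := by
    rw [he, Ne, min_eq_iff]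
    rintro (⟨h, _⟩ | ⟨h, _⟩)
    · exact hε h
    · exact one_ne_zero h
  have het : e ≠ ⊤ := ne_top_of_le_ne_top ENNReal.one_ne_top (min_le_right _ _)
  have he2 : e / 2 ≠ 0 := (ENNReal.half_pos he0).ne'
  have he2t : e / 2 ≠ ⊤ := ENNReal.div_ne_top het (by norm_num)
  obtain ⟨K0, u, hK0, hu0, hu1, hKu⟩ := Num869.choose_Ku (e / 2 / 12)
    (ENNReal.div_pos he2 (by norm_num)).ne'
  have hut : u ≠ ⊤ := ne_top_of_le_ne_top ENNReal.one_ne_top hu1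
  have hK00 : ((60 * K0 : ℕ) : ℝ≥0∞) ≠ 0 := by
    have : 60 * K0 ≠ 0 := by omega
    exact_mod_cast this
  have hK0t : ((60 * K0 : ℕ) : ℝ≥0∞) ≠ ⊤ := ENNReal.natCast_ne_top _
  set q := e / 2 / ((60 * K0 : ℕ) : ℝ≥0∞) with hq
  have hq0 : q ≠ 0 := (ENNReal.div_pos he2 hK0t).ne'
  have hqt : q ≠ ⊤ := ENNReal.div_ne_top he2t hK00
  have hqu : q * u ≠ 0 := mul_ne_zero hq0 hu0
  obtain ⟨iX, hiX⟩ := Ren480.e1_small ΛX hX hmX hqu
  obtain ⟨iY, hiY⟩ := Ren480.e1_small ΛY hY hmY hqu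
  set i0 := max iX iY with hi0
  have eX : e1 ΛX hX i0 ≤ q * u := hiX _ (le_max_left _ _)
  have eY : e1 ΛY hY i0 ≤ q * u := hiY _ (le_max_right _ _)
  have hquq : q * u ≤ q := (mul_le_mul_right hu1 q).trans (mul_one q).le
  have eX1 : e1 ΛX hX i0 ≤ q := eX.trans hquq
  have eY1 : e1 ΛY hY i0 ≤ q := eY.trans hquq
  have huu : u * u⁻¹ = 1 := ENNReal.mul_inv_cancel hu0 hut
  have eX2 : e1 ΛX hX i0 * u⁻¹ ≤ q := by
    calc e1 ΛX hX i0 * u⁻¹ ≤ q * u * u⁻¹ := mul_le_mul_left eX _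
      _ = q := by rw [mul_assoc, huu, mul_one]
  have eY2 : e1 ΛY hY i0 * u⁻¹ ≤ q := by
    calc e1 ΛY hY i0 * u⁻¹ ≤ q * u * u⁻¹ := mul_le_mul_left eY _
      _ = q := by rw [mul_assoc, huu, mul_one]
  obtain ⟨lam, s, hl0, hlt, hls⟩ := choose_ls (((i0 + 1 : ℕ) : ℝ≥0∞) ^ 3 * C)
    (2 * ((i0 + 1 : ℕ) : ℝ≥0∞) * u⁻¹) q
    (ENNReal.mul_ne_top (ENNReal.pow_ne_top (ENNReal.natCast_ne_top _)) hC)
    (ENNReal.mul_ne_top (ENNReal.mul_ne_top (by norm_num) (ENNReal.natCast_ne_top _))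
      (ENNReal.inv_ne_top.2 hu0)) hq0 hqt us hus
  obtain ⟨T1, hT1⟩ := h5 (i0 + s) q hq0
  obtain ⟨T2, hT2⟩ := h5 (s + 2 * i0) q hq0
  set K := 4 * K0 + 1 with hK
  refine ⟨K * (T1 + T2 + 2 * K + i0 + s + 1), fun m hm n hn w => ?_⟩
  set t := m / K with ht
  have hKpos : 0 < K := by omega
  have ht1 : T1 + T2 + 2 * K + i0 + s + 1 ≤ t := by
    rw [ht, Nat.le_div_iff_mul_le hKpos, mul_comm]; exact hm
  have ht2 : K * t ≤ m := by rw [ht]; exact Nat.mul_div_le m K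
  have ht3 : m < K * (t + 1) := by
    rw [ht]; exact Nat.lt_mul_div_succ m hKpos
  have ht3' : m < K * t + K := by rw [Nat.mul_succ] at ht3; exact ht3
  -- windows
  have hwin : ∀ k ∈ Set.Ioc m (2 * m), ∃ j ∈ Finset.Icc K (2 * K),
      k ∈ Set.Ioc (j * t) ((j + 1) * t) := by
    intro k hk
    rw [Set.mem_Ioc] at hk
    have htpos : 0 < t := by omega
    refine ⟨(k - 1) / t, ?_, ?_⟩
    · rw [Finset.mem_Icc]
      constructor
      · rw [Nat.le_div_iff_mul_le htpos]; omega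
      · rw [← Nat.lt_succ_iff, Nat.div_lt_iff_lt_mul htpos]
        have : (2 * K).succ * t = 2 * (K * t) + t := by
          rw [Nat.succ_eq_add_one]; ring
        rw [this]
        omega
    · rw [Set.mem_Ioc]
      have d1 : (k - 1) / t * t ≤ k - 1 := Nat.div_mul_le_self _ _
      have d2 : k - 1 < ((k - 1) / t + 1) * t := by
        have := Nat.lt_mul_div_succ (k - 1) htpos
        rw [mul_comm]; exact this
      omega
  refine (KS_sum ΛX ΛY hX hY zX zY sX sY n w (Set.Ioc m (2 * m)) (Finset.Icc K (2 * K))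
    (fun j => Set.Ioc (j * t) ((j + 1) * t)) hwin).trans ?_
  set X := (2 * u) ^ 2 + (1 - u / 2) ^ K0 with hX0
  -- one window
  have hone : ∀ j ∈ Finset.Icc K (2 * K),
      Asm540.KS ΛX ΛY hX hY zX zY sX sY n w (Set.Ioc (j * t) ((j + 1) * t)) ≤
        10 * q + 2 * X := by
    intro j hj
    rw [Finset.mem_Icc] at hj
    obtain ⟨j', rfl⟩ : ∃ j', j = j' + 1 := ⟨j - 1, by omega⟩
    have r1 : (j' + 1) * t = j' * t + t := by ring
    have r2 : (j' + 1 + 1) * t = j' * t + 2 * t := by ring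
    rw [r1, r2]
    have r3 : 4 * K0 * t ≤ j' * t := Nat.mul_le_mul_right t (by omega)
    have r4 : j' * t ≤ (2 * K) * t := Nat.mul_le_mul_right t (by omega)
    have r5 : K0 * i0 ≤ K0 * t := Nat.mul_le_mul_left K0 (by omega)
    have hNα : K0 * (3 * t + i0) ≤ j' * t := by
      have : K0 * (3 * t + i0) = 3 * (K0 * t) + K0 * i0 := by ring
      have h4 : 4 * K0 * t = 4 * (K0 * t) := by ring
      omega
    have hnn : j' * t + i0 + 3 * t ≤ n := by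
      have h6 : 2 * K * t = 2 * (K * t) := by ring
      have h7 : 5 * t ≤ K * t := Nat.mul_le_mul_right t (by omega)
      omega
    have hjt : t ≤ j' * t := Nat.le_mul_of_pos_left t (by omega)
    obtain ⟨EX, aX, bX, MX, x1, x2, x3, x4, x5, x6⟩ :=
      data ΛX hX zX hΛX hX1 (3 * t) i0 K0 (j' * t) u hu0 hu1 hNα
    obtain ⟨EY, aY, bY, MY, y1, y2, y3, y4, y5, y6⟩ :=
      data ΛY hY zY hΛY hY1 (3 * t) i0 K0 (j' * t) u hu0 hu1 hNα
    have htop : I (wn ΛX hX n) (fun LX => I (wn ΛY hY n) (fun LY =>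
        chi (CT hX hY zX zY sX sY (j' * t) (j' * t + i0 + s) w LX LY))) ≤ q := by
      rw [I_eq_KS]
      refine (KS_mono ΛX ΛY hX hY zX zY sX sY n w ?_).trans (hT1 (j' * t + 1) (by omega) n w)
      intro k hk
      rw [Set.mem_Ioc] at hk
      rw [Set.mem_Ico]
      omega
    have hbot : I (wn ΛX hX n) (fun LX => I (wn ΛY hY n) (fun LY =>
        chi (CT hX hY zX zY sX sY (j' * t + 3 * t - s) (j' * t + 3 * t + 2 * i0) w LX LY))) ≤ q := by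
      rw [I_eq_KS]
      refine (KS_mono ΛX ΛY hX hY zX zY sX sY n w ?_).trans
        (hT2 (j' * t + 3 * t - s + 1) (by omega) n w)
      intro k hk
      rw [Set.mem_Ioc] at hk
      rw [Set.mem_Ico]
      omega
    have hW := window ΛX ΛY hX hY zX zY sX sY hX1 hY1 hΛX hΛY hUX hUY hsX hsY C us
      (H2_of ΛX ΛY hX hY zX zY sX sY C us h2) (H3_of ΛX ΛY hX hY zX zY sX sY C us h3)
      (j' * t) (3 * t) i0 s (j' * t + t) (j' * t + 2 * t) n (by omega) (by omega) hnn w lam hl0 hlt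
      aX bX _ MX x2 x3 x4 x5 aY bY _ MY y2 y3 y4 y5 EX EY u u x1 y1 q htop hbot
    rw [I_eq_KS] at hW
    refine hW.trans ?_
    have hloc : ∀ (M c : ℝ≥0∞), M * c ≤ 2 * ((i0 + 1 : ℕ) : ℝ≥0∞) * u⁻¹ →
        ((i0 + 1 : ℕ) : ℝ≥0∞) * (((i0 + 1 : ℕ) : ℝ≥0∞) ^ 2 *
          (C * (lam + M * c * us s / lam + us s))) ≤ q := by
      intro M c hMc
      refine le_trans ?_ hls
      calc ((i0 + 1 : ℕ) : ℝ≥0∞) * (((i0 + 1 : ℕ) : ℝ≥0∞) ^ 2 *
            (C * (lam + M * c * us s / lam + us s)))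
          = ((i0 + 1 : ℕ) : ℝ≥0∞) ^ 3 * C * (lam + M * c * us s / lam + us s) := by ring
        _ ≤ _ := by gcongr
    have hX' : u * u + ((1 - u) ^ K0 + (1 - u) ^ K0) ≤ 2 * X := by
      have a1 : u * u ≤ (2 * u) ^ 2 := by
        calc u * u ≤ 4 * (u * u) := by
              calc u * u = 1 * (u * u) := (one_mul _).symm
                _ ≤ 4 * (u * u) := by gcongr; norm_num
          _ = (2 * u) ^ 2 := by ring
      have a2 : (1 - u) ^ K0 ≤ (1 - u / 2) ^ K0 := by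
        gcongr
        exact ENNReal.half_le_self
      calc u * u + ((1 - u) ^ K0 + (1 - u) ^ K0)
          ≤ (2 * u) ^ 2 + ((1 - u / 2) ^ K0 + (1 - u / 2) ^ K0) :=
            add_le_add a1 (add_le_add a2 a2)
        _ ≤ (2 * u) ^ 2 + (2 * u) ^ 2 + ((1 - u / 2) ^ K0 + (1 - u / 2) ^ K0) :=
            add_le_add le_self_add le_rfl
        _ = 2 * X := by rw [hX0]; ring
    calc _ ≤ q + (q + (q + (q + (q + (q + (u * u +
          (((1 - u) ^ K0 + q + q) + ((1 - u) ^ K0 + q + q)))))))) := by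
          gcongr
          · exact hloc _ _ x6
          · exact hloc _ _ y6
      _ = 10 * q + (u * u + ((1 - u) ^ K0 + (1 - u) ^ K0)) := by ring
      _ ≤ _ := by gcongr
  calc ∑ j ∈ Finset.Icc K (2 * K), _ ≤ ∑ j ∈ Finset.Icc K (2 * K), (10 * q + 2 * X) :=
        Finset.sum_le_sum hone
    _ = ((K + 1 : ℕ) : ℝ≥0∞) * (10 * q + 2 * X) := by
        rw [Finset.sum_const, nsmul_eq_mul, Nat.card_Icc, show 2 * K + 1 - K = K + 1 by omega]
    _ ≤ ((6 * K0 : ℕ) : ℝ≥0∞) * (10 * q + 2 * X) := by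
        refine mul_le_mul_left ?_ _
        have : K + 1 ≤ 6 * K0 := by omega
        exact_mod_cast this
    _ = ((60 * K0 : ℕ) : ℝ≥0∞) * q + 12 * ((K0 : ℝ≥0∞) * X) := by push_cast; ring
    _ ≤ e / 2 + 12 * (e / 2 / 12) := by
        refine add_le_add (le_of_eq ?_) (mul_le_mul_right hKu _)
        rw [hq, ENNReal.mul_div_cancel hK00 hK0t]
    _ = e := by
        rw [ENNReal.mul_div_cancel (by norm_num) (by norm_num), ENNReal.add_halves]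
    _ ≤ ε := min_le_left _ _

end Crest.Agent.R154.Asm834
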