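import Crest.Agent.R154.AsmF_942
import Crest.Agent.R154.Num_337

/-! Row 154, ROAD 801 (helper942): assembly, part G: sum over the windows, order of the
constants: `H2L`, `H3L` (window lemmas), `H5` (thin slab) give KAPPA' on lists. -/

set_option autoImplicit false

namespace Crest.Agent.R154.Asm942

open scoped ENNReal Topology
open Filter
open Crest.Agent.R154.B5A Crest.Agent.R154.FP178

section

variable {BX BY G : Type*} [AddCommGroup G]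
variable (ΛX : BX → ℝ≥0∞) (hX : BX → ℕ) (zX : BX → G) (sX : BX → Set (G × ℕ))
variable (ΛY : BY → ℝ≥0∞) (hY : BY → ℕ) (zY : BY → G) (sY : BY → Set (G × ℕ))

open Classical in
/-- weight of the pairs of height `n` with `P` -/
noncomputable def WW (n : ℕ) (P : List BX → List BY → Prop) : ℝ≥0∞ :=
  ∑' LX, ∑' LY, (if HT hX LX = n ∧ HT hY LY = n ∧ P LX LY then LW ΛX LX * LW ΛY LY else 0)

lemma WW_le {ι : Type*} (n : ℕ) (P : List BX → List BY → Prop) (S : Finset ι)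
    (E : ι → List BX → List BY → Prop)
    (h : ∀ LX LY, HT hX LX = n → HT hY LY = n → P LX LY → ∃ j ∈ S, E j LX LY) :
    WW ΛX hX ΛY hY n P ≤ ∑ j ∈ S, WW ΛX hX ΛY hY n (E j) := by
  classical
  unfold WW
  rw [← Summable.tsum_finsetSum (fun _ _ => ENNReal.summable)]
  refine ENNReal.tsum_le_tsum fun L => ?_
  rw [← Summable.tsum_finsetSum (fun _ _ => ENNReal.summable)]
  refine ENNReal.tsum_le_tsum fun M => ?_
  by_cases h1 : HT hX L = n ∧ HT hY M = n ∧ P L M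
  · rw [if_pos h1]
    obtain ⟨j, hj, hE⟩ := h L M h1.1 h1.2.1 h1.2.2
    refine le_trans ?_ (Finset.single_le_sum (f := fun j => if HT hX L = n ∧ HT hY M = n ∧
      E j L M then LW ΛX L * LW ΛY M else 0) (fun _ _ => zero_le) hj)
    rw [if_pos ⟨h1.1, h1.2.1, hE⟩]
  · rw [if_neg h1]; exact zero_le

lemma WW_or (n : ℕ) (P P' : List BX → List BY → Prop) :
    WW ΛX hX ΛY hY n (fun L M => P L M ∨ P' L M)
      ≤ WW ΛX hX ΛY hY n P + WW ΛX hX ΛY hY n P' := by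
  classical
  unfold WW
  rw [← ENNReal.tsum_add]
  refine ENNReal.tsum_le_tsum fun L => ?_
  rw [← ENNReal.tsum_add]
  refine ENNReal.tsum_le_tsum fun M => ?_
  by_cases h1 : HT hX L = n ∧ HT hY M = n ∧ (P L M ∨ P' L M)
  · rw [if_pos h1]
    rcases h1.2.2 with h2 | h2
    · rw [if_pos (c := HT hX L = n ∧ HT hY M = n ∧ P L M) ⟨h1.1, h1.2.1, h2⟩]
      exact le_self_add
    · rw [if_pos (c := HT hX L = n ∧ HT hY M = n ∧ P' L M) ⟨h1.1, h1.2.1, h2⟩]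
      exact le_add_self
  · rw [if_neg h1]; exact zero_le

/-- common site -/
def Com (w : G) (LX : List BX) (LY : List BY) (z : G) (k : ℕ) : Prop :=
  (z, k) ∈ TT sX hX zX LX 0 0 ∧ (z, k) ∈ TT sY hY zY LY w 0

/-- the pieces of a pair whose contacts avoid the slabs -/
lemma pieces (hsX : ∀ b, ∀ q ∈ sX b, 1 ≤ q.2 ∧ q.2 ≤ hX b)
    (hsY : ∀ b, ∀ q ∈ sY b, 1 ≤ q.2 ∧ q.2 ≤ hY b) (w : G) (A A' T T' i0 lo hi : ℕ)
    (L1 L2 L3 : List BX) (M1 M2 M3 : List BY)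
    (g1 : fp hX A L1) (g2 : fp hX T L2) (g3 : HT hX L1 ≤ A + i0) (g4 : HT hX L2 ≤ T + i0)
    (k1 : fp hY A' M1) (k2 : fp hY T' M2) (k3 : HT hY M1 ≤ A' + i0) (k4 : HT hY M2 ≤ T' + i0)
    (hlo : A' + i0 < lo) (hAA : A ≤ A') (hhi : hi ≤ A + T) (hend : A + T ≤ A' + T')
    (h1 : ∃ z k, Com hX zX sX hY zY sY w (L1 ++ (L2 ++ L3)) (M1 ++ (M2 ++ M3)) z k ∧
      lo ≤ k ∧ k ≤ hi)
    (h2 : ∀ z k, Com hX zX sX hY zY sY w (L1 ++ (L2 ++ L3)) (M1 ++ (M2 ++ M3)) z k →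
      A' < k → k ≤ A + T + i0 + i0 → lo ≤ k ∧ k ≤ hi) :
    Q hX zX sX hY zY sY lo hi L2 M2 (HT hX L1) (HT hY M1) (w + Dp zY M1 - Dp zX L1) := by
  have a1 := le_HT_of_fp hX g1
  have a2 := le_HT_of_fp hX g2
  have a3 := le_HT_of_fp hY k1
  have a4 := le_HT_of_fp hY k2
  have mX : ∀ z k, (z, k) ∈ TT sX hX zX L2 (Dp zX L1) (HT hX L1) →
      (z, k) ∈ TT sX hX zX (L1 ++ (L2 ++ L3)) 0 0 := by
    intro z k hz
    rw [TT_append, TT_append]
    right; left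
    simpa using hz
  have mY : ∀ z k, (z, k) ∈ TT sY hY zY M2 (w + Dp zY M1) (HT hY M1) →
      (z, k) ∈ TT sY hY zY (M1 ++ (M2 ++ M3)) w 0 := by
    intro z k hz
    rw [TT_append, TT_append]
    right; left
    simpa using hz
  -- translation of the pieces by `Dp zX L1`
  have tX : ∀ z k, (z, k) ∈ TT sX hX zX L2 0 (HT hX L1) ↔
      (z + Dp zX L1, k) ∈ TT sX hX zX L2 (Dp zX L1) (HT hX L1) := by
    intro z k
    have := TT_shift sX hX zX L2 0 (Dp zX L1) (HT hX L1) z k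
    rw [zero_add] at this
    exact this.symm
  have tY : ∀ z k, (z, k) ∈ TT sY hY zY M2 (w + Dp zY M1 - Dp zX L1) (HT hY M1) ↔
      (z + Dp zX L1, k) ∈ TT sY hY zY M2 (w + Dp zY M1) (HT hY M1) := by
    intro z k
    have := TT_shift sY hY zY M2 (w + Dp zY M1 - Dp zX L1) (Dp zX L1) (HT hY M1) z k
    rw [sub_add_cancel] at this
    exact this.symm
  constructor
  · obtain ⟨z, k, ⟨hzX, hzY⟩, hl, hh⟩ := h1
    refine ⟨z - Dp zX L1, k, ?_, ?_⟩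
    · rw [tX, sub_add_cancel]
      rw [TT_append, TT_append] at hzX
      rcases hzX with h | h | h
      · have := TT_depth sX hX zX hsX _ _ _ _ _ h; omega
      · simpa using h
      · have := TT_depth sX hX zX hsX _ _ _ _ _ h; omega
    · rw [tY, sub_add_cancel]
      rw [TT_append, TT_append] at hzY
      rcases hzY with h | h | h
      · have := TT_depth sY hY zY hsY _ _ _ _ _ h; omega
      · simpa using h
      · have := TT_depth sY hY zY hsY _ _ _ _ _ h; omega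
  · intro z k hzX hzY
    rw [tX] at hzX
    rw [tY] at hzY
    have d1 := TT_depth sX hX zX hsX _ _ _ _ _ hzX
    have d2 := TT_depth sY hY zY hsY _ _ _ _ _ hzY
    exact h2 _ k ⟨mX _ _ hzX, mY _ _ hzY⟩ (by omega) (by omega)

lemma tail_T (Λ : BX → ℝ≥0∞) (ht : BX → ℕ) (hΛ : ∑' b, Λ b = 1)
    (hE : ∑' b, Λ b * (ht b : ℝ≥0∞) ≠ ⊤) :
    Tendsto (fun i : ℕ => ∑' k, tail Λ ht (i + k)) atTop (𝓝 0) := by
  have h := ENNReal.tendsto_sum_nat_add (tail Λ ht) (by rw [← sum_tail Λ ht hΛ]; exact hE)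
  refine h.congr fun i => ?_
  refine tsum_congr fun k => ?_
  rw [add_comm]

open Classical in
/-- **the assembly**: KAPPA' on lists. -/
theorem kapS (h1X : ∀ b, 1 ≤ hX b) (h1Y : ∀ b, 1 ≤ hY b) (hΛX : ∑' b, ΛX b = 1)
    (hΛY : ∑' b, ΛY b = 1) (hUX : ∀ n, U ΛX hX n ≤ 1) (hUY : ∀ n, U ΛY hY n ≤ 1)
    (hEX : ∑' b, ΛX b * (hX b : ℝ≥0∞) ≠ ⊤) (hEY : ∑' b, ΛY b * (hY b : ℝ≥0∞) ≠ ⊤)
    (hsX : ∀ b, ∀ q ∈ sX b, 1 ≤ q.2 ∧ q.2 ≤ hX b)
    (hsY : ∀ b, ∀ q ∈ sY b, 1 ≤ q.2 ∧ q.2 ≤ hY b)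
    (us : ℕ → ℝ≥0∞) (hus : Tendsto us atTop (𝓝 0)) (C : ℝ≥0∞) (hC : C ≠ ⊤)
    (H2 : H2L ΛX hX zX sX ΛY hY zY sY us C) (H3 : H3L ΛX hX zX sX ΛY hY zY sY us C)
    (H5 : ∀ (s : ℕ) (η : ℝ≥0∞), η ≠ 0 → ∃ T, ∀ a, T ≤ a → ∀ n, ∀ w : G,
      ∑' LX : List BX, ∑' LY : List BY, (if HT hX LX = n ∧ HT hY LY = n ∧
        ∃ y k, a ≤ k ∧ k < a + s ∧ (y, k) ∈ TT sX hX zX LX 0 0 ∧ (y, k) ∈ TT sY hY zY LY w 0
        then LW ΛX LX * LW ΛY LY else 0) ≤ η)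
    (ε : ℝ≥0∞) (hε : ε ≠ 0) :
    ∃ M : ℕ, ∀ m, M ≤ m → ∃ n0 : ℕ, ∀ n, n0 ≤ n → ∀ w : G,
      ∑' LX : List BX, ∑' LY : List BY, (if HT hX LX = n ∧ HT hY LY = n ∧
        (∃ k z, m < k ∧ k ≤ 2 * m ∧ (z, k) ∈ TT sX hX zX LX 0 0 ∧
          (z, k) ∈ TT sY hY zY LY w 0) then LW ΛX LX * LW ΛY LY else 0) ≤ ε := by
  set ε1 : ℝ≥0∞ := ε / 16 with hε1d
  have hε1 : ε1 ≠ 0 := by
    rw [hε1d, Ne, ENNReal.div_eq_zero_iff, not_or]
    exact ⟨hε, by norm_num⟩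
  obtain ⟨K, u, hK4, hu0, hu1, hKu, hKq⟩ := Num337.exKu ε1 hε1
  have hut : u ≠ ⊤ := ne_top_of_lt hu1
  set J : ℕ := K / 4 with hJ
  set R : ℝ≥0∞ := ((4 * K + 8 : ℕ) : ℝ≥0∞) with hR
  have hRt : R ≠ ⊤ := ENNReal.natCast_ne_top _
  have hRJ : R * ((J + 2 : ℕ) : ℝ≥0∞) ≠ ⊤ := ENNReal.mul_ne_top hRt (ENNReal.natCast_ne_top _)
  obtain ⟨iX, hiX⟩ := Num337.exSmall _ (tail_T ΛX hX hΛX hEX) _ hRJ ε1 hε1
  obtain ⟨iY, hiY⟩ := Num337.exSmall _ (tail_T ΛY hY hΛY hEY) _ hRJ ε1 hε1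
  set i0 : ℕ := max iX iY with hi0
  have hτX := hiX i0 (le_max_left _ _)
  have hτY := hiY i0 (le_max_right _ _)
  set N : ℝ≥0∞ := ((i0 + 1 : ℕ) : ℝ≥0∞) with hN
  have hNt : N ≠ ⊤ := ENNReal.natCast_ne_top _
  have hAt : R * (N * N) * (N * N) * C ≠ ⊤ :=
    ENNReal.mul_ne_top (ENNReal.mul_ne_top (ENNReal.mul_ne_top hRt (ENNReal.mul_ne_top hNt hNt))
      (ENNReal.mul_ne_top hNt hNt)) hC
  obtain ⟨lam, hl0, hl, -, s, hs⟩ := Num337.exLam (R * (N * N) * (N * N) * C) (N * u⁻¹) hAt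
    (ENNReal.mul_ne_top hNt (ENNReal.inv_ne_top.2 hu0)) us hus ε1 hε1
  have hV : R * (N * N * Vl C lam u us s i0) ≤ ε1 := by
    refine le_trans (le_of_eq ?_) (hs s le_rfl)
    rw [Vl]; ring
  -- slab
  set η : ℝ≥0∞ := ε1 / R with hη
  have hR0 : R ≠ 0 := by rw [hR]; exact_mod_cast (by omega : 4 * K + 8 ≠ 0)
  have hη0 : η ≠ 0 := by
    rw [hη, Ne, ENNReal.div_eq_zero_iff, not_or]
    exact ⟨hε1, hRt⟩
  have hRη : R * η ≤ ε1 := ENNReal.mul_div_le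
  obtain ⟨T5, hT5⟩ := H5 (2 * s + 2 * i0 + 1) η hη0
  refine ⟨K * (T5 + s + i0 + 1), fun m hm => ?_⟩
  set T : ℕ := m / K with hTd
  have hKpos : 0 < K := by omega
  have hT : T5 + s + i0 + 1 ≤ T := by
    rw [hTd, Nat.le_div_iff_mul_le hKpos, mul_comm]; exact hm
  have hmK1 : K * T ≤ m := Nat.mul_div_le m K
  have hmK2 : m < K * (T + 1) := by
    have := Nat.lt_mul_div_succ m hKpos
    simpa using this
  refine ⟨(4 * K + 1) * T + 3 * i0, fun n hn w => ?_⟩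
  -- events
  set Sl : ℕ → List BX → List BY → Prop := fun j LX LY => ∃ y k, j * T - s ≤ k ∧
    k < j * T - s + (2 * s + 2 * i0 + 1) ∧ (y, k) ∈ TT sX hX zX LX 0 0 ∧
      (y, k) ∈ TT sY hY zY LY w 0 with hSl
  set Ev : ℕ → List BX → List BY → Prop := fun j LX LY =>
    (∃ z k, Com hX zX sX hY zY sY w LX LY z k ∧ j * T + 2 * i0 + s + 1 ≤ k ∧
      k ≤ (j + 1) * T - s) ∧ ¬ Sl j LX LY ∧ ¬ Sl (j + 1) LX LY with hEv
  have hcover : WW ΛX hX ΛY hY n (fun LX LY => ∃ k z, m < k ∧ k ≤ 2 * m ∧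
      (z, k) ∈ TT sX hX zX LX 0 0 ∧ (z, k) ∈ TT sY hY zY LY w 0)
      ≤ ∑ j ∈ Finset.Icc K (4 * K), WW ΛX hX ΛY hY n
        (fun LX LY => (Sl j LX LY ∨ Sl (j + 1) LX LY) ∨ Ev j LX LY) := by
    refine WW_le ΛX hX ΛY hY n _ _ _ fun LX LY _ _ => ?_
    rintro ⟨k, z, hk1, hk2, hzX, hzY⟩
    have hTpos : 0 < T := by omega
    have hj1 : k / T * T ≤ k := Nat.div_mul_le_self k T
    have hj2 : k < (k / T + 1) * T := by
      have := Nat.lt_mul_div_succ k hTpos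
      rw [mul_comm]; exact this
    refine ⟨k / T, ?_, ?_⟩
    · rw [Finset.mem_Icc]
      constructor
      · rw [Nat.le_div_iff_mul_le hTpos]; omega
      · have : k / T < 4 * K + 1 := by
          rw [Nat.div_lt_iff_lt_mul hTpos]
          nlinarith
        omega
    · by_cases hS : Sl (k / T) LX LY ∨ Sl (k / T + 1) LX LY
      · exact Or.inl hS
      · rw [not_or] at hS
        refine Or.inr ⟨⟨z, k, ⟨hzX, hzY⟩, ?_, ?_⟩, hS.1, hS.2⟩
        · by_contra hcon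
          exact hS.1 ⟨z, k, by omega, by omega, hzX, hzY⟩
        · by_contra hcon
          refine hS.2 ⟨z, k, by omega, by omega, hzX, hzY⟩
  have hslab : ∀ j, 1 ≤ j → WW ΛX hX ΛY hY n (Sl j) ≤ η := by
    intro j hj
    have : T ≤ j * T := Nat.le_mul_of_pos_left T hj
    exact hT5 (j * T - s) (by omega) n w
  have hwin : ∀ j ∈ Finset.Icc K (4 * K), WW ΛX hX ΛY hY n (Ev j)
      ≤ ((N * N * Vl C lam u us s i0 + ((1 - u) ^ J + J * ∑' k, tail ΛX hX (i0 + k)))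
          + (N * N * Vl C lam u us s i0 + ((1 - u) ^ J + J * ∑' k, tail ΛY hY (i0 + k)))
          + u * u) + (2 * ∑' k, tail ΛY hY (i0 + k) + 2 * ∑' k, tail ΛX hX (i0 + k)) := by
    intro j hj
    rw [Finset.mem_Icc] at hj
    have hJ4 : 4 * J ≤ j := by omega
    have hjT : J * (4 * T) ≤ j * T := by
      calc J * (4 * T) = (4 * J) * T := by ring
        _ ≤ j * T := Nat.mul_le_mul_right T hJ4
    have hJ1 : J * (T + i0) ≤ j * T :=
      (Nat.mul_le_mul_left J (by omega)).trans hjT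
    have hJ2 : J * (T + i0 + i0) ≤ j * T :=
      (Nat.mul_le_mul_left J (by omega)).trans hjT
    have hjn : j * T + T ≤ (4 * K + 1) * T := by
      calc j * T + T = (j + 1) * T := by ring
        _ ≤ (4 * K + 1) * T := Nat.mul_le_mul_right T (by omega)
    have hjT1 : (j + 1) * T = j * T + T := by ring
    refine window ΛX hX zX sX ΛY hY zY sY h1X h1Y hΛX hΛY hUX hUY us C H2 H3 (j * T) T
      (j * T + i0) (T + i0) i0 n s (j * T + 2 * i0 + s + 1) (j * T + T - s) J (by omega)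
      (by omega) le_rfl (by omega) (by omega) (by omega) hJ1 (by omega) u (1 - u)
      (add_tsub_cancel_of_le hu1.le) hu0 hu1 lam hl0 hl w (Ev j) ?_
    intro L1 L2 L3 M1 M2 M3 g1 g2 g3 g4 k1 k2 k3 k4 hE
    obtain ⟨⟨z, k, hc, hk1, hk2⟩, hn1, hn2⟩ := hE
    refine pieces hX zX sX hY zY sY hsX hsY w (j * T) (j * T + i0) T (T + i0) i0 _ _
      L1 L2 L3 M1 M2 M3 g1 g2 g3 g4 k1 k2 k3 k4 (by omega) (by omega) (by omega) (by omega)
      ⟨z, k, hc, hk1, by omega⟩ ?_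
    intro z' k' hc' hk3 hk4
    constructor
    · by_contra hcon
      exact hn1 ⟨z', k', by omega, by omega, hc'.1, hc'.2⟩
    · by_contra hcon
      exact hn2 ⟨z', k', by omega, by omega, hc'.1, hc'.2⟩
  have hterm : ∀ j ∈ Finset.Icc K (4 * K), WW ΛX hX ΛY hY n
      (fun LX LY => (Sl j LX LY ∨ Sl (j + 1) LX LY) ∨ Ev j LX LY)
      ≤ (η + η) + (((N * N * Vl C lam u us s i0 + ((1 - u) ^ J
            + J * ∑' k, tail ΛX hX (i0 + k)))
          + (N * N * Vl C lam u us s i0 + ((1 - u) ^ J + J * ∑' k, tail ΛY hY (i0 + k)))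
          + u * u) + (2 * ∑' k, tail ΛY hY (i0 + k) + 2 * ∑' k, tail ΛX hX (i0 + k))) := by
    intro j hj
    have hj' := Finset.mem_Icc.1 hj
    refine (WW_or ΛX hX ΛY hY n _ _).trans (add_le_add ?_ (hwin j hj))
    exact (WW_or ΛX hX ΛY hY n _ _).trans (add_le_add (hslab j (by omega))
      (hslab (j + 1) (by omega)))
  set τX : ℝ≥0∞ := ∑' k, tail ΛX hX (i0 + k) with hτXd
  set τY : ℝ≥0∞ := ∑' k, tail ΛY hY (i0 + k) with hτYd
  set V : ℝ≥0∞ := N * N * Vl C lam u us s i0 with hVd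
  have hcard : ((Finset.Icc K (4 * K)).card : ℝ≥0∞) ≤ R := by
    rw [Nat.card_Icc, hR]
    exact_mod_cast (by omega : 4 * K + 1 - K ≤ 4 * K + 8)
  calc _ = WW ΛX hX ΛY hY n (fun LX LY => ∃ k z, m < k ∧ k ≤ 2 * m ∧
        (z, k) ∈ TT sX hX zX LX 0 0 ∧ (z, k) ∈ TT sY hY zY LY w 0) := by
        unfold WW
        refine tsum_congr fun L => tsum_congr fun M => ?_
        congr
    _ ≤ ∑ j ∈ Finset.Icc K (4 * K), ((η + η) + (((V + ((1 - u) ^ J + J * τX))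
          + (V + ((1 - u) ^ J + J * τY)) + u * u) + (2 * τY + 2 * τX))) :=
        hcover.trans (Finset.sum_le_sum hterm)
    _ = ((Finset.Icc K (4 * K)).card : ℝ≥0∞) * ((η + η) + (((V + ((1 - u) ^ J + J * τX))
          + (V + ((1 - u) ^ J + J * τY)) + u * u) + (2 * τY + 2 * τX))) := by
        rw [Finset.sum_const, nsmul_eq_mul]
    _ ≤ R * ((η + η) + (((V + ((1 - u) ^ J + J * τX))
          + (V + ((1 - u) ^ J + J * τY)) + u * u) + (2 * τY + 2 * τX))) := by gcongr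
    _ = 2 * (R * η) + 2 * (R * V) + 2 * (R * (1 - u) ^ J) + R * (u * u)
        + R * ((J + 2 : ℕ) : ℝ≥0∞) * τX + R * ((J + 2 : ℕ) : ℝ≥0∞) * τY := by
        push_cast; ring
    _ ≤ 2 * ε1 + 2 * ε1 + 2 * ε1 + ε1 + ε1 + ε1 := by gcongr
    _ = 9 * ε1 := by ring
    _ ≤ 16 * ε1 := by gcongr; norm_num
    _ = ε := by
        rw [hε1d]
        exact ENNReal.mul_div_cancel (by norm_num) (by norm_num)

end

end Crest.Agent.R154.Asm942
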