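import Crest.Agent.R154.AsmF_97

/-! Row 154 (helper97), ROAD 801: final assembly. -/

set_option autoImplicit false

namespace Crest.Agent.R154.Asm97

open scoped ENNReal Topology
open Filter
open Crest.Agent.R154.B5A Crest.Agent.R154.FP178

variable {BX BY G : Type*} [AddCommGroup G]
  (ΛX : BX → ℝ≥0∞) (hX : BX → ℕ) (zX : BX → G) (TX : List BX → G → ℕ → Set (G × ℕ))
  (ΛY : BY → ℝ≥0∞) (hY : BY → ℕ) (zY : BY → G) (TY : List BY → G → ℕ → Set (G × ℕ))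

/-- first contact at depth in `(m, 2m]` -/
def Ev (m : ℕ) (w : G) (L : List BX) (L' : List BY) : Prop :=
  (∀ z k, (z, k) ∈ TX L 0 0 → (z, k) ∈ TY L' w 0 → m < k) ∧
  ∃ z k, (z, k) ∈ TX L 0 0 ∧ (z, k) ∈ TY L' w 0 ∧ k ≤ 2 * m

def Slab (a s : ℕ) (w : G) (L : List BX) (L' : List BY) : Prop :=
  ∃ z k, a ≤ k ∧ k < a + s ∧ (z, k) ∈ TX L 0 0 ∧ (z, k) ∈ TY L' w 0

def Win (lo T hi sw : ℕ) (w : G) (L : List BX) (L' : List BY) : Prop :=
  (∀ z k, (z, k) ∈ TX L 0 0 → (z, k) ∈ TY L' w 0 → lo < k) ∧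
  (∃ z k, (z, k) ∈ TX L 0 0 ∧ (z, k) ∈ TY L' w 0 ∧ k ≤ lo + T) ∧ ¬ Slab TX TY hi sw w L L'

lemma win_pieces (hXX : Tr hX zX TX) (hYY : Tr hY zY TY) {a τ i0 s lo hi T : ℕ}
    (hlo : a + i0 + s ≤ lo) (hloT : lo + T ≤ a + τ) (hhi : hi + s = a + τ) (w : G)
    (A P R : List BX) (A' P' R' : List BY) (hA : fp hX a A) (hP : fp hX τ P) (hA' : fp hY a A')
    (hP' : fp hY τ P') (hHA : HT hX A ≤ a + i0) (hHA' : HT hY A' ≤ a + i0)
    (h : Win TX TY lo T hi (s + 2 * i0 + 1) w (A ++ (P ++ R)) (A' ++ (P' ++ R'))) :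
    W hX zX TX hY zY TY a τ i0 lo hi w A P A' P' := by
  obtain ⟨c1, ⟨z, k, c2, c3, c4⟩, c5⟩ := h
  have a1 := le_HT_of_fp hX hA
  have a2 := le_HT_of_fp hX hP
  have a3 := le_HT_of_fp hY hA'
  have a4 := le_HT_of_fp hY hP'
  have eX : ∀ z k, (z, k) ∈ TX P (Dp zX A) (HT hX A) → (z, k) ∈ TX (A ++ (P ++ R)) 0 0 := by
    intro z k h
    rw [hXX.app, hXX.app]; right; left; rwa [zero_add, zero_add]
  have eX' : ∀ z k, (z, k) ∈ TX (A ++ (P ++ R)) 0 0 → HT hX A < k → k ≤ HT hX A + HT hX P →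
      (z, k) ∈ TX P (Dp zX A) (HT hX A) := by
    intro z k h h1 h2
    rw [hXX.app, hXX.app] at h
    rcases h with h | h | h
    · have := hXX.dep _ _ _ _ _ h; omega
    · rwa [zero_add, zero_add] at h
    · have := hXX.dep _ _ _ _ _ h; omega
  have eY : ∀ z k, (z, k) ∈ TY P' (w + Dp zY A') (HT hY A') →
      (z, k) ∈ TY (A' ++ (P' ++ R')) w 0 := by
    intro z k h
    rw [hYY.app, hYY.app]; right; left; rwa [zero_add]
  have eY' : ∀ z k, (z, k) ∈ TY (A' ++ (P' ++ R')) w 0 → HT hY A' < k →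
      k ≤ HT hY A' + HT hY P' → (z, k) ∈ TY P' (w + Dp zY A') (HT hY A') := by
    intro z k h h1 h2
    rw [hYY.app, hYY.app] at h
    rcases h with h | h | h
    · have := hYY.dep _ _ _ _ _ h; omega
    · rwa [zero_add] at h
    · have := hYY.dep _ _ _ _ _ h; omega
  have c6 := c1 z k c2 c3
  refine ⟨hHA, hHA', ⟨z, k, eX' z k c2 (by omega) (by omega), eY' z k c3 (by omega) (by omega)⟩, ?_⟩
  intro z k h h'
  have h1 := c1 z k (eX _ _ h) (eY _ _ h')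
  refine ⟨by omega, fun hHP => ?_⟩
  by_contra hcon
  apply c5
  refine ⟨z, k, by omega, ?_, eX _ _ h, eY _ _ h'⟩
  have := hXX.dep _ _ _ _ _ h
  omega

lemma ev_le (N T m : ℕ) (hT : 0 < T) (hm : m ≤ N * T) (hi : ℕ → ℕ) (sw : ℕ) (w : G)
    (L : List BX) (L' : List BY) :
    ind (Ev TX TY m w L L') ≤ ∑ j ∈ Finset.range N, (ind (Slab TX TY (hi j) sw w L L') +
      ind (Win TX TY (m + j * T) T (hi j) sw w L L')) := by
  classical
  by_cases hE : Ev TX TY m w L L'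
  swap
  · rw [ind_neg hE]; exact zero_le
  rw [ind_pos hE]
  obtain ⟨h1, z, k, c1, c2, c3⟩ := hE
  have hex : ∃ k, ∃ z, (z, k) ∈ TX L 0 0 ∧ (z, k) ∈ TY L' w 0 := ⟨k, z, c1, c2⟩
  obtain ⟨k0, hk0, hmin⟩ : ∃ k0, (∃ z, (z, k0) ∈ TX L 0 0 ∧ (z, k0) ∈ TY L' w 0) ∧
      ∀ k', (∃ z, (z, k') ∈ TX L 0 0 ∧ (z, k') ∈ TY L' w 0) → k0 ≤ k' :=
    ⟨Nat.find hex, Nat.find_spec hex, fun k' hk' => Nat.find_min' hex hk'⟩
  obtain ⟨z0, d1, d2⟩ := hk0
  have e1 := hmin k ⟨z, c1, c2⟩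
  have e2 := h1 z0 k0 d1 d2
  have hj1 : (k0 - m - 1) / T * T ≤ k0 - m - 1 := Nat.div_mul_le_self _ _
  have hj2 : k0 - m - 1 < (k0 - m - 1) / T * T + T := Nat.lt_div_mul_add hT
  have hjN : (k0 - m - 1) / T < N := by
    rw [Nat.div_lt_iff_lt_mul hT]
    omega
  refine le_trans ?_ (Finset.single_le_sum (f := fun j => ind (Slab TX TY (hi j) sw w L L') +
      ind (Win TX TY (m + j * T) T (hi j) sw w L L')) (fun _ _ => zero_le)
      (Finset.mem_range.2 hjN))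
  beta_reduce
  by_cases hS : Slab TX TY (hi ((k0 - m - 1) / T)) sw w L L'
  · rw [ind_pos hS]; exact le_self_add
  · refine le_trans ?_ le_add_self
    rw [ind_pos]
    refine ⟨fun z k h h' => ?_, ⟨z0, k0, d1, d2, by omega⟩, hS⟩
    have := hmin k ⟨z, h, h'⟩
    omega

lemma D_eq' (n : ℕ) (E : List BX → List BY → Prop) (f : List BX → List BY → ℝ≥0∞)
    (hp : ∀ L L', (HT hX L = n ∧ HT hY L' = n ∧ E L L') → f L L' = LW ΛX L * LW ΛY L')
    (hn : ∀ L L', ¬ (HT hX L = n ∧ HT hY L' = n ∧ E L L') → f L L' = 0) :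
    ∑' L, ∑' L', f L L' = D ΛX hX ΛY hY n (fun L L' => ind (E L L')) := by
  classical
  rw [← D_eq]
  refine tsum_congr fun L => tsum_congr fun L' => ?_
  by_cases hc : HT hX L = n ∧ HT hY L' = n ∧ E L L'
  · exact (hp L L' hc).trans (if_pos hc).symm
  · exact (hn L L' hc).trans (if_neg hc).symm

open Classical in
/-- **ASSEMBLY** -/
theorem kapS (hXX : Tr hX zX TX) (hYY : Tr hY zY TY) (h1X : ∀ b, 1 ≤ hX b)
    (h1Y : ∀ b, 1 ≤ hY b) (hΛX : ∑' b, ΛX b = 1) (hΛY : ∑' b, ΛY b = 1)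
    (hUX : ∀ n, U ΛX hX n ≤ 1) (hUY : ∀ n, U ΛY hY n ≤ 1)
    (hmX : ∑' b, ΛX b * (hX b : ℝ≥0∞) ≠ ⊤) (hmY : ∑' b, ΛY b * (hY b : ℝ≥0∞) ≠ ⊤)
    {C : ℝ≥0∞} (hC : C ≠ ⊤) {us : ℕ → ℕ → ℝ≥0∞} (hus : ∀ i, Tendsto (us i) atTop (𝓝 0))
    (h2 : H2 ΛX hX zX TX ΛY hY TY C us) (h3 : H3 ΛX hX TX ΛY hY zY TY C us)
    (h5 : H5 ΛX hX TX ΛY hY TY) (ε : ℝ≥0∞) (hε : ε ≠ 0) :
    ∃ M : ℕ, ∀ m, M ≤ m → ∃ n0 : ℕ, ∀ n, n0 ≤ n → ∀ w : G,
      ∑' L, ∑' L', (if HT hX L = n ∧ HT hY L' = n ∧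
        ((∀ z k, (z, k) ∈ TX L 0 0 → (z, k) ∈ TY L' w 0 → m < k) ∧
          ∃ z k, (z, k) ∈ TX L 0 0 ∧ (z, k) ∈ TY L' w 0 ∧ k ≤ 2 * m)
        then LW ΛX L * LW ΛY L' else 0) ≤ ε := by
  set e : ℝ≥0∞ := ε / 6 with he
  have he0 : e ≠ 0 := (ENNReal.div_pos hε (by norm_num)).ne'
  have he4 : e / 4 ≠ 0 := (ENNReal.div_pos he0 (by norm_num)).ne'
  obtain ⟨K, u0, hK6, hK1, -, hu00, hu01, hKu, hKJ⟩ :=
    KU823.exists_Ku 0 6 (by norm_num) (e / 4) he4 6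
  simp only [Nat.cast_zero, add_zero] at hKu hKJ
  set J := K / 6 with hJ
  have h5J : 5 * J + 1 ≤ K := by omega
  set u := u0 / 2 with hu
  have hu0 : u ≠ 0 := (ENNReal.div_pos hu00 (by norm_num)).ne'
  have hu1 : u < 1 := by
    calc u ≤ 1 / 2 := ENNReal.div_le_div_right hu01 _
      _ < 1 := by rw [one_div]; exact ENNReal.inv_lt_one.2 (by norm_num)
  set N := 2 * K with hN
  have hNt : (N : ℝ≥0∞) ≠ ⊤ := ENNReal.natCast_ne_top N
  -- i0
  have ht : Tendsto (fun i => (∑' k, tail ΛX hX (i + k)) + ∑' k, tail ΛY hY (i + k)) atTop (𝓝 0) := by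
    have hx : Tendsto (fun i => ∑' k, tail ΛX hX (i + k)) atTop (𝓝 0) := by
      have e : (fun i => ∑' k, tail ΛX hX (i + k)) = fun i => ∑' k, tail ΛX hX (k + i) := by
        funext i; exact tsum_congr fun k => by rw [add_comm]
      rw [e]
      exact ENNReal.tendsto_sum_nat_add _ (by rw [← sum_tail ΛX hX hΛX]; exact hmX)
    have hy : Tendsto (fun i => ∑' k, tail ΛY hY (i + k)) atTop (𝓝 0) := by
      have e : (fun i => ∑' k, tail ΛY hY (i + k)) = fun i => ∑' k, tail ΛY hY (k + i) := by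
        funext i; exact tsum_congr fun k => by rw [add_comm]
      rw [e]
      exact ENNReal.tendsto_sum_nat_add _ (by rw [← sum_tail ΛY hY hΛY]; exact hmY)
    simpa using hx.add hy
  obtain ⟨i0, -, hi0⟩ := KU823.exists_small _ ht ((N : ℝ≥0∞) * (4 + 2 * J))
    (ENNReal.mul_ne_top hNt (ENNReal.add_ne_top.2 ⟨by norm_num, ENNReal.mul_ne_top (by norm_num)
      (ENNReal.natCast_ne_top J)⟩)) e he0 0
  have hδ := hi0 i0 le_rfl
  set δ := (∑' k, tail ΛX hX (i0 + k)) + ∑' k, tail ΛY hY (i0 + k) with hδdef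
  have hδX : ∀ a, ov ΛX hX i0 a ≤ δ := fun a => (ov_le ΛX hX h1X hUX i0 a).trans le_self_add
  have hδY : ∀ a, ov ΛY hY i0 a ≤ δ := fun a => (ov_le ΛY hY h1Y hUY i0 a).trans le_add_self
  -- lam
  set I4 : ℝ≥0∞ := ((i0 + 1 : ℕ) : ℝ≥0∞) ^ 4 with hI4
  have hI4t : I4 ≠ ⊤ := ENNReal.pow_ne_top (ENNReal.natCast_ne_top _)
  obtain ⟨Nl, hNl1, hNl⟩ := KU823.exists_small _ ENNReal.tendsto_inv_nat_nhds_zero
    ((N : ℝ≥0∞) * (I4 * C * 2))
    (ENNReal.mul_ne_top hNt (ENNReal.mul_ne_top (ENNReal.mul_ne_top hI4t hC) (by norm_num))) e he0 1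
  have hlam := hNl Nl le_rfl
  set lam : ℝ≥0∞ := ((Nl : ℕ) : ℝ≥0∞)⁻¹ with hlamdef
  have hl0 : lam ≠ 0 := ENNReal.inv_ne_zero.2 (ENNReal.natCast_ne_top _)
  have hlt : lam ≠ ⊤ := ENNReal.inv_ne_top.2 (by
    have : Nl ≠ 0 := by omega
    exact_mod_cast this)
  -- s
  have hus2 : Tendsto (fun s => us i0 s + us (2 * i0) s) atTop (𝓝 0) := by
    simpa using (hus i0).add (hus (2 * i0))
  set Q : ℝ≥0∞ := (J * (i0 + 1 : ℕ)) / lam + 1 with hQ
  have hQt : Q ≠ ⊤ := ENNReal.add_ne_top.2 ⟨ENNReal.div_ne_top (ENNReal.mul_ne_top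
    (ENNReal.natCast_ne_top _) (ENNReal.natCast_ne_top _)) hl0, ENNReal.one_ne_top⟩
  obtain ⟨s, -, hs⟩ := KU823.exists_small _ hus2 ((N : ℝ≥0∞) * (I4 * C * Q))
    (ENNReal.mul_ne_top hNt (ENNReal.mul_ne_top (ENNReal.mul_ne_top hI4t hC) hQt)) e he0 0
  have hss := hs s le_rfl
  -- slab
  set η : ℝ≥0∞ := e / N with hη
  have hη0 : η ≠ 0 := (ENNReal.div_pos he0 hNt).ne'
  obtain ⟨T5, hT5⟩ := h5 (s + 2 * i0 + 1) η hη0
  refine ⟨K * (T5 + i0 + s + 1), fun m hm => ?_⟩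
  set T := m / K with hT
  have hTge : T5 + i0 + s + 1 ≤ T := by
    rw [hT, Nat.le_div_iff_mul_le (by omega), mul_comm]; exact hm
  have hKT : K * T ≤ m := Nat.mul_div_le m K
  have hmNT : m ≤ N * T := by
    have h1 : m < K * (T + 1) := Nat.lt_mul_div_succ m (by omega)
    have h2 : K * 1 ≤ K * T := Nat.mul_le_mul le_rfl (by omega)
    have h3 : N * T = K * T + K * T := by rw [hN]; ring
    have h4 : K * (T + 1) = K * T + K * 1 := by ring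
    omega
  refine ⟨m + N * T + 5 * T + 2 * i0 + 1, fun n hn w => ?_⟩
  have hJT : J * (4 * T + i0) + T ≤ K * T := by
    calc J * (4 * T + i0) + T ≤ J * (5 * T) + T := by
          have : 4 * T + i0 ≤ 5 * T := by omega
          have := Nat.mul_le_mul (le_refl J) this
          omega
      _ = (5 * J + 1) * T := by ring
      _ ≤ K * T := Nat.mul_le_mul h5J le_rfl
  refine (D_eq' ΛX hX ΛY hY n (fun L L' => Ev TX TY m w L L') _
    (fun L L' hc => if_pos hc) (fun L L' hc => if_neg hc)).trans_le ?_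
  have hmain : D ΛX hX ΛY hY n (fun L L' => ind (Ev TX TY m w L L')) ≤
      ∑ j ∈ Finset.range N, (η + (4 * δ + 2 * ((1 - u) ^ J + J * δ) + u ^ 2
      + (I4 * (C * (lam + (J * (i0 + 1 : ℕ)) * us i0 s / lam + us i0 s))
      + I4 * (C * (lam + (J * (i0 + 1 : ℕ)) * us (2 * i0) s / lam + us (2 * i0) s))))) := by
    refine (D_mono _ _ _ _ n (fun L L' => ev_le TX TY N T m (by omega) hmNT
      (fun j => m + j * T + 3 * T - s) (s + 2 * i0 + 1) w L L')).trans ?_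
    rw [D_sum]
    refine Finset.sum_le_sum fun j hj => ?_
    have hjT : j * T ≤ N * T := Nat.mul_le_mul (Finset.mem_range.1 hj).le le_rfl
    rw [D_add]
    refine add_le_add ?_ ?_
    · have := hT5 (m + j * T + 3 * T - s) (by omega) n (by omega) w
      exact (D_eq' ΛX hX ΛY hY n (fun L L' => Slab TX TY (m + j * T + 3 * T - s)
        (s + 2 * i0 + 1) w L L') _
        (fun L L' hc => if_pos hc) (fun L L' hc => if_neg hc)).symm.trans_le this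
    · refine window' ΛX hX zX TX ΛY hY zY TY hXX hYY h1X h1Y hΛX hΛY hUX hUY h2 h3
        (m + j * T - T) (4 * T) i0 J s (m + j * T) (m + j * T + 3 * T - s) n lam u δ
        (by omega) hu0 hu1 hδX hδY hl0 hlt (by omega) (by omega) (by omega) w _
        (fun L L' => ind_le _) ?_
      intro A P R A' P' R' hA hP hA' hP' hHA hHA'
      by_cases hW : Win TX TY (m + j * T) T (m + j * T + 3 * T - s) (s + 2 * i0 + 1) w
        (A ++ (P ++ R)) (A' ++ (P' ++ R'))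
      · rw [ind_pos hW, ind_pos]
        exact win_pieces hX zX TX hY zY TY hXX hYY (s := s) (T := T) (by omega) (by omega)
          (by omega) w A P R A' P' R' hA hP hA' hP' hHA hHA' hW
      · rw [ind_neg hW]; exact zero_le
  refine hmain.trans ?_
  rw [Finset.sum_const, Finset.card_range, nsmul_eq_mul]
  -- numbers
  have t1 : (N : ℝ≥0∞) * η ≤ e := by rw [hη]; exact ENNReal.mul_div_le
  have t3 : (N : ℝ≥0∞) * (2 * (1 - u) ^ J) ≤ e := by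
    calc (N : ℝ≥0∞) * (2 * (1 - u) ^ J) = 4 * (K * (1 - u) ^ J) := by
          rw [hN]; push_cast; ring
      _ ≤ 4 * (e / 4) := by gcongr
      _ ≤ e := ENNReal.mul_div_le
  have t4 : (N : ℝ≥0∞) * u ^ 2 ≤ e := by
    have hu2 : u ≤ u0 := by
      rw [hu]; exact ENNReal.half_le_self
    calc (N : ℝ≥0∞) * u ^ 2 ≤ (N : ℝ≥0∞) * u0 ^ 2 := by gcongr
      _ = 2 * (K * u0 ^ 2) := by rw [hN]; push_cast; ring
      _ ≤ 4 * (e / 4) := by
          refine mul_le_mul' (by norm_num) hKu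
      _ ≤ e := ENNReal.mul_div_le
  have hdiv : ∀ x : ℝ≥0∞, (J * (i0 + 1 : ℕ)) * x / lam + x = Q * x := by
    intro x
    rw [hQ, add_mul, one_mul, ENNReal.mul_div_right_comm]
  calc (N : ℝ≥0∞) * (η + (4 * δ + 2 * ((1 - u) ^ J + J * δ) + u ^ 2
      + (I4 * (C * (lam + (J * (i0 + 1 : ℕ)) * us i0 s / lam + us i0 s))
      + I4 * (C * (lam + (J * (i0 + 1 : ℕ)) * us (2 * i0) s / lam + us (2 * i0) s)))))
      = (N : ℝ≥0∞) * η + (N : ℝ≥0∞) * (4 + 2 * J) * δ + (N : ℝ≥0∞) * (2 * (1 - u) ^ J)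
        + (N : ℝ≥0∞) * u ^ 2 + (N : ℝ≥0∞) * (I4 * C * 2) * lam
        + (N : ℝ≥0∞) * (I4 * C * Q) * (us i0 s + us (2 * i0) s) := by
        rw [add_assoc lam, hdiv, add_assoc lam, hdiv]
        ring
    _ ≤ e + e + e + e + e + e := by
        gcongr
    _ = 6 * (ε / 6) := by rw [← he]; ring
    _ ≤ ε := ENNReal.mul_div_le

end Crest.Agent.R154.Asm97
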