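import Crest.Agent.R154.AsmF_976
import Crest.Agent.R154.Num_337

/-! Row 154, road 801 (helper976): sum over the windows, constants. -/

set_option autoImplicit false

namespace Crest.Agent.R154.Asm976

open B5A
open scoped ENNReal
open Classical

variable {BX BY G : Type*} [AddCommGroup G]
variable (ΛX : BX → ℝ≥0∞) (hX : BX → ℕ) (zX : BX → G) (sX : BX → Set (G × ℕ))
  (ΛY : BY → ℝ≥0∞) (hY : BY → ℕ) (zY : BY → G) (sY : BY → Set (G × ℕ))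

lemma cover (m t K : ℕ) (ht : 1 ≤ t) (hcov : m ≤ (K + 1) * t) (n : ℕ) (w : G) (LX : List BX)
    (LY : List BY) (c : ℝ≥0∞) :
    (if HT hX LX = n ∧ HT hY LY = n ∧
      (∃ z k, m < k ∧ k ≤ 2 * m ∧ (z, k) ∈ TT hX zX sX LX 0 0 ∧ (z, k) ∈ TT hY zY sY LY w 0) ∧
      (∀ z k, (z, k) ∈ TT hX zX sX LX 0 0 → (z, k) ∈ TT hY zY sY LY w 0 → m < k)
      then c else 0) ≤
    ∑ j ∈ Finset.range (K + 1), (if HT hX LX = n ∧ HT hY LY = n ∧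
      (∃ z k, m + j * t + 1 ≤ k ∧ k ≤ m + (j + 1) * t ∧ (z, k) ∈ TT hX zX sX LX 0 0 ∧
        (z, k) ∈ TT hY zY sY LY w 0) ∧
      (∀ z k, (z, k) ∈ TT hX zX sX LX 0 0 → (z, k) ∈ TT hY zY sY LY w 0 → m + j * t + 1 ≤ k)
      then c else 0) := by
  by_cases hc : HT hX LX = n ∧ HT hY LY = n ∧
      (∃ z k, m < k ∧ k ≤ 2 * m ∧ (z, k) ∈ TT hX zX sX LX 0 0 ∧ (z, k) ∈ TT hY zY sY LY w 0) ∧
      (∀ z k, (z, k) ∈ TT hX zX sX LX 0 0 → (z, k) ∈ TT hY zY sY LY w 0 → m < k)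
  swap
  · rw [if_neg hc]; exact zero_le
  rw [if_pos hc]
  obtain ⟨h1, h2, ⟨z, k, k1, k2, k3, k4⟩, h4⟩ := hc
  have hex : ∃ k, ∃ z, (z, k) ∈ TT hX zX sX LX 0 0 ∧ (z, k) ∈ TT hY zY sY LY w 0 := ⟨k, z, k3, k4⟩
  set k0 := Nat.find hex with hk0
  obtain ⟨z0, p1, p2⟩ := Nat.find_spec hex
  have hmin : ∀ k', (∃ z, (z, k') ∈ TT hX zX sX LX 0 0 ∧ (z, k') ∈ TT hY zY sY LY w 0) → k0 ≤ k' :=
    fun k' h => Nat.find_min' hex h
  have hm0 : m < k0 := h4 z0 k0 p1 p2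
  have hk2 : k0 ≤ k := hmin k ⟨z, k3, k4⟩
  set j := (k0 - m - 1) / t with hj
  have hjt : j * t ≤ k0 - m - 1 := Nat.div_mul_le_self _ _
  have hjt' : k0 - m - 1 < (j + 1) * t := by
    have := Nat.lt_div_mul_add (a := k0 - m - 1) (b := t) (by omega)
    rw [← hj] at this
    rw [add_mul, one_mul]; exact this
  have hjK : j < K + 1 := by
    rw [hj, Nat.div_lt_iff_lt_mul (by omega)]
    omega
  refine le_trans ?_ (Finset.single_le_sum (f := fun j => (if HT hX LX = n ∧ HT hY LY = n ∧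
      (∃ z k, m + j * t + 1 ≤ k ∧ k ≤ m + (j + 1) * t ∧ (z, k) ∈ TT hX zX sX LX 0 0 ∧
        (z, k) ∈ TT hY zY sY LY w 0) ∧
      (∀ z k, (z, k) ∈ TT hX zX sX LX 0 0 → (z, k) ∈ TT hY zY sY LY w 0 → m + j * t + 1 ≤ k)
      then c else 0)) (fun _ _ => zero_le) (Finset.mem_range.2 hjK))
  refine (if_pos ⟨h1, h2, ⟨z0, k0, by omega, by omega, p1, p2⟩, fun z' k' q1 q2 => ?_⟩).ge
  have := hmin k' ⟨z', q1, q2⟩
  omega

lemma H2_mono {r0 s : ℕ} {C C' us : ℝ≥0∞} (hC : C ≤ C')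
    (h : H2 ΛX hX zX sX ΛY hY zY sY r0 s C us) : H2 ΛX hX zX sX ΛY hY zY sY r0 s C' us := by
  intro h1 h' a a' lo E μ M lam c1 c2 c3 c4 c5 c6 c7 c8 c9 c10
  exact (h h1 h' a a' lo E μ M lam c1 c2 c3 c4 c5 c6 c7 c8 c9 c10).trans
    (mul_le_mul_left hC _)

lemma H3_mono {r0 s : ℕ} {C C' us : ℝ≥0∞} (hC : C ≤ C')
    (h : H3 ΛX hX zX sX ΛY hY zY sY r0 s C us) : H3 ΛX hX zX sX ΛY hY zY sY r0 s C' us := by
  intro h1 h' a a' lo E μ M lam c1 c2 c3 c4 c5 c6 c7 c8 c9 c10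
  exact (h h1 h' a a' lo E μ M lam c1 c2 c3 c4 c5 c6 c7 c8 c9 c10).trans
    (mul_le_mul_left hC _)

lemma al_quant {B : Type*} (Λ : B → ℝ≥0∞) (h : B → ℕ) (z : B → G) (h1 : ∀ b, 1 ≤ h b)
    (hΛ : ∑' b, Λ b = 1) (S : ℕ) (u : ℝ≥0∞) (hu : u ≠ 0) (hu1 : u < 1) :
    ∃ th : ℝ≥0∞, th ≠ 0 ∧ th ≠ ⊤ ∧
      ∑' q, (if al Λ h (Dp z) S q < th then al Λ h (Dp z) S q else 0) ≤ u ∧
      u ≤ ∑' q, (if al Λ h (Dp z) S q ≤ th then al Λ h (Dp z) S q else 0) := by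
  have hm := al_mass Λ h h1 hΛ (Dp z) S
  exact Lst2.quantile (al Λ h (Dp z) S) (by rw [hm]; exact ENNReal.one_ne_top) u hu (by rw [hm]; exact hu1)

/-- the assembly -/
theorem kapS (hX1 : ∀ b, 1 ≤ hX b) (hY1 : ∀ b, 1 ≤ hY b) (hΛX : ∑' b, ΛX b = 1)
    (hΛY : ∑' b, ΛY b = 1)
    (hsX : ∀ b, ∀ p ∈ sX b, 1 ≤ p.2 ∧ p.2 ≤ hX b) (hsY : ∀ b, ∀ p ∈ sY b, 1 ≤ p.2 ∧ p.2 ≤ hY b)
    (hoX : ∀ e : ℝ≥0∞, e ≠ 0 → ∃ i0 : ℕ, ∀ S,
      ∑' L, (if FP hX S L ∧ S + i0 < HT hX L then LW ΛX L else 0) ≤ e)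
    (hoY : ∀ e : ℝ≥0∞, e ≠ 0 → ∃ i0 : ℕ, ∀ S,
      ∑' L, (if FP hY S L ∧ S + i0 < HT hY L then LW ΛY L else 0) ≤ e)
    (h2 : ∀ r0 : ℕ, ∃ C : ℝ≥0∞, C ≠ ⊤ ∧ ∀ η : ℝ≥0∞, η ≠ 0 → ∃ s0 : ℕ, ∀ s, s0 ≤ s →
      H2 ΛX hX zX sX ΛY hY zY sY r0 s C η)
    (h3 : ∀ r0 : ℕ, ∃ C : ℝ≥0∞, C ≠ ⊤ ∧ ∀ η : ℝ≥0∞, η ≠ 0 → ∃ s0 : ℕ, ∀ s, s0 ≤ s →
      H3 ΛX hX zX sX ΛY hY zY sY r0 s C η)
    (h5 : ∀ (s : ℕ) (η : ℝ≥0∞), η ≠ 0 → ∃ T : ℕ, ∀ a, T ≤ a → ∀ (n : ℕ) (w : G),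
      ∑' LX, ∑' LY, (if HT hX LX = n ∧ HT hY LY = n ∧ ∃ z k, a ≤ k ∧ k < a + s ∧
        (z, k) ∈ TT hX zX sX LX 0 0 ∧ (z, k) ∈ TT hY zY sY LY w 0
        then LW ΛX LX * LW ΛY LY else 0) ≤ η)
    (ε : ℝ≥0∞) (hε : ε ≠ 0) :
    ∃ M : ℕ, ∀ m, M ≤ m → ∃ n0 : ℕ, ∀ n, n0 ≤ n → ∀ w : G,
      ∑' LX, ∑' LY, (if HT hX LX = n ∧ HT hY LY = n ∧
        (∃ z k, m < k ∧ k ≤ 2 * m ∧ (z, k) ∈ TT hX zX sX LX 0 0 ∧ (z, k) ∈ TT hY zY sY LY w 0) ∧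
        (∀ z k, (z, k) ∈ TT hX zX sX LX 0 0 → (z, k) ∈ TT hY zY sY LY w 0 → m < k)
        then LW ΛX LX * LW ΛY LY else 0) ≤ ε := by
  by_cases hεt : ε = ⊤
  · exact ⟨0, fun m _ => ⟨0, fun n _ w => by rw [hεt]; exact le_top⟩⟩
  set ε' : ℝ≥0∞ := ε / 8 with hε'
  have hε'0 : ε' ≠ 0 := by
    rw [hε', Ne, ENNReal.div_eq_zero_iff, not_or]
    exact ⟨hε, by norm_num⟩
  obtain ⟨K, u, hK, hu0, hu1, hKu, hKN⟩ := Num337.exKu ε' hε'0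
  set N := K / 4 with hN
  set A : ℝ≥0∞ := ((4 * K + 8 : ℕ) : ℝ≥0∞) with hA
  have hAt : A ≠ ⊤ := ENNReal.natCast_ne_top _
  have hA0 : A ≠ 0 := by rw [hA]; simp
  have hut : u ≠ ⊤ := ne_top_of_lt hu1
  have huit : u⁻¹ ≠ ⊤ := ENNReal.inv_ne_top.2 hu0
  -- overshoot
  set Q : ℝ≥0∞ := A * (4 + 2 * u⁻¹) with hQ
  have hQt : Q ≠ ⊤ := ENNReal.mul_ne_top hAt
    (ENNReal.add_ne_top.2 ⟨by norm_num, ENNReal.mul_ne_top (by norm_num) huit⟩)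
  have hQ0 : Q ≠ 0 := mul_ne_zero hA0 (by simp)
  set e1 : ℝ≥0∞ := ε' / Q with he1
  have he10 : e1 ≠ 0 := by
    rw [he1, Ne, ENNReal.div_eq_zero_iff, not_or]
    exact ⟨hε'0, hQt⟩
  have hQe : Q * e1 ≤ ε' := by rw [he1]; exact ENNReal.mul_div_le
  obtain ⟨iX, hiX⟩ := hoX e1 he10
  obtain ⟨iY, hiY⟩ := hoY e1 he10
  set i0 := max iX iY with hi0
  have hoX' : ∀ S, ∑' L, (if FP hX S L ∧ S + i0 < HT hX L then LW ΛX L else 0) ≤ e1 := by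
    intro S
    refine le_trans (ENNReal.tsum_le_tsum fun L => ?_) (hiX S)
    by_cases hc : FP hX S L ∧ S + i0 < HT hX L
    · rw [if_pos hc, if_pos ⟨hc.1, by have := le_max_left iX iY; omega⟩]
    · rw [if_neg hc]; exact zero_le
  have hoY' : ∀ S, ∑' L, (if FP hY S L ∧ S + i0 < HT hY L then LW ΛY L else 0) ≤ e1 := by
    intro S
    refine le_trans (ENNReal.tsum_le_tsum fun L => ?_) (hiY S)
    by_cases hc : FP hY S L ∧ S + i0 < HT hY L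
    · rw [if_pos hc, if_pos ⟨hc.1, by have := le_max_right iX iY; omega⟩]
    · rw [if_neg hc]; exact zero_le
  -- constants C
  set r0 := 4 * i0 + 1 with hr0
  obtain ⟨C2, hC2t, hC2⟩ := h2 r0
  obtain ⟨C3, hC3t, hC3⟩ := h3 r0
  set C := C2 + C3 with hC
  have hCt : C ≠ ⊤ := ENNReal.add_ne_top.2 ⟨hC2t, hC3t⟩
  set I : ℝ≥0∞ := ((i0 + 1 : ℕ) : ℝ≥0∞) with hI
  have hIt : I ≠ ⊤ := ENNReal.natCast_ne_top _
  set D : ℝ≥0∞ := I * u⁻¹ with hD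
  have hDt : D ≠ ⊤ := ENNReal.mul_ne_top hIt huit
  set A2 : ℝ≥0∞ := A * (2 * (I * I * (I * I * C))) with hA2
  have hA2t : A2 ≠ ⊤ := by
    refine ENNReal.mul_ne_top hAt (ENNReal.mul_ne_top (by norm_num) ?_)
    exact ENNReal.mul_ne_top (ENNReal.mul_ne_top hIt hIt)
      (ENNReal.mul_ne_top (ENNReal.mul_ne_top hIt hIt) hCt)
  obtain ⟨lam, hl0, hlt, -, s0, hs0⟩ := Num337.exLam A2 D hA2t hDt (fun k : ℕ => (k : ℝ≥0∞)⁻¹)
    ENNReal.tendsto_inv_nat_nhds_zero ε' hε'0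
  set us : ℝ≥0∞ := (s0 : ℝ≥0∞)⁻¹ with hus
  have hus0 : us ≠ 0 := ENNReal.inv_ne_zero.2 (ENNReal.natCast_ne_top _)
  have hlam : A2 * (lam + D * us / lam + us) ≤ ε' := hs0 s0 le_rfl
  obtain ⟨s2, hs2⟩ := hC2 us hus0
  obtain ⟨s3, hs3⟩ := hC3 us hus0
  set s := max s2 s3 with hs
  have H2' : H2 ΛX hX zX sX ΛY hY zY sY r0 s C us := H2_mono ΛX hX zX sX ΛY hY zY sY
    le_self_add (hs2 s (le_max_left _ _))
  have H3' : H3 ΛX hX zX sX ΛY hY zY sY r0 s C us := H3_mono ΛX hX zX sX ΛY hY zY sY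
    le_add_self (hs3 s (le_max_right _ _))
  -- slab
  set η : ℝ≥0∞ := ε' / A with hη
  have hη0 : η ≠ 0 := by
    rw [hη, Ne, ENNReal.div_eq_zero_iff, not_or]
    exact ⟨hε'0, hAt⟩
  have hAη : A * η ≤ ε' := by rw [hη]; exact ENNReal.mul_div_le
  obtain ⟨T5, hT5⟩ := h5 (s + 2 * i0) η hη0
  set t0 := K + 2 * s + 4 * i0 + 2 + T5 with ht0
  refine ⟨K * t0, fun m hm => ?_⟩
  set t := m / K with ht
  have hKpos : 0 < K := by omega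
  have htt : t0 ≤ t := by
    rw [ht, Nat.le_div_iff_mul_le hKpos, mul_comm]; exact hm
  have hKt : K * t ≤ m := by rw [ht]; exact Nat.mul_div_le m K
  have hKt' : m < K * t + K := by
    have := Nat.lt_mul_div_succ m hKpos
    rw [← ht] at this
    calc m < K * (t + 1) := this
      _ = K * t + K := by ring
  have hcov : m ≤ (K + 1) * t := by
    have : (K + 1) * t = K * t + t := by ring
    omega
  have h4t : 4 * t ≤ m := le_trans (Nat.mul_le_mul_right t hK) hKt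
  set S := t + 2 * s + 2 * i0 + 1 with hS
  set S' := S + i0 with hS'
  refine ⟨m + (K + 3) * t + i0, fun n hn w => ?_⟩
  obtain ⟨thX, hthX0, hthXt, hX2, hX3⟩ := al_quant ΛX hX zX hX1 hΛX S u hu0 hu1
  obtain ⟨thY, hthY0, hthYt, hY2, hY3⟩ := al_quant ΛY hY zY hY1 hΛY S' u hu0 hu1
  have hNS : N * (S' + i0) ≤ m / 2 := by
    have a1 : S' + i0 ≤ 2 * t := by omega
    have a2 : 4 * N ≤ K := by omega
    have a3 : N * (S' + i0) ≤ N * (2 * t) := Nat.mul_le_mul_left N a1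
    have a4 : 4 * N * t ≤ K * t := Nat.mul_le_mul_right t a2
    have a5 : 4 * N * t = 2 * (N * (2 * t)) := by ring
    omega
  have hwin : ∀ j ∈ Finset.range (K + 1), (∑' LX, ∑' LY, (if HT hX LX = n ∧ HT hY LY = n ∧
      (∃ z k, m + j * t + 1 ≤ k ∧ k ≤ m + (j + 1) * t ∧ (z, k) ∈ TT hX zX sX LX 0 0 ∧
        (z, k) ∈ TT hY zY sY LY w 0) ∧
      (∀ z k, (z, k) ∈ TT hX zX sX LX 0 0 → (z, k) ∈ TT hY zY sY LY w 0 → m + j * t + 1 ≤ k)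
      then LW ΛX LX * LW ΛY LY else 0)) ≤ (e1 + e1) + (e1 + e1) + η + (u * u
      + (I * I * (I * I * (C * (lam + D * us / lam + us))) + ((1 - u) ^ N + e1 * u⁻¹))
      + (I * I * (I * I * (C * (lam + D * us / lam + us))) + ((1 - u) ^ N + e1 * u⁻¹))) := by
    intro j hj
    have hjK : j ≤ K := by have := Finset.mem_range.1 hj; omega
    have hjt : j * t ≤ K * t := Nat.mul_le_mul_right t hjK
    have ej : (j + 1) * t = j * t + t := by ring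
    have eK : (K + 3) * t = K * t + 3 * t := by ring
    set T1 := m + j * t - (2 * i0 + 1 + s) with hT1
    have hT1' : T1 + (2 * i0 + 1 + s) = m + j * t := by omega
    obtain ⟨gX, bX, x1, x2, x3, x4⟩ := dens ΛX hX zX hX1 hΛX S i0 thX u e1 hu0 hu1.le hX3 (hoX' S)
      N T1 (le_trans (Nat.mul_le_mul_left N (by omega)) (le_trans hNS (by omega)))
    obtain ⟨gY, bY, y1, y2, y3, y4⟩ := dens ΛY hY zY hY1 hΛY S' i0 thY u e1 hu0 hu1.le hY3 (hoY' S')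
      N (T1 + i0 + 1) (le_trans hNS (by omega))
    have hMX : I * thX * u⁻¹ * (1 / thX) = D := by
      rw [hD, one_div, mul_assoc, mul_comm u⁻¹, ← mul_assoc, mul_assoc I,
        ENNReal.mul_inv_cancel hthX0 hthXt, mul_one]
    have hMY : I * thY * u⁻¹ * (1 / thY) = D := by
      rw [hD, one_div, mul_assoc, mul_comm u⁻¹, ← mul_assoc, mul_assoc I,
        ENNReal.mul_inv_cancel hthY0 hthYt, mul_one]
    have key := window ΛX hX zX sX ΛY hY zY sY hX1 hY1 hΛX hΛY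
      (fun n => Lst2.U_le ΛX hX hX1 hΛX n) (fun n => Lst2.U_le ΛY hY hY1 hΛY n) hsX hsY
      C us r0 s H2' H3' n T1 S (T1 + i0 + 1) S' i0 (m + j * t + 1) (m + (j + 1) * t)
      thX thY u u e1 η ((1 - u) ^ N + e1 * u⁻¹) ((1 - u) ^ N + e1 * u⁻¹)
      (I * thX * u⁻¹) (I * thY * u⁻¹) lam hthX0 hthY0 hl0 hlt
      (ENNReal.mul_ne_top (ENNReal.mul_ne_top hIt hthXt) huit)
      (ENNReal.mul_ne_top (ENNReal.mul_ne_top hIt hthYt) huit)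
      (by omega) (by omega) (by omega) (by omega) (by omega) (by omega) (by omega)
      hoX' hoY' hX2 hY2 gX bX gY bY x1 x2 x3 x4 y1 y2 y3 y4 w ?_
    · rw [hMX, hMY] at key
      exact key
    · refine le_trans (ENNReal.tsum_le_tsum fun LX => ENNReal.tsum_le_tsum fun LY => ?_)
        (hT5 (m + (j + 1) * t + 1) (by omega) n w)
      by_cases hc : HT hX LX = n ∧ HT hY LY = n ∧ ∃ z k, m + (j + 1) * t < k ∧
        k ≤ T1 + S + 2 * i0 ∧ (z, k) ∈ TT hX zX sX LX 0 0 ∧ (z, k) ∈ TT hY zY sY LY w 0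
      · rw [if_pos hc]
        obtain ⟨c1, c2, z, k, c3, c4, c5⟩ := hc
        rw [if_pos ⟨c1, c2, z, k, by omega, by omega, c5⟩]
      · rw [if_neg hc]; exact zero_le
  calc _ ≤ ∑' LX, ∑' LY, ∑ j ∈ Finset.range (K + 1), (if HT hX LX = n ∧ HT hY LY = n ∧
      (∃ z k, m + j * t + 1 ≤ k ∧ k ≤ m + (j + 1) * t ∧ (z, k) ∈ TT hX zX sX LX 0 0 ∧
        (z, k) ∈ TT hY zY sY LY w 0) ∧
      (∀ z k, (z, k) ∈ TT hX zX sX LX 0 0 → (z, k) ∈ TT hY zY sY LY w 0 → m + j * t + 1 ≤ k)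
      then LW ΛX LX * LW ΛY LY else 0) :=
        ENNReal.tsum_le_tsum fun LX => ENNReal.tsum_le_tsum fun LY =>
          cover hX zX sX hY zY sY m t K (by omega) hcov n w LX LY _
    _ = ∑ j ∈ Finset.range (K + 1), ∑' LX, ∑' LY, (if HT hX LX = n ∧ HT hY LY = n ∧
      (∃ z k, m + j * t + 1 ≤ k ∧ k ≤ m + (j + 1) * t ∧ (z, k) ∈ TT hX zX sX LX 0 0 ∧
        (z, k) ∈ TT hY zY sY LY w 0) ∧
      (∀ z k, (z, k) ∈ TT hX zX sX LX 0 0 → (z, k) ∈ TT hY zY sY LY w 0 → m + j * t + 1 ≤ k)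
      then LW ΛX LX * LW ΛY LY else 0) := by
        simp_rw [Summable.tsum_finsetSum (fun _ _ => ENNReal.summable)]
    _ ≤ ∑ j ∈ Finset.range (K + 1), ((e1 + e1) + (e1 + e1) + η + (u * u
      + (I * I * (I * I * (C * (lam + D * us / lam + us))) + ((1 - u) ^ N + e1 * u⁻¹))
      + (I * I * (I * I * (C * (lam + D * us / lam + us))) + ((1 - u) ^ N + e1 * u⁻¹)))) :=
        Finset.sum_le_sum hwin
    _ = ((K + 1 : ℕ) : ℝ≥0∞) * ((e1 + e1) + (e1 + e1) + η + (u * u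
      + (I * I * (I * I * (C * (lam + D * us / lam + us))) + ((1 - u) ^ N + e1 * u⁻¹))
      + (I * I * (I * I * (C * (lam + D * us / lam + us))) + ((1 - u) ^ N + e1 * u⁻¹)))) := by
        rw [Finset.sum_const, Finset.card_range, nsmul_eq_mul]
    _ ≤ A * ((e1 + e1) + (e1 + e1) + η + (u * u
      + (I * I * (I * I * (C * (lam + D * us / lam + us))) + ((1 - u) ^ N + e1 * u⁻¹))
      + (I * I * (I * I * (C * (lam + D * us / lam + us))) + ((1 - u) ^ N + e1 * u⁻¹)))) := by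
        refine mul_le_mul_left ?_ _
        rw [hA]
        exact_mod_cast (by omega : K + 1 ≤ 4 * K + 8)
    _ = Q * e1 + A * η + A * (u * u) + A * (1 - u) ^ N + A * (1 - u) ^ N +
        A2 * (lam + D * us / lam + us) := by
        rw [hQ, hA2]; ring
    _ ≤ ε' + ε' + ε' + ε' + ε' + ε' := by
        gcongr
    _ ≤ ε := by
        calc _ = 6 * ε' := by ring
          _ ≤ 8 * ε' := by gcongr; norm_num
          _ = ε := by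
            rw [hε']; exact ENNReal.mul_div_cancel (by norm_num) (by norm_num)

end Crest.Agent.R154.Asm976
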