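import Crest.Agent.R154.AsmG_10

/-! Row 154, ROAD 801, abstract assembly, part H (helper10): one window. -/

set_option autoImplicit false
set_option maxHeartbeats 1000000

namespace Crest.Agent.R154.Asm10

open scoped ENNReal Topology
open Filter Crest.Agent.R154.B5A

section Seg

variable {B G : Type*} [AddCommGroup G] (s : B → Set (G × ℕ)) (h : B → ℕ) (z : B → G)

lemma seg_fwd (hs : ∀ b q, q ∈ s b → 1 ≤ q.2 ∧ q.2 ≤ h b) (LA LP LR : List B) (x : G) (y : G)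
    (k : ℕ) (hk : (y, k) ∈ TT s h z (LA ++ LP ++ LR) x 0) (h1 : HT h LA < k)
    (h2 : k ≤ HT h LA + HT h LP) : (y, k) ∈ TT s h z LP (x + (LA.map z).sum) (HT h LA) := by
  rw [TT_append, TT_append] at hk
  rcases hk with (hk | hk) | hk
  · have := TT_depth s h z hs _ _ _ _ _ hk; omega
  · rwa [zero_add] at hk
  · have := TT_depth s h z hs _ _ _ _ _ hk
    rw [HT_append] at this; omega

lemma seg_bwd (LA LP LR : List B) (x : G) (y : G)
    (k : ℕ) (hk : (y, k) ∈ TT s h z LP (x + (LA.map z).sum) (HT h LA)) :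
    (y, k) ∈ TT s h z (LA ++ LP ++ LR) x 0 := by
  rw [TT_append, TT_append]
  left; right
  rwa [zero_add]

end Seg

section Win

variable {BX BY G : Type*} [AddCommGroup G] (ΛX : BX → ℝ≥0∞) (ΛY : BY → ℝ≥0∞)
  (hX : BX → ℕ) (hY : BY → ℕ) (zX : BX → G) (zY : BY → G)
  (sX : BX → Set (G × ℕ)) (sY : BY → Set (G × ℕ))

lemma ev_of (hsX : ∀ b q, q ∈ sX b → 1 ≤ q.2 ∧ q.2 ≤ hX b)
    (hsY : ∀ b q, q ∈ sY b → 1 ≤ q.2 ∧ q.2 ≤ hY b) (LA LP LR : List BX) (LA' LP' LR' : List BY)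
    (w : G) (lo hi : ℕ)
    (hex : ∃ y k, Ct hX hY zX zY sX sY (LA ++ LP ++ LR) (LA' ++ LP' ++ LR') w 0 0 y k ∧
      HT hX LA < k ∧ k ≤ HT hX LA + HT hX LP ∧ HT hY LA' < k ∧ k ≤ HT hY LA' + HT hY LP')
    (hall : ∀ y k, Ct hX hY zX zY sX sY (LA ++ LP ++ LR) (LA' ++ LP' ++ LR') w 0 0 y k →
      HT hX LA < k → k ≤ HT hX LA + HT hX LP → HT hY LA' < k → k ≤ HT hY LA' + HT hY LP' →
      lo ≤ k ∧ k ≤ hi) :
    Ev hX hY zX zY sX sY LP LP' (w + (LA'.map zY).sum - (LA.map zX).sum) (HT hX LA) (HT hY LA')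
      lo hi := by
  have trX : ∀ y k, (y, k) ∈ TT sX hX zX LP (0 + (LA.map zX).sum) (HT hX LA) ↔
      (y - (LA.map zX).sum, k) ∈ TT sX hX zX LP 0 (HT hX LA) :=
    fun y k => TT_trans sX hX zX LP 0 _ _ y k
  have trY : ∀ y k, (y, k) ∈ TT sY hY zY LP' (w + (LA'.map zY).sum) (HT hY LA') ↔
      (y - (LA.map zX).sum, k) ∈ TT sY hY zY LP' (w + (LA'.map zY).sum - (LA.map zX).sum)
        (HT hY LA') := by
    intro y k
    have := TT_trans sY hY zY LP' (w + (LA'.map zY).sum - (LA.map zX).sum) (LA.map zX).sum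
      (HT hY LA') y k
    rwa [sub_add_cancel] at this
  constructor
  · obtain ⟨y, k, ⟨c1, c2⟩, a1, a2, b1, b2⟩ := hex
    refine ⟨y - (LA.map zX).sum, k, ?_, ?_⟩
    · exact (trX y k).1 (seg_fwd sX hX zX hsX LA LP LR 0 y k c1 a1 a2)
    · exact (trY y k).1 (seg_fwd sY hY zY hsY LA' LP' LR' w y k c2 b1 b2)
  · rintro y k ⟨c1, c2⟩
    have d1 := TT_depth sX hX zX hsX _ _ _ _ _ c1
    have d2 := TT_depth sY hY zY hsY _ _ _ _ _ c2
    have e1 : (y + (LA.map zX).sum, k) ∈ TT sX hX zX LP (0 + (LA.map zX).sum) (HT hX LA) := by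
      rw [trX]; rwa [add_sub_cancel_right]
    have e2 : (y + (LA.map zX).sum, k) ∈ TT sY hY zY LP' (w + (LA'.map zY).sum) (HT hY LA') := by
      rw [trY]; rwa [add_sub_cancel_right]
    exact hall _ k ⟨seg_bwd sX hX zX LA LP LR 0 _ k e1, seg_bwd sY hY zY LA' LP' LR' w _ k e2⟩
      (by omega) (by omega) (by omega) (by omega)

/-- no contact in the slabs (below depth `m0`) -/
def Clean (w : G) (T i0 s J m0 : ℕ) (L : List BX) (L' : List BY) : Prop :=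
  ∀ y k, Ct hX hY zX zY sX sY L L' w 0 0 y k → m0 < k → ∀ l, l ≤ J + 1 →
    ¬ (l * T ≤ k + (2 * i0 + s) ∧ k ≤ l * T + (J + 1) * i0 + s)

theorem win_bound (hsX : ∀ b q, q ∈ sX b → 1 ≤ q.2 ∧ q.2 ≤ hX b)
    (hsY : ∀ b q, q ∈ sY b → 1 ≤ q.2 ∧ q.2 ≤ hY b)
    (hUX : ∀ n, U ΛX hX n ≤ 1) (hUY : ∀ n, U ΛY hY n ≤ 1)
    (h1X : ∀ b, 1 ≤ hX b) (h1Y : ∀ b, 1 ≤ hY b) (hΛX : ∑' b, ΛX b = 1) (hΛY : ∑' b, ΛY b = 1)
    {C : ℝ≥0∞} {us : ℕ → ℝ≥0∞} (H2' : H2 ΛX ΛY hX hY zX zY sX sY C us)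
    (H3' : H3 ΛX ΛY hX hY zX zY sX sY C us)
    (n T j J i0 s m0 : ℕ) (θX θY lam e u v : ℝ≥0∞) (hθX : θX ≠ 0) (hθY : θY ≠ 0)
    (hl : lam ≠ 0) (hl' : lam ≠ ⊤) (w : G)
    (hoX : ∀ T, ov ΛX hX T i0 ≤ e) (hoY : ∀ T, ov ΛY hY T i0 ≤ e)
    (huX : ∑' P, LP ΛX hX T P * I (NL ΛX hX zX T θX P) ≤ u)
    (huY : ∑' P, LP ΛY hY T P * I (NL ΛY hY zY T θY P) ≤ u)
    (hvX : ∑' P, LP ΛX hX T P * I (¬ Sm ΛX hX zX T i0 θX P) ≤ v)
    (hvY : ∑' P, LP ΛY hY T P * I (¬ Sm ΛY hY zY T i0 θY P) ≤ v)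
    (hjJ : j < J) (hm0 : m0 ≤ j * T) (hT : (J + 2) * i0 + 2 * i0 + 2 * s + 2 ≤ T)
    (hn : (j + 2) * T + (J + 2) * i0 ≤ n) :
    NN ΛX ΛY hX hY n (fun L L' => (∃ y k, Ct hX hY zX zY sX sY L L' w 0 0 y k ∧
        j * T + (J + 1) * i0 + s + 1 ≤ k ∧ k ≤ (j + 1) * T - (2 * i0 + s)) ∧
        Clean hX hY zX zY sX sY w T i0 s J m0 L L')
      ≤ (j + 1 : ℕ) * e + (j + 1 : ℕ) * e + (e + e) + (e + e) + u * u + (v ^ j + v ^ j) +
        2 * (((j * i0 + 1) * ((i0 + 1) * ((i0 + 1) * (i0 + 1))) : ℕ) *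
        (C * (lam + (2 * (j * (i0 + 1)) : ℕ) * us s / lam + us s))) := by
  classical
  set lo := j * T + (J + 1) * i0 + s + 1 with hlo
  set hi := (j + 1) * T - (2 * i0 + s) with hhi
  have hji : j * i0 ≤ J * i0 := Nat.mul_le_mul_right _ hjJ.le
  have eJ1 : (J + 1) * i0 = J * i0 + i0 := by ring
  have eJ2 : (J + 2) * i0 = J * i0 + 2 * i0 := by ring
  have ej1 : (j + 1) * T = j * T + T := by ring
  have ej2 : (j + 2) * T = j * T + 2 * T := by ring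
  have ej3 : (j + 1) * i0 = j * i0 + i0 := by ring
  -- the events
  set E1 : List BX → List BY → Prop := fun L _ => ∃ l', l' < j + 1 ∧ ∃ (A : List (Pc hX T))
    (P : Pc hX T) (R : List BX), L = fl hX T A ++ P.1 ++ R ∧ A.length = l' ∧
      T + i0 < HP hX T P with hE1
  set E2 : List BX → List BY → Prop := fun _ L' => ∃ l', l' < j + 1 ∧ ∃ (A : List (Pc hY T))
    (P : Pc hY T) (R : List BY), L' = fl hY T A ++ P.1 ++ R ∧ A.length = l' ∧
      T + i0 < HP hY T P with hE2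
  set E3 : List BX → List BY → Prop := fun L _ => ∃ (A : Pc hX (j * T)) (R : List BX),
    L = A.1 ++ R ∧ j * T + i0 < HP hX (j * T) A with hE3
  set E4 : List BX → List BY → Prop := fun L _ => ∃ (A : Pc hX (j * T)) (P : Pc hX (T - 2 * i0))
    (R : List BX), L = A.1 ++ P.1 ++ R ∧ (T - 2 * i0) + i0 < HP hX (T - 2 * i0) P with hE4
  set E5 : List BX → List BY → Prop := fun _ L' => ∃ (A : Pc hY (j * T + J * i0)) (R : List BY),
    L' = A.1 ++ R ∧ j * T + J * i0 + i0 < HP hY (j * T + J * i0) A with hE5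
  set E6 : List BX → List BY → Prop := fun _ L' => ∃ (A : Pc hY (j * T + J * i0)) (P : Pc hY T)
    (R : List BY), L' = A.1 ++ P.1 ++ R ∧ T + i0 < HP hY T P with hE6
  set E7 : List BX → List BY → Prop := fun L L' =>
    (∃ (A : List (Pc hX T)) (P : Pc hX T) (R : List BX),
        L = fl hX T A ++ P.1 ++ R ∧ A.length = j ∧ NL ΛX hX zX T θX P) ∧
      ∃ (A : List (Pc hY T)) (P : Pc hY T) (R : List BY),
        L' = fl hY T A ++ P.1 ++ R ∧ A.length = j ∧ NL ΛY hY zY T θY P with hE7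
  set E8 : List BX → List BY → Prop := fun L _ => ∃ (A : List (Pc hX T)) (R : List BX),
    L = fl hX T A ++ R ∧ A.length = j ∧ ¬ ∃ b ∈ A, Sm ΛX hX zX T i0 θX b with hE8
  set E9 : List BX → List BY → Prop := fun _ L' => ∃ (A : List (Pc hY T)) (R : List BY),
    L' = fl hY T A ++ R ∧ A.length = j ∧ ¬ ∃ b ∈ A, Sm ΛY hY zY T i0 θY b with hE9
  set E10 : List BX → List BY → Prop := fun L L' => ∃ (A : List (Pc hX T)) (P : Pc hX T)
        (R : List BX) (A2 : Pc hY (j * T + J * i0)) (P2 : Pc hY T) (R2 : List BY),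
        L = fl hX T A ++ P.1 ++ R ∧ L' = A2.1 ++ P2.1 ++ R2 ∧ A.length = j ∧ Gd hX T i0 A ∧
        HP hX T P ≤ T + i0 ∧ HP hY (j * T + J * i0) A2 ≤ j * T + J * i0 + i0 ∧
        HP hY T P2 ≤ T + i0 ∧
        ¬ NL ΛX hX zX T θX P ∧ (∃ b ∈ A, Sm ΛX hX zX T i0 θX b) ∧
        Ev hX hY zX zY sX sY P.1 P2.1 (w + (A2.1.map zY).sum - ((fl hX T A).map zX).sum)
          (HT hX (fl hX T A)) (HT hY A2.1) lo hi with hE10
  set E11 : List BX → List BY → Prop := fun L L' => ∃ (A : List (Pc hY T)) (P : Pc hY T)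
        (R : List BY) (A2 : Pc hX (j * T)) (P2 : Pc hX (T - 2 * i0)) (R2 : List BX),
        L' = fl hY T A ++ P.1 ++ R ∧ L = A2.1 ++ P2.1 ++ R2 ∧ A.length = j ∧ Gd hY T i0 A ∧
        HP hY T P ≤ T + i0 ∧ HP hX (j * T) A2 ≤ j * T + i0 ∧
        HP hX (T - 2 * i0) P2 ≤ T - 2 * i0 + i0 ∧
        ¬ NL ΛY hY zY T θY P ∧ (∃ b ∈ A, Sm ΛY hY zY T i0 θY b) ∧
        Ev hX hY zX zY sX sY P2.1 P.1 (w + ((fl hY T A).map zY).sum - (A2.1.map zX).sum)
          (HT hX A2.1) (HT hY (fl hY T A)) lo hi with hE11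
  have himp : ∀ L L', HT hX L = n → HT hY L' = n →
      ((∃ y k, Ct hX hY zX zY sX sY L L' w 0 0 y k ∧ lo ≤ k ∧ k ≤ hi) ∧
        Clean hX hY zX zY sX sY w T i0 s J m0 L L') →
      E1 L L' ∨ E2 L L' ∨ E3 L L' ∨ E4 L L' ∨ E5 L L' ∨ E6 L L' ∨ E7 L L' ∨ E8 L L' ∨ E9 L L' ∨
        E10 L L' ∨ E11 L L' := by
    rintro L L' hL hL' ⟨⟨y, k, hC, hk1, hk2⟩, hcl⟩
    have hrange : ∀ y k, Ct hX hY zX zY sX sY L L' w 0 0 y k → j * T < k →
        k ≤ (j + 1) * T + (j + 1) * i0 → lo ≤ k ∧ k ≤ hi := by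
      intro y k hC h1 h2
      have c1 := hcl y k hC (by omega) j (by omega)
      have c2 := hcl y k hC (by omega) (j + 1) (by omega)
      omega
    rcases exists_good' hX T i0 j L (by omega) with ⟨A, P, R, e1, hA, hG, hP⟩ | h
    swap
    · exact Or.inl h
    rcases exists_good' hY T i0 j L' (by omega) with ⟨A', P', R', e1', hA', hG', hP'⟩ | h
    swap
    · exact Or.inr (Or.inl h)
    have bA := Gd_bound hX T i0 A hG
    have bA' := Gd_bound hY T i0 A' hG'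
    rw [hA] at bA
    rw [hA'] at bA'
    have bP : T ≤ HP hX T P := P.2.1
    have bP' : T ≤ HP hY T P' := P'.2.1
    unfold HP at hP hP' bP bP'
    by_cases hNX : NL ΛX hX zX T θX P
    · by_cases hNY : NL ΛY hY zY T θY P'
      · exact Or.inr (Or.inr (Or.inr (Or.inr (Or.inr (Or.inr (Or.inl
          ⟨⟨A, P, R, e1, hA, hNX⟩, ⟨A', P', R', e1', hA', hNY⟩⟩))))))
      · by_cases hS : ∃ b ∈ A', Sm ΛY hY zY T i0 θY b
        · rcases exists_two hX (j * T) (T - 2 * i0) i0 L (by omega) with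
            ⟨A2, P2, R2, e2, g1, g2⟩ | h | h
          · refine Or.inr (Or.inr (Or.inr (Or.inr (Or.inr (Or.inr (Or.inr (Or.inr (Or.inr (Or.inr
              ⟨A', P', R', A2, P2, R2, e1', e2, hA', hG', hP', g1, g2, hNY, hS, ?_⟩)))))))))
            have t1 : j * T ≤ HP hX (j * T) A2 := A2.2.1
            have t2 : T - 2 * i0 ≤ HP hX (T - 2 * i0) P2 := P2.2.1
            unfold HP at g1 g2 t1 t2
            refine ev_of hX hY zX zY sX sY hsX hsY A2.1 P2.1 R2 (fl hY T A') P'.1 R' w lo hi ?_ ?_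
            · refine ⟨y, k, ?_, ?_, ?_, ?_, ?_⟩
              · rw [← e1', ← e2]; exact hC
              · omega
              · omega
              · omega
              · omega
            · intro y k hC' _ _ h3 h4
              rw [← e1', ← e2] at hC'
              exact hrange y k hC' (by omega) (by omega)
          · exact Or.inr (Or.inr (Or.inl h))
          · exact Or.inr (Or.inr (Or.inr (Or.inl h)))
        · exact Or.inr (Or.inr (Or.inr (Or.inr (Or.inr (Or.inr (Or.inr (Or.inr (Or.inl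
            ⟨A', P'.1 ++ R', by rw [e1', List.append_assoc], hA', hS⟩))))))))
    · by_cases hS : ∃ b ∈ A, Sm ΛX hX zX T i0 θX b
      · rcases exists_two hY (j * T + J * i0) T i0 L' (by omega) with
          ⟨A2, P2, R2, e2, g1, g2⟩ | h | h
        · refine Or.inr (Or.inr (Or.inr (Or.inr (Or.inr (Or.inr (Or.inr (Or.inr (Or.inr (Or.inl
            ⟨A, P, R, A2, P2, R2, e1, e2, hA, hG, hP, g1, g2, hNX, hS, ?_⟩)))))))))
          have t1 : j * T + J * i0 ≤ HP hY (j * T + J * i0) A2 := A2.2.1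
          have t2 : T ≤ HP hY T P2 := P2.2.1
          unfold HP at g1 g2 t1 t2
          refine ev_of hX hY zX zY sX sY hsX hsY (fl hX T A) P.1 R A2.1 P2.1 R2 w lo hi ?_ ?_
          · refine ⟨y, k, ?_, ?_, ?_, ?_, ?_⟩
            · rw [← e1, ← e2]; exact hC
            · omega
            · omega
            · omega
            · omega
          · intro y k hC' h1 h2 _ _
            rw [← e1, ← e2] at hC'
            exact hrange y k hC' (by omega) (by omega)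
        · exact Or.inr (Or.inr (Or.inr (Or.inr (Or.inl h))))
        · exact Or.inr (Or.inr (Or.inr (Or.inr (Or.inr (Or.inl h)))))
      · exact Or.inr (Or.inr (Or.inr (Or.inr (Or.inr (Or.inr (Or.inr (Or.inl
          ⟨A, P.1 ++ R, by rw [e1, List.append_assoc], hA, hS⟩)))))))
  -- the bounds
  have B1 : NN ΛX ΛY hX hY n E1 ≤ (j + 1 : ℕ) * e := by
    refine (NN_fin ΛX ΛY hX hY (Finset.range (j + 1)) n (q := fun l L _ => ∃ (A : List (Pc hX T))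
      (P : Pc hX T) (R : List BX), L = fl hX T A ++ P.1 ++ R ∧ A.length = l ∧
      T + i0 < HP hX T P) ?_).trans ?_
    · rintro L L' _ _ ⟨l, hl, hh⟩
      exact ⟨l, Finset.mem_range.2 hl, hh⟩
    · calc _ ≤ ∑ _l ∈ Finset.range (j + 1), e := by
            refine Finset.sum_le_sum fun l _ => ?_
            refine (NN_left ΛX ΛY hX hY hUX hUY n
              (fun i : List (Pc hX T) × Pc hX T => fl hX T i.1 ++ i.2.1)
              (fun i => i.1.length = l ∧ T + i0 < HP hX T i.2) ?_).trans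
              ((ovsum ΛX hX T i0 l h1X hΛX).trans (hoX T))
            rintro L _ ⟨A, P, R, e1, hA, hP⟩
            exact ⟨(A, P), R, e1, hA, hP⟩
        _ = _ := by rw [Finset.sum_const, Finset.card_range, nsmul_eq_mul]
  have B2 : NN ΛX ΛY hX hY n E2 ≤ (j + 1 : ℕ) * e := by
    refine (NN_fin ΛX ΛY hX hY (Finset.range (j + 1)) n (q := fun l _ L => ∃ (A : List (Pc hY T))
      (P : Pc hY T) (R : List BY), L = fl hY T A ++ P.1 ++ R ∧ A.length = l ∧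
      T + i0 < HP hY T P) ?_).trans ?_
    · rintro L L' _ _ ⟨l, hl, hh⟩
      exact ⟨l, Finset.mem_range.2 hl, hh⟩
    · calc _ ≤ ∑ _l ∈ Finset.range (j + 1), e := by
            refine Finset.sum_le_sum fun l _ => ?_
            refine (NN_right ΛX ΛY hX hY hUX hUY n
              (fun i : List (Pc hY T) × Pc hY T => fl hY T i.1 ++ i.2.1)
              (fun i => i.1.length = l ∧ T + i0 < HP hY T i.2) ?_).trans
              ((ovsum ΛY hY T i0 l h1Y hΛY).trans (hoY T))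
            rintro L _ ⟨A, P, R, e1, hA, hP⟩
            exact ⟨(A, P), R, e1, hA, hP⟩
        _ = _ := by rw [Finset.sum_const, Finset.card_range, nsmul_eq_mul]
  have B3 : NN ΛX ΛY hX hY n E3 ≤ e := by
    refine (NN_left ΛX ΛY hX hY hUX hUY n (fun A : Pc hX (j * T) => A.1)
      (fun A => j * T + i0 < HP hX (j * T) A) ?_).trans
      ((ovsum1 ΛX hX (j * T) i0).le.trans (hoX _))
    rintro L _ ⟨A, R, e1, hA⟩
    exact ⟨A, R, e1, hA⟩
  have B4 : NN ΛX ΛY hX hY n E4 ≤ e := by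
    refine (NN_left ΛX ΛY hX hY hUX hUY n
      (fun i : Pc hX (j * T) × Pc hX (T - 2 * i0) => i.1.1 ++ i.2.1)
      (fun i => (T - 2 * i0) + i0 < HP hX (T - 2 * i0) i.2) ?_).trans
      ((ovsum2 ΛX hX (j * T) (T - 2 * i0) i0 h1X hΛX).trans (hoX _))
    rintro L _ ⟨A, P, R, e1, hA⟩
    exact ⟨(A, P), R, e1, hA⟩
  have B5 : NN ΛX ΛY hX hY n E5 ≤ e := by
    refine (NN_right ΛX ΛY hX hY hUX hUY n (fun A : Pc hY (j * T + J * i0) => A.1)
      (fun A => j * T + J * i0 + i0 < HP hY (j * T + J * i0) A) ?_).trans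
      ((ovsum1 ΛY hY (j * T + J * i0) i0).le.trans (hoY _))
    rintro L _ ⟨A, R, e1, hA⟩
    exact ⟨A, R, e1, hA⟩
  have B6 : NN ΛX ΛY hX hY n E6 ≤ e := by
    refine (NN_right ΛX ΛY hX hY hUX hUY n
      (fun i : Pc hY (j * T + J * i0) × Pc hY T => i.1.1 ++ i.2.1)
      (fun i => T + i0 < HP hY T i.2) ?_).trans
      ((ovsum2 ΛY hY (j * T + J * i0) T i0 h1Y hΛY).trans (hoY _))
    rintro L _ ⟨A, P, R, e1, hA⟩
    exact ⟨(A, P), R, e1, hA⟩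
  have B7 : NN ΛX ΛY hX hY n E7 ≤ u * u :=
    nl_sum ΛX ΛY hX hY hUX hUY h1X h1Y hΛX hΛY n T j _ _ u huX huY
  have B8 : NN ΛX ΛY hX hY n E8 ≤ v ^ j := by
    refine (NN_left ΛX ΛY hX hY hUX hUY n (fun A : List (Pc hX T) => fl hX T A)
      (fun A => A.length = j ∧ ¬ ∃ b ∈ A, Sm ΛX hX zX T i0 θX b) ?_).trans
      (nosm_sum ΛX hX T j _ v hvX)
    rintro L _ ⟨A, R, e1, hA⟩
    exact ⟨A, R, e1, hA⟩
  have B9 : NN ΛX ΛY hX hY n E9 ≤ v ^ j := by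
    refine (NN_right ΛX ΛY hX hY hUX hUY n (fun A : List (Pc hY T) => fl hY T A)
      (fun A => A.length = j ∧ ¬ ∃ b ∈ A, Sm ΛY hY zY T i0 θY b) ?_).trans
      (nosm_sum ΛY hY T j _ v hvY)
    rintro L _ ⟨A, R, e1, hA⟩
    exact ⟨A, R, e1, hA⟩
  have B10 := qx_bound ΛX ΛY hX hY zX zY sX sY hUX hUY h1X h1Y hΛX hΛY H2' n T (j * T + J * i0) T
    j i0 s lo hi θX lam hθX hl hl' w (by omega) (by omega) (by omega) (by omega)
  have B11 := qy_bound ΛX ΛY hX hY zX zY sX sY hUX hUY h1X h1Y hΛX hΛY H3' n T (j * T)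
    (T - 2 * i0) j i0 s lo hi θY lam hθY hl hl' w (by omega) (by omega) (by omega) (by omega)
    (by omega)
  refine (NN_mono ΛX ΛY hX hY n himp).trans ?_
  refine (NN_or ΛX ΛY hX hY n (Q1 := E1) (Q2 := fun L L' => E2 L L' ∨ E3 L L' ∨ E4 L L' ∨
    E5 L L' ∨ E6 L L' ∨ E7 L L' ∨ E8 L L' ∨ E9 L L' ∨ E10 L L' ∨ E11 L L')
    (fun _ _ _ _ h => h)).trans ?_
  have S2 := NN_or ΛX ΛY hX hY n (Q := fun L L' => E2 L L' ∨ E3 L L' ∨ E4 L L' ∨
    E5 L L' ∨ E6 L L' ∨ E7 L L' ∨ E8 L L' ∨ E9 L L' ∨ E10 L L' ∨ E11 L L') (Q1 := E2)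
    (Q2 := fun L L' => E3 L L' ∨ E4 L L' ∨ E5 L L' ∨ E6 L L' ∨ E7 L L' ∨ E8 L L' ∨ E9 L L' ∨
    E10 L L' ∨ E11 L L') (fun _ _ _ _ h => h)
  have S3 := NN_or ΛX ΛY hX hY n
    (Q := fun L L' => E3 L L' ∨ E4 L L' ∨ E5 L L' ∨ E6 L L' ∨ E7 L L' ∨ E8 L L' ∨ E9 L L' ∨
    E10 L L' ∨ E11 L L') (Q1 := E3) (Q2 := fun L L' => E4 L L' ∨ E5 L L' ∨ E6 L L' ∨ E7 L L' ∨
    E8 L L' ∨ E9 L L' ∨ E10 L L' ∨ E11 L L') (fun _ _ _ _ h => h)
  have S4 := NN_or ΛX ΛY hX hY n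
    (Q := fun L L' => E4 L L' ∨ E5 L L' ∨ E6 L L' ∨ E7 L L' ∨
    E8 L L' ∨ E9 L L' ∨ E10 L L' ∨ E11 L L') (Q1 := E4) (Q2 := fun L L' => E5 L L' ∨ E6 L L' ∨
    E7 L L' ∨ E8 L L' ∨ E9 L L' ∨ E10 L L' ∨ E11 L L') (fun _ _ _ _ h => h)
  have S5 := NN_or ΛX ΛY hX hY n
    (Q := fun L L' => E5 L L' ∨ E6 L L' ∨
    E7 L L' ∨ E8 L L' ∨ E9 L L' ∨ E10 L L' ∨ E11 L L') (Q1 := E5) (Q2 := fun L L' => E6 L L' ∨
    E7 L L' ∨ E8 L L' ∨ E9 L L' ∨ E10 L L' ∨ E11 L L') (fun _ _ _ _ h => h)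
  have S6 := NN_or ΛX ΛY hX hY n
    (Q := fun L L' => E6 L L' ∨
    E7 L L' ∨ E8 L L' ∨ E9 L L' ∨ E10 L L' ∨ E11 L L') (Q1 := E6) (Q2 := fun L L' =>
    E7 L L' ∨ E8 L L' ∨ E9 L L' ∨ E10 L L' ∨ E11 L L') (fun _ _ _ _ h => h)
  have S7 := NN_or ΛX ΛY hX hY n
    (Q := fun L L' => E7 L L' ∨ E8 L L' ∨ E9 L L' ∨ E10 L L' ∨ E11 L L') (Q1 := E7)
    (Q2 := fun L L' => E8 L L' ∨ E9 L L' ∨ E10 L L' ∨ E11 L L') (fun _ _ _ _ h => h)
  have S8 := NN_or ΛX ΛY hX hY n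
    (Q := fun L L' => E8 L L' ∨ E9 L L' ∨ E10 L L' ∨ E11 L L') (Q1 := E8)
    (Q2 := fun L L' => E9 L L' ∨ E10 L L' ∨ E11 L L') (fun _ _ _ _ h => h)
  have S9 := NN_or ΛX ΛY hX hY n
    (Q := fun L L' => E9 L L' ∨ E10 L L' ∨ E11 L L') (Q1 := E9)
    (Q2 := fun L L' => E10 L L' ∨ E11 L L') (fun _ _ _ _ h => h)
  have S10 := NN_or ΛX ΛY hX hY n
    (Q := fun L L' => E10 L L' ∨ E11 L L') (Q1 := E10) (Q2 := E11) (fun _ _ _ _ h => h)
  set Z := (((j * i0 + 1) * ((i0 + 1) * ((i0 + 1) * (i0 + 1))) : ℕ) : ℝ≥0∞) *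
        (C * (lam + (2 * (j * (i0 + 1)) : ℕ) * us s / lam + us s)) with hZ
  calc _ ≤ (j + 1 : ℕ) * e + ((j + 1 : ℕ) * e + (e + (e + (e + (e + (u * u + (v ^ j + (v ^ j +
        (Z + Z))))))))) := by
        refine add_le_add B1 (S2.trans (add_le_add B2 (S3.trans (add_le_add B3 (S4.trans
          (add_le_add B4 (S5.trans (add_le_add B5 (S6.trans (add_le_add B6 (S7.trans
          (add_le_add B7 (S8.trans (add_le_add B8 (S9.trans (add_le_add B9 (S10.trans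
          (add_le_add B10 B11))))))))))))))))))
    _ = _ := by ring

end Win

end Crest.Agent.R154.Asm10
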