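import Crest.Agent.R154.AsmG_295

/-! Row 154, KAPPA' (801), list assembly, part H (helper295): local pairs of pieces. -/

set_option autoImplicit false

namespace Crest.Agent.R154.Asm295

open scoped ENNReal
open Crest.Agent.R154.B5A (LW HT LW_nil LW_cons LW_append HT_nil HT_cons HT_append tsum_list)
open Crest.Agent.R154.Asm540 (Dp Dp_append Cm H2 H3 TR TR_append TR_depth TR_shift)

variable {BX BY G : Type*} [AddCommGroup G]
  {ΛX : BX → ℝ≥0∞} {ΛY : BY → ℝ≥0∞} {hX : BX → ℕ} {hY : BY → ℕ} {zX : BX → G} {zY : BY → G}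
  {sX : BX → Set (G × ℕ)} {sY : BY → Set (G × ℕ)}

open Classical in
variable (ΛX ΛY hX hY zX zY sX sY) in
/-- pairs of pieces with a contact and the property `P` -/
noncomputable def RP (P : List BX → List BY → Prop) (T i0 lo hi a a' : ℕ) (x : G) : ℝ≥0∞ :=
  ∑' W, wt ΛX hX T i0 W * ∑' W', wt ΛY hY T i0 W' *
    (if ct hX hY zX zY sX sY lo hi W W' a a' x ∧ P W W' then 1 else 0)

lemma RP_one (hΛX : ∑' b, ΛX b = 1) (hΛY : ∑' b, ΛY b = 1) (h1X : ∀ b, 1 ≤ hX b)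
    (h1Y : ∀ b, 1 ≤ hY b) (P : List BX → List BY → Prop) (T i0 lo hi a a' : ℕ) (x : G) :
    RP ΛX ΛY hX hY zX zY sX sY P T i0 lo hi a a' x ≤ 1 := by
  classical
  calc _ ≤ ∑' W, wt ΛX hX T i0 W * ∑' W', wt ΛY hY T i0 W' * 1 := by
        rw [RP]
        gcongr
        split_ifs <;> simp
    _ ≤ ∑' W, wt ΛX hX T i0 W * 1 := by
        gcongr
        simp_rw [mul_one]
        exact wt_sum hΛY h1Y T i0
    _ ≤ 1 := by
        simp_rw [mul_one]
        exact wt_sum hΛX h1X T i0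

lemma sum_i0 (i0 : ℕ) (c : ℝ≥0∞) :
    ∑' i : ℕ, (if i ≤ i0 then c else 0) = ((i0 + 1 : ℕ) : ℝ≥0∞) * c := by
  rw [tsum_eq_sum (s := Finset.range (i0 + 1))]
  · rw [Finset.sum_congr rfl fun i hi => if_pos (by have := Finset.mem_range.1 hi; omega)]
    simp
  · intro i hi
    rw [if_neg (by intro h; exact hi (Finset.mem_range.2 (by omega)))]

open Classical in
lemma RP_le (P : List BX → List BY → Prop) (T i0 lo hi a a' : ℕ) (μ : G → ℝ≥0∞) (bd : ℝ≥0∞)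
    (hb : ∀ i i', i ≤ i0 → i' ≤ i0 → ∑' x, μ x * ∑' W, ∑' W',
      (if HT hX W = T + i ∧ HT hY W' = T + i' ∧ P W W' ∧
        ct hX hY zX zY sX sY lo hi W W' a a' x then LW ΛX W * LW ΛY W' else 0) ≤ bd) :
    ∑' x, μ x * RP ΛX ΛY hX hY zX zY sX sY P T i0 lo hi a a' x
      ≤ ((i0 + 1 : ℕ) : ℝ≥0∞) * (((i0 + 1 : ℕ) : ℝ≥0∞) * bd) := by
  have e1 : ∀ x, RP ΛX ΛY hX hY zX zY sX sY P T i0 lo hi a a' x ≤
      ∑' i, ∑' i', (if i ≤ i0 ∧ i' ≤ i0 then ∑' W, ∑' W',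
      (if HT hX W = T + i ∧ HT hY W' = T + i' ∧ P W W' ∧
        ct hX hY zX zY sX sY lo hi W W' a a' x then LW ΛX W * LW ΛY W' else 0) else 0) := by
    intro x
    have e2 : ∀ W W', wt ΛX hX T i0 W * (wt ΛY hY T i0 W' *
        (if ct hX hY zX zY sX sY lo hi W W' a a' x ∧ P W W' then 1 else 0)) ≤
        ∑' i, ∑' i', (if i ≤ i0 ∧ i' ≤ i0 then
        (if HT hX W = T + i ∧ HT hY W' = T + i' ∧ P W W' ∧
        ct hX hY zX zY sX sY lo hi W W' a a' x then LW ΛX W * LW ΛY W' else 0) else 0) := by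
      intro W W'
      by_cases hW : fp hX W T ∧ HT hX W ≤ T + i0
      · by_cases hW' : fp hY W' T ∧ HT hY W' ≤ T + i0
        · by_cases hP : ct hX hY zX zY sX sY lo hi W W' a a' x ∧ P W W'
          · have g1 := fp_le W T hW.1
            have g2 := fp_le W' T hW'.1
            refine le_trans ?_ (ENNReal.le_tsum (HT hX W - T))
            refine le_trans ?_ (ENNReal.le_tsum (HT hY W' - T))
            rw [wt, wt, if_pos hW, if_pos hW', if_pos hP, mul_one,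
              if_pos (⟨by omega, by omega⟩ : HT hX W - T ≤ i0 ∧ HT hY W' - T ≤ i0),
              if_pos ⟨by omega, by omega, hP.2, hP.1⟩]
          · rw [if_neg hP, mul_zero, mul_zero]; exact bot_le
        · rw [wt, wt, if_neg hW', zero_mul, mul_zero]; exact bot_le
      · rw [wt, if_neg hW, zero_mul]; exact bot_le
    calc RP ΛX ΛY hX hY zX zY sX sY P T i0 lo hi a a' x
        = ∑' W, ∑' W', wt ΛX hX T i0 W * (wt ΛY hY T i0 W' *
        (if ct hX hY zX zY sX sY lo hi W W' a a' x ∧ P W W' then 1 else 0)) := by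
          rw [RP]; simp_rw [ENNReal.tsum_mul_left]
      _ ≤ ∑' W, ∑' W', ∑' i, ∑' i', (if i ≤ i0 ∧ i' ≤ i0 then
        (if HT hX W = T + i ∧ HT hY W' = T + i' ∧ P W W' ∧
        ct hX hY zX zY sX sY lo hi W W' a a' x then LW ΛX W * LW ΛY W' else 0) else 0) :=
          ENNReal.tsum_le_tsum fun W => ENNReal.tsum_le_tsum fun W' => e2 W W'
      _ = ∑' i, ∑' i', ∑' W, ∑' W', (if i ≤ i0 ∧ i' ≤ i0 then
        (if HT hX W = T + i ∧ HT hY W' = T + i' ∧ P W W' ∧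
        ct hX hY zX zY sX sY lo hi W W' a a' x then LW ΛX W * LW ΛY W' else 0) else 0) := by
          have sw : ∀ F : List BX → List BY → ℕ → ℕ → ℝ≥0∞, ∑' W, ∑' W', ∑' i, ∑' i', F W W' i i'
              = ∑' i, ∑' i', ∑' W, ∑' W', F W W' i i' := by
            intro F
            have f1 : ∀ W, ∑' W', ∑' i, ∑' i', F W W' i i' = ∑' i, ∑' i', ∑' W', F W W' i i' := by
              intro W
              rw [ENNReal.tsum_comm]
              exact tsum_congr fun i => ENNReal.tsum_comm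
            simp_rw [f1]
            rw [ENNReal.tsum_comm]
            exact tsum_congr fun i => ENNReal.tsum_comm
          exact sw _
      _ = _ := by
          refine tsum_congr fun i => tsum_congr fun i' => ?_
          by_cases e : i ≤ i0 ∧ i' ≤ i0
          · simp only [if_pos e]
          · simp only [if_neg e, tsum_zero]
  calc _ ≤ ∑' x, ∑' i, ∑' i', μ x * (if i ≤ i0 ∧ i' ≤ i0 then ∑' W, ∑' W',
      (if HT hX W = T + i ∧ HT hY W' = T + i' ∧ P W W' ∧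
        ct hX hY zX zY sX sY lo hi W W' a a' x then LW ΛX W * LW ΛY W' else 0) else 0) := by
        simp_rw [ENNReal.tsum_mul_left]
        exact ENNReal.tsum_le_tsum fun x => mul_le_mul_right (e1 x) _
    _ = ∑' i, ∑' i', ∑' x, μ x * (if i ≤ i0 ∧ i' ≤ i0 then ∑' W, ∑' W',
      (if HT hX W = T + i ∧ HT hY W' = T + i' ∧ P W W' ∧
        ct hX hY zX zY sX sY lo hi W W' a a' x then LW ΛX W * LW ΛY W' else 0) else 0) := by
        rw [ENNReal.tsum_comm]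
        exact tsum_congr fun i => ENNReal.tsum_comm
    _ ≤ ∑' i : ℕ, ∑' i' : ℕ, (if i ≤ i0 ∧ i' ≤ i0 then bd else 0) := by
        refine ENNReal.tsum_le_tsum fun i => ENNReal.tsum_le_tsum fun i' => ?_
        by_cases e : i ≤ i0 ∧ i' ≤ i0
        · simp only [if_pos e]
          exact hb i i' e.1 e.2
        · simp only [if_neg e, mul_zero, tsum_zero, le_refl]
    _ = _ := by
        rw [← sum_i0, ← sum_i0 i0 bd]
        refine tsum_congr fun i => ?_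
        by_cases e : i ≤ i0
        · simp only [e, true_and, if_true]
        · simp only [e, false_and, if_false, tsum_zero]

/-- `X` local -/
lemma RX_le (hΛX : ∑' b, ΛX b = 1) (h1X : ∀ b, 1 ≤ hX b) (C : ℝ≥0∞) (us : ℕ → ℝ≥0∞)
    (h2 : H2 ΛX ΛY hX hY zX zY sX sY C us) {u th lam : ℝ≥0∞} (ht0 : th ≠ 0)
    (hl0 : lam ≠ 0) (hl1 : lam ≠ ⊤) (T i0 s lo hi a a' : ℕ)
    (ha : a + s ≤ lo) (ha' : a' + s ≤ lo) (μ : G → ℝ≥0∞) (hμ : ∑' x, μ x ≤ 1)
    (hM : ∀ x, μ x ≤ ((i0 + 1 : ℕ) : ℝ≥0∞) * th / u) :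
    ∑' x, μ x * RP ΛX ΛY hX hY zX zY sX sY
      (fun W _ => th ≤ nf ΛX hX zX T (HT hX W - T) (Dp zX W)) T i0 lo hi a a' x
      ≤ ((i0 + 1 : ℕ) : ℝ≥0∞) * (((i0 + 1 : ℕ) : ℝ≥0∞) *
        (C * (lam + (((i0 + 1 : ℕ) : ℝ≥0∞) / u) * us s / lam + us s))) := by
  classical
  refine RP_le _ T i0 lo hi a a' μ _ fun i i' _ _ => ?_
  have hsum : ∑' x, nf ΛX hX zX T i x ≤ 1 :=
    (ENNReal.le_tsum (f := fun i => ∑' x, nf ΛX hX zX T i x) i).trans (nf_sum hΛX h1X zX T).le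
  have hfin : {x | th ≤ nf ΛX hX zX T i x}.Finite :=
    Dens616.finite_local _ (ne_top_of_le_ne_top ENNReal.one_ne_top hsum) ht0
  have hcard : (hfin.toFinset.card : ℝ≥0∞) * th ≤ 1 :=
    (Dens616.card_mul_le (fun x => nf ΛX hX zX T i x) th hfin.toFinset
      (fun x hx => by simpa using hx)).trans hsum
  have := h2 s (T + i) (T + i') a a' lo hfin.toFinset μ _ lam hμ hM hl0 hl1 ha ha'
  refine le_trans ?_ (this.trans ?_)
  · refine ENNReal.tsum_le_tsum fun x => mul_le_mul_right (ENNReal.tsum_le_tsum fun W =>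
      ENNReal.tsum_le_tsum fun W' => ?_) _
    by_cases e : HT hX W = T + i ∧ HT hY W' = T + i' ∧
        th ≤ nf ΛX hX zX T (HT hX W - T) (Dp zX W) ∧ ct hX hY zX zY sX sY lo hi W W' a a' x
    · rw [if_pos e, if_pos]
      obtain ⟨e1, e2, e3, e4, e5⟩ := e
      refine ⟨e1, ?_, e2, e4, fun g k hg => (e5 g k hg).1⟩
      rw [e1, Nat.add_sub_cancel_left] at e3
      simpa using e3
    · rw [if_neg e]; exact bot_le
  · gcongr
    calc ((i0 + 1 : ℕ) : ℝ≥0∞) * th / u * (hfin.toFinset.card : ℝ≥0∞)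
        = ((i0 + 1 : ℕ) : ℝ≥0∞) / u * ((hfin.toFinset.card : ℝ≥0∞) * th) := by
          simp only [div_eq_mul_inv]; ring
      _ ≤ ((i0 + 1 : ℕ) : ℝ≥0∞) / u * 1 := by gcongr
      _ = _ := mul_one _

/-- `Y` local -/
lemma RY_le (hΛY : ∑' b, ΛY b = 1) (h1Y : ∀ b, 1 ≤ hY b) (C : ℝ≥0∞) (us : ℕ → ℝ≥0∞)
    (h3 : H3 ΛX ΛY hX hY zX zY sX sY C us) {u th lam : ℝ≥0∞} (ht0 : th ≠ 0)
    (hl0 : lam ≠ 0) (hl1 : lam ≠ ⊤) (T i0 s lo hi a a' : ℕ)
    (ha : hi + s ≤ a + T) (ha' : hi + s ≤ a' + T) (μ : G → ℝ≥0∞) (hμ : ∑' x, μ x ≤ 1)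
    (hM : ∀ x, μ x ≤ ((i0 + 1 : ℕ) : ℝ≥0∞) * th / u) :
    ∑' x, μ x * RP ΛX ΛY hX hY zX zY sX sY
      (fun _ W' => th ≤ nf ΛY hY zY T (HT hY W' - T) (Dp zY W')) T i0 lo hi a a' x
      ≤ ((i0 + 1 : ℕ) : ℝ≥0∞) * (((i0 + 1 : ℕ) : ℝ≥0∞) *
        (C * (lam + (((i0 + 1 : ℕ) : ℝ≥0∞) / u) * us s / lam + us s))) := by
  classical
  refine RP_le _ T i0 lo hi a a' μ _ fun i i' hi1 hi' => ?_
  have hsum : ∑' x, nf ΛY hY zY T i' x ≤ 1 :=
    (ENNReal.le_tsum (f := fun i => ∑' x, nf ΛY hY zY T i x) i').trans (nf_sum hΛY h1Y zY T).le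
  have hfin : {x | th ≤ nf ΛY hY zY T i' x}.Finite :=
    Dens616.finite_local _ (ne_top_of_le_ne_top ENNReal.one_ne_top hsum) ht0
  have hcard : (hfin.toFinset.card : ℝ≥0∞) * th ≤ 1 :=
    (Dens616.card_mul_le (fun x => nf ΛY hY zY T i' x) th hfin.toFinset
      (fun x hx => by simpa using hx)).trans hsum
  have := h3 s (T + i) (T + i') a a' hi hfin.toFinset μ _ lam hμ hM hl0 hl1 (by omega) (by omega)
  refine le_trans ?_ (this.trans ?_)
  · refine ENNReal.tsum_le_tsum fun x => mul_le_mul_right (ENNReal.tsum_le_tsum fun W =>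
      ENNReal.tsum_le_tsum fun W' => ?_) _
    by_cases e : HT hX W = T + i ∧ HT hY W' = T + i' ∧
        th ≤ nf ΛY hY zY T (HT hY W' - T) (Dp zY W') ∧ ct hX hY zX zY sX sY lo hi W W' a a' x
    · rw [if_pos e, if_pos]
      obtain ⟨e1, e2, e3, e4, e5⟩ := e
      refine ⟨e1, e2, ?_, e4, fun g k hg => (e5 g k hg).2⟩
      rw [e2, Nat.add_sub_cancel_left] at e3
      simpa using e3
    · rw [if_neg e]; exact bot_le
  · gcongr
    calc ((i0 + 1 : ℕ) : ℝ≥0∞) * th / u * (hfin.toFinset.card : ℝ≥0∞)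
        = ((i0 + 1 : ℕ) : ℝ≥0∞) / u * ((hfin.toFinset.card : ℝ≥0∞) * th) := by
          simp only [div_eq_mul_inv]; ring
      _ ≤ ((i0 + 1 : ℕ) : ℝ≥0∞) / u * 1 := by gcongr
      _ = _ := mul_one _

end Crest.Agent.R154.Asm295
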