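import Crest.Agent.R154.AsmG_324

/-! Row 154, ROAD 801 (helper324): the abstract assembly (frozen literals: `H2` with `a ≤ a'`, `H3` with
`a + h ≤ a' + h'`). -/

set_option autoImplicit false

namespace Crest.Agent.R154.Asm324

open scoped ENNReal
open Crest.Agent.R154.B5A Crest.Agent.R154.FP178

section asm

variable {BX BY G : Type*} [AddCommGroup G]
  (ΛX : BX → ℝ≥0∞) (hX : BX → ℕ) (zX : BX → G) (TX : List BX → G → ℕ → Set (G × ℕ))
  (ΛY : BY → ℝ≥0∞) (hY : BY → ℕ) (zY : BY → G) (TY : List BY → G → ℕ → Set (G × ℕ))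

/-- `X` local window -/
def H2f (C : ℝ≥0∞) (us : ℕ → ℝ≥0∞) : Prop :=
  ∀ (s h h' a a' lo hi : ℕ) (E : Finset G) (μ : G → ℝ≥0∞) (M lam : ℝ≥0∞), ∑' x, μ x ≤ 1 →
    (∀ x, μ x ≤ M) → lam ≠ 0 → lam ≠ ⊤ → a ≤ a' → a + h ≤ a' + h' → a + s ≤ lo → a' + s ≤ lo →
    hi + s ≤ a + h → hi + s ≤ a' + h' →
    ∑' x, μ x * ∑' L : List BX, ∑' L' : List BY,
      I (HT hX L = h ∧ Dp zX L ∈ E ∧ HT hY L' = h' ∧ Rl TX TY lo hi x a a' L L') *
        (LW ΛX L * LW ΛY L')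
      ≤ C * (lam + M * E.card * us s / lam + us s)

/-- `Y` local window -/
def H3f (C : ℝ≥0∞) (us : ℕ → ℝ≥0∞) : Prop :=
  ∀ (s h h' a a' lo hi : ℕ) (E : Finset G) (μ : G → ℝ≥0∞) (M lam : ℝ≥0∞), ∑' x, μ x ≤ 1 →
    (∀ x, μ x ≤ M) → lam ≠ 0 → lam ≠ ⊤ → a ≤ a' → a + h ≤ a' + h' → a + s ≤ lo → a' + s ≤ lo →
    hi + s ≤ a + h → hi + s ≤ a' + h' →
    ∑' x, μ x * ∑' L : List BX, ∑' L' : List BY,
      I (HT hX L = h ∧ HT hY L' = h' ∧ Dp zY L' ∈ E ∧ Rl TX TY lo hi x a a' L L') *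
        (LW ΛX L * LW ΛY L')
      ≤ C * (lam + M * E.card * us s / lam + us s)

/-- thin slab -/
def H5f : Prop := ∀ (s : ℕ) (η : ℝ≥0∞), η ≠ 0 → ∃ T, ∀ a, T ≤ a → ∀ n w,
  ∑' L : List BX, ∑' L' : List BY,
    I (HT hX L = n ∧ HT hY L' = n ∧ Ct TX TY w (fun k => a ≤ k ∧ k < a + s) L L') *
      (LW ΛX L * LW ΛY L') ≤ η

lemma num_card (J i0 : ℕ) (θ us lam : ℝ≥0∞) (c : ℕ) (hc : (c : ℝ≥0∞) * θ ≤ 1) (C : ℝ≥0∞) :
    C * (lam + (J * ((i0 + 1) * (2 * θ))) * c * us / lam + us) ≤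
      C * (lam + 2 * J * (i0 + 1) * us / lam + us) := by
  refine mul_le_mul_right (add_le_add (add_le_add le_rfl ?_) le_rfl) _
  refine ENNReal.div_le_div_right ?_ _
  refine mul_le_mul_left ?_ _
  calc (J : ℝ≥0∞) * ((i0 + 1) * (2 * θ)) * c = 2 * J * (i0 + 1) * (c * θ) := by ring
    _ ≤ 2 * J * (i0 + 1) * 1 := mul_le_mul_right hc _
    _ = _ := mul_one _

lemma card_Icc' (t i0 : ℕ) : ((Finset.Icc t (t + i0)).card : ℝ≥0∞) = (i0 : ℝ≥0∞) + 1 := by
  rw [Nat.card_Icc, show t + i0 + 1 - t = i0 + 1 by omega]; push_cast; ring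

lemma key {B : Type*} (Λ : B → ℝ≥0∞) (h : B → ℕ) (h1 : ∀ b, 1 ≤ h b)
    (hΛ : ∑' b, Λ b = 1) (t i0 : ℕ) : ∑' L, I (fp h t L ∧ HT h L ≤ t + i0) * LW Λ L ≤ 1 :=
  le_trans (ENNReal.tsum_le_tsum fun L => mul_le_mul_left (I_mono fun h => h.1) _)
    (sumFP Λ h h1 hΛ.le t)

lemma key2 {B : Type*} (Λ : B → ℝ≥0∞) (h : B → ℕ) (t i0 : ℕ) (L : List B)
    (hL : I (fp h t L ∧ HT h L ≤ t + i0) * LW Λ L ≠ 0) : HT h L ∈ Finset.Icc t (t + i0) := by
  have : fp h t L ∧ HT h L ≤ t + i0 := by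
    by_contra hn
    exact hL (by rw [I_neg hn, zero_mul])
  exact Finset.mem_Icc.2 ⟨le_HT_of_fp h this.1, this.2⟩

theorem win1 (h1X : ∀ b, 1 ≤ hX b) (h1Y : ∀ b, 1 ≤ hY b) (hΛX : ∑' b, ΛX b = 1)
    (hΛY : ∑' b, ΛY b = 1) (hUX : ∀ n, U ΛX hX n ≤ 1) (hUY : ∀ n, U ΛY hY n ≤ 1)
    (C : ℝ≥0∞) (us : ℕ → ℝ≥0∞) (H2 : H2f ΛX hX zX TX ΛY hY TY C us)
    (H3 : H3f ΛX hX TX ΛY hY zY TY C us) (u : ℝ≥0∞) (hu0 : u ≠ 0) (hu1 : u < 1)
    (i0 : ℕ) (ov : ℝ≥0∞) (hovX : ∀ t, ∑' L, I (fp hX t L ∧ t + i0 < HT hX L) * LW ΛX L ≤ ov)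
    (hovY : ∀ t, ∑' L, I (fp hY t L ∧ t + i0 < HT hY L) * LW ΛY L ≤ ov)
    (lam : ℝ≥0∞) (hl0 : lam ≠ 0) (hlT : lam ≠ ⊤) (s T t J n : ℕ) (w : G) (hsT : s ≤ T)
    (hJ : J * (T + 2 * i0) ≤ t) :
    EX ΛX hX n (fun L => EX ΛY hY n
      (WN hX zX TX hY zY TY w t T (t + i0) (T + i0) i0 (t + 2 * i0 + s) (t + T - s) L)) ≤
      u * u + 2 * ((i0 + 1) ^ 4 * (C * (lam + 2 * J * (i0 + 1) * us s / lam + us s))
        + ((1 - u) ^ J + J * ov)) := by
  obtain ⟨θ, E, e, hE, heE, hue, hd⟩ := single ΛX hX zX h1X hΛX u hu0 hu1 T i0 ov hovX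
  obtain ⟨θ', E', e', hE', heE', hue', hd'⟩ :=
    single ΛY hY zY h1Y hΛY u hu0 hu1 (T + i0) i0 ov hovY
  obtain ⟨g, b, hV, hg1, hgM, hb⟩ := hd J t (by nlinarith)
  obtain ⟨g', b', hV', hg1', hgM', hb'⟩ := hd' J (t + i0) (by nlinarith)
  refine (EX_WN ΛX hX zX TX ΛY hY zY TY hUX hUY n w t T (t + i0) (T + i0) i0 _ _).trans ?_
  set D0 : ℝ≥0∞ := C * (lam + 2 * J * (i0 + 1) * us s / lam + us s) with hD0
  have hw := window (G := G)
    (fun L => I (fp hX t L ∧ HT hX L ≤ t + i0) * LW ΛX L)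
    (fun L => I (fp hY (t + i0) L ∧ HT hY L ≤ t + i0 + i0) * LW ΛY L)
    (HT hX) (Dp zX) (HT hY) (Dp zY)
    (fun L => I (fp hX T L ∧ HT hX L ≤ T + i0) * LW ΛX L)
    (fun L => I (fp hY (T + i0) L ∧ HT hY L ≤ T + i0 + i0) * LW ΛY L)
    e e' (key ΛX hX h1X hΛX t i0) (key ΛY hY h1Y hΛY (t + i0) i0) (key ΛX hX h1X hΛX T i0)
    (key ΛY hY h1Y hΛY (T + i0) i0) u hue hue' g b g' b'
    (J * ((i0 + 1) * (2 * θ))) ((1 - u) ^ J + J * ov)
    ((Finset.Icc T (T + i0)).card * ((Finset.Icc (T + i0) (T + i0 + i0)).card * D0))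
    (J * ((i0 + 1) * (2 * θ'))) ((1 - u) ^ J + J * ov)
    ((Finset.Icc T (T + i0)).card * ((Finset.Icc (T + i0) (T + i0 + i0)).card * D0))
    hV hg1 hgM hb hV' hg1' hgM' hb' (Finset.Icc t (t + i0)) (Finset.Icc (t + i0) (t + i0 + i0))
    (fun L hL => key2 ΛX hX t i0 L hL) (fun L hL => key2 ΛY hY (t + i0) i0 L hL)
    (fun x y => w + y - x)
    (fun y x x' hh => by
      have : w + y - x = w + y - x' := hh
      exact sub_right_injective this)
    (fun y x x' hh => by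
      have : w + x - y = w + x' - y := hh
      exact add_left_cancel (sub_left_injective this))
    (fun x c c' P P' => Rl TX TY (t + 2 * i0 + s) (t + T - s) x c c' P P')
    (fun c hc c' hc' μ hμ1 hμM => by
      refine gam (G := G) _ _ (HT hX) (HT hY) (Finset.Icc T (T + i0))
        (Finset.Icc (T + i0) (T + i0 + i0)) ?_ (fun L hL => key2 ΛY hY (T + i0) i0 L hL)
        (fun x P P' => Rl TX TY (t + 2 * i0 + s) (t + T - s) x c c' P P') μ D0 ?_
      · intro L hL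
        refine key2 ΛX hX T i0 L fun h0 => hL ?_
        rw [h0, mul_zero]
      · intro c1 hc1 c1' hc1'
        rw [Finset.mem_Icc] at hc hc' hc1 hc1'
        refine le_trans ?_ (le_trans (H2 s c1 c1' c c' (t + 2 * i0 + s) (t + T - s) E μ _ lam hμ1
          hμM hl0 hlT (by omega) (by omega) (by omega) (by omega) (by omega) (by omega))
          (num_card J i0 θ (us s) lam E.card hE C))
        refine ENNReal.tsum_le_tsum fun x => mul_le_mul_right ?_ _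
        refine ENNReal.tsum_le_tsum fun P => ENNReal.tsum_le_tsum fun P' => ?_
        calc I (HT hX P = c1 ∧ HT hY P' = c1' ∧
              Rl TX TY (t + 2 * i0 + s) (t + T - s) x c c' P P') *
              ((I (e P) * (I (fp hX T P ∧ HT hX P ≤ T + i0) * LW ΛX P)) *
                (I (fp hY (T + i0) P' ∧ HT hY P' ≤ T + i0 + i0) * LW ΛY P'))
            ≤ I (HT hX P = c1 ∧ HT hY P' = c1' ∧
              Rl TX TY (t + 2 * i0 + s) (t + T - s) x c c' P P') *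
              ((I (e P) * (1 * LW ΛX P)) * (1 * LW ΛY P')) :=
              mul_le_mul_right (mul_le_mul' (mul_le_mul_right (mul_le_mul_left (I_le _) _) _)
                (mul_le_mul_left (I_le _) _)) _
          _ = I ((HT hX P = c1 ∧ HT hY P' = c1' ∧
              Rl TX TY (t + 2 * i0 + s) (t + T - s) x c c' P P') ∧ e P) *
              (LW ΛX P * LW ΛY P') := by
              rw [I_and (HT hX P = c1 ∧ HT hY P' = c1' ∧
              Rl TX TY (t + 2 * i0 + s) (t + T - s) x c c' P P') (e P)]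
              ring
          _ ≤ _ := mul_le_mul_left (I_mono fun hh =>
              ⟨hh.1.1, heE P hh.2, hh.1.2.1, hh.1.2.2⟩) _)
    (fun c hc c' hc' μ hμ1 hμM => by
      refine gam (G := G) _ _ (HT hX) (HT hY) (Finset.Icc T (T + i0))
        (Finset.Icc (T + i0) (T + i0 + i0)) (fun L hL => key2 ΛX hX T i0 L hL) ?_
        (fun x P P' => Rl TX TY (t + 2 * i0 + s) (t + T - s) x c c' P P') μ D0 ?_
      · intro L hL
        refine key2 ΛY hY (T + i0) i0 L fun h0 => hL ?_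
        rw [h0, mul_zero]
      · intro c1 hc1 c1' hc1'
        rw [Finset.mem_Icc] at hc hc' hc1 hc1'
        refine le_trans ?_ (le_trans (H3 s c1 c1' c c' (t + 2 * i0 + s) (t + T - s) E' μ _ lam hμ1
          hμM hl0 hlT (by omega) (by omega) (by omega) (by omega) (by omega) (by omega))
          (num_card J i0 θ' (us s) lam E'.card hE' C))
        refine ENNReal.tsum_le_tsum fun x => mul_le_mul_right ?_ _
        refine ENNReal.tsum_le_tsum fun P => ENNReal.tsum_le_tsum fun P' => ?_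
        calc I (HT hX P = c1 ∧ HT hY P' = c1' ∧
              Rl TX TY (t + 2 * i0 + s) (t + T - s) x c c' P P') *
              ((I (fp hX T P ∧ HT hX P ≤ T + i0) * LW ΛX P) *
                (I (e' P') * (I (fp hY (T + i0) P' ∧ HT hY P' ≤ T + i0 + i0) * LW ΛY P')))
            ≤ I (HT hX P = c1 ∧ HT hY P' = c1' ∧
              Rl TX TY (t + 2 * i0 + s) (t + T - s) x c c' P P') *
              ((1 * LW ΛX P) * (I (e' P') * (1 * LW ΛY P'))) :=
              mul_le_mul_right (mul_le_mul' (mul_le_mul_left (I_le _) _)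
                (mul_le_mul_right (mul_le_mul_left (I_le _) _) _)) _
          _ = I ((HT hX P = c1 ∧ HT hY P' = c1' ∧
              Rl TX TY (t + 2 * i0 + s) (t + T - s) x c c' P P') ∧ e' P') *
              (LW ΛX P * LW ΛY P') := by
              rw [I_and (HT hX P = c1 ∧ HT hY P' = c1' ∧
              Rl TX TY (t + 2 * i0 + s) (t + T - s) x c c' P P') (e' P')]
              ring
          _ ≤ _ := mul_le_mul_left (I_mono fun hh =>
              ⟨hh.1.1, hh.1.2.1, heE' P' hh.2, hh.1.2.2⟩) _)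
  refine hw.trans (le_of_eq ?_)
  rw [card_Icc', card_Icc', card_Icc', card_Icc']
  ring

variable (TXa : ∀ L L' x a, TX (L ++ L') x a = TX L x a ∪ TX L' (x + Dp zX L) (a + HT hX L))
  (TXd : ∀ L x a g k, (g, k) ∈ TX L x a → a + 1 ≤ k ∧ k ≤ a + HT hX L)
  (TXs : ∀ L x y a g k, (g, k) ∈ TX L (x + y) a ↔ (g - y, k) ∈ TX L x a)
  (TYa : ∀ L L' x a, TY (L ++ L') x a = TY L x a ∪ TY L' (x + Dp zY L) (a + HT hY L))
  (TYd : ∀ L x a g k, (g, k) ∈ TY L x a → a + 1 ≤ k ∧ k ≤ a + HT hY L)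
  (TYs : ∀ L x y a g k, (g, k) ∈ TY L (x + y) a ↔ (g - y, k) ∈ TY L x a)

include TXa TXd TXs TYa TYd TYs in
/-- pointwise: a contact is in a slab or in a window -/
lemma pt (w : G) (m n K T i0 s : ℕ) (hK : 1 ≤ K) (hT1 : K * T ≤ m) (hT2 : 2 * m ≤ (2 * K + 1) * T)
    (hs : s ≤ T) (hn : (2 * K + 1) * T + T + 4 * i0 ≤ n) (L : List BX) (L' : List BY)
    (hL : HT hX L = n) (hL' : HT hY L' = n) :
    I (Ct TX TY w (fun k => m < k ∧ k ≤ 2 * m) L L') ≤
      ∑ j ∈ Finset.Icc K (2 * K + 1), I (Ct TX TY w (fun k => j * T - s ≤ k ∧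
        k < j * T - s + (2 * s + 4 * i0 + 1)) L L') +
      ∑ j ∈ Finset.Icc K (2 * K), (OV hX (j * T) T i0 L + OV hY (j * T + i0) (T + i0) i0 L' +
        WN hX zX TX hY zY TY w (j * T) T (j * T + i0) (T + i0) i0 (j * T + 2 * i0 + s)
          (j * T + T - s) L L') := by
  by_cases hc : Ct TX TY w (fun k => m < k ∧ k ≤ 2 * m) L L'
  swap
  · rw [I_neg hc]; exact zero_le
  rw [I_pos hc]
  by_cases hsl : ∃ j ∈ Finset.Icc K (2 * K + 1), Ct TX TY w (fun k => j * T - s ≤ k ∧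
        k < j * T - s + (2 * s + 4 * i0 + 1)) L L'
  · obtain ⟨j, hj, hjc⟩ := hsl
    refine le_trans ?_ le_self_add
    refine le_trans ?_ (Finset.single_le_sum (f := fun j => I (Ct TX TY w (fun k => j * T - s ≤ k ∧
        k < j * T - s + (2 * s + 4 * i0 + 1)) L L')) (fun _ _ => zero_le) hj)
    rw [I_pos hjc]
  refine le_trans ?_ le_add_self
  obtain ⟨g, k, ⟨hk1, hk2⟩, hg, hg'⟩ := hc
  have hT0 : 0 < T := by
    rcases Nat.eq_zero_or_pos T with h0 | h0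
    · rw [h0, mul_zero] at hT2; omega
    · exact h0
  set j := (k - 1) / T with hj
  have hjT : j * T ≤ k - 1 := Nat.div_mul_le_self _ _
  have hjT2 : k - 1 < (j + 1) * T := by
    have := Nat.lt_div_mul_add hT0 (a := k - 1)
    calc k - 1 < (k - 1) / T * T + T := this
      _ = (j + 1) * T := by rw [hj]; ring
  have hjK : K ≤ j := by
    rw [hj, Nat.le_div_iff_mul_le hT0]; omega
  have hjK2 : j < 2 * K + 1 := by
    rw [hj, Nat.div_lt_iff_lt_mul hT0]; omega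
  have hjm : j ∈ Finset.Icc K (2 * K) := Finset.mem_Icc.2 ⟨hjK, by omega⟩
  have hstep : (j + 1) * T = j * T + T := by ring
  have hsT : s ≤ j * T := by
    calc s ≤ T := hs
      _ = 1 * T := (one_mul T).symm
      _ ≤ j * T := Nat.mul_le_mul_right T (by omega)
  have hjn : j * T ≤ (2 * K) * T := Nat.mul_le_mul_right T (by omega)
  have hKT : (2 * K + 1) * T = (2 * K) * T + T := by ring
  refine le_trans ?_ (Finset.single_le_sum (f := fun j => (OV hX (j * T) T i0 L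
    + OV hY (j * T + i0) (T + i0) i0 L' +
        WN hX zX TX hY zY TY w (j * T) T (j * T + i0) (T + i0) i0 (j * T + 2 * i0 + s)
          (j * T + T - s) L L')) (fun _ _ => zero_le) hjm)
  rcases cutcase hX (j * T) T i0 n L (by omega) hL with h1 | ⟨p, hp, hp1, hp2⟩
  · exact le_add_right (le_add_right h1)
  rcases cutcase hY (j * T + i0) (T + i0) i0 n L' (by omega) hL' with h1 | ⟨p', hp', hp1', hp2'⟩
  · exact le_add_right (le_add_left h1)
  refine le_add_left ?_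
  rw [WN]
  refine le_trans ?_ (ENNReal.le_tsum p)
  rw [I_pos hp, one_mul]
  refine le_trans ?_ (ENNReal.le_tsum p')
  rw [I_pos hp', one_mul, QQ, I_pos hp1, I_pos hp2, I_pos hp1', I_pos hp2', I_pos]
  · simp
  · refine geo hX zX TX hY zY TY TXa TXd TXs TYa TYd TYs w (j * T) T i0 s p p' hp1 hp2 hp1' hp2' ?_
      g k (hp ▸ hg) (hp' ▸ hg') (by omega) (by omega)
    intro g2 k2 hq hq' hk3 hk4
    rw [← hp] at hq
    rw [← hp'] at hq'
    have n1 : ¬ (j * T - s ≤ k2 ∧ k2 < j * T - s + (2 * s + 4 * i0 + 1)) := fun hh =>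
      hsl ⟨j, Finset.mem_Icc.2 ⟨hjK, by omega⟩, g2, k2, hh, hq, hq'⟩
    have n2 : ¬ ((j + 1) * T - s ≤ k2 ∧ k2 < (j + 1) * T - s + (2 * s + 4 * i0 + 1)) := fun hh =>
      hsl ⟨j + 1, Finset.mem_Icc.2 ⟨by omega, by omega⟩, g2, k2, hh, hq, hq'⟩
    rw [hstep] at n2
    constructor <;> omega

end asm

end Crest.Agent.R154.Asm324
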