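import Crest.Agent.R154.AsmT_351

/-! Row 154, ROAD 801, one window, one walker local (helper351). -/

set_option autoImplicit false

namespace Crest.Agent.R154.AsmS351

open scoped ENNReal Topology
open Crest.Agent.R154.B5A Crest.Agent.R154.FP178

variable {B1 B2 G : Type*} [AddCommGroup G] (Λ1 : B1 → ℝ≥0∞) (h1 : B1 → ℕ) (z1 : B1 → G)
  (Λ2 : B2 → ℝ≥0∞) (h2 : B2 → ℕ) (z2 : B2 → G)

lemma fibre_sum (f : ℕ × G → ℝ≥0∞) (i : ℕ) : ∑' v, f (i, v) ≤ ∑' x, f x :=
  ENNReal.tsum_comp_le_tsum_of_injective (f := fun v : G => (i, v))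
    (fun x y h => by simpa using h) f

open Classical in
/-- smoothing by the tie law -/
lemma tie_bound (S g : ℕ × G → ℝ≥0∞) (w : G) (i i' : ℕ) (Φ : G → ℝ≥0∞) (M η : ℝ≥0∞)
    (hS : ∑' x, S x ≤ 1) (hg : ∑' x, g x ≤ 1) (hM : ∀ x, S x ≤ M)
    (hW : ∀ μ : G → ℝ≥0∞, ∑' v, μ v ≤ 1 → (∀ v, μ v ≤ M) → ∑' v, μ v * Φ v ≤ η) :
    ∑' zx, S (i, zx) * ∑' zy, g (i', zy) * Φ (w + zy - zx) ≤ η := by
  have e : ∑' zx, S (i, zx) * ∑' zy, g (i', zy) * Φ (w + zy - zx)
      = ∑' v, (∑' zy, g (i', zy) * S (i, w + zy - v)) * Φ v := by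
    calc ∑' zx, S (i, zx) * ∑' zy, g (i', zy) * Φ (w + zy - zx)
        = ∑' zx, ∑' zy, g (i', zy) * S (i, zx) * Φ (w + zy - zx) := by
          refine tsum_congr fun zx => ?_
          rw [← ENNReal.tsum_mul_left]
          exact tsum_congr fun zy => by ring
      _ = ∑' zy, ∑' zx, g (i', zy) * S (i, zx) * Φ (w + zy - zx) := ENNReal.tsum_comm
      _ = ∑' zy, ∑' v, g (i', zy) * S (i, w + zy - v) * Φ v := by
          refine tsum_congr fun zy => ?_
          rw [← (Equiv.subLeft (w + zy)).tsum_eq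
            (fun zx => g (i', zy) * S (i, zx) * Φ (w + zy - zx))]
          refine tsum_congr fun v => ?_
          simp only [Equiv.subLeft_apply, sub_sub_cancel]
      _ = ∑' v, ∑' zy, g (i', zy) * S (i, w + zy - v) * Φ v := ENNReal.tsum_comm
      _ = _ := tsum_congr fun v => ENNReal.tsum_mul_right
  rw [e]
  refine hW _ ?_ ?_
  · rw [ENNReal.tsum_comm]
    calc ∑' zy, ∑' v, g (i', zy) * S (i, w + zy - v)
        = ∑' zy, g (i', zy) * ∑' v, S (i, w + zy - v) :=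
          tsum_congr fun zy => ENNReal.tsum_mul_left
      _ ≤ ∑' zy, g (i', zy) * 1 := by
          refine ENNReal.tsum_le_tsum fun zy => mul_le_mul_right ?_ _
          exact (AsmD351.fib_le S i (w + zy)).trans hS
      _ ≤ 1 := by simp only [mul_one]; exact (fibre_sum g i').trans hg
  · intro v
    calc ∑' zy, g (i', zy) * S (i, w + zy - v) ≤ ∑' zy, g (i', zy) * M :=
          ENNReal.tsum_le_tsum fun zy => mul_le_mul_right (hM _) _
      _ = (∑' zy, g (i', zy)) * M := ENNReal.tsum_mul_right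
      _ ≤ 1 * M := mul_le_mul_left ((fibre_sum g i').trans hg) _
      _ = M := one_mul _

open Classical in
lemma fin_prod (i0 : ℕ) (F : ℕ × G → ℝ≥0∞) :
    ∑' x : ℕ × G, (if x.1 ≤ i0 then F x else 0) = ∑ i ∈ Finset.range (i0 + 1), ∑' v, F (i, v) := by
  rw [ENNReal.tsum_prod' (f := fun x : ℕ × G => (if x.1 ≤ i0 then F x else 0))]
  rw [tsum_eq_sum (s := Finset.range (i0 + 1))]
  · refine Finset.sum_congr rfl fun i hi => ?_
    have : i ≤ i0 := by have := Finset.mem_range.1 hi; omega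
    simp [this]
  · intro i hi
    have : ¬ i ≤ i0 := fun hh => hi (Finset.mem_range.2 (by omega))
    simp [this]

open Classical in
theorem half (h11 : ∀ b, 1 ≤ h1 b) (h21 : ∀ b, 1 ≤ h2 b) (hΛ1 : ∑' b, Λ1 b ≤ 1)
    (hΛ2 : ∑' b, Λ2 b ≤ 1) (a T i0 : ℕ) (w : G)
    (K : List B1 → List B2 → ℕ → ℕ → G → Prop) (loc : List B1 → Prop) (E : ℕ → Finset G)
    (hE : ∀ P, loc P → Dp z1 P ∈ E (HT h1 P - T)) (M η ρ : ℝ≥0∞)
    (S R : ℕ × G → ℝ≥0∞) (hSR : ∀ x, gl Λ1 h1 z1 a x ≤ S x + R x)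
    (hS : ∀ x, S x ≤ gl Λ1 h1 z1 a x) (hM : ∀ x, S x ≤ M) (hR : ∑' x, R x ≤ ρ)
    (hW : ∀ i i' j j', i ≤ i0 → i' ≤ i0 → j ≤ i0 → j' ≤ i0 → ∀ μ : G → ℝ≥0∞, ∑' v, μ v ≤ 1 →
      (∀ v, μ v ≤ M) → ∑' v, μ v * (∑' P, ∑' P', (if HT h1 P = T + j ∧ Dp z1 P ∈ E j ∧
        HT h2 P' = T + j' ∧ K P P' i i' v then LW Λ1 P * LW Λ2 P' else 0)) ≤ η) :
    ∑' A, (if fp h1 a A ∧ HT h1 A ≤ a + i0 then LW Λ1 A else 0) *
      ∑' P, (if fp h1 T P ∧ HT h1 P ≤ T + i0 ∧ loc P then LW Λ1 P else 0) *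
      ∑' A', (if fp h2 a A' ∧ HT h2 A' ≤ a + i0 then LW Λ2 A' else 0) *
      ∑' P', (if fp h2 T P' ∧ HT h2 P' ≤ T + i0 then LW Λ2 P' else 0) *
        (if K P P' (HT h1 A - a) (HT h2 A' - a) (w + Dp z2 A' - Dp z1 A) then 1 else 0)
      ≤ ρ + (((i0 + 1 : ℕ) : ℝ≥0∞) ^ 4) * η := by
  set Θ : ℕ × G → ℕ × G → ℝ≥0∞ := fun x y =>
    ∑' P, (if fp h1 T P ∧ HT h1 P ≤ T + i0 ∧ loc P then LW Λ1 P else 0) *
      ∑' P', (if fp h2 T P' ∧ HT h2 P' ≤ T + i0 then LW Λ2 P' else 0) *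
        (if K P P' x.1 y.1 (w + y.2 - x.2) then 1 else 0) with hΘ
  set F1 : ℕ × G → ℝ≥0∞ := fun x =>
    if x.1 ≤ i0 then ∑' y, gl Λ2 h2 z2 a y * (if y.1 ≤ i0 then Θ x y else 0) else 0 with hF1
  have hp2 : ∑' P', (if fp h2 T P' ∧ HT h2 P' ≤ T + i0 then LW Λ2 P' else 0) ≤ 1 := by
    refine le_trans (ENNReal.tsum_le_tsum fun P' => ?_) (sum_FP Λ2 h2 h21 hΛ2 T)
    by_cases hP : fp h2 T P'
    · rw [if_pos hP]; split_ifs
      · exact le_rfl
      · exact zero_le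
    · rw [if_neg (fun h' => hP h'.1)]; exact zero_le
  have hp1 : ∑' P, (if fp h1 T P ∧ HT h1 P ≤ T + i0 ∧ loc P then LW Λ1 P else 0) ≤ 1 := by
    refine le_trans (ENNReal.tsum_le_tsum fun P' => ?_) (sum_FP Λ1 h1 h11 hΛ1 T)
    by_cases hP : fp h1 T P'
    · rw [if_pos hP]; split_ifs
      · exact le_rfl
      · exact zero_le
    · rw [if_neg (fun h' => hP h'.1)]; exact zero_le
  have hΘ1 : ∀ x y, Θ x y ≤ 1 := by
    intro x y
    calc Θ x y ≤ ∑' P, (if fp h1 T P ∧ HT h1 P ≤ T + i0 ∧ loc P then LW Λ1 P else 0) * 1 := by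
          refine ENNReal.tsum_le_tsum fun P => mul_le_mul_right ?_ _
          refine le_trans (ENNReal.tsum_le_tsum fun P' => ?_) hp2
          calc _ ≤ (if fp h2 T P' ∧ HT h2 P' ≤ T + i0 then LW Λ2 P' else 0) * 1 := by
                refine mul_le_mul_right ?_ _
                split_ifs <;> simp
            _ = _ := mul_one _
      _ ≤ 1 := by simp only [mul_one]; exact hp1
  have hF1le : ∀ x, F1 x ≤ 1 := by
    intro x
    simp only [hF1]
    split_ifs
    · calc ∑' y, gl Λ2 h2 z2 a y * (if y.1 ≤ i0 then Θ x y else 0)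
          ≤ ∑' y, gl Λ2 h2 z2 a y * 1 := by
            refine ENNReal.tsum_le_tsum fun y => mul_le_mul_right ?_ _
            split_ifs
            · exact hΘ1 x y
            · exact zero_le
        _ ≤ 1 := by simp only [mul_one]; exact gl_sum Λ2 h2 z2 h21 hΛ2 a
    · exact zero_le
  -- reduction to the laws
  have st1 : ∑' A, (if fp h1 a A ∧ HT h1 A ≤ a + i0 then LW Λ1 A else 0) *
      ∑' P, (if fp h1 T P ∧ HT h1 P ≤ T + i0 ∧ loc P then LW Λ1 P else 0) *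
      ∑' A', (if fp h2 a A' ∧ HT h2 A' ≤ a + i0 then LW Λ2 A' else 0) *
      ∑' P', (if fp h2 T P' ∧ HT h2 P' ≤ T + i0 then LW Λ2 P' else 0) *
        (if K P P' (HT h1 A - a) (HT h2 A' - a) (w + Dp z2 A' - Dp z1 A) then 1 else 0)
      ≤ ∑' x, gl Λ1 h1 z1 a x * F1 x := by
    rw [← disint Λ1 h1 z1 a F1]
    refine ENNReal.tsum_le_tsum fun A => ?_
    by_cases hA : fp h1 a A ∧ HT h1 A ≤ a + i0
    · rw [if_pos hA, if_pos hA.1]
      refine mul_le_mul_right ?_ _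
      simp only [hF1]
      rw [if_pos (by omega)]
      calc ∑' P, (if fp h1 T P ∧ HT h1 P ≤ T + i0 ∧ loc P then LW Λ1 P else 0) *
            ∑' A', (if fp h2 a A' ∧ HT h2 A' ≤ a + i0 then LW Λ2 A' else 0) *
            ∑' P', (if fp h2 T P' ∧ HT h2 P' ≤ T + i0 then LW Λ2 P' else 0) *
              (if K P P' (HT h1 A - a) (HT h2 A' - a) (w + Dp z2 A' - Dp z1 A) then 1 else 0)
          = ∑' P, ∑' A', (if fp h2 a A' ∧ HT h2 A' ≤ a + i0 then LW Λ2 A' else 0) *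
            ((if fp h1 T P ∧ HT h1 P ≤ T + i0 ∧ loc P then LW Λ1 P else 0) *
            ∑' P', (if fp h2 T P' ∧ HT h2 P' ≤ T + i0 then LW Λ2 P' else 0) *
              (if K P P' (HT h1 A - a) (HT h2 A' - a) (w + Dp z2 A' - Dp z1 A) then 1 else 0)) := by
            refine tsum_congr fun P => ?_
            rw [← ENNReal.tsum_mul_left]
            exact tsum_congr fun A' => by ring
        _ = ∑' A', (if fp h2 a A' ∧ HT h2 A' ≤ a + i0 then LW Λ2 A' else 0) *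
              Θ (HT h1 A - a, Dp z1 A) (HT h2 A' - a, Dp z2 A') := by
            rw [ENNReal.tsum_comm]
            refine tsum_congr fun A' => ?_
            rw [ENNReal.tsum_mul_left]
        _ ≤ ∑' A', (if fp h2 a A' then LW Λ2 A' * (fun y : ℕ × G => if y.1 ≤ i0 then
              Θ (HT h1 A - a, Dp z1 A) y else 0) (HT h2 A' - a, Dp z2 A') else 0) := by
            refine ENNReal.tsum_le_tsum fun A' => ?_
            by_cases hA' : fp h2 a A' ∧ HT h2 A' ≤ a + i0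
            · rw [if_pos hA', if_pos hA'.1]
              simp only
              rw [if_pos (by omega)]
            · rw [if_neg hA', zero_mul]; exact zero_le
        _ = _ := disint Λ2 h2 z2 a (fun y : ℕ × G => if y.1 ≤ i0 then
              Θ (HT h1 A - a, Dp z1 A) y else 0)
    · rw [if_neg hA, zero_mul]; exact zero_le
  refine st1.trans ?_
  have st2 : ∑' x, gl Λ1 h1 z1 a x * F1 x ≤ ∑' x, R x + ∑' x, S x * F1 x := by
    rw [← ENNReal.tsum_add]
    refine ENNReal.tsum_le_tsum fun x => ?_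
    calc gl Λ1 h1 z1 a x * F1 x ≤ (S x + R x) * F1 x := mul_le_mul_left (hSR x) _
      _ = R x * F1 x + S x * F1 x := by ring
      _ ≤ R x * 1 + S x * F1 x := add_le_add (mul_le_mul_right (hF1le x) _) le_rfl
      _ = _ := by rw [mul_one]
  refine st2.trans (add_le_add hR ?_)
  -- the smooth part
  set Φ : ℕ → ℕ → ℕ → ℕ → G → ℝ≥0∞ := fun i i' j j' v =>
    ∑' P, ∑' P', (if HT h1 P = T + j ∧ Dp z1 P ∈ E j ∧
        HT h2 P' = T + j' ∧ K P P' i i' v then LW Λ1 P * LW Λ2 P' else 0) with hΦ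
  have hΘΦ : ∀ x y, Θ x y ≤ ∑ j ∈ Finset.range (i0 + 1), ∑ j' ∈ Finset.range (i0 + 1),
      Φ x.1 y.1 j j' (w + y.2 - x.2) := by
    intro x y
    have e1 : ∑ j ∈ Finset.range (i0 + 1), ∑ j' ∈ Finset.range (i0 + 1),
        Φ x.1 y.1 j j' (w + y.2 - x.2)
        = ∑' P, ∑' P', ∑ j ∈ Finset.range (i0 + 1), ∑ j' ∈ Finset.range (i0 + 1),
          (if HT h1 P = T + j ∧ Dp z1 P ∈ E j ∧
        HT h2 P' = T + j' ∧ K P P' x.1 y.1 (w + y.2 - x.2) then LW Λ1 P * LW Λ2 P' else 0) := by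
      simp only [hΦ]
      simp only [Summable.tsum_finsetSum (fun _ _ => ENNReal.summable)]
    rw [e1]
    simp only [hΘ]
    refine ENNReal.tsum_le_tsum fun P => ?_
    by_cases hP : fp h1 T P ∧ HT h1 P ≤ T + i0 ∧ loc P
    · rw [if_pos hP, ← ENNReal.tsum_mul_left]
      refine ENNReal.tsum_le_tsum fun P' => ?_
      by_cases hP' : fp h2 T P' ∧ HT h2 P' ≤ T + i0
      · rw [if_pos hP']
        by_cases hK : K P P' x.1 y.1 (w + y.2 - x.2)
        · rw [if_pos hK, mul_one]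
          have a1 := le_HT_of_fp h1 hP.1
          have a2 := le_HT_of_fp h2 hP'.1
          refine le_trans ?_ (Finset.single_le_sum (f := fun j => ∑ j' ∈ Finset.range (i0 + 1),
            (if HT h1 P = T + j ∧ Dp z1 P ∈ E j ∧ HT h2 P' = T + j' ∧
              K P P' x.1 y.1 (w + y.2 - x.2) then LW Λ1 P * LW Λ2 P' else 0))
            (fun _ _ => zero_le) (Finset.mem_range.2 (show HT h1 P - T < i0 + 1 by omega)))
          refine le_trans ?_ (Finset.single_le_sum (f := fun j' =>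
            (if HT h1 P = T + (HT h1 P - T) ∧ Dp z1 P ∈ E (HT h1 P - T) ∧ HT h2 P' = T + j' ∧
              K P P' x.1 y.1 (w + y.2 - x.2) then LW Λ1 P * LW Λ2 P' else 0))
            (fun _ _ => zero_le) (Finset.mem_range.2 (show HT h2 P' - T < i0 + 1 by omega)))
          rw [if_pos ⟨by omega, hE P hP.2.2, by omega, hK⟩]
        · rw [if_neg hK, mul_zero, mul_zero]; exact zero_le
      · rw [if_neg hP', zero_mul, mul_zero]; exact zero_le
    · rw [if_neg hP, zero_mul]; exact zero_le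
  have hS1 : ∑' x, S x ≤ 1 :=
    (ENNReal.tsum_le_tsum hS).trans (gl_sum Λ1 h1 z1 h11 hΛ1 a)
  have hg1 := gl_sum Λ2 h2 z2 h21 hΛ2 a
  calc ∑' x, S x * F1 x
      = ∑ i ∈ Finset.range (i0 + 1), ∑' zx, S (i, zx) *
          ∑ i' ∈ Finset.range (i0 + 1), ∑' zy, gl Λ2 h2 z2 a (i', zy) * Θ (i, zx) (i', zy) := by
        rw [← fin_prod i0 (fun x : ℕ × G => S x * ∑ i' ∈ Finset.range (i0 + 1),
          ∑' zy, gl Λ2 h2 z2 a (i', zy) * Θ x (i', zy))]
        refine tsum_congr fun x => ?_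
        simp only [hF1]
        by_cases hx : x.1 ≤ i0
        · rw [if_pos hx, if_pos hx, ← fin_prod i0 (fun y : ℕ × G => gl Λ2 h2 z2 a y * Θ x y)]
          congr 1
          refine tsum_congr fun y => ?_
          by_cases hy : y.1 ≤ i0 <;> simp [hy]
        · rw [if_neg hx, if_neg hx, mul_zero]
    _ ≤ ∑ i ∈ Finset.range (i0 + 1), ∑' zx, S (i, zx) *
          ∑ i' ∈ Finset.range (i0 + 1), ∑' zy, gl Λ2 h2 z2 a (i', zy) *
            ∑ j ∈ Finset.range (i0 + 1), ∑ j' ∈ Finset.range (i0 + 1),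
              Φ i i' j j' (w + zy - zx) := by
        refine Finset.sum_le_sum fun i _ => ENNReal.tsum_le_tsum fun zx => mul_le_mul_right ?_ _
        refine Finset.sum_le_sum fun i' _ => ENNReal.tsum_le_tsum fun zy => mul_le_mul_right ?_ _
        exact hΘΦ (i, zx) (i', zy)
    _ = ∑ i ∈ Finset.range (i0 + 1), ∑ i' ∈ Finset.range (i0 + 1),
          ∑ j ∈ Finset.range (i0 + 1), ∑ j' ∈ Finset.range (i0 + 1),
          ∑' zx, S (i, zx) * ∑' zy, gl Λ2 h2 z2 a (i', zy) * Φ i i' j j' (w + zy - zx) := by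
        refine Finset.sum_congr rfl fun i _ => ?_
        simp only [Finset.mul_sum]
        simp only [Summable.tsum_finsetSum (fun _ _ => ENNReal.summable), Finset.mul_sum]
    _ ≤ ∑ i ∈ Finset.range (i0 + 1), ∑ i' ∈ Finset.range (i0 + 1),
          ∑ j ∈ Finset.range (i0 + 1), ∑ j' ∈ Finset.range (i0 + 1), η := by
        refine Finset.sum_le_sum fun i hi => Finset.sum_le_sum fun i' hi' =>
          Finset.sum_le_sum fun j hj => Finset.sum_le_sum fun j' hj' => ?_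
        rw [Finset.mem_range] at hi hi' hj hj'
        exact tie_bound S (gl Λ2 h2 z2 a) w i i' (Φ i i' j j') M η hS1 hg1 hM
          (hW i i' j j' (by omega) (by omega) (by omega) (by omega))
    _ = _ := by
        simp only [Finset.sum_const, Finset.card_range, nsmul_eq_mul]
        ring

end Crest.Agent.R154.AsmS351
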