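import Crest.Agent.R154.AsmG_354

/-! Row 154 (helper354), ROAD 801: assembly, part H: the contact estimate, abstract form. -/

set_option autoImplicit false

namespace Crest.Agent.R154.Asm354

open scoped ENNReal Topology
open Filter
open Crest.Agent.R154.B5A
open Crest.Agent.R154.FP178 (fp fp_nil fp_cons fp_zero le_HT_of_fp split sum_FP fp_split overshoot
  sum_fp_step sum_fp_zero)

variable {BX BY G : Type*} [AddCommGroup G]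
variable (ΛX : BX → ℝ≥0∞) (ΛY : BY → ℝ≥0∞) (hX : BX → ℕ) (hY : BY → ℕ) (zX : BX → G) (zY : BY → G)
variable (sX : BX → Set (G × ℕ)) (sY : BY → Set (G × ℕ))

/-- thin slab -/
def Slab : Prop := ∀ (s : ℕ) (η : ℝ≥0∞), η ≠ 0 → ∃ T, ∀ a, T ≤ a → ∀ n w,
  KK ΛX ΛY hX hY zX zY sX sY n w (fun k => a ≤ k ∧ k < a + s) ≤ η

lemma tail_tendsto {B : Type*} (Λ : B → ℝ≥0∞) (ht : B → ℕ) (hΛ : ∑' b, Λ b = 1)
    (hm : ∑' b, Λ b * (ht b : ℝ≥0∞) ≠ ⊤) :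
    Tendsto (fun i0 => ∑' k, tail Λ ht (i0 + k)) atTop (𝓝 0) := by
  rw [sum_tail Λ ht hΛ] at hm
  have := ENNReal.tendsto_sum_nat_add (fun k => tail Λ ht k) hm
  refine this.congr fun i => tsum_congr fun k => by rw [add_comm]

theorem big (h1X : ∀ b, 1 ≤ hX b) (h1Y : ∀ b, 1 ≤ hY b) (hΛX : ∑' b, ΛX b = 1)
    (hΛY : ∑' b, ΛY b = 1) (hsX : ∀ b, ∀ q ∈ sX b, 1 ≤ q.2 ∧ q.2 ≤ hX b)
    (hsY : ∀ b, ∀ q ∈ sY b, 1 ≤ q.2 ∧ q.2 ≤ hY b)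
    (hmX : ∑' b, ΛX b * (hX b : ℝ≥0∞) ≠ ⊤) (hmY : ∑' b, ΛY b * (hY b : ℝ≥0∞) ≠ ⊤)
    (C : ℝ≥0∞) (hC : C ≠ ⊤) (us : ℕ → ℝ≥0∞) (hus : Tendsto us atTop (𝓝 0))
    (h2 : H2 ΛX ΛY hX hY zX zY sX sY C us) (h3 : H3 ΛX ΛY hX hY zX zY sX sY C us)
    (h5 : Slab ΛX ΛY hX hY zX zY sX sY) (ε : ℝ≥0∞) (hε : ε ≠ 0) :
    ∃ M, ∀ m, M ≤ m → ∀ n, 4 * m ≤ n → ∀ w,
      KK ΛX ΛY hX hY zX zY sX sY n w (fun k => m < k ∧ k ≤ 2 * m) ≤ ε := by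
  -- finite e
  obtain ⟨e, he0, hetop, he6⟩ : ∃ e : ℝ≥0∞, e ≠ 0 ∧ e ≠ ⊤ ∧ 6 * e ≤ ε := by
    refine ⟨min ε 1 / 6, ?_, ?_, ?_⟩
    · refine ENNReal.div_ne_zero.2 ⟨?_, by norm_num⟩
      exact (lt_min (pos_iff_ne_zero.2 hε) one_pos).ne'
    · exact ENNReal.div_ne_top (ne_top_of_le_ne_top ENNReal.one_ne_top (min_le_right _ _))
        (by norm_num)
    · rw [ENNReal.mul_div_cancel (by norm_num) (by norm_num)]; exact min_le_left _ _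
  obtain ⟨K, J, u, hK5, hKJ, hu0, hu1, hn1, hn2⟩ := nums e he0
  have hutop : u ≠ ⊤ := ne_top_of_le_ne_top ENNReal.one_ne_top hu1
  have hKt : ((K + 1 : ℕ) : ℝ≥0∞) ≠ ⊤ := ENNReal.natCast_ne_top _
  -- i0
  have hη : Tendsto (fun i0 => (∑' k, tail ΛX hX (i0 + k)) + ∑' k, tail ΛY hY (i0 + k)) atTop
      (𝓝 0) := by
    have := (tail_tendsto ΛX hX hΛX hmX).add (tail_tendsto ΛY hY hΛY hmY)
    rwa [add_zero] at this
  obtain ⟨i0, hi0⟩ := small _ hη (((K + 1 : ℕ) : ℝ≥0∞) * (4 + 2 * (J : ℝ≥0∞))) e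
    (ENNReal.mul_ne_top hKt (ENNReal.add_ne_top.2 ⟨by norm_num,
      ENNReal.mul_ne_top (by norm_num) (ENNReal.natCast_ne_top _)⟩)) he0
  set η : ℝ≥0∞ := (∑' k, tail ΛX hX (i0 + k)) + ∑' k, tail ΛY hY (i0 + k) with hηd
  have hi0' : ((K + 1 : ℕ) : ℝ≥0∞) * (4 + 2 * (J : ℝ≥0∞)) * η ≤ e := hi0 i0 le_rfl
  -- lam
  set c0 : ℝ≥0∞ := ((K + 1 : ℕ) : ℝ≥0∞) * (2 * ((i0 + 1) ^ 4 : ℕ) * C) with hc0
  have hc0t : c0 ≠ ⊤ := ENNReal.mul_ne_top hKt (ENNReal.mul_ne_top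
    (ENNReal.mul_ne_top (by norm_num) (ENNReal.natCast_ne_top _)) hC)
  have hc1t : c0 + 1 ≠ ⊤ := ENNReal.add_ne_top.2 ⟨hc0t, ENNReal.one_ne_top⟩
  set lam : ℝ≥0∞ := e / (c0 + 1) with hlam
  have hlam0 : lam ≠ 0 := ENNReal.div_ne_zero.2 ⟨he0, hc1t⟩
  have hlamt : lam ≠ ⊤ := ENNReal.div_ne_top hetop (by simp)
  have hlam1 : c0 * lam ≤ e := by
    calc c0 * lam ≤ (c0 + 1) * lam := mul_le_mul_left le_self_add _
      _ = e := ENNReal.mul_div_cancel (by simp) hc1t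
  -- s
  set D : ℝ≥0∞ := ((i0 + 1 : ℕ) : ℝ≥0∞) / u with hD
  have hDt : D ≠ ⊤ := ENNReal.div_ne_top (ENNReal.natCast_ne_top _) hu0
  obtain ⟨s, hs⟩ := small us hus (c0 * (D / lam + 1)) e
    (ENNReal.mul_ne_top hc0t (ENNReal.add_ne_top.2 ⟨ENNReal.div_ne_top hDt hlam0,
      ENNReal.one_ne_top⟩)) he0
  have hs' : c0 * (D * us s / lam + us s) ≤ e := by
    refine le_trans (le_of_eq ?_) (hs s le_rfl)
    rw [div_eq_mul_inv, div_eq_mul_inv]; ring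
  -- slab
  set ε' : ℝ≥0∞ := e / (2 * ((K + 1 : ℕ) : ℝ≥0∞)) with hε'
  have h2K : 2 * ((K + 1 : ℕ) : ℝ≥0∞) ≠ ⊤ := ENNReal.mul_ne_top (by norm_num) hKt
  have hε'0 : ε' ≠ 0 := ENNReal.div_ne_zero.2 ⟨he0, h2K⟩
  have hε'1 : ((K + 1 : ℕ) : ℝ≥0∞) * (ε' + ε') ≤ e := by
    calc ((K + 1 : ℕ) : ℝ≥0∞) * (ε' + ε') = (2 * ((K + 1 : ℕ) : ℝ≥0∞)) * ε' := by ring
      _ = e := ENNReal.mul_div_cancel (by simp) h2K
      _ ≤ e := le_rfl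
  obtain ⟨T0, hT0⟩ := h5 (3 * i0 + s) ε' hε'0
  refine ⟨K * (3 * i0 + s + T0 + 2 * K + 2), fun m hm n hn w => ?_⟩
  set t := m / K with ht
  have hK0 : 0 < K := by omega
  have htge : 3 * i0 + s + T0 + 2 * K + 2 ≤ t := (Nat.le_div_iff_mul_le hK0).2 (by
    rw [mul_comm]; exact hm)
  have hmt1 : K * t ≤ m := Nat.mul_div_le m K
  have hmt2 : m < K * t + K := by
    have := Nat.lt_mul_div_succ m hK0
    rw [Nat.mul_succ] at this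
    exact this
  -- cover
  have hcov : KK ΛX ΛY hX hY zX zY sX sY n w (fun k => m < k ∧ k ≤ 2 * m)
      ≤ ∑ j ∈ Finset.range (K + 1), KK ΛX ΛY hX hY zX zY sX sY n w
        (fun k => (K + j - 1) * t + t < k ∧ k ≤ (K + j - 1) * t + 2 * t) := by
    refine le_trans (KK_mono ΛX ΛY hX hY zX zY sX sY n w _ _ fun k hk => ?_)
      (KK_union ΛX ΛY hX hY zX zY sX sY n w (Finset.range (K + 1))
        (fun j k => (K + j - 1) * t + t < k ∧ k ≤ (K + j - 1) * t + 2 * t))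
    have ht0 : 0 < t := by omega
    have q1 : K ≤ (k - 1) / t := (Nat.le_div_iff_mul_le ht0).2 (by omega)
    have q2 : (k - 1) / t < 2 * K + 1 := by
      rw [Nat.div_lt_iff_lt_mul ht0]
      have : (2 * K + 1) * t = 2 * (K * t) + t := by ring
      omega
    obtain ⟨q, hq⟩ : ∃ q, q = (k - 1) / t := ⟨_, rfl⟩
    rw [← hq] at q1 q2
    have d1 : q * t ≤ k - 1 := by rw [hq]; exact Nat.div_mul_le_self _ _
    have d2 : k - 1 < q * t + t := by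
      have := Nat.lt_div_mul_add (a := k - 1) ht0
      rw [← hq] at this
      exact this
    refine ⟨q - K, Finset.mem_range.2 (by omega), ?_⟩
    obtain ⟨q', rfl⟩ : ∃ q', q = q' + 1 := ⟨q - 1, by omega⟩
    have e1 : K + (q' + 1 - K) - 1 = q' := by omega
    rw [e1]
    rw [Nat.add_mul, one_mul] at d1 d2
    constructor <;> omega
  refine le_trans hcov ?_
  have hwin : ∀ j ∈ Finset.range (K + 1), KK ΛX ΛY hX hY zX zY sX sY n w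
        (fun k => (K + j - 1) * t + t < k ∧ k ≤ (K + j - 1) * t + 2 * t)
      ≤ ε' + ε' + (4 * η + (2 * ((1 - u) ^ J + J * η) + u * u + 2 * ((i0 + 1) ^ 4 : ℕ) *
        (C * (lam + D * us s / lam + us s)))) := by
    intro j hj
    have hj' := Finset.mem_range.1 hj
    set α := (K + j - 1) * t with hα
    have hα1 : (K - 1) * t ≤ α := Nat.mul_le_mul_right _ (by omega)
    have hα2 : α ≤ (2 * K - 1) * t := Nat.mul_le_mul_right _ (by omega)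
    have hα3 : 4 * t ≤ (K - 1) * t := Nat.mul_le_mul_right _ (by omega)
    have hJ : J * (3 * t + i0) ≤ α := by
      calc J * (3 * t + i0) ≤ J * (4 * t) := Nat.mul_le_mul_left _ (by omega)
        _ = (4 * J) * t := by ring
        _ ≤ (K - 1) * t := Nat.mul_le_mul_right _ (by omega)
        _ ≤ α := hα1
    have hn' : α + 3 * i0 + 3 * t ≤ n := by
      have e1 : (2 * K - 1) * t + 4 * t = (2 * K + 3) * t := by
        rw [← Nat.add_mul]; congr 1; omega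
      have e2 : (2 * K + 3) * t ≤ (4 * K) * t := Nat.mul_le_mul_right _ (by omega)
      have e3 : (4 * K) * t = 4 * (K * t) := by ring
      omega
    refine le_trans (window ΛX ΛY hX hY zX zY sX sY h1X h1Y hΛX hΛY hsX hsY C us h2 h3 i0 η
      le_self_add le_add_self u hu0 hu1 lam hlam0 hlamt J s α t n (by omega) (by omega) hJ hn' w) ?_
    refine add_le_add (add_le_add ?_ ?_) le_rfl
    · exact hT0 (α + 1) (by omega) n w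
    · exact hT0 (α + 3 * t + 1 - s) (by omega) n w
  refine le_trans (Finset.sum_le_sum hwin) ?_
  rw [Finset.sum_const, Finset.card_range, nsmul_eq_mul]
  refine le_trans ?_ he6
  have efin : ((K + 1 : ℕ) : ℝ≥0∞) * (ε' + ε' + (4 * η + (2 * ((1 - u) ^ J + J * η) + u * u +
      2 * ((i0 + 1) ^ 4 : ℕ) * (C * (lam + D * us s / lam + us s)))))
      = ((K + 1 : ℕ) : ℝ≥0∞) * (ε' + ε') + ((K + 1 : ℕ) : ℝ≥0∞) * (4 + 2 * (J : ℝ≥0∞)) * η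
        + ((K + 1 : ℕ) : ℝ≥0∞) * (2 * (1 - u) ^ J) + ((K + 1 : ℕ) : ℝ≥0∞) * (u * u)
        + c0 * lam + c0 * (D * us s / lam + us s) := by
    rw [hc0]; ring
  rw [efin]
  calc _ ≤ e + e + e + e + e + e := by gcongr
    _ = 6 * e := by ring

theorem kapK (h1X : ∀ b, 1 ≤ hX b) (h1Y : ∀ b, 1 ≤ hY b) (hΛX : ∑' b, ΛX b = 1)
    (hΛY : ∑' b, ΛY b = 1) (hsX : ∀ b, ∀ q ∈ sX b, 1 ≤ q.2 ∧ q.2 ≤ hX b)
    (hsY : ∀ b, ∀ q ∈ sY b, 1 ≤ q.2 ∧ q.2 ≤ hY b)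
    (c : ℝ≥0∞) (hc0 : c ≠ 0) (hcX : ∀ n, c ≤ U ΛX hX n) (hcY : ∀ n, c ≤ U ΛY hY n)
    (C : ℝ≥0∞) (hC : C ≠ ⊤) (us : ℕ → ℝ≥0∞) (hus : Tendsto us atTop (𝓝 0))
    (h2 : H2 ΛX ΛY hX hY zX zY sX sY C us) (h3 : H3 ΛX ΛY hX hY zX zY sX sY C us)
    (h5 : Slab ΛX ΛY hX hY zX zY sX sY) (ε : ℝ≥0∞) (hε : ε ≠ 0) :
    ∃ M, ∀ m, M ≤ m → ∀ n, 2 * m ≤ n → ∀ w,
      KK ΛX ΛY hX hY zX zY sX sY n w (fun k => m < k ∧ k ≤ 2 * m) ≤ ε := by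
  have hc1 : c ≤ 1 := (hcX 0).trans (U_le_one ΛX hX h1X hΛX 0)
  have hct : c ≠ ⊤ := ne_top_of_le_ne_top ENNReal.one_ne_top hc1
  have hmX := ne_top_of_le_ne_top (ENNReal.inv_ne_top.2 hc0)
    (mean_le ΛX hX h1X hΛX c hc0 hct 0 (fun n _ => hcX n))
  have hmY := ne_top_of_le_ne_top (ENNReal.inv_ne_top.2 hc0)
    (mean_le ΛY hY h1Y hΛY c hc0 hct 0 (fun n _ => hcY n))
  obtain ⟨M, hM⟩ := big ΛX ΛY hX hY zX zY sX sY h1X h1Y hΛX hΛY hsX hsY hmX hmY C hC us hus h2 h3 h5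
    (c * (c * ε)) (mul_ne_zero hc0 (mul_ne_zero hc0 hε))
  refine ⟨M, fun m hm n hn w => ?_⟩
  have h1 := ext2 ΛX ΛY hX hY zX zY sX sY h1X h1Y n (2 * m) c (hcX _) (hcY _) w
    (fun k => m < k ∧ k ≤ 2 * m)
  have h4 := h1.trans (hM m hm (n + 2 * m) (by omega) w)
  have h6 := (ENNReal.mul_le_mul_iff_right hc0 hct).1 h4
  exact (ENNReal.mul_le_mul_iff_right hc0 hct).1 h6

end Crest.Agent.R154.Asm354
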