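import Crest.Agent.R154.AsmG_366

/-! Row 154, ROAD 801, assembly (helper366), part H: one window. -/

set_option autoImplicit false

namespace Crest.Agent.R154.Asm366

open scoped ENNReal
open Crest.Agent.R154.B5A
open Crest.Agent.R154.KWB419 (TT)

section one

variable {B G : Type*} [AddCommGroup G] (Λ : B → ℝ≥0∞) (h : B → ℕ) (z : B → G)

lemma quant {ι : Type*} (p : ι → ℝ≥0∞) (h1 : ∑' x, p x = 1) {u : ℝ≥0∞} (hu0 : u ≠ 0)
    (hu1 : u ≤ 1) : ∃ th : ℝ≥0∞, th ≠ 0 ∧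
      (∑' x, open Classical in if p x < th then p x else 0) ≤ u ∧
      u ≤ ∑' x, open Classical in if p x ≤ th then p x else 0 := by
  classical
  rcases lt_or_eq_of_le hu1 with hlt | rfl
  · obtain ⟨th, h2, -, h3, h4⟩ := Dens616.quantile p h1 hu0 hlt
    refine ⟨th, h2, ?_, ?_⟩
    · convert h3
    · convert h4
  · refine ⟨1, one_ne_zero, ?_, ?_⟩
    · calc _ ≤ ∑' x, p x := ENNReal.tsum_le_tsum fun x => by split_ifs <;> simp
        _ = 1 := h1
    · rw [← h1]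
      refine ENNReal.tsum_le_tsum fun x => ?_
      have hx : p x ≤ 1 := by rw [← h1]; exact ENNReal.le_tsum x
      rw [if_pos (by rw [h1]; exact hx)]

open Classical in
lemma loc_ex (hΛ : ∑' b, Λ b = 1) (h1 : ∀ b, 1 ≤ h b) (hU : ∀ n, U Λ h n ≤ 1)
    (T i0 J a : ℕ) {u : ℝ≥0∞} (hu0 : u ≠ 0) (hu1 : u ≤ 1) (hJ : J * (T + i0) ≤ a) :
    ∃ th : ℝ≥0∞, th ≠ 0 ∧
      (∑' i, ∑' x, if fz Λ h z T i x < th then fz Λ h z T i x else 0) ≤ u ∧
      ∃ b : ℕ × G → ℝ≥0∞, (∑' w, b w ≤ (1 - u) ^ J + J * ep Λ h i0) ∧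
        ∀ w : ℕ × G, fz Λ h z a w.1 w.2 ≤ ((i0 : ℝ≥0∞) + 1) / u * th + b w := by
  have htot : ∑' w : ℕ × G, fz Λ h z T w.1 w.2 = 1 := by
    rw [ENNReal.tsum_prod (f := fun e x => fz Λ h z T e x), fz_total Λ hΛ h h1]
  obtain ⟨th, hth, hlt, hle⟩ := quant (fun w : ℕ × G => fz Λ h z T w.1 w.2) htot hu0 hu1
  have hut : u ≠ ⊤ := ne_top_of_le_ne_top ENNReal.one_ne_top hu1
  refine ⟨th, hth, ?_, ?_⟩
  · rw [← ENNReal.tsum_prod (f := fun i x => if fz Λ h z T i x < th then fz Λ h z T i x else 0)]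
    exact hlt
  · refine densJ Λ hΛ h h1 z T i0 th (1 - u) (ep Λ h i0) (((i0 : ℝ≥0∞) + 1) / u * th) ?_ ?_
      tsub_le_self ?_ J a hJ
    · have := push Λ h z T (fun i _ => if i0 < i then 1 else 0)
      calc ∑' i, ∑' x, (if i0 < i then fz Λ h z T i x else 0)
          = ∑' i, ∑' x, fz Λ h z T i x * (if i0 < i then 1 else 0) := by
            refine tsum_congr fun i => tsum_congr fun x => ?_
            split_ifs <;> simp
        _ = _ := this.symm
        _ = ∑' P : List B, (if FP h P T ∧ T + i0 < HT h P then LW Λ P else 0) := by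
            refine tsum_congr fun P => ?_
            by_cases hP : FP h P T
            · have := le_HT_of_FP h P T hP
              by_cases h2 : T + i0 < HT h P
              · rw [if_pos hP, if_pos (by omega), if_pos ⟨hP, h2⟩, mul_one]
              · rw [if_pos hP, if_neg (by omega), if_neg (fun hh => h2 hh.2), mul_zero]
            · rw [if_neg hP, if_neg (fun hh => hP hh.1)]
        _ ≤ _ := overshoot Λ h h1 hU i0 T
    · refine ENNReal.le_sub_of_add_le_left hut ?_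
      calc u + ∑' i, ∑' x, (if i ≤ i0 ∧ th < fz Λ h z T i x then fz Λ h z T i x else 0)
          ≤ (∑' w : ℕ × G, if fz Λ h z T w.1 w.2 ≤ th then fz Λ h z T w.1 w.2 else 0)
            + ∑' w : ℕ × G, (if w.1 ≤ i0 ∧ th < fz Λ h z T w.1 w.2 then fz Λ h z T w.1 w.2
              else 0) := by
            refine add_le_add hle (le_of_eq ?_)
            exact (ENNReal.tsum_prod (f := fun i x => if i ≤ i0 ∧ th < fz Λ h z T i x
              then fz Λ h z T i x else 0)).symm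
        _ ≤ ∑' w : ℕ × G, fz Λ h z T w.1 w.2 := by
            rw [← ENNReal.tsum_add]
            refine ENNReal.tsum_le_tsum fun w => ?_
            by_cases hw : fz Λ h z T w.1 w.2 ≤ th
            · rw [if_pos hw, if_neg (fun hh => absurd hh.2 (not_lt.2 hw)), add_zero]
            · rw [if_neg hw, zero_add]
              split_ifs <;> simp
        _ = 1 := htot
    · have e1 : u * (((i0 : ℝ≥0∞) + 1) / u * th) = ((i0 : ℝ≥0∞) + 1) * th := by
        rw [← mul_assoc, ENNReal.mul_div_cancel hu0 hut]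
      calc ((i0 + 1 : ℕ) : ℝ≥0∞) * th + (1 - u) * (((i0 : ℝ≥0∞) + 1) / u * th)
          = u * (((i0 : ℝ≥0∞) + 1) / u * th) + (1 - u) * (((i0 : ℝ≥0∞) + 1) / u * th) := by
            rw [e1]; push_cast; rfl
        _ = (u + (1 - u)) * (((i0 : ℝ≥0∞) + 1) / u * th) := by ring
        _ = _ := by rw [add_tsub_cancel_of_le hu1, one_mul]
        _ ≤ _ := le_rfl

end one

variable {BX BY G : Type*} [AddCommGroup G]
variable (ΛX : BX → ℝ≥0∞) (hX : BX → ℕ) (sX : BX → Set (G × ℕ)) (zX : BX → G)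
variable (ΛY : BY → ℝ≥0∞) (hY : BY → ℕ) (sY : BY → Set (G × ℕ)) (zY : BY → G)

open Classical in
lemma swapμ {G : Type*} (i0 : ℕ) (μ : G → ℝ≥0∞) (Ψ : ℕ → ℕ → G → ℝ≥0∞) (bd : ℝ≥0∞)
    (H : ∀ i i', i ≤ i0 → i' ≤ i0 → ∑' x, μ x * Ψ i i' x ≤ bd) :
    ∑' x, μ x * ∑' i : ℕ, ∑' i' : ℕ, (if i ≤ i0 ∧ i' ≤ i0 then Ψ i i' x else 0)
      ≤ ((i0 : ℝ≥0∞) + 1) ^ 2 * bd := by
  rw [← sum_le_i0]
  simp_rw [← ENNReal.tsum_mul_left]
  rw [ENNReal.tsum_comm]
  refine ENNReal.tsum_le_tsum fun i => ?_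
  rw [ENNReal.tsum_comm]
  refine ENNReal.tsum_le_tsum fun i' => ?_
  split_ifs with h
  · exact H i i' h.1 h.2
  · simp

open Classical in
theorem window (hΛX : ∑' b, ΛX b = 1) (hΛY : ∑' b, ΛY b = 1) (h1X : ∀ b, 1 ≤ hX b)
    (h1Y : ∀ b, 1 ≤ hY b) (hUX : ∀ n, U ΛX hX n ≤ 1) (hUY : ∀ n, U ΛY hY n ≤ 1)
    (hsX : ∀ b q, q ∈ sX b → 1 ≤ q.2 ∧ q.2 ≤ hX b)
    (hsY : ∀ b q, q ∈ sY b → 1 ≤ q.2 ∧ q.2 ≤ hY b)
    {us : ℕ → ℝ≥0∞} {C : ℝ≥0∞} (H2 : H2L ΛX hX sX zX ΛY hY sY zY us C)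
    (H3 : H3L ΛX hX sX zX ΛY hY sY zY us C) (w : G) (a T i0 s J n : ℕ) {u lam : ℝ≥0∞}
    (hu0 : u ≠ 0) (hu1 : u ≤ 1) (hl0 : lam ≠ 0) (hlt : lam ≠ ⊤) (hs : s ≤ T)
    (hJ : J * (T + 2 * i0) ≤ a) (hn : a + 3 * i0 + T ≤ n) :
    ∑' LX : List BX, ∑' LY : List BY, (if HT hX LX = n ∧ HT hY LY = n ∧
        EvW hX sX zX hY sY zY w a (a + T + 2 * i0) (a + 2 * i0 + s + 1) (a + T - s) LX LY
        then LW ΛX LX * LW ΛY LY else 0)
      ≤ 2 * ep ΛX hX i0 + (2 * ep ΛY hY i0 + (u ^ 2 +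
        ((((1 - u) ^ J + J * ep ΛX hX i0) + ((i0 : ℝ≥0∞) + 1) ^ 2 * (((i0 : ℝ≥0∞) + 1) ^ 2 *
          (C * (lam + (((i0 : ℝ≥0∞) + 1) / u) * us s / lam + us s)))) +
        (((1 - u) ^ J + J * ep ΛY hY i0) + ((i0 : ℝ≥0∞) + 1) ^ 2 * (((i0 : ℝ≥0∞) + 1) ^ 2 *
          (C * (lam + (((i0 : ℝ≥0∞) + 1) / u) * us s / lam + us s))))))) := by
  set lo := a + 2 * i0 + s + 1 with hlo
  set hi := a + T - s with hhi
  set a' := a + i0 with ha'
  set T' := T + i0 with hT'
  set c : ℝ≥0∞ := ((i0 : ℝ≥0∞) + 1) / u with hc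
  set bd : ℝ≥0∞ := C * (lam + c * us s / lam + us s) with hbd
  obtain ⟨th, hth, hnX, b, hb, hfb⟩ := loc_ex ΛX hX zX hΛX h1X hUX T i0 J a hu0 hu1
    (le_trans (Nat.mul_le_mul_left _ (by omega)) hJ)
  obtain ⟨th', hth', hnY, b', hb', hfb'⟩ := loc_ex ΛY hY zY hΛY h1Y hUY T' i0 J a' hu0 hu1
    (le_trans (Nat.mul_le_mul_left _ (by omega : T' + i0 ≤ T + 2 * i0)) (hJ.trans (by omega)))
  set ψ : List BX → List BX → ℝ≥0∞ := fun P Q => 2 * ep ΛY hY i0 +
    ∑' P' : List BY, ∑' Q' : List BY, (if (FP hY P' a' ∧ HT hY P' ≤ a' + i0) ∧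
          (FP hY Q' T' ∧ HT hY Q' ≤ T' + i0) then LW ΛY P' * LW ΛY Q' *
            (if Ev3 hX sX zX hY sY zY w lo hi P Q P' Q' then 1 else 0) else 0) with hψ
  set φ : List BX → ℝ≥0∞ := fun LX => ∑' LY : List BY, (if HT hY LY = n then LW ΛY LY *
    (if EvW hX sX zX hY sY zY w a (a + T + 2 * i0) lo hi LX LY then 1 else 0) else 0) with hφ
  have e0 : ∑' LX : List BX, ∑' LY : List BY, (if HT hX LX = n ∧ HT hY LY = n ∧
        EvW hX sX zX hY sY zY w a (a + T + 2 * i0) lo hi LX LY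
        then LW ΛX LX * LW ΛY LY else 0)
      = ∑' LX : List BX, (if HT hX LX = n then LW ΛX LX * φ LX else 0) := by
    refine tsum_congr fun LX => ?_
    by_cases h1 : HT hX LX = n
    · rw [if_pos h1, hφ, ← ENNReal.tsum_mul_left]
      refine tsum_congr fun LY => ?_
      by_cases h2 : HT hY LY = n
      · by_cases h3 : EvW hX sX zX hY sY zY w a (a + T + 2 * i0) lo hi LX LY
        · simp [h1, h2, h3]
        · simp [h3]
      · simp [h2]
    · simp [h1]
  rw [e0]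
  have hφ1 : ∀ L, φ L ≤ 1 := by
    intro L
    refine le_trans ?_ (hUY n)
    rw [hφ, U]
    refine ENNReal.tsum_le_tsum fun LY => ?_
    split_ifs <;> simp
  refine (side ΛX hX hΛX h1X hUX n a T i0 (by omega) φ hφ1 ψ ?_).trans ?_
  · -- the Y side
    intro P Q R hP hP2 hQ hQ2
    have kP := le_HT_of_FP hX P a hP
    have kQ := le_HT_of_FP hX Q T hQ
    refine side ΛY hY hΛY h1Y hUY n a' T' i0 (by omega)
      (fun LY => if EvW hX sX zX hY sY zY w a (a + T + 2 * i0) lo hi (P ++ (Q ++ R)) LY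
        then 1 else 0) (fun LY => by split_ifs <;> simp)
      (fun P' Q' => if Ev3 hX sX zX hY sY zY w lo hi P Q P' Q' then 1 else 0) ?_
    intro P' Q' R' hP' hP'2 hQ' hQ'2
    have kP' := le_HT_of_FP hY P' a' hP'
    have kQ' := le_HT_of_FP hY Q' T' hQ'
    by_cases hE : EvW hX sX zX hY sY zY w a (a + T + 2 * i0) lo hi (P ++ (Q ++ R))
      (P' ++ (Q' ++ R'))
    · have := ev_imp hX sX zX hY sY zY hsX hsY w a (a + T + 2 * i0) lo hi P Q R P' Q' R' kP
        (by omega) (by omega) (by omega) (by omega) (by omega) hE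
      rw [if_pos this]
      split_ifs <;> simp
    · rw [if_neg hE]; exact zero_le
  · refine add_le_add le_rfl ?_
    have e1 : ∑' P : List BX, ∑' Q : List BX, (if (FP hX P a ∧ HT hX P ≤ a + i0) ∧
        (FP hX Q T ∧ HT hX Q ≤ T + i0) then LW ΛX P * LW ΛX Q * ψ P Q else 0)
        ≤ 2 * ep ΛY hY i0 + ∑' P : List BX, ∑' Q : List BX, (if (FP hX P a ∧ HT hX P ≤ a + i0) ∧
        (FP hX Q T ∧ HT hX Q ≤ T + i0) then LW ΛX P * LW ΛX Q *
        (∑' P' : List BY, ∑' Q' : List BY, if (FP hY P' a' ∧ HT hY P' ≤ a' + i0) ∧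
          (FP hY Q' T' ∧ HT hY Q' ≤ T' + i0) then LW ΛY P' * LW ΛY Q' *
            (if Ev3 hX sX zX hY sY zY w lo hi P Q P' Q' then 1 else 0) else 0) else 0) := by
      calc _ ≤ ∑' P : List BX, ∑' Q : List BX, ((if FP hX P a then LW ΛX P else 0) *
            ((if FP hX Q T then LW ΛX Q else 0) * (2 * ep ΛY hY i0)) +
            (if (FP hX P a ∧ HT hX P ≤ a + i0) ∧
            (FP hX Q T ∧ HT hX Q ≤ T + i0) then LW ΛX P * LW ΛX Q *
            (∑' P' : List BY, ∑' Q' : List BY, if (FP hY P' a' ∧ HT hY P' ≤ a' + i0) ∧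
            (FP hY Q' T' ∧ HT hY Q' ≤ T' + i0) then LW ΛY P' * LW ΛY Q' *
              (if Ev3 hX sX zX hY sY zY w lo hi P Q P' Q' then 1 else 0) else 0) else 0)) := by
            refine ENNReal.tsum_le_tsum fun P => ENNReal.tsum_le_tsum fun Q => ?_
            by_cases hg : (FP hX P a ∧ HT hX P ≤ a + i0) ∧ (FP hX Q T ∧ HT hX Q ≤ T + i0)
            · rw [if_pos hg, if_pos hg, if_pos hg.1.1, if_pos hg.2.1, hψ]
              simp only
              rw [mul_add]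
              refine add_le_add (le_of_eq (by ring)) le_rfl
            · rw [if_neg hg]; exact zero_le
        _ = _ := by
            simp_rw [ENNReal.tsum_add, ENNReal.tsum_mul_left, ENNReal.tsum_mul_right]
            rw [mass_FP ΛX hΛX hX h1X, mass_FP ΛX hΛX hX h1X, one_mul, one_mul]
    refine e1.trans (add_le_add le_rfl ?_)
    refine (main_le ΛX hX sX zX ΛY hY sY zY w a a' T T' i0 lo hi).trans ?_
    have tX := (fz_total ΛX hΛX hX h1X zX a).le
    have tY := (fz_total ΛY hΛY hY h1Y zY a').le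
    refine (ST_mono i0 w (fun e e' δ _ _ => Phi_split ΛX hX sX zX ΛY hY sY zY T T' a a' i0 lo hi
      th th' u hnX hnY e e' δ)).trans ?_
    rw [ST_add, ST_add]
    refine add_le_add (ST_const i0 _ _ tX tY w _) (add_le_add ?_ ?_)
    · refine ST_X i0 _ _ tX tY w _ (fun e e' δ => Phi_le_one ΛX hX sX zX ΛY hY sY zY hΛX hΛY h1X
        h1Y T T' a a' i0 _ _ e e' δ) (c * th) _ _ b hb hfb ?_
      intro e e' he he' μ hμ1 hμM
      have hE := fun i => exE ΛX hΛX hX h1X zX T i hth (rfl : c * th = c * th)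
      choose E hE1 hE2 using hE
      refine le_trans (ENNReal.tsum_le_tsum fun x => mul_le_mul_right
        (Phi_group ΛX hX sX zX ΛY hY sY zY T T' a a' i0 _
          (fun L _ => Dp zX L ∈ E (HT hX L - T)) _
          (fun Q Q' _ _ hQ => hE1 _ _ hQ) e e' x) _) ?_
      refine swapμ i0 μ _ bd ?_
      intro i i' hi1 hi1'
      have key := H2 s (T + i) (T' + i') (a + e) (a' + e') lo (E i) μ (c * th) lam hμ1 hμM hl0 hlt
        (by omega) (by omega) (by omega)
      refine le_trans (ENNReal.tsum_le_tsum fun x => mul_le_mul_right ?_ _) (key.trans ?_)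
      · refine ENNReal.tsum_le_tsum fun L => ENNReal.tsum_le_tsum fun L' => ?_
        split_ifs with k1 k2
        · exact le_rfl
        · exfalso
          apply k2
          obtain ⟨m1, m2, m3, m4, m5⟩ := k1
          refine ⟨m1, ?_, m2, m4, m5⟩
          rw [m1, Nat.add_sub_cancel_left] at m3
          exact m3
        all_goals exact zero_le
      · rw [hbd]
        gcongr
        exact hE2 i
    · refine ST_Y i0 _ _ tX tY w _ (fun e e' δ => Phi_le_one ΛX hX sX zX ΛY hY sY zY hΛX hΛY h1X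
        h1Y T T' a a' i0 _ _ e e' δ) (c * th') _ _ b' hb' hfb' ?_
      intro e e' he he' μ hμ1 hμM
      have hE := fun i => exE ΛY hΛY hY h1Y zY T' i hth' (rfl : c * th' = c * th')
      choose E hE1 hE2 using hE
      refine le_trans (ENNReal.tsum_le_tsum fun x => mul_le_mul_right
        (Phi_group ΛX hX sX zX ΛY hY sY zY T T' a a' i0 _
          (fun _ L' => Dp zY L' ∈ E (HT hY L' - T')) _
          (fun Q Q' _ _ hQ => hE1 _ _ hQ) e e' x) _) ?_
      refine swapμ i0 μ _ bd ?_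
      intro i i' hi1 hi1'
      have key := H3 s (T + i) (T' + i') (a + e) (a' + e') hi (E i') μ (c * th') lam hμ1 hμM hl0
        hlt (by omega) (by omega) (by omega)
      refine le_trans (ENNReal.tsum_le_tsum fun x => mul_le_mul_right ?_ _) (key.trans ?_)
      · refine ENNReal.tsum_le_tsum fun L => ENNReal.tsum_le_tsum fun L' => ?_
        split_ifs with k1 k2
        · exact le_rfl
        · exfalso
          apply k2
          obtain ⟨m1, m2, m3, m4, m5⟩ := k1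
          refine ⟨m1, m2, ?_, m4, m5⟩
          rw [m2, Nat.add_sub_cancel_left] at m3
          exact m3
        all_goals exact zero_le
      · rw [hbd]
        gcongr
        exact hE2 i'

end Crest.Agent.R154.Asm366
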