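import Crest.Agent.R154.AsmG_4

/-! Row 154 (helper4), ROAD 801, assembly part H: KAPPA on lists. -/

set_option autoImplicit false

namespace Crest.Agent.R154.Asm4

open scoped ENNReal Topology
open Crest.Agent.R154.B5A Crest.Agent.R154.FP178
open Filter

variable {BX BY G : Type*} [AddCommGroup G]
  (ΛX : BX → ℝ≥0∞) (hX : BX → ℕ) (zX : BX → G) (sX : BX → Set (G × ℕ))
  (ΛY : BY → ℝ≥0∞) (hY : BY → ℕ) (zY : BY → G) (sY : BY → Set (G × ℕ))

open Classical in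
/-- pairs of crossings of height `n` with a common site at a depth in `S` -/
noncomputable def KC (n : ℕ) (w : G) (S : Set ℕ) : ℝ≥0∞ :=
  ∑' LX : List BX, ∑' LY : List BY,
    (if HT hX LX = n ∧ HT hY LY = n ∧ ∃ z k, k ∈ S ∧ (z, k) ∈ TT hX zX sX LX 0 0 ∧
      (z, k) ∈ TT hY zY sY LY w 0 then LW ΛX LX * LW ΛY LY else 0)

/-- thin slab -/
def H5L : Prop := ∀ (s : ℕ) (η : ℝ≥0∞), η ≠ 0 → ∃ T, ∀ a, T ≤ a → ∀ n w,
  KC ΛX hX zX sX ΛY hY zY sY n w (Set.Ico a (a + s)) ≤ η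

variable {ΛX hX zX sX ΛY hY zY sY}

open Classical in
lemma cover (T J i0 s m n : ℕ) (w : G) (hJ : 1 ≤ J) (hT1 : 1 ≤ T) (hTs : s ≤ T)
    (hm1 : 2 * J * T ≤ m) (hm2 : 2 * m < (4 * J + 1) * T) :
    KC ΛX hX zX sX ΛY hY zY sY n w (Set.Ioc m (2 * m))
      ≤ ∑ j ∈ Finset.range (2 * J + 2), KC ΛX hX zX sX ΛY hY zY sY n w
          (Set.Ico ((2 * J + j) * T - s) (((2 * J + j) * T - s) + (2 * i0 + 2 * s + 1)))
        + ∑ j ∈ Finset.range (2 * J + 1), ∑' LX, ∑' LY, (if HT hX LX = n ∧ HT hY LY = n ∧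
          EvW hX zX sX hY zY sY w ((2 * J + j) * T + 2 * i0 + s) ((2 * J + j) * T + T - s)
            ((2 * J + j) * T) ((2 * J + j) * T + T + 2 * i0) LX LY
          then LW ΛX LX * LW ΛY LY else 0) := by
  have hpt : ∀ (LX : List BX) (LY : List BY),
      (if HT hX LX = n ∧ HT hY LY = n ∧ ∃ z k, k ∈ Set.Ioc m (2 * m) ∧
        (z, k) ∈ TT hX zX sX LX 0 0 ∧ (z, k) ∈ TT hY zY sY LY w 0 then LW ΛX LX * LW ΛY LY else 0)
      ≤ ∑ j ∈ Finset.range (2 * J + 2), (if HT hX LX = n ∧ HT hY LY = n ∧ ∃ z k,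
          k ∈ Set.Ico ((2 * J + j) * T - s) (((2 * J + j) * T - s) + (2 * i0 + 2 * s + 1)) ∧
          (z, k) ∈ TT hX zX sX LX 0 0 ∧ (z, k) ∈ TT hY zY sY LY w 0
          then LW ΛX LX * LW ΛY LY else 0)
        + ∑ j ∈ Finset.range (2 * J + 1), (if HT hX LX = n ∧ HT hY LY = n ∧
          EvW hX zX sX hY zY sY w ((2 * J + j) * T + 2 * i0 + s) ((2 * J + j) * T + T - s)
            ((2 * J + j) * T) ((2 * J + j) * T + T + 2 * i0) LX LY
          then LW ΛX LX * LW ΛY LY else 0) := by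
    intro LX LY
    by_cases hc : HT hX LX = n ∧ HT hY LY = n ∧ ∃ z k, k ∈ Set.Ioc m (2 * m) ∧
        (z, k) ∈ TT hX zX sX LX 0 0 ∧ (z, k) ∈ TT hY zY sY LY w 0
    swap
    · rw [if_neg hc]; exact zero_le
    rw [if_pos hc]
    obtain ⟨hc1, hc2, z, k, hk, hz1, hz2⟩ := hc
    by_cases hsl : ∃ j ∈ Finset.range (2 * J + 2), ∃ z k,
          k ∈ Set.Ico ((2 * J + j) * T - s) (((2 * J + j) * T - s) + (2 * i0 + 2 * s + 1)) ∧
          (z, k) ∈ TT hX zX sX LX 0 0 ∧ (z, k) ∈ TT hY zY sY LY w 0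
    · obtain ⟨j, hj, hj2⟩ := hsl
      refine le_trans ?_ le_self_add
      refine le_trans ?_ (Finset.single_le_sum (f := fun j => (if HT hX LX = n ∧ HT hY LY = n ∧
          ∃ z k,
          k ∈ Set.Ico ((2 * J + j) * T - s) (((2 * J + j) * T - s) + (2 * i0 + 2 * s + 1)) ∧
          (z, k) ∈ TT hX zX sX LX 0 0 ∧ (z, k) ∈ TT hY zY sY LY w 0
          then LW ΛX LX * LW ΛY LY else 0)) (fun i _ => zero_le) hj)
      rw [if_pos ⟨hc1, hc2, hj2⟩]
    · push Not at hsl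
      refine le_trans ?_ le_add_self
      rw [Set.mem_Ioc] at hk
      set j := (k - 2 * J * T) / T with hjd
      have hjT : j * T ≤ k - 2 * J * T := Nat.div_mul_le_self _ _
      have hjT2 : k - 2 * J * T < (j + 1) * T := by
        have := Nat.lt_mul_div_succ (k - 2 * J * T) (by omega : 0 < T)
        rw [← hjd] at this
        calc k - 2 * J * T < T * (j + 1) := this
          _ = (j + 1) * T := mul_comm _ _
      have hjle : j ≤ 2 * J := by
        by_contra hcon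
        push Not at hcon
        have h1 : (2 * J + 1) * T ≤ j * T := Nat.mul_le_mul_right T hcon
        have e1 : (4 * J + 1) * T = 2 * J * T + (2 * J + 1) * T := by ring
        omega
      have eA : (2 * J + j) * T = 2 * J * T + j * T := by ring
      have eA1 : (2 * J + (j + 1)) * T = 2 * J * T + j * T + T := by ring
      have eA2 : (j + 1) * T = j * T + T := by ring
      have hno1 : ∀ z' k', (z', k') ∈ TT hX zX sX LX 0 0 → (z', k') ∈ TT hY zY sY LY w 0 →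
          ¬ ((2 * J + j) * T - s ≤ k' ∧ k' < ((2 * J + j) * T - s) + (2 * i0 + 2 * s + 1)) := by
        intro z' k' h1 h2 h3
        exact hsl j (Finset.mem_range.2 (by omega)) z' k' (Set.mem_Ico.2 h3) h1 h2
      have hno2 : ∀ z' k', (z', k') ∈ TT hX zX sX LX 0 0 → (z', k') ∈ TT hY zY sY LY w 0 →
          ¬ ((2 * J + (j + 1)) * T - s ≤ k' ∧
            k' < ((2 * J + (j + 1)) * T - s) + (2 * i0 + 2 * s + 1)) := by
        intro z' k' h1 h2 h3
        exact hsl (j + 1) (Finset.mem_range.2 (by omega)) z' k' (Set.mem_Ico.2 h3) h1 h2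
      rw [eA] at hno1
      rw [eA1] at hno2
      refine le_trans ?_ (Finset.single_le_sum (f := fun j => (if HT hX LX = n ∧ HT hY LY = n ∧
          EvW hX zX sX hY zY sY w ((2 * J + j) * T + 2 * i0 + s) ((2 * J + j) * T + T - s)
            ((2 * J + j) * T) ((2 * J + j) * T + T + 2 * i0) LX LY
          then LW ΛX LX * LW ΛY LY else 0)) (fun i _ => zero_le)
          (Finset.mem_range.2 (by omega : j < 2 * J + 1)))
      rw [if_pos]
      refine ⟨hc1, hc2, ?_, ?_⟩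
      · refine ⟨z, k, ?_, ?_, hz1, hz2⟩
        · rw [eA]
          have := hno1 z k hz1 hz2
          omega
        · rw [eA]
          have := hno2 z k hz1 hz2
          omega
      · intro z' k' h1 h2 h3 h4
        rw [eA] at h3 h4 ⊢
        have g1 := hno1 z' k' h1 h2
        have g2 := hno2 z' k' h1 h2
        omega
  unfold KC
  refine (ENNReal.tsum_le_tsum fun LX => ENNReal.tsum_le_tsum fun LY => hpt LX LY).trans ?_
  simp_rw [ENNReal.tsum_add]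
  have sw : ∀ (N : ℕ) (f : ℕ → List BX → List BY → ℝ≥0∞),
      ∑' LX, ∑' LY, ∑ j ∈ Finset.range N, f j LX LY
        = ∑ j ∈ Finset.range N, ∑' LX, ∑' LY, f j LX LY := by
    intro N f
    have h : ∀ LX, ∑' LY, ∑ j ∈ Finset.range N, f j LX LY
        = ∑ j ∈ Finset.range N, ∑' LY, f j LX LY :=
      fun LX => Summable.tsum_finsetSum (fun i _ => ENNReal.summable)
    rw [tsum_congr h, Summable.tsum_finsetSum (fun i _ => ENNReal.summable)]
  rw [sw, sw]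

open Classical in
/-- **KAPPA on lists**, any contact at depth in `(m, 2m]`, `n ≥ 3m`. -/
theorem kapS (h1X : ∀ b, 1 ≤ hX b) (hΛX : ∑' b, ΛX b = 1) (hUX : ∀ n, U ΛX hX n ≤ 1)
    (h1Y : ∀ b, 1 ≤ hY b) (hΛY : ∑' b, ΛY b = 1) (hUY : ∀ n, U ΛY hY n ≤ 1)
    (hsX : ∀ b q, q ∈ sX b → 1 ≤ q.2 ∧ q.2 ≤ hX b) (hsY : ∀ b q, q ∈ sY b → 1 ≤ q.2 ∧ q.2 ≤ hY b)
    (hmX : ∑' b, ΛX b * (hX b : ℝ≥0∞) ≠ ⊤) (hmY : ∑' b, ΛY b * (hY b : ℝ≥0∞) ≠ ⊤)
    (C : ℝ≥0∞) (hC : C ≠ ⊤) (us : ℕ → ℝ≥0∞) (hus : Tendsto us atTop (𝓝 0))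
    (h2 : H2L ΛX hX zX sX ΛY hY zY sY C us) (h3 : H3L ΛX hX zX sX ΛY hY zY sY C us)
    (h5 : H5L ΛX hX zX sX ΛY hY zY sY) :
    ∀ ε : ℝ≥0∞, ε ≠ 0 → ∃ M, ∀ m, M ≤ m → ∀ n, 3 * m ≤ n → ∀ w,
      KC ΛX hX zX sX ΛY hY zY sY n w (Set.Ioc m (2 * m)) ≤ ε := by
  intro ε hε
  have hδ : ε / 8 ≠ 0 := by
    rw [Ne, ENNReal.div_eq_zero_iff, not_or]
    exact ⟨hε, by simp⟩
  set δ := ε / 8 with hδd
  obtain ⟨J, hJ1, u, hu0, hu1, hb1, hb2⟩ := num1 hδ
  have hut : u ≠ ⊤ := ne_top_of_le_ne_top ENNReal.one_ne_top hu1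
  -- overshoot
  set eX : ℕ → ℝ≥0∞ := fun i => ∑' k, tail ΛX hX (i + k) with heX
  set eY : ℕ → ℝ≥0∞ := fun i => ∑' k, tail ΛY hY (i + k) with heY
  have teX : Tendsto eX atTop (𝓝 0) := by
    have h := ENNReal.tendsto_sum_nat_add (fun k => tail ΛX hX k)
      (by rw [← sum_tail ΛX hX hΛX]; exact hmX)
    refine h.congr fun i => tsum_congr fun k => by rw [add_comm]
  have teY : Tendsto eY atTop (𝓝 0) := by
    have h := ENNReal.tendsto_sum_nat_add (fun k => tail ΛY hY k)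
      (by rw [← sum_tail ΛY hY hΛY]; exact hmY)
    refine h.congr fun i => tsum_congr fun k => by rw [add_comm]
  have te : Tendsto (fun i => eX i + eY i) atTop (𝓝 0) := by
    have := teX.add teY
    rwa [add_zero] at this
  have hc1 : ((2 * J + 1 : ℕ) : ℝ≥0∞) * (2 * J + 4) ≠ ⊤ := by
    refine ENNReal.mul_ne_top (ENNReal.natCast_ne_top _) ?_
    refine ENNReal.add_ne_top.2 ⟨ENNReal.mul_ne_top (by simp) (ENNReal.natCast_ne_top _), by simp⟩
  obtain ⟨i0, hi0⟩ := (num2 te hc1 hδ).exists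
  set e := eX i0 + eY i0 with he
  have hεX : ∀ a, ∑' L, (if fp hX a L ∧ a + i0 < HT hX L then LW ΛX L else 0) ≤ e :=
    fun a => (overshoot ΛX hX h1X hUX i0 a).trans le_self_add
  have hεY : ∀ a, ∑' L, (if fp hY a L ∧ a + i0 < HT hY L then LW ΛY L else 0) ≤ e :=
    fun a => (overshoot ΛY hY h1Y hUY i0 a).trans le_add_self
  -- lam
  set P : ℝ≥0∞ := ((i0 + 1 : ℕ) : ℝ≥0∞) * (i0 + 1 : ℕ) *
    (((i0 + 1 : ℕ) : ℝ≥0∞) * (i0 + 1 : ℕ) * C) with hP
  have hPt : P ≠ ⊤ := by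
    rw [hP]
    refine ENNReal.mul_ne_top (ENNReal.mul_ne_top (ENNReal.natCast_ne_top _)
      (ENNReal.natCast_ne_top _)) (ENNReal.mul_ne_top (ENNReal.mul_ne_top
      (ENNReal.natCast_ne_top _) (ENNReal.natCast_ne_top _)) hC)
  have hc2 : ((2 * J + 1 : ℕ) : ℝ≥0∞) * (2 * P) ≠ ⊤ :=
    ENNReal.mul_ne_top (ENNReal.natCast_ne_top _) (ENNReal.mul_ne_top (by simp) hPt)
  obtain ⟨lam, hl0, hl1, hlam⟩ := num3 hc2 hδ
  -- s
  set D : ℝ≥0∞ := ((i0 + 1 : ℕ) : ℝ≥0∞) * u⁻¹ with hD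
  have hDt : D ≠ ⊤ := ENNReal.mul_ne_top (ENNReal.natCast_ne_top _) (ENNReal.inv_ne_top.2 hu0)
  have hc3 : ((2 * J + 1 : ℕ) : ℝ≥0∞) * (2 * P) * (D * lam⁻¹ + 1) ≠ ⊤ :=
    ENNReal.mul_ne_top hc2 (ENNReal.add_ne_top.2 ⟨ENNReal.mul_ne_top hDt
      (ENNReal.inv_ne_top.2 hl0), ENNReal.one_ne_top⟩)
  obtain ⟨s, hs, hs1⟩ := ((num2 hus hc3 hδ).and (eventually_ge_atTop 1)).exists
  -- slabs
  obtain ⟨η, hη0, hη1, hη⟩ := num3 (c := ((2 * J + 2 : ℕ) : ℝ≥0∞)) (ENNReal.natCast_ne_top _) hδ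
  obtain ⟨T5, hT5⟩ := h5 (2 * i0 + 2 * s + 1) η hη0
  refine ⟨2 * J * (s + T5 + 4 * i0 + 4 * J + 1), fun m hm n hn w => ?_⟩
  set T := m / (2 * J) with hT
  have h2J : 0 < 2 * J := by omega
  have hTge : s + T5 + 4 * i0 + 4 * J + 1 ≤ T := by
    rw [hT, Nat.le_div_iff_mul_le h2J, mul_comm]
    exact hm
  have hTm : 2 * J * T ≤ m := by
    rw [hT]; exact Nat.mul_div_le m (2 * J)
  have hTm2 : m < 2 * J * (T + 1) := by
    rw [hT]; exact Nat.lt_mul_div_succ m h2J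
  have hm2 : 2 * m < (4 * J + 1) * T := by
    have e1 : (4 * J + 1) * T = 2 * (2 * J * T) + T := by ring
    have e2 : 2 * J * (T + 1) = 2 * J * T + 2 * J := by ring
    omega
  refine (cover T J i0 s m n w hJ1 (by omega) (by omega) hTm hm2).trans ?_
  have hslab : ∑ j ∈ Finset.range (2 * J + 2), KC ΛX hX zX sX ΛY hY zY sY n w
          (Set.Ico ((2 * J + j) * T - s) (((2 * J + j) * T - s) + (2 * i0 + 2 * s + 1)))
        ≤ δ := by
    calc _ ≤ ∑ j ∈ Finset.range (2 * J + 2), η := by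
          refine Finset.sum_le_sum fun j hj => hT5 _ ?_ n w
          have e1 : (2 * J + j) * T = 2 * J * T + j * T := by ring
          have e2 : T ≤ 2 * J * T := Nat.le_mul_of_pos_left T h2J
          omega
      _ = ((2 * J + 2 : ℕ) : ℝ≥0∞) * η := by
          rw [Finset.sum_const, Finset.card_range, nsmul_eq_mul]
      _ ≤ δ := hη
  set Bd : ℝ≥0∞ := u * u + 2 * (((i0 + 1 : ℕ) : ℝ≥0∞) * (i0 + 1 : ℕ) *
      (((i0 + 1 : ℕ) : ℝ≥0∞) * (i0 + 1 : ℕ) *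
      (C * (lam + (((i0 + 1 : ℕ) : ℝ≥0∞) * u⁻¹) * us s / lam + us s)))
      + ((1 - u) ^ J + J * e)) + 4 * e with hBd
  have hwin : ∑ j ∈ Finset.range (2 * J + 1), ∑' LX, ∑' LY, (if HT hX LX = n ∧ HT hY LY = n ∧
          EvW hX zX sX hY zY sY w ((2 * J + j) * T + 2 * i0 + s) ((2 * J + j) * T + T - s)
            ((2 * J + j) * T) ((2 * J + j) * T + T + 2 * i0) LX LY
          then LW ΛX LX * LW ΛY LY else 0) ≤ ((2 * J + 1 : ℕ) : ℝ≥0∞) * Bd := by
    calc _ ≤ ∑ j ∈ Finset.range (2 * J + 1), Bd := by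
          refine Finset.sum_le_sum fun j hj => ?_
          rw [Finset.mem_range] at hj
          have e1 : (2 * J + j) * T = 2 * J * T + j * T := by ring
          have e3 : j * T ≤ 2 * J * T := Nat.mul_le_mul_right T (by omega)
          have e4 : 2 * T ≤ 2 * J * T := Nat.mul_le_mul_right T (by omega)
          refine window_bd h1X hΛX hUX h1Y hΛY hUY hsX hsY C us h2 h3 ((2 * J + j) * T) T i0 s J n
            hs1 (by omega) (by omega) ?_ e hεX hεY u lam hu0 hu1 hl0 hl1 w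
          calc J * (T + 3 * i0) ≤ J * (2 * T) := Nat.mul_le_mul_left _ (by omega)
            _ = 2 * J * T := by ring
            _ ≤ (2 * J + j) * T := by omega
      _ = _ := by rw [Finset.sum_const, Finset.card_range, nsmul_eq_mul]
  have hfin : ((2 * J + 1 : ℕ) : ℝ≥0∞) * Bd ≤ 5 * δ := by
    set N : ℝ≥0∞ := ((2 * J + 1 : ℕ) : ℝ≥0∞) with hN
    have e1 : N * Bd = N * (u * u) + N * (2 * (1 - u) ^ J) + N * (2 * J + 4) * e
        + N * (2 * P) * lam + N * (2 * P) * (D * lam⁻¹ + 1) * us s := by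
      rw [hBd, hP, hD, div_eq_mul_inv]
      ring
    rw [e1]
    calc _ ≤ δ + δ + δ + δ + δ := by
          refine add_le_add (add_le_add (add_le_add (add_le_add hb1 hb2) hi0) hlam) hs
      _ = 5 * δ := by ring
  calc _ ≤ δ + 5 * δ := add_le_add hslab (hwin.trans hfin)
    _ = 6 * δ := by ring
    _ ≤ 8 * δ := by gcongr; norm_num
    _ = ε := by
        rw [hδd, ENNReal.mul_div_cancel (by norm_num) (by simp)]

end Crest.Agent.R154.Asm4
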