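import Crest.Agent.R154.AsmG_594
import Crest.Agent.R154.AsmA_789

/-! Row 154, ROAD 801 (helper594): the assembly `kapS`. Pure sums. -/

set_option autoImplicit false

namespace Crest.Agent.R154.Asm594

open scoped ENNReal Topology
open Crest.Agent.R154.B5A
open Crest.Agent.R154.Bind12 (TT Dp)

section pair

variable {BX BY G : Type*} [AddCommGroup G] (ΛX : BX → ℝ≥0∞) (ΛY : BY → ℝ≥0∞)
  (hX : BX → ℕ) (hY : BY → ℕ) (zX : BX → G) (zY : BY → G)
  (sX : BX → Set (G × ℕ)) (sY : BY → Set (G × ℕ))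

lemma geo (T i0 s K0 j : ℕ) (hj : j ≤ 2 * K0) (hsT : s ≤ T) :
    Geo T (T + i0) i0 (j * T + 2 * (2 * K0 + 1) * i0 + s) ((j + 1) * T - s) s
      (2 * (2 * K0 + 1) * i0)
      (Finset.Icc (j * T) (j * (T + i0))) (Finset.Icc (j * (T + i0)) (j * (T + i0 + i0))) := by
  intro a ha a' ha' h h' c1 c2 c3 c4
  rw [Finset.mem_Icc] at ha ha'
  have e1 : j * (T + i0) = j * T + j * i0 := Nat.mul_add _ _ _
  have e2 : j * (T + i0 + i0) = j * T + j * i0 + j * i0 := by ring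
  have e3 : (j + 1) * T = j * T + T := by ring
  have e4 : 2 * (2 * K0 + 1) * i0 = (2 * K0 + 1) * i0 + (2 * K0 + 1) * i0 := by ring
  have e5 : (j + 1) * i0 ≤ (2 * K0 + 1) * i0 := Nat.mul_le_mul_right _ (by omega)
  have e6 : (j + 1) * i0 = j * i0 + i0 := by ring
  refine ⟨?_, ?_, ?_, ?_, ?_, ?_, ?_, ?_⟩ <;> omega

open Classical in
lemma ovX_le (h1X : ∀ b, 1 ≤ hX b) (hΛX : ∑' b, ΛX b = 1) (hU1X : ∀ n, U ΛX hX n ≤ 1)
    (hU1Y : ∀ n, U ΛY hY n ≤ 1) (T i0 n j : ℕ) :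
    ∑' p : List BX × List BY, (if OVR hX T i0 j p.1 then wt ΛX ΛY hX hY n p else 0)
      ≤ ∑' b, ΛX b * ((hX b - i0 : ℕ) : ℝ≥0∞) := by
  rw [ENNReal.tsum_prod']
  calc _ = ∑' LX : List BX, ∑' LY : List BY, (if HT hX LX = n ∧ OVR hX T i0 j LX then LW ΛX LX else 0) *
        (if 0 + HT hY LY = n then LW ΛY LY else 0) := by
        refine tsum_congr fun LX => tsum_congr fun LY => ?_
        unfold wt
        simp only [zero_add]
        by_cases q1 : HT hX LX = n <;> by_cases q2 : OVR hX T i0 j LX <;>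
          by_cases q3 : HT hY LY = n <;> simp [q1, q2, q3]
    _ = (∑' LX : List BX, (if HT hX LX = n ∧ OVR hX T i0 j LX then LW ΛX LX else 0)) *
        (∑' LY : List BY, (if 0 + HT hY LY = n then LW ΛY LY else 0)) := by
        simp_rw [ENNReal.tsum_mul_left]
        rw [ENNReal.tsum_mul_right]
    _ ≤ gp ΛX hX T i0 * 1 :=
        mul_le_mul' (ovr_le ΛX hX h1X hΛX hU1X T i0 n j) (rest_le ΛY hY hU1Y 0 n)
    _ ≤ _ := by rw [mul_one]; exact gp_le ΛX hX hU1X T i0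

open Classical in
lemma ovY_le (h1Y : ∀ b, 1 ≤ hY b) (hΛY : ∑' b, ΛY b = 1) (hU1X : ∀ n, U ΛX hX n ≤ 1)
    (hU1Y : ∀ n, U ΛY hY n ≤ 1) (T i0 n j : ℕ) :
    ∑' p : List BX × List BY, (if OVR hY T i0 j p.2 then wt ΛX ΛY hX hY n p else 0)
      ≤ ∑' b, ΛY b * ((hY b - i0 : ℕ) : ℝ≥0∞) := by
  rw [ENNReal.tsum_prod']
  calc _ = ∑' LX : List BX, ∑' LY : List BY, (if 0 + HT hX LX = n then LW ΛX LX else 0) *
        (if HT hY LY = n ∧ OVR hY T i0 j LY then LW ΛY LY else 0) := by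
        refine tsum_congr fun LX => tsum_congr fun LY => ?_
        unfold wt
        simp only [zero_add]
        by_cases q1 : HT hX LX = n <;> by_cases q2 : OVR hY T i0 j LY <;>
          by_cases q3 : HT hY LY = n <;> simp [q1, q2, q3]
    _ = (∑' LX : List BX, (if 0 + HT hX LX = n then LW ΛX LX else 0)) *
        (∑' LY : List BY, (if HT hY LY = n ∧ OVR hY T i0 j LY then LW ΛY LY else 0)) := by
        simp_rw [ENNReal.tsum_mul_left]
        rw [ENNReal.tsum_mul_right]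
    _ ≤ 1 * gp ΛY hY T i0 :=
        mul_le_mul' (rest_le ΛX hX hU1X 0 n) (ovr_le ΛY hY h1Y hΛY hU1Y T i0 n j)
    _ ≤ _ := by rw [one_mul]; exact gp_le ΛY hY hU1Y T i0

open Classical in
/-- the pair sum, split -/
lemma split_le (h1X : ∀ b, 1 ≤ hX b) (h1Y : ∀ b, 1 ≤ hY b) (hΛX : ∑' b, ΛX b = 1)
    (hΛY : ∑' b, ΛY b = 1) (hU1X : ∀ n, U ΛX hX n ≤ 1) (hU1Y : ∀ n, U ΛY hY n ≤ 1)
    (hsX : ∀ b, ∀ p ∈ sX b, 1 ≤ p.2 ∧ p.2 ≤ hX b) (hsY : ∀ b, ∀ p ∈ sY b, 1 ≤ p.2 ∧ p.2 ≤ hY b)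
    (T i0 s K0 m n : ℕ) (w : G) (hK0 : 1 ≤ K0) (hsT : s ≤ T) (hm1 : K0 * T ≤ m)
    (hm2 : 2 * m < (2 * K0 + 1) * T) (hn : (2 * K0 + 1) * (T + i0 + i0) ≤ n)
    (η u η5 : ℝ≥0∞) (hu : u ≠ 0) (hu1 : u < 1)
    (hF2 : F2 ΛX ΛY hX hY zX zY sX sY η u⁻¹ s (2 * (2 * K0 + 1) * i0))
    (hF3 : F3 ΛX ΛY hX hY zX zY sX sY η u⁻¹ s (2 * (2 * K0 + 1) * i0))
    (hslab : ∀ j ∈ Finset.Icc K0 (2 * K0 + 1), ∑' p : List BX × List BY,
      (if CT hX hY zX zY sX sY w (fun k => j * T - s ≤ k ∧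
        k < j * T - s + (2 * (2 * K0 + 1) * i0 + 2 * s + 1)) p.1 p.2
        then wt ΛX ΛY hX hY n p else 0) ≤ η5) :
    ∑' p : List BX × List BY,
      (if CT hX hY zX zY sX sY w (fun k => m < k ∧ k ≤ 2 * m) p.1 p.2
        then wt ΛX ΛY hX hY n p else 0)
      ≤ ((K0 + 2 : ℕ) * η5 + ((2 * K0 + 1 : ℕ) * (∑' b, ΛX b * ((hX b - i0 : ℕ) : ℝ≥0∞)) +
        (2 * K0 + 1 : ℕ) * (∑' b, ΛY b * ((hY b - i0 : ℕ) : ℝ≥0∞)))) +
        (K0 + 1 : ℕ) * (2 * ((1 - u) ^ K0 + ((2 * K0 + 1) * i0 + 1 : ℕ) * ((2 * K0 + 1) * i0 + 1 : ℕ) *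
        ((i0 + 1 : ℕ) * (i0 + 1 : ℕ) * η)) + u * u) := by
  set f1 : ℕ → List BX × List BY → ℝ≥0∞ := fun j p =>
    (if CT hX hY zX zY sX sY w (fun k => j * T - s ≤ k ∧
        k < j * T - s + (2 * (2 * K0 + 1) * i0 + 2 * s + 1)) p.1 p.2
        then wt ΛX ΛY hX hY n p else 0) with hf1
  set f2 : ℕ → List BX × List BY → ℝ≥0∞ := fun j p =>
    (if OVR hX T i0 j p.1 then wt ΛX ΛY hX hY n p else 0) with hf2
  set f3 : ℕ → List BX × List BY → ℝ≥0∞ := fun j p =>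
    (if OVR hY (T + i0) i0 j p.2 then wt ΛX ΛY hX hY n p else 0) with hf3
  set f4 : ℕ → List BX × List BY → ℝ≥0∞ := fun j p =>
    (if ∃ t, cat2 t = p ∧
      PHI hX hY zX zY sX sY T (T + i0) i0 j (j * T + 2 * (2 * K0 + 1) * i0 + s) ((j + 1) * T - s)
        (Finset.Icc (j * T) (j * (T + i0))) (Finset.Icc (j * (T + i0)) (j * (T + i0 + i0))) w t.1
      then wt ΛX ΛY hX hY n p else 0) with hf4
  have hpt : ∀ p : List BX × List BY,
      (if CT hX hY zX zY sX sY w (fun k => m < k ∧ k ≤ 2 * m) p.1 p.2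
        then wt ΛX ΛY hX hY n p else 0)
      ≤ (∑ j ∈ Finset.Icc K0 (2 * K0 + 1), f1 j p + (∑ j ∈ Finset.range (2 * K0 + 1), f2 j p +
        ∑ j ∈ Finset.range (2 * K0 + 1), f3 j p)) + ∑ j ∈ Finset.Icc K0 (2 * K0), f4 j p := by
    intro p
    by_cases hc : CT hX hY zX zY sX sY w (fun k => m < k ∧ k ≤ 2 * m) p.1 p.2
    · rw [if_pos hc]
      by_cases hh : HT hX p.1 = n ∧ HT hY p.2 = n
      · by_cases a1 : ∃ j ∈ Finset.Icc K0 (2 * K0 + 1), CT hX hY zX zY sX sY w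
            (fun k => j * T - s ≤ k ∧ k < j * T - s + (2 * (2 * K0 + 1) * i0 + 2 * s + 1)) p.1 p.2
        · obtain ⟨j, hj, hjc⟩ := a1
          have e : wt ΛX ΛY hX hY n p = f1 j p := by simp only [hf1]; rw [if_pos hjc]
          rw [e]
          exact le_trans (Finset.single_le_sum (f := fun j => f1 j p) (fun _ _ => zero_le) hj)
            (le_trans le_self_add le_self_add)
        · by_cases a2 : ∃ j, j < 2 * K0 + 1 ∧ OVR hX T i0 j p.1
          · obtain ⟨j, hj, hjc⟩ := a2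
            have e : wt ΛX ΛY hX hY n p = f2 j p := by simp only [hf2]; rw [if_pos hjc]
            rw [e]
            exact le_trans (Finset.single_le_sum (f := fun j => f2 j p) (fun _ _ => zero_le)
              (Finset.mem_range.2 hj)) (le_trans le_self_add (le_trans le_add_self le_self_add))
          · by_cases a3 : ∃ j, j < 2 * K0 + 1 ∧ OVR hY (T + i0) i0 j p.2
            · obtain ⟨j, hj, hjc⟩ := a3
              have e : wt ΛX ΛY hX hY n p = f3 j p := by simp only [hf3]; rw [if_pos hjc]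
              rw [e]
              exact le_trans (Finset.single_le_sum (f := fun j => f3 j p) (fun _ _ => zero_le)
                (Finset.mem_range.2 hj)) (le_trans le_add_self (le_trans le_add_self le_self_add))
            · obtain ⟨j, hj, hjc⟩ := cover hX hY zX zY sX sY hsX hsY T i0 s K0 m n w hK0 hsT hm1 hm2
                hn p.1 p.2 hh.1 hh.2 hc (fun j hj hcon => a1 ⟨j, hj, hcon⟩)
                (fun j hj hcon => a2 ⟨j, hj, hcon⟩) (fun j hj hcon => a3 ⟨j, hj, hcon⟩)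
              have e : wt ΛX ΛY hX hY n p = f4 j p := by simp only [hf4]; rw [if_pos hjc]
              rw [e]
              exact le_trans (Finset.single_le_sum (f := fun j => f4 j p) (fun _ _ => zero_le) hj)
                le_add_self
      · unfold wt
        rw [if_neg hh]
        exact zero_le
    · rw [if_neg hc]; exact zero_le
  refine (ENNReal.tsum_le_tsum hpt).trans ?_
  rw [ENNReal.tsum_add, ENNReal.tsum_add, ENNReal.tsum_add,
    Summable.tsum_finsetSum (fun i _ => ENNReal.summable),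
    Summable.tsum_finsetSum (fun i _ => ENNReal.summable),
    Summable.tsum_finsetSum (fun i _ => ENNReal.summable),
    Summable.tsum_finsetSum (fun i _ => ENNReal.summable)]
  refine add_le_add (add_le_add ?_ (add_le_add ?_ ?_)) ?_
  · calc _ ≤ ∑ j ∈ Finset.Icc K0 (2 * K0 + 1), η5 := Finset.sum_le_sum hslab
      _ = _ := by
        rw [Finset.sum_const, Nat.card_Icc, nsmul_eq_mul, show 2 * K0 + 1 + 1 - K0 = K0 + 2 by omega]
  · calc _ ≤ ∑ j ∈ Finset.range (2 * K0 + 1), ∑' b, ΛX b * ((hX b - i0 : ℕ) : ℝ≥0∞) :=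
          Finset.sum_le_sum fun j _ => ovX_le ΛX ΛY hX hY h1X hΛX hU1X hU1Y T i0 n j
      _ = _ := by rw [Finset.sum_const, Finset.card_range, nsmul_eq_mul]
  · calc _ ≤ ∑ j ∈ Finset.range (2 * K0 + 1), ∑' b, ΛY b * ((hY b - i0 : ℕ) : ℝ≥0∞) :=
          Finset.sum_le_sum fun j _ => ovY_le ΛX ΛY hX hY h1Y hΛY hU1X hU1Y (T + i0) i0 n j
      _ = _ := by rw [Finset.sum_const, Finset.card_range, nsmul_eq_mul]
  · calc _ ≤ ∑ j ∈ Finset.Icc K0 (2 * K0), (2 * ((1 - u) ^ K0 + ((2 * K0 + 1) * i0 + 1 : ℕ) *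
          ((2 * K0 + 1) * i0 + 1 : ℕ) * ((i0 + 1 : ℕ) * (i0 + 1 : ℕ) * η)) + u * u) := by
          refine Finset.sum_le_sum fun j hj => ?_
          rw [Finset.mem_Icc] at hj
          refine (wev_le ΛX ΛY hX hY zX zY sX sY hU1X hU1Y T (T + i0) i0 j _ _ n _ _ w).trans ?_
          refine (window_le ΛX ΛY hX hY zX zY sX sY h1X h1Y hΛX hΛY T (T + i0) i0 _ _ s _ j _ _
            (geo T i0 s K0 j hj.2 hsT) η u hu hu1 hF2 hF3 w).trans ?_
          have c1 : (Finset.Icc (j * T) (j * (T + i0))).card ≤ (2 * K0 + 1) * i0 + 1 := by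
            rw [Nat.card_Icc, Nat.mul_add]
            have : j * i0 ≤ (2 * K0 + 1) * i0 := Nat.mul_le_mul_right _ (by omega)
            omega
          have c2 : (Finset.Icc (j * (T + i0)) (j * (T + i0 + i0))).card ≤ (2 * K0 + 1) * i0 + 1 := by
            rw [Nat.card_Icc, Nat.mul_add j (T + i0)]
            have : j * i0 ≤ (2 * K0 + 1) * i0 := Nat.mul_le_mul_right _ (by omega)
            omega
          refine add_le_add (mul_le_mul_right (add_le_add ?_ ?_) _) le_rfl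
          · exact pow_le_pow_right_of_le_one' tsub_le_self hj.1
          · refine mul_le_mul_left (mul_le_mul' ?_ ?_) _
            · exact_mod_cast c1
            · exact_mod_cast c2
      _ = _ := by
        rw [Finset.sum_const, Nat.card_Icc, nsmul_eq_mul, show 2 * K0 + 1 - K0 = K0 + 1 by omega]

end pair

end Crest.Agent.R154.Asm594
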