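import Crest.Agent.R154.AsmG_790

/-! Row 154, ROAD 801 (helper790): abstract assembly, part H: from the lists to one window. -/

set_option autoImplicit false

namespace Crest.Agent.R154.Asm790

open scoped ENNReal
open Crest.Agent.R154.B5A

variable {BX BY G : Type*} [AddCommGroup G]
variable (ΛX : BX → ℝ≥0∞) (ΛY : BY → ℝ≥0∞) (hX : BX → ℕ) (hY : BY → ℕ) (zX : BX → G) (zY : BY → G)
  (sX : BX → Set (G × ℕ)) (sY : BY → Set (G × ℕ))

/-- window event -/
def Wev (τ i s j : ℕ) (w : G) (LX : List BX) (LY : List BY) : Prop :=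
  (∃ z k, j * τ + i + s ≤ k ∧ k ≤ (j + 1) * τ - s - 1 ∧
    (z, k) ∈ TX hX zX sX LX 0 0 ∧ (z, k) ∈ TX hY zY sY LY w 0) ∧
  (∀ z k, (z, k) ∈ TX hX zX sX LX 0 0 → (z, k) ∈ TX hY zY sY LY w 0 →
    ¬ (j * τ ≤ k + s ∧ k < j * τ + i + s) ∧ ¬ ((j + 1) * τ ≤ k + s ∧ k < (j + 1) * τ + i + s))

lemma win_step (hsX : ∀ b q, q ∈ sX b → 1 ≤ q.2 ∧ q.2 ≤ hX b)
    (hsY : ∀ b q, q ∈ sY b → 1 ≤ q.2 ∧ q.2 ≤ hY b) (τ i0 i s j : ℕ) (hs : 1 ≤ s)
    (hi0 : (j + 1) * i0 ≤ i) (hτ : s + 1 ≤ τ) (w : G)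
    (Q : List (List BX)) (Q' : List (List BY)) (R : List BX) (R' : List BY)
    (hQl : Q.length = j + 1) (hQl' : Q'.length = j + 1)
    (hQ : ∀ P ∈ Q, La ΛX hX τ i0 P ≠ 0) (hQ' : ∀ P ∈ Q', La ΛY hY τ i0 P ≠ 0)
    (hW : Wev hX hY zX zY sX sY τ i s j w (Q.flatten ++ R) (Q'.flatten ++ R')) :
    Cc hX hY zX zY sX sY (j * τ + i + s) ((j + 1) * τ - s - 1) (Q.getLastD []) (Q'.getLastD [])
      (w + Dp zY Q'.dropLast.flatten - Dp zX Q.dropLast.flatten)
      (HT hX Q.dropLast.flatten) (HT hY Q'.dropLast.flatten) := by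
  obtain ⟨Q0, P, rfl⟩ : ∃ Q0 P, Q = Q0 ++ [P] := by
    rcases List.eq_nil_or_concat Q with h | ⟨Q0, P, h⟩
    · rw [h] at hQl; simp at hQl
    · exact ⟨Q0, P, by rw [h, List.concat_eq_append]⟩
  obtain ⟨Q0', P', rfl⟩ : ∃ Q0 P, Q' = Q0 ++ [P] := by
    rcases List.eq_nil_or_concat Q' with h | ⟨Q0, P, h⟩
    · rw [h] at hQl'; simp at hQl'
    · exact ⟨Q0, P, by rw [h, List.concat_eq_append]⟩
  rw [List.length_append, List.length_singleton] at hQl hQl'
  have hl : Q0.length = j := by omega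
  have hl' : Q0'.length = j := by omega
  simp only [List.getLastD_concat, List.dropLast_concat]
  have b1 := HT_flatten ΛX hX τ i0 Q0 fun P hP => hQ P (List.mem_append_left _ hP)
  have b2 := HT_flatten ΛY hY τ i0 Q0' fun P hP => hQ' P (List.mem_append_left _ hP)
  rw [hl] at b1
  rw [hl'] at b2
  obtain ⟨f1, f2⟩ := La_ne ΛX hX τ i0 P (hQ P (by simp))
  obtain ⟨g1, g2⟩ := La_ne ΛY hY τ i0 P' (hQ' P' (by simp))
  have f3 := FP_le hX P τ f1
  have g3 := FP_le hY P' τ g1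
  have e2 : (j + 1) * τ = j * τ + τ := by ring
  have e3 : (j + 1) * i0 = j * i0 + i0 := by ring
  set a := HT hX Q0.flatten with ha
  set a' := HT hY Q0'.flatten with ha'
  set x := Dp zX Q0.flatten with hx
  set x' := Dp zY Q0'.flatten with hx'
  have tX : ∀ q, q ∈ TX hX zX sX ((Q0 ++ [P]).flatten ++ R) 0 0 ↔
      q ∈ TX hX zX sX Q0.flatten 0 0 ∨ q ∈ TX hX zX sX P (0 + x) a ∨
        q ∈ TX hX zX sX R (0 + x + Dp zX P) (a + HT hX P) := by
    intro q
    rw [List.flatten_append, List.flatten_cons, List.flatten_nil, List.append_nil,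
      List.append_assoc, TX_append, TX_append]
    simp only [Set.mem_union, zero_add]
    rfl
  have tY : ∀ q, q ∈ TX hY zY sY ((Q0' ++ [P']).flatten ++ R') w 0 ↔
      q ∈ TX hY zY sY Q0'.flatten w 0 ∨ q ∈ TX hY zY sY P' (w + x') a' ∨
        q ∈ TX hY zY sY R' (w + x' + Dp zY P') (a' + HT hY P') := by
    intro q
    rw [List.flatten_append, List.flatten_cons, List.flatten_nil, List.append_nil,
      List.append_assoc, TX_append, TX_append]
    simp only [Set.mem_union, zero_add]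
    rfl
  have e4 : w + x' = (w + x' - x) + x := by abel
  obtain ⟨⟨z, k, k1, k2, c1, c2⟩, hall⟩ := hW
  refine ⟨⟨z - x, k, ?_, ?_⟩, ?_⟩
  · rcases (tX _).1 c1 with h | h | h
    · have := TX_depth hX zX sX hsX _ _ _ _ h
      simp only at this; omega
    · rwa [TX_shift] at h
    · have := TX_depth hX zX sX hsX _ _ _ _ h
      simp only at this; omega
  · rcases (tY _).1 c2 with h | h | h
    · have := TX_depth hY zY sY hsY _ _ _ _ h
      simp only at this; omega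
    · rwa [e4, TX_shift] at h
    · have := TX_depth hY zY sY hsY _ _ _ _ h
      simp only at this; omega
  · intro y k' h1 h2
    have d1 := TX_depth hX zX sX hsX _ _ _ _ h1
    have d2 := TX_depth hY zY sY hsY _ _ _ _ h2
    simp only at d1 d2
    have h1' : (y + x, k') ∈ TX hX zX sX P (0 + x) a := by
      rw [TX_shift, add_sub_cancel_right]; exact h1
    have h2' : (y + x, k') ∈ TX hY zY sY P' (w + x') a' := by
      rw [e4, TX_shift, add_sub_cancel_right]; exact h2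
    obtain ⟨n1, n2⟩ := hall (y + x) k' ((tX _).2 (Or.inr (Or.inl h1')))
      ((tY _).2 (Or.inr (Or.inl h2')))
    omega

open Classical in
lemma window_le (h1X : ∀ b, 1 ≤ hX b) (h1Y : ∀ b, 1 ≤ hY b) (hΛX : ∑' b, ΛX b = 1)
    (hΛY : ∑' b, ΛY b = 1) (hUX : ∀ n, U ΛX hX n ≤ 1) (hUY : ∀ n, U ΛY hY n ≤ 1)
    (hsX : ∀ b q, q ∈ sX b → 1 ≤ q.2 ∧ q.2 ≤ hX b)
    (hsY : ∀ b q, q ∈ sY b → 1 ≤ q.2 ∧ q.2 ≤ hY b) (τ i0 i s j n : ℕ) (hs : 1 ≤ s)
    (hi0 : (j + 1) * i0 ≤ i) (hτ : s + 1 ≤ τ) (hn : (j + 1) * (τ + i0) ≤ n) (w : G) :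
    ∑' LX, ∑' LY, (if HT hX LX = n ∧ HT hY LY = n ∧ Wev hX hY zX zY sX sY τ i s j w LX LY then
        LW ΛX LX * LW ΛY LY else 0)
      ≤ (j + 1 : ℕ) * Ov ΛX hX τ i0 + (j + 1 : ℕ) * Ov ΛY hY τ i0 +
        Vw ΛX ΛY hX hY zX zY sX sY τ i0 (j * τ + i + s) ((j + 1) * τ - s - 1) j w := by
  set f : List BX → ℝ≥0∞ := fun LX => ∑' LY, (if HT hY LY = n then LW ΛY LY *
    (if Wev hX hY zX zY sX sY τ i s j w LX LY then 1 else 0) else 0) with hf
  have hf1 : ∀ LX, f LX ≤ 1 := by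
    intro LX
    refine le_trans (ENNReal.tsum_le_tsum fun LY => ?_) (hUY n)
    by_cases h : HT hY LY = n
    · rw [if_pos h, if_pos h]
      split_ifs <;> simp
    · rw [if_neg h]; exact zero_le
  have e1 : ∑' LX, ∑' LY, (if HT hX LX = n ∧ HT hY LY = n ∧
        Wev hX hY zX zY sX sY τ i s j w LX LY then LW ΛX LX * LW ΛY LY else 0)
      = ∑' LX, (if HT hX LX = n then LW ΛX LX * f LX else 0) := by
    refine tsum_congr fun LX => ?_
    by_cases h : HT hX LX = n
    · rw [if_pos h, hf, ← ENNReal.tsum_mul_left]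
      refine tsum_congr fun LY => ?_
      by_cases h2 : HT hY LY = n <;> by_cases h3 : Wev hX hY zX zY sX sY τ i s j w LX LY <;>
        simp [h, h2, h3]
    · simp [h]
  rw [e1]
  refine (dec ΛX hX h1X hΛX.le hUX τ i0 (j + 1) n hn f hf1).trans ?_
  rw [add_assoc]
  refine add_le_add_right ?_ _
  have key : ∀ Q : List (List BX), Q.length = j + 1 → (∀ P ∈ Q, La ΛX hX τ i0 P ≠ 0) →
      ∑' R, (if HT hX Q.flatten + HT hX R = n then LW ΛX R * f (Q.flatten ++ R) else 0)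
      ≤ (j + 1 : ℕ) * Ov ΛY hY τ i0 + SL (La ΛY hY τ i0) (j + 1) (fun Q' =>
        if Cc hX hY zX zY sX sY (j * τ + i + s) ((j + 1) * τ - s - 1) (Q.getLastD [])
          (Q'.getLastD []) (w + Dp zY Q'.dropLast.flatten - Dp zX Q.dropLast.flatten)
          (HT hX Q.dropLast.flatten) (HT hY Q'.dropLast.flatten) then 1 else 0) := by
    intro Q hQl hQ
    set b := (j + 1 : ℕ) * Ov ΛY hY τ i0 + SL (La ΛY hY τ i0) (j + 1) (fun Q' =>
        if Cc hX hY zX zY sX sY (j * τ + i + s) ((j + 1) * τ - s - 1) (Q.getLastD [])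
          (Q'.getLastD []) (w + Dp zY Q'.dropLast.flatten - Dp zX Q.dropLast.flatten)
          (HT hX Q.dropLast.flatten) (HT hY Q'.dropLast.flatten) then (1 : ℝ≥0∞) else 0) with hb
    have hfb : ∀ R, f (Q.flatten ++ R) ≤ b := by
      intro R
      refine (dec ΛY hY h1Y hΛY.le hUY τ i0 (j + 1) n hn _ (fun L => by split_ifs <;> simp)).trans ?_
      refine add_le_add_right (SL_mono' _ _ fun Q' hQl' hQ' => ?_) _
      have step : ∀ R', (if HT hY Q'.flatten + HT hY R' = n then LW ΛY R' *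
          (if Wev hX hY zX zY sX sY τ i s j w (Q.flatten ++ R) (Q'.flatten ++ R') then 1 else 0)
            else 0) ≤ (if HT hY R' = n - HT hY Q'.flatten then LW ΛY R' else 0) *
          (if Cc hX hY zX zY sX sY (j * τ + i + s) ((j + 1) * τ - s - 1) (Q.getLastD [])
          (Q'.getLastD []) (w + Dp zY Q'.dropLast.flatten - Dp zX Q.dropLast.flatten)
          (HT hX Q.dropLast.flatten) (HT hY Q'.dropLast.flatten) then (1 : ℝ≥0∞) else 0) := by
        intro R'
        by_cases h : HT hY Q'.flatten + HT hY R' = n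
        · rw [if_pos h, if_pos (show HT hY R' = n - HT hY Q'.flatten by omega)]
          by_cases h2 : Wev hX hY zX zY sX sY τ i s j w (Q.flatten ++ R) (Q'.flatten ++ R')
          · rw [if_pos h2, if_pos (win_step ΛX ΛY hX hY zX zY sX sY hsX hsY τ i0 i s j hs hi0 hτ w
              Q Q' R R' hQl hQl' hQ hQ' h2)]
          · rw [if_neg h2, mul_zero]; exact zero_le
        · rw [if_neg h]; exact zero_le
      refine (ENNReal.tsum_le_tsum step).trans ?_
      rw [ENNReal.tsum_mul_right]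
      calc _ ≤ 1 * _ := mul_le_mul_left (hUY _) _
        _ = _ := one_mul _
    calc _ ≤ ∑' R, (if HT hX R = n - HT hX Q.flatten then LW ΛX R else 0) * b := by
          refine ENNReal.tsum_le_tsum fun R => ?_
          by_cases h : HT hX Q.flatten + HT hX R = n
          · rw [if_pos h, if_pos (by omega)]
            exact mul_le_mul_right (hfb R) _
          · rw [if_neg h]; exact zero_le
      _ ≤ 1 * b := by
          rw [ENNReal.tsum_mul_right]; exact mul_le_mul_left (hUX _) _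
      _ = b := one_mul _
  refine (SL_mono' _ _ key).trans ?_
  rw [SL_add_fun]
  exact add_le_add_left (SL_const_le _ (sum_La ΛX hX h1X hΛX.le τ i0) _ _) _

end Crest.Agent.R154.Asm790
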