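import Crest.Agent.R154.AsmH_10
import Crest.Agent.R154.NumK_658
import Crest.Agent.R154.Num_337

/-! Row 154, ROAD 801, abstract assembly, part I (helper10): the order of the constants; `kapS`. -/

set_option autoImplicit false
set_option maxHeartbeats 1000000

namespace Crest.Agent.R154.Asm10

open scoped ENNReal Topology
open Filter Crest.Agent.R154.B5A

section Fin

variable {BX BY G : Type*} [AddCommGroup G] (ΛX : BX → ℝ≥0∞) (ΛY : BY → ℝ≥0∞)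
  (hX : BX → ℕ) (hY : BY → ℕ) (zX : BX → G) (zY : BY → G)
  (sX : BX → Set (G × ℕ)) (sY : BY → Set (G × ℕ))

lemma notSm_I {B : Type*} (Λ : B → ℝ≥0∞) (h : B → ℕ) (z : B → G) (T i0 : ℕ) (θ v : ℝ≥0∞)
    (hv : by classical exact (∑' P, if Sm Λ h z T i0 θ P then 0 else LP Λ h T P) ≤ v) :
    ∑' P, LP Λ h T P * I (¬ Sm Λ h z T i0 θ P) ≤ v := by
  classical
  refine le_trans (le_of_eq ?_) hv
  refine tsum_congr fun P => ?_
  by_cases hS : Sm Λ h z T i0 θ P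
  · rw [I_neg (not_not.2 hS), if_pos hS, mul_zero]
  · rw [I_pos hS, if_neg hS, mul_one]

/-- **the assembly**: `kapS` from the two window lemmas and the point estimate. -/
theorem kapS (hsX : ∀ b q, q ∈ sX b → 1 ≤ q.2 ∧ q.2 ≤ hX b)
    (hsY : ∀ b q, q ∈ sY b → 1 ≤ q.2 ∧ q.2 ≤ hY b)
    (hUX : ∀ n, U ΛX hX n ≤ 1) (hUY : ∀ n, U ΛY hY n ≤ 1)
    (h1X : ∀ b, 1 ≤ hX b) (h1Y : ∀ b, 1 ≤ hY b) (hΛX : ∑' b, ΛX b = 1) (hΛY : ∑' b, ΛY b = 1)
    (hEX : ∑' b, ΛX b * (hX b : ℝ≥0∞) ≠ ⊤) (hEY : ∑' b, ΛY b * (hY b : ℝ≥0∞) ≠ ⊤)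
    {C : ℝ≥0∞} (hC : C ≠ ⊤) {us : ℕ → ℝ≥0∞} (hus : Tendsto us atTop (𝓝 0))
    (H2' : H2 ΛX ΛY hX hY zX zY sX sY C us)
    (H3' : H3 ΛX ΛY hX hY zX zY sX sY C us)
    (hPt : ∀ η : ℝ≥0∞, η ≠ 0 → ∃ k0 : ℕ, ∀ k, k0 ≤ k → ∀ (n : ℕ) (w : G),
      NN ΛX ΛY hX hY n (fun L L' => ∃ y, Ct hX hY zX zY sX sY L L' w 0 0 y k) ≤ η)
    (ε : ℝ≥0∞) (hε : ε ≠ 0) :
    ∃ M : ℕ, ∀ m, M ≤ m → ∀ n, 5 * m ≤ n → ∀ w,
      NN ΛX ΛY hX hY n (fun L L' => ∃ y k, Ct hX hY zX zY sX sY L L' w 0 0 y k ∧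
        m < k ∧ k ≤ 2 * m) ≤ ε := by
  classical
  set δ : ℝ≥0∞ := ε / 9 with hδ
  have hδ0 : δ ≠ 0 := by
    rw [hδ, Ne, ENNReal.div_eq_zero_iff, not_or]
    exact ⟨hε, by norm_num⟩
  obtain ⟨K, u, hK2, hK1, hu0, hu1, hKu, hKv⟩ := NumK658.chooseK 1 one_pos δ hδ0 2
  rw [Nat.div_one] at hKv
  have hut : u ≠ ⊤ := ne_top_of_le_ne_top ENNReal.one_ne_top hu1
  set v : ℝ≥0∞ := 1 - u / 2 with hv
  have hv1 : v ≤ 1 := tsub_le_self
  set J := 3 * K with hJ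
  -- the overshoot level
  have hcE : ((2 * K * (6 * K + 4) : ℕ) : ℝ≥0∞) ≠ ⊤ := ENNReal.natCast_ne_top _
  obtain ⟨e0, he00, he01⟩ := NumK658.chooseEta _ hcE δ hδ0
  set e : ℝ≥0∞ := min e0 (u / 2) with he
  have hu2 : u / 2 ≠ 0 := by
    rw [Ne, ENNReal.div_eq_zero_iff, not_or]; exact ⟨hu0, by norm_num⟩
  have he0 : e ≠ 0 := by
    rw [he]
    intro h0
    rcases min_eq_iff.1 h0 with h | h
    · exact he00 h.1
    · exact hu2 h.1
  have heE : ((2 * K * (6 * K + 4) : ℕ) : ℝ≥0∞) * e ≤ δ :=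
    (mul_le_mul_right (min_le_left _ _) _).trans he01
  obtain ⟨IX, hIX⟩ := ov_small ΛX hX hΛX hUX hEX he0
  obtain ⟨IY, hIY⟩ := ov_small ΛY hY hΛY hUY hEY he0
  set i0 := max IX IY with hi0
  have hoX : ∀ T, ov ΛX hX T i0 ≤ e := hIX i0 (le_max_left _ _)
  have hoY : ∀ T, ov ΛY hY T i0 ≤ e := hIY i0 (le_max_right _ _)
  have huv : 1 + e ≤ u + v := by
    have h1 : u / 2 ≤ 1 := (ENNReal.half_le_self).trans hu1
    calc 1 + e ≤ 1 + u / 2 := add_le_add le_rfl (min_le_right _ _)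
      _ = (v + u / 2) + u / 2 := by rw [hv, tsub_add_cancel_of_le h1]
      _ = v + u := by rw [add_assoc, ENNReal.add_halves]
      _ = _ := add_comm _ _
  -- `lam` and `s`
  set N : ℕ := (J * i0 + 1) * ((i0 + 1) * ((i0 + 1) * (i0 + 1))) with hN
  set A : ℝ≥0∞ := (4 * K : ℕ) * (N * C) with hA
  have hAt : A ≠ ⊤ := ENNReal.mul_ne_top (ENNReal.natCast_ne_top _)
    (ENNReal.mul_ne_top (ENNReal.natCast_ne_top _) hC)
  obtain ⟨lam, hl0, hlt, -, s, hs⟩ := Num337.exLam A ((2 * (J * (i0 + 1)) : ℕ) : ℝ≥0∞) hAt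
    (ENNReal.natCast_ne_top _) us hus δ hδ0
  have hs := hs s le_rfl
  -- the slabs
  set Cd : ℕ := (J + 2) * ((J + 3) * i0 + 2 * s + 1) with hCd
  obtain ⟨η, hη0, hη⟩ := NumK658.chooseEta (Cd : ℝ≥0∞) (ENNReal.natCast_ne_top _) δ hδ0
  obtain ⟨k0, hk0⟩ := hPt η hη0
  set T0 : ℕ := (J + 2) * i0 + 2 * i0 + 2 * s + 2 + K with hT0
  refine ⟨K * T0 + 2 * k0, fun m hm n hn w => ?_⟩
  set T := m / K with hT
  have hTT : T0 ≤ T := by
    rw [hT, Nat.le_div_iff_mul_le (by omega)]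
    rw [mul_comm]; omega
  have hKT : K * T ≤ m := by rw [hT]; exact Nat.mul_div_le m K
  have hKT2 : m < K * T + K := by
    rw [hT]
    have := Nat.lt_mul_div_succ m (show 0 < K by omega)
    rw [Nat.mul_add, mul_one] at this
    exact this
  have h2T : 2 * T ≤ K * T := Nat.mul_le_mul_right _ hK2
  have hKT3 : 2 * K ≤ K * T := by
    calc 2 * K = K * 2 := mul_comm _ _
      _ ≤ K * T := Nat.mul_le_mul_left _ (by omega)
  set m0 := m - T with hm0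
  have hk0m : k0 ≤ m0 := by omega
  have eJ2 : (J + 2) * i0 = J * i0 + 2 * i0 := by ring
  have eJ1 : (J + 1) * i0 = J * i0 + i0 := by ring
  have eJ3 : (J + 3) * i0 = J * i0 + 3 * i0 := by ring
  have e3K : 3 * K * T = 3 * (K * T) := by ring
  set Ds : Finset ℕ := ((Finset.range (J + 2)).biUnion (fun l =>
    Finset.Icc (l * T - (2 * i0 + s)) (l * T + (J + 1) * i0 + s))).filter (m0 < ·) with hDs
  have hcard : Ds.card ≤ Cd := by
    refine (Finset.card_filter_le _ _).trans (Finset.card_biUnion_le.trans ?_)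
    calc _ ≤ ∑ _l ∈ Finset.range (J + 2), ((J + 3) * i0 + 2 * s + 1) := by
          refine Finset.sum_le_sum fun l _ => ?_
          rw [Nat.card_Icc]; omega
      _ = _ := by rw [Finset.sum_const, Finset.card_range, smul_eq_mul]
  -- the quantiles
  obtain ⟨θX, hθX, -, hqX, hqX'⟩ := quant (pl ΛX hX zX T) hu0 hu1 (sum_pl ΛX hX zX T h1X hΛX)
  obtain ⟨θY, hθY, -, hqY, hqY'⟩ := quant (pl ΛY hY zY T) hu0 hu1 (sum_pl ΛY hY zY T h1Y hΛY)
  have hNX := mass_NL ΛX hX zX T θX u (le_trans (le_of_eq (tsum_congr fun i => by congr)) hqX)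
  have hNY := mass_NL ΛY hY zY T θY u (le_trans (le_of_eq (tsum_congr fun i => by congr)) hqY)
  have hSX := notSm_I ΛX hX zX T i0 θX v (mass_notSm ΛX hX zX T h1X hΛX i0 θX u v hut
    (hqX'.trans (le_of_eq (tsum_congr fun i => by congr)))
    ((add_le_add le_rfl (hoX T)).trans huv))
  have hSY := notSm_I ΛY hY zY T i0 θY v (mass_notSm ΛY hY zY T h1Y hΛY i0 θY u v hut
    (hqY'.trans (le_of_eq (tsum_congr fun i => by congr)))
    ((add_le_add le_rfl (hoY T)).trans huv))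
  -- the split
  have split : NN ΛX ΛY hX hY n (fun L L' => ∃ y k, Ct hX hY zX zY sX sY L L' w 0 0 y k ∧
        m < k ∧ k ≤ 2 * m) ≤
      (∑ k ∈ Ds, NN ΛX ΛY hX hY n (fun L L' => ∃ y, Ct hX hY zX zY sX sY L L' w 0 0 y k)) +
      ∑ j ∈ Finset.Ico K (3 * K), NN ΛX ΛY hX hY n (fun L L' =>
        (∃ y k, Ct hX hY zX zY sX sY L L' w 0 0 y k ∧
        j * T + (J + 1) * i0 + s + 1 ≤ k ∧ k ≤ (j + 1) * T - (2 * i0 + s)) ∧
        Clean hX hY zX zY sX sY w T i0 s J m0 L L') := by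
    refine (NN_or ΛX ΛY hX hY n
      (Q1 := fun L L' => ∃ k ∈ Ds, ∃ y, Ct hX hY zX zY sX sY L L' w 0 0 y k)
      (Q2 := fun L L' => ∃ j ∈ Finset.Ico K (3 * K),
        ((∃ y k, Ct hX hY zX zY sX sY L L' w 0 0 y k ∧
        j * T + (J + 1) * i0 + s + 1 ≤ k ∧ k ≤ (j + 1) * T - (2 * i0 + s)) ∧
        Clean hX hY zX zY sX sY w T i0 s J m0 L L')) ?_).trans (add_le_add
        (NN_fin ΛX ΛY hX hY Ds n fun _ _ _ _ h => h)
        (NN_fin ΛX ΛY hX hY (Finset.Ico K (3 * K)) n fun _ _ _ _ h => h))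
    rintro L L' _ _ ⟨y, k, hCt, hk1, hk2⟩
    by_cases hcl : Clean hX hY zX zY sX sY w T i0 s J m0 L L'
    · right
      have hTpos : 0 < T := by omega
      have a1 : k / T * T ≤ k := Nat.div_mul_le_self k T
      have a2 : k < (k / T + 1) * T := by
        have := Nat.lt_succ_self (k / T)
        rw [← Nat.succ_eq_add_one]
        exact (Nat.div_lt_iff_lt_mul hTpos).1 this
      have b1 : K ≤ k / T := by rw [Nat.le_div_iff_mul_le hTpos]; omega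
      have b2 : k / T < 3 * K := by rw [Nat.div_lt_iff_lt_mul hTpos]; omega
      refine ⟨k / T, Finset.mem_Ico.2 ⟨b1, b2⟩, ⟨y, k, hCt, ?_, ?_⟩, hcl⟩
      · have c := hcl y k hCt (by omega) (k / T) (by omega)
        omega
      · have c := hcl y k hCt (by omega) (k / T + 1) (by omega)
        omega
    · left
      unfold Clean at hcl
      push Not at hcl
      obtain ⟨y', k', hC', h1, l, hl, h2, h3⟩ := hcl
      refine ⟨k', ?_, y', hC'⟩
      rw [hDs, Finset.mem_filter, Finset.mem_biUnion]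
      exact ⟨⟨l, Finset.mem_range.2 (by omega), Finset.mem_Icc.2 ⟨by omega, h3⟩⟩, h1⟩
  refine split.trans ?_
  have part1 : (∑ k ∈ Ds, NN ΛX ΛY hX hY n (fun L L' => ∃ y,
      Ct hX hY zX zY sX sY L L' w 0 0 y k)) ≤ δ := by
    calc _ ≤ ∑ _k ∈ Ds, η := by
          refine Finset.sum_le_sum fun k hk => ?_
          rw [hDs, Finset.mem_filter] at hk
          exact hk0 k (by omega) n w
      _ = (Ds.card : ℝ≥0∞) * η := by rw [Finset.sum_const, nsmul_eq_mul]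
      _ ≤ (Cd : ℝ≥0∞) * η := mul_le_mul_left (by exact_mod_cast hcard) _
      _ ≤ δ := hη
  have part2 : (∑ j ∈ Finset.Ico K (3 * K), NN ΛX ΛY hX hY n (fun L L' =>
        (∃ y k, Ct hX hY zX zY sX sY L L' w 0 0 y k ∧
        j * T + (J + 1) * i0 + s + 1 ≤ k ∧ k ≤ (j + 1) * T - (2 * i0 + s)) ∧
        Clean hX hY zX zY sX sY w T i0 s J m0 L L')) ≤ 8 * δ := by
    set R : ℝ≥0∞ := C * (lam + ((2 * (J * (i0 + 1)) : ℕ) : ℝ≥0∞) * us s / lam + us s) with hR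
    have hj : ∀ j ∈ Finset.Ico K (3 * K), NN ΛX ΛY hX hY n (fun L L' =>
        (∃ y k, Ct hX hY zX zY sX sY L L' w 0 0 y k ∧
        j * T + (J + 1) * i0 + s + 1 ≤ k ∧ k ≤ (j + 1) * T - (2 * i0 + s)) ∧
        Clean hX hY zX zY sX sY w T i0 s J m0 L L')
        ≤ ((6 * K + 4 : ℕ) : ℝ≥0∞) * e + u ^ 2 + 2 * v ^ (K - 1) + 2 * ((N : ℝ≥0∞) * R) := by
      intro j hj
      rw [Finset.mem_Ico] at hj
      have hjT1 : K * T ≤ j * T := Nat.mul_le_mul_right _ hj.1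
      have hjT2 : (j + 2) * T ≤ (3 * K + 1) * T := Nat.mul_le_mul_right _ (by omega)
      have hjT3 : (3 * K + 1) * T = 3 * (K * T) + T := by ring
      refine (win_bound ΛX ΛY hX hY zX zY sX sY hsX hsY hUX hUY h1X h1Y hΛX hΛY H2' H3' n T j J
        i0 s m0 θX θY lam e u v hθX hθY hl0 hlt w hoX hoY hNX hNY hSX hSY hj.2 (by omega)
        (by omega) (by omega)).trans ?_
      have c1 : ((j + 1 : ℕ) : ℝ≥0∞) ≤ (3 * K : ℕ) := by exact_mod_cast (by omega : j + 1 ≤ 3 * K)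
      have c2 : v ^ j ≤ v ^ (K - 1) := pow_le_pow_right_of_le_one' hv1 (by omega)
      have c3 : ((((j * i0 + 1) * ((i0 + 1) * ((i0 + 1) * (i0 + 1)))) : ℕ) : ℝ≥0∞) ≤ N := by
        rw [hN]
        exact_mod_cast Nat.mul_le_mul_right _
          (Nat.add_le_add_right (Nat.mul_le_mul_right _ hj.2.le) 1)
      have c4 : C * (lam + ((2 * (j * (i0 + 1)) : ℕ) : ℝ≥0∞) * us s / lam + us s) ≤ R := by
        refine mul_le_mul_right (add_le_add (add_le_add le_rfl ?_) le_rfl) _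
        refine ENNReal.div_le_div_right (mul_le_mul_left ?_ _) _
        exact_mod_cast Nat.mul_le_mul_left 2 (Nat.mul_le_mul_right _ hj.2.le)
      calc _ ≤ (3 * K : ℕ) * e + (3 * K : ℕ) * e + (e + e) + (e + e) + u * u
            + (v ^ (K - 1) + v ^ (K - 1)) + 2 * ((N : ℝ≥0∞) * R) := by
            refine add_le_add (add_le_add (add_le_add (add_le_add (add_le_add (add_le_add
              (mul_le_mul_left c1 _) (mul_le_mul_left c1 _)) le_rfl) le_rfl) le_rfl)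
              (add_le_add c2 c2)) (mul_le_mul_right (mul_le_mul' c3 c4) _)
        _ = _ := by push_cast; ring
    calc _ ≤ ∑ _j ∈ Finset.Ico K (3 * K), (((6 * K + 4 : ℕ) : ℝ≥0∞) * e + u ^ 2
          + 2 * v ^ (K - 1) + 2 * ((N : ℝ≥0∞) * R)) := Finset.sum_le_sum hj
      _ = ((2 * K : ℕ) : ℝ≥0∞) * (((6 * K + 4 : ℕ) : ℝ≥0∞) * e + u ^ 2
          + 2 * v ^ (K - 1) + 2 * ((N : ℝ≥0∞) * R)) := by
          rw [Finset.sum_const, Nat.card_Ico, nsmul_eq_mul, show 3 * K - K = 2 * K by omega]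
      _ = ((2 * K * (6 * K + 4) : ℕ) : ℝ≥0∞) * e + 2 * (K * u ^ 2) + 4 * (K * v ^ (K - 1))
          + A * (lam + ((2 * (J * (i0 + 1)) : ℕ) : ℝ≥0∞) * us s / lam + us s) := by
          rw [hR, hA]; push_cast; ring
      _ ≤ δ + 2 * δ + 4 * δ + δ := by
          refine add_le_add (add_le_add (add_le_add heE (mul_le_mul_right ?_ _))
            (mul_le_mul_right ?_ _)) hs
          · exact (mul_le_mul_left le_self_add _).trans hKu
          · exact (mul_le_mul_left le_self_add _).trans hKv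
      _ = 8 * δ := by ring
  calc _ ≤ δ + 8 * δ := add_le_add part1 part2
    _ = 9 * δ := by ring
    _ = ε := by
        rw [hδ]
        exact ENNReal.mul_div_cancel (by norm_num) (by norm_num)

end Fin

end Crest.Agent.R154.Asm10
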