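import Crest.Agent.R154.AsmH_295

/-! Row 154, KAPPA' (801), list assembly, part I (helper295): the window inequality. -/

set_option autoImplicit false

namespace Crest.Agent.R154.Asm295

open scoped ENNReal
open Crest.Agent.R154.B5A (LW HT LW_nil LW_cons LW_append HT_nil HT_cons HT_append tsum_list)
open Crest.Agent.R154.Asm540 (Dp Dp_append Cm H2 H3 TR TR_append TR_depth TR_shift)

variable {BX BY G : Type*} [AddCommGroup G]
  {ΛX : BX → ℝ≥0∞} {ΛY : BY → ℝ≥0∞} {hX : BX → ℕ} {hY : BY → ℕ} {zX : BX → G} {zY : BY → G}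
  {sX : BX → Set (G × ℕ)} {sY : BY → Set (G × ℕ)}

lemma nonloc {B : Type*} {Λ : B → ℝ≥0∞} {h : B → ℕ} (z : B → G) (T i0 : ℕ) (th u : ℝ≥0∞)
    (hu : open Classical in
      ∑' i, ∑' x, nf Λ h z T i x * (if nf Λ h z T i x < th then 1 else 0) ≤ u) :
    open Classical in
    ∑' W, wt Λ h T i0 W * (if th ≤ nf Λ h z T (HT h W - T) (Dp z W) then 0 else 1) ≤ u := by
  classical
  refine le_trans ?_ hu
  rw [← fib (Λ := Λ) (h := h) z T (fun i x => if nf Λ h z T i x < th then 1 else 0)]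
  refine ENNReal.tsum_le_tsum fun W => ?_
  have e1 : wt Λ h T i0 W ≤ (if fp h W T then LW Λ W else 0) := by
    rw [wt]
    by_cases e : fp h W T ∧ HT h W ≤ T + i0
    · rw [if_pos e, if_pos e.1]
    · rw [if_neg e]; exact bot_le
  refine mul_le_mul' e1 ?_
  by_cases e : th ≤ nf Λ h z T (HT h W - T) (Dp z W)
  · rw [if_pos e]; exact bot_le
  · rw [if_neg e, if_pos (not_le.1 e)]

set_option maxHeartbeats 1600000 in
open Classical in
theorem window
    (hΛX : ∑' b, ΛX b = 1) (hΛY : ∑' b, ΛY b = 1) (h1X : ∀ b, 1 ≤ hX b) (h1Y : ∀ b, 1 ≤ hY b)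
    (hUX : ∀ n, ∑' L, (if HT hX L = n then LW ΛX L else 0) ≤ 1)
    (hUY : ∀ n, ∑' L, (if HT hY L = n then LW ΛY L else 0) ≤ 1)
    (hsX : ∀ b, ∀ p ∈ sX b, 1 ≤ p.2 ∧ p.2 ≤ hX b) (hsY : ∀ b, ∀ p ∈ sY b, 1 ≤ p.2 ∧ p.2 ≤ hY b)
    (C : ℝ≥0∞) (us : ℕ → ℝ≥0∞)
    (h2 : H2 ΛX ΛY hX hY zX zY sX sY C us) (h3 : H3 ΛX ΛY hX hY zX zY sX sY C us)
    {u : ℝ≥0∞} (hu0 : u ≠ 0) (hu1 : u < 1) {lam : ℝ≥0∞} (hl0 : lam ≠ 0) (hl1 : lam ≠ ⊤)
    (i0 s J D T n lo hi : ℕ) (hlo : D + i0 + s < lo) (hhi : hi + s ≤ D + T)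
    (hJ : J * (T + i0) ≤ D) (hn : D + i0 + (T + i0) ≤ n) (w : G) {tl : ℝ≥0∞}
    (htlX : ∑' b, ΛX b * ((hX b - i0 : ℕ) : ℝ≥0∞) ≤ tl)
    (htlY : ∑' b, ΛY b * ((hY b - i0 : ℕ) : ℝ≥0∞) ≤ tl) :
    ∑' L, ∑' L', (if HT hX L = n ∧ HT hY L' = n ∧
      ev hX hY zX zY sX sY D (D + i0 + (T + i0)) lo hi w L L'
      then LW ΛX L * LW ΛY L' else 0) ≤
    (2 * tl + 2 * tl) + ((((1 - u) ^ J + J * (2 * tl)) + ((i0 + 1 : ℕ) : ℝ≥0∞) * ((i0 + 1 : ℕ) : ℝ≥0∞) *
      (((i0 + 1 : ℕ) : ℝ≥0∞) * (((i0 + 1 : ℕ) : ℝ≥0∞) *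
        (C * (lam + (((i0 + 1 : ℕ) : ℝ≥0∞) / u) * us s / lam + us s)))))
      + (((1 - u) ^ J + J * (2 * tl)) + ((i0 + 1 : ℕ) : ℝ≥0∞) * ((i0 + 1 : ℕ) : ℝ≥0∞) *
      (((i0 + 1 : ℕ) : ℝ≥0∞) * (((i0 + 1 : ℕ) : ℝ≥0∞) *
        (C * (lam + (((i0 + 1 : ℕ) : ℝ≥0∞) / u) * us s / lam + us s))))) + u * u) := by
  obtain ⟨thX, tX0, tX1, tX2, tX3⟩ := cst hΛX h1X hUX zX T i0 hu0 hu1
  obtain ⟨thY, tY0, tY1, tY2, tY3⟩ := cst hΛY h1Y hUY zY T i0 hu0 hu1
  obtain ⟨bX, bX1, bX2⟩ := tX3 J D hJ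
  obtain ⟨bY, bY1, bY2⟩ := tY3 J D hJ
  have bX1' := bX1.trans (show _ ≤ (1 - u) ^ J + J * (2 * tl) by gcongr)
  have bY1' := bY1.trans (show _ ≤ (1 - u) ^ J + J * (2 * tl) by gcongr)
  set bd : ℝ≥0∞ := ((i0 + 1 : ℕ) : ℝ≥0∞) * (((i0 + 1 : ℕ) : ℝ≥0∞) *
        (C * (lam + (((i0 + 1 : ℕ) : ℝ≥0∞) / u) * us s / lam + us s))) with hbd
  set EV : List BX → List BY → Prop :=
    fun L L' => ev hX hY zX zY sX sY D (D + i0 + (T + i0)) lo hi w L L' with hEV
  set PX : List BX → List BY → Prop :=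
    fun W _ => thX ≤ nf ΛX hX zX T (HT hX W - T) (Dp zX W) with hPX
  set PY : List BX → List BY → Prop :=
    fun _ W' => thY ≤ nf ΛY hY zY T (HT hY W' - T) (Dp zY W') with hPY
  -- step 1: decompose
  have st1 : ∑' L, ∑' L', (if HT hX L = n ∧ HT hY L' = n ∧ EV L L' then LW ΛX L * LW ΛY L' else 0)
      ≤ 2 * tl + ∑' A, wt ΛX hX D i0 A * ∑' W, wt ΛX hX T i0 W *
        (2 * tl + ∑' A', wt ΛY hY D i0 A' * ∑' W', wt ΛY hY T i0 W' *
          (if ∃ R R', EV (A ++ (W ++ R)) (A' ++ (W' ++ R')) then 1 else 0)) := by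
    calc _ = ∑' L, (if HT hX L = n then LW ΛX L * (∑' L', (if HT hY L' = n then LW ΛY L' *
          (if EV L L' then 1 else 0) else 0)) else 0) := by
          refine tsum_congr fun L => ?_
          by_cases e : HT hX L = n
          · rw [if_pos e, ← ENNReal.tsum_mul_left]
            refine tsum_congr fun L' => ?_
            by_cases e' : HT hY L' = n <;> by_cases e'' : EV L L' <;> simp [e, e', e'']
          · simp [e]
      _ ≤ 2 * (∑' b, ΛX b * ((hX b - i0 : ℕ) : ℝ≥0∞)) +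
          ∑' A, wt ΛX hX D i0 A * ∑' W, wt ΛX hX T i0 W *
            (∑' L', (if HT hY L' = n then LW ΛY L' *
              (if ∃ R, EV (A ++ (W ++ R)) L' then 1 else 0) else 0)) := by
          refine two' hΛX h1X hUX D T i0 n hn _ (fun L => ?_) _ (fun A W R => ?_)
          · refine le_trans (ENNReal.tsum_le_tsum fun L' => ?_) (hUY n)
            by_cases e' : HT hY L' = n <;> by_cases e'' : EV L L' <;> simp [e', e'']
          · refine ENNReal.tsum_le_tsum fun L' => ?_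
            by_cases e' : HT hY L' = n
            · rw [if_pos e', if_pos e']
              gcongr
              by_cases e'' : EV (A ++ (W ++ R)) L'
              · rw [if_pos e'', if_pos ⟨R, e''⟩]
              · rw [if_neg e'']; exact bot_le
            · rw [if_neg e']; exact bot_le
      _ ≤ _ := by
          gcongr with A W
          refine (two' hΛY h1Y hUY D T i0 n hn
            (fun L' => if ∃ R, EV (A ++ (W ++ R)) L' then 1 else 0)
            (fun L' => by split_ifs <;> simp)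
            (fun A' W' => if ∃ R R', EV (A ++ (W ++ R)) (A' ++ (W' ++ R')) then 1 else 0)
            (fun A' W' R' => ?_)).trans ?_
          · by_cases e : ∃ R, EV (A ++ (W ++ R)) (A' ++ (W' ++ R'))
            · obtain ⟨R, hR⟩ := e
              rw [if_pos ⟨R, hR⟩, if_pos ⟨R, R', hR⟩]
            · rw [if_neg e]; exact bot_le
          · gcongr
  refine st1.trans ?_
  -- step 2: pull out the error
  have st2 : ∀ F : List BX → List BX → ℝ≥0∞, ∑' A, wt ΛX hX D i0 A * ∑' W, wt ΛX hX T i0 W *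
      (2 * tl + F A W) ≤ 2 * tl + ∑' A, wt ΛX hX D i0 A * ∑' W, wt ΛX hX T i0 W * F A W := by
    intro F
    simp_rw [mul_add, ENNReal.tsum_add, mul_add, ENNReal.tsum_add]
    gcongr
    simp_rw [ENNReal.tsum_mul_right]
    calc (∑' A, wt ΛX hX D i0 A) * ((∑' W, wt ΛX hX T i0 W) * (2 * tl))
        ≤ 1 * (1 * (2 * tl)) := by
          gcongr
          · exact wt_sum hΛX h1X D i0
          · exact wt_sum hΛX h1X T i0
      _ = _ := by rw [one_mul, one_mul]
  refine (add_le_add_right (st2 _) _).trans ?_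
  rw [← add_assoc]
  refine add_le_add_right ?_ _
  -- step 3: pointwise split
  have st3 : ∀ A A', wt ΛX hX D i0 A * (wt ΛY hY D i0 A' * ∑' W, wt ΛX hX T i0 W *
      ∑' W', wt ΛY hY T i0 W' *
          (if ∃ R R', EV (A ++ (W ++ R)) (A' ++ (W' ++ R')) then 1 else 0)) ≤
      wt ΛX hX D i0 A * (wt ΛY hY D i0 A' * (RP ΛX ΛY hX hY zX zY sX sY PX T i0 lo hi
        (D + (HT hX A - D)) (D + (HT hY A' - D)) (w + Dp zY A' - Dp zX A) +
      RP ΛX ΛY hX hY zX zY sX sY PY T i0 lo hi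
        (D + (HT hX A - D)) (D + (HT hY A' - D)) (w + Dp zY A' - Dp zX A) + u * u)) := by
    intro A A'
    by_cases hA : fp hX A D ∧ HT hX A ≤ D + i0
    swap
    · rw [wt, if_neg hA, zero_mul, zero_mul]
    by_cases hA' : fp hY A' D ∧ HT hY A' ≤ D + i0
    swap
    · rw [wt, wt, if_neg hA', zero_mul, zero_mul]
    have a1 := fp_le A D hA.1
    have a2 := fp_le A' D hA'.1
    rw [show D + (HT hX A - D) = HT hX A by omega, show D + (HT hY A' - D) = HT hY A' by omega]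
    gcongr
    have nl : ∑' W, wt ΛX hX T i0 W * ∑' W', wt ΛY hY T i0 W' *
        ((if thX ≤ nf ΛX hX zX T (HT hX W - T) (Dp zX W) then 0 else 1) *
        (if thY ≤ nf ΛY hY zY T (HT hY W' - T) (Dp zY W') then 0 else 1)) ≤ u * u := by
      calc _ = (∑' W, wt ΛX hX T i0 W *
            (if thX ≤ nf ΛX hX zX T (HT hX W - T) (Dp zX W) then 0 else 1)) *
            (∑' W', wt ΛY hY T i0 W' *
            (if thY ≤ nf ΛY hY zY T (HT hY W' - T) (Dp zY W') then 0 else 1)) := by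
            rw [← ENNReal.tsum_mul_right]
            refine tsum_congr fun W => ?_
            rw [← ENNReal.tsum_mul_left, ← ENNReal.tsum_mul_left]
            refine tsum_congr fun W' => ?_
            ring
        _ ≤ u * u := mul_le_mul' (nonloc zX T i0 thX u tX2) (nonloc zY T i0 thY u tY2)
    refine le_trans ?_ (add_le_add_right nl _)
    rw [RP, RP, ← ENNReal.tsum_add, ← ENNReal.tsum_add]
    refine ENNReal.tsum_le_tsum fun W => ?_
    rw [← mul_add, ← mul_add, ← ENNReal.tsum_add, ← ENNReal.tsum_add]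
    by_cases hW : fp hX W T ∧ HT hX W ≤ T + i0
    swap
    · rw [wt, if_neg hW, zero_mul]; exact bot_le
    gcongr with W'
    rw [← mul_add, ← mul_add]
    by_cases hW' : fp hY W' T ∧ HT hY W' ≤ T + i0
    swap
    · rw [wt, if_neg hW', zero_mul]; exact bot_le
    gcongr
    by_cases hE : ∃ R R', EV (A ++ (W ++ R)) (A' ++ (W' ++ R'))
    swap
    · rw [if_neg hE]; exact bot_le
    obtain ⟨R, R', hR⟩ := hE
    have hct := ct_of hsX hsY (by omega : D + i0 < lo) (by omega : hi ≤ D + T) a1 hA.2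
      (fp_le W T hW.1) hW.2 a2 hA'.2 (fp_le W' T hW'.1) hR
    rw [if_pos ⟨R, R', hR⟩]
    by_cases p1 : PX W W'
    · rw [if_pos ⟨hct, p1⟩]
      exact le_trans le_self_add le_self_add
    by_cases p2 : PY W W'
    · rw [if_pos (⟨hct, p2⟩ : _ ∧ PY W W')]
      exact le_trans le_add_self le_self_add
    · have q1 : ¬ thX ≤ nf ΛX hX zX T (HT hX W - T) (Dp zX W) := p1
      have q2 : ¬ thY ≤ nf ΛY hY zY T (HT hY W' - T) (Dp zY W') := p2
      rw [if_neg q1, if_neg q2, one_mul]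
      exact le_add_self
  -- step 4: swap
  have st4 : ∑' A, wt ΛX hX D i0 A * ∑' W, wt ΛX hX T i0 W *
        (∑' A', wt ΛY hY D i0 A' * ∑' W', wt ΛY hY T i0 W' *
          (if ∃ R R', EV (A ++ (W ++ R)) (A' ++ (W' ++ R')) then 1 else 0))
      = ∑' A, ∑' A', wt ΛX hX D i0 A * (wt ΛY hY D i0 A' * ∑' W, wt ΛX hX T i0 W *
      ∑' W', wt ΛY hY T i0 W' *
          (if ∃ R R', EV (A ++ (W ++ R)) (A' ++ (W' ++ R')) then 1 else 0)) := by
    refine tsum_congr fun A => ?_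
    rw [ENNReal.tsum_mul_left]
    congr 1
    simp_rw [← ENNReal.tsum_mul_left]
    rw [ENNReal.tsum_comm]
    refine tsum_congr fun A' => tsum_congr fun W => tsum_congr fun W' => ?_
    ring
  rw [st4]
  refine (ENNReal.tsum_le_tsum fun A => ENNReal.tsum_le_tsum fun A' => st3 A A').trans ?_
  have kX : ∑' A, ∑' A', wt ΛX hX D i0 A * (wt ΛY hY D i0 A' *
      RP ΛX ΛY hX hY zX zY sX sY PX T i0 lo hi
        (D + (HT hX A - D)) (D + (HT hY A' - D)) (w + Dp zY A' - Dp zX A)) ≤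
      ((1 - u) ^ J + J * (2 * tl)) + ((i0 + 1 : ℕ) : ℝ≥0∞) * ((i0 + 1 : ℕ) : ℝ≥0∞) * bd := by
    calc _ = ∑' A, wt ΛX hX D i0 A * ∑' A', wt ΛY hY D i0 A' *
          (fun α β x => RP ΛX ΛY hX hY zX zY sX sY PX T i0 lo hi (D + α) (D + β) x)
          (HT hX A - D) (HT hY A' - D) (w + Dp zY A' - Dp zX A) := by
          refine tsum_congr fun A => ?_
          rw [ENNReal.tsum_mul_left]
      _ = _ := tops (ΛX := ΛX) (ΛY := ΛY) (hX := hX) (hY := hY) (zX := zX) (zY := zY) D i0 w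
          (fun α β x => RP ΛX ΛY hX hY zX zY sX sY PX T i0 lo hi (D + α) (D + β) x)
      _ ≤ _ := smear (nf ΛX hX zX D) (nf ΛY hY zY D) bX
          (fun α β x => RP ΛX ΛY hX hY zX zY sX sY PX T i0 lo hi (D + α) (D + β) x) i0
          (((i0 + 1 : ℕ) : ℝ≥0∞) * thX / u) bd _
          (nf_sum hΛX h1X zX D).le (nf_sum hΛY h1Y zY D).le bX2 bX1'
          (fun α β δ => RP_one hΛX hΛY h1X h1Y _ _ _ _ _ _ _ _)
          (fun α β hα hβ μ m1 m2 => RX_le hΛX h1X C us h2 tX0 hl0 hl1 T i0 s lo hi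
            (D + α) (D + β) (by omega) (by omega) μ m1 m2) w
  have kY : ∑' A, ∑' A', wt ΛX hX D i0 A * (wt ΛY hY D i0 A' *
      RP ΛX ΛY hX hY zX zY sX sY PY T i0 lo hi
        (D + (HT hX A - D)) (D + (HT hY A' - D)) (w + Dp zY A' - Dp zX A)) ≤
      ((1 - u) ^ J + J * (2 * tl)) + ((i0 + 1 : ℕ) : ℝ≥0∞) * ((i0 + 1 : ℕ) : ℝ≥0∞) * bd := by
    calc _ = ∑' A', wt ΛY hY D i0 A' * ∑' A, wt ΛX hX D i0 A *
          (fun β α x => RP ΛX ΛY hX hY zX zY sX sY PY T i0 lo hi (D + α) (D + β) (-x))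
          (HT hY A' - D) (HT hX A - D) (-w + Dp zX A - Dp zY A') := by
          rw [ENNReal.tsum_comm]
          refine tsum_congr fun A' => ?_
          rw [← ENNReal.tsum_mul_left]
          refine tsum_congr fun A => ?_
          simp only
          rw [show -(-w + Dp zX A - Dp zY A') = w + Dp zY A' - Dp zX A by abel]
          ring
      _ = _ := tops (ΛX := ΛY) (ΛY := ΛX) (hX := hY) (hY := hX) (zX := zY) (zY := zX) D i0 (-w)
          (fun β α x => RP ΛX ΛY hX hY zX zY sX sY PY T i0 lo hi (D + α) (D + β) (-x))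
      _ ≤ _ := smear (nf ΛY hY zY D) (nf ΛX hX zX D) bY
          (fun β α x => RP ΛX ΛY hX hY zX zY sX sY PY T i0 lo hi (D + α) (D + β) (-x)) i0
          (((i0 + 1 : ℕ) : ℝ≥0∞) * thY / u) bd _
          (nf_sum hΛY h1Y zY D).le (nf_sum hΛX h1X zX D).le bY2 bY1'
          (fun α β δ => RP_one hΛX hΛY h1X h1Y _ _ _ _ _ _ _ _)
          (fun β α hβ hα μ m1 m2 => by
            have e2 : ∑' x, μ x * RP ΛX ΛY hX hY zX zY sX sY PY T i0 lo hi (D + α) (D + β) (-x)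
                = ∑' x, μ (-x) * RP ΛX ΛY hX hY zX zY sX sY PY T i0 lo hi (D + α) (D + β) x := by
              rw [← (Equiv.neg G).tsum_eq]
              refine tsum_congr fun x => ?_
              simp only [Equiv.neg_apply, neg_neg]
            refine e2.trans_le ?_
            exact RY_le hΛY h1Y C us h3 tY0 hl0 hl1 T i0 s lo hi (D + α) (D + β) (by omega)
              (by omega) (fun x => μ (-x)) (((Equiv.neg G).tsum_eq μ).trans_le m1)
              (fun x => m2 _)) (-w)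
  have kU : ∑' A, ∑' A', wt ΛX hX D i0 A * (wt ΛY hY D i0 A' * (u * u)) ≤ u * u := by
    simp_rw [ENNReal.tsum_mul_left, ENNReal.tsum_mul_right]
    calc _ ≤ (1 : ℝ≥0∞) * (1 * (u * u)) := by
          gcongr
          · exact wt_sum hΛX h1X D i0
          · exact wt_sum hΛY h1Y D i0
      _ = _ := by rw [one_mul, one_mul]
  refine le_trans (le_of_eq ?_) (add_le_add (add_le_add kX kY) kU)
  rw [← ENNReal.tsum_add, ← ENNReal.tsum_add]
  refine tsum_congr fun A => ?_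
  rw [← ENNReal.tsum_add, ← ENNReal.tsum_add]
  refine tsum_congr fun A' => ?_
  ring

end Crest.Agent.R154.Asm295
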