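import Crest.Agent.R154.AsmH_324

/-! Row 154, ROAD 801 (helper324): the abstract assembly, choice of the constants. -/

set_option autoImplicit false

namespace Crest.Agent.R154.Asm324

open scoped ENNReal
open Crest.Agent.R154.B5A Crest.Agent.R154.FP178

lemma num2 (ε : ℝ≥0∞) (hε : ε ≠ 0) : ∃ (J : ℕ) (u : ℝ≥0∞), 1 ≤ J ∧ u ≠ 0 ∧ u < 1 ∧
    (2 * (J : ℝ≥0∞) + 1) * (u * u + 2 * (1 - u) ^ J) ≤ ε := by
  obtain ⟨q, hq, h⟩ := AsmA789.num hε 8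
  have hqT : ((q : ℝ≥0∞) ^ 2) ≠ ⊤ := ENNReal.pow_ne_top (ENNReal.natCast_ne_top q)
  refine ⟨q ^ 3, ((q : ℝ≥0∞) ^ 2)⁻¹, Nat.one_le_pow _ _ (by omega), ENNReal.inv_ne_zero.2 hqT,
    ?_, ?_⟩
  · rw [ENNReal.inv_lt_one]
    have h4 : 1 < q ^ 2 := by nlinarith
    exact_mod_cast h4
  · refine le_trans ?_ h
    set U : ℝ≥0∞ := ((q : ℝ≥0∞) ^ 2)⁻¹ with hU
    set r : ℝ≥0∞ := 1 - (2 * (q : ℝ≥0∞) ^ 2)⁻¹ with hr
    have hle : 1 - U ≤ r := by
      refine tsub_le_tsub_left ?_ 1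
      rw [hU]
      refine ENNReal.inv_le_inv.2 ?_
      calc (q : ℝ≥0∞) ^ 2 = 1 * (q : ℝ≥0∞) ^ 2 := (one_mul _).symm
        _ ≤ 2 * (q : ℝ≥0∞) ^ 2 := mul_le_mul_left one_le_two _
    have h1 : (1 - U) ^ (q ^ 3) ≤ r ^ (q ^ 3) := pow_le_pow_left' hle _
    set X : ℝ≥0∞ := r ^ (q ^ 3) with hX
    have e1 : (2 * ((q ^ 3 : ℕ) : ℝ≥0∞) + 1) * (U * U + 2 * (1 - U) ^ (q ^ 3)) ≤
        (2 * ((q ^ 3 : ℕ) : ℝ≥0∞) + 1) * (U * U + 2 * X) :=
      mul_le_mul_right (add_le_add le_rfl (mul_le_mul_right h1 _)) _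
    refine e1.trans ?_
    have e2 : ((8 : ℕ) : ℝ≥0∞) * ((q : ℝ≥0∞) ^ 3 + (8 : ℕ)) * (U ^ 2 + X)
        = (2 * ((q ^ 3 : ℕ) : ℝ≥0∞) + 1) * (U * U + 2 * X)
          + (6 * (q : ℝ≥0∞) ^ 3 + 63) * (U * U) + (4 * (q : ℝ≥0∞) ^ 3 + 62) * X := by
      push_cast; ring
    rw [e2]
    exact le_add_right le_self_add

lemma exists_le (f : ℕ → ℝ≥0∞) (hf : Filter.Tendsto f Filter.atTop (nhds 0)) (c ε : ℝ≥0∞)
    (hc : c ≠ ⊤) (hε : ε ≠ 0) : ∃ n, c * f n ≤ ε := by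
  have h1 := ENNReal.Tendsto.const_mul hf (Or.inr hc)
  rw [mul_zero] at h1
  obtain ⟨n, hn⟩ := (h1.eventually (gt_mem_nhds (pos_iff_ne_zero.2 hε))).exists
  exact ⟨n, hn.le⟩

section asm

variable {BX BY G : Type*} [AddCommGroup G]
  (ΛX : BX → ℝ≥0∞) (hX : BX → ℕ) (zX : BX → G) (TX : List BX → G → ℕ → Set (G × ℕ))
  (ΛY : BY → ℝ≥0∞) (hY : BY → ℕ) (zY : BY → G) (TY : List BY → G → ℕ → Set (G × ℕ))
  (TXa : ∀ L L' x a, TX (L ++ L') x a = TX L x a ∪ TX L' (x + Dp zX L) (a + HT hX L))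
  (TXd : ∀ L x a g k, (g, k) ∈ TX L x a → a + 1 ≤ k ∧ k ≤ a + HT hX L)
  (TXs : ∀ L x y a g k, (g, k) ∈ TX L (x + y) a ↔ (g - y, k) ∈ TX L x a)
  (TYa : ∀ L L' x a, TY (L ++ L') x a = TY L x a ∪ TY L' (x + Dp zY L) (a + HT hY L))
  (TYd : ∀ L x a g k, (g, k) ∈ TY L x a → a + 1 ≤ k ∧ k ≤ a + HT hY L)
  (TYs : ∀ L x y a g k, (g, k) ∈ TY L (x + y) a ↔ (g - y, k) ∈ TY L x a)

include TXa TXd TXs TYa TYd TYs in
/-- the sum over slabs and windows -/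
lemma total (h1X : ∀ b, 1 ≤ hX b) (h1Y : ∀ b, 1 ≤ hY b) (hΛX : ∑' b, ΛX b = 1)
    (hΛY : ∑' b, ΛY b = 1) (hUX : ∀ n, U ΛX hX n ≤ 1) (hUY : ∀ n, U ΛY hY n ≤ 1)
    (C : ℝ≥0∞) (us : ℕ → ℝ≥0∞) (H2 : H2f ΛX hX zX TX ΛY hY TY C us)
    (H3 : H3f ΛX hX TX ΛY hY zY TY C us) (u : ℝ≥0∞) (hu0 : u ≠ 0) (hu1 : u < 1)
    (i0 : ℕ) (ov : ℝ≥0∞) (hovX : ∀ t, ∑' L, I (fp hX t L ∧ t + i0 < HT hX L) * LW ΛX L ≤ ov)
    (hovY : ∀ t, ∑' L, I (fp hY t L ∧ t + i0 < HT hY L) * LW ΛY L ≤ ov)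
    (lam : ℝ≥0∞) (hl0 : lam ≠ 0) (hlT : lam ≠ ⊤) (s T J n m : ℕ) (w : G) (hJ1 : 1 ≤ J)
    (hsT : s ≤ T) (hiT : 2 * i0 ≤ T) (hT1 : (2 * J) * T ≤ m)
    (hT2 : 2 * m ≤ (2 * (2 * J) + 1) * T)
    (hn : (2 * (2 * J) + 1) * T + T + 4 * i0 ≤ n) (η : ℝ≥0∞)
    (hη : ∀ j, 2 * J ≤ j → ∑' L : List BX, ∑' L' : List BY,
      I (HT hX L = n ∧ HT hY L' = n ∧ Ct TX TY w (fun k => j * T - s ≤ k ∧
        k < j * T - s + (2 * s + 4 * i0 + 1)) L L') * (LW ΛX L * LW ΛY L') ≤ η) :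
    ∑' L : List BX, ∑' L' : List BY,
      I (HT hX L = n ∧ HT hY L' = n ∧ Ct TX TY w (fun k => m < k ∧ k ≤ 2 * m) L L') *
        (LW ΛX L * LW ΛY L') ≤
      (2 * J + 2) * η + (2 * J + 1) * ((ov + ov) + (ov + ov) + (u * u +
        2 * ((i0 + 1) ^ 4 * (C * (lam + 2 * J * (i0 + 1) * us s / lam + us s))
        + ((1 - u) ^ J + J * ov)))) := by
  rw [← pair_eq]
  calc EX ΛX hX n (fun L => EX ΛY hY n (fun L' =>
        I (Ct TX TY w (fun k => m < k ∧ k ≤ 2 * m) L L')))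
      ≤ EX ΛX hX n (fun L => EX ΛY hY n (fun L' =>
        ∑ j ∈ Finset.Icc (2 * J) (2 * (2 * J) + 1), I (Ct TX TY w (fun k => j * T - s ≤ k ∧
          k < j * T - s + (2 * s + 4 * i0 + 1)) L L') +
        ∑ j ∈ Finset.Icc (2 * J) (2 * (2 * J)), (OV hX (j * T) T i0 L +
          OV hY (j * T + i0) (T + i0) i0 L' +
          WN hX zX TX hY zY TY w (j * T) T (j * T + i0) (T + i0) i0 (j * T + 2 * i0 + s)
          (j * T + T - s) L L'))) :=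
        EX_mono ΛX hX n fun L hL => EX_mono ΛY hY n fun L' hL' =>
          pt hX zX TX hY zY TY TXa TXd TXs TYa TYd TYs w m n (2 * J) T i0 s (by omega) hT1 hT2
            hsT hn L L' hL hL'
    _ = EX ΛX hX n (fun L =>
        ∑ j ∈ Finset.Icc (2 * J) (2 * (2 * J) + 1), EX ΛY hY n (fun L' =>
          I (Ct TX TY w (fun k => j * T - s ≤ k ∧
          k < j * T - s + (2 * s + 4 * i0 + 1)) L L')) +
        ∑ j ∈ Finset.Icc (2 * J) (2 * (2 * J)), (EX ΛY hY n (fun _ => OV hX (j * T) T i0 L) +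
          EX ΛY hY n (OV hY (j * T + i0) (T + i0) i0) +
          EX ΛY hY n (WN hX zX TX hY zY TY w (j * T) T (j * T + i0) (T + i0) i0
            (j * T + 2 * i0 + s) (j * T + T - s) L))) := by
        congr 1
        funext L
        rw [EX_add, EX_sum, EX_sum]
        congr 1
        refine Finset.sum_congr rfl fun j _ => ?_
        rw [EX_add, EX_add]
    _ = ∑ j ∈ Finset.Icc (2 * J) (2 * (2 * J) + 1), EX ΛX hX n (fun L => EX ΛY hY n (fun L' =>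
          I (Ct TX TY w (fun k => j * T - s ≤ k ∧
          k < j * T - s + (2 * s + 4 * i0 + 1)) L L'))) +
        ∑ j ∈ Finset.Icc (2 * J) (2 * (2 * J)),
          (EX ΛX hX n (fun L => EX ΛY hY n (fun _ => OV hX (j * T) T i0 L)) +
          EX ΛX hX n (fun _ => EX ΛY hY n (OV hY (j * T + i0) (T + i0) i0)) +
          EX ΛX hX n (fun L => EX ΛY hY n (WN hX zX TX hY zY TY w (j * T) T (j * T + i0)
            (T + i0) i0 (j * T + 2 * i0 + s) (j * T + T - s) L))) := by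
        rw [EX_add, EX_sum, EX_sum]
        congr 1
        refine Finset.sum_congr rfl fun j _ => ?_
        rw [EX_add, EX_add]
    _ ≤ ∑ _j ∈ Finset.Icc (2 * J) (2 * (2 * J) + 1), η +
        ∑ _j ∈ Finset.Icc (2 * J) (2 * (2 * J)), ((ov + ov) + (ov + ov) + (u * u +
        2 * ((i0 + 1) ^ 4 * (C * (lam + 2 * J * (i0 + 1) * us s / lam + us s))
        + ((1 - u) ^ J + J * ov)))) := by
        refine add_le_add (Finset.sum_le_sum fun j hj => ?_) (Finset.sum_le_sum fun j hj => ?_)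
        · rw [pair_eq]
          exact hη j (Finset.mem_Icc.1 hj).1
        · refine add_le_add (add_le_add ?_ ?_) ?_
          · refine le_trans (EX_mono ΛX hX n fun L _ => EX_const ΛY hY hUY n _) ?_
            exact EX_OV ΛX hX h1X hΛX.le hUX (j * T) T i0 n ov hovX
          · refine le_trans (EX_const ΛX hX hUX n _) ?_
            exact EX_OV ΛY hY h1Y hΛY.le hUY (j * T + i0) (T + i0) i0 n ov hovY
          · refine win1 ΛX hX zX TX ΛY hY zY TY h1X h1Y hΛX hΛY hUX hUY C us H2 H3 u hu0 hu1 i0 ov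
              hovX hovY lam hl0 hlT s T (j * T) J n w hsT ?_
            have hj1 := (Finset.mem_Icc.1 hj).1
            calc J * (T + 2 * i0) ≤ J * (T + T) := Nat.mul_le_mul_left J (by omega)
              _ = (2 * J) * T := by ring
              _ ≤ j * T := Nat.mul_le_mul_right T hj1
    _ = _ := by
        rw [Finset.sum_const, Finset.sum_const, nsmul_eq_mul, nsmul_eq_mul, Nat.card_Icc,
          Nat.card_Icc, show 2 * (2 * J) + 1 + 1 - 2 * J = 2 * J + 2 by omega,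
          show 2 * (2 * J) + 1 - 2 * J = 2 * J + 1 by omega]
        push_cast
        rfl

include TXa TXd TXs TYa TYd TYs in
/-- **the abstract assembly** -/
theorem asm (h1X : ∀ b, 1 ≤ hX b) (h1Y : ∀ b, 1 ≤ hY b) (hΛX : ∑' b, ΛX b = 1)
    (hΛY : ∑' b, ΛY b = 1) (hUX : ∀ n, U ΛX hX n ≤ 1) (hUY : ∀ n, U ΛY hY n ≤ 1)
    (hmX : ∑' k, tail ΛX hX k ≠ ⊤) (hmY : ∑' k, tail ΛY hY k ≠ ⊤)
    (C : ℝ≥0∞) (hC : C ≠ ⊤) (us : ℕ → ℝ≥0∞) (hus : Filter.Tendsto us Filter.atTop (nhds 0))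
    (H2 : H2f ΛX hX zX TX ΛY hY TY C us) (H3 : H3f ΛX hX TX ΛY hY zY TY C us)
    (H5 : H5f ΛX hX TX ΛY hY TY) :
    ∀ ε : ℝ≥0∞, ε ≠ 0 → ∃ M : ℕ, ∀ m, M ≤ m → ∃ n0, ∀ n, n0 ≤ n → ∀ w : G,
      ∑' L : List BX, ∑' L' : List BY,
      I (HT hX L = n ∧ HT hY L' = n ∧ Ct TX TY w (fun k => m < k ∧ k ≤ 2 * m) L L') *
        (LW ΛX L * LW ΛY L') ≤ ε := by
  intro ε hε
  set δ : ℝ≥0∞ := min ε 1 / 8 with hδ
  have hm0 : min ε 1 ≠ 0 := by
    rcases min_choice ε 1 with h | h <;> rw [h]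
    · exact hε
    · exact one_ne_zero
  have hδ0 : δ ≠ 0 := by
    rw [hδ, Ne, ENNReal.div_eq_zero_iff]
    push Not
    exact ⟨hm0, by norm_num⟩
  have hδT : δ ≠ ⊤ := by
    refine ENNReal.div_ne_top (ne_top_of_le_ne_top ENNReal.one_ne_top (min_le_right _ _)) ?_
    norm_num
  have h8 : 8 * δ ≤ ε := by
    rw [hδ]
    exact le_trans ENNReal.mul_div_le (min_le_left _ _)
  obtain ⟨J, u, hJ1, hu0, hu1, hnum⟩ := num2 δ hδ0
  -- overshoot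
  have hovt : Filter.Tendsto (fun i0 => ∑' k, tail ΛX hX (i0 + k) + ∑' k, tail ΛY hY (i0 + k))
      Filter.atTop (nhds 0) := by
    have := (ov_tendsto ΛX hX hmX).add (ov_tendsto ΛY hY hmY)
    simpa using this
  obtain ⟨i0, hi0⟩ := exists_le _ hovt ((2 * (J : ℝ≥0∞) + 1) * (4 + 2 * J)) δ
    (by
      refine ENNReal.mul_ne_top ?_ ?_
      · exact_mod_cast ENNReal.natCast_ne_top (2 * J + 1)
      · exact_mod_cast ENNReal.natCast_ne_top (4 + 2 * J)) hδ0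
  set ov : ℝ≥0∞ := ∑' k, tail ΛX hX (i0 + k) + ∑' k, tail ΛY hY (i0 + k) with hov
  have hovX : ∀ t, ∑' L, I (fp hX t L ∧ t + i0 < HT hX L) * LW ΛX L ≤ ov := fun t =>
    le_trans (over_le ΛX hX h1X hUX i0 t) le_self_add
  have hovY : ∀ t, ∑' L, I (fp hY t L ∧ t + i0 < HT hY L) * LW ΛY L ≤ ov := fun t =>
    le_trans (over_le ΛY hY h1Y hUY i0 t) le_add_self
  -- level of the threshold
  set c3 : ℝ≥0∞ := (2 * (J : ℝ≥0∞) + 1) * 2 * ((i0 : ℝ≥0∞) + 1) ^ 4 * C with hc3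
  have hc3T : c3 ≠ ⊤ := by
    refine ENNReal.mul_ne_top (ENNReal.mul_ne_top (ENNReal.mul_ne_top ?_ ?_) ?_) hC
    · exact_mod_cast ENNReal.natCast_ne_top (2 * J + 1)
    · norm_num
    · refine ENNReal.pow_ne_top ?_
      exact_mod_cast ENNReal.natCast_ne_top (i0 + 1)
  set lam : ℝ≥0∞ := δ / (c3 + 1) with hlam
  have hl0 : lam ≠ 0 := by
    rw [hlam, Ne, ENNReal.div_eq_zero_iff]
    push Not
    exact ⟨hδ0, ENNReal.add_ne_top.2 ⟨hc3T, ENNReal.one_ne_top⟩⟩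
  have hlT : lam ≠ ⊤ := ENNReal.div_ne_top hδT (by simp)
  have hl1 : c3 * lam ≤ δ := by
    calc c3 * lam ≤ (c3 + 1) * lam := mul_le_mul_left le_self_add _
      _ ≤ δ := ENNReal.mul_div_le
  -- height of the turn
  set c4 : ℝ≥0∞ := c3 * (2 * J * (i0 + 1) / lam + 1) with hc4
  have hc4T : c4 ≠ ⊤ := by
    refine ENNReal.mul_ne_top hc3T (ENNReal.add_ne_top.2 ⟨ENNReal.div_ne_top ?_ hl0,
      ENNReal.one_ne_top⟩)
    exact_mod_cast ENNReal.natCast_ne_top (2 * J * (i0 + 1))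
  obtain ⟨s, hs⟩ := exists_le us hus c4 δ hc4T hδ0
  -- slabs
  set η : ℝ≥0∞ := δ / (2 * J + 2) with hη
  have hη0 : η ≠ 0 := by
    rw [hη, Ne, ENNReal.div_eq_zero_iff]
    push Not
    refine ⟨hδ0, ?_⟩
    exact_mod_cast ENNReal.natCast_ne_top (2 * J + 2)
  have hη1 : (2 * J + 2) * η ≤ δ := ENNReal.mul_div_le
  obtain ⟨T0, hT0⟩ := H5 (2 * s + 4 * i0 + 1) η hη0
  refine ⟨(2 * J) * (T0 + s + 2 * i0 + 2 * (2 * J) + 1), fun m hm => ?_⟩
  set T := m / (2 * J) with hT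
  have hJ0 : 0 < 2 * J := by omega
  have hTge : T0 + s + 2 * i0 + 2 * (2 * J) + 1 ≤ T := by
    rw [hT, Nat.le_div_iff_mul_le hJ0, mul_comm]; exact hm
  have hT1 : (2 * J) * T ≤ m := by rw [hT]; exact Nat.mul_div_le m (2 * J)
  have hT2 : 2 * m ≤ (2 * (2 * J) + 1) * T := by
    have h1 : m < (2 * J) * T + (2 * J) := by
      have := Nat.lt_div_mul_add hJ0 (a := m)
      rw [← hT] at this
      linarith [mul_comm T (2 * J)]
    have h2 : (2 * (2 * J) + 1) * T = 2 * ((2 * J) * T) + T := by ring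
    omega
  refine ⟨(2 * (2 * J) + 1) * T + T + 4 * i0, fun n hn w => ?_⟩
  refine (total ΛX hX zX TX ΛY hY zY TY TXa TXd TXs TYa TYd TYs h1X h1Y hΛX hΛY hUX hUY C us H2 H3
    u hu0 hu1 i0 ov hovX hovY lam hl0 hlT s T J n m w hJ1 (by omega) (by omega) hT1 hT2 hn η
    ?_).trans ?_
  · intro j hj
    refine hT0 (j * T - s) ?_ n w
    have : T ≤ j * T := by
      calc T = 1 * T := (one_mul T).symm
        _ ≤ j * T := Nat.mul_le_mul_right T (by omega)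
    omega
  · calc (2 * (J : ℝ≥0∞) + 2) * η + (2 * J + 1) * ((ov + ov) + (ov + ov) + (u * u +
        2 * ((i0 + 1) ^ 4 * (C * (lam + 2 * J * (i0 + 1) * us s / lam + us s))
        + ((1 - u) ^ J + J * ov))))
        = (2 * J + 2) * η + (2 * J + 1) * (u * u + 2 * (1 - u) ^ J)
          + (2 * J + 1) * (4 + 2 * J) * ov + c3 * lam + c4 * us s := by
          rw [hc4, hc3]
          simp only [div_eq_mul_inv]
          ring
      _ ≤ δ + δ + δ + δ + δ := by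
          refine add_le_add (add_le_add (add_le_add (add_le_add hη1 hnum) hi0) hl1) hs
      _ ≤ 8 * δ := by
          have : 8 * δ = δ + δ + δ + δ + δ + 3 * δ := by ring
          rw [this]; exact le_self_add
      _ ≤ ε := h8

end asm

end Crest.Agent.R154.Asm324
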