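import Crest.Agent.R154.AsmH_594

/-! Row 154, ROAD 801 (helper594): the assembly `kapS`, choice of the constants. -/

set_option autoImplicit false

namespace Crest.Agent.R154.Asm594

open scoped ENNReal Topology
open Crest.Agent.R154.B5A
open Crest.Agent.R154.Bind12 (TT Dp)

lemma exists_small (f : ℕ → ℝ≥0∞) (hf : Filter.Tendsto f Filter.atTop (𝓝 0)) (ε : ℝ≥0∞)
    (hε : ε ≠ 0) : ∃ N, ∀ i, N ≤ i → f i ≤ ε := by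
  have := (ENNReal.tendsto_nhds_zero.1 hf) ε (pos_iff_ne_zero.2 hε)
  exact Filter.eventually_atTop.1 this

section main

variable {BX BY G : Type*} [AddCommGroup G] (ΛX : BX → ℝ≥0∞) (ΛY : BY → ℝ≥0∞)
  (hX : BX → ℕ) (hY : BY → ℕ) (zX : BX → G) (zY : BY → G)
  (sX : BX → Set (G × ℕ)) (sY : BY → Set (G × ℕ))

lemma F2_mono {η Cst : ℝ≥0∞} {s s' D : ℕ} (h : s ≤ s')
    (hF : F2 ΛX ΛY hX hY zX zY sX sY η Cst s D) : F2 ΛX ΛY hX hY zX zY sX sY η Cst s' D := by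
  intro a a' h h' lo hi q1 q2 q3 q4 q5 q6 q7 q8
  exact hF a a' h h' lo hi q1 q2 q3 q4 (by omega) (by omega) (by omega) (by omega)

lemma F3_mono {η Cst : ℝ≥0∞} {s s' D : ℕ} (h : s ≤ s')
    (hF : F3 ΛX ΛY hX hY zX zY sX sY η Cst s D) : F3 ΛX ΛY hX hY zX zY sX sY η Cst s' D := by
  intro a a' h h' lo hi q1 q2 q3 q4 q5 q6 q7 q8
  exact hF a a' h h' lo hi q1 q2 q3 q4 (by omega) (by omega) (by omega) (by omega)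

open Classical in
/-- **`kapS`** -/
theorem kapS (h1X : ∀ b, 1 ≤ hX b) (h1Y : ∀ b, 1 ≤ hY b) (hΛX : ∑' b, ΛX b = 1)
    (hΛY : ∑' b, ΛY b = 1) (hU1X : ∀ n, U ΛX hX n ≤ 1) (hU1Y : ∀ n, U ΛY hY n ≤ 1)
    (hsX : ∀ b, ∀ p ∈ sX b, 1 ≤ p.2 ∧ p.2 ≤ hX b) (hsY : ∀ b, ∀ p ∈ sY b, 1 ≤ p.2 ∧ p.2 ≤ hY b)
    (hgX : Filter.Tendsto (fun i0 : ℕ => ∑' b, ΛX b * ((hX b - i0 : ℕ) : ℝ≥0∞)) Filter.atTop (𝓝 0))
    (hgY : Filter.Tendsto (fun i0 : ℕ => ∑' b, ΛY b * ((hY b - i0 : ℕ) : ℝ≥0∞)) Filter.atTop (𝓝 0))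
    (hF2 : ∀ Cst : ℝ≥0∞, Cst ≠ ⊤ → ∀ (D : ℕ) (η : ℝ≥0∞), η ≠ 0 → ∃ s,
      F2 ΛX ΛY hX hY zX zY sX sY η Cst s D)
    (hF3 : ∀ Cst : ℝ≥0∞, Cst ≠ ⊤ → ∀ (D : ℕ) (η : ℝ≥0∞), η ≠ 0 → ∃ s,
      F3 ΛX ΛY hX hY zX zY sX sY η Cst s D)
    (hF5 : ∀ s : ℕ, ∀ η : ℝ≥0∞, η ≠ 0 → ∃ T : ℕ, ∀ a, T ≤ a → ∀ (n : ℕ) (w : G),
      ∑' LX : List BX, ∑' LY : List BY, (if HT hX LX = n ∧ HT hY LY = n ∧
        (∃ z k, a ≤ k ∧ k < a + s ∧ (z, k) ∈ TT sX zX hX LX 0 0 ∧ (z, k) ∈ TT sY zY hY LY w 0)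
        then LW ΛX LX * LW ΛY LY else 0) ≤ η) :
    ∀ ε : ℝ≥0∞, ε ≠ 0 → ∃ M : ℕ, ∀ m, M ≤ m → ∃ n0 : ℕ, ∀ n, n0 ≤ n → ∀ w : G,
      ∑' LX : List BX, ∑' LY : List BY, (if HT hX LX = n ∧ HT hY LY = n ∧
        (∃ z k, m < k ∧ k ≤ 2 * m ∧ (z, k) ∈ TT sX zX hX LX 0 0 ∧ (z, k) ∈ TT sY zY hY LY w 0)
        then LW ΛX LX * LW ΛY LY else 0) ≤ ε := by
  intro ε hε
  -- a finite smaller `ε`
  obtain ⟨δ, hδ0, hδt, hδ⟩ : ∃ δ : ℝ≥0∞, δ ≠ 0 ∧ δ ≠ ⊤ ∧ 4 * δ ≤ ε := by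
    refine ⟨min ε 1 / 4, ?_, ?_, ?_⟩
    · rw [Ne, ENNReal.div_eq_zero_iff, not_or]
      refine ⟨?_, by norm_num⟩
      intro h
      rcases min_eq_iff.1 h with h | h
      · exact hε h.1
      · exact one_ne_zero h.1
    · refine ENNReal.div_ne_top (ne_top_of_le_ne_top ENNReal.one_ne_top (min_le_right _ _)) (by norm_num)
    · rw [ENNReal.mul_div_cancel (by norm_num) (by norm_num)]
      exact min_le_left _ _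
  obtain ⟨q, hq2, hq⟩ := AsmA789.num hδ0 2
  set K0 := q ^ 3 with hK0
  set u : ℝ≥0∞ := ((q : ℝ≥0∞) ^ 2)⁻¹ with hu
  have hqq : (2 : ℝ≥0∞) ≤ q := by exact_mod_cast hq2
  have hu0 : u ≠ 0 := by
    rw [hu]
    exact ENNReal.inv_ne_zero.2 (ENNReal.pow_ne_top (ENNReal.natCast_ne_top q))
  have hu1 : u < 1 := by
    rw [hu, ENNReal.inv_lt_one]
    calc (1 : ℝ≥0∞) < 2 := by norm_num
      _ ≤ q := hqq
      _ ≤ (q : ℝ≥0∞) ^ 2 := by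
        rw [sq]
        exact le_mul_of_one_le_left' (le_trans (by norm_num) hqq)
  have hK1 : 1 ≤ K0 := Nat.one_le_pow _ _ (by omega)
  -- constants
  have hJ0 : ((2 * K0 + 1 : ℕ) : ℝ≥0∞) ≠ 0 := by exact_mod_cast (by omega : 2 * K0 + 1 ≠ 0)
  have hJt : ((2 * K0 + 1 : ℕ) : ℝ≥0∞) ≠ ⊤ := ENNReal.natCast_ne_top _
  have hδ2 : δ / 2 / ((2 * K0 + 1 : ℕ) : ℝ≥0∞) ≠ 0 := by
    rw [Ne, ENNReal.div_eq_zero_iff, not_or, ENNReal.div_eq_zero_iff, not_or]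
    exact ⟨⟨hδ0, by norm_num⟩, hJt⟩
  obtain ⟨NX, hNX⟩ := exists_small _ hgX _ hδ2
  obtain ⟨NY, hNY⟩ := exists_small _ hgY _ hδ2
  set i0 := max NX NY with hi0
  have gX := hNX i0 (le_max_left _ _)
  have gY := hNY i0 (le_max_right _ _)
  set N1 : ℕ := (2 * K0 + 1) * i0 + 1 with hN1
  set W : ℝ≥0∞ := ((K0 + 1 : ℕ) : ℝ≥0∞) * (2 * ((N1 : ℝ≥0∞) * N1 * ((i0 + 1 : ℕ) * (i0 + 1 : ℕ)))) with hW
  have hWt : W ≠ ⊤ := by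
    rw [hW]
    have n1 : (N1 : ℝ≥0∞) ≠ ⊤ := ENNReal.natCast_ne_top _
    have n2 : ((i0 + 1 : ℕ) : ℝ≥0∞) ≠ ⊤ := ENNReal.natCast_ne_top _
    have n3 : ((K0 + 1 : ℕ) : ℝ≥0∞) ≠ ⊤ := ENNReal.natCast_ne_top _
    exact ENNReal.mul_ne_top n3 (ENNReal.mul_ne_top (by norm_num)
      (ENNReal.mul_ne_top (ENNReal.mul_ne_top n1 n1) (ENNReal.mul_ne_top n2 n2)))
  have hW0 : W ≠ 0 := by
    rw [hW]
    have n1 : (N1 : ℝ≥0∞) ≠ 0 := by exact_mod_cast (by omega : N1 ≠ 0)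
    have n2 : ((i0 + 1 : ℕ) : ℝ≥0∞) ≠ 0 := by exact_mod_cast (by omega : i0 + 1 ≠ 0)
    have n3 : ((K0 + 1 : ℕ) : ℝ≥0∞) ≠ 0 := by exact_mod_cast (by omega : K0 + 1 ≠ 0)
    exact mul_ne_zero n3 (mul_ne_zero (by norm_num)
      (mul_ne_zero (mul_ne_zero n1 n1) (mul_ne_zero n2 n2)))
  have hη0 : δ / W ≠ 0 := by
    rw [Ne, ENNReal.div_eq_zero_iff, not_or]; exact ⟨hδ0, hWt⟩
  have hut : u⁻¹ ≠ ⊤ := ENNReal.inv_ne_top.2 hu0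
  obtain ⟨s2, hs2⟩ := hF2 u⁻¹ hut (2 * (2 * K0 + 1) * i0) (δ / W) hη0
  obtain ⟨s3, hs3⟩ := hF3 u⁻¹ hut (2 * (2 * K0 + 1) * i0) (δ / W) hη0
  set s := max s2 s3 with hs
  have hs2' := F2_mono ΛX ΛY hX hY zX zY sX sY (le_max_left s2 s3) hs2
  have hs3' := F3_mono ΛX ΛY hX hY zX zY sX sY (le_max_right s2 s3) hs3
  have hη5 : δ / ((K0 + 2 : ℕ) : ℝ≥0∞) ≠ 0 := by
    rw [Ne, ENNReal.div_eq_zero_iff, not_or]; exact ⟨hδ0, ENNReal.natCast_ne_top _⟩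
  obtain ⟨T5, hT5⟩ := hF5 (2 * (2 * K0 + 1) * i0 + 2 * s + 1) (δ / ((K0 + 2 : ℕ) : ℝ≥0∞)) hη5
  refine ⟨K0 * (T5 + s + 2 * K0 + 2), fun m hm => ?_⟩
  set T := m / K0 with hT
  have hTge : T5 + s + 2 * K0 + 2 ≤ T := (Nat.le_div_iff_mul_le (by omega)).2 (by rw [mul_comm]; exact hm)
  have hm1 : K0 * T ≤ m := Nat.mul_div_le m K0
  have hm2 : 2 * m < (2 * K0 + 1) * T := by
    have h1 : m < K0 * T + K0 := by
      have := Nat.lt_mul_div_succ m (show 0 < K0 by omega)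
      rw [Nat.mul_add, mul_one] at this
      exact this
    have h2 : (2 * K0 + 1) * T = 2 * (K0 * T) + T := by ring
    omega
  refine ⟨(2 * K0 + 1) * (T + i0 + i0), fun n hn w => ?_⟩
  have key := split_le ΛX ΛY hX hY zX zY sX sY h1X h1Y hΛX hΛY hU1X hU1Y hsX hsY T i0 s K0 m n w
    hK1 (by omega) hm1 hm2 hn (δ / W) u (δ / ((K0 + 2 : ℕ) : ℝ≥0∞)) hu0 hu1 hs2' hs3' (by
      intro j hj
      rw [Finset.mem_Icc] at hj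
      have hjT : T ≤ j * T := by
        calc T = 1 * T := (one_mul T).symm
          _ ≤ j * T := Nat.mul_le_mul_right T (by omega)
      refine (le_of_eq ?_).trans (hT5 (j * T - s) (by omega) n w)
      rw [ENNReal.tsum_prod']
      refine tsum_congr fun LX => tsum_congr fun LY => ?_
      unfold wt CT
      by_cases q1 : HT hX LX = n ∧ HT hY LY = n
      · by_cases q2 : ∃ z k, j * T - s ≤ k ∧ k < j * T - s + (2 * (2 * K0 + 1) * i0 + 2 * s + 1) ∧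
            (z, k) ∈ TT sX zX hX LX 0 0 ∧ (z, k) ∈ TT sY zY hY LY w 0
        · rw [if_pos (show HT hX LX = n ∧ HT hY LY = n ∧ _ from ⟨q1.1, q1.2, q2⟩), if_pos, if_pos q1]
          obtain ⟨z, k, r1, r2, r3, r4⟩ := q2
          exact ⟨z, k, ⟨r1, r2⟩, r3, r4⟩
        · rw [if_neg (show ¬ (HT hX LX = n ∧ HT hY LY = n ∧ _) from fun h => q2 h.2.2), if_neg]
          rintro ⟨z, k, ⟨r1, r2⟩, r3, r4⟩
          exact q2 ⟨z, k, r1, r2, r3, r4⟩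
      · rw [if_neg (show ¬ (HT hX LX = n ∧ HT hY LY = n ∧ _) from fun h => q1 ⟨h.1, h.2.1⟩)]
        simp only [if_neg q1, ite_self])
  have conv : ∑' LX : List BX, ∑' LY : List BY, (if HT hX LX = n ∧ HT hY LY = n ∧
        (∃ z k, m < k ∧ k ≤ 2 * m ∧ (z, k) ∈ TT sX zX hX LX 0 0 ∧ (z, k) ∈ TT sY zY hY LY w 0)
        then LW ΛX LX * LW ΛY LY else 0)
      = ∑' p : List BX × List BY,
      (if CT hX hY zX zY sX sY w (fun k => m < k ∧ k ≤ 2 * m) p.1 p.2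
        then wt ΛX ΛY hX hY n p else 0) := by
    rw [ENNReal.tsum_prod']
    refine tsum_congr fun LX => tsum_congr fun LY => ?_
    unfold wt CT
    by_cases q1 : HT hX LX = n ∧ HT hY LY = n
    · by_cases q2 : ∃ z k, m < k ∧ k ≤ 2 * m ∧
          (z, k) ∈ TT sX zX hX LX 0 0 ∧ (z, k) ∈ TT sY zY hY LY w 0
      · rw [if_pos (show HT hX LX = n ∧ HT hY LY = n ∧ _ from ⟨q1.1, q1.2, q2⟩), if_pos, if_pos q1]
        obtain ⟨z, k, r1, r2, r3, r4⟩ := q2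
        exact ⟨z, k, ⟨r1, r2⟩, r3, r4⟩
      · rw [if_neg (show ¬ (HT hX LX = n ∧ HT hY LY = n ∧ _) from fun h => q2 h.2.2), if_neg]
        rintro ⟨z, k, ⟨r1, r2⟩, r3, r4⟩
        exact q2 ⟨z, k, r1, r2, r3, r4⟩
    · rw [if_neg (show ¬ (HT hX LX = n ∧ HT hY LY = n ∧ _) from fun h => q1 ⟨h.1, h.2.1⟩)]
      simp only [if_neg q1, ite_self]
  rw [conv]
  refine key.trans (le_trans ?_ hδ)
  have b1 : ((K0 + 2 : ℕ) : ℝ≥0∞) * (δ / ((K0 + 2 : ℕ) : ℝ≥0∞)) = δ :=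
    ENNReal.mul_div_cancel (by exact_mod_cast (by omega : K0 + 2 ≠ 0)) (ENNReal.natCast_ne_top _)
  have b2 : ((2 * K0 + 1 : ℕ) : ℝ≥0∞) * (∑' b, ΛX b * ((hX b - i0 : ℕ) : ℝ≥0∞)) +
        (2 * K0 + 1 : ℕ) * (∑' b, ΛY b * ((hY b - i0 : ℕ) : ℝ≥0∞)) ≤ δ := by
    calc _ ≤ ((2 * K0 + 1 : ℕ) : ℝ≥0∞) * (δ / 2 / ((2 * K0 + 1 : ℕ) : ℝ≥0∞)) +
          (2 * K0 + 1 : ℕ) * (δ / 2 / ((2 * K0 + 1 : ℕ) : ℝ≥0∞)) :=
          add_le_add (mul_le_mul_right gX _) (mul_le_mul_right gY _)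
      _ = δ := by rw [ENNReal.mul_div_cancel hJ0 hJt, ENNReal.add_halves]
  have b3 : ((K0 + 1 : ℕ) : ℝ≥0∞) * (2 * (1 - u) ^ K0 + u * u) ≤ δ := by
    refine le_trans ?_ hq
    have hle : 1 - u ≤ 1 - (2 * (q : ℝ≥0∞) ^ 2)⁻¹ := by
      refine tsub_le_tsub_left ?_ _
      rw [hu]
      exact ENNReal.inv_le_inv.2 (le_mul_of_one_le_left' (by norm_num))
    have hp : (1 - u) ^ K0 ≤ (1 - (2 * (q : ℝ≥0∞) ^ 2)⁻¹) ^ (q ^ 3) := pow_le_pow_left' hle _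
    calc ((K0 + 1 : ℕ) : ℝ≥0∞) * (2 * (1 - u) ^ K0 + u * u)
        ≤ ((q : ℝ≥0∞) ^ 3 + 2) * (2 * ((1 - (2 * (q : ℝ≥0∞) ^ 2)⁻¹) ^ (q ^ 3)) + 2 * u ^ 2) := by
          refine mul_le_mul' ?_ (add_le_add (mul_le_mul_right hp _) ?_)
          · rw [hK0]; push_cast
            exact add_le_add le_rfl (by norm_num)
          · rw [sq]; exact le_mul_of_one_le_left' (by norm_num)
      _ = ((2 : ℕ) : ℝ≥0∞) * ((q : ℝ≥0∞) ^ 3 + (2 : ℕ)) *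
          (((q : ℝ≥0∞) ^ 2)⁻¹ ^ 2 + (1 - (2 * (q : ℝ≥0∞) ^ 2)⁻¹) ^ (q ^ 3)) := by
          rw [← hu]; push_cast; ring
  have b4 : W * (δ / W) = δ := ENNReal.mul_div_cancel hW0 hWt
  calc _ = (((K0 + 2 : ℕ) : ℝ≥0∞) * (δ / ((K0 + 2 : ℕ) : ℝ≥0∞)) +
        (((2 * K0 + 1 : ℕ) : ℝ≥0∞) * (∑' b, ΛX b * ((hX b - i0 : ℕ) : ℝ≥0∞)) +
        (2 * K0 + 1 : ℕ) * (∑' b, ΛY b * ((hY b - i0 : ℕ) : ℝ≥0∞)))) +
        (((K0 + 1 : ℕ) : ℝ≥0∞) * (2 * (1 - u) ^ K0 + u * u) + W * (δ / W)) := by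
        rw [hW]; ring
    _ ≤ (δ + δ) + (δ + δ) := add_le_add (add_le_add b1.le b2) (add_le_add b3 b4.le)
    _ = 4 * δ := by ring

end main

end Crest.Agent.R154.Asm594
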