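import Crest.Agent.R154.AsmH_790
import Crest.Agent.R154.FP_178
import Crest.Agent.R154.AsmA_789

/-! Row 154, ROAD 801 (helper790): abstract assembly, part I: sum over the windows, constants. -/

set_option autoImplicit false

namespace Crest.Agent.R154.Asm790

open scoped ENNReal Topology
open Crest.Agent.R154.B5A Filter

/-! ### overshoot -/

lemma FP_iff {B : Type*} (ht : B → ℕ) (L : List B) (τ : ℕ) : FP ht τ L ↔ FP178.fp ht τ L := by
  induction L generalizing τ with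
  | nil => rfl
  | cons b L ih => simp only [FP, FP178.fp, ih]

lemma Ov_small {B : Type*} (Λ : B → ℝ≥0∞) (ht : B → ℕ) (h1 : ∀ b, 1 ≤ ht b)
    (hΛ : ∑' b, Λ b = 1) (hU1 : ∀ n, U Λ ht n ≤ 1) (hm : ∑' b, Λ b * (ht b : ℝ≥0∞) ≠ ⊤)
    (δ : ℝ≥0∞) (hδ : δ ≠ 0) : ∃ I, ∀ i0 ≥ I, ∀ τ, Ov Λ ht τ i0 ≤ δ := by
  rw [sum_tail Λ ht hΛ] at hm
  have h := ENNReal.tendsto_sum_nat_add (fun k => tail Λ ht k) hm
  obtain ⟨I, hI⟩ := Filter.eventually_atTop.1 (h.eventually_lt_const (pos_iff_ne_zero.2 hδ))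
  refine ⟨I, fun i0 hi0 τ => ?_⟩
  classical
  refine le_trans ?_ ((FP178.overshoot Λ ht h1 hU1 i0 τ).trans (le_trans (le_of_eq ?_) (hI i0 hi0).le))
  · rw [Ov]
    refine ENNReal.tsum_le_tsum fun P => ?_
    by_cases hc : FP ht τ P ∧ τ + i0 < HT ht P
    · rw [if_pos hc, if_pos ⟨(FP_iff ht P τ).1 hc.1, hc.2⟩]
    · rw [if_neg hc]; exact zero_le
  · exact tsum_congr fun k => by rw [add_comm]

lemma small (A : ℝ≥0∞) (hA : A ≠ ⊤) (ε : ℝ≥0∞) (hε : ε ≠ 0) :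
    ∃ δ : ℝ≥0∞, δ ≠ 0 ∧ δ ≠ ⊤ ∧ A * δ ≤ ε := by
  refine ⟨min ε 1 / (A + 1), ?_, ?_, ?_⟩
  · rw [Ne, ENNReal.div_eq_zero_iff, not_or]
    refine ⟨?_, by simp [hA]⟩
    rw [← Ne, ← pos_iff_ne_zero]
    exact lt_min (pos_iff_ne_zero.2 hε) one_pos
  · exact ENNReal.div_ne_top (by simp) (by simp)
  · calc A * (min ε 1 / (A + 1)) ≤ (A + 1) * (min ε 1 / (A + 1)) :=
        mul_le_mul_left le_self_add _
      _ = min ε 1 := ENNReal.mul_div_cancel (by simp) (by simp [hA])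
      _ ≤ ε := min_le_left _ _

/-! ### extension -/

open Classical in
lemma ext_one {B : Type*} (Λ : B → ℝ≥0∞) (ht : B → ℕ) (h1 : ∀ b, 1 ≤ ht b) (n N : ℕ)
    (F : List B → ℝ≥0∞) (hF : ∀ L R, F L ≤ F (L ++ R)) :
    (∑' L, (if HT ht L = n then LW Λ L * F L else 0)) * U Λ ht N
      ≤ ∑' L, (if HT ht L = n + N then LW Λ L * F L else 0) := by
  have e1 : (∑' L, (if HT ht L = n then LW Λ L * F L else 0)) * U Λ ht N
      = ∑' p : List B × List B, (if HT ht p.1 = n ∧ HT ht p.2 = N then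
        LW Λ p.1 * F p.1 * LW Λ p.2 else 0) := by
    rw [ENNReal.tsum_prod (f := fun L R => (if HT ht L = n ∧ HT ht R = N then
        LW Λ L * F L * LW Λ R else 0)), ← ENNReal.tsum_mul_right]
    refine tsum_congr fun L => ?_
    rw [U, ← ENNReal.tsum_mul_left]
    refine tsum_congr fun R => ?_
    by_cases h : HT ht L = n <;> by_cases h2 : HT ht R = N <;> simp [h, h2]
  rw [e1]
  set S : Set (List B × List B) := {p | HT ht p.1 = n ∧ HT ht p.2 = N} with hS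
  have e2 : ∑' p : List B × List B, (if HT ht p.1 = n ∧ HT ht p.2 = N then
        LW Λ p.1 * F p.1 * LW Λ p.2 else 0) = ∑' p : S, LW Λ p.1.1 * F p.1.1 * LW Λ p.1.2 := by
    rw [tsum_subtype S (fun p => LW Λ p.1 * F p.1 * LW Λ p.2)]
    refine tsum_congr fun p => ?_
    by_cases h : HT ht p.1 = n ∧ HT ht p.2 = N
    · rw [if_pos h, Set.indicator_of_mem (show p ∈ S from h)]
    · rw [if_neg h, Set.indicator_of_notMem (show p ∉ S from h)]
  rw [e2]
  have hinj : Function.Injective (fun p : S => p.1.1 ++ p.1.2) := by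
    rintro ⟨⟨L, R⟩, hL, hR⟩ ⟨⟨L', R'⟩, hL', hR'⟩ h
    simp only at h hL hR hL' hR'
    have key : ∀ T : List B, HT ht T = 0 → T = [] := by
      intro T hT
      have := length_le_HT ht h1 T
      exact List.length_eq_zero_iff.1 (by omega)
    rcases List.append_eq_append_iff.1 h with ⟨T, hT1, hT2⟩ | ⟨T, hT1, hT2⟩
    · have : T = [] := key T (by rw [hT1, HT_append] at hL'; omega)
      subst this
      simp at hT1 hT2
      subst hT1 hT2; rfl
    · have : T = [] := key T (by rw [hT1, HT_append] at hL; omega)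
      subst this
      simp at hT1 hT2
      subst hT1 hT2; rfl
  refine le_trans (ENNReal.tsum_le_tsum fun p => ?_) (ENNReal.tsum_comp_le_tsum_of_injective hinj
    (fun L => if HT ht L = n + N then LW Λ L * F L else 0))
  obtain ⟨⟨L, R⟩, hL, hR⟩ := p
  simp only at hL hR ⊢
  rw [if_pos (by rw [HT_append]; omega), LW_append]
  calc LW Λ L * F L * LW Λ R ≤ LW Λ L * F (L ++ R) * LW Λ R :=
        mul_le_mul_left (mul_le_mul_right (hF _ _) _) _
    _ = _ := by ring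

variable {BX BY G : Type*} [AddCommGroup G]
variable (ΛX : BX → ℝ≥0∞) (ΛY : BY → ℝ≥0∞) (hX : BX → ℕ) (hY : BY → ℕ) (zX : BX → G) (zY : BY → G)
  (sX : BX → Set (G × ℕ)) (sY : BY → Set (G × ℕ))

open Classical in
/-- weight of the pairs of lists of height `n` with a contact at depth in `(m, 2m]` -/
noncomputable def KS (n m : ℕ) (w : G) : ℝ≥0∞ :=
  ∑' LX, ∑' LY, (if HT hX LX = n ∧ HT hY LY = n ∧ (∃ z k, m < k ∧ k ≤ 2 * m ∧
    (z, k) ∈ TX hX zX sX LX 0 0 ∧ (z, k) ∈ TX hY zY sY LY w 0) then LW ΛX LX * LW ΛY LY else 0)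

open Classical in
/-- **H5**: thin slabs (input) -/
def H5 : Prop := ∀ s : ℕ, ∀ η : ℝ≥0∞, η ≠ 0 → ∃ T : ℕ, ∀ a, T ≤ a → ∀ n : ℕ, ∀ w : G,
  ∑' LX, ∑' LY, (if HT hX LX = n ∧ HT hY LY = n ∧ (∃ z k, a ≤ k ∧ k < a + s ∧
    (z, k) ∈ TX hX zX sX LX 0 0 ∧ (z, k) ∈ TX hY zY sY LY w 0) then LW ΛX LX * LW ΛY LY else 0) ≤ η

open Classical in
lemma KS_ext (h1X : ∀ b, 1 ≤ hX b) (h1Y : ∀ b, 1 ≤ hY b) (n N m : ℕ) (w : G) :
    KS ΛX ΛY hX hY zX zY sX sY n m w * U ΛX hX N * U ΛY hY N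
      ≤ KS ΛX ΛY hX hY zX zY sX sY (n + N) m w := by
  set ev : List BX → List BY → Prop := fun LX LY => ∃ z k, m < k ∧ k ≤ 2 * m ∧
    (z, k) ∈ TX hX zX sX LX 0 0 ∧ (z, k) ∈ TX hY zY sY LY w 0 with hev
  have mX : ∀ LX R LY, ev LX LY → ev (LX ++ R) LY := by
    rintro LX R LY ⟨z, k, a1, a2, a3, a4⟩
    exact ⟨z, k, a1, a2, by rw [TX_append]; exact Or.inl a3, a4⟩
  have mY : ∀ LX LY R, ev LX LY → ev LX (LY ++ R) := by
    rintro LX LY R ⟨z, k, a1, a2, a3, a4⟩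
    exact ⟨z, k, a1, a2, a3, by rw [TX_append]; exact Or.inl a4⟩
  have form : ∀ n1 n2 : ℕ, ∑' LX, ∑' LY, (if HT hX LX = n1 ∧ HT hY LY = n2 ∧ ev LX LY then
      LW ΛX LX * LW ΛY LY else 0) = ∑' LX, (if HT hX LX = n1 then LW ΛX LX *
        (∑' LY, (if HT hY LY = n2 then LW ΛY LY * (if ev LX LY then 1 else 0) else 0)) else 0) := by
    intro n1 n2
    refine tsum_congr fun LX => ?_
    by_cases h : HT hX LX = n1
    · rw [if_pos h, ← ENNReal.tsum_mul_left]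
      refine tsum_congr fun LY => ?_
      by_cases h2 : HT hY LY = n2 <;> by_cases h3 : ev LX LY <;> simp [h, h2, h3]
    · simp [h]
  have form' : ∀ n1 n2 : ℕ, ∑' LX, ∑' LY, (if HT hX LX = n1 ∧ HT hY LY = n2 ∧ ev LX LY then
      LW ΛX LX * LW ΛY LY else 0) = ∑' LY, (if HT hY LY = n2 then LW ΛY LY *
        (∑' LX, (if HT hX LX = n1 then LW ΛX LX * (if ev LX LY then 1 else 0) else 0)) else 0) := by
    intro n1 n2
    rw [ENNReal.tsum_comm]
    refine tsum_congr fun LY => ?_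
    by_cases h : HT hY LY = n2
    · rw [if_pos h, ← ENNReal.tsum_mul_left]
      refine tsum_congr fun LX => ?_
      by_cases h2 : HT hX LX = n1 <;> by_cases h3 : ev LX LY <;> simp [h, h2, h3, mul_comm]
    · simp [h]
  have s1 : KS ΛX ΛY hX hY zX zY sX sY n m w * U ΛX hX N
      ≤ ∑' LX, ∑' LY, (if HT hX LX = n + N ∧ HT hY LY = n ∧ ev LX LY then
      LW ΛX LX * LW ΛY LY else 0) := by
    have : KS ΛX ΛY hX hY zX zY sX sY n m w = ∑' LX, ∑' LY, (if HT hX LX = n ∧ HT hY LY = n ∧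
      ev LX LY then LW ΛX LX * LW ΛY LY else 0) := rfl
    rw [this, form, form]
    refine ext_one ΛX hX h1X n N _ fun L R => ENNReal.tsum_le_tsum fun LY => ?_
    by_cases h : HT hY LY = n
    · rw [if_pos h, if_pos h]
      refine mul_le_mul_right ?_ _
      by_cases h2 : ev L LY
      · rw [if_pos h2, if_pos (mX _ _ _ h2)]
      · rw [if_neg h2]; exact zero_le
    · rw [if_neg h]; exact zero_le
  refine (mul_le_mul_left s1 _).trans ?_
  have : KS ΛX ΛY hX hY zX zY sX sY (n + N) m w = ∑' LX, ∑' LY, (if HT hX LX = n + N ∧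
      HT hY LY = n + N ∧ ev LX LY then LW ΛX LX * LW ΛY LY else 0) := rfl
  rw [this, form', form']
  refine ext_one ΛY hY h1Y n N _ fun L R => ENNReal.tsum_le_tsum fun LX => ?_
  by_cases h : HT hX LX = n + N
  · rw [if_pos h, if_pos h]
    refine mul_le_mul_right ?_ _
    by_cases h2 : ev LX L
    · rw [if_pos h2, if_pos (mY _ _ _ h2)]
    · rw [if_neg h2]; exact zero_le
  · rw [if_neg h]; exact zero_le

open Classical in
/-- sum over the windows -/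
lemma KS_le (τ i s K m n : ℕ) (hτ : s + 1 ≤ τ) (hK1 : K * τ ≤ m)
    (hK2 : m < (K + 1) * τ) (w : G) (V η : ℝ≥0∞)
    (hV : ∀ j ∈ Finset.Icc K (2 * K + 1), ∑' LX, ∑' LY, (if HT hX LX = n ∧ HT hY LY = n ∧
      Wev hX hY zX zY sX sY τ i s j w LX LY then LW ΛX LX * LW ΛY LY else 0) ≤ V)
    (hη : ∀ j ∈ Finset.Icc K (2 * K + 2), ∑' LX, ∑' LY, (if HT hX LX = n ∧ HT hY LY = n ∧
      (∃ z k, j * τ ≤ k + s ∧ k < j * τ + i + s ∧
      (z, k) ∈ TX hX zX sX LX 0 0 ∧ (z, k) ∈ TX hY zY sY LY w 0) then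
        LW ΛX LX * LW ΛY LY else 0) ≤ η) :
    KS ΛX ΛY hX hY zX zY sX sY n m w ≤ (K + 2 : ℕ) * V + (K + 3 : ℕ) * η := by
  have hpt : ∀ LX LY, (if HT hX LX = n ∧ HT hY LY = n ∧ (∃ z k, m < k ∧ k ≤ 2 * m ∧
      (z, k) ∈ TX hX zX sX LX 0 0 ∧ (z, k) ∈ TX hY zY sY LY w 0) then LW ΛX LX * LW ΛY LY else 0)
      ≤ ∑ j ∈ Finset.Icc K (2 * K + 1), (if HT hX LX = n ∧ HT hY LY = n ∧
        Wev hX hY zX zY sX sY τ i s j w LX LY then LW ΛX LX * LW ΛY LY else 0)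
      + ∑ j ∈ Finset.Icc K (2 * K + 2), (if HT hX LX = n ∧ HT hY LY = n ∧
      (∃ z k, j * τ ≤ k + s ∧ k < j * τ + i + s ∧
      (z, k) ∈ TX hX zX sX LX 0 0 ∧ (z, k) ∈ TX hY zY sY LY w 0) then
        LW ΛX LX * LW ΛY LY else 0) := by
    intro LX LY
    by_cases hev : HT hX LX = n ∧ HT hY LY = n ∧ (∃ z k, m < k ∧ k ≤ 2 * m ∧
      (z, k) ∈ TX hX zX sX LX 0 0 ∧ (z, k) ∈ TX hY zY sY LY w 0)
    swap
    · rw [if_neg hev]; exact zero_le
    rw [if_pos hev]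
    by_cases hsl : ∃ j ∈ Finset.Icc K (2 * K + 2), (∃ z k, j * τ ≤ k + s ∧ k < j * τ + i + s ∧
      (z, k) ∈ TX hX zX sX LX 0 0 ∧ (z, k) ∈ TX hY zY sY LY w 0)
    · obtain ⟨j, hj, hj2⟩ := hsl
      refine le_add_left ?_
      refine le_trans (le_of_eq ?_) (Finset.single_le_sum (f := fun j =>
        (if HT hX LX = n ∧ HT hY LY = n ∧ (∃ z k, j * τ ≤ k + s ∧ k < j * τ + i + s ∧
      (z, k) ∈ TX hX zX sX LX 0 0 ∧ (z, k) ∈ TX hY zY sY LY w 0) then
        LW ΛX LX * LW ΛY LY else 0)) (fun _ _ => zero_le) hj)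
      rw [if_pos ⟨hev.1, hev.2.1, hj2⟩]
    · push Not at hsl
      obtain ⟨z, k, k1, k2, c1, c2⟩ := hev.2.2
      have hτ0 : 0 < τ := by omega
      have j1 : K ≤ k / τ := by rw [Nat.le_div_iff_mul_le hτ0]; omega
      have j2 : k / τ ≤ 2 * K + 1 := by
        have : k / τ < 2 * K + 2 := by
          rw [Nat.div_lt_iff_lt_mul hτ0]
          have : (2 * K + 2) * τ = 2 * ((K + 1) * τ) := by ring
          omega
        omega
      have d1 : k / τ * τ ≤ k := Nat.div_mul_le_self k τ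
      have d2 : k < (k / τ + 1) * τ := by
        have e := Nat.div_add_mod k τ
        have e' := Nat.mod_lt k hτ0
        have e'' : (k / τ + 1) * τ = τ * (k / τ) + τ := by ring
        omega
      refine le_add_right ?_
      refine le_trans (le_of_eq ?_) (Finset.single_le_sum (f := fun j =>
        (if HT hX LX = n ∧ HT hY LY = n ∧
        Wev hX hY zX zY sX sY τ i s j w LX LY then LW ΛX LX * LW ΛY LY else 0))
        (fun _ _ => zero_le) (Finset.mem_Icc.2 ⟨j1, j2⟩))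
      rw [if_pos]
      refine ⟨hev.1, hev.2.1, ⟨z, k, ?_, ?_, c1, c2⟩, ?_⟩
      · by_contra hlt
        exact hsl (k / τ) (Finset.mem_Icc.2 ⟨j1, by omega⟩) z k (by omega) (by omega) c1 c2
      · by_contra hlt
        exact hsl (k / τ + 1) (Finset.mem_Icc.2 ⟨by omega, by omega⟩) z k (by omega) (by omega) c1 c2
      · intro z' k' e1 e2
        exact ⟨fun hh => hsl (k / τ) (Finset.mem_Icc.2 ⟨j1, by omega⟩) z' k' hh.1 hh.2 e1 e2,
          fun hh => hsl (k / τ + 1) (Finset.mem_Icc.2 ⟨by omega, by omega⟩) z' k' hh.1 hh.2 e1 e2⟩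
  refine (ENNReal.tsum_le_tsum fun LX => ENNReal.tsum_le_tsum fun LY => hpt LX LY).trans ?_
  simp_rw [ENNReal.tsum_add]
  refine add_le_add ?_ ?_
  · simp_rw [Summable.tsum_finsetSum (fun _ _ => ENNReal.summable)]
    calc _ ≤ ∑ j ∈ Finset.Icc K (2 * K + 1), V := Finset.sum_le_sum hV
      _ = _ := by
        rw [Finset.sum_const, Nat.card_Icc, nsmul_eq_mul, show 2 * K + 1 + 1 - K = K + 2 by omega]
  · simp_rw [Summable.tsum_finsetSum (fun _ _ => ENNReal.summable)]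
    calc _ ≤ ∑ j ∈ Finset.Icc K (2 * K + 2), η := Finset.sum_le_sum hη
      _ = _ := by
        rw [Finset.sum_const, Nat.card_Icc, nsmul_eq_mul, show 2 * K + 2 + 1 - K = K + 3 by omega]

end Crest.Agent.R154.Asm790
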