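import Crest.Agent.R154.AsmI_295
import Crest.Agent.R154.Num_869

/-! Row 154, KAPPA' (801), list assembly, part J (helper295): the sum over the windows. -/

set_option autoImplicit false

namespace Crest.Agent.R154.Asm295

open scoped ENNReal
open Filter Topology
open Crest.Agent.R154.B5A (LW HT LW_nil LW_cons LW_append HT_nil HT_cons HT_append tsum_list)
open Crest.Agent.R154.Asm540 (Dp Dp_append Cm H2 H3 H5 KS TR TR_append TR_depth TR_shift)

variable {BX BY G : Type*} [AddCommGroup G]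
  {ΛX : BX → ℝ≥0∞} {ΛY : BY → ℝ≥0∞} {hX : BX → ℕ} {hY : BY → ℕ} {zX : BX → G} {zY : BY → G}
  {sX : BX → Set (G × ℕ)} {sY : BY → Set (G × ℕ)}

open Classical in
lemma cover (n m t K : ℕ) (D lo hi E : ℕ → ℕ) (w : G) (ht : 1 ≤ t) (hK : m ≤ 2 * K * t)
    (hlo : ∀ j, lo j = m + j * t) (hhi : ∀ j, hi j = m + (j + 1) * t) :
    KS ΛX ΛY hX hY zX zY sX sY n w (Set.Ioc m (2 * m)) ≤
    ∑ j ∈ Finset.range (2 * K), ((∑' L, ∑' L', (if HT hX L = n ∧ HT hY L' = n ∧
      ev hX hY zX zY sX sY (D j) (E j) (lo j) (hi j) w L L'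
      then LW ΛX L * LW ΛY L' else 0)) +
      (KS ΛX ΛY hX hY zX zY sX sY n w (Set.Ico (D j + 1) (lo j)) +
       KS ΛX ΛY hX hY zX zY sX sY n w (Set.Ico (hi j + 1) (E j + 1)))) := by
  rw [KS]
  have pt : ∀ L L', (if HT hX L = n ∧ HT hY L' = n ∧ ∃ g k, k ∈ Set.Ioc m (2 * m) ∧
      Cm hX hY zX zY sX sY L L' w 0 0 g k then LW ΛX L * LW ΛY L' else 0) ≤
      ∑ j ∈ Finset.range (2 * K), ((if HT hX L = n ∧ HT hY L' = n ∧
      ev hX hY zX zY sX sY (D j) (E j) (lo j) (hi j) w L L'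
      then LW ΛX L * LW ΛY L' else 0) +
      ((if HT hX L = n ∧ HT hY L' = n ∧ ∃ g k, k ∈ Set.Ico (D j + 1) (lo j) ∧
      Cm hX hY zX zY sX sY L L' w 0 0 g k then LW ΛX L * LW ΛY L' else 0) +
      (if HT hX L = n ∧ HT hY L' = n ∧ ∃ g k, k ∈ Set.Ico (hi j + 1) (E j + 1) ∧
      Cm hX hY zX zY sX sY L L' w 0 0 g k then LW ΛX L * LW ΛY L' else 0))) := by
    intro L L'
    by_cases e : HT hX L = n ∧ HT hY L' = n ∧ ∃ g k, k ∈ Set.Ioc m (2 * m) ∧
      Cm hX hY zX zY sX sY L L' w 0 0 g k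
    swap
    · rw [if_neg e]; exact bot_le
    rw [if_pos e]
    obtain ⟨e1, e2, g, k, ⟨hk1, hk2⟩, hC⟩ := e
    set j := (k - m - 1) / t with hj
    have j1 : j * t ≤ k - m - 1 := Nat.div_mul_le_self _ _
    have j2 : k - m - 1 < (j + 1) * t := by
      have := Nat.lt_mul_div_succ (k - m - 1) (by omega : 0 < t)
      rw [mul_comm] at this
      exact this
    have j3 : j ∈ Finset.range (2 * K) := by
      rw [Finset.mem_range, hj, Nat.div_lt_iff_lt_mul (by omega)]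
      omega
    refine le_trans ?_ (Finset.single_le_sum (f := fun j => ((if HT hX L = n ∧ HT hY L' = n ∧
      ev hX hY zX zY sX sY (D j) (E j) (lo j) (hi j) w L L'
      then LW ΛX L * LW ΛY L' else 0) +
      ((if HT hX L = n ∧ HT hY L' = n ∧ ∃ g k, k ∈ Set.Ico (D j + 1) (lo j) ∧
      Cm hX hY zX zY sX sY L L' w 0 0 g k then LW ΛX L * LW ΛY L' else 0) +
      (if HT hX L = n ∧ HT hY L' = n ∧ ∃ g k, k ∈ Set.Ico (hi j + 1) (E j + 1) ∧
      Cm hX hY zX zY sX sY L L' w 0 0 g k then LW ΛX L * LW ΛY L' else 0))))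
      (fun _ _ => bot_le) j3)
    by_cases hev : ev hX hY zX zY sX sY (D j) (E j) (lo j) (hi j) w L L'
    · refine le_trans ?_ le_self_add
      rw [if_pos ⟨e1, e2, hev⟩]
    · refine le_trans ?_ le_add_self
      have l1 := hlo j
      have l2 := hhi j
      have hnot : ¬ ∀ g k, Cm hX hY zX zY sX sY L L' w 0 0 g k → D j < k → k ≤ E j →
          lo j ≤ k ∧ k ≤ hi j := by
        intro hall
        exact hev ⟨⟨g, k, by omega, by omega, hC⟩, hall⟩
      push Not at hnot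
      obtain ⟨g', k', c1, c2, c3, c4⟩ := hnot
      by_cases h6 : lo j ≤ k'
      · refine le_trans ?_ le_add_self
        rw [if_pos ⟨e1, e2, g', k', ⟨by have := c4 h6; omega, by omega⟩, c1⟩]
      · refine le_trans ?_ le_self_add
        rw [if_pos ⟨e1, e2, g', k', ⟨by omega, by omega⟩, c1⟩]
  refine (ENNReal.tsum_le_tsum fun L => ENNReal.tsum_le_tsum fun L' => pt L L').trans ?_
  have sw : ∀ F : ℕ → List BX → List BY → ℝ≥0∞, ∑' L, ∑' L', ∑ j ∈ Finset.range (2 * K), F j L L'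
      = ∑ j ∈ Finset.range (2 * K), ∑' L, ∑' L', F j L L' := by
    intro F
    rw [← Summable.tsum_finsetSum (fun _ _ => ENNReal.summable)]
    refine tsum_congr fun L => ?_
    rw [← Summable.tsum_finsetSum (fun _ _ => ENNReal.summable)]
  rw [sw]
  refine Finset.sum_le_sum fun j _ => ?_
  simp_rw [ENNReal.tsum_add]
  rfl

open Classical in
theorem kap4
    (hΛX : ∑' b, ΛX b = 1) (hΛY : ∑' b, ΛY b = 1) (h1X : ∀ b, 1 ≤ hX b) (h1Y : ∀ b, 1 ≤ hY b)
    (hUX : ∀ n, ∑' L, (if HT hX L = n then LW ΛX L else 0) ≤ 1)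
    (hUY : ∀ n, ∑' L, (if HT hY L = n then LW ΛY L else 0) ≤ 1)
    (hsX : ∀ b, ∀ p ∈ sX b, 1 ≤ p.2 ∧ p.2 ≤ hX b) (hsY : ∀ b, ∀ p ∈ sY b, 1 ≤ p.2 ∧ p.2 ≤ hY b)
    (hEX : Tendsto (fun i : ℕ => ∑' b, ΛX b * ((hX b - i : ℕ) : ℝ≥0∞)) atTop (𝓝 0))
    (hEY : Tendsto (fun i : ℕ => ∑' b, ΛY b * ((hY b - i : ℕ) : ℝ≥0∞)) atTop (𝓝 0))
    (C : ℝ≥0∞) (hC : C ≠ ⊤) (us : ℕ → ℝ≥0∞) (hus : Tendsto us atTop (𝓝 0))
    (h2 : H2 ΛX ΛY hX hY zX zY sX sY C us) (h3 : H3 ΛX ΛY hX hY zX zY sX sY C us)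
    (h5 : H5 ΛX ΛY hX hY zX zY sX sY) (ε : ℝ≥0∞) (hε : ε ≠ 0) :
    ∃ M : ℕ, ∀ m, M ≤ m → ∀ n, 4 * m ≤ n → ∀ w : G,
      KS ΛX ΛY hX hY zX zY sX sY n w (Set.Ioc m (2 * m)) ≤ ε := by
  set ep : ℕ → ℝ≥0∞ := fun i => (∑' b, ΛX b * ((hX b - i : ℕ) : ℝ≥0∞)) +
    ∑' b, ΛY b * ((hY b - i : ℕ) : ℝ≥0∞) with hep
  have hep0 : Tendsto ep atTop (𝓝 0) := by
    have := hEX.add hEY
    rwa [add_zero] at this
  have hε' : ε / 32 ≠ 0 := by simp [hε]
  obtain ⟨K, u, hK, hu0, hu1, i0, lam, s, hl0, hlt, hl1, hi1, hmain⟩ :=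
    Num869.choose' us ep hus hep0 C hC 4 (ε / 32) hε'
  have hu2 : u / 2 ≠ 0 := by simp [hu0]
  have hut : u ≠ ⊤ := ne_top_of_le_ne_top ENNReal.one_ne_top hu1
  have hu3 : u / 2 < 1 := by
    calc u / 2 ≤ 1 / 2 := by gcongr
      _ < 1 := by rw [one_div]; exact ENNReal.one_half_lt_one
  have hK0 : (K : ℝ≥0∞) ≠ 0 := by exact_mod_cast (by omega : K ≠ 0)
  have hKt : (K : ℝ≥0∞) ≠ ⊤ := ENNReal.natCast_ne_top K
  have hη : ε / 2 / (4 * K) ≠ 0 :=
    (ENNReal.div_pos (by simp [hε]) (ENNReal.mul_ne_top (by norm_num) hKt)).ne'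
  obtain ⟨T0, hT0⟩ := h5 (2 * i0 + s + 1) (ε / 2 / (4 * K)) hη
  refine ⟨T0 + 4 * K * (i0 + s + 1) * 4 + 8 * (K + i0 + s + 1), fun m hm n hn w => ?_⟩
  set t := m / (2 * K) + 1 with ht
  set T := t + i0 + 2 * s + 1 with hT
  have t1 : 2 * K * (m / (2 * K)) ≤ m := Nat.mul_div_le m (2 * K)
  have t2 : m < 2 * K * (m / (2 * K) + 1) := Nat.lt_mul_div_succ m (by omega)
  have t3 : 2 * (K * (m / (2 * K))) ≤ m := by rw [← mul_assoc]; exact t1
  have t4 : 2 * K * t ≤ m + 2 * K := by rw [ht]; nlinarith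
  have hKbig : K * (i0 + s + 1) * 16 + i0 + s + 1 ≤ m := by nlinarith
  have hcov := cover (ΛX := ΛX) (ΛY := ΛY) (hX := hX) (hY := hY) (zX := zX) (zY := zY) (sX := sX)
    (sY := sY) n m t K (fun j => m + j * t - (i0 + s + 1)) (fun j => m + j * t)
    (fun j => m + (j + 1) * t) (fun j => m + j * t - (i0 + s + 1) + i0 + (T + i0)) w
    (by rw [ht]; exact Nat.succ_pos _) (by rw [ht]; exact t2.le) (fun _ => rfl) (fun _ => rfl)
  refine hcov.trans ?_
  set X : ℝ≥0∞ := (u + ep i0) ^ 2 + ((1 - u / 2) ^ K + K * ep i0) +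
        ((i0 : ℝ≥0∞) + 1) ^ 4 * (C * (lam + (((i0 : ℝ≥0∞) + 1) / u) * us s / lam + us s)) with hX'
  have hone : ∀ j ∈ Finset.range (2 * K), ((∑' L, ∑' L', (if HT hX L = n ∧ HT hY L' = n ∧
      ev hX hY zX zY sX sY (m + j * t - (i0 + s + 1)) (m + j * t - (i0 + s + 1) + i0 + (T + i0))
        (m + j * t) (m + (j + 1) * t) w L L'
      then LW ΛX L * LW ΛY L' else 0)) +
      (KS ΛX ΛY hX hY zX zY sX sY n w (Set.Ico (m + j * t - (i0 + s + 1) + 1) (m + j * t)) +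
       KS ΛX ΛY hX hY zX zY sX sY n w (Set.Ico (m + (j + 1) * t + 1)
        (m + j * t - (i0 + s + 1) + i0 + (T + i0) + 1)))) ≤ 8 * X + (ε / 2 / (4 * K) +
        ε / 2 / (4 * K)) := by
    intro j hj
    rw [Finset.mem_range] at hj
    have hjt : (j + 1) * t ≤ 2 * K * t := Nat.mul_le_mul_right _ hj
    have hjt' : (j + 1) * t = j * t + t := by ring
    refine add_le_add ?_ (add_le_add ?_ ?_)
    · have hw := window (zX := zX) (zY := zY) (sX := sX) (sY := sY) hΛX hΛY h1X h1Y hUX hUY hsX hsY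
        C us h2 h3 hu2 hu3 hl0 hlt i0 s K
        (m + j * t - (i0 + s + 1)) T n (m + j * t) (m + (j + 1) * t) (by omega) (by omega)
        (by
          have : K * (T + i0) = K * (m / (2 * K)) + K * (2 * (i0 + s + 1)) := by
            rw [hT, ht]; ring
          have h7 : K * (2 * (i0 + s + 1)) = 2 * (K * (i0 + s + 1)) := by ring
          have h8 : i0 + s + 1 ≤ K * (i0 + s + 1) := Nat.le_mul_of_pos_left _ (by omega)
          rw [this, h7]
          omega)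
        (by
          have : 2 * K + 2 * i0 + 2 * s ≤ m := by omega
          omega) w (tl := ep i0) le_self_add le_add_self
      refine hw.trans ?_
      have q1 : (((i0 + 1 : ℕ) : ℝ≥0∞) / (u / 2)) ≤ 2 * (((i0 : ℝ≥0∞) + 1) / u) := by
        push_cast
        rw [div_eq_mul_inv _ (u / 2), ENNReal.inv_div (Or.inl (by norm_num)) (Or.inl (by norm_num)),
          div_eq_mul_inv, div_eq_mul_inv]
        exact le_of_eq (by ring)
      set Z := (((i0 : ℝ≥0∞) + 1) / u) * us s / lam with hZ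
      have q2 : C * (lam + (((i0 + 1 : ℕ) : ℝ≥0∞) / (u / 2)) * us s / lam + us s)
          ≤ 2 * (C * (lam + Z + us s)) := by
        calc _ ≤ C * (lam + (2 * (((i0 : ℝ≥0∞) + 1) / u)) * us s / lam + us s) := by gcongr
          _ = C * (lam + 2 * Z + us s) := by
              rw [hZ]; simp only [div_eq_mul_inv]; ring
          _ ≤ C * (2 * lam + 2 * Z + 2 * us s) := by
              gcongr
              · exact le_mul_of_one_le_left bot_le (by norm_num)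
              · exact le_mul_of_one_le_left bot_le (by norm_num)
          _ = _ := by ring
      have q3 : (u / 2) * (u / 2) ≤ (u + ep i0) ^ 2 := by
        rw [pow_two]
        have : u / 2 ≤ u + ep i0 := (ENNReal.half_le_self).trans le_self_add
        exact mul_le_mul' this this
      have q4 : ep i0 ≤ K * ep i0 := le_mul_of_one_le_left bot_le (by exact_mod_cast hK)
      calc _ ≤ (2 * (K * ep i0) + 2 * (K * ep i0)) + ((((1 - u / 2) ^ K + K * (2 * ep i0)) +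
            ((i0 : ℝ≥0∞) + 1) * ((i0 : ℝ≥0∞) + 1) *
            (((i0 : ℝ≥0∞) + 1) * (((i0 : ℝ≥0∞) + 1) * (2 * (C * (lam + Z + us s)))))) +
            (((1 - u / 2) ^ K + K * (2 * ep i0)) +
            ((i0 : ℝ≥0∞) + 1) * ((i0 : ℝ≥0∞) + 1) *
            (((i0 : ℝ≥0∞) + 1) * (((i0 : ℝ≥0∞) + 1) * (2 * (C * (lam + Z + us s)))))) +
            (u + ep i0) ^ 2) := by
            push_cast at q2 ⊢
            gcongr
        _ = (u + ep i0) ^ 2 + (2 * (1 - u / 2) ^ K + 8 * (K * ep i0)) +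
            4 * (((i0 : ℝ≥0∞) + 1) ^ 4 * (C * (lam + Z + us s))) := by ring
        _ ≤ 8 * (u + ep i0) ^ 2 + (8 * (1 - u / 2) ^ K + 8 * (K * ep i0)) +
            8 * (((i0 : ℝ≥0∞) + 1) ^ 4 * (C * (lam + Z + us s))) := by
            gcongr
            · exact le_mul_of_one_le_left bot_le (by norm_num)
            · norm_num
            · norm_num
        _ = 8 * X := by rw [hX']; ring
    · refine le_trans ?_ (hT0 (m + j * t - (i0 + s + 1) + 1) (by omega) n w)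
      rw [KS, KS]
      refine ENNReal.tsum_le_tsum fun L => ENNReal.tsum_le_tsum fun L' => ?_
      by_cases e : HT hX L = n ∧ HT hY L' = n ∧ ∃ g k, k ∈ Set.Ico (m + j * t - (i0 + s + 1) + 1)
        (m + j * t) ∧ Cm hX hY zX zY sX sY L L' w 0 0 g k
      · obtain ⟨e1, e2, g, k, hk, hc⟩ := e
        rw [if_pos ⟨e1, e2, g, k, hk, hc⟩, if_pos ⟨e1, e2, g, k, ⟨hk.1, by have := hk.2; omega⟩, hc⟩]
      · rw [if_neg e]; exact bot_le
    · refine le_trans ?_ (hT0 (m + (j + 1) * t + 1) (by omega) n w)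
      rw [KS, KS]
      refine ENNReal.tsum_le_tsum fun L => ENNReal.tsum_le_tsum fun L' => ?_
      by_cases e : HT hX L = n ∧ HT hY L' = n ∧ ∃ g k, k ∈ Set.Ico (m + (j + 1) * t + 1)
        (m + j * t - (i0 + s + 1) + i0 + (T + i0) + 1) ∧ Cm hX hY zX zY sX sY L L' w 0 0 g k
      · obtain ⟨e1, e2, g, k, hk, hc⟩ := e
        rw [if_pos ⟨e1, e2, g, k, hk, hc⟩, if_pos ⟨e1, e2, g, k, ⟨hk.1, by have := hk.2; omega⟩, hc⟩]
      · rw [if_neg e]; exact bot_le
  refine (Finset.sum_le_sum hone).trans ?_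
  rw [Finset.sum_const, Finset.card_range, nsmul_eq_mul]
  push_cast
  calc (2 * (K : ℝ≥0∞)) * (8 * X + (ε / 2 / (4 * K) + ε / 2 / (4 * K)))
      = 16 * (K * X) + (4 * K) * (ε / 2 / (4 * K)) := by ring
    _ ≤ 16 * (ε / 32) + ε / 2 := by
        gcongr
        rw [ENNReal.mul_div_cancel (by simp [hK0]) (ENNReal.mul_ne_top (by norm_num) hKt)]
    _ = ε := by
        have : (16 : ℝ≥0∞) * (ε / 32) = ε / 2 := by
          rw [show (32 : ℝ≥0∞) = 16 * 2 by norm_num, ← mul_div_assoc,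
            ENNReal.mul_div_mul_left _ _ (by norm_num) (by norm_num)]
        rw [this, ENNReal.add_halves]

end Crest.Agent.R154.Asm295
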