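import Crest.Agent.R154.AsmI_790

/-! Row 154, ROAD 801 (helper790): **abstract assembly**: contacts at depth `(m, 2m]` are rare. -/

set_option autoImplicit false

namespace Crest.Agent.R154.Asm790

open scoped ENNReal Topology
open Crest.Agent.R154.B5A Filter

variable {BX BY G : Type*} [AddCommGroup G]
variable (ΛX : BX → ℝ≥0∞) (ΛY : BY → ℝ≥0∞) (hX : BX → ℕ) (hY : BY → ℕ) (zX : BX → G) (zY : BY → G)
  (sX : BX → Set (G × ℕ)) (sY : BY → Set (G × ℕ))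

theorem kapS_aux (h1X : ∀ b, 1 ≤ hX b) (h1Y : ∀ b, 1 ≤ hY b) (hΛX : ∑' b, ΛX b = 1)
    (hΛY : ∑' b, ΛY b = 1) (hUX : ∀ n, U ΛX hX n ≤ 1) (hUY : ∀ n, U ΛY hY n ≤ 1)
    (hmX : ∑' b, ΛX b * (hX b : ℝ≥0∞) ≠ ⊤) (hmY : ∑' b, ΛY b * (hY b : ℝ≥0∞) ≠ ⊤)
    (hsX : ∀ b q, q ∈ sX b → 1 ≤ q.2 ∧ q.2 ≤ hX b)
    (hsY : ∀ b q, q ∈ sY b → 1 ≤ q.2 ∧ q.2 ≤ hY b)
    (C : ℝ≥0∞) (hC : C ≠ ⊤) (us : ℕ → ℕ → ℝ≥0∞) (hus : ∀ i, Tendsto (us i) atTop (𝓝 0))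
    (hH2 : H2 ΛX ΛY hX hY zX zY sX sY C us) (hH3 : H3 ΛX ΛY hX hY zX zY sX sY C us)
    (hH5 : H5 ΛX ΛY hX hY zX zY sX sY) (ε : ℝ≥0∞) (hε : ε ≠ 0) :
    ∃ M, ∀ m, M ≤ m → ∀ n, 4 * m ≤ n → ∀ w : G, KS ΛX ΛY hX hY zX zY sX sY n m w ≤ ε := by
  have hε4 : ε / 4 ≠ 0 := by
    rw [Ne, ENNReal.div_eq_zero_iff, not_or]; exact ⟨hε, by simp⟩
  obtain ⟨q, hq2, hq⟩ := AsmA789.num hε4 4
  set K : ℕ := q ^ 3 with hK
  set u : ℝ≥0∞ := ((q : ℝ≥0∞) ^ 2)⁻¹ with hu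
  have hq0 : (q : ℝ≥0∞) ≠ 0 := by simp; omega
  have hqtop : (q : ℝ≥0∞) ≠ ⊤ := ENNReal.natCast_ne_top q
  have hu0 : u ≠ 0 := by
    rw [hu, Ne, ENNReal.inv_eq_zero]; exact ENNReal.pow_ne_top hqtop
  have hutop : u ≠ ⊤ := by
    rw [hu, Ne, ENNReal.inv_eq_top]; exact pow_ne_zero 2 hq0
  have hq1 : (1 : ℝ≥0∞) ≤ (q : ℝ≥0∞) := by exact_mod_cast (by omega : 1 ≤ q)
  have hu1 : u ≤ 1 := by
    rw [hu, ENNReal.inv_le_one]; exact one_le_pow₀ hq1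
  have hK2 : 2 ≤ K := by
    rw [hK]
    calc 2 ≤ q := hq2
      _ = q ^ 1 := (pow_one q).symm
      _ ≤ q ^ 3 := Nat.pow_le_pow_right (by omega) (by omega)
  -- P1
  have P1 : (K + 2 : ℕ) * (2 * (1 - u) ^ K + u * u) ≤ ε / 4 := by
    refine le_trans ?_ hq
    have h1 : (1 - u) ^ K ≤ (1 - (2 * (q : ℝ≥0∞) ^ 2)⁻¹) ^ (q ^ 3) := by
      refine pow_le_pow_left₀ zero_le (tsub_le_tsub_left ?_ _) _
      rw [hu]
      refine ENNReal.inv_le_inv.2 ?_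
      calc (q : ℝ≥0∞) ^ 2 = 1 * (q : ℝ≥0∞) ^ 2 := (one_mul _).symm
        _ ≤ 2 * (q : ℝ≥0∞) ^ 2 := mul_le_mul_left (by norm_num) _
    set x := (1 - u) ^ K
    set y := (1 - (2 * (q : ℝ≥0∞) ^ 2)⁻¹) ^ (q ^ 3)
    have hcast : ((K + 2 : ℕ) : ℝ≥0∞) ≤ (q : ℝ≥0∞) ^ 3 + ((4 : ℕ) : ℝ≥0∞) := by
      rw [hK]; push_cast
      exact add_le_add_right (by norm_num) _
    calc ((K + 2 : ℕ) : ℝ≥0∞) * (2 * x + u * u)
        ≤ ((q : ℝ≥0∞) ^ 3 + ((4 : ℕ) : ℝ≥0∞)) * (4 * (u ^ 2 + y)) := by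
          refine mul_le_mul' hcast ?_
          calc 2 * x + u * u ≤ 4 * y + 4 * u ^ 2 := by
                refine add_le_add (mul_le_mul' (by norm_num) h1) ?_
                rw [← pow_two]
                calc u ^ 2 = 1 * u ^ 2 := (one_mul _).symm
                  _ ≤ 4 * u ^ 2 := mul_le_mul_left (by norm_num) _
            _ = 4 * (u ^ 2 + y) := by ring
      _ = _ := by push_cast; ring
  -- P2
  obtain ⟨δ2, hδ20, hδ2t, hδ2⟩ := small ((K + 2 : ℕ) * ((2 * K + 2 : ℕ) * 2)) (by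
    exact ENNReal.mul_ne_top (ENNReal.natCast_ne_top _) (ENNReal.mul_ne_top
      (ENNReal.natCast_ne_top _) (by norm_num))) (ε / 4) hε4
  obtain ⟨IX, hIX⟩ := Ov_small ΛX hX h1X hΛX hUX hmX δ2 hδ20
  obtain ⟨IY, hIY⟩ := Ov_small ΛY hY h1Y hΛY hUY hmY δ2 hδ20
  set i0 := max IX IY with hi0
  set i := (2 * K + 2) * i0 with hi
  -- P3
  set N1 : ℝ≥0∞ := (((2 * K + 1) * i0 + 1 : ℕ) : ℝ≥0∞) with hN1
  set I1 : ℝ≥0∞ := ((i0 + 1 : ℕ) : ℝ≥0∞) with hI1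
  set A : ℝ≥0∞ := (K + 2 : ℕ) * (2 * (N1 * (N1 * (I1 * (I1 * C))))) with hA
  have hAtop : A ≠ ⊤ := by
    have n1 : N1 ≠ ⊤ := ENNReal.natCast_ne_top _
    have n2 : I1 ≠ ⊤ := ENNReal.natCast_ne_top _
    exact ENNReal.mul_ne_top (ENNReal.natCast_ne_top _) (ENNReal.mul_ne_top (by norm_num)
      (ENNReal.mul_ne_top n1 (ENNReal.mul_ne_top n1 (ENNReal.mul_ne_top n2
        (ENNReal.mul_ne_top n2 hC)))))
  have hε8 : ε / 4 / 2 ≠ 0 := by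
    rw [Ne, ENNReal.div_eq_zero_iff, not_or]; exact ⟨hε4, by simp⟩
  obtain ⟨lam, hl0, hl1, hlam⟩ := small A hAtop (ε / 4 / 2) hε8
  have hB : A * (u⁻¹ / lam + 1) ≠ ⊤ := by
    refine ENNReal.mul_ne_top hAtop (ENNReal.add_ne_top.2 ⟨?_, ENNReal.one_ne_top⟩)
    exact ENNReal.div_ne_top (ENNReal.inv_ne_top.2 hu0) hl0
  obtain ⟨δ3, hδ30, hδ3t, hδ3⟩ := small (A * (u⁻¹ / lam + 1)) hB (ε / 4 / 2) hε8
  obtain ⟨s, hs1, hs⟩ : ∃ s, 1 ≤ s ∧ us i s ≤ δ3 := by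
    have h := ((hus i).eventually_lt_const (pos_iff_ne_zero.2 hδ30)).and
      (eventually_ge_atTop 1)
    obtain ⟨s, h1, h2⟩ := h.exists
    exact ⟨s, h2, h1.le⟩
  have P3 : A * (lam + u⁻¹ * us i s / lam + us i s) ≤ ε / 4 := by
    calc A * (lam + u⁻¹ * us i s / lam + us i s)
        ≤ A * (lam + u⁻¹ * δ3 / lam + δ3) := by gcongr
      _ = A * lam + A * (u⁻¹ / lam + 1) * δ3 := by
          rw [div_eq_mul_inv, div_eq_mul_inv]; ring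
      _ ≤ ε / 4 / 2 + ε / 4 / 2 := add_le_add hlam hδ3
      _ = ε / 4 := ENNReal.add_halves _
  -- P4
  obtain ⟨η, hη0, hηt, hη⟩ := small (K + 3 : ℕ) (ENNReal.natCast_ne_top _) (ε / 4) hε4
  obtain ⟨T, hT⟩ := hH5 (i + 2 * s) η hη0
  refine ⟨K * (K + s + T + 1) + (2 * K + 2) * i0, fun m hm n hn w => ?_⟩
  set τ := m / K with hτ
  have hK0 : 0 < K := by omega
  have t1 : K + s + T + 1 ≤ τ := by
    rw [hτ, Nat.le_div_iff_mul_le hK0, mul_comm]; omega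
  have t2 : K * τ ≤ m := Nat.mul_div_le m K
  have t3 : m < (K + 1) * τ := by
    have e := Nat.div_add_mod m K
    have e' := Nat.mod_lt m hK0
    have e2 : (K + 1) * τ = K * (m / K) + τ := by rw [hτ]; ring
    omega
  have t4 : 2 * τ ≤ m := le_trans (Nat.mul_le_mul_right τ hK2) t2
  have t5 : (2 * K + 2) * i0 ≤ m := by omega
  have nle : ∀ j, j ≤ 2 * K + 1 → (j + 1) * (τ + i0) ≤ n := by
    intro j hj
    have a1 : (j + 1) * (τ + i0) ≤ (2 * K + 2) * (τ + i0) := Nat.mul_le_mul_right _ (by omega)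
    have a2 : (2 * K + 2) * (τ + i0) = 2 * (K * τ) + 2 * τ + (2 * K + 2) * i0 := by ring
    omega
  have iw : ∀ j, j ≤ 2 * K + 1 → (j + 1) * i0 ≤ i := fun j hj => Nat.mul_le_mul_right _ (by omega)
  have hOX := hIX i0 (le_max_left _ _) τ
  have hOY := hIY i0 (le_max_right _ _) τ
  set V : ℝ≥0∞ := (2 * K + 2 : ℕ) * δ2 + (2 * K + 2 : ℕ) * δ2 +
    (2 * (N1 * (N1 * (I1 * (I1 * (C * (lam + u⁻¹ * us i s / lam + us i s)))))) +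
      2 * (1 - u) ^ K + u * u) with hV
  have main := KS_le ΛX ΛY hX hY zX zY sX sY τ i s K m n (by omega) t2 t3 w V η (by
    intro j hj
    obtain ⟨j1, j2⟩ := Finset.mem_Icc.1 hj
    refine (window_le ΛX ΛY hX hY zX zY sX sY h1X h1Y hΛX hΛY hUX hUY hsX hsY τ i0 i s j n hs1
      (iw j j2) (by omega) (nle j j2) w).trans ?_
    have hVw := Vw_le ΛX ΛY hX hY zX zY sX sY h1X h1Y hΛX hΛY C us hH2 hH3 u hu0 hu1 lam hl0 hl1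
      τ i0 j i s (iw j j2) (by omega) w
    have cj : ((j + 1 : ℕ) : ℝ≥0∞) ≤ ((2 * K + 2 : ℕ) : ℝ≥0∞) := by
      exact_mod_cast (by omega : j + 1 ≤ 2 * K + 2)
    have cn : ((j * i0 + 1 : ℕ) : ℝ≥0∞) ≤ N1 := by
      rw [hN1]
      have : j * i0 ≤ (2 * K + 1) * i0 := Nat.mul_le_mul_right _ j2
      exact_mod_cast (by omega : j * i0 + 1 ≤ (2 * K + 1) * i0 + 1)
    have cu : (1 - u) ^ j ≤ (1 - u) ^ K := pow_le_pow_of_le_one zero_le tsub_le_self j1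
    refine add_le_add (add_le_add (mul_le_mul' cj hOX) (mul_le_mul' cj hOY)) (hVw.trans ?_)
    gcongr) (by
    intro j hj
    obtain ⟨j1, j2⟩ := Finset.mem_Icc.1 hj
    have aT : T ≤ j * τ - s := by
      have : 1 * τ ≤ j * τ := Nat.mul_le_mul_right _ (by omega)
      omega
    refine le_trans ?_ (hT (j * τ - s) aT n w)
    refine ENNReal.tsum_le_tsum fun LX => ENNReal.tsum_le_tsum fun LY => ?_
    classical
    split_ifs with c1 c2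
    · exact le_rfl
    · refine absurd ?_ c2
      obtain ⟨a1, a2, z, k, a3, a4, a5, a6⟩ := c1
      have : 1 * τ ≤ j * τ := Nat.mul_le_mul_right _ (by omega)
      exact ⟨a1, a2, z, k, by omega, by omega, a5, a6⟩
    · exact zero_le
    · exact le_rfl)
  refine main.trans ?_
  calc (K + 2 : ℕ) * V + (K + 3 : ℕ) * η
      = (K + 2 : ℕ) * (2 * (1 - u) ^ K + u * u) + (K + 2 : ℕ) * ((2 * K + 2 : ℕ) * 2) * δ2
        + A * (lam + u⁻¹ * us i s / lam + us i s) + (K + 3 : ℕ) * η := by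
        rw [hV, hA]; ring
    _ ≤ ε / 4 + ε / 4 + ε / 4 + ε / 4 := add_le_add (add_le_add (add_le_add P1 hδ2) P3) hη
    _ = ε := by
        have : ε / 4 + ε / 4 + ε / 4 + ε / 4 = 4 * (ε / 4) := by ring
        rw [this, ENNReal.mul_div_cancel (by norm_num) (by norm_num)]

/-- **abstract assembly of ROAD 801** -/
theorem kapS (h1X : ∀ b, 1 ≤ hX b) (h1Y : ∀ b, 1 ≤ hY b)
    (hUX : ∀ n, U ΛX hX n ≤ 1) (hUY : ∀ n, U ΛY hY n ≤ 1)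
    (c : ℝ≥0∞) (hc : c ≠ 0) (R : ℕ) (hcX : ∀ n, R ≤ n → c ≤ U ΛX hX n)
    (hcY : ∀ n, R ≤ n → c ≤ U ΛY hY n)
    (hsX : ∀ b q, q ∈ sX b → 1 ≤ q.2 ∧ q.2 ≤ hX b)
    (hsY : ∀ b q, q ∈ sY b → 1 ≤ q.2 ∧ q.2 ≤ hY b)
    (C : ℝ≥0∞) (hC : C ≠ ⊤) (us : ℕ → ℕ → ℝ≥0∞) (hus : ∀ i, Tendsto (us i) atTop (𝓝 0))
    (hH2 : H2 ΛX ΛY hX hY zX zY sX sY C us) (hH3 : H3 ΛX ΛY hX hY zX zY sX sY C us)
    (hH5 : H5 ΛX ΛY hX hY zX zY sX sY) (ε : ℝ≥0∞) (hε : ε ≠ 0) :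
    ∃ M, ∀ m, M ≤ m → ∀ n, 2 * m ≤ n → ∀ w : G, KS ΛX ΛY hX hY zX zY sX sY n m w ≤ ε := by
  have hctop : c ≠ ⊤ := ne_top_of_le_ne_top ENNReal.one_ne_top ((hcX R le_rfl).trans (hUX R))
  have hΛX : ∑' b, ΛX b = 1 :=
    le_antisymm (mass_le_one ΛX hX h1X hUX) (mass_ge_one ΛX hX c hc R hcX)
  have hΛY : ∑' b, ΛY b = 1 :=
    le_antisymm (mass_le_one ΛY hY h1Y hUY) (mass_ge_one ΛY hY c hc R hcY)
  have hmX : ∑' b, ΛX b * (hX b : ℝ≥0∞) ≠ ⊤ :=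
    ne_top_of_le_ne_top (ENNReal.inv_ne_top.2 hc) (mean_le ΛX hX h1X hΛX c hc hctop R hcX)
  have hmY : ∑' b, ΛY b * (hY b : ℝ≥0∞) ≠ ⊤ :=
    ne_top_of_le_ne_top (ENNReal.inv_ne_top.2 hc) (mean_le ΛY hY h1Y hΛY c hc hctop R hcY)
  obtain ⟨M, hM⟩ := kapS_aux ΛX ΛY hX hY zX zY sX sY h1X h1Y hΛX hΛY hUX hUY hmX hmY hsX hsY C hC
    us hus hH2 hH3 hH5 (c * c * ε) (mul_ne_zero (mul_ne_zero hc hc) hε)
  refine ⟨max M R, fun m hm n hn w => ?_⟩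
  have h1 := hM m (le_trans (le_max_left _ _) hm) (n + 2 * m) (by omega) w
  have hR : R ≤ 2 * m := le_trans (le_trans (le_max_right _ _) hm) (by omega)
  have h2 := (KS_ext ΛX ΛY hX hY zX zY sX sY h1X h1Y n (2 * m) m w).trans h1
  have h3 : c * c * KS ΛX ΛY hX hY zX zY sX sY n m w ≤ c * c * ε := by
    refine le_trans ?_ h2
    calc c * c * KS ΛX ΛY hX hY zX zY sX sY n m w
        = KS ΛX ΛY hX hY zX zY sX sY n m w * c * c := by ring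
      _ ≤ _ := mul_le_mul' (mul_le_mul_right (hcX _ hR) _) (hcY _ hR)
  exact (ENNReal.mul_le_mul_iff_right (mul_ne_zero hc hc) (ENNReal.mul_ne_top hctop hctop)).1 h3

end Crest.Agent.R154.Asm790
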