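import Crest.Agent.R154.AsmA_867

/-! Row 154, ROAD 801 (helper490): assembly, part 1: splitting one and two walkers at a window. -/

set_option autoImplicit false

namespace Crest.Agent.R154.Asm490

open scoped ENNReal
open B5A Asm867

section one

variable {B : Type*} (Λ : B → ℝ≥0∞) (ht : B → ℕ)

open Classical in
/-- one walker: `A` = first passage of `c`, `P` = next first passage of `τ`, `R` = rest -/
lemma split3 (hU1 : ∀ n, U Λ ht n ≤ 1) (hm : ∀ a, ∑' L : List B, (if FP ht a L then LW Λ L else 0) ≤ 1)
    (c τ i0 n : ℕ) (hn : c + i0 + τ ≤ n) (η : ℝ≥0∞)
    (hη : ∀ a, ∑' L : List B, (if FP ht a L ∧ a + i0 < HT ht L then LW Λ L else 0) ≤ η)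
    (φ : List B → ℝ≥0∞) (ψ : List B → List B → ℝ≥0∞) (hφ : ∀ L, HT ht L = n → φ L ≤ 1)
    (hψ : ∀ A P R, FP ht c A → HT ht A ≤ c + i0 → FP ht τ P → HT ht P ≤ τ + i0 →
      HT ht (A ++ (P ++ R)) = n → φ (A ++ (P ++ R)) ≤ ψ A P) :
    ∑' L : List B, (if HT ht L = n then LW Λ L * φ L else 0)
      ≤ 2 * η + ∑' A, (if FP ht c A ∧ HT ht A ≤ c + i0 then LW Λ A else 0) *
          ∑' P, (if FP ht τ P ∧ HT ht P ≤ τ + i0 then LW Λ P else 0) * ψ A P := by
  -- first split
  have hR : ∀ k, ∑' W : List B, (if HT ht W = k then LW Λ W else 0) ≤ 1 := fun k => hU1 k
  have e1 : ∑' L : List B, (if HT ht L = n then LW Λ L * φ L else 0)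
      ≤ ∑' A, ∑' W, if FP ht c A then
          (if HT ht (A ++ W) = n then LW Λ (A ++ W) * φ (A ++ W) else 0) else 0 := by
    refine dec_le _ (FP ht c) fun L hL => ?_
    have : HT ht L = n := by
      by_contra h
      exact hL (if_neg h)
    exact exists_FP ht c L (by omega)
  refine e1.trans ?_
  have e2 : ∀ A : List B, (∑' W, if FP ht c A then
          (if HT ht (A ++ W) = n then LW Λ (A ++ W) * φ (A ++ W) else 0) else 0)
      ≤ (if FP ht c A ∧ c + i0 < HT ht A then LW Λ A else 0) +
        (if FP ht c A ∧ HT ht A ≤ c + i0 then LW Λ A else 0) *
          (η + ∑' P, (if FP ht τ P ∧ HT ht P ≤ τ + i0 then LW Λ P else 0) * ψ A P) := by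
    intro A
    by_cases hA : FP ht c A
    · by_cases hA2 : HT ht A ≤ c + i0
      · rw [if_neg (fun h => absurd hA2 (not_le.2 h.2)), zero_add, if_pos ⟨hA, hA2⟩]
        -- second split
        have e3 : (∑' W, if FP ht c A then
          (if HT ht (A ++ W) = n then LW Λ (A ++ W) * φ (A ++ W) else 0) else 0)
            = LW Λ A * ∑' W, (if HT ht A + HT ht W = n then LW Λ W * φ (A ++ W) else 0) := by
          rw [← ENNReal.tsum_mul_left]
          refine tsum_congr fun W => ?_
          rw [if_pos hA, HT_append, LW_append]
          split_ifs
          · rw [mul_assoc]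
          · rw [mul_zero]
        rw [e3]
        gcongr
        have e4 : ∑' W : List B, (if HT ht A + HT ht W = n then LW Λ W * φ (A ++ W) else 0)
            ≤ ∑' P, ∑' R, if FP ht τ P then (if HT ht A + HT ht (P ++ R) = n then
                LW Λ (P ++ R) * φ (A ++ (P ++ R)) else 0) else 0 := by
          refine dec_le _ (FP ht τ) fun L hL => ?_
          have : HT ht A + HT ht L = n := by
            by_contra h
            exact hL (if_neg h)
          exact exists_FP ht τ L (by omega)
        refine e4.trans ?_
        calc _ ≤ ∑' P, ((if FP ht τ P ∧ τ + i0 < HT ht P then LW Λ P else 0) +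
              (if FP ht τ P ∧ HT ht P ≤ τ + i0 then LW Λ P else 0) * ψ A P) := by
              refine ENNReal.tsum_le_tsum fun P => ?_
              by_cases hP : FP ht τ P
              · by_cases hP2 : HT ht P ≤ τ + i0
                · rw [if_neg (fun h => absurd hP2 (not_le.2 h.2)), zero_add, if_pos ⟨hP, hP2⟩]
                  calc _ ≤ ∑' R, LW Λ P * ψ A P *
                        (if HT ht R = n - HT ht A - HT ht P then LW Λ R else 0) := by
                        refine ENNReal.tsum_le_tsum fun R => ?_
                        rw [if_pos hP]
                        by_cases hR1 : HT ht A + HT ht (P ++ R) = n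
                        · have h2 := hR1
                          rw [HT_append] at h2
                          rw [if_pos hR1, if_pos (by omega), LW_append]
                          calc LW Λ P * LW Λ R * φ (A ++ (P ++ R))
                              ≤ LW Λ P * LW Λ R * ψ A P := by
                                gcongr
                                exact hψ A P R hA hA2 hP hP2 (by rw [HT_append]; exact hR1)
                            _ = _ := by ring
                        · rw [if_neg hR1]; exact zero_le
                    _ ≤ LW Λ P * ψ A P * 1 := by
                        rw [ENNReal.tsum_mul_left]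
                        gcongr
                        exact hR _
                    _ = _ := mul_one _
                · rw [if_pos ⟨hP, not_le.1 hP2⟩, if_neg (fun h => hP2 h.2), zero_mul, add_zero]
                  calc _ ≤ ∑' R, LW Λ P *
                        (if HT ht R = n - HT ht A - HT ht P then LW Λ R else 0) := by
                        refine ENNReal.tsum_le_tsum fun R => ?_
                        rw [if_pos hP]
                        by_cases hR1 : HT ht A + HT ht (P ++ R) = n
                        · have h2 := hR1
                          rw [HT_append] at h2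
                          rw [if_pos hR1, if_pos (by omega), LW_append]
                          calc LW Λ P * LW Λ R * φ (A ++ (P ++ R))
                              ≤ LW Λ P * LW Λ R * 1 := by
                                gcongr
                                exact hφ _ (by rw [HT_append]; exact hR1)
                            _ = _ := mul_one _
                        · rw [if_neg hR1]; exact zero_le
                    _ ≤ LW Λ P * 1 := by
                        rw [ENNReal.tsum_mul_left]
                        gcongr
                        exact hR _
                    _ = _ := mul_one _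
              · have : ∀ R : List B, (if FP ht τ P then (if HT ht A + HT ht (P ++ R) = n then
                LW Λ (P ++ R) * φ (A ++ (P ++ R)) else 0) else 0) = 0 := fun R => if_neg hP
                simp only [this, tsum_zero]
                exact zero_le
          _ ≤ _ := by
              rw [ENNReal.tsum_add]
              gcongr
              exact hη τ
      · rw [if_pos ⟨hA, not_le.1 hA2⟩, if_neg (fun h => hA2 h.2), zero_mul, add_zero]
        calc _ ≤ ∑' W, LW Λ A * (if HT ht W = n - HT ht A then LW Λ W else 0) := by
              refine ENNReal.tsum_le_tsum fun W => ?_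
              rw [if_pos hA]
              by_cases hR1 : HT ht (A ++ W) = n
              · have h2 := hR1
                rw [HT_append] at h2
                rw [if_pos hR1, if_pos (by omega), LW_append]
                calc LW Λ A * LW Λ W * φ (A ++ W)
                    ≤ LW Λ A * LW Λ W * 1 := by
                      gcongr
                      exact hφ _ hR1
                  _ = _ := mul_one _
              · rw [if_neg hR1]; exact zero_le
          _ ≤ LW Λ A * 1 := by
              rw [ENNReal.tsum_mul_left]
              gcongr
              exact hR _
          _ = _ := mul_one _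
    · have : ∀ W : List B, (if FP ht c A then
          (if HT ht (A ++ W) = n then LW Λ (A ++ W) * φ (A ++ W) else 0) else 0) = 0 :=
        fun R => if_neg hA
      simp only [this, tsum_zero]
      exact zero_le
  calc _ ≤ ∑' A, ((if FP ht c A ∧ c + i0 < HT ht A then LW Λ A else 0) +
        (if FP ht c A ∧ HT ht A ≤ c + i0 then LW Λ A else 0) *
          (η + ∑' P, (if FP ht τ P ∧ HT ht P ≤ τ + i0 then LW Λ P else 0) * ψ A P)) :=
        ENNReal.tsum_le_tsum e2
    _ = (∑' A, (if FP ht c A ∧ c + i0 < HT ht A then LW Λ A else 0)) +
        ((∑' A, (if FP ht c A ∧ HT ht A ≤ c + i0 then LW Λ A else 0)) * η +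
        ∑' A, (if FP ht c A ∧ HT ht A ≤ c + i0 then LW Λ A else 0) *
          ∑' P, (if FP ht τ P ∧ HT ht P ≤ τ + i0 then LW Λ P else 0) * ψ A P) := by
        rw [ENNReal.tsum_add]
        congr 1
        simp_rw [mul_add]
        rw [ENNReal.tsum_add, ENNReal.tsum_mul_right]
    _ ≤ η + (1 * η + ∑' A, (if FP ht c A ∧ HT ht A ≤ c + i0 then LW Λ A else 0) *
          ∑' P, (if FP ht τ P ∧ HT ht P ≤ τ + i0 then LW Λ P else 0) * ψ A P) := by
        gcongr
        · exact hη c
        · refine le_trans (ENNReal.tsum_le_tsum fun A => ?_) (hm c)
          by_cases h : FP ht c A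
          · rw [if_pos h]; split_ifs <;> simp
          · rw [if_neg (fun h' => h h'.1), if_neg h]
    _ = _ := by rw [one_mul, ← add_assoc, two_mul]

end one

end Crest.Agent.R154.Asm490
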