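import Crest.Agent.R154.AsmK1_490

/-! Row 154, ROAD 801 (helper490): assembly, part 2: grouping by heights and displacement. -/

set_option autoImplicit false

namespace Crest.Agent.R154.Asm490

open scoped ENNReal
open B5A Asm867

section two

variable {B B' G : Type*} [AddCommGroup G] (Λ : B → ℝ≥0∞) (ht : B → ℕ) (z : B → G)
  (Λ' : B' → ℝ≥0∞) (ht' : B' → ℕ) (z' : B' → G)

open Classical in
/-- splitting of both walkers at a window -/
lemma pair_split (hU1 : ∀ n, U Λ ht n ≤ 1) (hm : ∀ a, ∑' L : List B, (if FP ht a L then LW Λ L else 0) ≤ 1)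
    (hU1' : ∀ n, U Λ' ht' n ≤ 1)
    (hm' : ∀ a, ∑' L : List B', (if FP ht' a L then LW Λ' L else 0) ≤ 1)
    (c τ i0 n : ℕ) (hn : c + i0 + τ ≤ n) (η η' : ℝ≥0∞)
    (hη : ∀ a, ∑' L : List B, (if FP ht a L ∧ a + i0 < HT ht L then LW Λ L else 0) ≤ η)
    (hη' : ∀ a, ∑' L : List B', (if FP ht' a L ∧ a + i0 < HT ht' L then LW Λ' L else 0) ≤ η')
    (Ev : List B → List B' → Prop) (Ev' : List B → List B → List B' → List B' → Prop)
    (hE : ∀ A P R A' P' R', FP ht c A → HT ht A ≤ c + i0 → FP ht τ P → HT ht P ≤ τ + i0 →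
      FP ht' c A' → HT ht' A' ≤ c + i0 → FP ht' τ P' → HT ht' P' ≤ τ + i0 →
      Ev (A ++ (P ++ R)) (A' ++ (P' ++ R')) → Ev' A P A' P') :
    ∑' LX, ∑' LY, (if HT ht LX = n ∧ HT ht' LY = n ∧ Ev LX LY then LW Λ LX * LW Λ' LY else 0)
      ≤ 2 * η + 2 * η' + ∑' A, ∑' A', (if FP ht c A ∧ HT ht A ≤ c + i0 then LW Λ A else 0) *
          (if FP ht' c A' ∧ HT ht' A' ≤ c + i0 then LW Λ' A' else 0) *
          ∑' P, ∑' P', (if FP ht τ P ∧ HT ht P ≤ τ + i0 then LW Λ P else 0) *
            (if FP ht' τ P' ∧ HT ht' P' ≤ τ + i0 then LW Λ' P' else 0) *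
            (if Ev' A P A' P' then 1 else 0) := by
  set wA : List B → ℝ≥0∞ := fun A => if FP ht c A ∧ HT ht A ≤ c + i0 then LW Λ A else 0 with hwA
  set wP : List B → ℝ≥0∞ := fun P => if FP ht τ P ∧ HT ht P ≤ τ + i0 then LW Λ P else 0 with hwP
  set wA' : List B' → ℝ≥0∞ := fun A => if FP ht' c A ∧ HT ht' A ≤ c + i0 then LW Λ' A else 0
    with hwA'
  set wP' : List B' → ℝ≥0∞ := fun P => if FP ht' τ P ∧ HT ht' P ≤ τ + i0 then LW Λ' P else 0
    with hwP'
  have hwA1 : ∑' A, wA A ≤ 1 := by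
    refine le_trans (ENNReal.tsum_le_tsum fun A => ?_) (hm c)
    simp only [hwA]
    by_cases h : FP ht c A
    · rw [if_pos h]; split_ifs <;> simp
    · rw [if_neg (fun h' => h h'.1), if_neg h]
  have hwP1 : ∑' A, wP A ≤ 1 := by
    refine le_trans (ENNReal.tsum_le_tsum fun A => ?_) (hm τ)
    simp only [hwP]
    by_cases h : FP ht τ A
    · rw [if_pos h]; split_ifs <;> simp
    · rw [if_neg (fun h' => h h'.1), if_neg h]
  have e0 : ∑' LX, ∑' LY, (if HT ht LX = n ∧ HT ht' LY = n ∧ Ev LX LY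
        then LW Λ LX * LW Λ' LY else 0)
      = ∑' LX, (if HT ht LX = n then LW Λ LX *
        ∑' LY, (if HT ht' LY = n then LW Λ' LY * (if Ev LX LY then 1 else 0) else 0) else 0) := by
    refine tsum_congr fun LX => ?_
    by_cases h : HT ht LX = n
    · rw [if_pos h, ← ENNReal.tsum_mul_left]
      refine tsum_congr fun LY => ?_
      by_cases h1 : HT ht' LY = n <;> by_cases h2 : Ev LX LY <;> simp [h, h1, h2]
    · rw [if_neg h]
      simp [h]
  rw [e0]
  have hφ : ∀ LX, ∑' LY, (if HT ht' LY = n then LW Λ' LY * (if Ev LX LY then (1 : ℝ≥0∞) else 0)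
      else 0) ≤ 1 := by
    intro LX
    refine le_trans (ENNReal.tsum_le_tsum fun LY => ?_) (hU1' n)
    by_cases h1 : HT ht' LY = n
    · rw [if_pos h1, if_pos h1]
      split_ifs <;> simp
    · rw [if_neg h1, if_neg h1]
  refine (split3 Λ ht hU1 hm c τ i0 n hn η hη _ (fun A P => 2 * η' + ∑' A', wA' A' *
    ∑' P', wP' P' * (if Ev' A P A' P' then 1 else 0)) (fun L _ => hφ L) ?_).trans ?_
  · intro A P R hA hA2 hP hP2 _
    refine split3 Λ' ht' hU1' hm' c τ i0 n hn η' hη' _ _ (fun L _ => by split_ifs <;> simp) ?_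
    intro A' P' R' hA' hA2' hP' hP2' _
    by_cases h : Ev (A ++ (P ++ R)) (A' ++ (P' ++ R'))
    · rw [if_pos h, if_pos (hE A P R A' P' R' hA hA2 hP hP2 hA' hA2' hP' hP2' h)]
    · rw [if_neg h]; exact zero_le
  · rw [add_assoc]
    gcongr
    have e1 : ∀ A, wA A * ∑' P, wP P * (2 * η' + ∑' A', wA' A' *
        ∑' P', wP' P' * (if Ev' A P A' P' then 1 else 0))
        = wA A * (∑' P, wP P) * (2 * η') + ∑' A', wA A * wA' A' *
          ∑' P, ∑' P', wP P * wP' P' * (if Ev' A P A' P' then 1 else 0) := by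
      intro A
      simp_rw [mul_add]
      rw [ENNReal.tsum_add, mul_add, ENNReal.tsum_mul_right, mul_assoc]
      congr 1
      simp_rw [← ENNReal.tsum_mul_left]
      rw [ENNReal.tsum_comm]
      refine tsum_congr fun A' => tsum_congr fun P => tsum_congr fun P' => ?_
      ring
    change ∑' A, wA A * ∑' P, wP P * (2 * η' + ∑' A', wA' A' *
        ∑' P', wP' P' * (if Ev' A P A' P' then 1 else 0)) ≤ _
    rw [tsum_congr e1, ENNReal.tsum_add]
    gcongr
    rw [ENNReal.tsum_mul_right, ENNReal.tsum_mul_right]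
    calc (∑' A, wA A) * (∑' P, wP P) * (2 * η') ≤ 1 * 1 * (2 * η') := by gcongr
      _ = 2 * η' := by ring

open Classical in
/-- grouping: the first walker is local -/
lemma group (hm : ∀ a, ∑' L : List B, (if FP ht a L then LW Λ L else 0) ≤ 1)
    (hm' : ∀ a, ∑' L : List B', (if FP ht' a L then LW Λ' L else 0) ≤ 1)
    (c τ i0 J : ℕ) (θ θ2 : ℝ≥0∞) (w : G) (e : G → ℕ → ℕ → List B → List B' → Prop)
    (β M Bd : ℝ≥0∞)
    (hβ : ∑' L : List B, (if FP ht c L ∧ ¬ Good Λ ht z τ i0 θ2 J L then LW Λ L else 0) ≤ β)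
    (hM : ∀ A y, ∑' L : List B, (if FP ht c L ∧ Good Λ ht z τ i0 θ2 J L ∧ HT ht L = A ∧ Dp z L = y
      then LW Λ L else 0) ≤ M)
    (E : ℕ → Finset G) (hE : ∀ i y, θ ≤ pT Λ ht z τ (τ + i) y → y ∈ E i)
    (HB : ∀ j i i', j ≤ i0 → i ≤ i0 → i' ≤ i0 → ∀ a', c ≤ a' → a' ≤ c + i0 → ∀ μ : G → ℝ≥0∞,
      ∑' x, μ x ≤ 1 → (∀ x, μ x ≤ M) → ∑' x, μ x * ∑' P, ∑' P',
        (if HT ht P = τ + i ∧ Dp z P ∈ E i ∧ HT ht' P' = τ + i' ∧ e x (c + j) a' P P'
          then LW Λ P * LW Λ' P' else 0) ≤ Bd) :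
    ∑' A, ∑' A', (if FP ht c A ∧ HT ht A ≤ c + i0 then LW Λ A else 0) *
          (if FP ht' c A' ∧ HT ht' A' ≤ c + i0 then LW Λ' A' else 0) *
          ∑' P, ∑' P', (if FP ht τ P ∧ HT ht P ≤ τ + i0 ∧ θ ≤ pT Λ ht z τ (HT ht P) (Dp z P)
              then LW Λ P else 0) *
            (if FP ht' τ P' ∧ HT ht' P' ≤ τ + i0 then LW Λ' P' else 0) *
            (if e (w + Dp z' A' - Dp z A) (HT ht A) (HT ht' A') P P' then 1 else 0)
      ≤ β + ((i0 + 1 : ℕ) : ℝ≥0∞) ^ 3 * Bd := by
  set wA : List B → ℝ≥0∞ := fun A => if FP ht c A ∧ HT ht A ≤ c + i0 then LW Λ A else 0 with hwA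
  set wl : List B → ℝ≥0∞ := fun P => if FP ht τ P ∧ HT ht P ≤ τ + i0 ∧
    θ ≤ pT Λ ht z τ (HT ht P) (Dp z P) then LW Λ P else 0 with hwl
  set wA' : List B' → ℝ≥0∞ := fun A => if FP ht' c A ∧ HT ht' A ≤ c + i0 then LW Λ' A else 0
    with hwA'
  set wP' : List B' → ℝ≥0∞ := fun P => if FP ht' τ P ∧ HT ht' P ≤ τ + i0 then LW Λ' P else 0
    with hwP'
  have hwl1 : ∑' A, wl A ≤ 1 := by
    refine le_trans (ENNReal.tsum_le_tsum fun A => ?_) (hm τ)
    simp only [hwl]
    by_cases h : FP ht τ A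
    · rw [if_pos h]; split_ifs <;> simp
    · rw [if_neg (fun h' => h h'.1), if_neg h]
  have hwA1' : ∑' A, wA' A ≤ 1 := by
    refine le_trans (ENNReal.tsum_le_tsum fun A => ?_) (hm' c)
    simp only [hwA']
    by_cases h : FP ht' c A
    · rw [if_pos h]; split_ifs <;> simp
    · rw [if_neg (fun h' => h h'.1), if_neg h]
  have hwP1' : ∑' A, wP' A ≤ 1 := by
    refine le_trans (ENNReal.tsum_le_tsum fun A => ?_) (hm' τ)
    simp only [hwP']
    by_cases h : FP ht' τ A
    · rw [if_pos h]; split_ifs <;> simp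
    · rw [if_neg (fun h' => h h'.1), if_neg h]
  set Ψ : G → ℕ → ℕ → ℝ≥0∞ := fun x a a' => ∑' P, ∑' P', wl P * wP' P' *
    (if e x a a' P P' then 1 else 0) with hΨ
  have hΨ1 : ∀ x a a', Ψ x a a' ≤ 1 := by
    intro x a a'
    calc Ψ x a a' ≤ ∑' P, ∑' P', wl P * wP' P' := by
          refine ENNReal.tsum_le_tsum fun P => ENNReal.tsum_le_tsum fun P' => ?_
          split_ifs <;> simp
      _ = (∑' P, wl P) * ∑' P', wP' P' := by
          rw [← ENNReal.tsum_mul_right]
          exact tsum_congr fun P => ENNReal.tsum_mul_left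
      _ ≤ 1 * 1 := by gcongr
      _ = 1 := one_mul 1
  -- grouping of the pieces
  have hΨ2 : ∀ x a a', Ψ x a a' ≤ ∑ i ∈ Finset.range (i0 + 1), ∑ i' ∈ Finset.range (i0 + 1),
      ∑' P, ∑' P', (if HT ht P = τ + i ∧ Dp z P ∈ E i ∧ HT ht' P' = τ + i' ∧ e x a a' P P'
          then LW Λ P * LW Λ' P' else 0) := by
    intro x a a'
    have : ∑ i ∈ Finset.range (i0 + 1), ∑ i' ∈ Finset.range (i0 + 1),
      ∑' P, ∑' P', (if HT ht P = τ + i ∧ Dp z P ∈ E i ∧ HT ht' P' = τ + i' ∧ e x a a' P P'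
          then LW Λ P * LW Λ' P' else 0)
        = ∑' P, ∑' P', ∑ i ∈ Finset.range (i0 + 1), ∑ i' ∈ Finset.range (i0 + 1),
          (if HT ht P = τ + i ∧ Dp z P ∈ E i ∧ HT ht' P' = τ + i' ∧ e x a a' P P'
          then LW Λ P * LW Λ' P' else 0) := by
      simp_rw [← Summable.tsum_finsetSum (fun _ _ => ENNReal.summable)]
    rw [this]
    refine ENNReal.tsum_le_tsum fun P => ENNReal.tsum_le_tsum fun P' => ?_
    by_cases hP : FP ht τ P ∧ HT ht P ≤ τ + i0 ∧ θ ≤ pT Λ ht z τ (HT ht P) (Dp z P)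
    · by_cases hP' : FP ht' τ P' ∧ HT ht' P' ≤ τ + i0
      · by_cases he : e x a a' P P'
        · have h1 := hP.1.1
          have h2 := hP'.1.1
          have h3 : HT ht P = τ + (HT ht P - τ) := by omega
          have h4 : HT ht' P' = τ + (HT ht' P' - τ) := by omega
          refine le_trans ?_ (Finset.single_le_sum (f := fun i =>
            ∑ i' ∈ Finset.range (i0 + 1), (if HT ht P = τ + i ∧ Dp z P ∈ E i ∧
              HT ht' P' = τ + i' ∧ e x a a' P P' then LW Λ P * LW Λ' P' else 0))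
            (fun _ _ => zero_le) (Finset.mem_range.2 (show HT ht P - τ < i0 + 1 by
              have := hP.2.1; omega)))
          refine le_trans ?_ (Finset.single_le_sum (f := fun i' =>
            (if HT ht P = τ + (HT ht P - τ) ∧ Dp z P ∈ E (HT ht P - τ) ∧
              HT ht' P' = τ + i' ∧ e x a a' P P' then LW Λ P * LW Λ' P' else 0))
            (fun _ _ => zero_le) (Finset.mem_range.2 (show HT ht' P' - τ < i0 + 1 by
              have := hP'.2; omega)))
          have h5 : Dp z P ∈ E (HT ht P - τ) := hE _ _ (by rw [← h3]; exact hP.2.2)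
          rw [if_pos he, if_pos ⟨h3, h5, h4, he⟩]
          simp only [hwl, hwP']
          rw [if_pos hP, if_pos hP', mul_one]
        · rw [if_neg he, mul_zero]; exact zero_le
      · simp only [hwP']
        rw [if_neg hP', mul_zero, zero_mul]; exact zero_le
    · simp only [hwl]
      rw [if_neg hP, zero_mul, zero_mul]; exact zero_le
  -- good part, fixed `A'`
  have hgood : ∀ A', c ≤ HT ht' A' → HT ht' A' ≤ c + i0 →
      ∑' A, (if FP ht c A ∧ Good Λ ht z τ i0 θ2 J A ∧ HT ht A ≤ c + i0 then LW Λ A else 0) *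
        Ψ (w + Dp z' A' - Dp z A) (HT ht A) (HT ht' A') ≤ ((i0 + 1 : ℕ) : ℝ≥0∞) ^ 3 * Bd := by
    intro A' hA1 hA2
    set μ : ℕ → G → ℝ≥0∞ := fun j x => ∑' A, (if FP ht c A ∧ Good Λ ht z τ i0 θ2 J A ∧
      HT ht A = c + j ∧ Dp z A = w + Dp z' A' - x then LW Λ A else 0) with hμ
    have hμM : ∀ j x, μ j x ≤ M := fun j x => hM _ _
    have hμ1 : ∀ j, ∑' x, μ j x ≤ 1 := by
      intro j
      simp only [hμ]
      rw [ENNReal.tsum_comm]
      refine le_trans (ENNReal.tsum_le_tsum fun A => ?_) (hm c)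
      rw [tsum_eq_single (w + Dp z' A' - Dp z A)]
      · by_cases h : FP ht c A
        · rw [if_pos h]; split_ifs <;> simp
        · rw [if_neg (fun h' => h h'.1), if_neg h]
      · intro x hx
        rw [if_neg]
        rintro ⟨_, _, _, h4⟩
        apply hx
        rw [h4]; abel
    have e1 : ∑' A, (if FP ht c A ∧ Good Λ ht z τ i0 θ2 J A ∧ HT ht A ≤ c + i0
          then LW Λ A else 0) * Ψ (w + Dp z' A' - Dp z A) (HT ht A) (HT ht' A')
        ≤ ∑ j ∈ Finset.range (i0 + 1), ∑' x, μ j x * Ψ x (c + j) (HT ht' A') := by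
      have e2 : ∑ j ∈ Finset.range (i0 + 1), ∑' x, μ j x * Ψ x (c + j) (HT ht' A')
          = ∑' A, ∑ j ∈ Finset.range (i0 + 1), ∑' x, (if FP ht c A ∧ Good Λ ht z τ i0 θ2 J A ∧
      HT ht A = c + j ∧ Dp z A = w + Dp z' A' - x then LW Λ A else 0) *
              Ψ x (c + j) (HT ht' A') := by
        rw [Summable.tsum_finsetSum (fun _ _ => ENNReal.summable)]
        refine Finset.sum_congr rfl fun j _ => ?_
        rw [ENNReal.tsum_comm]
        refine tsum_congr fun x => ?_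
        rw [ENNReal.tsum_mul_right]
      rw [e2]
      refine ENNReal.tsum_le_tsum fun A => ?_
      by_cases h : FP ht c A ∧ Good Λ ht z τ i0 θ2 J A ∧ HT ht A ≤ c + i0
      · have h1 := h.1.1
        have h2 := h.2.2
        have h3 : HT ht A = c + (HT ht A - c) := by omega
        refine le_trans ?_ (Finset.single_le_sum (f := fun j => ∑' x, (if FP ht c A ∧
          Good Λ ht z τ i0 θ2 J A ∧ HT ht A = c + j ∧ Dp z A = w + Dp z' A' - x
            then LW Λ A else 0) * Ψ x (c + j) (HT ht' A'))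
            (fun _ _ => zero_le) (Finset.mem_range.2 (show HT ht A - c < i0 + 1 by omega)))
        refine le_trans ?_ (ENNReal.le_tsum (w + Dp z' A' - Dp z A))
        rw [if_pos h, if_pos ⟨h.1, h.2.1, h3, by abel⟩, ← h3]
      · rw [if_neg h, zero_mul]; exact zero_le
    refine e1.trans ?_
    calc ∑ j ∈ Finset.range (i0 + 1), ∑' x, μ j x * Ψ x (c + j) (HT ht' A')
        ≤ ∑ j ∈ Finset.range (i0 + 1), ∑ i ∈ Finset.range (i0 + 1),
            ∑ i' ∈ Finset.range (i0 + 1), Bd := by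
          refine Finset.sum_le_sum fun j hj => ?_
          calc ∑' x, μ j x * Ψ x (c + j) (HT ht' A')
              ≤ ∑' x, μ j x * ∑ i ∈ Finset.range (i0 + 1), ∑ i' ∈ Finset.range (i0 + 1),
                ∑' P, ∑' P', (if HT ht P = τ + i ∧ Dp z P ∈ E i ∧ HT ht' P' = τ + i' ∧
                  e x (c + j) (HT ht' A') P P' then LW Λ P * LW Λ' P' else 0) := by
                gcongr with x
                exact hΨ2 _ _ _
            _ = ∑ i ∈ Finset.range (i0 + 1), ∑ i' ∈ Finset.range (i0 + 1), ∑' x, μ j x *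
                ∑' P, ∑' P', (if HT ht P = τ + i ∧ Dp z P ∈ E i ∧ HT ht' P' = τ + i' ∧
                  e x (c + j) (HT ht' A') P P' then LW Λ P * LW Λ' P' else 0) := by
                simp_rw [Finset.mul_sum]
                rw [Summable.tsum_finsetSum (fun _ _ => ENNReal.summable)]
                refine Finset.sum_congr rfl fun i _ => ?_
                rw [Summable.tsum_finsetSum (fun _ _ => ENNReal.summable)]
            _ ≤ _ := by
                refine Finset.sum_le_sum fun i hi => Finset.sum_le_sum fun i' hi' => ?_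
                rw [Finset.mem_range] at hj hi hi'
                exact HB j i i' (by omega) (by omega) (by omega) _ hA1 hA2 _ (hμ1 j) (hμM j)
      _ = _ := by
          simp only [Finset.sum_const, Finset.card_range, nsmul_eq_mul]
          ring
  calc _ ≤ ∑' A, ∑' A', ((if FP ht c A ∧ ¬ Good Λ ht z τ i0 θ2 J A then LW Λ A else 0) * wA' A' +
        (if FP ht c A ∧ Good Λ ht z τ i0 θ2 J A ∧ HT ht A ≤ c + i0 then LW Λ A else 0) * wA' A' *
          Ψ (w + Dp z' A' - Dp z A) (HT ht A) (HT ht' A')) := by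
        refine ENNReal.tsum_le_tsum fun A => ENNReal.tsum_le_tsum fun A' => ?_
        change wA A * wA' A' * Ψ (w + Dp z' A' - Dp z A) (HT ht A) (HT ht' A') ≤ _
        by_cases h : FP ht c A ∧ HT ht A ≤ c + i0
        · by_cases hg : Good Λ ht z τ i0 θ2 J A
          · simp only [hwA]
            rw [if_pos h, if_neg (fun h' => h'.2 hg), if_pos ⟨h.1, hg, h.2⟩, zero_mul, zero_add]
          · simp only [hwA]
            rw [if_pos h, if_pos ⟨h.1, hg⟩]
            refine le_trans ?_ le_self_add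
            calc LW Λ A * wA' A' * Ψ (w + Dp z' A' - Dp z A) (HT ht A) (HT ht' A')
                ≤ LW Λ A * wA' A' * 1 := by gcongr; exact hΨ1 _ _ _
              _ = _ := mul_one _
        · simp only [hwA]
          rw [if_neg h, zero_mul, zero_mul]; exact zero_le
    _ = (∑' A, (if FP ht c A ∧ ¬ Good Λ ht z τ i0 θ2 J A then LW Λ A else 0)) * ∑' A', wA' A' +
        ∑' A', wA' A' * ∑' A, (if FP ht c A ∧ Good Λ ht z τ i0 θ2 J A ∧ HT ht A ≤ c + i0
          then LW Λ A else 0) * Ψ (w + Dp z' A' - Dp z A) (HT ht A) (HT ht' A') := by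
        simp_rw [ENNReal.tsum_add]
        congr 1
        · rw [← ENNReal.tsum_mul_right]
          exact tsum_congr fun A => ENNReal.tsum_mul_left
        · rw [ENNReal.tsum_comm]
          refine tsum_congr fun A' => ?_
          rw [← ENNReal.tsum_mul_left]
          refine tsum_congr fun A => ?_
          ring
    _ ≤ β * 1 + ∑' A', wA' A' * (((i0 + 1 : ℕ) : ℝ≥0∞) ^ 3 * Bd) := by
        gcongr ?_ * ?_ + ?_
        refine ENNReal.tsum_le_tsum fun A' => ?_
        by_cases h : FP ht' c A' ∧ HT ht' A' ≤ c + i0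
        · gcongr
          exact hgood A' h.1.1 h.2
        · simp only [hwA']
          rw [if_neg h, zero_mul, zero_mul]
    _ ≤ β * 1 + 1 * (((i0 + 1 : ℕ) : ℝ≥0∞) ^ 3 * Bd) := by
        rw [ENNReal.tsum_mul_right]
        gcongr
    _ = _ := by rw [mul_one, one_mul]

end two

end Crest.Agent.R154.Asm490
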