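import Crest.Agent.R154.AsmK2_490

/-! Row 154, ROAD 801 (helper490): assembly, part 3: one window. -/

set_option autoImplicit false

namespace Crest.Agent.R154.Asm490

open scoped ENNReal
open B5A Asm867

/-- what is used of a trace -/
structure Tr {B G : Type*} [AddCommGroup G] (ht : B → ℕ) (z : B → G)
    (T : List B → G → ℕ → Set (G × ℕ)) : Prop where
  app : ∀ L L' x a, T (L ++ L') x a = T L x a ∪ T L' (x + Dp z L) (a + HT ht L)
  dep : ∀ L x a p, p ∈ T L x a → a < p.2 ∧ p.2 ≤ a + HT ht L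
  shf : ∀ L x y a p, p ∈ T L x a → (p.1 + y, p.2) ∈ T L (x + y) a

/-- contact event of two pieces, all contacts at depth in `(D, hi]` -/
def EvP {B B' G : Type*} [AddCommGroup G] (TX : List B → G → ℕ → Set (G × ℕ))
    (TY : List B' → G → ℕ → Set (G × ℕ)) (D hi : ℕ)
    (x : G) (a a' : ℕ) (P : List B) (P' : List B') : Prop :=
  (∃ p, p ∈ TX P 0 a ∧ p ∈ TY P' x a') ∧
    ∀ p, p ∈ TX P 0 a → p ∈ TY P' x a' → D < p.2 ∧ p.2 ≤ hi

section three

variable {B B' G : Type*} [AddCommGroup G] (Λ : B → ℝ≥0∞) (ht : B → ℕ) (z : B → G)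
  (Λ' : B' → ℝ≥0∞) (ht' : B' → ℕ) (z' : B' → G)
  (TX : List B → G → ℕ → Set (G × ℕ)) (TY : List B' → G → ℕ → Set (G × ℕ))

open Classical in
theorem window (hTX : Tr ht z TX) (hTY : Tr ht' z' TY)
    (hU1 : ∀ n, U Λ ht n ≤ 1) (hm : ∀ a, ∑' L : List B, (if FP ht a L then LW Λ L else 0) ≤ 1)
    (hU1' : ∀ n, U Λ' ht' n ≤ 1)
    (hm' : ∀ a, ∑' L : List B', (if FP ht' a L then LW Λ' L else 0) ≤ 1)
    (c t i0 J n s1 hi : ℕ) (hn : c + i0 + 3 * t ≤ n) (hit : i0 ≤ t) 
    (hhi2 : c + 3 * t + 2 * i0 ≤ hi + s1)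
    (η η' : ℝ≥0∞)
    (hη : ∀ a, ∑' L : List B, (if FP ht a L ∧ a + i0 < HT ht L then LW Λ L else 0) ≤ η)
    (hη' : ∀ a, ∑' L : List B', (if FP ht' a L ∧ a + i0 < HT ht' L then LW Λ' L else 0) ≤ η')
    (w : G) (θ θ2 θ' θ2' u β M Bd β' M' Bd' σ : ℝ≥0∞)
    (hu : ∑' L : List B, (if FP ht (3 * t) L ∧ pT Λ ht z (3 * t) (HT ht L) (Dp z L) < θ
      then LW Λ L else 0) ≤ u)
    (hu' : ∑' L : List B', (if FP ht' (3 * t) L ∧ pT Λ' ht' z' (3 * t) (HT ht' L) (Dp z' L) < θ'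
      then LW Λ' L else 0) ≤ u)
    (hβ : ∑' L : List B, (if FP ht c L ∧ ¬ Good Λ ht z (3 * t) i0 θ2 J L then LW Λ L else 0) ≤ β)
    (hβ' : ∑' L : List B', (if FP ht' c L ∧ ¬ Good Λ' ht' z' (3 * t) i0 θ2' J L
      then LW Λ' L else 0) ≤ β')
    (hM : ∀ A y, ∑' L : List B, (if FP ht c L ∧ Good Λ ht z (3 * t) i0 θ2 J L ∧ HT ht L = A ∧
      Dp z L = y then LW Λ L else 0) ≤ M)
    (hM' : ∀ A y, ∑' L : List B', (if FP ht' c L ∧ Good Λ' ht' z' (3 * t) i0 θ2' J L ∧
      HT ht' L = A ∧ Dp z' L = y then LW Λ' L else 0) ≤ M')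
    (E : ℕ → Finset G) (hE : ∀ i y, θ ≤ pT Λ ht z (3 * t) (3 * t + i) y → y ∈ E i)
    (E' : ℕ → Finset G) (hE' : ∀ i y, θ' ≤ pT Λ' ht' z' (3 * t) (3 * t + i) y → y ∈ E' i)
    (HB : ∀ j i i', j ≤ i0 → i ≤ i0 → i' ≤ i0 → ∀ a', c ≤ a' → a' ≤ c + i0 → ∀ μ : G → ℝ≥0∞,
      ∑' x, μ x ≤ 1 → (∀ x, μ x ≤ M) → ∑' x, μ x * ∑' P, ∑' P',
        (if HT ht P = 3 * t + i ∧ Dp z P ∈ E i ∧ HT ht' P' = 3 * t + i' ∧
          EvP TX TY (c + t) hi x (c + j) a' P P' then LW Λ P * LW Λ' P' else 0) ≤ Bd)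
    (HB' : ∀ j i i', j ≤ i0 → i ≤ i0 → i' ≤ i0 → ∀ a, c ≤ a → a ≤ c + i0 → ∀ μ : G → ℝ≥0∞,
      ∑' x, μ x ≤ 1 → (∀ x, μ x ≤ M') → ∑' x, μ x * ∑' P, ∑' P',
        (if HT ht P = 3 * t + i' ∧ Dp z' P' ∈ E' i ∧ HT ht' P' = 3 * t + i ∧
          EvP TX TY (c + t) hi x a (c + j) P P' then LW Λ P * LW Λ' P' else 0) ≤ Bd')
    (hσ : ∑' LX, ∑' LY, (if HT ht LX = n ∧ HT ht' LY = n ∧
      (∃ p, p ∈ TX LX 0 0 ∧ p ∈ TY LY w 0 ∧ hi < p.2 ∧ p.2 ≤ hi + s1)
        then LW Λ LX * LW Λ' LY else 0) ≤ σ) :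
    ∑' LX, ∑' LY, (if HT ht LX = n ∧ HT ht' LY = n ∧
      (∀ p, p ∈ TX LX 0 0 → p ∈ TY LY w 0 → c + t < p.2) ∧
      (∃ p, p ∈ TX LX 0 0 ∧ p ∈ TY LY w 0 ∧ p.2 ≤ c + 2 * t)
        then LW Λ LX * LW Λ' LY else 0)
      ≤ σ + (2 * η + 2 * η' + (u * u + ((β + ((i0 + 1 : ℕ) : ℝ≥0∞) ^ 3 * Bd) +
          (β' + ((i0 + 1 : ℕ) : ℝ≥0∞) ^ 3 * Bd')))) := by
  obtain ⟨Ev, hEv⟩ : ∃ Ev : List B → List B' → Prop, ∀ LX LY, Ev LX LY ↔
    ((∀ p, p ∈ TX LX 0 0 → p ∈ TY LY w 0 → c + t < p.2) ∧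
      (∃ p, p ∈ TX LX 0 0 ∧ p ∈ TY LY w 0 ∧ p.2 ≤ c + 2 * t) ∧
      ∀ p, p ∈ TX LX 0 0 → p ∈ TY LY w 0 → ¬ (hi < p.2 ∧ p.2 ≤ hi + s1)) :=
    ⟨_, fun _ _ => Iff.rfl⟩
  set Ev' : List B → List B → List B' → List B' → Prop := fun A P A' P' =>
    EvP TX TY (c + t) hi (w + Dp z' A' - Dp z A) (HT ht A) (HT ht' A') P P' with hEv'
  have hsplit : ∑' LX, ∑' LY, (if HT ht LX = n ∧ HT ht' LY = n ∧
      (∀ p, p ∈ TX LX 0 0 → p ∈ TY LY w 0 → c + t < p.2) ∧
      (∃ p, p ∈ TX LX 0 0 ∧ p ∈ TY LY w 0 ∧ p.2 ≤ c + 2 * t)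
        then LW Λ LX * LW Λ' LY else 0)
      ≤ σ + ∑' LX, ∑' LY, (if HT ht LX = n ∧ HT ht' LY = n ∧ Ev LX LY
        then LW Λ LX * LW Λ' LY else 0) := by
    calc _ ≤ ∑' LX, ∑' LY, ((if HT ht LX = n ∧ HT ht' LY = n ∧
      (∃ p, p ∈ TX LX 0 0 ∧ p ∈ TY LY w 0 ∧ hi < p.2 ∧ p.2 ≤ hi + s1)
        then LW Λ LX * LW Λ' LY else 0) + (if HT ht LX = n ∧ HT ht' LY = n ∧ Ev LX LY
        then LW Λ LX * LW Λ' LY else 0)) := by
          refine ENNReal.tsum_le_tsum fun LX => ENNReal.tsum_le_tsum fun LY => ?_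
          by_cases h : HT ht LX = n ∧ HT ht' LY = n ∧
            (∀ p, p ∈ TX LX 0 0 → p ∈ TY LY w 0 → c + t < p.2) ∧
            (∃ p, p ∈ TX LX 0 0 ∧ p ∈ TY LY w 0 ∧ p.2 ≤ c + 2 * t)
          · rw [if_pos h]
            by_cases h2 : ∃ p, p ∈ TX LX 0 0 ∧ p ∈ TY LY w 0 ∧ hi < p.2 ∧ p.2 ≤ hi + s1
            · rw [if_pos ⟨h.1, h.2.1, h2⟩]; exact le_self_add
            · have h3 : Ev LX LY := (hEv _ _).2 ⟨h.2.2.1, h.2.2.2, fun p hp hp' hcon =>
                h2 ⟨p, hp, hp', hcon.1, hcon.2⟩⟩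
              rw [if_pos (⟨h.1, h.2.1, h3⟩ : HT ht LX = n ∧ HT ht' LY = n ∧ Ev LX LY)]
              exact le_add_self
          · rw [if_neg h]; exact zero_le
      _ ≤ _ := by
          simp_rw [ENNReal.tsum_add]
          gcongr
  refine hsplit.trans ?_
  gcongr
  refine (pair_split Λ ht Λ' ht' hU1 hm hU1' hm' c (3 * t) i0 n hn η η' hη hη' Ev Ev' ?_).trans ?_
  · intro A P R A' P' R' hA hA2 hP hP2 hA' hA2' hP' hP2' hev
    obtain ⟨he1, ⟨p, hp, hp', hpk⟩, he3⟩ := (hEv _ _).1 hev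
    have hA1 := hA.1
    have hP1 := hP.1
    have hA1' := hA'.1
    have hP1' := hP'.1
    have hTXe : TX (A ++ (P ++ R)) 0 0 = TX A 0 0 ∪ (TX P (Dp z A) (HT ht A) ∪
        TX R (Dp z A + Dp z P) (HT ht A + HT ht P)) := by
      rw [hTX.app, hTX.app, zero_add, zero_add]
    have hTYe : TY (A' ++ (P' ++ R')) w 0 = TY A' w 0 ∪ (TY P' (w + Dp z' A') (HT ht' A') ∪
        TY R' (w + Dp z' A' + Dp z' P') (HT ht' A' + HT ht' P')) := by
      rw [hTY.app, hTY.app, zero_add]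
    have hD := he1 p hp hp'
    have hpP : p ∈ TX P (Dp z A) (HT ht A) := by
      rw [hTXe] at hp
      rcases hp with hp | hp | hp
      · have := (hTX.dep _ _ _ _ hp).2; omega
      · exact hp
      · have := (hTX.dep _ _ _ _ hp).1; omega
    have hpP' : p ∈ TY P' (w + Dp z' A') (HT ht' A') := by
      rw [hTYe] at hp'
      rcases hp' with hp' | hp' | hp'
      · have := (hTY.dep _ _ _ _ hp').2; omega
      · exact hp'
      · have := (hTY.dep _ _ _ _ hp').1; omega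
    refine ⟨⟨(p.1 + - Dp z A, p.2), ?_, ?_⟩, ?_⟩
    · have := hTX.shf P (Dp z A) (- Dp z A) (HT ht A) p hpP
      rwa [add_neg_cancel] at this
    · have := hTY.shf P' (w + Dp z' A') (- Dp z A) (HT ht' A') p hpP'
      rwa [← sub_eq_add_neg] at this
    · intro q hq hq'
      have h1 : (q.1 + Dp z A, q.2) ∈ TX (A ++ (P ++ R)) 0 0 := by
        rw [hTXe]
        have := hTX.shf P 0 (Dp z A) (HT ht A) q hq
        rw [zero_add] at this
        exact Or.inr (Or.inl this)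
      have h2 : (q.1 + Dp z A, q.2) ∈ TY (A' ++ (P' ++ R')) w 0 := by
        rw [hTYe]
        have := hTY.shf P' (w + Dp z' A' - Dp z A) (Dp z A) (HT ht' A') q hq'
        rw [sub_add_cancel] at this
        exact Or.inr (Or.inl this)
      have h3 := he1 _ h1 h2
      have h4 := he3 _ h1 h2
      have h5 := (hTX.dep _ _ _ _ hq).2
      simp only at h3 h4
      exact ⟨h3, by omega⟩
  · gcongr
    -- notations
    set wA : List B → ℝ≥0∞ := fun A => if FP ht c A ∧ HT ht A ≤ c + i0 then LW Λ A else 0 with hwA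
    set wP : List B → ℝ≥0∞ := fun P => if FP ht (3 * t) P ∧ HT ht P ≤ 3 * t + i0 then LW Λ P else 0
      with hwP
    set wA' : List B' → ℝ≥0∞ := fun A => if FP ht' c A ∧ HT ht' A ≤ c + i0 then LW Λ' A else 0
      with hwA'
    set wP' : List B' → ℝ≥0∞ := fun P => if FP ht' (3 * t) P ∧ HT ht' P ≤ 3 * t + i0
      then LW Λ' P else 0 with hwP'
    set wl : List B → ℝ≥0∞ := fun P => if FP ht (3 * t) P ∧ HT ht P ≤ 3 * t + i0 ∧
      θ ≤ pT Λ ht z (3 * t) (HT ht P) (Dp z P) then LW Λ P else 0 with hwl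
    set wl' : List B' → ℝ≥0∞ := fun P => if FP ht' (3 * t) P ∧ HT ht' P ≤ 3 * t + i0 ∧
      θ' ≤ pT Λ' ht' z' (3 * t) (HT ht' P) (Dp z' P) then LW Λ' P else 0 with hwl'
    set wn : List B → ℝ≥0∞ := fun L => if FP ht (3 * t) L ∧
      pT Λ ht z (3 * t) (HT ht L) (Dp z L) < θ then LW Λ L else 0 with hwn
    set wn' : List B' → ℝ≥0∞ := fun L => if FP ht' (3 * t) L ∧
      pT Λ' ht' z' (3 * t) (HT ht' L) (Dp z' L) < θ' then LW Λ' L else 0 with hwn'
    have hwA1 : ∑' A, wA A ≤ 1 := by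
      refine le_trans (ENNReal.tsum_le_tsum fun A => ?_) (hm c)
      simp only [hwA]
      by_cases h : FP ht c A
      · rw [if_pos h]; split_ifs <;> simp
      · rw [if_neg (fun h' => h h'.1), if_neg h]
    have hwA1' : ∑' A, wA' A ≤ 1 := by
      refine le_trans (ENNReal.tsum_le_tsum fun A => ?_) (hm' c)
      simp only [hwA']
      by_cases h : FP ht' c A
      · rw [if_pos h]; split_ifs <;> simp
      · rw [if_neg (fun h' => h h'.1), if_neg h]
    have hPle : ∀ P, wP P ≤ wn P + wl P := by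
      intro P
      simp only [hwP, hwn, hwl]
      by_cases h : FP ht (3 * t) P ∧ HT ht P ≤ 3 * t + i0
      · by_cases h2 : pT Λ ht z (3 * t) (HT ht P) (Dp z P) < θ
        · rw [if_pos h, if_pos ⟨h.1, h2⟩]; exact le_self_add
        · rw [if_pos h, if_neg (fun h' => h2 h'.2), if_pos ⟨h.1, h.2, not_lt.1 h2⟩, zero_add]
      · rw [if_neg h]; exact zero_le
    have hPle' : ∀ P, wP' P ≤ wn' P + wl' P := by
      intro P
      simp only [hwP', hwn', hwl']
      by_cases h : FP ht' (3 * t) P ∧ HT ht' P ≤ 3 * t + i0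
      · by_cases h2 : pT Λ' ht' z' (3 * t) (HT ht' P) (Dp z' P) < θ'
        · rw [if_pos h, if_pos ⟨h.1, h2⟩]; exact le_self_add
        · rw [if_pos h, if_neg (fun h' => h2 h'.2), if_pos ⟨h.1, h.2, not_lt.1 h2⟩, zero_add]
      · rw [if_neg h]; exact zero_le
    have hpt : ∀ (P : List B) (P' : List B') (e : ℝ≥0∞), e ≤ 1 →
        wP P * wP' P' * e ≤ wn P * wn' P' + (wl P * wP' P' * e + wP P * wl' P' * e) := by
      intro P P' e he
      by_cases h : pT Λ ht z (3 * t) (HT ht P) (Dp z P) < θ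
      · by_cases h' : pT Λ' ht' z' (3 * t) (HT ht' P') (Dp z' P') < θ'
        · refine le_trans ?_ le_self_add
          have hl : wl P = 0 := by
            simp only [hwl]; rw [if_neg (fun hh => absurd h (not_lt.2 hh.2.2))]
          have hl' : wl' P' = 0 := by
            simp only [hwl']; rw [if_neg (fun hh => absurd h' (not_lt.2 hh.2.2))]
          have h1 := hPle P
          have h2 := hPle' P'
          rw [hl, add_zero] at h1
          rw [hl', add_zero] at h2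
          calc wP P * wP' P' * e ≤ wn P * wn' P' * 1 := by gcongr
            _ = _ := mul_one _
        · refine le_trans ?_ le_add_self
          refine le_trans ?_ le_add_self
          have hn' : wn' P' = 0 := by
            simp only [hwn']; rw [if_neg (fun hh => h' hh.2)]
          have h2 := hPle' P'
          rw [hn', zero_add] at h2
          gcongr
      · refine le_trans ?_ le_add_self
        refine le_trans ?_ le_self_add
        have hn' : wn P = 0 := by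
          simp only [hwn]; rw [if_neg (fun hh => h hh.2)]
        have h2 := hPle P
        rw [hn', zero_add] at h2
        gcongr
    have hgX := group Λ ht z Λ' ht' z' hm hm' c (3 * t) i0 J θ θ2 w
      (fun x a a' P P' => EvP TX TY (c + t) hi x a a' P P') β M Bd hβ hM E hE HB
    have hgY := group Λ' ht' z' Λ ht z hm' hm c (3 * t) i0 J θ' θ2' (-w)
      (fun y a' a P' P => EvP TX TY (c + t) hi (-y) a a' P P') β' M' Bd' hβ' hM' E' hE' (by
        intro j i i' hj hi1 hi' a ha ha2 μ hμ1 hμM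
        have h1 := HB' j i i' hj hi1 hi' a ha ha2 (fun x => μ (-x))
          (by
            have h2 := (Equiv.neg G).tsum_eq μ
            simp only [Equiv.neg_apply] at h2
            rw [h2]; exact hμ1) (fun x => hμM _)
        refine le_trans (le_of_eq ?_) h1
        rw [← (Equiv.neg G).tsum_eq]
        refine tsum_congr fun x => ?_
        simp only [Equiv.neg_apply, neg_neg]
        congr 1
        rw [ENNReal.tsum_comm]
        refine tsum_congr fun P => tsum_congr fun P' => ?_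
        by_cases hc : HT ht P = 3 * t + i' ∧ Dp z' P' ∈ E' i ∧ HT ht' P' = 3 * t + i ∧
          EvP TX TY (c + t) hi x a (c + j) P P'
        · rw [if_pos hc, if_pos ⟨hc.2.2.1, hc.2.1, hc.1, hc.2.2.2⟩, mul_comm]
        · rw [if_neg hc, if_neg (fun h => hc ⟨h.2.2.1, h.2.1, h.1, h.2.2.2⟩)])
    calc ∑' A, ∑' A', wA A * wA' A' * ∑' P, ∑' P', wP P * wP' P' *
          (if Ev' A P A' P' then 1 else 0)
        ≤ ∑' A, ∑' A', (wA A * wA' A' * (u * u) +
          (wA A * wA' A' * (∑' P, ∑' P', wl P * wP' P' * (if Ev' A P A' P' then 1 else 0)) +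
           wA A * wA' A' * (∑' P, ∑' P', wP P * wl' P' * (if Ev' A P A' P' then 1 else 0)))) := by
          refine ENNReal.tsum_le_tsum fun A => ENNReal.tsum_le_tsum fun A' => ?_
          rw [← mul_add, ← mul_add]
          gcongr
          calc _ ≤ ∑' P, ∑' P', (wn P * wn' P' + (wl P * wP' P' * (if Ev' A P A' P' then 1 else 0)
                + wP P * wl' P' * (if Ev' A P A' P' then 1 else 0))) := by
                refine ENNReal.tsum_le_tsum fun P => ENNReal.tsum_le_tsum fun P' => ?_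
                exact hpt P P' _ (by split_ifs <;> simp)
            _ = (∑' P, wn P) * (∑' P', wn' P') +
                ((∑' P, ∑' P', wl P * wP' P' * (if Ev' A P A' P' then 1 else 0)) +
                ∑' P, ∑' P', wP P * wl' P' * (if Ev' A P A' P' then 1 else 0)) := by
                simp_rw [ENNReal.tsum_add]
                congr 1
                rw [← ENNReal.tsum_mul_right]
                exact tsum_congr fun P => ENNReal.tsum_mul_left
            _ ≤ _ := by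
                gcongr
      _ = (∑' A, wA A) * (∑' A', wA' A') * (u * u) +
          ((∑' A, ∑' A', wA A * wA' A' * (∑' P, ∑' P', wl P * wP' P' *
            (if Ev' A P A' P' then 1 else 0))) +
           ∑' A, ∑' A', wA A * wA' A' * (∑' P, ∑' P', wP P * wl' P' *
            (if Ev' A P A' P' then 1 else 0))) := by
          simp_rw [ENNReal.tsum_add]
          congr 1
          rw [← ENNReal.tsum_mul_right, ← ENNReal.tsum_mul_right]
          refine tsum_congr fun A => ?_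
          rw [ENNReal.tsum_mul_right, ENNReal.tsum_mul_left]
      _ ≤ 1 * 1 * (u * u) + ((β + ((i0 + 1 : ℕ) : ℝ≥0∞) ^ 3 * Bd) +
          (β' + ((i0 + 1 : ℕ) : ℝ≥0∞) ^ 3 * Bd')) := by
          refine add_le_add (mul_le_mul' (mul_le_mul' hwA1 hwA1') le_rfl) (add_le_add hgX ?_)
          refine le_trans (le_of_eq ?_) hgY
          rw [ENNReal.tsum_comm]
          refine tsum_congr fun A' => tsum_congr fun A => ?_
          rw [mul_comm (wA A) (wA' A')]
          congr 1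
          rw [ENNReal.tsum_comm]
          refine tsum_congr fun P' => tsum_congr fun P => ?_
          rw [mul_comm (wP P) (wl' P')]
          congr 1
          have : - (-w + Dp z A - Dp z' A') = w + Dp z' A' - Dp z A := by abel
          simp only [hEv']
          rw [this]
      _ = _ := by rw [one_mul, one_mul]

end three

end Crest.Agent.R154.Asm490
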