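import Crest.Agent.R154.AsmA_867
import Crest.Agent.R154.AsmA_789
import Crest.Agent.R154.FP_178

/-! Row 154, ROAD 801 (helper490): assembly, part 4: data of one walker. -/

set_option autoImplicit false

namespace Crest.Agent.R154.Asm490

open scoped ENNReal Topology
open B5A Asm867

section walker

variable {B G : Type*} [AddCommGroup G] (Λ : B → ℝ≥0∞) (ht : B → ℕ) (z : B → G)

lemma FP_iff (L : List B) : ∀ T, FP ht T L ↔ FP178.fp ht T L := by
  induction L with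
  | nil =>
    intro T
    rw [FP178.fp_nil]
    constructor
    · intro h
      have := h.1
      rw [HT_nil] at this; omega
    · rintro rfl
      refine ⟨Nat.zero_le _, fun L1 L2 h hne => ?_⟩
      exact absurd (List.append_eq_nil_iff.1 h.symm).2 hne
  | cons b L ih =>
    intro T
    rw [FP178.fp_cons, ← ih]
    constructor
    · intro h
      refine ⟨?_, ?_⟩
      · have := h.2 [] (b :: L) rfl (by simp)
        rw [HT_nil] at this; exact this
      · have h2 := FP_rest ht T (V := [b]) (W := L) h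
        rwa [show HT ht [b] = ht b by simp [HT]] at h2
    · rintro ⟨h0, h1, h2⟩
      refine ⟨by rw [HT_cons]; omega, ?_⟩
      intro L1 L2 h hne
      cases L1 with
      | nil => rw [HT_nil]; exact h0
      | cons b' L1 =>
        rw [List.cons_append, List.cons.injEq] at h
        have h3 := h2 L1 L2 h.2 hne
        rw [HT_cons, ← h.1]
        omega

open Classical in
lemma FP_mass_eq (h1 : ∀ b, 1 ≤ ht b) (hΛ : ∑' b, Λ b = 1) (T : ℕ) :
    ∑' L : List B, (if FP ht T L then LW Λ L else 0) = 1 := by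
  simp_rw [FP_iff]
  induction T using Nat.strong_induction_on with
  | _ a ih =>
    rcases Nat.eq_zero_or_pos a with rfl | ha
    · have := FP178.sum_fp_zero Λ ht (fun _ => 1)
      simp only [mul_one] at this
      exact this
    · have := FP178.sum_fp_step Λ ht a ha (fun _ => 1)
      simp only [mul_one] at this
      rw [this]
      calc ∑' b, Λ b * ∑' L, (if FP178.fp ht (a - ht b) L then LW Λ L else 0)
          = ∑' b, Λ b * 1 := by
            refine tsum_congr fun b => ?_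
            rw [ih (a - ht b) (by have := h1 b; omega)]
        _ = 1 := by simpa using hΛ

lemma U_le_one (h1 : ∀ b, 1 ≤ ht b) (hΛ : ∑' b, Λ b = 1) (n : ℕ) : U Λ ht n ≤ 1 := by
  have h0 : tail Λ ht 0 = 1 := by
    rw [← hΛ, tail]
    refine tsum_congr fun b => ?_
    rw [if_pos (by have := h1 b; omega)]
  rw [← renewal_one Λ ht h1 hΛ n]
  calc U Λ ht n = U Λ ht (n - 0) * tail Λ ht 0 := by rw [h0, mul_one, Nat.sub_zero]
    _ ≤ _ := Finset.single_le_sum (f := fun k => U Λ ht (n - k) * tail Λ ht k)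
      (fun _ _ => zero_le) (Finset.mem_range.2 (Nat.succ_pos n))

open Classical in
lemma over_le (h1 : ∀ b, 1 ≤ ht b) (hΛ : ∑' b, Λ b = 1) (i0 a : ℕ) :
    ∑' L : List B, (if FP ht a L ∧ a + i0 < HT ht L then LW Λ L else 0)
      ≤ ∑' k, tail Λ ht (i0 + k) := by
  refine le_trans (le_of_eq ?_) (FP178.overshoot Λ ht h1 (U_le_one Λ ht h1 hΛ) i0 a)
  refine tsum_congr fun L => ?_
  simp only [FP_iff]

lemma over_tendsto (hΛ : ∑' b, Λ b = 1) (hm : ∑' b, Λ b * (ht b : ℝ≥0∞) ≠ ⊤) :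
    Filter.Tendsto (fun i0 => ∑' k, tail Λ ht (i0 + k)) Filter.atTop (𝓝 0) := by
  rw [sum_tail Λ ht hΛ] at hm
  have := ENNReal.tendsto_sum_nat_add _ hm
  simp_rw [add_comm] at this
  exact this

open Classical in
/-- push forward on (height, displacement) -/
lemma push (τ : ℕ) (S : ℕ × G → Prop) :
    ∑' q : ℕ × G, (if S q then pT Λ ht z τ q.1 q.2 else 0)
      = ∑' L : List B, (if FP ht τ L ∧ S (HT ht L, Dp z L) then LW Λ L else 0) := by
  have e1 : ∀ q : ℕ × G, (if S q then pT Λ ht z τ q.1 q.2 else 0)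
      = ∑' L : List B, (if S q ∧ FP ht τ L ∧ HT ht L = q.1 ∧ Dp z L = q.2 then LW Λ L else 0) := by
    intro q
    by_cases h : S q
    · rw [if_pos h, pT]
      refine tsum_congr fun L => ?_
      simp only [h, true_and]
    · rw [if_neg h]
      simp only [h, false_and, if_false, tsum_zero]
  rw [tsum_congr e1, ENNReal.tsum_comm]
  refine tsum_congr fun L => ?_
  rw [tsum_eq_single (HT ht L, Dp z L)]
  · by_cases h : FP ht τ L ∧ S (HT ht L, Dp z L)
    · rw [if_pos h, if_pos ⟨h.2, h.1, rfl, rfl⟩]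
    · rw [if_neg h, if_neg (fun h' => h ⟨h'.2.1, h'.1⟩)]
  · rintro ⟨i, y⟩ hne
    rw [if_neg]
    rintro ⟨_, _, h3, h4⟩
    exact hne (Prod.ext h3.symm h4.symm)

lemma push_lt (τ : ℕ) (t : ℝ≥0∞) :
    ∑' q : ℕ × G, (if pT Λ ht z τ q.1 q.2 < t then pT Λ ht z τ q.1 q.2 else 0)
      = ∑' L : List B, (open Classical in if FP ht τ L ∧ pT Λ ht z τ (HT ht L) (Dp z L) < t
        then LW Λ L else 0) := by
  have h := push Λ ht z τ (fun q => pT Λ ht z τ q.1 q.2 < t)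
  refine Eq.trans ?_ (h.trans ?_)
  · refine tsum_congr fun q => ?_
    by_cases hq : pT Λ ht z τ q.1 q.2 < t <;> simp [hq]
  · refine tsum_congr fun L => ?_
    by_cases hq : FP ht τ L ∧ pT Λ ht z τ (HT ht L) (Dp z L) < t
    · rw [if_pos hq, if_pos hq]
    · rw [if_neg hq, if_neg hq]

open Classical in
/-- threshold, local set, density bound of one walker -/
theorem walker (h1 : ∀ b, 1 ≤ ht b) (hΛ : ∑' b, Λ b = 1) (τ i0 : ℕ) (u : ℝ≥0∞) (hu0 : u ≠ 0)
    (hu1 : u < 1) : ∃ (θ : ℝ≥0∞) (E : ℕ → Finset G) (M : ℝ≥0∞),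
    (∑' L : List B, (if FP ht τ L ∧ pT Λ ht z τ (HT ht L) (Dp z L) < θ then LW Λ L else 0) ≤ u) ∧
    (∀ i y, θ ≤ pT Λ ht z τ (τ + i) y → y ∈ E i) ∧
    (∀ i, M * ((E i).card : ℝ≥0∞) ≤ 2 * ((i0 + 1 : ℕ) : ℝ≥0∞) / u) ∧
    (∀ J c, J * (τ + i0) ≤ c → ∑' L : List B,
      (if FP ht c L ∧ ¬ Good Λ ht z τ i0 (2 * θ) J L then LW Λ L else 0)
        ≤ (1 - u) ^ J + J * ∑' k, tail Λ ht (i0 + k)) ∧
    (∀ J c A y, ∑' L : List B, (if FP ht c L ∧ Good Λ ht z τ i0 (2 * θ) J L ∧ HT ht L = A ∧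
      Dp z L = y then LW Λ L else 0) ≤ M) := by
  set p : ℕ × G → ℝ≥0∞ := fun q => pT Λ ht z τ q.1 q.2 with hp
  have hp1 : ∑' q, p q = 1 := by
    have := push Λ ht z τ (fun _ => True)
    simp only [if_true, and_true] at this
    rw [hp, this]
    exact FP_mass_eq Λ ht h1 hΛ τ
  obtain ⟨θ, hθ0, hθ1, hθu, hθu2⟩ := AsmA789.quant p hp1 hu0 hu1
  have hut : u ≠ ⊤ := ne_top_of_lt hu1
  have hq : ∑' L : List B, (if FP ht τ L ∧ ¬ pT Λ ht z τ (HT ht L) (Dp z L) < 2 * θ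
      then LW Λ L else 0) ≤ 1 - u := by
    refine ENNReal.le_sub_of_add_le_left hut ?_
    calc u + _ ≤ (∑' q, if p q < 2 * θ then p q else 0) + ∑' L : List B,
          (if FP ht τ L ∧ ¬ pT Λ ht z τ (HT ht L) (Dp z L) < 2 * θ then LW Λ L else 0) := by
          gcongr
      _ = ∑' L : List B, ((if FP ht τ L ∧ pT Λ ht z τ (HT ht L) (Dp z L) < 2 * θ
            then LW Λ L else 0) +
          (if FP ht τ L ∧ ¬ pT Λ ht z τ (HT ht L) (Dp z L) < 2 * θ then LW Λ L else 0)) := by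
          rw [ENNReal.tsum_add]
          congr 1
          rw [← push_lt]
      _ = ∑' L : List B, (if FP ht τ L then LW Λ L else 0) := by
          refine tsum_congr fun L => ?_
          by_cases h : FP ht τ L
          · by_cases h2 : pT Λ ht z τ (HT ht L) (Dp z L) < 2 * θ
            · rw [if_pos ⟨h, h2⟩, if_neg (fun h' => h'.2 h2), if_pos h, add_zero]
            · rw [if_neg (fun h' => h2 h'.2), if_pos ⟨h, h2⟩, if_pos h, zero_add]
          · rw [if_neg (fun h' => h h'.1), if_neg (fun h' => h h'.1), if_neg h, add_zero]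
      _ = 1 := FP_mass_eq Λ ht h1 hΛ τ
  have hfin : ∀ i, {y | θ ≤ pT Λ ht z τ (τ + i) y}.Finite := by
    intro i
    have h2 := (AsmA789.card_le p hp1.le hθ0).1
    have h3 : (fun y : G => ((τ + i, y) : ℕ × G)) '' {y | θ ≤ pT Λ ht z τ (τ + i) y} ⊆
        {q | θ ≤ p q} := by
      rintro _ ⟨y, hy, rfl⟩
      exact hy
    exact Set.Finite.of_finite_image (h2.subset h3) (fun x _ y _ h => (Prod.ext_iff.1 h).2)
  have hcard : ∀ i, (((hfin i).toFinset.card : ℕ) : ℝ≥0∞) * θ ≤ 1 := by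
    intro i
    calc (((hfin i).toFinset.card : ℕ) : ℝ≥0∞) * θ = ∑ _y ∈ (hfin i).toFinset, θ := by simp
      _ ≤ ∑ y ∈ (hfin i).toFinset, pT Λ ht z τ (τ + i) y :=
          Finset.sum_le_sum fun y hy => by simpa using (hfin i).mem_toFinset.1 hy
      _ ≤ ∑' y, pT Λ ht z τ (τ + i) y := ENNReal.sum_le_tsum _
      _ ≤ ∑' a, ∑' y, pT Λ ht z τ a y := ENNReal.le_tsum (f := fun a => ∑' y, pT Λ ht z τ a y) (τ + i)
      _ = 1 := by rw [← ENNReal.tsum_prod]; exact hp1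
  refine ⟨θ, fun i => (hfin i).toFinset, ((i0 + 1 : ℕ) : ℝ≥0∞) * (2 * θ) / u, ?_, ?_, ?_, ?_, ?_⟩
  · rw [← push_lt]
    exact hθu
  · intro i y hy
    exact (hfin i).mem_toFinset.2 hy
  · intro i
    calc ((i0 + 1 : ℕ) : ℝ≥0∞) * (2 * θ) / u * (((hfin i).toFinset.card : ℕ) : ℝ≥0∞)
        = 2 * ((i0 + 1 : ℕ) : ℝ≥0∞) / u * ((((hfin i).toFinset.card : ℕ) : ℝ≥0∞) * θ) := by
          rw [div_eq_mul_inv, div_eq_mul_inv]; ring
      _ ≤ 2 * ((i0 + 1 : ℕ) : ℝ≥0∞) / u * 1 := by gcongr; exact hcard i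
      _ = _ := mul_one _
  · intro J c hc
    exact bad_le Λ ht z h1 hΛ.le τ i0 (2 * θ) (1 - u) _ tsub_le_self
      (over_le Λ ht h1 hΛ i0 τ) hq J c hc
  · intro J c A y
    refine good_le Λ ht z h1 hΛ.le τ i0 (2 * θ) (1 - u) _ hq ?_ J c A y
    set X := ((i0 + 1 : ℕ) : ℝ≥0∞) * (2 * θ) with hX
    have e1 : X = u * (X / u) := by rw [ENNReal.mul_div_cancel hu0 hut]
    calc X + (1 - u) * (X / u) = u * (X / u) + (1 - u) * (X / u) := by rw [← e1]
      _ = (u + (1 - u)) * (X / u) := by rw [add_mul]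
      _ = X / u := by rw [add_tsub_cancel_of_le hu1.le, one_mul]
      _ ≤ _ := le_rfl

end walker

/-! ### numbers -/

lemma ex_small (K ε : ℝ≥0∞) (hK : K ≠ ⊤) (hε : ε ≠ 0) : ∃ lam : ℝ≥0∞, lam ≠ 0 ∧ lam ≠ ⊤ ∧
    K * lam ≤ ε := by
  have hK1 : K + 1 ≠ ⊤ := ENNReal.add_ne_top.2 ⟨hK, ENNReal.one_ne_top⟩
  refine ⟨min 1 (ε / (K + 1)), ?_, ?_, ?_⟩
  · have : ε / (K + 1) ≠ 0 := (ENNReal.div_pos hε hK1).ne'
    exact (lt_min one_pos (pos_iff_ne_zero.2 this)).ne'
  · exact ne_top_of_le_ne_top ENNReal.one_ne_top (min_le_left _ _)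
  · calc K * min 1 (ε / (K + 1)) ≤ (K + 1) * (ε / (K + 1)) :=
          mul_le_mul' le_self_add (min_le_right _ _)
      _ ≤ ε := ENNReal.mul_div_le

lemma ex_tend (f : ℕ → ℝ≥0∞) (hf : Filter.Tendsto f Filter.atTop (𝓝 0)) (K ε : ℝ≥0∞)
    (hK : K ≠ ⊤) (hε : ε ≠ 0) : ∀ᶠ n in Filter.atTop, K * f n ≤ ε := by
  obtain ⟨δ, hδ0, -, hδ⟩ := ex_small K ε hK hε
  filter_upwards [hf.eventually_lt_const (pos_iff_ne_zero.2 hδ0)] with n hn
  exact (mul_le_mul' le_rfl hn.le).trans hδ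

end Crest.Agent.R154.Asm490
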