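import Crest.Agent.R154.AsmK3_490
import Crest.Agent.R154.AsmK4_490

/-! Row 154, ROAD 801 (helper490): assembly, part 5: sum over windows, order of constants. -/

set_option autoImplicit false

namespace Crest.Agent.R154.Asm490

open scoped ENNReal Topology
open B5A Asm867

section final

variable {B B' G : Type*} [AddCommGroup G] (Λ : B → ℝ≥0∞) (ht : B → ℕ) (z : B → G)
  (Λ' : B' → ℝ≥0∞) (ht' : B' → ℕ) (z' : B' → G)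
  (TX : List B → G → ℕ → Set (G × ℕ)) (TY : List B' → G → ℕ → Set (G × ℕ))

/-- 540's `H2` (X local), with offset `r` -/
def H2 (C : ℝ≥0∞) (us : ℕ → ℕ → ℝ≥0∞) : Prop :=
  ∀ (r s h h' a a' lo : ℕ) (E : Finset G) (μ : G → ℝ≥0∞) (M lam : ℝ≥0∞),
    ∑' x, μ x ≤ 1 → (∀ x, μ x ≤ M) → lam ≠ 0 → lam ≠ ⊤ → a ≤ a' + r → a + s ≤ lo → a' + s ≤ lo →
    ∑' x, μ x * ∑' L, ∑' L', (open Classical in if HT ht L = h ∧ Dp z L ∈ E ∧ HT ht' L' = h' ∧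
      (∃ y k, (y, k) ∈ TX L 0 a ∧ (y, k) ∈ TY L' x a') ∧
      (∀ y k, (y, k) ∈ TX L 0 a → (y, k) ∈ TY L' x a' → lo ≤ k)
      then LW Λ L * LW Λ' L' else 0) ≤ C * (lam + M * (E.card : ℝ≥0∞) * us r s / lam + us r s)

/-- 540's `H3` (Y local), with offset `r` -/
def H3 (C : ℝ≥0∞) (us : ℕ → ℕ → ℝ≥0∞) : Prop :=
  ∀ (r s h h' a a' hi : ℕ) (E : Finset G) (μ : G → ℝ≥0∞) (M lam : ℝ≥0∞),
    ∑' x, μ x ≤ 1 → (∀ x, μ x ≤ M) → lam ≠ 0 → lam ≠ ⊤ → a + h ≤ a' + h' + r →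
    hi + s ≤ a + h → hi + s ≤ a' + h' →
    ∑' x, μ x * ∑' L, ∑' L', (open Classical in if HT ht L = h ∧ Dp z' L' ∈ E ∧ HT ht' L' = h' ∧
      (∃ y k, (y, k) ∈ TX L 0 a ∧ (y, k) ∈ TY L' x a') ∧
      (∀ y k, (y, k) ∈ TX L 0 a → (y, k) ∈ TY L' x a' → k ≤ hi)
      then LW Λ L * LW Λ' L' else 0) ≤ C * (lam + M * (E.card : ℝ≥0∞) * us r s / lam + us r s)

/-- 540's `H5` (thin slab) -/
def H5 : Prop :=
  ∀ s : ℕ, ∀ η : ℝ≥0∞, η ≠ 0 → ∃ T : ℕ, ∀ a, T ≤ a → ∀ (n : ℕ) (w : G), ∑' LX, ∑' LY,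
    (open Classical in if HT ht LX = n ∧ HT ht' LY = n ∧
      (∃ y k, a ≤ k ∧ k < a + s ∧ (y, k) ∈ TX LX 0 0 ∧ (y, k) ∈ TY LY w 0)
      then LW Λ LX * LW Λ' LY else 0) ≤ η

/-- one window, numbers in -/
theorem win_num (hTX : Tr ht z TX) (hTY : Tr ht' z' TY)
    (h1 : ∀ b, 1 ≤ ht b) (hΛ : ∑' b, Λ b = 1) (h1' : ∀ b, 1 ≤ ht' b) (hΛ' : ∑' b, Λ' b = 1)
    (C : ℝ≥0∞) (us us' : ℕ → ℕ → ℝ≥0∞) (h2 : H2 Λ ht z Λ' ht' TX TY C us)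
    (h3 : H3 Λ ht Λ' ht' z' TX TY C us')
    (u : ℝ≥0∞) (hu0 : u ≠ 0) (hu1 : u < 1) (i0 s : ℕ) (lam : ℝ≥0∞) (hl0 : lam ≠ 0) (hlt : lam ≠ ⊤)
    (J c t n : ℕ) (hJ : J * (3 * t + i0) ≤ c) (hn : c + i0 + 3 * t ≤ n) (hit : i0 + s ≤ t)
    (w : G) (σ : ℝ≥0∞)
    (hσ : ∑' LX, ∑' LY, (open Classical in if HT ht LX = n ∧ HT ht' LY = n ∧
      (∃ y k, c + 3 * t - s + 1 ≤ k ∧ k < c + 3 * t - s + 1 + (s + 2 * i0) ∧ (y, k) ∈ TX LX 0 0 ∧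
        (y, k) ∈ TY LY w 0)
        then LW Λ LX * LW Λ' LY else 0) ≤ σ) :
    ∑' LX, ∑' LY, (open Classical in if HT ht LX = n ∧ HT ht' LY = n ∧
      (∀ p, p ∈ TX LX 0 0 → p ∈ TY LY w 0 → c + t < p.2) ∧
      (∃ p, p ∈ TX LX 0 0 ∧ p ∈ TY LY w 0 ∧ p.2 ≤ c + 2 * t)
        then LW Λ LX * LW Λ' LY else 0)
      ≤ σ + (2 * (∑' k, tail Λ ht (i0 + k)) + 2 * (∑' k, tail Λ' ht' (i0 + k)) + (u * u +
        (((1 - u) ^ J + J * (∑' k, tail Λ ht (i0 + k))) + ((i0 + 1 : ℕ) : ℝ≥0∞) ^ 3 *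
          (C * (lam + 2 * ((i0 + 1 : ℕ) : ℝ≥0∞) / u * us i0 s / lam + us i0 s)) +
         (((1 - u) ^ J + J * (∑' k, tail Λ' ht' (i0 + k))) + ((i0 + 1 : ℕ) : ℝ≥0∞) ^ 3 *
          (C * (lam + 2 * ((i0 + 1 : ℕ) : ℝ≥0∞) / u * us' (2 * i0) s / lam +
            us' (2 * i0) s)))))) := by
  classical
  obtain ⟨θ, E, M, hw1, hw2, hw3, hw4, hw5⟩ := walker Λ ht z h1 hΛ (3 * t) i0 u hu0 hu1
  obtain ⟨θ', E', M', hw1', hw2', hw3', hw4', hw5'⟩ := walker Λ' ht' z' h1' hΛ' (3 * t) i0 u hu0 hu1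
  have key := window Λ ht z Λ' ht' z' TX TY hTX hTY (U_le_one Λ ht h1 hΛ)
    (fun a => (FP_mass_eq Λ ht h1 hΛ a).le) (U_le_one Λ' ht' h1' hΛ')
    (fun a => (FP_mass_eq Λ' ht' h1' hΛ' a).le) c t i0 J n (s + 2 * i0) (c + 3 * t - s)
    hn (by omega) (by omega) _ _ (over_le Λ ht h1 hΛ i0) (over_le Λ' ht' h1' hΛ' i0) w
    θ (2 * θ) θ' (2 * θ') u _ M
    (C * (lam + 2 * ((i0 + 1 : ℕ) : ℝ≥0∞) / u * us i0 s / lam + us i0 s)) _ M'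
    (C * (lam + 2 * ((i0 + 1 : ℕ) : ℝ≥0∞) / u * us' (2 * i0) s / lam + us' (2 * i0) s))
    σ hw1 hw1' (hw4 J c hJ) (hw4' J c hJ) (hw5 J c) (hw5' J c) E hw2 E' hw2'
    (by
      intro j i i' hj hi hi' a' ha' ha2' μ hμ1 hμM
      have := h2 i0 s (3 * t + i) (3 * t + i') (c + j) a' (c + t + 1) (E i) μ M lam hμ1 hμM hl0 hlt
        (by omega) (by omega) (by omega)
      refine le_trans ?_ (this.trans ?_)
      · gcongr with x L L'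
        by_cases hc : HT ht L = 3 * t + i ∧ Dp z L ∈ E i ∧ HT ht' L' = 3 * t + i' ∧
          EvP TX TY (c + t) (c + 3 * t - s) x (c + j) a' L L'
        · rw [if_pos hc, if_pos]
          obtain ⟨e1, e2, e3, ⟨p, hp, hp'⟩, e5⟩ := hc
          exact ⟨e1, e2, e3, ⟨p.1, p.2, hp, hp'⟩, fun y k hy hy' => (e5 (y, k) hy hy').1⟩
        · rw [if_neg hc]; exact zero_le
      · gcongr
        exact hw3 i)
    (by
      intro j i i' hj hi hi' a ha ha2 μ hμ1 hμM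
      have := h3 (2 * i0) s (3 * t + i') (3 * t + i) a (c + j) (c + 3 * t - s) (E' i) μ M' lam
        hμ1 hμM hl0 hlt (by omega) (by omega) (by omega)
      refine le_trans ?_ (this.trans ?_)
      · gcongr with x L L'
        by_cases hc : HT ht L = 3 * t + i' ∧ Dp z' L' ∈ E' i ∧ HT ht' L' = 3 * t + i ∧
          EvP TX TY (c + t) (c + 3 * t - s) x a (c + j) L L'
        · rw [if_pos hc, if_pos]
          obtain ⟨e1, e2, e3, ⟨p, hp, hp'⟩, e5⟩ := hc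
          exact ⟨e1, e2, e3, ⟨p.1, p.2, hp, hp'⟩, fun y k hy hy' => (e5 (y, k) hy hy').2⟩
        · rw [if_neg hc]; exact zero_le
      · gcongr
        exact hw3' i)
    (by
      refine le_trans ?_ hσ
      gcongr with LX LY
      by_cases hc : HT ht LX = n ∧ HT ht' LY = n ∧
        (∃ p, p ∈ TX LX 0 0 ∧ p ∈ TY LY w 0 ∧ c + 3 * t - s < p.2 ∧
          p.2 ≤ c + 3 * t - s + (s + 2 * i0))
      · rw [if_pos hc, if_pos]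
        obtain ⟨e1, e2, p, hp, hp', e3, e4⟩ := hc
        exact ⟨e1, e2, p.1, p.2, by omega, by omega, hp, hp'⟩
      · rw [if_neg hc]; exact zero_le)
  convert key using 10

end final

end Crest.Agent.R154.Asm490
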