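import Crest.Agent.R154.AsmK5_490

/-! Row 154, ROAD 801 (helper490): assembly, part 6: `kapS`. -/

set_option autoImplicit false

namespace Crest.Agent.R154.Asm490

open scoped ENNReal Topology
open B5A Asm867

section final

variable {B B' G : Type*} [AddCommGroup G] (Λ : B → ℝ≥0∞) (ht : B → ℕ) (z : B → G)
  (Λ' : B' → ℝ≥0∞) (ht' : B' → ℕ) (z' : B' → G)
  (TX : List B → G → ℕ → Set (G × ℕ)) (TY : List B' → G → ℕ → Set (G × ℕ))

/-- covering by the windows -/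
lemma cover (J m t : ℕ) (ht0 : t = m / (4 * J + 1)) (hbig : 4 * J + 1 ≤ t)
    (S : ℕ → Prop) (hall : ∀ k, S k → m < k) (hex : ∃ k, S k ∧ k ≤ 2 * m) :
    ∃ q, q < 4 * J + 2 ∧ (∀ k, S k → m - t + q * t + t < k) ∧
      ∃ k, S k ∧ k ≤ m - t + q * t + 2 * t := by
  classical
  have hex' : ∃ k, S k := by
    obtain ⟨k, hk, _⟩ := hex
    exact ⟨k, hk⟩
  set k0 := Nat.find hex' with hk0
  have hk0S : S k0 := Nat.find_spec hex'
  have hmin : ∀ k, S k → k0 ≤ k := fun k hk => Nat.find_min' hex' hk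
  have hm0 : m < k0 := hall _ hk0S
  have hm2 : k0 ≤ 2 * m := by
    obtain ⟨k, hk, hk2⟩ := hex
    exact (hmin k hk).trans hk2
  have htpos : 0 < t := by omega
  have h1 := Nat.div_add_mod (k0 - m - 1) t
  have h2 := Nat.mod_lt (k0 - m - 1) htpos
  have h3 := Nat.div_add_mod m (4 * J + 1)
  have h4 := Nat.mod_lt m (show 0 < 4 * J + 1 by omega)
  rw [← ht0] at h3
  have htm : t ≤ m := by rw [ht0]; exact Nat.div_le_self _ _
  set q := (k0 - m - 1) / t with hq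
  have hqt : q * t = t * q := mul_comm _ _
  have hqlt : q < 4 * J + 2 := by
    by_contra hcon
    rw [not_lt] at hcon
    have h5 : t * (4 * J + 2) ≤ t * q := Nat.mul_le_mul_left _ hcon
    have h6 : t * (4 * J + 2) = (4 * J + 1) * t + t := by ring
    omega
  refine ⟨q, hqlt, fun k hk => ?_, k0, hk0S, ?_⟩
  · have := hmin k hk
    omega
  · omega

open Classical in
/-- the abstract assembly -/
theorem kapS (hTX : Tr ht z TX) (hTY : Tr ht' z' TY)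
    (h1 : ∀ b, 1 ≤ ht b) (hΛ : ∑' b, Λ b = 1) (hm : ∑' b, Λ b * (ht b : ℝ≥0∞) ≠ ⊤)
    (h1' : ∀ b, 1 ≤ ht' b) (hΛ' : ∑' b, Λ' b = 1) (hm' : ∑' b, Λ' b * (ht' b : ℝ≥0∞) ≠ ⊤)
    (C : ℝ≥0∞) (hC : C ≠ ⊤) (us us' : ℕ → ℕ → ℝ≥0∞)
    (hus : ∀ r, Filter.Tendsto (us r) Filter.atTop (𝓝 0))
    (hus' : ∀ r, Filter.Tendsto (us' r) Filter.atTop (𝓝 0))
    (h2 : H2 Λ ht z Λ' ht' TX TY C us) (h3 : H3 Λ ht Λ' ht' z' TX TY C us')
    (h5 : H5 Λ ht Λ' ht' TX TY) :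
    ∀ ε : ℝ≥0∞, ε ≠ 0 → ∃ M : ℕ, ∀ m, M ≤ m → ∀ n, 8 * m ≤ n → ∀ w : G,
      ∑' LX, ∑' LY, (if HT ht LX = n ∧ HT ht' LY = n ∧
        (∀ y k, (y, k) ∈ TX LX 0 0 → (y, k) ∈ TY LY w 0 → m < k) ∧
        (∃ y k, (y, k) ∈ TX LX 0 0 ∧ (y, k) ∈ TY LY w 0 ∧ k ≤ 2 * m)
        then LW Λ LX * LW Λ' LY else 0) ≤ ε := by
  intro ε hε
  set e : ℝ≥0∞ := ε / 16 with he
  have he0 : e ≠ 0 := (ENNReal.div_pos hε (by norm_num)).ne'
  obtain ⟨q, hq2, hq⟩ := AsmA789.num he0 10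
  have hq1 : (1 : ℝ≥0∞) < (q : ℝ≥0∞) ^ 2 := by
    have : (1 : ℕ) < q ^ 2 := by nlinarith
    exact_mod_cast this
  set u : ℝ≥0∞ := ((q : ℝ≥0∞) ^ 2)⁻¹ with hu
  have hu0 : u ≠ 0 := ENNReal.inv_ne_zero.2 (ENNReal.pow_ne_top (ENNReal.natCast_ne_top q))
  have hu1 : u < 1 := ENNReal.inv_lt_one.2 hq1
  set J : ℕ := q ^ 3 with hJ
  set NW : ℝ≥0∞ := ((4 * J + 2 : ℕ) : ℝ≥0∞) with hNW
  have hNWt : NW ≠ ⊤ := ENNReal.natCast_ne_top _
  have hNW0 : NW ≠ 0 := by rw [hNW]; exact_mod_cast (by omega : 4 * J + 2 ≠ 0)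
  -- i0
  set f : ℕ → ℝ≥0∞ := fun i0 => ∑' k, tail Λ ht (i0 + k) with hf
  set f' : ℕ → ℝ≥0∞ := fun i0 => ∑' k, tail Λ' ht' (i0 + k) with hf'
  have hK1 : NW * (2 + (J : ℝ≥0∞)) ≠ ⊤ :=
    ENNReal.mul_ne_top hNWt (ENNReal.add_ne_top.2 ⟨by norm_num, ENNReal.natCast_ne_top _⟩)
  obtain ⟨i0, hi0, hi0'⟩ := ((ex_tend f (over_tendsto Λ ht hΛ hm) _ e hK1 he0).and
    (ex_tend f' (over_tendsto Λ' ht' hΛ' hm') _ e hK1 he0)).exists
  -- lam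
  set K3 : ℝ≥0∞ := NW * (((i0 + 1 : ℕ) : ℝ≥0∞) ^ 3 * C) with hK3
  have hK3t : K3 ≠ ⊤ := ENNReal.mul_ne_top hNWt
    (ENNReal.mul_ne_top (ENNReal.pow_ne_top (ENNReal.natCast_ne_top _)) hC)
  obtain ⟨lam, hl0, hlt, hlam⟩ := ex_small K3 e hK3t he0
  -- s
  set R : ℝ≥0∞ := 2 * ((i0 + 1 : ℕ) : ℝ≥0∞) / u with hR
  have hRt : R ≠ ⊤ := (ENNReal.div_lt_top (ENNReal.mul_ne_top (by norm_num)
    (ENNReal.natCast_ne_top _)) hu0).ne
  have hK4 : K3 * (R / lam + 1) ≠ ⊤ := ENNReal.mul_ne_top hK3t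
    (ENNReal.add_ne_top.2 ⟨(ENNReal.div_lt_top hRt hl0).ne, ENNReal.one_ne_top⟩)
  obtain ⟨s, hs, hs'⟩ := ((ex_tend (us i0) (hus i0) _ e hK4 he0).and
    (ex_tend (us' (2 * i0)) (hus' (2 * i0)) _ e hK4 he0)).exists
  -- slab
  obtain ⟨σ, hσ0, -, hσ⟩ := ex_small NW e hNWt he0
  obtain ⟨T, hT⟩ := h5 (s + 2 * i0) σ hσ0
  refine ⟨(4 * J + 1) * (i0 + s + 4 * J + 1 + T), fun m hm0 n hn w => ?_⟩
  set t : ℕ := m / (4 * J + 1) with ht_def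
  have ht1 : i0 + s + 4 * J + 1 + T ≤ t :=
    (Nat.le_div_iff_mul_le (by omega)).2 (by rw [mul_comm]; exact hm0)
  have htm : t ≤ m := Nat.div_le_self _ _
  have htm2 : (4 * J + 1) * t ≤ m := Nat.mul_div_le _ _
  set Bd : ℝ≥0∞ := σ + (2 * f i0 + 2 * f' i0 + (u * u +
        (((1 - u) ^ J + J * f i0) + ((i0 + 1 : ℕ) : ℝ≥0∞) ^ 3 *
          (C * (lam + R * us i0 s / lam + us i0 s)) +
         (((1 - u) ^ J + J * f' i0) + ((i0 + 1 : ℕ) : ℝ≥0∞) ^ 3 *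
          (C * (lam + R * us' (2 * i0) s / lam + us' (2 * i0) s)))))) with hBd
  have hwin : ∀ r, r < 4 * J + 2 → ∑' LX, ∑' LY, (if HT ht LX = n ∧ HT ht' LY = n ∧
      (∀ p, p ∈ TX LX 0 0 → p ∈ TY LY w 0 → m - t + r * t + t < p.2) ∧
      (∃ p, p ∈ TX LX 0 0 ∧ p ∈ TY LY w 0 ∧ p.2 ≤ m - t + r * t + 2 * t)
        then LW Λ LX * LW Λ' LY else 0) ≤ Bd := by
    intro r hr
    have hr2 : r * t ≤ (4 * J + 1) * t := Nat.mul_le_mul_right _ (by omega)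
    have hJt : J * (3 * t + i0) ≤ m - t + r * t := by
      have e1 : J * (3 * t + i0) ≤ J * (4 * t) := Nat.mul_le_mul_left _ (by omega)
      have e2 : J * (4 * t) = (4 * J + 1) * t - t := by
        have : (4 * J + 1) * t = J * (4 * t) + t := by ring
        omega
      omega
    refine win_num Λ ht z Λ' ht' z' TX TY hTX hTY h1 hΛ h1' hΛ' C us us' h2 h3 u hu0 hu1 i0 s lam
      hl0 hlt J (m - t + r * t) t n hJt (by omega) (by omega) w σ ?_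
    exact hT _ (by omega) n w
  calc ∑' LX, ∑' LY, (if HT ht LX = n ∧ HT ht' LY = n ∧
        (∀ y k, (y, k) ∈ TX LX 0 0 → (y, k) ∈ TY LY w 0 → m < k) ∧
        (∃ y k, (y, k) ∈ TX LX 0 0 ∧ (y, k) ∈ TY LY w 0 ∧ k ≤ 2 * m)
        then LW Λ LX * LW Λ' LY else 0)
      ≤ ∑' LX, ∑' LY, ∑ r ∈ Finset.range (4 * J + 2), (if HT ht LX = n ∧ HT ht' LY = n ∧
      (∀ p, p ∈ TX LX 0 0 → p ∈ TY LY w 0 → m - t + r * t + t < p.2) ∧
      (∃ p, p ∈ TX LX 0 0 ∧ p ∈ TY LY w 0 ∧ p.2 ≤ m - t + r * t + 2 * t)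
        then LW Λ LX * LW Λ' LY else 0) := by
        refine ENNReal.tsum_le_tsum fun LX => ENNReal.tsum_le_tsum fun LY => ?_
        by_cases hc : HT ht LX = n ∧ HT ht' LY = n ∧
          (∀ y k, (y, k) ∈ TX LX 0 0 → (y, k) ∈ TY LY w 0 → m < k) ∧
          (∃ y k, (y, k) ∈ TX LX 0 0 ∧ (y, k) ∈ TY LY w 0 ∧ k ≤ 2 * m)
        · rw [if_pos hc]
          obtain ⟨c1, c2, c3, c4⟩ := hc
          obtain ⟨r, hr, hr1, hr2⟩ := cover J m t rfl (by omega)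
            (fun k => ∃ y, (y, k) ∈ TX LX 0 0 ∧ (y, k) ∈ TY LY w 0)
            (by rintro k ⟨y, hy, hy'⟩; exact c3 y k hy hy')
            (by obtain ⟨y, k, hy, hy', hk⟩ := c4; exact ⟨k, ⟨y, hy, hy'⟩, hk⟩)
          refine le_trans ?_ (Finset.single_le_sum (f := fun r =>
            (if HT ht LX = n ∧ HT ht' LY = n ∧
              (∀ p, p ∈ TX LX 0 0 → p ∈ TY LY w 0 → m - t + r * t + t < p.2) ∧
              (∃ p, p ∈ TX LX 0 0 ∧ p ∈ TY LY w 0 ∧ p.2 ≤ m - t + r * t + 2 * t)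
              then LW Λ LX * LW Λ' LY else 0)) (fun _ _ => zero_le) (Finset.mem_range.2 hr))
          rw [if_pos]
          refine ⟨c1, c2, fun p hp hp' => hr1 p.2 ⟨p.1, hp, hp'⟩, ?_⟩
          obtain ⟨k, ⟨y, hy, hy'⟩, hk⟩ := hr2
          exact ⟨(y, k), hy, hy', hk⟩
        · rw [if_neg hc]; exact zero_le
    _ = ∑ r ∈ Finset.range (4 * J + 2), ∑' LX, ∑' LY, (if HT ht LX = n ∧ HT ht' LY = n ∧
      (∀ p, p ∈ TX LX 0 0 → p ∈ TY LY w 0 → m - t + r * t + t < p.2) ∧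
      (∃ p, p ∈ TX LX 0 0 ∧ p ∈ TY LY w 0 ∧ p.2 ≤ m - t + r * t + 2 * t)
        then LW Λ LX * LW Λ' LY else 0) := by
        rw [← Summable.tsum_finsetSum (fun _ _ => ENNReal.summable)]
        refine tsum_congr fun LX => ?_
        rw [← Summable.tsum_finsetSum (fun _ _ => ENNReal.summable)]
    _ ≤ ∑ _r ∈ Finset.range (4 * J + 2), Bd :=
        Finset.sum_le_sum fun r hr => hwin r (Finset.mem_range.1 hr)
    _ = NW * Bd := by rw [Finset.sum_const, Finset.card_range, nsmul_eq_mul]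
    _ = NW * σ + (NW * (2 + (J : ℝ≥0∞))) * f i0 + (NW * (2 + (J : ℝ≥0∞))) * f' i0 +
        NW * (u * u + ((1 - u) ^ J + (1 - u) ^ J)) +
        (K3 * lam + K3 * (R / lam + 1) * us i0 s) +
        (K3 * lam + K3 * (R / lam + 1) * us' (2 * i0) s) := by
        simp only [hBd, hK3, div_eq_mul_inv]
        ring
    _ ≤ e + e + e + 2 * e + (e + e) + (e + e) := by
        refine add_le_add (add_le_add (add_le_add (add_le_add (add_le_add hσ hi0) hi0') ?_)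
          (add_le_add hlam hs)) (add_le_add hlam hs')
        -- the number part
        have hP : (1 - u) ^ J ≤ (1 - (2 * (q : ℝ≥0∞) ^ 2)⁻¹) ^ J := by
          gcongr
          rw [hu]
          refine ENNReal.inv_le_inv.2 ?_
          calc (q : ℝ≥0∞) ^ 2 = 1 * (q : ℝ≥0∞) ^ 2 := (one_mul _).symm
            _ ≤ 2 * (q : ℝ≥0∞) ^ 2 := by gcongr; norm_num
        have hN : NW ≤ ((10 : ℕ) : ℝ≥0∞) * ((q : ℝ≥0∞) ^ 3 + ((10 : ℕ) : ℝ≥0∞)) := by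
          rw [hNW]
          have : 4 * J + 2 ≤ 10 * (q ^ 3 + 10) := by rw [hJ]; omega
          exact_mod_cast this
        calc NW * (u * u + ((1 - u) ^ J + (1 - u) ^ J))
            ≤ NW * (2 * (u ^ 2 + (1 - (2 * (q : ℝ≥0∞) ^ 2)⁻¹) ^ J)) := by
              gcongr
              calc u * u + ((1 - u) ^ J + (1 - u) ^ J)
                  ≤ (u ^ 2 + u ^ 2) + ((1 - (2 * (q : ℝ≥0∞) ^ 2)⁻¹) ^ J +
                    (1 - (2 * (q : ℝ≥0∞) ^ 2)⁻¹) ^ J) := by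
                    gcongr ?_ + (?_ + ?_)
                    rw [sq]; exact le_self_add
                _ = _ := by ring
          _ = 2 * (NW * (u ^ 2 + (1 - (2 * (q : ℝ≥0∞) ^ 2)⁻¹) ^ J)) := by ring
          _ ≤ 2 * (((10 : ℕ) : ℝ≥0∞) * ((q : ℝ≥0∞) ^ 3 + ((10 : ℕ) : ℝ≥0∞)) *
                (u ^ 2 + (1 - (2 * (q : ℝ≥0∞) ^ 2)⁻¹) ^ J)) := by gcongr
          _ ≤ 2 * e := by gcongr
    _ = 9 * e := by ring
    _ ≤ 16 * (ε / 16) := by rw [he]; gcongr; norm_num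
    _ ≤ ε := ENNReal.mul_div_le

end final

end Crest.Agent.R154.Asm490
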