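import Mathlib

/-! Row 154, ROAD 801 (helper190): averaging over the relative position above a window. -/

set_option autoImplicit false

namespace Crest.Agent.R154.Asm190

open scoped ENNReal

variable {G : Type*} [AddCommGroup G]

lemma tsum_subL (F : G → ℝ≥0∞) (c : G) : ∑' y, F (c - y) = ∑' y, F y :=
  (Equiv.subLeft c).tsum_eq F

lemma tsum_supp (I : Finset ℕ) (F : ℕ → ℝ≥0∞) (R : ℝ≥0∞) (h0 : ∀ A, A ∉ I → F A = 0)
    (hR : ∀ A ∈ I, F A ≤ R) : ∑' A, F A ≤ I.card * R := by
  rw [tsum_eq_sum (s := I) (fun A hA => h0 A hA)]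
  calc ∑ A ∈ I, F A ≤ ∑ _A ∈ I, R := Finset.sum_le_sum hR
    _ = _ := by simp

theorem Zl (φ ψ b : ℕ → G → ℝ≥0∞) (κ : ℕ → ℕ → G → ℝ≥0∞) (w : G) (I I' : Finset ℕ) (D β R : ℝ≥0∞)
    (hφ : ∑' A, ∑' x, φ A x ≤ 1) (hψ : ∑' A, ∑' x, ψ A x ≤ 1)
    (hφI : ∀ A, A ∉ I → ∀ x, φ A x = 0) (hψI : ∀ A, A ∉ I' → ∀ x, ψ A x = 0)
    (hb : ∑' A, ∑' x, b A x ≤ β) (hφb : ∀ A x, φ A x ≤ D + b A x) (hκ : ∀ A A' y, κ A A' y ≤ 1)
    (hR : ∀ A ∈ I, ∀ A' ∈ I', ∀ μ : G → ℝ≥0∞, ∑' y, μ y ≤ 1 → (∀ y, μ y ≤ D) →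
      ∑' y, μ y * κ A A' y ≤ R) :
    ∑' A, ∑' x, φ A x * ∑' A', ∑' x', ψ A' x' * κ A A' (w + x' - x)
      ≤ β + I.card * (I'.card * R) := by
  classical
  have hin : ∀ A x, ∑' A', ∑' x', ψ A' x' * κ A A' (w + x' - x) ≤ 1 := by
    intro A x
    refine le_trans ?_ hψ
    gcongr with A' x'
    calc _ ≤ ψ A' x' * 1 := by gcongr; exact hκ _ _ _
      _ = _ := mul_one _
  have hsp : ∀ A x, φ A x ≤ b A x + min (φ A x) D := by
    intro A x
    rcases le_total (φ A x) D with h | h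
    · rw [min_eq_left h]; exact le_add_self
    · rw [min_eq_right h, add_comm]; exact hφb A x
  have h1 : ∀ A x, φ A x * ∑' A', ∑' x', ψ A' x' * κ A A' (w + x' - x)
      ≤ b A x + min (φ A x) D * ∑' A', ∑' x', ψ A' x' * κ A A' (w + x' - x) := by
    intro A x
    calc _ ≤ (b A x + min (φ A x) D) * ∑' A', ∑' x', ψ A' x' * κ A A' (w + x' - x) := by
          gcongr; exact hsp A x
      _ = b A x * (∑' A', ∑' x', ψ A' x' * κ A A' (w + x' - x))
          + min (φ A x) D * ∑' A', ∑' x', ψ A' x' * κ A A' (w + x' - x) := add_mul _ _ _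
      _ ≤ b A x * 1 + min (φ A x) D * ∑' A', ∑' x', ψ A' x' * κ A A' (w + x' - x) := by
          gcongr; exact hin A x
      _ = _ := by rw [mul_one]
  refine (ENNReal.tsum_le_tsum fun A => ENNReal.tsum_le_tsum fun x => h1 A x).trans ?_
  simp_rw [ENNReal.tsum_add]
  refine add_le_add hb ?_
  refine tsum_supp I _ _ ?_ ?_
  · intro A hA
    simp [hφI A hA]
  · intro A hA
    have hm1 : ∑' x, min (φ A x) D ≤ 1 := by
      refine le_trans ?_ hφ
      refine le_trans ?_ (ENNReal.le_tsum A)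
      gcongr with x
      exact min_le_left _ _
    have e1 : ∑' x, min (φ A x) D * ∑' A', ∑' x', ψ A' x' * κ A A' (w + x' - x)
        = ∑' A', ∑' x', ψ A' x' * ∑' x, min (φ A x) D * κ A A' (w + x' - x) := by
      simp_rw [← ENNReal.tsum_mul_left]
      rw [ENNReal.tsum_comm]
      refine tsum_congr fun A' => ?_
      rw [ENNReal.tsum_comm]
      refine tsum_congr fun x' => tsum_congr fun x => ?_
      ring
    rw [e1]
    refine tsum_supp I' _ _ ?_ ?_
    · intro A' hA'
      simp [hψI A' hA']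
    · intro A' hA'
      have hψ1 : ∑' x', ψ A' x' ≤ 1 := (ENNReal.le_tsum (f := fun A => ∑' x, ψ A x) A').trans hψ
      have e2 : ∑' x', ψ A' x' * ∑' x, min (φ A x) D * κ A A' (w + x' - x)
          = ∑' y, (∑' x', ψ A' x' * min (φ A (w + x' - y)) D) * κ A A' y := by
        have e3 : ∀ x', ∑' x, min (φ A x) D * κ A A' (w + x' - x)
            = ∑' y, min (φ A (w + x' - y)) D * κ A A' y := by
          intro x'
          rw [← tsum_subL (fun x => min (φ A x) D * κ A A' (w + x' - x)) (w + x')]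
          refine tsum_congr fun y => ?_
          rw [sub_sub_cancel]
        simp_rw [e3, ← ENNReal.tsum_mul_left, ← ENNReal.tsum_mul_right]
        rw [ENNReal.tsum_comm]
        refine tsum_congr fun y => tsum_congr fun x' => ?_
        ring
      rw [e2]
      refine hR A hA A' hA' _ ?_ ?_
      · rw [ENNReal.tsum_comm]
        calc ∑' x', ∑' y, ψ A' x' * min (φ A (w + x' - y)) D
            = ∑' x', ψ A' x' * ∑' y, min (φ A y) D := by
              refine tsum_congr fun x' => ?_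
              rw [ENNReal.tsum_mul_left, tsum_subL (fun y => min (φ A y) D) (w + x')]
          _ ≤ ∑' x', ψ A' x' * 1 := by gcongr
          _ ≤ 1 := by simpa using hψ1
      · intro y
        calc ∑' x', ψ A' x' * min (φ A (w + x' - y)) D ≤ ∑' x', ψ A' x' * D := by
              gcongr; exact min_le_right _ _
          _ = (∑' x', ψ A' x') * D := ENNReal.tsum_mul_right
          _ ≤ 1 * D := by gcongr
          _ = D := one_mul D

/-- grouping -/
lemma group {ι : Type*} (F : ι → ℝ≥0∞) (k : ι → ℕ) (s : ι → G) (g : ℕ → G → ℝ≥0∞) :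
    ∑' P, F P * g (k P) (s P)
      = ∑' A, ∑' x, (∑' P, (open Classical in if k P = A ∧ s P = x then F P else 0)) * g A x := by
  classical
  have e1 : ∀ P, F P * g (k P) (s P)
      = ∑' A, ∑' x, (if k P = A ∧ s P = x then F P else 0) * g A x := by
    intro P
    rw [tsum_eq_single (k P), tsum_eq_single (s P)]
    · simp
    · intro x hx
      rw [if_neg (fun h => hx h.2.symm), zero_mul]
    · intro A hA
      rw [ENNReal.tsum_eq_zero]
      intro x
      rw [if_neg (fun h => hA h.1.symm), zero_mul]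
  rw [tsum_congr e1, ENNReal.tsum_comm]
  refine tsum_congr fun A => ?_
  rw [ENNReal.tsum_comm]
  refine tsum_congr fun x => ?_
  rw [ENNReal.tsum_mul_right]

end Crest.Agent.R154.Asm190
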