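import Crest.Agent.R154.FP_178

/-! Row 154 (helper787), ROAD 801 (1): smooth density on first passage lists, bad part summed
over all heights. -/

set_option autoImplicit false

namespace Crest.Agent.R154.DensFP787

open scoped ENNReal
open Crest.Agent.R154.B5A
open Crest.Agent.R154.FP178

variable {B G : Type*} [AddCommGroup G] (Λ : B → ℝ≥0∞) (ht : B → ℕ) (z : B → G)

open Classical in
/-- weight of the first passages of depth `a` with total height `A` and displacement `x` -/
noncomputable def fw (a A : ℕ) (x : G) : ℝ≥0∞ :=
  ∑' L : List B, if fp ht a L ∧ HT ht L = A ∧ (L.map z).sum = x then LW Λ L else 0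

omit [AddCommGroup G] in
/-- grouping a sum by two values -/
lemma tsum_group {ι : Type*} (F : ι → ℝ≥0∞) (k : ι → ℕ) (s : ι → G) (g : ℕ → G → ℝ≥0∞) :
    ∑' P, F P * g (k P) (s P)
      = ∑' A, ∑' x, (∑' P, (open Classical in if k P = A ∧ s P = x then F P else 0)) * g A x := by
  classical
  have e1 : ∀ P, F P * g (k P) (s P)
      = ∑' A, ∑' x, (if k P = A ∧ s P = x then F P else 0) * g A x := by
    intro P
    rw [tsum_eq_single (k P), tsum_eq_single (s P)]
    · simp
    · intro x hx
      rw [if_neg (fun h => hx h.2.symm), zero_mul]
    · intro A hA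
      rw [ENNReal.tsum_eq_zero]
      intro x
      rw [if_neg (fun h => hA h.1.symm), zero_mul]
  rw [tsum_congr e1, ENNReal.tsum_comm]
  refine tsum_congr fun A => ?_
  rw [ENNReal.tsum_comm]
  refine tsum_congr fun x => ?_
  rw [ENNReal.tsum_mul_right]

lemma sum_fw (h1 : ∀ b, 1 ≤ ht b) (hΛ : ∑' b, Λ b ≤ 1) (a : ℕ) :
    ∑' A, ∑' x, fw Λ ht z a A x ≤ 1 := by
  classical
  have h := tsum_group (fun L : List B => if fp ht a L then LW Λ L else 0) (HT ht)
    (fun L => (L.map z).sum) (fun _ _ => 1)
  simp only [mul_one] at h
  have h2 : ∀ A x, fw Λ ht z a A x = ∑' L : List B,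
      (if HT ht L = A ∧ (L.map z).sum = x then (if fp ht a L then LW Λ L else 0) else 0) := by
    intro A x
    refine tsum_congr fun L => ?_
    by_cases hh : HT ht L = A ∧ (L.map z).sum = x
    · by_cases hf : fp ht a L
      · simp [hh, hf]
      · simp [hf]
    · rw [if_neg hh, if_neg (fun h' => hh h'.2)]
  simp_rw [h2]
  rw [← h]
  exact sum_FP Λ ht h1 hΛ a

lemma sum_fw_x (h1 : ∀ b, 1 ≤ ht b) (hΛ : ∑' b, Λ b ≤ 1) (a A : ℕ) :
    ∑' x, fw Λ ht z a A x ≤ 1 :=
  (ENNReal.le_tsum (f := fun A => ∑' x, fw Λ ht z a A x) A).trans (sum_fw Λ ht z h1 hΛ a)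

open Classical in
/-- renewal equation at the first passage of `T ≤ a` -/
lemma fw_rec (h1 : ∀ b, 1 ≤ ht b) (T a : ℕ) (hT : T ≤ a) (A : ℕ) (x : G) :
    fw Λ ht z a A x = ∑' h, ∑' y, fw Λ ht z T h y *
      (if h ≤ A then fw Λ ht z (a - h) (A - h) (x - y) else 0) := by
  have e0 : fw Λ ht z a A x = ∑' L : List B, (if fp ht a L then
      LW Λ L * (if HT ht L = A ∧ (L.map z).sum = x then 1 else 0) else 0) := by
    refine tsum_congr fun L => ?_
    by_cases hf : fp ht a L <;> by_cases hh : HT ht L = A ∧ (L.map z).sum = x <;> simp [hf, hh]
  rw [e0, fp_split Λ ht h1 T a hT]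
  have e1 : ∀ P : List B, (if fp ht T P then LW Λ P *
        ∑' L : List B, (if fp ht (a - HT ht P) L then LW Λ L *
          (if HT ht (P ++ L) = A ∧ ((P ++ L).map z).sum = x then 1 else 0) else 0) else 0)
      = (if fp ht T P then LW Λ P else 0) *
        (if HT ht P ≤ A then fw Λ ht z (a - HT ht P) (A - HT ht P) (x - (P.map z).sum) else 0) := by
    intro P
    by_cases hf : fp ht T P
    · rw [if_pos hf, if_pos hf]
      congr 1
      by_cases hA : HT ht P ≤ A
      · rw [if_pos hA]
        refine tsum_congr fun L => ?_
        have hiff : (HT ht (P ++ L) = A ∧ ((P ++ L).map z).sum = x) ↔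
            (HT ht L = A - HT ht P ∧ (L.map z).sum = x - (P.map z).sum) := by
          rw [HT_append, List.map_append, List.sum_append]
          constructor
          · rintro ⟨h, h'⟩
            exact ⟨by omega, by rw [← h']; abel⟩
          · rintro ⟨h, h'⟩
            exact ⟨by omega, by rw [h']; abel⟩
        by_cases hg : fp ht (a - HT ht P) L
        · by_cases hh : HT ht L = A - HT ht P ∧ (L.map z).sum = x - (P.map z).sum
          · rw [if_pos hg, if_pos (hiff.2 hh), if_pos ⟨hg, hh⟩, mul_one]
          · rw [if_pos hg, if_neg (fun h => hh (hiff.1 h)), if_neg (fun h => hh h.2), mul_zero]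
        · rw [if_neg hg, if_neg (fun h => hg h.1)]
      · rw [if_neg hA, ENNReal.tsum_eq_zero]
        intro L
        have : ¬ (HT ht (P ++ L) = A ∧ ((P ++ L).map z).sum = x) := by
          rintro ⟨h, -⟩
          rw [HT_append] at h
          omega
        rw [if_neg this, mul_zero, ite_self]
    · rw [if_neg hf, if_neg hf, zero_mul]
  rw [tsum_congr e1, tsum_group (fun P : List B => if fp ht T P then LW Λ P else 0) (HT ht)
    (fun P => (P.map z).sum) (fun h y => if h ≤ A then fw Λ ht z (a - h) (A - h) (x - y) else 0)]
  refine tsum_congr fun h => tsum_congr fun y => ?_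
  congr 1
  refine tsum_congr fun P => ?_
  by_cases hf : fp ht T P <;> by_cases hh : HT ht P = h ∧ (P.map z).sum = y <;> simp [hf, hh]

open Classical in
/-- **smooth density on first passages**: off a part of total mass `q ^ J + J * ε` (summed over all
heights and displacements) the density is at most `D`. -/
theorem dens (h1 : ∀ b, 1 ≤ ht b) (hΛ : ∑' b, Λ b ≤ 1) (T i0 : ℕ) (th q ε D : ℝ≥0∞)
    (hq : ∑' A, ∑' x, (if th < fw Λ ht z T A x then fw Λ ht z T A x else 0) ≤ q) (hq1 : q ≤ 1)
    (hε : ∑' A, ∑' x, (if T + i0 < A then fw Λ ht z T A x else 0) ≤ ε)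
    (hD : (i0 + 1 : ℕ) * th + q * D ≤ D) :
    ∀ J a, J * (T + i0) ≤ a → ∃ b : ℕ → G → ℝ≥0∞, (∑' A, ∑' x, b A x ≤ q ^ J + J * ε) ∧
      ∀ A x, fw Λ ht z a A x ≤ D + b A x := by
  intro J
  induction J with
  | zero =>
    intro a _
    exact ⟨fw Λ ht z a, by simpa using sum_fw Λ ht z h1 hΛ a, fun A x => le_add_self⟩
  | succ J ih =>
    intro a ha
    have ha' : J * (T + i0) + (T + i0) ≤ a := by nlinarith
    have hTa : T ≤ a := by omega
    choose! b hb1 hb2 using ih
    -- bad part
    refine ⟨fun A x => (∑' h, ∑' y, (if T + i0 < h then fw Λ ht z T h y else 0) *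
          (if h ≤ A then fw Λ ht z (a - h) (A - h) (x - y) else 0)) +
        ∑' h, ∑' y, (if h ≤ T + i0 ∧ th < fw Λ ht z T h y then fw Λ ht z T h y else 0) *
          (if h ≤ A then b (a - h) (A - h) (x - y) else 0), ?_, ?_⟩
    · -- total mass
      have key : ∀ (F : ℕ → G → ℝ≥0∞) (g : ℕ → ℕ → G → ℝ≥0∞) (c : ℝ≥0∞),
          (∀ h y, F h y ≠ 0 → ∑' A, ∑' x, g h A x ≤ c) →
          ∑' A, ∑' x, ∑' h, ∑' y, F h y * (if h ≤ A then g h (A - h) (x - y) else 0)
            ≤ (∑' h, ∑' y, F h y) * c := by
        intro F g c hg
        calc ∑' A, ∑' x, ∑' h, ∑' y, F h y * (if h ≤ A then g h (A - h) (x - y) else 0)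
            = ∑' h, ∑' y, ∑' A, ∑' x, F h y * (if h ≤ A then g h (A - h) (x - y) else 0) := by
              have s1 : ∀ A : ℕ, ∑' x, ∑' h, ∑' y, F h y *
                    (if h ≤ A then g h (A - h) (x - y) else 0)
                  = ∑' h, ∑' y, ∑' x, F h y * (if h ≤ A then g h (A - h) (x - y) else 0) := by
                intro A
                rw [ENNReal.tsum_comm]
                refine tsum_congr fun h => ?_
                rw [ENNReal.tsum_comm]
              rw [tsum_congr s1, ENNReal.tsum_comm]
              refine tsum_congr fun h => ?_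
              rw [ENNReal.tsum_comm]
          _ ≤ ∑' h, ∑' y, F h y * c := by
              refine ENNReal.tsum_le_tsum fun h => ENNReal.tsum_le_tsum fun y => ?_
              by_cases hF : F h y = 0
              · simp [hF]
              · have s2 : ∑' A, ∑' x, F h y * (if h ≤ A then g h (A - h) (x - y) else 0)
                    = F h y * ∑' A, ∑' x, (if h ≤ A then g h (A - h) (x - y) else 0) := by
                  rw [← ENNReal.tsum_mul_left]
                  refine tsum_congr fun A => ?_
                  rw [ENNReal.tsum_mul_left]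
                rw [s2]
                refine mul_le_mul_right ?_ _
                refine le_trans ?_ (hg h y hF)
                have s3 : ∀ A : ℕ, ∑' x, (if h ≤ A then g h (A - h) (x - y) else 0)
                    = if h ≤ A then ∑' x, g h (A - h) x else 0 := by
                  intro A
                  by_cases hA : h ≤ A
                  · simp only [hA, if_true]
                    exact (Equiv.subRight y).tsum_eq fun x => g h (A - h) x
                  · simp [hA]
                rw [tsum_congr s3]
                calc ∑' A, (if h ≤ A then ∑' x, g h (A - h) x else 0)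
                    = ∑' A : {A : ℕ // h ≤ A}, ∑' x, g h (A.1 - h) x := by
                      have s4 := tsum_subtype {A : ℕ | h ≤ A} (fun A => ∑' x, g h (A - h) x)
                      rw [show (∑' A : {A : ℕ // h ≤ A}, ∑' x, g h (A.1 - h) x)
                        = ∑' A : {A : ℕ | h ≤ A}, ∑' x, g h (A.1 - h) x from rfl, s4]
                      refine tsum_congr fun A => ?_
                      by_cases hA : h ≤ A
                      · rw [if_pos hA, Set.indicator_of_mem (show A ∈ {A : ℕ | h ≤ A} from hA)]
                      · rw [if_neg hA, Set.indicator_of_notMem (show A ∉ {A : ℕ | h ≤ A} from hA)]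
                  _ ≤ ∑' A, ∑' x, g h A x := by
                      refine ENNReal.tsum_comp_le_tsum_of_injective
                        (f := fun A : {A : ℕ // h ≤ A} => A.1 - h) ?_
                        (fun A => ∑' x, g h A x)
                      intro A A' hAA
                      have h1' := A.2
                      have h2' := A'.2
                      apply Subtype.ext
                      simp only at hAA
                      omega
          _ = (∑' h, ∑' y, F h y) * c := by simp_rw [ENNReal.tsum_mul_right]
      have k1 := key (fun h y => if T + i0 < h then fw Λ ht z T h y else 0)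
        (fun h => fw Λ ht z (a - h)) 1 (fun h y _ => sum_fw Λ ht z h1 hΛ _)
      have k2 := key (fun h y => if h ≤ T + i0 ∧ th < fw Λ ht z T h y then fw Λ ht z T h y else 0)
        (fun h => b (a - h)) (q ^ J + J * ε) (by
          intro h y hF
          refine hb1 (a - h) ?_
          by_cases hh : h ≤ T + i0
          · omega
          · exact absurd (if_neg (fun h' => hh h'.1)) hF)
      simp_rw [ENNReal.tsum_add]
      calc _ ≤ (∑' h, ∑' y, (if T + i0 < h then fw Λ ht z T h y else 0)) * 1 +
            (∑' h, ∑' y, (if h ≤ T + i0 ∧ th < fw Λ ht z T h y then fw Λ ht z T h y else 0)) *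
              (q ^ J + J * ε) := add_le_add k1 k2
        _ ≤ ε * 1 + q * (q ^ J + J * ε) := by
            gcongr
            refine le_trans ?_ hq
            refine ENNReal.tsum_le_tsum fun h => ENNReal.tsum_le_tsum fun y => ?_
            by_cases hh : th < fw Λ ht z T h y
            · rw [if_pos hh]; split_ifs <;> simp
            · rw [if_neg (fun h' => hh h'.2)]; exact zero_le
        _ = q ^ (J + 1) + (ε + q * (J * ε)) := by ring
        _ ≤ q ^ (J + 1) + (ε + 1 * (J * ε)) := by gcongr
        _ = q ^ (J + 1) + ((J + 1 : ℕ) : ℝ≥0∞) * ε := by push_cast; ring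
    · intro A x
      rw [fw_rec Λ ht z h1 T a hTa A x]
      have hterm : ∀ h y, fw Λ ht z T h y *
            (if h ≤ A then fw Λ ht z (a - h) (A - h) (x - y) else 0) ≤
          (((if T + i0 < h then fw Λ ht z T h y else 0) *
            (if h ≤ A then fw Λ ht z (a - h) (A - h) (x - y) else 0)) +
          (if T ≤ h ∧ h ≤ T + i0 then th * fw Λ ht z (a - h) (A - h) (x - y) else 0)) +
          (((if h ≤ T + i0 ∧ th < fw Λ ht z T h y then fw Λ ht z T h y else 0) *
            (if h ≤ A then b (a - h) (A - h) (x - y) else 0)) +
          (if th < fw Λ ht z T h y then fw Λ ht z T h y else 0) * D) := by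
        intro h y
        by_cases hA : h ≤ A
        · rw [if_pos hA, if_pos hA]
          by_cases hh : T + i0 < h
          · rw [if_pos hh]
            exact le_self_add.trans le_self_add
          · have hh' : h ≤ T + i0 := by omega
            by_cases hp : th < fw Λ ht z T h y
            · rw [if_pos (⟨hh', hp⟩ : h ≤ T + i0 ∧ th < fw Λ ht z T h y),
                if_pos (hp : th < fw Λ ht z T h y)]
              calc _ ≤ fw Λ ht z T h y * (D + b (a - h) (A - h) (x - y)) := by
                    gcongr
                    exact hb2 (a - h) (by omega) _ _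
                _ = fw Λ ht z T h y * b (a - h) (A - h) (x - y) + fw Λ ht z T h y * D := by ring
                _ ≤ _ := le_add_self
            · by_cases hTh : T ≤ h
              · rw [if_pos (⟨hTh, hh'⟩ : T ≤ h ∧ h ≤ T + i0)]
                calc _ ≤ th * fw Λ ht z (a - h) (A - h) (x - y) := by
                      gcongr
                      exact not_lt.1 hp
                  _ ≤ _ := le_add_self.trans le_self_add
              · -- first passage lists of `T` have height at least `T`
                have h0 : fw Λ ht z T h y = 0 := by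
                  unfold fw
                  rw [ENNReal.tsum_eq_zero]
                  intro L
                  rw [if_neg]
                  rintro ⟨h', h'', -⟩
                  have := le_HT_of_fp ht h'
                  omega
                rw [h0, zero_mul]
                exact zero_le
        · rw [if_neg hA, mul_zero]
          exact zero_le
      calc _ ≤ ∑' h, ∑' y, ((((if T + i0 < h then fw Λ ht z T h y else 0) *
            (if h ≤ A then fw Λ ht z (a - h) (A - h) (x - y) else 0)) +
          (if T ≤ h ∧ h ≤ T + i0 then th * fw Λ ht z (a - h) (A - h) (x - y) else 0)) +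
          (((if h ≤ T + i0 ∧ th < fw Λ ht z T h y then fw Λ ht z T h y else 0) *
            (if h ≤ A then b (a - h) (A - h) (x - y) else 0)) +
          (if th < fw Λ ht z T h y then fw Λ ht z T h y else 0) * D)) :=
            ENNReal.tsum_le_tsum fun h => ENNReal.tsum_le_tsum fun y => hterm h y
        _ = ((∑' h, ∑' y, (if T + i0 < h then fw Λ ht z T h y else 0) *
            (if h ≤ A then fw Λ ht z (a - h) (A - h) (x - y) else 0)) +
          (∑' h, ∑' y, (if T ≤ h ∧ h ≤ T + i0 then
            th * fw Λ ht z (a - h) (A - h) (x - y) else 0))) +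
          ((∑' h, ∑' y, (if h ≤ T + i0 ∧ th < fw Λ ht z T h y then fw Λ ht z T h y else 0) *
            (if h ≤ A then b (a - h) (A - h) (x - y) else 0)) +
          (∑' h, ∑' y, (if th < fw Λ ht z T h y then fw Λ ht z T h y else 0)) * D) := by
            simp_rw [ENNReal.tsum_add, ENNReal.tsum_mul_right]
        _ ≤ ((∑' h, ∑' y, (if T + i0 < h then fw Λ ht z T h y else 0) *
            (if h ≤ A then fw Λ ht z (a - h) (A - h) (x - y) else 0)) +
          (i0 + 1 : ℕ) * th) +
          ((∑' h, ∑' y, (if h ≤ T + i0 ∧ th < fw Λ ht z T h y then fw Λ ht z T h y else 0) *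
            (if h ≤ A then b (a - h) (A - h) (x - y) else 0)) + q * D) := by
            gcongr
            calc ∑' h, ∑' y, (if T ≤ h ∧ h ≤ T + i0 then
                  th * fw Λ ht z (a - h) (A - h) (x - y) else 0)
                ≤ ∑' h, (if T ≤ h ∧ h ≤ T + i0 then th else 0) := by
                  refine ENNReal.tsum_le_tsum fun h => ?_
                  split_ifs with hh
                  · rw [ENNReal.tsum_mul_left]
                    have s : ∑' y, fw Λ ht z (a - h) (A - h) (x - y)
                        = ∑' y, fw Λ ht z (a - h) (A - h) y :=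
                      (Equiv.subLeft x).tsum_eq fun y => fw Λ ht z (a - h) (A - h) y
                    rw [s]
                    calc th * ∑' y, fw Λ ht z (a - h) (A - h) y ≤ th * 1 := by
                          gcongr; exact sum_fw_x Λ ht z h1 hΛ _ _
                      _ = th := mul_one _
                  · simp
              _ = ∑ h ∈ Finset.Icc T (T + i0), th := by
                  rw [tsum_eq_sum (s := Finset.Icc T (T + i0))]
                  · refine Finset.sum_congr rfl fun h hh => ?_
                    rw [if_pos (Finset.mem_Icc.1 hh)]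
                  · intro h hh
                    rw [if_neg (fun h' => hh (Finset.mem_Icc.2 h'))]
              _ = (i0 + 1 : ℕ) * th := by
                  rw [Finset.sum_const, Nat.card_Icc, nsmul_eq_mul]
                  congr 2
                  omega
        _ = ((i0 + 1 : ℕ) * th + q * D) +
          ((∑' h, ∑' y, (if T + i0 < h then fw Λ ht z T h y else 0) *
            (if h ≤ A then fw Λ ht z (a - h) (A - h) (x - y) else 0)) +
          (∑' h, ∑' y, (if h ≤ T + i0 ∧ th < fw Λ ht z T h y then fw Λ ht z T h y else 0) *
            (if h ≤ A then b (a - h) (A - h) (x - y) else 0))) := by ring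
        _ ≤ _ := by gcongr

end Crest.Agent.R154.DensFP787
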