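import Crest.Agent.R154.AsmD_190
import Crest.Agent.R154.AsmZ_190
import Crest.Agent.R154.DensFP_787

/-! Row 154, ROAD 801 (helper190): one window. -/

set_option autoImplicit false

namespace Crest.Agent.R154.Asm190

open scoped ENNReal
open Crest.Agent.R154.B5A
open Crest.Agent.R154.FP178

variable {B B' G : Type*} [AddCommGroup G] (Λ : B → ℝ≥0∞) (ht : B → ℕ) (z : B → G)
  (Λ' : B' → ℝ≥0∞) (ht' : B' → ℕ) (z' : B' → G)
  (TX : List B → G → ℕ → Set (G × ℕ)) (TY : List B' → G → ℕ → Set (G × ℕ))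

/-- the two pieces have a common site and every common site has depth in `[lo, hi]` -/
def Ct (lo hi : ℕ) (L : List B) (L' : List B') (x : G) (a : ℕ) (x' : G) (a' : ℕ) : Prop :=
  (∃ y k, (y, k) ∈ TX L x a ∧ (y, k) ∈ TY L' x' a') ∧
    ∀ y k, (y, k) ∈ TX L x a → (y, k) ∈ TY L' x' a' → lo ≤ k ∧ k ≤ hi

open Classical in
omit [AddCommGroup G] in
lemma KB (T T' i0 : ℕ) (μ : G → ℝ≥0∞) (c : G → List B → List B' → Prop) (R : ℝ≥0∞)
    (hR : ∀ h ∈ Finset.Icc T (T + i0), ∀ h' ∈ Finset.Icc T' (T' + i0),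
      ∑' y, μ y * ∑' Q, ∑' Q', (if HT ht Q = h ∧ HT ht' Q' = h' ∧ c y Q Q'
        then LW Λ Q * LW Λ' Q' else 0) ≤ R) :
    ∑' y, μ y * ∑' Q, fpw Λ ht T i0 Q * ∑' Q', fpw Λ' ht' T' i0 Q' * (if c y Q Q' then 1 else 0)
      ≤ (((i0 + 1) * (i0 + 1) : ℕ) : ℝ≥0∞) * R := by
  set I := Finset.Icc T (T + i0) with hI
  set I' := Finset.Icc T' (T' + i0) with hI'
  have hcard : (I ×ˢ I').card = (i0 + 1) * (i0 + 1) := by
    rw [Finset.card_product, hI, hI', Nat.card_Icc, Nat.card_Icc]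
    congr 1 <;> omega
  have hpt : ∀ y, ∑' Q, fpw Λ ht T i0 Q * ∑' Q', fpw Λ' ht' T' i0 Q' * (if c y Q Q' then 1 else 0)
      ≤ ∑ p ∈ I ×ˢ I', ∑' Q, ∑' Q', (if HT ht Q = p.1 ∧ HT ht' Q' = p.2 ∧ c y Q Q'
        then LW Λ Q * LW Λ' Q' else 0) := by
    intro y
    calc _ ≤ ∑' Q, ∑' Q', ∑ p ∈ I ×ˢ I', (if HT ht Q = p.1 ∧ HT ht' Q' = p.2 ∧ c y Q Q'
            then LW Λ Q * LW Λ' Q' else 0) := by
          refine ENNReal.tsum_le_tsum fun Q => ?_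
          rw [← ENNReal.tsum_mul_left]
          refine ENNReal.tsum_le_tsum fun Q' => ?_
          by_cases hQ : fp ht T Q ∧ HT ht Q ≤ T + i0
          · by_cases hQ' : fp ht' T' Q' ∧ HT ht' Q' ≤ T' + i0
            · by_cases hc : c y Q Q'
              · have hm : (HT ht Q, HT ht' Q') ∈ I ×ˢ I' :=
                  Finset.mem_product.2 ⟨Finset.mem_Icc.2 ⟨le_HT_of_fp ht hQ.1, hQ.2⟩,
                    Finset.mem_Icc.2 ⟨le_HT_of_fp ht' hQ'.1, hQ'.2⟩⟩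
                rw [fpw, if_pos hQ, fpw, if_pos hQ', if_pos hc, mul_one]
                refine le_trans (le_of_eq ?_) (Finset.single_le_sum
                  (f := fun p : ℕ × ℕ => (if HT ht Q = p.1 ∧ HT ht' Q' = p.2 ∧ c y Q Q'
                    then LW Λ Q * LW Λ' Q' else 0)) (fun _ _ => zero_le) hm)
                exact (if_pos ⟨rfl, rfl, hc⟩).symm
              · rw [if_neg hc, mul_zero, mul_zero]; exact zero_le
            · rw [fpw, fpw, if_neg hQ', zero_mul, mul_zero]; exact zero_le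
          · rw [fpw, if_neg hQ, zero_mul]; exact zero_le
      _ = _ := by
          have : ∀ Q, ∑' Q', ∑ p ∈ I ×ˢ I', (if HT ht Q = p.1 ∧ HT ht' Q' = p.2 ∧ c y Q Q'
              then LW Λ Q * LW Λ' Q' else 0) = ∑ p ∈ I ×ˢ I', ∑' Q', (if HT ht Q = p.1 ∧
              HT ht' Q' = p.2 ∧ c y Q Q' then LW Λ Q * LW Λ' Q' else 0) := fun Q =>
            Summable.tsum_finsetSum (fun _ _ => ENNReal.summable)
          simp_rw [this]
          exact Summable.tsum_finsetSum (fun _ _ => ENNReal.summable)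
  calc _ ≤ ∑' y, μ y * ∑ p ∈ I ×ˢ I', ∑' Q, ∑' Q', (if HT ht Q = p.1 ∧ HT ht' Q' = p.2 ∧ c y Q Q'
        then LW Λ Q * LW Λ' Q' else 0) := by
        refine ENNReal.tsum_le_tsum fun y => ?_
        gcongr
        exact hpt y
    _ = ∑ p ∈ I ×ˢ I', ∑' y, μ y * ∑' Q, ∑' Q', (if HT ht Q = p.1 ∧ HT ht' Q' = p.2 ∧ c y Q Q'
        then LW Λ Q * LW Λ' Q' else 0) := by
        simp_rw [Finset.mul_sum]
        exact Summable.tsum_finsetSum (fun _ _ => ENNReal.summable)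
    _ ≤ ∑ _p ∈ I ×ˢ I', R := by
        refine Finset.sum_le_sum fun p hp => ?_
        rw [Finset.mem_product] at hp
        exact hR p.1 hp.1 p.2 hp.2
    _ = _ := by rw [Finset.sum_const, hcard, nsmul_eq_mul]

open Classical in
/-- grouped weight of the part above the window -/
noncomputable def ph (a i0 : ℕ) (A : ℕ) (x : G) : ℝ≥0∞ :=
  ∑' P, if HT ht P = A ∧ (P.map z).sum = x then fpw Λ ht a i0 P else 0

lemma ph_sum (h1 : ∀ b, 1 ≤ ht b) (hΛ : ∑' b, Λ b ≤ 1) (a i0 : ℕ) :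
    ∑' A, ∑' x, ph Λ ht z a i0 A x ≤ 1 := by
  classical
  have h := group (fun P : List B => fpw Λ ht a i0 P) (HT ht) (fun P => (P.map z).sum)
    (fun _ _ => 1)
  simp only [mul_one] at h
  unfold ph
  rw [← h]
  exact sum_fpw_le Λ ht h1 hΛ a i0

lemma ph_supp (a i0 A : ℕ) (hA : A ∉ Finset.Icc a (a + i0)) (x : G) : ph Λ ht z a i0 A x = 0 := by
  classical
  unfold ph
  rw [ENNReal.tsum_eq_zero]
  intro P
  by_cases h : HT ht P = A ∧ (P.map z).sum = x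
  · rw [if_pos h]
    unfold fpw
    rw [if_neg]
    rintro ⟨h2, h3⟩
    refine hA (Finset.mem_Icc.2 ⟨?_, ?_⟩)
    · rw [← h.1]; exact le_HT_of_fp ht h2
    · rw [← h.1]; exact h3
  · rw [if_neg h]

lemma ph_le (a i0 A : ℕ) (x : G) : ph Λ ht z a i0 A x ≤ DensFP787.fw Λ ht z a A x := by
  classical
  unfold ph DensFP787.fw
  refine ENNReal.tsum_le_tsum fun P => ?_
  by_cases h : HT ht P = A ∧ (P.map z).sum = x
  · rw [if_pos h]
    unfold fpw
    by_cases h2 : fp ht a P ∧ HT ht P ≤ a + i0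
    · rw [if_pos h2, if_pos ⟨h2.1, h⟩]
    · rw [if_neg h2]; exact zero_le
  · rw [if_neg h]; exact zero_le

open Classical in
/-- sum over the two parts above the window, grouped -/
lemma two_group (a a' i0 : ℕ) (κ : ℕ → ℕ → G → ℝ≥0∞) (w : G) :
    ∑' P, fpw Λ ht a i0 P * ∑' P', fpw Λ' ht' a' i0 P' *
        κ (HT ht P) (HT ht' P') (w + (P'.map z').sum - (P.map z).sum)
      = ∑' A, ∑' x, ph Λ ht z a i0 A x * ∑' A', ∑' x', ph Λ' ht' z' a' i0 A' x' *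
        κ A A' (w + x' - x) := by
  rw [group (fun P : List B => fpw Λ ht a i0 P) (HT ht) (fun P => (P.map z).sum)
    (fun A x => ∑' P', fpw Λ' ht' a' i0 P' * κ A (HT ht' P') (w + (P'.map z').sum - x))]
  refine tsum_congr fun A => tsum_congr fun x => ?_
  rw [group (fun P' : List B' => fpw Λ' ht' a' i0 P') (HT ht') (fun P' => (P'.map z').sum)
    (fun A' x' => κ A A' (w + x' - x))]
  rfl

/-- shift invariance of the contact event -/
lemma Ct_shift (hX : ∀ L x v a y k, (y, k) ∈ TX L (x + v) a ↔ (y - v, k) ∈ TX L x a)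
    (hY : ∀ L x v a y k, (y, k) ∈ TY L (x + v) a ↔ (y - v, k) ∈ TY L x a)
    (lo hi : ℕ) (L : List B) (L' : List B') (x x' : G) (a a' : ℕ) :
    Ct TX TY lo hi L L' x a x' a' ↔ Ct TX TY lo hi L L' 0 a (x' - x) a' := by
  have h1 : ∀ y k, (y, k) ∈ TX L x a ↔ (y - x, k) ∈ TX L 0 a := by
    intro y k
    have := hX L 0 x a y k
    rwa [zero_add] at this
  have h2 : ∀ y k, (y, k) ∈ TY L' x' a' ↔ (y - x, k) ∈ TY L' (x' - x) a' := by
    intro y k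
    have := hY L' (x' - x) x a' y k
    rwa [sub_add_cancel] at this
  unfold Ct
  simp only [h1, h2]
  constructor
  · rintro ⟨⟨y, k, h3, h4⟩, h5⟩
    refine ⟨⟨y - x, k, h3, h4⟩, fun y' k' h6 h7 => ?_⟩
    exact h5 (y' + x) k' (by rwa [add_sub_cancel_right]) (by rwa [add_sub_cancel_right])
  · rintro ⟨⟨y, k, h3, h4⟩, h5⟩
    refine ⟨⟨y + x, k, by rwa [add_sub_cancel_right], by rwa [add_sub_cancel_right]⟩,
      fun y' k' h6 h7 => ?_⟩
    exact h5 (y' - x) k' h6 h7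

open Classical in
/-- the kernel of two window pieces at relative position `y` -/
noncomputable def ker (T T' i0 : ℕ) (c : List B → List B' → Prop) (lo hi : ℕ) (A A' : ℕ) (y : G) :
    ℝ≥0∞ :=
  ∑' Q, fpw Λ ht T i0 Q * ∑' Q', fpw Λ' ht' T' i0 Q' *
    (if c Q Q' ∧ Ct TX TY lo hi Q Q' 0 A y A' then 1 else 0)

lemma ker_le (h1 : ∀ b, 1 ≤ ht b) (hΛ : ∑' b, Λ b ≤ 1) (h1' : ∀ b, 1 ≤ ht' b)
    (hΛ' : ∑' b, Λ' b ≤ 1) (T T' i0 : ℕ) (c : List B → List B' → Prop) (lo hi A A' : ℕ) (y : G) :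
    ker Λ ht Λ' ht' TX TY T T' i0 c lo hi A A' y ≤ 1 := by
  classical
  unfold ker
  calc _ ≤ ∑' Q, fpw Λ ht T i0 Q * 1 := by
        refine ENNReal.tsum_le_tsum fun Q => ?_
        gcongr
        refine le_trans ?_ (sum_fpw_le Λ' ht' h1' hΛ' T' i0)
        refine ENNReal.tsum_le_tsum fun Q' => ?_
        split_ifs <;> simp
    _ ≤ 1 := by simpa using sum_fpw_le Λ ht h1 hΛ T i0

open Classical in
/-- the sum over the four pieces through the kernel -/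
lemma four (hX : ∀ L x v a y k, (y, k) ∈ TX L (x + v) a ↔ (y - v, k) ∈ TX L x a)
    (hY : ∀ L x v a y k, (y, k) ∈ TY L (x + v) a ↔ (y - v, k) ∈ TY L x a)
    (a T a' T' i0 lo hi : ℕ) (w : G) (c : List B → List B' → Prop) :
    ∑' P, fpw Λ ht a i0 P * ∑' Q, fpw Λ ht T i0 Q * ∑' P', fpw Λ' ht' a' i0 P' *
        ∑' Q', fpw Λ' ht' T' i0 Q' * (if c Q Q' ∧ Ct TX TY lo hi Q Q' ((P.map z).sum) (HT ht P)
          (w + (P'.map z').sum) (HT ht' P') then 1 else 0)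
      = ∑' A, ∑' x, ph Λ ht z a i0 A x * ∑' A', ∑' x', ph Λ' ht' z' a' i0 A' x' *
        ker Λ ht Λ' ht' TX TY T T' i0 c lo hi A A' (w + x' - x) := by
  rw [← two_group Λ ht z Λ' ht' z' a a' i0 (ker Λ ht Λ' ht' TX TY T T' i0 c lo hi) w]
  refine tsum_congr fun P => ?_
  congr 1
  unfold ker
  simp_rw [← ENNReal.tsum_mul_left]
  rw [ENNReal.tsum_comm]
  refine tsum_congr fun P' => tsum_congr fun Q => tsum_congr fun Q' => ?_
  have := Ct_shift TX TY hX hY lo hi Q Q' ((P.map z).sum) (w + (P'.map z').sum) (HT ht P)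
    (HT ht' P')
  simp only [this]
  ring

/-- first walker local -/
lemma halfX (h1 : ∀ b, 1 ≤ ht b) (hΛ : ∑' b, Λ b ≤ 1) (h1' : ∀ b, 1 ≤ ht' b)
    (hΛ' : ∑' b, Λ' b ≤ 1)
    (a T a' T' i0 lo hi : ℕ) (w : G) (c : List B → List B' → Prop) (D β R : ℝ≥0∞)
    (hd : ∃ b : ℕ → G → ℝ≥0∞, ∑' A, ∑' x, b A x ≤ β ∧
      ∀ A x, DensFP787.fw Λ ht z a A x ≤ D + b A x)
    (hR : ∀ A ∈ Finset.Icc a (a + i0), ∀ A' ∈ Finset.Icc a' (a' + i0), ∀ μ : G → ℝ≥0∞,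
      ∑' y, μ y ≤ 1 → (∀ y, μ y ≤ D) →
      ∑' y, μ y * ker Λ ht Λ' ht' TX TY T T' i0 c lo hi A A' y ≤ R) :
    ∑' A, ∑' x, ph Λ ht z a i0 A x * ∑' A', ∑' x', ph Λ' ht' z' a' i0 A' x' *
        ker Λ ht Λ' ht' TX TY T T' i0 c lo hi A A' (w + x' - x)
      ≤ β + (i0 + 1 : ℕ) * ((i0 + 1 : ℕ) * R) := by
  obtain ⟨b, hb, hfb⟩ := hd
  have hcard : (Finset.Icc a (a + i0)).card = i0 + 1 := by rw [Nat.card_Icc]; omega
  have hcard' : (Finset.Icc a' (a' + i0)).card = i0 + 1 := by rw [Nat.card_Icc]; omega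
  have := Zl (ph Λ ht z a i0) (ph Λ' ht' z' a' i0) b (ker Λ ht Λ' ht' TX TY T T' i0 c lo hi) w
    (Finset.Icc a (a + i0)) (Finset.Icc a' (a' + i0)) D β R (ph_sum Λ ht z h1 hΛ a i0) (ph_sum Λ' ht' z' h1' hΛ' a' i0)
    (fun A hA x => ph_supp Λ ht z a i0 A hA x) (fun A hA x => ph_supp Λ' ht' z' a' i0 A hA x)
    hb (fun A x => (ph_le Λ ht z a i0 A x).trans (hfb A x))
    (fun A A' y => ker_le Λ ht Λ' ht' TX TY h1 hΛ h1' hΛ' T T' i0 c lo hi A A' y) hR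
  rwa [hcard, hcard'] at this

/-- second walker local -/
lemma halfY (h1 : ∀ b, 1 ≤ ht b) (hΛ : ∑' b, Λ b ≤ 1) (h1' : ∀ b, 1 ≤ ht' b)
    (hΛ' : ∑' b, Λ' b ≤ 1)
    (a T a' T' i0 lo hi : ℕ) (w : G) (c : List B → List B' → Prop) (D β R : ℝ≥0∞)
    (hd : ∃ b : ℕ → G → ℝ≥0∞, ∑' A, ∑' x, b A x ≤ β ∧
      ∀ A x, DensFP787.fw Λ' ht' z' a' A x ≤ D + b A x)
    (hR : ∀ A ∈ Finset.Icc a (a + i0), ∀ A' ∈ Finset.Icc a' (a' + i0), ∀ μ : G → ℝ≥0∞,
      ∑' y, μ y ≤ 1 → (∀ y, μ y ≤ D) →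
      ∑' y, μ y * ker Λ ht Λ' ht' TX TY T T' i0 c lo hi A A' y ≤ R) :
    ∑' A, ∑' x, ph Λ ht z a i0 A x * ∑' A', ∑' x', ph Λ' ht' z' a' i0 A' x' *
        ker Λ ht Λ' ht' TX TY T T' i0 c lo hi A A' (w + x' - x)
      ≤ β + (i0 + 1 : ℕ) * ((i0 + 1 : ℕ) * R) := by
  obtain ⟨b, hb, hfb⟩ := hd
  have hcard : (Finset.Icc a (a + i0)).card = i0 + 1 := by rw [Nat.card_Icc]; omega
  have hcard' : (Finset.Icc a' (a' + i0)).card = i0 + 1 := by rw [Nat.card_Icc]; omega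
  have := Zl (ph Λ' ht' z' a' i0) (ph Λ ht z a i0) b
    (fun A' A y => ker Λ ht Λ' ht' TX TY T T' i0 c lo hi A A' (-y)) (-w)
    (Finset.Icc a' (a' + i0)) (Finset.Icc a (a + i0)) D β R (ph_sum Λ' ht' z' h1' hΛ' a' i0) (ph_sum Λ ht z h1 hΛ a i0)
    (fun A hA x => ph_supp Λ' ht' z' a' i0 A hA x) (fun A hA x => ph_supp Λ ht z a i0 A hA x)
    hb (fun A x => (ph_le Λ' ht' z' a' i0 A x).trans (hfb A x))
    (fun A' A y => ker_le Λ ht Λ' ht' TX TY h1 hΛ h1' hΛ' T T' i0 c lo hi A A' (-y))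
    (by
      intro A' hA' A hA μ hμ1 hμD
      have h2 := hR A hA A' hA' (fun y => μ (-y))
        (((Equiv.neg G).tsum_eq μ).le.trans hμ1) (fun y => hμD _)
      refine le_trans (le_of_eq ?_) h2
      rw [← (Equiv.neg G).tsum_eq (fun y => μ (-y) * ker Λ ht Λ' ht' TX TY T T' i0 c lo hi A A' y)]
      refine tsum_congr fun y => ?_
      simp)
  rw [hcard, hcard'] at this
  refine le_trans (le_of_eq ?_) this
  simp_rw [← ENNReal.tsum_mul_left]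
  have e : ∀ (F : ℕ → G → ℕ → G → ℝ≥0∞), ∑' A, ∑' x, ∑' A', ∑' x', F A x A' x'
      = ∑' A', ∑' x', ∑' A, ∑' x, F A x A' x' := by
    intro F
    have h3 : ∀ A, ∑' x, ∑' A', ∑' x', F A x A' x' = ∑' A', ∑' x', ∑' x, F A x A' x' := by
      intro A
      rw [ENNReal.tsum_comm]
      refine tsum_congr fun A' => ?_
      rw [ENNReal.tsum_comm]
    simp_rw [h3]
    rw [ENNReal.tsum_comm]
    refine tsum_congr fun A' => ?_
    rw [ENNReal.tsum_comm]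
  rw [e]
  refine tsum_congr fun A' => tsum_congr fun x' => tsum_congr fun A => tsum_congr fun x => ?_
  rw [show -(-w + x - x') = w + x' - x by abel]
  ring

end Crest.Agent.R154.Asm190
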