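import Crest.Agent.R154.AsmJ_295

/-! Row 154, KAPPA' (801), list assembly, part K (helper295): crossings of every height `n ≥ 2m`. -/

set_option autoImplicit false

namespace Crest.Agent.R154.Asm295

open scoped ENNReal
open Filter Topology
open Crest.Agent.R154.B5A (LW HT LW_nil LW_cons LW_append HT_nil HT_cons HT_append length_le_HT)
open Crest.Agent.R154.Asm540 (Dp Dp_append Cm H2 H3 H5 KS TR TR_append TR_depth TR_shift)

lemma app_inj {B : Type*} {h : B → ℕ} (h1 : ∀ b, 1 ≤ h b) {L R L2 R2 : List B}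
    (e : L ++ R = L2 ++ R2) (eh : HT h L = HT h L2) : L = L2 ∧ R = R2 := by
  have hl : ∀ t : List B, HT h t = 0 → t = [] := fun t ht => by
    have := length_le_HT h h1 t
    exact List.eq_nil_of_length_eq_zero (by omega)
  rcases List.append_eq_append_iff.1 e with ⟨t, e1, e2⟩ | ⟨t, e1, e2⟩
  · rw [e1, HT_append] at eh
    have := hl t (by omega)
    subst this
    simp at e1 e2
    exact ⟨e1.symm, e2⟩
  · rw [e1, HT_append] at eh
    have := hl t (by omega)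
    subst this
    simp at e1 e2
    exact ⟨e1, e2.symm⟩

open Classical in
lemma app_sum {B : Type*} {h : B → ℕ} (h1 : ∀ b, 1 ≤ h b) (n N : ℕ) (g : List B → ℝ≥0∞) :
    ∑' L, ∑' R, (if HT h L = n ∧ HT h R = N then g (L ++ R) else 0)
      ≤ ∑' M, (if HT h M = n + N then g M else 0) := by
  rw [← ENNReal.tsum_prod (f := fun L R => if HT h L = n ∧ HT h R = N then g (L ++ R) else 0)]
  set S : Set (List B × List B) := {p | HT h p.1 = n ∧ HT h p.2 = N} with hS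
  have hinj : Function.Injective (fun p : S => p.1.1 ++ p.1.2) := by
    rintro ⟨⟨L, R⟩, h3, h4⟩ ⟨⟨L2, R2⟩, h5, h6⟩ e
    simp only at e h3 h5
    obtain ⟨e1, e2⟩ := app_inj h1 e (h3.trans h5.symm)
    subst e1; subst e2; rfl
  calc ∑' p : List B × List B, (if HT h p.1 = n ∧ HT h p.2 = N then g (p.1 ++ p.2) else 0)
      = ∑' p : List B × List B, S.indicator (fun p => g (p.1 ++ p.2)) p := by
        refine tsum_congr fun p => ?_
        rw [Set.indicator_apply]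
        rfl
    _ = ∑' p : S, g (p.1.1 ++ p.1.2) := (tsum_subtype S (fun p => g (p.1 ++ p.2))).symm
    _ = ∑' p : S, (fun M => if HT h M = n + N then g M else 0) (p.1.1 ++ p.1.2) := by
        refine tsum_congr fun p => ?_
        simp only
        rw [if_pos (by rw [HT_append, p.2.1, p.2.2])]
    _ ≤ _ := ENNReal.tsum_comp_le_tsum_of_injective hinj _

open Classical in
lemma ext1 {B : Type*} {Λ : B → ℝ≥0∞} {h : B → ℕ} (h1 : ∀ b, 1 ≤ h b) {c : ℝ≥0∞} (N : ℕ)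
    (hc : c ≤ ∑' L, (if HT h L = N then LW Λ L else 0)) (n : ℕ)
    (Φ Φ' : List B → ℝ≥0∞) (hΦ : ∀ L R, Φ L ≤ Φ' (L ++ R)) :
    c * ∑' L, (if HT h L = n then LW Λ L * Φ L else 0)
      ≤ ∑' M, (if HT h M = n + N then LW Λ M * Φ' M else 0) := by
  refine le_trans ?_ (app_sum h1 n N (fun M => LW Λ M * Φ' M))
  calc _ ≤ (∑' R, (if HT h R = N then LW Λ R else 0)) *
        ∑' L, (if HT h L = n then LW Λ L * Φ L else 0) := by gcongr
    _ = ∑' L, ∑' R, (if HT h R = N then LW Λ R else 0) *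
        (if HT h L = n then LW Λ L * Φ L else 0) := by
        rw [← ENNReal.tsum_mul_left]
        exact tsum_congr fun L => ENNReal.tsum_mul_right.symm
    _ ≤ _ := by
        refine ENNReal.tsum_le_tsum fun L => ENNReal.tsum_le_tsum fun R => ?_
        by_cases e1 : HT h L = n
        · by_cases e2 : HT h R = N
          · rw [if_pos e1, if_pos e2, if_pos ⟨e1, e2⟩, LW_append]
            calc LW Λ R * (LW Λ L * Φ L) = LW Λ L * LW Λ R * Φ L := by ring
              _ ≤ _ := by gcongr; exact hΦ L R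
          · rw [if_neg e2, zero_mul]; exact bot_le
        · rw [if_neg e1, mul_zero]; exact bot_le

variable {BX BY G : Type*} [AddCommGroup G]
  {ΛX : BX → ℝ≥0∞} {ΛY : BY → ℝ≥0∞} {hX : BX → ℕ} {hY : BY → ℕ} {zX : BX → G} {zY : BY → G}
  {sX : BX → Set (G × ℕ)} {sY : BY → Set (G × ℕ)}

open Classical in
lemma ext2 (h1X : ∀ b, 1 ≤ hX b) (h1Y : ∀ b, 1 ≤ hY b) {c : ℝ≥0∞} (N : ℕ)
    (hcX : c ≤ ∑' L, (if HT hX L = N then LW ΛX L else 0))
    (hcY : c ≤ ∑' L, (if HT hY L = N then LW ΛY L else 0)) (n : ℕ) (w : G) (S : Set ℕ) :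
    c * c * KS ΛX ΛY hX hY zX zY sX sY n w S ≤ KS ΛX ΛY hX hY zX zY sX sY (n + N) w S := by
  have form : ∀ n, KS ΛX ΛY hX hY zX zY sX sY n w S = ∑' L, (if HT hX L = n then LW ΛX L *
      (∑' L', (if HT hY L' = n then LW ΛY L' * (if ∃ g k, k ∈ S ∧
        Cm hX hY zX zY sX sY L L' w 0 0 g k then 1 else 0) else 0)) else 0) := by
    intro n
    rw [KS]
    refine tsum_congr fun L => ?_
    by_cases e : HT hX L = n
    · rw [if_pos e, ← ENNReal.tsum_mul_left]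
      refine tsum_congr fun L' => ?_
      by_cases e' : HT hY L' = n <;> by_cases e'' : ∃ g k, k ∈ S ∧
        Cm hX hY zX zY sX sY L L' w 0 0 g k <;> simp [e, e', e'']
    · simp [e]
  rw [form n, form (n + N), mul_assoc, ]
  calc _ ≤ c * ∑' M, (if HT hX M = n + N then LW ΛX M *
      (∑' L', (if HT hY L' = n then LW ΛY L' * (if ∃ g k, k ∈ S ∧
        Cm hX hY zX zY sX sY M L' w 0 0 g k then 1 else 0) else 0)) else 0) := by
        refine mul_le_mul_right (ext1 h1X N hcX n _ _ fun L R => ?_) _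
        refine ENNReal.tsum_le_tsum fun L' => ?_
        by_cases e' : HT hY L' = n
        · rw [if_pos e', if_pos e']
          gcongr
          by_cases e : ∃ g k, k ∈ S ∧ Cm hX hY zX zY sX sY L L' w 0 0 g k
          · obtain ⟨g, k, hk, e1, e2⟩ := e
            rw [if_pos ⟨g, k, hk, e1, e2⟩, if_pos ⟨g, k, hk, by
              rw [TR_append]; exact Or.inl e1, e2⟩]
          · rw [if_neg e]; exact bot_le
        · rw [if_neg e']; exact bot_le
    _ = ∑' M, (if HT hX M = n + N then LW ΛX M *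
      (c * ∑' L', (if HT hY L' = n then LW ΛY L' * (if ∃ g k, k ∈ S ∧
        Cm hX hY zX zY sX sY M L' w 0 0 g k then 1 else 0) else 0)) else 0) := by
        rw [← ENNReal.tsum_mul_left]
        refine tsum_congr fun M => ?_
        by_cases e : HT hX M = n + N
        · rw [if_pos e, if_pos e]; ring
        · rw [if_neg e, if_neg e, mul_zero]
    _ ≤ _ := by
        refine ENNReal.tsum_le_tsum fun M => ?_
        by_cases e : HT hX M = n + N
        · rw [if_pos e, if_pos e]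
          refine mul_le_mul_right (ext1 h1Y N hcY n _ _ fun L R => ?_) _
          by_cases e : ∃ g k, k ∈ S ∧ Cm hX hY zX zY sX sY M L w 0 0 g k
          · obtain ⟨g, k, hk, e1, e2⟩ := e
            rw [if_pos ⟨g, k, hk, e1, e2⟩, if_pos ⟨g, k, hk, e1, by
              rw [TR_append]; exact Or.inl e2⟩]
          · rw [if_neg e]; exact bot_le
        · rw [if_neg e]; exact bot_le

open Classical in
/-- **KAPPA' on lists**: every height `n ≥ 2m`. -/
theorem kapS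
    (hΛX : ∑' b, ΛX b = 1) (hΛY : ∑' b, ΛY b = 1) (h1X : ∀ b, 1 ≤ hX b) (h1Y : ∀ b, 1 ≤ hY b)
    (hUX : ∀ n, ∑' L, (if HT hX L = n then LW ΛX L else 0) ≤ 1)
    (hUY : ∀ n, ∑' L, (if HT hY L = n then LW ΛY L else 0) ≤ 1)
    {c : ℝ≥0∞} (hc0 : c ≠ 0)
    (hcX : ∀ n, c ≤ ∑' L, (if HT hX L = n then LW ΛX L else 0))
    (hcY : ∀ n, c ≤ ∑' L, (if HT hY L = n then LW ΛY L else 0))
    (hsX : ∀ b, ∀ p ∈ sX b, 1 ≤ p.2 ∧ p.2 ≤ hX b) (hsY : ∀ b, ∀ p ∈ sY b, 1 ≤ p.2 ∧ p.2 ≤ hY b)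
    (hEX : Tendsto (fun i : ℕ => ∑' b, ΛX b * ((hX b - i : ℕ) : ℝ≥0∞)) atTop (𝓝 0))
    (hEY : Tendsto (fun i : ℕ => ∑' b, ΛY b * ((hY b - i : ℕ) : ℝ≥0∞)) atTop (𝓝 0))
    (C : ℝ≥0∞) (hC : C ≠ ⊤) (us : ℕ → ℝ≥0∞) (hus : Tendsto us atTop (𝓝 0))
    (h2 : H2 ΛX ΛY hX hY zX zY sX sY C us) (h3 : H3 ΛX ΛY hX hY zX zY sX sY C us)
    (h5 : H5 ΛX ΛY hX hY zX zY sX sY) (ε : ℝ≥0∞) (hε : ε ≠ 0) :
    ∃ M : ℕ, ∀ m, M ≤ m → ∀ n, 2 * m ≤ n → ∀ w : G,
      KS ΛX ΛY hX hY zX zY sX sY n w (Set.Ioc m (2 * m)) ≤ ε := by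
  have hc1 : c ≤ 1 := (hcX 0).trans (hUX 0)
  have hct : c ≠ ⊤ := ne_top_of_le_ne_top ENNReal.one_ne_top hc1
  have hcc : c * c ≠ 0 := mul_ne_zero hc0 hc0
  have hcct : c * c ≠ ⊤ := ENNReal.mul_ne_top hct hct
  by_cases hεt : ε = ⊤
  · exact ⟨0, fun m _ n _ w => by rw [hεt]; exact le_top⟩
  obtain ⟨M, hM⟩ := kap4 hΛX hΛY h1X h1Y hUX hUY hsX hsY hEX hEY C hC us hus h2 h3 h5
    (c * c * ε) (mul_ne_zero hcc hε)
  refine ⟨M, fun m hm n hn w => ?_⟩
  have h6 := (ext2 (zX := zX) (zY := zY) (sX := sX) (sY := sY) h1X h1Y (2 * m) (hcX _) (hcY _) n w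
    (Set.Ioc m (2 * m))).trans (hM m hm (n + 2 * m) (by omega) w)
  exact (ENNReal.mul_le_mul_iff_right hcc hcct).1 h6

end Crest.Agent.R154.Asm295
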