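import Crest.Agent.R154.AsmW_351
import Crest.Agent.R154.AsmA_789

/-! Row 154, ROAD 801, the abstract assembly (helper351): windows, point contacts => KAPPA'. -/

set_option autoImplicit false

namespace Crest.Agent.R154.AsmS351

open scoped ENNReal Topology
open Crest.Agent.R154.B5A Crest.Agent.R154.FP178

section one
variable {B G : Type*} [AddCommGroup G] (Λ : B → ℝ≥0∞) (h : B → ℕ) (z : B → G)

open Classical in
lemma sum_FP_eq (h1 : ∀ b, 1 ≤ h b) (hΛ : ∑' b, Λ b = 1) (a : ℕ) :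
    ∑' L, (if fp h a L then LW Λ L else 0) = 1 := by
  induction a using Nat.strong_induction_on with
  | _ a ih =>
    rcases Nat.eq_zero_or_pos a with rfl | ha
    · have := sum_fp_zero Λ h (fun _ => 1)
      simp only [mul_one] at this
      exact this
    · have := sum_fp_step Λ h a ha (fun _ => 1)
      simp only [mul_one] at this
      rw [this]
      calc ∑' b, Λ b * ∑' L, (if fp h (a - h b) L then LW Λ L else 0)
          = ∑' b, Λ b * 1 := tsum_congr fun b => by rw [ih _ (by have := h1 b; omega)]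
        _ = 1 := by simp only [mul_one]; exact hΛ

open Classical in
lemma gl_sum_eq (h1 : ∀ b, 1 ≤ h b) (hΛ : ∑' b, Λ b = 1) (a : ℕ) : ∑' x, gl Λ h z a x = 1 := by
  have e := disint Λ h z a (fun _ => 1)
  simp only [mul_one] at e
  rw [← e]
  exact sum_FP_eq Λ h h1 hΛ a

open Classical in
/-- everything about the local class of one walker -/
theorem cls (h1 : ∀ b, 1 ≤ h b) (hΛ : ∑' b, Λ b = 1) (T : ℕ) (u : ℝ≥0∞) (hu : u ≠ 0)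
    (hu1 : u < 1) (i0 J : ℕ) :
    ∃ (th : ℝ≥0∞) (loc : List B → Prop) (E : ℕ → Finset G),
      (∑' P, (if fp h T P ∧ ¬ loc P then LW Λ P else 0) ≤ u) ∧
      (∀ P, loc P → Dp z P ∈ E (HT h P - T)) ∧
      (∀ j, (J * (((i0 + 1 : ℕ) : ℝ≥0∞) * th)) * ((E j).card : ℝ≥0∞)
        ≤ ((J * ((i0 + 1) * 2) : ℕ) : ℝ≥0∞)) ∧
      (∑' x, (if th < gl Λ h z T x then gl Λ h z T x else 0) ≤ 1 - u) := by
  have hp := gl_sum_eq Λ h z h1 hΛ T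
  obtain ⟨θ, hθ0, -, hθ2, hθ3⟩ := AsmA789.quant (gl Λ h z T) hp hu hu1
  have hcard : ∀ j : ℕ, {v : G | θ ≤ gl Λ h z T (j, v)}.Finite ∧
      (({v : G | θ ≤ gl Λ h z T (j, v)}.ncard : ℕ) : ℝ≥0∞) * θ ≤ 1 := fun j =>
    AsmA789.card_le (fun v => gl Λ h z T (j, v))
      ((fibre_sum (gl Λ h z T) j).trans hp.le) hθ0
  refine ⟨2 * θ, fun P => θ ≤ gl Λ h z T (HT h P - T, Dp z P), fun j => (hcard j).1.toFinset,
    ?_, ?_, ?_, ?_⟩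
  · refine le_trans (le_of_eq ?_) hθ2
    have e := disint Λ h z T (fun x => if gl Λ h z T x < θ then 1 else 0)
    have e2 : ∑' x, gl Λ h z T x * (if gl Λ h z T x < θ then (1 : ℝ≥0∞) else 0)
        = ∑' x, (if gl Λ h z T x < θ then gl Λ h z T x else 0) := by
      refine tsum_congr fun x => ?_
      split_ifs <;> simp
    rw [← e2, ← e]
    refine tsum_congr fun P => ?_
    by_cases hP : fp h T P
    · by_cases hl : θ ≤ gl Λ h z T (HT h P - T, Dp z P)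
      · rw [if_neg (fun h' => h'.2 hl), if_pos hP]
        rw [if_neg (not_lt.2 hl), mul_zero]
      · rw [if_pos ⟨hP, hl⟩, if_pos hP]
        rw [if_pos (not_le.1 hl), mul_one]
    · rw [if_neg (fun h' => hP h'.1), if_neg hP]
  · intro P hP
    simpa using hP
  · intro j
    have hc := (hcard j).2
    rw [Set.ncard_eq_toFinset_card _ (hcard j).1] at hc
    calc (J * (((i0 + 1 : ℕ) : ℝ≥0∞) * (2 * θ))) * (((hcard j).1.toFinset.card : ℕ) : ℝ≥0∞)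
        = (J * (((i0 + 1 : ℕ) : ℝ≥0∞) * 2)) * ((((hcard j).1.toFinset.card : ℕ) : ℝ≥0∞) * θ) := by
          ring
      _ ≤ (J * (((i0 + 1 : ℕ) : ℝ≥0∞) * 2)) * 1 := mul_le_mul_right hc _
      _ = _ := by push_cast; ring
  · refine ENNReal.le_sub_of_add_le_left (hu1.ne_top) ?_
    refine (add_le_add hθ3 le_rfl).trans ?_
    rw [← ENNReal.tsum_add, ← hp]
    refine ENNReal.tsum_le_tsum fun x => ?_
    by_cases h2 : gl Λ h z T x < 2 * θ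
    · rw [if_pos h2, if_neg (not_lt.2 h2.le), add_zero]
    · rw [if_neg h2, zero_add]
      split_ifs
      · exact le_rfl
      · exact zero_le

end one

lemma small (c : ℕ) {ε : ℝ≥0∞} (hε : ε ≠ 0) : ∃ η : ℝ≥0∞, η ≠ 0 ∧ (c : ℝ≥0∞) * η ≤ ε := by
  have hc0 : ((c + 1 : ℕ) : ℝ≥0∞) ≠ 0 := by exact_mod_cast (Nat.succ_ne_zero c)
  have hcT : ((c + 1 : ℕ) : ℝ≥0∞) ≠ ⊤ := ENNReal.natCast_ne_top _
  refine ⟨min ε 1 / ((c + 1 : ℕ) : ℝ≥0∞), ?_, ?_⟩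
  · exact ENNReal.div_ne_zero.2 ⟨by
      rcases le_total ε 1 with h | h
      · rw [min_eq_left h]; exact hε
      · rw [min_eq_right h]; exact one_ne_zero, hcT⟩
  · calc (c : ℝ≥0∞) * (min ε 1 / ((c + 1 : ℕ) : ℝ≥0∞))
        ≤ ((c + 1 : ℕ) : ℝ≥0∞) * (min ε 1 / ((c + 1 : ℕ) : ℝ≥0∞)) :=
          mul_le_mul_left (by exact_mod_cast Nat.le_succ c) _
      _ = min ε 1 := ENNReal.mul_div_cancel hc0 hcT
      _ ≤ ε := min_le_left _ _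

variable {BX BY G : Type*} [AddCommGroup G] (ΛX : BX → ℝ≥0∞) (hX : BX → ℕ) (zX : BX → G)
  (sX : BX → Set (G × ℕ)) (ΛY : BY → ℝ≥0∞) (hY : BY → ℕ) (zY : BY → G) (sY : BY → Set (G × ℕ))

open Classical in
/-- window lemma, X local -/
def WinX : Prop := ∀ (i0 : ℕ) (Rb : ℝ≥0∞), Rb ≠ ⊤ → ∀ η : ℝ≥0∞, η ≠ 0 → ∃ s : ℕ,
  ∀ (c c' a a' lo hi : ℕ) (E : Finset G) (μ : G → ℝ≥0∞) (M : ℝ≥0∞), ∑' x, μ x ≤ 1 →
    (∀ x, μ x ≤ M) → M * (E.card : ℝ≥0∞) ≤ Rb → a ≤ a' + i0 → a' ≤ a + i0 →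
    a + c ≤ a' + c' + i0 → a' + c' ≤ a + c + i0 →
    a + s ≤ lo → a' + s ≤ lo → hi + s ≤ a + c → hi + s ≤ a' + c' →
    ∑' v, μ v * (∑' L, ∑' L', (if HT hX L = c ∧ Dp zX L ∈ E ∧ HT hY L' = c' ∧
      Gd lo hi (CT hX zX sX hY zY sY L 0 a L' v a') then LW ΛX L * LW ΛY L' else 0)) ≤ η

open Classical in
/-- window lemma, Y local -/
def WinY : Prop := ∀ (i0 : ℕ) (Rb : ℝ≥0∞), Rb ≠ ⊤ → ∀ η : ℝ≥0∞, η ≠ 0 → ∃ s : ℕ,
  ∀ (c c' a a' lo hi : ℕ) (E : Finset G) (μ : G → ℝ≥0∞) (M : ℝ≥0∞), ∑' x, μ x ≤ 1 →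
    (∀ x, μ x ≤ M) → M * (E.card : ℝ≥0∞) ≤ Rb → a ≤ a' + i0 → a' ≤ a + i0 →
    a + c ≤ a' + c' + i0 → a' + c' ≤ a + c + i0 →
    a + s ≤ lo → a' + s ≤ lo → hi + s ≤ a + c → hi + s ≤ a' + c' →
    ∑' v, μ v * (∑' L, ∑' L', (if HT hX L = c ∧ Dp zY L' ∈ E ∧ HT hY L' = c' ∧
      Gd lo hi (CT hX zX sX hY zY sY L 0 a L' v a') then LW ΛX L * LW ΛY L' else 0)) ≤ η

open Classical in
/-- point contacts -/
def Pt : Prop := ∀ η : ℝ≥0∞, η ≠ 0 → ∃ k0 : ℕ, ∀ k, k0 ≤ k → ∀ n, k ≤ n → ∀ w : G,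
  ∑' LX, ∑' LY, (if HT hX LX = n ∧ HT hY LY = n ∧ k ∈ CT hX zX sX hY zY sY LX 0 0 LY w 0
    then LW ΛX LX * LW ΛY LY else 0) ≤ η

open Classical in
/-- one window, all constants -/
theorem window1 (h1X : ∀ b, 1 ≤ hX b) (h1Y : ∀ b, 1 ≤ hY b) (hΛX : ∑' b, ΛX b = 1)
    (hΛY : ∑' b, ΛY b = 1) (hsX : ∀ b q, q ∈ sX b → 1 ≤ q.2 ∧ q.2 ≤ hX b)
    (hsY : ∀ b q, q ∈ sY b → 1 ≤ q.2 ∧ q.2 ≤ hY b) (J i0 s : ℕ) (u η e1 : ℝ≥0∞) (hu : u ≠ 0)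
    (hu1 : u < 1)
    (hoX : ∑' k, tail ΛX hX (i0 + k) ≤ e1) (hoY : ∑' k, tail ΛY hY (i0 + k) ≤ e1)
    (hWX : ∀ (c c' a a' lo hi : ℕ) (E : Finset G) (μ : G → ℝ≥0∞) (M : ℝ≥0∞), ∑' x, μ x ≤ 1 →
      (∀ x, μ x ≤ M) → M * (E.card : ℝ≥0∞) ≤ ((J * ((i0 + 1) * 2) : ℕ) : ℝ≥0∞) →
      a ≤ a' + 2 * i0 → a' ≤ a + 2 * i0 →
      a + c ≤ a' + c' + 2 * i0 → a' + c' ≤ a + c + 2 * i0 →
      a + s ≤ lo → a' + s ≤ lo → hi + s ≤ a + c → hi + s ≤ a' + c' →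
      ∑' v, μ v * (∑' L, ∑' L', (if HT hX L = c ∧ Dp zX L ∈ E ∧ HT hY L' = c' ∧
        Gd lo hi (CT hX zX sX hY zY sY L 0 a L' v a') then LW ΛX L * LW ΛY L' else 0)) ≤ η)
    (hWY : ∀ (c c' a a' lo hi : ℕ) (E : Finset G) (μ : G → ℝ≥0∞) (M : ℝ≥0∞), ∑' x, μ x ≤ 1 →
      (∀ x, μ x ≤ M) → M * (E.card : ℝ≥0∞) ≤ ((J * ((i0 + 1) * 2) : ℕ) : ℝ≥0∞) →
      a ≤ a' + 2 * i0 → a' ≤ a + 2 * i0 →
      a + c ≤ a' + c' + 2 * i0 → a' + c' ≤ a + c + 2 * i0 →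
      a + s ≤ lo → a' + s ≤ lo → hi + s ≤ a + c → hi + s ≤ a' + c' →
      ∑' v, μ v * (∑' L, ∑' L', (if HT hX L = c ∧ Dp zY L' ∈ E ∧ HT hY L' = c' ∧
        Gd lo hi (CT hX zX sX hY zY sY L 0 a L' v a') then LW ΛX L * LW ΛY L' else 0)) ≤ η)
    (w : G) (a T n : ℕ) (hT : s ≤ T) (haJ : J * (T + i0) ≤ a) (hn : a + i0 + T ≤ n) :
    ∑' LX, ∑' LY, (if HT hX LX = n ∧ HT hY LY = n ∧
        Ev hX zX sX hY zY sY w a T i0 (a + i0 + s + 1) (a + T - s) LX LY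
        then LW ΛX LX * LW ΛY LY else 0)
      ≤ u * u + (((1 - u) ^ J + J * e1) + ((i0 + 1 : ℕ) : ℝ≥0∞) ^ 4 * η)
        + (((1 - u) ^ J + J * e1) + ((i0 + 1 : ℕ) : ℝ≥0∞) ^ 4 * η) + 4 * e1 := by
  obtain ⟨thX, locX, EX, x1, x2, x3, x4⟩ := cls ΛX hX zX h1X hΛX T u hu hu1 i0 J
  obtain ⟨thY, locY, EY, y1, y2, y3, y4⟩ := cls ΛY hY zY h1Y hΛY T u hu hu1 i0 J
  have oX : ∀ a, ∑' L, (if fp hX a L ∧ a + i0 < HT hX L then LW ΛX L else 0) ≤ e1 := fun a =>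
    (overshoot ΛX hX h1X (U_le_one ΛX hX h1X hΛX.le) i0 a).trans hoX
  have oY : ∀ a, ∑' L, (if fp hY a L ∧ a + i0 < HT hY L then LW ΛY L else 0) ≤ e1 := fun a =>
    (overshoot ΛY hY h1Y (U_le_one ΛY hY h1Y hΛY.le) i0 a).trans hoY
  obtain ⟨SX, RX, dx1, dx2, dx3, dx4⟩ := gl_dens ΛX hX zX h1X hΛX.le T i0 e1 thX (1 - u) (oX T) x4
    tsub_le_self J a haJ
  obtain ⟨SY, RY, dy1, dy2, dy3, dy4⟩ := gl_dens ΛY hY zY h1Y hΛY.le T i0 e1 thY (1 - u) (oY T) y4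
    tsub_le_self J a haJ
  refine window ΛX hX zX sX ΛY hY zY sY h1X h1Y hΛX.le hΛY.le hsX hsY w a T i0
    (a + i0 + s + 1) (a + T - s) n (by omega) hn e1 u (oX a) (oX T) (oY a) (oY T) locX locY x1 y1
    EX EY x2 y2 _ _ η _ SX RX SY RY dx1 dx2 dx3 dx4 dy1 dy2 dy3 dy4 ?_ ?_
  · intro i i' j j' hi hi' hj hj' μ hμ hM
    exact hWX (T + j) (T + j') (a + i) (a + i') _ _ (EX j) μ _ hμ hM (x3 j)
      (by omega) (by omega) (by omega) (by omega) (by omega) (by omega) (by omega) (by omega)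
  · intro i i' j j' hi hi' hj hj' μ hμ hM
    have hμ' : ∑' v, μ (-v) ≤ 1 := by
      have e0 := (Equiv.neg G).tsum_eq μ
      simp only [Equiv.neg_apply] at e0
      rw [e0]; exact hμ
    have := hWY (T + j') (T + j) (a + i') (a + i) (a + i0 + s + 1) (a + T - s) (EY j)
      (fun v => μ (-v)) _ hμ' (fun v => hM (-v)) (y3 j)
      (by omega) (by omega) (by omega) (by omega) (by omega) (by omega) (by omega) (by omega)
    refine le_trans (le_of_eq ?_) this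
    rw [← (Equiv.neg G).tsum_eq]
    refine tsum_congr fun v => ?_
    simp only [Equiv.neg_apply, neg_neg]
    congr 1
    rw [ENNReal.tsum_comm]
    refine tsum_congr fun P => tsum_congr fun P' => ?_
    by_cases hc : HT hY P' = T + j ∧ Dp zY P' ∈ EY j ∧ HT hX P = T + j' ∧
      Gd (a + i0 + s + 1) (a + T - s) (CT hX zX sX hY zY sY P 0 (a + i') P' v (a + i))
    · rw [if_pos hc, if_pos ⟨hc.2.2.1, hc.2.1, hc.1, hc.2.2.2⟩, mul_comm]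
    · rw [if_neg hc, if_neg (fun h' => hc ⟨h'.2.2.1, h'.2.1, h'.1, h'.2.2.2⟩)]

end Crest.Agent.R154.AsmS351
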