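import Crest.Agent.R154.AsmU_498
import Crest.Agent.R154.AsmA_789

/-! Row 154, ROAD 801 (helper498): KAPPA' for two independent single-walker renewal sequences. -/

set_option autoImplicit false

namespace Crest.Agent.R154.Asm498

open Crest.Agent.R154.B5A
open Crest.Agent.R154.Asm508
open Crest.Agent.R154.H5N501 (TS TS_append TS_depth)
open scoped ENNReal Topology
open Filter

lemma tsum_fsum {α ι : Type*} (T : Finset ι) (f : ι → α → ℝ≥0∞) :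
    ∑' x, ∑ k ∈ T, f k x = ∑ k ∈ T, ∑' x, f k x := by
  classical
  induction T using Finset.induction_on with
  | empty => simp
  | insert i T hi ih => simp only [Finset.sum_insert hi]; rw [ENNReal.tsum_add, ih]

lemma fpS_one_eq {B : Type*} (Λ : B → ℝ≥0∞) (h : B → ℕ) (h1 : ∀ b, 1 ≤ h b)
    (hΛ : ∑' b, Λ b = 1) (a : ℕ) : fpS Λ h a (fun _ => 1) = 1 := by
  induction a using Nat.strong_induction_on with
  | _ a ih =>
    rcases Nat.eq_zero_or_pos a with rfl | ha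
    · rw [fpS_zero]
    · rw [fpS_pos Λ h a ha]
      calc _ = ∑' b, Λ b * 1 := tsum_congr fun b => by
            rw [ih _ (by have := h1 b; omega)]
        _ = 1 := by simpa using hΛ

lemma V_sum_eq {B G : Type*} [AddCommGroup G] (Λ : B → ℝ≥0∞) (h : B → ℕ) (z : B → G)
    (h1 : ∀ b, 1 ≤ h b) (hΛ : ∑' b, Λ b = 1) (a : ℕ) : ∑' p, V Λ h z a p = 1 := by
  have := V_push Λ h z a (fun _ => 1)
  simp only [mul_one] at this
  rw [← this]
  exact fpS_one_eq Λ h h1 hΛ a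

section side

variable {B G : Type*} [AddCommGroup G] (Λ : B → ℝ≥0∞) (h : B → ℕ) (z : B → G)

open Classical in
/-- everything about one walker, for pieces of length `t` -/
lemma side (h1 : ∀ b, 1 ≤ h b) (hΛ : ∑' b, Λ b = 1) (t i0 J Q : ℕ) (hQ : 2 ≤ Q) :
    ∃ (θ M : ℝ≥0∞) (E : ℕ → Finset G),
      (∑' p, (if V Λ h z t p < θ then V Λ h z t p else 0) ≤ ((Q : ℝ≥0∞) ^ 2)⁻¹) ∧
      (∀ i y, θ ≤ V Λ h z t (i, y) → y ∈ E i) ∧
      (∀ i, M * (E i).card ≤ J * ((i0 + 1) * 2)) ∧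
      (∀ a, J * (t + i0) ≤ a → ∃ b : ℕ × G → ℝ≥0∞, (∀ p, V Λ h z a p ≤ M + b p) ∧
        ∑' p, b p ≤ (1 - (2 * (Q : ℝ≥0∞) ^ 2)⁻¹) ^ J + J * ov Λ h i0) := by
  have hQ0 : (Q : ℝ≥0∞) ^ 2 ≠ 0 := pow_ne_zero _ (by simp; omega)
  have hQt : (Q : ℝ≥0∞) ^ 2 ≠ ⊤ := by simp
  set u : ℝ≥0∞ := ((Q : ℝ≥0∞) ^ 2)⁻¹ with hu
  have hu0 : u ≠ 0 := by simp [hu]
  have hu1 : u < 1 := by
    rw [hu, ENNReal.inv_lt_one]
    have : (2 : ℝ≥0∞) ≤ Q := by exact_mod_cast hQ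
    calc (1 : ℝ≥0∞) < 2 := by norm_num
      _ = 2 * 1 := by norm_num
      _ ≤ (Q : ℝ≥0∞) * Q := mul_le_mul' this (le_trans (by norm_num) this)
      _ = _ := by ring
  obtain ⟨θ, hθ0, hθ1, hq1, hq2⟩ := AsmA789.quant (V Λ h z t) (V_sum_eq Λ h z h1 hΛ t) hu0 hu1
  have hcard : ∀ i, {y | θ ≤ V Λ h z t (i, y)}.Finite ∧
      (({y | θ ≤ V Λ h z t (i, y)}.ncard : ℕ) : ℝ≥0∞) * θ ≤ 1 := by
    intro i
    refine AsmA789.card_le (fun y => V Λ h z t (i, y)) ?_ hθ0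
    refine le_trans ?_ (V_sum Λ h z h1 hΛ t)
    exact ENNReal.tsum_comp_le_tsum_of_injective (f := fun x : G => (i, x))
      (fun x y h => by simpa using h) _
  refine ⟨θ, J * ((i0 + 1) * (2 * θ)), fun i => (hcard i).1.toFinset, hq1, ?_, ?_, ?_⟩
  · intro i y hy
    simpa using hy
  · intro i
    have h2 := (hcard i).2
    rw [Set.ncard_eq_toFinset_card _ (hcard i).1] at h2
    calc (J : ℝ≥0∞) * ((i0 + 1) * (2 * θ)) * ((hcard i).1.toFinset.card : ℝ≥0∞)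
        = J * ((i0 + 1) * 2) * (((hcard i).1.toFinset.card : ℝ≥0∞) * θ) := by ring
      _ ≤ J * ((i0 + 1) * 2) * 1 := by gcongr
      _ = _ := mul_one _
  · intro a ha
    refine ⟨bbf Λ h z t i0 (2 * θ) J a, dens Λ h z h1 hΛ t i0 (2 * θ) J a ha, ?_⟩
    refine tsum_bbf Λ h z h1 hΛ t i0 (2 * θ) _ tsub_le_self ?_ J a
    have hsum : (∑' p, if 2 * θ ≤ V Λ h z t p then V Λ h z t p else 0) + u ≤ 1 := by
      calc _ ≤ (∑' p, if 2 * θ ≤ V Λ h z t p then V Λ h z t p else 0)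
            + ∑' p, (if V Λ h z t p < 2 * θ then V Λ h z t p else 0) := by gcongr
        _ = ∑' p, V Λ h z t p := by
            rw [← ENNReal.tsum_add]
            refine tsum_congr fun p => ?_
            by_cases hp : V Λ h z t p < 2 * θ
            · rw [if_neg (not_le.2 hp), if_pos hp, zero_add]
            · rw [if_pos (not_lt.1 hp), if_neg hp, add_zero]
        _ ≤ 1 := V_sum Λ h z h1 hΛ t
    have h3 : (∑' p, if 2 * θ ≤ V Λ h z t p then V Λ h z t p else 0) ≤ 1 - u :=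
      ENNReal.le_sub_of_add_le_right hu1.ne_top hsum
    refine h3.trans (tsub_le_tsub_left ?_ 1)
    rw [hu]
    refine ENNReal.inv_le_inv.2 ?_
    calc (Q : ℝ≥0∞) ^ 2 = 1 * (Q : ℝ≥0∞) ^ 2 := (one_mul _).symm
      _ ≤ 2 * (Q : ℝ≥0∞) ^ 2 := by gcongr; norm_num

end side

/-- a constant times something small -/
lemma exists_mul_le (A ε : ℝ≥0∞) (hA : A ≠ ⊤) (hε : ε ≠ 0) :
    ∃ x : ℝ≥0∞, x ≠ 0 ∧ x ≠ ⊤ ∧ A * x ≤ ε := by
  refine ⟨min 1 (ε / (A + 1)), ?_, ?_, ?_⟩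
  · refine (lt_min one_pos ?_).ne'
    exact ENNReal.div_pos hε (by simp [hA])
  · exact ((min_le_left _ _).trans_lt ENNReal.one_lt_top).ne
  · calc A * min 1 (ε / (A + 1)) ≤ (A + 1) * (ε / (A + 1)) :=
          mul_le_mul' le_self_add (min_le_right _ _)
      _ ≤ ε := ENNReal.mul_div_le

lemma exists_tendsto_mul_le (A ε : ℝ≥0∞) (hA : A ≠ ⊤) (hε : ε ≠ 0) (f : ℕ → ℝ≥0∞)
    (hf : Tendsto f atTop (𝓝 0)) : ∃ i, A * f i ≤ ε := by
  obtain ⟨x, hx0, -, hx⟩ := exists_mul_le A ε hA hε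
  obtain ⟨i, hi⟩ := (hf.eventually (gt_mem_nhds (pos_iff_ne_zero.2 hx0))).exists
  exact ⟨i, (mul_le_mul_right hi.le A).trans hx⟩

end Crest.Agent.R154.Asm498
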