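import Crest.Agent.R154.Asm_707

/-! Row 154, ROAD 801 (helper707): order of constants, sum over the windows. -/

set_option autoImplicit false

namespace Crest.Agent.R154.Asm707

open scoped ENNReal Topology
open Filter
open Crest.Agent.R154.B5A Crest.Agent.R154.Ren396
open Crest.Agent.R154.Bind12 (TT Dp)

variable {BX BY G : Type*} [AddCommGroup G]
  (ΛX : BX → ℝ≥0∞) (ΛY : BY → ℝ≥0∞) (hX : BX → ℕ) (hY : BY → ℕ) (zX : BX → G) (zY : BY → G)
  (sX : BX → Set (G × ℕ)) (sY : BY → Set (G × ℕ))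

open Classical in
/-- first contact depth in `(m, 2m]` -/
noncomputable def KapL (n m : ℕ) (w : G) : ℝ≥0∞ :=
  ∑' L : List BX, ∑' L' : List BY,
    (if HT hX L = n ∧ HT hY L' = n ∧
      (∀ g k, Ct hX hY zX zY sX sY L L' w 0 0 g k → m < k) ∧
      (∃ g k, Ct hX hY zX zY sX sY L L' w 0 0 g k ∧ k ≤ 2 * m)
      then LW ΛX L * LW ΛY L' else 0)

/-- thin slab -/
def H5 : Prop := ∀ (s : ℕ) (η : ℝ≥0∞), η ≠ 0 → ∃ T, ∀ a, T ≤ a → ∀ n w,
  KS ΛX ΛY hX hY zX zY sX sY n w (Set.Ico a (a + s)) ≤ η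

lemma KS_mono (n : ℕ) (w : G) {S S' : Set ℕ} (h : S ⊆ S') :
    KS ΛX ΛY hX hY zX zY sX sY n w S ≤ KS ΛX ΛY hX hY zX zY sX sY n w S' := by
  classical
  unfold KS
  refine ENNReal.tsum_le_tsum fun L => ENNReal.tsum_le_tsum fun L' => ?_
  by_cases c : HT hX L = n ∧ HT hY L' = n ∧ ∃ g k, k ∈ S ∧ Ct hX hY zX zY sX sY L L' w 0 0 g k
  · obtain ⟨c1, c2, g, k, c3, c4⟩ := c
    rw [if_pos ⟨c1, c2, g, k, c3, c4⟩, if_pos ⟨c1, c2, g, k, h c3, c4⟩]
  · rw [if_neg c]; exact zero_le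

theorem kapL_windows {n m t K : ℕ} (ht : 0 < t) (h1 : K * t ≤ m) (h2 : 2 * m < (2 * K + 1) * t)
    (w : G) : KapL ΛX ΛY hX hY zX zY sX sY n m w
      ≤ ∑ k ∈ Finset.Icc K (2 * K), Win ΛX ΛY hX hY zX zY sX sY n (k * t) ((k + 1) * t) w := by
  classical
  unfold Win
  rw [← Summable.tsum_finsetSum (fun _ _ => ENNReal.summable)]
  unfold KapL
  refine ENNReal.tsum_le_tsum fun L => ?_
  rw [← Summable.tsum_finsetSum (fun _ _ => ENNReal.summable)]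
  refine ENNReal.tsum_le_tsum fun L' => ?_
  split_ifs with h
  · obtain ⟨hu, hd, h3, g0, k0, h4, h5⟩ := h
    have hne : ∃ k, ∃ g, Ct hX hY zX zY sX sY L L' w 0 0 g k := ⟨k0, g0, h4⟩
    set D := Nat.find hne with hD
    obtain ⟨g, hg⟩ := Nat.find_spec hne
    rw [← hD] at hg
    have hmin : ∀ g k, Ct hX hY zX zY sX sY L L' w 0 0 g k → D ≤ k :=
      fun g k hk => Nat.find_min' hne ⟨g, hk⟩
    have hDm : m < D := h3 g D hg
    have hD2 : D ≤ 2 * m := (hmin _ _ h4).trans h5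
    have e1 : D / t * t ≤ D := Nat.div_mul_le_self D t
    have e2 : D < (D / t + 1) * t := by
      have := Nat.lt_div_mul_add (a := D) ht
      rw [add_mul, one_mul]; exact this
    have e3 : D / t ∈ Finset.Icc K (2 * K) := by
      rw [Finset.mem_Icc]
      refine ⟨?_, ?_⟩
      · rw [Nat.le_div_iff_mul_le ht]; omega
      · have : D / t < 2 * K + 1 := by
          rw [Nat.div_lt_iff_lt_mul ht]; omega
        omega
    refine le_trans (le_of_eq ?_) (Finset.single_le_sum (f := fun k =>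
      (if HT hX L = n ∧ HT hY L' = n ∧
      (∀ g κ, Ct hX hY zX zY sX sY L L' w 0 0 g κ → k * t ≤ κ) ∧
      (∃ g κ, Ct hX hY zX zY sX sY L L' w 0 0 g κ ∧ κ < (k + 1) * t)
      then LW ΛX L * LW ΛY L' else 0)) (fun _ _ => zero_le) e3)
    rw [if_pos ⟨hu, hd, fun g κ hκ => e1.trans (hmin g κ hκ), g, D, hg, e2⟩]
  · exact zero_le

/-- **KAPPA' for two lists of single-walker blocks** -/
theorem kap (hΛX : ∑' b, ΛX b = 1) (hΛY : ∑' b, ΛY b = 1) (h1X : ∀ b, 1 ≤ hX b)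
    (h1Y : ∀ b, 1 ≤ hY b) (hUX : ∀ n, U ΛX hX n ≤ 1) (hUY : ∀ n, U ΛY hY n ≤ 1)
    (c : ℝ≥0∞) (hc : c ≠ 0) (hc' : c ≠ ⊤) (hcX : ∀ n, c ≤ U ΛX hX n) (hcY : ∀ n, c ≤ U ΛY hY n)
    (hsX : ∀ b, ∀ p ∈ sX b, 1 ≤ p.2 ∧ p.2 ≤ hX b) (hsY : ∀ b, ∀ p ∈ sY b, 1 ≤ p.2 ∧ p.2 ≤ hY b)
    (C : ℝ≥0∞) (hC : C ≠ ⊤) (us : ℕ → ℝ≥0∞) (hus : Tendsto us atTop (𝓝 0))
    (hH2 : H2 ΛX ΛY hX hY zX zY sX sY C us) (hH3 : H3 ΛX ΛY hX hY zX zY sX sY C us)
    (hH5 : H5 ΛX ΛY hX hY zX zY sX sY) :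
    ∀ ε : ℝ≥0∞, ε ≠ 0 → ∃ M : ℕ, ∀ m, M ≤ m → ∃ n0 : ℕ, ∀ n, n0 ≤ n → ∀ w : G,
      KapL ΛX ΛY hX hY zX zY sX sY n m w ≤ ε := by
  intro ε hε
  set ep : ℕ → ℝ≥0∞ := fun i => 2 * (TS ΛX hX (i + 1) + TS ΛY hY (i + 1)) with hep
  have hept : Tendsto ep atTop (𝓝 0) := by
    have t1 := (tendsto_TS ΛX hX c hc hc' h1X hΛX 0 (fun n _ => hcX n)).comp
      (tendsto_add_atTop_nat 1)
    have t2 := (tendsto_TS ΛY hY c hc hc' h1Y hΛY 0 (fun n _ => hcY n)).comp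
      (tendsto_add_atTop_nat 1)
    have t3 := ENNReal.Tendsto.const_mul (a := 2) (t1.add t2) (Or.inr (by norm_num))
    rw [add_zero, mul_zero] at t3
    exact t3
  obtain ⟨J, u, hJ1, hu0, hu1, i0, lam, s, hl0, hlt, hl1, hepu, hmain⟩ :=
    Num869.choose' us ep hus hept (2 * C) (ENNReal.mul_ne_top (by norm_num) hC) 3 (ε / 24)
      (by simp [hε])
  have hJ0 : (J : ℝ≥0∞) ≠ 0 := by exact_mod_cast (by omega : J ≠ 0)
  have hJt : (J : ℝ≥0∞) ≠ ⊤ := ENNReal.natCast_ne_top J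
  set η : ℝ≥0∞ := ε / 2 / (6 * J) with hη
  have hη0 : η ≠ 0 := by
    rw [hη]
    refine (ENNReal.div_pos ?_ ?_).ne'
    · simp [hε]
    · exact ENNReal.mul_ne_top (by norm_num) hJt
  obtain ⟨T1, hT1⟩ := hH5 (s + 2 * i0) η hη0
  set K := 4 * J + 1 with hK
  have hKpos : 0 < K := by omega
  refine ⟨K * (T1 + 2 * K + 2 * i0 + s + 1), fun m hm => ?_⟩
  set t := m / K with ht
  have ht1 : T1 + 2 * K + 2 * i0 + s + 1 ≤ t := by
    rw [ht, Nat.le_div_iff_mul_le hKpos, mul_comm]; exact hm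
  have h1 : K * t ≤ m := Nat.mul_div_le m K
  have h2 : 2 * m < (2 * K + 1) * t := by
    have h3 := Nat.lt_mul_div_succ m hKpos
    rw [← ht] at h3
    nlinarith
  refine ⟨(2 * K + 4) * t, fun n hn w => ?_⟩
  have hhalf : u / 2 ≠ ⊤ := ENNReal.div_ne_top (ne_top_of_le_ne_top ENNReal.one_ne_top hu1)
    (by norm_num)
  have hTSle : TS ΛX hX (i0 + 1) + TS ΛY hY (i0 + 1) ≤ u / 2 := by
    rw [ENNReal.le_div_iff_mul_le (Or.inl (by norm_num)) (Or.inl (by norm_num)), mul_comm]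
    exact hepu
  set X : ℝ≥0∞ := (u + ep i0) ^ 2 + ((1 - u / 2) ^ J + J * ep i0) +
        ((i0 : ℝ≥0∞) + 1) ^ 3 * (2 * C * (lam + (((i0 : ℝ≥0∞) + 1) / u) * us s / lam + us s))
    with hXdef
  have hwin : ∀ k ∈ Finset.Icc K (2 * K),
      Win ΛX ΛY hX hY zX zY sX sY n (k * t) ((k + 1) * t) w ≤ η + 2 * X := by
    intro k hk
    rw [Finset.mem_Icc] at hk
    refine (win_le ΛX ΛY hX hY zX zY sX sY hΛX hΛY h1X h1Y hUX hUY hsX hsY C us hH2 hH3 u lam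
      hu0 hu1 hl0 hlt i0 J s t k n (le_self_add.trans hTSle) (le_add_self.trans hTSle)
      (by omega) (by omega) (le_trans (Nat.mul_le_mul_right t (by omega)) hn) w).trans ?_
    have hslab : KS ΛX ΛY hX hY zX zY sX sY n w
        {κ | (k + 2) * t - s < κ ∧ κ ≤ (k + 2) * t + 2 * i0} ≤ η := by
      have hkt : t ≤ (k + 2) * t := Nat.le_mul_of_pos_left t (by omega)
      refine le_trans (KS_mono ΛX ΛY hX hY zX zY sX sY n w ?_)
        (hT1 ((k + 2) * t - s + 1) (by omega) n w)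
      intro κ hκ
      simp only [Set.mem_ofPred_eq] at hκ
      rw [Set.mem_Ico]
      omega
    have hR : (i0 + 1 : ℝ≥0∞) ^ 3 * (C * (lam + (i0 + 1) / (u / 2) * us s / lam + us s))
        ≤ ((i0 : ℝ≥0∞) + 1) ^ 3 *
          (2 * C * (lam + (((i0 : ℝ≥0∞) + 1) / u) * us s / lam + us s)) := by
      refine mul_le_mul_right ?_ _
      have e1 : ((i0 : ℝ≥0∞) + 1) / (u / 2) = 2 * (((i0 : ℝ≥0∞) + 1) / u) := by
        simp only [div_eq_mul_inv]
        rw [ENNReal.mul_inv (Or.inl hu0) (Or.inr (by norm_num)), inv_inv]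
        ring
      rw [e1]
      calc C * (lam + 2 * (((i0 : ℝ≥0∞) + 1) / u) * us s / lam + us s)
          ≤ C * (2 * lam + 2 * (((i0 : ℝ≥0∞) + 1) / u) * us s / lam + 2 * us s) := by
            gcongr
            · exact le_mul_of_one_le_left' (by norm_num)
            · exact le_mul_of_one_le_left' (by norm_num)
        _ = _ := by simp only [div_eq_mul_inv]; ring
    have he2 : 2 * (TS ΛX hX (i0 + 1) + TS ΛY hY (i0 + 1)) = ep i0 := rfl
    have hee : TS ΛX hX (i0 + 1) + TS ΛY hY (i0 + 1) ≤ ep i0 := by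
      rw [hep]; exact le_mul_of_one_le_left' (by norm_num)
    have hJep : ep i0 ≤ J * ep i0 := by
      refine le_mul_of_one_le_left' ?_
      exact_mod_cast hJ1
    have huu : u * u ≤ 2 * (u + ep i0) ^ 2 := by
      calc u * u ≤ (u + ep i0) * (u + ep i0) := mul_le_mul' le_self_add le_self_add
        _ = 1 * (u + ep i0) ^ 2 := by ring
        _ ≤ 2 * (u + ep i0) ^ 2 := mul_le_mul_left (by norm_num) _
    calc _ ≤ η + ep i0 + u * u + 2 * (((i0 : ℝ≥0∞) + 1) ^ 3 *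
          (2 * C * (lam + (((i0 : ℝ≥0∞) + 1) / u) * us s / lam + us s))
          + ((1 - u / 2) ^ J + J * (TS ΛX hX (i0 + 1) + TS ΛY hY (i0 + 1)))) := by
          rw [he2]
          gcongr
      _ = η + (ep i0 + u * u + 2 * (((i0 : ℝ≥0∞) + 1) ^ 3 *
          (2 * C * (lam + (((i0 : ℝ≥0∞) + 1) / u) * us s / lam + us s)))
          + 2 * (1 - u / 2) ^ J + J * (2 * (TS ΛX hX (i0 + 1) + TS ΛY hY (i0 + 1)))) := by ring
      _ ≤ η + (J * ep i0 + 2 * (u + ep i0) ^ 2 + 2 * (((i0 : ℝ≥0∞) + 1) ^ 3 *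
          (2 * C * (lam + (((i0 : ℝ≥0∞) + 1) / u) * us s / lam + us s)))
          + 2 * (1 - u / 2) ^ J + J * ep i0) := by
          rw [he2]
          exact add_le_add le_rfl (add_le_add (add_le_add (add_le_add (add_le_add hJep huu)
            le_rfl) le_rfl) le_rfl)
      _ = η + 2 * X := by rw [hXdef]; ring
  calc KapL ΛX ΛY hX hY zX zY sX sY n m w
      ≤ ∑ k ∈ Finset.Icc K (2 * K), Win ΛX ΛY hX hY zX zY sX sY n (k * t) ((k + 1) * t) w :=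
        kapL_windows ΛX ΛY hX hY zX zY sX sY (by omega) h1 h2 w
    _ ≤ ∑ k ∈ Finset.Icc K (2 * K), (η + 2 * X) := Finset.sum_le_sum hwin
    _ = ((K + 1 : ℕ) : ℝ≥0∞) * (η + 2 * X) := by
        rw [Finset.sum_const, Nat.card_Icc, nsmul_eq_mul]
        congr 2
        omega
    _ ≤ (6 * J) * (η + 2 * X) := by
        gcongr
        have : K + 1 ≤ 6 * J := by omega
        exact_mod_cast this
    _ = (6 * J) * η + 12 * (J * X) := by ring
    _ ≤ ε / 2 + 12 * (ε / 24) := by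
        gcongr
        exact ENNReal.mul_div_le
    _ = ε := by
        have : (12 : ℝ≥0∞) * (ε / 24) = ε / 2 := by
          rw [div_eq_mul_inv, div_eq_mul_inv, show (24 : ℝ≥0∞) = 12 * 2 by norm_num,
            ENNReal.mul_inv (Or.inl (by norm_num)) (Or.inl (by norm_num))]
          calc (12 : ℝ≥0∞) * (ε * (12⁻¹ * 2⁻¹)) = (12 * 12⁻¹) * (ε * 2⁻¹) := by ring
            _ = _ := by rw [ENNReal.mul_inv_cancel (by norm_num) (by norm_num), one_mul]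
        rw [this, ENNReal.add_halves]

end Crest.Agent.R154.Asm707
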