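import Crest.Agent.R154.AsmOne_933
import Crest.Agent.R154.NumAsm_334
import Crest.Agent.R154.Dens_903

/-! Row 154, road 801: sum over the windows and choice of the constants (helper933). -/

set_option autoImplicit false
set_option linter.unusedSectionVars false
set_option linter.unusedVariables false

namespace Crest.Agent.R154.FP933

open Crest.Agent.R154.B5A
open scoped ENNReal

variable {BX BY : Type*} (ΛX : BX → ℝ≥0∞) (ΛY : BY → ℝ≥0∞) (hX : BX → ℕ) (hY : BY → ℕ)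
variable {G : Type*} [AddCommGroup G] (zX : BX → G) (zY : BY → G)
variable (TX : List BX → G → ℕ → Set (G × ℕ)) (TY : List BY → G → ℕ → Set (G × ℕ))

open Classical in
/-- facing lemma, `X` local (weakest form) -/
def HH2 (C : ℝ≥0∞) (us : ℕ → ℝ≥0∞) : Prop :=
  ∀ (s h h' a a' lo hi : ℕ) (E : Finset G) (μ : G → ℝ≥0∞) (M lam : ℝ≥0∞), ∑' x, μ x ≤ 1 →
    (∀ x, μ x ≤ M) → M ≠ ⊤ → lam ≠ 0 → lam ≠ ⊤ → a ≤ a' → a + h ≤ a' + h' → a + s ≤ lo →
    a' + s ≤ lo → hi + s ≤ a + h → hi + s ≤ a' + h' →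
    ∑' x, μ x * ∑' L, ∑' L', (if HT hX L = h ∧ Dp zX L ∈ E ∧ HT hY L' = h' ∧
      CP TX TY lo hi L a L' x a' then LW ΛX L * LW ΛY L' else 0)
      ≤ C * (lam + M * E.card * us s / lam + us s)

open Classical in
/-- facing lemma, `Y` local (weakest form) -/
def HH3 (C : ℝ≥0∞) (us : ℕ → ℝ≥0∞) : Prop :=
  ∀ (s h h' a a' lo hi : ℕ) (E : Finset G) (μ : G → ℝ≥0∞) (M lam : ℝ≥0∞), ∑' x, μ x ≤ 1 →
    (∀ x, μ x ≤ M) → M ≠ ⊤ → lam ≠ 0 → lam ≠ ⊤ → a ≤ a' → a + h ≤ a' + h' → a + s ≤ lo →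
    a' + s ≤ lo → hi + s ≤ a + h → hi + s ≤ a' + h' →
    ∑' x, μ x * ∑' L, ∑' L', (if HT hX L = h ∧ HT hY L' = h' ∧ Dp zY L' ∈ E ∧
      CP TX TY lo hi L a L' x a' then LW ΛX L * LW ΛY L' else 0)
      ≤ C * (lam + M * E.card * us s / lam + us s)

open Classical in
/-- contacts in a thin slab -/
def HH5 : Prop := ∀ (s : ℕ) (η : ℝ≥0∞), η ≠ 0 → ∃ T, ∀ a, T ≤ a → ∀ (n : ℕ) (w : G),
  ∑' L, ∑' L', (if HT hX L = n ∧ HT hY L' = n ∧ (∃ k, a ≤ k ∧ k < a + s ∧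
    Ct TX TY L 0 L' w 0 k) then LW ΛX L * LW ΛY L' else 0) ≤ η

open Classical in
/-- first contact in `(m, 2m]` -/
noncomputable def KF (n m : ℕ) (w : G) : ℝ≥0∞ :=
  ∑' L, ∑' L', (if HT hX L = n ∧ HT hY L' = n ∧ (∀ k, Ct TX TY L 0 L' w 0 k → m < k) ∧
    (∃ k, k ≤ 2 * m ∧ Ct TX TY L 0 L' w 0 k) then LW ΛX L * LW ΛY L' else 0)

section single
variable {B : Type*} (Λ : B → ℝ≥0∞) (ht : B → ℕ) (zz : B → G)

/-- far part of the attempt law -/
lemma far_le (h1 : ∀ b, 1 ≤ ht b) (hU1 : ∀ n, U Λ ht n ≤ 1) (s i0 : ℕ) :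
    ∑' x, (if i0 < x.1 then Pl Λ ht zz s x else 0) ≤ ∑' j, tail Λ ht (i0 + j) := by
  have := FPS_law Λ ht zz h1 s (fun x => if i0 < x.1 then (1 : ℝ≥0∞) else 0)
  calc _ = ∑' x, Pl Λ ht zz s x * (if i0 < x.1 then 1 else 0) := by
        refine tsum_congr fun x => ?_
        split_ifs <;> simp
    _ = FPS Λ ht s (fun T => if i0 < HT ht T - s then 1 else 0) := this.symm
    _ ≤ FPS Λ ht s (fun T => if s + i0 < HT ht T then 1 else 0) := by
        refine FPS_mono' Λ ht h1 s fun T hT => ?_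
        by_cases h : i0 < HT ht T - s
        · rw [if_pos h, if_pos (by omega)]
        · rw [if_neg h]; exact zero_le
    _ ≤ _ := FPS_over Λ ht h1 hU1 s i0

/-- threshold and smooth density for one walker -/
lemma smooth (h1 : ∀ b, 1 ≤ ht b) (hΛ : ∑' b, Λ b = 1) (hU1 : ∀ n, U Λ ht n ≤ 1)
    (u : ℝ≥0∞) (hu0 : u ≠ 0) (hu1 : u ≤ 1) (s i0 J : ℕ) (ov : ℝ≥0∞)
    (hov : ∑' j, tail Λ ht (i0 + j) ≤ ov) :
    ∃ th : ℝ≥0∞, th ≠ 0 ∧ th ≤ 1 ∧
      ∑' x, (if Pl Λ ht zz s x < th then Pl Λ ht zz s x else 0) ≤ u ∧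
      ∀ h, J * (s + i0) ≤ h → ∃ Ag Bb : ℕ × G → ℝ≥0∞, (∀ x, Pl Λ ht zz h x ≤ Ag x + Bb x) ∧
        (∀ x, Ag x ≤ (i0 + 1) * th * J) ∧ ∑' x, Bb x ≤ (1 - u) ^ J + J * ov := by
  classical
  obtain ⟨th, t0, t1, t2, t3⟩ := Dens903.quantile (Pl Λ ht zz s) (Pl_sum Λ ht zz h1 hΛ s) hu0 hu1
  have hq : ∑' x, (if x.1 ≤ i0 ∧ th < Pl Λ ht zz s x then Pl Λ ht zz s x else 0) ≤ 1 - u := by
    refine ENNReal.le_sub_of_add_le_right (ne_top_of_le_ne_top ENNReal.one_ne_top hu1) ?_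
    calc _ ≤ ∑' x, (if x.1 ≤ i0 ∧ th < Pl Λ ht zz s x then Pl Λ ht zz s x else 0)
          + ∑' x, (if Pl Λ ht zz s x ≤ th then Pl Λ ht zz s x else 0) := add_le_add le_rfl t3
      _ = ∑' x, ((if x.1 ≤ i0 ∧ th < Pl Λ ht zz s x then Pl Λ ht zz s x else 0)
          + (if Pl Λ ht zz s x ≤ th then Pl Λ ht zz s x else 0)) := ENNReal.tsum_add.symm
      _ ≤ ∑' x, Pl Λ ht zz s x := by
          refine ENNReal.tsum_le_tsum fun x => ?_
          by_cases h2 : Pl Λ ht zz s x ≤ th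
          · rw [if_neg (fun h => absurd h.2 (not_lt.2 h2)), if_pos h2, zero_add]
          · rw [if_neg h2, add_zero]; split_ifs
            · exact le_rfl
            · exact zero_le
      _ = 1 := Pl_sum Λ ht zz h1 hΛ s
  have hg : ∑ j ∈ Finset.range J, (1 - u) ^ j ≤ (J : ℝ≥0∞) := by
    calc _ ≤ ∑ j ∈ Finset.range J, (1 : ℝ≥0∞) :=
          Finset.sum_le_sum fun j _ => pow_le_one₀ zero_le tsub_le_self
      _ = J := by simp
  refine ⟨th, t0, t1, t2, fun h hh => ?_⟩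
  obtain ⟨Ag, Bb, a1, a2, a3⟩ := dens Λ ht zz h1 hΛ s i0 th (1 - u) ov hq
    ((far_le Λ ht zz h1 hU1 s i0).trans hov) J h hh
  refine ⟨Ag, Bb, a1, fun x => (a2 x).trans (mul_le_mul_right hg _), a3.trans ?_⟩
  refine add_le_add le_rfl ?_
  rw [mul_comm]
  exact mul_le_mul_left hg _

end single

open Classical in
/-- **KAPPA' on lists**, `n ≥ 3 m` -/
theorem kap3 (h1X : ∀ b, 1 ≤ hX b) (h1Y : ∀ b, 1 ≤ hY b) (hΛX : ∑' b, ΛX b = 1)
    (hΛY : ∑' b, ΛY b = 1) (hUX : ∀ n, U ΛX hX n ≤ 1) (hUY : ∀ n, U ΛY hY n ≤ 1)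
    (hmX : ∑' b, ΛX b * (hX b : ℝ≥0∞) ≠ ⊤) (hmY : ∑' b, ΛY b * (hY b : ℝ≥0∞) ≠ ⊤)
    (tX : Tr hX zX TX) (tY : Tr hY zY TY) {C : ℝ≥0∞} (hC : C ≠ ⊤) {us : ℕ → ℝ≥0∞}
    (hus : Filter.Tendsto us Filter.atTop (nhds 0))
    (H2 : HH2 ΛX ΛY hX hY zX TX TY C us) (H3 : HH3 ΛX ΛY hX hY zY TX TY C us)
    (H5 : HH5 ΛX ΛY hX hY TX TY) :
    ∀ ε : ℝ≥0∞, ε ≠ 0 → ∃ M : ℕ, ∀ m, M ≤ m → ∀ n, 3 * m ≤ n → ∀ w : G,
      KF ΛX ΛY hX hY TX TY n m w ≤ ε := by
  intro ε hε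
  set ovf : ℕ → ℝ≥0∞ := fun i => ∑' j, tail ΛX hX (i + j) + ∑' j, tail ΛY hY (i + j) with hovf
  have hov : Filter.Tendsto ovf Filter.atTop (nhds 0) := by
    have := (over_tendsto ΛX hX hΛX hmX).add (over_tendsto ΛY hY hΛY hmY)
    simpa using this
  obtain ⟨K, hK8, u, hu0, hu1, i0, lam, η, hl0, hlt, hη, s, hnum⟩ := Num334.num hC hus hov hε
  obtain ⟨T5, hT5⟩ := H5 (s + 2 * i0) η hη
  set ov := ovf i0 with hovd
  have hovX : ∑' j, tail ΛX hX (i0 + j) ≤ ov := le_self_add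
  have hovY : ∑' j, tail ΛY hY (i0 + j) ≤ ov := le_add_self
  set J := K / 8 with hJ
  set η' : ℝ≥0∞ := C * (lam + (K * ((i0 : ℝ≥0∞) + 1) / u) * us s / lam + us s) with hη'
  set rough : ℝ≥0∞ := (1 - u) ^ J + J * ov with hrough
  set t0 := s + 2 * i0 + T5 + 2 * K with ht0
  refine ⟨K * (t0 + 1), fun m hm n hn w => ?_⟩
  set t := m / K with ht
  have hKpos : 0 < K := by omega
  have htm : K * t ≤ m := Nat.mul_div_le m K
  have htm' : m < K * (t + 1) := by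
    have := Nat.lt_mul_div_succ m hKpos
    simpa [ht] using this
  have htt : t0 + 1 ≤ t := by
    rw [ht]; exact (Nat.le_div_iff_mul_le hKpos).2 (by rw [mul_comm]; exact hm)
  -- one window
  have hwin : ∀ j, K ≤ j → j ≤ 2 * K →
      (∑' L, if HT hX L = n then LW ΛX L * (∑' L', if HT hY L' = n then LW ΛY L' *
      (if CQ TX TY ((j - 1) * t + t + 1) ((j - 1) * t + 2 * t) ((j - 1) * t + 3 * t - s)
        ((j - 1) * t + 3 * t + 2 * i0) w L L' then 1 else 0) else 0) else 0) ≤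
      4 * ov + (u * u + 2 * ((i0 + 1) * ((i0 + 1) * ((i0 + 1) * η')) + rough)) := by
    intro j hj1 hj2
    set A := (j - 1) * t with hA
    obtain ⟨thX, x0, x1, x2, x3⟩ := smooth ΛX hX zX h1X hΛX hUX u hu0 hu1 (3 * t) i0 J ov hovX
    obtain ⟨thY, y0, y1, y2, y3⟩ := smooth ΛY hY zY h1Y hΛY hUY u hu0 hu1 (3 * t + 2 * i0) i0 J ov
      hovY
    have hJA : J * (5 * t) ≤ A := by
      have e1 : J * 5 ≤ j - 1 := by omega
      calc J * (5 * t) = (J * 5) * t := by ring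
        _ ≤ (j - 1) * t := Nat.mul_le_mul_right t e1
    have hJX : J * (3 * t + i0) ≤ A := (Nat.mul_le_mul_left J (by omega)).trans hJA
    have hJY : J * (3 * t + 2 * i0 + i0) ≤ A + i0 :=
      ((Nat.mul_le_mul_left J (by omega)).trans hJA).trans (Nat.le_add_right _ _)
    have hAn : A + 4 * i0 + 3 * t ≤ n := by
      have e1 : A ≤ (2 * K - 1) * t := Nat.mul_le_mul_right t (by omega)
      have e2 : (2 * K - 1) * t + t = 2 * (K * t) := by
        have : (2 * K - 1) * t + t = (2 * K - 1 + 1) * t := by ring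
        rw [this, show 2 * K - 1 + 1 = 2 * K by omega]; ring
      have e3 : 8 * t ≤ K * t := Nat.mul_le_mul_right t hK8
      omega
    obtain ⟨AgX, BbX, g1, g2, g3⟩ := x3 A hJX
    obtain ⟨AgY, BbY, k1, k2, k3⟩ := y3 (A + i0) hJY
    have hMfin : ∀ th : ℝ≥0∞, th ≤ 1 → ((i0 : ℝ≥0∞) + 1) * th * J ≠ ⊤ := by
      intro th h
      refine ENNReal.mul_ne_top (ENNReal.mul_ne_top (by simp) (ne_top_of_le_ne_top
        ENNReal.one_ne_top h)) (by simp)
    have hbd : ∀ (th : ℝ≥0∞) (E : Finset G), th ≠ 0 → th ≤ 1 → (E.card : ℝ≥0∞) ≤ 1 / th →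
        C * (lam + ((i0 : ℝ≥0∞) + 1) * th * J * E.card * us s / lam + us s) ≤ η' := by
      intro th E h0 h1 hc
      have e1 : ((i0 : ℝ≥0∞) + 1) * th * J * E.card ≤ K * ((i0 : ℝ≥0∞) + 1) / u := by
        calc ((i0 : ℝ≥0∞) + 1) * th * J * E.card
            ≤ ((i0 : ℝ≥0∞) + 1) * th * J * (1 / th) := mul_le_mul_right hc _
          _ = J * ((i0 : ℝ≥0∞) + 1) * (th * (1 / th)) := by ring
          _ ≤ J * ((i0 : ℝ≥0∞) + 1) * 1 := by
              refine mul_le_mul_right ?_ _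
              rw [one_div, ENNReal.mul_inv_cancel h0 (ne_top_of_le_ne_top ENNReal.one_ne_top h1)]
          _ ≤ K * ((i0 : ℝ≥0∞) + 1) := by
              rw [mul_one]
              refine mul_le_mul_left ?_ _
              exact_mod_cast Nat.div_le_self K 8
          _ ≤ K * ((i0 : ℝ≥0∞) + 1) / u := by
              rw [ENNReal.le_div_iff_mul_le (Or.inl hu0)
                (Or.inl (ne_top_of_le_ne_top ENNReal.one_ne_top hu1))]
              exact (mul_le_mul_right hu1 _).trans (mul_one _).le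
      rw [hη']
      gcongr
    refine window ΛX ΛY hX hY zX zY TX TY h1X h1Y hΛX hΛY hUX hUY tX tY w n A (A + i0) (3 * t)
      (3 * t + 2 * i0) i0 _ _ _ _ (by omega) (by omega) (by omega) (by omega) (by omega)
      (by omega) (by omega) ov hovX hovY thX thY u (((i0 : ℝ≥0∞) + 1) * thX * J)
      (((i0 : ℝ≥0∞) + 1) * thY * J) η' x0 y0 x2 y2 AgX BbX AgY BbY rough g1 g2 g3 k1 k2 k3 ?_ ?_
    · intro a a' h h' b1 b2 b3 b4 b5 b6 b7 b8 E μ hc hμ1 hμ2
      refine (H2 s h h' a a' _ _ E μ (((i0 : ℝ≥0∞) + 1) * thX * J) lam hμ1 hμ2 (hMfin thX x1)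
        hl0 hlt (by omega) (by omega) (by omega) (by omega) (by omega) (by omega)).trans ?_
      exact hbd thX E x0 x1 hc
    · intro a a' h h' b1 b2 b3 b4 b5 b6 b7 b8 E μ hc hμ1 hμ2
      refine (H3 s h h' a a' _ _ E μ (((i0 : ℝ≥0∞) + 1) * thY * J) lam hμ1 hμ2 (hMfin thY y1)
        hl0 hlt (by omega) (by omega) (by omega) (by omega) (by omega) (by omega)).trans ?_
      exact hbd thY E y0 y1 hc
  -- slabs
  have hslab : ∀ j, K ≤ j → ∑' L, ∑' L', (if HT hX L = n ∧ HT hY L' = n ∧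
      (∃ k, (j - 1) * t + 3 * t - s < k ∧ k ≤ (j - 1) * t + 3 * t + 2 * i0 ∧
        Ct TX TY L 0 L' w 0 k) then LW ΛX L * LW ΛY L' else 0) ≤ η := by
    intro j hj
    refine le_trans ?_ (hT5 ((j - 1) * t + 3 * t - s + 1) (by omega) n w)
    refine ENNReal.tsum_le_tsum fun L => ENNReal.tsum_le_tsum fun L' => ?_
    by_cases h : HT hX L = n ∧ HT hY L' = n ∧
      (∃ k, (j - 1) * t + 3 * t - s < k ∧ k ≤ (j - 1) * t + 3 * t + 2 * i0 ∧
        Ct TX TY L 0 L' w 0 k)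
    · rw [if_pos h, if_pos]
      obtain ⟨c1, c2, k, c3, c4, c5⟩ := h
      exact ⟨c1, c2, k, by omega, by omega, c5⟩
    · rw [if_neg h]; exact zero_le
  -- cover
  have hcov : ∀ L L', (if HT hX L = n ∧ HT hY L' = n ∧
      (∀ k, Ct TX TY L 0 L' w 0 k → m < k) ∧ (∃ k, k ≤ 2 * m ∧ Ct TX TY L 0 L' w 0 k)
      then LW ΛX L * LW ΛY L' else 0) ≤ ∑ j ∈ Finset.Icc K (2 * K),
      ((if HT hX L = n then LW ΛX L * (if HT hY L' = n then LW ΛY L' *
      (if CQ TX TY ((j - 1) * t + t + 1) ((j - 1) * t + 2 * t) ((j - 1) * t + 3 * t - s)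
        ((j - 1) * t + 3 * t + 2 * i0) w L L' then 1 else 0) else 0) else 0) +
      (if HT hX L = n ∧ HT hY L' = n ∧
      (∃ k, (j - 1) * t + 3 * t - s < k ∧ k ≤ (j - 1) * t + 3 * t + 2 * i0 ∧
        Ct TX TY L 0 L' w 0 k) then LW ΛX L * LW ΛY L' else 0)) := by
    intro L L'
    by_cases h : HT hX L = n ∧ HT hY L' = n ∧
      (∀ k, Ct TX TY L 0 L' w 0 k → m < k) ∧ (∃ k, k ≤ 2 * m ∧ Ct TX TY L 0 L' w 0 k)
    · rw [if_pos h]
      obtain ⟨c1, c2, c3, c4⟩ := h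
      have hex : ∃ k, Ct TX TY L 0 L' w 0 k := ⟨c4.choose, c4.choose_spec.2⟩
      set k0 := Nat.find hex with hk0
      have hk1 : Ct TX TY L 0 L' w 0 k0 := Nat.find_spec hex
      have hk2 : ∀ k, Ct TX TY L 0 L' w 0 k → k0 ≤ k := fun k hk => Nat.find_min' hex hk
      have hk3 : m < k0 := c3 k0 hk1
      have hk4 : k0 ≤ 2 * m := (hk2 _ c4.choose_spec.2).trans c4.choose_spec.1
      have htpos : 0 < t := by omega
      set j := (k0 - 1) / t with hj
      have j1 : j * t ≤ k0 - 1 := Nat.div_mul_le_self _ _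
      have j2 : k0 - 1 < (j + 1) * t := by
        have := Nat.lt_mul_div_succ (k0 - 1) htpos
        rw [mul_comm] at this; exact this
      have j3 : K ≤ j := (Nat.le_div_iff_mul_le htpos).2 (by omega)
      have j4 : j ≤ 2 * K := by
        by_contra hcon
        have : (2 * K + 1) * t ≤ j * t := Nat.mul_le_mul_right t (by omega)
        have e1 : (2 * K + 1) * t = 2 * (K * t) + t := by ring
        have e2 : K * (t + 1) = K * t + K := by ring
        omega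
      have j5 : (j - 1) * t + t = j * t := by
        have : (j - 1) * t + t = (j - 1 + 1) * t := by ring
        rw [this, show j - 1 + 1 = j by omega]
      have j6 : (j + 1) * t = j * t + t := by ring
      refine le_trans ?_ (Finset.single_le_sum (fun _ _ => zero_le)
        (Finset.mem_Icc.2 ⟨j3, j4⟩))
      by_cases hs : ∃ k, (j - 1) * t + 3 * t - s < k ∧ k ≤ (j - 1) * t + 3 * t + 2 * i0 ∧
        Ct TX TY L 0 L' w 0 k
      · rw [if_pos (show HT hX L = n ∧ HT hY L' = n ∧ _ from ⟨c1, c2, hs⟩)]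
        exact le_add_self
      · refine le_trans ?_ le_self_add
        rw [if_pos c1, if_pos c2, if_pos, mul_one]
        refine ⟨⟨k0, by omega, by omega, hk1⟩, fun k hk => ⟨?_, fun hc => hs ⟨k, hc.1, hc.2, hk⟩⟩⟩
        have := hk2 k hk
        omega
    · rw [if_neg h]; exact zero_le
  calc KF ΛX ΛY hX hY TX TY n m w
      ≤ ∑' L, ∑' L', ∑ j ∈ Finset.Icc K (2 * K),
      ((if HT hX L = n then LW ΛX L * (if HT hY L' = n then LW ΛY L' *
      (if CQ TX TY ((j - 1) * t + t + 1) ((j - 1) * t + 2 * t) ((j - 1) * t + 3 * t - s)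
        ((j - 1) * t + 3 * t + 2 * i0) w L L' then 1 else 0) else 0) else 0) +
      (if HT hX L = n ∧ HT hY L' = n ∧
      (∃ k, (j - 1) * t + 3 * t - s < k ∧ k ≤ (j - 1) * t + 3 * t + 2 * i0 ∧
        Ct TX TY L 0 L' w 0 k) then LW ΛX L * LW ΛY L' else 0)) :=
        ENNReal.tsum_le_tsum fun L => ENNReal.tsum_le_tsum fun L' => hcov L L'
    _ = ∑ j ∈ Finset.Icc K (2 * K),
      ((∑' L, ∑' L', (if HT hX L = n then LW ΛX L * (if HT hY L' = n then LW ΛY L' *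
      (if CQ TX TY ((j - 1) * t + t + 1) ((j - 1) * t + 2 * t) ((j - 1) * t + 3 * t - s)
        ((j - 1) * t + 3 * t + 2 * i0) w L L' then 1 else 0) else 0) else 0)) +
      ∑' L, ∑' L', (if HT hX L = n ∧ HT hY L' = n ∧
      (∃ k, (j - 1) * t + 3 * t - s < k ∧ k ≤ (j - 1) * t + 3 * t + 2 * i0 ∧
        Ct TX TY L 0 L' w 0 k) then LW ΛX L * LW ΛY L' else 0)) := by
        simp_rw [Summable.tsum_finsetSum (fun _ _ => ENNReal.summable), ENNReal.tsum_add]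
    _ ≤ ∑ j ∈ Finset.Icc K (2 * K),
      ((4 * ov + (u * u + 2 * ((i0 + 1) * ((i0 + 1) * ((i0 + 1) * η')) + rough))) + η) := by
        refine Finset.sum_le_sum fun j hj => ?_
        obtain ⟨hj1, hj2⟩ := Finset.mem_Icc.1 hj
        refine add_le_add (le_trans (le_of_eq ?_) (hwin j hj1 hj2)) (hslab j hj1)
        refine tsum_congr fun L => ?_
        by_cases h : HT hX L = n
        · simp only [if_pos h, ENNReal.tsum_mul_left]
        · simp only [if_neg h, tsum_zero]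
    _ = ((K + 1 : ℕ) : ℝ≥0∞) *
      ((4 * ov + (u * u + 2 * ((i0 + 1) * ((i0 + 1) * ((i0 + 1) * η')) + rough))) + η) := by
        rw [Finset.sum_const, Nat.card_Icc, nsmul_eq_mul]
        congr 2
        omega
    _ ≤ (4 * (K : ℝ≥0∞) + 8) * (4 * ov + 4 * η + u ^ 2
        + 2 * ((1 - u) ^ (K / 8) + K * ov / u)
        + 2 * ((i0 : ℝ≥0∞) + 1) ^ 4 * η') := by
        refine mul_le_mul' ?_ ?_
        · have : ((K + 1 : ℕ) : ℝ≥0∞) ≤ ((4 * K + 8 : ℕ) : ℝ≥0∞) := by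
            exact_mod_cast (by omega : K + 1 ≤ 4 * K + 8)
          refine this.trans (le_of_eq ?_)
          push_cast; ring
        · have r1 : rough ≤ (1 - u) ^ (K / 8) + K * ov / u := by
            rw [hrough, hJ]
            refine add_le_add le_rfl ?_
            rw [ENNReal.le_div_iff_mul_le (Or.inl hu0)
                (Or.inl (ne_top_of_le_ne_top ENNReal.one_ne_top hu1))]
            calc ((K / 8 : ℕ) : ℝ≥0∞) * ov * u ≤ K * ov * 1 := by
                  gcongr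
                  exact Nat.div_le_self K 8
              _ = K * ov := mul_one _
          have r2 : ((i0 : ℝ≥0∞) + 1) * ((i0 + 1) * ((i0 + 1) * η'))
              ≤ ((i0 : ℝ≥0∞) + 1) ^ 4 * η' := by
            have e1 : (1 : ℝ≥0∞) ≤ (i0 : ℝ≥0∞) + 1 := le_add_self
            calc ((i0 : ℝ≥0∞) + 1) * ((i0 + 1) * ((i0 + 1) * η'))
                = 1 * (((i0 : ℝ≥0∞) + 1) ^ 3 * η') := by ring
              _ ≤ ((i0 : ℝ≥0∞) + 1) * (((i0 : ℝ≥0∞) + 1) ^ 3 * η') := by gcongr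
              _ = _ := by ring
          have r3 : η ≤ 4 * η := by
            calc η = 1 * η := (one_mul _).symm
              _ ≤ 4 * η := by gcongr; norm_num
          calc (4 * ov + (u * u + 2 * ((i0 + 1) * ((i0 + 1) * ((i0 + 1) * η')) + rough))) + η
              ≤ (4 * ov + (u * u + 2 * (((i0 : ℝ≥0∞) + 1) ^ 4 * η' +
                ((1 - u) ^ (K / 8) + K * ov / u)))) + 4 * η := by gcongr
            _ = _ := by ring
    _ ≤ ε := hnum

end Crest.Agent.R154.FP933
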