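import Crest.Agent.R154.B5Rec_566

/-! Row 154, ROAD 801 (helper388): first-passage lists of blocks. -/

set_option autoImplicit false

namespace Crest.Agent.R154.Asm388

open scoped ENNReal
open B5A

variable {B G : Type*} [AddCommGroup G]

/-- first passage of depth `a` -/
def FP (ht : B → ℕ) : ℕ → List B → Prop
  | a, [] => a = 0
  | a, b :: L => 0 < a ∧ FP ht (a - ht b) L

variable (Λ : B → ℝ≥0∞) (ht : B → ℕ) (dz : B → G)

lemma FP_nil (a : ℕ) : FP ht a [] ↔ a = 0 := ⟨fun h => h, fun h => h⟩
lemma FP_cons (a : ℕ) (b : B) (L : List B) : FP ht a (b :: L) ↔ 0 < a ∧ FP ht (a - ht b) L :=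
  ⟨fun h => h, fun h => h⟩

lemma FP_zero (L : List B) : FP ht 0 L ↔ L = [] := by
  cases L with
  | nil => simp [FP]
  | cons b L => simp [FP]

lemma FP_le (a : ℕ) (L : List B) (h : FP ht a L) : a ≤ HT ht L := by
  induction L generalizing a with
  | nil => simp only [FP] at h; omega
  | cons b L ih =>
    have := ih _ h.2
    rw [HT_cons]; omega

/-- displacement -/
def Dp (L : List B) : G := (L.map dz).sum

lemma Dp_nil : Dp dz [] = 0 := rfl
lemma Dp_cons (b : B) (L : List B) : Dp dz (b :: L) = dz b + Dp dz L := by simp [Dp]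
lemma Dp_append (L L' : List B) : Dp dz (L ++ L') = Dp dz L + Dp dz L' := by simp [Dp]

open Classical in
lemma split (h1 : ∀ b, 1 ≤ ht b) (a : ℕ) (g : List B → ℝ≥0∞) :
    ∑' L, (if a ≤ HT ht L then g L else 0) = ∑' A, if FP ht a A then ∑' R, g (A ++ R) else 0 := by
  induction a using Nat.strong_induction_on generalizing g with
  | _ a ih =>
    rcases Nat.eq_zero_or_pos a with rfl | ha
    · rw [tsum_eq_single ([] : List B) (f := fun A => if FP ht 0 A then ∑' R, g (A ++ R) else 0)]
      · simp [FP_nil]
      · intro A hA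
        rw [if_neg]
        rw [FP_zero]; exact hA
    · rw [tsum_list, tsum_list (fun A => if FP ht a A then ∑' R, g (A ++ R) else 0)]
      rw [if_neg (by rw [HT_nil]; omega), if_neg (by rw [FP_nil]; omega), zero_add, zero_add]
      simp only [FP_cons]
      refine tsum_congr fun b => ?_
      have hb := h1 b
      have := ih (a - ht b) (by omega) (fun L => g (b :: L))
      simp only [HT_cons, ha, true_and, List.cons_append]
      rw [← this]
      refine tsum_congr fun L => ?_
      by_cases h : a ≤ ht b + HT ht L
      · rw [if_pos h, if_pos (by omega)]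
      · rw [if_neg h, if_neg (by omega)]

open Classical in
lemma fp_split (h1 : ∀ b, 1 ≤ ht b) (T r : ℕ) (hr : T ≤ r) (g : List B → ℝ≥0∞) :
    ∑' A, (if FP ht r A then g A else 0) =
      ∑' P, if FP ht T P then ∑' A, (if FP ht (r - HT ht P) A then g (P ++ A) else 0) else 0 := by
  induction T using Nat.strong_induction_on generalizing g r with
  | _ T ih =>
    rcases Nat.eq_zero_or_pos T with rfl | ha
    · rw [tsum_eq_single ([] : List B) (f := fun P => if FP ht 0 P then
          ∑' A, (if FP ht (r - HT ht P) A then g (P ++ A) else 0) else 0)]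
      · simp [FP_nil, HT_nil]
      · intro A hA
        rw [if_neg]
        rw [FP_zero]; exact hA
    · rw [tsum_list, tsum_list (fun P => if FP ht T P then
          ∑' A, (if FP ht (r - HT ht P) A then g (P ++ A) else 0) else 0)]
      rw [if_neg (by rw [FP_nil]; omega), if_neg (by rw [FP_nil]; omega), zero_add, zero_add]
      simp only [FP_cons]
      refine tsum_congr fun b => ?_
      have hb := h1 b
      have := ih (T - ht b) (by omega) (r - ht b) (by omega) (fun L => g (b :: L))
      have hr0 : 0 < r := by omega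
      simp only [hr0, ha, true_and, List.cons_append, HT_cons]
      rw [this]
      refine tsum_congr fun P => ?_
      simp only [Nat.sub_sub]

open Classical in
lemma fp_mass (h1 : ∀ b, 1 ≤ ht b) (hΛ : ∑' b, Λ b = 1) (a : ℕ) :
    ∑' A, (if FP ht a A then LW Λ A else 0) = 1 := by
  induction a using Nat.strong_induction_on with
  | _ a ih =>
    rcases Nat.eq_zero_or_pos a with rfl | ha
    · rw [tsum_eq_single ([] : List B)]
      · simp [FP_nil, LW_nil]
      · intro A hA
        rw [if_neg]
        rw [FP_zero]; exact hA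
    · rw [tsum_list]
      rw [if_neg (by rw [FP_nil]; omega), zero_add, ← hΛ]
      simp only [FP_cons, LW_cons]
      refine tsum_congr fun b => ?_
      have hb := h1 b
      have := ih (a - ht b) (by omega)
      calc ∑' L, (if 0 < a ∧ FP ht (a - ht b) L then Λ b * LW Λ L else 0)
          = ∑' L, Λ b * (if FP ht (a - ht b) L then LW Λ L else 0) := by
            refine tsum_congr fun L => ?_
            by_cases h : FP ht (a - ht b) L <;> simp [h, ha]
        _ = Λ b := by rw [ENNReal.tsum_mul_left, this, mul_one]

open Classical in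
/-- last letter -/
lemma fp_last (h1 : ∀ b, 1 ≤ ht b) (a : ℕ) (g : List B → ℝ≥0∞) :
    ∑' A, (if FP ht a A then g A else 0) ≤ (if a = 0 then g [] else 0) +
      ∑' A1, ∑' b, if HT ht A1 < a ∧ a ≤ HT ht A1 + ht b then g (A1 ++ [b]) else 0 := by
  induction a using Nat.strong_induction_on generalizing g with
  | _ a ih =>
    rcases Nat.eq_zero_or_pos a with rfl | ha
    · rw [tsum_eq_single ([] : List B)]
      · simp [FP_nil]
      · intro A hA
        rw [if_neg]
        rw [FP_zero]; exact hA
    · rw [tsum_list, tsum_list (fun A1 => ∑' b, if HT ht A1 < a ∧ a ≤ HT ht A1 + ht b then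
          g (A1 ++ [b]) else 0)]
      rw [if_neg (by rw [FP_nil]; omega), if_neg (by omega), zero_add, zero_add,
        ← ENNReal.tsum_add]
      simp only [FP_cons, HT_nil, HT_cons, zero_add, List.nil_append, List.cons_append]
      refine ENNReal.tsum_le_tsum fun b => ?_
      have hb := h1 b
      have := ih (a - ht b) (by omega) (fun L => g (b :: L))
      simp only [ha, true_and]
      refine this.trans (add_le_add ?_ ?_)
      · by_cases h : a - ht b = 0
        · rw [if_pos h, if_pos (by omega)]
        · rw [if_neg h]; exact zero_le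
      · refine ENNReal.tsum_le_tsum fun L => ENNReal.tsum_le_tsum fun b' => ?_
        by_cases h : HT ht L < a - ht b ∧ a - ht b ≤ HT ht L + ht b'
        · rw [if_pos h, if_pos (by omega)]
        · rw [if_neg h]; exact zero_le

open Classical in
/-- overshoot -/
lemma over_le (h1 : ∀ b, 1 ≤ ht b) (hU1 : ∀ n, U Λ ht n ≤ 1) (a i : ℕ) :
    ∑' A, (if FP ht a A ∧ a + i < HT ht A then LW Λ A else 0) ≤ ∑' j, tail Λ ht (i + 1 + j) := by
  calc ∑' A, (if FP ht a A ∧ a + i < HT ht A then LW Λ A else 0)
      = ∑' A, (if FP ht a A then (if a + i < HT ht A then LW Λ A else 0) else 0) := by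
        refine tsum_congr fun A => ?_
        by_cases h : FP ht a A <;> simp [h]
    _ ≤ _ := fp_last ht h1 a _
    _ ≤ ∑' k, (if k < a then U Λ ht k * tail Λ ht (a + i - k) else 0) := by
        rw [show (if a = 0 then (if a + i < HT ht ([] : List B) then LW Λ ([] : List B) else 0)
          else (0 : ℝ≥0∞)) = 0 by simp [HT_nil], zero_add]
        have : ∀ k, (if k < a then U Λ ht k * tail Λ ht (a + i - k) else 0) =
            ∑' A1, (if HT ht A1 = k then (if k < a then LW Λ A1 * tail Λ ht (a + i - k) else 0)
              else 0) := by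
          intro k
          by_cases hk : k < a
          · simp only [hk, if_true]
            rw [U, ← ENNReal.tsum_mul_right]
            refine tsum_congr fun A1 => ?_
            split_ifs <;> simp
          · simp [hk]
        simp_rw [this]
        refine le_trans ?_ (le_of_eq ENNReal.tsum_comm)
        refine ENNReal.tsum_le_tsum fun A1 => ?_
        rw [tsum_eq_single (HT ht A1)]
        · rw [if_pos rfl]
          by_cases hk : HT ht A1 < a
          · rw [if_pos hk, tail, ← ENNReal.tsum_mul_left]
            refine ENNReal.tsum_le_tsum fun b => ?_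
            by_cases hh : a + i < HT ht (A1 ++ [b])
            · have h2 : HT ht (A1 ++ [b]) = HT ht A1 + ht b := by
                rw [HT_append, HT_cons, HT_nil]; omega
              rw [if_pos (show a + i - HT ht A1 < ht b by omega)]
              split_ifs
              · rw [LW_append, LW_cons, LW_nil, mul_one]
              · exact zero_le
            · simp [hh]
          · rw [if_neg hk]
            simp [hk]
        · intro k hk
          rw [if_neg (fun h => hk h.symm)]
    _ ≤ ∑' k, (if k < a then tail Λ ht (a + i - k) else 0) := by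
        refine ENNReal.tsum_le_tsum fun k => ?_
        split_ifs
        · calc U Λ ht k * tail Λ ht (a + i - k) ≤ 1 * tail Λ ht (a + i - k) := by gcongr; exact hU1 k
            _ = _ := one_mul _
        · exact le_rfl
    _ ≤ _ := by
        have e : ∑' k, (if k < a then tail Λ ht (a + i - k) else 0) =
            ∑ k ∈ Finset.range a, tail Λ ht (a + i - k) := by
          rw [tsum_eq_sum (s := Finset.range a)]
          · exact Finset.sum_congr rfl fun k hk => if_pos (Finset.mem_range.1 hk)
          · intro k hk; exact if_neg (fun h => hk (Finset.mem_range.2 h))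
        rw [e, ← Finset.sum_range_reflect]
        refine le_trans (le_of_eq ?_) (ENNReal.sum_le_tsum (Finset.range a))
        refine Finset.sum_congr rfl fun k hk => ?_
        have := Finset.mem_range.1 hk
        congr 1
        omega

open Classical in
/-- one attempt -/
noncomputable def pA (T : ℕ) (i : ℕ) (z : G) : ℝ≥0∞ :=
  ∑' P, if FP ht T P ∧ HT ht P = T + i ∧ Dp dz P = z then LW Λ P else 0

open Classical in
/-- law of the displacement at the first passage -/
noncomputable def Fz (r : ℕ) (z : G) : ℝ≥0∞ :=
  ∑' P, if FP ht r P ∧ Dp dz P = z then LW Λ P else 0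

open Classical in
lemma fiber (T : ℕ) (K : ℕ → G → ℝ≥0∞) :
    ∑' P, (if FP ht T P then LW Λ P * K (HT ht P) (Dp dz P) else 0) =
      ∑' i, ∑' z, pA Λ ht dz T i z * K (T + i) z := by
  simp only [pA, ← ENNReal.tsum_mul_right]
  have e : ∀ i : ℕ, ∑' z : G, ∑' P, (if FP ht T P ∧ HT ht P = T + i ∧ Dp dz P = z then LW Λ P else 0)
      * K (T + i) z = ∑' P, ∑' z : G, (if FP ht T P ∧ HT ht P = T + i ∧ Dp dz P = z then LW Λ P else 0)
      * K (T + i) z := fun i => ENNReal.tsum_comm
  simp_rw [e]
  rw [ENNReal.tsum_comm]
  refine tsum_congr fun P => ?_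
  by_cases h : FP ht T P
  · have hle := FP_le ht T P h
    rw [if_pos h, tsum_eq_single (HT ht P - T), tsum_eq_single (Dp dz P)]
    · rw [if_pos ⟨h, by omega, rfl⟩, show T + (HT ht P - T) = HT ht P by omega]
    · intro z hz
      rw [if_neg (fun h' => hz h'.2.2.symm), zero_mul]
    · intro i hi
      rw [ENNReal.tsum_eq_zero]
      intro z
      rw [if_neg (fun h' => hi (by omega)), zero_mul]
  · rw [if_neg h]
    symm
    rw [ENNReal.tsum_eq_zero]
    intro i
    rw [ENNReal.tsum_eq_zero]
    intro z
    simp [h]

open Classical in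
lemma Fz_rec (h1 : ∀ b, 1 ≤ ht b) (T r : ℕ) (hr : T ≤ r) (z : G) :
    Fz Λ ht dz r z ≤ ∑' i, ∑' z', pA Λ ht dz T i z' * Fz Λ ht dz (r - T - i) (z - z') := by
  have e := fiber Λ ht dz T (fun h z' => Fz Λ ht dz (r - h) (z - z'))
  simp only [← Nat.sub_sub] at e
  rw [← e]
  have e2 := fp_split ht h1 T r hr (fun A => if Dp dz A = z then LW Λ A else 0)
  rw [Fz]
  calc _ = ∑' A, (if FP ht r A then (if Dp dz A = z then LW Λ A else 0) else 0) := by
        refine tsum_congr fun A => ?_
        by_cases h : FP ht r A <;> simp [h]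
    _ = _ := e2
    _ ≤ _ := by
        refine ENNReal.tsum_le_tsum fun P => ?_
        by_cases h : FP ht T P
        · rw [if_pos h, if_pos h, Fz, ← ENNReal.tsum_mul_left]
          refine ENNReal.tsum_le_tsum fun A => ?_
          by_cases h2 : FP ht (r - HT ht P) A
          · simp only [h2, if_true, true_and, Dp_append, LW_append]
            by_cases h3 : Dp dz P + Dp dz A = z
            · rw [if_pos h3, if_pos (by rw [← h3]; abel)]
            · rw [if_neg h3]; exact zero_le
          · simp [h2]
        · rw [if_neg h]; exact zero_le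

open Classical in
lemma Fz_mass (h1 : ∀ b, 1 ≤ ht b) (hΛ : ∑' b, Λ b = 1) (r : ℕ) : ∑' z, Fz Λ ht dz r z = 1 := by
  rw [← fp_mass Λ ht h1 hΛ r]
  simp only [Fz]
  rw [ENNReal.tsum_comm]
  refine tsum_congr fun P => ?_
  rw [tsum_eq_single (Dp dz P)]
  · by_cases h : FP ht r P <;> simp [h]
  · intro z hz
    rw [if_neg (fun h => hz h.2.symm)]

open Classical in
lemma pA_mass (h1 : ∀ b, 1 ≤ ht b) (hΛ : ∑' b, Λ b = 1) (T : ℕ) :
    ∑' i, ∑' z, pA Λ ht dz T i z = 1 := by
  have e := fiber Λ ht dz T (fun _ _ => 1)
  simp only [mul_one] at e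
  rw [← e, fp_mass Λ ht h1 hΛ T]

open Classical in
lemma pA_far (h1 : ∀ b, 1 ≤ ht b) (hU1 : ∀ n, U Λ ht n ≤ 1) (T i0 : ℕ) :
    ∑' i, ∑' z, (if i0 < i then pA Λ ht dz T i z else 0) ≤ ∑' j, tail Λ ht (i0 + 1 + j) := by
  have e := fiber Λ ht dz T (fun h _ => if T + i0 < h then 1 else 0)
  refine le_trans (le_of_eq ?_) (over_le Λ ht h1 hU1 T i0)
  calc _ = ∑' i, ∑' z, pA Λ ht dz T i z * (if T + i0 < T + i then 1 else 0) := by
        refine tsum_congr fun i => tsum_congr fun z => ?_
        by_cases h : i0 < i
        · rw [if_pos h, if_pos (by omega), mul_one]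
        · rw [if_neg h, if_neg (by omega), mul_zero]
    _ = _ := e.symm
    _ = _ := by
        refine tsum_congr fun P => ?_
        by_cases h : FP ht T P <;> simp [h]

end Crest.Agent.R154.Asm388
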