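import Crest.Agent.R154.AsmW_396

/-! Row 154, ROAD 801 (helper396): from lists of height `n` to the windows. -/

set_option autoImplicit false
set_option linter.unusedVariables false

namespace Crest.Agent.R154.Asm396

open Crest.Agent.R154.B5A Crest.Agent.R154.Ren396
open Crest.Agent.R154.Bind12 (TT)
open scoped ENNReal

section TTl

variable {B : Type*} (ht : B → ℕ) {G : Type*} [AddCommGroup G] (z : B → G) (s : B → Set (G × ℕ))

lemma TT_append (P R : List B) (x : G) (a : ℕ) :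
    TT s z ht (P ++ R) x a = TT s z ht P x a ∪ TT s z ht R (x + dp z P) (a + HT ht P) := by
  induction P generalizing x a with
  | nil => simp [TT, dp, HT_nil]
  | cons b P ih =>
    simp only [List.cons_append, TT, ih, HT_cons, dp, List.map_cons, List.sum_cons]
    rw [Set.union_assoc, add_assoc, add_assoc]

lemma TT_shift (L : List B) (x y g : G) (a k : ℕ) :
    (g, k) ∈ TT s z ht L x a ↔ (g + y, k) ∈ TT s z ht L (x + y) a := by
  induction L generalizing x a with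
  | nil => simp [TT]
  | cons b L ih =>
    simp only [TT, Set.mem_union, Set.mem_ofPred_eq, Prod.mk.injEq]
    rw [ih (x + z b) (a + ht b), show x + z b + y = x + y + z b by abel]
    refine or_congr ?_ Iff.rfl
    constructor
    · rintro ⟨q, hq, h1, h2⟩
      exact ⟨q, hq, by rw [h1]; abel, h2⟩
    · rintro ⟨q, hq, h1, h2⟩
      refine ⟨q, hq, ?_, h2⟩
      have : g + y - y = x + y + q.1 - y := by rw [h1]
      rw [add_sub_cancel_right] at this
      rw [this]; abel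

lemma TT_depth (hs : ∀ b p, p ∈ s b → 1 ≤ p.2 ∧ p.2 ≤ ht b) (L : List B) (x g : G) (a k : ℕ)
    (h : (g, k) ∈ TT s z ht L x a) : a + 1 ≤ k ∧ k ≤ a + HT ht L := by
  induction L generalizing x a with
  | nil => simp [TT] at h
  | cons b L ih =>
    rw [HT_cons]
    simp only [TT, Set.mem_union, Set.mem_ofPred_eq, Prod.mk.injEq] at h
    rcases h with ⟨q, hq, _, h2⟩ | h
    · have := hs b q hq
      omega
    · have := ih _ _ h
      omega

end TTl

section sums

variable {B : Type*} (Λ : B → ℝ≥0∞) (ht : B → ℕ)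

lemma U_rest_le (hU1 : ∀ n, U Λ ht n ≤ 1) (n k : ℕ) (κ : ℝ≥0∞) :
    ∑' R : List B, (if k + HT ht R = n then κ * LW Λ R else 0) ≤ κ := by
  classical
  by_cases hk : k ≤ n
  · calc _ = κ * U Λ ht (n - k) := by
          rw [U, ← ENNReal.tsum_mul_left]
          refine tsum_congr fun R => ?_
          by_cases h : HT ht R = n - k
          · rw [if_pos h, if_pos (by omega)]
          · rw [if_neg h, if_neg (by omega), mul_zero]
      _ ≤ κ * 1 := mul_le_mul_right (hU1 _) _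
      _ = κ := mul_one κ
  · refine le_trans (le_of_eq ?_) (zero_le (a := κ))
    rw [ENNReal.tsum_eq_zero]
    intro R
    rw [if_neg (by omega)]

open Classical in
/-- lists with a marked prefix pair -/
theorem mark_le (hU1 : ∀ n, U Λ ht n ≤ 1) (n : ℕ) (Ψ : List B → List B → Prop) :
    ∑' L : List B, (if ∃ t : List B × List B × List B, t.1 ++ (t.2.1 ++ t.2.2) = L ∧
        (HT ht t.1 + (HT ht t.2.1 + HT ht t.2.2) = n ∧ Ψ t.1 t.2.1) then LW Λ L else 0)
      ≤ ∑' P : List B, ∑' P2 : List B, (if Ψ P P2 then LW Λ P * LW Λ P2 else 0) := by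
  refine (tsum_ex_le (fun t : List B × List B × List B => t.1 ++ (t.2.1 ++ t.2.2))
    (fun t => HT ht t.1 + (HT ht t.2.1 + HT ht t.2.2) = n ∧ Ψ t.1 t.2.1) (LW Λ)).trans ?_
  rw [ENNReal.tsum_prod']
  simp_rw [ENNReal.tsum_prod']
  refine ENNReal.tsum_le_tsum fun P => ENNReal.tsum_le_tsum fun P2 => ?_
  by_cases h : Ψ P P2
  · rw [if_pos h]
    refine le_trans (le_of_eq (tsum_congr fun R => ?_))
      (U_rest_le Λ ht hU1 n (HT ht P + HT ht P2) (LW Λ P * LW Λ P2))
    simp only [LW_append]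
    by_cases h2 : HT ht P + (HT ht P2 + HT ht R) = n
    · rw [if_pos ⟨h2, h⟩, if_pos (by omega), mul_assoc]
    · rw [if_neg (fun hh => h2 hh.1), if_neg (by omega)]
  · rw [if_neg h]
    refine le_of_eq ?_
    rw [ENNReal.tsum_eq_zero]
    intro R
    rw [if_neg (fun hh => h hh.2)]

open Classical in
/-- overshoot of the first renewal `≥ A` or of the next piece `≥ T`: weight `≤ 2 e` -/
theorem over2_le (hΛ : ∑' b, Λ b ≤ 1) (h1 : ∀ b, 1 ≤ ht b) (hU1 : ∀ n, U Λ ht n ≤ 1)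
    (n A T i0 : ℕ) :
    ∑' L : List B, (if ∃ t : List B × List B × List B, t.1 ++ (t.2.1 ++ t.2.2) = L ∧
        (HT ht t.1 + (HT ht t.2.1 + HT ht t.2.2) = n ∧
          ((FR ht t.1 A ∧ A + i0 < HT ht t.1 ∧ t.2.1 = []) ∨
           (FR ht t.1 A ∧ FR ht t.2.1 T ∧ T + i0 < HT ht t.2.1))) then LW Λ L else 0)
      ≤ 2 * TS Λ ht (i0 + 1) := by
  refine (mark_le Λ ht hU1 n (fun P P2 => (FR ht P A ∧ A + i0 < HT ht P ∧ P2 = []) ∨
           (FR ht P A ∧ FR ht P2 T ∧ T + i0 < HT ht P2))).trans ?_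
  calc _ ≤ ∑' P : List B, ∑' P2 : List B,
        ((if P2 = [] then (if FR ht P A ∧ A + i0 < HT ht P then LW Λ P else 0) else 0) +
        (if FR ht P A then LW Λ P else 0) *
          (if FR ht P2 T ∧ T + i0 < HT ht P2 then LW Λ P2 else 0)) := by
        refine ENNReal.tsum_le_tsum fun P => ENNReal.tsum_le_tsum fun P2 => ?_
        by_cases h : (FR ht P A ∧ A + i0 < HT ht P ∧ P2 = []) ∨
           (FR ht P A ∧ FR ht P2 T ∧ T + i0 < HT ht P2)
        · rw [if_pos h]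
          rcases h with ⟨h2, h3, h4⟩ | ⟨h2, h3, h4⟩
          · refine le_add_right ?_
            rw [if_pos h4, if_pos ⟨h2, h3⟩, h4, LW_nil, mul_one]
          · refine le_add_left ?_
            rw [if_pos h2, if_pos ⟨h3, h4⟩]
        · rw [if_neg h]; exact zero_le
    _ = ∑' P : List B, ((if FR ht P A ∧ A + i0 < HT ht P then LW Λ P else 0) +
        (if FR ht P A then LW Λ P else 0) *
          ∑' P2 : List B, (if FR ht P2 T ∧ T + i0 < HT ht P2 then LW Λ P2 else 0)) := by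
        refine tsum_congr fun P => ?_
        rw [ENNReal.tsum_add, ENNReal.tsum_mul_left, tsum_ite_eq]
    _ ≤ TS Λ ht (i0 + 1) + 1 * TS Λ ht (i0 + 1) := by
        rw [ENNReal.tsum_add, ENNReal.tsum_mul_right]
        exact add_le_add (over_le Λ ht hU1 A i0)
          (mul_le_mul' (mass_FR Λ ht hΛ h1 A) (over_le Λ ht hU1 T i0))
    _ = _ := by ring

end sums

section pair

variable {BX BY : Type*} (ΛX : BX → ℝ≥0∞) (ΛY : BY → ℝ≥0∞) (hX : BX → ℕ) (hY : BY → ℕ)
  {G : Type*} [AddCommGroup G] (zX : BX → G) (zY : BY → G)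
  (sX : BX → Set (G × ℕ)) (sY : BY → Set (G × ℕ))

open Classical in
/-- pairs of lists with marked prefix pairs -/
theorem mark2_le (hU1X : ∀ n, U ΛX hX n ≤ 1) (hU1Y : ∀ n, U ΛY hY n ≤ 1) (n : ℕ)
    (Ψ : List BX → List BY → List BX → List BY → Prop) :
    ∑' LL : List BX × List BY, (if ∃ t : (List BX × List BY) × (List BX × List BY) ×
        (List BX × List BY),
        ((t.1.1 ++ (t.2.1.1 ++ t.2.2.1), t.1.2 ++ (t.2.1.2 ++ t.2.2.2)) : List BX × List BY) = LL ∧
        (HT hX t.1.1 + (HT hX t.2.1.1 + HT hX t.2.2.1) = n ∧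
          HT hY t.1.2 + (HT hY t.2.1.2 + HT hY t.2.2.2) = n ∧
          Ψ t.1.1 t.1.2 t.2.1.1 t.2.1.2) then LW ΛX LL.1 * LW ΛY LL.2 else 0)
      ≤ ∑' P : List BX, ∑' Q : List BY, ∑' P2 : List BX, ∑' Q2 : List BY,
        (if Ψ P Q P2 Q2 then LW ΛX P * LW ΛX P2 * (LW ΛY Q * LW ΛY Q2) else 0) := by
  refine (tsum_ex_le (fun t : (List BX × List BY) × (List BX × List BY) × (List BX × List BY) =>
    ((t.1.1 ++ (t.2.1.1 ++ t.2.2.1), t.1.2 ++ (t.2.1.2 ++ t.2.2.2)) : List BX × List BY))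
    (fun t => HT hX t.1.1 + (HT hX t.2.1.1 + HT hX t.2.2.1) = n ∧
          HT hY t.1.2 + (HT hY t.2.1.2 + HT hY t.2.2.2) = n ∧
          Ψ t.1.1 t.1.2 t.2.1.1 t.2.1.2)
    (fun LL => LW ΛX LL.1 * LW ΛY LL.2)).trans ?_
  rw [ENNReal.tsum_prod']
  simp_rw [ENNReal.tsum_prod']
  refine ENNReal.tsum_le_tsum fun P => ENNReal.tsum_le_tsum fun Q =>
    ENNReal.tsum_le_tsum fun P2 => ENNReal.tsum_le_tsum fun Q2 => ?_
  by_cases h : Ψ P Q P2 Q2
  · rw [if_pos h]
    calc _ = ∑' R : List BX, ∑' R' : List BY,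
          (if HT hX P + HT hX P2 + HT hX R = n then LW ΛX P * LW ΛX P2 * LW ΛX R else 0) *
          (if HT hY Q + HT hY Q2 + HT hY R' = n then LW ΛY Q * LW ΛY Q2 * LW ΛY R' else 0) := by
          refine tsum_congr fun R => tsum_congr fun R' => ?_
          simp only [LW_append]
          by_cases h2 : HT hX P + (HT hX P2 + HT hX R) = n
          · by_cases h3 : HT hY Q + (HT hY Q2 + HT hY R') = n
            · rw [if_pos ⟨h2, h3, h⟩, if_pos (by omega), if_pos (by omega)]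
              ring
            · rw [if_neg (fun hh => h3 hh.2.1), if_neg (c := _ + _ + HT hY R' = n) (by omega),
                mul_zero]
          · rw [if_neg (fun hh => h2 hh.1), if_neg (c := _ + _ + HT hX R = n) (by omega), zero_mul]
      _ = (∑' R : List BX,
          (if HT hX P + HT hX P2 + HT hX R = n then LW ΛX P * LW ΛX P2 * LW ΛX R else 0)) *
          ∑' R' : List BY,
          (if HT hY Q + HT hY Q2 + HT hY R' = n then LW ΛY Q * LW ΛY Q2 * LW ΛY R' else 0) := by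
          rw [← ENNReal.tsum_mul_right]
          exact tsum_congr fun R => ENNReal.tsum_mul_left
      _ ≤ _ := mul_le_mul' (U_rest_le ΛX hX hU1X n _ _) (U_rest_le ΛY hY hU1Y n _ _)
  · rw [if_neg h]
    refine le_of_eq ?_
    rw [ENNReal.tsum_eq_zero]
    intro R
    rw [ENNReal.tsum_eq_zero]
    intro R'
    rw [if_neg (fun hh => h hh.2.2)]

/-- the window event on `(P, Q, P2, Q2)` -/
def WE (T i0 A lo hi : ℕ) (w : G) (P : List BX) (Q : List BY) (P2 : List BX) (Q2 : List BY) :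
    Prop :=
  (FR hX P A ∧ HT hX P ≤ A + i0) ∧ (FR hY Q A ∧ HT hY Q ≤ A + i0) ∧
    (FR hX P2 T ∧ HT hX P2 ≤ T + i0 ∧ FR hY Q2 T ∧ HT hY Q2 ≤ T + i0 ∧ True ∧
      CC hX hY zX zY sX sY P2 Q2 (w + dp zY Q - dp zX P) (HT hX P) (HT hY Q) lo hi)

open Classical in
/-- the four-fold sum is the left side of `window` -/
theorem we_sum (T i0 A lo hi : ℕ) (w : G) :
    ∑' P : List BX, ∑' Q : List BY, ∑' P2 : List BX, ∑' Q2 : List BY,
        (if WE hX hY zX zY sX sY T i0 A lo hi w P Q P2 Q2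
          then LW ΛX P * LW ΛX P2 * (LW ΛY Q * LW ΛY Q2) else 0)
      = ∑' P : List BX, (if FR hX P A ∧ HT hX P ≤ A + i0 then LW ΛX P *
      ∑' Q : List BY, (if FR hY Q A ∧ HT hY Q ≤ A + i0 then LW ΛY Q *
        FW ΛX ΛY hX hY zX zY sX sY T i0 lo hi (fun _ _ => True) (HT hX P) (HT hY Q)
          (w + dp zY Q - dp zX P) else 0) else 0) := by
  refine tsum_congr fun P => ?_
  by_cases h1 : FR hX P A ∧ HT hX P ≤ A + i0
  · rw [if_pos h1, ← ENNReal.tsum_mul_left]
    refine tsum_congr fun Q => ?_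
    by_cases h2 : FR hY Q A ∧ HT hY Q ≤ A + i0
    · rw [if_pos h2, FW, ← ENNReal.tsum_mul_left, ← ENNReal.tsum_mul_left]
      refine tsum_congr fun P2 => ?_
      rw [← ENNReal.tsum_mul_left, ← ENNReal.tsum_mul_left]
      refine tsum_congr fun Q2 => ?_
      by_cases h3 : FR hX P2 T ∧ HT hX P2 ≤ T + i0 ∧ FR hY Q2 T ∧ HT hY Q2 ≤ T + i0 ∧ True ∧
          CC hX hY zX zY sX sY P2 Q2 (w + dp zY Q - dp zX P) (HT hX P) (HT hY Q) lo hi
      · rw [if_pos (show WE hX hY zX zY sX sY T i0 A lo hi w P Q P2 Q2 from ⟨h1, h2, h3⟩),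
          if_pos h3]
        ring
      · rw [if_neg (fun hh : WE hX hY zX zY sX sY T i0 A lo hi w P Q P2 Q2 => h3 hh.2.2),
          if_neg h3]
        simp
    · rw [if_neg h2, mul_zero, ENNReal.tsum_eq_zero]
      intro P2
      rw [ENNReal.tsum_eq_zero]
      intro Q2
      rw [if_neg (fun hh => h2 hh.2.1)]
  · rw [if_neg h1, ENNReal.tsum_eq_zero]
    intro Q
    rw [ENNReal.tsum_eq_zero]
    intro P2
    rw [ENNReal.tsum_eq_zero]
    intro Q2
    rw [if_neg (fun hh => h1 hh.1)]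

/-- **pointwise**: a common site of depth in `[jT, (j+1)T)`, no common site in the slabs round the
multiples `jT`, `(j+1)T`: an overshoot, or the window event. -/
theorem pointwise (hsX : ∀ b p, p ∈ sX b → 1 ≤ p.2 ∧ p.2 ≤ hX b)
    (hsY : ∀ b p, p ∈ sY b → 1 ≤ p.2 ∧ p.2 ≤ hY b) (n T i0 A σ : ℕ) (hσ : 2 * i0 + 1 ≤ σ)
    (hn : A + i0 + T ≤ n) (w : G) (LX : List BX) (LY : List BY) (hLX : HT hX LX = n)
    (hLY : HT hY LY = n) (z0 : G) (k0 : ℕ) (hk0 : A ≤ k0 ∧ k0 < A + T)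
    (hz0 : (z0, k0) ∈ TT sX zX hX LX 0 0 ∧ (z0, k0) ∈ TT sY zY hY LY w 0)
    (hslab : ∀ z k, (z, k) ∈ TT sX zX hX LX 0 0 → (z, k) ∈ TT sY zY hY LY w 0 →
      (A ≤ k + σ ∧ k < A + σ → False) ∧ (A + T ≤ k + σ ∧ k < A + T + σ → False)) :
    (∃ t : List BX × List BX × List BX, t.1 ++ (t.2.1 ++ t.2.2) = LX ∧
        (HT hX t.1 + (HT hX t.2.1 + HT hX t.2.2) = n ∧
          ((FR hX t.1 A ∧ A + i0 < HT hX t.1 ∧ t.2.1 = []) ∨
           (FR hX t.1 A ∧ FR hX t.2.1 T ∧ T + i0 < HT hX t.2.1)))) ∨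
    (∃ t : List BY × List BY × List BY, t.1 ++ (t.2.1 ++ t.2.2) = LY ∧
        (HT hY t.1 + (HT hY t.2.1 + HT hY t.2.2) = n ∧
          ((FR hY t.1 A ∧ A + i0 < HT hY t.1 ∧ t.2.1 = []) ∨
           (FR hY t.1 A ∧ FR hY t.2.1 T ∧ T + i0 < HT hY t.2.1)))) ∨
    (∃ t : (List BX × List BY) × (List BX × List BY) × (List BX × List BY),
        ((t.1.1 ++ (t.2.1.1 ++ t.2.2.1), t.1.2 ++ (t.2.1.2 ++ t.2.2.2)) : List BX × List BY)
          = (LX, LY) ∧
        (HT hX t.1.1 + (HT hX t.2.1.1 + HT hX t.2.2.1) = n ∧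
          HT hY t.1.2 + (HT hY t.2.1.2 + HT hY t.2.2.2) = n ∧
          WE hX hY zX zY sX sY T i0 A (A + σ) (A + T - σ) w t.1.1 t.1.2 t.2.1.1 t.2.1.2)) := by
  obtain ⟨P, L1, hP, hPF⟩ := FR_exists hX LX (T := A) (by omega)
  obtain ⟨Q, L2, hQ, hQF⟩ := FR_exists hY LY (T := A) (by omega)
  have hPn : HT hX P + HT hX L1 = n := by rw [← HT_append, hP, hLX]
  have hQn : HT hY Q + HT hY L2 = n := by rw [← HT_append, hQ, hLY]
  by_cases o1 : A + i0 < HT hX P
  · left
    exact ⟨(P, [], L1), by simpa using hP, by simpa [HT_nil] using hPn, Or.inl ⟨hPF, o1, rfl⟩⟩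
  by_cases o2 : A + i0 < HT hY Q
  · right; left
    exact ⟨(Q, [], L2), by simpa using hQ, by simpa [HT_nil] using hQn, Or.inl ⟨hQF, o2, rfl⟩⟩
  obtain ⟨P2, R, hP2, hP2F⟩ := FR_exists hX L1 (T := T) (by omega)
  obtain ⟨Q2, R', hQ2, hQ2F⟩ := FR_exists hY L2 (T := T) (by omega)
  have hPn2 : HT hX P + (HT hX P2 + HT hX R) = n := by rw [← HT_append hX P2 R, hP2, hPn]
  have hQn2 : HT hY Q + (HT hY Q2 + HT hY R') = n := by rw [← HT_append hY Q2 R', hQ2, hQn]
  by_cases o3 : T + i0 < HT hX P2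
  · left
    exact ⟨(P, P2, R), by simp only [hP2, hP], hPn2, Or.inr ⟨hPF, hP2F, o3⟩⟩
  by_cases o4 : T + i0 < HT hY Q2
  · right; left
    exact ⟨(Q, Q2, R'), by simp only [hQ2, hQ], hQn2, Or.inr ⟨hQF, hQ2F, o4⟩⟩
  right; right
  have eX : LX = P ++ (P2 ++ R) := by rw [hP2, hP]
  have eY : LY = Q ++ (Q2 ++ R') := by rw [hQ2, hQ]
  have f1 := FR_le hX hPF
  have f2 := FR_le hY hQF
  have f3 := FR_le hX hP2F
  have f4 := FR_le hY hQ2F
  refine ⟨((P, Q), (P2, Q2), (R, R')), by rw [eX, eY], hPn2, hQn2, ⟨hPF, not_lt.1 o1⟩,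
    ⟨hQF, not_lt.1 o2⟩, hP2F, not_lt.1 o3, hQ2F, not_lt.1 o4, trivial, ?_, ?_⟩
  · -- the common site is in both pieces
    obtain ⟨g1, g2⟩ := hz0
    have g3 := hslab z0 k0 g1 g2
    have hk1 : A + σ ≤ k0 := by
      by_contra hcon
      exact g3.1 ⟨by omega, by omega⟩
    rw [eX, TT_append, TT_append] at g1
    rw [eY, TT_append, TT_append] at g2
    refine ⟨z0 - dp zX P, k0, ?_, ?_⟩
    · rcases g1 with g1 | g1 | g1
      · have := TT_depth hX zX sX hsX _ _ _ _ _ g1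
        omega
      · rw [zero_add, zero_add] at g1
        rw [TT_shift hX zX sX P2 0 (dp zX P)]
        simpa using g1
      · have := TT_depth hX zX sX hsX _ _ _ _ _ g1
        omega
    · rcases g2 with g2 | g2 | g2
      · have := TT_depth hY zY sY hsY _ _ _ _ _ g2
        omega
      · rw [zero_add] at g2
        rw [TT_shift hY zY sY Q2 _ (dp zX P)]
        simpa using g2
      · have := TT_depth hY zY sY hsY _ _ _ _ _ g2
        omega
  · intro z k g1 g2
    have h1 : HT hX P + 1 ≤ k ∧ k ≤ HT hX P + HT hX P2 := TT_depth hX zX sX hsX _ _ _ _ _ g1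
    have g1' : (z + dp zX P, k) ∈ TT sX zX hX LX 0 0 := by
      rw [eX, TT_append, TT_append]
      right; left
      rw [zero_add, zero_add]
      rw [TT_shift hX zX sX P2 0 (dp zX P)] at g1
      simpa using g1
    have g2' : (z + dp zX P, k) ∈ TT sY zY hY LY w 0 := by
      rw [eY, TT_append, TT_append]
      right; left
      rw [zero_add]
      rw [TT_shift hY zY sY Q2 _ (dp zX P)] at g2
      simpa using g2
    have g3 := hslab _ _ g1' g2'
    refine ⟨?_, ?_⟩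
    · by_contra hcon
      exact g3.1 ⟨by omega, by omega⟩
    · by_contra hcon
      exact g3.2 ⟨by omega, by omega⟩

end pair

end Crest.Agent.R154.Asm396
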