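import Crest.Agent.R154.Ren_396
import Crest.Agent.R154.Dens_903

/-! Row 154, ROAD 801 (helper707): single-walker part of the list assembly. -/

set_option autoImplicit false

namespace Crest.Agent.R154.Asm707

open scoped ENNReal
open Crest.Agent.R154.B5A Crest.Agent.R154.Ren396

variable {B : Type*} (Λ : B → ℝ≥0∞) (ht : B → ℕ)

open Classical in
/-- weight of the first-renewal lists with small overshoot -/
noncomputable def wt (A i0 : ℕ) (P : List B) : ℝ≥0∞ :=
  if FR ht P A ∧ HT ht P ≤ A + i0 then LW Λ P else 0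

lemma wt_mass (hΛ : ∑' b, Λ b ≤ 1) (h1 : ∀ b, 1 ≤ ht b) (A i0 : ℕ) :
    ∑' P, wt Λ ht A i0 P ≤ 1 := by
  classical
  refine le_trans (ENNReal.tsum_le_tsum fun P => ?_) (mass_FR Λ ht hΛ h1 A)
  unfold wt
  by_cases h : FR ht P A
  · rw [if_pos h]; split_ifs
    · exact le_rfl
    · exact zero_le
  · rw [if_neg (fun hh => h hh.1), if_neg h]

open Classical in
lemma mass_FR_eq (hΛ : ∑' b, Λ b = 1) (h1 : ∀ b, 1 ≤ ht b) (A : ℕ) :
    ∑' L : List B, (if FR ht L A then LW Λ L else 0) = 1 := by
  induction A using Nat.strong_induction_on with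
  | _ A ih =>
    rw [tsum_list]
    rcases Nat.eq_zero_or_pos A with h0 | h0
    · subst h0
      simp [FR, LW_nil]
    · have e0 : (if FR ht ([] : List B) A then LW Λ [] else 0) = 0 := by
        rw [if_neg]; simp only [FR]; omega
      rw [e0, zero_add]
      calc _ = ∑' b, Λ b * ∑' L : List B, (if FR ht L (A - ht b) then LW Λ L else 0) := by
            refine tsum_congr fun b => ?_
            rw [← ENNReal.tsum_mul_left]
            refine tsum_congr fun L => ?_
            simp only [FR, LW_cons]
            by_cases h2 : FR ht L (A - ht b)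
            · rw [if_pos ⟨by omega, h2⟩, if_pos h2]
            · rw [if_neg (fun h => h2 h.2), if_neg h2, mul_zero]
        _ = ∑' b, Λ b * 1 := by
            refine tsum_congr fun b => ?_
            rw [ih _ (by have := h1 b; omega)]
        _ = 1 := by simpa using hΛ

open Classical in
lemma rest_le (hU1 : ∀ n, U Λ ht n ≤ 1) (k n : ℕ) (a : ℝ≥0∞) (g : List B → ℝ≥0∞)
    (hg : ∀ R, g R ≤ 1) :
    ∑' R : List B, (if k + HT ht R = n then a * LW Λ R * g R else 0) ≤ a := by
  by_cases hk : k ≤ n
  · calc _ ≤ ∑' R : List B, a * (if HT ht R = n - k then LW Λ R else 0) := by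
          refine ENNReal.tsum_le_tsum fun R => ?_
          by_cases h : k + HT ht R = n
          · rw [if_pos h, if_pos (by omega)]
            calc a * LW Λ R * g R ≤ a * LW Λ R * 1 := mul_le_mul_right (hg R) _
              _ = _ := mul_one _
          · rw [if_neg h]; exact zero_le
      _ = a * U Λ ht (n - k) := by rw [ENNReal.tsum_mul_left, U]
      _ ≤ a * 1 := mul_le_mul_right (hU1 _) _
      _ = a := mul_one _
  · refine le_trans (le_of_eq ?_) zero_le
    rw [ENNReal.tsum_eq_zero]
    intro R
    rw [if_neg (by omega)]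

open Classical in
/-- split a list of height `n` into top, piece and rest -/
theorem three (hU1 : ∀ n, U Λ ht n ≤ 1) (hΛ : ∑' b, Λ b ≤ 1) (h1 : ∀ b, 1 ≤ ht b)
    (n A T i0 : ℕ) (hn : A + i0 + T ≤ n) (g : List B → ℝ≥0∞) (hg : ∀ L, g L ≤ 1)
    (pe : List B → List B → ℝ≥0∞)
    (hpe : ∀ P1 P2 P3, FR ht P1 A → HT ht P1 ≤ A + i0 → FR ht P2 T → HT ht P2 ≤ T + i0 →
      HT ht P1 + (HT ht P2 + HT ht P3) = n → g (P1 ++ (P2 ++ P3)) ≤ pe P1 P2) :
    ∑' L : List B, (if HT ht L = n then LW Λ L * g L else 0)
      ≤ 2 * TS Λ ht (i0 + 1) + ∑' P1, ∑' P2, wt Λ ht A i0 P1 * wt Λ ht T i0 P2 * pe P1 P2 := by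
  have hm := mass_FR Λ ht hΛ h1
  have e1 : ∑' L : List B, (if HT ht L = n then LW Λ L * g L else 0)
      = ∑' P : List B, (if FR ht P A then ∑' R : List B,
        (if HT ht P + HT ht R = n then LW Λ P * LW Λ R * g (P ++ R) else 0) else 0) := by
    have := split_FR ht A (fun L => if HT ht L = n then LW Λ L * g L else 0)
    calc _ = ∑' L : List B, (if A ≤ HT ht L then (if HT ht L = n then LW Λ L * g L else 0)
          else 0) := by
          refine tsum_congr fun L => ?_
          by_cases h : HT ht L = n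
          · rw [if_pos h, if_pos (by omega)]
          · rw [if_neg h]; simp
      _ = _ := this
      _ = _ := by
          refine tsum_congr fun P => ?_
          by_cases h : FR ht P A
          · rw [if_pos h, if_pos h]
            refine tsum_congr fun R => ?_
            rw [HT_append, LW_append]
          · rw [if_neg h, if_neg h]
  -- the inner bound
  have e2 : ∀ P : List B, (if FR ht P A then ∑' R : List B,
        (if HT ht P + HT ht R = n then LW Λ P * LW Λ R * g (P ++ R) else 0) else 0)
      ≤ (if FR ht P A ∧ A + i0 < HT ht P then LW Λ P else 0)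
        + ((if FR ht P A then LW Λ P else 0) * TS Λ ht (i0 + 1)
        + ∑' P2, wt Λ ht A i0 P * wt Λ ht T i0 P2 * pe P P2) := by
    intro P
    by_cases hP : FR ht P A
    · by_cases hH : HT ht P ≤ A + i0
      · rw [if_pos hP, if_neg (by omega), zero_add, if_pos hP]
        have e3 : ∑' R : List B,
            (if HT ht P + HT ht R = n then LW Λ P * LW Λ R * g (P ++ R) else 0)
            = ∑' P2 : List B, (if FR ht P2 T then ∑' P3 : List B,
              (if HT ht P + (HT ht P2 + HT ht P3) = n then
                LW Λ P * (LW Λ P2 * LW Λ P3) * g (P ++ (P2 ++ P3)) else 0) else 0) := by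
          have := split_FR ht T (fun R => if HT ht P + HT ht R = n then
            LW Λ P * LW Λ R * g (P ++ R) else 0)
          calc _ = ∑' R : List B, (if T ≤ HT ht R then (if HT ht P + HT ht R = n then
                LW Λ P * LW Λ R * g (P ++ R) else 0) else 0) := by
                refine tsum_congr fun R => ?_
                by_cases h : HT ht P + HT ht R = n
                · rw [if_pos h, if_pos (by omega)]
                · rw [if_neg h]; simp
            _ = _ := this
            _ = _ := by
                refine tsum_congr fun P2 => ?_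
                by_cases h : FR ht P2 T
                · rw [if_pos h, if_pos h]
                  refine tsum_congr fun R => ?_
                  rw [HT_append, LW_append]
                · rw [if_neg h, if_neg h]
        rw [e3]
        calc _ ≤ ∑' P2 : List B, (LW Λ P * (if FR ht P2 T ∧ T + i0 < HT ht P2 then LW Λ P2
                else 0) + wt Λ ht A i0 P * wt Λ ht T i0 P2 * pe P P2) := by
              refine ENNReal.tsum_le_tsum fun P2 => ?_
              by_cases h2 : FR ht P2 T
              · rw [if_pos h2]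
                by_cases hH2 : HT ht P2 ≤ T + i0
                · rw [if_neg (by omega), mul_zero, zero_add]
                  have : wt Λ ht A i0 P * wt Λ ht T i0 P2 * pe P P2
                      = LW Λ P * LW Λ P2 * pe P P2 := by
                    rw [wt, wt, if_pos ⟨hP, hH⟩, if_pos ⟨h2, hH2⟩]
                  rw [this]
                  calc _ ≤ ∑' P3 : List B, (if (HT ht P + HT ht P2) + HT ht P3 = n then
                        (LW Λ P * LW Λ P2 * pe P P2) * LW Λ P3 * 1 else 0) := by
                        refine ENNReal.tsum_le_tsum fun P3 => ?_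
                        by_cases h3 : HT ht P + (HT ht P2 + HT ht P3) = n
                        · rw [if_pos h3, if_pos (by omega)]
                          calc _ ≤ LW Λ P * (LW Λ P2 * LW Λ P3) * pe P P2 :=
                                mul_le_mul_right (hpe _ _ _ hP hH h2 hH2 h3) _
                            _ = _ := by ring
                        · rw [if_neg h3]; exact zero_le
                    _ ≤ _ := rest_le Λ ht hU1 _ _ _ _ (fun _ => le_rfl)
                · rw [if_pos ⟨h2, by omega⟩]
                  refine le_add_right ?_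
                  calc _ = ∑' P3 : List B, (if (HT ht P + HT ht P2) + HT ht P3 = n then
                        (LW Λ P * LW Λ P2) * LW Λ P3 * g (P ++ (P2 ++ P3)) else 0) := by
                        refine tsum_congr fun P3 => ?_
                        by_cases h3 : HT ht P + (HT ht P2 + HT ht P3) = n
                        · rw [if_pos h3, if_pos (by omega)]; ring
                        · rw [if_neg h3, if_neg (by omega)]
                    _ ≤ _ := rest_le Λ ht hU1 _ _ _ _ (fun _ => hg _)
              · rw [if_neg h2]; exact zero_le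
          _ = LW Λ P * ∑' P2 : List B, (if FR ht P2 T ∧ T + i0 < HT ht P2 then LW Λ P2
                else 0) + ∑' P2, wt Λ ht A i0 P * wt Λ ht T i0 P2 * pe P P2 := by
              rw [ENNReal.tsum_add, ENNReal.tsum_mul_left]
          _ ≤ _ := add_le_add (mul_le_mul_right (over_le Λ ht hU1 T i0) _) le_rfl
      · rw [if_pos hP, if_pos ⟨hP, by omega⟩]
        refine le_add_right ?_
        exact rest_le Λ ht hU1 _ _ _ _ (fun _ => hg _)
    · rw [if_neg hP]; exact zero_le
  rw [e1]
  refine (ENNReal.tsum_le_tsum e2).trans ?_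
  rw [ENNReal.tsum_add, ENNReal.tsum_add, ENNReal.tsum_mul_right, ← add_assoc]
  refine add_le_add ?_ le_rfl
  rw [two_mul]
  refine add_le_add (over_le Λ ht hU1 A i0) ?_
  calc _ ≤ 1 * TS Λ ht (i0 + 1) := mul_le_mul_left (hm A) _
    _ = _ := one_mul _

variable {G : Type*} [AddCommGroup G] (z : B → G)

open Classical in
/-- sum over the top list through its law -/
lemma sum_top (A i0 : ℕ) (Φ : ℕ → G → ℝ≥0∞) :
    ∑' P, wt Λ ht A i0 P * Φ (HT ht P) (dp z P)
      ≤ ∑ i ∈ Finset.range (i0 + 1), ∑' δ, W Λ ht z A (A + i) δ * Φ (A + i) δ := by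
  calc _ ≤ ∑' P : List B, ∑ i ∈ Finset.range (i0 + 1), ∑' δ,
        (if FR ht P A then (if HT ht P = A + i ∧ dp z P = δ then LW Λ P else 0) else 0)
          * Φ (A + i) δ := by
        refine ENNReal.tsum_le_tsum fun P => ?_
        unfold wt
        by_cases h : FR ht P A ∧ HT ht P ≤ A + i0
        · rw [if_pos h]
          have h5 := FR_le ht h.1
          have e : A + (HT ht P - A) = HT ht P := by omega
          refine le_trans ?_ (Finset.single_le_sum (f := fun i => ∑' δ,
            (if FR ht P A then (if HT ht P = A + i ∧ dp z P = δ then LW Λ P else 0) else 0)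
            * Φ (A + i) δ) (fun _ _ => zero_le)
            (Finset.mem_range.2 (show HT ht P - A < i0 + 1 by omega)))
          simp only [e]
          refine le_trans ?_ (ENNReal.le_tsum (dp z P))
          rw [if_pos h.1]
          simp
        · rw [if_neg h, zero_mul]; exact zero_le
    _ = _ := by
        rw [Summable.tsum_finsetSum (fun _ _ => ENNReal.summable)]
        refine Finset.sum_congr rfl fun i _ => ?_
        rw [ENNReal.tsum_comm]
        refine tsum_congr fun δ => ?_
        rw [ENNReal.tsum_mul_right]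
        rfl

open Classical in
/-- **local piece after a smooth top** -/
theorem loc (hΛ : ∑' b, Λ b ≤ 1) (h1 : ∀ b, 1 ≤ ht b) (A T i0 : ℕ) (θ M bad β : ℝ≥0∞)
    (hd : ∃ Wg Wb : ℕ → G → ℝ≥0∞, (∀ c δ, W Λ ht z A c δ ≤ Wg c δ + Wb c δ) ∧
      (∀ c δ, Wg c δ ≤ M) ∧ ∑' c, ∑' δ, Wb c δ ≤ bad)
    (Ψ : ℕ → G → List B → ℝ≥0∞) (hΨ : ∀ a δ P, Ψ a δ P ≤ 1)
    (hβ : ∀ a h (μ : G → ℝ≥0∞), A ≤ a → a ≤ A + i0 → T ≤ h → h ≤ T + i0 → ∑' δ, μ δ ≤ 1 →
      (∀ δ, μ δ ≤ M) → ∑' δ, μ δ * ∑' P : List B,
        (if HT ht P = h ∧ θ ≤ W Λ ht z T h (dp z P) then LW Λ P * Ψ a δ P else 0) ≤ β) :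
    ∑' P1, ∑' P2, wt Λ ht A i0 P1 * wt Λ ht T i0 P2 *
      (if θ ≤ W Λ ht z T (HT ht P2) (dp z P2) then Ψ (HT ht P1) (dp z P1) P2 else 0)
      ≤ (i0 + 1) ^ 2 * β + bad := by
  obtain ⟨Wg, Wb, hW, hg, hb⟩ := hd
  set Φ : ℕ → G → ℝ≥0∞ := fun a δ => ∑' P2, wt Λ ht T i0 P2 *
    (if θ ≤ W Λ ht z T (HT ht P2) (dp z P2) then Ψ a δ P2 else 0) with hΦ
  have hΦ1 : ∀ a δ, Φ a δ ≤ 1 := by
    intro a δ
    refine le_trans (ENNReal.tsum_le_tsum fun P => ?_) (wt_mass Λ ht hΛ h1 T i0)
    calc _ ≤ wt Λ ht T i0 P * 1 := by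
          refine mul_le_mul_right ?_ _
          split_ifs
          · exact hΨ _ _ _
          · exact zero_le
      _ = _ := mul_one _
  have hΦ2 : ∀ a δ, Φ a δ ≤ ∑ j ∈ Finset.range (i0 + 1), ∑' P : List B,
      (if HT ht P = T + j ∧ θ ≤ W Λ ht z T (T + j) (dp z P) then LW Λ P * Ψ a δ P else 0) := by
    intro a δ
    rw [← Summable.tsum_finsetSum (fun _ _ => ENNReal.summable)]
    refine ENNReal.tsum_le_tsum fun P => ?_
    unfold wt
    by_cases h : FR ht P T ∧ HT ht P ≤ T + i0
    · rw [if_pos h]
      have h5 := FR_le ht h.1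
      have e : T + (HT ht P - T) = HT ht P := by omega
      refine le_trans ?_ (Finset.single_le_sum (f := fun j =>
        (if HT ht P = T + j ∧ θ ≤ W Λ ht z T (T + j) (dp z P) then LW Λ P * Ψ a δ P else 0))
        (fun _ _ => zero_le)
        (Finset.mem_range.2 (show HT ht P - T < i0 + 1 by omega)))
      simp only [e, true_and]
      split_ifs
      · exact le_rfl
      · simp
    · rw [if_neg h, zero_mul]; exact zero_le
  calc _ = ∑' P1, wt Λ ht A i0 P1 * Φ (HT ht P1) (dp z P1) := by
        refine tsum_congr fun P1 => ?_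
        rw [hΦ]
        simp only
        rw [← ENNReal.tsum_mul_left]
        refine tsum_congr fun P2 => ?_
        rw [mul_assoc]
    _ ≤ ∑ i ∈ Finset.range (i0 + 1), ∑' δ, W Λ ht z A (A + i) δ * Φ (A + i) δ :=
        sum_top Λ ht z A i0 Φ
    _ ≤ ∑ i ∈ Finset.range (i0 + 1), (∑' δ, min (W Λ ht z A (A + i) δ) M * Φ (A + i) δ
          + ∑' δ, Wb (A + i) δ) := by
        refine Finset.sum_le_sum fun i _ => ?_
        rw [← ENNReal.tsum_add]
        refine ENNReal.tsum_le_tsum fun δ => ?_
        have h3 : W Λ ht z A (A + i) δ ≤ min (W Λ ht z A (A + i) δ) M + Wb (A + i) δ := by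
          rcases le_total (W Λ ht z A (A + i) δ) M with h | h
          · rw [min_eq_left h]; exact le_self_add
          · rw [min_eq_right h]
            exact (hW _ _).trans (add_le_add (hg _ _) le_rfl)
        calc _ ≤ (min (W Λ ht z A (A + i) δ) M + Wb (A + i) δ) * Φ (A + i) δ :=
              mul_le_mul_left h3 _
          _ = min (W Λ ht z A (A + i) δ) M * Φ (A + i) δ + Wb (A + i) δ * Φ (A + i) δ :=
              add_mul _ _ _
          _ ≤ min (W Λ ht z A (A + i) δ) M * Φ (A + i) δ + Wb (A + i) δ * 1 :=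
              add_le_add le_rfl (mul_le_mul_right (hΦ1 _ _) _)
          _ = _ := by rw [mul_one]
    _ = ∑ i ∈ Finset.range (i0 + 1), ∑' δ, min (W Λ ht z A (A + i) δ) M * Φ (A + i) δ
          + ∑ i ∈ Finset.range (i0 + 1), ∑' δ, Wb (A + i) δ := Finset.sum_add_distrib
    _ ≤ (i0 + 1) ^ 2 * β + bad := by
        refine add_le_add ?_ ?_
        · calc _ ≤ ∑ i ∈ Finset.range (i0 + 1), ∑ j ∈ Finset.range (i0 + 1), β := by
                refine Finset.sum_le_sum fun i hi => ?_
                calc _ ≤ ∑' δ, min (W Λ ht z A (A + i) δ) M *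
                      ∑ j ∈ Finset.range (i0 + 1), ∑' P : List B,
                      (if HT ht P = T + j ∧ θ ≤ W Λ ht z T (T + j) (dp z P) then
                        LW Λ P * Ψ (A + i) δ P else 0) :=
                      ENNReal.tsum_le_tsum fun δ => mul_le_mul_right (hΦ2 _ _) _
                  _ = ∑ j ∈ Finset.range (i0 + 1), ∑' δ, min (W Λ ht z A (A + i) δ) M *
                      ∑' P : List B,
                      (if HT ht P = T + j ∧ θ ≤ W Λ ht z T (T + j) (dp z P) then
                        LW Λ P * Ψ (A + i) δ P else 0) := by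
                      rw [← Summable.tsum_finsetSum (fun _ _ => ENNReal.summable)]
                      refine tsum_congr fun δ => ?_
                      rw [Finset.mul_sum]
                  _ ≤ _ := by
                      refine Finset.sum_le_sum fun j hj => ?_
                      have hi' := Finset.mem_range.1 hi
                      have hj' := Finset.mem_range.1 hj
                      refine hβ (A + i) (T + j) (fun δ => min (W Λ ht z A (A + i) δ) M)
                        (by omega) (by omega) (by omega) (by omega) ?_ (fun δ => min_le_right _ _)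
                      refine (ENNReal.tsum_le_tsum fun δ => min_le_left _ _).trans
                        (tsum_W_le Λ ht z hΛ h1 A (A + i))
            _ = _ := by simp; ring
        · refine le_trans ?_ hb
          calc ∑ i ∈ Finset.range (i0 + 1), ∑' δ, Wb (A + i) δ
              = ∑ c ∈ (Finset.range (i0 + 1)).map (addLeftEmbedding A), ∑' δ, Wb c δ := by
                rw [Finset.sum_map]; rfl
            _ ≤ _ := ENNReal.sum_le_tsum _

open Classical in
/-- **quantile of the law of a piece**: `θ`, the local sets, the low mass -/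
theorem piece (hΛ : ∑' b, Λ b = 1) (h1 : ∀ b, 1 ≤ ht b) (hU1 : ∀ n, U Λ ht n ≤ 1)
    (T i0 : ℕ) {u : ℝ≥0∞} (hu0 : u ≠ 0) (hu1 : u ≤ 1) (hi : TS Λ ht (i0 + 1) ≤ u / 2) :
    ∃ θ : ℝ≥0∞, θ ≠ 0 ∧ θ ≤ 1 ∧
      (∑' P, wt Λ ht T i0 P * (if W Λ ht z T (HT ht P) (dp z P) < θ then 1 else 0) ≤ u) ∧
      (u / 2 ≤ ∑' a : List B, (if FR ht a T ∧ HT ht a ≤ T + i0 ∧
        W Λ ht z T (HT ht a) (dp z a) ≤ θ then LW Λ a else 0)) ∧
      (∀ h, ∃ E : Finset G, (∀ δ, θ ≤ W Λ ht z T h δ ↔ δ ∈ E) ∧ (E.card : ℝ≥0∞) * θ ≤ 1) := by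
  have htot : ∑' c : ℕ × G, W Λ ht z T c.1 c.2 = 1 := by
    rw [ENNReal.tsum_prod', tsum_tsum_W, mass_FR_eq Λ ht hΛ h1]
  obtain ⟨θ, hθ0, hθ1, hq1, hq2⟩ := Dens903.quantile (fun c : ℕ × G => W Λ ht z T c.1 c.2)
    htot hu0 hu1
  -- sums over `(c, δ)` of the law restricted to a set
  have key : ∀ S : ℕ → G → Prop, ∑' c : ℕ × G, (if S c.1 c.2 then W Λ ht z T c.1 c.2 else 0)
      = ∑' P : List B, (if FR ht P T ∧ S (HT ht P) (dp z P) then LW Λ P else 0) := by
    intro S
    simp only [W]
    calc _ = ∑' c : ℕ × G, ∑' P : List B, (if S c.1 c.2 then (if FR ht P T then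
          (if HT ht P = c.1 ∧ dp z P = c.2 then LW Λ P else 0) else 0) else 0) := by
          refine tsum_congr fun c => ?_
          by_cases h : S c.1 c.2
          · simp [h]
          · simp [h]
      _ = ∑' P : List B, ∑' c : ℕ × G, (if S c.1 c.2 then (if FR ht P T then
          (if HT ht P = c.1 ∧ dp z P = c.2 then LW Λ P else 0) else 0) else 0) :=
          ENNReal.tsum_comm
      _ = _ := by
          refine tsum_congr fun P => ?_
          rw [tsum_eq_single (HT ht P, dp z P)]
          · by_cases h : FR ht P T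
            · by_cases h2 : S (HT ht P) (dp z P) <;> simp [h, h2]
            · simp [h]
          · rintro ⟨c, δ⟩ hne
            by_cases h2 : HT ht P = c ∧ dp z P = δ
            · exact absurd (by rw [h2.1, h2.2]) hne
            · simp [h2]
  refine ⟨θ, hθ0, hθ1, ?_, ?_, ?_⟩
  · have hq1' : ∑' P : List B, (if FR ht P T ∧ W Λ ht z T (HT ht P) (dp z P) < θ then LW Λ P
        else 0) ≤ u := by
      refine le_trans (le_of_eq ?_) hq1
      convert (key (fun c δ => W Λ ht z T c δ < θ)).symm
    refine le_trans ?_ hq1'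
    refine ENNReal.tsum_le_tsum fun P => ?_
    unfold wt
    by_cases h : FR ht P T
    · by_cases h2 : W Λ ht z T (HT ht P) (dp z P) < θ
      · simp only [h, h2, true_and, if_true, mul_one, and_self]
        split_ifs
        · exact le_rfl
        · exact zero_le
      · simp [h2]
    · simp [h]
  · have hq2 : u ≤ ∑' P : List B, (if FR ht P T ∧ W Λ ht z T (HT ht P) (dp z P) ≤ θ then LW Λ P
        else 0) := by
      refine hq2.trans (le_of_eq ?_)
      convert key (fun c δ => W Λ ht z T c δ ≤ θ)
    have h3 : u ≤ TS Λ ht (i0 + 1) + ∑' a : List B, (if FR ht a T ∧ HT ht a ≤ T + i0 ∧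
        W Λ ht z T (HT ht a) (dp z a) ≤ θ then LW Λ a else 0) := by
      refine hq2.trans (le_trans ?_ (add_le_add (over_le Λ ht hU1 T i0) le_rfl))
      rw [← ENNReal.tsum_add]
      refine ENNReal.tsum_le_tsum fun P => ?_
      by_cases h : FR ht P T
      · by_cases h2 : W Λ ht z T (HT ht P) (dp z P) ≤ θ
        · by_cases h4 : HT ht P ≤ T + i0
          · simp [h, h2, h4]
          · simp [h, h2, h4, not_le.1 h4]
        · simp [h2]
      · simp [h]
    have h4 : u ≤ u / 2 + ∑' a : List B, (if FR ht a T ∧ HT ht a ≤ T + i0 ∧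
        W Λ ht z T (HT ht a) (dp z a) ≤ θ then LW Λ a else 0) :=
      h3.trans (add_le_add hi le_rfl)
    have hut : u / 2 ≠ ⊤ := ne_top_of_le_ne_top ENNReal.one_ne_top
      ((ENNReal.half_le_self).trans hu1)
    have h5 : u / 2 + u / 2 ≤ u / 2 + ∑' a : List B, (if FR ht a T ∧ HT ht a ≤ T + i0 ∧
        W Λ ht z T (HT ht a) (dp z a) ≤ θ then LW Λ a else 0) := by
      rw [ENNReal.add_halves]; exact h4
    exact (ENNReal.add_le_add_iff_left hut).1 h5
  · intro h
    have hle : ∑' δ, W Λ ht z T h δ ≤ 1 := tsum_W_le Λ ht z hΛ.le h1 T h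
    have hfin : {δ | θ ≤ W Λ ht z T h δ}.Finite :=
      ENNReal.finite_const_le_of_tsum_ne_top (ne_top_of_le_ne_top ENNReal.one_ne_top hle) hθ0
    refine ⟨hfin.toFinset, fun δ => by simp, ?_⟩
    calc (hfin.toFinset.card : ℝ≥0∞) * θ = ∑ _x ∈ hfin.toFinset, θ := by simp
      _ ≤ ∑ x ∈ hfin.toFinset, W Λ ht z T h x :=
          Finset.sum_le_sum fun x hx => by simpa using (hfin.mem_toFinset.1 hx)
      _ ≤ ∑' x, W Λ ht z T h x := ENNReal.sum_le_tsum _
      _ ≤ 1 := hle

end Crest.Agent.R154.Asm707
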