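import Crest.Agent.R154.AsmL_396

/-! Row 154, ROAD 801 (helper396): one window of the octave, summed over lists of height `n`. -/

set_option autoImplicit false
set_option linter.unusedVariables false

namespace Crest.Agent.R154.Asm396

open Crest.Agent.R154.B5A Crest.Agent.R154.Ren396
open Crest.Agent.R154.Bind12 (TT)
open scoped ENNReal

variable {BX BY : Type*} (ΛX : BX → ℝ≥0∞) (ΛY : BY → ℝ≥0∞) (hX : BX → ℕ) (hY : BY → ℕ)
  {G : Type*} [AddCommGroup G] (zX : BX → G) (zY : BY → G)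
  (sX : BX → Set (G × ℕ)) (sY : BY → Set (G × ℕ))

open Classical in
/-- weight of the pairs of lists of height `n` with a common site of depth in `[a, b)` -/
noncomputable def CP (n a b : ℕ) (w : G) : ℝ≥0∞ :=
  ∑' LX : List BX, ∑' LY : List BY, (if HT hX LX = n ∧ HT hY LY = n ∧ ∃ z k, a ≤ k ∧ k < b ∧
    (z, k) ∈ TT sX zX hX LX 0 0 ∧ (z, k) ∈ TT sY zY hY LY w 0 then LW ΛX LX * LW ΛY LY else 0)

open Classical in
lemma prod_le {α β : Type*} (f : α → ℝ≥0∞) (g : β → ℝ≥0∞) {a b : ℝ≥0∞} (hf : ∑' x, f x ≤ a)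
    (hg : ∑' y, g y ≤ b) : ∑' x, ∑' y, f x * g y ≤ a * b := by
  calc _ = (∑' x, f x) * ∑' y, g y := by
        rw [← ENNReal.tsum_mul_right]
        exact tsum_congr fun x => ENNReal.tsum_mul_left
    _ ≤ _ := mul_le_mul' hf hg

open Classical in
theorem octw (hΛX : ∑' b, ΛX b ≤ 1) (h1X : ∀ b, 1 ≤ hX b) (hU1X : ∀ n, U ΛX hX n ≤ 1)
    (hΛY : ∑' b, ΛY b ≤ 1) (h1Y : ∀ b, 1 ≤ hY b) (hU1Y : ∀ n, U ΛY hY n ≤ 1)
    (hsX : ∀ b p, p ∈ sX b → 1 ≤ p.2 ∧ p.2 ≤ hX b)
    (hsY : ∀ b p, p ∈ sY b → 1 ≤ p.2 ∧ p.2 ≤ hY b)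
    (n T i0 A σ : ℕ) (hσ : 2 * i0 + 1 ≤ σ) (hn : A + i0 + T ≤ n) (w : G) (η e R : ℝ≥0∞)
    (hs1 : CP ΛX ΛY hX hY zX zY sX sY n (A - σ) (A - σ + 2 * σ) w ≤ η)
    (hs2 : CP ΛX ΛY hX hY zX zY sX sY n (A + T - σ) (A + T - σ + 2 * σ) w ≤ η)
    (heX : TS ΛX hX (i0 + 1) ≤ e) (heY : TS ΛY hY (i0 + 1) ≤ e) (hσA : σ ≤ A)
    (hR : ∑' P : List BX, (if FR hX P A ∧ HT hX P ≤ A + i0 then LW ΛX P *
      ∑' Q : List BY, (if FR hY Q A ∧ HT hY Q ≤ A + i0 then LW ΛY Q *
        FW ΛX ΛY hX hY zX zY sX sY T i0 (A + σ) (A + T - σ) (fun _ _ => True) (HT hX P) (HT hY Q)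
          (w + dp zY Q - dp zX P) else 0) else 0) ≤ R) :
    CP ΛX ΛY hX hY zX zY sX sY n A (A + T) w ≤ 2 * η + 4 * e + R := by
  -- the five events
  set eX : List BX → Prop := fun LX => ∃ t : List BX × List BX × List BX,
    t.1 ++ (t.2.1 ++ t.2.2) = LX ∧ (HT hX t.1 + (HT hX t.2.1 + HT hX t.2.2) = n ∧
      ((FR hX t.1 A ∧ A + i0 < HT hX t.1 ∧ t.2.1 = []) ∨
       (FR hX t.1 A ∧ FR hX t.2.1 T ∧ T + i0 < HT hX t.2.1))) with heX'
  set eY : List BY → Prop := fun LY => ∃ t : List BY × List BY × List BY,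
    t.1 ++ (t.2.1 ++ t.2.2) = LY ∧ (HT hY t.1 + (HT hY t.2.1 + HT hY t.2.2) = n ∧
      ((FR hY t.1 A ∧ A + i0 < HT hY t.1 ∧ t.2.1 = []) ∨
       (FR hY t.1 A ∧ FR hY t.2.1 T ∧ T + i0 < HT hY t.2.1))) with heY'
  set eW : List BX × List BY → Prop := fun LL => ∃ t : (List BX × List BY) ×
    (List BX × List BY) × (List BX × List BY),
        ((t.1.1 ++ (t.2.1.1 ++ t.2.2.1), t.1.2 ++ (t.2.1.2 ++ t.2.2.2)) : List BX × List BY)
          = LL ∧
        (HT hX t.1.1 + (HT hX t.2.1.1 + HT hX t.2.2.1) = n ∧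
          HT hY t.1.2 + (HT hY t.2.1.2 + HT hY t.2.2.2) = n ∧
          WE hX hY zX zY sX sY T i0 A (A + σ) (A + T - σ) w t.1.1 t.1.2 t.2.1.1 t.2.1.2) with heW
  set sl : ℕ → List BX → List BY → Prop := fun a LX LY => HT hX LX = n ∧ HT hY LY = n ∧
    ∃ z k, a ≤ k ∧ k < a + 2 * σ ∧
    (z, k) ∈ TT sX zX hX LX 0 0 ∧ (z, k) ∈ TT sY zY hY LY w 0 with hsl
  have B3 : ∑' LX : List BX, ∑' LY : List BY,
      (if eX LX then LW ΛX LX else 0) * (if HT hY LY = n then LW ΛY LY else 0) ≤ 2 * e * 1 :=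
    prod_le _ _ ((over2_le ΛX hX hΛX h1X hU1X n A T i0).trans (mul_le_mul_right heX _)) (hU1Y n)
  have B4 : ∑' LX : List BX, ∑' LY : List BY,
      (if HT hX LX = n then LW ΛX LX else 0) * (if eY LY then LW ΛY LY else 0) ≤ 1 * (2 * e) :=
    prod_le _ _ (hU1X n) ((over2_le ΛY hY hΛY h1Y hU1Y n A T i0).trans (mul_le_mul_right heY _))
  have B5 : ∑' LX : List BX, ∑' LY : List BY,
      (if eW (LX, LY) then LW ΛX LX * LW ΛY LY else 0) ≤ R := by
    have h1 := mark2_le ΛX ΛY hX hY hU1X hU1Y n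
      (WE hX hY zX zY sX sY T i0 A (A + σ) (A + T - σ) w)
    rw [ENNReal.tsum_prod'] at h1
    rw [we_sum] at h1
    exact h1.trans hR
  calc CP ΛX ΛY hX hY zX zY sX sY n A (A + T) w
      ≤ ∑' LX : List BX, ∑' LY : List BY,
        ((if sl (A - σ) LX LY then LW ΛX LX * LW ΛY LY else 0)
        + (if sl (A + T - σ) LX LY then LW ΛX LX * LW ΛY LY else 0)
        + (if eX LX then LW ΛX LX else 0) * (if HT hY LY = n then LW ΛY LY else 0)
        + (if HT hX LX = n then LW ΛX LX else 0) * (if eY LY then LW ΛY LY else 0)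
        + (if eW (LX, LY) then LW ΛX LX * LW ΛY LY else 0)) := by
        refine ENNReal.tsum_le_tsum fun LX => ENNReal.tsum_le_tsum fun LY => ?_
        by_cases h : HT hX LX = n ∧ HT hY LY = n ∧ ∃ z k, A ≤ k ∧ k < A + T ∧
            (z, k) ∈ TT sX zX hX LX 0 0 ∧ (z, k) ∈ TT sY zY hY LY w 0
        · rw [if_pos h]
          obtain ⟨g1, g2, z0, k0, g3, g4, g5⟩ := h
          by_cases c1 : sl (A - σ) LX LY
          · rw [if_pos c1]
            exact le_add_right (le_add_right (le_add_right (le_add_right le_rfl)))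
          by_cases c2 : sl (A + T - σ) LX LY
          · rw [if_pos c2]
            exact le_add_right (le_add_right (le_add_right (le_add_left le_rfl)))
          have h3 := pointwise hX hY zX zY sX sY hsX hsY n T i0 A σ hσ hn w LX LY g1 g2 z0 k0
            ⟨g3, g4⟩ g5 (by
              intro z k q1 q2
              refine ⟨?_, ?_⟩
              · rintro ⟨q3, q4⟩
                exact c1 ⟨g1, g2, z, k, by omega, by omega, q1, q2⟩
              · rintro ⟨q3, q4⟩
                exact c2 ⟨g1, g2, z, k, by omega, by omega, q1, q2⟩)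
          rcases h3 with h3 | h3 | h3
          · have h4 : eX LX := h3
            rw [if_pos h4, if_pos g2]
            exact le_add_right (le_add_right (le_add_left le_rfl))
          · have h4 : eY LY := h3
            rw [if_pos h4, if_pos g1]
            exact le_add_right (le_add_left le_rfl)
          · have h4 : eW (LX, LY) := h3
            rw [if_pos h4]
            exact le_add_left le_rfl
        · rw [if_neg h]; exact zero_le
    _ = (∑' LX : List BX, ∑' LY : List BY, (if sl (A - σ) LX LY then LW ΛX LX * LW ΛY LY else 0))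
        + (∑' LX : List BX, ∑' LY : List BY,
          (if sl (A + T - σ) LX LY then LW ΛX LX * LW ΛY LY else 0))
        + (∑' LX : List BX, ∑' LY : List BY,
          (if eX LX then LW ΛX LX else 0) * (if HT hY LY = n then LW ΛY LY else 0))
        + (∑' LX : List BX, ∑' LY : List BY,
          (if HT hX LX = n then LW ΛX LX else 0) * (if eY LY then LW ΛY LY else 0))
        + (∑' LX : List BX, ∑' LY : List BY,
          (if eW (LX, LY) then LW ΛX LX * LW ΛY LY else 0)) := by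
        simp only [ENNReal.tsum_add]
    _ ≤ η + η + 2 * e * 1 + 1 * (2 * e) + R :=
        add_le_add (add_le_add (add_le_add (add_le_add hs1 hs2) B3) B4) B5
    _ = _ := by ring

end Crest.Agent.R154.Asm396
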