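import Crest.Agent.R154.AsmWin_933

/-! Row 154, road 801: the inequality of one window (helper933). -/

set_option autoImplicit false
set_option linter.unusedSectionVars false
set_option linter.unusedVariables false

namespace Crest.Agent.R154.FP933

open Crest.Agent.R154.B5A
open scoped ENNReal

variable {BX BY : Type*} (ΛX : BX → ℝ≥0∞) (ΛY : BY → ℝ≥0∞) (hX : BX → ℕ) (hY : BY → ℕ)
variable {G : Type*} [AddCommGroup G] (zX : BX → G) (zY : BY → G)
variable (TX : List BX → G → ℕ → Set (G × ℕ)) (TY : List BY → G → ℕ → Set (G × ℕ))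

/-- contact property of two pieces -/
def CP (lo hi : ℕ) (L : List BX) (a : ℕ) (L' : List BY) (x : G) (a' : ℕ) : Prop :=
  (∃ k, Ct TX TY L a L' x a' k) ∧ ∀ k, Ct TX TY L a L' x a' k → lo ≤ k ∧ k ≤ hi

/-- contact property of two full lists in one window -/
def CQ (lo md hi hi2 : ℕ) (w : G) (L : List BX) (L' : List BY) : Prop :=
  (∃ k, lo ≤ k ∧ k ≤ md ∧ Ct TX TY L 0 L' w 0 k) ∧
    ∀ k, Ct TX TY L 0 L' w 0 k → lo ≤ k ∧ ¬ (hi < k ∧ k ≤ hi2)

open Classical in
/-- facing input, X local -/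
def F2 (A A' s1 s2 i0 lo hi : ℕ) (th M η : ℝ≥0∞) : Prop :=
  ∀ a a' h h' : ℕ, A ≤ a → a ≤ A + i0 → A' ≤ a' → a' ≤ A' + i0 → s1 ≤ h → h ≤ s1 + i0 →
    s2 ≤ h' → h' ≤ s2 + i0 → ∀ (E : Finset G) (μ : G → ℝ≥0∞), (E.card : ℝ≥0∞) ≤ 1 / th →
    ∑' x, μ x ≤ 1 → (∀ x, μ x ≤ M) →
    ∑' x, μ x * ∑' L, ∑' L', (if HT hX L = h ∧ Dp zX L ∈ E ∧ HT hY L' = h' ∧
      CP TX TY lo hi L a L' x a' then LW ΛX L * LW ΛY L' else 0) ≤ η

open Classical in
/-- facing input, Y local -/
def F3 (A A' s1 s2 i0 lo hi : ℕ) (th M η : ℝ≥0∞) : Prop :=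
  ∀ a a' h h' : ℕ, A ≤ a → a ≤ A + i0 → A' ≤ a' → a' ≤ A' + i0 → s1 ≤ h → h ≤ s1 + i0 →
    s2 ≤ h' → h' ≤ s2 + i0 → ∀ (E : Finset G) (μ : G → ℝ≥0∞), (E.card : ℝ≥0∞) ≤ 1 / th →
    ∑' x, μ x ≤ 1 → (∀ x, μ x ≤ M) →
    ∑' x, μ x * ∑' L, ∑' L', (if HT hX L = h ∧ HT hY L' = h' ∧ Dp zY L' ∈ E ∧
      CP TX TY lo hi L a L' x a' then LW ΛX L * LW ΛY L' else 0) ≤ η

/-- four fold passage functional -/
noncomputable def E4 (A s1 A' s2 : ℕ) (F : List BX → List BX → List BY → List BY → ℝ≥0∞) :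
    ℝ≥0∞ :=
  FPS ΛX hX A (fun T => FPS ΛX hX s1 (fun P => FPS ΛY hY A' (fun T' => FPS ΛY hY s2 (fun P' =>
    F T P T' P'))))

lemma E4_mono (h1X : ∀ b, 1 ≤ hX b) (h1Y : ∀ b, 1 ≤ hY b) (A s1 A' s2 : ℕ)
    {F F' : List BX → List BX → List BY → List BY → ℝ≥0∞}
    (h : ∀ T P T' P', A ≤ HT hX T → s1 ≤ HT hX P → A' ≤ HT hY T' → s2 ≤ HT hY P' →
      F T P T' P' ≤ F' T P T' P') :
    E4 ΛX ΛY hX hY A s1 A' s2 F ≤ E4 ΛX ΛY hX hY A s1 A' s2 F' :=
  FPS_mono' ΛX hX h1X A fun T hT => FPS_mono' ΛX hX h1X s1 fun P hP =>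
    FPS_mono' ΛY hY h1Y A' fun T' hT' => FPS_mono' ΛY hY h1Y s2 fun P' hP' =>
      h T P T' P' hT hP hT' hP'

lemma E4_add (h1X : ∀ b, 1 ≤ hX b) (h1Y : ∀ b, 1 ≤ hY b) (A s1 A' s2 : ℕ)
    (F F' : List BX → List BX → List BY → List BY → ℝ≥0∞) :
    E4 ΛX ΛY hX hY A s1 A' s2 (fun T P T' P' => F T P T' P' + F' T P T' P')
      = E4 ΛX ΛY hX hY A s1 A' s2 F + E4 ΛX ΛY hX hY A s1 A' s2 F' := by
  simp only [E4, FPS_add ΛX hX h1X, FPS_add ΛY hY h1Y]

lemma E4_comm (h1X : ∀ b, 1 ≤ hX b) (h1Y : ∀ b, 1 ≤ hY b) (A s1 A' s2 : ℕ)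
    (F : List BX → List BX → List BY → List BY → ℝ≥0∞) :
    E4 ΛX ΛY hX hY A s1 A' s2 F = FPS ΛX hX A (fun T => FPS ΛY hY A' (fun T' =>
      FPS ΛX hX s1 (fun P => FPS ΛY hY s2 (fun P' => F T P T' P')))) := by
  rw [E4]
  refine FPS_congr' ΛX hX h1X A fun T _ => ?_
  exact FPS_comm ΛX ΛY hX hY h1X h1Y s1 A' _

lemma E4_mul (h1X : ∀ b, 1 ≤ hX b) (h1Y : ∀ b, 1 ≤ hY b) (hΛX : ∑' b, ΛX b = 1)
    (hΛY : ∑' b, ΛY b = 1) (A s1 A' s2 : ℕ) (f : List BX → ℝ≥0∞) (f' : List BY → ℝ≥0∞) :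
    E4 ΛX ΛY hX hY A s1 A' s2 (fun T P T' P' => f P * f' P')
      = FPS ΛX hX s1 f * FPS ΛY hY s2 f' := by
  simp only [E4, FPS_const_mul ΛY hY h1Y]
  rw [FPS_const ΛX hX h1X hΛX]
  have : ∀ P, f P * FPS ΛY hY A' (fun _ => FPS ΛY hY s2 f') = (FPS ΛY hY s2 f') * f P := by
    intro P; rw [FPS_const ΛY hY h1Y hΛY, mul_comm]
  rw [FPS_congr' ΛX hX h1X s1 (fun P _ => this P), FPS_const_mul ΛX hX h1X, mul_comm]

open Classical in
/-- **one window** -/
theorem window (h1X : ∀ b, 1 ≤ hX b) (h1Y : ∀ b, 1 ≤ hY b) (hΛX : ∑' b, ΛX b = 1)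
    (hΛY : ∑' b, ΛY b = 1) (hUX : ∀ n, U ΛX hX n ≤ 1) (hUY : ∀ n, U ΛY hY n ≤ 1)
    (tX : Tr hX zX TX) (tY : Tr hY zY TY)
    (w : G) (n A A' s1 s2 i0 lo md hi hi2 : ℕ) (hn : A + i0 + s1 ≤ n) (hn' : A' + i0 + s2 ≤ n)
    (l1 : A + i0 < lo) (l2 : A' + i0 < lo) (m1 : md ≤ A + s1) (m2 : md ≤ A' + s2)
    (m3 : A + i0 + (s1 + i0) ≤ hi2) (ov : ℝ≥0∞)
    (hovX : ∑' j, tail ΛX hX (i0 + j) ≤ ov) (hovY : ∑' j, tail ΛY hY (i0 + j) ≤ ov)
    (thX thY u MX MY η : ℝ≥0∞) (hthX : thX ≠ 0) (hthY : thY ≠ 0)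
    (hNX : ∑' x, (if Pl ΛX hX zX s1 x < thX then Pl ΛX hX zX s1 x else 0) ≤ u)
    (hNY : ∑' x, (if Pl ΛY hY zY s2 x < thY then Pl ΛY hY zY s2 x else 0) ≤ u)
    (AgX BbX AgY BbY : ℕ × G → ℝ≥0∞) (rough : ℝ≥0∞)
    (hABX : ∀ x, Pl ΛX hX zX A x ≤ AgX x + BbX x) (hAgX : ∀ x, AgX x ≤ MX)
    (hBbX : ∑' x, BbX x ≤ rough)
    (hABY : ∀ x, Pl ΛY hY zY A' x ≤ AgY x + BbY x) (hAgY : ∀ x, AgY x ≤ MY)
    (hBbY : ∑' x, BbY x ≤ rough)
    (hF2 : F2 ΛX ΛY hX hY zX TX TY A A' s1 s2 i0 lo hi thX MX η)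
    (hF3 : F3 ΛX ΛY hX hY zY TX TY A A' s1 s2 i0 lo hi thY MY η) :
    (∑' L, if HT hX L = n then LW ΛX L * (∑' L', if HT hY L' = n then LW ΛY L' *
      (if CQ TX TY lo md hi hi2 w L L' then 1 else 0) else 0) else 0) ≤
      4 * ov + (u * u + 2 * ((i0 + 1) * ((i0 + 1) * ((i0 + 1) * η)) + rough)) := by
  -- the good configurations
  set C4 : List BX → List BX → List BY → List BY → Prop := fun T P T' P' =>
    HT hX T ≤ A + i0 ∧ HT hY T' ≤ A' + i0 ∧ HT hX P ≤ s1 + i0 ∧ HT hY P' ≤ s2 + i0 ∧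
      CP TX TY lo hi P (HT hX T) P' (w + Dp zY T' - Dp zX T) (HT hY T') with hC4
  have step1 : (∑' L, if HT hX L = n then LW ΛX L * (∑' L', if HT hY L' = n then LW ΛY L' *
      (if CQ TX TY lo md hi hi2 w L L' then 1 else 0) else 0) else 0) ≤
      E4 ΛX ΛY hX hY A s1 A' s2 (fun T P T' P' => if C4 T P T' P' then 1 else 0) + 4 * ov := by
    refine (split2 ΛX hX h1X hΛX hUX A s1 i0 n hn ov hovX _ ?_
      (fun T P => FPS ΛY hY A' (fun T' => FPS ΛY hY s2 (fun P' =>
        if HT hY T' ≤ A' + i0 ∧ HT hY P' ≤ s2 + i0 then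
          (if CP TX TY lo hi P (HT hX T) P' (w + Dp zY T' - Dp zX T) (HT hY T')
            then (1 : ℝ≥0∞) else 0) else 0)) + 2 * ov) ?_).trans ?_
    · intro L
      refine le_trans (ENNReal.tsum_le_tsum fun L' => ?_) (hUY n)
      split_ifs <;> simp
    · intro T P R g1 g2 g3 g4
      refine split2 ΛY hY h1Y hΛY hUY A' s2 i0 n hn' ov hovY _ ?_ _ ?_
      · intro L'; split_ifs <;> simp
      · intro T' P' R' k1 k2 k3 k4
        by_cases hQ : CQ TX TY lo md hi hi2 w (T ++ (P ++ R)) (T' ++ (P' ++ R'))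
        · rw [if_pos hQ, if_pos]
          obtain ⟨⟨k, q1, q2, q3⟩, q4⟩ := hQ
          refine ⟨⟨k, ct_mid hX hY zX zY TX TY tX tY q3 (by omega) (by omega) (by omega)
            (by omega)⟩, fun k' hk' => ?_⟩
          have h5 := q4 k' (ct_sub hX hY zX zY TX TY tX tY hk')
          have h6 := ct_dep hX hY zX zY TX TY tX tY hk'
          refine ⟨h5.1, ?_⟩
          by_contra h7
          exact h5.2 ⟨by omega, by omega⟩
        · rw [if_neg hQ]; exact zero_le
    · have e4 : (4 : ℝ≥0∞) * ov = 2 * ov + 2 * ov := by ring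
      rw [e4, ← add_assoc]
      refine add_le_add ?_ le_rfl
      have : E4 ΛX ΛY hX hY A s1 A' s2 (fun T P T' P' => if C4 T P T' P' then 1 else 0) + 2 * ov
          = FPS ΛX hX A (fun T => FPS ΛX hX s1 (fun P => FPS ΛY hY A' (fun T' =>
            FPS ΛY hY s2 (fun P' => if C4 T P T' P' then 1 else 0)) + 2 * ov)) := by
        simp only [E4, FPS_add ΛX hX h1X, FPS_const ΛX hX h1X hΛX]
      rw [this]
      refine FPS_mono' ΛX hX h1X A fun T hT => FPS_mono' ΛX hX h1X s1 fun P hP => ?_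
      by_cases hb : HT hX T ≤ A + i0 ∧ HT hX P ≤ s1 + i0
      · rw [if_pos hb]
        refine add_le_add ?_ le_rfl
        refine FPS_mono ΛY hY h1Y A' fun T' => FPS_mono ΛY hY h1Y s2 fun P' => ?_
        by_cases hb' : HT hY T' ≤ A' + i0 ∧ HT hY P' ≤ s2 + i0
        · rw [if_pos hb']
          by_cases hc : CP TX TY lo hi P (HT hX T) P' (w + Dp zY T' - Dp zX T) (HT hY T')
          · rw [if_pos hc, if_pos ⟨hb.1, hb'.1, hb.2, hb'.2, hc⟩]
          · rw [if_neg hc]; exact zero_le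
        · rw [if_neg hb']; exact zero_le
      · rw [if_neg hb]; exact zero_le
  refine step1.trans ?_
  rw [add_comm]
  refine add_le_add le_rfl ?_
  -- classification
  set NX : List BX → Prop := fun P => Pl ΛX hX zX s1 (HT hX P - s1, Dp zX P) < thX with hNXd
  set NY : List BY → Prop := fun P => Pl ΛY hY zY s2 (HT hY P - s2, Dp zY P) < thY with hNYd
  have step2 : E4 ΛX ΛY hX hY A s1 A' s2 (fun T P T' P' => if C4 T P T' P' then 1 else 0) ≤
      u * u + (E4 ΛX ΛY hX hY A s1 A' s2 (fun T P T' P' => if C4 T P T' P' ∧ ¬ NX P then 1 else 0)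
        + E4 ΛX ΛY hX hY A s1 A' s2 (fun T P T' P' => if C4 T P T' P' ∧ ¬ NY P' then 1 else 0)) := by
    calc _ ≤ E4 ΛX ΛY hX hY A s1 A' s2 (fun T P T' P' =>
          ((if NX P then 1 else 0) * (if NY P' then 1 else 0)) +
          ((if C4 T P T' P' ∧ ¬ NX P then 1 else 0) + (if C4 T P T' P' ∧ ¬ NY P' then 1 else 0))) := by
          refine E4_mono ΛX ΛY hX hY h1X h1Y A s1 A' s2 fun T P T' P' _ _ _ _ => ?_
          by_cases c1 : C4 T P T' P' <;> by_cases c2 : NX P <;> by_cases c3 : NY P' <;>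
            simp [c1, c2, c3]
      _ = E4 ΛX ΛY hX hY A s1 A' s2 (fun T P T' P' =>
          ((if NX P then 1 else 0) * (if NY P' then 1 else 0))) +
          (E4 ΛX ΛY hX hY A s1 A' s2 (fun T P T' P' => if C4 T P T' P' ∧ ¬ NX P then 1 else 0)
          + E4 ΛX ΛY hX hY A s1 A' s2 (fun T P T' P' => if C4 T P T' P' ∧ ¬ NY P' then 1 else 0)) := by
          rw [E4_add ΛX ΛY hX hY h1X h1Y, E4_add ΛX ΛY hX hY h1X h1Y]
      _ ≤ _ := by
          refine add_le_add ?_ le_rfl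
          rw [E4_mul ΛX ΛY hX hY h1X h1Y hΛX hΛY A s1 A' s2 (fun P => if NX P then 1 else 0)
            (fun P' => if NY P' then 1 else 0)]
          refine mul_le_mul' ?_ ?_
          · have := FPS_law ΛX hX zX h1X s1
              (fun x => if Pl ΛX hX zX s1 x < thX then (1 : ℝ≥0∞) else 0)
            simp only [hNXd]
            rw [this]
            refine le_trans (le_of_eq (tsum_congr fun x => ?_)) hNX
            split_ifs <;> simp
          · have := FPS_law ΛY hY zY h1Y s2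
              (fun x => if Pl ΛY hY zY s2 x < thY then (1 : ℝ≥0∞) else 0)
            simp only [hNYd]
            rw [this]
            refine le_trans (le_of_eq (tsum_congr fun x => ?_)) hNY
            split_ifs <;> simp
  refine step2.trans (add_le_add le_rfl ?_)
  rw [two_mul]
  refine add_le_add ?_ ?_
  · -- X local
    rw [E4_comm ΛX ΛY hX hY h1X h1Y, FPS_comm ΛX ΛY hX hY h1X h1Y]
    refine FPS_le ΛY hY h1Y hΛY A' fun T' hT' => ?_
    by_cases hT2 : HT hY T' ≤ A' + i0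
    · set Φ : ℕ × G → ℝ≥0∞ := fun y => FPS ΛX hX s1 (fun P => FPS ΛY hY s2 (fun P' =>
          if HT hX P ≤ s1 + i0 ∧ HT hY P' ≤ s2 + i0 ∧ (y.1 ≤ i0 ∧
            CP TX TY lo hi P (A + y.1) P' (w + Dp zY T' - y.2) (HT hY T') ∧ ¬ NX P)
          then 1 else 0)) with hΦd
      have e1 : FPS ΛX hX A (fun T => FPS ΛX hX s1 (fun P => FPS ΛY hY s2 (fun P' =>
          if C4 T P T' P' ∧ ¬ NX P then 1 else 0)))
          = FPS ΛX hX A (fun T => Φ (HT hX T - A, Dp zX T)) := by
        refine FPS_congr' ΛX hX h1X A fun T hT => ?_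
        refine FPS_congr' ΛX hX h1X s1 fun P _ => FPS_congr' ΛY hY h1Y s2 fun P' _ => ?_
        simp only [hC4]
        rw [show A + (HT hX T - A) = HT hX T by omega]
        by_cases hc : HT hX T ≤ A + i0
        · have hc' : HT hX T - A ≤ i0 := by omega
          simp only [hc, hc', hT2, true_and, and_assoc]
        · have hc' : ¬ HT hX T - A ≤ i0 := by omega
          simp only [hc, hc', false_and, and_false]
      rw [e1]
      refine (loc ΛX hX zX h1X A i0 AgX BbX hABX Φ ?_ ?_ ((i0 + 1) * ((i0 + 1) * η)) ?_).trans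
        (add_le_add le_rfl hBbX)
      · intro y
        exact FPS_le ΛX hX h1X hΛX s1 fun P _ => FPS_le ΛY hY h1Y hΛY s2 fun P' _ => by
          split_ifs <;> simp
      · intro y hy
        refine le_antisymm ?_ zero_le
        refine FPS_le ΛX hX h1X hΛX s1 fun P _ => FPS_le ΛY hY h1Y hΛY s2 fun P' _ => ?_
        rw [if_neg]; rintro ⟨-, -, h3, -⟩; omega
      · intro j hj
        -- the local set
        have hsum : ∀ i : ℕ, ∑' z : G, Pl ΛX hX zX s1 (i, z) ≤ 1 := fun i =>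
          (ENNReal.tsum_comp_le_tsum_of_injective (f := fun z' : G => (i, z'))
            (fun a b hab => (Prod.ext_iff.1 hab).2) _).trans (Pl_sum ΛX hX zX h1X hΛX s1).le
        have hE : ∀ i : ℕ, ∃ E : Finset G, (E.card : ℝ≥0∞) ≤ 1 / thX ∧
            ∀ z, thX ≤ Pl ΛX hX zX s1 (i, z) → z ∈ E := by
          intro i
          obtain ⟨hf, hc⟩ := ENNReal.finset_card_const_le_le_of_tsum_le
            (a := fun z : G => Pl ΛX hX zX s1 (i, z)) ENNReal.one_ne_top (hsum i) hthX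
          exact ⟨hf.toFinset, hc, fun z hz => by simpa using hz⟩
        choose E hEc hEm using hE
        have hΦle : ∀ z, Φ (j, z) ≤ ∑ i ∈ Finset.range (i0 + 1), ∑ i' ∈ Finset.range (i0 + 1),
            ∑' L, ∑' L', (if HT hX L = s1 + i ∧ Dp zX L ∈ E i ∧ HT hY L' = s2 + i' ∧
              CP TX TY lo hi L (A + j) L' (w + Dp zY T' - z) (HT hY T')
              then LW ΛX L * LW ΛY L' else 0) := by
          intro z
          refine le_trans (le_of_eq ?_) ((dbl ΛX ΛY hX hY h1X h1Y s1 s2 i0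
            (fun P P' => (j, z).1 ≤ i0 ∧
            CP TX TY lo hi P (A + (j, z).1) P' (w + Dp zY T' - (j, z).2) (HT hY T') ∧
            ¬ NX P)).trans ?_)
          · refine FPS_congr' ΛX hX h1X s1 fun P _ => FPS_congr' ΛY hY h1Y s2 fun P' _ => ?_
            congr
          refine Finset.sum_le_sum fun i _ => Finset.sum_le_sum fun i' _ =>
            ENNReal.tsum_le_tsum fun L => ENNReal.tsum_le_tsum fun L' => ?_
          by_cases hc : HT hX L = s1 + i ∧ HT hY L' = s2 + i' ∧ (j, z).1 ≤ i0 ∧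
            CP TX TY lo hi L (A + (j, z).1) L' (w + Dp zY T' - (j, z).2) (HT hY T') ∧ ¬ NX L
          · rw [if_pos hc, if_pos]
            obtain ⟨c1, c2, c3, c4, c5⟩ := hc
            refine ⟨c1, hEm i _ ?_, c2, c4⟩
            have := not_lt.1 c5
            rwa [c1, Nat.add_sub_cancel_left] at this
          · rw [if_neg hc]; exact zero_le
        calc ∑' z : G, min (Pl ΛX hX zX A (j, z)) (AgX (j, z)) * Φ (j, z)
            ≤ ∑' z : G, min (Pl ΛX hX zX A (j, z)) (AgX (j, z)) *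
              ∑ i ∈ Finset.range (i0 + 1), ∑ i' ∈ Finset.range (i0 + 1),
              ∑' L, ∑' L', (if HT hX L = s1 + i ∧ Dp zX L ∈ E i ∧ HT hY L' = s2 + i' ∧
              CP TX TY lo hi L (A + j) L' (w + Dp zY T' - z) (HT hY T')
              then LW ΛX L * LW ΛY L' else 0) :=
              ENNReal.tsum_le_tsum fun z => mul_le_mul_right (hΦle z) _
          _ = ∑ i ∈ Finset.range (i0 + 1), ∑ i' ∈ Finset.range (i0 + 1),
              ∑' z : G, min (Pl ΛX hX zX A (j, z)) (AgX (j, z)) *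
              ∑' L, ∑' L', (if HT hX L = s1 + i ∧ Dp zX L ∈ E i ∧ HT hY L' = s2 + i' ∧
              CP TX TY lo hi L (A + j) L' (w + Dp zY T' - z) (HT hY T')
              then LW ΛX L * LW ΛY L' else 0) := by
              simp_rw [Finset.mul_sum, Summable.tsum_finsetSum (fun _ _ => ENNReal.summable)]
          _ ≤ ∑ i ∈ Finset.range (i0 + 1), ∑ i' ∈ Finset.range (i0 + 1), η := by
              refine Finset.sum_le_sum fun i hi' => Finset.sum_le_sum fun i' hi'' => ?_
              have hi1 := Finset.mem_range.1 hi'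
              have hi2' := Finset.mem_range.1 hi''
              have := hF2 (A + j) (HT hY T') (s1 + i) (s2 + i') (by omega) (by omega) hT' hT2
                (by omega) (by omega) (by omega) (by omega) (E i)
                (fun x => min (Pl ΛX hX zX A (j, w + Dp zY T' - x))
                  (AgX (j, w + Dp zY T' - x))) (hEc i) ?_ ?_
              · refine le_trans (le_of_eq ?_) this
                rw [← (Equiv.subLeft (w + Dp zY T')).tsum_eq (fun z => min (Pl ΛX hX zX A (j, z))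
                  (AgX (j, z)) * ∑' L, ∑' L', (if HT hX L = s1 + i ∧ Dp zX L ∈ E i ∧
                  HT hY L' = s2 + i' ∧ CP TX TY lo hi L (A + j) L' (w + Dp zY T' - z) (HT hY T')
                  then LW ΛX L * LW ΛY L' else 0))]
                refine tsum_congr fun x => ?_
                simp only [Equiv.subLeft_apply, sub_sub_cancel]
              · calc _ ≤ ∑' x, Pl ΛX hX zX A (j, w + Dp zY T' - x) :=
                      ENNReal.tsum_le_tsum fun x => min_le_left _ _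
                  _ = ∑' x, Pl ΛX hX zX A (j, x) :=
                      (Equiv.subLeft (w + Dp zY T')).tsum_eq (fun x => Pl ΛX hX zX A (j, x))
                  _ ≤ ∑' y, Pl ΛX hX zX A y :=
                      ENNReal.tsum_comp_le_tsum_of_injective (f := fun z' : G => (j, z'))
                        (fun a b hab => (Prod.ext_iff.1 hab).2) _
                  _ = 1 := Pl_sum ΛX hX zX h1X hΛX A
              · intro x; exact (min_le_right _ _).trans (hAgX _)
          _ = (i0 + 1) * ((i0 + 1) * η) := by simp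
    · refine le_trans (FPS_le ΛX hX h1X hΛX A (c := 0) fun T _ =>
        FPS_le ΛX hX h1X hΛX s1 fun P _ => FPS_le ΛY hY h1Y hΛY s2 fun P' _ => ?_) zero_le
      rw [if_neg]; rintro ⟨h3, -⟩; exact hT2 h3.2.1
  · -- Y local
    rw [E4_comm ΛX ΛY hX hY h1X h1Y]
    refine FPS_le ΛX hX h1X hΛX A fun T hT => ?_
    by_cases hT2 : HT hX T ≤ A + i0
    · set Φ : ℕ × G → ℝ≥0∞ := fun y => FPS ΛX hX s1 (fun P => FPS ΛY hY s2 (fun P' =>
          if HT hX P ≤ s1 + i0 ∧ HT hY P' ≤ s2 + i0 ∧ (y.1 ≤ i0 ∧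
            CP TX TY lo hi P (HT hX T) P' (w + y.2 - Dp zX T) (A' + y.1) ∧ ¬ NY P')
          then 1 else 0)) with hΦd
      have e1 : FPS ΛY hY A' (fun T' => FPS ΛX hX s1 (fun P => FPS ΛY hY s2 (fun P' =>
          if C4 T P T' P' ∧ ¬ NY P' then 1 else 0)))
          = FPS ΛY hY A' (fun T' => Φ (HT hY T' - A', Dp zY T')) := by
        refine FPS_congr' ΛY hY h1Y A' fun T' hT' => ?_
        refine FPS_congr' ΛX hX h1X s1 fun P _ => FPS_congr' ΛY hY h1Y s2 fun P' _ => ?_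
        simp only [hC4]
        rw [show A' + (HT hY T' - A') = HT hY T' by omega]
        by_cases hc : HT hY T' ≤ A' + i0
        · have hc' : HT hY T' - A' ≤ i0 := by omega
          simp only [hc, hc', hT2, true_and, and_assoc]
        · have hc' : ¬ HT hY T' - A' ≤ i0 := by omega
          simp only [hc, hc', false_and, and_false]
      rw [e1]
      refine (loc ΛY hY zY h1Y A' i0 AgY BbY hABY Φ ?_ ?_ ((i0 + 1) * ((i0 + 1) * η)) ?_).trans
        (add_le_add le_rfl hBbY)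
      · intro y
        exact FPS_le ΛX hX h1X hΛX s1 fun P _ => FPS_le ΛY hY h1Y hΛY s2 fun P' _ => by
          split_ifs <;> simp
      · intro y hy
        refine le_antisymm ?_ zero_le
        refine FPS_le ΛX hX h1X hΛX s1 fun P _ => FPS_le ΛY hY h1Y hΛY s2 fun P' _ => ?_
        rw [if_neg]; rintro ⟨-, -, h3, -⟩; omega
      · intro j hj
        have hsum : ∀ i : ℕ, ∑' z : G, Pl ΛY hY zY s2 (i, z) ≤ 1 := fun i =>
          (ENNReal.tsum_comp_le_tsum_of_injective (f := fun z' : G => (i, z'))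
            (fun a b hab => (Prod.ext_iff.1 hab).2) _).trans (Pl_sum ΛY hY zY h1Y hΛY s2).le
        have hE : ∀ i : ℕ, ∃ E : Finset G, (E.card : ℝ≥0∞) ≤ 1 / thY ∧
            ∀ z, thY ≤ Pl ΛY hY zY s2 (i, z) → z ∈ E := by
          intro i
          obtain ⟨hf, hc⟩ := ENNReal.finset_card_const_le_le_of_tsum_le
            (a := fun z : G => Pl ΛY hY zY s2 (i, z)) ENNReal.one_ne_top (hsum i) hthY
          exact ⟨hf.toFinset, hc, fun z hz => by simpa using hz⟩
        choose E hEc hEm using hE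
        have hΦle : ∀ z, Φ (j, z) ≤ ∑ i ∈ Finset.range (i0 + 1), ∑ i' ∈ Finset.range (i0 + 1),
            ∑' L, ∑' L', (if HT hX L = s1 + i ∧ HT hY L' = s2 + i' ∧ Dp zY L' ∈ E i' ∧
              CP TX TY lo hi L (HT hX T) L' (w + z - Dp zX T) (A' + j)
              then LW ΛX L * LW ΛY L' else 0) := by
          intro z
          refine le_trans (le_of_eq ?_) ((dbl ΛX ΛY hX hY h1X h1Y s1 s2 i0
            (fun P P' => (j, z).1 ≤ i0 ∧
            CP TX TY lo hi P (HT hX T) P' (w + (j, z).2 - Dp zX T) (A' + (j, z).1) ∧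
            ¬ NY P')).trans ?_)
          · refine FPS_congr' ΛX hX h1X s1 fun P _ => FPS_congr' ΛY hY h1Y s2 fun P' _ => ?_
            congr
          refine Finset.sum_le_sum fun i _ => Finset.sum_le_sum fun i' _ =>
            ENNReal.tsum_le_tsum fun L => ENNReal.tsum_le_tsum fun L' => ?_
          by_cases hc : HT hX L = s1 + i ∧ HT hY L' = s2 + i' ∧ (j, z).1 ≤ i0 ∧
            CP TX TY lo hi L (HT hX T) L' (w + (j, z).2 - Dp zX T) (A' + (j, z).1) ∧ ¬ NY L'
          · rw [if_pos hc, if_pos]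
            obtain ⟨c1, c2, c3, c4, c5⟩ := hc
            refine ⟨c1, c2, hEm i' _ ?_, c4⟩
            have := not_lt.1 c5
            rwa [c2, Nat.add_sub_cancel_left] at this
          · rw [if_neg hc]; exact zero_le
        calc ∑' z : G, min (Pl ΛY hY zY A' (j, z)) (AgY (j, z)) * Φ (j, z)
            ≤ ∑' z : G, min (Pl ΛY hY zY A' (j, z)) (AgY (j, z)) *
              ∑ i ∈ Finset.range (i0 + 1), ∑ i' ∈ Finset.range (i0 + 1),
              ∑' L, ∑' L', (if HT hX L = s1 + i ∧ HT hY L' = s2 + i' ∧ Dp zY L' ∈ E i' ∧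
              CP TX TY lo hi L (HT hX T) L' (w + z - Dp zX T) (A' + j)
              then LW ΛX L * LW ΛY L' else 0) :=
              ENNReal.tsum_le_tsum fun z => mul_le_mul_right (hΦle z) _
          _ = ∑ i ∈ Finset.range (i0 + 1), ∑ i' ∈ Finset.range (i0 + 1),
              ∑' z : G, min (Pl ΛY hY zY A' (j, z)) (AgY (j, z)) *
              ∑' L, ∑' L', (if HT hX L = s1 + i ∧ HT hY L' = s2 + i' ∧ Dp zY L' ∈ E i' ∧
              CP TX TY lo hi L (HT hX T) L' (w + z - Dp zX T) (A' + j)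
              then LW ΛX L * LW ΛY L' else 0) := by
              simp_rw [Finset.mul_sum, Summable.tsum_finsetSum (fun _ _ => ENNReal.summable)]
          _ ≤ ∑ i ∈ Finset.range (i0 + 1), ∑ i' ∈ Finset.range (i0 + 1), η := by
              refine Finset.sum_le_sum fun i hi' => Finset.sum_le_sum fun i' hi'' => ?_
              have hi1 := Finset.mem_range.1 hi'
              have hi2' := Finset.mem_range.1 hi''
              have := hF3 (HT hX T) (A' + j) (s1 + i) (s2 + i') hT hT2 (by omega) (by omega)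
                (by omega) (by omega) (by omega) (by omega) (E i')
                (fun x => min (Pl ΛY hY zY A' (j, x - (w - Dp zX T)))
                  (AgY (j, x - (w - Dp zX T)))) (hEc i') ?_ ?_
              · refine le_trans (le_of_eq ?_) this
                rw [← (Equiv.subRight (w - Dp zX T)).tsum_eq (fun z =>
                  min (Pl ΛY hY zY A' (j, z)) (AgY (j, z)) * ∑' L, ∑' L',
                  (if HT hX L = s1 + i ∧ HT hY L' = s2 + i' ∧ Dp zY L' ∈ E i' ∧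
                  CP TX TY lo hi L (HT hX T) L' (w + z - Dp zX T) (A' + j)
                  then LW ΛX L * LW ΛY L' else 0))]
                refine tsum_congr fun x => ?_
                simp only [Equiv.subRight_apply]
                rw [show w + (x - (w - Dp zX T)) - Dp zX T = x by abel]
              · calc _ ≤ ∑' x, Pl ΛY hY zY A' (j, x - (w - Dp zX T)) :=
                      ENNReal.tsum_le_tsum fun x => min_le_left _ _
                  _ = ∑' x, Pl ΛY hY zY A' (j, x) :=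
                      (Equiv.subRight (w - Dp zX T)).tsum_eq (fun x => Pl ΛY hY zY A' (j, x))
                  _ ≤ ∑' y, Pl ΛY hY zY A' y :=
                      ENNReal.tsum_comp_le_tsum_of_injective (f := fun z' : G => (j, z'))
                        (fun a b hab => (Prod.ext_iff.1 hab).2) _
                  _ = 1 := Pl_sum ΛY hY zY h1Y hΛY A'
              · intro x; exact (min_le_right _ _).trans (hAgY _)
          _ = (i0 + 1) * ((i0 + 1) * η) := by simp
    · refine le_trans (FPS_le ΛY hY h1Y hΛY A' (c := 0) fun T' _ =>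
        FPS_le ΛX hX h1X hΛX s1 fun P _ => FPS_le ΛY hY h1Y hΛY s2 fun P' _ => ?_) zero_le
      rw [if_neg]; rintro ⟨h3, -⟩; exact hT2 h3.1

end Crest.Agent.R154.FP933
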