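import Crest.Agent.R154.Ren_396
import Crest.Agent.R154.AsmA_789

/-! Row 154, ROAD 801 (helper29): pieces of the abstract assembly, part 1. -/

set_option autoImplicit false

namespace Crest.Agent.R154.Asm29

open scoped ENNReal
open Crest.Agent.R154.B5A Crest.Agent.R154.Ren396

section gen

variable {B : Type*} (Λ : B → ℝ≥0∞)

lemma SL_mono_supp (j : ℕ) {F F' : List B → ℝ≥0∞}
    (h : ∀ L, L.length = j → LW Λ L ≠ 0 → F L ≤ F' L) : SL Λ j F ≤ SL Λ j F' := by
  refine ENNReal.tsum_le_tsum fun L => ?_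
  by_cases hL : L.length = j
  · simp only [hL, if_true]
    by_cases h0 : LW Λ L = 0
    · simp [h0]
    · exact mul_le_mul_right (h L hL h0) _
  · simp [hL]

lemma SL_le_const (hΛ : ∑' b, Λ b ≤ 1) (j : ℕ) {F : List B → ℝ≥0∞} {a : ℝ≥0∞}
    (h : ∀ L, L.length = j → LW Λ L ≠ 0 → F L ≤ a) : SL Λ j F ≤ a := by
  calc SL Λ j F ≤ SL Λ j (fun _ => a * 1) :=
        SL_mono_supp Λ j fun L hL h0 => by rw [mul_one]; exact h L hL h0
    _ = a * SL Λ j (fun _ => 1) := SL_const_mul Λ j a _
    _ ≤ a * 1 := by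
        refine mul_le_mul_right ?_ _
        rw [SL_pow]; exact pow_le_one' hΛ _
    _ = a := mul_one a

lemma LW_ne_zero {L : List B} (h : LW Λ L ≠ 0) : ∀ b ∈ L, Λ b ≠ 0 := by
  induction L with
  | nil => simp
  | cons b L ih =>
    rw [LW_cons] at h
    intro c hc
    rcases List.mem_cons.1 hc with rfl | hc
    · exact left_ne_zero_of_mul h
    · exact ih (right_ne_zero_of_mul h) c hc

lemma SL_tsum {ι : Type*} (j : ℕ) (F : ι → List B → ℝ≥0∞) :
    SL Λ j (fun L => ∑' i, F i L) = ∑' i, SL Λ j (F i) := by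
  simp only [SL]
  rw [ENNReal.tsum_comm]
  refine tsum_congr fun L => ?_
  by_cases hL : L.length = j
  · simp only [hL, if_true]; rw [ENNReal.tsum_mul_left]
  · simp [hL]

lemma SL_fsum {ι : Type*} (j : ℕ) (s : Finset ι) (F : ι → List B → ℝ≥0∞) :
    SL Λ j (fun L => ∑ i ∈ s, F i L) = ∑ i ∈ s, SL Λ j (F i) := by
  classical
  induction s using Finset.induction_on with
  | empty => simp [SL]
  | insert a s ha ih =>
    rw [Finset.sum_insert ha, ← ih, ← SL_add_fun]
    refine SL_congr Λ j fun L _ => ?_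
    rw [Finset.sum_insert ha]

/-- split at the piece number `j` -/
lemma SL_piece (hΛ : ∑' b, Λ b ≤ 1) {J j : ℕ} (hj : j < J) (c : B) (φ : List B → B → ℝ≥0∞) :
    SL Λ J (fun L => φ (L.take j) (L.getD j c)) ≤ SL Λ j (fun P => ∑' a, Λ a * φ P a) := by
  obtain ⟨r, rfl⟩ : ∃ r, J = j + (r + 1) := ⟨J - j - 1, by omega⟩
  rw [SL_add]
  refine SL_mono Λ j fun P hP => ?_
  rw [SL_succ]
  refine ENNReal.tsum_le_tsum fun a => mul_le_mul_right ?_ _
  refine SL_le_const Λ hΛ r fun Q _ _ => ?_
  have e1 : (P ++ a :: Q).take j = P := by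
    rw [← hP, List.take_left]
  have e2 : (P ++ a :: Q).getD j c = a := by
    rw [← hP]
    simp
  rw [e1, e2]

end gen

section dec

variable {B : Type*} (Λ : B → ℝ≥0∞) (ht : B → ℕ)

open Classical in
/-- truncated attempt weight -/
noncomputable def aT (T i0 : ℕ) (A : List B) : ℝ≥0∞ :=
  if FR ht A T ∧ HT ht A ≤ T + i0 then LW Λ A else 0

lemma aT_ne_zero {T i0 : ℕ} {A : List B} (h : aT Λ ht T i0 A ≠ 0) :
    T ≤ HT ht A ∧ HT ht A ≤ T + i0 := by
  classical
  rw [aT] at h
  by_cases h' : FR ht A T ∧ HT ht A ≤ T + i0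
  · exact ⟨FR_le ht h'.1, h'.2⟩
  · exact absurd (if_neg h') h

lemma aT_le (T i0 : ℕ) (A : List B) : aT Λ ht T i0 A ≤ LW Λ A := by
  classical
  rw [aT]; split_ifs <;> simp

lemma sum_aT_le (hΛ : ∑' b, Λ b ≤ 1) (h1 : ∀ b, 1 ≤ ht b) (T i0 : ℕ) :
    ∑' A, aT Λ ht T i0 A ≤ 1 := by
  classical
  refine le_trans (ENNReal.tsum_le_tsum fun A => ?_) (mass_FR Λ ht hΛ h1 T)
  rw [aT]
  by_cases h : FR ht A T
  · by_cases h' : HT ht A ≤ T + i0 <;> simp [h, h']
  · simp [h]

lemma HT_flatten_bd {T i0 : ℕ} {P : List (List B)}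
    (h : ∀ a ∈ P, T ≤ HT ht a ∧ HT ht a ≤ T + i0) :
    P.length * T ≤ HT ht P.flatten ∧ HT ht P.flatten ≤ P.length * (T + i0) := by
  induction P with
  | nil => simp [HT_nil]
  | cons a P ih =>
    have := ih fun b hb => h b (List.mem_cons_of_mem _ hb)
    have ha := h a List.mem_cons_self
    rw [List.flatten_cons, HT_append, List.length_cons]
    constructor
    · nlinarith [this.1, ha.1]
    · nlinarith [this.2, ha.2]

open Classical in
/-- peel off `J` attempts -/
theorem dec (hΛ : ∑' b, Λ b ≤ 1) (h1 : ∀ b, 1 ≤ ht b) (hU1 : ∀ n, U Λ ht n ≤ 1) (T i0 : ℕ)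
    (J : ℕ) (A : ℕ) (hA : J * (T + i0) ≤ A) (F : List B → ℝ≥0∞) (hF : ∀ L, F L ≤ 1)
    (Fh : List (List B) → ℝ≥0∞)
    (hFh : ∀ (As : List (List B)) (R : List B), As.length = J →
      (∀ a ∈ As, T ≤ HT ht a ∧ HT ht a ≤ T + i0) → F (As.flatten ++ R) ≤ Fh As) :
    ∑' L, (if HT ht L = A then LW Λ L * F L else 0)
      ≤ SL (aT Λ ht T i0) J Fh + J * TS Λ ht (i0 + 1) := by
  induction J generalizing A F Fh with
  | zero =>
    rw [SL_zero]
    refine le_add_right ?_
    calc ∑' L, (if HT ht L = A then LW Λ L * F L else 0)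
        ≤ ∑' L, (if HT ht L = A then LW Λ L else 0) * Fh [] := by
          refine ENNReal.tsum_le_tsum fun L => ?_
          split_ifs
          · exact mul_le_mul_right (hFh [] L rfl (by simp)) _
          · simp
      _ = U Λ ht A * Fh [] := by rw [ENNReal.tsum_mul_right, U]
      _ ≤ 1 * Fh [] := mul_le_mul_left (hU1 A) _
      _ = Fh [] := one_mul _
  | succ J ih =>
    have hTA : T ≤ A := by nlinarith
    have h := split_FR ht T (fun L => if HT ht L = A then LW Λ L * F L else 0)
    have e0 : ∑' L, (if HT ht L = A then LW Λ L * F L else 0)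
        = ∑' L, (if T ≤ HT ht L then (if HT ht L = A then LW Λ L * F L else 0) else 0) := by
      refine tsum_congr fun L => ?_
      by_cases h' : HT ht L = A
      · rw [if_pos h', if_pos (by omega)]
      · simp [h']
    rw [e0, h]
    have hin : ∀ a : List B, FR ht a T →
        ∑' R, (if HT ht (a ++ R) = A then LW Λ (a ++ R) * F (a ++ R) else 0)
          ≤ aT Λ ht T i0 a * (SL (aT Λ ht T i0) J (fun As => Fh (a :: As))
              + J * TS Λ ht (i0 + 1))
            + (if FR ht a T ∧ T + i0 < HT ht a then LW Λ a else 0) := by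
      intro a ha
      by_cases hh : HT ht a ≤ T + i0
      · have hTa := FR_le ht ha
        refine le_add_right ?_
        rw [aT, if_pos ⟨ha, hh⟩]
        have hA' : J * (T + i0) ≤ A - HT ht a := by
          have : (J + 1) * (T + i0) = J * (T + i0) + (T + i0) := by ring
          omega
        have key := ih (A - HT ht a) hA' (fun R => F (a ++ R)) (fun R => hF _)
          (fun As => Fh (a :: As)) (by
            intro As R hl hAs
            have := hFh (a :: As) R (by simp [hl]) (by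
              intro b hb
              rcases List.mem_cons.1 hb with rfl | hb
              · exact ⟨hTa, hh⟩
              · exact hAs b hb)
            simpa using this)
        refine le_trans (le_of_eq ?_) (mul_le_mul_right key _)
        rw [← ENNReal.tsum_mul_left]
        refine tsum_congr fun R => ?_
        rw [HT_append, LW_append]
        have : HT ht a ≤ A := by
          have : (J + 1) * (T + i0) = J * (T + i0) + (T + i0) := by ring
          omega
        by_cases hR : HT ht R = A - HT ht a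
        · rw [if_pos hR, if_pos (by omega), mul_assoc]
        · rw [if_neg hR, if_neg (by omega), mul_zero]
      · refine le_add_left ?_
        rw [if_pos ⟨ha, by omega⟩]
        calc ∑' R, (if HT ht (a ++ R) = A then LW Λ (a ++ R) * F (a ++ R) else 0)
            ≤ ∑' R, LW Λ a * (if HT ht R = A - HT ht a then LW Λ R else 0) := by
              refine ENNReal.tsum_le_tsum fun R => ?_
              rw [HT_append, LW_append]
              by_cases hR : HT ht a + HT ht R = A
              · rw [if_pos hR, if_pos (by omega)]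
                calc LW Λ a * LW Λ R * F (a ++ R) ≤ LW Λ a * LW Λ R * 1 :=
                      mul_le_mul_right (hF _) _
                  _ = _ := mul_one _
              · rw [if_neg hR]; exact zero_le
          _ = LW Λ a * U Λ ht (A - HT ht a) := by rw [ENNReal.tsum_mul_left, U]
          _ ≤ LW Λ a * 1 := mul_le_mul_right (hU1 _) _
          _ = LW Λ a := mul_one _
    calc ∑' a, (if FR ht a T then
          ∑' R, (if HT ht (a ++ R) = A then LW Λ (a ++ R) * F (a ++ R) else 0) else 0)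
        ≤ ∑' a, (aT Λ ht T i0 a * (SL (aT Λ ht T i0) J (fun As => Fh (a :: As))
              + J * TS Λ ht (i0 + 1))
            + (if FR ht a T ∧ T + i0 < HT ht a then LW Λ a else 0)) := by
          refine ENNReal.tsum_le_tsum fun a => ?_
          split_ifs with h1 h2 h2
          · exact (hin a h1).trans (by rw [if_pos h2])
          · exact (hin a h1).trans (by rw [if_neg h2])
          · exact zero_le
          · exact zero_le
      _ = SL (aT Λ ht T i0) (J + 1) Fh + (∑' a, aT Λ ht T i0 a) * (J * TS Λ ht (i0 + 1))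
            + ∑' a, (if FR ht a T ∧ T + i0 < HT ht a then LW Λ a else 0) := by
          rw [ENNReal.tsum_add]
          congr 1
          rw [SL_succ, ← ENNReal.tsum_mul_right, ← ENNReal.tsum_add]
          exact tsum_congr fun a => mul_add _ _ _
      _ ≤ SL (aT Λ ht T i0) (J + 1) Fh + 1 * (J * TS Λ ht (i0 + 1)) + TS Λ ht (i0 + 1) :=
          add_le_add (add_le_add le_rfl (mul_le_mul_left (sum_aT_le Λ ht hΛ h1 T i0) _))
            (over_le Λ ht hU1 T i0)
      _ = _ := by push_cast; ring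

end dec

section dec2

variable {BX BY : Type*} (ΛX : BX → ℝ≥0∞) (hX : BX → ℕ) (ΛY : BY → ℝ≥0∞) (hY : BY → ℕ)

open Classical in
theorem dec2 (hΛX : ∑' b, ΛX b ≤ 1) (h1X : ∀ b, 1 ≤ hX b) (hU1X : ∀ n, U ΛX hX n ≤ 1)
    (hΛY : ∑' b, ΛY b ≤ 1) (h1Y : ∀ b, 1 ≤ hY b) (hU1Y : ∀ n, U ΛY hY n ≤ 1) (T i0 : ℕ)
    (J : ℕ) (A : ℕ) (hA : J * (T + i0) ≤ A) (F : List BX → List BY → ℝ≥0∞)
    (hF : ∀ L L', F L L' ≤ 1) (Fh : List (List BX) → List (List BY) → ℝ≥0∞)
    (hFh : ∀ (As : List (List BX)) (R : List BX) (As' : List (List BY)) (R' : List BY),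
      As.length = J → As'.length = J →
      (∀ a ∈ As, T ≤ HT hX a ∧ HT hX a ≤ T + i0) → (∀ a ∈ As', T ≤ HT hY a ∧ HT hY a ≤ T + i0) →
      F (As.flatten ++ R) (As'.flatten ++ R') ≤ Fh As As') :
    ∑' L, ∑' L', (if HT hX L = A ∧ HT hY L' = A then LW ΛX L * LW ΛY L' * F L L' else 0)
      ≤ SL (aT ΛX hX T i0) J (fun As => SL (aT ΛY hY T i0) J (Fh As))
        + J * TS ΛX hX (i0 + 1) + J * TS ΛY hY (i0 + 1) := by
  have e0 : ∀ L : List BX, ∑' L', (if HT hX L = A ∧ HT hY L' = A then
      LW ΛX L * LW ΛY L' * F L L' else 0)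
      = if HT hX L = A then LW ΛX L * (∑' L', if HT hY L' = A then LW ΛY L' * F L L' else 0)
        else 0 := by
    intro L
    by_cases h : HT hX L = A
    · rw [if_pos h, ← ENNReal.tsum_mul_left]
      refine tsum_congr fun L' => ?_
      by_cases h' : HT hY L' = A
      · simp [h, h', mul_assoc]
      · simp [h, h']
    · simp [h]
  rw [tsum_congr e0]
  refine (dec ΛX hX hΛX h1X hU1X T i0 J A hA
    (fun L => ∑' L', if HT hY L' = A then LW ΛY L' * F L L' else 0) ?_
    (fun As => SL (aT ΛY hY T i0) J (Fh As) + J * TS ΛY hY (i0 + 1)) ?_).trans ?_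
  · intro L
    refine le_trans (ENNReal.tsum_le_tsum fun L' => ?_) (hU1Y A)
    split_ifs
    · calc LW ΛY L' * F L L' ≤ LW ΛY L' * 1 := mul_le_mul_right (hF _ _) _
        _ = _ := mul_one _
    · exact le_rfl
  · intro As R hAs hAs2
    exact dec ΛY hY hΛY h1Y hU1Y T i0 J A hA (fun L' => F (As.flatten ++ R) L') (fun _ => hF _ _)
      (Fh As) (fun As' R' hAs' hAs2' => hFh As R As' R' hAs hAs' hAs2 hAs2')
  · rw [SL_add_fun]
    have : SL (aT ΛX hX T i0) J (fun _ => (J : ℝ≥0∞) * TS ΛY hY (i0 + 1))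
        ≤ J * TS ΛY hY (i0 + 1) :=
      SL_le_const _ (sum_aT_le ΛX hX hΛX h1X T i0) J fun _ _ _ => le_rfl
    calc _ ≤ SL (aT ΛX hX T i0) J (fun As => SL (aT ΛY hY T i0) J (Fh As))
          + J * TS ΛY hY (i0 + 1) + J * TS ΛX hX (i0 + 1) :=
          add_le_add (add_le_add le_rfl this) le_rfl
      _ = _ := by ring

end dec2

end Crest.Agent.R154.Asm29
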