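import Crest.Agent.R154.AsmP1_29

/-! Row 154, ROAD 801 (helper29): pieces of the abstract assembly, part 2 (one local walker). -/

set_option autoImplicit false

namespace Crest.Agent.R154.Asm29

open scoped ENNReal
open Crest.Agent.R154.B5A Crest.Agent.R154.Ren396

open Classical in
/-- law of a key -/
noncomputable def law {A K : Type*} (Λ : A → ℝ≥0∞) (key : A → K) (k : K) : ℝ≥0∞ :=
  ∑' a, if key a = k then Λ a else 0

open Classical in
lemma push {A K : Type*} (Λ : A → ℝ≥0∞) (key : A → K) (F : K → ℝ≥0∞) :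
    ∑' a, Λ a * F (key a) = ∑' k, law Λ key k * F k := by
  simp only [law, ← ENNReal.tsum_mul_right]
  rw [ENNReal.tsum_comm]
  refine tsum_congr fun a => ?_
  rw [tsum_eq_single (key a)]
  · simp
  · intro k hk; rw [if_neg (Ne.symm hk), zero_mul]

open Classical in
/-- dyadic quantile of a subprobability -/
theorem quant' {ι : Type*} (p : ι → ℝ≥0∞) (hp : ∑' i, p i ≤ 1) {u : ℝ≥0∞} (hu : u ≠ 0) :
    ∃ θ : ℝ≥0∞, θ ≠ 0 ∧ θ ≤ 1 ∧ (∑' i, if p i < θ then p i else 0) ≤ u ∧
      (∑' i, if p i < 2 * θ then 0 else p i) ≤ 1 - u := by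
  have hex := AsmA789.exists_small p hp hu
  set P : ℕ → Prop := fun q => (∑' i, if p i < (2 : ℝ≥0∞)⁻¹ ^ q then p i else 0) ≤ u with hP
  have hex' : ∃ q, P q := hex
  have hq := Nat.find_spec hex'
  refine ⟨(2 : ℝ≥0∞)⁻¹ ^ Nat.find hex', ?_, ?_, hq, ?_⟩
  · exact pow_ne_zero _ (by simp)
  · exact pow_le_one' (by simp) _
  · rcases Nat.eq_zero_or_pos (Nat.find hex') with h0 | hpos
    · rw [h0, pow_zero, mul_one]
      have : ∀ i, p i < 2 := by
        intro i
        calc p i ≤ ∑' i, p i := ENNReal.le_tsum i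
          _ ≤ 1 := hp
          _ < 2 := by norm_num
      simp [this]
    · obtain ⟨r, hr⟩ := Nat.exists_eq_succ_of_ne_zero hpos.ne'
      have hnot : ¬ P r := Nat.find_min hex' (by omega)
      have e : 2 * (2 : ℝ≥0∞)⁻¹ ^ Nat.find hex' = (2 : ℝ≥0∞)⁻¹ ^ r := by
        rw [hr, Nat.succ_eq_add_one, pow_succ, mul_comm ((2 : ℝ≥0∞)⁻¹ ^ r), ← mul_assoc,
          ENNReal.mul_inv_cancel (by norm_num) (by norm_num), one_mul]
      rw [e]
      have h2 : u ≤ ∑' i, (if p i < (2 : ℝ≥0∞)⁻¹ ^ r then p i else 0) := (not_le.1 hnot).le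
      have h3 : (∑' i, (if p i < (2 : ℝ≥0∞)⁻¹ ^ r then 0 else p i))
          + ∑' i, (if p i < (2 : ℝ≥0∞)⁻¹ ^ r then p i else 0) = ∑' i, p i := by
        rw [← ENNReal.tsum_add]
        refine tsum_congr fun i => ?_
        split_ifs <;> simp
      have hutop : u ≠ ⊤ := by
        refine ne_top_of_le_ne_top ENNReal.one_ne_top (h2.trans (le_trans ?_ hp))
        refine ENNReal.tsum_le_tsum fun i => ?_
        split_ifs <;> simp
      refine ENNReal.le_sub_of_add_le_right hutop ?_
      calc _ ≤ (∑' i, (if p i < (2 : ℝ≥0∞)⁻¹ ^ r then 0 else p i))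
          + ∑' i, (if p i < (2 : ℝ≥0∞)⁻¹ ^ r then p i else 0) := add_le_add le_rfl h2
        _ = ∑' i, p i := h3
        _ ≤ 1 := hp

lemma SL_comm {B B' : Type*} (Λ : B → ℝ≥0∞) (Λ' : B' → ℝ≥0∞) (i j : ℕ)
    (F : List B → List B' → ℝ≥0∞) :
    SL Λ i (fun P => SL Λ' j (fun P' => F P P')) = SL Λ' j (fun P' => SL Λ i (fun P => F P P')) := by
  have h := SL_tsum Λ i (fun (P' : List B') (P : List B) =>
    if P'.length = j then LW Λ' P' * F P P' else 0)
  calc SL Λ i (fun P => SL Λ' j (fun P' => F P P'))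
      = SL Λ i (fun L => ∑' P' : List B', if P'.length = j then LW Λ' P' * F L P' else 0) := rfl
    _ = ∑' P' : List B', SL Λ i (fun P => if P'.length = j then LW Λ' P' * F P P' else 0) := h
    _ = _ := by
        rw [SL]
        refine tsum_congr fun P' => ?_
        by_cases hP : P'.length = j
        · simp only [hP, if_true]
          rw [← SL_const_mul]
        · simp only [hP, if_false]
          rw [SL]; simp

section half

variable {B1 B2 G : Type*} [AddCommGroup G] (Λ1 : B1 → ℝ≥0∞) (h1 : B1 → ℕ) (z1 : B1 → G)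
  (Λ2 : B2 → ℝ≥0∞) (h2 : B2 → ℕ) (z2 : B2 → G)

open Classical in
/-- law of (height, displacement) of an attempt -/
noncomputable def pl (T i0 : ℕ) (k : ℕ × G) : ℝ≥0∞ :=
  law (aT Λ1 h1 T i0) (fun a => (HT h1 a, dp z1 a)) k

lemma sum_pl (T i0 : ℕ) : ∑' k, pl Λ1 h1 z1 T i0 k = ∑' a, aT Λ1 h1 T i0 a := by
  classical
  have := push (aT Λ1 h1 T i0) (fun a => (HT h1 a, dp z1 a)) (fun _ => 1)
  simp only [mul_one] at this
  rw [this]
  rfl

lemma flat_key (P : List (List B1)) :
    (P.map (fun a => (((HT h1 a : ℕ) : ℤ), dp z1 a))).sum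
      = (((HT h1 P.flatten : ℕ) : ℤ), dp z1 P.flatten) := by
  induction P with
  | nil => simp [HT_nil, dp]; rfl
  | cons a P ih =>
    rw [List.map_cons, List.sum_cons, ih, List.flatten_cons, HT_append, dp_append]
    ext <;> simp

open Classical in
/-- sum over the two pieces -/
lemma psi_le (T i0 : ℕ) {θ : ℝ≥0∞}
    (E : Finset G) (hE : ∀ h x, θ ≤ pl Λ1 h1 z1 T i0 (h, x) → x ∈ E)
    (Ev : ℕ → ℕ → G → List B1 → List B2 → Prop) (c c' : ℕ) (μ : G → ℝ≥0∞) (b : ℝ≥0∞)
    (hB : ∀ h h', T ≤ h → h ≤ T + i0 → T ≤ h' → h' ≤ T + i0 →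
      ∑' x, μ x * ∑' L, ∑' L', (if HT h1 L = h ∧ dp z1 L ∈ E ∧ HT h2 L' = h' ∧ Ev c c' x L L'
        then LW Λ1 L * LW Λ2 L' else 0) ≤ b) :
    ∑' x, μ x * ∑' a, ∑' a', (if θ ≤ pl Λ1 h1 z1 T i0 (HT h1 a, dp z1 a) ∧ Ev c c' x a a'
      then aT Λ1 h1 T i0 a * aT Λ2 h2 T i0 a' else 0) ≤ ((i0 : ℝ≥0∞) + 1) ^ 2 * b := by
  set I := Finset.Icc T (T + i0) with hI
  have hcard : (I.card : ℝ≥0∞) = (i0 : ℝ≥0∞) + 1 := by
    rw [hI, Nat.card_Icc, show T + i0 + 1 - T = i0 + 1 by omega]; push_cast; rfl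
  have hpt : ∀ (x : G) (a : List B1) (a' : List B2),
      (if θ ≤ pl Λ1 h1 z1 T i0 (HT h1 a, dp z1 a) ∧ Ev c c' x a a'
        then aT Λ1 h1 T i0 a * aT Λ2 h2 T i0 a' else 0)
      ≤ ∑ q ∈ I ×ˢ I, (if HT h1 a = q.1 ∧ dp z1 a ∈ E ∧ HT h2 a' = q.2 ∧ Ev c c' x a a'
          then LW Λ1 a * LW Λ2 a' else 0) := by
    intro x a a'
    split_ifs with h
    · by_cases h0 : aT Λ1 h1 T i0 a = 0
      · rw [h0, zero_mul]; exact zero_le
      by_cases h0' : aT Λ2 h2 T i0 a' = 0
      · rw [h0', mul_zero]; exact zero_le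
      have ha := aT_ne_zero Λ1 h1 h0
      have ha' := aT_ne_zero Λ2 h2 h0'
      have hmem : (HT h1 a, HT h2 a') ∈ I ×ˢ I := by
        rw [Finset.mem_product, hI]
        exact ⟨Finset.mem_Icc.2 ha, Finset.mem_Icc.2 ha'⟩
      refine le_trans ?_ (Finset.single_le_sum (f := fun q : ℕ × ℕ =>
        (if HT h1 a = q.1 ∧ dp z1 a ∈ E ∧ HT h2 a' = q.2 ∧ Ev c c' x a a'
          then LW Λ1 a * LW Λ2 a' else 0)) (fun _ _ => zero_le) hmem)
      simp only
      rw [if_pos ⟨trivial, hE _ _ h.1, trivial, h.2⟩]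
      exact mul_le_mul' (aT_le Λ1 h1 T i0 a) (aT_le Λ2 h2 T i0 a')
    · exact zero_le
  calc ∑' x, μ x * ∑' a, ∑' a', (if θ ≤ pl Λ1 h1 z1 T i0 (HT h1 a, dp z1 a) ∧ Ev c c' x a a'
      then aT Λ1 h1 T i0 a * aT Λ2 h2 T i0 a' else 0)
      ≤ ∑' x, μ x * ∑' a, ∑' a', ∑ q ∈ I ×ˢ I,
          (if HT h1 a = q.1 ∧ dp z1 a ∈ E ∧ HT h2 a' = q.2 ∧ Ev c c' x a a'
          then LW Λ1 a * LW Λ2 a' else 0) := by
        refine ENNReal.tsum_le_tsum fun x => mul_le_mul_right ?_ _
        exact ENNReal.tsum_le_tsum fun a => ENNReal.tsum_le_tsum fun a' => hpt x a a'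
    _ = ∑ q ∈ I ×ˢ I, ∑' x, μ x * ∑' a, ∑' a',
          (if HT h1 a = q.1 ∧ dp z1 a ∈ E ∧ HT h2 a' = q.2 ∧ Ev c c' x a a'
          then LW Λ1 a * LW Λ2 a' else 0) := by
        rw [← Summable.tsum_finsetSum (fun _ _ => ENNReal.summable)]
        refine tsum_congr fun x => ?_
        rw [← Finset.mul_sum]
        congr 1
        rw [← Summable.tsum_finsetSum (fun _ _ => ENNReal.summable)]
        refine tsum_congr fun a => ?_
        rw [← Summable.tsum_finsetSum (fun _ _ => ENNReal.summable)]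
    _ ≤ ∑ _q ∈ I ×ˢ I, b := by
        refine Finset.sum_le_sum fun q hq => ?_
        rw [Finset.mem_product, hI] at hq
        have hq1 := Finset.mem_Icc.1 hq.1
        have hq2 := Finset.mem_Icc.1 hq.2
        exact hB q.1 q.2 hq1.1 hq1.2 hq2.1 hq2.2
    _ = ((i0 : ℝ≥0∞) + 1) ^ 2 * b := by
        rw [Finset.sum_const, Finset.card_product, nsmul_eq_mul]
        push_cast
        rw [hcard]
        ring

open Classical in
/-- **one walker local**: the window bound -/
theorem half (hΛ1 : ∑' b, Λ1 b ≤ 1) (h11 : ∀ b, 1 ≤ h1 b) (hΛ2 : ∑' b, Λ2 b ≤ 1)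
    (h12 : ∀ b, 1 ≤ h2 b) (T i0 : ℕ) {θ u : ℝ≥0∞} (hθ : θ ≠ 0)
    (hlow : (∑' k, if pl Λ1 h1 z1 T i0 k < 2 * θ then 0 else pl Λ1 h1 z1 T i0 k) ≤ 1 - u)
    (Ev : ℕ → ℕ → G → List B1 → List B2 → Prop) (j : ℕ) (Bd : ℝ≥0∞ → ℝ≥0∞) (hBm : Monotone Bd)
    (hB : ∀ (c c' h h' : ℕ) (E : Finset G) (μ : G → ℝ≥0∞) (M : ℝ≥0∞), ∑' x, μ x ≤ 1 →
      (∀ x, μ x ≤ M) → j * T ≤ c → c ≤ j * (T + i0) → j * T ≤ c' → c' ≤ j * (T + i0) →
      T ≤ h → h ≤ T + i0 → T ≤ h' → h' ≤ T + i0 →
      ∑' x, μ x * ∑' L, ∑' L', (if HT h1 L = h ∧ dp z1 L ∈ E ∧ HT h2 L' = h' ∧ Ev c c' x L L'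
        then LW Λ1 L * LW Λ2 L' else 0) ≤ Bd (M * E.card)) (w : G) :
    SL (aT Λ1 h1 T i0) j (fun P => ∑' a, aT Λ1 h1 T i0 a *
      (if θ ≤ pl Λ1 h1 z1 T i0 (HT h1 a, dp z1 a) then
        SL (aT Λ2 h2 T i0) j (fun P' => ∑' a', aT Λ2 h2 T i0 a' *
          (if Ev (HT h1 P.flatten) (HT h2 P'.flatten)
            (w + dp z2 P'.flatten - dp z1 P.flatten) a a' then 1 else 0)) else 0))
      ≤ (1 - u) ^ j + (j * i0 + 1) * (((i0 : ℝ≥0∞) + 1) ^ 2 * Bd (2 * j)) := by
  set W1 := aT Λ1 h1 T i0 with hW1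
  set W2 := aT Λ2 h2 T i0 with hW2
  set p := pl Λ1 h1 z1 T i0 with hp
  have hs1 : ∑' a, W1 a ≤ 1 := sum_aT_le Λ1 h1 hΛ1 h11 T i0
  have hs2 : ∑' a, W2 a ≤ 1 := sum_aT_le Λ2 h2 hΛ2 h12 T i0
  have hsp : ∑' k, p k ≤ 1 := by rw [hp, sum_pl]; exact hs1
  -- the finite set
  obtain ⟨hfin, hcard⟩ := AsmA789.card_le p hsp hθ
  set E : Finset G := hfin.toFinset.image Prod.snd with hEdef
  have hE : ∀ h x, θ ≤ p (h, x) → x ∈ E := by
    intro h x hx
    rw [hEdef, Finset.mem_image]
    exact ⟨(h, x), hfin.mem_toFinset.2 hx, rfl⟩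
  have hEc : (E.card : ℝ≥0∞) * θ ≤ 1 := by
    refine le_trans (mul_le_mul_left ?_ _) hcard
    rw [Set.ncard_eq_toFinset_card _ hfin]
    exact_mod_cast Finset.card_image_le
  -- low attempts
  set Low : List B1 → Prop := fun a => p (HT h1 a, dp z1 a) < 2 * θ with hLow
  have hnl : (∑' a, if Low a then 0 else W1 a) ≤ 1 - u := by
    refine le_trans (le_of_eq ?_) hlow
    have := push W1 (fun a => (HT h1 a, dp z1 a)) (fun k => if p k < 2 * θ then 0 else 1)
    simp only [mul_ite, mul_zero, mul_one] at this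
    exact this
  set Ψ : ℕ → ℕ → G → ℝ≥0∞ := fun c c' x => ∑' a, ∑' a',
    (if θ ≤ p (HT h1 a, dp z1 a) ∧ Ev c c' x a a' then W1 a * W2 a' else 0) with hΨ
  have hΨ1 : ∀ c c' x, Ψ c c' x ≤ 1 := by
    intro c c' x
    calc Ψ c c' x ≤ ∑' a, ∑' a', W1 a * W2 a' := by
          refine ENNReal.tsum_le_tsum fun a => ENNReal.tsum_le_tsum fun a' => ?_
          split_ifs <;> simp
      _ = (∑' a, W1 a) * ∑' a', W2 a' := by
          rw [← ENNReal.tsum_mul_right]
          exact tsum_congr fun a => ENNReal.tsum_mul_left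
      _ ≤ 1 := mul_le_one' hs1 hs2
  -- the swap of the inner sums
  have e1 : ∀ P : List (List B1), (∑' a, W1 a * (if θ ≤ p (HT h1 a, dp z1 a) then
        SL W2 j (fun P' => ∑' a', W2 a' *
          (if Ev (HT h1 P.flatten) (HT h2 P'.flatten)
            (w + dp z2 P'.flatten - dp z1 P.flatten) a a' then 1 else 0)) else 0))
      = SL W2 j (fun P' => Ψ (HT h1 P.flatten) (HT h2 P'.flatten)
          (w + dp z2 P'.flatten - dp z1 P.flatten)) := by
    intro P
    simp only [hΨ]
    rw [SL_tsum]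
    refine tsum_congr fun a => ?_
    by_cases ha : θ ≤ p (HT h1 a, dp z1 a)
    · rw [if_pos ha, ← SL_const_mul]
      refine SL_congr W2 j fun P' _ => ?_
      rw [← ENNReal.tsum_mul_left]
      refine tsum_congr fun a' => ?_
      by_cases hv : Ev (HT h1 P.flatten) (HT h2 P'.flatten)
            (w + dp z2 P'.flatten - dp z1 P.flatten) a a'
      · rw [if_pos hv, if_pos ⟨ha, hv⟩, mul_one]
      · rw [if_neg hv, if_neg (fun h => hv h.2), mul_zero, mul_zero]
    · rw [if_neg ha, mul_zero]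
      simp only [ha, false_and, if_false, tsum_zero]
      rw [SL]; simp
  -- fixed second walker
  have hfix : ∀ (c' : ℕ) (y : G), j * T ≤ c' → c' ≤ j * (T + i0) →
      SL W1 j (fun P => if (∃ b ∈ P, Low b) then
        Ψ (HT h1 P.flatten) c' (y - dp z1 P.flatten) else 0)
      ≤ (j * i0 + 1) * (((i0 : ℝ≥0∞) + 1) ^ 2 * Bd (2 * j)) := by
    intro c' y hc1 hc2
    set I := Finset.Icc (j * T) (j * (T + i0)) with hI
    have hIcard : (I.card : ℝ≥0∞) = j * i0 + 1 := by
      rw [hI, Nat.card_Icc, show j * (T + i0) + 1 - j * T = j * i0 + 1 by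
        rw [mul_add]; omega]
      push_cast; rfl
    calc SL W1 j (fun P => if (∃ b ∈ P, Low b) then
          Ψ (HT h1 P.flatten) c' (y - dp z1 P.flatten) else 0)
        ≤ SL W1 j (fun P => ∑ c ∈ I, ∑' x,
            Ψ c c' x * (if (∃ b ∈ P, Low b) ∧ HT h1 P.flatten = c ∧ y - dp z1 P.flatten = x
              then 1 else 0)) := by
          refine SL_mono_supp W1 j fun P hP h0 => ?_
          have hPa := HT_flatten_bd h1 (P := P) (T := T) (i0 := i0)
            (fun a ha => aT_ne_zero Λ1 h1 (LW_ne_zero W1 h0 a ha))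
          rw [hP] at hPa
          have hmem : HT h1 P.flatten ∈ I := Finset.mem_Icc.2 hPa
          split_ifs with hl
          · refine le_trans ?_ (Finset.single_le_sum (f := fun c => ∑' x,
              Ψ c c' x * (if (∃ b ∈ P, Low b) ∧ HT h1 P.flatten = c ∧ y - dp z1 P.flatten = x
              then 1 else 0)) (fun _ _ => zero_le) hmem)
            refine le_trans ?_ (ENNReal.le_tsum (y - dp z1 P.flatten))
            rw [if_pos ⟨hl, rfl, rfl⟩, mul_one]
          · exact zero_le
      _ = ∑ c ∈ I, ∑' x, Ψ c c' x * SL W1 j (fun P =>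
            (if (∃ b ∈ P, Low b) ∧ HT h1 P.flatten = c ∧ y - dp z1 P.flatten = x
              then 1 else 0)) := by
          rw [SL_fsum]
          refine Finset.sum_congr rfl fun c _ => ?_
          rw [SL_tsum]
          exact tsum_congr fun x => SL_const_mul W1 j _ _
      _ ≤ ∑ _c ∈ I, (((i0 : ℝ≥0∞) + 1) ^ 2 * Bd (2 * j)) := by
          refine Finset.sum_le_sum fun c hc => ?_
          have hc' := Finset.mem_Icc.1 hc
          set μ : G → ℝ≥0∞ := fun x => SL W1 j (fun P =>
            (if (∃ b ∈ P, Low b) ∧ HT h1 P.flatten = c ∧ y - dp z1 P.flatten = x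
              then 1 else 0)) with hμ
          have hμ1 : ∑' x, μ x ≤ 1 := by
            rw [hμ, ← SL_tsum]
            refine SL_le_const W1 hs1 j fun P _ _ => ?_
            rw [tsum_eq_single (y - dp z1 P.flatten)]
            · split_ifs <;> simp
            · intro x hx
              rw [if_neg (fun h => hx h.2.2.symm)]
          have hμM : ∀ x, μ x ≤ j * (2 * θ) := by
            intro x
            refine le_trans (SL_mono W1 j fun P _ => ?_)
              (AsmA789.dens W1 hs1 (fun a => (((HT h1 a : ℕ) : ℤ), dp z1 a)) Low (2 * θ) ?_ j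
                ((c : ℤ), y - x))
            · rw [flat_key]
              split_ifs with h h'
              · exact le_rfl
              · exfalso
                apply h'
                refine ⟨h.1, ?_⟩
                rw [h.2.1]
                have := h.2.2
                ext
                · rfl
                · simp only
                  rw [← this]; abel
              · exact zero_le
              · exact zero_le
            · rintro ⟨m, x'⟩
              rcases lt_or_ge m 0 with hm | hm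
              · refine le_trans (le_of_eq ?_) zero_le
                rw [ENNReal.tsum_eq_zero]
                intro a
                rw [if_neg]
                rintro ⟨-, h⟩
                have := (Prod.mk.inj h).1
                omega
              · obtain ⟨n, rfl⟩ := Int.eq_ofNat_of_zero_le hm
                by_cases hpl : p (n, x') < 2 * θ
                · refine le_trans (ENNReal.tsum_le_tsum fun a => ?_) hpl.le
                  split_ifs with h h'
                  · exact le_rfl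
                  · exfalso
                    apply h'
                    have := Prod.mk.inj h.2
                    exact Prod.ext (by exact_mod_cast this.1) this.2
                  · exact zero_le
                  · exact zero_le
                · refine le_trans (le_of_eq ?_) zero_le
                  rw [ENNReal.tsum_eq_zero]
                  intro a
                  rw [if_neg]
                  rintro ⟨h, h'⟩
                  apply hpl
                  have := Prod.mk.inj h'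
                  have e3 : (HT h1 a, dp z1 a) = (n, x') := by
                    rw [this.2]
                    congr 1
                    exact_mod_cast this.1
                  have h5 : p (HT h1 a, dp z1 a) < 2 * θ := h
                  rw [e3] at h5
                  exact h5
          have hEM : (j : ℝ≥0∞) * (2 * θ) * E.card ≤ 2 * j := by
            calc (j : ℝ≥0∞) * (2 * θ) * E.card = 2 * j * (E.card * θ) := by ring
              _ ≤ 2 * j * 1 := mul_le_mul_right hEc _
              _ = 2 * j := mul_one _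
          have := psi_le Λ1 h1 z1 Λ2 h2 T i0 (θ := θ) E hE Ev c c' μ (Bd (2 * j)) (by
            intro h h' ha hb hc hd
            exact (hB c c' h h' E μ _ hμ1 hμM hc'.1 hc'.2 hc1 hc2 ha hb hc hd).trans (hBm hEM))
          refine le_trans (le_of_eq ?_) this
          refine tsum_congr fun x => ?_
          rw [mul_comm]
      _ = _ := by rw [Finset.sum_const, nsmul_eq_mul, hIcard]
  calc SL W1 j (fun P => ∑' a, W1 a * (if θ ≤ p (HT h1 a, dp z1 a) then
        SL W2 j (fun P' => ∑' a', W2 a' *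
          (if Ev (HT h1 P.flatten) (HT h2 P'.flatten)
            (w + dp z2 P'.flatten - dp z1 P.flatten) a a' then 1 else 0)) else 0))
      = SL W1 j (fun P => SL W2 j (fun P' => Ψ (HT h1 P.flatten) (HT h2 P'.flatten)
          (w + dp z2 P'.flatten - dp z1 P.flatten))) := SL_congr W1 j fun P _ => e1 P
    _ ≤ SL W1 j (fun P => (if ∃ b ∈ P, Low b then 0 else 1)
          + SL W2 j (fun P' => if ∃ b ∈ P, Low b then Ψ (HT h1 P.flatten) (HT h2 P'.flatten)
          (w + dp z2 P'.flatten - dp z1 P.flatten) else 0)) := by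
        refine SL_mono W1 j fun P _ => ?_
        by_cases hl : ∃ b ∈ P, Low b
        · simp only [hl, if_true, zero_add]; exact le_rfl
        · simp only [hl, if_false]
          refine le_add_right ?_
          exact SL_le_const W2 hs2 j fun P' _ _ => hΨ1 _ _ _
    _ = (∑' a, if Low a then 0 else W1 a) ^ j
          + SL W2 j (fun P' => SL W1 j (fun P => if ∃ b ∈ P, Low b then
            Ψ (HT h1 P.flatten) (HT h2 P'.flatten)
          (w + dp z2 P'.flatten - dp z1 P.flatten) else 0)) := by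
        rw [SL_add_fun, SL_comm]
        congr 1
        refine Eq.trans (SL_congr W1 j fun P _ => ?_) ((AsmA789.nosmall W1 Low j).trans ?_)
        · split_ifs <;> rfl
        · congr 1
          refine tsum_congr fun a => ?_
          split_ifs <;> rfl
    _ ≤ _ := by
        refine add_le_add (pow_le_pow_left' hnl j) ?_
        refine SL_le_const W2 hs2 j fun P' hP' h0 => ?_
        have hPa := HT_flatten_bd h2 (P := P') (T := T) (i0 := i0)
            (fun a ha => aT_ne_zero Λ2 h2 (LW_ne_zero W2 h0 a ha))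
        rw [hP'] at hPa
        exact hfix (HT h2 P'.flatten) (w + dp z2 P'.flatten) hPa.1 hPa.2

end half

end Crest.Agent.R154.Asm29
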