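import Crest.Agent.R154.AsmP2_29
import Crest.Agent.R154.KWBind_419

/-! Row 154, ROAD 801 (helper29): pieces of the abstract assembly, part 3 (one window). -/

set_option autoImplicit false

namespace Crest.Agent.R154.Asm29

open scoped ENNReal
open Crest.Agent.R154.B5A Crest.Agent.R154.Ren396
open Crest.Agent.R154.KWB419 (TT)

/-! ### traces -/

section traces

variable {B G : Type*} [AddCommGroup G] (s : B → Set (G × ℕ)) (h : B → ℕ) (z : B → G)

lemma TT_append (L L' : List B) (x : G) (a : ℕ) :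
    TT s h z (L ++ L') x a = TT s h z L x a ∪ TT s h z L' (x + dp z L) (a + HT h L) := by
  induction L generalizing x a with
  | nil => simp [TT, dp, HT_nil]
  | cons b L ih =>
    simp only [List.cons_append, TT]
    rw [ih, Set.union_assoc, HT_cons]
    congr 3
    · rw [add_assoc]; simp [dp]
    · rw [add_assoc]

lemma TT_depth (hs : ∀ b, ∀ p ∈ s b, 1 ≤ p.2 ∧ p.2 ≤ h b) (L : List B) (x : G) (a : ℕ)
    (q : G × ℕ) (hq : q ∈ TT s h z L x a) : a + 1 ≤ q.2 ∧ q.2 ≤ a + HT h L := by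
  induction L generalizing x a with
  | nil => simp [TT] at hq
  | cons b L ih =>
    rw [HT_cons]
    simp only [TT] at hq
    rcases hq with ⟨p, hp, rfl⟩ | hq
    · have := hs b p hp
      simp only
      omega
    · have := ih _ _ hq
      omega

lemma TT_shift (L : List B) (x y : G) (a : ℕ) (g : G) (k : ℕ) :
    (g, k) ∈ TT s h z L (x + y) a ↔ (g - y, k) ∈ TT s h z L x a := by
  induction L generalizing x a with
  | nil => simp [TT]
  | cons b L ih =>
    simp only [TT]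
    constructor
    · rintro (⟨p, hp, he⟩ | hq)
      · refine Or.inl ⟨p, hp, ?_⟩
        have := Prod.mk.inj he
        refine Prod.ext ?_ this.2
        simp only
        rw [this.1]; abel
      · refine Or.inr ?_
        rw [← ih, show x + z b + y = x + y + z b by abel]
        exact hq
    · rintro (⟨p, hp, he⟩ | hq)
      · refine Or.inl ⟨p, hp, ?_⟩
        have := Prod.mk.inj he
        refine Prod.ext ?_ this.2
        simp only
        rw [sub_eq_iff_eq_add.1 this.1]; abel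
      · refine Or.inr ?_
        rw [← ih, show x + z b + y = x + y + z b by abel] at hq
        exact hq

end traces

/-! ### Fubini for one window -/

section fub

variable {B1 B2 : Type*} (Λ1 : B1 → ℝ≥0∞) (Λ2 : B2 → ℝ≥0∞)

lemma win_comm (j : ℕ) (F : List B1 → B1 → List B2 → B2 → ℝ≥0∞) :
    SL Λ1 j (fun P => ∑' a, Λ1 a * SL Λ2 j (fun P' => ∑' a', Λ2 a' * F P a P' a'))
      = SL Λ2 j (fun P' => ∑' a', Λ2 a' * SL Λ1 j (fun P => ∑' a, Λ1 a * F P a P' a')) := by
  have e1 : ∀ P : List B1, ∑' a, Λ1 a * SL Λ2 j (fun P' => ∑' a', Λ2 a' * F P a P' a')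
      = SL Λ2 j (fun P' => ∑' a, ∑' a', Λ1 a * (Λ2 a' * F P a P' a')) := by
    intro P
    rw [SL_tsum]
    refine tsum_congr fun a => ?_
    rw [← SL_const_mul]
    exact SL_congr Λ2 j fun P' _ => ENNReal.tsum_mul_left.symm
  have e2 : ∀ P' : List B2, ∑' a', Λ2 a' * SL Λ1 j (fun P => ∑' a, Λ1 a * F P a P' a')
      = SL Λ1 j (fun P => ∑' a, ∑' a', Λ1 a * (Λ2 a' * F P a P' a')) := by
    intro P'
    have e3 : ∀ P : List B1, ∑' a, ∑' a', Λ1 a * (Λ2 a' * F P a P' a')
        = ∑' a', ∑' a, Λ1 a * (Λ2 a' * F P a P' a') := fun P => ENNReal.tsum_comm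
    simp only [e3]
    rw [SL_tsum]
    refine tsum_congr fun a' => ?_
    rw [← SL_const_mul]
    refine SL_congr Λ1 j fun P _ => ?_
    rw [← ENNReal.tsum_mul_left]
    exact tsum_congr fun a => by ring
  rw [SL_congr Λ1 j fun P _ => e1 P, SL_congr Λ2 j fun P' _ => e2 P', SL_comm]

end fub

/-! ### the inputs -/

variable {BX BY G : Type*} [AddCommGroup G]
  (ΛX : BX → ℝ≥0∞) (ΛY : BY → ℝ≥0∞) (hX : BX → ℕ) (hY : BY → ℕ) (zX : BX → G) (zY : BY → G)
  (sX : BX → Set (G × ℕ)) (sY : BY → Set (G × ℕ))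

/-- common site of the two lists -/
def Cn (L : List BX) (L' : List BY) (x : G) (a a' : ℕ) (g : G) (k : ℕ) : Prop :=
  (g, k) ∈ TT sX hX zX L 0 a ∧ (g, k) ∈ TT sY hY zY L' x a'

/-- the event of a window: there is a common site, all common sites have depth in `[lo, hi]` -/
def EvW (lo hi : ℕ) (c c' : ℕ) (x : G) (L : List BX) (L' : List BY) : Prop :=
  (∃ g k, Cn hX hY zX zY sX sY L L' x c c' g k) ∧
    ∀ g k, Cn hX hY zX zY sX sY L L' x c c' g k → lo ≤ k ∧ k ≤ hi

open Classical in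
/-- `X` local window lemma (most permissive form) -/
def H2 (C : ℝ≥0∞) (us : ℕ → ℕ → ℝ≥0∞) : Prop :=
  ∀ (i s h h' a a' lo hi : ℕ) (E : Finset G) (μ : G → ℝ≥0∞) (M lam : ℝ≥0∞), ∑' x, μ x ≤ 1 →
    (∀ x, μ x ≤ M) → lam ≠ 0 → lam ≠ ⊤ → a ≤ a' → a' ≤ a + i → a + h ≤ a' + h' →
    a' + h' ≤ a + h + i → a + s ≤ lo → a' + s ≤ lo → hi + s ≤ a + h → hi + s ≤ a' + h' →
    ∑' x, μ x * ∑' L : List BX, ∑' L' : List BY,
      (if HT hX L = h ∧ dp zX L ∈ E ∧ HT hY L' = h' ∧
          EvW hX hY zX zY sX sY lo hi a a' x L L' then LW ΛX L * LW ΛY L' else 0)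
      ≤ C * (lam + M * E.card * us i s / lam + us i s)

open Classical in
/-- `Y` local window lemma (most permissive form) -/
def H3 (C : ℝ≥0∞) (us : ℕ → ℕ → ℝ≥0∞) : Prop :=
  ∀ (i s h h' a a' lo hi : ℕ) (E : Finset G) (μ : G → ℝ≥0∞) (M lam : ℝ≥0∞), ∑' x, μ x ≤ 1 →
    (∀ x, μ x ≤ M) → lam ≠ 0 → lam ≠ ⊤ → a ≤ a' → a' ≤ a + i → a + h ≤ a' + h' →
    a' + h' ≤ a + h + i → a + s ≤ lo → a' + s ≤ lo → hi + s ≤ a + h → hi + s ≤ a' + h' →
    ∑' x, μ x * ∑' L : List BX, ∑' L' : List BY,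
      (if HT hX L = h ∧ HT hY L' = h' ∧ dp zY L' ∈ E ∧
          EvW hX hY zX zY sX sY lo hi a a' x L L' then LW ΛX L * LW ΛY L' else 0)
      ≤ C * (lam + M * E.card * us i s / lam + us i s)

open Classical in
/-- contact of the pieces number `j` -/
noncomputable def WT (T i0 j lo hi e0 : ℕ) (w0 : G) : ℝ≥0∞ :=
  SL (aT ΛX hX T i0) j (fun P => ∑' a, aT ΛX hX T i0 a *
    SL (aT ΛY hY T i0) j (fun P' => ∑' a', aT ΛY hY T i0 a' *
      (if EvW hX hY zX zY sX sY lo hi (HT hX P.flatten) (e0 + HT hY P'.flatten)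
        (w0 + dp zY P'.flatten - dp zX P.flatten) a a' then 1 else 0)))

open Classical in
/-- **one window** -/
theorem WT_le (hΛX : ∑' b, ΛX b ≤ 1) (h1X : ∀ b, 1 ≤ hX b) (hΛY : ∑' b, ΛY b ≤ 1)
    (h1Y : ∀ b, 1 ≤ hY b) {C : ℝ≥0∞} {us : ℕ → ℕ → ℝ≥0∞}
    (HX : H2 ΛX ΛY hX hY zX zY sX sY C us) (HY : H3 ΛX ΛY hX hY zX zY sX sY C us)
    (T i0 j lo hi e0 i s : ℕ) (w0 : G) (he : (j + 1) * i0 ≤ e0) (hi' : e0 + (j + 1) * i0 ≤ i)
    (hlo : e0 + j * T + j * i0 + s ≤ lo) (hhi : hi + s ≤ j * T + T)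
    {u lam : ℝ≥0∞} (hu : u ≠ 0) (hl : lam ≠ 0) (hl' : lam ≠ ⊤) :
    WT ΛX ΛY hX hY zX zY sX sY T i0 j lo hi e0 w0
      ≤ u ^ 2 + 2 * ((1 - u) ^ j + (j * i0 + 1) * (((i0 : ℝ≥0∞) + 1) ^ 2 *
          (C * (lam + 2 * j * us i s / lam + us i s)))) := by
  set WX := aT ΛX hX T i0 with hWX
  set WY := aT ΛY hY T i0 with hWY
  have hsX : ∑' a, WX a ≤ 1 := sum_aT_le ΛX hX hΛX h1X T i0
  have hsY : ∑' a, WY a ≤ 1 := sum_aT_le ΛY hY hΛY h1Y T i0
  obtain ⟨θX, hθX, -, hX1, hX2⟩ := quant' (pl ΛX hX zX T i0) (by rw [sum_pl]; exact hsX) hu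
  obtain ⟨θY, hθY, -, hY1, hY2⟩ := quant' (pl ΛY hY zY T i0) (by rw [sum_pl]; exact hsY) hu
  set Bd : ℝ≥0∞ → ℝ≥0∞ := fun t => C * (lam + t * us i s / lam + us i s) with hBd
  have hBm : Monotone Bd := by
    intro x y hxy
    simp only [hBd]
    gcongr
  -- the three parts
  set LX : List BX → Prop := fun a => θX ≤ pl ΛX hX zX T i0 (HT hX a, dp zX a) with hLX
  set LY : List BY → Prop := fun a => θY ≤ pl ΛY hY zY T i0 (HT hY a, dp zY a) with hLY
  set Ev : List (List BX) → List BX → List (List BY) → List BY → Prop := fun P a P' a' =>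
    EvW hX hY zX zY sX sY lo hi (HT hX P.flatten) (e0 + HT hY P'.flatten)
        (w0 + dp zY P'.flatten - dp zX P.flatten) a a' with hEv
  have key1 := half ΛX hX zX ΛY hY zY hΛX h1X hΛY h1Y T i0 (θ := θX) (u := u) hθX hX2
    (fun c c' x a a' => EvW hX hY zX zY sX sY lo hi c (e0 + c') x a a') j Bd hBm (by
      intro c c' h h' E μ M hμ hM g1 g2 g3 g4 g5 g6 g7 g8
      have q1 : j * (T + i0) = j * T + j * i0 := by ring
      have q2 : (j + 1) * i0 = j * i0 + i0 := by ring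
      exact HX i s h h' c (e0 + c') lo hi E μ M lam hμ hM hl hl' (by omega) (by omega) (by omega)
        (by omega) (by omega) (by omega) (by omega) (by omega)) w0
  have key2 := half ΛY hY zY ΛX hX zX hΛY h1Y hΛX h1X T i0 (θ := θY) (u := u) hθY hY2
    (fun c c' x a' a => EvW hX hY zX zY sX sY lo hi c' (e0 + c) (-x) a a') j Bd hBm (by
      intro c c' h h' E μ M hμ hM g1 g2 g3 g4 g5 g6 g7 g8
      have q1 : j * (T + i0) = j * T + j * i0 := by ring
      have q2 : (j + 1) * i0 = j * i0 + i0 := by ring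
      have hh := HY i s h' h c' (e0 + c) lo hi E (fun x => μ (-x)) M lam
        (le_trans (le_of_eq ((Equiv.neg G).tsum_eq μ)) hμ) (fun x => hM _) hl hl' (by omega) (by omega)
        (by omega) (by omega) (by omega) (by omega) (by omega) (by omega)
      refine le_trans (le_of_eq ?_) hh
      rw [← (Equiv.neg G).tsum_eq]
      refine tsum_congr fun x => ?_
      simp only [Equiv.neg_apply, neg_neg]
      congr 1
      rw [ENNReal.tsum_comm]
      refine tsum_congr fun L => tsum_congr fun L' => ?_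
      by_cases hc : HT hX L = h' ∧ HT hY L' = h ∧ dp zY L' ∈ E ∧
          EvW hX hY zX zY sX sY lo hi c' (e0 + c) x L L'
      · rw [if_pos hc, if_pos ⟨hc.2.1, hc.2.2.1, hc.1, hc.2.2.2⟩, mul_comm]
      · rw [if_neg hc, if_neg (fun h0 => hc ⟨h0.2.2.1, h0.1, h0.2.1, h0.2.2.2⟩)]) (-w0)
  have hpt : WT ΛX ΛY hX hY zX zY sX sY T i0 j lo hi e0 w0
      ≤ SL WX j (fun P => ∑' a, WX a * (if LX a then
          SL WY j (fun P' => ∑' a', WY a' * (if Ev P a P' a' then 1 else 0)) else 0))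
        + SL WX j (fun P => ∑' a, WX a *
          SL WY j (fun P' => ∑' a', WY a' * (if LY a' ∧ Ev P a P' a' then 1 else 0)))
        + SL WX j (fun P => ∑' a, WX a *
          SL WY j (fun P' => ∑' a', WY a' * (if ¬ LX a ∧ ¬ LY a' then 1 else 0))) := by
    rw [WT, ← SL_add_fun, ← SL_add_fun]
    refine SL_mono WX j fun P _ => ?_
    rw [← ENNReal.tsum_add, ← ENNReal.tsum_add]
    refine ENNReal.tsum_le_tsum fun a => ?_
    rw [← mul_add, ← mul_add]
    refine mul_le_mul_right ?_ _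
    by_cases ha : LX a
    · rw [if_pos ha]
      exact le_add_right (le_add_right le_rfl)
    · rw [if_neg ha, zero_add, ← SL_add_fun]
      refine SL_mono WY j fun P' _ => ?_
      rw [← ENNReal.tsum_add]
      refine ENNReal.tsum_le_tsum fun a' => ?_
      rw [← mul_add]
      refine mul_le_mul_right ?_ _
      by_cases ha' : LY a'
      · refine le_add_right ?_
        by_cases hv : Ev P a P' a'
        · rw [if_pos (⟨ha', hv⟩ : LY a' ∧ Ev P a P' a')]
          split_ifs <;> simp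
        · rw [if_neg hv]; exact zero_le
      · refine le_add_left ?_
        rw [if_pos (⟨ha, ha'⟩ : ¬ LX a ∧ ¬ LY a')]
        split_ifs <;> simp
  have t3 : SL WX j (fun P => ∑' a, WX a *
          SL WY j (fun P' => ∑' a', WY a' * (if ¬ LX a ∧ ¬ LY a' then 1 else 0))) ≤ u ^ 2 := by
    have qX : ∑' a, WX a * (if LX a then 0 else 1) ≤ u := by
      have := push WX (fun a => (HT hX a, dp zX a))
        (fun k => if θX ≤ pl ΛX hX zX T i0 k then 0 else 1)
      refine le_trans (le_of_eq this) (le_trans (ENNReal.tsum_le_tsum fun k => ?_) hX1)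
      by_cases hk : pl ΛX hX zX T i0 k < θX
      · rw [if_pos hk, if_neg (not_le.2 hk), mul_one]; exact le_rfl
      · rw [if_neg hk, if_pos (not_lt.1 hk), mul_zero]
    have qY : ∑' a, WY a * (if LY a then 0 else 1) ≤ u := by
      have := push WY (fun a => (HT hY a, dp zY a))
        (fun k => if θY ≤ pl ΛY hY zY T i0 k then 0 else 1)
      refine le_trans (le_of_eq this) (le_trans (ENNReal.tsum_le_tsum fun k => ?_) hY1)
      by_cases hk : pl ΛY hY zY T i0 k < θY
      · rw [if_pos hk, if_neg (not_le.2 hk), mul_one]; exact le_rfl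
      · rw [if_neg hk, if_pos (not_lt.1 hk), mul_zero]
    refine SL_le_const WX hsX j fun P _ _ => ?_
    calc ∑' a, WX a * SL WY j (fun P' => ∑' a', WY a' * (if ¬ LX a ∧ ¬ LY a' then 1 else 0))
        ≤ ∑' a, WX a * ((if LX a then 0 else 1) * u) := by
          refine ENNReal.tsum_le_tsum fun a => mul_le_mul_right ?_ _
          refine SL_le_const WY hsY j fun P' _ _ => ?_
          by_cases ha : LX a
          · simp [ha]
          · simp only [ha, not_false_eq_true, true_and, if_false, one_mul]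
            refine le_trans (ENNReal.tsum_le_tsum fun a' => ?_) qY
            by_cases ha' : LY a' <;> simp [ha']
      _ = (∑' a, WX a * (if LX a then 0 else 1)) * u := by
          rw [← ENNReal.tsum_mul_right]
          exact tsum_congr fun a => by rw [mul_assoc]
      _ ≤ u * u := mul_le_mul_left qX _
      _ = u ^ 2 := (sq u).symm
  have t2 : SL WX j (fun P => ∑' a, WX a *
          SL WY j (fun P' => ∑' a', WY a' * (if LY a' ∧ Ev P a P' a' then 1 else 0)))
      ≤ (1 - u) ^ j + (j * i0 + 1) * (((i0 : ℝ≥0∞) + 1) ^ 2 * Bd (2 * j)) := by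
    rw [win_comm]
    refine le_trans (le_of_eq ?_) key2
    refine SL_congr WY j fun P' _ => tsum_congr fun a' => ?_
    congr 1
    by_cases ha : LY a'
    · rw [if_pos (show θY ≤ pl ΛY hY zY T i0 (HT hY a', dp zY a') from ha)]
      refine SL_congr WX j fun P _ => tsum_congr fun a => ?_
      congr 1
      have e : -(-w0 + dp zX P.flatten - dp zY P'.flatten)
          = w0 + dp zY P'.flatten - dp zX P.flatten := by abel
      simp only [ha, true_and, hEv]
      rw [e]
    · rw [if_neg (show ¬ θY ≤ pl ΛY hY zY T i0 (HT hY a', dp zY a') from ha)]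
      simp only [ha, false_and, if_false, mul_zero, tsum_zero]
      rw [SL]; simp
  calc WT ΛX ΛY hX hY zX zY sX sY T i0 j lo hi e0 w0 ≤ _ := hpt
    _ ≤ ((1 - u) ^ j + (j * i0 + 1) * (((i0 : ℝ≥0∞) + 1) ^ 2 * Bd (2 * j)))
        + ((1 - u) ^ j + (j * i0 + 1) * (((i0 : ℝ≥0∞) + 1) ^ 2 * Bd (2 * j))) + u ^ 2 :=
        add_le_add (add_le_add key1 t2) t3
    _ = _ := by simp only [hBd]; ring

end Crest.Agent.R154.Asm29
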