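import Crest.Agent.R154.FP_178

/-! Row 154, ROAD 801 (helper1): attempts, density, one walker. -/

set_option autoImplicit false

namespace Crest.Agent.R154.AsmP1

open scoped ENNReal
open Crest.Agent.R154.B5A Crest.Agent.R154.FP178

open Classical in
/-- indicator -/
noncomputable def ind (P : Prop) : ℝ≥0∞ := if P then 1 else 0

lemma ind_true {P : Prop} (h : P) : ind P = 1 := by simp [ind, h]

lemma ind_false {P : Prop} (h : ¬ P) : ind P = 0 := by simp [ind, h]

lemma ind_le_one (P : Prop) : ind P ≤ 1 := by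
  unfold ind; split_ifs <;> simp

lemma ind_mono {P Q : Prop} (h : P → Q) : ind P ≤ ind Q := by
  by_cases hP : P
  · rw [ind_true hP, ind_true (h hP)]
  · rw [ind_false hP]; exact zero_le

lemma ind_and (P Q : Prop) : ind (P ∧ Q) = ind P * ind Q := by
  by_cases hP : P <;> by_cases hQ : Q <;> simp [ind, hP, hQ]

lemma ind_congr {P Q : Prop} (h : P ↔ Q) : ind P = ind Q := by rw [propext h]

lemma ite_eq_ind (P : Prop) [Decidable P] (x : ℝ≥0∞) : (if P then x else 0) = ind P * x := by
  by_cases h : P <;> simp [ind, h]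

lemma fiber {α β : Type*} (F : α → ℝ≥0∞) (φ : α → β) (g : β → ℝ≥0∞) :
    ∑' a, F a * g (φ a) = ∑' y, (∑' a, F a * ind (φ a = y)) * g y := by
  simp_rw [← ENNReal.tsum_mul_right]
  rw [ENNReal.tsum_comm]
  refine tsum_congr fun a => ?_
  rw [tsum_eq_single (φ a)]
  · rw [ind_true rfl, mul_one]
  · intro y hy
    rw [ind_false (fun h => hy h.symm), mul_zero, zero_mul]

section one

variable {B : Type*} (Λ : B → ℝ≥0∞) (ht : B → ℕ)

/-- weight of a first passage -/
noncomputable def fw (a : ℕ) (L : List B) : ℝ≥0∞ := ind (fp ht a L) * LW Λ L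

lemma sum_split (h1 : ∀ b, 1 ≤ ht b) (a : ℕ) (f : List B → ℝ≥0∞) :
    ∑' L, ind (a ≤ HT ht L) * LW Λ L * f L
      = ∑' L1, fw Λ ht a L1 * ∑' L2, LW Λ L2 * f (L1 ++ L2) := by
  have := split Λ ht h1 a f
  simp only [ite_eq_ind, ← mul_assoc] at this
  exact this

lemma sum_fsplit (h1 : ∀ b, 1 ≤ ht b) (τ a : ℕ) (hτ : τ ≤ a) (f : List B → ℝ≥0∞) :
    ∑' L, fw Λ ht a L * f L
      = ∑' A, fw Λ ht τ A * ∑' L, fw Λ ht (a - HT ht A) L * f (A ++ L) := by
  have := fp_split Λ ht h1 τ a hτ f
  simp only [ite_eq_ind, ← mul_assoc] at this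
  exact this

lemma sum_fw_le (h1 : ∀ b, 1 ≤ ht b) (hΛ : ∑' b, Λ b ≤ 1) (a : ℕ) :
    ∑' L, fw Λ ht a L ≤ 1 := by
  have := sum_FP Λ ht h1 hΛ a
  simp only [ite_eq_ind] at this
  exact this

open Classical in
lemma sum_fw_eq (h1 : ∀ b, 1 ≤ ht b) (hΛ : ∑' b, Λ b = 1) (a : ℕ) :
    ∑' L, fw Λ ht a L = 1 := by
  induction a using Nat.strong_induction_on with
  | _ a ih =>
    have e : ∀ a', ∑' L, fw Λ ht a' L = ∑' L, (if fp ht a' L then LW Λ L * 1 else 0) := by
      intro a'
      refine tsum_congr fun L => ?_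
      rw [mul_one, ite_eq_ind]; rfl
    rcases Nat.eq_zero_or_pos a with rfl | ha
    · rw [e 0]
      exact sum_fp_zero Λ ht (fun _ => 1)
    · rw [e a]
      have := sum_fp_step Λ ht a ha (fun _ => 1)
      rw [this]
      have e2 : ∀ b, ∑' L, (if fp ht (a - ht b) L then LW Λ L * 1 else 0) = 1 := by
        intro b
        rw [← e, ih (a - ht b) (by have := h1 b; omega)]
      have e3 : ∑' b, Λ b * ∑' L, (if fp ht (a - ht b) L then LW Λ L * 1 else 0)
          = ∑' b, Λ b * 1 := tsum_congr fun b => by rw [e2 b]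
      exact e3.trans (by simpa using hΛ)

/-- first passage cut -/
def cut : List B → ℕ → List B × List B
  | L, 0 => ([], L)
  | [], _ + 1 => ([], [])
  | b :: L, a + 1 => (b :: (cut L (a + 1 - ht b)).1, (cut L (a + 1 - ht b)).2)

lemma cut_zero (L : List B) : cut ht L 0 = ([], L) := by
  cases L <;> simp [cut]

lemma cut_fp (A L : List B) (a : ℕ) (h : fp ht a A) : cut ht (A ++ L) a = (A, L) := by
  induction A generalizing a with
  | nil => rw [fp_nil] at h; subst h; rw [List.nil_append, cut_zero]
  | cons b A ih =>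
    rw [fp_cons] at h
    obtain ⟨a', rfl⟩ := Nat.exists_eq_succ_of_ne_zero h.1.ne'
    rw [List.cons_append, Nat.succ_eq_add_one, cut]
    rw [ih _ h.2]

/-- one of the first `J` attempts is low -/
def Spl (T i0 : ℕ) (low : List B → Prop) : ℕ → List B → Prop
  | 0, _ => False
  | J + 1, L => HT ht (cut ht L T).1 ≤ T + i0 ∧
      (low (cut ht L T).1 ∨ Spl T i0 low J (cut ht L T).2)

lemma Spl_succ (T i0 : ℕ) (low : List B → Prop) (J : ℕ) (A L : List B) (h : fp ht T A) :
    Spl ht T i0 low (J + 1) (A ++ L) ↔ HT ht A ≤ T + i0 ∧ (low A ∨ Spl ht T i0 low J L) := by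
  rw [Spl, cut_fp ht A L T h]

lemma fw_mul_congr {a : ℕ} {L : List B} {x y : ℝ≥0∞} (h : fp ht a L → x = y) :
    fw Λ ht a L * x = fw Λ ht a L * y := by
  by_cases h' : fp ht a L
  · rw [h h']
  · rw [fw, ind_false h', zero_mul, zero_mul, zero_mul]

lemma fw_mul_le {a : ℕ} {L : List B} {x y : ℝ≥0∞} (h : fp ht a L → x ≤ y) :
    fw Λ ht a L * x ≤ fw Λ ht a L * y := by
  by_cases h' : fp ht a L
  · exact mul_le_mul_right (h h') _
  · rw [fw, ind_false h', zero_mul, zero_mul, zero_mul]

lemma nospl (h1 : ∀ b, 1 ≤ ht b) (hΛ : ∑' b, Λ b ≤ 1) (T i0 : ℕ) (low : List B → Prop)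
    (q e : ℝ≥0∞) (hq : ∑' A, fw Λ ht T A * ind (HT ht A ≤ T + i0 ∧ ¬ low A) ≤ q) (hq1 : q ≤ 1)
    (he : ∑' A, fw Λ ht T A * ind (T + i0 < HT ht A) ≤ e) (J a : ℕ) (ha : J * (T + i0) ≤ a) :
    ∑' L, fw Λ ht a L * ind (¬ Spl ht T i0 low J L) ≤ q ^ J + J * e := by
  induction J generalizing a with
  | zero =>
    simp only [pow_zero, Nat.cast_zero, zero_mul, add_zero]
    calc ∑' L, fw Λ ht a L * ind (¬ Spl ht T i0 low 0 L) ≤ ∑' L, fw Λ ht a L * 1 :=
          ENNReal.tsum_le_tsum fun L => mul_le_mul_right (ind_le_one _) _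
      _ ≤ 1 := by simpa using sum_fw_le Λ ht h1 hΛ a
  | succ J ih =>
    have hTa : T ≤ a := by
      rw [Nat.succ_mul] at ha; omega
    rw [sum_fsplit Λ ht h1 T a hTa]
    calc ∑' A, fw Λ ht T A * ∑' L, fw Λ ht (a - HT ht A) L *
          ind (¬ Spl ht T i0 low (J + 1) (A ++ L))
        ≤ ∑' A, (fw Λ ht T A * ind (T + i0 < HT ht A)
            + fw Λ ht T A * ind (HT ht A ≤ T + i0 ∧ ¬ low A) * (q ^ J + J * e)) := by
          refine ENNReal.tsum_le_tsum fun A => ?_
          rw [mul_assoc, ← mul_add]
          refine fw_mul_le Λ ht fun hA => ?_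
          rcases Nat.lt_or_ge (T + i0) (HT ht A) with hlt | hle
          · rw [ind_true hlt]
            refine le_add_right ?_
            calc _ ≤ ∑' L, fw Λ ht (a - HT ht A) L * 1 :=
                  ENNReal.tsum_le_tsum fun L => mul_le_mul_right (ind_le_one _) _
              _ ≤ 1 := by simpa using sum_fw_le Λ ht h1 hΛ _
          · by_cases hl : low A
            · have : ∀ L, ind (¬ Spl ht T i0 low (J + 1) (A ++ L)) = 0 := fun L =>
                ind_false (not_not.2 ((Spl_succ ht T i0 low J A L hA).2 ⟨hle, Or.inl hl⟩))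
              simp [this]
            · refine le_add_left ?_
              rw [ind_true ⟨hle, hl⟩, one_mul]
              have hstep : J * (T + i0) ≤ a - HT ht A := by
                rw [Nat.succ_mul] at ha; omega
              refine le_trans (le_of_eq (tsum_congr fun L => ?_)) (ih (a - HT ht A) hstep)
              congr 1
              refine ind_congr (not_congr ?_)
              rw [Spl_succ ht T i0 low J A L hA]
              constructor
              · rintro ⟨-, h | h⟩
                · exact absurd h hl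
                · exact h
              · exact fun h => ⟨hle, Or.inr h⟩
      _ ≤ e + q * (q ^ J + J * e) := by
          rw [ENNReal.tsum_add, ENNReal.tsum_mul_right]
          exact add_le_add he (mul_le_mul_left hq _)
      _ = q ^ (J + 1) + e + q * (J * e) := by rw [pow_succ]; ring
      _ ≤ q ^ (J + 1) + e + 1 * (J * e) := by gcongr
      _ = _ := by push_cast; ring

end one

section two

variable {B G : Type*} [AddCommGroup G] (Λ : B → ℝ≥0∞) (ht : B → ℕ) (z : B → G)

/-- displacement -/
def dp (z : B → G) (L : List B) : G := (L.map z).sum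

lemma dp_append (L L' : List B) : dp z (L ++ L') = dp z L + dp z L' := by simp [dp]

/-- law of an attempt -/
noncomputable def pl (T : ℕ) (y : ℕ × G) : ℝ≥0∞ :=
  ∑' A, fw Λ ht T A * ind ((HT ht A, dp z A) = y)

lemma sum_pl (h1 : ∀ b, 1 ≤ ht b) (hΛ : ∑' b, Λ b = 1) (T : ℕ) : ∑' y, pl Λ ht z T y = 1 := by
  have := fiber (fw Λ ht T) (fun A => (HT ht A, dp z A)) (fun _ => 1)
  simp only [mul_one] at this
  rw [← sum_fw_eq Λ ht h1 hΛ T, this]
  rfl

lemma dens (h1 : ∀ b, 1 ≤ ht b) (hΛ : ∑' b, Λ b ≤ 1) (T i0 : ℕ) (lo : Set (ℕ × G)) (θ : ℝ≥0∞)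
    (hθ : ∀ y ∈ lo, pl Λ ht z T y ≤ θ) (J a : ℕ) (ha : J * (T + i0) ≤ a) (x : G) :
    ∑' L, fw Λ ht a L * ind (dp z L = x ∧ Spl ht T i0 (fun A => (HT ht A, dp z A) ∈ lo) J L)
      ≤ J * ((i0 + 1) * θ) := by
  induction J generalizing a x with
  | zero =>
    have : ∀ L : List B, ind (dp z L = x ∧ Spl ht T i0 (fun A => (HT ht A, dp z A) ∈ lo) 0 L) = 0 :=
      fun L => ind_false (fun h => h.2)
    simp [this]
  | succ J ih =>
    have hTa : T ≤ a := by
      rw [Nat.succ_mul] at ha; omega
    rw [sum_fsplit Λ ht h1 T a hTa]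
    set g : ℕ × G → ℝ≥0∞ := fun y => ind (T ≤ y.1 ∧ y.1 ≤ T + i0 ∧ y ∈ lo) *
      ∑' L, fw Λ ht (a - y.1) L * ind (dp z L = x - y.2) with hg
    calc ∑' A, fw Λ ht T A * ∑' L, fw Λ ht (a - HT ht A) L *
          ind (dp z (A ++ L) = x ∧ Spl ht T i0 (fun A => (HT ht A, dp z A) ∈ lo) (J + 1) (A ++ L))
        ≤ ∑' A, (fw Λ ht T A * g (HT ht A, dp z A)
            + fw Λ ht T A * (J * ((i0 + 1) * θ))) := by
          refine ENNReal.tsum_le_tsum fun A => ?_
          rw [← mul_add]
          refine fw_mul_le Λ ht fun hA => ?_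
          by_cases hle : HT ht A ≤ T + i0
          · have hstep : J * (T + i0) ≤ a - HT ht A := by
              rw [Nat.succ_mul] at ha; omega
            refine le_trans ?_ (add_le_add le_rfl (ih (a - HT ht A) hstep (x - dp z A)))
            by_cases hl : (HT ht A, dp z A) ∈ lo
            · refine le_add_right ?_
              rw [hg]
              simp only
              rw [ind_true ⟨le_HT_of_fp ht hA, hle, hl⟩, one_mul]
              refine ENNReal.tsum_le_tsum fun L => mul_le_mul_right (ind_mono ?_) _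
              rintro ⟨h, -⟩
              rw [dp_append] at h
              rw [← h]; abel
            · refine le_add_left ?_
              refine ENNReal.tsum_le_tsum fun L => mul_le_mul_right (ind_mono ?_) _
              rintro ⟨h, h2⟩
              rw [Spl_succ ht T i0 _ J A L hA] at h2
              refine ⟨?_, h2.2.resolve_left hl⟩
              rw [dp_append] at h
              rw [← h]; abel
          · have : ∀ L : List B, ind (dp z (A ++ L) = x ∧
                Spl ht T i0 (fun A => (HT ht A, dp z A) ∈ lo) (J + 1) (A ++ L)) = 0 := fun L =>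
              ind_false (fun h => hle (((Spl_succ ht T i0 _ J A L hA).1 h.2).1))
            simp [this]
      _ = ∑' y, pl Λ ht z T y * g y + (∑' A, fw Λ ht T A) * (J * ((i0 + 1) * θ)) := by
          rw [ENNReal.tsum_add, ENNReal.tsum_mul_right, fiber]
          rfl
      _ ≤ (i0 + 1) * θ + 1 * (J * ((i0 + 1) * θ)) := by
          refine add_le_add ?_ (mul_le_mul_left (sum_fw_le Λ ht h1 hΛ T) _)
          calc ∑' y, pl Λ ht z T y * g y
              ≤ ∑' y : ℕ × G, θ * (ind (T ≤ y.1 ∧ y.1 ≤ T + i0) *
                ∑' L, fw Λ ht (a - y.1) L * ind (dp z L = x - y.2)) := by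
                refine ENNReal.tsum_le_tsum fun y => ?_
                by_cases hy : y ∈ lo
                · refine mul_le_mul' (hθ y hy) (mul_le_mul_left (ind_mono fun h => ⟨h.1, h.2.1⟩) _)
                · rw [hg]; simp only
                  rw [ind_false (fun h => hy h.2.2), zero_mul, mul_zero]; exact zero_le
            _ = θ * ∑' h : ℕ, ind (T ≤ h ∧ h ≤ T + i0) *
                ∑' v : G, ∑' L, fw Λ ht (a - h) L * ind (dp z L = x - v) := by
                rw [ENNReal.tsum_mul_left, ENNReal.tsum_prod']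
                simp only [ENNReal.tsum_mul_left]
            _ ≤ θ * ∑' h : ℕ, ind (T ≤ h ∧ h ≤ T + i0) * 1 := by
                gcongr with h
                rw [ENNReal.tsum_comm]
                calc ∑' L, ∑' v : G, fw Λ ht (a - h) L * ind (dp z L = x - v)
                    = ∑' L, fw Λ ht (a - h) L := by
                      refine tsum_congr fun L => ?_
                      rw [ENNReal.tsum_mul_left, tsum_eq_single (x - dp z L)]
                      · rw [ind_true (by abel), mul_one]
                      · intro v hv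
                        exact ind_false (fun h => hv (by rw [h]; abel))
                  _ ≤ 1 := sum_fw_le Λ ht h1 hΛ _
            _ = θ * (i0 + 1) := by
                congr 1
                rw [tsum_eq_sum (s := Finset.Icc T (T + i0))]
                · rw [Finset.sum_congr rfl (g := fun _ => (1 : ℝ≥0∞))]
                  · simp only [Finset.sum_const, Nat.card_Icc, nsmul_eq_mul, mul_one]
                    rw [show T + i0 + 1 - T = i0 + 1 by omega]
                    push_cast; rfl
                  · intro h hh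
                    rw [mul_one]
                    exact ind_true (Finset.mem_Icc.1 hh)
                · intro h hh
                  rw [ind_false (fun h' => hh (Finset.mem_Icc.2 h')), zero_mul]
            _ = _ := mul_comm _ _
      _ = _ := by push_cast; ring

end two

end Crest.Agent.R154.AsmP1
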