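import Crest.Agent.R154.FP_178
import Crest.Agent.R154.AsmA_789

/-! Row 154, ROAD 801 (helper114): pieces (first passages of `T` levels) as new letters; placed site
sets; decomposition of a list in pieces. -/

set_option autoImplicit false

namespace Crest.Agent.R154.Asm114

open scoped ENNReal
open Crest.Agent.R154.B5A
open Crest.Agent.R154.FP178 (fp fp_nil fp_cons sum_fp_step sum_fp_zero sum_FP)

variable {B G : Type*} [AddCommGroup G]

/-- sites read by a list of blocks, with depth -/
def TT (s : B → Set (G × ℕ)) (z : B → G) (h : B → ℕ) : List B → G → ℕ → Set (G × ℕ)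
  | [], _, _ => ∅
  | b :: L, x, a => {p | ∃ q ∈ s b, p = (x + q.1, a + q.2)} ∪ TT s z h L (x + z b) (a + h b)

/-- displacement -/
def Dp (z : B → G) (L : List B) : G := (L.map z).sum

lemma Dp_append (z : B → G) (L L' : List B) : Dp z (L ++ L') = Dp z L + Dp z L' := by
  simp [Dp]

lemma TT_append (s : B → Set (G × ℕ)) (z : B → G) (h : B → ℕ) (L L' : List B) (x : G) (a : ℕ) :
    TT s z h (L ++ L') x a = TT s z h L x a ∪ TT s z h L' (x + Dp z L) (a + HT h L) := by
  induction L generalizing x a with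
  | nil => simp [TT, Dp, HT]
  | cons b L ih =>
    simp only [List.cons_append, TT, ih, HT_cons, Set.union_assoc]
    rw [show x + z b + Dp z L = x + Dp z (b :: L) by simp [Dp, add_assoc],
      show a + h b + HT h L = a + (h b + HT h L) by ring]

lemma TT_depth (s : B → Set (G × ℕ)) (z : B → G) (h : B → ℕ)
    (hs : ∀ b q, q ∈ s b → 1 ≤ q.2 ∧ q.2 ≤ h b) (L : List B) (x : G) (a : ℕ) (y : G) (k : ℕ)
    (hk : (y, k) ∈ TT s z h L x a) : a < k ∧ k ≤ a + HT h L := by
  induction L generalizing x a with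
  | nil => simp [TT] at hk
  | cons b L ih =>
    rw [HT_cons]
    rcases hk with ⟨q, hq, e⟩ | hk
    · have := hs b q hq
      have e2 : k = a + q.2 := congrArg Prod.snd e
      omega
    · have := ih _ _ hk; omega

lemma TT_shift (s : B → Set (G × ℕ)) (z : B → G) (h : B → ℕ) (L : List B) (x x' : G) (a : ℕ)
    (y : G) (k : ℕ) : (y, k) ∈ TT s z h L (x + x') a ↔ (y - x', k) ∈ TT s z h L x a := by
  induction L generalizing x a with
  | nil => simp [TT]
  | cons b L ih =>
    simp only [TT, Set.mem_union, Set.mem_ofPred_eq]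
    rw [show x + x' + z b = x + z b + x' by abel, ih]
    refine or_congr_left ?_
    constructor
    · rintro ⟨q, hq, e⟩
      refine ⟨q, hq, ?_⟩
      rw [Prod.mk.injEq] at e ⊢
      exact ⟨by rw [e.1]; abel, e.2⟩
    · rintro ⟨q, hq, e⟩
      refine ⟨q, hq, ?_⟩
      rw [Prod.mk.injEq] at e ⊢
      refine ⟨?_, e.2⟩
      rw [sub_eq_iff_eq_add] at e
      rw [e.1]; abel

/-! ### pieces -/

/-- a piece: a first passage of `T` levels -/
abbrev Pc (h : B → ℕ) (T : ℕ) := {L : List B // fp h T L}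

/-- weight of a piece -/
noncomputable def PL (Λ : B → ℝ≥0∞) (h : B → ℕ) (T : ℕ) (P : Pc h T) : ℝ≥0∞ := LW Λ P.1

/-- height of a piece -/
def PH (h : B → ℕ) (T : ℕ) (P : Pc h T) : ℕ := HT h P.1

/-- displacement of a piece -/
def PD (z : B → G) (h : B → ℕ) (T : ℕ) (P : Pc h T) : G := Dp z P.1

/-- the list of blocks of a list of pieces -/
def fl {h : B → ℕ} {T : ℕ} (t : List (Pc h T)) : List B := (t.map Subtype.val).flatten

variable {h : B → ℕ} {T : ℕ}

lemma fl_nil : fl ([] : List (Pc h T)) = [] := rfl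

lemma fl_cons (P : Pc h T) (t : List (Pc h T)) : fl (P :: t) = P.1 ++ fl t := by simp [fl]

lemma fl_append (t t' : List (Pc h T)) : fl (t ++ t') = fl t ++ fl t' := by simp [fl]

lemma LW_fl (Λ : B → ℝ≥0∞) (t : List (Pc h T)) : LW Λ (fl t) = LW (PL Λ h T) t := by
  induction t with
  | nil => simp [fl_nil, LW_nil]
  | cons P t ih => rw [fl_cons, LW_append, LW_cons, ih]; rfl

lemma HT_fl (t : List (Pc h T)) : HT h (fl t) = HT (PH h T) t := by
  induction t with
  | nil => simp [fl_nil, HT_nil]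
  | cons P t ih => rw [fl_cons, HT_append, HT_cons, ih]; rfl

lemma Dp_fl (z : B → G) (t : List (Pc h T)) : Dp z (fl t) = Dp (PD z h T) t := by
  induction t with
  | nil => simp [fl_nil, Dp]
  | cons P t ih =>
    rw [fl_cons, Dp_append, ih]
    simp [Dp, PD]

lemma T_le_PH (P : Pc h T) : T ≤ PH h T P := FP178.le_HT_of_fp h P.2

lemma HT_ge (t : List (Pc h T)) : t.length * T ≤ HT (PH h T) t := by
  induction t with
  | nil => simp
  | cons P t ih =>
    rw [HT_cons, List.length_cons, add_mul, one_mul]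
    have := T_le_PH P
    omega

lemma HT_le (i0 : ℕ) (t : List (Pc h T)) (ht : ∀ P ∈ t, PH h T P ≤ T + i0) :
    HT (PH h T) t ≤ t.length * T + t.length * i0 := by
  induction t with
  | nil => simp [HT_nil]
  | cons P t ih =>
    rw [HT_cons, List.length_cons, add_mul, one_mul, add_mul, one_mul]
    have := ht P List.mem_cons_self
    have := ih fun Q hQ => ht Q (List.mem_cons_of_mem _ hQ)
    omega

lemma exists_pre (L : List B) (T : ℕ) (hT : T ≤ HT h L) : ∃ P R, fp h T P ∧ L = P ++ R := by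
  induction L generalizing T with
  | nil => rw [HT_nil] at hT; exact ⟨[], [], (fp_nil h T).2 (by omega), rfl⟩
  | cons b L ih =>
    rcases Nat.eq_zero_or_pos T with rfl | h0
    · exact ⟨[], b :: L, (fp_nil h 0).2 rfl, rfl⟩
    · obtain ⟨P, R, hP, e⟩ := ih (T - h b) (by rw [HT_cons] at hT; omega)
      exact ⟨b :: P, R, (fp_cons h T b P).2 ⟨h0, hP⟩, by rw [e]; rfl⟩

/-- decomposition of a long list in `N` pieces, or an overshoot -/
lemma decomp (i0 : ℕ) (N : ℕ) (L : List B) (hL : N * (T + i0) ≤ HT h L) :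
    (∃ j < N, ∃ (t : List (Pc h T)) (P : Pc h T) (R : List B), t.length = j ∧
      L = fl t ++ (P.1 ++ R) ∧ T + i0 < PH h T P) ∨
    (∃ (t : List (Pc h T)) (R : List B), t.length = N ∧ (∀ P ∈ t, PH h T P ≤ T + i0) ∧
      L = fl t ++ R) := by
  induction N generalizing L with
  | zero => exact Or.inr ⟨[], L, rfl, by simp, rfl⟩
  | succ N ih =>
    obtain ⟨P, R, hP, e⟩ := exists_pre (h := h) L T (by rw [add_mul] at hL; omega)
    by_cases hov : T + i0 < HT h P
    · exact Or.inl ⟨0, Nat.succ_pos _, [], ⟨P, hP⟩, R, rfl, e, hov⟩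
    · rcases ih R (by
        have : HT h L = HT h P + HT h R := by rw [e, HT_append]
        rw [add_mul, one_mul] at hL; omega) with ⟨j, hj, t, Q, R', h1, h2, h3⟩ | ⟨t, R', h1, h2, h3⟩
      · exact Or.inl ⟨j + 1, by omega, ⟨P, hP⟩ :: t, Q, R', by simp [h1], by
          rw [e, h2, fl_cons, List.append_assoc], h3⟩
      · refine Or.inr ⟨⟨P, hP⟩ :: t, R', by simp [h1], ?_, by
          rw [e, h3, fl_cons, List.append_assoc]⟩
        intro Q hQ
        rcases List.mem_cons.1 hQ with rfl | hQ
        · exact not_lt.1 hov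
        · exact h2 Q hQ

/-! ### masses of pieces -/

open Classical in
lemma sum_fp_one (Λ : B → ℝ≥0∞) (h : B → ℕ) (h1 : ∀ b, 1 ≤ h b) (hΛ : ∑' b, Λ b = 1) (a : ℕ) :
    ∑' L, (if fp h a L then LW Λ L else 0) = 1 := by
  induction a using Nat.strong_induction_on with
  | _ a ih =>
    rcases Nat.eq_zero_or_pos a with rfl | ha
    · have := sum_fp_zero Λ h (fun _ => 1)
      simp only [mul_one] at this
      exact this
    · have := sum_fp_step Λ h a ha (fun _ => 1)
      simp only [mul_one] at this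
      rw [this]
      calc ∑' b, Λ b * ∑' L, (if fp h (a - h b) L then LW Λ L else 0)
          = ∑' b, Λ b * 1 := by
            refine tsum_congr fun b => ?_
            rw [ih (a - h b) (by have := h1 b; omega)]
        _ = 1 := by simpa using hΛ

open Classical in
lemma tsum_Pc (f : List B → ℝ≥0∞) : ∑' P : Pc h T, f P.1 = ∑' L, (if fp h T L then f L else 0) := by
  have := tsum_subtype {L : List B | fp h T L} f
  refine this.trans (tsum_congr fun L => ?_)
  by_cases hL : fp h T L
  · rw [if_pos hL, Set.indicator_of_mem (by exact hL)]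
  · rw [if_neg hL, Set.indicator_of_notMem (by exact hL)]

lemma sum_PL (Λ : B → ℝ≥0∞) (h1 : ∀ b, 1 ≤ h b) (hΛ : ∑' b, Λ b = 1) :
    ∑' P, PL Λ h T P = 1 := by
  classical
  rw [← sum_fp_one Λ h h1 hΛ T]
  exact tsum_Pc (fun L => LW Λ L)

end Crest.Agent.R154.Asm114
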