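import Crest.Agent.R154.AsmA_789

/-! Row 154, ROAD 801 (helper212): the cost of ONE window, pieces as an alphabet. -/

set_option autoImplicit false

namespace Crest.Agent.R154.AsmP212

open scoped ENNReal
open Crest.Agent.R154.B5A Crest.Agent.R154.AsmA789

variable {P P' G : Type*}

open Classical in
/-- law of (height, displacement) of one piece -/
noncomputable def pz (α : P → ℝ≥0∞) (h : P → ℕ) (z : P → G) (i : ℕ × G) : ℝ≥0∞ :=
  ∑' b, if h b = i.1 ∧ z b = i.2 then α b else 0

open Classical in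
lemma push (α : P → ℝ≥0∞) (h : P → ℕ) (z : P → G) (Φ : ℕ × G → Prop) :
    ∑' b, (if Φ (h b, z b) then α b else 0) = ∑' i, (if Φ i then pz α h z i else 0) := by
  have e : ∀ i : ℕ × G, (if Φ i then pz α h z i else 0)
      = ∑' b, (if Φ i ∧ h b = i.1 ∧ z b = i.2 then α b else 0) := by
    intro i
    by_cases hi : Φ i
    · rw [if_pos hi, pz]; exact tsum_congr fun b => by simp [hi]
    · rw [if_neg hi]; symm; refine ENNReal.tsum_eq_zero.2 fun b => ?_; simp [hi]
  rw [tsum_congr e, ENNReal.tsum_comm]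
  refine tsum_congr fun b => ?_
  rw [tsum_eq_single (h b, z b)]
  · simp
  · rintro ⟨n, x⟩ hne
    rw [if_neg]
    rintro ⟨-, h1, h2⟩
    exact hne (Prod.ext h1.symm h2.symm)

lemma pz_sum (α : P → ℝ≥0∞) (h : P → ℕ) (z : P → G) : ∑' i, pz α h z i = ∑' b, α b := by
  have := push α h z (fun _ => True)
  simpa using this.symm

lemma SL_tsum {ι : Type*} (α : P → ℝ≥0∞) (k : ℕ) (f : ι → List P → ℝ≥0∞) :
    SL α k (fun A => ∑' x, f x A) = ∑' x, SL α k (f x) := by
  simp only [SL]
  rw [ENNReal.tsum_comm]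
  refine tsum_congr fun L => ?_
  by_cases hL : L.length = k
  · simp only [hL, if_true]; rw [ENNReal.tsum_mul_left]
  · simp [hL]

open Classical in
/-- the density bound for one small piece -/
lemma small_dens (α : P → ℝ≥0∞) (h : P → ℕ) (z : P → G) (T i0 : ℕ) (θ : ℝ≥0∞) (x : G) :
    ∑' b, (if (T ≤ h b ∧ h b ≤ T + i0 ∧ pz α h z (h b, z b) < 2 * θ) ∧ z b = x then α b else 0)
      ≤ ((i0 : ℝ≥0∞) + 1) * (2 * θ) := by
  have e : ∀ b, (if (T ≤ h b ∧ h b ≤ T + i0 ∧ pz α h z (h b, z b) < 2 * θ) ∧ z b = x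
      then α b else 0) ≤ ∑ n ∈ Finset.Icc T (T + i0),
        (if pz α h z (n, x) < 2 * θ then (if h b = n ∧ z b = x then α b else 0) else 0) := by
    intro b
    split_ifs with hb
    · obtain ⟨⟨h1, h2, h3⟩, rfl⟩ := hb
      refine le_trans ?_ (Finset.single_le_sum (f := fun n =>
        (if pz α h z (n, z b) < 2 * θ then (if h b = n ∧ z b = z b then α b else 0) else 0 : ℝ≥0∞))
        (fun _ _ => zero_le) (Finset.mem_Icc.2 ⟨h1, h2⟩))
      simp [h3]
    · exact zero_le
  refine (ENNReal.tsum_le_tsum e).trans ?_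
  rw [Summable.tsum_finsetSum (fun _ _ => ENNReal.summable)]
  calc ∑ n ∈ Finset.Icc T (T + i0), ∑' b,
        (if pz α h z (n, x) < 2 * θ then (if h b = n ∧ z b = x then α b else 0) else 0)
      ≤ ∑ n ∈ Finset.Icc T (T + i0), 2 * θ := by
        refine Finset.sum_le_sum fun n _ => ?_
        by_cases hn : pz α h z (n, x) < 2 * θ
        · simp only [hn, if_true]; exact hn.le
        · simp [hn]
    _ = _ := by
        rw [Finset.sum_const, Nat.card_Icc, nsmul_eq_mul]
        congr 1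
        rw [show T + i0 + 1 - T = i0 + 1 by omega]; push_cast; rfl

/-- the small pieces of the list: reachable set -/
def Sm (α : P → ℝ≥0∞) (h : P → ℕ) (z : P → G) (T i0 : ℕ) (θ : ℝ≥0∞) (b : P) : Prop :=
  T ≤ h b ∧ h b ≤ T + i0 ∧ pz α h z (h b, z b) < 2 * θ

open Classical in
/-- **one class of the window cost**: first walker local, its top list contains a small piece -/
theorem cls [AddCommGroup G] (α : P → ℝ≥0∞) (β : P' → ℝ≥0∞) (hα : ∑' b, α b = 1)
    (hβ : ∑' b, β b = 1) (h : P → ℕ) (z : P → G) (h' : P' → ℕ) (k T i0 n n' : ℕ) (θ : ℝ≥0∞)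
    (off : List P → List P' → G) (inv : List P' → G → G)
    (hinv : ∀ A A' x, off A A' = x → (A.map z).sum = inv A' x)
    (Q : List P → List P' → Prop) (Ct : G → P → P' → Prop) (R : ℝ≥0∞)
    (h2 : ∀ μ : G → ℝ≥0∞, ∑' x, μ x ≤ 1 → (∀ x, μ x ≤ k * (((i0 : ℝ≥0∞) + 1) * (2 * θ))) →
      ∑' x, μ x * ∑' p, ∑' p', (if h p = n ∧ θ ≤ pz α h z (n, z p) ∧ h' p' = n' ∧ Ct x p p'
        then α p * β p' else 0) ≤ R) :
    SL α k (fun A => SL β k (fun A' => ∑' p, ∑' p',
      (if Q A A' ∧ (∃ b ∈ A, Sm α h z T i0 θ b) ∧ h p = n ∧ θ ≤ pz α h z (n, z p) ∧ h' p' = n' ∧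
        Ct (off A A') p p' then α p * β p' else 0))) ≤ R := by
  set F : G → ℝ≥0∞ := fun x => ∑' p, ∑' p', (if h p = n ∧ θ ≤ pz α h z (n, z p) ∧ h' p' = n' ∧
    Ct x p p' then α p * β p' else 0) with hF
  set μ : G → ℝ≥0∞ := fun x => SL α k (fun A => SL β k (fun A' =>
    if Q A A' ∧ (∃ b ∈ A, Sm α h z T i0 θ b) ∧ off A A' = x then 1 else 0)) with hμ
  have e1 : SL α k (fun A => SL β k (fun A' => ∑' p, ∑' p',
      (if Q A A' ∧ (∃ b ∈ A, Sm α h z T i0 θ b) ∧ h p = n ∧ θ ≤ pz α h z (n, z p) ∧ h' p' = n' ∧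
        Ct (off A A') p p' then α p * β p' else 0))) = ∑' x, μ x * F x := by
    have : ∀ A A', (∑' p, ∑' p',
      (if Q A A' ∧ (∃ b ∈ A, Sm α h z T i0 θ b) ∧ h p = n ∧ θ ≤ pz α h z (n, z p) ∧ h' p' = n' ∧
        Ct (off A A') p p' then α p * β p' else 0))
        = ∑' x, F x * (if Q A A' ∧ (∃ b ∈ A, Sm α h z T i0 θ b) ∧ off A A' = x then 1 else 0) := by
      intro A A'
      rw [tsum_eq_single (off A A')]
      · by_cases hq : Q A A' ∧ (∃ b ∈ A, Sm α h z T i0 θ b)
        · rw [if_pos ⟨hq.1, hq.2, rfl⟩, mul_one, hF]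
          refine tsum_congr fun p => tsum_congr fun p' => ?_
          simp [hq.1, hq.2]
        · rw [if_neg (fun hh => hq ⟨hh.1, hh.2.1⟩), mul_zero]
          refine ENNReal.tsum_eq_zero.2 fun p => ENNReal.tsum_eq_zero.2 fun p' => ?_
          rw [if_neg (fun hh => hq ⟨hh.1, hh.2.1⟩)]
      · intro x hx
        rw [if_neg (fun hh => hx hh.2.2.symm), mul_zero]
    simp only [this]
    have e2 : ∀ A, SL β k (fun A' => ∑' x, F x *
        (if Q A A' ∧ (∃ b ∈ A, Sm α h z T i0 θ b) ∧ off A A' = x then 1 else 0))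
        = ∑' x, F x * SL β k (fun A' =>
          if Q A A' ∧ (∃ b ∈ A, Sm α h z T i0 θ b) ∧ off A A' = x then 1 else 0) := by
      intro A
      rw [SL_tsum]
      exact tsum_congr fun x => SL_const_mul β k _ _
    simp only [e2]
    rw [SL_tsum]
    refine tsum_congr fun x => ?_
    rw [SL_const_mul, mul_comm]
  rw [e1]
  refine h2 μ ?_ ?_
  · -- total mass
    have : ∑' x, μ x = SL α k (fun A => SL β k (fun A' => ∑' x,
        if Q A A' ∧ (∃ b ∈ A, Sm α h z T i0 θ b) ∧ off A A' = x then (1 : ℝ≥0∞) else 0)) := by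
      simp only [hμ]
      rw [← SL_tsum]
      refine SL_congr α k fun A _ => ?_
      rw [← SL_tsum]
    rw [this]
    calc _ ≤ SL α k (fun _ => SL β k (fun _ => (1 : ℝ≥0∞))) := by
          refine SL_mono α k fun A _ => SL_mono β k fun A' _ => ?_
          rw [tsum_eq_single (off A A')]
          · split_ifs <;> simp
          · intro x hx; rw [if_neg (fun hh => hx hh.2.2.symm)]
      _ = 1 := by rw [SL_one β hβ, SL_one α hα]
  · -- sup
    intro x
    have hd : ∀ y, SL α k (fun A => if (∃ b ∈ A, Sm α h z T i0 θ b) ∧ (A.map z).sum = y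
        then 1 else 0) ≤ k * (((i0 : ℝ≥0∞) + 1) * (2 * θ)) := by
      intro y
      have := dens α hα.le z (Sm α h z T i0 θ) (((i0 : ℝ≥0∞) + 1) * (2 * θ))
        (fun x => by have := small_dens α h z T i0 θ x; unfold Sm; convert this) k y
      exact this
    have hsw : μ x = SL β k (fun A' => SL α k (fun A =>
        if Q A A' ∧ (∃ b ∈ A, Sm α h z T i0 θ b) ∧ off A A' = x then 1 else 0)) := by
      simp only [hμ, SL]
      have : ∀ (A : List P), (if A.length = k then LW α A * ∑' A' : List P',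
          (if A'.length = k then LW β A' * (if Q A A' ∧ (∃ b ∈ A, Sm α h z T i0 θ b) ∧
            off A A' = x then (1 : ℝ≥0∞) else 0) else 0) else 0)
          = ∑' A' : List P', (if A'.length = k then LW β A' * (if A.length = k then LW α A *
            (if Q A A' ∧ (∃ b ∈ A, Sm α h z T i0 θ b) ∧ off A A' = x then (1 : ℝ≥0∞) else 0)
            else 0) else 0) := by
        intro A
        by_cases hA : A.length = k
        · rw [if_pos hA, ← ENNReal.tsum_mul_left]
          refine tsum_congr fun A' => ?_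
          by_cases hA' : A'.length = k
          · rw [if_pos hA', if_pos hA', if_pos hA, mul_left_comm]
          · rw [if_neg hA', if_neg hA', mul_zero]
        · rw [if_neg hA]; symm
          refine ENNReal.tsum_eq_zero.2 fun A' => ?_
          simp [hA]
      rw [tsum_congr this, ENNReal.tsum_comm]
      refine tsum_congr fun A' => ?_
      by_cases hA' : A'.length = k
      · simp only [hA', if_true]; rw [ENNReal.tsum_mul_left]
      · simp [hA']
    rw [hsw]
    calc _ ≤ SL β k (fun _ => (k : ℝ≥0∞) * (((i0 : ℝ≥0∞) + 1) * (2 * θ))) := by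
          refine SL_mono β k fun A' _ => ?_
          refine le_trans (SL_mono α k fun A _ => ?_) (hd (inv A' x))
          by_cases hq : Q A A' ∧ (∃ b ∈ A, Sm α h z T i0 θ b) ∧ off A A' = x
          · rw [if_pos hq, if_pos ⟨hq.2.1, hinv A A' x hq.2.2⟩]
          · rw [if_neg hq]; exact zero_le
      _ = _ := SL_const β hβ k _

end Crest.Agent.R154.AsmP212
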