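import Crest.Agent.R154.AsmD_247

/-! Row 154, ROAD 801, assembly (helper247), part 3: the relative position has a smooth law. -/

set_option autoImplicit false

namespace Crest.Agent.R154.Asm247

open scoped ENNReal
open Crest.Agent.R154.B5A Crest.Agent.R154.FP178

variable {BA BB G : Type*} [AddCommGroup G]

open Classical in
theorem pair (ΛA : BA → ℝ≥0∞) (hA : BA → ℕ) (zA : BA → G)
    (ΛB : BB → ℝ≥0∞) (hB : BB → ℕ) (zB : BB → G)
    (h1A : ∀ b, 1 ≤ hA b) (h1B : ∀ b, 1 ≤ hB b) (hΛA : ∑' b, ΛA b ≤ 1) (hΛB : ∑' b, ΛB b ≤ 1)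
    (c c' i0 : ℕ) (M β R : ℝ≥0∞) (g b : ℤ × G → ℝ≥0∞)
    (hgb : ∀ κ, mk ΛA hA zA c κ ≤ g κ + b κ) (hg : ∀ κ, g κ ≤ M) (hb : ∑' κ, b κ ≤ β)
    (Ψ : ℕ → ℕ → G → ℝ≥0∞) (hΨ1 : ∀ a a' x, Ψ a a' x ≤ 1) (w : G)
    (hΨ : ∀ a a', c ≤ a → a ≤ c + i0 → c' ≤ a' → a' ≤ c' + i0 → ∀ μ : G → ℝ≥0∞,
      ∑' x, μ x ≤ 1 → (∀ x, μ x ≤ M) → ∑' x, μ x * Ψ a a' x ≤ R) :
    ∑' L : List BA, (if fp hA c L ∧ HT hA L ≤ c + i0 then LW ΛA L *
        ∑' L' : List BB, (if fp hB c' L' ∧ HT hB L' ≤ c' + i0 then LW ΛB L' *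
          Ψ (HT hA L) (HT hB L') (w + Dp zB L' - Dp zA L) else 0) else 0)
      ≤ β + (i0 + 1) * ((i0 + 1) * R) := by
  set g' : ℤ × G → ℝ≥0∞ := fun κ => min (g κ) (mk ΛA hA zA c κ) with hg'
  have hg'b : ∀ κ, mk ΛA hA zA c κ ≤ g' κ + b κ := by
    intro κ
    simp only [hg']
    rcases le_total (g κ) (mk ΛA hA zA c κ) with h | h
    · rw [min_eq_left h]; exact hgb κ
    · rw [min_eq_right h]; exact le_self_add
  have hg'M : ∀ κ, g' κ ≤ M := fun κ => (min_le_left _ _).trans (hg κ)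
  have hg'1 : ∀ a : ℤ, ∑' v : G, g' (a, v) ≤ 1 := by
    intro a
    refine le_trans (ENNReal.tsum_le_tsum fun v => min_le_right _ _) ?_
    refine le_trans ?_ (mk_mass ΛA hA zA h1A hΛA c)
    exact ENNReal.tsum_comp_le_tsum_of_injective (Prod.mk_right_injective a) (mk ΛA hA zA c)
  set Φ : ℤ × G → ℝ≥0∞ := fun κ => if κ.1 ≤ (c : ℤ) + i0 then
      ∑' L' : List BB, (if fp hB c' L' ∧ HT hB L' ≤ c' + i0 then LW ΛB L' *
          Ψ κ.1.toNat (HT hB L') (w + Dp zB L' - κ.2) else 0) else 0 with hΦ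
  have hΦ1 : ∀ κ, Φ κ ≤ 1 := by
    intro κ
    simp only [hΦ]
    split_ifs with h
    swap
    · exact zero_le
    refine le_trans (ENNReal.tsum_le_tsum fun L' => ?_) (sum_FP ΛB hB h1B hΛB c')
    by_cases h' : fp hB c' L' ∧ HT hB L' ≤ c' + i0
    · rw [if_pos h', if_pos h'.1]
      calc LW ΛB L' * _ ≤ LW ΛB L' * 1 := by gcongr; exact hΨ1 _ _ _
        _ = _ := mul_one _
    · rw [if_neg h']; exact zero_le
  have e0 : ∀ L : List BA, (if fp hA c L ∧ HT hA L ≤ c + i0 then LW ΛA L *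
        ∑' L' : List BB, (if fp hB c' L' ∧ HT hB L' ≤ c' + i0 then LW ΛB L' *
          Ψ (HT hA L) (HT hB L') (w + Dp zB L' - Dp zA L) else 0) else 0)
      = (if fp hA c L then LW ΛA L * Φ (ky hA zA L) else 0) := by
    intro L
    by_cases h : fp hA c L
    swap
    · rw [if_neg h, if_neg (fun h' => h h'.1)]
    rw [if_pos h]
    by_cases h' : HT hA L ≤ c + i0
    · rw [if_pos ⟨h, h'⟩]
      congr 1
      simp only [hΦ, ky]
      rw [if_pos (by exact_mod_cast h')]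
      simp
    · rw [if_neg (fun h'' => h' h''.2)]
      simp only [hΦ, ky]
      rw [if_neg (by intro h''; exact h' (by exact_mod_cast h'')), mul_zero]
  rw [tsum_congr e0, keysum]
  -- the smooth part
  set X : ℕ → ℝ≥0∞ := fun h => ∑' v : G, g' (((c + h : ℕ) : ℤ), v) * Φ (((c + h : ℕ) : ℤ), v)
    with hX
  have e1 : ∑' κ, g' κ * Φ κ ≤ ∑ h ∈ Finset.range (i0 + 1), X h := by
    rw [ENNReal.tsum_prod (f := fun i v => g' (i, v) * Φ (i, v)) |>.symm.symm]
    have : ∀ i : ℤ, ∑' v : G, g' (i, v) * Φ (i, v)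
        ≤ ∑ h ∈ Finset.range (i0 + 1), (if i = ((c + h : ℕ) : ℤ) then X h else 0) := by
      intro i
      by_cases hi : (c : ℤ) ≤ i ∧ i ≤ (c : ℤ) + i0
      · have hm : (i - c).toNat ∈ Finset.range (i0 + 1) := by rw [Finset.mem_range]; omega
        refine le_trans ?_ (Finset.single_le_sum (f := fun h : ℕ => if i = ((c + h : ℕ) : ℤ)
          then X h else 0) (fun _ _ => zero_le) hm)
        have hi' : i = ((c + (i - c).toNat : ℕ) : ℤ) := by omega
        rw [if_pos hi']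
        simp only [hX]
        rw [← hi']
      · have : ∀ v : G, g' (i, v) * Φ (i, v) = 0 := by
          intro v
          by_cases h2 : i ≤ (c : ℤ) + i0
          · have h3 : mk ΛA hA zA c (i, v) = 0 := by
              by_contra h3
              exact hi ⟨mk_supp ΛA hA zA c _ h3, h2⟩
            simp only [hg']
            rw [h3, min_eq_right zero_le, zero_mul]
          · simp only [hΦ]
            rw [if_neg h2, mul_zero]
        simp only [this, tsum_zero]
        exact zero_le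
    refine le_trans (ENNReal.tsum_le_tsum this) ?_
    rw [Summable.tsum_finsetSum (fun _ _ => ENNReal.summable)]
    refine Finset.sum_le_sum fun h _ => ?_
    rw [tsum_ite_eq]
  have e2 : ∀ h ∈ Finset.range (i0 + 1), X h ≤ (i0 + 1) * R := by
    intro h hh
    rw [Finset.mem_range] at hh
    simp only [hX]
    have hΦh : ∀ v : G, Φ (((c + h : ℕ) : ℤ), v) ≤ ∑ h' ∈ Finset.range (i0 + 1),
        ∑' L' : List BB, (if fp hB c' L' ∧ HT hB L' = c' + h' then LW ΛB L' else 0) *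
          Ψ (c + h) (c' + h') (w + Dp zB L' - v) := by
      intro v
      simp only [hΦ]
      rw [if_pos (by push_cast; omega)]
      rw [← Summable.tsum_finsetSum (fun _ _ => ENNReal.summable)]
      refine ENNReal.tsum_le_tsum fun L' => ?_
      by_cases hL : fp hB c' L' ∧ HT hB L' ≤ c' + i0
      swap
      · rw [if_neg hL]; exact zero_le
      rw [if_pos hL]
      have hc := le_HT_of_fp hB hL.1
      have hm : HT hB L' - c' ∈ Finset.range (i0 + 1) := by rw [Finset.mem_range]; omega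
      refine le_trans (le_of_eq ?_) (Finset.single_le_sum (f := fun h' : ℕ =>
        (if fp hB c' L' ∧ HT hB L' = c' + h' then LW ΛB L' else 0) *
          Ψ (c + h) (c' + h') (w + Dp zB L' - v)) (fun _ _ => zero_le) hm)
      have hc' : HT hB L' = c' + (HT hB L' - c') := by omega
      rw [if_pos ⟨hL.1, hc'⟩, ← hc', Int.toNat_natCast]
    calc ∑' v : G, g' (((c + h : ℕ) : ℤ), v) * Φ (((c + h : ℕ) : ℤ), v)
        ≤ ∑' v : G, g' (((c + h : ℕ) : ℤ), v) * ∑ h' ∈ Finset.range (i0 + 1),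
        ∑' L' : List BB, (if fp hB c' L' ∧ HT hB L' = c' + h' then LW ΛB L' else 0) *
          Ψ (c + h) (c' + h') (w + Dp zB L' - v) := by
          refine ENNReal.tsum_le_tsum fun v => mul_le_mul_right (hΦh v) _
      _ = ∑ h' ∈ Finset.range (i0 + 1), ∑' x : G,
            (∑' L' : List BB, (if fp hB c' L' ∧ HT hB L' = c' + h' then LW ΛB L' else 0) *
              g' (((c + h : ℕ) : ℤ), w + Dp zB L' - x)) * Ψ (c + h) (c' + h') x := by
          simp_rw [Finset.mul_sum]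
          rw [Summable.tsum_finsetSum (fun _ _ => ENNReal.summable)]
          refine Finset.sum_congr rfl fun h' _ => ?_
          simp_rw [← ENNReal.tsum_mul_left, ← ENNReal.tsum_mul_right]
          rw [ENNReal.tsum_comm]
          rw [ENNReal.tsum_comm (α := G) (β := List BB)]
          refine tsum_congr fun L' => ?_
          rw [← (Equiv.subLeft (w + Dp zB L')).tsum_eq (fun v : G =>
            g' (((c + h : ℕ) : ℤ), v) * ((if fp hB c' L' ∧ HT hB L' = c' + h' then LW ΛB L' else 0) *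
              Ψ (c + h) (c' + h') (w + Dp zB L' - v)))]
          refine tsum_congr fun x => ?_
          simp only [Equiv.subLeft_apply, sub_sub_cancel]
          ring
      _ ≤ ∑ h' ∈ Finset.range (i0 + 1), R := by
          refine Finset.sum_le_sum fun h' hh' => ?_
          rw [Finset.mem_range] at hh'
          refine hΨ (c + h) (c' + h') (by omega) (by omega) (by omega) (by omega) _ ?_ ?_
          · rw [ENNReal.tsum_comm]
            refine le_trans (ENNReal.tsum_le_tsum fun L' => ?_) (sum_FP ΛB hB h1B hΛB c')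
            rw [ENNReal.tsum_mul_left, tsum_sub_key' (fun x => g' (((c + h : ℕ) : ℤ), x))]
            calc _ ≤ (if fp hB c' L' ∧ HT hB L' = c' + h' then LW ΛB L' else 0) * 1 := by
                  gcongr; exact hg'1 _
              _ ≤ _ := by
                  rw [mul_one]
                  by_cases hq : fp hB c' L' ∧ HT hB L' = c' + h'
                  · rw [if_pos hq, if_pos hq.1]
                  · rw [if_neg hq]; exact zero_le
          · intro x
            calc ∑' L' : List BB, (if fp hB c' L' ∧ HT hB L' = c' + h' then LW ΛB L' else 0) *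
                  g' (((c + h : ℕ) : ℤ), w + Dp zB L' - x)
                ≤ ∑' L' : List BB, (if fp hB c' L' then LW ΛB L' else 0) * M := by
                  refine ENNReal.tsum_le_tsum fun L' => mul_le_mul' ?_ (hg'M _)
                  by_cases hq : fp hB c' L' ∧ HT hB L' = c' + h'
                  · rw [if_pos hq, if_pos hq.1]
                  · rw [if_neg hq]; exact zero_le
              _ ≤ 1 * M := by
                  rw [ENNReal.tsum_mul_right]
                  gcongr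
                  exact sum_FP ΛB hB h1B hΛB c'
              _ = M := one_mul M
      _ = (i0 + 1) * R := by simp
  calc ∑' κ, mk ΛA hA zA c κ * Φ κ ≤ ∑' κ, (b κ + g' κ * Φ κ) := by
        refine ENNReal.tsum_le_tsum fun κ => ?_
        calc mk ΛA hA zA c κ * Φ κ ≤ (g' κ + b κ) * Φ κ := by gcongr; exact hg'b κ
          _ = g' κ * Φ κ + b κ * Φ κ := add_mul _ _ _
          _ ≤ g' κ * Φ κ + b κ * 1 := by gcongr; exact hΦ1 κ
          _ = _ := by rw [mul_one, add_comm]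
    _ = ∑' κ, b κ + ∑' κ, g' κ * Φ κ := ENNReal.tsum_add
    _ ≤ β + ∑ h ∈ Finset.range (i0 + 1), X h := add_le_add hb e1
    _ ≤ β + ∑ h ∈ Finset.range (i0 + 1), (i0 + 1) * R := by gcongr with h hh; exact e2 h hh
    _ = _ := by simp

open Classical in
/-- first passage weight with small overshoot -/
noncomputable def W1 {B : Type*} (Λ : B → ℝ≥0∞) (ht : B → ℕ) (c i0 : ℕ) (L : List B) : ℝ≥0∞ :=
  if fp ht c L ∧ HT ht L ≤ c + i0 then LW Λ L else 0

lemma W1_mass {B : Type*} (Λ : B → ℝ≥0∞) (ht : B → ℕ) (h1 : ∀ b, 1 ≤ ht b) (hΛ : ∑' b, Λ b ≤ 1)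
    (c i0 : ℕ) : ∑' L, W1 Λ ht c i0 L ≤ 1 := by
  classical
  refine le_trans (ENNReal.tsum_le_tsum fun L => ?_) (sum_FP Λ ht h1 hΛ c)
  rw [W1]
  by_cases h : fp ht c L ∧ HT ht L ≤ c + i0
  · rw [if_pos h, if_pos h.1]
  · rw [if_neg h]; exact zero_le

open Classical in
/-- `pair` in product form -/
theorem pair' (ΛA : BA → ℝ≥0∞) (hA : BA → ℕ) (zA : BA → G)
    (ΛB : BB → ℝ≥0∞) (hB : BB → ℕ) (zB : BB → G)
    (h1A : ∀ b, 1 ≤ hA b) (h1B : ∀ b, 1 ≤ hB b) (hΛA : ∑' b, ΛA b ≤ 1) (hΛB : ∑' b, ΛB b ≤ 1)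
    (c c' i0 : ℕ) (M β R : ℝ≥0∞)
    (hd : ∃ g b : ℤ × G → ℝ≥0∞, (∀ κ, mk ΛA hA zA c κ ≤ g κ + b κ) ∧ (∀ κ, g κ ≤ M) ∧
      ∑' κ, b κ ≤ β)
    (Ψ : ℕ → ℕ → G → ℝ≥0∞) (hΨ1 : ∀ a a' x, Ψ a a' x ≤ 1) (w : G)
    (hΨ : ∀ a a', c ≤ a → a ≤ c + i0 → c' ≤ a' → a' ≤ c' + i0 → ∀ μ : G → ℝ≥0∞,
      ∑' x, μ x ≤ 1 → (∀ x, μ x ≤ M) → ∑' x, μ x * Ψ a a' x ≤ R) :
    ∑' L : List BA, ∑' L' : List BB, W1 ΛA hA c i0 L * W1 ΛB hB c' i0 L' *
          Ψ (HT hA L) (HT hB L') (w + Dp zB L' - Dp zA L)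
      ≤ β + (i0 + 1) * ((i0 + 1) * R) := by
  obtain ⟨g, b, hgb, hg, hb⟩ := hd
  refine le_trans (le_of_eq ?_) (pair ΛA hA zA ΛB hB zB h1A h1B hΛA hΛB c c' i0 M β R g b hgb hg hb
    Ψ hΨ1 w hΨ)
  refine tsum_congr fun L => ?_
  by_cases h : fp hA c L ∧ HT hA L ≤ c + i0
  · rw [if_pos h, ← ENNReal.tsum_mul_left]
    refine tsum_congr fun L' => ?_
    simp only [W1, if_pos h]
    by_cases h' : fp hB c' L' ∧ HT hB L' ≤ c' + i0
    · rw [if_pos h', if_pos h', mul_assoc]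
    · rw [if_neg h', if_neg h', mul_zero, zero_mul]
  · rw [if_neg h]
    simp only [W1, if_neg h, zero_mul, tsum_zero]

end Crest.Agent.R154.Asm247
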