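import Crest.Agent.R154.Smooth_178
import Crest.Agent.R154.AsmA_789
import Crest.Agent.R154.Bind801_12

/-! Row 154, ROAD 801 (helper382), silent third of the abstract assembly: one window. -/

set_option autoImplicit false

namespace Crest.Agent.R154.Asm382

open scoped ENNReal
open Crest.Agent.R154.B5A Crest.Agent.R154.FP178
open Crest.Agent.R154.Bind12 (TT Dp)

variable {B B' G : Type*} [AddCommGroup G]

lemma TT_nil (s : B → Set (G × ℕ)) (z : B → G) (h : B → ℕ) (x : G) (a : ℕ) :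
    TT s z h [] x a = ∅ := rfl

lemma TT_cons (s : B → Set (G × ℕ)) (z : B → G) (h : B → ℕ) (b : B) (L : List B) (x : G) (a : ℕ) :
    TT s z h (b :: L) x a = {p | ∃ q ∈ s b, p = (x + q.1, a + q.2)} ∪ TT s z h L (x + z b) (a + h b) :=
  rfl

lemma Dp_nil (z : B → G) : Dp z ([] : List B) = 0 := by simp [Dp]

lemma Dp_cons (z : B → G) (b : B) (L : List B) : Dp z (b :: L) = z b + Dp z L := by simp [Dp]

lemma Dp_append (z : B → G) (L L' : List B) : Dp z (L ++ L') = Dp z L + Dp z L' := by simp [Dp]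

lemma TT_append (s : B → Set (G × ℕ)) (z : B → G) (h : B → ℕ) (L L' : List B) (x : G) (a : ℕ) :
    TT s z h (L ++ L') x a = TT s z h L x a ∪ TT s z h L' (x + Dp z L) (a + HT h L) := by
  induction L generalizing x a with
  | nil => simp [TT_nil, Dp_nil, HT_nil]
  | cons b L ih =>
    rw [List.cons_append, TT_cons, TT_cons, ih, Set.union_assoc, Dp_cons, HT_cons, add_assoc,
      add_assoc]

lemma TT_shift (s : B → Set (G × ℕ)) (z : B → G) (h : B → ℕ) (L : List B) (x c y : G) (a k : ℕ) :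
    (y, k) ∈ TT s z h L (x + c) a ↔ (y - c, k) ∈ TT s z h L x a := by
  induction L generalizing x a with
  | nil => simp [TT_nil]
  | cons b L ih =>
    rw [TT_cons, TT_cons, Set.mem_union, Set.mem_union, add_right_comm x c (z b), ih]
    refine or_congr ?_ Iff.rfl
    constructor
    · rintro ⟨q, hq, e⟩
      refine ⟨q, hq, ?_⟩
      rw [Prod.mk.injEq] at e ⊢
      refine ⟨?_, e.2⟩
      rw [e.1]; abel
    · rintro ⟨q, hq, e⟩
      refine ⟨q, hq, ?_⟩
      rw [Prod.mk.injEq] at e ⊢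
      refine ⟨?_, e.2⟩
      rw [sub_eq_iff_eq_add] at e
      rw [e.1]; abel

lemma TT_dep (s : B → Set (G × ℕ)) (z : B → G) (h : B → ℕ)
    (hs : ∀ b, ∀ q ∈ s b, 1 ≤ q.2 ∧ q.2 ≤ h b) (L : List B) (x : G) (a : ℕ) (y : G) (k : ℕ)
    (hk : (y, k) ∈ TT s z h L x a) : a < k ∧ k ≤ a + HT h L := by
  induction L generalizing x a with
  | nil => simp [TT_nil] at hk
  | cons b L ih =>
    rw [TT_cons, Set.mem_union] at hk
    rw [HT_cons]
    rcases hk with ⟨q, hq, e⟩ | hk
    · rw [Prod.mk.injEq] at e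
      have := hs b q hq
      omega
    · have := ih _ _ hk
      omega

/-- the placed lists have a common site and all common sites have depth in `[lo, hi]` -/
def Ctc (T1 T2 : Set (G × ℕ)) (lo hi : ℕ) : Prop :=
  (∃ z k, (z, k) ∈ T1 ∧ (z, k) ∈ T2) ∧
    ∀ z k, (z, k) ∈ T1 → (z, k) ∈ T2 → lo ≤ k ∧ k ≤ hi

lemma Ctc_symm (T1 T2 : Set (G × ℕ)) (lo hi : ℕ) : Ctc T1 T2 lo hi ↔ Ctc T2 T1 lo hi := by
  constructor
  · rintro ⟨⟨z, k, h1, h2⟩, h⟩
    exact ⟨⟨z, k, h2, h1⟩, fun z k h1 h2 => h z k h2 h1⟩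
  · rintro ⟨⟨z, k, h1, h2⟩, h⟩
    exact ⟨⟨z, k, h2, h1⟩, fun z k h1 h2 => h z k h2 h1⟩

lemma Ctc_shift (s : B → Set (G × ℕ)) (z : B → G) (h : B → ℕ) (s' : B' → Set (G × ℕ))
    (z' : B' → G) (h' : B' → ℕ) (L : List B) (L' : List B') (x y c : G) (a a' lo hi : ℕ) :
    Ctc (TT s z h L (x + c) a) (TT s' z' h' L' (y + c) a') lo hi
      ↔ Ctc (TT s z h L x a) (TT s' z' h' L' y a') lo hi := by
  unfold Ctc
  simp only [TT_shift]
  constructor
  · rintro ⟨⟨w, k, h1, h2⟩, hh⟩
    refine ⟨⟨w - c, k, h1, h2⟩, fun w k h1 h2 => hh (w + c) k (by simpa using h1) (by simpa using h2)⟩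
  · rintro ⟨⟨w, k, h1, h2⟩, hh⟩
    refine ⟨⟨w + c, k, by simpa using h1, by simpa using h2⟩, fun w k h1 h2 => hh _ k h1 h2⟩

section marg

variable (Λ : B → ℝ≥0∞) (h : B → ℕ)

open Classical in
/-- mass of the overshoots -/
noncomputable def ov (a i0 : ℕ) : ℝ≥0∞ :=
  ∑' L : List B, (if fp h a L ∧ a + i0 < HT h L then LW Λ L else 0)

open Classical in
/-- weight of a first passage with small overshoot -/
noncomputable def wt (a i0 : ℕ) (A : List B) : ℝ≥0∞ :=
  if fp h a A ∧ HT h A ≤ a + i0 then LW Λ A else 0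

lemma wt_le (h1 : ∀ b, 1 ≤ h b) (hΛ : ∑' b, Λ b ≤ 1) (a i0 : ℕ) : ∑' A, wt Λ h a i0 A ≤ 1 := by
  classical
  refine le_trans (ENNReal.tsum_le_tsum fun A => ?_) (sum_FP Λ h h1 hΛ a)
  unfold wt
  by_cases h' : fp h a A ∧ HT h A ≤ a + i0
  · rw [if_pos h', if_pos h'.1]
  · rw [if_neg h']; exact zero_le

open Classical in
lemma marg (h1 : ∀ b, 1 ≤ h b) (hΛ : ∑' b, Λ b ≤ 1) (hU : ∀ n, U Λ h n ≤ 1)
    (a T i0 n : ℕ) (hn : a + i0 + T ≤ n) (Φ : List B → ℝ≥0∞) (Ψ : List B → List B → ℝ≥0∞)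
    (hΦ1 : ∀ L, Φ L ≤ 1)
    (hΦ : ∀ A P R, fp h a A → HT h A ≤ a + i0 → fp h T P → HT h P ≤ T + i0 →
      Φ (A ++ (P ++ R)) ≤ Ψ A P) :
    ∑' L, (if HT h L = n then LW Λ L * Φ L else 0)
      ≤ ov Λ h a i0 + ov Λ h T i0 + ∑' A, wt Λ h a i0 A * ∑' P, wt Λ h T i0 P * Ψ A P := by
  have e0 : ∀ L : List B, (if HT h L = n then LW Λ L * Φ L else 0)
      = (if a ≤ HT h L then LW Λ L * (if HT h L = n then Φ L else 0) else 0) := by
    intro L
    by_cases hL : HT h L = n
    · rw [if_pos hL, if_pos (by omega), if_pos hL]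
    · rw [if_neg hL, if_neg hL, mul_zero, ite_self]
  rw [tsum_congr e0, split Λ h h1 a]
  -- the sum of the rest is at most one
  have hrest : ∀ (c : ℕ) (F : List B → ℝ≥0∞), (∀ L, F L ≤ 1) →
      ∑' L, LW Λ L * (if c + HT h L = n then F L else 0) ≤ 1 := by
    intro c F hF
    refine le_trans (ENNReal.tsum_le_tsum fun L => ?_) (hU (n - c))
    by_cases hL : c + HT h L = n
    · rw [if_pos hL, if_pos (by omega)]
      calc LW Λ L * F L ≤ LW Λ L * 1 := mul_le_mul_right (hF L) _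
        _ = _ := mul_one _
    · rw [if_neg hL, mul_zero]; exact zero_le
  have key : ∀ A : List B, (if fp h a A then LW Λ A *
        ∑' L2, LW Λ L2 * (if HT h (A ++ L2) = n then Φ (A ++ L2) else 0) else 0)
      ≤ (if fp h a A ∧ a + i0 < HT h A then LW Λ A else 0)
        + (wt Λ h a i0 A * ov Λ h T i0 + wt Λ h a i0 A * ∑' P, wt Λ h T i0 P * Ψ A P) := by
    intro A
    by_cases hA : fp h a A
    swap
    · rw [if_neg hA]; exact zero_le
    rw [if_pos hA]
    simp only [HT_append]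
    by_cases hA2 : a + i0 < HT h A
    · rw [if_pos ⟨hA, hA2⟩]
      refine le_trans ?_ le_self_add
      calc LW Λ A * ∑' L2, LW Λ L2 * (if HT h A + HT h L2 = n then Φ (A ++ L2) else 0)
          ≤ LW Λ A * 1 := mul_le_mul_right (hrest _ (fun L => Φ (A ++ L)) (fun L => hΦ1 _)) _
        _ = _ := mul_one _
    · have hA3 : HT h A ≤ a + i0 := by omega
      rw [if_neg (fun h' => hA2 h'.2), zero_add, ← mul_add]
      have hw : wt Λ h a i0 A = LW Λ A := if_pos ⟨hA, hA3⟩
      rw [hw]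
      refine mul_le_mul_right ?_ _
      have e1 : ∀ L2 : List B, LW Λ L2 * (if HT h A + HT h L2 = n then Φ (A ++ L2) else 0)
          = (if T ≤ HT h L2 then LW Λ L2 * (if HT h A + HT h L2 = n then Φ (A ++ L2) else 0)
            else 0) := by
        intro L2
        by_cases hL : HT h A + HT h L2 = n
        · rw [if_pos hL, if_pos (by omega)]
        · rw [if_neg hL, mul_zero, ite_self]
      rw [tsum_congr e1, split Λ h h1 T, ov, ← ENNReal.tsum_add]
      refine ENNReal.tsum_le_tsum fun P => ?_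
      by_cases hP : fp h T P
      swap
      · rw [if_neg hP]; exact zero_le
      rw [if_pos hP]
      simp only [HT_append]
      by_cases hP2 : T + i0 < HT h P
      · rw [if_pos ⟨hP, hP2⟩]
        refine le_trans ?_ le_self_add
        have := hrest (HT h A + HT h P) (fun R => Φ (A ++ (P ++ R))) (fun L => hΦ1 _)
        simp only [add_assoc] at this
        calc _ ≤ LW Λ P * 1 := mul_le_mul_right this _
          _ = _ := mul_one _
      · have hP3 : HT h P ≤ T + i0 := by omega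
        rw [if_neg (fun h' => hP2 h'.2), zero_add]
        have hw : wt Λ h T i0 P = LW Λ P := if_pos ⟨hP, hP3⟩
        rw [hw]
        refine mul_le_mul_right ?_ _
        calc ∑' R, LW Λ R * (if HT h A + (HT h P + HT h R) = n then Φ (A ++ (P ++ R)) else 0)
            ≤ ∑' R, (if HT h R = n - (HT h A + HT h P) then LW Λ R else 0) * Ψ A P := by
              refine ENNReal.tsum_le_tsum fun R => ?_
              by_cases hR : HT h A + (HT h P + HT h R) = n
              · rw [if_pos hR, if_pos (by omega)]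
                exact mul_le_mul_right (hΦ A P R hA hA3 hP hP3) _
              · rw [if_neg hR, mul_zero]; exact zero_le
          _ = U Λ h (n - (HT h A + HT h P)) * Ψ A P := by rw [ENNReal.tsum_mul_right]; rfl
          _ ≤ 1 * Ψ A P := mul_le_mul_left (hU _) _
          _ = _ := one_mul _
  refine le_trans (ENNReal.tsum_le_tsum key) ?_
  rw [ENNReal.tsum_add, ENNReal.tsum_add, ENNReal.tsum_mul_right, ← add_assoc]
  refine add_le_add_left (add_le_add_right ?_ _) _
  calc (∑' A, wt Λ h a i0 A) * ov Λ h T i0 ≤ 1 * ov Λ h T i0 :=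
        mul_le_mul_left (wt_le Λ h h1 hΛ a i0) _
    _ = _ := one_mul _

end marg

section loc

variable (Λ : B → ℝ≥0∞) (h : B → ℕ) (z : B → G) (s : B → Set (G × ℕ))
variable (Λ' : B' → ℝ≥0∞) (h' : B' → ℕ) (z' : B' → G) (s' : B' → Set (G × ℕ))

/-- the piece is local: likely (overshoot, displacement) -/
def Loc (T : ℕ) (θ : ℝ≥0∞) (P : List B) : Prop := θ ≤ pL Λ h z T (HT h P - T) (Dp z P)

open Classical in
lemma regroup' (a i0 : ℕ) (F : ℕ → G → ℝ≥0∞) :
    ∑' A, wt Λ h a i0 A * F (HT h A) (Dp z A)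
      = ∑ i ∈ Finset.range (i0 + 1), ∑' x, pL Λ h z a i x * F (a + i) x := by
  rw [← regroup Λ h z a i0 (fun i x => F (a + i) x)]
  refine tsum_congr fun A => ?_
  unfold wt
  by_cases hA : fp h a A
  · rw [if_pos hA]
    by_cases hA2 : HT h A ≤ a + i0
    · rw [if_pos ⟨hA, hA2⟩, if_pos hA2]
      have := le_HT_of_fp h hA
      rw [show a + (HT h A - a) = HT h A by omega]
      rfl
    · rw [if_neg (fun h' => hA2 h'.2), if_neg hA2, zero_mul, mul_zero]
  · rw [if_neg hA, if_neg (fun h' => hA h'.1), zero_mul]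

open Classical in
lemma pL_le_mL (a i : ℕ) (x : G) : pL Λ h z a i x ≤ mL Λ h z a x := by
  unfold pL mL
  refine ENNReal.tsum_le_tsum fun L => ?_
  by_cases hL : fp h a L
  · rw [if_pos hL, if_pos hL]
    refine mul_le_mul_right ?_ _
    by_cases hx : dL z L = x
    · rw [if_pos hx]; split_ifs <;> simp
    · rw [if_neg hx, if_neg (fun h' => hx h'.2)]
  · rw [if_neg hL, if_neg hL]

open Classical in
lemma sum_pL_le (a i0 : ℕ) (x : G) :
    ∑ i ∈ Finset.range (i0 + 1), pL Λ h z a i x ≤ mL Λ h z a x := by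
  unfold pL mL
  rw [← Summable.tsum_finsetSum (fun _ _ => ENNReal.summable)]
  refine ENNReal.tsum_le_tsum fun L => ?_
  by_cases hL : fp h a L
  · simp only [if_pos hL]
    rw [← Finset.mul_sum]
    refine mul_le_mul_right ?_ _
    by_cases hx : dL z L = x
    · rw [if_pos hx]
      by_cases hh : ∃ i, HT h L = a + i
      · obtain ⟨i, hi⟩ := hh
        refine le_trans (Finset.sum_le_sum (g := fun j => if j = i then 1 else 0) fun j _ => ?_) ?_
        · by_cases hj : HT h L = a + j ∧ dL z L = x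
          · rw [if_pos hj, if_pos (by omega)]
          · rw [if_neg hj]; exact zero_le
        · rw [Finset.sum_ite_eq']; split_ifs <;> simp
      · rw [Finset.sum_eq_zero]
        · exact zero_le
        · intro j _
          rw [if_neg (fun h' => hh ⟨j, h'.1⟩)]
    · rw [if_neg hx, Finset.sum_eq_zero]
      intro j _
      rw [if_neg (fun h' => hx h'.2)]
  · simp only [if_neg hL, Finset.sum_const_zero, le_refl]

open Classical in
lemma nonloc (T i0 : ℕ) (θ u : ℝ≥0∞)
    (hu : ∑ i ∈ Finset.range (i0 + 1), ∑' x, (if pL Λ h z T i x < θ then pL Λ h z T i x else 0) ≤ u) :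
    ∑' P, wt Λ h T i0 P * (if Loc Λ h z T θ P then 0 else 1) ≤ u := by
  have := regroup' Λ h z T i0 (fun k x => if pL Λ h z T (k - T) x < θ then 1 else 0)
  refine le_trans (le_of_eq ?_) (le_trans this.le (le_trans (le_of_eq ?_) hu))
  · refine tsum_congr fun P => ?_
    congr 1
    unfold Loc
    by_cases hh : pL Λ h z T (HT h P - T) (Dp z P) < θ
    · rw [if_pos hh, if_neg (not_le.2 hh)]
    · rw [if_neg hh, if_pos (not_lt.1 hh)]
  · refine Finset.sum_congr rfl fun i _ => tsum_congr fun x => ?_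
    rw [show T + i - T = i by omega]
    split_ifs <;> simp

open Classical in
theorem loc (a T b' T' i0 lo hi : ℕ) (θ G0 R : ℝ≥0∞) (hθ : θ ≠ 0)
    (h1 : ∀ b, 1 ≤ h b) (hΛ : ∑' b, Λ b ≤ 1) (h1' : ∀ b, 1 ≤ h' b) (hΛ' : ∑' b, Λ' b ≤ 1)
    (g b : G → ℝ≥0∞) (hgb : ∀ x, mL Λ h z a x = g x + b x) (hg : ∀ x, g x ≤ G0) (c : G)
    (hR : ∀ k k' m m' : ℕ, a ≤ k → k ≤ a + i0 → b' ≤ k' → k' ≤ b' + i0 → T ≤ m → m ≤ T + i0 →
      T' ≤ m' → m' ≤ T' + i0 → ∀ E : Finset G, (E.card : ℝ≥0∞) * θ ≤ 1 → ∀ μ : G → ℝ≥0∞,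
      ∑' x, μ x ≤ 1 → (∀ x, μ x ≤ G0) →
      ∑' x, μ x * ∑' P, ∑' P', (if HT h P = m ∧ Dp z P ∈ E ∧ HT h' P' = m' ∧
        Ctc (TT s z h P 0 k) (TT s' z' h' P' x k') lo hi then LW Λ P * LW Λ' P' else 0) ≤ R) :
    ∑' A', wt Λ' h' b' i0 A' * ∑' A, wt Λ h a i0 A * ∑' P, wt Λ h T i0 P *
      ∑' P', wt Λ' h' T' i0 P' * (if Loc Λ h z T θ P ∧
        Ctc (TT s z h P (Dp z A) (HT h A)) (TT s' z' h' P' (c + Dp z' A') (HT h' A')) lo hi
        then 1 else 0) ≤ ∑' x, b x + (i0 + 1) ^ 3 * R := by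
  -- for one `A'`
  have one : ∀ A' : List B', b' ≤ HT h' A' → HT h' A' ≤ b' + i0 →
      ∑' A, wt Λ h a i0 A * ∑' P, wt Λ h T i0 P *
      ∑' P', wt Λ' h' T' i0 P' * (if Loc Λ h z T θ P ∧
        Ctc (TT s z h P (Dp z A) (HT h A)) (TT s' z' h' P' (c + Dp z' A') (HT h' A')) lo hi
        then 1 else 0) ≤ ∑' x, b x + (i0 + 1) ^ 3 * R := by
    intro A' ha' ha''
    set F : ℕ → G → ℝ≥0∞ := fun k x => ∑' P, wt Λ h T i0 P *
      ∑' P', wt Λ' h' T' i0 P' * (if Loc Λ h z T θ P ∧
        Ctc (TT s z h P x k) (TT s' z' h' P' (c + Dp z' A') (HT h' A')) lo hi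
        then 1 else 0) with hF
    have hF1 : ∀ k x, F k x ≤ 1 := by
      intro k x
      have q1 : ∀ P : List B, ∑' P', wt Λ' h' T' i0 P' * (if Loc Λ h z T θ P ∧
          Ctc (TT s z h P x k) (TT s' z' h' P' (c + Dp z' A') (HT h' A')) lo hi
          then (1 : ℝ≥0∞) else 0) ≤ 1 := by
        intro P
        refine le_trans (ENNReal.tsum_le_tsum (g := fun P' => wt Λ' h' T' i0 P') fun P' => ?_)
          (wt_le Λ' h' h1' hΛ' T' i0)
        calc _ ≤ wt Λ' h' T' i0 P' * 1 := mul_le_mul_right (by split_ifs <;> simp) _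
          _ = _ := mul_one _
      refine le_trans (ENNReal.tsum_le_tsum (g := fun P => wt Λ h T i0 P) fun P => ?_)
        (wt_le Λ h h1 hΛ T i0)
      calc _ ≤ wt Λ h T i0 P * 1 := mul_le_mul_right (q1 P) _
        _ = _ := mul_one _
    have e := regroup' Λ h z a i0 F
    change ∑' A, wt Λ h a i0 A * F (HT h A) (Dp z A) ≤ _
    rw [e]
    set m := mL Λ h z a with hm
    have hm1 : ∀ x, m x ≤ 1 := fun x => le_trans (ENNReal.le_tsum x) (sum_mL Λ h z h1 hΛ a)
    -- the split of the law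
    have hsplit : ∀ i x, pL Λ h z a i x * F (a + i) x
        ≤ pL Λ h z a i x * (b x / m x) + pL Λ h z a i x * (g x / m x) * F (a + i) x := by
      intro i x
      by_cases hm0 : m x = 0
      · have : pL Λ h z a i x = 0 := le_antisymm (le_trans (pL_le_mL Λ h z a i x) hm0.le) zero_le
        rw [this, zero_mul]; exact zero_le
      · have hq : b x / m x + g x / m x = 1 := by
          rw [← ENNReal.add_div, add_comm, ← hgb]
          exact ENNReal.div_self hm0 (ne_top_of_le_ne_top ENNReal.one_ne_top (hm1 x))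
        calc pL Λ h z a i x * F (a + i) x
            = pL Λ h z a i x * (b x / m x + g x / m x) * F (a + i) x := by rw [hq, mul_one]
          _ = pL Λ h z a i x * (b x / m x) * F (a + i) x
              + pL Λ h z a i x * (g x / m x) * F (a + i) x := by rw [mul_add, add_mul]
          _ ≤ _ := by
              refine add_le_add_left ?_ _
              calc _ ≤ pL Λ h z a i x * (b x / m x) * 1 := mul_le_mul_right (hF1 _ _) _
                _ = _ := mul_one _
    refine le_trans (Finset.sum_le_sum fun i _ => ENNReal.tsum_le_tsum fun x => hsplit i x) ?_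
    simp_rw [ENNReal.tsum_add]
    rw [Finset.sum_add_distrib]
    refine add_le_add ?_ ?_
    · rw [← Summable.tsum_finsetSum (fun _ _ => ENNReal.summable)]
      refine ENNReal.tsum_le_tsum fun x => ?_
      rw [← Finset.sum_mul]
      calc _ ≤ m x * (b x / m x) := mul_le_mul_left (sum_pL_le Λ h z a i0 x) _
        _ ≤ b x := ENNReal.mul_div_le
    · have hone : ∀ i ∈ Finset.range (i0 + 1),
          ∑' x, pL Λ h z a i x * (g x / m x) * F (a + i) x ≤ ((i0 : ℝ≥0∞) + 1) ^ 2 * R := by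
        intro i hii
        have hi' := Finset.mem_range.1 hii
        -- the finite set of local displacements
        have hsum : ∀ j, ∑' x, pL Λ h z T j x ≤ 1 := fun j =>
          le_trans (ENNReal.tsum_le_tsum fun x => pL_le_mL Λ h z T j x) (sum_mL Λ h z h1 hΛ T)
        set E : ℕ → Finset G := fun j => (AsmA789.card_le (fun x => pL Λ h z T j x) (hsum j)
          hθ).1.toFinset with hE
        have hEm : ∀ j x, x ∈ E j ↔ θ ≤ pL Λ h z T j x := by
          intro j x; simp [hE]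
        have hEc : ∀ j, ((E j).card : ℝ≥0∞) * θ ≤ 1 := by
          intro j
          have := (AsmA789.card_le (fun x => pL Λ h z T j x) (hsum j) hθ).2
          rwa [Set.ncard_eq_toFinset_card _ (AsmA789.card_le (fun x => pL Λ h z T j x) (hsum j)
            hθ).1] at this
        set I : ℕ → ℕ → G → ℝ≥0∞ := fun j j' x => ∑' P, ∑' P', (if HT h P = T + j ∧
          Dp z P ∈ E j ∧ HT h' P' = T' + j' ∧
          Ctc (TT s z h P 0 (a + i)) (TT s' z' h' P' x (HT h' A')) lo hi
          then LW Λ P * LW Λ' P' else 0) with hI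
        have hFI : ∀ x, F (a + i) x ≤ ∑ j ∈ Finset.range (i0 + 1), ∑ j' ∈ Finset.range (i0 + 1),
            I j j' (c + Dp z' A' - x) := by
          intro x
          simp only [hI]
          simp_rw [← Summable.tsum_finsetSum (fun _ _ => ENNReal.summable)]
          rw [hF]
          refine ENNReal.tsum_le_tsum fun P => ?_
          rw [← ENNReal.tsum_mul_left]
          refine ENNReal.tsum_le_tsum fun P' => ?_
          by_cases hP : fp h T P ∧ HT h P ≤ T + i0
          swap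
          · rw [wt, if_neg hP, zero_mul]; exact zero_le
          by_cases hP' : fp h' T' P' ∧ HT h' P' ≤ T' + i0
          swap
          · have hz : wt Λ' h' T' i0 P' = 0 := if_neg hP'
            rw [hz, zero_mul, mul_zero]; exact zero_le
          by_cases hL : Loc Λ h z T θ P ∧
            Ctc (TT s z h P x (a + i)) (TT s' z' h' P' (c + Dp z' A') (HT h' A')) lo hi
          swap
          · rw [if_neg hL, mul_zero, mul_zero]; exact zero_le
          have hb := le_HT_of_fp h hP.1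
          have hb' := le_HT_of_fp h' hP'.1
          rw [if_pos hL, mul_one, wt, if_pos hP, wt, if_pos hP']
          have hcond : HT h P = T + (HT h P - T) ∧ Dp z P ∈ E (HT h P - T) ∧
              HT h' P' = T' + (HT h' P' - T') ∧
              Ctc (TT s z h P 0 (a + i)) (TT s' z' h' P' (c + Dp z' A' - x) (HT h' A')) lo hi := by
            refine ⟨by omega, (hEm _ _).2 hL.1, by omega, ?_⟩
            rw [← Ctc_shift s z h s' z' h' P P' 0 (c + Dp z' A' - x) x, zero_add, sub_add_cancel]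
            exact hL.2
          refine le_trans ?_ (Finset.single_le_sum (f := fun j => ∑ j' ∈ Finset.range (i0 + 1),
            (if HT h P = T + j ∧ Dp z P ∈ E j ∧ HT h' P' = T' + j' ∧
            Ctc (TT s z h P 0 (a + i)) (TT s' z' h' P' (c + Dp z' A' - x) (HT h' A')) lo hi
            then LW Λ P * LW Λ' P' else 0)) (fun _ _ => zero_le)
            (Finset.mem_range.2 (show HT h P - T < i0 + 1 by omega)))
          refine le_trans ?_ (Finset.single_le_sum (f := fun j' =>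
            (if HT h P = T + (HT h P - T) ∧ Dp z P ∈ E (HT h P - T) ∧ HT h' P' = T' + j' ∧
            Ctc (TT s z h P 0 (a + i)) (TT s' z' h' P' (c + Dp z' A' - x) (HT h' A')) lo hi
            then LW Λ P * LW Λ' P' else 0)) (fun _ _ => zero_le)
            (Finset.mem_range.2 (show HT h' P' - T' < i0 + 1 by omega)))
          rw [if_pos hcond]
        set μ : G → ℝ≥0∞ := fun x => pL Λ h z a i x * (g x / m x) with hμ
        have hgm : ∀ x, g x / m x ≤ 1 := by
          intro x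
          have hle : g x ≤ m x := by
            rw [show m x = g x + b x from hgb x]; exact le_self_add
          exact ENNReal.div_le_of_le_mul (by rw [one_mul]; exact hle)
        have hμ1 : ∑' x, μ x ≤ 1 := by
          refine le_trans (ENNReal.tsum_le_tsum fun x => ?_) (sum_mL Λ h z h1 hΛ a)
          calc μ x ≤ pL Λ h z a i x * 1 := mul_le_mul_right (hgm x) _
            _ ≤ _ := by rw [mul_one]; exact pL_le_mL Λ h z a i x
        have hμG : ∀ x, μ x ≤ G0 := by
          intro x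
          calc μ x ≤ m x * (g x / m x) := mul_le_mul_left (pL_le_mL Λ h z a i x) _
            _ ≤ g x := ENNReal.mul_div_le
            _ ≤ G0 := hg x
        set C := c + Dp z' A' with hC
        have hIR : ∀ j ∈ Finset.range (i0 + 1), ∀ j' ∈ Finset.range (i0 + 1),
            ∑' x, μ x * I j j' (C - x) ≤ R := by
          intro j hj j' hj'
          have hj2 := Finset.mem_range.1 hj
          have hj2' := Finset.mem_range.1 hj'
          have := hR (a + i) (HT h' A') (T + j) (T' + j') (by omega) (by omega) ha' ha''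
            (by omega) (by omega) (by omega) (by omega) (E j) (hEc j) (fun x => μ (C - x))
            (by rw [tsum_shift' μ C]; exact hμ1) (fun x => hμG _)
          refine le_trans (le_of_eq ?_) this
          have e2 := tsum_shift' (fun x => μ (C - x) * I j j' x) C
          simp only [sub_sub_cancel] at e2
          rw [e2]
        calc ∑' x, μ x * F (a + i) x
            ≤ ∑' x, μ x * ∑ j ∈ Finset.range (i0 + 1), ∑ j' ∈ Finset.range (i0 + 1),
              I j j' (C - x) := ENNReal.tsum_le_tsum fun x => mul_le_mul_right (hFI x) _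
          _ = ∑ j ∈ Finset.range (i0 + 1), ∑ j' ∈ Finset.range (i0 + 1),
              ∑' x, μ x * I j j' (C - x) := by
                simp_rw [Finset.mul_sum]
                rw [Summable.tsum_finsetSum (fun _ _ => ENNReal.summable)]
                refine Finset.sum_congr rfl fun j _ => ?_
                rw [Summable.tsum_finsetSum (fun _ _ => ENNReal.summable)]
          _ ≤ ∑ j ∈ Finset.range (i0 + 1), ∑ j' ∈ Finset.range (i0 + 1), R :=
              Finset.sum_le_sum fun j hj => Finset.sum_le_sum fun j' hj' => hIR j hj j' hj'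
          _ = ((i0 : ℝ≥0∞) + 1) ^ 2 * R := by
              simp only [Finset.sum_const, Finset.card_range, nsmul_eq_mul]
              push_cast
              ring
      calc _ ≤ ∑ i ∈ Finset.range (i0 + 1), ((i0 : ℝ≥0∞) + 1) ^ 2 * R := Finset.sum_le_sum hone
        _ = _ := by
          simp only [Finset.sum_const, Finset.card_range, nsmul_eq_mul]
          push_cast
          ring
  calc _ ≤ ∑' A', wt Λ' h' b' i0 A' * (∑' x, b x + (i0 + 1) ^ 3 * R) := by
        refine ENNReal.tsum_le_tsum fun A' => ?_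
        by_cases hA' : fp h' b' A' ∧ HT h' A' ≤ b' + i0
        · exact mul_le_mul_right (one A' (le_HT_of_fp h' hA'.1) hA'.2) _
        · rw [wt, if_neg hA', zero_mul, zero_mul]
    _ ≤ 1 * (∑' x, b x + (i0 + 1) ^ 3 * R) := by
        rw [ENNReal.tsum_mul_right]
        exact mul_le_mul_left (wt_le Λ' h' h1' hΛ' b' i0) _
    _ = _ := one_mul _

end loc

section reorder

variable {α β γ δ : Type*}

lemma swap (a : α → ℝ≥0∞) (b : β → ℝ≥0∞) (f : α → β → ℝ≥0∞) :
    ∑' x, a x * ∑' y, b y * f x y = ∑' y, b y * ∑' x, a x * f x y := by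
  simp_rw [← ENNReal.tsum_mul_left]
  rw [ENNReal.tsum_comm]
  refine tsum_congr fun y => tsum_congr fun x => ?_
  rw [mul_left_comm]

lemma addc (a : α → ℝ≥0∞) (p : β → ℝ≥0∞) (ha : ∑' x, a x ≤ 1) (hp : ∑' x, p x ≤ 1) (c : ℝ≥0∞)
    (K : α → β → ℝ≥0∞) :
    ∑' x, a x * ∑' y, p y * (c + K x y) ≤ c + ∑' x, a x * ∑' y, p y * K x y := by
  have e : ∀ x, ∑' y, p y * (c + K x y) ≤ c + ∑' y, p y * K x y := by
    intro x
    simp_rw [mul_add]
    rw [ENNReal.tsum_add, ENNReal.tsum_mul_right]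
    refine add_le_add_left ?_ _
    calc _ ≤ 1 * c := mul_le_mul_left hp _
      _ = c := one_mul _
  refine le_trans (ENNReal.tsum_le_tsum fun x => mul_le_mul_right (e x) _) ?_
  simp_rw [mul_add]
  rw [ENNReal.tsum_add, ENNReal.tsum_mul_right]
  refine add_le_add_left ?_ _
  calc _ ≤ 1 * c := mul_le_mul_left ha _
    _ = c := one_mul _

lemma q4add (a : α → ℝ≥0∞) (p : β → ℝ≥0∞) (a' : γ → ℝ≥0∞) (p' : δ → ℝ≥0∞)
    (f g : α → β → γ → δ → ℝ≥0∞) :
    ∑' A, a A * ∑' P, p P * ∑' A', a' A' * ∑' P', p' P' * (f A P A' P' + g A P A' P')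
      = ∑' A, a A * ∑' P, p P * ∑' A', a' A' * ∑' P', p' P' * f A P A' P'
        + ∑' A, a A * ∑' P, p P * ∑' A', a' A' * ∑' P', p' P' * g A P A' P' := by
  simp_rw [mul_add, ENNReal.tsum_add, mul_add, ENNReal.tsum_add, mul_add, ENNReal.tsum_add,
    mul_add, ENNReal.tsum_add]

lemma q4X (a : α → ℝ≥0∞) (p : β → ℝ≥0∞) (a' : γ → ℝ≥0∞) (p' : δ → ℝ≥0∞)
    (f : α → β → γ → δ → ℝ≥0∞) :
    ∑' A, a A * ∑' P, p P * ∑' A', a' A' * ∑' P', p' P' * f A P A' P'
      = ∑' A', a' A' * ∑' A, a A * ∑' P, p P * ∑' P', p' P' * f A P A' P' := by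
  rw [swap a' a (fun A' A => ∑' P, p P * ∑' P', p' P' * f A P A' P')]
  refine tsum_congr fun A => ?_
  congr 1
  exact swap p a' (fun P A' => ∑' P', p' P' * f A P A' P')

lemma q4Y (a : α → ℝ≥0∞) (p : β → ℝ≥0∞) (a' : γ → ℝ≥0∞) (p' : δ → ℝ≥0∞)
    (f : α → β → γ → δ → ℝ≥0∞) :
    ∑' A, a A * ∑' P, p P * ∑' A', a' A' * ∑' P', p' P' * f A P A' P'
      = ∑' A, a A * ∑' A', a' A' * ∑' P', p' P' * ∑' P, p P * f A P A' P' := by
  refine tsum_congr fun A => ?_
  congr 1
  rw [swap p a' (fun P A' => ∑' P', p' P' * f A P A' P')]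
  refine tsum_congr fun A' => ?_
  congr 1
  exact swap p p' (fun P P' => f A P A' P')

lemma q4nn (a : α → ℝ≥0∞) (p : β → ℝ≥0∞) (a' : γ → ℝ≥0∞) (p' : δ → ℝ≥0∞) (ha : ∑' x, a x ≤ 1)
    (ha' : ∑' x, a' x ≤ 1) (c : β → ℝ≥0∞) (c' : δ → ℝ≥0∞) (u u' : ℝ≥0∞)
    (hu : ∑' P, p P * c P ≤ u) (hu' : ∑' P, p' P * c' P ≤ u') :
    ∑' A, a A * ∑' P, p P * ∑' A', a' A' * ∑' P', p' P' * (c P * c' P') ≤ u * u' := by
  have e1 : ∀ P, ∑' A', a' A' * ∑' P', p' P' * (c P * c' P') ≤ c P * u' := by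
    intro P
    rw [ENNReal.tsum_mul_right]
    have e0 : ∑' P' : δ, p' P' * (c P * c' P') = c P * ∑' P' : δ, p' P' * c' P' := by
      rw [← ENNReal.tsum_mul_left]
      exact tsum_congr fun P' => by rw [mul_left_comm]
    rw [e0]
    calc (∑' A', a' A') * (c P * ∑' P' : δ, p' P' * c' P') ≤ 1 * (c P * u') :=
        mul_le_mul' ha' (mul_le_mul_right hu' _)
      _ = _ := one_mul _
  have e2 : ∑' P, p P * ∑' A', a' A' * ∑' P', p' P' * (c P * c' P') ≤ u * u' := by
    refine le_trans (ENNReal.tsum_le_tsum fun P => mul_le_mul_right (e1 P) _) ?_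
    simp_rw [← mul_assoc]
    rw [ENNReal.tsum_mul_right]
    exact mul_le_mul_left hu _
  rw [ENNReal.tsum_mul_right]
  calc _ ≤ 1 * (u * u') := mul_le_mul' ha e2
    _ = _ := one_mul _

end reorder

section win

variable (Λ : B → ℝ≥0∞) (h : B → ℕ) (z : B → G) (s : B → Set (G × ℕ))
variable (Λ' : B' → ℝ≥0∞) (h' : B' → ℕ) (z' : B' → G) (s' : B' → Set (G × ℕ))

/-- window event for the two whole lists -/
def Win (T1 T2 : Set (G × ℕ)) (a b lo hi : ℕ) : Prop :=
  (∃ z k, lo ≤ k ∧ k ≤ hi ∧ (z, k) ∈ T1 ∧ (z, k) ∈ T2) ∧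
    ∀ z k, a < k → k ≤ b → (z, k) ∈ T1 → (z, k) ∈ T2 → lo ≤ k ∧ k ≤ hi

open Classical in
theorem win (a T b' T' i0 n lo hi c : ℕ) (w : G)
    (h1 : ∀ b, 1 ≤ h b) (hΛ : ∑' b, Λ b ≤ 1) (hU : ∀ n, U Λ h n ≤ 1)
    (hs : ∀ b, ∀ q ∈ s b, 1 ≤ q.2 ∧ q.2 ≤ h b)
    (h1' : ∀ b, 1 ≤ h' b) (hΛ' : ∑' b, Λ' b ≤ 1) (hU' : ∀ n, U Λ' h' n ≤ 1)
    (hs' : ∀ b, ∀ q ∈ s' b, 1 ≤ q.2 ∧ q.2 ≤ h' b)
    (hn : a + i0 + T ≤ n) (hn' : b' + i0 + T' ≤ n) (hlo : a + i0 < lo) (hlo' : b' + i0 < lo)
    (hhi : hi ≤ a + T) (hhi' : hi ≤ b' + T') (hc : a + T + 2 * i0 ≤ c)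
    (θ θ' u u' RX RY : ℝ≥0∞)
    (hu : ∑' P, wt Λ h T i0 P * (if Loc Λ h z T θ P then 0 else 1) ≤ u)
    (hu' : ∑' P, wt Λ' h' T' i0 P * (if Loc Λ' h' z' T' θ' P then 0 else 1) ≤ u')
    (hX : ∑' A', wt Λ' h' b' i0 A' * ∑' A, wt Λ h a i0 A * ∑' P, wt Λ h T i0 P *
      ∑' P', wt Λ' h' T' i0 P' * (if Loc Λ h z T θ P ∧
        Ctc (TT s z h P (Dp z A) (HT h A)) (TT s' z' h' P' (w + Dp z' A') (HT h' A')) lo hi
        then 1 else 0) ≤ RX)
    (hY : ∑' A, wt Λ h a i0 A * ∑' A', wt Λ' h' b' i0 A' * ∑' P', wt Λ' h' T' i0 P' *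
      ∑' P, wt Λ h T i0 P * (if Loc Λ' h' z' T' θ' P' ∧
        Ctc (TT s' z' h' P' (Dp z' A') (HT h' A')) (TT s z h P (-w + Dp z A) (HT h A)) lo hi
        then 1 else 0) ≤ RY) :
    ∑' L, ∑' L', (if HT h L = n ∧ HT h' L' = n ∧ Win (TT s z h L 0 0) (TT s' z' h' L' w 0)
      a c lo hi then LW Λ L * LW Λ' L' else 0)
      ≤ ov Λ h a i0 + ov Λ h T i0 + (ov Λ' h' b' i0 + ov Λ' h' T' i0) + u * u' + RX + RY := by
  -- step 1: the X list
  set Φ : List B → ℝ≥0∞ := fun L => ∑' L', (if HT h' L' = n then LW Λ' L' *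
    (if Win (TT s z h L 0 0) (TT s' z' h' L' w 0) a c lo hi then 1 else 0) else 0)
    with hΦ
  set Ψ : List B → List B → ℝ≥0∞ := fun A P => ∑' L', (if HT h' L' = n then LW Λ' L' *
    (if Ctc (TT s z h P (Dp z A) (HT h A)) (TT s' z' h' L' w 0) lo hi then 1 else 0) else 0)
    with hΨ
  have e0 : ∑' L, ∑' L', (if HT h L = n ∧ HT h' L' = n ∧ Win (TT s z h L 0 0)
      (TT s' z' h' L' w 0) a c lo hi then LW Λ L * LW Λ' L' else 0)
      = ∑' L, (if HT h L = n then LW Λ L * Φ L else 0) := by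
    refine tsum_congr fun L => ?_
    by_cases hL : HT h L = n
    · rw [if_pos hL, hΦ, ← ENNReal.tsum_mul_left]
      refine tsum_congr fun L' => ?_
      by_cases hL' : HT h' L' = n
      · by_cases hW : Win (TT s z h L 0 0) (TT s' z' h' L' w 0) a c lo hi
        · rw [if_pos ⟨hL, hL', hW⟩, if_pos hL', if_pos hW, mul_one]
        · rw [if_neg (fun h => hW h.2.2), if_pos hL', if_neg hW, mul_zero, mul_zero]
      · rw [if_neg (fun h => hL' h.2.1), if_neg hL', mul_zero]
    · rw [if_neg hL]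
      simp [hL]
  have hΦ1 : ∀ L, Φ L ≤ 1 := by
    intro L
    refine le_trans (ENNReal.tsum_le_tsum fun L' => ?_) (hU' n)
    by_cases hL' : HT h' L' = n
    · rw [if_pos hL', if_pos hL']
      calc _ ≤ LW Λ' L' * 1 := mul_le_mul_right (by split_ifs <;> simp) _
        _ = _ := mul_one _
    · rw [if_neg hL']; exact zero_le
  have hWC : ∀ A P R L', fp h a A → HT h A ≤ a + i0 → fp h T P → HT h P ≤ T + i0 →
      Win (TT s z h (A ++ (P ++ R)) 0 0) (TT s' z' h' L' w 0) a c lo hi →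
      Ctc (TT s z h P (Dp z A) (HT h A)) (TT s' z' h' L' w 0) lo hi := by
    intro A P R L' hA hA2 hP hP2 hW
    have hbA := le_HT_of_fp h hA
    have hbP := le_HT_of_fp h hP
    rw [TT_append, TT_append, zero_add, zero_add] at hW
    refine ⟨?_, ?_⟩
    · obtain ⟨y, k, hk1, hk2, hk3, hk4⟩ := hW.1
      refine ⟨y, k, ?_, hk4⟩
      rcases hk3 with hk3 | hk3 | hk3
      · have := TT_dep s z h hs A _ _ y k hk3
        omega
      · exact hk3
      · have := TT_dep s z h hs R _ _ y k hk3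
        omega
    · intro y k hk1 hk2
      have := TT_dep s z h hs P _ _ y k hk1
      exact hW.2 y k (by omega) (by omega) (Or.inr (Or.inl hk1)) hk2
  have s1 := marg Λ h h1 hΛ hU a T i0 n hn Φ Ψ hΦ1 (by
    intro A P R hA hA2 hP hP2
    refine ENNReal.tsum_le_tsum fun L' => ?_
    by_cases hL' : HT h' L' = n
    · rw [if_pos hL', if_pos hL']
      refine mul_le_mul_right ?_ _
      by_cases hW : Win (TT s z h (A ++ (P ++ R)) 0 0) (TT s' z' h' L' w 0) a c
        lo hi
      · rw [if_pos hW, if_pos (hWC A P R L' hA hA2 hP hP2 hW)]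
      · rw [if_neg hW]; exact zero_le
    · rw [if_neg hL', if_neg hL'])
  -- step 2: the Y list
  set J : List B → List B → List B' → List B' → ℝ≥0∞ := fun A P A' P' =>
    (if Ctc (TT s z h P (Dp z A) (HT h A)) (TT s' z' h' P' (w + Dp z' A') (HT h' A')) lo hi
      then 1 else 0) with hJ
  have s2 : ∀ A P, Ψ A P ≤ ov Λ' h' b' i0 + ov Λ' h' T' i0
      + ∑' A', wt Λ' h' b' i0 A' * ∑' P', wt Λ' h' T' i0 P' * J A P A' P' := by
    intro A P
    refine marg Λ' h' h1' hΛ' hU' b' T' i0 n hn' (fun L' =>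
      (if Ctc (TT s z h P (Dp z A) (HT h A)) (TT s' z' h' L' w 0) lo hi then 1 else 0))
      (fun A' P' => J A P A' P') (fun L => by split_ifs <;> simp) ?_
    intro A' P' R' hA hA2 hP hP2
    by_cases hC : Ctc (TT s z h P (Dp z A) (HT h A)) (TT s' z' h' (A' ++ (P' ++ R')) w 0) lo hi
    swap
    · rw [if_neg hC]; exact zero_le
    rw [if_pos hC]
    simp only [hJ]
    rw [if_pos]
    have hbA := le_HT_of_fp h' hA
    have hbP := le_HT_of_fp h' hP
    rw [TT_append, TT_append, zero_add] at hC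
    refine ⟨?_, ?_⟩
    · obtain ⟨y, k, hk3, hk4⟩ := hC.1
      have hk := hC.2 y k hk3 hk4
      refine ⟨y, k, hk3, ?_⟩
      rcases hk4 with hk4 | hk4 | hk4
      · have := TT_dep s' z' h' hs' A' _ _ y k hk4
        omega
      · exact hk4
      · have := TT_dep s' z' h' hs' R' _ _ y k hk4
        omega
    · intro y k hk1 hk2
      exact hC.2 y k hk1 (Or.inr (Or.inl hk2))
  -- step 3: the main sum
  have s3 : ∑' A, wt Λ h a i0 A * ∑' P, wt Λ h T i0 P *
      ∑' A', wt Λ' h' b' i0 A' * ∑' P', wt Λ' h' T' i0 P' * J A P A' P' ≤ u * u' + RX + RY := by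
    have pt : ∀ A P A' P', J A P A' P'
        ≤ (if Loc Λ h z T θ P then 0 else 1) * (if Loc Λ' h' z' T' θ' P' then 0 else 1)
        + (if Loc Λ h z T θ P ∧ Ctc (TT s z h P (Dp z A) (HT h A))
          (TT s' z' h' P' (w + Dp z' A') (HT h' A')) lo hi then 1 else 0)
        + (if Loc Λ' h' z' T' θ' P' ∧ Ctc (TT s' z' h' P' (Dp z' A') (HT h' A'))
          (TT s z h P (-w + Dp z A) (HT h A)) lo hi then 1 else 0) := by
      intro A P A' P'
      simp only [hJ]
      by_cases hC : Ctc (TT s z h P (Dp z A) (HT h A))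
        (TT s' z' h' P' (w + Dp z' A') (HT h' A')) lo hi
      swap
      · rw [if_neg hC]; exact zero_le
      have hC' : Ctc (TT s' z' h' P' (Dp z' A') (HT h' A'))
          (TT s z h P (-w + Dp z A) (HT h A)) lo hi := by
        rw [← Ctc_shift s' z' h' s z h P' P (Dp z' A') (-w + Dp z A) w, Ctc_symm]
        have q1 : -w + Dp z A + w = Dp z A := by abel
        have q2 : Dp z' A' + w = w + Dp z' A' := by abel
        rw [q1, q2]
        exact hC
      rw [if_pos hC]
      by_cases l1 : Loc Λ h z T θ P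
      · rw [if_pos (⟨l1, hC⟩ : _ ∧ _)]
        refine le_trans ?_ le_self_add
        exact le_add_self
      · by_cases l2 : Loc Λ' h' z' T' θ' P'
        · rw [if_pos (⟨l2, hC'⟩ : _ ∧ _)]
          exact le_add_self
        · rw [if_neg l1, if_neg l2, one_mul]
          refine le_trans ?_ le_self_add
          exact le_self_add
    refine le_trans (ENNReal.tsum_le_tsum fun A => mul_le_mul_right (ENNReal.tsum_le_tsum fun P =>
      mul_le_mul_right (ENNReal.tsum_le_tsum fun A' => mul_le_mul_right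
      (ENNReal.tsum_le_tsum fun P' => mul_le_mul_right (pt A P A' P') _) _) _) _) ?_
    rw [q4add, q4add]
    refine add_le_add (add_le_add ?_ ?_) ?_
    · exact q4nn _ _ _ _ (wt_le Λ h h1 hΛ a i0) (wt_le Λ' h' h1' hΛ' b' i0) _ _ u u' hu hu'
    · rw [q4X]; exact hX
    · rw [q4Y]; exact hY
  rw [e0]
  refine le_trans s1 ?_
  have s4 : ∑' A, wt Λ h a i0 A * ∑' P, wt Λ h T i0 P * Ψ A P
      ≤ (ov Λ' h' b' i0 + ov Λ' h' T' i0) + (u * u' + RX + RY) := by
    refine le_trans (ENNReal.tsum_le_tsum fun A => mul_le_mul_right (ENNReal.tsum_le_tsum fun P =>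
      mul_le_mul_right (s2 A P) _) _) ?_
    refine le_trans (addc _ _ (wt_le Λ h h1 hΛ a i0) (wt_le Λ h h1 hΛ T i0) _ _) ?_
    exact add_le_add_right s3 _
  calc _ ≤ ov Λ h a i0 + ov Λ h T i0 + ((ov Λ' h' b' i0 + ov Λ' h' T' i0) + (u * u' + RX + RY)) :=
        add_le_add_right s4 _
    _ = _ := by ring

end win

end Crest.Agent.R154.Asm382
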