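import Crest.Agent.R154.AsmA_789
import Crest.Agent.R154.AsmA_508
import Crest.Agent.R154.FP_178
import Crest.Agent.R154.Bind801_12

/-! Row 154, ROAD 801 (helper39): list assembly, part 1: decomposition in pieces, traces. -/

set_option autoImplicit false

namespace Crest.Agent.R154.Asm39

open scoped ENNReal
open Crest.Agent.R154.B5A Crest.Agent.R154.FP178
open Crest.Agent.R154.Bind12 (TT Dp)

variable {B : Type*} (Λ : B → ℝ≥0∞) (ht : B → ℕ)

open Classical in
/-- weight of a piece -/
noncomputable def Lf (T : ℕ) (A : List B) : ℝ≥0∞ := if fp ht T A then LW Λ A else 0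

/-- overshoot bound -/
noncomputable def ovr (i0 : ℕ) : ℝ≥0∞ := ∑' k, tail Λ ht (i0 + k)

open Classical in
theorem dec1 (h1 : ∀ b, 1 ≤ ht b) (hU : ∀ n, U Λ ht n ≤ 1) (T i0 n : ℕ) (hn : T + i0 ≤ n)
    (F : List B → ℝ≥0∞) (hF : ∀ L, F L ≤ 1) (G : List B → ℝ≥0∞)
    (hG : ∀ A, fp ht T A → HT ht A ≤ T + i0 →
      ∑' R, (if HT ht R = n - HT ht A then LW Λ R * F (A ++ R) else 0) ≤ G A) :
    ∑' L, (if HT ht L = n then LW Λ L * F L else 0)
      ≤ ∑' A, Lf Λ ht T A * G A + ovr Λ ht i0 := by
  have e1 : ∀ L : List B, (if HT ht L = n then LW Λ L * F L else 0)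
      = (if T ≤ HT ht L then LW Λ L * (if HT ht L = n then F L else 0) else 0) := by
    intro L
    by_cases h : HT ht L = n
    · rw [if_pos h, if_pos (by omega), if_pos h]
    · rw [if_neg h, if_neg h]; simp
  rw [tsum_congr e1, split Λ ht h1 T (fun L => if HT ht L = n then F L else 0)]
  have hov := overshoot Λ ht h1 hU i0 T
  calc ∑' A, (if fp ht T A then LW Λ A * ∑' R, LW Λ R *
        (if HT ht (A ++ R) = n then F (A ++ R) else 0) else 0)
      ≤ ∑' A, (Lf Λ ht T A * G A + (if fp ht T A ∧ T + i0 < HT ht A then LW Λ A else 0)) := by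
        refine ENNReal.tsum_le_tsum fun A => ?_
        by_cases hA : fp ht T A
        · rw [if_pos hA]
          by_cases hh : HT ht A ≤ T + i0
          · refine le_add_right ?_
            rw [Lf, if_pos hA]
            refine mul_le_mul_right ((le_of_eq ?_).trans (hG A hA hh)) _
            refine tsum_congr fun R => ?_
            rw [HT_append]
            by_cases h : HT ht R = n - HT ht A
            · rw [if_pos (show HT ht A + HT ht R = n by omega), if_pos h]
            · rw [if_neg (show ¬ (HT ht A + HT ht R = n) by omega), if_neg h, mul_zero]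
          · refine le_add_left ?_
            rw [if_pos ⟨hA, by omega⟩]
            calc LW Λ A * ∑' R, LW Λ R * (if HT ht (A ++ R) = n then F (A ++ R) else 0)
                ≤ LW Λ A * ∑' R, (if HT ht R = n - HT ht A then LW Λ R else 0) := by
                  refine mul_le_mul_right (ENNReal.tsum_le_tsum fun R => ?_) _
                  rw [HT_append]
                  by_cases h : HT ht A + HT ht R = n
                  · rw [if_pos h, if_pos (show HT ht R = n - HT ht A by omega)]
                    calc _ ≤ LW Λ R * 1 := mul_le_mul_right (hF _) _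
                      _ = _ := mul_one _
                  · rw [if_neg h, mul_zero]; exact zero_le
              _ ≤ LW Λ A * 1 := mul_le_mul_right (hU _) _
              _ = _ := mul_one _
        · rw [if_neg hA]; exact zero_le
    _ ≤ _ := by
        rw [ENNReal.tsum_add]
        exact add_le_add le_rfl hov

open Classical in
lemma Lf_sum (h1 : ∀ b, 1 ≤ ht b) (hΛ : ∑' b, Λ b ≤ 1) (T : ℕ) : ∑' A, Lf Λ ht T A ≤ 1 :=
  sum_FP Λ ht h1 hΛ T

theorem dec (h1 : ∀ b, 1 ≤ ht b) (hΛ : ∑' b, Λ b ≤ 1) (hU : ∀ n, U Λ ht n ≤ 1) (T i0 : ℕ)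
    (j : ℕ) : ∀ (n : ℕ), (j + 1) * (T + i0) ≤ n → ∀ (F : List B → ℝ≥0∞)
    (Φ : List (List B) → List B → ℝ≥0∞), (∀ L, F L ≤ 1) →
    (∀ As A R, As.length = j → (∀ P ∈ As, fp ht T P ∧ HT ht P ≤ T + i0) → fp ht T A →
      HT ht A ≤ T + i0 → F (As.flatten ++ (A ++ R)) ≤ Φ As A) →
    (∑' L, open Classical in (if HT ht L = n then LW Λ L * F L else 0))
      ≤ SL (Lf Λ ht T) j (fun As => ∑' A, Lf Λ ht T A * Φ As A) + (j + 1) * ovr Λ ht i0 := by
  classical
  induction j with
  | zero =>
    intro n hn F Φ hF hΦ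
    refine (dec1 Λ ht h1 hU T i0 n (by omega) F hF (fun A => Φ [] A) ?_).trans ?_
    · intro A hA hh
      calc ∑' R, (if HT ht R = n - HT ht A then LW Λ R * F (A ++ R) else 0)
          ≤ ∑' R, (if HT ht R = n - HT ht A then LW Λ R else 0) * Φ [] A := by
            refine ENNReal.tsum_le_tsum fun R => ?_
            by_cases h : HT ht R = n - HT ht A
            · rw [if_pos h, if_pos h]
              refine mul_le_mul_right ?_ _
              simpa using hΦ [] A R rfl (by simp) hA hh
            · rw [if_neg h, if_neg h, zero_mul]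
        _ = U Λ ht (n - HT ht A) * Φ [] A := by rw [ENNReal.tsum_mul_right]; rfl
        _ ≤ 1 * Φ [] A := mul_le_mul_left (hU _) _
        _ = _ := one_mul _
    · rw [SL_zero]
      simp
  | succ j ih =>
    intro n hn F Φ hF hΦ
    have hn' : T + i0 ≤ n := by
      have : T + i0 ≤ (j + 1 + 1) * (T + i0) := Nat.le_mul_of_pos_left _ (by omega)
      omega
    refine (dec1 Λ ht h1 hU T i0 n hn' F hF (fun A => SL (Lf Λ ht T) j
      (fun As => ∑' A', Lf Λ ht T A' * Φ (A :: As) A') + (j + 1) * ovr Λ ht i0) ?_).trans ?_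
    · intro A hA hh
      refine ih (n - HT ht A) ?_ (fun L => F (A ++ L)) (fun As A' => Φ (A :: As) A')
        (fun L => hF _) ?_
      · have : (j + 1 + 1) * (T + i0) = (j + 1) * (T + i0) + (T + i0) := by ring
        omega
      · intro As A' R hl hg hA' hh'
        have := hΦ (A :: As) A' R (by simp [hl]) (by
          intro P hP
          rcases List.mem_cons.1 hP with rfl | hP
          · exact ⟨hA, hh⟩
          · exact hg P hP) hA' hh'
        simpa [List.flatten_cons, List.append_assoc] using this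
    · rw [SL_succ]
      simp only [mul_add, ENNReal.tsum_add, ENNReal.tsum_mul_right]
      have h3 : (∑' A, Lf Λ ht T A) * ((j + 1) * ovr Λ ht i0) ≤ 1 * ((j + 1) * ovr Λ ht i0) :=
        mul_le_mul_left (Lf_sum Λ ht h1 hΛ T) _
      calc _ ≤ ∑' A, Lf Λ ht T A * SL (Lf Λ ht T) j (fun As => ∑' A', Lf Λ ht T A' * Φ (A :: As) A')
            + 1 * ((j + 1) * ovr Λ ht i0) + ovr Λ ht i0 := by
            refine add_le_add (add_le_add le_rfl ?_) le_rfl
            simpa only [mul_add, ENNReal.tsum_mul_right] using h3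
        _ = _ := by push_cast; ring

/-! ### traces -/

section traces

variable {G : Type*} [AddCommGroup G] (s : B → Set (G × ℕ)) (z : B → G)

lemma TT_append (L L' : List B) (x : G) (a : ℕ) :
    TT s z ht (L ++ L') x a = TT s z ht L x a ∪ TT s z ht L' (x + Dp z L) (a + HT ht L) := by
  induction L generalizing x a with
  | nil => simp [TT, Dp, HT]
  | cons b L ih =>
    simp only [List.cons_append, TT]
    rw [ih, Set.union_assoc]
    simp only [Dp, List.map_cons, List.sum_cons, HT_cons, add_assoc]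

lemma TT_depth (hs : ∀ b, ∀ q ∈ s b, 1 ≤ q.2 ∧ q.2 ≤ ht b) (L : List B) (x : G) (a : ℕ)
    (p : G × ℕ) (hp : p ∈ TT s z ht L x a) : a < p.2 ∧ p.2 ≤ a + HT ht L := by
  induction L generalizing x a with
  | nil => simp [TT] at hp
  | cons b L ih =>
    simp only [TT] at hp
    rw [HT_cons]
    rcases hp with ⟨q, hq, rfl⟩ | hp
    · have := hs b q hq
      simp only
      omega
    · have := ih _ _ hp
      omega

lemma TT_shift (L : List B) (x y : G) (a : ℕ) (w : G) (k : ℕ) :
    (w, k) ∈ TT s z ht L (x + y) a ↔ (w - y, k) ∈ TT s z ht L x a := by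
  induction L generalizing x a with
  | nil => simp [TT]
  | cons b L ih =>
    simp only [TT]
    rw [Set.mem_union, Set.mem_union, show x + y + z b = x + z b + y by abel, ih]
    refine or_congr ?_ Iff.rfl
    constructor
    · rintro ⟨q, hq, hp⟩
      rw [Prod.mk.injEq] at hp
      refine ⟨q, hq, ?_⟩
      rw [Prod.mk.injEq]
      exact ⟨by rw [hp.1]; abel, hp.2⟩
    · rintro ⟨q, hq, hp⟩
      rw [Prod.mk.injEq] at hp
      refine ⟨q, hq, ?_⟩
      rw [Prod.mk.injEq]
      refine ⟨?_, hp.2⟩
      rw [sub_eq_iff_eq_add.1 hp.1]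
      abel

lemma Dp_append (L L' : List B) : Dp z (L ++ L') = Dp z L + Dp z L' := by
  simp [Dp]

end traces

end Crest.Agent.R154.Asm39
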