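import Crest.Agent.R154.AsmA_789

/-! Row 154, ROAD 801, abstract assembly (helper457), part 1: one walker. First passage lists,
overshoot, smooth density. -/

set_option autoImplicit false

namespace Crest.Agent.R154.Asm457

open scoped ENNReal
open Crest.Agent.R154.B5A

variable {B : Type*} {G : Type*} [AddCommGroup G]

/-- first passage lists -/
def FP (h : B → ℕ) : List B → ℕ → Prop
  | [], l => l = 0
  | b :: L, l => l ≠ 0 ∧ FP h L (l - h b)

/-- displacement of a list -/
def Dp (z : B → G) (L : List B) : G := (L.map z).sum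

lemma Dp_nil (z : B → G) : Dp z [] = 0 := rfl
lemma Dp_cons (z : B → G) (b : B) (L : List B) : Dp z (b :: L) = z b + Dp z L := by simp [Dp]
lemma Dp_append (z : B → G) (L L' : List B) : Dp z (L ++ L') = Dp z L + Dp z L' := by
  simp [Dp]

variable (Λ : B → ℝ≥0∞) (h : B → ℕ) (z : B → G)

lemma FP_ge {L : List B} {l : ℕ} (hL : FP h L l) : l ≤ HT h L := by
  induction L generalizing l with
  | nil => rw [show l = 0 from hL]; exact Nat.zero_le _
  | cons b L ih =>
    have := ih hL.2
    rw [HT_cons]
    omega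

open Classical in
lemma fp_zero (F : List B → ℝ≥0∞) : ∑' L, (if FP h L 0 then F L else 0) = F [] := by
  rw [tsum_list]
  have : ∀ b (L : List B), ¬ FP h (b :: L) 0 := fun b L hh => hh.1 rfl
  simp [FP]

open Classical in
lemma fp_succ (F : List B → ℝ≥0∞) {l : ℕ} (hl : l ≠ 0) :
    ∑' L, (if FP h L l then F L else 0)
      = ∑' b, ∑' L, (if FP h L (l - h b) then F (b :: L) else 0) := by
  rw [tsum_list]
  simp [FP, hl]

open Classical in
lemma fp_mass (h1 : ∀ b, 1 ≤ h b) (hΛ : ∑' b, Λ b = 1) (l : ℕ) :
    ∑' L, (if FP h L l then LW Λ L else 0) = 1 := by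
  induction l using Nat.strong_induction_on with
  | _ l ih =>
    by_cases hl : l = 0
    · subst hl
      rw [fp_zero, LW_nil]
    · rw [fp_succ h _ hl, ← hΛ]
      refine tsum_congr fun b => ?_
      have := h1 b
      have e := ih (l - h b) (by omega)
      calc ∑' L, (if FP h L (l - h b) then LW Λ (b :: L) else 0)
          = Λ b * ∑' L, (if FP h L (l - h b) then LW Λ L else 0) := by
            rw [← ENNReal.tsum_mul_left]
            refine tsum_congr fun L => ?_
            rw [LW_cons]
            split_ifs <;> simp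
        _ = Λ b := by rw [e, mul_one]

/-- overshoot bound -/
noncomputable def ov (i0 : ℕ) : ℝ≥0∞ := ∑' j, tail Λ h (j + (i0 + 1))

open Classical in
lemma fp_far_aux (h1 : ∀ b, 1 ≤ h b) (hΛ : ∑' b, Λ b = 1) (i0 l : ℕ) :
    ∑' L, (if FP h L l then (if l + i0 < HT h L then LW Λ L else 0) else 0)
      ≤ ∑ j ∈ Finset.range l, tail Λ h (j + (i0 + 1)) := by
  induction l using Nat.strong_induction_on with
  | _ l ih =>
    by_cases hl : l = 0
    · subst hl
      rw [fp_zero]
      simp [HT_nil]
    · rw [fp_succ h _ hl]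
      obtain ⟨l', rfl⟩ := Nat.exists_eq_succ_of_ne_zero hl
      rw [Nat.succ_eq_add_one, Finset.sum_range_succ]
      have key : ∀ b, ∑' L, (if FP h L (l' + 1 - h b) then
          (if l' + 1 + i0 < HT h (b :: L) then LW Λ (b :: L) else 0) else 0)
          ≤ Λ b * (∑ j ∈ Finset.range l', tail Λ h (j + (i0 + 1)))
            + (if l' + (i0 + 1) < h b then Λ b else 0) := by
        intro b
        have hb := h1 b
        by_cases hc : h b < l' + 1
        · refine le_add_right ?_
          calc _ = Λ b * ∑' L, (if FP h L (l' + 1 - h b) then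
                (if (l' + 1 - h b) + i0 < HT h L then LW Λ L else 0) else 0) := by
                rw [← ENNReal.tsum_mul_left]
                refine tsum_congr fun L => ?_
                rw [LW_cons, HT_cons]
                by_cases h3 : FP h L (l' + 1 - h b)
                · by_cases h4 : (l' + 1 - h b) + i0 < HT h L
                  · rw [if_pos h3, if_pos h3, if_pos h4, if_pos (by omega)]
                  · rw [if_pos h3, if_pos h3, if_neg h4, if_neg (by omega), mul_zero]
                · rw [if_neg h3, if_neg h3, mul_zero]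
            _ ≤ Λ b * ∑ j ∈ Finset.range (l' + 1 - h b), tail Λ h (j + (i0 + 1)) :=
                mul_le_mul_right (ih _ (by omega)) _
            _ ≤ _ := by
                refine mul_le_mul_right ?_ _
                exact Finset.sum_le_sum_of_subset (Finset.range_mono (by omega))
        · have e : l' + 1 - h b = 0 := by omega
          rw [e, fp_zero, HT_cons, HT_nil, LW_cons, LW_nil, mul_one]
          refine le_add_left ?_
          by_cases h4 : l' + 1 + i0 < h b + 0
          · rw [if_pos h4, if_pos (by omega)]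
          · rw [if_neg h4]; exact zero_le
      calc _ ≤ ∑' b, (Λ b * (∑ j ∈ Finset.range l', tail Λ h (j + (i0 + 1)))
            + (if l' + (i0 + 1) < h b then Λ b else 0)) := ENNReal.tsum_le_tsum key
        _ = _ := by
          rw [ENNReal.tsum_add, ENNReal.tsum_mul_right, hΛ, one_mul]
          rfl

open Classical in
lemma fp_far (h1 : ∀ b, 1 ≤ h b) (hΛ : ∑' b, Λ b = 1) (i0 l : ℕ) :
    ∑' L, (if FP h L l ∧ l + i0 < HT h L then LW Λ L else 0) ≤ ov Λ h i0 := by
  refine le_trans (le_of_eq ?_) ((fp_far_aux Λ h h1 hΛ i0 l).trans (ENNReal.sum_le_tsum _))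
  refine tsum_congr fun L => ?_
  by_cases h3 : FP h L l <;> simp [h3]

lemma ov_tendsto (hm : ∑' b, Λ b * (h b : ℝ≥0∞) ≠ ⊤) (hΛ : ∑' b, Λ b = 1) :
    Filter.Tendsto (ov Λ h) Filter.atTop (nhds 0) := by
  have e : ∑' k, tail Λ h k ≠ ⊤ := by rwa [← sum_tail Λ h hΛ]
  have := ENNReal.tendsto_sum_nat_add _ e
  exact (Filter.tendsto_add_atTop_iff_nat 1).2 this

open Classical in
/-- splitting off a first passage list -/
lemma split_le (h1 : ∀ b, 1 ≤ h b) (l : ℕ) (F : List B → ℝ≥0∞) :
    ∑' L, (if l ≤ HT h L then F L else 0)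
      ≤ ∑' A, (if FP h A l then ∑' R, F (A ++ R) else 0) := by
  induction l using Nat.strong_induction_on generalizing F with
  | _ l ih =>
    by_cases hl : l = 0
    · subst hl
      rw [fp_zero h (fun A => ∑' R, F (A ++ R))]
      simp
    · rw [fp_succ h (fun A => ∑' R, F (A ++ R)) hl, tsum_list]
      rw [if_neg (by rw [HT_nil]; omega), zero_add]
      refine ENNReal.tsum_le_tsum fun b => ?_
      have hb := h1 b
      refine le_trans ?_ (ih (l - h b) (by omega) (fun L => F (b :: L)))
      refine ENNReal.tsum_le_tsum fun L => ?_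
      rw [HT_cons]
      by_cases h3 : l ≤ h b + HT h L
      · rw [if_pos h3, if_pos (by omega)]
      · rw [if_neg h3]; exact zero_le

open Classical in
lemma fp_split {m l : ℕ} (hml : m ≤ l) (h1 : ∀ b, 1 ≤ h b) (F : List B → ℝ≥0∞) :
    ∑' L, (if FP h L l then F L else 0)
      = ∑' A, (if FP h A m then ∑' R, (if FP h R (l - HT h A) then F (A ++ R) else 0) else 0) := by
  induction m using Nat.strong_induction_on generalizing l F with
  | _ m ih =>
    by_cases hm : m = 0
    · subst hm
      rw [fp_zero h (fun A => ∑' R, (if FP h R (l - HT h A) then F (A ++ R) else 0))]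
      simp [HT_nil]
    · rw [fp_succ h (fun A => ∑' R, (if FP h R (l - HT h A) then F (A ++ R) else 0)) hm,
        fp_succ h F (by omega)]
      refine tsum_congr fun b => ?_
      have hb := h1 b
      rw [ih (m - h b) (by omega) (l := l - h b) (by omega) (fun L => F (b :: L))]
      refine tsum_congr fun A => ?_
      simp only [HT_cons, Nat.sub_sub, List.cons_append]

/-! ### laws on `ℕ × G` -/

open Classical in
/-- law of (height, displacement) of the first passage of `l` -/
noncomputable def V (l : ℕ) (y : ℕ × G) : ℝ≥0∞ :=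
  ∑' L, (if FP h L l ∧ HT h L = y.1 ∧ Dp z L = y.2 then LW Λ L else 0)

open Classical in
lemma fiber (l : ℕ) (f : ℕ × G → ℝ≥0∞) :
    ∑' L, (if FP h L l then LW Λ L * f (HT h L, Dp z L) else 0) = ∑' y, V Λ h z l y * f y := by
  have e : ∀ y, V Λ h z l y * f y
      = ∑' L, (if FP h L l ∧ HT h L = y.1 ∧ Dp z L = y.2 then LW Λ L * f y else 0) := by
    intro y
    rw [V, ← ENNReal.tsum_mul_right]
    refine tsum_congr fun L => ?_
    split_ifs <;> simp
  simp_rw [e]
  rw [ENNReal.tsum_comm]
  refine tsum_congr fun L => ?_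
  rw [tsum_eq_single (HT h L, Dp z L)]
  · by_cases h3 : FP h L l <;> simp [h3]
  · intro y hy
    rw [if_neg]
    rintro ⟨_, h4, h5⟩
    exact hy (Prod.ext h4.symm h5.symm)

lemma V_sum (h1 : ∀ b, 1 ≤ h b) (hΛ : ∑' b, Λ b = 1) (l : ℕ) : ∑' y, V Λ h z l y = 1 := by
  classical
  have := fiber Λ h z l (fun _ => 1)
  simp only [mul_one] at this
  rw [← this]
  exact fp_mass Λ h h1 hΛ l

lemma V_zero {l : ℕ} {y : ℕ × G} (hy : y.1 < l) : V Λ h z l y = 0 := by
  classical
  rw [V, ENNReal.tsum_eq_zero]
  intro L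
  rw [if_neg]
  rintro ⟨h3, h4, _⟩
  have := FP_ge h h3
  omega

lemma V_snd (h1 : ∀ b, 1 ≤ h b) (hΛ : ∑' b, Λ b = 1) (l a : ℕ) : ∑' x, V Λ h z l (a, x) ≤ 1 := by
  rw [← V_sum Λ h z h1 hΛ l, ENNReal.tsum_prod']
  exact ENNReal.le_tsum a

lemma V_far (h1 : ∀ b, 1 ≤ h b) (hΛ : ∑' b, Λ b = 1) (i0 l : ℕ) :
    ∑' y : ℕ × G, (if l + i0 < y.1 then V Λ h z l y else 0) ≤ ov Λ h i0 := by
  classical
  have := fiber Λ h z l (fun y => if l + i0 < y.1 then 1 else 0)
  refine le_trans (le_of_eq ?_) (fp_far Λ h h1 hΛ i0 l)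
  rw [show (∑' y : ℕ × G, (if l + i0 < y.1 then V Λ h z l y else 0))
      = ∑' y : ℕ × G, V Λ h z l y * (if l + i0 < y.1 then 1 else 0) from
      tsum_congr fun y => by split_ifs <;> simp, ← this]
  refine tsum_congr fun L => ?_
  by_cases h3 : FP h L l <;> by_cases h4 : l + i0 < HT h L <;> simp [h3, h4]

/-- shifted law -/
noncomputable def sh (f : ℕ × G → ℝ≥0∞) (y' y : ℕ × G) : ℝ≥0∞ :=
  if y'.1 ≤ y.1 then f (y.1 - y'.1, y.2 - y'.2) else 0

lemma sh_sum_snd (f : ℕ × G → ℝ≥0∞) (y' : ℕ × G) (a : ℕ) (ha : y'.1 ≤ a) :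
    ∑' x, sh f y' (a, x) = ∑' x, f (a - y'.1, x) := by
  simp only [sh, ha, if_true]
  exact (Equiv.subRight y'.2).tsum_eq (fun x => f (a - y'.1, x))

lemma sh_sum (f : ℕ × G → ℝ≥0∞) (y' : ℕ × G) : ∑' y, sh f y' y = ∑' y, f y := by
  rw [ENNReal.tsum_prod', ENNReal.tsum_prod']
  have hs : Function.support (fun a => ∑' x, sh f y' (a, x)) ⊆ Set.range (fun c => c + y'.1) := by
    intro a ha
    by_cases h3 : y'.1 ≤ a
    · exact ⟨a - y'.1, by simp; omega⟩
    · exfalso
      apply ha
      simp [sh, h3]
  rw [← (add_left_injective y'.1).tsum_eq hs]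
  refine tsum_congr fun c => ?_
  rw [sh_sum_snd f y' _ (by omega), Nat.add_sub_cancel]

lemma sh_le (f g : ℕ × G → ℝ≥0∞) (y' y : ℕ × G) (hfg : ∀ y, f y ≤ g y) : sh f y' y ≤ sh g y' y := by
  unfold sh
  split_ifs
  · exact hfg _
  · exact le_rfl

lemma V_split {m l : ℕ} (hml : m ≤ l) (h1 : ∀ b, 1 ≤ h b) (y : ℕ × G) :
    V Λ h z l y = ∑' y', V Λ h z m y' * sh (V Λ h z (l - y'.1)) y' y := by
  classical
  rw [← fiber Λ h z m (fun y' => sh (V Λ h z (l - y'.1)) y' y)]
  have e : V Λ h z l y = ∑' L, (if FP h L l then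
      (if HT h L = y.1 ∧ Dp z L = y.2 then LW Λ L else 0) else 0) := by
    rw [V]
    refine tsum_congr fun L => ?_
    by_cases h3 : FP h L l <;> simp [h3]
  rw [e, fp_split h hml h1]
  refine tsum_congr fun A => ?_
  by_cases h3 : FP h A m
  · rw [if_pos h3, if_pos h3]
    by_cases h4 : HT h A ≤ y.1
    · simp only [sh, h4, if_true]
      rw [V, ← ENNReal.tsum_mul_left]
      refine tsum_congr fun R => ?_
      rw [HT_append, Dp_append, LW_append]
      by_cases h5 : FP h R (l - HT h A)
      · by_cases h6 : HT h A + HT h R = y.1 ∧ Dp z A + Dp z R = y.2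
        · rw [if_pos h5, if_pos h6, if_pos ⟨h5, by simp; omega, by simp [← h6.2]⟩]
        · rw [if_pos h5, if_neg h6, if_neg, mul_zero]
          rintro ⟨_, h7, h8⟩
          apply h6
          refine ⟨by simp at h7; omega, ?_⟩
          simp only at h8
          rw [h8]; abel
      · rw [if_neg h5, if_neg (fun h6 => h5 h6.1), mul_zero]
    · simp only [sh, h4, if_false, mul_zero]
      rw [ENNReal.tsum_eq_zero]
      intro R
      rw [HT_append]
      split_ifs with h5 h6
      · omega
      · rfl
      · rfl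
  · rw [if_neg h3, if_neg h3]

/-- **smooth density** -/
theorem dens (h1 : ∀ b, 1 ≤ h b) (hΛ : ∑' b, Λ b = 1) (m i0 : ℕ) (th q e : ℝ≥0∞) (hq : q ≤ 1)
    (hlg : ∑' y, (if y.1 ≤ m + i0 ∧ ¬ V Λ h z m y < th then V Λ h z m y else 0) ≤ q)
    (hfar : ∑' y : ℕ × G, (if m + i0 < y.1 then V Λ h z m y else 0) ≤ e) (J : ℕ) :
    ∀ l, J * (m + i0) ≤ l → ∃ Ag Bb : ℕ × G → ℝ≥0∞, (∀ y, V Λ h z l y ≤ Ag y + Bb y) ∧
      (∀ y, Ag y ≤ J * ((i0 + 1 : ℕ) * th)) ∧ ∑' y, Bb y ≤ q ^ J + J * e := by
  classical
  induction J with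
  | zero =>
    intro l _
    refine ⟨fun _ => 0, V Λ h z l, fun y => by simp, fun y => by simp, ?_⟩
    rw [V_sum Λ h z h1 hΛ]
    simp
  | succ J ih =>
    intro l hl
    have hml : m ≤ l := by nlinarith [Nat.zero_le (J * (m + i0))]
    have hch : ∀ a : ℕ, ∃ Ag Bb : ℕ × G → ℝ≥0∞, a ≤ m + i0 →
        (∀ y, V Λ h z (l - a) y ≤ Ag y + Bb y) ∧ (∀ y, Ag y ≤ J * ((i0 + 1 : ℕ) * th)) ∧
        ∑' y, Bb y ≤ q ^ J + J * e := by
      intro a
      by_cases ha : a ≤ m + i0
      · obtain ⟨A, Bb, h3⟩ := ih (l - a) (by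
          have : (J + 1) * (m + i0) = J * (m + i0) + (m + i0) := by ring
          omega)
        exact ⟨A, Bb, fun _ => h3⟩
      · exact ⟨0, 0, fun h => absurd h ha⟩
    choose A Bb hAB using hch
    refine ⟨fun y => ∑' y', ((if y'.1 ≤ m + i0 ∧ V Λ h z m y' < th then
          V Λ h z m y' * sh (V Λ h z (l - y'.1)) y' y else 0)
        + (if y'.1 ≤ m + i0 ∧ ¬ V Λ h z m y' < th then V Λ h z m y' * sh (A y'.1) y' y else 0)),
      fun y => ∑' y', ((if y'.1 ≤ m + i0 ∧ ¬ V Λ h z m y' < th then
          V Λ h z m y' * sh (Bb y'.1) y' y else 0)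
        + (if m + i0 < y'.1 then V Λ h z m y' * sh (V Λ h z (l - y'.1)) y' y else 0)), ?_, ?_, ?_⟩
    · intro y
      rw [V_split Λ h z hml h1, ← ENNReal.tsum_add]
      refine ENNReal.tsum_le_tsum fun y' => ?_
      by_cases hn : y'.1 ≤ m + i0
      · by_cases ht : V Λ h z m y' < th
        · simp only [hn, ht, not_true, and_false, and_self, if_true, if_false, add_zero,
            not_lt.2 hn]
          exact le_rfl
        · simp only [hn, ht, and_false, not_false_iff, and_self, if_true, if_false, zero_add,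
            add_zero, not_lt.2 hn]
          rw [← mul_add]
          refine mul_le_mul_right ?_ _
          have h5 := (hAB y'.1 hn).1
          unfold sh
          split_ifs
          · exact h5 _
          · simp
      · have hn' : m + i0 < y'.1 := not_le.1 hn
        simp [hn, hn']
    · intro y
      beta_reduce
      rw [ENNReal.tsum_add]
      have ha1 : ∑' y' : ℕ × G, (if y'.1 ≤ m + i0 ∧ V Λ h z m y' < th then
          V Λ h z m y' * sh (V Λ h z (l - y'.1)) y' y else 0) ≤ (i0 + 1 : ℕ) * th := by
        calc _ ≤ ∑' y' : ℕ × G, (if y'.1 ∈ Finset.Icc m (m + i0) then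
              th * sh (V Λ h z (l - y'.1)) y' y else 0) := by
              refine ENNReal.tsum_le_tsum fun y' => ?_
              by_cases hc : y'.1 ≤ m + i0 ∧ V Λ h z m y' < th
              · rw [if_pos hc]
                by_cases hm' : m ≤ y'.1
                · rw [if_pos (Finset.mem_Icc.2 ⟨hm', hc.1⟩)]
                  exact mul_le_mul_left hc.2.le _
                · rw [V_zero Λ h z (not_le.1 hm'), zero_mul]; exact zero_le
              · rw [if_neg hc]; exact zero_le
          _ = ∑' a : ℕ, (if a ∈ Finset.Icc m (m + i0) then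
              ∑' x, th * sh (V Λ h z (l - a)) (a, x) y else 0) := by
              rw [ENNReal.tsum_prod']
              refine tsum_congr fun a => ?_
              by_cases ha : a ∈ Finset.Icc m (m + i0)
              · simp only [ha, if_true]
              · simp only [ha, if_false, tsum_zero]
          _ = ∑ a ∈ Finset.Icc m (m + i0), ∑' x, th * sh (V Λ h z (l - a)) (a, x) y := by
              rw [tsum_eq_sum (s := Finset.Icc m (m + i0))]
              · exact Finset.sum_congr rfl fun a ha => if_pos ha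
              · intro a ha; exact if_neg ha
          _ ≤ ∑ a ∈ Finset.Icc m (m + i0), th := by
              refine Finset.sum_le_sum fun a _ => ?_
              rw [ENNReal.tsum_mul_left]
              refine le_trans (mul_le_mul_right ?_ _) (le_of_eq (mul_one th))
              by_cases ha : a ≤ y.1
              · simp only [sh, ha, if_true]
                rw [show (∑' x, V Λ h z (l - a) (y.1 - a, y.2 - x))
                  = ∑' x, V Λ h z (l - a) (y.1 - a, x) from
                  (Equiv.subLeft y.2).tsum_eq (fun x => V Λ h z (l - a) (y.1 - a, x))]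
                exact V_snd Λ h z h1 hΛ _ _
              · simp [sh, ha]
          _ = _ := by
              rw [Finset.sum_const, Nat.card_Icc, nsmul_eq_mul]
              congr 2
              omega
      have ha2 : ∑' y' : ℕ × G, (if y'.1 ≤ m + i0 ∧ ¬ V Λ h z m y' < th then
          V Λ h z m y' * sh (A y'.1) y' y else 0) ≤ J * ((i0 + 1 : ℕ) * th) := by
        calc _ ≤ ∑' y' : ℕ × G, V Λ h z m y' * (J * ((i0 + 1 : ℕ) * th)) := by
              refine ENNReal.tsum_le_tsum fun y' => ?_
              split_ifs with hc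
              · refine mul_le_mul_right ?_ _
                unfold sh
                split_ifs
                · exact (hAB y'.1 hc.1).2.1 _
                · exact zero_le
              · exact zero_le
          _ = _ := by rw [ENNReal.tsum_mul_right, V_sum Λ h z h1 hΛ, one_mul]
      calc _ ≤ (i0 + 1 : ℕ) * th + J * ((i0 + 1 : ℕ) * th) := add_le_add ha1 ha2
        _ = _ := by push_cast; ring
    · rw [ENNReal.tsum_comm]
      calc _ ≤ ∑' y' : ℕ × G, ((if y'.1 ≤ m + i0 ∧ ¬ V Λ h z m y' < th then
              V Λ h z m y' else 0) * (q ^ J + J * e)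
            + (if m + i0 < y'.1 then V Λ h z m y' else 0)) := by
            refine ENNReal.tsum_le_tsum fun y' => ?_
            rw [ENNReal.tsum_add]
            refine add_le_add ?_ ?_
            · by_cases hc : y'.1 ≤ m + i0 ∧ ¬ V Λ h z m y' < th
              · simp only [if_pos hc]
                rw [ENNReal.tsum_mul_left, sh_sum]
                exact mul_le_mul_right (hAB y'.1 hc.1).2.2 _
              · simp only [if_neg hc]; simp
            · by_cases hc : m + i0 < y'.1
              · simp only [if_pos hc]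
                rw [ENNReal.tsum_mul_left, sh_sum, V_sum Λ h z h1 hΛ, mul_one]
              · simp only [if_neg hc]; simp
        _ ≤ q * (q ^ J + J * e) + e := by
            rw [ENNReal.tsum_add, ENNReal.tsum_mul_right]
            exact add_le_add (mul_le_mul_left hlg _) hfar
        _ ≤ q ^ (J + 1) + (J + 1 : ℕ) * e := by
            rw [mul_add, pow_succ, mul_comm (q ^ J), add_assoc]
            refine add_le_add le_rfl ?_
            push_cast
            rw [add_mul, one_mul]
            refine add_le_add ?_ le_rfl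
            calc q * (J * e) ≤ 1 * (J * e) := mul_le_mul_left hq _
              _ = _ := one_mul _

end Crest.Agent.R154.Asm457
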