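import Crest.Agent.R154.Ren_396
import Crest.Agent.R154.Sel_300

/-! Row 154, ROAD 801 (helper475): assembly, part 1: the top law of one walker (core), local pieces
and smooth density (loc), first renewal cuts (cut2). -/

set_option autoImplicit false

namespace Crest.Agent.R154.Asm475

open Crest.Agent.R154.B5A
open Crest.Agent.R154.Ren396
open scoped ENNReal

variable {B G : Type*} [AddCommGroup G] (Λ : B → ℝ≥0∞) (ht : B → ℕ) (z : B → G)

open Classical in
/-- grouping of the first renewals by (height, displacement) -/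
lemma group (b : ℕ) (f : ℕ → G → ℝ≥0∞) :
    ∑' A : List B, (if FR ht A b then LW Λ A * f (HT ht A) (dp z A) else 0)
      = ∑' c, ∑' δ, W Λ ht z b c δ * f c δ := by
  rw [← ENNReal.tsum_prod (f := fun c δ => W Λ ht z b c δ * f c δ)]
  simp only [W, ← ENNReal.tsum_mul_right]
  rw [ENNReal.tsum_comm]
  refine tsum_congr fun A => ?_
  by_cases h : FR ht A b
  · simp only [h, if_true]
    rw [tsum_eq_single (HT ht A, dp z A)]
    · simp
    · rintro ⟨c, δ⟩ hne
      rw [if_neg, zero_mul]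
      rintro ⟨h1, h2⟩
      exact hne (by simp [h1, h2])
  · simp [h]

open Classical in
lemma W_eq_zero {b c : ℕ} (h : c < b) (δ : G) : W Λ ht z b c δ = 0 := by
  unfold W
  rw [ENNReal.tsum_eq_zero]
  intro P
  split_ifs with h1 h2
  · have := FR_le ht h1
    omega
  · rfl
  · rfl

open Classical in
/-- the average of `f` over the top law -/
theorem core (hΛ : ∑' b, Λ b ≤ 1) (h1 : ∀ b, 1 ≤ ht b) (b i0 : ℕ) (f : ℕ → G → ℝ≥0∞)
    (hf1 : ∀ c δ, f c δ ≤ 1) (M β bad : ℝ≥0∞)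
    (hβ : ∀ c, b ≤ c → c ≤ b + i0 → ∀ μ : G → ℝ≥0∞, ∑' δ, μ δ ≤ 1 → (∀ δ, μ δ ≤ M) →
      ∑' δ, μ δ * f c δ ≤ β)
    (Wg Wb : ℕ → G → ℝ≥0∞) (hW : ∀ c δ, W Λ ht z b c δ ≤ Wg c δ + Wb c δ)
    (hWg : ∀ c δ, Wg c δ ≤ M) (hWb : ∑' c, ∑' δ, Wb c δ ≤ bad) :
    ∑' A : List B, (if FR ht A b ∧ HT ht A ≤ b + i0 then LW Λ A * f (HT ht A) (dp z A) else 0)
      ≤ (i0 + 1) * β + bad := by
  have e1 : ∑' A : List B, (if FR ht A b ∧ HT ht A ≤ b + i0 then
      LW Λ A * f (HT ht A) (dp z A) else 0)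
      = ∑' c, ∑' δ, W Λ ht z b c δ * (if c ≤ b + i0 then f c δ else 0) := by
    rw [← group Λ ht z b (fun c δ => if c ≤ b + i0 then f c δ else 0)]
    refine tsum_congr fun A => ?_
    by_cases h : FR ht A b <;> by_cases h' : HT ht A ≤ b + i0 <;> simp [h, h']
  rw [e1]
  have e2 : ∀ c δ, W Λ ht z b c δ * (if c ≤ b + i0 then f c δ else 0)
      ≤ (if b ≤ c ∧ c ≤ b + i0 then min (W Λ ht z b c δ) (Wg c δ) * f c δ else 0)
        + Wb c δ := by
    intro c δ
    by_cases hc : c ≤ b + i0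
    · by_cases hc2 : b ≤ c
      · rw [if_pos hc, if_pos ⟨hc2, hc⟩]
        have : W Λ ht z b c δ ≤ min (W Λ ht z b c δ) (Wg c δ) + Wb c δ := by
          rcases le_total (W Λ ht z b c δ) (Wg c δ) with h | h
          · rw [min_eq_left h]; exact le_self_add
          · rw [min_eq_right h]; exact hW c δ
        calc _ ≤ (min (W Λ ht z b c δ) (Wg c δ) + Wb c δ) * f c δ := mul_le_mul_left this _
          _ = min (W Λ ht z b c δ) (Wg c δ) * f c δ + Wb c δ * f c δ := add_mul _ _ _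
          _ ≤ _ := by
            refine add_le_add le_rfl ?_
            calc _ ≤ Wb c δ * 1 := mul_le_mul_right (hf1 _ _) _
              _ = _ := mul_one _
      · rw [W_eq_zero Λ ht z (by omega), zero_mul]
        exact zero_le
    · rw [if_neg hc, mul_zero]
      exact zero_le
  refine (ENNReal.tsum_le_tsum fun c => ENNReal.tsum_le_tsum fun δ => e2 c δ).trans ?_
  have e3 : ∑' c, ∑' δ, ((if b ≤ c ∧ c ≤ b + i0 then min (W Λ ht z b c δ) (Wg c δ) * f c δ else 0)
        + Wb c δ) = (∑' c, ∑' δ, (if b ≤ c ∧ c ≤ b + i0 then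
          min (W Λ ht z b c δ) (Wg c δ) * f c δ else 0)) + ∑' c, ∑' δ, Wb c δ := by
    rw [← ENNReal.tsum_add]
    exact tsum_congr fun c => ENNReal.tsum_add
  rw [e3]
  refine add_le_add ?_ hWb
  have e4 : ∀ c, ∑' δ, (if b ≤ c ∧ c ≤ b + i0 then
      min (W Λ ht z b c δ) (Wg c δ) * f c δ else 0) ≤ if b ≤ c ∧ c ≤ b + i0 then β else 0 := by
    intro c
    by_cases h : b ≤ c ∧ c ≤ b + i0
    · simp only [if_pos h]
      refine hβ c h.1 h.2 _ ?_ ?_
      · exact (ENNReal.tsum_le_tsum fun δ => min_le_left _ _).trans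
          (tsum_W_le Λ ht z hΛ h1 b c)
      · exact fun δ => (min_le_right _ _).trans (hWg c δ)
    · simp only [if_neg h, tsum_zero]
      exact le_rfl
  refine (ENNReal.tsum_le_tsum e4).trans ?_
  rw [tsum_eq_sum (s := Finset.Icc b (b + i0))]
  · calc _ ≤ ∑ c ∈ Finset.Icc b (b + i0), β := Finset.sum_le_sum fun c _ => by
          split_ifs
          · exact le_rfl
          · exact zero_le
      _ = (i0 + 1) * β := by
          rw [Finset.sum_const, Nat.card_Icc, nsmul_eq_mul]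
          congr 1
          have : b + i0 + 1 - b = i0 + 1 := by omega
          rw [this]; push_cast; ring
  · intro c hc
    rw [if_neg]
    rintro ⟨h2, h3⟩
    exact hc (Finset.mem_Icc.2 ⟨h2, h3⟩)

open Classical in
/-- **local pieces and smooth density** of one walker: `T` = length of a piece, `b` = depth of the
top. -/
theorem loc (hΛ : ∑' b, Λ b ≤ 1) (h1 : ∀ b, 1 ≤ ht b) (T i0 : ℕ) (u e : ℝ≥0∞) (hu0 : u ≠ 0)
    (hu1 : u ≤ 1) (heu : e ≤ u / 2)
    (hover : ∑' P : List B, (if FR ht P T ∧ T + i0 < HT ht P then LW Λ P else 0) ≤ e)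
    (J b : ℕ) (hJ : J * (T + i0) ≤ b) :
    ∃ (M : ℝ≥0∞) (E : ℕ → Finset G) (Wg Wb : ℕ → G → ℝ≥0∞),
      (∀ c δ, W Λ ht z b c δ ≤ Wg c δ + Wb c δ) ∧ (∀ c δ, Wg c δ ≤ M) ∧
      ∑' c, ∑' δ, Wb c δ ≤ (1 - u / 2) ^ J + J * e ∧
      (∀ h, M * (E h).card ≤ 4 * ((i0 + 1) / u)) ∧
      ∑' P : List B, (if FR ht P T ∧ dp z P ∉ E (HT ht P) then LW Λ P else 0) ≤ u := by
  have hut : u ≠ ⊤ := ne_top_of_le_ne_top ENNReal.one_ne_top hu1
  set p : ℕ × G → ℝ≥0∞ := fun q => W Λ ht z T q.1 q.2 with hp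
  have hp1 : ∑' q, p q ≤ 1 := by
    rw [ENNReal.tsum_prod (f := fun c δ => W Λ ht z T c δ), tsum_tsum_W]
    exact mass_FR Λ ht hΛ h1 T
  obtain ⟨k, hk1, hk2, hk3, hk4⟩ := Sel300.dyq p hp1 hu0
  have hE : ∀ h : ℕ, {x : G | ((2 : ℝ≥0∞) ^ k)⁻¹ ≤ p (h, x)}.Finite := fun h =>
    (hk3.preimage (f := fun x : G => (h, x)) (fun a _ b _ hab => (Prod.mk.inj hab).2))
  have hcard : ∀ h : ℕ, (hE h).toFinset.card ≤ 2 ^ k := by
    intro h
    refine le_trans ?_ hk4
    rw [← Set.ncard_coe_finset]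
    refine Set.ncard_le_ncard_of_injOn (fun x : G => (h, x)) (fun x hx => ?_)
      (fun a _ b _ hab => (Prod.mk.inj hab).2) hk3
    simpa using hx
  have hcard' : ∀ h : ℕ, (((hE h).toFinset.card : ℕ) : ℝ≥0∞) ≤ 2 ^ k := fun h => by
    calc (((hE h).toFinset.card : ℕ) : ℝ≥0∞) ≤ ((2 ^ k : ℕ) : ℝ≥0∞) := by exact_mod_cast hcard h
      _ = 2 ^ k := by push_cast; rfl
  have hnl : ∑' P : List B, (if FR ht P T ∧ dp z P ∉ (hE (HT ht P)).toFinset then LW Λ P else 0)
      ≤ u := by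
    refine le_trans (le_of_eq ?_) hk1
    have e5 := group Λ ht z T (fun c δ => if p (c, δ) < ((2 : ℝ≥0∞) ^ k)⁻¹ then 1 else 0)
    calc _ = ∑' A : List B, (if FR ht A T then LW Λ A *
          (if p (HT ht A, dp z A) < ((2 : ℝ≥0∞) ^ k)⁻¹ then 1 else 0) else 0) := by
          refine tsum_congr fun P => ?_
          by_cases h : FR ht P T
          · by_cases h2 : p (HT ht P, dp z P) < ((2 : ℝ≥0∞) ^ k)⁻¹
            · simp [h, h2]
            · simp [h, h2]
          · simp [h]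
      _ = _ := by
          rw [e5, ENNReal.tsum_prod (f := fun c δ => if W Λ ht z T c δ < ((2 : ℝ≥0∞) ^ k)⁻¹
            then W Λ ht z T c δ else 0)]
          refine tsum_congr fun c => tsum_congr fun δ => ?_
          simp only [hp]
          split_ifs <;> simp
  rcases hk2 with hk0 | hk2
  · -- k = 0
    refine ⟨1, fun h => (hE h).toFinset, W Λ ht z b, fun _ _ => 0, fun c δ => by simp, ?_, by simp,
      ?_, hnl⟩
    · intro c δ
      exact (ENNReal.le_tsum δ).trans (tsum_W_le Λ ht z hΛ h1 b c)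
    · intro h
      have h2 := hcard' h
      have h2' : (2 : ℝ≥0∞) ^ k = 1 := by rw [hk0, pow_zero]
      rw [one_mul]
      refine (h2.trans (le_of_eq h2')).trans ?_
      have h3 : (1 : ℝ≥0∞) ≤ ((i0 : ℝ≥0∞) + 1) / u := by
        rw [ENNReal.le_div_iff_mul_le (Or.inl hu0) (Or.inl hut), one_mul]
        exact hu1.trans le_add_self
      calc (1 : ℝ≥0∞) ≤ ((i0 : ℝ≥0∞) + 1) / u := h3
        _ ≤ 4 * (((i0 : ℝ≥0∞) + 1) / u) := by
            calc ((i0 : ℝ≥0∞) + 1) / u = 1 * (((i0 : ℝ≥0∞) + 1) / u) := (one_mul _).symm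
              _ ≤ _ := mul_le_mul_left (by norm_num) _
  · -- smooth
    set θ : ℝ≥0∞ := 2 * ((2 : ℝ≥0∞) ^ k)⁻¹ with hθ
    have hlow : u / 2 ≤ ∑' a : List B, (if FR ht a T ∧ HT ht a ≤ T + i0 ∧
        W Λ ht z T (HT ht a) (dp z a) ≤ θ then LW Λ a else 0) := by
      have h3 : u ≤ (∑' a : List B, (if FR ht a T ∧ HT ht a ≤ T + i0 ∧
          W Λ ht z T (HT ht a) (dp z a) ≤ θ then LW Λ a else 0)) + e := by
        refine hk2.trans ?_
        have e5 := group Λ ht z T (fun c δ => if p (c, δ) ≤ θ then 1 else 0)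
        calc _ = ∑' A : List B, (if FR ht A T then LW Λ A *
              (if p (HT ht A, dp z A) ≤ θ then 1 else 0) else 0) := by
              rw [e5, ENNReal.tsum_prod (f := fun c δ => if W Λ ht z T c δ ≤ θ
                then W Λ ht z T c δ else 0)]
              refine tsum_congr fun c => tsum_congr fun δ => ?_
              simp only [hp]
              split_ifs <;> simp
          _ ≤ ∑' A : List B, ((if FR ht A T ∧ HT ht A ≤ T + i0 ∧
              W Λ ht z T (HT ht A) (dp z A) ≤ θ then LW Λ A else 0) +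
              (if FR ht A T ∧ T + i0 < HT ht A then LW Λ A else 0)) := by
              refine ENNReal.tsum_le_tsum fun A => ?_
              by_cases h4 : FR ht A T
              · by_cases h5 : HT ht A ≤ T + i0
                · by_cases h6 : W Λ ht z T (HT ht A) (dp z A) ≤ θ
                  · simp [h4, h5, h6, hp]
                  · simp [h4, h5, h6, hp]
                · have h7 : T + i0 < HT ht A := by omega
                  simp only [h4, h5, h7, true_and, false_and, and_false, if_true, if_false,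
                    zero_add]
                  split_ifs <;> simp
              · simp [h4]
          _ ≤ _ := by
              rw [ENNReal.tsum_add]
              exact add_le_add le_rfl hover
      have h4 : u / 2 + u / 2 ≤ (∑' a : List B, (if FR ht a T ∧ HT ht a ≤ T + i0 ∧
          W Λ ht z T (HT ht a) (dp z a) ≤ θ then LW Λ a else 0)) + u / 2 := by
        rw [ENNReal.add_halves]
        exact h3.trans (add_le_add le_rfl heu)
      exact (ENNReal.add_le_add_iff_right (ne_top_of_le_ne_top hut ENNReal.half_le_self)).1 h4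
    have hu20 : u / 2 ≠ 0 := by simp [hu0]
    obtain ⟨Wg, Wb, hW, hg, hb⟩ := dens Λ ht z hΛ h1 T i0 θ (u / 2) e hu20 hlow hover J b hJ
    refine ⟨(i0 + 1) * θ / (u / 2), fun h => (hE h).toFinset, Wg, Wb, hW, hg, hb, ?_, hnl⟩
    intro h
    have h2k0 : ((2 : ℝ≥0∞) ^ k) ≠ 0 := by positivity
    have h2kt : ((2 : ℝ≥0∞) ^ k) ≠ ⊤ := by finiteness
    calc (i0 + 1) * θ / (u / 2) * ((hE h).toFinset.card : ℝ≥0∞)
        ≤ (i0 + 1) * θ / (u / 2) * 2 ^ k := mul_le_mul_right (hcard' h) _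
      _ = 4 * (((i0 : ℝ≥0∞) + 1) / u) := by
          rw [hθ, div_eq_mul_inv, div_eq_mul_inv, div_eq_mul_inv,
            ENNReal.mul_inv (Or.inl hu0) (Or.inl hut), inv_inv]
          calc ((i0 : ℝ≥0∞) + 1) * (2 * (2 ^ k)⁻¹) * (u⁻¹ * 2) * 2 ^ k
              = ((i0 : ℝ≥0∞) + 1) * 4 * u⁻¹ * ((2 ^ k)⁻¹ * 2 ^ k) := by ring
            _ = _ := by rw [ENNReal.inv_mul_cancel h2k0 h2kt]; ring

end Crest.Agent.R154.Asm475
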