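import Crest.Agent.R154.B5Abs_566
import Crest.Agent.R154.Gap_583
import Crest.Agent.R154.Dens_903

/-! Row 154, ROAD 801: single-walker part of the assembly (helper642). First passage lists,
attempt law, smooth lists, traces. -/

set_option autoImplicit false

namespace Crest.Agent.R154.Asm642

open Crest.Agent.R154.B5A
open scoped ENNReal Topology Classical

/-! ### generic sums -/

lemma tsum_cover {α β : Type*} (f : α → ℝ≥0∞) (g : β → ℝ≥0∞) (π : β → α)
    (h : ∀ a, f a ≠ 0 → ∃ b, π b = a ∧ f a ≤ g b) : ∑' a, f a ≤ ∑' b, g b := by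
  have hch : ∀ a : Function.support f, ∃ b, π b = a.1 ∧ f a.1 ≤ g b := fun a => h a.1 a.2
  choose r hr using hch
  have e : ∑' a, f a = ∑' a : Function.support f, f a.1 :=
    (tsum_subtype_eq_of_support_subset (subset_refl _)).symm
  rw [e]
  have hinj : Function.Injective r := by
    intro a a' haa
    apply Subtype.ext
    have h1 := (hr a).1
    have h2 := (hr a').1
    rw [← h1, ← h2, haa]
  calc ∑' a : Function.support f, f a.1 ≤ ∑' a : Function.support f, g (r a) :=
        ENNReal.tsum_le_tsum fun a => (hr a).2
    _ ≤ _ := ENNReal.tsum_comp_le_tsum_of_injective hinj g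

lemma tsum_fiber {α β : Type*} (π : α → β) (c : β → ℝ≥0∞) (f : α → ℝ≥0∞) :
    ∑' a, c (π a) * f a = ∑' q, c q * ∑' a, (if π a = q then f a else 0) := by
  have : ∀ q, c q * ∑' a, (if π a = q then f a else 0) = ∑' a, (if π a = q then c q * f a else 0) := by
    intro q
    rw [← ENNReal.tsum_mul_left]
    exact tsum_congr fun a => by split_ifs <;> simp
  simp only [this]
  rw [ENNReal.tsum_comm]
  refine tsum_congr fun a => ?_
  rw [tsum_eq_single (π a)]
  · simp
  · intro q hq
    rw [if_neg (fun h => hq h.symm)]

section one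

variable {B G : Type*} [AddCommGroup G]

/-- displacement -/
def Dp (z : B → G) (L : List B) : G := (L.map z).sum

/-- trace (position, depth) -/
def TT (s : B → Set (G × ℕ)) (z : B → G) (h : B → ℕ) : List B → G → ℕ → Set (G × ℕ)
  | [], _, _ => ∅
  | b :: L, x, a => (fun q : G × ℕ => (x + q.1, a + q.2)) '' s b ∪ TT s z h L (x + z b) (a + h b)

lemma Dp_nil (z : B → G) : Dp z [] = 0 := by simp [Dp]
lemma Dp_cons (z : B → G) (b : B) (L : List B) : Dp z (b :: L) = z b + Dp z L := by simp [Dp]
lemma Dp_append (z : B → G) (L L' : List B) : Dp z (L ++ L') = Dp z L + Dp z L' := by simp [Dp]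

lemma TT_append (s : B → Set (G × ℕ)) (z : B → G) (h : B → ℕ) (L L' : List B) :
    ∀ (x : G) (a : ℕ), TT s z h (L ++ L') x a
      = TT s z h L x a ∪ TT s z h L' (x + Dp z L) (a + HT h L) := by
  induction L with
  | nil => intro x a; simp [TT, Dp_nil, HT_nil]
  | cons b L ih =>
    intro x a
    simp only [List.cons_append, TT]
    rw [ih, Dp_cons, HT_cons, Set.union_assoc, add_assoc, add_assoc]

lemma mem_TT_shift (s : B → Set (G × ℕ)) (z : B → G) (h : B → ℕ) (L : List B) :
    ∀ (x v y : G) (a k : ℕ), ((y + v, k) ∈ TT s z h L (x + v) a ↔ (y, k) ∈ TT s z h L x a) := by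
  induction L with
  | nil => intro x v y a k; simp [TT]
  | cons b L ih =>
    intro x v y a k
    simp only [TT, Set.mem_union]
    refine or_congr ?_ ?_
    · constructor
      · rintro ⟨q, hq, he⟩
        simp only [Prod.mk.injEq] at he
        refine ⟨q, hq, ?_⟩
        simp only [Prod.mk.injEq]
        refine ⟨?_, he.2⟩
        have := he.1
        have h2 : x + q.1 + v = y + v := by rw [← this]; abel
        exact add_right_cancel h2
      · rintro ⟨q, hq, he⟩
        simp only [Prod.mk.injEq] at he
        refine ⟨q, hq, ?_⟩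
        simp only [Prod.mk.injEq]
        refine ⟨?_, he.2⟩
        rw [← he.1]; abel
    · rw [show x + v + z b = (x + z b) + v by abel]
      exact ih _ _ _ _ _

lemma TT_depth (s : B → Set (G × ℕ)) (z : B → G) (h : B → ℕ)
    (hs : ∀ b q, q ∈ s b → 1 ≤ q.2 ∧ q.2 ≤ h b) (L : List B) :
    ∀ (x y : G) (a k : ℕ), (y, k) ∈ TT s z h L x a → a < k ∧ k ≤ a + HT h L := by
  induction L with
  | nil => intro x y a k hk; simp [TT] at hk
  | cons b L ih =>
    intro x y a k hk
    rw [HT_cons]
    rcases hk with ⟨q, hq, he⟩ | hk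
    · simp only [Prod.mk.injEq] at he
      have := hs b q hq
      omega
    · have := ih _ _ _ _ hk
      omega

/-- first passage list -/
def FP (h : B → ℕ) (T : ℕ) (L : List B) : Prop :=
  T ≤ HT h L ∧ ∀ L1 L2, L = L1 ++ L2 → L2 ≠ [] → HT h L1 < T

lemma FP_zero (h : B → ℕ) (L : List B) : FP h 0 L ↔ L = [] := by
  constructor
  · rintro ⟨_, h2⟩
    by_contra hne
    have := h2 [] L rfl hne
    omega
  · rintro rfl
    refine ⟨Nat.zero_le _, ?_⟩
    intro L1 L2 h1 h2
    exfalso
    rcases List.nil_eq_append_iff.1 h1 with ⟨_, h3⟩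
    exact h2 h3

lemma FP_cons (h : B → ℕ) (T : ℕ) (hT : 0 < T) (b : B) (L : List B) :
    FP h T (b :: L) ↔ FP h (T - h b) L := by
  constructor
  · rintro ⟨h1, h2⟩
    rw [HT_cons] at h1
    refine ⟨by omega, ?_⟩
    intro L1 L2 hL hne
    have h3 := h2 (b :: L1) L2 (by rw [hL]; rfl) hne
    rw [HT_cons] at h3
    omega
  · rintro ⟨h1, h2⟩
    refine ⟨by rw [HT_cons]; omega, ?_⟩
    intro L1 L2 hL hne
    cases L1 with
    | nil => rw [HT_nil]; exact hT
    | cons b' L1 =>
      rw [List.cons_append, List.cons.injEq] at hL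
      have h3 := h2 L1 L2 hL.2 hne
      rw [HT_cons, ← hL.1]
      omega

lemma exists_FP (h : B → ℕ) (L : List B) : ∀ T, T ≤ HT h L →
    ∃ A R, L = A ++ R ∧ FP h T A := by
  induction L with
  | nil =>
    intro T hT
    rw [HT_nil] at hT
    have : T = 0 := by omega
    subst this
    exact ⟨[], [], rfl, (FP_zero h []).2 rfl⟩
  | cons b L ih =>
    intro T hT
    rw [HT_cons] at hT
    rcases Nat.eq_zero_or_pos T with h0 | h0
    · subst h0
      exact ⟨[], b :: L, rfl, (FP_zero h []).2 rfl⟩
    · obtain ⟨A, R, hL, hF⟩ := ih (T - h b) (by omega)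
      exact ⟨b :: A, R, by rw [hL]; rfl, (FP_cons h T h0 b A).2 hF⟩

lemma FP_unique (h : B → ℕ) (T : ℕ) {A A' R R' : List B} (hA : FP h T A) (hA' : FP h T A')
    (he : A ++ R = A' ++ R') : A = A' ∧ R = R' := by
  have key : ∀ {A A' R R' : List B}, FP h T A → FP h T A' → ∀ C, A' = A ++ C → C = [] := by
    intro A A' R R' hA hA' C hC
    by_contra hne
    have := hA'.2 A C hC hne
    have := hA.1
    omega
  rcases List.append_eq_append_iff.1 he with ⟨C, h1, h2⟩ | ⟨C, h1, h2⟩
  · have := key (R := R) (R' := R') hA hA' C h1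
    subst this
    simp at h1 h2
    exact ⟨h1.symm, h2⟩
  · have := key (R := R) (R' := R') hA' hA C h1
    subst this
    simp at h1 h2
    exact ⟨h1, h2.symm⟩

variable (Λ : B → ℝ≥0∞) (h : B → ℕ) (z : B → G)

/-- total mass of the first passage lists -/
lemma sum_FP (h1 : ∀ b, 1 ≤ h b) (hΛ : ∑' b, Λ b = 1) :
    ∀ T, ∑' A : List B, (if FP h T A then LW Λ A else 0) = 1 := by
  intro T
  induction T using Nat.strong_induction_on with
  | _ T ih =>
    rcases Nat.eq_zero_or_pos T with h0 | h0
    · subst h0
      rw [tsum_eq_single ([] : List B)]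
      · rw [if_pos ((FP_zero h []).2 rfl), LW_nil]
      · intro L hL
        rw [if_neg (fun hh => hL ((FP_zero h L).1 hh))]
    · rw [tsum_list]
      have e0 : (if FP h T ([] : List B) then LW Λ [] else 0) = 0 := by
        rw [if_neg]
        rintro ⟨h2, _⟩
        rw [HT_nil] at h2
        omega
      rw [e0, zero_add]
      have e1 : ∀ b, ∑' L : List B, (if FP h T (b :: L) then LW Λ (b :: L) else 0) = Λ b := by
        intro b
        have : ∀ L : List B, (if FP h T (b :: L) then LW Λ (b :: L) else 0)
            = Λ b * (if FP h (T - h b) L then LW Λ L else 0) := by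
          intro L
          rw [LW_cons]
          by_cases hF : FP h (T - h b) L
          · rw [if_pos ((FP_cons h T h0 b L).2 hF), if_pos hF]
          · rw [if_neg (fun hh => hF ((FP_cons h T h0 b L).1 hh)), if_neg hF, mul_zero]
        simp only [this]
        rw [ENNReal.tsum_mul_left, ih (T - h b) (by have := h1 b; omega), mul_one]
      simp only [e1]
      exact hΛ

/-- overshoot of the first passage lists -/
lemma sum_over (hU1 : ∀ n, U Λ h n ≤ 1) (T i0 : ℕ) :
    ∑' A : List B, (if FP h T A ∧ T + i0 < HT h A then LW Λ A else 0)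
      ≤ ∑' b, Λ b * ((h b - i0 : ℕ) : ℝ≥0∞) := by
  have step : ∑' A : List B, (if FP h T A ∧ T + i0 < HT h A then LW Λ A else 0)
      ≤ ∑' p : B × List B, (if HT h p.2 < T ∧ T + i0 < HT h p.2 + h p.1
          then LW Λ p.2 * Λ p.1 else 0) := by
    refine tsum_cover _ _ (fun p : B × List B => p.2 ++ [p.1]) ?_
    intro A hA
    have hc : FP h T A ∧ T + i0 < HT h A := by
      by_contra hcon
      rw [if_neg hcon] at hA
      exact hA rfl
    have hne : A ≠ [] := by
      rintro rfl
      have := hc.2
      rw [HT_nil] at this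
      omega
    refine ⟨(A.getLast hne, A.dropLast), List.dropLast_append_getLast hne, ?_⟩
    have hA2 : A.dropLast ++ [A.getLast hne] = A := List.dropLast_append_getLast hne
    have h3 : HT h A.dropLast < T := hc.1.2 A.dropLast [A.getLast hne] hA2.symm (by simp)
    have h4 : HT h A = HT h A.dropLast + h (A.getLast hne) := by
      conv_lhs => rw [← hA2]
      rw [HT_append, HT_cons, HT_nil, add_zero]
    have h5 : LW Λ A = LW Λ A.dropLast * Λ (A.getLast hne) := by
      conv_lhs => rw [← hA2]
      rw [LW_append, LW_cons, LW_nil, mul_one]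
    simp only
    rw [if_pos hc, if_pos ⟨h3, by rw [← h4]; exact hc.2⟩, h5]
  refine step.trans ?_
  rw [ENNReal.tsum_prod']
  refine ENNReal.tsum_le_tsum fun b => ?_
  calc ∑' L : List B, (if HT h L < T ∧ T + i0 < HT h L + h b then LW Λ L * Λ b else 0)
      = ∑' L : List B, ∑ v ∈ (Finset.range T).filter (fun v => T + i0 < v + h b),
          Λ b * (if HT h L = v then LW Λ L else 0) := by
        refine tsum_congr fun L => ?_
        by_cases hc : HT h L < T ∧ T + i0 < HT h L + h b
        · rw [if_pos hc, ← Finset.mul_sum, Finset.sum_ite_eq, if_pos, mul_comm]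
          rw [Finset.mem_filter, Finset.mem_range]; exact hc
        · rw [if_neg hc, ← Finset.mul_sum, Finset.sum_ite_eq, if_neg, mul_zero]
          rw [Finset.mem_filter, Finset.mem_range]; exact hc
    _ = ∑ v ∈ (Finset.range T).filter (fun v => T + i0 < v + h b), Λ b * U Λ h v := by
        rw [Summable.tsum_finsetSum (fun _ _ => ENNReal.summable)]
        refine Finset.sum_congr rfl fun v _ => ?_
        rw [ENNReal.tsum_mul_left]; rfl
    _ ≤ ∑ v ∈ (Finset.range T).filter (fun v => T + i0 < v + h b), Λ b * 1 :=
        Finset.sum_le_sum fun v _ => mul_le_mul_right (hU1 v) _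
    _ ≤ Λ b * ((h b - i0 : ℕ) : ℝ≥0∞) := by
        rw [Finset.sum_const, nsmul_eq_mul, mul_one, mul_comm]
        refine mul_le_mul_right ?_ _
        have hcard : ((Finset.range T).filter (fun v => T + i0 < v + h b)).card ≤ h b - i0 := by
          have hsub : (Finset.range T).filter (fun v => T + i0 < v + h b)
              ⊆ Finset.Ico (T - (h b - i0)) T := by
            intro v hv
            rw [Finset.mem_filter, Finset.mem_range] at hv
            rw [Finset.mem_Ico]
            omega
          refine (Finset.card_le_card hsub).trans ?_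
          rw [Nat.card_Ico]
          omega
        exact_mod_cast hcard

/-- law of (height, displacement) of one attempt -/
noncomputable def pl (T : ℕ) (q : ℕ × G) : ℝ≥0∞ :=
  ∑' P : List B, if (HT h P, Dp z P) = q then (if FP h T P then LW Λ P else 0) else 0

lemma sum_pl (h1 : ∀ b, 1 ≤ h b) (hΛ : ∑' b, Λ b = 1) (T : ℕ) :
    ∑' q, pl Λ h z T q = 1 := by
  have := tsum_fiber (fun P : List B => (HT h P, Dp z P)) (fun _ => 1)
    (fun P => if FP h T P then LW Λ P else 0)
  simp only [one_mul] at this
  rw [← sum_FP Λ h h1 hΛ T, this]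
  exact tsum_congr fun q => tsum_congr fun P => by congr

lemma sum_c (T : ℕ) (c : ℕ × G → ℝ≥0∞) :
    ∑' P : List B, c (HT h P, Dp z P) * (if FP h T P then LW Λ P else 0)
      = ∑' q, c q * pl Λ h z T q := by
  rw [tsum_fiber (fun P : List B => (HT h P, Dp z P)) c (fun P => if FP h T P then LW Λ P else 0)]
  exact tsum_congr fun q => congrArg (c q * ·) (tsum_congr fun P => by congr)

/-- weight of a class of attempts in terms of the attempt law -/
lemma sum_cls (T : ℕ) (S : ℕ × G → Prop) :
    ∑' P : List B, (if FP h T P ∧ S (HT h P, Dp z P) then LW Λ P else 0)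
      = ∑' q, (if S q then pl Λ h z T q else 0) := by
  have := sum_c Λ h z T (fun q => if S q then 1 else 0)
  calc _ = ∑' P : List B, (if S (HT h P, Dp z P) then (1:ℝ≥0∞) else 0)
        * (if FP h T P then LW Λ P else 0) := by
        refine tsum_congr fun P => ?_
        by_cases h1 : FP h T P <;> by_cases h2 : S (HT h P, Dp z P) <;> simp [h1, h2]
    _ = _ := this
    _ = _ := tsum_congr fun q => by split_ifs <;> simp

/-! ### smooth lists -/

/-- one of the first `J` attempts (all with overshoot `≤ i0`) lies in the class `S` -/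
def Sm (h : B → ℕ) (z : B → G) (T i0 : ℕ) (S : ℕ × G → Prop) : ℕ → List B → Prop
  | 0, _ => False
  | J + 1, L => ∃ A R, L = A ++ R ∧ FP h T A ∧ HT h A ≤ T + i0 ∧
      (S (HT h A, Dp z A) ∨ Sm h z T i0 S J R)

lemma Sm_prefix (T i0 : ℕ) (S : ℕ × G → Prop) (h1 : ∀ b, 1 ≤ h b) : ∀ (J : ℕ) (L1 L2 : List B),
    J * (T + i0) ≤ HT h L1 → Sm h z T i0 S J (L1 ++ L2) → Sm h z T i0 S J L1 := by
  intro J
  induction J with
  | zero => intro L1 L2 _ hS; exact hS
  | succ J ih =>
    intro L1 L2 hJ hS
    obtain ⟨A, R, hL, hF, hA, hor⟩ := hS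
    have hJ' : J * (T + i0) + (T + i0) ≤ HT h L1 := by
      have : (J + 1) * (T + i0) = J * (T + i0) + (T + i0) := by ring
      omega
    have hC : ∃ C, L1 = A ++ C ∧ R = C ++ L2 := by
      rcases List.append_eq_append_iff.1 hL with ⟨C, h2, h3⟩ | ⟨C, h2, h3⟩
      · have h4 : HT h A = HT h L1 + HT h C := by rw [h2, HT_append]
        have h5 : HT h C = 0 := by omega
        have h6 : C = [] := by
          have := length_le_HT h h1 C
          exact List.eq_nil_of_length_eq_zero (by omega)
        subst h6
        refine ⟨[], ?_, ?_⟩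
        · simpa using h2.symm
        · simpa using h3.symm
      · exact ⟨C, h2, h3⟩
    obtain ⟨C, h2, h3⟩ := hC
    refine ⟨A, C, h2, hF, hA, ?_⟩
    rcases hor with hor | hor
    · exact Or.inl hor
    · right
      rw [h3] at hor
      refine ih C L2 ?_ hor
      have h4 : HT h L1 = HT h A + HT h C := by rw [h2, HT_append]
      omega

/-- weight of the lists of height `n` in a class -/
noncomputable def wn (n : ℕ) (S : List B → Prop) : ℝ≥0∞ :=
  ∑' L : List B, if HT h L = n ∧ S L then LW Λ L else 0

lemma wn_le_one (hU1 : ∀ n, U Λ h n ≤ 1) (n : ℕ) (S : List B → Prop) : wn Λ h n S ≤ 1 := by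
  refine le_trans (ENNReal.tsum_le_tsum fun L => ?_) (hU1 n)
  by_cases hc : HT h L = n
  · by_cases h2 : S L
    · rw [if_pos ⟨hc, h2⟩, if_pos hc]
    · rw [if_neg (fun hh => h2 hh.2)]; exact zero_le
  · rw [if_neg (fun hh => hc hh.1)]; exact zero_le

/-- **density of the smooth lists** -/
theorem sm_dens (hU1 : ∀ n, U Λ h n ≤ 1) (T i0 : ℕ) (S : ℕ × G → Prop) (th q Gc : ℝ≥0∞)
    (hS : ∀ r, S r → pl Λ h z T r ≤ th)
    (hq : ∑' A : List B, (if FP h T A ∧ ¬ S (HT h A, Dp z A) then LW Λ A else 0) ≤ q)
    (hG : (i0 + 1 : ℝ≥0∞) * th + q * Gc ≤ Gc) :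
    ∀ (J a : ℕ) (x : G), wn Λ h a (fun L => Dp z L = x ∧ Sm h z T i0 S J L) ≤ Gc := by
  intro J
  induction J with
  | zero =>
    intro a x
    have : wn Λ h a (fun L => Dp z L = x ∧ Sm h z T i0 S 0 L) = 0 := by
      rw [wn]
      refine ENNReal.tsum_eq_zero.2 fun L => ?_
      rw [if_neg]
      rintro ⟨_, _, h3⟩
      exact h3
    rw [this]; exact zero_le
  | succ J ih =>
    intro a x
    set g1 : List B × List B → ℝ≥0∞ := fun p =>
      if FP h T p.2 ∧ HT h p.2 ≤ T + i0 ∧ HT h p.2 + HT h p.1 = a ∧ Dp z p.2 + Dp z p.1 = x ∧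
        S (HT h p.2, Dp z p.2) then LW Λ p.2 * LW Λ p.1 else 0 with hg1
    set g2 : List B × List B → ℝ≥0∞ := fun p =>
      if FP h T p.1 ∧ ¬ S (HT h p.1, Dp z p.1) ∧ HT h p.1 ≤ a ∧
        (HT h p.2 = a - HT h p.1 ∧ Dp z p.2 = x - Dp z p.1 ∧ Sm h z T i0 S J p.2)
        then LW Λ p.1 * LW Λ p.2 else 0 with hg2
    have hcov : wn Λ h a (fun L => Dp z L = x ∧ Sm h z T i0 S (J + 1) L)
        ≤ ∑' p : List B × List B, (g1 (p.2, p.1) + g2 p) := by
      refine tsum_cover _ _ (fun p : List B × List B => p.1 ++ p.2) ?_
      intro L hL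
      have hc : HT h L = a ∧ Dp z L = x ∧ Sm h z T i0 S (J + 1) L := by
        by_contra hcon
        rw [if_neg hcon] at hL
        exact hL rfl
      rw [if_pos hc]
      obtain ⟨h2, h3, A, R, hAR, hF, hA, hor⟩ := hc
      refine ⟨(A, R), hAR.symm, ?_⟩
      have h4 : HT h A + HT h R = a := by rw [← HT_append, ← hAR]; exact h2
      have h5 : Dp z A + Dp z R = x := by rw [← Dp_append, ← hAR]; exact h3
      rw [hAR, LW_append]
      by_cases hSA : S (HT h A, Dp z A)
      · refine le_trans ?_ le_self_add
        simp only [hg1]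
        rw [if_pos ⟨hF, hA, h4, h5, hSA⟩]
      · refine le_trans ?_ le_add_self
        simp only [hg2]
        rw [if_pos ⟨hF, hSA, by omega, by omega, by rw [← h5]; abel, hor.resolve_left hSA⟩]
    refine hcov.trans ?_
    rw [ENNReal.tsum_add]
    refine le_trans (add_le_add ?_ ?_) hG
    · -- special attempt
      have e : ∑' p : List B × List B, g1 (p.2, p.1) = ∑' p : List B × List B, g1 p :=
        (Equiv.prodComm (List B) (List B)).tsum_eq g1
      rw [e, ENNReal.tsum_prod']
      calc ∑' R : List B, ∑' A : List B, g1 (R, A)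
          ≤ ∑' R : List B, ∑ v ∈ Finset.Icc (a - T - i0) (a - T),
              th * (if HT h R = v then LW Λ R else 0) := by
            refine ENNReal.tsum_le_tsum fun R => ?_
            by_cases hR : T + HT h R ≤ a ∧ a ≤ T + i0 + HT h R
            · rw [← Finset.mul_sum, Finset.sum_ite_eq, if_pos (by rw [Finset.mem_Icc]; omega)]
              by_cases hSq : S (a - HT h R, x - Dp z R)
              · calc ∑' A : List B, g1 (R, A)
                    ≤ ∑' A : List B, (if (HT h A, Dp z A) = (a - HT h R, x - Dp z R)
                        then (if FP h T A then LW Λ A else 0) else 0) * LW Λ R := by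
                      refine ENNReal.tsum_le_tsum fun A => ?_
                      simp only [hg1]
                      split_ifs with h6 h7 h8
                      · exact le_rfl
                      · exact absurd h6.1 h8
                      · exfalso
                        apply h7
                        obtain ⟨_, _, h9, h10, _⟩ := h6
                        rw [Prod.mk.injEq]
                        exact ⟨by omega, by rw [← h10]; abel⟩
                      · exact zero_le
                      · exact zero_le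
                      · exact zero_le
                  _ = pl Λ h z T (a - HT h R, x - Dp z R) * LW Λ R := by
                      rw [ENNReal.tsum_mul_right]; rfl
                  _ ≤ th * LW Λ R := mul_le_mul_left (hS _ hSq) _
              · have : ∀ A, g1 (R, A) = 0 := by
                  intro A
                  simp only [hg1]
                  rw [if_neg]
                  rintro ⟨_, _, h9, h10, h11⟩
                  apply hSq
                  have e1 : a - HT h R = HT h A := by omega
                  have e2 : x - Dp z R = Dp z A := by rw [← h10]; abel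
                  rw [e1, e2]; exact h11
                simp only [this, tsum_zero]; exact zero_le
            · have : ∀ A, g1 (R, A) = 0 := by
                intro A
                simp only [hg1]
                rw [if_neg]
                rintro ⟨h8, h9, h10, _⟩
                have := h8.1
                apply hR
                omega
              simp only [this, tsum_zero]; exact zero_le
        _ = ∑ v ∈ Finset.Icc (a - T - i0) (a - T), th * U Λ h v := by
            rw [Summable.tsum_finsetSum (fun _ _ => ENNReal.summable)]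
            refine Finset.sum_congr rfl fun v _ => ?_
            rw [ENNReal.tsum_mul_left]; rfl
        _ ≤ ∑ v ∈ Finset.Icc (a - T - i0) (a - T), th * 1 :=
            Finset.sum_le_sum fun v _ => mul_le_mul_right (hU1 v) _
        _ ≤ (i0 + 1 : ℝ≥0∞) * th := by
            rw [Finset.sum_const, nsmul_eq_mul, mul_one]
            refine mul_le_mul_left ?_ _
            have : (Finset.Icc (a - T - i0) (a - T)).card ≤ i0 + 1 := by
              rw [Nat.card_Icc]; omega
            exact_mod_cast this
    · rw [ENNReal.tsum_prod']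
      calc ∑' A : List B, ∑' R : List B, g2 (A, R)
          ≤ ∑' A : List B, (if FP h T A ∧ ¬ S (HT h A, Dp z A) then LW Λ A else 0) * Gc := by
            refine ENNReal.tsum_le_tsum fun A => ?_
            by_cases hA : FP h T A ∧ ¬ S (HT h A, Dp z A)
            · rw [if_pos hA]
              calc ∑' R : List B, g2 (A, R)
                  ≤ ∑' R : List B, LW Λ A * (if HT h R = a - HT h A ∧ (Dp z R = x - Dp z A ∧
                      Sm h z T i0 S J R) then LW Λ R else 0) := by
                    refine ENNReal.tsum_le_tsum fun R => ?_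
                    simp only [hg2]
                    split_ifs with h6 h7
                    · exact le_rfl
                    · exact absurd h6.2.2.2 h7
                    · exact zero_le
                    · exact zero_le
                _ = LW Λ A * wn Λ h (a - HT h A) (fun L => Dp z L = x - Dp z A ∧
                      Sm h z T i0 S J L) := by
                    rw [ENNReal.tsum_mul_left]
                    unfold wn
                    exact congrArg (LW Λ A * ·) (tsum_congr fun R => by congr)
                _ ≤ LW Λ A * Gc := mul_le_mul_right (ih _ _) _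
            · have : ∀ R, g2 (A, R) = 0 := by
                intro R
                simp only [hg2]
                rw [if_neg]
                rintro ⟨h8, h9, _⟩
                exact hA ⟨h8, h9⟩
              simp only [this, tsum_zero]; exact zero_le
        _ = (∑' A : List B, (if FP h T A ∧ ¬ S (HT h A, Dp z A) then LW Λ A else 0)) * Gc := by
            rw [ENNReal.tsum_mul_right]
        _ ≤ q * Gc := mul_le_mul_left hq _

/-- **mass of the lists which are not smooth** (paid once) -/
theorem sm_bad (hU1 : ∀ n, U Λ h n ≤ 1) (T i0 : ℕ) (S : ℕ × G → Prop) (q e : ℝ≥0∞)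
    (hq1 : q ≤ 1)
    (hq : ∑' A : List B, (if FP h T A ∧ ¬ S (HT h A, Dp z A) then LW Λ A else 0) ≤ q)
    (he : ∑' A : List B, (if FP h T A ∧ T + i0 < HT h A then LW Λ A else 0) ≤ e) :
    ∀ (J n : ℕ), J * (T + i0) ≤ n →
      wn Λ h n (fun L => ¬ Sm h z T i0 S J L) ≤ q ^ J + J * e := by
  intro J
  induction J with
  | zero =>
    intro n _
    rw [pow_zero, Nat.cast_zero, zero_mul, add_zero]
    exact wn_le_one Λ h hU1 n _
  | succ J ih =>
    intro n hn
    have hn' : J * (T + i0) + (T + i0) ≤ n := by
      have : (J + 1) * (T + i0) = J * (T + i0) + (T + i0) := by ring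
      omega
    set g1 : List B × List B → ℝ≥0∞ := fun p =>
      (if FP h T p.1 ∧ T + i0 < HT h p.1 then LW Λ p.1 else 0) *
        (if HT h p.2 = n - HT h p.1 then LW Λ p.2 else 0) with hg1
    set g2 : List B × List B → ℝ≥0∞ := fun p =>
      (if FP h T p.1 ∧ ¬ S (HT h p.1, Dp z p.1) then LW Λ p.1 else 0) *
        (if HT h p.1 ≤ T + i0 ∧ HT h p.2 = n - HT h p.1 ∧ ¬ Sm h z T i0 S J p.2
          then LW Λ p.2 else 0) with hg2
    have hcov : wn Λ h n (fun L => ¬ Sm h z T i0 S (J + 1) L)
        ≤ ∑' p : List B × List B, (g1 p + g2 p) := by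
      refine tsum_cover _ _ (fun p : List B × List B => p.1 ++ p.2) ?_
      intro L hL
      have hc : HT h L = n ∧ ¬ Sm h z T i0 S (J + 1) L := by
        by_contra hcon
        rw [if_neg hcon] at hL
        exact hL rfl
      rw [if_pos hc]
      obtain ⟨h2, h3⟩ := hc
      obtain ⟨A, R, hAR, hF⟩ := exists_FP h L T (by omega)
      refine ⟨(A, R), hAR.symm, ?_⟩
      have h4 : HT h A + HT h R = n := by rw [← HT_append, ← hAR]; exact h2
      rw [hAR, LW_append]
      by_cases hA : T + i0 < HT h A
      · refine le_trans ?_ le_self_add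
        simp only [hg1]
        rw [if_pos ⟨hF, hA⟩, if_pos (by omega)]
      · refine le_trans ?_ le_add_self
        have h6 : ¬ (S (HT h A, Dp z A) ∨ Sm h z T i0 S J R) := fun hh =>
          h3 ⟨A, R, hAR, hF, by omega, hh⟩
        rw [not_or] at h6
        simp only [hg2]
        rw [if_pos ⟨hF, h6.1⟩, if_pos ⟨by omega, by omega, h6.2⟩]
    refine hcov.trans ?_
    rw [ENNReal.tsum_add, ENNReal.tsum_prod', ENNReal.tsum_prod']
    have b1 : ∑' (A : List B) (R : List B), g1 (A, R) ≤ e := by
      refine le_trans (ENNReal.tsum_le_tsum fun A => ?_) he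
      simp only [hg1]
      rw [ENNReal.tsum_mul_left]
      calc _ ≤ (if FP h T A ∧ T + i0 < HT h A then LW Λ A else 0) * 1 :=
            mul_le_mul_right (hU1 _) _
        _ = _ := mul_one _
    have b2 : ∑' (A : List B) (R : List B), g2 (A, R) ≤ q * (q ^ J + J * e) := by
      calc _ ≤ ∑' A : List B, (if FP h T A ∧ ¬ S (HT h A, Dp z A) then LW Λ A else 0)
            * (q ^ J + J * e) := by
            refine ENNReal.tsum_le_tsum fun A => ?_
            simp only [hg2]
            rw [ENNReal.tsum_mul_left]
            refine mul_le_mul_right ?_ _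
            by_cases hA : HT h A ≤ T + i0
            · refine le_trans (ENNReal.tsum_le_tsum fun R => ?_) (ih (n - HT h A) (by omega))
              by_cases hR : HT h R = n - HT h A ∧ ¬ Sm h z T i0 S J R
              · rw [if_pos ⟨hA, hR⟩, if_pos hR]
              · rw [if_neg (fun hh => hR hh.2)]; exact zero_le
            · have : ∀ R : List B, (if HT h A ≤ T + i0 ∧ HT h R = n - HT h A ∧
                  ¬ Sm h z T i0 S J R then LW Λ R else 0) = 0 := fun R => if_neg (fun hh => hA hh.1)
              simp only [this, tsum_zero]; exact zero_le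
        _ = _ * (q ^ J + J * e) := by rw [ENNReal.tsum_mul_right]
        _ ≤ q * (q ^ J + J * e) := mul_le_mul_left hq _
    calc _ ≤ e + q * (q ^ J + J * e) := add_le_add b1 b2
      _ = q ^ (J + 1) + (e + q * (J * e)) := by ring
      _ ≤ q ^ (J + 1) + (e + 1 * (J * e)) := by gcongr
      _ = _ := by push_cast; ring

end one

end Crest.Agent.R154.Asm642
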