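import Crest.Agent.R154.AsmA_789
import Crest.Agent.R154.FP_178

/-! Row 154, ROAD 801 (helper648): assembly, part 1: pieces and one-walker decomposition. -/

set_option autoImplicit false

namespace Crest.Agent.R154.Asm648

open scoped ENNReal
open Crest.Agent.R154.B5A

variable {B : Type*} (Λ : B → ℝ≥0∞) (ht : B → ℕ)

/-- pieces: first passages of height `T` -/
abbrev Pc (T : ℕ) : Type _ := {L : List B // FP178.fp ht T L}

noncomputable def wP (T : ℕ) (P : Pc ht T) : ℝ≥0∞ := LW Λ P.1

def hP (T : ℕ) (P : Pc ht T) : ℕ := HT ht P.1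

def fl {T : ℕ} (Q : List (Pc ht T)) : List B := (Q.map Subtype.val).flatten

lemma fl_nil {T : ℕ} : fl ht ([] : List (Pc ht T)) = [] := rfl

lemma fl_cons {T : ℕ} (P : Pc ht T) (Q : List (Pc ht T)) : fl ht (P :: Q) = P.1 ++ fl ht Q := by
  simp [fl]

lemma fl_append {T : ℕ} (Q Q' : List (Pc ht T)) : fl ht (Q ++ Q') = fl ht Q ++ fl ht Q' := by
  simp [fl]

lemma HT_fl {T : ℕ} (Q : List (Pc ht T)) : HT ht (fl ht Q) = HT (hP ht T) Q := by
  induction Q with
  | nil => simp [fl_nil, HT_nil]
  | cons P Q ih => rw [fl_cons, HT_append, HT_cons, ih]; rfl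

lemma le_hP {T : ℕ} (P : Pc ht T) : T ≤ hP ht T P := FP178.le_HT_of_fp ht P.2

lemma tsum_pc {T : ℕ} (f : List B → ℝ≥0∞) :
    ∑' P : Pc ht T, f P.1 = ∑' L, Set.indicator {L | FP178.fp ht T L} f L :=
  tsum_subtype {L | FP178.fp ht T L} f

lemma sum_wP_le (h1 : ∀ b, 1 ≤ ht b) (hΛ : ∑' b, Λ b = 1) (T : ℕ) : ∑' P, wP Λ ht T P ≤ 1 := by
  classical
  have := FP178.sum_FP Λ ht h1 hΛ.le T
  refine le_trans (le_of_eq ?_) this
  rw [show (∑' P, wP Λ ht T P) = ∑' P : Pc ht T, (LW Λ) P.1 from rfl, tsum_pc ht (LW Λ)]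
  refine tsum_congr fun L => ?_
  simp [Set.indicator]

open Classical in
lemma sum_FP_eq (h1 : ∀ b, 1 ≤ ht b) (hΛ : ∑' b, Λ b = 1) (a : ℕ) :
    ∑' L, (if FP178.fp ht a L then LW Λ L else 0) = 1 := by
  induction a using Nat.strong_induction_on with
  | _ a ih =>
    rcases Nat.eq_zero_or_pos a with rfl | ha
    · have := FP178.sum_fp_zero Λ ht (fun _ => 1)
      simp only [mul_one] at this
      exact this
    · have := FP178.sum_fp_step Λ ht a ha (fun _ => 1)
      simp only [mul_one] at this
      rw [this]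
      calc ∑' b, Λ b * ∑' L, (if FP178.fp ht (a - ht b) L then LW Λ L else 0)
          = ∑' b, Λ b * 1 := by
            refine tsum_congr fun b => ?_
            rw [ih (a - ht b) (by have := h1 b; omega)]
        _ = 1 := by simpa using hΛ

lemma sum_wP (h1 : ∀ b, 1 ≤ ht b) (hΛ : ∑' b, Λ b = 1) (T : ℕ) : ∑' P, wP Λ ht T P = 1 := by
  classical
  have := sum_FP_eq Λ ht h1 hΛ T
  refine Eq.trans ?_ this
  rw [show (∑' P, wP Λ ht T P) = ∑' P : Pc ht T, (LW Λ) P.1 from rfl, tsum_pc ht (LW Λ)]
  refine tsum_congr fun L => ?_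
  simp [Set.indicator]

open Classical in
lemma over_wP (h1 : ∀ b, 1 ≤ ht b) (hU1 : ∀ n, U Λ ht n ≤ 1) (T i : ℕ) :
    ∑' P : Pc ht T, (if T + i < hP ht T P then wP Λ ht T P else 0) ≤ ∑' k, tail Λ ht (i + k) := by
  refine le_trans (le_of_eq ?_) (FP178.overshoot Λ ht h1 hU1 i T)
  rw [show (∑' P : Pc ht T, (if T + i < hP ht T P then wP Λ ht T P else 0))
    = ∑' P : Pc ht T, (fun L : List B => if T + i < HT ht L then LW Λ L else 0) P.1 from rfl,
    tsum_pc ht (fun L : List B => if T + i < HT ht L then LW Λ L else 0)]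
  refine tsum_congr fun L => ?_
  by_cases h : FP178.fp ht T L <;> simp [Set.indicator, h]

open Classical in
/-- decomposition of a list of height `n` into `J` pieces and a rest -/
theorem decomp (h1 : ∀ b, 1 ≤ ht b) (hΛ : ∑' b, Λ b = 1) (hU1 : ∀ n, U Λ ht n ≤ 1)
    (T i0 : ℕ) (η : ℝ≥0∞)
    (hη : ∑' P : Pc ht T, (if T + i0 < hP ht T P then wP Λ ht T P else 0) ≤ η) (J : ℕ) :
    ∀ (n : ℕ) (F : List B → ℝ≥0∞), (∀ L, F L ≤ 1) → J * (T + i0) ≤ n →
    ∑' L, (if HT ht L = n then LW Λ L * F L else 0) ≤
      SL (wP Λ ht T) J (fun Q => if (∀ P ∈ Q, hP ht T P ≤ T + i0) then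
        ∑' R, (if HT ht (fl ht Q) + HT ht R = n then LW Λ R * F (fl ht Q ++ R) else 0) else 0)
      + J * η := by
  induction J with
  | zero =>
    intro n F hF hn
    rw [SL_zero]
    simp [fl_nil, HT_nil]
  | succ J ih =>
    intro n F hF hn
    have hT : T ≤ n := by nlinarith [Nat.zero_le (J * (T + i0))]
    have hsp := FP178.split Λ ht h1 T (fun L => if HT ht L = n then F L else 0)
    have e1 : ∑' L, (if HT ht L = n then LW Λ L * F L else 0)
        = ∑' P : Pc ht T, wP Λ ht T P * ∑' L2, (if HT ht P.1 + HT ht L2 = n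
            then LW Λ L2 * F (P.1 ++ L2) else 0) := by
      calc ∑' L, (if HT ht L = n then LW Λ L * F L else 0)
          = ∑' L, (if T ≤ HT ht L then LW Λ L * (if HT ht L = n then F L else 0) else 0) := by
            refine tsum_congr fun L => ?_
            by_cases h : HT ht L = n
            · simp [h, hT]
            · simp [h]
        _ = _ := hsp
        _ = ∑' P : Pc ht T, (fun L1 : List B => LW Λ L1 * ∑' L2, LW Λ L2 *
              (if HT ht (L1 ++ L2) = n then F (L1 ++ L2) else 0)) P.1 := by
            rw [tsum_pc ht (fun L1 : List B => LW Λ L1 * ∑' L2, LW Λ L2 *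
              (if HT ht (L1 ++ L2) = n then F (L1 ++ L2) else 0))]
            refine tsum_congr fun L => ?_
            by_cases h : FP178.fp ht T L <;> simp [Set.indicator, h]
        _ = _ := by
            refine tsum_congr fun P => ?_
            show LW Λ P.1 * _ = LW Λ P.1 * _
            congr 1
            refine tsum_congr fun L2 => ?_
            rw [HT_append]
            by_cases h : HT ht P.1 + HT ht L2 = n <;> simp [h]
    rw [e1, SL_succ]
    have key : ∀ P : Pc ht T, wP Λ ht T P * ∑' L2, (if HT ht P.1 + HT ht L2 = n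
            then LW Λ L2 * F (P.1 ++ L2) else 0)
        ≤ wP Λ ht T P * SL (wP Λ ht T) J (fun Q => if (∀ P' ∈ P :: Q, hP ht T P' ≤ T + i0) then
            ∑' R, (if HT ht (fl ht (P :: Q)) + HT ht R = n then
              LW Λ R * F (fl ht (P :: Q) ++ R) else 0) else 0)
          + (wP Λ ht T P * (J * η) + (if T + i0 < hP ht T P then wP Λ ht T P else 0)) := by
      intro P
      by_cases hP' : T + i0 < hP ht T P
      · rw [if_pos hP']
        refine le_trans ?_ (le_add_left (le_add_left le_rfl))
        calc wP Λ ht T P * ∑' L2, (if HT ht P.1 + HT ht L2 = n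
            then LW Λ L2 * F (P.1 ++ L2) else 0) ≤ wP Λ ht T P * 1 := by
              refine mul_le_mul_right ?_ _
              refine le_trans ?_ (hU1 (n - HT ht P.1))
              rw [U]
              refine ENNReal.tsum_le_tsum fun L => ?_
              by_cases h : HT ht P.1 + HT ht L = n
              · rw [if_pos h, if_pos (by omega)]
                calc LW Λ L * F (P.1 ++ L) ≤ LW Λ L * 1 := mul_le_mul_right (hF _) _
                  _ = _ := mul_one _
              · rw [if_neg h]; exact zero_le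
          _ = _ := mul_one _
      · rw [if_neg hP', add_zero, ← mul_add]
        refine mul_le_mul_right ?_ _
        have hle : hP ht T P ≤ T + i0 := not_lt.1 hP'
        have hle' : HT ht P.1 ≤ T + i0 := hle
        have hn2 : J * (T + i0) ≤ n - HT ht P.1 := by
          have : (J + 1) * (T + i0) = J * (T + i0) + (T + i0) := by ring
          omega
        have hPn : HT ht P.1 ≤ n := by
          have : (J + 1) * (T + i0) = J * (T + i0) + (T + i0) := by ring
          omega
        have := ih (n - HT ht P.1) (fun L => F (P.1 ++ L)) (fun L => hF _) hn2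
        refine le_trans (le_of_eq ?_) (this.trans (add_le_add (SL_mono _ J fun Q _ => ?_) le_rfl))
        · refine tsum_congr fun L => ?_
          by_cases h : HT ht P.1 + HT ht L = n
          · rw [if_pos h, if_pos (by omega)]
          · rw [if_neg h, if_neg (by omega)]
        · by_cases hQ : ∀ P' ∈ Q, hP ht T P' ≤ T + i0
          · have hQ2 : ∀ P' ∈ P :: Q, hP ht T P' ≤ T + i0 := by
              intro P' hP2
              rcases List.mem_cons.1 hP2 with rfl | h
              · exact hle
              · exact hQ P' h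
            rw [if_pos hQ, if_pos hQ2]
            refine ENNReal.tsum_le_tsum fun R => ?_
            rw [fl_cons, HT_append, List.append_assoc]
            by_cases h : HT ht (fl ht Q) + HT ht R = n - HT ht P.1
            · rw [if_pos h, if_pos (by omega)]
            · rw [if_neg h]; exact zero_le
          · rw [if_neg hQ]; exact zero_le
    refine (ENNReal.tsum_le_tsum key).trans ?_
    rw [ENNReal.tsum_add, ENNReal.tsum_add, ENNReal.tsum_mul_right]
    refine add_le_add le_rfl ?_
    calc (∑' P, wP Λ ht T P) * (J * η) + ∑' P : Pc ht T, (if T + i0 < hP ht T P then wP Λ ht T P else 0)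
        ≤ 1 * (J * η) + η := add_le_add (mul_le_mul_left (sum_wP_le Λ ht h1 hΛ T) _) hη
      _ = _ := by push_cast; ring

end Crest.Agent.R154.Asm648
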