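import Crest.Agent.R154.AsmA_867
import Crest.Agent.R154.FP_178
import Crest.Agent.R154.AsmA_789
import Crest.Agent.R154.Sel_300

/-! Row 154 (helper703), ROAD 801: the abstract assembly, part 1:
three-piece split of one walker and of the pair. -/

set_option autoImplicit false

namespace Crest.Agent.R154.Asm703

open scoped ENNReal
open B5A Asm867

section one

variable {B : Type*} {G : Type*} [AddCommGroup G] (Λ : B → ℝ≥0∞) (ht : B → ℕ) (z : B → G)

lemma fp_of_FP {T : ℕ} {L : List B} (h : FP ht T L) : FP178.fp ht T L := by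
  induction L generalizing T with
  | nil =>
    have := h.1
    rw [HT_nil] at this
    rw [FP178.fp_nil]; omega
  | cons b L ih =>
    rw [FP178.fp_cons]
    refine ⟨?_, ih ?_⟩
    · have := h.2 [] (b :: L) rfl (by simp)
      rwa [HT_nil] at this
    · have := FP_rest ht T (V := [b]) (W := L) h
      rwa [HT_cons, HT_nil, add_zero] at this

open Classical in
lemma ovr (h1 : ∀ b, 1 ≤ ht b) (hU1 : ∀ n, U Λ ht n ≤ 1) (i a : ℕ) :
    ∑' L, (if FP ht a L ∧ a + i < HT ht L then LW Λ L else 0) ≤ ∑' k, tail Λ ht (i + k) := by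
  refine le_trans (ENNReal.tsum_le_tsum fun L => ?_) (FP178.overshoot Λ ht h1 hU1 i a)
  by_cases h : FP ht a L ∧ a + i < HT ht L
  · rw [if_pos h, if_pos ⟨fp_of_FP ht h.1, h.2⟩]
  · rw [if_neg h]; exact zero_le

open Classical in
lemma rest_le (hU1 : ∀ n, U Λ ht n ≤ 1) (n : ℕ) (V : List B) (f : List B → ℝ≥0∞) (c : ℝ≥0∞)
    (hf : ∀ R, HT ht V + HT ht R = n → f (V ++ R) ≤ c) :
    ∑' R, (if HT ht (V ++ R) = n then LW Λ (V ++ R) * f (V ++ R) else 0) ≤ LW Λ V * c := by
  calc ∑' R, (if HT ht (V ++ R) = n then LW Λ (V ++ R) * f (V ++ R) else 0)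
      ≤ ∑' R, (LW Λ V * c) * (if HT ht R = n - HT ht V then LW Λ R else 0) := by
        refine ENNReal.tsum_le_tsum fun R => ?_
        by_cases h : HT ht (V ++ R) = n
        · rw [if_pos h]
          rw [HT_append] at h
          rw [if_pos (by omega), LW_append]
          calc LW Λ V * LW Λ R * f (V ++ R) ≤ LW Λ V * LW Λ R * c :=
                mul_le_mul_right (hf R h) _
            _ = LW Λ V * c * LW Λ R := by ring
        · rw [if_neg h]; exact zero_le
    _ = LW Λ V * c * U Λ ht (n - HT ht V) := by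
        rw [ENNReal.tsum_mul_left, U]
    _ ≤ LW Λ V * c * 1 := mul_le_mul_right (hU1 _) _
    _ = LW Λ V * c := mul_one _

/-- fitting first pieces -/
def Sp (a0 T i0 : ℕ) (A P : List B) : Prop :=
  (FP ht a0 A ∧ HT ht A ≤ a0 + i0) ∧ (FP ht T P ∧ HT ht P ≤ T + i0)

open Classical in
lemma OW (h1 : ∀ b, 1 ≤ ht b) (hΛ : ∑' b, Λ b ≤ 1) (hU1 : ∀ n, U Λ ht n ≤ 1)
    (a0 T i0 n : ℕ) (hn : a0 + i0 + T ≤ n)
    (f : List B → ℝ≥0∞) (hf1 : ∀ L, f L ≤ 1) (φ : List B → List B → ℝ≥0∞)
    (hφ : ∀ A P R, Sp ht a0 T i0 A P → HT ht A + HT ht P + HT ht R = n →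
      f (A ++ (P ++ R)) ≤ φ A P) :
    ∑' L, (if HT ht L = n then LW Λ L * f L else 0)
      ≤ 2 * (∑' k, tail Λ ht (i0 + k)) + ∑' A, ∑' P,
        (if Sp ht a0 T i0 A P then LW Λ A * LW Λ P * φ A P else 0) := by
  set ov := ∑' k, tail Λ ht (i0 + k) with hov
  set F : List B → ℝ≥0∞ := fun L => if HT ht L = n then LW Λ L * f L else 0 with hF
  have hFn : ∀ L, F L ≠ 0 → HT ht L = n := by
    intro L hL
    by_contra h
    exact hL (by simp only [hF]; rw [if_neg h])
  have s1 : ∑' L, F L ≤ ∑' A, ∑' W, if FP ht a0 A then F (A ++ W) else 0 := by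
    refine dec_le F (FP ht a0) fun L hL => ?_
    exact exists_FP ht a0 L (by rw [hFn L hL]; omega)
  refine s1.trans ?_
  have s2 : ∀ A, (∑' W, if FP ht a0 A then F (A ++ W) else 0)
      ≤ (if FP ht a0 A ∧ a0 + i0 < HT ht A then LW Λ A else 0)
        + ((if FP ht a0 A then LW Λ A else 0) * ov
        + ∑' P, (if Sp ht a0 T i0 A P then LW Λ A * LW Λ P * φ A P else 0)) := by
    intro A
    by_cases hA : FP ht a0 A
    · simp only [if_pos hA]
      by_cases hA2 : a0 + i0 < HT ht A
      · rw [if_pos ⟨hA, hA2⟩]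
        refine le_trans ?_ le_self_add
        have := rest_le Λ ht hU1 n A f 1 (fun R _ => hf1 _)
        rwa [mul_one] at this
      · rw [if_neg (fun h => hA2 h.2), zero_add]
        have s3 : ∑' W, F (A ++ W) ≤ ∑' P, ∑' R, if FP ht T P then F (A ++ (P ++ R)) else 0 := by
          refine dec_le (fun W => F (A ++ W)) (FP ht T) fun W hW => ?_
          refine exists_FP ht T W ?_
          have := hFn _ hW
          rw [HT_append] at this
          omega
        refine s3.trans ?_
        have s4 : ∀ P, (∑' R, if FP ht T P then F (A ++ (P ++ R)) else 0)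
            ≤ LW Λ A * (if FP ht T P ∧ T + i0 < HT ht P then LW Λ P else 0)
              + (if Sp ht a0 T i0 A P then LW Λ A * LW Λ P * φ A P else 0) := by
          intro P
          by_cases hP : FP ht T P
          · simp only [if_pos hP]
            have e : ∀ R, F (A ++ (P ++ R)) = if HT ht ((A ++ P) ++ R) = n then
                LW Λ ((A ++ P) ++ R) * f ((A ++ P) ++ R) else 0 := by
              intro R
              rw [← List.append_assoc]
            rw [tsum_congr e]
            by_cases hP2 : T + i0 < HT ht P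
            · rw [if_pos ⟨hP, hP2⟩]
              refine le_trans ?_ le_self_add
              have := rest_le Λ ht hU1 n (A ++ P) f 1 (fun R _ => hf1 _)
              rwa [mul_one, LW_append] at this
            · rw [if_neg (fun h => hP2 h.2), mul_zero, zero_add]
              have hS : Sp ht a0 T i0 A P := ⟨⟨hA, by omega⟩, ⟨hP, by omega⟩⟩
              rw [if_pos hS]
              have := rest_le Λ ht hU1 n (A ++ P) f (φ A P) (fun R hR => by
                rw [List.append_assoc]
                exact hφ A P R hS (by rw [HT_append] at hR; exact hR))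
              rwa [LW_append] at this
          · simp only [if_neg hP, tsum_zero]
            exact zero_le
        refine (ENNReal.tsum_le_tsum s4).trans ?_
        rw [ENNReal.tsum_add, ENNReal.tsum_mul_left]
        gcongr
        exact ovr Λ ht h1 hU1 i0 T
    · simp only [if_neg hA, tsum_zero]
      exact zero_le
  refine (ENNReal.tsum_le_tsum s2).trans ?_
  rw [ENNReal.tsum_add, ENNReal.tsum_add, ENNReal.tsum_mul_right, two_mul, ← add_assoc]
  gcongr
  · exact ovr Λ ht h1 hU1 i0 a0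
  · calc (∑' A, if FP ht a0 A then LW Λ A else 0) * ov ≤ 1 * ov :=
          mul_le_mul_left (FP_mass Λ ht h1 hΛ a0) _
      _ = ov := one_mul _

end one

section two

variable {BX BY : Type*} (ΛX : BX → ℝ≥0∞) (ΛY : BY → ℝ≥0∞) (hX : BX → ℕ) (hY : BY → ℕ)

open Classical in
/-- three pieces of both walkers -/
theorem TW (h1X : ∀ b, 1 ≤ hX b) (hΛX : ∑' b, ΛX b ≤ 1) (hUX : ∀ n, U ΛX hX n ≤ 1)
    (h1Y : ∀ b, 1 ≤ hY b) (hΛY : ∑' b, ΛY b ≤ 1) (hUY : ∀ n, U ΛY hY n ≤ 1)
    (a0 T a0' T' i0 n : ℕ) (hn : a0 + i0 + T ≤ n) (hn' : a0' + i0 + T' ≤ n)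
    (Ev : List BX → List BY → Prop) (Q : List BX → List BX → List BY → List BY → Prop)
    (hQ : ∀ A P R A' P' R', Sp hX a0 T i0 A P → Sp hY a0' T' i0 A' P' →
      HT hX A + HT hX P + HT hX R = n → HT hY A' + HT hY P' + HT hY R' = n →
      Ev (A ++ (P ++ R)) (A' ++ (P' ++ R')) → Q A P A' P') :
    ∑' LX, ∑' LY, (if HT hX LX = n ∧ HT hY LY = n ∧ Ev LX LY then LW ΛX LX * LW ΛY LY else 0)
      ≤ 2 * (∑' k, tail ΛX hX (i0 + k)) + 2 * (∑' k, tail ΛY hY (i0 + k))
        + ∑' A, ∑' P, ∑' A', ∑' P', (if (Sp hX a0 T i0 A P ∧ Sp hY a0' T' i0 A' P') ∧ Q A P A' P'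
          then LW ΛX A * LW ΛX P * (LW ΛY A' * LW ΛY P') else 0) := by
  set ovX := ∑' k, tail ΛX hX (i0 + k) with hovX
  set ovY := ∑' k, tail ΛY hY (i0 + k) with hovY
  have e1 : ∀ LX, (∑' LY, (if HT hX LX = n ∧ HT hY LY = n ∧ Ev LX LY
      then LW ΛX LX * LW ΛY LY else 0))
      = if HT hX LX = n then LW ΛX LX * ∑' LY, (if HT hY LY = n then
        LW ΛY LY * (if Ev LX LY then 1 else 0) else 0) else 0 := by
    intro LX
    by_cases h : HT hX LX = n
    · rw [if_pos h, ← ENNReal.tsum_mul_left]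
      refine tsum_congr fun LY => ?_
      by_cases h2 : HT hY LY = n <;> by_cases h3 : Ev LX LY <;> simp [h, h2, h3]
    · rw [if_neg h]
      refine ENNReal.tsum_eq_zero.2 fun LY => if_neg fun h' => h h'.1
  rw [tsum_congr e1]
  have h01 : ∀ (LX : List BX) (LY : List BY), (if Ev LX LY then (1 : ℝ≥0∞) else 0) ≤ 1 :=
    fun LX LY => by split_ifs <;> simp
  have hf1 : ∀ LX, (∑' LY, (if HT hY LY = n then
        LW ΛY LY * (if Ev LX LY then (1 : ℝ≥0∞) else 0) else 0)) ≤ 1 := by
    intro LX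
    refine le_trans (ENNReal.tsum_le_tsum fun LY => ?_) (hUY n)
    split_ifs <;> simp
  refine (OW ΛX hX h1X hΛX hUX a0 T i0 n hn _ hf1 (fun A P => 2 * ovY + ∑' A', ∑' P',
    (if Sp hY a0' T' i0 A' P' then LW ΛY A' * LW ΛY P' * (if Q A P A' P' then 1 else 0) else 0))
    ?_).trans ?_
  · intro A P R hS hR
    refine OW ΛY hY h1Y hΛY hUY a0' T' i0 n hn' _ (h01 _) _ ?_
    intro A' P' R' hS' hR'
    by_cases h : Ev (A ++ (P ++ R)) (A' ++ (P' ++ R'))
    · rw [if_pos h, if_pos (hQ A P R A' P' R' hS hS' hR hR' h)]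
    · rw [if_neg h]; exact zero_le
  · have e2 : ∀ A P, (if Sp hX a0 T i0 A P then LW ΛX A * LW ΛX P * (2 * ovY + ∑' A', ∑' P',
          (if Sp hY a0' T' i0 A' P' then LW ΛY A' * LW ΛY P' * (if Q A P A' P' then 1 else 0)
            else 0)) else 0)
        ≤ (2 * ovY) * ((if FP hX a0 A then LW ΛX A else 0) * (if FP hX T P then LW ΛX P else 0))
        + ∑' A', ∑' P', (if (Sp hX a0 T i0 A P ∧ Sp hY a0' T' i0 A' P') ∧ Q A P A' P'
          then LW ΛX A * LW ΛX P * (LW ΛY A' * LW ΛY P') else 0) := by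
      intro A P
      by_cases hS : Sp hX a0 T i0 A P
      · rw [if_pos hS, if_pos hS.1.1, if_pos hS.2.1, mul_add]
        refine add_le_add (le_of_eq (by ring)) (le_of_eq ?_)
        rw [← ENNReal.tsum_mul_left]
        refine tsum_congr fun A' => ?_
        rw [← ENNReal.tsum_mul_left]
        refine tsum_congr fun P' => ?_
        by_cases h2 : Sp hY a0' T' i0 A' P' <;> by_cases h3 : Q A P A' P' <;> simp [hS, h2, h3]
      · rw [if_neg hS]; exact zero_le
    have e3 : (∑' A, ∑' P, (if Sp hX a0 T i0 A P then LW ΛX A * LW ΛX P * (2 * ovY + ∑' A', ∑' P',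
          (if Sp hY a0' T' i0 A' P' then LW ΛY A' * LW ΛY P' * (if Q A P A' P' then 1 else 0)
            else 0)) else 0)) ≤ 2 * ovY +
          ∑' A, ∑' P, ∑' A', ∑' P', (if (Sp hX a0 T i0 A P ∧ Sp hY a0' T' i0 A' P') ∧ Q A P A' P'
          then LW ΛX A * LW ΛX P * (LW ΛY A' * LW ΛY P') else 0) := by
      refine (ENNReal.tsum_le_tsum fun A => ENNReal.tsum_le_tsum fun P => e2 A P).trans ?_
      simp only [ENNReal.tsum_add, ENNReal.tsum_mul_left, ENNReal.tsum_mul_right]
      refine add_le_add ?_ le_rfl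
      calc 2 * ovY * ((∑' A, if FP hX a0 A then LW ΛX A else 0) *
            ∑' P, if FP hX T P then LW ΛX P else 0)
          ≤ 2 * ovY * (1 * 1) := by
            gcongr
            · exact FP_mass ΛX hX h1X hΛX a0
            · exact FP_mass ΛX hX h1X hΛX T
        _ = 2 * ovY := by ring
    rw [add_assoc]
    gcongr

end two

end Crest.Agent.R154.Asm703
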