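import Crest.Agent.R154.FP_178

/-! Row 154 (helper740), ROAD 801, assembly, part 1: decomposition of a list of blocks into `J`
first-passage pieces, smooth density of the displacement after `j` pieces. -/

set_option autoImplicit false

namespace Crest.Agent.R154.AsmP740

open scoped ENNReal
open Crest.Agent.R154.B5A Crest.Agent.R154.FP178

variable {B : Type*} (Λ : B → ℝ≥0∞) (ht : B → ℕ)

open Classical in
/-- weight of a piece: first passage of `T` with overshoot at most `i0` -/
noncomputable def pw (T i0 : ℕ) (P : List B) : ℝ≥0∞ :=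
  if fp ht T P ∧ HT ht P ≤ T + i0 then LW Λ P else 0

lemma pw_sum (h1 : ∀ b, 1 ≤ ht b) (hΛ : ∑' b, Λ b ≤ 1) (T i0 : ℕ) :
    ∑' P, pw Λ ht T i0 P ≤ 1 := by
  classical
  refine le_trans (ENNReal.tsum_le_tsum fun P => ?_) (sum_FP Λ ht h1 hΛ T)
  unfold pw
  by_cases h : fp ht T P
  · by_cases h' : HT ht P ≤ T + i0 <;> simp [h, h']
  · simp [h]

lemma pw_ne {T i0 : ℕ} {P : List B} (h : pw Λ ht T i0 P ≠ 0) :
    fp ht T P ∧ HT ht P ≤ T + i0 := by
  classical
  unfold pw at h
  by_contra h'
  rw [if_neg h'] at h
  exact h rfl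

/-- sums over lists of pieces of total mass at most one -/
lemma SL_le_one {A : Type*} (q : A → ℝ≥0∞) (hq : ∑' a, q a ≤ 1) (j : ℕ) {F : List A → ℝ≥0∞}
    (hF : ∀ L, F L ≤ 1) : SL q j F ≤ 1 := by
  refine (SL_mono q j (fun L _ => hF L)).trans ?_
  rw [SL_pow]
  exact pow_le_one₀ zero_le hq

lemma SL_le_const {A : Type*} (q : A → ℝ≥0∞) (hq : ∑' a, q a ≤ 1) (j : ℕ) {F : List A → ℝ≥0∞}
    {c : ℝ≥0∞} (hF : ∀ L, F L ≤ c) : SL q j F ≤ c := by
  refine (SL_mono q j (fun L _ => hF L)).trans ?_
  have := SL_const_mul q j c (fun _ => 1)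
  simp only [mul_one] at this
  rw [this, SL_pow]
  calc c * (∑' b, q b) ^ j ≤ c * 1 := mul_le_mul_right (pow_le_one₀ zero_le hq) _
    _ = c := mul_one _

open Classical in
/-- **(A1)** decomposition into `J` pieces. -/
theorem decomp (h1 : ∀ b, 1 ≤ ht b) (hΛ : ∑' b, Λ b ≤ 1) (hU1 : ∀ n, U Λ ht n ≤ 1) (T i0 : ℕ)
    (ε : ℝ≥0∞) (hε : ∑' L, (if fp ht T L ∧ T + i0 < HT ht L then LW Λ L else 0) ≤ ε) (J : ℕ) :
    ∀ (n : ℕ) (F : List B → ℝ≥0∞), (∀ L, F L ≤ 1) → J * (T + i0) ≤ n →
      ∑' L, (if HT ht L = n then LW Λ L * F L else 0)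
        ≤ SL (pw Λ ht T i0) J (fun Ps => ∑' R, (if HT ht Ps.flatten + HT ht R = n then
            LW Λ R * F (Ps.flatten ++ R) else 0)) + J * ε := by
  induction J with
  | zero =>
    intro n F hF hn
    rw [SL_zero]
    simp [HT_nil]
  | succ J ih =>
    intro n F hF hn
    have hTn : T ≤ n := by nlinarith
    have e0 : ∑' L, (if HT ht L = n then LW Λ L * F L else 0)
        = ∑' L, (if T ≤ HT ht L then LW Λ L * (if HT ht L = n then F L else 0) else 0) := by
      refine tsum_congr fun L => ?_
      by_cases h : HT ht L = n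
      · rw [if_pos h, if_pos (by omega), if_pos h]
      · rw [if_neg h, if_neg h, mul_zero]; split_ifs <;> rfl
    rw [e0, split Λ ht h1 T (fun L => if HT ht L = n then F L else 0)]
    -- bound each first piece
    have hb : ∀ P : List B, (if fp ht T P then LW Λ P * ∑' L2, LW Λ L2 *
          (if HT ht (P ++ L2) = n then F (P ++ L2) else 0) else 0)
        ≤ pw Λ ht T i0 P * (SL (pw Λ ht T i0) J (fun Ps => ∑' R,
            (if HT ht (P :: Ps).flatten + HT ht R = n then
            LW Λ R * F ((P :: Ps).flatten ++ R) else 0)) + J * ε)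
          + (if fp ht T P ∧ T + i0 < HT ht P then LW Λ P else 0) := by
      intro P
      by_cases hP : fp ht T P
      · rw [if_pos hP]
        have e1 : ∑' L2, LW Λ L2 * (if HT ht (P ++ L2) = n then F (P ++ L2) else 0)
            = ∑' L2, (if HT ht P + HT ht L2 = n then LW Λ L2 * F (P ++ L2) else 0) := by
          refine tsum_congr fun L2 => ?_
          rw [HT_append]
          split_ifs <;> simp
        rw [e1]
        by_cases hi : HT ht P ≤ T + i0
        · have hpw : pw Λ ht T i0 P = LW Λ P := by
            unfold pw; rw [if_pos ⟨hP, hi⟩]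
          rw [hpw]
          refine le_add_right (mul_le_mul_right ?_ _)
          have hPn : HT ht P ≤ n := by nlinarith
          have e2 : ∀ L2 : List B, (HT ht P + HT ht L2 = n) = (HT ht L2 = n - HT ht P) := by
            intro L2
            refine propext ⟨fun h => by omega, fun h => by omega⟩
          simp only [e2]
          have hn' : J * (T + i0) ≤ n - HT ht P := by
            have : (J + 1) * (T + i0) = J * (T + i0) + (T + i0) := by ring
            omega
          refine (ih (n - HT ht P) (fun L => F (P ++ L)) (fun L => hF _) hn').trans ?_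
          refine add_le_add_left (le_of_eq (SL_congr _ J fun Ps _ => ?_)) _
          refine tsum_congr fun R => ?_
          rw [List.flatten_cons, HT_append, List.append_assoc]
          by_cases h : HT ht Ps.flatten + HT ht R = n - HT ht P
          · rw [if_pos h, if_pos (by omega)]
          · rw [if_neg h, if_neg (by omega)]
        · refine le_add_left ?_
          rw [if_pos ⟨hP, by omega⟩]
          calc LW Λ P * ∑' L2, (if HT ht P + HT ht L2 = n then LW Λ L2 * F (P ++ L2) else 0)
              ≤ LW Λ P * 1 := by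
                refine mul_le_mul_right ?_ _
                by_cases hPn : HT ht P ≤ n
                · refine le_trans (ENNReal.tsum_le_tsum fun L2 => ?_) (hU1 (n - HT ht P))
                  by_cases h : HT ht P + HT ht L2 = n
                  · rw [if_pos h, if_pos (by omega)]
                    calc LW Λ L2 * F (P ++ L2) ≤ LW Λ L2 * 1 := mul_le_mul_right (hF _) _
                      _ = _ := mul_one _
                  · rw [if_neg h]; exact zero_le
                · have : ∀ L2 : List B, ¬ (HT ht P + HT ht L2 = n) := fun L2 => by omega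
                  simp [this]
            _ = LW Λ P := mul_one _
      · rw [if_neg hP]; exact zero_le
    refine (ENNReal.tsum_le_tsum hb).trans ?_
    rw [ENNReal.tsum_add]
    have e3 : ∑' P, pw Λ ht T i0 P * (SL (pw Λ ht T i0) J (fun Ps => ∑' R,
            (if HT ht (P :: Ps).flatten + HT ht R = n then
            LW Λ R * F ((P :: Ps).flatten ++ R) else 0)) + J * ε)
        ≤ SL (pw Λ ht T i0) (J + 1) (fun Ps => ∑' R, (if HT ht Ps.flatten + HT ht R = n then
            LW Λ R * F (Ps.flatten ++ R) else 0)) + J * ε := by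
      simp only [mul_add]
      rw [ENNReal.tsum_add, ENNReal.tsum_mul_right, SL_succ]
      refine add_le_add_right ?_ _
      calc (∑' P, pw Λ ht T i0 P) * (J * ε) ≤ 1 * (J * ε) :=
            mul_le_mul_left (pw_sum Λ ht h1 hΛ T i0) _
        _ = _ := one_mul _
    calc _ ≤ (SL (pw Λ ht T i0) (J + 1) (fun Ps => ∑' R, (if HT ht Ps.flatten + HT ht R = n then
            LW Λ R * F (Ps.flatten ++ R) else 0)) + J * ε) + ε := add_le_add e3 hε
      _ = _ := by push_cast; ring

/-! ### smooth density -/

variable {G : Type*} [AddCommGroup G] (zz : B → G)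

/-- displacement of a list -/
def Dp (z : B → G) (L : List B) : G := (L.map z).sum

lemma Dp_append (L L' : List B) : Dp zz (L ++ L') = Dp zz L + Dp zz L' := by simp [Dp]

lemma Dp_nil : Dp zz ([] : List B) = 0 := by simp [Dp]

lemma SL_tsum {A ι : Type*} (q : A → ℝ≥0∞) (j : ℕ) (F : ι → List A → ℝ≥0∞) :
    SL q j (fun L => ∑' i, F i L) = ∑' i, SL q j (F i) := by
  unfold SL
  rw [ENNReal.tsum_comm]
  refine tsum_congr fun L => ?_
  by_cases h : L.length = j
  · simp only [h, if_true]
    rw [ENNReal.tsum_mul_left]
  · simp [h]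

lemma SL_mul_const {A : Type*} (q : A → ℝ≥0∞) (j : ℕ) (F : List A → ℝ≥0∞) (c : ℝ≥0∞) :
    SL q j (fun L => F L * c) = SL q j F * c := by
  have := SL_const_mul q j c F
  rw [mul_comm, ← this]
  exact SL_congr q j fun L _ => mul_comm _ _

lemma SL_comm {A A' : Type*} (q : A → ℝ≥0∞) (q' : A' → ℝ≥0∞) (j j' : ℕ)
    (F : List A → List A' → ℝ≥0∞) :
    SL q j (fun L => SL q' j' (fun L' => F L L')) = SL q' j' (fun L' => SL q j (fun L => F L L')) := by
  have e : ∀ L, SL q' j' (fun L' => F L L')
      = ∑' L', (if L'.length = j' then LW q' L' * F L L' else 0) := fun L => rfl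
  simp only [e]
  rw [SL_tsum]
  refine tsum_congr fun L' => ?_
  by_cases h : L'.length = j'
  · simp only [h, if_true]
    rw [SL_const_mul]
  · simp only [h, if_false]
    unfold SL
    simp

section smooth

variable {A : Type*} (q : A → ℝ≥0∞) (h : A → ℕ) (z : A → G) (th r : ℝ≥0∞)

open Classical in
/-- mass of the class (height, displacement) of a letter -/
noncomputable def cm (i : ℕ) (y : G) : ℝ≥0∞ := ∑' b, (if h b = i ∧ z b = y then q b else 0)

open Classical in
lemma low_le (c : ℕ) (y : G) (a : ℕ) (x : G) :
    ∑' b, (if cm q h z (h b) (z b) ≤ th ∧ c + h b = a ∧ y + z b = x then q b else 0) ≤ th := by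
  by_cases hex : ∃ b0, cm q h z (h b0) (z b0) ≤ th ∧ c + h b0 = a ∧ y + z b0 = x
  · obtain ⟨b0, hb0, h1, h2⟩ := hex
    refine le_trans (ENNReal.tsum_le_tsum fun b => ?_) hb0
    by_cases hb : cm q h z (h b) (z b) ≤ th ∧ c + h b = a ∧ y + z b = x
    · have hh : h b = h b0 ∧ z b = z b0 :=
        ⟨by have := hb.2.1; omega, add_left_cancel (hb.2.2.trans h2.symm)⟩
      rw [if_pos hb, if_pos hh]
    · rw [if_neg hb]; exact zero_le
  · push Not at hex
    have : ∀ b, ¬ (cm q h z (h b) (z b) ≤ th ∧ c + h b = a ∧ y + z b = x) :=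
      fun b hb => hex b hb.1 hb.2.1 hb.2.2
    simp [this]

open Classical in
/-- **(A2)** sup bound of the good part. -/
theorem smooth_sup (hq : ∑' a, q a ≤ 1)
    (hr : ∑' a, (if cm q h z (h a) (z a) ≤ th then 0 else q a) ≤ r) (j : ℕ) :
    ∀ (c : ℕ) (y : G) (a : ℕ) (x : G),
      SL q j (fun L => if (∃ b ∈ L, cm q h z (h b) (z b) ≤ th) ∧ c + (L.map h).sum = a ∧
        y + (L.map z).sum = x then 1 else 0) ≤ th * ∑ l ∈ Finset.range j, r ^ l := by
  induction j with
  | zero =>
    intro c y a x
    rw [SL_zero]
    simp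
  | succ j ih =>
    intro c y a x
    rw [SL_succ]
    have hb : ∀ b, q b * SL q j (fun L => if (∃ b' ∈ b :: L, cm q h z (h b') (z b') ≤ th) ∧
          c + ((b :: L).map h).sum = a ∧ y + ((b :: L).map z).sum = x then 1 else 0)
        ≤ SL q j (fun L => if cm q h z (h b) (z b) ≤ th ∧ (c + (L.map h).sum) + h b = a ∧
            (y + (L.map z).sum) + z b = x then q b else 0)
          + (if cm q h z (h b) (z b) ≤ th then 0 else q b) * (th * ∑ l ∈ Finset.range j, r ^ l) := by
      intro b
      by_cases hl : cm q h z (h b) (z b) ≤ th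
      · refine le_add_right ?_
        rw [← SL_const_mul]
        refine SL_mono q j fun L _ => ?_
        by_cases hc : (∃ b' ∈ b :: L, cm q h z (h b') (z b') ≤ th) ∧
          c + ((b :: L).map h).sum = a ∧ y + ((b :: L).map z).sum = x
        · have hh : cm q h z (h b) (z b) ≤ th ∧ (c + (L.map h).sum) + h b = a ∧
              (y + (L.map z).sum) + z b = x := by
            refine ⟨hl, ?_, ?_⟩
            · have := hc.2.1
              simp only [List.map_cons, List.sum_cons] at this
              omega
            · have := hc.2.2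
              simp only [List.map_cons, List.sum_cons] at this
              rw [← this]; abel
          rw [if_pos hc, if_pos hh, mul_one]
        · rw [if_neg hc, mul_zero]; exact zero_le
      · refine le_add_left ?_
        rw [if_neg hl]
        refine mul_le_mul_right (le_trans (SL_mono q j fun L _ => ?_) (ih (c + h b) (y + z b) a x)) _
        by_cases hc : (∃ b' ∈ b :: L, cm q h z (h b') (z b') ≤ th) ∧
          c + ((b :: L).map h).sum = a ∧ y + ((b :: L).map z).sum = x
        · have hh : (∃ b' ∈ L, cm q h z (h b') (z b') ≤ th) ∧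
              (c + h b) + (L.map h).sum = a ∧ (y + z b) + (L.map z).sum = x := by
            refine ⟨?_, ?_, ?_⟩
            · obtain ⟨b', hb', hb2⟩ := hc.1
              rcases List.mem_cons.1 hb' with rfl | hb'
              · exact absurd hb2 hl
              · exact ⟨b', hb', hb2⟩
            · have := hc.2.1
              simp only [List.map_cons, List.sum_cons] at this
              omega
            · have := hc.2.2
              simp only [List.map_cons, List.sum_cons] at this
              rw [← this]; abel
          rw [if_pos hc, if_pos hh]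
        · rw [if_neg hc]; exact zero_le
    refine (ENNReal.tsum_le_tsum hb).trans ?_
    rw [ENNReal.tsum_add, ENNReal.tsum_mul_right, ← SL_tsum, Finset.sum_range_succ',
      pow_zero, mul_add, mul_one, add_comm (th * _)]
    refine add_le_add ?_ ?_
    · exact SL_le_const q hq j fun L => low_le q h z th (c + (L.map h).sum) (y + (L.map z).sum) a x
    · calc _ ≤ r * (th * ∑ l ∈ Finset.range j, r ^ l) := mul_le_mul_left hr _
        _ = th * ∑ l ∈ Finset.range j, r ^ (l + 1) := by
          rw [mul_left_comm, Finset.mul_sum]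
          congr 1
          refine Finset.sum_congr rfl fun l _ => ?_
          rw [pow_succ, mul_comm]

omit [AddCommGroup G] in
open Classical in
/-- **(A2)** mass of the bad part. -/
theorem bad_mass (hr : ∑' a, (if cm q h z (h a) (z a) ≤ th then 0 else q a) ≤ r) (j : ℕ) :
    SL q j (fun L => if (∃ b ∈ L, cm q h z (h b) (z b) ≤ th) then 0 else 1) ≤ r ^ j := by
  induction j with
  | zero =>
    rw [SL_zero]
    simp
  | succ j ih =>
    rw [SL_succ]
    have hb : ∀ b, q b * SL q j (fun L => if (∃ b' ∈ b :: L, cm q h z (h b') (z b') ≤ th)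
          then 0 else 1)
        ≤ (if cm q h z (h b) (z b) ≤ th then 0 else q b) * r ^ j := by
      intro b
      by_cases hl : cm q h z (h b) (z b) ≤ th
      · rw [if_pos hl, zero_mul]
        have : ∀ L : List A, (if (∃ b' ∈ b :: L, cm q h z (h b') (z b') ≤ th) then (0 : ℝ≥0∞)
            else 1) = 0 := fun L => by
          rw [if_pos ⟨b, List.mem_cons_self, hl⟩]
        simp only [this]
        unfold SL
        simp
      · rw [if_neg hl]
        refine mul_le_mul_right (le_trans (SL_mono q j fun L _ => ?_) ih) _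
        by_cases hc : ∃ b' ∈ L, cm q h z (h b') (z b') ≤ th
        · obtain ⟨b', hb', hb2⟩ := hc
          rw [if_pos ⟨b', List.mem_cons_of_mem _ hb', hb2⟩]; exact zero_le
        · rw [if_neg hc]
          split_ifs <;> simp
    refine (ENNReal.tsum_le_tsum hb).trans ?_
    rw [ENNReal.tsum_mul_right, pow_succ, mul_comm]
    exact mul_le_mul_right hr _

end smooth

end Crest.Agent.R154.AsmP740
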