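import Crest.Agent.R154.FP_178
import Crest.Agent.R154.Gap_583
import Crest.Agent.R154.Dens_616

/-! Row 154 (helper877), ROAD 801: attempts (first passages) of a single walker as i.i.d. blocks. -/

set_option autoImplicit false

namespace Crest.Agent.R154.Asm877

open scoped ENNReal
open Crest.Agent.R154.B5A
open Crest.Agent.R154.FP178

variable {B : Type*} (Λ : B → ℝ≥0∞) (ht : B → ℕ)

/-- good attempts: first passages of height `T` with overshoot `≤ i0` -/
def Att (T i0 : ℕ) : Type _ := {L : List B // fp ht T L ∧ HT ht L ≤ T + i0}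

/-- weight of an attempt -/
noncomputable def wA (T i0 : ℕ) (A : Att ht T i0) : ℝ≥0∞ := LW Λ A.1

/-- concatenation of a list of attempts -/
def fl {T i0 : ℕ} (P : List (Att ht T i0)) : List B := (P.map (fun A => A.1)).flatten

lemma fl_nil {T i0 : ℕ} : fl ht ([] : List (Att ht T i0)) = [] := rfl

lemma fl_cons {T i0 : ℕ} (A : Att ht T i0) (P : List (Att ht T i0)) :
    fl ht (A :: P) = A.1 ++ fl ht P := rfl

lemma fl_append {T i0 : ℕ} (P Q : List (Att ht T i0)) :
    fl ht (P ++ Q) = fl ht P ++ fl ht Q := by
  simp [fl]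

lemma HT_fl_ge {T i0 : ℕ} (P : List (Att ht T i0)) : P.length * T ≤ HT ht (fl ht P) := by
  induction P with
  | nil => simp
  | cons A P ih =>
    rw [fl_cons, HT_append, List.length_cons]
    have := le_HT_of_fp ht A.2.1
    nlinarith

lemma HT_fl_le {T i0 : ℕ} (P : List (Att ht T i0)) :
    HT ht (fl ht P) ≤ P.length * (T + i0) := by
  induction P with
  | nil => simp [fl_nil, HT_nil]
  | cons A P ih =>
    rw [fl_cons, HT_append, List.length_cons]
    have := A.2.2
    nlinarith

open Classical in
/-- overshoot defect -/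
noncomputable def dlt (T i0 : ℕ) : ℝ≥0∞ := ∑' L, (if fp ht T L ∧ T + i0 < HT ht L then LW Λ L else 0)

open Classical in
lemma sum_FP_eq (h1 : ∀ b, 1 ≤ ht b) (hΛ : ∑' b, Λ b = 1) (a : ℕ) :
    ∑' L, (if fp ht a L then LW Λ L else 0) = 1 := by
  induction a using Nat.strong_induction_on with
  | _ a ih =>
    rcases Nat.eq_zero_or_pos a with rfl | ha
    · have := sum_fp_zero Λ ht (fun _ => 1)
      simp only [mul_one] at this
      exact this
    · have := sum_fp_step Λ ht a ha (fun _ => 1)
      simp only [mul_one] at this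
      rw [this]
      have e : ∀ b, Λ b * ∑' L, (if fp ht (a - ht b) L then LW Λ L else 0) = Λ b := by
        intro b
        rw [ih (a - ht b) (by have := h1 b; omega), mul_one]
      rw [tsum_congr e, hΛ]

open Classical in
lemma tsum_att (T i0 : ℕ) (f : List B → ℝ≥0∞) :
    ∑' A : Att ht T i0, f A.1 = ∑' L, (if fp ht T L ∧ HT ht L ≤ T + i0 then f L else 0) := by
  have := tsum_subtype {L : List B | fp ht T L ∧ HT ht L ≤ T + i0} f
  refine (Eq.trans ?_ this).trans ?_
  · rfl
  · refine tsum_congr fun L => ?_
    simp only [Set.indicator, Set.mem_setOf_eq]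

lemma sum_wA_le (h1 : ∀ b, 1 ≤ ht b) (hΛ : ∑' b, Λ b = 1) (T i0 : ℕ) :
    ∑' A, wA Λ ht T i0 A ≤ 1 := by
  classical
  rw [show (fun A => wA Λ ht T i0 A) = (fun A : Att ht T i0 => LW Λ A.1) from rfl, tsum_att]
  refine le_trans (ENNReal.tsum_le_tsum fun L => ?_) (sum_FP_eq Λ ht h1 hΛ T).le
  by_cases h : fp ht T L
  · by_cases h' : HT ht L ≤ T + i0 <;> simp [h, h']
  · simp [h]

lemma SL_one_le {C : Type*} (W : C → ℝ≥0∞) (hW : ∑' b, W b ≤ 1) (j : ℕ) :
    SL W j (fun _ => 1) ≤ 1 := by
  rw [SL_pow]
  exact pow_le_one' hW j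

lemma SL_const_le {C : Type*} (W : C → ℝ≥0∞) (hW : ∑' b, W b ≤ 1) (j : ℕ) (a : ℝ≥0∞) :
    SL W j (fun _ => a) ≤ a := by
  have := SL_const_mul W j a (fun _ => 1)
  simp only [mul_one] at this
  rw [this]
  calc a * SL W j (fun _ => 1) ≤ a * 1 := mul_le_mul_right (SL_one_le W hW j) _
    _ = a := mul_one a

open Classical in
/-- decomposition of a list of height `n` in `N` good attempts and a rest -/
theorem dec (h1 : ∀ b, 1 ≤ ht b) (hΛ : ∑' b, Λ b = 1) (hU1 : ∀ n, U Λ ht n ≤ 1) (T i0 : ℕ) :
    ∀ (N n : ℕ), N * (T + i0) ≤ n → ∀ (g : List B → ℝ≥0∞), (∀ L, g L ≤ 1) →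
      ∀ (g' : List (Att ht T i0) → ℝ≥0∞),
      (∀ P R, P.length = N → HT ht (fl ht P ++ R) = n → g (fl ht P ++ R) ≤ g' P) →
      ∑' L, (if HT ht L = n then LW Λ L * g L else 0) ≤ N * dlt Λ ht T i0 + SL (wA Λ ht T i0) N g' := by
  intro N
  induction N with
  | zero =>
    intro n _ g hg g' hgg
    rw [SL_zero, Nat.cast_zero, zero_mul, zero_add]
    calc ∑' L, (if HT ht L = n then LW Λ L * g L else 0)
        ≤ ∑' L, g' [] * (if HT ht L = n then LW Λ L else 0) := by
          refine ENNReal.tsum_le_tsum fun L => ?_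
          by_cases h : HT ht L = n
          · rw [if_pos h, if_pos h, mul_comm]
            exact mul_le_mul_left (hgg [] L rfl h) _
          · rw [if_neg h, if_neg h, mul_zero]
      _ = g' [] * U Λ ht n := by rw [ENNReal.tsum_mul_left]; rfl
      _ ≤ g' [] * 1 := mul_le_mul_right (hU1 n) _
      _ = g' [] := mul_one _
  | succ N ih =>
    intro n hn g hg g' hgg
    have hTn : T ≤ n := by nlinarith
    have e1 : ∑' L, (if HT ht L = n then LW Λ L * g L else 0)
        = ∑' L, (if T ≤ HT ht L then LW Λ L * (if HT ht L = n then g L else 0) else 0) := by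
      refine tsum_congr fun L => ?_
      by_cases h : HT ht L = n
      · rw [if_pos h, if_pos h, if_pos (by omega)]
      · rw [if_neg h, if_neg h, mul_zero, ite_self]
    rw [e1, split Λ ht h1 T (fun L => if HT ht L = n then g L else 0)]
    -- split good / bad
    have e2 : ∀ L1 : List B, (if fp ht T L1 then LW Λ L1 * ∑' L2, LW Λ L2 *
          (if HT ht (L1 ++ L2) = n then g (L1 ++ L2) else 0) else 0)
        ≤ (if fp ht T L1 ∧ T + i0 < HT ht L1 then LW Λ L1 else 0)
          + (if fp ht T L1 ∧ HT ht L1 ≤ T + i0 then LW Λ L1 * (∑' L2, LW Λ L2 *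
            (if HT ht (L1 ++ L2) = n then g (L1 ++ L2) else 0)) else 0) := by
      intro L1
      by_cases h : fp ht T L1
      · by_cases h' : HT ht L1 ≤ T + i0
        · rw [if_pos h, if_neg (by omega), if_pos ⟨h, h'⟩, zero_add]
        · rw [if_pos h, if_pos ⟨h, by omega⟩, if_neg (fun hh => h' hh.2), add_zero]
          calc LW Λ L1 * ∑' L2, LW Λ L2 * (if HT ht (L1 ++ L2) = n then g (L1 ++ L2) else 0)
              ≤ LW Λ L1 * 1 := by
                refine mul_le_mul_right ?_ _
                refine le_trans (ENNReal.tsum_le_tsum fun L2 => ?_) (hU1 (n - HT ht L1))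
                by_cases h3 : HT ht (L1 ++ L2) = n
                · rw [if_pos h3, if_pos (by rw [HT_append] at h3; omega)]
                  calc LW Λ L2 * g (L1 ++ L2) ≤ LW Λ L2 * 1 := mul_le_mul_right (hg _) _
                    _ = _ := mul_one _
                · rw [if_neg h3, mul_zero]; exact zero_le
            _ = LW Λ L1 := mul_one _
      · rw [if_neg h, if_neg (fun hh => h hh.1), if_neg (fun hh => h hh.1), add_zero]
    refine (ENNReal.tsum_le_tsum e2).trans ?_
    rw [ENNReal.tsum_add]
    have e3 := tsum_att ht T i0 (fun L1 => LW Λ L1 * (∑' L2, LW Λ L2 *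
            (if HT ht (L1 ++ L2) = n then g (L1 ++ L2) else 0)))
    rw [← e3]
    have e4 : ∀ A : Att ht T i0, LW Λ A.1 * (∑' L2, LW Λ L2 *
            (if HT ht (A.1 ++ L2) = n then g (A.1 ++ L2) else 0))
        ≤ wA Λ ht T i0 A * (N * dlt Λ ht T i0) +
          wA Λ ht T i0 A * SL (wA Λ ht T i0) N (fun P => g' (A :: P)) := by
      intro A
      rw [← mul_add]
      refine mul_le_mul_right ?_ _
      have hA := A.2.2
      have hNn : N * (T + i0) ≤ n - HT ht A.1 := by
        have : N * (T + i0) + (T + i0) ≤ n := by nlinarith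
        omega
      have hAn : HT ht A.1 ≤ n := by nlinarith
      refine le_trans (le_of_eq ?_) (ih (n - HT ht A.1) hNn (fun L => g (A.1 ++ L))
        (fun L => hg _) (fun P => g' (A :: P)) ?_)
      · refine tsum_congr fun L2 => ?_
        by_cases h3 : HT ht L2 = n - HT ht A.1
        · rw [if_pos h3, if_pos (by rw [HT_append]; omega)]
        · rw [if_neg h3, if_neg (by rw [HT_append]; omega), mul_zero]
      · intro P R hP hR
        have := hgg (A :: P) R (by rw [List.length_cons, hP]) (by
          rw [fl_cons, List.append_assoc, HT_append, hR]; omega)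
        rwa [fl_cons, List.append_assoc] at this
    have e5 : ∑' A : Att ht T i0, wA Λ ht T i0 A * (N * dlt Λ ht T i0) ≤ N * dlt Λ ht T i0 := by
      rw [ENNReal.tsum_mul_right]
      calc (∑' A : Att ht T i0, wA Λ ht T i0 A) * (N * dlt Λ ht T i0)
          ≤ 1 * (N * dlt Λ ht T i0) := mul_le_mul_left (sum_wA_le Λ ht h1 hΛ T i0) _
        _ = _ := one_mul _
    calc (∑' L1, if fp ht T L1 ∧ T + i0 < HT ht L1 then LW Λ L1 else 0) +
          ∑' A : Att ht T i0, LW Λ A.1 * (∑' L2, LW Λ L2 *
            (if HT ht (A.1 ++ L2) = n then g (A.1 ++ L2) else 0))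
        ≤ dlt Λ ht T i0 + ∑' A : Att ht T i0, (wA Λ ht T i0 A * (N * dlt Λ ht T i0) +
          wA Λ ht T i0 A * SL (wA Λ ht T i0) N (fun P => g' (A :: P))) :=
          add_le_add le_rfl (ENNReal.tsum_le_tsum e4)
      _ ≤ dlt Λ ht T i0 + (N * dlt Λ ht T i0 + SL (wA Λ ht T i0) (N + 1) g') := by
          rw [ENNReal.tsum_add, SL_succ]
          exact add_le_add le_rfl (add_le_add e5 le_rfl)
      _ = _ := by push_cast; ring

/-- middle piece -/
lemma SL_mid {C : Type*} (W : C → ℝ≥0∞) (hW : ∑' b, W b ≤ 1) (r N : ℕ) (hr : r < N)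
    (F : List C → ℝ≥0∞) (F' : List C → C → ℝ≥0∞)
    (h : ∀ P A S, P.length = r → F (P ++ A :: S) ≤ F' P A) :
    SL W N F ≤ SL W r (fun P => ∑' A, W A * F' P A) := by
  obtain ⟨k, rfl⟩ : ∃ k, N = r + (k + 1) := ⟨N - r - 1, by omega⟩
  rw [SL_add]
  refine SL_mono W r fun P hP => ?_
  rw [SL_succ]
  refine ENNReal.tsum_le_tsum fun A => mul_le_mul_right ?_ _
  refine (SL_mono W k fun S _ => h P A S hP).trans (SL_const_le W hW k _)

open Classical in
/-- **density** -/
lemma densL {C G : Type*} [AddCommGroup G] (W : C → ℝ≥0∞) (hW : ∑' b, W b ≤ 1) (z : C → G)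
    (S : C → Prop) (M : ℝ≥0∞) (hM : ∀ x, ∑' A, (if S A ∧ z A = x then W A else 0) ≤ M) (r : ℕ) :
    ∀ x, SL W r (fun P => if (∃ A ∈ P, S A) ∧ (P.map z).sum = x then 1 else 0) ≤ r * M := by
  induction r with
  | zero => intro x; rw [SL_zero]; simp
  | succ r ih =>
    intro x
    rw [SL_succ]
    have e1 : ∀ A, W A * SL W r (fun P => if (∃ A' ∈ A :: P, S A') ∧ ((A :: P).map z).sum = x
          then 1 else 0)
        ≤ (if S A then W A * SL W r (fun P => if (P.map z).sum = x - z A then 1 else 0) else 0)
          + W A * (r * M) := by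
      intro A
      have h2 : SL W r (fun P => if (∃ A' ∈ A :: P, S A') ∧ ((A :: P).map z).sum = x
          then 1 else 0) ≤ SL W r (fun P => (if S A then (if (P.map z).sum = x - z A then 1 else 0)
            else 0) + (if (∃ A' ∈ P, S A') ∧ (P.map z).sum = x - z A then 1 else 0)) := by
        refine SL_mono W r fun P _ => ?_
        by_cases hc : (∃ A' ∈ A :: P, S A') ∧ ((A :: P).map z).sum = x
        · rw [if_pos hc]
          have hs : (P.map z).sum = x - z A := by
            have := hc.2
            rw [List.map_cons, List.sum_cons] at this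
            rw [← this]; abel
          obtain ⟨⟨A', hA', hS⟩, _⟩ := hc
          rcases List.mem_cons.1 hA' with rfl | hA'
          · rw [if_pos hS, if_pos hs]; exact le_self_add
          · rw [if_pos (⟨⟨A', hA', hS⟩, hs⟩ : (∃ A' ∈ P, S A') ∧ (P.map z).sum = x - z A)]
            exact le_add_self
        · rw [if_neg hc]; exact zero_le
      refine (mul_le_mul_right h2 _).trans ?_
      rw [SL_add_fun, mul_add]
      refine add_le_add (le_of_eq ?_) (mul_le_mul_right (ih _) _)
      by_cases hS : S A
      · simp only [hS, if_true]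
      · simp only [hS, if_false]
        have : SL W r (fun _ => 0) = 0 := by
          unfold SL
          simp
        rw [this, mul_zero]
    refine (ENNReal.tsum_le_tsum e1).trans ?_
    rw [ENNReal.tsum_add, ENNReal.tsum_mul_right]
    have e2 : ∑' A, (if S A then W A * SL W r (fun P => if (P.map z).sum = x - z A then 1 else 0)
        else 0) ≤ M := by
      calc ∑' A, (if S A then W A * SL W r (fun P => if (P.map z).sum = x - z A then 1 else 0)
            else 0)
          = ∑' A, ∑' P : List C, (if P.length = r then LW W P *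
              (if S A ∧ z A = x - (P.map z).sum then W A else 0) else 0) := by
            refine tsum_congr fun A => ?_
            by_cases hS : S A
            · rw [if_pos hS]
              unfold SL
              rw [← ENNReal.tsum_mul_left]
              refine tsum_congr fun P => ?_
              by_cases hP : P.length = r
              · rw [if_pos hP, if_pos hP]
                show W A * (LW W P * (if (P.map z).sum = x - z A then 1 else 0)) = _
                by_cases hz : (P.map z).sum = x - z A
                · rw [if_pos hz, if_pos ⟨hS, by rw [hz]; abel⟩]; ring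
                · rw [if_neg hz, if_neg (fun hh => hz (by rw [hh.2]; abel))]; ring
              · rw [if_neg hP, if_neg hP, mul_zero]
            · rw [if_neg hS]
              symm
              rw [ENNReal.tsum_eq_zero]
              intro P
              simp [hS]
        _ = SL W r (fun P => ∑' A, (if S A ∧ z A = x - (P.map z).sum then W A else 0)) := by
            rw [ENNReal.tsum_comm]
            unfold SL
            refine tsum_congr fun P => ?_
            by_cases hP : P.length = r
            · simp only [hP, if_true]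
              rw [ENNReal.tsum_mul_left]
            · simp [hP]
        _ ≤ SL W r (fun _ => M) := SL_mono W r fun P _ => hM _
        _ ≤ M := SL_const_le W hW r M
    calc _ ≤ M + 1 * (r * M) := add_le_add e2 (mul_le_mul_left hW _)
      _ = _ := by push_cast; ring

open Classical in
lemma noS {C : Type*} (W : C → ℝ≥0∞) (S : C → Prop) (q : ℝ≥0∞)
    (hq : ∑' A, (if S A then 0 else W A) ≤ q) (r : ℕ) :
    SL W r (fun P => if ∃ A ∈ P, S A then 0 else 1) ≤ q ^ r := by
  induction r with
  | zero => rw [SL_zero]; simp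
  | succ r ih =>
    rw [SL_succ]
    have e1 : ∀ A, W A * SL W r (fun P => if ∃ A' ∈ A :: P, S A' then 0 else 1)
        ≤ (if S A then 0 else W A) * q ^ r := by
      intro A
      by_cases hS : S A
      · rw [if_pos hS, zero_mul]
        have : SL W r (fun P => if ∃ A' ∈ A :: P, S A' then 0 else 1) = SL W r (fun _ => 0) :=
          SL_congr W r fun P _ => if_pos ⟨A, List.mem_cons_self, hS⟩
        rw [this]
        simp [SL]
      · rw [if_neg hS]
        refine mul_le_mul_right (le_trans (SL_mono W r fun P _ => ?_) ih) _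
        by_cases hP : ∃ A' ∈ P, S A'
        · obtain ⟨A', h1, h2⟩ := hP
          rw [if_pos ⟨A', List.mem_cons_of_mem _ h1, h2⟩]; exact zero_le
        · rw [if_neg hP]; split_ifs <;> simp
    calc _ ≤ ∑' A, (if S A then 0 else W A) * q ^ r := ENNReal.tsum_le_tsum e1
      _ = (∑' A, (if S A then 0 else W A)) * q ^ r := ENNReal.tsum_mul_right
      _ ≤ q * q ^ r := mul_le_mul_left hq _
      _ = q ^ (r + 1) := by rw [pow_succ]; ring

end Crest.Agent.R154.Asm877
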