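import Crest.Agent.R154.FP_178
import Crest.Agent.R154.KU_823
import Crest.Agent.R154.Dens_903

/-! Row 154, ROAD 801 (helper913): list side of the assembly, part 1: attempts, density, one-walker
decomposition. -/

set_option autoImplicit false

namespace Crest.Agent.R154.Asm913

open scoped ENNReal
open Crest.Agent.R154.B5A Crest.Agent.R154.FP178
open Classical

variable {B G : Type*} [AddCommGroup G]

/-- displacement of a list -/
def Dp (z : B → G) (L : List B) : G := (L.map z).sum

lemma Dp_nil (z : B → G) : Dp z [] = 0 := by simp [Dp]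

lemma Dp_cons (z : B → G) (b : B) (L : List B) : Dp z (b :: L) = z b + Dp z L := by simp [Dp]

lemma Dp_append (z : B → G) (L L' : List B) : Dp z (L ++ L') = Dp z L + Dp z L' := by simp [Dp]

/-- sites (position, depth) of a list placed at `x`, depth `a` -/
def TT (s : B → Set (G × ℕ)) (z : B → G) (h : B → ℕ) : List B → G → ℕ → Set (G × ℕ)
  | [], _, _ => ∅
  | b :: L, x, a => {p | ∃ q ∈ s b, p = (x + q.1, a + q.2)} ∪ TT s z h L (x + z b) (a + h b)

section TTs
variable (s : B → Set (G × ℕ)) (z : B → G) (h : B → ℕ)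

lemma TT_append (L L' : List B) (x : G) (a : ℕ) :
    TT s z h (L ++ L') x a = TT s z h L x a ∪ TT s z h L' (x + Dp z L) (a + HT h L) := by
  induction L generalizing x a with
  | nil => simp [TT, Dp_nil, HT_nil]
  | cons b L ih =>
    rw [List.cons_append]
    simp only [TT]
    rw [ih, Set.union_assoc, Dp_cons, HT_cons, add_assoc, add_assoc]

lemma TT_bd (hs : ∀ b, ∀ q ∈ s b, 1 ≤ q.2 ∧ q.2 ≤ h b) (L : List B) (x : G) (a : ℕ) (p : G × ℕ)
    (hp : p ∈ TT s z h L x a) : a < p.2 ∧ p.2 ≤ a + HT h L := by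
  induction L generalizing x a with
  | nil => simp [TT] at hp
  | cons b L ih =>
    rw [HT_cons]
    rcases hp with ⟨q, hq, rfl⟩ | hp
    · have := hs b q hq
      simp only
      omega
    · have := ih _ _ hp
      omega

lemma TT_shift (L : List B) (x0 x : G) (a : ℕ) (y : G) (k : ℕ) :
    (y, k) ∈ TT s z h L (x0 + x) a ↔ (y - x0, k) ∈ TT s z h L x a := by
  induction L generalizing x a with
  | nil => simp [TT]
  | cons b L ih =>
    simp only [TT, Set.mem_union, Set.mem_ofPred_eq, Prod.mk.injEq]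
    rw [add_assoc, ih]
    refine or_congr ?_ Iff.rfl
    constructor
    · rintro ⟨q, hq, h1, h2⟩
      exact ⟨q, hq, by rw [h1]; abel, h2⟩
    · rintro ⟨q, hq, h1, h2⟩
      refine ⟨q, hq, ?_, h2⟩
      rw [sub_eq_iff_eq_add] at h1
      rw [h1]; abel

end TTs

/-! ### sums -/

lemma tsum_fiber {A I : Type*} [DecidableEq I] (κ : A → I) (f : A → ℝ≥0∞) :
    ∑' a, f a = ∑' y, ∑' a, (if κ a = y then f a else 0) := by
  rw [ENNReal.tsum_comm]
  refine tsum_congr fun a => ?_
  rw [tsum_eq_single (κ a)]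
  · rw [if_pos rfl]
  · intro y hy; rw [if_neg (Ne.symm hy)]

lemma tsum_le_pairs (f : List B → ℝ≥0∞) (F : List B → List B → ℝ≥0∞)
    (H : ∀ L, f L ≠ 0 → ∃ P L', L = P ++ L' ∧ f L ≤ F P L') :
    ∑' L, f L ≤ ∑' P, ∑' L', F P L' := by
  have H' : ∀ L, ∃ p : List B × List B, L = p.1 ++ p.2 ∧ f L ≤ F p.1 p.2 := by
    intro L
    by_cases h : f L = 0
    · exact ⟨([], L), rfl, by rw [h]; exact zero_le⟩
    · obtain ⟨P, L', h1, h2⟩ := H L h
      exact ⟨(P, L'), h1, h2⟩
  choose φ hφ1 hφ2 using H'
  have hinj : Function.Injective φ := fun L L' h => by rw [hφ1 L, hφ1 L', h]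
  calc ∑' L, f L ≤ ∑' L, (fun p : List B × List B => F p.1 p.2) (φ L) :=
        ENNReal.tsum_le_tsum fun L => hφ2 L
    _ ≤ ∑' p : List B × List B, F p.1 p.2 :=
        ENNReal.tsum_comp_le_tsum_of_injective hinj _
    _ = ∑' P, ∑' L', F P L' := ENNReal.tsum_prod

variable (Λ : B → ℝ≥0∞) (ht : B → ℕ) (z : B → G)

lemma U_le_one (h1 : ∀ b, 1 ≤ ht b) (hΛ : ∑' b, Λ b = 1) (n : ℕ) : U Λ ht n ≤ 1 := by
  have h := renewal_one Λ ht h1 hΛ n
  have h0 : tail Λ ht 0 = 1 := by
    rw [tail, ← hΛ]
    refine tsum_congr fun b => ?_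
    rw [if_pos (by have := h1 b; omega)]
  calc U Λ ht n = U Λ ht (n - 0) * tail Λ ht 0 := by rw [Nat.sub_zero, h0, mul_one]
    _ ≤ 1 := by
      rw [← h]
      exact Finset.single_le_sum (f := fun k => U Λ ht (n - k) * tail Λ ht k)
        (fun _ _ => zero_le) (Finset.mem_range.2 (Nat.succ_pos n))

lemma sum_fp_eq (h1 : ∀ b, 1 ≤ ht b) (hΛ : ∑' b, Λ b = 1) (a : ℕ) :
    ∑' L, (if fp ht a L then LW Λ L else 0) = 1 := by
  induction a using Nat.strong_induction_on with
  | _ a ih =>
    rcases Nat.eq_zero_or_pos a with rfl | ha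
    · have := sum_fp_zero Λ ht (fun _ => 1)
      simp only [mul_one] at this
      exact this
    · have := sum_fp_step Λ ht a ha (fun _ => 1)
      simp only [mul_one] at this
      rw [this]
      calc ∑' b, Λ b * ∑' L, (if fp ht (a - ht b) L then LW Λ L else 0)
          = ∑' b, Λ b * 1 := by
            refine tsum_congr fun b => ?_
            rw [ih (a - ht b) (by have := h1 b; omega)]
        _ = 1 := by simp [hΛ]

/-- mass of the lists of height `h` and displacement `g` -/
noncomputable def V (h : ℕ) (g : G) : ℝ≥0∞ :=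
  ∑' L, (if HT ht L = h ∧ Dp z L = g then LW Λ L else 0)

lemma sum_V (h : ℕ) : ∑' g, V Λ ht z h g = U Λ ht h := by
  unfold V U
  rw [tsum_fiber (Dp z) (fun L => if HT ht L = h then LW Λ L else 0)]
  refine tsum_congr fun g => tsum_congr fun L => ?_
  by_cases h1 : HT ht L = h <;> by_cases h2 : Dp z L = g <;> simp [h1, h2]

lemma sum_V_sub (hU : ∀ n, U Λ ht n ≤ 1) (h : ℕ) (g : G) : ∑' g', V Λ ht z h (g - g') ≤ 1 := by
  have e : ∑' g', V Λ ht z h (g - g') = ∑' g', V Λ ht z h g' :=
    (Equiv.subLeft g).tsum_eq (fun g' => V Λ ht z h g')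
  rw [e, sum_V]
  exact hU h

/-- overshoot and displacement of an attempt -/
def kap (τ : ℕ) (P : List B) : ℕ × G := (HT ht P - τ, Dp z P)

/-- law of an attempt -/
noncomputable def att (τ : ℕ) (y : ℕ × G) : ℝ≥0∞ :=
  ∑' P, (if fp ht τ P ∧ kap ht z τ P = y then LW Λ P else 0)

lemma sum_att (h1 : ∀ b, 1 ≤ ht b) (hΛ : ∑' b, Λ b = 1) (τ : ℕ) :
    ∑' y, att Λ ht z τ y = 1 := by
  rw [← sum_fp_eq Λ ht h1 hΛ τ, tsum_fiber (kap ht z τ)]
  unfold att
  refine tsum_congr fun y => tsum_congr fun P => ?_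
  by_cases h1 : fp ht τ P <;> by_cases h2 : kap ht z τ P = y <;> simp [h1, h2]

/-- `Sm J L`: one of the first `J` attempts of `L` is special -/
def Sm (τ i0 : ℕ) (sp : List B → Prop) : ℕ → List B → Prop
  | 0, _ => False
  | J + 1, L => ∃ P L', L = P ++ L' ∧ fp ht τ P ∧ HT ht P ≤ τ + i0 ∧ (sp P ∨ Sm τ i0 sp J L')

theorem Sm_dens (hU : ∀ n, U Λ ht n ≤ 1) (τ i0 : ℕ) (th r M : ℝ≥0∞)
    (hr : ∑' P, (if fp ht τ P ∧ ¬ att Λ ht z τ (kap ht z τ P) ≤ th then LW Λ P else 0) ≤ r)
    (hM : ((i0 : ℝ≥0∞) + 1) * th + r * M ≤ M) (J h : ℕ) (g : G) :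
    ∑' L, (if HT ht L = h ∧ Dp z L = g ∧
      Sm ht τ i0 (fun P => att Λ ht z τ (kap ht z τ P) ≤ th) J L then LW Λ L else 0) ≤ M := by
  set sp : List B → Prop := fun P => att Λ ht z τ (kap ht z τ P) ≤ th with hsp
  induction J generalizing h g with
  | zero => simp [Sm]
  | succ J ih =>
    refine le_trans (tsum_le_pairs _ (fun P L' =>
      (if fp ht τ P ∧ HT ht P ≤ τ + i0 ∧ sp P then LW Λ P else 0) *
        (if HT ht L' = h - HT ht P ∧ Dp z L' = g - Dp z P then LW Λ L' else 0) +
      (if fp ht τ P ∧ ¬ sp P then LW Λ P else 0) *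
        (if HT ht L' = h - HT ht P ∧ Dp z L' = g - Dp z P ∧ Sm ht τ i0 sp J L' then LW Λ L'
          else 0)) ?_) ?_
    · intro L hL
      have hc : HT ht L = h ∧ Dp z L = g ∧ Sm ht τ i0 sp (J + 1) L := by
        by_contra hc; exact hL (if_neg hc)
      obtain ⟨hh, hg, P, L', hPL, hfp, hov, hor⟩ := hc
      refine ⟨P, L', hPL, ?_⟩
      rw [if_pos ⟨hh, hg, P, L', hPL, hfp, hov, hor⟩]
      have e1 : HT ht L' = h - HT ht P := by
        rw [hPL, HT_append] at hh; omega
      have e2 : Dp z L' = g - Dp z P := by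
        rw [hPL, Dp_append] at hg; rw [← hg]; abel
      rw [hPL, LW_append]
      by_cases hs : sp P
      · rw [if_pos ⟨hfp, hov, hs⟩, if_pos ⟨e1, e2⟩]; exact le_self_add
      · rcases hor with h' | h'
        · exact absurd h' hs
        · rw [if_pos (show fp ht τ P ∧ ¬ sp P from ⟨hfp, hs⟩), if_pos (show HT ht L' = h - HT ht P ∧
            Dp z L' = g - Dp z P ∧ Sm ht τ i0 sp J L' from ⟨e1, e2, h'⟩)]
          exact le_add_self
    · have e0 : ∀ P : List B, (∑' L', ((if fp ht τ P ∧ HT ht P ≤ τ + i0 ∧ sp P then LW Λ P else 0) *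
          (if HT ht L' = h - HT ht P ∧ Dp z L' = g - Dp z P then LW Λ L' else 0) +
        (if fp ht τ P ∧ ¬ sp P then LW Λ P else 0) *
          (if HT ht L' = h - HT ht P ∧ Dp z L' = g - Dp z P ∧ Sm ht τ i0 sp J L' then LW Λ L'
            else 0)))
          ≤ (if fp ht τ P ∧ HT ht P ≤ τ + i0 ∧ sp P then LW Λ P else 0) *
              V Λ ht z (h - HT ht P) (g - Dp z P) +
            (if fp ht τ P ∧ ¬ sp P then LW Λ P else 0) * M := by
        intro P
        rw [ENNReal.tsum_add, ENNReal.tsum_mul_left, ENNReal.tsum_mul_left]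
        exact add_le_add le_rfl (mul_le_mul_right (ih _ _) _)
      refine (ENNReal.tsum_le_tsum e0).trans ?_
      rw [ENNReal.tsum_add, ENNReal.tsum_mul_right]
      refine le_trans (add_le_add ?_ (mul_le_mul_left hr M)) hM
      rw [tsum_fiber (kap ht z τ)]
      have e1 : ∀ y : ℕ × G, (∑' P, (if kap ht z τ P = y then
          (if fp ht τ P ∧ HT ht P ≤ τ + i0 ∧ sp P then LW Λ P else 0) *
              V Λ ht z (h - HT ht P) (g - Dp z P) else 0))
          ≤ if y.1 ≤ i0 then th * V Λ ht z (h - (τ + y.1)) (g - y.2) else 0 := by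
        intro y
        by_cases hy : y.1 ≤ i0 ∧ att Λ ht z τ y ≤ th
        · rw [if_pos hy.1]
          refine le_trans (ENNReal.tsum_le_tsum (g := fun P =>
            (if fp ht τ P ∧ kap ht z τ P = y then LW Λ P else 0) *
              V Λ ht z (h - (τ + y.1)) (g - y.2)) fun P => ?_) ?_
          · by_cases hk : kap ht z τ P = y
            · rw [if_pos hk]
              by_cases hf : fp ht τ P
              · have hle := le_HT_of_fp ht hf
                have e3 : HT ht P = τ + y.1 := by
                  rw [← hk]; simp only [kap]; omega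
                have e4 : Dp z P = y.2 := by rw [← hk]; rfl
                rw [e3, e4, if_pos (show fp ht τ P ∧ kap ht z τ P = y from ⟨hf, hk⟩)]
                refine mul_le_mul_left ?_ _
                split_ifs
                · exact le_rfl
                · exact zero_le
              · simp [hf]
            · rw [if_neg hk]; exact zero_le
          · rw [ENNReal.tsum_mul_right]
            exact mul_le_mul_left hy.2 _
        · refine le_trans (le_of_eq ?_) zero_le
          rw [ENNReal.tsum_eq_zero]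
          intro P
          by_cases hk : kap ht z τ P = y
          · rw [if_pos hk, if_neg, zero_mul]
            rintro ⟨hf, ho, hs⟩
            apply hy
            refine ⟨?_, ?_⟩
            · rw [← hk]; simp only [kap]; omega
            · rw [← hk]; exact hs
          · rw [if_neg hk]
      refine (ENNReal.tsum_le_tsum e1).trans ?_
      refine (le_of_eq (ENNReal.tsum_prod (f := fun (i : ℕ) (g' : G) =>
        if i ≤ i0 then th * V Λ ht z (h - (τ + i)) (g - g') else 0))).trans ?_
      have e2 : ∀ i : ℕ, (∑' g', (if i ≤ i0 then th * V Λ ht z (h - (τ + i)) (g - g') else 0))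
          ≤ if i ≤ i0 then th else 0 := by
        intro i
        by_cases hi : i ≤ i0
        · simp only [hi, if_true]
          rw [ENNReal.tsum_mul_left]
          exact (mul_le_mul_right (sum_V_sub Λ ht z hU _ _) th).trans (mul_one th).le
        · simp [hi]
      refine (ENNReal.tsum_le_tsum e2).trans ?_
      rw [tsum_eq_sum (s := Finset.range (i0 + 1))]
      · rw [Finset.sum_congr rfl (g := fun _ => th)]
        · rw [Finset.sum_const, Finset.card_range, nsmul_eq_mul]
          push_cast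
          exact le_rfl
        · intro i hi
          rw [if_pos (by have := Finset.mem_range.1 hi; omega)]
      · intro i hi
        rw [if_neg]
        intro h'
        exact hi (Finset.mem_range.2 (by omega))

theorem Sm_rest (h1 : ∀ b, 1 ≤ ht b) (hΛ : ∑' b, Λ b = 1) (τ i0 : ℕ) (sp : List B → Prop)
    (r ε1 : ℝ≥0∞) (hr1 : r ≤ 1)
    (hr : ∑' P, (if fp ht τ P ∧ ¬ sp P then LW Λ P else 0) ≤ r)
    (hov : ∑' P, (if fp ht τ P ∧ τ + i0 < HT ht P then LW Λ P else 0) ≤ ε1) (J : ℕ) :
    ∀ A, J * (τ + i0) ≤ A → ∑' L, (if fp ht A L ∧ ¬ Sm ht τ i0 sp J L then LW Λ L else 0)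
      ≤ r ^ J + J * ε1 := by
  induction J with
  | zero =>
    intro A _
    simp only [Sm, not_false_eq_true, and_true, pow_zero, Nat.cast_zero, zero_mul, add_zero]
    exact (sum_fp_eq Λ ht h1 hΛ A).le
  | succ J ih =>
    intro A hA
    have hτA : τ ≤ A := by
      rw [Nat.succ_mul] at hA; omega
    have e := fp_split Λ ht h1 τ A hτA (fun L => if ¬ Sm ht τ i0 sp (J + 1) L then 1 else 0)
    have e' : ∑' L, (if fp ht A L ∧ ¬ Sm ht τ i0 sp (J + 1) L then LW Λ L else 0)
        = ∑' L, (if fp ht A L then LW Λ L * (if ¬ Sm ht τ i0 sp (J + 1) L then 1 else 0) else 0) := by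
      refine tsum_congr fun L => ?_
      by_cases h1 : fp ht A L <;> by_cases h2 : Sm ht τ i0 sp (J + 1) L <;> simp [h1, h2]
    rw [e', e]
    have e3 : ∀ P : List B, (if fp ht τ P then LW Λ P * ∑' L', (if fp ht (A - HT ht P) L' then
        LW Λ L' * (if ¬ Sm ht τ i0 sp (J + 1) (P ++ L') then 1 else 0) else 0) else 0)
        ≤ (if fp ht τ P ∧ τ + i0 < HT ht P then LW Λ P else 0) +
          (if fp ht τ P ∧ ¬ sp P then LW Λ P else 0) * (r ^ J + J * ε1) := by
      intro P
      by_cases hf : fp ht τ P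
      · rw [if_pos hf]
        by_cases ho : τ + i0 < HT ht P
        · rw [if_pos ⟨hf, ho⟩]
          refine le_trans ?_ le_self_add
          refine (mul_le_mul_right ?_ _).trans (mul_one _).le
          refine le_trans (ENNReal.tsum_le_tsum fun L' => ?_) (sum_fp_eq Λ ht h1 hΛ (A - HT ht P)).le
          split_ifs <;> simp
        · have ho' : HT ht P ≤ τ + i0 := by omega
          refine le_trans ?_ le_add_self
          by_cases hs : sp P
          · refine le_trans (le_of_eq ?_) zero_le
            have : ∀ L' : List B, (if fp ht (A - HT ht P) L' then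
                LW Λ L' * (if ¬ Sm ht τ i0 sp (J + 1) (P ++ L') then (1:ℝ≥0∞) else 0) else 0) = 0 := by
              intro L'
              have hsm : Sm ht τ i0 sp (J + 1) (P ++ L') := ⟨P, L', rfl, hf, ho', Or.inl hs⟩
              simp [hsm]
            rw [ENNReal.tsum_eq_zero.2 this, mul_zero]
          · rw [if_pos ⟨hf, hs⟩]
            refine mul_le_mul_right ?_ _
            refine le_trans (ENNReal.tsum_le_tsum fun L' => ?_)
              (ih (A - HT ht P) (by rw [Nat.succ_mul] at hA; omega))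
            by_cases hL : fp ht (A - HT ht P) L'
            · rw [if_pos hL]
              by_cases hm : Sm ht τ i0 sp J L'
              · have hsm : Sm ht τ i0 sp (J + 1) (P ++ L') := ⟨P, L', rfl, hf, ho', Or.inr hm⟩
                simp [hsm]
              · rw [if_pos (show fp ht (A - HT ht P) L' ∧ ¬ Sm ht τ i0 sp J L' from ⟨hL, hm⟩)]
                refine (mul_le_mul_right ?_ _).trans (mul_one _).le
                split_ifs <;> simp
            · rw [if_neg hL]; exact zero_le
      · rw [if_neg hf]; exact zero_le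
    refine (ENNReal.tsum_le_tsum e3).trans ?_
    rw [ENNReal.tsum_add, ENNReal.tsum_mul_right]
    calc _ ≤ ε1 + r * (r ^ J + J * ε1) := add_le_add hov (mul_le_mul_left hr _)
      _ = ε1 + (r ^ (J + 1) + r * (J * ε1)) := by rw [mul_add, pow_succ, mul_comm r (r ^ J)]
      _ ≤ ε1 + (r ^ (J + 1) + 1 * (J * ε1)) := by gcongr
      _ = r ^ (J + 1) + ((J + 1 : ℕ) : ℝ≥0∞) * ε1 := by push_cast; ring

/-- one-walker decomposition at a window -/
theorem walk_split (h1 : ∀ b, 1 ≤ ht b) (hΛ : ∑' b, Λ b = 1) (A τ i0 n : ℕ)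
    (hn : A + i0 + τ ≤ n) (f : List B → ℝ≥0∞) (hf : ∀ L, f L ≤ 1)
    (g : List B → List B → ℝ≥0∞)
    (hg : ∀ L1 P R, fp ht A L1 → HT ht L1 ≤ A + i0 → fp ht τ P → HT ht P ≤ τ + i0 →
      HT ht (L1 ++ (P ++ R)) = n → f (L1 ++ (P ++ R)) ≤ g L1 P)
    (ε1 : ℝ≥0∞) (hov : ∀ a, ∑' L, (if fp ht a L ∧ a + i0 < HT ht L then LW Λ L else 0) ≤ ε1) :
    ∑' L, (if HT ht L = n then LW Λ L * f L else 0) ≤ 2 * ε1 +
      ∑' L1, (if fp ht A L1 ∧ HT ht L1 ≤ A + i0 then LW Λ L1 *
        ∑' P, (if fp ht τ P ∧ HT ht P ≤ τ + i0 then LW Λ P * g L1 P else 0) else 0) := by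
  have hU := U_le_one Λ ht h1 hΛ
  have e0 : ∑' L, (if HT ht L = n then LW Λ L * f L else 0)
      = ∑' L, (if A ≤ HT ht L then LW Λ L * (if HT ht L = n then f L else 0) else 0) := by
    refine tsum_congr fun L => ?_
    by_cases h : HT ht L = n
    · rw [if_pos h, if_pos (by omega), if_pos h]
    · rw [if_neg h]; simp [h]
  rw [e0, split Λ ht h1 A]
  have e1 : ∀ L1 : List B, (if fp ht A L1 then LW Λ L1 * ∑' L2, LW Λ L2 *
      (if HT ht (L1 ++ L2) = n then f (L1 ++ L2) else 0) else 0)
      ≤ (if fp ht A L1 ∧ A + i0 < HT ht L1 then LW Λ L1 else 0) +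
        (if fp ht A L1 then LW Λ L1 else 0) * ε1 +
        (if fp ht A L1 ∧ HT ht L1 ≤ A + i0 then LW Λ L1 *
        ∑' P, (if fp ht τ P ∧ HT ht P ≤ τ + i0 then LW Λ P * g L1 P else 0) else 0) := by
    intro L1
    by_cases hL1 : fp ht A L1
    · rw [if_pos hL1]
      have hUle : ∀ L0 : List B, ∑' R, LW Λ R * (if HT ht (L0 ++ R) = n then (1:ℝ≥0∞) else 0) ≤ 1 := by
        intro L0
        refine le_trans (ENNReal.tsum_le_tsum fun R => ?_) (hU (n - HT ht L0))
        by_cases h : HT ht (L0 ++ R) = n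
        · rw [if_pos h, mul_one, if_pos (by rw [HT_append] at h; omega)]
        · rw [if_neg h, mul_zero]; exact zero_le
      by_cases ho : A + i0 < HT ht L1
      · rw [if_pos ⟨hL1, ho⟩]
        refine le_trans ?_ (le_trans le_self_add le_self_add)
        refine (mul_le_mul_right ?_ _).trans (mul_one _).le
        refine le_trans (ENNReal.tsum_le_tsum fun L2 => ?_) (hUle L1)
        refine mul_le_mul_right ?_ _
        split_ifs
        · exact hf _
        · exact le_rfl
      · have ho' : HT ht L1 ≤ A + i0 := by omega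
        rw [if_pos (show fp ht A L1 ∧ HT ht L1 ≤ A + i0 from ⟨hL1, ho'⟩), if_pos hL1,
          if_neg (show ¬ (fp ht A L1 ∧ A + i0 < HT ht L1) by tauto), zero_add, ← mul_add]
        refine mul_le_mul_right ?_ _
        have e2 : ∑' L2, LW Λ L2 * (if HT ht (L1 ++ L2) = n then f (L1 ++ L2) else 0)
            = ∑' L2, (if τ ≤ HT ht L2 then LW Λ L2 *
              (if HT ht (L1 ++ L2) = n then f (L1 ++ L2) else 0) else 0) := by
          refine tsum_congr fun L2 => ?_
          by_cases h : HT ht (L1 ++ L2) = n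
          · rw [if_pos h, if_pos (by rw [HT_append] at h; omega)]
          · rw [if_neg h]; simp
        rw [e2, split Λ ht h1 τ (fun L2 => if HT ht (L1 ++ L2) = n then f (L1 ++ L2) else 0)]
        have e3 : ∀ P : List B, (if fp ht τ P then LW Λ P * ∑' R, LW Λ R *
            (if HT ht (L1 ++ (P ++ R)) = n then f (L1 ++ (P ++ R)) else 0) else 0)
            ≤ (if fp ht τ P ∧ τ + i0 < HT ht P then LW Λ P else 0) +
              (if fp ht τ P ∧ HT ht P ≤ τ + i0 then LW Λ P * g L1 P else 0) := by
          intro P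
          by_cases hP : fp ht τ P
          · rw [if_pos hP]
            by_cases hoP : τ + i0 < HT ht P
            · rw [if_pos ⟨hP, hoP⟩]
              refine le_trans ?_ le_self_add
              refine (mul_le_mul_right ?_ _).trans (mul_one _).le
              refine le_trans (ENNReal.tsum_le_tsum fun R => ?_) (hUle (L1 ++ P))
              rw [List.append_assoc]
              refine mul_le_mul_right ?_ _
              split_ifs
              · exact hf _
              · exact le_rfl
            · have hoP' : HT ht P ≤ τ + i0 := by omega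
              rw [if_pos (show fp ht τ P ∧ HT ht P ≤ τ + i0 from ⟨hP, hoP'⟩)]
              refine le_trans ?_ le_add_self
              refine mul_le_mul_right ?_ _
              refine le_trans (ENNReal.tsum_le_tsum (g := fun R => (LW Λ R *
                (if HT ht ((L1 ++ P) ++ R) = n then (1:ℝ≥0∞) else 0)) * g L1 P) fun R => ?_) ?_
              · rw [List.append_assoc, mul_assoc]
                refine mul_le_mul_right ?_ _
                by_cases h : HT ht (L1 ++ (P ++ R)) = n
                · rw [if_pos h, if_pos h, one_mul]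
                  exact hg L1 P R hL1 ho' hP hoP' h
                · rw [if_neg h]; exact zero_le
              · rw [ENNReal.tsum_mul_right]
                exact (mul_le_mul_left (hUle _) _).trans (one_mul _).le
          · rw [if_neg hP]; exact zero_le
        refine (ENNReal.tsum_le_tsum e3).trans ?_
        rw [ENNReal.tsum_add]
        exact add_le_add (hov τ) le_rfl
    · rw [if_neg hL1]; exact zero_le
  refine (ENNReal.tsum_le_tsum e1).trans ?_
  rw [ENNReal.tsum_add, ENNReal.tsum_add, ENNReal.tsum_mul_right, sum_fp_eq Λ ht h1 hΛ A, one_mul,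
    two_mul]
  exact add_le_add (add_le_add (hov A) le_rfl) le_rfl

end Crest.Agent.R154.Asm913
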