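import Crest.Agent.R154.AsmP_1

/-! Row 154, ROAD 801 (helper1): one window, two walkers. -/

set_option autoImplicit false

namespace Crest.Agent.R154.AsmQ1

open scoped ENNReal
open Crest.Agent.R154.B5A Crest.Agent.R154.FP178 Crest.Agent.R154.AsmP1

section one

variable {B : Type*} (Λ : B → ℝ≥0∞) (ht : B → ℕ)

lemma U_eq (n : ℕ) : ∑' L : List B, ind (HT ht L = n) * LW Λ L = U Λ ht n := by
  rw [U]; exact tsum_congr fun L => (ite_eq_ind _ _).symm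

lemma rest_le (hU1 : ∀ n, U Λ ht n ≤ 1) (c n : ℕ) :
    ∑' L : List B, ind (c + HT ht L = n) * LW Λ L ≤ 1 := by
  refine le_trans (ENNReal.tsum_le_tsum fun L => ?_) (hU1 (n - c))
  rw [ite_eq_ind]
  exact mul_le_mul_left (ind_mono fun h => by omega) _

/-- weight of a triple -/
noncomputable def tw (a0 T i0 n : ℕ) (t : List B × List B × List B) : ℝ≥0∞ :=
  fw Λ ht a0 t.1 * ind (HT ht t.1 ≤ a0 + i0) * (fw Λ ht T t.2.1 *
    (ind (HT ht t.1 + HT ht t.2.1 + HT ht t.2.2 = n) * LW Λ t.2.2))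

lemma tw_le (hU1 : ∀ n, U Λ ht n ≤ 1) (a0 T i0 n : ℕ) (f : List B → List B → ℝ≥0∞) :
    ∑' t, tw Λ ht a0 T i0 n t * f t.1 t.2.1
      ≤ ∑' L1, ∑' L2, fw Λ ht a0 L1 * ind (HT ht L1 ≤ a0 + i0) * (fw Λ ht T L2 * f L1 L2) := by
  rw [ENNReal.tsum_prod']
  refine ENNReal.tsum_le_tsum fun L1 => ?_
  rw [ENNReal.tsum_prod']
  refine ENNReal.tsum_le_tsum fun L2 => ?_
  calc ∑' L3, tw Λ ht a0 T i0 n (L1, L2, L3) * f L1 L2
      = ∑' L3, fw Λ ht a0 L1 * ind (HT ht L1 ≤ a0 + i0) * (fw Λ ht T L2 * f L1 L2) *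
        (ind (HT ht L1 + HT ht L2 + HT ht L3 = n) * LW Λ L3) := by
        refine tsum_congr fun L3 => ?_
        simp only [tw]
        ring
    _ ≤ fw Λ ht a0 L1 * ind (HT ht L1 ≤ a0 + i0) * (fw Λ ht T L2 * f L1 L2) * 1 := by
        rw [ENNReal.tsum_mul_left]
        exact mul_le_mul_right (rest_le Λ ht hU1 _ n) _
    _ = _ := mul_one _

lemma tw_sum_le (hU1 : ∀ n, U Λ ht n ≤ 1)
    (a0 T i0 n : ℕ) (g1 g2 : List B → ℝ≥0∞) (x y : ℝ≥0∞) (h1x : ∑' L, fw Λ ht a0 L * g1 L ≤ x)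
    (h2y : ∑' L, fw Λ ht T L * g2 L ≤ y) :
    ∑' t, tw Λ ht a0 T i0 n t * (g1 t.1 * g2 t.2.1) ≤ x * y := by
  refine (tw_le Λ ht hU1 a0 T i0 n (fun L1 L2 => g1 L1 * g2 L2)).trans ?_
  calc ∑' L1, ∑' L2, fw Λ ht a0 L1 * ind (HT ht L1 ≤ a0 + i0) * (fw Λ ht T L2 * (g1 L1 * g2 L2))
      ≤ ∑' L1, ∑' L2, (fw Λ ht a0 L1 * g1 L1) * (fw Λ ht T L2 * g2 L2) := by
        refine ENNReal.tsum_le_tsum fun L1 => ENNReal.tsum_le_tsum fun L2 => ?_
        calc _ ≤ fw Λ ht a0 L1 * 1 * (fw Λ ht T L2 * (g1 L1 * g2 L2)) := by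
              gcongr; exact ind_le_one _
          _ = _ := by ring
    _ = (∑' L1, fw Λ ht a0 L1 * g1 L1) * ∑' L2, fw Λ ht T L2 * g2 L2 := by
        simp_rw [ENNReal.tsum_mul_left, ENNReal.tsum_mul_right]
    _ ≤ x * y := mul_le_mul' h1x h2y

lemma tri (h1 : ∀ b, 1 ≤ ht b) (hU1 : ∀ n, U Λ ht n ≤ 1) (a0 T i0 n : ℕ)
    (hn : a0 + i0 + T ≤ n) (e : ℝ≥0∞)
    (he : ∑' L, fw Λ ht a0 L * ind (a0 + i0 < HT ht L) ≤ e) (F : List B → ℝ≥0∞)
    (hF : ∀ L, F L ≤ 1) :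
    ∑' L : List B, ind (HT ht L = n) * LW Λ L * F L
      ≤ e + ∑' t, tw Λ ht a0 T i0 n t * F (t.1 ++ (t.2.1 ++ t.2.2)) := by
  calc ∑' L : List B, ind (HT ht L = n) * LW Λ L * F L
      = ∑' L : List B, ind (a0 ≤ HT ht L) * LW Λ L * (ind (HT ht L = n) * F L) := by
        refine tsum_congr fun L => ?_
        by_cases h : HT ht L = n
        · rw [ind_true h, ind_true (by omega : a0 ≤ HT ht L), one_mul, one_mul]
        · simp [ind_false h]
    _ = ∑' L1, fw Λ ht a0 L1 * ∑' R, LW Λ R * (ind (HT ht (L1 ++ R) = n) * F (L1 ++ R)) :=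
        sum_split Λ ht h1 a0 _
    _ ≤ ∑' L1, (fw Λ ht a0 L1 * ind (a0 + i0 < HT ht L1)
          + ∑' L2, ∑' L3, tw Λ ht a0 T i0 n (L1, L2, L3) * F (L1 ++ (L2 ++ L3))) := by
        refine ENNReal.tsum_le_tsum fun L1 => ?_
        rcases Nat.lt_or_ge (a0 + i0) (HT ht L1) with hlt | hle
        · refine le_add_right ?_
          rw [ind_true hlt]
          refine mul_le_mul_right ?_ _
          refine le_trans (ENNReal.tsum_le_tsum fun R => ?_) (rest_le Λ ht hU1 (HT ht L1) n)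
          rw [HT_append, mul_comm]
          calc _ ≤ ind (HT ht L1 + HT ht R = n) * 1 * LW Λ R :=
                mul_le_mul_left (mul_le_mul_right (hF _) _) _
            _ = _ := by rw [mul_one]
        · refine le_add_left ?_
          have e1 : ∑' R, LW Λ R * (ind (HT ht (L1 ++ R) = n) * F (L1 ++ R))
              = ∑' R, ind (T ≤ HT ht R) * LW Λ R * (ind (HT ht (L1 ++ R) = n) * F (L1 ++ R)) := by
            refine tsum_congr fun R => ?_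
            by_cases h : HT ht (L1 ++ R) = n
            · rw [HT_append] at h
              rw [ind_true (by omega : T ≤ HT ht R), one_mul]
            · rw [ind_false h, zero_mul, mul_zero, mul_zero]
          rw [e1, sum_split Λ ht h1 T, ← ENNReal.tsum_mul_left]
          refine ENNReal.tsum_le_tsum fun L2 => ?_
          rw [← ENNReal.tsum_mul_left, ← ENNReal.tsum_mul_left]
          refine ENNReal.tsum_le_tsum fun L3 => ?_
          simp only [tw]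
          rw [ind_true hle, HT_append, HT_append, ← add_assoc]
          exact le_of_eq (by ring)
    _ ≤ _ := by
        rw [ENNReal.tsum_add]
        refine add_le_add he (le_of_eq ?_)
        rw [ENNReal.tsum_prod']
        refine tsum_congr fun L1 => ?_
        rw [ENNReal.tsum_prod']

end one

section two

variable {BX BY G : Type*} [AddCommGroup G] (ΛX : BX → ℝ≥0∞) (hX : BX → ℕ) (zX : BX → G)
  (ΛY : BY → ℝ≥0∞) (hY : BY → ℕ) (zY : BY → G)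

lemma ind_sum_Icc (a i h : ℕ) (P : ℕ → Prop) :
    ind (a ≤ h ∧ h ≤ a + i ∧ P h) ≤ ∑ c ∈ Finset.Icc a (a + i), ind (h = c ∧ P c) := by
  by_cases hh : a ≤ h ∧ h ≤ a + i ∧ P h
  · rw [ind_true hh]
    calc (1 : ℝ≥0∞) = ind (h = h ∧ P h) := (ind_true ⟨rfl, hh.2.2⟩).symm
      _ ≤ _ := Finset.single_le_sum (f := fun c => ind (h = c ∧ P c)) (fun _ _ => zero_le)
            (Finset.mem_Icc.2 ⟨hh.1, hh.2.1⟩)
  · rw [ind_false hh]; exact zero_le

/-- the sum over the cells of the heights -/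
lemma cellsum (w : G) (aX aY tX tY i0 : ℕ) (f : List BX × List BY → ℝ≥0∞) (M : ℝ≥0∞)
    (hf : ∑' p, f p ≤ 1) (hM : ∀ x, ∑' p, f p * ind (w + dp zY p.2 - dp zX p.1 = x) ≤ M)
    (Q : ℕ → ℕ → G → List BX → List BY → Prop) (R : ℝ≥0∞)
    (hR : ∀ a a' h h', aX ≤ a → a ≤ aX + i0 → aY ≤ a' → a' ≤ aY + i0 → tX ≤ h → h ≤ tX + i0 →
      tY ≤ h' → h' ≤ tY + i0 → ∀ μ : G → ℝ≥0∞, ∑' x, μ x ≤ 1 → (∀ x, μ x ≤ M) →
      ∑' x, μ x * ∑' r : List BX × List BY, LW ΛX r.1 * LW ΛY r.2 *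
        ind (HT hX r.1 = h ∧ HT hY r.2 = h' ∧ Q a a' x r.1 r.2) ≤ R) :
    ∑' p, f p * ∑' r : List BX × List BY, LW ΛX r.1 * LW ΛY r.2 *
      ind (aX ≤ HT hX p.1 ∧ HT hX p.1 ≤ aX + i0 ∧ aY ≤ HT hY p.2 ∧ HT hY p.2 ≤ aY + i0 ∧
        tX ≤ HT hX r.1 ∧ HT hX r.1 ≤ tX + i0 ∧ tY ≤ HT hY r.2 ∧ HT hY r.2 ≤ tY + i0 ∧
        Q (HT hX p.1) (HT hY p.2) (w + dp zY p.2 - dp zX p.1) r.1 r.2)
      ≤ ((i0 + 1 : ℕ) : ℝ≥0∞) ^ 4 * R := by
  set S1 := Finset.Icc aX (aX + i0) with hS1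
  set S2 := Finset.Icc tX (tX + i0) with hS2
  set S3 := Finset.Icc aY (aY + i0) with hS3
  set S4 := Finset.Icc tY (tY + i0) with hS4
  have hc1 : S1.card = i0 + 1 := by rw [hS1, Nat.card_Icc]; omega
  have hc2 : S2.card = i0 + 1 := by rw [hS2, Nat.card_Icc]; omega
  have hc3 : S3.card = i0 + 1 := by rw [hS3, Nat.card_Icc]; omega
  have hc4 : S4.card = i0 + 1 := by rw [hS4, Nat.card_Icc]; omega
  set V : ((ℕ × ℕ) × ℕ × ℕ) → (List BX × List BY) → (List BX × List BY) → ℝ≥0∞ := fun c p r =>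
    ind (HT hX p.1 = c.1.1 ∧ HT hY p.2 = c.1.2) *
      ind (HT hX r.1 = c.2.1 ∧ HT hY r.2 = c.2.2 ∧
        Q c.1.1 c.1.2 (w + dp zY p.2 - dp zX p.1) r.1 r.2) with hV
  have hpt : ∀ p r : List BX × List BY,
      ind (aX ≤ HT hX p.1 ∧ HT hX p.1 ≤ aX + i0 ∧ aY ≤ HT hY p.2 ∧ HT hY p.2 ≤ aY + i0 ∧
        tX ≤ HT hX r.1 ∧ HT hX r.1 ≤ tX + i0 ∧ tY ≤ HT hY r.2 ∧ HT hY r.2 ≤ tY + i0 ∧
        Q (HT hX p.1) (HT hY p.2) (w + dp zY p.2 - dp zX p.1) r.1 r.2)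
      ≤ ∑ c ∈ (S1 ×ˢ S3) ×ˢ (S2 ×ˢ S4), V c p r := by
    intro p r
    by_cases hh : aX ≤ HT hX p.1 ∧ HT hX p.1 ≤ aX + i0 ∧ aY ≤ HT hY p.2 ∧ HT hY p.2 ≤ aY + i0 ∧
        tX ≤ HT hX r.1 ∧ HT hX r.1 ≤ tX + i0 ∧ tY ≤ HT hY r.2 ∧ HT hY r.2 ≤ tY + i0 ∧
        Q (HT hX p.1) (HT hY p.2) (w + dp zY p.2 - dp zX p.1) r.1 r.2
    · rw [ind_true hh]
      obtain ⟨h1, h2, h3, h4, h5, h6, h7, h8, h9⟩ := hh
      calc (1 : ℝ≥0∞) = V ((HT hX p.1, HT hY p.2), (HT hX r.1, HT hY r.2)) p r := by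
            change 1 = ind (HT hX p.1 = HT hX p.1 ∧ HT hY p.2 = HT hY p.2) *
              ind (HT hX r.1 = HT hX r.1 ∧ HT hY r.2 = HT hY r.2 ∧
                Q (HT hX p.1) (HT hY p.2) (w + dp zY p.2 - dp zX p.1) r.1 r.2)
            rw [ind_true ⟨rfl, rfl⟩, ind_true ⟨rfl, rfl, h9⟩, one_mul]
        _ ≤ _ := Finset.single_le_sum (f := fun c => V c p r) (fun _ _ => zero_le)
            (by simp only [Finset.mem_product, hS1, hS2, hS3, hS4, Finset.mem_Icc]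
                exact ⟨⟨⟨h1, h2⟩, h3, h4⟩, ⟨h5, h6⟩, h7, h8⟩)
    · rw [ind_false hh]; exact zero_le
  calc _ ≤ ∑' p, f p * ∑' r : List BX × List BY, LW ΛX r.1 * LW ΛY r.2 *
        ∑ c ∈ (S1 ×ˢ S3) ×ˢ (S2 ×ˢ S4), V c p r :=
        ENNReal.tsum_le_tsum fun p => mul_le_mul_right (ENNReal.tsum_le_tsum fun r =>
          mul_le_mul_right (hpt p r) _) _
    _ = ∑ c ∈ (S1 ×ˢ S3) ×ˢ (S2 ×ˢ S4), ∑' p, f p * ∑' r : List BX × List BY,
          LW ΛX r.1 * LW ΛY r.2 * V c p r := by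
        have e1 : ∀ p, ∑' r : List BX × List BY, LW ΛX r.1 * LW ΛY r.2 *
            ∑ c ∈ (S1 ×ˢ S3) ×ˢ (S2 ×ˢ S4), V c p r
            = ∑ c ∈ (S1 ×ˢ S3) ×ˢ (S2 ×ˢ S4), ∑' r : List BX × List BY,
              LW ΛX r.1 * LW ΛY r.2 * V c p r := by
          intro p
          simp_rw [Finset.mul_sum]
          exact Summable.tsum_finsetSum (fun _ _ => ENNReal.summable)
        simp_rw [e1, Finset.mul_sum]
        exact Summable.tsum_finsetSum (fun _ _ => ENNReal.summable)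
    _ ≤ ∑ c ∈ (S1 ×ˢ S3) ×ˢ (S2 ×ˢ S4), R := by
        refine Finset.sum_le_sum fun c hc => ?_
        simp only [Finset.mem_product, hS1, hS2, hS3, hS4, Finset.mem_Icc] at hc
        obtain ⟨⟨⟨h1, h2⟩, h3, h4⟩, ⟨h5, h6⟩, h7, h8⟩ := hc
        set Φ : G → ℝ≥0∞ := fun x => ∑' r : List BX × List BY, LW ΛX r.1 * LW ΛY r.2 *
          ind (HT hX r.1 = c.2.1 ∧ HT hY r.2 = c.2.2 ∧ Q c.1.1 c.1.2 x r.1 r.2) with hΦ
        set F : List BX × List BY → ℝ≥0∞ := fun p =>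
          f p * ind (HT hX p.1 = c.1.1 ∧ HT hY p.2 = c.1.2) with hF
        have e2 : ∑' p, f p * ∑' r : List BX × List BY, LW ΛX r.1 * LW ΛY r.2 * V c p r
            = ∑' p, F p * Φ (w + dp zY p.2 - dp zX p.1) := by
          refine tsum_congr fun p => ?_
          rw [hF, hΦ]
          simp only
          rw [mul_assoc, ← ENNReal.tsum_mul_left (a := ind (HT hX p.1 = c.1.1 ∧ HT hY p.2 = c.1.2))]
          congr 1
          refine tsum_congr fun r => ?_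
          rw [hV]; simp only
          ring
        rw [e2, fiber F (fun p => w + dp zY p.2 - dp zX p.1) Φ]
        have hFf : ∀ p, F p ≤ f p := fun p => by
          rw [hF]; simp only
          calc _ ≤ f p * 1 := mul_le_mul_right (ind_le_one _) _
            _ = _ := mul_one _
        refine hR c.1.1 c.1.2 c.2.1 c.2.2 h1 h2 h3 h4 h5 h6 h7 h8
          (fun x => ∑' p, F p * ind (w + dp zY p.2 - dp zX p.1 = x)) ?_ ?_
        · have := fiber F (fun p => w + dp zY p.2 - dp zX p.1) (fun _ => 1)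
          simp only [mul_one] at this
          rw [← this]
          exact (ENNReal.tsum_le_tsum hFf).trans hf
        · intro x
          exact (ENNReal.tsum_le_tsum fun p => mul_le_mul_left (hFf p) _).trans (hM x)
    _ = _ := by
        rw [Finset.sum_const, Finset.card_product, Finset.card_product, Finset.card_product,
          hc1, hc2, hc3, hc4, nsmul_eq_mul]
        push_cast
        ring

end two

end Crest.Agent.R154.AsmQ1
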