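import Crest.Agent.R154.AsmP_114

/-! Row 154, ROAD 801 (helper114): sums over decompositions. -/

set_option autoImplicit false

namespace Crest.Agent.R154.Asm114

open scoped ENNReal
open Crest.Agent.R154.B5A
open Crest.Agent.R154.FP178 (fp fp_nil fp_cons sum_fp_step sum_fp_zero sum_FP)

open Classical in
lemma ex_le {α τ : Type*} (w : α → ℝ≥0∞) (g : τ → α) (Q : τ → Prop) :
    ∑' a, (if ∃ t, g t = a ∧ Q t then w a else 0) ≤ ∑' t, if Q t then w (g t) else 0 := by
  set S : Set α := {a | ∃ t, g t = a ∧ Q t} with hS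
  have hch : ∀ a : S, ∃ t, g t = a.1 ∧ Q t := fun a => a.2
  choose f hf using hch
  have hinj : Function.Injective f := fun a b hab =>
    Subtype.ext (by rw [← (hf a).1, ← (hf b).1, hab])
  calc ∑' a, (if ∃ t, g t = a ∧ Q t then w a else 0) = ∑' a : S, w a.1 := by
        rw [tsum_subtype S w]
        refine tsum_congr fun a => ?_
        by_cases ha : ∃ t, g t = a ∧ Q t
        · rw [if_pos ha, Set.indicator_of_mem (by exact ha)]
        · rw [if_neg ha, Set.indicator_of_notMem (by exact ha)]
    _ = ∑' a : S, (if Q (f a) then w (g (f a)) else 0) :=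
        tsum_congr fun a => by rw [if_pos (hf a).2, (hf a).1]
    _ ≤ ∑' t, if Q t then w (g t) else 0 := ENNReal.tsum_comp_le_tsum_of_injective hinj
          (fun t => if Q t then w (g t) else 0)

variable {B B' G : Type*} [AddCommGroup G] {T T' : ℕ}

open Classical in
lemma dec1 (Λ : B → ℝ≥0∞) (h : B → ℕ) (hU1 : ∀ n, U Λ h n ≤ 1) (j n : ℕ)
    (Q : List (Pc h T) → Pc h T → Prop) :
    ∑' L, (if HT h L = n ∧ (∃ (t : List (Pc h T)) (P : Pc h T) (R : List B), t.length = j ∧
        L = fl t ++ (P.1 ++ R) ∧ Q t P) then LW Λ L else 0)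
      ≤ ∑' t : List (Pc h T), ∑' P : Pc h T,
        if t.length = j ∧ Q t P then LW (PL Λ h T) t * PL Λ h T P else 0 := by
  set g : List (Pc h T) × Pc h T × List B → List B := fun τ => fl τ.1 ++ (τ.2.1.1 ++ τ.2.2) with hg
  calc ∑' L, (if HT h L = n ∧ (∃ (t : List (Pc h T)) (P : Pc h T) (R : List B), t.length = j ∧
        L = fl t ++ (P.1 ++ R) ∧ Q t P) then LW Λ L else 0)
      ≤ ∑' L, (if ∃ τ, g τ = L ∧ (τ.1.length = j ∧ Q τ.1 τ.2.1 ∧ HT h (g τ) = n)
          then LW Λ L else 0) := by
        refine ENNReal.tsum_le_tsum fun L => ?_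
        by_cases hL : HT h L = n ∧ (∃ (t : List (Pc h T)) (P : Pc h T) (R : List B),
            t.length = j ∧ L = fl t ++ (P.1 ++ R) ∧ Q t P)
        · obtain ⟨h1, t, P, R, h2, h3, h4⟩ := id hL
          rw [if_pos hL, if_pos ⟨(t, P, R), h3.symm, h2, h4, by rw [← h1, h3]⟩]
        · rw [if_neg hL]; exact zero_le
    _ ≤ ∑' τ, (if (τ.1.length = j ∧ Q τ.1 τ.2.1 ∧ HT h (g τ) = n) then LW Λ (g τ) else 0) :=
        (ex_le (LW Λ) g (fun τ => τ.1.length = j ∧ Q τ.1 τ.2.1 ∧ HT h (g τ) = n)).trans
          (le_of_eq (tsum_congr fun τ => by congr))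
    _ = ∑' t : List (Pc h T), ∑' P : Pc h T, ∑' R : List B,
          (if (t.length = j ∧ Q t P ∧ HT h (g (t, P, R)) = n) then LW Λ (g (t, P, R)) else 0) := by
        rw [ENNReal.tsum_prod']
        refine tsum_congr fun t => ?_
        rw [ENNReal.tsum_prod']
    _ ≤ _ := by
        refine ENNReal.tsum_le_tsum fun t => ENNReal.tsum_le_tsum fun P => ?_
        by_cases hQ : t.length = j ∧ Q t P
        · rw [if_pos hQ]
          calc ∑' R : List B, (if (t.length = j ∧ Q t P ∧ HT h (g (t, P, R)) = n)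
                then LW Λ (g (t, P, R)) else 0)
              ≤ ∑' R : List B, LW (PL Λ h T) t * PL Λ h T P *
                  (if HT h R = n - (HT h (fl t) + HT h P.1) then LW Λ R else 0) := by
                refine ENNReal.tsum_le_tsum fun R => ?_
                by_cases hR : t.length = j ∧ Q t P ∧ HT h (g (t, P, R)) = n
                · rw [if_pos hR, if_pos]
                  · simp only [hg, LW_append, LW_fl]
                    rw [mul_assoc]; rfl
                  · have := hR.2.2
                    simp only [hg, HT_append] at this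
                    omega
                · rw [if_neg hR]; exact zero_le
            _ = LW (PL Λ h T) t * PL Λ h T P * U Λ h (n - (HT h (fl t) + HT h P.1)) := by
                rw [ENNReal.tsum_mul_left]; rfl
            _ ≤ _ := by
                calc _ ≤ LW (PL Λ h T) t * PL Λ h T P * 1 := mul_le_mul_right (hU1 _) _
                  _ = _ := mul_one _
        · rw [if_neg hQ]
          refine (ENNReal.tsum_eq_zero.2 fun R => ?_).le
          rw [if_neg (fun hR => hQ ⟨hR.1, hR.2.1⟩)]

open Classical in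
lemma dec2 (Λ : B → ℝ≥0∞) (h : B → ℕ) (hU1 : ∀ n, U Λ h n ≤ 1)
    (Λ' : B' → ℝ≥0∞) (h' : B' → ℕ) (hU1' : ∀ n, U Λ' h' n ≤ 1) (j n : ℕ)
    (Q : List (Pc h T) → Pc h T → List (Pc h' T') → Pc h' T' → Prop) :
    ∑' L, ∑' L', (if HT h L = n ∧ HT h' L' = n ∧ (∃ (t : List (Pc h T)) (P : Pc h T) (R : List B)
        (t' : List (Pc h' T')) (P' : Pc h' T') (R' : List B'), t.length = j ∧
        L = fl t ++ (P.1 ++ R) ∧ t'.length = j ∧ L' = fl t' ++ (P'.1 ++ R') ∧ Q t P t' P')
        then LW Λ L * LW Λ' L' else 0)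
      ≤ ∑' t : List (Pc h T), ∑' P : Pc h T, ∑' t' : List (Pc h' T'), ∑' P' : Pc h' T',
        if t.length = j ∧ t'.length = j ∧ Q t P t' P'
          then (LW (PL Λ h T) t * PL Λ h T P) * (LW (PL Λ' h' T') t' * PL Λ' h' T' P') else 0 := by
  set Q1 : List B' → List (Pc h T) → Pc h T → Prop := fun L' t P =>
    ∃ (t' : List (Pc h' T')) (P' : Pc h' T') (R' : List B'), t'.length = j ∧
      L' = fl t' ++ (P'.1 ++ R') ∧ Q t P t' P' with hQ1
  calc ∑' L, ∑' L', (if HT h L = n ∧ HT h' L' = n ∧ (∃ (t : List (Pc h T)) (P : Pc h T)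
        (R : List B) (t' : List (Pc h' T')) (P' : Pc h' T') (R' : List B'), t.length = j ∧
        L = fl t ++ (P.1 ++ R) ∧ t'.length = j ∧ L' = fl t' ++ (P'.1 ++ R') ∧ Q t P t' P')
        then LW Λ L * LW Λ' L' else 0)
      = ∑' L', ∑' L, (if HT h' L' = n then LW Λ' L' else 0) *
          (if HT h L = n ∧ (∃ (t : List (Pc h T)) (P : Pc h T) (R : List B), t.length = j ∧
            L = fl t ++ (P.1 ++ R) ∧ Q1 L' t P) then LW Λ L else 0) := by
        rw [ENNReal.tsum_comm]
        refine tsum_congr fun L' => tsum_congr fun L => ?_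
        by_cases h1 : HT h' L' = n
        · by_cases h2 : HT h L = n ∧ (∃ (t : List (Pc h T)) (P : Pc h T) (R : List B),
              t.length = j ∧ L = fl t ++ (P.1 ++ R) ∧ Q1 L' t P)
          · rw [if_pos h1, if_pos h2, if_pos, mul_comm]
            obtain ⟨ha, t, P, R, hb, hc, t', P', R', hd, he, hf⟩ := h2
            exact ⟨ha, h1, t, P, R, t', P', R', hb, hc, hd, he, hf⟩
          · rw [if_neg h2, mul_zero, if_neg]
            rintro ⟨ha, -, t, P, R, t', P', R', hb, hc, hd, he, hf⟩
            exact h2 ⟨ha, t, P, R, hb, hc, t', P', R', hd, he, hf⟩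
        · rw [if_neg h1, zero_mul, if_neg (fun hh => h1 hh.2.1)]
    _ = ∑' L', (if HT h' L' = n then LW Λ' L' else 0) * ∑' L,
          (if HT h L = n ∧ (∃ (t : List (Pc h T)) (P : Pc h T) (R : List B), t.length = j ∧
            L = fl t ++ (P.1 ++ R) ∧ Q1 L' t P) then LW Λ L else 0) :=
        tsum_congr fun L' => ENNReal.tsum_mul_left
    _ ≤ ∑' L', (if HT h' L' = n then LW Λ' L' else 0) *
          ∑' t : List (Pc h T), ∑' P : Pc h T,
            (if t.length = j ∧ Q1 L' t P then LW (PL Λ h T) t * PL Λ h T P else 0) :=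
        ENNReal.tsum_le_tsum fun L' => mul_le_mul_right (dec1 Λ h hU1 j n (Q1 L')) _
    _ = ∑' t : List (Pc h T), ∑' P : Pc h T, ∑' L', (if HT h' L' = n then LW Λ' L' else 0) *
            (if t.length = j ∧ Q1 L' t P then LW (PL Λ h T) t * PL Λ h T P else 0) := by
        simp_rw [← ENNReal.tsum_mul_left]
        rw [ENNReal.tsum_comm]
        refine tsum_congr fun t => ?_
        rw [ENNReal.tsum_comm]
    _ = ∑' t : List (Pc h T), ∑' P : Pc h T, (if t.length = j then
            LW (PL Λ h T) t * PL Λ h T P else 0) *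
            ∑' L', (if HT h' L' = n ∧ Q1 L' t P then LW Λ' L' else 0) := by
        refine tsum_congr fun t => tsum_congr fun P => ?_
        rw [← ENNReal.tsum_mul_left]
        refine tsum_congr fun L' => ?_
        by_cases h1 : HT h' L' = n <;> by_cases h2 : t.length = j <;>
          by_cases h3 : Q1 L' t P <;> simp [h1, h2, h3, mul_comm]
    _ ≤ ∑' t : List (Pc h T), ∑' P : Pc h T, (if t.length = j then
            LW (PL Λ h T) t * PL Λ h T P else 0) *
            ∑' t' : List (Pc h' T'), ∑' P' : Pc h' T',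
              (if t'.length = j ∧ Q t P t' P' then LW (PL Λ' h' T') t' * PL Λ' h' T' P' else 0) :=
        ENNReal.tsum_le_tsum fun t => ENNReal.tsum_le_tsum fun P =>
          mul_le_mul_right (dec1 Λ' h' hU1' j n (fun t' P' => Q t P t' P')) _
    _ = _ := by
        refine tsum_congr fun t => tsum_congr fun P => ?_
        rw [← ENNReal.tsum_mul_left]
        refine tsum_congr fun t' => ?_
        rw [← ENNReal.tsum_mul_left]
        refine tsum_congr fun P' => ?_
        by_cases h2 : t.length = j <;> by_cases h3 : t'.length = j ∧ Q t P t' P' <;>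
          simp [h2, h3]

end Crest.Agent.R154.Asm114
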