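import Crest.Agent.R154.AsmP_212

/-! Row 154, ROAD 801 (helper212): the cost of ONE window, all cases. -/

set_option autoImplicit false

namespace Crest.Agent.R154.AsmP212

open scoped ENNReal
open Crest.Agent.R154.B5A Crest.Agent.R154.AsmA789

variable {P P' G : Type*}

/-- expectation of a functional of (top lists, pieces) -/
noncomputable def Phi (α : P → ℝ≥0∞) (β : P' → ℝ≥0∞) (k : ℕ)
    (f : List P → List P' → P → P' → ℝ≥0∞) : ℝ≥0∞ :=
  SL α k (fun A => SL β k (fun A' => ∑' p, ∑' p', α p * β p' * f A A' p p'))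

lemma Phi_mono (α : P → ℝ≥0∞) (β : P' → ℝ≥0∞) (k : ℕ)
    {f g : List P → List P' → P → P' → ℝ≥0∞} (hfg : ∀ A A' p p', f A A' p p' ≤ g A A' p p') :
    Phi α β k f ≤ Phi α β k g :=
  SL_mono α k fun A _ => SL_mono β k fun A' _ => ENNReal.tsum_le_tsum fun p =>
    ENNReal.tsum_le_tsum fun p' => mul_le_mul_right (hfg A A' p p') _

lemma Phi_add (α : P → ℝ≥0∞) (β : P' → ℝ≥0∞) (k : ℕ)
    (f g : List P → List P' → P → P' → ℝ≥0∞) :
    Phi α β k (fun A A' p p' => f A A' p p' + g A A' p p') = Phi α β k f + Phi α β k g := by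
  unfold Phi
  rw [← SL_add_fun]
  refine SL_congr α k fun A _ => ?_
  rw [← SL_add_fun]
  refine SL_congr β k fun A' _ => ?_
  rw [← ENNReal.tsum_add]
  refine tsum_congr fun p => ?_
  rw [← ENNReal.tsum_add]
  refine tsum_congr fun p' => ?_
  rw [mul_add]

lemma Phi_zero (α : P → ℝ≥0∞) (β : P' → ℝ≥0∞) (k : ℕ) :
    Phi α β k (fun _ _ _ _ => 0) = 0 := by
  unfold Phi
  simp [SL]

lemma Phi_sum {ι : Type*} (α : P → ℝ≥0∞) (β : P' → ℝ≥0∞) (k : ℕ) (s : Finset ι)
    (f : ι → List P → List P' → P → P' → ℝ≥0∞) :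
    Phi α β k (fun A A' p p' => ∑ i ∈ s, f i A A' p p') = ∑ i ∈ s, Phi α β k (f i) := by
  classical
  induction s using Finset.induction_on with
  | empty => simp [Phi_zero]
  | insert i s hi ih =>
    simp only [Finset.sum_insert hi]
    rw [Phi_add, ih]

lemma Phi_A (α : P → ℝ≥0∞) (β : P' → ℝ≥0∞) (hα : ∑' b, α b = 1) (hβ : ∑' b, β b = 1) (k : ℕ)
    (f : List P → ℝ≥0∞) : Phi α β k (fun A _ _ _ => f A) = SL α k f := by
  unfold Phi
  refine SL_congr α k fun A _ => ?_
  have : (∑' p, ∑' p', α p * β p' * f A) = f A := by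
    have e : ∀ p, ∑' p', α p * β p' * f A = α p * f A := by
      intro p
      rw [ENNReal.tsum_mul_right, ENNReal.tsum_mul_left, hβ, mul_one]
    rw [tsum_congr e, ENNReal.tsum_mul_right, hα, one_mul]
  simp only [this]
  exact SL_const β hβ k _

lemma Phi_A' (α : P → ℝ≥0∞) (β : P' → ℝ≥0∞) (hα : ∑' b, α b = 1) (hβ : ∑' b, β b = 1) (k : ℕ)
    (f : List P' → ℝ≥0∞) : Phi α β k (fun _ A' _ _ => f A') = SL β k f := by
  unfold Phi
  have : ∀ A' : List P', (∑' p, ∑' p', α p * β p' * f A') = f A' := by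
    intro A'
    have e : ∀ p, ∑' p', α p * β p' * f A' = α p * f A' := by
      intro p
      rw [ENNReal.tsum_mul_right, ENNReal.tsum_mul_left, hβ, mul_one]
    rw [tsum_congr e, ENNReal.tsum_mul_right, hα, one_mul]
  simp only [this]
  exact SL_const α hα k _

open Classical in
lemma Phi_pp (α : P → ℝ≥0∞) (β : P' → ℝ≥0∞) (hα : ∑' b, α b = 1) (hβ : ∑' b, β b = 1) (k : ℕ)
    (S : P → Prop) (S' : P' → Prop) :
    Phi α β k (fun _ _ p p' => if S p ∧ S' p' then 1 else 0)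
      = (∑' p, if S p then α p else 0) * ∑' p', if S' p' then β p' else 0 := by
  unfold Phi
  have : (∑' p, ∑' p', α p * β p' * (if S p ∧ S' p' then (1 : ℝ≥0∞) else 0))
      = (∑' p, if S p then α p else 0) * ∑' p', if S' p' then β p' else 0 := by
    rw [← ENNReal.tsum_mul_right]
    refine tsum_congr fun p => ?_
    rw [← ENNReal.tsum_mul_left]
    refine tsum_congr fun p' => ?_
    by_cases h1 : S p <;> by_cases h2 : S' p' <;> simp [h1, h2]
  simp only [this]
  rw [SL_const β hβ, SL_const α hα]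

open Classical in
theorem cls_Phi [AddCommGroup G] (α : P → ℝ≥0∞) (β : P' → ℝ≥0∞) (hα : ∑' b, α b = 1)
    (hβ : ∑' b, β b = 1) (h : P → ℕ) (z : P → G) (h' : P' → ℕ) (k T i0 n n' : ℕ) (θ : ℝ≥0∞)
    (off : List P → List P' → G) (inv : List P' → G → G)
    (hinv : ∀ A A' x, off A A' = x → (A.map z).sum = inv A' x)
    (Q : List P → List P' → Prop) (Ct : G → P → P' → Prop) (R : ℝ≥0∞)
    (h2 : ∀ μ : G → ℝ≥0∞, ∑' x, μ x ≤ 1 → (∀ x, μ x ≤ k * (((i0 : ℝ≥0∞) + 1) * (2 * θ))) →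
      ∑' x, μ x * ∑' p, ∑' p', (if h p = n ∧ θ ≤ pz α h z (n, z p) ∧ h' p' = n' ∧ Ct x p p'
        then α p * β p' else 0) ≤ R) :
    Phi α β k (fun A A' p p' => if Q A A' ∧ (∃ b ∈ A, Sm α h z T i0 θ b) ∧ h p = n ∧
      θ ≤ pz α h z (n, z p) ∧ h' p' = n' ∧ Ct (off A A') p p' then 1 else 0) ≤ R := by
  refine le_trans (le_of_eq ?_) (cls α β hα hβ h z h' k T i0 n n' θ off inv hinv Q Ct R h2)
  unfold Phi
  refine SL_congr α k fun A _ => SL_congr β k fun A' _ => tsum_congr fun p => tsum_congr fun p' => ?_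
  rw [mul_ite, mul_one, mul_zero]

/-- the roles of the two walkers exchanged -/
lemma Phi_swap (α : P → ℝ≥0∞) (β : P' → ℝ≥0∞) (k : ℕ)
    (f : List P → List P' → P → P' → ℝ≥0∞) :
    Phi α β k f = Phi β α k (fun A' A p' p => f A A' p p') := by
  unfold Phi
  simp only [SL]
  have : ∀ (A : List P), (if A.length = k then LW α A * ∑' A' : List P',
      (if A'.length = k then LW β A' * ∑' p, ∑' p', α p * β p' * f A A' p p' else 0) else 0)
      = ∑' A' : List P', (if A'.length = k then LW β A' * (if A.length = k then LW α A *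
        ∑' p', ∑' p, β p' * α p * f A A' p p' else 0) else 0) := by
    intro A
    by_cases hA : A.length = k
    · rw [if_pos hA, ← ENNReal.tsum_mul_left]
      refine tsum_congr fun A' => ?_
      by_cases hA' : A'.length = k
      · rw [if_pos hA', if_pos hA', if_pos hA, mul_left_comm, ENNReal.tsum_comm]
        simp only [mul_comm (α _) (β _)]
      · rw [if_neg hA', if_neg hA', mul_zero]
    · rw [if_neg hA]; symm
      refine ENNReal.tsum_eq_zero.2 fun A' => ?_
      simp [hA]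
  rw [tsum_congr this, ENNReal.tsum_comm]
  refine tsum_congr fun A' => ?_
  by_cases hA' : A'.length = k
  · simp only [hA', if_true]; rw [ENNReal.tsum_mul_left]
  · simp [hA']

open Classical in
lemma not_small (α : P → ℝ≥0∞) (hα : ∑' b, α b = 1) (h : P → ℕ) (z : P → G) (θ u : ℝ≥0∞)
    (hu1 : u ≤ 1)
    (hq : u ≤ ∑' i, (if pz α h z i < 2 * θ then pz α h z i else 0)) (k : ℕ) :
    SL α k (fun A => if ∃ b ∈ A, pz α h z (h b, z b) < 2 * θ then 0 else 1) ≤ (1 - u) ^ k := by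
  have hn := nosmall α (fun b => pz α h z (h b, z b) < 2 * θ) k
  have hn' : SL α k (fun A => if ∃ b ∈ A, pz α h z (h b, z b) < 2 * θ then 0 else 1)
      = (∑' b, if pz α h z (h b, z b) < 2 * θ then 0 else α b) ^ k := by convert hn
  rw [hn']
  refine pow_le_pow_left' ?_ k
  have e : (∑' b, if pz α h z (h b, z b) < 2 * θ then 0 else α b)
      + (∑' b, if pz α h z (h b, z b) < 2 * θ then α b else 0) = 1 := by
    rw [← ENNReal.tsum_add, ← hα]
    refine tsum_congr fun b => ?_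
    split_ifs <;> simp
  have hp : (∑' b, if pz α h z (h b, z b) < 2 * θ then α b else 0)
      = ∑' i, (if pz α h z i < 2 * θ then pz α h z i else 0) := by
    have := push α h z (fun i => pz α h z i < 2 * θ)
    convert this
  rw [hp] at e
  have hne : u ≠ ⊤ := ne_top_of_le_ne_top ENNReal.one_ne_top hu1
  refine ENNReal.le_sub_of_add_le_right hne ?_
  rw [← e]
  exact add_le_add le_rfl hq


open Classical in
lemma card_slice (α : P → ℝ≥0∞) (hα : ∑' b, α b = 1) (h : P → ℕ) (z : P → G) (n : ℕ)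
    {θ : ℝ≥0∞} (hθ : θ ≠ 0) : ∃ E : Finset G, (∀ y, y ∈ E ↔ θ ≤ pz α h z (n, y)) ∧
      θ * (E.card : ℝ≥0∞) ≤ 1 := by
  have hs : ∑' y, pz α h z (n, y) ≤ 1 := by
    rw [← hα, ← pz_sum α h z]
    exact ENNReal.tsum_comp_le_tsum_of_injective (Prod.mk_right_injective n) (pz α h z)
  obtain ⟨hf, hc⟩ := card_le (fun y => pz α h z (n, y)) hs hθ
  refine ⟨hf.toFinset, fun y => by simp, ?_⟩
  rw [Set.ncard_eq_toFinset_card _ hf] at hc
  rw [mul_comm]; exact hc

lemma arith_bound (C lam us θ : ℝ≥0∞) (k i0 c : ℕ) (hc : θ * (c : ℝ≥0∞) ≤ 1) :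
    C * (lam + (k * (((i0 : ℝ≥0∞) + 1) * (2 * θ))) * c * us / lam + us)
      ≤ C * (lam + 2 * k * ((i0 : ℝ≥0∞) + 1) * us / lam + us) := by
  refine mul_le_mul_right (add_le_add (add_le_add le_rfl ?_) le_rfl) C
  rw [ENNReal.div_eq_inv_mul, ENNReal.div_eq_inv_mul]
  refine mul_le_mul_right ?_ _
  refine mul_le_mul_left ?_ us
  calc (k : ℝ≥0∞) * (((i0 : ℝ≥0∞) + 1) * (2 * θ)) * c
      = 2 * k * ((i0 : ℝ≥0∞) + 1) * (θ * c) := by ring
    _ ≤ 2 * k * ((i0 : ℝ≥0∞) + 1) * 1 := mul_le_mul_right hc _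
    _ = _ := mul_one _

lemma HT_range (h : P → ℕ) (T i0 : ℕ) (hT : ∀ b, T ≤ h b) (A : List P)
    (hA : ∀ b ∈ A, h b ≤ T + i0) : A.length * T ≤ HT h A ∧ HT h A ≤ A.length * T + A.length * i0 := by
  induction A with
  | nil => simp [HT_nil]
  | cons b A ih =>
    rw [HT_cons, List.length_cons]
    have h1 := hT b
    have h2 := hA b (List.mem_cons_self)
    obtain ⟨h3, h4⟩ := ih fun c hc => hA c (List.mem_cons_of_mem _ hc)
    constructor
    · rw [Nat.succ_mul]; omega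
    · rw [Nat.succ_mul, Nat.succ_mul]; omega

/-- total of the class bounds -/
noncomputable def cost (u C lam us : ℝ≥0∞) (k i0 : ℕ) : ℝ≥0∞ :=
  u * u + (1 - u) ^ k + (1 - u) ^ k
    + ((k * i0 + 1 : ℕ) : ℝ≥0∞) ^ 2 * ((i0 + 1 : ℕ) : ℝ≥0∞) ^ 2 *
      (2 * (C * (lam + 2 * k * ((i0 : ℝ≥0∞) + 1) * us / lam + us)))

open Classical in
/-- **THE COST OF ONE WINDOW** (pieces as letters). -/
theorem window_cost [AddCommGroup G] (α : P → ℝ≥0∞) (β : P' → ℝ≥0∞) (hα : ∑' b, α b = 1)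
    (hβ : ∑' b, β b = 1) (h : P → ℕ) (z : P → G) (h' : P' → ℕ) (z' : P' → G) (k T i0 : ℕ)
    (hT : ∀ b, T ≤ h b) (hT' : ∀ b, T ≤ h' b) (u C lam us : ℝ≥0∞) (hu : u ≠ 0) (hu1 : u < 1)
    (w : G) (Ev : ℕ → ℕ → G → P → P' → Prop)
    (H2 : ∀ a a' n n' : ℕ, k * T ≤ a → a ≤ k * T + k * i0 → k * T ≤ a' → a' ≤ k * T + k * i0 →
      T ≤ n → n ≤ T + i0 → T ≤ n' → n' ≤ T + i0 →
      ∀ (E : Finset G) (μ : G → ℝ≥0∞) (M : ℝ≥0∞), ∑' x, μ x ≤ 1 → (∀ x, μ x ≤ M) →
      ∑' x, μ x * ∑' p, ∑' p', (if h p = n ∧ z p ∈ E ∧ h' p' = n' ∧ Ev a a' x p p'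
        then α p * β p' else 0) ≤ C * (lam + M * E.card * us / lam + us))
    (H3 : ∀ a a' n n' : ℕ, k * T ≤ a → a ≤ k * T + k * i0 → k * T ≤ a' → a' ≤ k * T + k * i0 →
      T ≤ n → n ≤ T + i0 → T ≤ n' → n' ≤ T + i0 →
      ∀ (E : Finset G) (μ : G → ℝ≥0∞) (M : ℝ≥0∞), ∑' x, μ x ≤ 1 → (∀ x, μ x ≤ M) →
      ∑' x, μ x * ∑' p, ∑' p', (if h p = n ∧ z' p' ∈ E ∧ h' p' = n' ∧ Ev a a' x p p'
        then α p * β p' else 0) ≤ C * (lam + M * E.card * us / lam + us)) :
    Phi α β k (fun A A' p p' => if (∀ b ∈ A, h b ≤ T + i0) ∧ (∀ b ∈ A', h' b ≤ T + i0) ∧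
      h p ≤ T + i0 ∧ h' p' ≤ T + i0 ∧
      Ev (HT h A) (HT h' A') (w + (A'.map z').sum - (A.map z).sum) p p' then 1 else 0)
      ≤ cost u C lam us k i0 := by
  obtain ⟨θ, hθ0, hθ1, hq1, hq2⟩ := quant (pz α h z) (by rw [pz_sum, hα]) hu hu1
  obtain ⟨θ', hθ0', hθ1', hq1', hq2'⟩ := quant (pz β h' z') (by rw [pz_sum, hβ]) hu hu1
  set off : List P → List P' → G := fun A A' => w + (A'.map z').sum - (A.map z).sum with hoff
  set R : ℝ≥0∞ := C * (lam + 2 * k * ((i0 : ℝ≥0∞) + 1) * us / lam + us) with hR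
  set S : Finset (ℕ × ℕ × ℕ × ℕ) := (Finset.Icc (k * T) (k * T + k * i0)) ×ˢ
    (Finset.Icc (k * T) (k * T + k * i0)) ×ˢ (Finset.Icc T (T + i0)) ×ˢ (Finset.Icc T (T + i0))
    with hS
  set f1 : P → P' → ℝ≥0∞ := fun p p' => if pz α h z (h p, z p) < θ ∧ pz β h' z' (h' p', z' p') < θ'
    then 1 else 0 with hf1
  set f2 : List P → ℝ≥0∞ := fun A => if ∃ b ∈ A, pz α h z (h b, z b) < 2 * θ then 0 else 1 with hf2
  set f3 : List P' → ℝ≥0∞ := fun A' => if ∃ b ∈ A', pz β h' z' (h' b, z' b) < 2 * θ' then 0 else 1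
    with hf3
  set g1 : ℕ × ℕ × ℕ × ℕ → List P → List P' → P → P' → ℝ≥0∞ := fun i A A' p p' =>
    if (HT h A = i.1 ∧ HT h' A' = i.2.1) ∧ (∃ b ∈ A, Sm α h z T i0 θ b) ∧ h p = i.2.2.1 ∧
      θ ≤ pz α h z (i.2.2.1, z p) ∧ h' p' = i.2.2.2 ∧ Ev i.1 i.2.1 (off A A') p p' then 1 else 0
    with hg1
  set g2 : ℕ × ℕ × ℕ × ℕ → List P → List P' → P → P' → ℝ≥0∞ := fun i A A' p p' =>
    if (HT h A = i.1 ∧ HT h' A' = i.2.1) ∧ (∃ b ∈ A', Sm β h' z' T i0 θ' b) ∧ h' p' = i.2.2.2 ∧
      θ' ≤ pz β h' z' (i.2.2.2, z' p') ∧ h p = i.2.2.1 ∧ Ev i.1 i.2.1 (off A A') p p' then 1 else 0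
    with hg2
  -- the lengths enter through the Phi of lists of length `k`
  have key : Phi α β k (fun A A' p p' => if (∀ b ∈ A, h b ≤ T + i0) ∧ (∀ b ∈ A', h' b ≤ T + i0) ∧
      h p ≤ T + i0 ∧ h' p' ≤ T + i0 ∧
      Ev (HT h A) (HT h' A') (w + (A'.map z').sum - (A.map z).sum) p p' then 1 else 0)
      ≤ Phi α β k (fun A A' p p' => ((f1 p p' + f2 A) + f3 A') +
        ∑ i ∈ S, (g1 i A A' p p' + g2 i A A' p p')) := by
    unfold Phi
    refine SL_mono α k fun A hA => SL_mono β k fun A' hA' => ENNReal.tsum_le_tsum fun p =>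
      ENNReal.tsum_le_tsum fun p' => mul_le_mul_right ?_ _
    beta_reduce
    by_cases hE : (∀ b ∈ A, h b ≤ T + i0) ∧ (∀ b ∈ A', h' b ≤ T + i0) ∧
      h p ≤ T + i0 ∧ h' p' ≤ T + i0 ∧
      Ev (HT h A) (HT h' A') (w + (A'.map z').sum - (A.map z).sum) p p'
    swap
    · rw [if_neg hE]; exact zero_le
    · rw [if_pos hE]
      obtain ⟨e1, e2, e3, e4, e5⟩ := hE
      by_cases c1 : pz α h z (h p, z p) < θ ∧ pz β h' z' (h' p', z' p') < θ'
      · have : f1 p p' = 1 := by rw [hf1]; simp only; rw [if_pos c1]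
        rw [this]
        exact le_add_right (le_add_right (le_add_right le_rfl))
      by_cases c2 : ∃ b ∈ A, pz α h z (h b, z b) < 2 * θ
      swap
      · have : f2 A = 1 := by rw [hf2]; simp only; rw [if_neg c2]
        rw [this]
        exact le_add_right (le_add_right (le_add_left le_rfl))
      by_cases c3 : ∃ b ∈ A', pz β h' z' (h' b, z' b) < 2 * θ'
      swap
      · have : f3 A' = 1 := by rw [hf3]; simp only; rw [if_neg c3]
        rw [this]
        exact le_add_right (le_add_left le_rfl)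
      refine le_add_left ?_
      obtain ⟨r1, r2⟩ := HT_range h T i0 hT A e1
      obtain ⟨r3, r4⟩ := HT_range h' T i0 hT' A' e2
      rw [hA] at r1 r2
      rw [hA'] at r3 r4
      refine le_trans ?_ (Finset.single_le_sum (f := fun i => g1 i A A' p p' + g2 i A A' p p')
        (fun _ _ => zero_le) (show (HT h A, HT h' A', h p, h' p') ∈ S by
          rw [hS]; simp only [Finset.mem_product, Finset.mem_Icc]
          exact ⟨⟨r1, r2⟩, ⟨r3, r4⟩, ⟨hT p, e3⟩, ⟨hT' p', e4⟩⟩))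
      by_cases c4 : θ ≤ pz α h z (h p, z p)
      · have : g1 (HT h A, HT h' A', h p, h' p') A A' p p' = 1 := by
          rw [hg1]; simp only
          rw [if_pos]
          obtain ⟨b, hb, hb'⟩ := c2
          exact ⟨⟨trivial, trivial⟩, ⟨b, hb, hT b, e1 b hb, hb'⟩, trivial, c4, trivial, e5⟩
        simp only [this]
        exact le_add_right le_rfl
      · have c5 : θ' ≤ pz β h' z' (h' p', z' p') := by
          by_contra hc
          exact c1 ⟨not_le.1 c4, not_le.1 hc⟩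
        have : g2 (HT h A, HT h' A', h p, h' p') A A' p p' = 1 := by
          rw [hg2]; simp only
          rw [if_pos]
          obtain ⟨b, hb, hb'⟩ := c3
          exact ⟨⟨trivial, trivial⟩, ⟨b, hb, hT' b, e2 b hb, hb'⟩, trivial, c5, trivial, e5⟩
        simp only [this]
        exact le_add_left le_rfl
  refine key.trans ?_
  rw [Phi_add, Phi_add, Phi_add, Phi_sum]
  have b1 : Phi α β k (fun _ _ p p' => f1 p p') ≤ u * u := by
    have := Phi_pp α β hα hβ k (fun p => pz α h z (h p, z p) < θ)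
      (fun p' => pz β h' z' (h' p', z' p') < θ')
    have hx : (∑' p, if pz α h z (h p, z p) < θ then α p else 0) ≤ u := by
      have hp := push α h z (fun i => pz α h z i < θ)
      refine le_trans (le_of_eq ?_) hq1
      convert hp
    have hy : (∑' p', if pz β h' z' (h' p', z' p') < θ' then β p' else 0) ≤ u := by
      have hp := push β h' z' (fun i => pz β h' z' i < θ')
      refine le_trans (le_of_eq ?_) hq1'
      convert hp
    calc Phi α β k (fun _ _ p p' => f1 p p')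
        = (∑' p, if pz α h z (h p, z p) < θ then α p else 0)
          * ∑' p', if pz β h' z' (h' p', z' p') < θ' then β p' else 0 := by
          convert this
      _ ≤ u * u := mul_le_mul' hx hy
  have b2 : Phi α β k (fun A _ _ _ => f2 A) ≤ (1 - u) ^ k := by
    rw [Phi_A α β hα hβ k f2]
    have := not_small α hα h z θ u hu1.le (by convert hq2) k
    convert this
  have b3 : Phi α β k (fun _ A' _ _ => f3 A') ≤ (1 - u) ^ k := by
    rw [Phi_A' α β hα hβ k f3]
    have := not_small β hβ h' z' θ' u hu1.le (by convert hq2') k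
    convert this
  have b4 : ∀ i ∈ S, Phi α β k (fun A A' p p' => g1 i A A' p p' + g2 i A A' p p') ≤ 2 * R := by
    rintro ⟨a, a', n, n'⟩ hi
    rw [hS] at hi
    simp only [Finset.mem_product, Finset.mem_Icc] at hi
    obtain ⟨⟨i1, i2⟩, ⟨i3, i4⟩, ⟨i5, i6⟩, ⟨i7, i8⟩⟩ := hi
    rw [Phi_add, two_mul]
    refine add_le_add ?_ ?_
    · obtain ⟨E, hE, hc⟩ := card_slice α hα h z n hθ0
      have := cls_Phi α β hα hβ h z h' k T i0 n n' θ off
        (fun A' x => w + (A'.map z').sum - x) (by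
          intro A A' x hx
          rw [← hx, hoff]; simp only; abel)
        (fun A A' => HT h A = a ∧ HT h' A' = a') (fun x p p' => Ev a a' x p p') R (by
          intro μ hμ1 hμ2
          have h5 := H2 a a' n n' i1 i2 i3 i4 i5 i6 i7 i8 E μ _ hμ1 hμ2
          have h6 := h5.trans (arith_bound C lam us θ k i0 E.card hc)
          refine le_trans (le_of_eq ?_) h6
          refine tsum_congr fun x => ?_
          congr 1
          refine tsum_congr fun p => tsum_congr fun p' => ?_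
          simp only [hE])
      refine le_trans (le_of_eq ?_) this
      convert rfl
    · obtain ⟨E, hE, hc⟩ := card_slice β hβ h' z' n' hθ0'
      rw [Phi_swap]
      have := cls_Phi β α hβ hα h' z' h k T i0 n' n θ' (fun A' A => off A A')
        (fun A x => x - w + (A.map z).sum) (by
          intro A' A x hx
          rw [← hx, hoff]; simp only; abel)
        (fun A' A => HT h A = a ∧ HT h' A' = a') (fun x p' p => Ev a a' x p p') R (by
          intro μ hμ1 hμ2
          have h5 := H3 a a' n n' i1 i2 i3 i4 i5 i6 i7 i8 E μ _ hμ1 hμ2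
          have h6 := h5.trans (arith_bound C lam us θ' k i0 E.card hc)
          refine le_trans (le_of_eq ?_) h6
          refine tsum_congr fun x => ?_
          congr 1
          rw [ENNReal.tsum_comm]
          refine tsum_congr fun p => tsum_congr fun p' => ?_
          have : (h' p' = n' ∧ θ' ≤ pz β h' z' (n', z' p') ∧ h p = n ∧ Ev a a' x p p')
              ↔ (h p = n ∧ z' p' ∈ E ∧ h' p' = n' ∧ Ev a a' x p p') := by
            rw [hE]; tauto
          simp only [this, mul_comm])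
      refine le_trans (le_of_eq ?_) this
      convert rfl
  have b5 : ∑ i ∈ S, Phi α β k (fun A A' p p' => g1 i A A' p p' + g2 i A A' p p')
      ≤ ((k * i0 + 1 : ℕ) : ℝ≥0∞) ^ 2 * ((i0 + 1 : ℕ) : ℝ≥0∞) ^ 2 * (2 * R) := by
    refine (Finset.sum_le_sum b4).trans ?_
    rw [Finset.sum_const, nsmul_eq_mul]
    refine mul_le_mul_left (le_of_eq ?_) _
    have : S.card = (k * i0 + 1) * ((k * i0 + 1) * ((i0 + 1) * (i0 + 1))) := by
      rw [hS, Finset.card_product, Finset.card_product, Finset.card_product, Nat.card_Icc,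
        Nat.card_Icc]
      congr 1
      · omega
      · congr 1
        · omega
        · congr 1 <;> omega
    rw [this]; push_cast; ring
  unfold cost
  exact add_le_add (add_le_add (add_le_add b1 b2) b3) b5

end Crest.Agent.R154.AsmP212
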