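import Crest.Agent.R154.AsmP_382

/-! Row 154, ROAD 801 (helper382), silent third of the abstract assembly: the final sum. -/

set_option autoImplicit false

namespace Crest.Agent.R154.Asm382

open scoped ENNReal
open Crest.Agent.R154.B5A Crest.Agent.R154.FP178
open Crest.Agent.R154.Bind12 (TT Dp)

variable {B B' G : Type*} [AddCommGroup G]

open Classical in
lemma sum_FP_eq (Λ : B → ℝ≥0∞) (h : B → ℕ) (h1 : ∀ b, 1 ≤ h b) (hΛ : ∑' b, Λ b = 1) (a : ℕ) :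
    ∑' L, (if fp h a L then LW Λ L else 0) = 1 := by
  induction a using Nat.strong_induction_on with
  | _ a ih =>
    rcases Nat.eq_zero_or_pos a with rfl | ha
    · have := sum_fp_zero Λ h (fun _ => 1)
      simp only [mul_one] at this
      exact this
    · have := sum_fp_step Λ h a ha (fun _ => 1)
      simp only [mul_one] at this
      rw [this]
      rw [← hΛ]
      refine tsum_congr fun b => ?_
      rw [ih (a - h b) (by have := h1 b; omega), mul_one]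

open Classical in
lemma sum_pL_all (Λ : B → ℝ≥0∞) (h : B → ℕ) (z : B → G) (h1 : ∀ b, 1 ≤ h b)
    (hΛ : ∑' b, Λ b = 1) (T : ℕ) : ∑' q : ℕ × G, pL Λ h z T q.1 q.2 = 1 := by
  rw [← sum_FP_eq Λ h h1 hΛ T]
  unfold pL
  rw [ENNReal.tsum_comm]
  refine tsum_congr fun L => ?_
  by_cases hL : fp h T L
  · simp only [if_pos hL]
    rw [ENNReal.tsum_mul_left, tsum_eq_single (HT h L - T, dL z L)]
    · have := le_HT_of_fp h hL
      rw [if_pos ⟨by simp only; omega, rfl⟩, mul_one]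
    · rintro ⟨i, x⟩ hne
      rw [if_neg]
      rintro ⟨e1, e2⟩
      apply hne
      simp only at e1 e2
      rw [Prod.mk.injEq]
      exact ⟨by omega, e2.symm⟩
  · simp only [if_neg hL, tsum_zero]

lemma range_le (F : ℕ → G → ℝ≥0∞) (i0 : ℕ) :
    ∑ i ∈ Finset.range (i0 + 1), ∑' x, F i x ≤ ∑' q : ℕ × G, F q.1 q.2 := by
  rw [ENNReal.tsum_prod']
  exact ENNReal.sum_le_tsum _

lemma pick (c ε : ℝ≥0∞) (hc : c ≠ ⊤) (hε : ε ≠ 0) : ∃ η : ℝ≥0∞, η ≠ 0 ∧ η ≠ ⊤ ∧ c * η ≤ ε := by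
  refine ⟨min (ε / c) 1, ?_, ne_top_of_le_ne_top ENNReal.one_ne_top (min_le_right _ _), ?_⟩
  · have h1 : 0 < ε / c := ENNReal.div_pos hε hc
    exact (lt_min h1 one_pos).ne'
  · exact le_trans (mul_le_mul_right (min_le_left _ _) _) ENNReal.mul_div_le

lemma hov {A : Type*} (Λ0 : A → ℝ≥0∞) (h0 : A → ℕ) (g1 : ∀ b, 1 ≤ h0 b)
    (g2 : ∑' b, Λ0 b = 1) (g3 : ∀ n, U Λ0 h0 n ≤ 1) (g4 : ∑' b, Λ0 b * (h0 b : ℝ≥0∞) ≠ ⊤)
    (η : ℝ≥0∞) (hη : η ≠ 0) : ∃ i1, ∀ i0, i1 ≤ i0 → ∀ a, ov Λ0 h0 a i0 ≤ η := by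
  rw [sum_tail Λ0 h0 g2] at g4
  have ht := ENNReal.tendsto_sum_nat_add (fun k => tail Λ0 h0 k) g4
  obtain ⟨i1, hi1⟩ := (ENNReal.tendsto_atTop_zero.1 ht) η (pos_iff_ne_zero.2 hη)
  refine ⟨i1, fun i0 hi a => le_trans (overshoot Λ0 h0 g1 g3 i0 a) ?_⟩
  refine le_trans (le_of_eq ?_) (hi1 i0 hi)
  exact tsum_congr fun k => by rw [add_comm]

section window

variable (Λ : B → ℝ≥0∞) (h : B → ℕ) (z : B → G) (s : B → Set (G × ℕ))
variable (Λ' : B' → ℝ≥0∞) (h' : B' → ℕ) (z' : B' → G) (s' : B' → Set (G × ℕ))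

open Classical in
/-- the data of the quantile at length `T` -/
lemma quantile (h1 : ∀ b, 1 ≤ h b) (hΛ : ∑' b, Λ b = 1) (T i0 : ℕ) (u : ℝ≥0∞) (hu0 : u ≠ 0)
    (hu1 : u < 1) : ∃ θ : ℝ≥0∞, θ ≠ 0 ∧ θ ≤ 1 ∧
      (∑' P, wt Λ h T i0 P * (if Loc Λ h z T θ P then 0 else 1) ≤ u) ∧
      ∑ i ∈ Finset.range (i0 + 1), ∑' x, (if 2 * θ < pL Λ h z T i x then pL Λ h z T i x
        else 0) ≤ 1 - u := by
  obtain ⟨θ, hθ0, hθ1, hq1, hq2⟩ := AsmA789.quant (fun q : ℕ × G => pL Λ h z T q.1 q.2)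
    (sum_pL_all Λ h z h1 hΛ T) hu0 hu1
  refine ⟨θ, hθ0, hθ1, ?_, ?_⟩
  · apply nonloc
    exact le_trans (range_le (fun i x => if pL Λ h z T i x < θ then pL Λ h z T i x else 0) i0) hq1
  · refine le_trans (range_le (fun i x => if 2 * θ < pL Λ h z T i x then pL Λ h z T i x else 0)
      i0) ?_
    apply ENNReal.le_sub_of_add_le_right (ne_top_of_lt hu1)
    calc ∑' q : ℕ × G, (if 2 * θ < pL Λ h z T q.1 q.2 then pL Λ h z T q.1 q.2 else 0) + u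
        ≤ ∑' q : ℕ × G, (if 2 * θ < pL Λ h z T q.1 q.2 then pL Λ h z T q.1 q.2 else 0)
          + ∑' q : ℕ × G, (if pL Λ h z T q.1 q.2 < 2 * θ then pL Λ h z T q.1 q.2 else 0) :=
          add_le_add_right hq2 _
      _ = ∑' q : ℕ × G, ((if 2 * θ < pL Λ h z T q.1 q.2 then pL Λ h z T q.1 q.2 else 0)
          + (if pL Λ h z T q.1 q.2 < 2 * θ then pL Λ h z T q.1 q.2 else 0)) :=
          ENNReal.tsum_add.symm
      _ ≤ ∑' q : ℕ × G, pL Λ h z T q.1 q.2 := by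
          refine ENNReal.tsum_le_tsum fun q => ?_
          by_cases hq : 2 * θ < pL Λ h z T q.1 q.2
          · rw [if_pos hq, if_neg (not_lt.2 hq.le), add_zero]
          · rw [if_neg hq, zero_add]; split_ifs <;> simp
      _ = 1 := sum_pL_all Λ h z h1 hΛ T

open Classical in
/-- window lemma, first walker local -/
def H2 (C : ℝ≥0∞) (us : ℕ → ℝ≥0∞) : Prop :=
  ∀ (t m m' k k' lo hi : ℕ) (E : Finset G) (μ : G → ℝ≥0∞) (M lam : ℝ≥0∞), ∑' x, μ x ≤ 1 →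
    (∀ x, μ x ≤ M) → lam ≠ 0 → lam ≠ ⊤ → k ≤ k' → k + m ≤ k' + m' → k + t ≤ lo → k' + t ≤ lo →
    hi + t ≤ k + m → hi + t ≤ k' + m' →
    ∑' x, μ x * ∑' L : List B, ∑' L' : List B', (if HT h L = m ∧ Dp z L ∈ E ∧ HT h' L' = m' ∧
      Ctc (TT s z h L 0 k) (TT s' z' h' L' x k') lo hi then LW Λ L * LW Λ' L' else 0)
      ≤ C * (lam + M * E.card * us t / lam + us t)

open Classical in
/-- window lemma, second walker local -/
def H3 (C : ℝ≥0∞) (us : ℕ → ℝ≥0∞) : Prop :=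
  ∀ (t m m' k k' lo hi : ℕ) (E : Finset G) (μ : G → ℝ≥0∞) (M lam : ℝ≥0∞), ∑' x, μ x ≤ 1 →
    (∀ x, μ x ≤ M) → lam ≠ 0 → lam ≠ ⊤ → k ≤ k' → k + m ≤ k' + m' → k + t ≤ lo → k' + t ≤ lo →
    hi + t ≤ k + m → hi + t ≤ k' + m' →
    ∑' x, μ x * ∑' L : List B, ∑' L' : List B', (if HT h L = m ∧ Dp z' L' ∈ E ∧ HT h' L' = m' ∧
      Ctc (TT s z h L 0 k) (TT s' z' h' L' x k') lo hi then LW Λ L * LW Λ' L' else 0)
      ≤ C * (lam + M * E.card * us t / lam + us t)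

open Classical in
/-- thin slab -/
def H5 : Prop := ∀ (t : ℕ) (η : ℝ≥0∞), η ≠ 0 → ∃ T, ∀ a, T ≤ a → ∀ n, ∀ w : G,
  ∑' L : List B, ∑' L' : List B', (if HT h L = n ∧ HT h' L' = n ∧ ∃ y k, a ≤ k ∧ k < a + t ∧
    (y, k) ∈ TT s z h L 0 0 ∧ (y, k) ∈ TT s' z' h' L' w 0 then LW Λ L * LW Λ' L' else 0) ≤ η

open Classical in
theorem window (h1 : ∀ b, 1 ≤ h b) (hΛ : ∑' b, Λ b = 1) (hU : ∀ n, U Λ h n ≤ 1)
    (hs : ∀ b, ∀ q ∈ s b, 1 ≤ q.2 ∧ q.2 ≤ h b)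
    (h1' : ∀ b, 1 ≤ h' b) (hΛ' : ∑' b, Λ' b = 1) (hU' : ∀ n, U Λ' h' n ≤ 1)
    (hs' : ∀ b, ∀ q ∈ s' b, 1 ≤ q.2 ∧ q.2 ≤ h' b)
    (C : ℝ≥0∞) (us : ℕ → ℝ≥0∞) (h2 : H2 Λ h z s Λ' h' z' s' C us) (h3 : H3 Λ h z s Λ' h' z' s' C us)
    (J T i0 t a n : ℕ) (w : G) (u : ℝ≥0∞) (hu0 : u ≠ 0) (hu1 : u < 1) (e : ℝ≥0∞)
    (he : ∀ a, ov Λ h a i0 ≤ e) (he' : ∀ a, ov Λ' h' a i0 ≤ e) (htT : t + 1 ≤ T)
    (ha : J * (T + 2 * i0) ≤ a) (hn : a + T + 3 * i0 ≤ n) (lam : ℝ≥0∞) (hl0 : lam ≠ 0)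
    (hl1 : lam ≠ ⊤) :
    ∑' L, ∑' L', (if HT h L = n ∧ HT h' L' = n ∧ Win (TT s z h L 0 0) (TT s' z' h' L' w 0)
      a (a + T + 2 * i0) (a + 2 * i0 + t + 1) (a + T - t - 1) then LW Λ L * LW Λ' L' else 0)
      ≤ 4 * e + u * u + 2 * ((1 - u) ^ J + J * e)
        + 2 * ((i0 + 1) ^ 3 * (C * (lam + 2 * (i0 + 1) * J * us t / lam + us t))) := by
  obtain ⟨θ, hθ0, hθ1, hq1, hq2⟩ := quantile Λ h z h1 hΛ T i0 u hu0 hu1
  obtain ⟨θ', hθ0', hθ1', hq1', hq2'⟩ := quantile Λ' h' z' h1' hΛ' (T + i0) i0 u hu0 hu1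
  have hr1 : (1 : ℝ≥0∞) - u ≤ 1 := tsub_le_self
  have ha1 : J * (T + i0) ≤ a := le_trans (Nat.mul_le_mul_left _ (by omega)) ha
  have ha2 : J * (T + i0 + i0) ≤ a + i0 :=
    le_trans (le_trans (Nat.mul_le_mul_left _ (by omega)) ha) (by omega)
  obtain ⟨g, b, hgb, hg, hb⟩ := smooth Λ h z h1 hΛ.le T i0 (2 * θ) (1 - u) e hr1 hq2 (he T) J a ha1
  obtain ⟨g', b', hgb', hg', hb'⟩ := smooth Λ' h' z' h1' hΛ'.le (T + i0) i0 (2 * θ') (1 - u) e hr1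
    hq2' (he' (T + i0)) J (a + i0) ha2
  set R : ℝ≥0∞ := C * (lam + 2 * (i0 + 1) * J * us t / lam + us t) with hR
  have hsumJ : ∑ j ∈ Finset.range J, (1 - u) ^ j ≤ (J : ℝ≥0∞) := by
    calc ∑ j ∈ Finset.range J, (1 - u) ^ j ≤ ∑ j ∈ Finset.range J, (1 : ℝ≥0∞) :=
          Finset.sum_le_sum fun j _ => pow_le_one' hr1 j
      _ = _ := by simp
  have hRb : ∀ (ϑ c : ℝ≥0∞), c * ϑ ≤ 1 →
      C * (lam + (2 * ϑ * (i0 + 1) * ∑ j ∈ Finset.range J, (1 - u) ^ j) * c * us t / lam + us t)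
        ≤ R := by
    intro ϑ c hc
    rw [hR]
    refine mul_le_mul_right (add_le_add_left (add_le_add_right ?_ _) _) _
    refine ENNReal.div_le_div_right ?_ _
    refine mul_le_mul_left ?_ _
    calc 2 * ϑ * (i0 + 1) * (∑ j ∈ Finset.range J, (1 - u) ^ j) * c
        = 2 * (i0 + 1) * (∑ j ∈ Finset.range J, (1 - u) ^ j) * (c * ϑ) := by ring
      _ ≤ 2 * (i0 + 1) * J * 1 := by
          refine mul_le_mul' (mul_le_mul_right hsumJ _) hc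
      _ = _ := by ring
  have hX : ∑' A', wt Λ' h' (a + i0) i0 A' * ∑' A, wt Λ h a i0 A * ∑' P, wt Λ h T i0 P *
      ∑' P', wt Λ' h' (T + i0) i0 P' * (if Loc Λ h z T θ P ∧
        Ctc (TT s z h P (Dp z A) (HT h A)) (TT s' z' h' P' (w + Dp z' A') (HT h' A'))
          (a + 2 * i0 + t + 1) (a + T - t - 1)
        then 1 else 0) ≤ ∑' x, b x + (i0 + 1) ^ 3 * R := by
    refine loc Λ h z s Λ' h' z' s' a T (a + i0) (T + i0) i0 _ _ θ
      (2 * θ * (i0 + 1) * ∑ j ∈ Finset.range J, (1 - u) ^ j) R hθ0 h1 hΛ.le h1' hΛ'.le g b hgb hg w ?_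
    intro k k' m m' hk1 hk2 hk3 hk4 hm1 hm2 hm3 hm4 E hE μ hμ1 hμ2
    refine le_trans (h2 t m m' k k' _ _ E μ _ lam hμ1 hμ2 hl0 hl1 (by omega) (by omega) (by omega)
      (by omega) (by omega) (by omega)) (hRb θ _ hE)
  have hY : ∑' A, wt Λ h a i0 A * ∑' A', wt Λ' h' (a + i0) i0 A' * ∑' P', wt Λ' h' (T + i0) i0 P' *
      ∑' P, wt Λ h T i0 P * (if Loc Λ' h' z' (T + i0) θ' P' ∧
        Ctc (TT s' z' h' P' (Dp z' A') (HT h' A')) (TT s z h P (-w + Dp z A) (HT h A))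
          (a + 2 * i0 + t + 1) (a + T - t - 1)
        then 1 else 0) ≤ ∑' x, b' x + (i0 + 1) ^ 3 * R := by
    refine loc Λ' h' z' s' Λ h z s (a + i0) (T + i0) a T i0 _ _ θ'
      (2 * θ' * (i0 + 1) * ∑ j ∈ Finset.range J, (1 - u) ^ j) R hθ0' h1' hΛ'.le h1 hΛ.le g' b' hgb' hg'
      (-w) ?_
    intro k' k m' m hk1 hk2 hk3 hk4 hm1 hm2 hm3 hm4 E hE μ hμ1 hμ2
    have := h3 t m m' k k' (a + 2 * i0 + t + 1) (a + T - t - 1) E (fun x => μ (-x)) _ lam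
      (by
        have hneg := (Equiv.neg G).tsum_eq μ
        simp only [Equiv.neg_apply] at hneg
        rw [hneg]; exact hμ1) (fun x => hμ2 _) hl0 hl1 (by omega) (by omega)
      (by omega) (by omega) (by omega) (by omega)
    refine le_trans (le_of_eq ?_) (le_trans this (hRb θ' _ hE))
    rw [← (Equiv.neg G).tsum_eq]
    refine tsum_congr fun x => ?_
    simp only [Equiv.neg_apply]
    congr 1
    rw [ENNReal.tsum_comm]
    refine tsum_congr fun L => tsum_congr fun L' => ?_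
    have e1 : Ctc (TT s' z' h' L' 0 k') (TT s z h L (-x) k) (a + 2 * i0 + t + 1) (a + T - t - 1)
        ↔ Ctc (TT s z h L 0 k) (TT s' z' h' L' x k') (a + 2 * i0 + t + 1) (a + T - t - 1) := by
      rw [← Ctc_shift s' z' h' s z h L' L 0 (-x) x, zero_add, neg_add_cancel, Ctc_symm]
    rw [mul_comm (LW Λ' L')]
    refine if_congr ?_ rfl rfl
    rw [e1]
    tauto
  have := win Λ h z s Λ' h' z' s' a T (a + i0) (T + i0) i0 n (a + 2 * i0 + t + 1) (a + T - t - 1)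
    (a + T + 2 * i0) w h1 hΛ.le hU hs h1' hΛ'.le hU' hs' (by omega) (by omega) (by omega) (by omega)
    (by omega) (by omega) le_rfl θ θ' u u _ _ hq1 hq1' hX hY
  refine le_trans this ?_
  calc ov Λ h a i0 + ov Λ h T i0 + (ov Λ' h' (a + i0) i0 + ov Λ' h' (T + i0) i0) + u * u
        + (∑' x, b x + (i0 + 1) ^ 3 * R) + (∑' x, b' x + (i0 + 1) ^ 3 * R)
      ≤ e + e + (e + e) + u * u + (((1 - u) ^ J + J * e) + (i0 + 1) ^ 3 * R)
        + (((1 - u) ^ J + J * e) + (i0 + 1) ^ 3 * R) := by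
          refine add_le_add (add_le_add (add_le_add (add_le_add (add_le_add (he _) (he _))
            (add_le_add (he' _) (he' _))) le_rfl) (add_le_add hb le_rfl)) (add_le_add hb' le_rfl)
    _ = _ := by ring

open Classical in
/-- **the abstract assembly**: the contact of two crossings at depth in `(m, 2 m]` is rare. -/
theorem kapS (h1 : ∀ b, 1 ≤ h b) (hΛ : ∑' b, Λ b = 1) (hU : ∀ n, U Λ h n ≤ 1)
    (hE : ∑' b, Λ b * (h b : ℝ≥0∞) ≠ ⊤)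
    (hs : ∀ b, ∀ q ∈ s b, 1 ≤ q.2 ∧ q.2 ≤ h b)
    (h1' : ∀ b, 1 ≤ h' b) (hΛ' : ∑' b, Λ' b = 1) (hU' : ∀ n, U Λ' h' n ≤ 1)
    (hE' : ∑' b, Λ' b * (h' b : ℝ≥0∞) ≠ ⊤)
    (hs' : ∀ b, ∀ q ∈ s' b, 1 ≤ q.2 ∧ q.2 ≤ h' b)
    (C : ℝ≥0∞) (hC : C ≠ ⊤) (us : ℕ → ℝ≥0∞) (hus : ∀ ε : ℝ≥0∞, ε ≠ 0 → ∃ t, us t ≤ ε)
    (h2 : H2 Λ h z s Λ' h' z' s' C us) (h3 : H3 Λ h z s Λ' h' z' s' C us)
    (h5 : H5 Λ h z s Λ' h' z' s') (ε : ℝ≥0∞) (hε : ε ≠ 0) :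
    ∃ M : ℕ, ∀ m, M ≤ m → ∃ n0 : ℕ, ∀ n, n0 ≤ n → ∀ w : G,
      ∑' L : List B, ∑' L' : List B', (if HT h L = n ∧ HT h' L' = n ∧ ∃ y k, m < k ∧ k ≤ 2 * m ∧
        (y, k) ∈ TT s z h L 0 0 ∧ (y, k) ∈ TT s' z' h' L' w 0 then LW Λ L * LW Λ' L' else 0) ≤ ε := by
  by_cases hεt : ε = ⊤
  · exact ⟨0, fun m _ => ⟨0, fun n _ w => by rw [hεt]; exact le_top⟩⟩
  -- numbers
  obtain ⟨q, hq2, hq⟩ := AsmA789.num (ε := ε / 4) (by
    rw [Ne, ENNReal.div_eq_zero_iff, not_or]; exact ⟨hε, by norm_num⟩) 4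
  set J : ℕ := q ^ 3 with hJ
  set u : ℝ≥0∞ := ((q : ℝ≥0∞) ^ 2)⁻¹ with hu
  have hq0 : (q : ℝ≥0∞) ^ 2 ≠ 0 := by
    apply pow_ne_zero
    exact_mod_cast (by omega : q ≠ 0)
  have hqt : (q : ℝ≥0∞) ^ 2 ≠ ⊤ := ENNReal.pow_ne_top (ENNReal.natCast_ne_top q)
  have hu0 : u ≠ 0 := ENNReal.inv_ne_zero.2 hqt
  have hu1 : u < 1 := by
    rw [hu, ENNReal.inv_lt_one]
    have : (1 : ℕ) < q ^ 2 := Nat.one_lt_pow (by norm_num) (by omega)
    exact_mod_cast this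
  have hu2 : 1 - u ≤ 1 - (2 * (q : ℝ≥0∞) ^ 2)⁻¹ := by
    refine tsub_le_tsub_left ?_ _
    rw [hu]
    apply ENNReal.inv_le_inv.2
    calc (q : ℝ≥0∞) ^ 2 = 1 * (q : ℝ≥0∞) ^ 2 := (one_mul _).symm
      _ ≤ 2 * (q : ℝ≥0∞) ^ 2 := mul_le_mul_left (by norm_num) _
  have hmain : (2 * J + 1 : ℝ≥0∞) * (u * u + 2 * (1 - u) ^ J) ≤ ε / 4 := by
    refine le_trans ?_ hq
    have hJc : (q : ℝ≥0∞) ^ 3 = (J : ℝ≥0∞) := by rw [hJ]; push_cast; rfl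
    rw [hJc]
    have e1 : u * u + 2 * (1 - u) ^ J
        ≤ 2 * (((q : ℝ≥0∞) ^ 2)⁻¹ ^ 2 + (1 - (2 * (q : ℝ≥0∞) ^ 2)⁻¹) ^ J) := by
      rw [mul_add]
      refine add_le_add ?_ (mul_le_mul_right (pow_le_pow_left' hu2 J) _)
      rw [← hu, ← sq]
      calc u ^ 2 = 1 * u ^ 2 := (one_mul _).symm
        _ ≤ 2 * u ^ 2 := mul_le_mul_left (by norm_num) _
    calc (2 * J + 1 : ℝ≥0∞) * (u * u + 2 * (1 - u) ^ J)
        ≤ (2 * J + 1 : ℝ≥0∞) * (2 * (((q : ℝ≥0∞) ^ 2)⁻¹ ^ 2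
          + (1 - (2 * (q : ℝ≥0∞) ^ 2)⁻¹) ^ J)) := mul_le_mul_right e1 _
      _ = ((4 * J + 2 : ℝ≥0∞)) * (((q : ℝ≥0∞) ^ 2)⁻¹ ^ 2
          + (1 - (2 * (q : ℝ≥0∞) ^ 2)⁻¹) ^ J) := by ring
      _ ≤ _ := by
        refine mul_le_mul_left ?_ _
        have : (4 * J + 2 : ℕ) ≤ 4 * (J + 4) := by omega
        exact_mod_cast this
  -- overshoots
  obtain ⟨e, he0, het, hee⟩ := pick ((2 * J + 1 : ℝ≥0∞) * (4 + 2 * J)) (ε / 4)
    (ENNReal.mul_ne_top (by finiteness) (by finiteness)) (by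
      rw [Ne, ENNReal.div_eq_zero_iff, not_or]; exact ⟨hε, by norm_num⟩)
  obtain ⟨i1, hi1⟩ := hov Λ h h1 hΛ hU hE e he0
  obtain ⟨i2, hi2⟩ := hov Λ' h' h1' hΛ' hU' hE' e he0
  set i0 := max i1 i2 with hi0
  have he := hi1 i0 (le_max_left _ _)
  have he' := hi2 i0 (le_max_right _ _)
  -- lam
  have hε8 : ε / 8 ≠ 0 := by
    rw [Ne, ENNReal.div_eq_zero_iff, not_or]; exact ⟨hε, by norm_num⟩
  obtain ⟨lam, hl0, hlt, hll⟩ := pick ((2 * J + 1 : ℝ≥0∞) * (2 * ((i0 + 1) ^ 3 * C))) (ε / 8)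
    (by finiteness) hε8
  obtain ⟨η2, hη0, hηt, hηη⟩ := pick ((2 * J + 1 : ℝ≥0∞) * (2 * ((i0 + 1) ^ 3 *
    (C * (2 * (i0 + 1) * J / lam + 1))))) (ε / 8) (by
      have : (2 * (i0 + 1) * J / lam : ℝ≥0∞) ≠ ⊤ := ENNReal.div_ne_top (by finiteness) hl0
      finiteness) hε8
  obtain ⟨t, ht⟩ := hus η2 hη0
  -- slab
  obtain ⟨η, hs0, hst, hss⟩ := pick ((2 * J + 2 : ℝ≥0∞)) (ε / 4) (by finiteness) (by
      rw [Ne, ENNReal.div_eq_zero_iff, not_or]; exact ⟨hε, by norm_num⟩)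
  obtain ⟨T0, hT0⟩ := h5 (2 * t + 2 * i0 + 1) η hs0
  have hJ1 : 1 ≤ J := Nat.one_le_pow _ _ (by omega)
  refine ⟨2 * J * (t + 1 + 2 * i0 + 2 * J) + T0 + t, fun m hm => ?_⟩
  set T := m / (2 * J) with hT
  have hTl : t + 1 + 2 * i0 + 2 * J ≤ T := by
    rw [hT, Nat.le_div_iff_mul_le (by omega)]
    have : (t + 1 + 2 * i0 + 2 * J) * (2 * J) = 2 * J * (t + 1 + 2 * i0 + 2 * J) := mul_comm _ _
    omega
  have hTm : 2 * J * T ≤ m := Nat.mul_div_le m (2 * J)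
  have hTm2 : m < 2 * J * T + 2 * J := by
    have := Nat.lt_mul_div_succ m (show 0 < 2 * J by omega)
    rw [← hT] at this
    calc m < 2 * J * (T + 1) := this
      _ = _ := by ring
  have hm2 : m ≤ (2 * J + 1) * T := by
    have : (2 * J + 1) * T = 2 * J * T + T := by ring
    omega
  have hJT : J * (T + 2 * i0) ≤ m := by
    calc J * (T + 2 * i0) ≤ J * (T + T) := Nat.mul_le_mul_left _ (by omega)
      _ = 2 * J * T := by ring
      _ ≤ m := hTm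
  refine ⟨m + (2 * J + 1) * T + T + 3 * i0, fun n hn w => ?_⟩
  set TX : List B → Set (G × ℕ) := fun L => TT s z h L 0 0 with hTX
  set TY : List B' → Set (G × ℕ) := fun L' => TT s' z' h' L' w 0 with hTY
  have pt : ∀ (L : List B) (L' : List B'), (if HT h L = n ∧ HT h' L' = n ∧ ∃ y k, m < k ∧
      k ≤ 2 * m ∧ (y, k) ∈ TX L ∧ (y, k) ∈ TY L' then LW Λ L * LW Λ' L' else 0)
      ≤ ∑ i ∈ Finset.range (2 * J + 2), (if HT h L = n ∧ HT h' L' = n ∧ ∃ y k,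
          m + i * T - t ≤ k ∧ k < m + i * T - t + (2 * t + 2 * i0 + 1) ∧ (y, k) ∈ TX L ∧
          (y, k) ∈ TY L' then LW Λ L * LW Λ' L' else 0)
        + ∑ j ∈ Finset.range (2 * J + 1), (if HT h L = n ∧ HT h' L' = n ∧ Win (TX L) (TY L')
          (m + j * T) (m + j * T + T + 2 * i0) (m + j * T + 2 * i0 + t + 1)
          (m + j * T + T - t - 1) then LW Λ L * LW Λ' L' else 0) := by
    intro L L'
    by_cases hev : HT h L = n ∧ HT h' L' = n ∧ ∃ y k, m < k ∧ k ≤ 2 * m ∧ (y, k) ∈ TX L ∧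
      (y, k) ∈ TY L'
    swap
    · rw [if_neg hev]; exact zero_le
    rw [if_pos hev]
    obtain ⟨hL, hL', y, k, hk1, hk2, hk3, hk4⟩ := hev
    by_cases hsl : ∃ i, i < 2 * J + 2 ∧ ∃ y k, m + i * T - t ≤ k ∧
        k < m + i * T - t + (2 * t + 2 * i0 + 1) ∧ (y, k) ∈ TX L ∧ (y, k) ∈ TY L'
    · obtain ⟨i, hi, hyk⟩ := hsl
      refine le_trans ?_ le_self_add
      refine le_trans ?_ (Finset.single_le_sum (fun _ _ => zero_le) (Finset.mem_range.2 hi))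
      rw [if_pos ⟨hL, hL', hyk⟩]
    · push Not at hsl
      refine le_trans ?_ le_add_self
      set j := (k - m - 1) / T with hj
      have hj1 : j < 2 * J + 1 := by
        rw [hj]
        apply Nat.div_lt_of_lt_mul
        have : T * (2 * J + 1) = (2 * J + 1) * T := mul_comm _ _
        omega
      have hdm := Nat.div_add_mod (k - m - 1) T
      have hml := Nat.mod_lt (k - m - 1) (show 0 < T by omega)
      rw [← hj] at hdm
      have hjT : T * j = j * T := mul_comm _ _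
      have hjT1 : (j + 1) * T = j * T + T := by ring
      refine le_trans ?_ (Finset.single_le_sum (fun _ _ => zero_le) (Finset.mem_range.2 hj1))
      have hall : ∀ y' k', m + j * T < k' → k' ≤ m + j * T + T + 2 * i0 → (y', k') ∈ TX L →
          (y', k') ∈ TY L' → m + j * T + 2 * i0 + t + 1 ≤ k' ∧ k' ≤ m + j * T + T - t - 1 := by
        intro y' k' g1 g2 g3 g4
        have a1 := hsl j (by omega) y' k'
        have a2 := hsl (j + 1) (by omega) y' k'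
        rw [hjT1] at a2
        constructor
        · by_contra hcon
          exact a1 (by omega) (by omega) g3 g4
        · by_contra hcon
          exact a2 (by omega) (by omega) g3 g4
      have hin := hall y k (by omega) (by omega) hk3 hk4
      rw [if_pos ⟨hL, hL', ⟨y, k, hin.1, hin.2, hk3, hk4⟩, hall⟩]
  refine le_trans (ENNReal.tsum_le_tsum fun L => ENNReal.tsum_le_tsum fun L' => pt L L') ?_
  simp_rw [ENNReal.tsum_add]
  simp_rw [Summable.tsum_finsetSum (fun _ _ => ENNReal.summable)]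
  have b1 : ∀ i ∈ Finset.range (2 * J + 2), ∑' L, ∑' L', (if HT h L = n ∧ HT h' L' = n ∧ ∃ y k,
      m + i * T - t ≤ k ∧ k < m + i * T - t + (2 * t + 2 * i0 + 1) ∧ (y, k) ∈ TX L ∧
      (y, k) ∈ TY L' then LW Λ L * LW Λ' L' else 0) ≤ η := by
    intro i _
    exact hT0 _ (by
      have : 0 ≤ i * T := Nat.zero_le _
      omega) n w
  have b2 : ∀ j ∈ Finset.range (2 * J + 1), ∑' L, ∑' L', (if HT h L = n ∧ HT h' L' = n ∧
      Win (TX L) (TY L') (m + j * T) (m + j * T + T + 2 * i0) (m + j * T + 2 * i0 + t + 1)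
          (m + j * T + T - t - 1) then LW Λ L * LW Λ' L' else 0)
      ≤ 4 * e + u * u + 2 * ((1 - u) ^ J + J * e)
        + 2 * ((i0 + 1) ^ 3 * (C * (lam + 2 * (i0 + 1) * J * us t / lam + us t))) := by
    intro j hj
    have hj1 := Finset.mem_range.1 hj
    have hjT : j * T ≤ (2 * J + 1) * T := Nat.mul_le_mul_right _ (by omega)
    exact window Λ h z s Λ' h' z' s' h1 hΛ hU hs h1' hΛ' hU' hs' C us h2 h3 J T i0 t (m + j * T) n w
      u hu0 hu1 e he he' (by omega) (by omega) (by omega) lam hl0 hlt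
  refine le_trans (add_le_add (Finset.sum_le_sum b1) (Finset.sum_le_sum b2)) ?_
  simp only [Finset.sum_const, Finset.card_range, nsmul_eq_mul]
  push_cast
  have c1 : (2 * (J : ℝ≥0∞) + 1) * (2 * ((i0 + 1) ^ 3 * (C * (lam + 2 * (i0 + 1) * J * us t / lam
      + us t)))) ≤ ε / 8 + ε / 8 := by
    calc (2 * (J : ℝ≥0∞) + 1) * (2 * ((i0 + 1) ^ 3 * (C * (lam + 2 * (i0 + 1) * J * us t / lam
          + us t))))
        ≤ (2 * (J : ℝ≥0∞) + 1) * (2 * ((i0 + 1) ^ 3 * (C * (lam + 2 * (i0 + 1) * J * η2 / lam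
          + η2)))) := by gcongr
      _ = (2 * J + 1 : ℝ≥0∞) * (2 * ((i0 + 1) ^ 3 * C)) * lam
          + (2 * J + 1 : ℝ≥0∞) * (2 * ((i0 + 1) ^ 3 *
          (C * (2 * (i0 + 1) * J / lam + 1)))) * η2 := by
          simp only [div_eq_mul_inv]; ring
      _ ≤ _ := add_le_add hll hηη
  have c8 : ε / 8 + ε / 8 = ε / 4 := by
    rw [← ENNReal.add_div, ← two_mul, ENNReal.div_eq_inv_mul, ENNReal.div_eq_inv_mul, ← mul_assoc]
    congr 1
    rw [show (8 : ℝ≥0∞) = 4 * 2 by norm_num, ENNReal.mul_inv (by norm_num) (by norm_num), mul_assoc,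
      ENNReal.inv_mul_cancel (by norm_num) (by norm_num), mul_one]
  calc (2 * (J : ℝ≥0∞) + 2) * η + (2 * (J : ℝ≥0∞) + 1) * (4 * e + u * u + 2 * ((1 - u) ^ J + J * e)
        + 2 * ((i0 + 1) ^ 3 * (C * (lam + 2 * (i0 + 1) * J * us t / lam + us t))))
      = (2 * (J : ℝ≥0∞) + 2) * η + (2 * (J : ℝ≥0∞) + 1) * (4 + 2 * J) * e
        + (2 * (J : ℝ≥0∞) + 1) * (u * u + 2 * (1 - u) ^ J)
        + (2 * (J : ℝ≥0∞) + 1) * (2 * ((i0 + 1) ^ 3 * (C * (lam + 2 * (i0 + 1) * J * us t / lam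
          + us t)))) := by ring
    _ ≤ ε / 4 + ε / 4 + ε / 4 + (ε / 8 + ε / 8) :=
        add_le_add (add_le_add (add_le_add hss hee) hmain) c1
    _ = ε := by
        rw [c8, ← ENNReal.add_div, ← ENNReal.add_div, ← ENNReal.add_div]
        rw [show ε + ε + ε + ε = ε * 4 by ring]
        exact ENNReal.mul_div_cancel_right (by norm_num) (by norm_num)

end window

end Crest.Agent.R154.Asm382

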