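import Crest.Agent.R154.AsmP_39

/-! Row 154, ROAD 801 (helper39): list assembly, part 2: weighted sums, one window. -/

set_option autoImplicit false

namespace Crest.Agent.R154.Asm39

open scoped ENNReal
open Crest.Agent.R154.B5A Crest.Agent.R154.FP178
open Crest.Agent.R154.Bind12 (TT Dp)

/-! ### weighted sums -/

section wsum

variable {α β γ δ : Type*}

/-- weighted sum -/
noncomputable def I (a : α → ℝ≥0∞) (f : α → ℝ≥0∞) : ℝ≥0∞ := ∑' x, a x * f x

lemma I_mono (a : α → ℝ≥0∞) {f g : α → ℝ≥0∞} (h : ∀ x, f x ≤ g x) : I a f ≤ I a g :=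
  ENNReal.tsum_le_tsum fun x => mul_le_mul_right (h x) _

lemma I_add (a : α → ℝ≥0∞) (f g : α → ℝ≥0∞) : I a (fun x => f x + g x) = I a f + I a g := by
  simp only [I, mul_add, ENNReal.tsum_add]

lemma I_tsum {ι : Type*} (a : α → ℝ≥0∞) (f : ι → α → ℝ≥0∞) :
    I a (fun x => ∑' i, f i x) = ∑' i, I a (f i) := by
  simp only [I, ← ENNReal.tsum_mul_left]
  exact ENNReal.tsum_comm

lemma I_mul_left (a : α → ℝ≥0∞) (c : ℝ≥0∞) (f : α → ℝ≥0∞) :
    I a (fun x => c * f x) = c * I a f := by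
  simp only [I]
  rw [← ENNReal.tsum_mul_left]
  exact tsum_congr fun x => by ring

lemma I_mul_right (a : α → ℝ≥0∞) (c : ℝ≥0∞) (f : α → ℝ≥0∞) :
    I a (fun x => f x * c) = I a f * c := by
  simp only [I]
  rw [← ENNReal.tsum_mul_right]
  exact tsum_congr fun x => by ring

lemma I_comm (a : α → ℝ≥0∞) (b : β → ℝ≥0∞) (f : α → β → ℝ≥0∞) :
    I a (fun x => I b (fun y => f x y)) = I b (fun y => I a (fun x => f x y)) := by
  simp only [I, ← ENNReal.tsum_mul_left]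
  rw [ENNReal.tsum_comm]
  exact tsum_congr fun x => tsum_congr fun y => by ring

lemma I_le (a : α → ℝ≥0∞) (ha : ∑' x, a x ≤ 1) {f : α → ℝ≥0∞} {c : ℝ≥0∞} (h : ∀ x, f x ≤ c) :
    I a f ≤ c := by
  calc I a f ≤ ∑' x, a x * c := ENNReal.tsum_le_tsum fun x => mul_le_mul_right (h x) _
    _ = (∑' x, a x) * c := ENNReal.tsum_mul_right
    _ ≤ 1 * c := mul_le_mul_left ha _
    _ = c := one_mul c

/-- four-fold weighted sum -/
noncomputable def N (a : α → ℝ≥0∞) (l : β → ℝ≥0∞) (b : γ → ℝ≥0∞) (m : δ → ℝ≥0∞)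
    (f : α → β → γ → δ → ℝ≥0∞) : ℝ≥0∞ :=
  I a fun x1 => I l fun x2 => I b fun x3 => I m fun x4 => f x1 x2 x3 x4

variable (a : α → ℝ≥0∞) (l : β → ℝ≥0∞) (b : γ → ℝ≥0∞) (m : δ → ℝ≥0∞)

lemma N_mono {f g : α → β → γ → δ → ℝ≥0∞} (h : ∀ x1 x2 x3 x4, f x1 x2 x3 x4 ≤ g x1 x2 x3 x4) :
    N a l b m f ≤ N a l b m g :=
  I_mono _ fun _ => I_mono _ fun _ => I_mono _ fun _ => I_mono _ fun _ => h _ _ _ _

lemma N_add (f g : α → β → γ → δ → ℝ≥0∞) :
    N a l b m (fun x1 x2 x3 x4 => f x1 x2 x3 x4 + g x1 x2 x3 x4) = N a l b m f + N a l b m g := by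
  simp only [N, I_add]

lemma N_tsum {ι : Type*} (f : ι → α → β → γ → δ → ℝ≥0∞) :
    N a l b m (fun x1 x2 x3 x4 => ∑' i, f i x1 x2 x3 x4) = ∑' i, N a l b m (f i) := by
  simp only [N, I_tsum]

lemma N_prod (g1 : α → γ → ℝ≥0∞) (g2 : β → δ → ℝ≥0∞) :
    N a l b m (fun x1 x2 x3 x4 => g1 x1 x3 * g2 x2 x4)
      = (I a fun x1 => I b fun x3 => g1 x1 x3) * (I l fun x2 => I m fun x4 => g2 x2 x4) := by
  unfold N
  have e : ∀ x1, (I l fun x2 => I b fun x3 => I m fun x4 => g1 x1 x3 * g2 x2 x4)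
      = (I b fun x3 => g1 x1 x3) * (I l fun x2 => I m fun x4 => g2 x2 x4) := by
    intro x1
    rw [I_comm l b (fun x2 x3 => I m fun x4 => g1 x1 x3 * g2 x2 x4)]
    simp only [I_mul_left, I_mul_right]
  simp only [e, I_mul_right]

lemma SL_eq_I {B : Type*} (Λ : B → ℝ≥0∞) (j : ℕ) (F : List B → ℝ≥0∞) :
    SL Λ j F = I (fun L : List B => if L.length = j then LW Λ L else 0) F := by
  rw [SL, I]
  refine tsum_congr fun L => ?_
  by_cases h : L.length = j <;> simp [h]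

lemma SLw_sum {B : Type*} (Λ : B → ℝ≥0∞) (h : ∑' b, Λ b ≤ 1) (j : ℕ) :
    ∑' L : List B, (if L.length = j then LW Λ L else 0) ≤ 1 := by
  have := SL_pow Λ j
  rw [SL] at this
  simp only [mul_one] at this
  rw [this]
  exact pow_le_one' h _

end wsum

/-! ### events -/

section ev

variable {G : Type*}

/-- a common site exists and all common sites have depth in `[lo, hi]` -/
def Ev (lo hi : ℕ) (S S' : Set (G × ℕ)) : Prop :=
  (∃ z k, (z, k) ∈ S ∧ (z, k) ∈ S') ∧ ∀ z k, (z, k) ∈ S → (z, k) ∈ S' → lo ≤ k ∧ k ≤ hi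

/-- window event for the full lists -/
def Wn (lo hi α β : ℕ) (S S' : Set (G × ℕ)) : Prop :=
  (∃ z k, (z, k) ∈ S ∧ (z, k) ∈ S' ∧ lo ≤ k ∧ k ≤ hi) ∧
    ∀ z k, (z, k) ∈ S → (z, k) ∈ S' → α ≤ k → k ≤ β → lo ≤ k ∧ k ≤ hi

end ev

section flat

variable {B : Type*} (ht : B → ℕ)

lemma HT_flat (T i0 : ℕ) (As : List (List B))
    (h : ∀ P ∈ As, fp ht T P ∧ HT ht P ≤ T + i0) :
    As.length * T ≤ HT ht As.flatten ∧ HT ht As.flatten ≤ As.length * T + As.length * i0 := by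
  induction As with
  | nil => simp [HT]
  | cons A As ih =>
    have h1 := h A List.mem_cons_self
    have h2 := le_HT_of_fp ht h1.1
    have h3 := ih fun P hP => h P (List.mem_cons_of_mem _ hP)
    rw [List.flatten_cons, HT_append, List.length_cons]
    constructor
    · have : (As.length + 1) * T = As.length * T + T := by ring
      omega
    · have e1 : (As.length + 1) * T = As.length * T + T := by ring
      have e2 : (As.length + 1) * i0 = As.length * i0 + i0 := by ring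
      omega

end flat

section window

variable {BX BY G : Type*} [AddCommGroup G]
  (ΛX : BX → ℝ≥0∞) (ΛY : BY → ℝ≥0∞) (hX : BX → ℕ) (hY : BY → ℕ) (zX : BX → G) (zY : BY → G)
  (sX : BX → Set (G × ℕ)) (sY : BY → Set (G × ℕ))

lemma ev_of_wn (hsX : ∀ b, ∀ q ∈ sX b, 1 ≤ q.2 ∧ q.2 ≤ hX b)
    (hsY : ∀ b, ∀ q ∈ sY b, 1 ≤ q.2 ∧ q.2 ≤ hY b)
    (P A R : List BX) (Q B R' : List BY) (w : G) (d0 lo hi α β : ℕ)
    (h1 : HT hX P < lo) (h2 : hi ≤ HT hX P + HT hX A) (h3 : α ≤ HT hX P + 1)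
    (h4 : HT hX P + HT hX A ≤ β) (h5 : d0 + HT hY Q < lo) (h6 : hi ≤ d0 + HT hY Q + HT hY B)
    (h : Wn lo hi α β (TT sX zX hX (P ++ (A ++ R)) 0 0) (TT sY zY hY (Q ++ (B ++ R')) w d0)) :
    Ev lo hi (TT sX zX hX A (Dp zX P) (HT hX P)) (TT sY zY hY B (w + Dp zY Q) (d0 + HT hY Q)) := by
  have eX : TT sX zX hX (P ++ (A ++ R)) 0 0 = TT sX zX hX P 0 0 ∪
      (TT sX zX hX A (Dp zX P) (HT hX P) ∪
        TT sX zX hX R (Dp zX P + Dp zX A) (HT hX P + HT hX A)) := by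
    rw [TT_append, TT_append, zero_add, zero_add]
  have eY : TT sY zY hY (Q ++ (B ++ R')) w d0 = TT sY zY hY Q w d0 ∪
      (TT sY zY hY B (w + Dp zY Q) (d0 + HT hY Q) ∪
        TT sY zY hY R' (w + Dp zY Q + Dp zY B) (d0 + HT hY Q + HT hY B)) := by
    rw [TT_append, TT_append]
  rw [eX, eY] at h
  obtain ⟨⟨z, k, hz, hz', hk1, hk2⟩, hall⟩ := h
  refine ⟨⟨z, k, ?_, ?_⟩, fun z k hz hz' => ?_⟩
  · rcases hz with hz | hz | hz
    · have := TT_depth hX sX zX hsX _ _ _ _ hz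
      simp only at this; omega
    · exact hz
    · have := TT_depth hX sX zX hsX _ _ _ _ hz
      simp only at this; omega
  · rcases hz' with hz | hz | hz
    · have := TT_depth hY sY zY hsY _ _ _ _ hz
      simp only at this; omega
    · exact hz
    · have := TT_depth hY sY zY hsY _ _ _ _ hz
      simp only at this; omega
  · have hd := TT_depth hX sX zX hsX _ _ _ _ hz
    simp only at hd
    exact hall z k (Or.inr (Or.inl hz)) (Or.inr (Or.inl hz')) (by omega) (by omega)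

lemma ev_shift (A : List BX) (B : List BY) (x y : G) (c d' lo hi : ℕ)
    (h : Ev lo hi (TT sX zX hX A x c) (TT sY zY hY B y d')) :
    Ev lo hi (TT sX zX hX A 0 c) (TT sY zY hY B (y - x) d') := by
  have e1 : ∀ z k, (z, k) ∈ TT sX zX hX A 0 c ↔ (z + x, k) ∈ TT sX zX hX A x c := by
    intro z k
    have := TT_shift hX sX zX A 0 x c (z + x) k
    rw [zero_add] at this
    rw [this]
    simp
  have e2 : ∀ z k, (z, k) ∈ TT sY zY hY B (y - x) d' ↔ (z + x, k) ∈ TT sY zY hY B y d' := by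
    intro z k
    have := TT_shift hY sY zY B (y - x) x d' (z + x) k
    rw [sub_add_cancel] at this
    rw [this]
    simp
  obtain ⟨⟨z, k, hz, hz'⟩, hall⟩ := h
  refine ⟨⟨z - x, k, (e1 _ _).2 (by simpa using hz), (e2 _ _).2 (by simpa using hz')⟩, ?_⟩
  intro z k hz hz'
  exact hall _ _ ((e1 _ _).1 hz) ((e2 _ _).1 hz')

open Classical in
/-- indicator of the four pieces -/
noncomputable def Phi (j T i0 lo hi d0 : ℕ) (w : G) (As : List (List BX)) (A : List BX)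
    (Bs : List (List BY)) (B : List BY) : ℝ≥0∞ :=
  if (As.length = j ∧ Bs.length = j) ∧ (∀ P ∈ As, fp hX T P ∧ HT hX P ≤ T + i0) ∧ (fp hX T A ∧ HT hX A ≤ T + i0) ∧
    (∀ P ∈ Bs, fp hY T P ∧ HT hY P ≤ T + i0) ∧ (fp hY T B ∧ HT hY B ≤ T + i0) ∧
    Ev lo hi (TT sX zX hX A (Dp zX As.flatten) (HT hX As.flatten))
      (TT sY zY hY B (w + Dp zY Bs.flatten) (d0 + HT hY Bs.flatten)) then 1 else 0

/-- weights of `j` pieces -/
noncomputable def Wj {B : Type*} (Λ : B → ℝ≥0∞) (ht : B → ℕ) (T j : ℕ) (As : List (List B)) :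
    ℝ≥0∞ := if As.length = j then LW (Lf Λ ht T) As else 0

open Classical in
theorem two_dec (h1X : ∀ b, 1 ≤ hX b) (h1Y : ∀ b, 1 ≤ hY b) (hΛX : ∑' b, ΛX b ≤ 1)
    (hΛY : ∑' b, ΛY b ≤ 1) (hUX : ∀ n, U ΛX hX n ≤ 1) (hUY : ∀ n, U ΛY hY n ≤ 1)
    (hsX : ∀ b, ∀ q ∈ sX b, 1 ≤ q.2 ∧ q.2 ≤ hX b)
    (hsY : ∀ b, ∀ q ∈ sY b, 1 ≤ q.2 ∧ q.2 ≤ hY b)
    (T i0 j n n' lo hi α β d0 : ℕ) (w : G) (hn : (j + 1) * (T + i0) ≤ n)
    (hn' : (j + 1) * (T + i0) ≤ n') (hlo : d0 + j * T + j * i0 < lo) (hhi : hi ≤ (j + 1) * T)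
    (hα : α ≤ j * T) (hβ : (j + 1) * (T + i0) ≤ β) :
    ∑' LX, ∑' LY, (if HT hX LX = n ∧ HT hY LY = n' ∧
        Wn lo hi α β (TT sX zX hX LX 0 0) (TT sY zY hY LY w d0) then LW ΛX LX * LW ΛY LY else 0)
      ≤ N (Wj ΛX hX T j) (Lf ΛX hX T) (Wj ΛY hY T j) (Lf ΛY hY T)
          (Phi hX hY zX zY sX sY j T i0 lo hi d0 w)
        + (j + 1) * ovr ΛX hX i0 + (j + 1) * ovr ΛY hY i0 := by
  set F : List BX → ℝ≥0∞ := fun LX => ∑' LY, (if HT hY LY = n' then LW ΛY LY *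
    (if Wn lo hi α β (TT sX zX hX LX 0 0) (TT sY zY hY LY w d0) then 1 else 0) else 0) with hF
  have hFle : ∀ L, F L ≤ 1 := by
    intro L
    refine le_trans (ENNReal.tsum_le_tsum fun LY => ?_) (hUY n')
    split_ifs <;> simp
  have e0 : ∑' LX, ∑' LY, (if HT hX LX = n ∧ HT hY LY = n' ∧
        Wn lo hi α β (TT sX zX hX LX 0 0) (TT sY zY hY LY w d0) then LW ΛX LX * LW ΛY LY else 0)
      = ∑' LX, (if HT hX LX = n then LW ΛX LX * F LX else 0) := by
    refine tsum_congr fun LX => ?_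
    by_cases h : HT hX LX = n
    · rw [if_pos h, hF]
      simp only
      rw [← ENNReal.tsum_mul_left]
      refine tsum_congr fun LY => ?_
      by_cases h' : HT hY LY = n' <;> by_cases h'' : Wn lo hi α β (TT sX zX hX LX 0 0)
        (TT sY zY hY LY w d0) <;> simp [h, h', h'']
    · rw [if_neg h]
      simp [h]
  rw [e0]
  have e1 : (j + 1) * T + (j + 1) * i0 = (j + 1) * (T + i0) := by ring
  have e2 : (j + 1) * T = j * T + T := by ring
  have e3 : (j + 1) * i0 = j * i0 + i0 := by ring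
  refine (dec ΛX hX h1X hΛX hUX T i0 j n hn F (fun As A =>
    I (Wj ΛY hY T j) (fun Bs => I (Lf ΛY hY T) (fun B => Phi hX hY zX zY sX sY j T i0 lo hi d0 w As A Bs B))
      + (j + 1) * ovr ΛY hY i0) hFle ?_).trans ?_
  · intro As A R hl hg hA hh
    have key := dec ΛY hY h1Y hΛY hUY T i0 j n' hn' (fun LY =>
      if Wn lo hi α β (TT sX zX hX (As.flatten ++ (A ++ R)) 0 0) (TT sY zY hY LY w d0) then 1 else 0)
      (fun Bs B => Phi hX hY zX zY sX sY j T i0 lo hi d0 w As A Bs B)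
      (fun L => by split_ifs <;> simp) (by
        intro Bs B R' hl' hg' hB hh'
        by_cases hW : Wn lo hi α β (TT sX zX hX (As.flatten ++ (A ++ R)) 0 0)
          (TT sY zY hY (Bs.flatten ++ (B ++ R')) w d0)
        · rw [if_pos hW, Phi, if_pos]
          have hfX := HT_flat hX T i0 As hg
          have hfY := HT_flat hY T i0 Bs hg'
          rw [hl] at hfX
          rw [hl'] at hfY
          have hA' := le_HT_of_fp hX hA
          have hB' := le_HT_of_fp hY hB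
          refine ⟨⟨hl, hl'⟩, hg, ⟨hA, hh⟩, hg', ⟨hB, hh'⟩, ?_⟩
          exact ev_of_wn hX hY zX zY sX sY hsX hsY As.flatten A R Bs.flatten B R' w d0 lo hi α β
            (by omega) (by omega) (by omega) (by omega) (by omega) (by omega) hW
        · rw [if_neg hW]; exact zero_le)
    rw [SL_eq_I] at key
    exact key
  · rw [SL_eq_I]
    have hm1 : ∑' As : List (List BX), Wj ΛX hX T j As ≤ 1 :=
      SLw_sum _ (Lf_sum ΛX hX h1X hΛX T) j
    have hm2 := Lf_sum ΛX hX h1X hΛX T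
    have e4 : I (fun L : List (List BX) => if L.length = j then LW (Lf ΛX hX T) L else 0)
        (fun As => ∑' A, Lf ΛX hX T A * (I (Wj ΛY hY T j) (fun Bs => I (Lf ΛY hY T)
          (fun B => Phi hX hY zX zY sX sY j T i0 lo hi d0 w As A Bs B)) + (j + 1) * ovr ΛY hY i0))
        = N (Wj ΛX hX T j) (Lf ΛX hX T) (Wj ΛY hY T j) (Lf ΛY hY T)
          (Phi hX hY zX zY sX sY j T i0 lo hi d0 w)
          + I (Wj ΛX hX T j) (fun _ => I (Lf ΛX hX T) (fun _ => (j + 1) * ovr ΛY hY i0)) := by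
      simp only [N, ← I_add]
      rfl
    rw [e4]
    have e5 : I (Wj ΛX hX T j) (fun _ => I (Lf ΛX hX T) (fun _ => (j + 1) * ovr ΛY hY i0))
        ≤ (j + 1) * ovr ΛY hY i0 := I_le _ hm1 fun _ => I_le _ hm2 fun _ => le_rfl
    calc _ ≤ N (Wj ΛX hX T j) (Lf ΛX hX T) (Wj ΛY hY T j) (Lf ΛY hY T)
          (Phi hX hY zX zY sX sY j T i0 lo hi d0 w) + (j + 1) * ovr ΛY hY i0
          + (j + 1) * ovr ΛX hX i0 := add_le_add (add_le_add le_rfl e5) le_rfl
      _ = _ := by ring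

end window

end Crest.Agent.R154.Asm39
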