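import Crest.Agent.R154.AsmT_396
import Crest.Agent.R154.NumAsm_334
import Crest.Agent.R154.Dens_903

/-! Row 154, ROAD 801 (helper396): quantile of the piece law. -/

set_option autoImplicit false
set_option linter.unusedVariables false

namespace Crest.Agent.R154.AsmS396

open Crest.Agent.R154.B5A Crest.Agent.R154.Ren396
open scoped ENNReal

variable {B : Type*} (Λ : B → ℝ≥0∞) (ht : B → ℕ) {G : Type*} [AddCommGroup G] (z : B → G)

open Classical in
theorem mass_FR_eq (hΛ : ∑' b, Λ b = 1) (h1 : ∀ b, 1 ≤ ht b) (A : ℕ) :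
    ∑' L : List B, (if FR ht L A then LW Λ L else 0) = 1 := by
  induction A using Nat.strong_induction_on with
  | _ A ih =>
    rw [tsum_list]
    rcases Nat.eq_zero_or_pos A with h0 | h0
    · subst h0
      simp [FR, LW_nil]
    · have e0 : (if FR ht ([] : List B) A then LW Λ [] else 0) = 0 := by
        rw [if_neg]; simp only [FR]; omega
      rw [e0, zero_add]
      calc _ = ∑' b, Λ b * ∑' L : List B, (if FR ht L (A - ht b) then LW Λ L else 0) := by
            refine tsum_congr fun b => ?_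
            rw [← ENNReal.tsum_mul_left]
            refine tsum_congr fun L => ?_
            simp only [FR, LW_cons]
            by_cases h2 : FR ht L (A - ht b)
            · rw [if_pos ⟨by omega, h2⟩, if_pos h2]
            · rw [if_neg (fun h => h2 h.2), if_neg h2, mul_zero]
        _ = ∑' b, Λ b * 1 := by
            refine tsum_congr fun b => ?_
            rw [ih _ (by have := h1 b; omega)]
        _ = 1 := by simpa using hΛ

open Classical in
/-- law of (height, displacement): change of variables -/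
theorem law (A : ℕ) (H : ℕ → G → ℝ≥0∞) :
    ∑' P : List B, (if FR ht P A then LW Λ P * H (HT ht P) (dp z P) else 0)
      = ∑' q : ℕ × G, W Λ ht z A q.1 q.2 * H q.1 q.2 := by
  simp only [W]
  simp_rw [← ENNReal.tsum_mul_right]
  rw [ENNReal.tsum_comm]
  refine tsum_congr fun P => ?_
  by_cases h : FR ht P A
  · simp only [h, if_true]
    rw [tsum_eq_single (HT ht P, dp z P)]
    · simp
    · rintro ⟨c, x⟩ hcx
      simp only
      rw [if_neg, zero_mul]
      rintro ⟨h2, h3⟩
      exact hcx (by simp [h2, h3])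
  · simp [h]

open Classical in
/-- **quantile of the piece law**: threshold, non-local mass `≤ 2 v`, low mass without overshoot
`≥ v`. -/
theorem piece (hΛ : ∑' b, Λ b = 1) (h1 : ∀ b, 1 ≤ ht b) (T i0 : ℕ) (v e : ℝ≥0∞) (hv0 : v ≠ 0)
    (hv1 : 2 * v ≤ 1) (hev : e ≤ v)
    (hover : ∑' P : List B, (if FR ht P T ∧ T + i0 < HT ht P then LW Λ P else 0) ≤ e) :
    ∃ θ : ℝ≥0∞, θ ≠ 0 ∧ θ ≠ ⊤ ∧
      ∑' P : List B, (if FR ht P T ∧ ¬ θ ≤ W Λ ht z T (HT ht P) (dp z P) then LW Λ P else 0)
        ≤ 2 * v ∧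
      v ≤ ∑' a : List B, (if FR ht a T ∧ HT ht a ≤ T + i0 ∧
        W Λ ht z T (HT ht a) (dp z a) ≤ θ then LW Λ a else 0) := by
  have hp : ∑' q : ℕ × G, W Λ ht z T q.1 q.2 = 1 := by
    have h := law Λ ht z T (fun _ _ => 1)
    simp only [mul_one] at h
    rw [← h]
    exact mass_FR_eq Λ ht hΛ h1 T
  obtain ⟨θ, hθ0, hθ1, hq1, hq2⟩ := Dens903.quantile (fun q : ℕ × G => W Λ ht z T q.1 q.2) hp
    (u := 2 * v) (mul_ne_zero two_ne_zero hv0) hv1
  have hvt : v ≠ ⊤ := by
    intro h
    rw [h] at hv1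
    simp at hv1
  refine ⟨θ, hθ0, ne_top_of_le_ne_top ENNReal.one_ne_top hθ1, ?_, ?_⟩
  · refine le_trans (le_of_eq ?_) hq1
    have h := law Λ ht z T (fun c x => if W Λ ht z T c x < θ then 1 else 0)
    calc _ = ∑' P : List B, (if FR ht P T then LW Λ P *
          (if W Λ ht z T (HT ht P) (dp z P) < θ then 1 else 0) else 0) := by
          refine tsum_congr fun P => ?_
          by_cases g1 : FR ht P T <;> by_cases g2 : W Λ ht z T (HT ht P) (dp z P) < θ <;>
            simp [g1, g2, not_le, not_lt.1]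
      _ = _ := h
      _ = _ := tsum_congr fun q => by split_ifs <;> simp
  · have h := law Λ ht z T (fun c x => if W Λ ht z T c x ≤ θ then 1 else 0)
    have h2 : 2 * v ≤ (∑' a : List B, (if FR ht a T ∧ HT ht a ≤ T + i0 ∧
        W Λ ht z T (HT ht a) (dp z a) ≤ θ then LW Λ a else 0)) + v := by
      calc 2 * v ≤ _ := hq2
        _ = ∑' q : ℕ × G, W Λ ht z T q.1 q.2 * (if W Λ ht z T q.1 q.2 ≤ θ then 1 else 0) :=
            tsum_congr fun q => by split_ifs <;> simp
        _ = _ := h.symm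
        _ ≤ ∑' P : List B, ((if FR ht P T ∧ HT ht P ≤ T + i0 ∧
            W Λ ht z T (HT ht P) (dp z P) ≤ θ then LW Λ P else 0) +
            (if FR ht P T ∧ T + i0 < HT ht P then LW Λ P else 0)) := by
            refine ENNReal.tsum_le_tsum fun P => ?_
            by_cases g1 : FR ht P T
            · by_cases g2 : W Λ ht z T (HT ht P) (dp z P) ≤ θ
              · by_cases g3 : HT ht P ≤ T + i0
                · simp [g1, g2, g3]
                · simp [g1, g2, g3, not_le.1 g3]
              · simp [g1, g2]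
            · simp [g1]
        _ ≤ _ := by
            rw [ENNReal.tsum_add]
            exact add_le_add le_rfl (hover.trans hev)
    rw [two_mul] at h2
    exact (ENNReal.add_le_add_iff_right hvt).1 h2

lemma ratio_le (i0 : ℕ) (θ v : ℝ≥0∞) (hθ0 : θ ≠ 0) (hθt : θ ≠ ⊤) :
    ((i0 : ℝ≥0∞) + 1) * θ / v * (1 / θ) = ((i0 : ℝ≥0∞) + 1) / v := by
  rw [div_eq_mul_inv, div_eq_mul_inv, div_eq_mul_inv, one_mul]
  calc ((i0 : ℝ≥0∞) + 1) * θ * v⁻¹ * θ⁻¹ = ((i0 : ℝ≥0∞) + 1) * v⁻¹ * (θ * θ⁻¹) := by ring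
    _ = _ := by rw [ENNReal.mul_inv_cancel hθ0 hθt, mul_one]

end Crest.Agent.R154.AsmS396
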