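import Crest.Agent.R154.AsmP_457

/-! Row 154, ROAD 801, abstract assembly (helper457), part 2: traces, decomposition of a walker,
tie laws. -/

set_option autoImplicit false

namespace Crest.Agent.R154.Asm457

open scoped ENNReal
open Crest.Agent.R154.B5A

section one

variable {B : Type*} {G : Type*} [AddCommGroup G]
variable (Λ : B → ℝ≥0∞) (h : B → ℕ) (z : B → G) (s : B → Set (G × ℕ))

/-- trace (position, depth) of a list placed at `x`, depth `a` -/
def TS : List B → G → ℕ → Set (G × ℕ)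
  | [], _, _ => ∅
  | b :: L, x, a => {p | ∃ q ∈ s b, p = (x + q.1, a + q.2)} ∪ TS L (x + z b) (a + h b)

lemma TS_append (L L' : List B) (x : G) (a : ℕ) :
    TS h z s (L ++ L') x a = TS h z s L x a ∪ TS h z s L' (x + Dp z L) (a + HT h L) := by
  induction L generalizing x a with
  | nil => simp [TS, Dp_nil, HT_nil]
  | cons b L ih =>
    simp only [List.cons_append, TS]
    rw [ih, Dp_cons, HT_cons, Set.union_assoc, add_assoc, add_assoc]

lemma TS_depth (hs : ∀ b p, p ∈ s b → 1 ≤ p.2 ∧ p.2 ≤ h b) (L : List B) (x : G) (a : ℕ)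
    (p : G × ℕ) (hp : p ∈ TS h z s L x a) : a < p.2 ∧ p.2 ≤ a + HT h L := by
  induction L generalizing x a with
  | nil => simp [TS] at hp
  | cons b L ih =>
    rw [HT_cons]
    rcases hp with ⟨q, hq, rfl⟩ | hp
    · have := hs b q hq
      simp only
      omega
    · have := ih _ _ hp
      omega

lemma TS_shift (L : List B) (x v y : G) (a k : ℕ) :
    (y, k) ∈ TS h z s L (x + v) a ↔ (y - v, k) ∈ TS h z s L x a := by
  induction L generalizing x a with
  | nil => simp [TS]
  | cons b L ih =>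
    simp only [TS, Set.mem_union, Set.mem_setOf_eq]
    rw [show x + v + z b = (x + z b) + v by abel, ih]
    refine or_congr ?_ Iff.rfl
    constructor
    · rintro ⟨q, hq, e⟩
      rw [Prod.mk.injEq] at e
      refine ⟨q, hq, Prod.ext ?_ e.2⟩
      simp only
      rw [e.1]; abel
    · rintro ⟨q, hq, e⟩
      rw [Prod.mk.injEq] at e
      refine ⟨q, hq, Prod.ext ?_ e.2⟩
      simp only
      rw [← sub_add_cancel y v, e.1]; abel

lemma U_le (h1 : ∀ b, 1 ≤ h b) (hΛ : ∑' b, Λ b = 1) (n : ℕ) : U Λ h n ≤ 1 := by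
  have ht0 : tail Λ h 0 = 1 := by
    rw [← hΛ, tail]
    refine tsum_congr fun b => ?_
    rw [if_pos (by have := h1 b; omega)]
  rw [← renewal_one Λ h h1 hΛ n]
  have := Finset.single_le_sum (f := fun k => U Λ h (n - k) * tail Λ h k)
    (fun _ _ => zero_le) (Finset.mem_range.2 (Nat.succ_pos n))
  simpa [ht0] using this

open Classical in
lemma U_le' (h1 : ∀ b, 1 ≤ h b) (hΛ : ∑' b, Λ b = 1) (c n : ℕ) :
    ∑' R, (if c + HT h R = n then LW Λ R else 0) ≤ 1 := by
  by_cases hc : c ≤ n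
  · refine le_trans (le_of_eq ?_) (U_le Λ h h1 hΛ (n - c))
    rw [U]
    refine tsum_congr fun R => ?_
    by_cases h3 : c + HT h R = n
    · rw [if_pos h3, if_pos (by omega)]
    · rw [if_neg h3, if_neg (by omega)]
  · refine le_trans (le_of_eq ?_) zero_le
    rw [ENNReal.tsum_eq_zero]
    intro R
    rw [if_neg (by omega)]

open Classical in
/-- weight of the near first passages -/
noncomputable def wt (l i0 : ℕ) (P : List B) : ℝ≥0∞ :=
  if FP h P l ∧ HT h P ≤ l + i0 then LW Λ P else 0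

lemma wt_sum (h1 : ∀ b, 1 ≤ h b) (hΛ : ∑' b, Λ b = 1) (l i0 : ℕ) : ∑' P, wt Λ h l i0 P ≤ 1 := by
  classical
  rw [← fp_mass Λ h h1 hΛ l]
  refine ENNReal.tsum_le_tsum fun P => ?_
  unfold wt
  by_cases h3 : FP h P l
  · rw [if_pos h3]; split_ifs <;> simp
  · rw [if_neg h3, if_neg (fun h4 => h3 h4.1)]

lemma wsum_le {ι : Type*} (f g : ι → ℝ≥0∞) (c : ℝ≥0∞) (hf : ∑' i, f i ≤ 1)
    (hg : ∀ i, g i ≤ c) : ∑' i, f i * g i ≤ c := by
  calc _ ≤ ∑' i, f i * c := ENNReal.tsum_le_tsum fun i => mul_le_mul_right (hg i) _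
    _ = (∑' i, f i) * c := ENNReal.tsum_mul_right
    _ ≤ 1 * c := mul_le_mul_left hf _
    _ = c := one_mul c

open Classical in
/-- **decomposition of a walker** -/
lemma dec (h1 : ∀ b, 1 ≤ h b) (hΛ : ∑' b, Λ b = 1) (l1 l2 i0 n : ℕ) (hn : l1 + i0 + l2 ≤ n)
    (Φ : List B → ℝ≥0∞) (hΦ : ∀ L, Φ L ≤ 1) (c : List B → List B → ℝ≥0∞)
    (hc : ∀ P Q R, FP h P l1 → HT h P ≤ l1 + i0 → FP h Q l2 → HT h Q ≤ l2 + i0 →
      HT h P + HT h Q + HT h R = n → Φ (P ++ (Q ++ R)) ≤ c P Q) :
    ∑' L, (if HT h L = n then LW Λ L * Φ L else 0) ≤ ov Λ h i0 + ov Λ h i0 +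
      ∑' P, wt Λ h l1 i0 P * ∑' Q, wt Λ h l2 i0 Q * c P Q := by
  set F : List B → ℝ≥0∞ := fun L => if HT h L = n then LW Λ L * Φ L else 0 with hF
  have a1 : ∑' L, F L ≤ ∑' P, (if FP h P l1 then ∑' R, F (P ++ R) else 0) := by
    refine le_trans (le_of_eq ?_) (split_le h h1 l1 F)
    refine tsum_congr fun L => ?_
    by_cases h3 : l1 ≤ HT h L
    · rw [if_pos h3]
    · rw [if_neg h3, hF]
      simp only
      rw [if_neg (by omega)]
  have a2 : ∀ P, FP h P l1 → HT h P ≤ l1 + i0 → ∑' R, F (P ++ R)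
      ≤ LW Λ P * (ov Λ h i0 + ∑' Q, wt Λ h l2 i0 Q * c P Q) := by
    intro P hP1 hP2
    have b1 : ∑' R, F (P ++ R) ≤ ∑' Q, (if FP h Q l2 then ∑' R, F (P ++ (Q ++ R)) else 0) := by
      refine le_trans (le_of_eq ?_) (split_le h h1 l2 (fun R => F (P ++ R)))
      refine tsum_congr fun R => ?_
      by_cases h3 : l2 ≤ HT h R
      · rw [if_pos h3]
      · rw [if_neg h3, hF]
        simp only
        rw [HT_append, if_neg (by omega)]
    refine b1.trans ?_
    have b2 : ∀ Q, (if FP h Q l2 then ∑' R, F (P ++ (Q ++ R)) else 0)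
        ≤ LW Λ P * (if FP h Q l2 ∧ l2 + i0 < HT h Q then LW Λ Q else 0)
          + LW Λ P * (wt Λ h l2 i0 Q * c P Q) := by
      intro Q
      by_cases hQ : FP h Q l2
      · rw [if_pos hQ]
        by_cases hf : l2 + i0 < HT h Q
        · rw [if_pos ⟨hQ, hf⟩]
          refine le_add_right ?_
          calc _ ≤ ∑' R, (LW Λ P * LW Λ Q) * (if (HT h P + HT h Q) + HT h R = n then LW Λ R else 0) := by
                refine ENNReal.tsum_le_tsum fun R => ?_
                rw [hF]
                simp only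
                rw [HT_append, HT_append, LW_append, LW_append]
                by_cases h4 : HT h P + (HT h Q + HT h R) = n
                · rw [if_pos h4, if_pos (by omega)]
                  calc _ ≤ LW Λ P * (LW Λ Q * LW Λ R) * 1 := mul_le_mul_right (hΦ _) _
                    _ = _ := by ring
                · rw [if_neg h4]; exact zero_le
            _ ≤ LW Λ P * LW Λ Q * 1 := by
                rw [ENNReal.tsum_mul_left]
                exact mul_le_mul_right (U_le' Λ h h1 hΛ _ _) _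
            _ = _ := mul_one _
        · refine le_add_left ?_
          have hnear : HT h Q ≤ l2 + i0 := not_lt.1 hf
          rw [wt, if_pos ⟨hQ, hnear⟩]
          calc _ ≤ ∑' R, (LW Λ P * LW Λ Q * c P Q)
                * (if (HT h P + HT h Q) + HT h R = n then LW Λ R else 0) := by
                refine ENNReal.tsum_le_tsum fun R => ?_
                rw [hF]
                simp only
                rw [HT_append, HT_append, LW_append, LW_append]
                by_cases h4 : HT h P + (HT h Q + HT h R) = n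
                · rw [if_pos h4, if_pos (by omega)]
                  calc _ ≤ LW Λ P * (LW Λ Q * LW Λ R) * c P Q :=
                        mul_le_mul_right (hc P Q R hP1 hP2 hQ hnear (by omega)) _
                    _ = _ := by ring
                · rw [if_neg h4]; exact zero_le
            _ ≤ LW Λ P * LW Λ Q * c P Q * 1 := by
                rw [ENNReal.tsum_mul_left]
                exact mul_le_mul_right (U_le' Λ h h1 hΛ _ _) _
            _ = _ := by ring
      · rw [if_neg hQ]; exact zero_le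
    calc _ ≤ ∑' Q, (LW Λ P * (if FP h Q l2 ∧ l2 + i0 < HT h Q then LW Λ Q else 0)
          + LW Λ P * (wt Λ h l2 i0 Q * c P Q)) := ENNReal.tsum_le_tsum b2
      _ ≤ _ := by
        rw [ENNReal.tsum_add, ENNReal.tsum_mul_left, ENNReal.tsum_mul_left, mul_add]
        exact add_le_add (mul_le_mul_right (fp_far Λ h h1 hΛ i0 l2) _) le_rfl
  refine a1.trans ?_
  have a3 : ∀ P, (if FP h P l1 then ∑' R, F (P ++ R) else 0)
      ≤ (if FP h P l1 ∧ l1 + i0 < HT h P then LW Λ P else 0)
        + (wt Λ h l1 i0 P * ov Λ h i0 + wt Λ h l1 i0 P * ∑' Q, wt Λ h l2 i0 Q * c P Q) := by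
    intro P
    by_cases hP : FP h P l1
    · rw [if_pos hP]
      by_cases hf : l1 + i0 < HT h P
      · rw [if_pos ⟨hP, hf⟩]
        refine le_add_right ?_
        calc _ ≤ ∑' R, LW Λ P * (if HT h P + HT h R = n then LW Λ R else 0) := by
              refine ENNReal.tsum_le_tsum fun R => ?_
              rw [hF]
              simp only
              rw [HT_append, LW_append]
              by_cases h4 : HT h P + HT h R = n
              · rw [if_pos h4, if_pos h4]
                calc _ ≤ LW Λ P * LW Λ R * 1 := mul_le_mul_right (hΦ _) _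
                  _ = _ := by ring
              · rw [if_neg h4]; exact zero_le
          _ ≤ LW Λ P * 1 := by
              rw [ENNReal.tsum_mul_left]
              exact mul_le_mul_right (U_le' Λ h h1 hΛ _ _) _
          _ = _ := mul_one _
      · refine le_add_left ?_
        have hnear : HT h P ≤ l1 + i0 := not_lt.1 hf
        rw [wt, if_pos ⟨hP, hnear⟩, ← mul_add]
        exact a2 P hP hnear
    · rw [if_neg hP]; exact zero_le
  calc _ ≤ _ := ENNReal.tsum_le_tsum a3
    _ ≤ _ := by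
      rw [ENNReal.tsum_add, ENNReal.tsum_add, ENNReal.tsum_mul_right, add_assoc]
      refine add_le_add (fp_far Λ h h1 hΛ i0 l1) (add_le_add ?_ le_rfl)
      calc _ ≤ 1 * ov Λ h i0 := mul_le_mul_left (wt_sum Λ h h1 hΛ l1 i0) _
        _ = _ := one_mul _

open Classical in
lemma wt_fiber (l i0 : ℕ) (f : ℕ × G → ℝ≥0∞) :
    ∑' P, wt Λ h l i0 P * f (HT h P, Dp z P)
      = ∑' y : ℕ × G, V Λ h z l y * (if y.1 ≤ l + i0 then f y else 0) := by
  rw [← fiber Λ h z l (fun y => if y.1 ≤ l + i0 then f y else 0)]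
  refine tsum_congr fun P => ?_
  unfold wt
  by_cases h3 : FP h P l <;> by_cases h4 : HT h P ≤ l + i0 <;> simp [h3, h4]

end one

/-! ### tie laws -/

section tie

variable {G : Type*} [AddCommGroup G]

lemma conv_sum (φ ψ H : G → ℝ≥0∞) (w : G) :
    ∑' x, φ x * ∑' x', ψ x' * H (w + x' - x)
      = ∑' v, (∑' x, φ x * ψ (v - w + x)) * H v := by
  have e1 : ∀ x, ∑' x', ψ x' * H (w + x' - x) = ∑' v, ψ (v - w + x) * H v := by
    intro x
    rw [← (Equiv.addRight (x - w)).tsum_eq (fun x' => ψ x' * H (w + x' - x))]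
    refine tsum_congr fun v => ?_
    simp only [Equiv.coe_addRight]
    rw [show v + (x - w) = v - w + x by abel, show w + (v - w + x) - x = v by abel]
  simp_rw [e1, ← ENNReal.tsum_mul_left, ← ENNReal.tsum_mul_right]
  rw [ENNReal.tsum_comm]
  refine tsum_congr fun v => tsum_congr fun x => ?_
  ring

lemma tie_mass (φ ψ : G → ℝ≥0∞) (w : G) (h1 : ∑' x, φ x ≤ 1) (h2 : ∑' x, ψ x ≤ 1) :
    ∑' v, ∑' x, φ x * ψ (v - w + x) ≤ 1 := by
  rw [ENNReal.tsum_comm]
  have : ∀ x, ∑' v, φ x * ψ (v - w + x) ≤ φ x * 1 := by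
    intro x
    rw [ENNReal.tsum_mul_left]
    refine mul_le_mul_right ?_ _
    rw [show (∑' v, ψ (v - w + x)) = ∑' v, ψ v from ?_]
    · exact h2
    · rw [← (Equiv.addRight (x - w)).tsum_eq ψ]
      refine tsum_congr fun v => ?_
      simp only [Equiv.coe_addRight]
      rw [show v + (x - w) = v - w + x by abel]
  calc _ ≤ ∑' x, φ x * 1 := ENNReal.tsum_le_tsum this
    _ ≤ 1 := by simpa using h1

lemma tie_sup1 (φ ψ : G → ℝ≥0∞) (w v : G) (M : ℝ≥0∞) (h1 : ∀ x, φ x ≤ M) (h2 : ∑' x, ψ x ≤ 1) :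
    ∑' x, φ x * ψ (v - w + x) ≤ M := by
  calc _ ≤ ∑' x, M * ψ (v - w + x) := ENNReal.tsum_le_tsum fun x => mul_le_mul_left (h1 x) _
    _ = M * ∑' x, ψ x := by
      rw [ENNReal.tsum_mul_left]
      congr 1
      exact (Equiv.addLeft (v - w)).tsum_eq ψ
    _ ≤ M * 1 := mul_le_mul_right h2 _
    _ = M := mul_one M

lemma tie_sup2 (φ ψ : G → ℝ≥0∞) (w v : G) (M : ℝ≥0∞) (h1 : ∑' x, φ x ≤ 1) (h2 : ∀ x, ψ x ≤ M) :
    ∑' x, φ x * ψ (v - w + x) ≤ M := wsum_le _ _ M h1 fun _ => h2 _

/-- sums over `ℕ × G` restricted to an interval of heights -/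
lemma sum_Icc (S : Finset ℕ) (F : ℕ × G → ℝ≥0∞) (hF : ∀ y, y.1 ∉ S → F y = 0) :
    ∑' y, F y = ∑ a ∈ S, ∑' x, F (a, x) := by
  rw [ENNReal.tsum_prod', tsum_eq_sum (s := S)]
  intro a ha
  rw [ENNReal.tsum_eq_zero]
  intro x
  exact hF (a, x) ha

/-- **tie sum** -/
theorem tie (l1 l1' i0 : ℕ) (f g : ℕ × G → ℝ≥0∞) (w : G) (M κ : ℝ≥0∞)
    (hf0 : ∀ y, y.1 < l1 → f y = 0) (hg0 : ∀ y, y.1 < l1' → g y = 0)
    (hf : ∀ a, ∑' x, f (a, x) ≤ 1) (hg : ∀ a, ∑' x, g (a, x) ≤ 1)
    (hM : (∀ y, f y ≤ M) ∨ (∀ y, g y ≤ M)) (W : ℕ → ℕ → G → ℝ≥0∞)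
    (hW : ∀ a a', l1 ≤ a → a ≤ l1 + i0 → l1' ≤ a' → a' ≤ l1' + i0 → ∀ μ : G → ℝ≥0∞,
      ∑' x, μ x ≤ 1 → (∀ x, μ x ≤ M) → ∑' x, μ x * W a a' x ≤ κ) :
    ∑' y : ℕ × G, f y * (if y.1 ≤ l1 + i0 then ∑' y' : ℕ × G, g y' *
      (if y'.1 ≤ l1' + i0 then W y.1 y'.1 (w + y'.2 - y.2) else 0) else 0)
      ≤ (i0 + 1 : ℕ) * ((i0 + 1 : ℕ) * κ) := by
  rw [sum_Icc (Finset.Icc l1 (l1 + i0))]
  · calc _ ≤ ∑ a ∈ Finset.Icc l1 (l1 + i0), ((i0 + 1 : ℕ) * κ) := by
          refine Finset.sum_le_sum fun a ha => ?_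
          rw [Finset.mem_Icc] at ha
          simp only [ha.2, if_true]
          have e : ∀ x : G, ∑' y' : ℕ × G, g y' *
              (if y'.1 ≤ l1' + i0 then W a y'.1 (w + y'.2 - x) else 0)
              = ∑ a' ∈ Finset.Icc l1' (l1' + i0), ∑' x', g (a', x') * W a a' (w + x' - x) := by
            intro x
            rw [sum_Icc (Finset.Icc l1' (l1' + i0))]
            · refine Finset.sum_congr rfl fun a' ha' => ?_
              rw [Finset.mem_Icc] at ha'
              simp only [ha'.2, if_true]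
            · intro y' hy'
              rw [Finset.mem_Icc, not_and_or] at hy'
              rcases hy' with hy' | hy'
              · rw [hg0 y' (by omega), zero_mul]
              · rw [if_neg hy', mul_zero]
          simp_rw [e, Finset.mul_sum]
          rw [Summable.tsum_finsetSum (fun _ _ => ENNReal.summable)]
          calc _ ≤ ∑ a' ∈ Finset.Icc l1' (l1' + i0), κ := by
                refine Finset.sum_le_sum fun a' ha' => ?_
                rw [Finset.mem_Icc] at ha'
                rw [conv_sum (fun x => f (a, x)) (fun x' => g (a', x')) (W a a') w]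
                refine hW a a' ha.1 ha.2 ha'.1 ha'.2 _
                  (tie_mass _ _ w (hf a) (hg a')) fun v => ?_
                rcases hM with hM | hM
                · exact tie_sup1 _ _ w v M (fun x => hM _) (hg a')
                · exact tie_sup2 _ _ w v M (hf a) (fun x => hM _)
            _ = _ := by
                rw [Finset.sum_const, Nat.card_Icc, nsmul_eq_mul]
                congr 2
                omega
    _ = _ := by
        rw [Finset.sum_const, Nat.card_Icc, nsmul_eq_mul]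
        congr 2
        omega
  · intro y hy
    rw [Finset.mem_Icc, not_and_or] at hy
    rcases hy with hy | hy
    · rw [hf0 y (by omega), zero_mul]
    · rw [if_neg hy, mul_zero]

end tie

end Crest.Agent.R154.Asm457
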