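import Crest.Agent.R154.AsmP_648

/-! Row 154, ROAD 801 (helper648): assembly, part 2: traces of lists, the window of a contact. -/

set_option autoImplicit false

namespace Crest.Agent.R154.Asm648

open scoped ENNReal
open Crest.Agent.R154.B5A

section SLs

variable {A A' : Type*} (Λ : A → ℝ≥0∞) (Λ' : A' → ℝ≥0∞)

lemma SL_const_le (h : ∑' b, Λ b ≤ 1) (j : ℕ) (a : ℝ≥0∞) : SL Λ j (fun _ => a) ≤ a := by
  have h1 := SL_const_mul Λ j a (fun _ => 1)
  have h2 : SL Λ j (fun _ => (1 : ℝ≥0∞)) ≤ 1 := by rw [SL_pow]; exact pow_le_one' h j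
  calc SL Λ j (fun _ => a) = a * SL Λ j (fun _ => 1) := by rw [← h1]; simp
    _ ≤ a * 1 := mul_le_mul_right h2 _
    _ = a := mul_one _

lemma SL_mid (h : ∑' b, Λ b ≤ 1) (j r : ℕ) (g : List A → ℝ≥0∞) (G : List A → A → ℝ≥0∞)
    (hg : ∀ Q1 P Q2, Q1.length = j → Q2.length = r → g (Q1 ++ P :: Q2) ≤ G Q1 P) :
    SL Λ (j + (r + 1)) g ≤ SL Λ j (fun Q1 => ∑' P, Λ P * G Q1 P) := by
  rw [SL_add]
  refine SL_mono Λ j fun Q1 hQ1 => ?_
  rw [SL_succ]
  refine ENNReal.tsum_le_tsum fun P => mul_le_mul_right ?_ _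
  exact (SL_mono Λ r fun Q2 hQ2 => hg Q1 P Q2 hQ1 hQ2).trans (SL_const_le Λ h r _)

lemma SL_tsum {ι : Type*} (j : ℕ) (F : ι → List A → ℝ≥0∞) :
    SL Λ j (fun L => ∑' i, F i L) = ∑' i, SL Λ j (F i) := by
  simp only [SL]
  rw [ENNReal.tsum_comm]
  refine tsum_congr fun L => ?_
  by_cases h : L.length = j
  · simp only [h, if_true]; rw [ENNReal.tsum_mul_left]
  · simp [h]

lemma tsum_SL {ι : Type*} (c : ι → ℝ≥0∞) (j : ℕ) (F : ι → List A → ℝ≥0∞) :
    ∑' i, c i * SL Λ j (F i) = SL Λ j (fun L => ∑' i, c i * F i L) := by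
  rw [SL_tsum]
  exact tsum_congr fun i => (SL_const_mul Λ j (c i) (F i)).symm

lemma SL_sum {ι : Type*} (s : Finset ι) (j : ℕ) (F : ι → List A → ℝ≥0∞) :
    SL Λ j (fun L => ∑ i ∈ s, F i L) = ∑ i ∈ s, SL Λ j (F i) := by
  classical
  induction s using Finset.induction_on with
  | empty => simp only [Finset.sum_empty]; simpa using SL_const_mul Λ j 0 (fun _ => 0)
  | insert a s ha ih => simp only [Finset.sum_insert ha]; rw [SL_add_fun, ih]

lemma SL_SL_comm (j j' : ℕ) (F : List A → List A' → ℝ≥0∞) :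
    SL Λ j (fun L => SL Λ' j' (fun L' => F L L')) = SL Λ' j' (fun L' => SL Λ j (fun L => F L L')) := by
  have e : ∀ L : List A, (if L.length = j then LW Λ L * SL Λ' j' (fun L' => F L L') else 0)
      = ∑' L' : List A', (if L'.length = j' then LW Λ' L' *
        (if L.length = j then LW Λ L * F L L' else 0) else 0) := by
    intro L
    by_cases h : L.length = j
    · simp only [h, if_true]
      rw [SL, ← ENNReal.tsum_mul_left]
      refine tsum_congr fun L' => ?_
      by_cases h' : L'.length = j'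
      · simp only [h', if_true]; ring
      · simp [h']
    · simp [h]
  rw [SL, tsum_congr e, ENNReal.tsum_comm]
  rw [SL]
  refine tsum_congr fun L' => ?_
  by_cases h' : L'.length = j'
  · simp only [h', if_true]
    rw [SL, ENNReal.tsum_mul_left]
  · simp [h']

end SLs

section traces

variable {B G : Type*} [AddCommGroup G]

/-- sites read by a list of blocks, with depth -/
def TT (s : B → Set (G × ℕ)) (z : B → G) (h : B → ℕ) : List B → G → ℕ → Set (G × ℕ)
  | [], _, _ => ∅
  | b :: L, x, a => {p | ∃ q ∈ s b, p = (x + q.1, a + q.2)} ∪ TT s z h L (x + z b) (a + h b)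

/-- total displacement -/
def Dp (z : B → G) (L : List B) : G := (L.map z).sum

lemma Dp_cons (z : B → G) (b : B) (L : List B) : Dp z (b :: L) = z b + Dp z L := by simp [Dp]

lemma Dp_append (z : B → G) (L L' : List B) : Dp z (L ++ L') = Dp z L + Dp z L' := by simp [Dp]

variable (s : B → Set (G × ℕ)) (z : B → G) (h : B → ℕ)

lemma TT_append (L L' : List B) (x : G) (a : ℕ) (p : G × ℕ) :
    p ∈ TT s z h (L ++ L') x a ↔
      p ∈ TT s z h L x a ∨ p ∈ TT s z h L' (x + Dp z L) (a + HT h L) := by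
  induction L generalizing x a with
  | nil => simp [TT, Dp, HT]
  | cons b L ih =>
    rw [List.cons_append, TT, TT, Set.mem_union, Set.mem_union, ih, Dp_cons, HT_cons, or_assoc]
    rw [add_assoc x, add_assoc a]

lemma TT_depth (hs : ∀ b q, q ∈ s b → 1 ≤ q.2 ∧ q.2 ≤ h b) (L : List B) (x : G) (a : ℕ)
    (p : G × ℕ) (hp : p ∈ TT s z h L x a) : a < p.2 ∧ p.2 ≤ a + HT h L := by
  induction L generalizing x a with
  | nil => simp [TT] at hp
  | cons b L ih =>
    rw [HT_cons]
    rcases hp with ⟨q, hq, rfl⟩ | hp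
    · have := hs b q hq
      constructor
      · show a < a + q.2; omega
      · show a + q.2 ≤ _; omega
    · have := ih _ _ hp; omega

lemma TT_shift (L : List B) (x v y : G) (a k : ℕ) :
    (y + v, k) ∈ TT s z h L (x + v) a ↔ (y, k) ∈ TT s z h L x a := by
  induction L generalizing x a with
  | nil => simp [TT]
  | cons b L ih =>
    rw [TT, TT, Set.mem_union, Set.mem_union]
    refine or_congr ?_ ?_
    · constructor
      · rintro ⟨q, hq, he⟩
        refine ⟨q, hq, ?_⟩
        have h1 := congrArg Prod.fst he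
        have h2 := congrArg Prod.snd he
        simp only at h1 h2
        refine Prod.ext ?_ h2
        show y = x + q.1
        have : y + v = (x + q.1) + v := by rw [h1]; abel
        exact add_right_cancel this
      · rintro ⟨q, hq, he⟩
        refine ⟨q, hq, ?_⟩
        have h1 := congrArg Prod.fst he
        have h2 := congrArg Prod.snd he
        simp only at h1 h2
        refine Prod.ext ?_ h2
        show y + v = x + v + q.1
        rw [h1]; abel
    · rw [show x + v + z b = (x + z b) + v by abel]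
      exact ih _ _

lemma Dp_fl {T : ℕ} (Q : List (Pc h T)) : Dp z (fl h Q) = Dp (fun P : Pc h T => Dp z P.1) Q := by
  induction Q with
  | nil => simp [fl_nil, Dp]
  | cons P Q ih => rw [fl_cons, Dp_append, Dp_cons, ih]

end traces

section window

variable {BX BY G : Type*} [AddCommGroup G] (hX : BX → ℕ) (hY : BY → ℕ) (zX : BX → G) (zY : BY → G)
  (sX : BX → Set (G × ℕ)) (sY : BY → Set (G × ℕ))

/-- event: the two placed lists have a contact, and all contacts have depth in `[lo, hi]` -/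
def ev (lo hi a a' : ℕ) (δ : G) (L : List BX) (L' : List BY) : Prop :=
  (∃ y k, (y, k) ∈ TT sX zX hX L 0 a ∧ (y, k) ∈ TT sY zY hY L' δ a') ∧
  (∀ y k, (y, k) ∈ TT sX zX hX L 0 a → (y, k) ∈ TT sY zY hY L' δ a' → lo ≤ k ∧ k ≤ hi)

lemma sum_ok {B : Type*} (ht : B → ℕ) {T i0 : ℕ} (Q : List (Pc ht T))
    (ok : ∀ P ∈ Q, hP ht T P ≤ T + i0) :
    Q.length * T ≤ HT ht (fl ht Q) ∧ HT ht (fl ht Q) ≤ Q.length * (T + i0) := by
  induction Q with
  | nil => simp [fl_nil, HT_nil]
  | cons P Q ih =>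
    have h1 := ih (fun P' h => ok P' (List.mem_cons_of_mem _ h))
    have h2 := ok P List.mem_cons_self
    have h3 := le_hP ht P
    rw [fl_cons, HT_append, List.length_cons]
    have e : hP ht T P = HT ht P.1 := rfl
    constructor
    · have : (Q.length + 1) * T = Q.length * T + T := by ring
      omega
    · have : (Q.length + 1) * (T + i0) = Q.length * (T + i0) + (T + i0) := by ring
      omega

lemma split_at {A : Type*} (Q : List A) (j : ℕ) (hj : j < Q.length) :
    ∃ Q1 P Q2, Q = Q1 ++ P :: Q2 ∧ Q1.length = j := by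
  refine ⟨Q.take j, Q[j], Q.drop (j + 1), ?_, by simp; omega⟩
  rw [← List.drop_eq_getElem_cons hj, List.take_append_drop]

/-- a contact outside the slabs sits in one window -/
theorem find_window (hsX : ∀ b q, q ∈ sX b → 1 ≤ q.2 ∧ q.2 ≤ hX b)
    (hsY : ∀ b q, q ∈ sY b → 1 ≤ q.2 ∧ q.2 ≤ hY b)
    {T i0 J j0 m s : ℕ} (hT : s ≤ T) (hT1 : 1 ≤ T) (hJ : 2 * m ≤ J * T) (hj0 : j0 * T ≤ m) (w : G)
    (Q : List (Pc hX T)) (Q' : List (Pc hY T)) (R : List BX) (R' : List BY)
    (hQ : Q.length = J) (hQ' : Q'.length = J)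
    (ok : ∀ P ∈ Q, hP hX T P ≤ T + i0) (ok' : ∀ P ∈ Q', hP hY T P ≤ T + i0)
    (hc : ∃ y k, (y, k) ∈ TT sX zX hX (fl hX Q ++ R) 0 0 ∧ (y, k) ∈ TT sY zY hY (fl hY Q' ++ R') w 0 ∧
      m < k ∧ k ≤ 2 * m)
    (hn : ∀ j, j0 ≤ j → j ≤ J → ∀ y k, (y, k) ∈ TT sX zX hX (fl hX Q ++ R) 0 0 →
      (y, k) ∈ TT sY zY hY (fl hY Q' ++ R') w 0 → ¬ (j * T ≤ k + s ∧ k ≤ j * T + J * i0 + s)) :
    ∃ j, j0 ≤ j ∧ j < J ∧ ∃ Q1 P Q2 Q1' P' Q2', Q = Q1 ++ P :: Q2 ∧ Q1.length = j ∧
      Q' = Q1' ++ P' :: Q2' ∧ Q1'.length = j ∧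
      ev hX hY zX zY sX sY (j * T + J * i0 + s) ((j + 1) * T - s) (HT hX (fl hX Q1))
        (HT hY (fl hY Q1')) (w + Dp zY (fl hY Q1') - Dp zX (fl hX Q1)) P.1 P'.1 := by
  obtain ⟨y, k, hx, hy, hk1, hk2⟩ := hc
  -- the window index
  set j : ℕ := (k - 1) / T with hjdef
  have hk0 : 1 ≤ k := by omega
  have hdm := Nat.div_add_mod (k - 1) T
  have hml := Nat.mod_lt (k - 1) (by omega : 0 < T)
  have hjk : j * T < k := by
    have : T * ((k - 1) / T) = j * T := by rw [hjdef]; ring
    omega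
  have hjk2 : k ≤ (j + 1) * T := by
    have : T * ((k - 1) / T) = j * T := by rw [hjdef]; ring
    have h2 : (j + 1) * T = j * T + T := by ring
    omega
  have hjJ : j < J := by
    by_contra hcon
    have : J * T ≤ j * T := Nat.mul_le_mul_right _ (not_lt.1 hcon)
    omega
  have hj0j : j0 ≤ j := by
    by_contra hcon
    have : (j + 1) * T ≤ j0 * T := Nat.mul_le_mul_right _ (by omega)
    omega
  obtain ⟨Q1, P, Q2, hQe, hQl⟩ := split_at Q j (by omega)
  obtain ⟨Q1', P', Q2', hQe', hQl'⟩ := split_at Q' j (by omega)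
  refine ⟨j, hj0j, hjJ, Q1, P, Q2, Q1', P', Q2', hQe, hQl, hQe', hQl', ?_⟩
  -- heights
  have a1 := sum_ok hX Q1 (i0 := i0) (fun P0 h => ok P0 (by rw [hQe]; exact List.mem_append_left _ h))
  have a2 := sum_ok hY Q1' (i0 := i0) (fun P0 h => ok' P0 (by rw [hQe']; exact List.mem_append_left _ h))
  have b1 := le_hP hX P
  have b2 := le_hP hY P'
  have b3 := ok P (by rw [hQe]; simp)
  have b4 := ok' P' (by rw [hQe']; simp)
  rw [hQl] at a1
  rw [hQl'] at a2
  have eP : hP hX T P = HT hX P.1 := rfl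
  have eP' : hP hY T P' = HT hY P'.1 := rfl
  have hji : j * i0 ≤ J * i0 := Nat.mul_le_mul_right _ hjJ.le
  have hji2 : j * (T + i0) = j * T + j * i0 := by ring
  have hj1 : (j + 1) * T = j * T + T := by ring
  have hji3 : j * i0 + i0 ≤ J * i0 := by
    have : (j + 1) * i0 ≤ J * i0 := Nat.mul_le_mul_right _ hjJ
    have h2 : (j + 1) * i0 = j * i0 + i0 := by ring
    omega
  -- off the slabs
  have s1 := hn j hj0j hjJ.le
  have s2 := hn (j + 1) (by omega) hjJ
  -- membership in the whole lists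
  have memX : ∀ p, p ∈ TT sX zX hX P.1 (Dp zX (fl hX Q1)) (HT hX (fl hX Q1)) →
      p ∈ TT sX zX hX (fl hX Q ++ R) 0 0 := by
    intro p hp
    rw [hQe, fl_append, fl_cons, TT_append]
    left
    rw [TT_append]
    right
    rw [TT_append]
    left
    simpa using hp
  have memY : ∀ p, p ∈ TT sY zY hY P'.1 (w + Dp zY (fl hY Q1')) (HT hY (fl hY Q1')) →
      p ∈ TT sY zY hY (fl hY Q' ++ R') w 0 := by
    intro p hp
    rw [hQe', fl_append, fl_cons, TT_append]
    left
    rw [TT_append]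
    right
    rw [TT_append]
    left
    simpa using hp
  have backX : ∀ y k, (y, k) ∈ TT sX zX hX (fl hX Q ++ R) 0 0 → HT hX (fl hX Q1) < k →
      k ≤ HT hX (fl hX Q1) + HT hX P.1 →
      (y, k) ∈ TT sX zX hX P.1 (Dp zX (fl hX Q1)) (HT hX (fl hX Q1)) := by
    intro y k hm h1 h2
    rw [hQe, fl_append, fl_cons, TT_append, TT_append, TT_append] at hm
    rcases hm with (h | h | h) | h
    · have := TT_depth _ _ _ hsX _ _ _ _ h; simp only at this; omega
    · simpa using h
    · have := TT_depth _ _ _ hsX _ _ _ _ h; simp only at this; omega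
    · have := TT_depth _ _ _ hsX _ _ _ _ h
      simp only [HT_append] at this
      omega
  have backY : ∀ y k, (y, k) ∈ TT sY zY hY (fl hY Q' ++ R') w 0 → HT hY (fl hY Q1') < k →
      k ≤ HT hY (fl hY Q1') + HT hY P'.1 →
      (y, k) ∈ TT sY zY hY P'.1 (w + Dp zY (fl hY Q1')) (HT hY (fl hY Q1')) := by
    intro y k hm h1 h2
    rw [hQe', fl_append, fl_cons, TT_append, TT_append, TT_append] at hm
    rcases hm with (h | h | h) | h
    · have := TT_depth _ _ _ hsY _ _ _ _ h; simp only at this; omega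
    · simpa using h
    · have := TT_depth _ _ _ hsY _ _ _ _ h; simp only at this; omega
    · have := TT_depth _ _ _ hsY _ _ _ _ h
      simp only [HT_append] at this
      omega
  constructor
  · have hk3 := s1 y k hx hy
    have hk4 := s2 y k hx hy
    refine ⟨y - Dp zX (fl hX Q1), k, ?_, ?_⟩
    · have := backX y k hx (by omega) (by omega)
      rw [← TT_shift sX zX hX P.1 0 (Dp zX (fl hX Q1)), sub_add_cancel, zero_add]
      exact this
    · have := backY y k hy (by omega) (by omega)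
      rw [← TT_shift sY zY hY P'.1 _ (Dp zX (fl hX Q1)), sub_add_cancel, sub_add_cancel]
      exact this
  · intro y k h1 h2
    have h3 : (y + Dp zX (fl hX Q1), k) ∈ TT sX zX hX P.1 (Dp zX (fl hX Q1)) (HT hX (fl hX Q1)) := by
      have := (TT_shift sX zX hX P.1 0 (Dp zX (fl hX Q1)) y (HT hX (fl hX Q1)) k).2 h1
      rwa [zero_add] at this
    have h4 : (y + Dp zX (fl hX Q1), k) ∈ TT sY zY hY P'.1 (w + Dp zY (fl hY Q1'))
        (HT hY (fl hY Q1')) := by
      have := (TT_shift sY zY hY P'.1 _ (Dp zX (fl hX Q1)) y (HT hY (fl hY Q1')) k).2 h2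
      rwa [sub_add_cancel] at this
    have d1 := TT_depth _ _ _ hsX _ _ _ _ h3
    have k3 := s1 _ _ (memX _ h3) (memY _ h4)
    have k4 := s2 _ _ (memX _ h3) (memY _ h4)
    simp only at d1
    omega

end window

end Crest.Agent.R154.Asm648
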