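import Crest.Agent.R154.AsmP_703

/-! Row 154 (helper703), ROAD 801: the abstract assembly, part 2: one walker local. -/

set_option autoImplicit false

namespace Crest.Agent.R154.Asm703

open scoped ENNReal
open B5A Asm867

lemma class_le {ι κ : Type*} [DecidableEq κ] (f : ι → ℝ≥0∞) (cls : ι → κ) (F : Finset κ)
    (hF : ∀ x, f x ≠ 0 → cls x ∈ F) (R : ℝ≥0∞)
    (hR : ∀ c ∈ F, ∑' x, (if cls x = c then f x else 0) ≤ R) : ∑' x, f x ≤ F.card * R := by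
  have e : ∀ x, f x = ∑ c ∈ F, (if cls x = c then f x else 0) := by
    intro x
    by_cases hx : f x = 0
    · simp [hx]
    · rw [Finset.sum_ite_eq, if_pos (hF x hx)]
  calc ∑' x, f x = ∑' x, ∑ c ∈ F, (if cls x = c then f x else 0) := tsum_congr e
    _ = ∑ c ∈ F, ∑' x, (if cls x = c then f x else 0) := by
      rw [Summable.tsum_finsetSum (fun _ _ => ENNReal.summable)]
    _ ≤ ∑ _c ∈ F, R := Finset.sum_le_sum hR
    _ = F.card * R := by rw [Finset.sum_const, nsmul_eq_mul]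

lemma disint {ι κ : Type*} [DecidableEq κ] (g : ι → ℝ≥0∞) (D : ι → κ) (K : κ → ℝ≥0∞) :
    ∑' x, g x * K (D x) = ∑' δ, (∑' x, if D x = δ then g x else 0) * K δ := by
  simp_rw [← ENNReal.tsum_mul_right]
  rw [ENNReal.tsum_comm]
  refine tsum_congr fun x => ?_
  rw [tsum_eq_single (D x)]
  · rw [if_pos rfl]
  · intro δ hδ; rw [if_neg hδ.symm, zero_mul]

lemma prod4 {α β γ δ : Type*} (a : α → ℝ≥0∞) (b : β → ℝ≥0∞) (c : γ → ℝ≥0∞) (d : δ → ℝ≥0∞) :
    ∑' A, ∑' P, ∑' A', ∑' P', a A * b P * (c A' * d P')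
      = (∑' A, a A) * (∑' P, b P) * ((∑' A', c A') * ∑' P', d P') := by
  simp only [ENNReal.tsum_mul_left, ENNReal.tsum_mul_right]

lemma to_prod {α β γ δ : Type*} (f : α → β → γ → δ → ℝ≥0∞) :
    ∑' A, ∑' P, ∑' A', ∑' P', f A P A' P'
      = ∑' x : (α × β) × (γ × δ), f x.1.1 x.1.2 x.2.1 x.2.2 := by
  rw [ENNReal.tsum_prod' (f := fun x : (α × β) × (γ × δ) => f x.1.1 x.1.2 x.2.1 x.2.2)]
  rw [ENNReal.tsum_prod' (f := fun x : α × β => ∑' y : γ × δ, f x.1 x.2 y.1 y.2)]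
  refine tsum_congr fun A => tsum_congr fun P => ?_
  rw [ENNReal.tsum_prod' (f := fun x : γ × δ => f A P x.1 x.2)]

section local1

variable {B1 B2 : Type*} {G : Type*} [AddCommGroup G] (Λ1 : B1 → ℝ≥0∞) (Λ2 : B2 → ℝ≥0∞)
  (h1 : B1 → ℕ) (h2 : B2 → ℕ) (z1 : B1 → G) (z2 : B2 → G)

open Classical in
theorem LS (p1 : ∀ b, 1 ≤ h1 b) (hΛ1 : ∑' b, Λ1 b ≤ 1) (hU1 : ∀ n, U Λ1 h1 n ≤ 1)
    (p2 : ∀ b, 1 ≤ h2 b) (hΛ2 : ∑' b, Λ2 b ≤ 1)
    (a0 T a0' T' i0 J : ℕ) (θ th qq Cd : ℝ≥0∞) (hθ : θ ≠ 0) (hq1 : qq ≤ 1)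
    (hqq : ∑' L : List B1, (if FP h1 T L ∧ ¬ pT Λ1 h1 z1 T (HT h1 L) (Dp z1 L) < th
      then LW Λ1 L else 0) ≤ qq)
    (hCd : ((i0 + 1 : ℕ) : ℝ≥0∞) * th + qq * Cd ≤ Cd)
    (hJ : J * (T + i0) ≤ a0)
    (q : ℕ → ℕ → List B1 → List B2 → G → Prop) (w : G) (Rh : ℝ≥0∞)
    (HK : ∀ a a' h h' : ℕ, a0 ≤ a → a ≤ a0 + i0 → a0' ≤ a' → a' ≤ a0' + i0 → T ≤ h →
      h ≤ T + i0 → T' ≤ h' → h' ≤ T' + i0 →
      ∀ (E : Finset G) (μ : G → ℝ≥0∞), (E.card : ℝ≥0∞) * θ ≤ 1 → ∑' x, μ x ≤ 1 →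
      (∀ x, μ x ≤ Cd) →
      ∑' δ, μ δ * ∑' P, ∑' P', (if HT h1 P = h ∧ Dp z1 P ∈ E ∧ HT h2 P' = h' ∧ q a a' P P' δ
        then LW Λ1 P * LW Λ2 P' else 0) ≤ Rh) :
    ∑' A, ∑' P, ∑' A', ∑' P', (if (Sp h1 a0 T i0 A P ∧ Sp h2 a0' T' i0 A' P') ∧
        (θ ≤ pT Λ1 h1 z1 T (HT h1 P) (Dp z1 P) ∧
        q (HT h1 A) (HT h2 A') P P' (w + (Dp z2 A' - Dp z1 A)))
        then LW Λ1 A * LW Λ1 P * (LW Λ2 A' * LW Λ2 P') else 0)
      ≤ (qq ^ J + J * ∑' k, tail Λ1 h1 (i0 + k)) + ((i0 + 1 : ℕ) : ℝ≥0∞) ^ 4 * Rh := by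
  -- split by the quality of `A`
  have hsplit : ∀ A P A' P', (if (Sp h1 a0 T i0 A P ∧ Sp h2 a0' T' i0 A' P') ∧
        (θ ≤ pT Λ1 h1 z1 T (HT h1 P) (Dp z1 P) ∧
        q (HT h1 A) (HT h2 A') P P' (w + (Dp z2 A' - Dp z1 A)))
        then LW Λ1 A * LW Λ1 P * (LW Λ2 A' * LW Λ2 P') else 0)
      ≤ (if FP h1 a0 A ∧ ¬ Good Λ1 h1 z1 T i0 th J A then LW Λ1 A else 0)
          * (if FP h1 T P then LW Λ1 P else 0)
          * ((if FP h2 a0' A' then LW Λ2 A' else 0) * (if FP h2 T' P' then LW Λ2 P' else 0))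
        + (if Good Λ1 h1 z1 T i0 th J A ∧ (Sp h1 a0 T i0 A P ∧ Sp h2 a0' T' i0 A' P') ∧
        (θ ≤ pT Λ1 h1 z1 T (HT h1 P) (Dp z1 P) ∧
        q (HT h1 A) (HT h2 A') P P' (w + (Dp z2 A' - Dp z1 A)))
        then LW Λ1 A * LW Λ1 P * (LW Λ2 A' * LW Λ2 P') else 0) := by
    intro A P A' P'
    by_cases h : (Sp h1 a0 T i0 A P ∧ Sp h2 a0' T' i0 A' P') ∧
        (θ ≤ pT Λ1 h1 z1 T (HT h1 P) (Dp z1 P) ∧
        q (HT h1 A) (HT h2 A') P P' (w + (Dp z2 A' - Dp z1 A)))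
    · by_cases hg : Good Λ1 h1 z1 T i0 th J A
      · have hgh : Good Λ1 h1 z1 T i0 th J A ∧ (Sp h1 a0 T i0 A P ∧ Sp h2 a0' T' i0 A' P') ∧
          (θ ≤ pT Λ1 h1 z1 T (HT h1 P) (Dp z1 P) ∧
          q (HT h1 A) (HT h2 A') P P' (w + (Dp z2 A' - Dp z1 A))) := ⟨hg, h⟩
        rw [if_pos h, if_pos hgh]; exact le_add_self
      · rw [if_pos h, if_pos ⟨h.1.1.1.1, hg⟩, if_pos h.1.1.2.1, if_pos h.1.2.1.1,
          if_pos h.1.2.2.1]
        exact le_self_add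
    · rw [if_neg h]; exact zero_le
  refine (ENNReal.tsum_le_tsum fun A => ENNReal.tsum_le_tsum fun P =>
    ENNReal.tsum_le_tsum fun A' => ENNReal.tsum_le_tsum fun P' => hsplit A P A' P').trans ?_
  simp only [ENNReal.tsum_add]
  rw [prod4]
  refine add_le_add ?_ ?_
  · calc _ ≤ (qq ^ J + J * ∑' k, tail Λ1 h1 (i0 + k)) * 1 * (1 * 1) := by
          gcongr
          · exact bad_le Λ1 h1 z1 p1 hΛ1 T i0 th qq _ hq1 (ovr Λ1 h1 p1 hU1 i0 T) hqq J a0 hJ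
          · exact FP_mass Λ1 h1 p1 hΛ1 T
          · exact FP_mass Λ2 h2 p2 hΛ2 a0'
          · exact FP_mass Λ2 h2 p2 hΛ2 T'
      _ = _ := by ring
  -- good part
  rw [to_prod (fun A P A' P' => (if Good Λ1 h1 z1 T i0 th J A ∧
        (Sp h1 a0 T i0 A P ∧ Sp h2 a0' T' i0 A' P') ∧
        (θ ≤ pT Λ1 h1 z1 T (HT h1 P) (Dp z1 P) ∧
        q (HT h1 A) (HT h2 A') P P' (w + (Dp z2 A' - Dp z1 A)))
        then LW Λ1 A * LW Λ1 P * (LW Λ2 A' * LW Λ2 P') else 0))]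
  set F : Finset (ℕ × ℕ × ℕ × ℕ) := Finset.Icc a0 (a0 + i0) ×ˢ Finset.Icc T (T + i0) ×ˢ
    Finset.Icc a0' (a0' + i0) ×ˢ Finset.Icc T' (T' + i0) with hF
  have hcard : ((F.card : ℕ) : ℝ≥0∞) = ((i0 + 1 : ℕ) : ℝ≥0∞) ^ 4 := by
    have : F.card = (i0 + 1) ^ 4 := by
      simp only [hF, Finset.card_product, Nat.card_Icc]
      rw [show a0 + i0 + 1 - a0 = i0 + 1 by omega, show T + i0 + 1 - T = i0 + 1 by omega,
        show a0' + i0 + 1 - a0' = i0 + 1 by omega, show T' + i0 + 1 - T' = i0 + 1 by omega]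
      ring
    rw [this]; push_cast; ring
  rw [← hcard]
  refine class_le _ (fun x : (List B1 × List B1) × (List B2 × List B2) =>
    (HT h1 x.1.1, HT h1 x.1.2, HT h2 x.2.1, HT h2 x.2.2)) F ?_ Rh ?_
  · rintro ⟨⟨A, P⟩, ⟨A', P'⟩⟩ hx
    have hx' : Good Λ1 h1 z1 T i0 th J A ∧ (Sp h1 a0 T i0 A P ∧ Sp h2 a0' T' i0 A' P') ∧
        (θ ≤ pT Λ1 h1 z1 T (HT h1 P) (Dp z1 P) ∧
        q (HT h1 A) (HT h2 A') P P' (w + (Dp z2 A' - Dp z1 A))) := by
      by_contra h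
      exact hx (by simp only; rw [if_neg h])
    obtain ⟨-, ⟨⟨⟨a1, a2⟩, ⟨a3, a4⟩⟩, ⟨⟨a5, a6⟩, ⟨a7, a8⟩⟩⟩, -⟩ := hx'
    simp only [hF, Finset.mem_product, Finset.mem_Icc]
    exact ⟨⟨a1.1, a2⟩, ⟨a3.1, a4⟩, ⟨a5.1, a6⟩, ⟨a7.1, a8⟩⟩
  · rintro ⟨a, h, a', h'⟩ hc
    simp only [hF, Finset.mem_product, Finset.mem_Icc] at hc
    obtain ⟨⟨c1, c2⟩, ⟨c3, c4⟩, ⟨c5, c6⟩, ⟨c7, c8⟩⟩ := hc
    -- the local set
    have hpm : ∑' y, pT Λ1 h1 z1 T h y ≤ 1 := by
      simp only [pT]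
      rw [ENNReal.tsum_comm]
      refine le_trans (ENNReal.tsum_le_tsum fun L => ?_) (FP_mass Λ1 h1 p1 hΛ1 T)
      rw [tsum_eq_single (Dp z1 L)]
      · by_cases hL : FP h1 T L
        · rw [if_pos hL]; split_ifs <;> simp
        · rw [if_neg (fun h => hL h.1), if_neg hL]
      · intro y hy; rw [if_neg (fun h => hy h.2.2.symm)]
    obtain ⟨hfin, hcd⟩ := AsmA789.card_le (fun y => pT Λ1 h1 z1 T h y) hpm hθ
    set E : Finset G := hfin.toFinset with hE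
    have hEc : (E.card : ℝ≥0∞) * θ ≤ 1 := by
      rw [hE, ← Set.ncard_eq_toFinset_card _ hfin]; exact hcd
    set K : G → ℝ≥0∞ := fun δ => ∑' P, ∑' P', (if HT h1 P = h ∧ Dp z1 P ∈ E ∧ HT h2 P' = h' ∧
      q a a' P P' δ then LW Λ1 P * LW Λ2 P' else 0) with hK
    set g : List B1 × List B2 → ℝ≥0∞ := fun x =>
      (if FP h1 a0 x.1 ∧ Good Λ1 h1 z1 T i0 th J x.1 ∧ HT h1 x.1 = a then LW Λ1 x.1 else 0)
      * (if FP h2 a0' x.2 ∧ HT h2 x.2 = a' then LW Λ2 x.2 else 0) with hg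
    set D : List B1 × List B2 → G := fun x => w + (Dp z2 x.2 - Dp z1 x.1) with hD
    have hmain : (∑' x : (List B1 × List B1) × (List B2 × List B2),
        (if (HT h1 x.1.1, HT h1 x.1.2, HT h2 x.2.1, HT h2 x.2.2) = (a, h, a', h') then
        (if Good Λ1 h1 z1 T i0 th J x.1.1 ∧
        (Sp h1 a0 T i0 x.1.1 x.1.2 ∧ Sp h2 a0' T' i0 x.2.1 x.2.2) ∧
        (θ ≤ pT Λ1 h1 z1 T (HT h1 x.1.2) (Dp z1 x.1.2) ∧
        q (HT h1 x.1.1) (HT h2 x.2.1) x.1.2 x.2.2 (w + (Dp z2 x.2.1 - Dp z1 x.1.1)))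
        then LW Λ1 x.1.1 * LW Λ1 x.1.2 * (LW Λ2 x.2.1 * LW Λ2 x.2.2) else 0) else 0))
        ≤ ∑' x : List B1 × List B2, g x * K (D x) := by
      rw [← to_prod (fun A P A' P' => (if (HT h1 A, HT h1 P, HT h2 A', HT h2 P') = (a, h, a', h')
        then (if Good Λ1 h1 z1 T i0 th J A ∧
        (Sp h1 a0 T i0 A P ∧ Sp h2 a0' T' i0 A' P') ∧
        (θ ≤ pT Λ1 h1 z1 T (HT h1 P) (Dp z1 P) ∧
        q (HT h1 A) (HT h2 A') P P' (w + (Dp z2 A' - Dp z1 A)))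
        then LW Λ1 A * LW Λ1 P * (LW Λ2 A' * LW Λ2 P') else 0) else 0))]
      rw [ENNReal.tsum_prod' (f := fun x : List B1 × List B2 => g x * K (D x))]
      refine ENNReal.tsum_le_tsum fun A => ?_
      rw [ENNReal.tsum_comm]
      refine ENNReal.tsum_le_tsum fun A' => ?_
      simp only [hK]
      rw [← ENNReal.tsum_mul_left]
      refine ENNReal.tsum_le_tsum fun P => ?_
      rw [← ENNReal.tsum_mul_left]
      refine ENNReal.tsum_le_tsum fun P' => ?_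
      by_cases hcl : (HT h1 A, HT h1 P, HT h2 A', HT h2 P') = (a, h, a', h')
      · rw [if_pos hcl]
        simp only [Prod.mk.injEq] at hcl
        obtain ⟨e1, e2, e3, e4⟩ := hcl
        by_cases hc : Good Λ1 h1 z1 T i0 th J A ∧
          (Sp h1 a0 T i0 A P ∧ Sp h2 a0' T' i0 A' P') ∧
          (θ ≤ pT Λ1 h1 z1 T (HT h1 P) (Dp z1 P) ∧
          q (HT h1 A) (HT h2 A') P P' (w + (Dp z2 A' - Dp z1 A)))
        · rw [if_pos hc]
          simp only [hg, hD]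
          rw [if_pos ⟨hc.2.1.1.1.1, hc.1, e1⟩, if_pos ⟨hc.2.1.2.1.1, e3⟩, if_pos]
          · exact le_of_eq (by ring)
          · refine ⟨e2, ?_, e4, ?_⟩
            · rw [hE, Set.Finite.mem_toFinset]
              have := hc.2.2.1
              rw [e2] at this
              exact this
            · have := hc.2.2.2
              rw [e1, e3] at this
              exact this
        · rw [if_neg hc]; exact zero_le
      · rw [if_neg hcl]; exact zero_le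
    refine hmain.trans ?_
    rw [disint g D K]
    refine HK a a' h h' c1 c2 c5 c6 c3 c4 c7 c8 E _ hEc ?_ ?_
    · have := disint g D (fun _ => 1)
      simp only [mul_one] at this
      rw [← this, ENNReal.tsum_prod' (f := g)]
      simp only [hg, ENNReal.tsum_mul_left, ENNReal.tsum_mul_right]
      calc _ ≤ (∑' L, if FP h1 a0 L then LW Λ1 L else 0) *
            (∑' L, if FP h2 a0' L then LW Λ2 L else 0) := by
            gcongr with A A'
            · by_cases h : FP h1 a0 A ∧ Good Λ1 h1 z1 T i0 th J A ∧ HT h1 A = a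
              · rw [if_pos h, if_pos h.1]
              · rw [if_neg h]; exact zero_le
            · by_cases h : FP h2 a0' A' ∧ HT h2 A' = a'
              · rw [if_pos h, if_pos h.1]
              · rw [if_neg h]; exact zero_le
        _ ≤ 1 * 1 := by
            gcongr
            · exact FP_mass Λ1 h1 p1 hΛ1 a0
            · exact FP_mass Λ2 h2 p2 hΛ2 a0'
        _ = 1 := one_mul 1
    · intro δ
      rw [ENNReal.tsum_prod' (f := fun x => if D x = δ then g x else 0), ENNReal.tsum_comm]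
      calc ∑' A', ∑' A, (if D (A, A') = δ then g (A, A') else 0)
          ≤ ∑' A', (if FP h2 a0' A' then LW Λ2 A' else 0) * Cd := by
            refine ENNReal.tsum_le_tsum fun A' => ?_
            have hgl := good_le Λ1 h1 z1 p1 hΛ1 T i0 th qq Cd hqq hCd J a0 a
              (w + Dp z2 A' - δ)
            refine le_trans (ENNReal.tsum_le_tsum fun A => ?_)
              (le_trans (le_of_eq (ENNReal.tsum_mul_left
                (a := if FP h2 a0' A' then LW Λ2 A' else 0)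
                (f := fun L => if FP h1 a0 L ∧ Good Λ1 h1 z1 T i0 th J L ∧ HT h1 L = a ∧
                  Dp z1 L = w + Dp z2 A' - δ then LW Λ1 L else 0)))
                (mul_le_mul_right hgl _))
            by_cases hDx : D (A, A') = δ
            · rw [if_pos hDx]
              simp only [hD] at hDx
              simp only [hg]
              by_cases hA : FP h1 a0 A ∧ Good Λ1 h1 z1 T i0 th J A ∧ HT h1 A = a
              · have hA4 : FP h1 a0 A ∧ Good Λ1 h1 z1 T i0 th J A ∧ HT h1 A = a ∧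
                    Dp z1 A = w + Dp z2 A' - δ := ⟨hA.1, hA.2.1, hA.2.2, by rw [← hDx]; abel⟩
                rw [if_pos hA, if_pos hA4]
                by_cases hA' : FP h2 a0' A'
                · rw [if_pos hA']
                  by_cases hh : FP h2 a0' A' ∧ HT h2 A' = a'
                  · rw [if_pos hh, mul_comm]
                  · rw [if_neg hh, mul_zero]; exact zero_le
                · rw [if_neg (fun h => hA' h.1), mul_zero]; exact zero_le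
              · rw [if_neg hA, zero_mul]; exact zero_le
            · rw [if_neg hDx]; exact zero_le
        _ = (∑' A', if FP h2 a0' A' then LW Λ2 A' else 0) * Cd := ENNReal.tsum_mul_right
        _ ≤ 1 * Cd := mul_le_mul_left (FP_mass Λ2 h2 p2 hΛ2 a0') _
        _ = Cd := one_mul _

end local1

end Crest.Agent.R154.Asm703
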