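import Crest.Agent.R154.AsmP_740

/-! Row 154 (helper740), ROAD 801, assembly, part 2: one window. -/

set_option autoImplicit false
set_option linter.unusedSectionVars false
set_option linter.unusedSimpArgs false

namespace Crest.Agent.R154.AsmP740

open scoped ENNReal
open Crest.Agent.R154.B5A Crest.Agent.R154.FP178

/-- sites read by a list of blocks, with depth -/
def TT {B G : Type*} [Add G] (s : B → Set (G × ℕ)) (z : B → G) (h : B → ℕ) :
    List B → G → ℕ → Set (G × ℕ)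
  | [], _, _ => ∅
  | b :: L, x, a => {p | ∃ q ∈ s b, p = (x + q.1, a + q.2)} ∪ TT s z h L (x + z b) (a + h b)

section TT

variable {B G : Type*} [AddCommGroup G] (s : B → Set (G × ℕ)) (z : B → G) (h : B → ℕ)

lemma TT_append (L L' : List B) (x : G) (a : ℕ) :
    TT s z h (L ++ L') x a = TT s z h L x a ∪ TT s z h L' (x + Dp z L) (a + HT h L) := by
  induction L generalizing x a with
  | nil => simp [TT, Dp, HT]
  | cons b L ih =>
    have e1 : Dp z (b :: L) = z b + Dp z L := by simp [Dp]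
    simp only [List.cons_append, TT, ih, HT_cons, e1, Set.union_assoc, add_assoc]

lemma TT_depth (hs : ∀ b, ∀ q ∈ s b, 1 ≤ q.2 ∧ q.2 ≤ h b) (L : List B) (x : G) (a : ℕ) (y : G)
    (k : ℕ) (hk : (y, k) ∈ TT s z h L x a) : a < k ∧ k ≤ a + HT h L := by
  induction L generalizing x a with
  | nil => simp [TT] at hk
  | cons b L ih =>
    rw [HT_cons]
    rcases hk with ⟨q, hq, e⟩ | hk
    · have h1 := hs b q hq
      have h2 : k = a + q.2 := (Prod.mk.inj e).2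
      omega
    · have := ih _ _ hk
      omega

lemma TT_shift (L : List B) (x v : G) (a : ℕ) (y : G) (k : ℕ) :
    (y, k) ∈ TT s z h L (x + v) a ↔ (y - v, k) ∈ TT s z h L x a := by
  induction L generalizing x a with
  | nil => simp [TT]
  | cons b L ih =>
    simp only [TT, Set.mem_union, Set.mem_ofPred_eq]
    refine or_congr ?_ ?_
    · constructor
      · rintro ⟨q, hq, e⟩
        have h1 := (Prod.mk.inj e).1
        have h2 := (Prod.mk.inj e).2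
        exact ⟨q, hq, by rw [h1, h2]; congr 1; abel⟩
      · rintro ⟨q, hq, e⟩
        have h1 := (Prod.mk.inj e).1
        have h2 := (Prod.mk.inj e).2
        refine ⟨q, hq, ?_⟩
        rw [h2, ← sub_add_cancel y v, h1]
        congr 1; abel
    · rw [show x + v + z b = (x + z b) + v by abel]
      exact ih _ _

end TT

section window

variable {BX BY G : Type*} [AddCommGroup G]
variable (ΛX : BX → ℝ≥0∞) (hX : BX → ℕ) (zX : BX → G) (sX : BX → Set (G × ℕ))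
variable (ΛY : BY → ℝ≥0∞) (hY : BY → ℕ) (zY : BY → G) (sY : BY → Set (G × ℕ))

/-- contact of the two pieces, all contacts at depths in `[lo, hi]` -/
def Ev (lo hi : ℕ) (P : List BX) (P' : List BY) (x : G) (a a' : ℕ) : Prop :=
  (∃ y k, (y, k) ∈ TT sX zX hX P 0 a ∧ (y, k) ∈ TT sY zY hY P' x a') ∧
    ∀ y k, (y, k) ∈ TT sX zX hX P 0 a → (y, k) ∈ TT sY zY hY P' x a' → lo ≤ k ∧ k ≤ hi

open Classical in
/-- exact height sum -/
noncomputable def V2 (lo hi a a' h h' : ℕ) (E : Finset G) (x : G) : ℝ≥0∞ :=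
  ∑' L : List BX, ∑' L' : List BY, (if HT hX L = h ∧ Dp zX L ∈ E ∧ HT hY L' = h' ∧
    Ev hX zX sX hY zY sY lo hi L L' x a a' then LW ΛX L * LW ΛY L' else 0)

open Classical in
noncomputable def V3 (lo hi a a' h h' : ℕ) (E : Finset G) (x : G) : ℝ≥0∞ :=
  ∑' L : List BX, ∑' L' : List BY, (if HT hX L = h ∧ Dp zY L' ∈ E ∧ HT hY L' = h' ∧
    Ev hX zX sX hY zY sY lo hi L L' x a a' then LW ΛX L * LW ΛY L' else 0)

open Classical in
/-- sum over the two pieces -/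
noncomputable def Ph2 (lo hi : ℕ) (qX : List BX → ℝ≥0∞) (qY : List BY → ℝ≥0∞)
    (R : List BX → List BY → Prop) (a a' : ℕ) (x : G) : ℝ≥0∞ :=
  ∑' P : List BX, ∑' P' : List BY, (if R P P' ∧ Ev hX zX sX hY zY sY lo hi P P' x a a'
    then qX P * qY P' else 0)

open Classical in
lemma ph2_le_one (lo hi : ℕ) (qX : List BX → ℝ≥0∞) (qY : List BY → ℝ≥0∞)
    (hqX : ∑' P, qX P ≤ 1) (hqY : ∑' P, qY P ≤ 1) (R : List BX → List BY → Prop) (a a' : ℕ)
    (x : G) : Ph2 hX zX sX hY zY sY lo hi qX qY R a a' x ≤ 1 := by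
  unfold Ph2
  calc _ ≤ ∑' P : List BX, ∑' P' : List BY, qX P * qY P' :=
        ENNReal.tsum_le_tsum fun P => ENNReal.tsum_le_tsum fun P' => by split_ifs <;> simp
    _ = ∑' P : List BX, qX P * ∑' P' : List BY, qY P' := by simp_rw [ENNReal.tsum_mul_left]
    _ = (∑' P : List BX, qX P) * ∑' P' : List BY, qY P' := ENNReal.tsum_mul_right
    _ ≤ 1 * 1 := mul_le_mul' hqX hqY
    _ = 1 := one_mul 1

/-- the weighted sum over the tops -/
noncomputable def WW (IA IA' : Finset ℕ) (SX SY : ℕ → G → ℝ≥0∞) (Φ : ℕ → ℕ → G → ℝ≥0∞) :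
    ℝ≥0∞ :=
  ∑ a ∈ IA, ∑' z, SX a z * ∑ a' ∈ IA', ∑' z', SY a' z' * Φ a a' (z' - z)

lemma ww_mono {IA IA' : Finset ℕ} {SX SX' SY SY' : ℕ → G → ℝ≥0∞} {Φ Φ' : ℕ → ℕ → G → ℝ≥0∞}
    (h1 : ∀ a z, SX a z ≤ SX' a z) (h2 : ∀ a z, SY a z ≤ SY' a z)
    (h3 : ∀ a a' x, Φ a a' x ≤ Φ' a a' x) : WW IA IA' SX SY Φ ≤ WW IA IA' SX' SY' Φ' :=
  Finset.sum_le_sum fun a _ => ENNReal.tsum_le_tsum fun z => mul_le_mul' (h1 a z)
    (Finset.sum_le_sum fun a' _ => ENNReal.tsum_le_tsum fun z' => mul_le_mul' (h2 a' z') (h3 _ _ _))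

lemma ww_add_left (IA IA' : Finset ℕ) (SX SX' SY : ℕ → G → ℝ≥0∞) (Φ : ℕ → ℕ → G → ℝ≥0∞) :
    WW IA IA' (fun a z => SX a z + SX' a z) SY Φ = WW IA IA' SX SY Φ + WW IA IA' SX' SY Φ := by
  unfold WW
  rw [← Finset.sum_add_distrib]
  refine Finset.sum_congr rfl fun a _ => ?_
  rw [← ENNReal.tsum_add]
  exact tsum_congr fun z => by rw [add_mul]

lemma ww_add_right (IA IA' : Finset ℕ) (SX SY SY' : ℕ → G → ℝ≥0∞) (Φ : ℕ → ℕ → G → ℝ≥0∞) :
    WW IA IA' SX (fun a z => SY a z + SY' a z) Φ = WW IA IA' SX SY Φ + WW IA IA' SX SY' Φ := by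
  unfold WW
  rw [← Finset.sum_add_distrib]
  refine Finset.sum_congr rfl fun a _ => ?_
  rw [← ENNReal.tsum_add]
  refine tsum_congr fun z => ?_
  rw [← mul_add, ← Finset.sum_add_distrib]
  congr 1
  refine Finset.sum_congr rfl fun a' _ => ?_
  rw [← ENNReal.tsum_add]
  exact tsum_congr fun z' => by rw [add_mul]

lemma ww_le (IA IA' : Finset ℕ) (SX SY : ℕ → G → ℝ≥0∞) (Φ : ℕ → ℕ → G → ℝ≥0∞) (c bX bY : ℝ≥0∞)
    (hΦ : ∀ a a' x, Φ a a' x ≤ c) (hSX : ∑ a ∈ IA, ∑' z, SX a z ≤ bX)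
    (hSY : ∑ a ∈ IA', ∑' z, SY a z ≤ bY) : WW IA IA' SX SY Φ ≤ bX * (bY * c) := by
  calc WW IA IA' SX SY Φ ≤ WW IA IA' SX SY (fun _ _ _ => c) :=
        ww_mono (fun _ _ => le_rfl) (fun _ _ => le_rfl) hΦ
    _ = (∑ a ∈ IA, ∑' z, SX a z) * ((∑ a ∈ IA', ∑' z, SY a z) * c) := by
        unfold WW
        simp only [ENNReal.tsum_mul_right, ← Finset.sum_mul]
    _ ≤ _ := mul_le_mul' hSX (mul_le_mul_left hSY _)

/-- the law of the difference -/
lemma ww_conv (IA IA' : Finset ℕ) (SX SY : ℕ → G → ℝ≥0∞) (Φ : ℕ → ℕ → G → ℝ≥0∞) :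
    WW IA IA' SX SY Φ
      = ∑ a ∈ IA, ∑ a' ∈ IA', ∑' x, (∑' z, SX a z * SY a' (z + x)) * Φ a a' x := by
  unfold WW
  refine Finset.sum_congr rfl fun a _ => ?_
  have e1 : ∀ z, SX a z * ∑ a' ∈ IA', ∑' z', SY a' z' * Φ a a' (z' - z)
      = ∑ a' ∈ IA', ∑' x, SX a z * SY a' (z + x) * Φ a a' x := by
    intro z
    rw [Finset.mul_sum]
    refine Finset.sum_congr rfl fun a' _ => ?_
    rw [← (Equiv.addLeft z).tsum_eq (fun z' => SY a' z' * Φ a a' (z' - z)),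
      ← ENNReal.tsum_mul_left]
    refine tsum_congr fun x => ?_
    simp only [Equiv.coe_addLeft, add_sub_cancel_left]
    rw [mul_assoc]
  rw [tsum_congr e1, Summable.tsum_finsetSum (fun _ _ => ENNReal.summable)]
  refine Finset.sum_congr rfl fun a' _ => ?_
  rw [ENNReal.tsum_comm]
  refine tsum_congr fun x => ?_
  rw [ENNReal.tsum_mul_right]

open Classical in
lemma ph_le_V2 (lo hi : ℕ) (qX : List BX → ℝ≥0∞) (qY : List BY → ℝ≥0∞) (IH IH' : Finset ℕ)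
    (hqX : ∀ P, qX P ≠ 0 → HT hX P ∈ IH) (hqX' : ∀ P, qX P ≤ LW ΛX P)
    (hqY : ∀ P, qY P ≠ 0 → HT hY P ∈ IH') (hqY' : ∀ P, qY P ≤ LW ΛY P)
    (EX : ℕ → Finset G) (a a' : ℕ) (x : G) :
    Ph2 hX zX sX hY zY sY lo hi qX qY (fun P _ => Dp zX P ∈ EX (HT hX P)) a a' x
      ≤ ∑ h ∈ IH, ∑ h' ∈ IH', V2 ΛX hX zX sX ΛY hY zY sY lo hi a a' h h' (EX h) x := by
  unfold Ph2 V2
  have e1 : ∑ h ∈ IH, ∑ h' ∈ IH', ∑' L : List BX, ∑' L' : List BY,
      (if HT hX L = h ∧ Dp zX L ∈ EX h ∧ HT hY L' = h' ∧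
        Ev hX zX sX hY zY sY lo hi L L' x a a' then LW ΛX L * LW ΛY L' else 0)
      = ∑' L : List BX, ∑' L' : List BY, ∑ h ∈ IH, ∑ h' ∈ IH',
      (if HT hX L = h ∧ Dp zX L ∈ EX h ∧ HT hY L' = h' ∧
        Ev hX zX sX hY zY sY lo hi L L' x a a' then LW ΛX L * LW ΛY L' else 0) := by
    simp_rw [Summable.tsum_finsetSum (fun _ _ => ENNReal.summable)]
  rw [e1]
  refine ENNReal.tsum_le_tsum fun P => ENNReal.tsum_le_tsum fun P' => ?_
  by_cases hc : Dp zX P ∈ EX (HT hX P) ∧ Ev hX zX sX hY zY sY lo hi P P' x a a'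
  · rw [if_pos hc]
    by_cases h0 : qX P = 0
    · rw [h0, zero_mul]; exact zero_le
    by_cases h0' : qY P' = 0
    · rw [h0', mul_zero]; exact zero_le
    refine le_trans ?_ (Finset.single_le_sum (f := fun h => ∑ h' ∈ IH',
      (if HT hX P = h ∧ Dp zX P ∈ EX h ∧ HT hY P' = h' ∧
        Ev hX zX sX hY zY sY lo hi P P' x a a' then LW ΛX P * LW ΛY P' else 0))
        (fun _ _ => zero_le) (hqX P h0))
    refine le_trans ?_ (Finset.single_le_sum (f := fun h' =>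
      (if HT hX P = HT hX P ∧ Dp zX P ∈ EX (HT hX P) ∧ HT hY P' = h' ∧
        Ev hX zX sX hY zY sY lo hi P P' x a a' then LW ΛX P * LW ΛY P' else 0))
        (fun _ _ => zero_le) (hqY P' h0'))
    have hh : HT hX P = HT hX P ∧ Dp zX P ∈ EX (HT hX P) ∧ HT hY P' = HT hY P' ∧
        Ev hX zX sX hY zY sY lo hi P P' x a a' := ⟨rfl, hc.1, rfl, hc.2⟩
    exact le_trans (mul_le_mul' (hqX' P) (hqY' P')) (le_of_eq (if_pos hh).symm)
  · rw [if_neg hc]; exact zero_le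

open Classical in
lemma ph_le_V3 (lo hi : ℕ) (qX : List BX → ℝ≥0∞) (qY : List BY → ℝ≥0∞) (IH IH' : Finset ℕ)
    (hqX : ∀ P, qX P ≠ 0 → HT hX P ∈ IH) (hqX' : ∀ P, qX P ≤ LW ΛX P)
    (hqY : ∀ P, qY P ≠ 0 → HT hY P ∈ IH') (hqY' : ∀ P, qY P ≤ LW ΛY P)
    (EY : ℕ → Finset G) (a a' : ℕ) (x : G) :
    Ph2 hX zX sX hY zY sY lo hi qX qY (fun _ P' => Dp zY P' ∈ EY (HT hY P')) a a' x
      ≤ ∑ h ∈ IH, ∑ h' ∈ IH', V3 ΛX hX zX sX ΛY hY zY sY lo hi a a' h h' (EY h') x := by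
  unfold Ph2 V3
  have e1 : ∑ h ∈ IH, ∑ h' ∈ IH', ∑' L : List BX, ∑' L' : List BY,
      (if HT hX L = h ∧ Dp zY L' ∈ EY h' ∧ HT hY L' = h' ∧
        Ev hX zX sX hY zY sY lo hi L L' x a a' then LW ΛX L * LW ΛY L' else 0)
      = ∑' L : List BX, ∑' L' : List BY, ∑ h ∈ IH, ∑ h' ∈ IH',
      (if HT hX L = h ∧ Dp zY L' ∈ EY h' ∧ HT hY L' = h' ∧
        Ev hX zX sX hY zY sY lo hi L L' x a a' then LW ΛX L * LW ΛY L' else 0) := by
    simp_rw [Summable.tsum_finsetSum (fun _ _ => ENNReal.summable)]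
  rw [e1]
  refine ENNReal.tsum_le_tsum fun P => ENNReal.tsum_le_tsum fun P' => ?_
  by_cases hc : Dp zY P' ∈ EY (HT hY P') ∧ Ev hX zX sX hY zY sY lo hi P P' x a a'
  · rw [if_pos hc]
    by_cases h0 : qX P = 0
    · rw [h0, zero_mul]; exact zero_le
    by_cases h0' : qY P' = 0
    · rw [h0', mul_zero]; exact zero_le
    refine le_trans ?_ (Finset.single_le_sum (f := fun h => ∑ h' ∈ IH',
      (if HT hX P = h ∧ Dp zY P' ∈ EY h' ∧ HT hY P' = h' ∧
        Ev hX zX sX hY zY sY lo hi P P' x a a' then LW ΛX P * LW ΛY P' else 0))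
        (fun _ _ => zero_le) (hqX P h0))
    refine le_trans ?_ (Finset.single_le_sum (f := fun h' =>
      (if HT hX P = HT hX P ∧ Dp zY P' ∈ EY h' ∧ HT hY P' = h' ∧
        Ev hX zX sX hY zY sY lo hi P P' x a a' then LW ΛX P * LW ΛY P' else 0))
        (fun _ _ => zero_le) (hqY P' h0'))
    have hh : HT hX P = HT hX P ∧ Dp zY P' ∈ EY (HT hY P') ∧ HT hY P' = HT hY P' ∧
        Ev hX zX sX hY zY sY lo hi P P' x a a' := ⟨rfl, hc.1, rfl, hc.2⟩
    exact le_trans (mul_le_mul' (hqX' P) (hqY' P')) (le_of_eq (if_pos hh).symm)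
  · rw [if_neg hc]; exact zero_le

/-- averaging of a sum of window sums against the law of the difference -/
lemma ww_win (IA IA' IH IH' : Finset ℕ) (SX SY : ℕ → G → ℝ≥0∞) (M Γ : ℝ≥0∞)
    (Φ : ℕ → ℕ → G → ℝ≥0∞) (V : ℕ → ℕ → ℕ → ℕ → G → ℝ≥0∞)
    (hΦ : ∀ a a' x, Φ a a' x ≤ ∑ h ∈ IH, ∑ h' ∈ IH', V a a' h h' x)
    (hSX : ∀ a ∈ IA, ∑' z, SX a z ≤ 1) (hSY : ∀ a ∈ IA', ∑' z, SY a z ≤ 1)
    (hM : (∀ a z, SX a z ≤ M) ∨ (∀ a z, SY a z ≤ M))
    (hV : ∀ a ∈ IA, ∀ a' ∈ IA', ∀ h ∈ IH, ∀ h' ∈ IH', ∀ μ : G → ℝ≥0∞, ∑' x, μ x ≤ 1 →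
      (∀ x, μ x ≤ M) → ∑' x, μ x * V a a' h h' x ≤ Γ) :
    WW IA IA' SX SY Φ ≤ (IA.card * (IA'.card * (IH.card * (IH'.card * Γ)))) := by
  rw [ww_conv]
  have key : ∀ a ∈ IA, ∀ a' ∈ IA', ∑' x, (∑' z, SX a z * SY a' (z + x)) * Φ a a' x
      ≤ IH.card * (IH'.card * Γ) := by
    intro a ha a' ha'
    set μ : G → ℝ≥0∞ := fun x => ∑' z, SX a z * SY a' (z + x) with hμ
    have hμ1 : ∑' x, μ x ≤ 1 := by
      simp only [hμ]
      rw [ENNReal.tsum_comm]
      calc ∑' z, ∑' x, SX a z * SY a' (z + x) = ∑' z, SX a z * ∑' x, SY a' x := by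
            refine tsum_congr fun z => ?_
            rw [ENNReal.tsum_mul_left, ← (Equiv.addLeft z).tsum_eq (fun x => SY a' x)]
            rfl
        _ = (∑' z, SX a z) * ∑' x, SY a' x := ENNReal.tsum_mul_right
        _ ≤ 1 * 1 := mul_le_mul' (hSX a ha) (hSY a' ha')
        _ = 1 := one_mul 1
    have hμM : ∀ x, μ x ≤ M := by
      intro x
      rcases hM with hM | hM
      · calc μ x ≤ ∑' z, M * SY a' (z + x) :=
              ENNReal.tsum_le_tsum fun z => mul_le_mul_left (hM a z) _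
          _ = M * ∑' z, SY a' z := by
              rw [ENNReal.tsum_mul_left, ← (Equiv.addRight x).tsum_eq (fun z => SY a' z)]
              rfl
          _ ≤ M * 1 := mul_le_mul_right (hSY a' ha') _
          _ = M := mul_one M
      · calc μ x ≤ ∑' z, SX a z * M :=
              ENNReal.tsum_le_tsum fun z => mul_le_mul_right (hM a' _) _
          _ = (∑' z, SX a z) * M := ENNReal.tsum_mul_right
          _ ≤ 1 * M := mul_le_mul_left (hSX a ha) _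
          _ = M := one_mul M
    calc ∑' x, μ x * Φ a a' x ≤ ∑' x, μ x * ∑ h ∈ IH, ∑ h' ∈ IH', V a a' h h' x :=
          ENNReal.tsum_le_tsum fun x => mul_le_mul_right (hΦ _ _ _) _
      _ = ∑ h ∈ IH, ∑ h' ∈ IH', ∑' x, μ x * V a a' h h' x := by
          simp_rw [Finset.mul_sum]
          rw [Summable.tsum_finsetSum (fun _ _ => ENNReal.summable)]
          refine Finset.sum_congr rfl fun h _ => ?_
          rw [Summable.tsum_finsetSum (fun _ _ => ENNReal.summable)]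
      _ ≤ ∑ h ∈ IH, ∑ h' ∈ IH', Γ :=
          Finset.sum_le_sum fun h hh => Finset.sum_le_sum fun h' hh' =>
            hV a ha a' ha' h hh h' hh' μ hμ1 hμM
      _ = IH.card * (IH'.card * Γ) := by simp [nsmul_eq_mul]
  calc ∑ a ∈ IA, ∑ a' ∈ IA', ∑' x, (∑' z, SX a z * SY a' (z + x)) * Φ a a' x
      ≤ ∑ a ∈ IA, ∑ a' ∈ IA', (IH.card * (IH'.card * Γ) : ℝ≥0∞) :=
        Finset.sum_le_sum fun a ha => Finset.sum_le_sum fun a' ha' => key a ha a' ha'
    _ = _ := by simp [nsmul_eq_mul]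

open Classical in
/-- **(A3)** one window. -/
theorem window (lo hi : ℕ) (IA IA' IH IH' : Finset ℕ)
    (SX GX QX SY GY QY : ℕ → G → ℝ≥0∞) (MX MY bX bY uX uY Γ : ℝ≥0∞)
    (hSX : ∀ a z, SX a z ≤ GX a z + QX a z) (hGX : ∀ a z, GX a z ≤ SX a z)
    (hMX : ∀ a z, GX a z ≤ MX) (hSX1 : ∑ a ∈ IA, ∑' z, SX a z ≤ 1)
    (hbX : ∑ a ∈ IA, ∑' z, QX a z ≤ bX)
    (hSY : ∀ a z, SY a z ≤ GY a z + QY a z) (hGY : ∀ a z, GY a z ≤ SY a z)
    (hMY : ∀ a z, GY a z ≤ MY) (hSY1 : ∑ a ∈ IA', ∑' z, SY a z ≤ 1)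
    (hbY : ∑ a ∈ IA', ∑' z, QY a z ≤ bY)
    (qX : List BX → ℝ≥0∞) (qY : List BY → ℝ≥0∞)
    (hqX : ∀ P, qX P ≠ 0 → HT hX P ∈ IH) (hqX' : ∀ P, qX P ≤ LW ΛX P) (hqX1 : ∑' P, qX P ≤ 1)
    (hqY : ∀ P, qY P ≠ 0 → HT hY P ∈ IH') (hqY' : ∀ P, qY P ≤ LW ΛY P) (hqY1 : ∑' P, qY P ≤ 1)
    (EX EY : ℕ → Finset G)
    (huX : ∑' P, (if Dp zX P ∈ EX (HT hX P) then 0 else qX P) ≤ uX)
    (huY : ∑' P, (if Dp zY P ∈ EY (HT hY P) then 0 else qY P) ≤ uY)
    (h2 : ∀ a ∈ IA, ∀ a' ∈ IA', ∀ h ∈ IH, ∀ h' ∈ IH', ∀ μ : G → ℝ≥0∞, ∑' x, μ x ≤ 1 →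
      (∀ x, μ x ≤ MX) →
      ∑' x, μ x * V2 ΛX hX zX sX ΛY hY zY sY lo hi a a' h h' (EX h) x ≤ Γ)
    (h3 : ∀ a ∈ IA, ∀ a' ∈ IA', ∀ h ∈ IH, ∀ h' ∈ IH', ∀ μ : G → ℝ≥0∞, ∑' x, μ x ≤ 1 →
      (∀ x, μ x ≤ MY) →
      ∑' x, μ x * V3 ΛX hX zX sX ΛY hY zY sY lo hi a a' h h' (EY h') x ≤ Γ) :
    WW IA IA' SX SY (fun a a' x => Ph2 hX zX sX hY zY sY lo hi qX qY (fun _ _ => True) a a' x)
      ≤ uX * uY + (bX + bY + 2 * (IA.card * (IA'.card * (IH.card * (IH'.card * Γ))))) := by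
  set N : ℝ≥0∞ := (IA.card * (IA'.card * (IH.card * (IH'.card * Γ)))) with hN
  set RX : List BX → List BY → Prop := fun P _ => Dp zX P ∈ EX (HT hX P) with hRX
  set RY : List BX → List BY → Prop := fun _ P' => Dp zY P' ∈ EY (HT hY P') with hRY
  have hsX : ∀ a ∈ IA, ∑' z, SX a z ≤ 1 := fun a ha =>
    (Finset.single_le_sum (f := fun a => ∑' z, SX a z) (fun _ _ => zero_le) ha).trans hSX1
  have hsY : ∀ a ∈ IA', ∑' z, SY a z ≤ 1 := fun a ha =>
    (Finset.single_le_sum (f := fun a => ∑' z, SY a z) (fun _ _ => zero_le) ha).trans hSY1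
  have hgX : ∀ a ∈ IA, ∑' z, GX a z ≤ 1 := fun a ha =>
    (ENNReal.tsum_le_tsum fun z => hGX a z).trans (hsX a ha)
  have hgY : ∀ a ∈ IA', ∑' z, GY a z ≤ 1 := fun a ha =>
    (ENNReal.tsum_le_tsum fun z => hGY a z).trans (hsY a ha)
  -- both pieces non local
  have hnn : ∑' P : List BX, ∑' P' : List BY, (if ¬ RX P P' ∧ ¬ RY P P' then qX P * qY P' else 0)
      ≤ uX * uY := by
    calc _ ≤ ∑' P : List BX, ∑' P' : List BY, (if Dp zX P ∈ EX (HT hX P) then 0 else qX P)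
          * (if Dp zY P' ∈ EY (HT hY P') then 0 else qY P') := by
          refine ENNReal.tsum_le_tsum fun P => ENNReal.tsum_le_tsum fun P' => ?_
          by_cases h1 : Dp zX P ∈ EX (HT hX P)
          · simp [hRX, h1]
          · by_cases h2 : Dp zY P' ∈ EY (HT hY P')
            · simp [hRY, h2]
            · simp [hRX, hRY, h1, h2]
      _ = (∑' P : List BX, (if Dp zX P ∈ EX (HT hX P) then 0 else qX P))
          * ∑' P' : List BY, (if Dp zY P' ∈ EY (HT hY P') then 0 else qY P') := by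
          simp_rw [ENNReal.tsum_mul_left]
          rw [ENNReal.tsum_mul_right]
      _ ≤ _ := mul_le_mul' huX huY
  have hΦ : ∀ a a' x, Ph2 hX zX sX hY zY sY lo hi qX qY (fun _ _ => True) a a' x
      ≤ (uX * uY + Ph2 hX zX sX hY zY sY lo hi qX qY RX a a' x)
        + Ph2 hX zX sX hY zY sY lo hi qX qY RY a a' x := by
    intro a a' x
    refine le_trans ?_ (add_le_add_left (add_le_add_left hnn _) _)
    unfold Ph2
    rw [← ENNReal.tsum_add, ← ENNReal.tsum_add]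
    refine ENNReal.tsum_le_tsum fun P => ?_
    rw [← ENNReal.tsum_add, ← ENNReal.tsum_add]
    refine ENNReal.tsum_le_tsum fun P' => ?_
    by_cases hE : Ev hX zX sX hY zY sY lo hi P P' x a a'
    · by_cases h1 : RX P P'
      · simp only [hE, h1, true_and, and_true, if_true, not_true, false_and, if_false, zero_add]
        exact le_self_add
      · by_cases h2 : RY P P'
        · simp only [hE, h1, h2, true_and, and_true, if_true, not_true, not_false_iff, and_false,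
            if_false, zero_add, false_and, add_zero]
          exact le_rfl
        · simp only [hE, h1, h2, true_and, and_true, if_true, not_false_iff, and_self,
            if_false, false_and, add_zero]
          exact le_rfl
    · simp [hE]
  have hconst : WW IA IA' SX SY (fun _ _ _ => uX * uY) ≤ uX * uY := by
    refine (ww_le IA IA' SX SY _ (uX * uY) 1 1 (fun _ _ _ => le_rfl) hSX1 hSY1).trans ?_
    rw [one_mul, one_mul]
  have hX' : WW IA IA' SX SY (fun a a' x => Ph2 hX zX sX hY zY sY lo hi qX qY RX a a' x)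
      ≤ N + bX := by
    refine (ww_mono (SX' := fun a z => GX a z + QX a z) hSX (fun _ _ => le_rfl)
      (fun _ _ _ => le_rfl)).trans ?_
    rw [ww_add_left]
    refine add_le_add ?_ ?_
    · exact ww_win IA IA' IH IH' GX SY MX Γ _
        (fun a a' h h' x => V2 ΛX hX zX sX ΛY hY zY sY lo hi a a' h h' (EX h) x)
        (fun a a' x => ph_le_V2 ΛX hX zX sX ΛY hY zY sY lo hi qX qY IH IH' hqX hqX' hqY hqY' EX
          a a' x) hgX hsY (Or.inl hMX) h2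
    · refine (ww_le IA IA' QX SY _ 1 bX 1 (fun a a' x => ph2_le_one hX zX sX hY zY sY lo hi qX qY
        hqX1 hqY1 RX a a' x) hbX hSY1).trans ?_
      rw [one_mul, mul_one]
  have hY' : WW IA IA' SX SY (fun a a' x => Ph2 hX zX sX hY zY sY lo hi qX qY RY a a' x)
      ≤ N + bY := by
    refine (ww_mono (SY' := fun a z => GY a z + QY a z) (fun _ _ => le_rfl) hSY
      (fun _ _ _ => le_rfl)).trans ?_
    rw [ww_add_right]
    refine add_le_add ?_ ?_
    · exact ww_win IA IA' IH IH' SX GY MY Γ _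
        (fun a a' h h' x => V3 ΛX hX zX sX ΛY hY zY sY lo hi a a' h h' (EY h') x)
        (fun a a' x => ph_le_V3 ΛX hX zX sX ΛY hY zY sY lo hi qX qY IH IH' hqX hqX' hqY hqY' EY
          a a' x) hsX hgY (Or.inr hMY) h3
    · refine (ww_le IA IA' SX QY _ 1 1 bY (fun a a' x => ph2_le_one hX zX sX hY zY sY lo hi qX qY
        hqX1 hqY1 RY a a' x) hSX1 hbY).trans ?_
      rw [one_mul, mul_one]
  have hadd : ∀ (Φ1 Φ2 : ℕ → ℕ → G → ℝ≥0∞), WW IA IA' SX SY (fun a a' x => Φ1 a a' x + Φ2 a a' x)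
      = WW IA IA' SX SY Φ1 + WW IA IA' SX SY Φ2 := by
    intro Φ1 Φ2
    unfold WW
    rw [← Finset.sum_add_distrib]
    refine Finset.sum_congr rfl fun a _ => ?_
    rw [← ENNReal.tsum_add]
    refine tsum_congr fun z => ?_
    rw [← mul_add, ← Finset.sum_add_distrib]
    congr 1
    refine Finset.sum_congr rfl fun a' _ => ?_
    rw [← ENNReal.tsum_add]
    exact tsum_congr fun z' => by rw [mul_add]
  calc _ ≤ WW IA IA' SX SY (fun a a' x => (uX * uY + Ph2 hX zX sX hY zY sY lo hi qX qY RX a a' x)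
        + Ph2 hX zX sX hY zY sY lo hi qX qY RY a a' x) :=
        ww_mono (fun _ _ => le_rfl) (fun _ _ => le_rfl) hΦ
    _ = (WW IA IA' SX SY (fun _ _ _ => uX * uY)
        + WW IA IA' SX SY (fun a a' x => Ph2 hX zX sX hY zY sY lo hi qX qY RX a a' x))
        + WW IA IA' SX SY (fun a a' x => Ph2 hX zX sX hY zY sY lo hi qX qY RY a a' x) := by
        rw [hadd, hadd]
    _ ≤ (uX * uY + (N + bX)) + (N + bY) := add_le_add (add_le_add hconst hX') hY'
    _ = _ := by ring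

end window

end Crest.Agent.R154.AsmP740
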