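import Crest.Agent.R154.AsmCh_801

/-! Row 154, ROAD 801 (helper801): fibres, local / low pieces, sums over lists of pieces. -/

set_option autoImplicit false

namespace Crest.Agent.R154.Asm801

open scoped ENNReal
open Crest.Agent.R154.B5A

section fibre

variable {A S : Type*} (Λ : A → ℝ≥0∞) (g : A → S)

open Classical in
/-- law of `g` -/
noncomputable def pw (x : S) : ℝ≥0∞ := ∑' a, if g a = x then Λ a else 0

open Classical in
lemma sum_fibre (F : S → ℝ≥0∞) : ∑' x, pw Λ g x * F x = ∑' a, Λ a * F (g a) := by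
  calc ∑' x, pw Λ g x * F x = ∑' x, ∑' a, (if g a = x then Λ a else 0) * F x := by
        refine tsum_congr fun x => ?_
        rw [pw, ENNReal.tsum_mul_right]
    _ = ∑' a, ∑' x, (if g a = x then Λ a else 0) * F x := ENNReal.tsum_comm
    _ = ∑' a, Λ a * F (g a) := by
        refine tsum_congr fun a => ?_
        rw [tsum_eq_single (g a)]
        · rw [if_pos rfl]
        · intro x hx
          rw [if_neg (fun h => hx h.symm), zero_mul]

lemma sum_pw : ∑' x, pw Λ g x = ∑' a, Λ a := by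
  have := sum_fibre Λ g (fun _ => 1)
  simpa using this

open Classical in
/-- dyadic quantile, sub-probability -/
theorem quant' {ι : Type*} (p : ι → ℝ≥0∞) (hp : ∑' i, p i ≤ 1) {u : ℝ≥0∞} (hu : u ≠ 0)
    (hu1 : u ≤ ∑' i, p i) : ∃ θ : ℝ≥0∞, θ ≠ 0 ∧ θ ≤ 1 ∧ (∑' i, if p i < θ then p i else 0) ≤ u ∧
      u ≤ (∑' i, if p i < 2 * θ then p i else 0) := by
  have hex := AsmA789.exists_small p hp hu
  set P : ℕ → Prop := fun q => (∑' i, if p i < (2 : ℝ≥0∞)⁻¹ ^ q then p i else 0) ≤ u with hP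
  have hex' : ∃ q, P q := hex
  have hq := Nat.find_spec hex'
  refine ⟨(2 : ℝ≥0∞)⁻¹ ^ Nat.find hex', ?_, ?_, hq, ?_⟩
  · exact pow_ne_zero _ (by simp)
  · exact pow_le_one' (by simp) _
  · rcases Nat.eq_zero_or_pos (Nat.find hex') with h0 | hpos
    · rw [h0, pow_zero, mul_one]
      have : ∀ i, p i < 2 := by
        intro i
        calc p i ≤ ∑' i, p i := ENNReal.le_tsum i
          _ ≤ 1 := hp
          _ < 2 := by norm_num
      simp only [this, if_true]
      exact hu1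
    · obtain ⟨r, hr⟩ := Nat.exists_eq_succ_of_ne_zero hpos.ne'
      have hnot : ¬ P r := Nat.find_min hex' (by omega)
      have e : 2 * (2 : ℝ≥0∞)⁻¹ ^ Nat.find hex' = (2 : ℝ≥0∞)⁻¹ ^ r := by
        rw [hr, Nat.succ_eq_add_one, pow_succ, mul_comm ((2 : ℝ≥0∞)⁻¹ ^ r), ← mul_assoc,
          ENNReal.mul_inv_cancel (by norm_num) (by norm_num), one_mul]
      rw [e]
      exact (not_le.1 hnot).le

open Classical in
/-- **local / low pieces** -/
theorem loc (hΛ : ∑' a, Λ a ≤ 1) {u : ℝ≥0∞} (hu : u ≠ 0) (hum : u ≤ ∑' a, Λ a) :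
    ∃ θ : ℝ≥0∞, θ ≠ 0 ∧ θ ≤ 1 ∧
      (∑' a, if pw Λ g (g a) < θ then Λ a else 0) ≤ u ∧
      (∑' a, if pw Λ g (g a) < 2 * θ then 0 else Λ a) ≤ 1 - u ∧
      (∀ x, ∑' a, (if pw Λ g (g a) < 2 * θ ∧ g a = x then Λ a else 0) ≤ 2 * θ) ∧
      {x | θ ≤ pw Λ g x}.Finite ∧ (({x | θ ≤ pw Λ g x}.ncard : ℕ) : ℝ≥0∞) * θ ≤ 1 := by
  have hp : ∑' x, pw Λ g x ≤ 1 := by rw [sum_pw]; exact hΛ
  obtain ⟨θ, h0, h1, h2, h3⟩ := quant' (pw Λ g) hp hu (by rw [sum_pw]; exact hum)
  refine ⟨θ, h0, h1, ?_, ?_, ?_, AsmA789.card_le _ hp h0⟩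
  · have h := sum_fibre Λ g (fun x => if pw Λ g x < θ then 1 else 0)
    calc (∑' a, if pw Λ g (g a) < θ then Λ a else 0)
        = ∑' a, Λ a * (if pw Λ g (g a) < θ then 1 else 0) :=
          tsum_congr fun a => by split_ifs <;> simp
      _ = ∑' x, pw Λ g x * (if pw Λ g x < θ then 1 else 0) := h.symm
      _ = (∑' i, if pw Λ g i < θ then pw Λ g i else 0) :=
          tsum_congr fun a => by split_ifs <;> simp
      _ ≤ u := h2
  · have h := sum_fibre Λ g (fun x => if pw Λ g x < 2 * θ then 1 else 0)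
    have h4 : u ≤ ∑' a, (if pw Λ g (g a) < 2 * θ then Λ a else 0) := by
      calc u ≤ (∑' i, if pw Λ g i < 2 * θ then pw Λ g i else 0) := h3
        _ = ∑' x, pw Λ g x * (if pw Λ g x < 2 * θ then 1 else 0) :=
          tsum_congr fun a => by split_ifs <;> simp
        _ = _ := h
        _ = _ := tsum_congr fun a => by split_ifs <;> simp
    have h5 : (∑' a, if pw Λ g (g a) < 2 * θ then 0 else Λ a)
        + ∑' a, (if pw Λ g (g a) < 2 * θ then Λ a else 0) ≤ 1 := by
      rw [← ENNReal.tsum_add]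
      refine le_trans (le_of_eq (tsum_congr fun a => ?_)) hΛ
      split_ifs <;> simp
    have hu1 : u ≤ 1 := hum.trans hΛ
    refine ENNReal.le_sub_of_add_le_right (ne_top_of_le_ne_top ENNReal.one_ne_top hu1) ?_
    exact (add_le_add le_rfl h4).trans h5
  · intro x
    by_cases hx : pw Λ g x < 2 * θ
    · refine le_trans (ENNReal.tsum_le_tsum fun a => ?_) hx.le
      split_ifs with h1 h2 h2
      · exact le_rfl
      · exact absurd h1.2 h2
      · exact zero_le
      · exact le_rfl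
    · have : ∀ a, (if pw Λ g (g a) < 2 * θ ∧ g a = x then Λ a else 0) = 0 := by
        intro a
        rw [if_neg]
        rintro ⟨h1, h2⟩
        rw [h2] at h1
        exact hx h1
      simp [this]

end fibre

section SLs

variable {A A' : Type*} (Λ : A → ℝ≥0∞) (Λ' : A' → ℝ≥0∞)

open Classical in
lemma SL_tsum {ι : Type*} (j : ℕ) (F : ι → List A → ℝ≥0∞) :
    SL Λ j (fun L => ∑' i, F i L) = ∑' i, SL Λ j (F i) := by
  simp only [SL]
  rw [ENNReal.tsum_comm]
  refine tsum_congr fun L => ?_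
  by_cases hL : L.length = j
  · simp only [hL, if_true]; rw [ENNReal.tsum_mul_left]
  · simp [hL]

lemma SL_comm (j j' : ℕ) (F : List A → List A' → ℝ≥0∞) :
    SL Λ j (fun L => SL Λ' j' (fun L' => F L L'))
      = SL Λ' j' (fun L' => SL Λ j (fun L => F L L')) := by
  have : ∀ L, SL Λ' j' (fun L' => F L L')
      = ∑' L', (if L'.length = j' then LW Λ' L' * F L L' else 0) := fun L => rfl
  simp only [this]
  rw [SL_tsum, SL]
  refine tsum_congr fun L' => ?_
  by_cases hL : L'.length = j'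
  · simp only [hL, if_true]; rw [SL_const_mul]
  · simp only [hL, if_false]
    have := SL_const_mul Λ j 0 (fun _ => 0)
    simpa using this

lemma SL_mono_supp (j : ℕ) {F F' : List A → ℝ≥0∞}
    (h : ∀ L, L.length = j → (∀ a ∈ L, Λ a ≠ 0) → F L ≤ F' L) : SL Λ j F ≤ SL Λ j F' := by
  refine ENNReal.tsum_le_tsum fun L => ?_
  by_cases hL : L.length = j
  · simp only [hL, if_true]
    by_cases h0 : ∀ a ∈ L, Λ a ≠ 0
    · exact mul_le_mul_right (h L hL h0) _
    · push Not at h0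
      obtain ⟨a, ha, ha0⟩ := h0
      have : LW Λ L = 0 := by
        unfold LW
        exact List.prod_eq_zero (List.mem_map.2 ⟨a, ha, ha0⟩)
      rw [this]; simp
  · simp [hL]

lemma SL_le_one (h : ∑' a, Λ a ≤ 1) (j : ℕ) {F : List A → ℝ≥0∞} (hF : ∀ L, F L ≤ 1) :
    SL Λ j F ≤ 1 := by
  refine (SL_mono Λ j (F' := fun _ => 1) fun L _ => hF L).trans ?_
  rw [SL_pow]; exact pow_le_one' h _

lemma SL_le_const (h : ∑' a, Λ a ≤ 1) (j : ℕ) (c : ℝ≥0∞) {F : List A → ℝ≥0∞}
    (hF : ∀ L, F L ≤ c) : SL Λ j F ≤ c := by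
  refine (SL_mono Λ j (F' := fun _ => c * 1) fun L _ => by rw [mul_one]; exact hF L).trans ?_
  rw [SL_const_mul]
  exact (mul_le_mul_right (SL_le_one Λ h j fun _ => le_rfl) _).trans (by rw [mul_one])

end SLs

end Crest.Agent.R154.Asm801
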