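import Crest.Agent.R154.AsmP_877

/-! Row 154 (helper877), ROAD 801: traces, law of an attempt, the window sum. -/

set_option autoImplicit false

namespace Crest.Agent.R154.Asm877

open scoped ENNReal
open Crest.Agent.R154.B5A
open Crest.Agent.R154.FP178

section trace

variable {G : Type*} [AddCommGroup G] {B : Type*}

/-- displacement -/
def Dp (z : B → G) (L : List B) : G := (L.map z).sum

/-- trace of a list of blocks read from the tie down, top at `x`, depth `a` -/
def TR (h : B → ℕ) (z : B → G) (s : B → Set (G × ℕ)) : List B → G → ℕ → Set (G × ℕ)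
  | [], _, _ => ∅
  | b :: L, x, a => {q | ∃ p ∈ s b, q = (x + p.1, a + p.2)} ∪ TR h z s L (x + z b) (a + h b)

variable (h : B → ℕ) (z : B → G) (s : B → Set (G × ℕ))

lemma Dp_nil : Dp z [] = 0 := rfl
lemma Dp_cons (b : B) (L : List B) : Dp z (b :: L) = z b + Dp z L := by simp [Dp]
lemma Dp_append (L L' : List B) : Dp z (L ++ L') = Dp z L + Dp z L' := by simp [Dp]

lemma TR_cons (b : B) (L : List B) (x : G) (a : ℕ) :
    TR h z s (b :: L) x a = {q | ∃ p ∈ s b, q = (x + p.1, a + p.2)} ∪ TR h z s L (x + z b) (a + h b) :=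
  rfl

lemma TR_append (L L' : List B) (x : G) (a : ℕ) :
    TR h z s (L ++ L') x a = TR h z s L x a ∪ TR h z s L' (x + Dp z L) (a + HT h L) := by
  induction L generalizing x a with
  | nil => simp [TR, Dp_nil, HT_nil]
  | cons b L ih =>
    rw [List.cons_append, TR_cons, TR_cons, ih, Set.union_assoc, Dp_cons, HT_cons, ← add_assoc,
      ← add_assoc]

lemma TR_depth (hs : ∀ b, ∀ p ∈ s b, 1 ≤ p.2 ∧ p.2 ≤ h b) (L : List B) (x : G) (a : ℕ)
    (q : G × ℕ) (hq : q ∈ TR h z s L x a) : a < q.2 ∧ q.2 ≤ a + HT h L := by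
  induction L generalizing x a with
  | nil => exact hq.elim
  | cons b L ih =>
    rw [TR_cons] at hq
    rw [HT_cons]
    rcases hq with ⟨p, hp, rfl⟩ | hq
    · have := hs b p hp
      constructor <;> simp only <;> omega
    · have := ih _ _ hq
      omega

lemma TR_shift (L : List B) (x t : G) (a : ℕ) (q : G × ℕ) :
    q ∈ TR h z s L (x + t) a ↔ (q.1 - t, q.2) ∈ TR h z s L x a := by
  induction L generalizing x a with
  | nil => exact Iff.rfl
  | cons b L ih =>
    rw [TR_cons, TR_cons, Set.mem_union, Set.mem_union,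
      show x + t + z b = (x + z b) + t by abel, ih]
    refine or_congr ?_ Iff.rfl
    constructor
    · rintro ⟨p, hp, rfl⟩
      refine ⟨p, hp, ?_⟩
      simp only [Prod.mk.injEq, and_true]
      abel
    · rintro ⟨p, hp, hq⟩
      refine ⟨p, hp, ?_⟩
      have h1 := congrArg Prod.fst hq
      have h2 := congrArg Prod.snd hq
      simp only at h1 h2
      ext
      · show q.1 = x + t + p.1
        rw [sub_eq_iff_eq_add] at h1
        rw [h1]; abel
      · exact h2

end trace

section law

variable {G : Type*} [AddCommGroup G] {B : Type*} (Λ : B → ℝ≥0∞) (h : B → ℕ) (z : B → G)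

open Classical in
/-- law of a first passage of height `T` on (height, displacement) -/
noncomputable def pr (T : ℕ) (x : ℕ × G) : ℝ≥0∞ :=
  ∑' L : List B, if fp h T L ∧ HT h L = x.1 ∧ Dp z L = x.2 then LW Λ L else 0

open Classical in
lemma pr_sum (T : ℕ) (S : ℕ × G → Prop) :
    ∑' L : List B, (if fp h T L ∧ S (HT h L, Dp z L) then LW Λ L else 0)
      = ∑' x, (if S x then pr Λ h z T x else 0) := by
  have e : ∀ x : ℕ × G, (if S x then pr Λ h z T x else 0)
      = ∑' L : List B, (if x = (HT h L, Dp z L) then (if fp h T L ∧ S (HT h L, Dp z L) then LW Λ L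
        else 0) else 0) := by
    intro x
    by_cases hx : S x
    · rw [if_pos hx, pr]
      refine tsum_congr fun L => ?_
      by_cases h1 : x = (HT h L, Dp z L)
      · rw [if_pos h1]
        subst h1
        by_cases h2 : fp h T L
        · rw [if_pos ⟨h2, rfl, rfl⟩, if_pos ⟨h2, hx⟩]
        · rw [if_neg (fun hh => h2 hh.1), if_neg (fun hh => h2 hh.1)]
      · rw [if_neg h1, if_neg]
        rintro ⟨_, h3, h4⟩
        exact h1 (Prod.ext h3.symm h4.symm)
    · rw [if_neg hx]
      symm
      rw [ENNReal.tsum_eq_zero]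
      intro L
      by_cases h1 : x = (HT h L, Dp z L)
      · rw [if_pos h1, if_neg]
        rintro ⟨_, h3⟩
        rw [← h1] at h3
        exact hx h3
      · rw [if_neg h1]
  rw [tsum_congr e, ENNReal.tsum_comm]
  refine tsum_congr fun L => ?_
  rw [tsum_ite_eq]

lemma pr_one (h1 : ∀ b, 1 ≤ h b) (hΛ : ∑' b, Λ b = 1) (T : ℕ) : ∑' x, pr Λ h z T x = 1 := by
  classical
  have := pr_sum Λ h z T (fun _ => True)
  simp only [if_true, and_true] at this
  rw [← this]
  exact sum_FP_eq Λ h h1 hΛ T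

/-- type of an attempt -/
def ty {T i0 : ℕ} (A : Att h T i0) : ℕ × G := (HT h A.1, Dp z A.1)

open Classical in
lemma att_mass (T i0 : ℕ) (S : ℕ × G → Prop) :
    ∑' A : Att h T i0, (if S (ty h z A) then wA Λ h T i0 A else 0)
      ≤ ∑' x, (if S x then pr Λ h z T x else 0) := by
  have := tsum_att h T i0 (fun L => if S (HT h L, Dp z L) then LW Λ L else 0)
  refine (le_of_eq this).trans ?_
  rw [← pr_sum]
  refine ENNReal.tsum_le_tsum fun L => ?_
  by_cases h2 : fp h T L
  · by_cases h3 : S (HT h L, Dp z L)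
    · rw [if_pos (⟨h2, h3⟩ : fp h T L ∧ S (HT h L, Dp z L))]
      split_ifs
      · exact le_rfl
      · exact zero_le
    · rw [if_neg h3]; simp
  · rw [if_neg (fun hh => h2 hh.1)]; exact zero_le

open Classical in
lemma att_dens (T i0 : ℕ) (th : ℝ≥0∞) (y : G) :
    ∑' A : Att h T i0, (if pr Λ h z T (ty h z A) ≤ th ∧ Dp z A.1 = y then wA Λ h T i0 A else 0)
      ≤ ((i0 + 1 : ℕ) : ℝ≥0∞) * th := by
  obtain ⟨S, hS⟩ : ∃ S : ℕ × G → Prop, ∀ x, S x ↔ ((pr Λ h z T x ≤ th ∧ x.2 = y) ∧
    x.1 ∈ Finset.Icc T (T + i0)) := ⟨_, fun _ => Iff.rfl⟩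
  have e := att_mass Λ h z T i0 S
  have e0 : ∑' A : Att h T i0, (if pr Λ h z T (ty h z A) ≤ th ∧ Dp z A.1 = y then wA Λ h T i0 A
      else 0) = ∑' A : Att h T i0, (if S (ty h z A) then wA Λ h T i0 A else 0) := by
    refine tsum_congr fun A => ?_
    have hA : (ty h z A).1 ∈ Finset.Icc T (T + i0) :=
      Finset.mem_Icc.2 ⟨le_HT_of_fp h A.2.1, A.2.2⟩
    by_cases h1 : pr Λ h z T (ty h z A) ≤ th ∧ Dp z A.1 = y
    · rw [if_pos h1, if_pos ((hS _).2 ⟨h1, hA⟩)]
    · rw [if_neg h1, if_neg (fun hh => h1 ((hS _).1 hh).1)]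
  rw [e0]
  refine e.trans ?_
  calc ∑' x : ℕ × G, (if S x then pr Λ h z T x else 0)
      ≤ ∑' x : ℕ × G, ∑ k ∈ Finset.Icc T (T + i0), (if x = (k, y) then th else 0) := by
        refine ENNReal.tsum_le_tsum fun x => ?_
        by_cases hx : S x
        · rw [if_pos hx]
          obtain ⟨⟨h1, h2⟩, h3⟩ := (hS x).1 hx
          refine h1.trans ?_
          have hxx : x = (x.1, y) := Prod.ext rfl h2
          have h4 := Finset.single_le_sum (f := fun k => if x = (k, y) then th else 0)
            (fun _ _ => zero_le) h3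
          rw [if_pos hxx] at h4
          exact h4
        · rw [if_neg hx]; exact zero_le
    _ = ∑ k ∈ Finset.Icc T (T + i0), ∑' x : ℕ × G, (if x = (k, y) then th else 0) :=
        Summable.tsum_finsetSum fun _ _ => ENNReal.summable
    _ = ∑ k ∈ Finset.Icc T (T + i0), th := by
        refine Finset.sum_congr rfl fun k _ => ?_
        rw [tsum_ite_eq]
    _ = _ := by
        rw [Finset.sum_const, Nat.card_Icc, nsmul_eq_mul]
        congr 2
        omega

end law

end Crest.Agent.R154.Asm877
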