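import Crest.Agent.R154.AsmP_913

/-! Row 154, ROAD 801 (helper913): assembly, part 2: one window. -/

set_option autoImplicit false

namespace Crest.Agent.R154.Asm913

open scoped ENNReal
open Crest.Agent.R154.B5A Crest.Agent.R154.FP178
open Classical

variable {BX BY G : Type*} [AddCommGroup G]

/-- four-fold sum -/
noncomputable def S4 (F : List BX → List BX → List BY → List BY → ℝ≥0∞) : ℝ≥0∞ :=
  ∑' L1, ∑' P, ∑' L2, ∑' Q, F L1 P L2 Q

lemma S4_mono {F F' : List BX → List BX → List BY → List BY → ℝ≥0∞}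
    (h : ∀ a b c d, F a b c d ≤ F' a b c d) : S4 F ≤ S4 F' :=
  ENNReal.tsum_le_tsum fun a => ENNReal.tsum_le_tsum fun b => ENNReal.tsum_le_tsum fun c =>
    ENNReal.tsum_le_tsum fun d => h a b c d

lemma S4_add (F F' : List BX → List BX → List BY → List BY → ℝ≥0∞) :
    S4 (fun a b c d => F a b c d + F' a b c d) = S4 F + S4 F' := by
  simp only [S4, ENNReal.tsum_add]

lemma S4_sum {ι : Type*} (s : Finset ι) (F : ι → List BX → List BX → List BY → List BY → ℝ≥0∞) :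
    S4 (fun a b c d => ∑ i ∈ s, F i a b c d) = ∑ i ∈ s, S4 (F i) := by
  induction s using Finset.induction_on with
  | empty => simp [S4]
  | insert a s ha ih =>
    simp only [Finset.sum_insert ha]
    rw [S4_add (F a) (fun b c d e => ∑ i ∈ s, F i b c d e), ih]

lemma S4_prod (f g : List BX → ℝ≥0∞) (h k : List BY → ℝ≥0∞) :
    S4 (fun a b c d => f a * g b * (h c * k d)) = (∑' a, f a) * (∑' b, g b) * ((∑' c, h c) *
      ∑' d, k d) := by
  simp only [S4, ENNReal.tsum_mul_left, ENNReal.tsum_mul_right]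

/-- grouping by the relative displacement -/
lemma S4_group (f g : List BX → ℝ≥0∞) (h k : List BY → ℝ≥0∞) (δ : List BX → List BY → G)
    (v : G → List BX → List BY → ℝ≥0∞) :
    S4 (fun a b c d => f a * g b * (h c * k d) * v (δ a c) b d)
      = ∑' x, (∑' a, ∑' c, if δ a c = x then f a * h c else 0) * (∑' b, ∑' d, g b * k d * v x b d) := by
  have e1 : ∀ x, (∑' a, ∑' c, if δ a c = x then f a * h c else 0) *
      (∑' b, ∑' d, g b * k d * v x b d)
      = ∑' a, ∑' c, (if δ a c = x then f a * h c * (∑' b, ∑' d, g b * k d * v x b d) else 0) := by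
    intro x
    rw [← ENNReal.tsum_mul_right]
    refine tsum_congr fun a => ?_
    rw [← ENNReal.tsum_mul_right]
    refine tsum_congr fun c => ?_
    split_ifs <;> simp
  rw [tsum_congr e1, ENNReal.tsum_comm]
  unfold S4
  refine tsum_congr fun a => ?_
  rw [ENNReal.tsum_comm]
  conv_rhs => rw [ENNReal.tsum_comm]
  refine tsum_congr fun c => ?_
  rw [tsum_eq_single (δ a c)]
  · rw [if_pos rfl, ← ENNReal.tsum_mul_left]
    refine tsum_congr fun b => ?_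
    rw [← ENNReal.tsum_mul_left]
    refine tsum_congr fun d => ?_
    ring
  · intro x hx
    rw [if_neg (Ne.symm hx)]

/-- weight of a first passage list with small overshoot -/
noncomputable def wA {B : Type*} (Λ : B → ℝ≥0∞) (ht : B → ℕ) (i0 a : ℕ) (L : List B) : ℝ≥0∞ :=
  if fp ht a L ∧ HT ht L ≤ a + i0 then LW Λ L else 0

lemma sum_wA {B : Type*} (Λ : B → ℝ≥0∞) (ht : B → ℕ) (h1 : ∀ b, 1 ≤ ht b) (hΛ : ∑' b, Λ b = 1)
    (i0 a : ℕ) : ∑' L, wA Λ ht i0 a L ≤ 1 := by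
  refine le_trans (ENNReal.tsum_le_tsum fun L => ?_) (sum_fp_eq Λ ht h1 hΛ a).le
  unfold wA
  by_cases h : fp ht a L <;> by_cases h2 : HT ht L ≤ a + i0 <;> simp [h, h2]

/-- one-walker decomposition, product form -/
lemma walk_split' {B : Type*} (Λ : B → ℝ≥0∞) (ht : B → ℕ) (h1 : ∀ b, 1 ≤ ht b)
    (hΛ : ∑' b, Λ b = 1) (A τ i0 n : ℕ)
    (hn : A + i0 + τ ≤ n) (f : List B → ℝ≥0∞) (hf : ∀ L, f L ≤ 1)
    (g : List B → List B → ℝ≥0∞)
    (hg : ∀ L1 P R, fp ht A L1 → HT ht L1 ≤ A + i0 → fp ht τ P → HT ht P ≤ τ + i0 →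
      HT ht (L1 ++ (P ++ R)) = n → f (L1 ++ (P ++ R)) ≤ g L1 P)
    (ε1 : ℝ≥0∞) (hov : ∀ a, ∑' L, (if fp ht a L ∧ a + i0 < HT ht L then LW Λ L else 0) ≤ ε1) :
    ∑' L, (if HT ht L = n then LW Λ L * f L else 0) ≤ 2 * ε1 +
      ∑' L1, ∑' P, wA Λ ht i0 A L1 * wA Λ ht i0 τ P * g L1 P := by
  refine (walk_split Λ ht h1 hΛ A τ i0 n hn f hf g hg ε1 hov).trans (le_of_eq ?_)
  congr 1
  refine tsum_congr fun L1 => ?_
  unfold wA
  by_cases h : fp ht A L1 ∧ HT ht L1 ≤ A + i0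
  · rw [if_pos h, if_pos h, ← ENNReal.tsum_mul_left]
    refine tsum_congr fun P => ?_
    split_ifs <;> ring
  · rw [if_neg h, if_neg h]; simp

variable (ΛX : BX → ℝ≥0∞) (hX : BX → ℕ) (zX : BX → G) (sX : BX → Set (G × ℕ))
variable (ΛY : BY → ℝ≥0∞) (hY : BY → ℕ) (zY : BY → G) (sY : BY → Set (G × ℕ))

/-- window event: a contact at depth in `(b, b']`, no contact at depth in `(A, lo)` nor `(hi, H]` -/
def WE (A b b' lo hi H : ℕ) (w : G) (LX : List BX) (LY : List BY) : Prop :=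
  (∃ y k, b < k ∧ k ≤ b' ∧ (y, k) ∈ TT sX zX hX LX 0 0 ∧ (y, k) ∈ TT sY zY hY LY w 0) ∧
  (∀ y k, (y, k) ∈ TT sX zX hX LX 0 0 → (y, k) ∈ TT sY zY hY LY w 0 →
    ¬ (A < k ∧ k < lo) ∧ ¬ (hi < k ∧ k ≤ H))

/-- piece event -/
def PE (lo hi : ℕ) (a a' : ℕ) (x : G) (P : List BX) (Q : List BY) : Prop :=
  (∃ y k, (y, k) ∈ TT sX zX hX P 0 a ∧ (y, k) ∈ TT sY zY hY Q x a') ∧
  (∀ y k, (y, k) ∈ TT sX zX hX P 0 a → (y, k) ∈ TT sY zY hY Q x a' → lo ≤ k ∧ k ≤ hi)

lemma PE_of_WE (hsX : ∀ b, ∀ q ∈ sX b, 1 ≤ q.2 ∧ q.2 ≤ hX b)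
    (hsY : ∀ b, ∀ q ∈ sY b, 1 ≤ q.2 ∧ q.2 ≤ hY b)
    (A b b' lo hi H : ℕ) (w : G) (L1 P R : List BX) (L2 Q R' : List BY)
    (hb1 : A ≤ HT hX L1) (hb2 : HT hX L1 ≤ b) (hb3 : HT hY L2 ≤ b)
    (hc1 : b' ≤ HT hX L1 + HT hX P) (hc2 : b' ≤ HT hY L2 + HT hY Q)
    (hH : HT hX L1 + HT hX P ≤ H)
    (hW : WE hX zX sX hY zY sY A b b' lo hi H w (L1 ++ (P ++ R)) (L2 ++ (Q ++ R'))) :
    PE hX zX sX hY zY sY lo hi (HT hX L1) (HT hY L2) (w + Dp zY L2 - Dp zX L1) P Q := by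
  have memX : ∀ y k, (y, k) ∈ TT sX zX hX P 0 (HT hX L1) →
      (y + Dp zX L1, k) ∈ TT sX zX hX (L1 ++ (P ++ R)) 0 0 := by
    intro y k hy
    rw [TT_append, TT_append]
    refine Or.inr (Or.inl ?_)
    rw [zero_add, zero_add, show Dp zX L1 = Dp zX L1 + 0 by rw [add_zero], TT_shift, add_zero,
      add_sub_cancel_right]
    exact hy
  have memY : ∀ y k, (y, k) ∈ TT sY zY hY Q (w + Dp zY L2 - Dp zX L1) (HT hY L2) →
      (y + Dp zX L1, k) ∈ TT sY zY hY (L2 ++ (Q ++ R')) w 0 := by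
    intro y k hy
    rw [TT_append, TT_append]
    refine Or.inr (Or.inl ?_)
    rw [zero_add, show w + Dp zY L2 = Dp zX L1 + (w + Dp zY L2 - Dp zX L1) by abel, TT_shift,
      add_sub_cancel_right]
    exact hy
  obtain ⟨⟨y, k, hk1, hk2, hy1, hy2⟩, hall⟩ := hW
  refine ⟨⟨y - Dp zX L1, k, ?_, ?_⟩, ?_⟩
  · rw [TT_append, TT_append] at hy1
    rcases hy1 with h | h | h
    · have := TT_bd sX zX hX hsX _ _ _ _ h
      simp only at this
      omega
    · rw [zero_add, zero_add, show Dp zX L1 = Dp zX L1 + 0 by rw [add_zero], TT_shift] at h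
      exact h
    · have := TT_bd sX zX hX hsX _ _ _ _ h
      simp only at this
      omega
  · rw [TT_append, TT_append] at hy2
    rcases hy2 with h | h | h
    · have := TT_bd sY zY hY hsY _ _ _ _ h
      simp only at this
      omega
    · rw [zero_add, show w + Dp zY L2 = Dp zX L1 + (w + Dp zY L2 - Dp zX L1) by abel,
        TT_shift] at h
      exact h
    · have := TT_bd sY zY hY hsY _ _ _ _ h
      simp only at this
      omega
  · intro y k h1 h2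
    have h3 := hall _ _ (memX y k h1) (memY y k h2)
    have h4 := TT_bd sX zX hX hsX _ _ _ _ h1
    simp only at h4
    omega

/-- first reduction of a window: first passages of both walkers -/
theorem win1 (hX1 : ∀ b, 1 ≤ hX b) (hΛX : ∑' b, ΛX b = 1) (hY1 : ∀ b, 1 ≤ hY b)
    (hΛY : ∑' b, ΛY b = 1) (hsX : ∀ b, ∀ q ∈ sX b, 1 ≤ q.2 ∧ q.2 ≤ hX b)
    (hsY : ∀ b, ∀ q ∈ sY b, 1 ≤ q.2 ∧ q.2 ≤ hY b)
    (i0 : ℕ) (ε1 : ℝ≥0∞)
    (hovX : ∀ a, ∑' L, (if fp hX a L ∧ a + i0 < HT hX L then LW ΛX L else 0) ≤ ε1)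
    (hovY : ∀ a, ∑' L, (if fp hY a L ∧ a + i0 < HT hY L then LW ΛY L else 0) ≤ ε1)
    (A t lo hi n : ℕ) (w : G) (ht : 2 * i0 ≤ t) (hn : A + 3 * t + 3 * i0 ≤ n) :
    ∑' LX, ∑' LY, (if HT hX LX = n ∧ HT hY LY = n ∧
      WE hX zX sX hY zY sY A (A + t) (A + 2 * t) lo hi (A + 3 * t + 2 * i0) w LX LY
      then LW ΛX LX * LW ΛY LY else 0)
    ≤ 4 * ε1 + S4 (fun L1 P L2 Q => wA ΛX hX i0 A L1 * wA ΛX hX i0 (3 * t) P *
        (wA ΛY hY i0 (A + i0) L2 * wA ΛY hY i0 (3 * t + i0) Q) *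
        (if PE hX zX sX hY zY sY lo hi (HT hX L1) (HT hY L2) (w + Dp zY L2 - Dp zX L1) P Q
          then 1 else 0)) := by
  set We := fun (LX : List BX) (LY : List BY) =>
    WE hX zX sX hY zY sY A (A + t) (A + 2 * t) lo hi (A + 3 * t + 2 * i0) w LX LY with hWe
  set f : List BX → ℝ≥0∞ := fun LX => ∑' LY, (if HT hY LY = n then LW ΛY LY *
    (if We LX LY then 1 else 0) else 0) with hf
  have e0 : ∑' LX, ∑' LY, (if HT hX LX = n ∧ HT hY LY = n ∧ We LX LY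
      then LW ΛX LX * LW ΛY LY else 0) = ∑' LX, (if HT hX LX = n then LW ΛX LX * f LX else 0) := by
    refine tsum_congr fun LX => ?_
    by_cases h : HT hX LX = n
    · rw [if_pos h, hf, ← ENNReal.tsum_mul_left]
      refine tsum_congr fun LY => ?_
      by_cases h2 : HT hY LY = n <;> by_cases h3 : We LX LY <;> simp [h, h2, h3]
    · simp [h]
  have hsumY : ∑' LY, (if HT hY LY = n then LW ΛY LY else 0) ≤ 1 := U_le_one ΛY hY hY1 hΛY n
  have hsub : ∀ F : List BY → Prop, ∑' LY, (if HT hY LY = n then LW ΛY LY *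
      (if F LY then 1 else 0) else 0) ≤ 1 := by
    intro F
    refine le_trans (ENNReal.tsum_le_tsum fun LY => ?_) hsumY
    by_cases h2 : HT hY LY = n <;> by_cases h3 : F LY <;> simp [h2, h3]
  set g : List BX → List BX → ℝ≥0∞ := fun L1 P => ∑' LY, (if HT hY LY = n then LW ΛY LY *
    (if (fp hX A L1 ∧ HT hX L1 ≤ A + i0 ∧ fp hX (3 * t) P ∧ HT hX P ≤ 3 * t + i0 ∧
      ∃ R, We (L1 ++ (P ++ R)) LY) then 1 else 0) else 0) with hg
  rw [e0]
  refine (walk_split' ΛX hX hX1 hΛX A (3 * t) i0 n (by omega) f (fun LX => hsub _) g ?_ ε1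
    hovX).trans ?_
  · intro L1 P R h1 h2 h3 h4 h5
    refine ENNReal.tsum_le_tsum fun LY => ?_
    by_cases h6 : HT hY LY = n
    · rw [if_pos h6, if_pos h6]
      refine mul_le_mul_right ?_ _
      by_cases h7 : We (L1 ++ (P ++ R)) LY
      · rw [if_pos h7, if_pos ⟨h1, h2, h3, h4, R, h7⟩]
      · rw [if_neg h7]; exact zero_le
    · rw [if_neg h6]; exact zero_le
  · have hgle : ∀ L1 P, g L1 P ≤ 2 * ε1 + ∑' L2, ∑' Q, wA ΛY hY i0 (A + i0) L2 *
        wA ΛY hY i0 (3 * t + i0) Q *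
        (if PE hX zX sX hY zY sY lo hi (HT hX L1) (HT hY L2) (w + Dp zY L2 - Dp zX L1) P Q
          then 1 else 0) := by
      intro L1 P
      refine walk_split' ΛY hY hY1 hΛY (A + i0) (3 * t + i0) i0 n (by omega) _
        (fun LY => by split_ifs <;> simp) _ ?_ ε1 hovY
      intro L2 Q R' h1 h2 h3 h4 h5
      by_cases h6 : (fp hX A L1 ∧ HT hX L1 ≤ A + i0 ∧ fp hX (3 * t) P ∧ HT hX P ≤ 3 * t + i0 ∧
        ∃ R, We (L1 ++ (P ++ R)) (L2 ++ (Q ++ R')))
      · rw [if_pos h6]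
        obtain ⟨g1, g2, g3, g4, R, g5⟩ := h6
        have k1 := le_HT_of_fp hX g1
        have k2 := le_HT_of_fp hX g3
        have k3 := le_HT_of_fp hY h1
        have k4 := le_HT_of_fp hY h3
        rw [if_pos]
        exact PE_of_WE hX zX sX hY zY sY hsX hsY A (A + t) (A + 2 * t) lo hi (A + 3 * t + 2 * i0) w
          L1 P R L2 Q R' k1 (by omega) (by omega) (by omega) (by omega) (by omega) g5
      · rw [if_neg h6]; exact zero_le
    calc 2 * ε1 + ∑' L1, ∑' P, wA ΛX hX i0 A L1 * wA ΛX hX i0 (3 * t) P * g L1 P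
        ≤ 2 * ε1 + ∑' L1, ∑' P, wA ΛX hX i0 A L1 * wA ΛX hX i0 (3 * t) P * (2 * ε1 +
          ∑' L2, ∑' Q, wA ΛY hY i0 (A + i0) L2 * wA ΛY hY i0 (3 * t + i0) Q *
        (if PE hX zX sX hY zY sY lo hi (HT hX L1) (HT hY L2) (w + Dp zY L2 - Dp zX L1) P Q
          then 1 else 0)) := by
          refine add_le_add le_rfl (ENNReal.tsum_le_tsum fun L1 => ENNReal.tsum_le_tsum fun P =>
            mul_le_mul_right (hgle L1 P) _)
      _ = 2 * ε1 + (((∑' L1, wA ΛX hX i0 A L1) * (∑' P, wA ΛX hX i0 (3 * t) P)) * (2 * ε1) +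
          S4 (fun L1 P L2 Q => wA ΛX hX i0 A L1 * wA ΛX hX i0 (3 * t) P *
        (wA ΛY hY i0 (A + i0) L2 * wA ΛY hY i0 (3 * t + i0) Q) *
        (if PE hX zX sX hY zY sY lo hi (HT hX L1) (HT hY L2) (w + Dp zY L2 - Dp zX L1) P Q
          then 1 else 0))) := by
          congr 1
          unfold S4
          simp only [mul_add, ENNReal.tsum_add]
          congr 1
          · simp only [ENNReal.tsum_mul_right, ENNReal.tsum_mul_left]
          · refine tsum_congr fun L1 => tsum_congr fun P => ?_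
            rw [← ENNReal.tsum_mul_left]
            refine tsum_congr fun L2 => ?_
            rw [← ENNReal.tsum_mul_left]
            refine tsum_congr fun Q => ?_
            ring
      _ ≤ 2 * ε1 + (1 * 1 * (2 * ε1) + S4 (fun L1 P L2 Q => wA ΛX hX i0 A L1 *
        wA ΛX hX i0 (3 * t) P * (wA ΛY hY i0 (A + i0) L2 * wA ΛY hY i0 (3 * t + i0) Q) *
        (if PE hX zX sX hY zY sY lo hi (HT hX L1) (HT hY L2) (w + Dp zY L2 - Dp zX L1) P Q
          then 1 else 0))) := by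
          gcongr
          · exact sum_wA ΛX hX hX1 hΛX i0 A
          · exact sum_wA ΛX hX hX1 hΛX i0 (3 * t)
      _ = _ := by rw [one_mul, one_mul, ← add_assoc]; congr 1; ring

end Crest.Agent.R154.Asm913
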