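import Crest.Agent.R154.AsmQ_1
import Crest.Agent.R154.AsmA_789
import Crest.Agent.R154.AsmD_540

/-! Row 154, ROAD 801 (helper1): one window, thresholds of the two walkers shifted by `i0`
(so that the extra hypotheses `a ≤ a'`, `a + h ≤ a' + h'` of the word lemmas hold). -/

set_option autoImplicit false

namespace Crest.Agent.R154.AsmR1

open scoped ENNReal
open Crest.Agent.R154.B5A Crest.Agent.R154.FP178 Crest.Agent.R154.AsmP1 Crest.Agent.R154.AsmQ1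
open Crest.Agent.R154.Asm540 (TR Cm KS H5 TR_append TR_depth TR_shift)

variable {BX BY G : Type*} [AddCommGroup G]
  (ΛX : BX → ℝ≥0∞) (ΛY : BY → ℝ≥0∞) (hX : BX → ℕ) (hY : BY → ℕ) (zX : BX → G) (zY : BY → G)
  (sX : BX → Set (G × ℕ)) (sY : BY → Set (G × ℕ))

open Classical in
/-- `X` local window lemma (with `a ≤ a'`) -/
def H2' (C : ℝ≥0∞) (us : ℕ → ℝ≥0∞) : Prop :=
  ∀ (s h h' a a' lo : ℕ) (E : Finset G) (μ : G → ℝ≥0∞) (M lam : ℝ≥0∞), ∑' x, μ x ≤ 1 →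
    (∀ x, μ x ≤ M) → lam ≠ 0 → lam ≠ ⊤ → a ≤ a' → a + s ≤ lo → a' + s ≤ lo →
    ∑' x, μ x * ∑' L : List BX, ∑' L' : List BY,
      (if HT hX L = h ∧ Asm540.Dp zX L ∈ E ∧ HT hY L' = h' ∧
          (∃ g k, Cm hX hY zX zY sX sY L L' x a a' g k) ∧
          (∀ g k, Cm hX hY zX zY sX sY L L' x a a' g k → lo ≤ k) then LW ΛX L * LW ΛY L' else 0)
      ≤ C * (lam + M * E.card * us s / lam + us s)

open Classical in
/-- `Y` local window lemma (with `a + h ≤ a' + h'`) -/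
def H3' (C : ℝ≥0∞) (us : ℕ → ℝ≥0∞) : Prop :=
  ∀ (s h h' a a' hi : ℕ) (E : Finset G) (μ : G → ℝ≥0∞) (M lam : ℝ≥0∞), ∑' x, μ x ≤ 1 →
    (∀ x, μ x ≤ M) → lam ≠ 0 → lam ≠ ⊤ → a + h ≤ a' + h' → hi + s ≤ a + h → hi + s ≤ a' + h' →
    ∑' x, μ x * ∑' L : List BX, ∑' L' : List BY,
      (if HT hX L = h ∧ HT hY L' = h' ∧ Asm540.Dp zY L' ∈ E ∧
          (∃ g k, Cm hX hY zX zY sX sY L L' x a a' g k) ∧
          (∀ g k, Cm hX hY zX zY sX sY L L' x a a' g k → k ≤ hi) then LW ΛX L * LW ΛY L' else 0)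
      ≤ C * (lam + M * E.card * us s / lam + us s)

/-- a deep contact in `[lo, hi]` and no contact near the ends -/
def Ev (w : G) (aX T i0 s : ℕ) (L : List BX) (L' : List BY) : Prop :=
  (∃ g k, aX + 2 * i0 + s < k ∧ k + s ≤ aX + T ∧ Cm hX hY zX zY sX sY L L' w 0 0 g k) ∧
  (∀ g k, Cm hX hY zX zY sX sY L L' w 0 0 g k → ¬ (aX < k ∧ k ≤ aX + 2 * i0 + s) ∧
    ¬ (aX + T < k + s ∧ k ≤ aX + T + 2 * i0))

lemma geo (hsX : ∀ b, ∀ p ∈ sX b, 1 ≤ p.2 ∧ p.2 ≤ hX b)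
    (hsY : ∀ b, ∀ p ∈ sY b, 1 ≤ p.2 ∧ p.2 ≤ hY b) (w : G) (aX T i0 s : ℕ)
    (L1 L2 L3 : List BX) (M1 M2 M3 : List BY)
    (hL1 : aX ≤ HT hX L1) (hL1' : HT hX L1 ≤ aX + i0)
    (hM1 : aX + i0 ≤ HT hY M1) (hM1' : HT hY M1 ≤ aX + i0 + i0)
    (hL2 : T ≤ HT hX L2) (hL2' : HT hX L2 ≤ T + i0) (hM2 : T + i0 ≤ HT hY M2)
    (h : Ev hX hY zX zY sX sY w aX T i0 s (L1 ++ (L2 ++ L3)) (M1 ++ (M2 ++ M3))) :
    (∃ g k, Cm hX hY zX zY sX sY L2 M2 (w + dp zY M1 - dp zX L1) (HT hX L1) (HT hY M1) g k) ∧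
    (∀ g k, Cm hX hY zX zY sX sY L2 M2 (w + dp zY M1 - dp zX L1) (HT hX L1) (HT hY M1) g k →
      aX + 2 * i0 + s ≤ k ∧ k + s ≤ aX + T) := by
  have ex : ∀ g k, (g, k) ∈ TR sX zX hX (L1 ++ (L2 ++ L3)) 0 0 ↔
      ((g, k) ∈ TR sX zX hX L1 0 0 ∨ (g - dp zX L1, k) ∈ TR sX zX hX L2 0 (HT hX L1) ∨
        (g, k) ∈ TR sX zX hX L3 (dp zX L1 + dp zX L2) (HT hX L1 + HT hX L2)) := by
    intro g k
    rw [TR_append, TR_append, Set.mem_union, Set.mem_union]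
    have e1 : (0 : G) + Asm540.Dp zX L1 = 0 + dp zX L1 := rfl
    have e2 : (0 : G) + dp zX L1 + Asm540.Dp zX L2 = dp zX L1 + dp zX L2 := by
      rw [zero_add]; rfl
    rw [e1, e2, TR_shift, Nat.zero_add]
  have ey : ∀ g k, (g, k) ∈ TR sY zY hY (M1 ++ (M2 ++ M3)) w 0 ↔
      ((g, k) ∈ TR sY zY hY M1 w 0 ∨
        (g - dp zX L1, k) ∈ TR sY zY hY M2 (w + dp zY M1 - dp zX L1) (HT hY M1) ∨
        (g, k) ∈ TR sY zY hY M3 (w + dp zY M1 + dp zY M2) (HT hY M1 + HT hY M2)) := by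
    intro g k
    rw [TR_append, TR_append, Set.mem_union, Set.mem_union]
    have e1 : w + Asm540.Dp zY M1 = (w + dp zY M1 - dp zX L1) + dp zX L1 := by
      rw [sub_add_cancel]; rfl
    have e2 : (w + dp zY M1 - dp zX L1) + dp zX L1 + Asm540.Dp zY M2
        = w + dp zY M1 + dp zY M2 := by
      rw [sub_add_cancel]; rfl
    rw [e1, e2, TR_shift, Nat.zero_add]
  obtain ⟨⟨g, k, hk1, hk2, hc⟩, hno⟩ := h
  refine ⟨⟨g - dp zX L1, k, ?_, ?_⟩, ?_⟩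
  · rcases (ex g k).1 hc.1 with h | h | h
    · have := (TR_depth hX zX sX hsX _ _ _ _ h).2
      simp only at this; omega
    · exact h
    · have := (TR_depth hX zX sX hsX _ _ _ _ h).1
      simp only at this; omega
  · rcases (ey g k).1 hc.2 with h | h | h
    · have := (TR_depth hY zY sY hsY _ _ _ _ h).2
      simp only at this; omega
    · exact h
    · have := (TR_depth hY zY sY hsY _ _ _ _ h).1
      simp only at this; omega
  · intro g' k' hc'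
    have hx : (g' + dp zX L1, k') ∈ TR sX zX hX (L1 ++ (L2 ++ L3)) 0 0 := by
      rw [ex]; right; left; rw [add_sub_cancel_right]; exact hc'.1
    have hy : (g' + dp zX L1, k') ∈ TR sY zY hY (M1 ++ (M2 ++ M3)) w 0 := by
      rw [ey]; right; left; rw [add_sub_cancel_right]; exact hc'.2
    have h0 := hno _ _ ⟨hx, hy⟩
    have d1 := TR_depth hX zX sX hsX _ _ _ _ hc'.1
    simp only at d1
    constructor
    · by_contra hcon
      exact h0.1 ⟨by omega, by omega⟩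
    · by_contra hcon
      exact h0.2 ⟨by omega, by omega⟩

lemma prod4 (hUX : ∀ n, U ΛX hX n ≤ 1) (hUY : ∀ n, U ΛY hY n ≤ 1) (aX T aY TY i0 n : ℕ)
    (g1 g2 : List BX → ℝ≥0∞) (k1 k2 : List BY → ℝ≥0∞) (x1 x2 y1 y2 : ℝ≥0∞)
    (h1 : ∑' L, fw ΛX hX aX L * g1 L ≤ x1) (h2 : ∑' L, fw ΛX hX T L * g2 L ≤ x2)
    (h3 : ∑' L, fw ΛY hY aY L * k1 L ≤ y1) (h4 : ∑' L, fw ΛY hY TY L * k2 L ≤ y2) :
    ∑' t, tw ΛX hX aX T i0 n t * ∑' s, tw ΛY hY aY TY i0 n s *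
      ((g1 t.1 * g2 t.2.1) * (k1 s.1 * k2 s.2.1)) ≤ (x1 * x2) * (y1 * y2) := by
  have e1 : ∀ t : List BX × List BX × List BX, tw ΛX hX aX T i0 n t *
      ∑' s, tw ΛY hY aY TY i0 n s * ((g1 t.1 * g2 t.2.1) * (k1 s.1 * k2 s.2.1))
      = (tw ΛX hX aX T i0 n t * (g1 t.1 * g2 t.2.1)) *
        ∑' s, tw ΛY hY aY TY i0 n s * (k1 s.1 * k2 s.2.1) := by
    intro t
    rw [mul_assoc, ← ENNReal.tsum_mul_left (a := g1 t.1 * g2 t.2.1)]
    congr 1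
    exact tsum_congr fun s => by ring
  rw [tsum_congr e1, ENNReal.tsum_mul_right]
  exact mul_le_mul' (tw_sum_le ΛX hX hUX aX T i0 n g1 g2 x1 x2 h1 h2)
    (tw_sum_le ΛY hY hUY aY TY i0 n k1 k2 y1 y2 h3 h4)

lemma tw2_le (hUX : ∀ n, U ΛX hX n ≤ 1) (hUY : ∀ n, U ΛY hY n ≤ 1) (aX T aY TY i0 n : ℕ)
    (f : List BX → List BX → List BY → List BY → ℝ≥0∞) :
    ∑' t, tw ΛX hX aX T i0 n t * ∑' s, tw ΛY hY aY TY i0 n s * f t.1 t.2.1 s.1 s.2.1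
      ≤ ∑' p : List BX × List BY, (fw ΛX hX aX p.1 * fw ΛY hY aY p.2) *
        ∑' r : List BX × List BY, LW ΛX r.1 * LW ΛY r.2 * f p.1 r.1 p.2 r.2 := by
  have hY1 : ∀ (L1 L2 : List BX), ∑' s, tw ΛY hY aY TY i0 n s * f L1 L2 s.1 s.2.1
      ≤ ∑' M1, ∑' M2, fw ΛY hY aY M1 * (LW ΛY M2 * f L1 L2 M1 M2) := by
    intro L1 L2
    refine (tw_le ΛY hY hUY aY TY i0 n (fun M1 M2 => f L1 L2 M1 M2)).trans ?_
    refine ENNReal.tsum_le_tsum fun M1 => ENNReal.tsum_le_tsum fun M2 => ?_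
    have h1 : fw ΛY hY TY M2 ≤ LW ΛY M2 := by
      rw [fw]
      calc _ ≤ 1 * LW ΛY M2 := mul_le_mul_left (ind_le_one _) _
        _ = _ := one_mul _
    calc _ ≤ fw ΛY hY aY M1 * 1 * (LW ΛY M2 * f L1 L2 M1 M2) := by
          gcongr; exact ind_le_one _
      _ = _ := by rw [mul_one]
  calc _ ≤ ∑' t, tw ΛX hX aX T i0 n t *
          ∑' M1, ∑' M2, fw ΛY hY aY M1 * (LW ΛY M2 * f t.1 t.2.1 M1 M2) :=
        ENNReal.tsum_le_tsum fun t => mul_le_mul_right (hY1 _ _) _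
    _ ≤ ∑' L1, ∑' L2, fw ΛX hX aX L1 * ind (HT hX L1 ≤ aX + i0) * (fw ΛX hX T L2 *
          ∑' M1, ∑' M2, fw ΛY hY aY M1 * (LW ΛY M2 * f L1 L2 M1 M2)) :=
        tw_le ΛX hX hUX aX T i0 n (fun L1 L2 =>
          ∑' M1, ∑' M2, fw ΛY hY aY M1 * (LW ΛY M2 * f L1 L2 M1 M2))
    _ ≤ ∑' L1, ∑' L2, fw ΛX hX aX L1 * (LW ΛX L2 *
          ∑' M1, ∑' M2, fw ΛY hY aY M1 * (LW ΛY M2 * f L1 L2 M1 M2)) := by
        refine ENNReal.tsum_le_tsum fun L1 => ENNReal.tsum_le_tsum fun L2 => ?_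
        have h1 : fw ΛX hX T L2 ≤ LW ΛX L2 := by
          rw [fw]
          calc _ ≤ 1 * LW ΛX L2 := mul_le_mul_left (ind_le_one _) _
            _ = _ := one_mul _
        calc _ ≤ fw ΛX hX aX L1 * 1 * (LW ΛX L2 * _) := by
              gcongr; exact ind_le_one _
          _ = _ := by rw [mul_one]
    _ = _ := by
        rw [ENNReal.tsum_prod']
        refine tsum_congr fun L1 => ?_
        calc ∑' L2, fw ΛX hX aX L1 * (LW ΛX L2 *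
              ∑' M1, ∑' M2, fw ΛY hY aY M1 * (LW ΛY M2 * f L1 L2 M1 M2))
            = ∑' L2, ∑' M1, ∑' M2, fw ΛX hX aX L1 * fw ΛY hY aY M1 *
                (LW ΛX L2 * LW ΛY M2 * f L1 L2 M1 M2) := by
              refine tsum_congr fun L2 => ?_
              simp_rw [← ENNReal.tsum_mul_left]
              refine tsum_congr fun M1 => tsum_congr fun M2 => ?_
              ring
          _ = ∑' M1, ∑' L2, ∑' M2, fw ΛX hX aX L1 * fw ΛY hY aY M1 *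
                (LW ΛX L2 * LW ΛY M2 * f L1 L2 M1 M2) := ENNReal.tsum_comm
          _ = _ := by
              refine tsum_congr fun M1 => ?_
              rw [ENNReal.tsum_prod', ← ENNReal.tsum_mul_left]
              refine tsum_congr fun L2 => ?_
              rw [ENNReal.tsum_mul_left]

end Crest.Agent.R154.AsmR1
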