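import Crest.Agent.R154.AsmQ_114

/-! Row 154, ROAD 801 (helper114): one window. -/

set_option autoImplicit false

namespace Crest.Agent.R154.Asm114

open scoped ENNReal
open Crest.Agent.R154.B5A
open Crest.Agent.R154.FP178 (fp)

variable {B B' G : Type*} [AddCommGroup G] {T T' : ℕ}

/-- two placed lists have a common site, and all common sites have depth in `[lo, hi]` -/
def Ev (sX : B → Set (G × ℕ)) (zX : B → G) (hX : B → ℕ) (sY : B' → Set (G × ℕ)) (zY : B' → G)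
    (hY : B' → ℕ) (lo hi : ℕ) (L : List B) (x : G) (a : ℕ) (L' : List B') (x' : G) (a' : ℕ) : Prop :=
  (∃ y k, (y, k) ∈ TT sX zX hX L x a ∧ (y, k) ∈ TT sY zY hY L' x' a') ∧
  (∀ y k, (y, k) ∈ TT sX zX hX L x a → (y, k) ∈ TT sY zY hY L' x' a' → lo ≤ k ∧ k ≤ hi)

lemma Ev_shift (sX : B → Set (G × ℕ)) (zX : B → G) (hX : B → ℕ) (sY : B' → Set (G × ℕ))
    (zY : B' → G) (hY : B' → ℕ) (lo hi : ℕ) (L : List B) (x : G) (a : ℕ) (L' : List B') (x' : G)
    (a' : ℕ) (hE : Ev sX zX hX sY zY hY lo hi L x a L' x' a') :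
    Ev sX zX hX sY zY hY lo hi L 0 a L' (x' - x) a' := by
  have e1 : ∀ y k, (y, k) ∈ TT sX zX hX L 0 a ↔ (y + x, k) ∈ TT sX zX hX L x a := by
    intro y k
    have := TT_shift sX zX hX L 0 x a (y + x) k
    rw [zero_add, add_sub_cancel_right] at this
    exact this.symm
  have e2 : ∀ y k, (y, k) ∈ TT sY zY hY L' (x' - x) a' ↔ (y + x, k) ∈ TT sY zY hY L' x' a' := by
    intro y k
    have := TT_shift sY zY hY L' (x' - x) x a' (y + x) k
    rw [sub_add_cancel, add_sub_cancel_right] at this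
    exact this.symm
  obtain ⟨⟨y, k, h1, h2⟩, h3⟩ := hE
  refine ⟨⟨y - x, k, (e1 _ _).2 (by simpa using h1), (e2 _ _).2 (by simpa using h2)⟩, ?_⟩
  intro y k h4 h5
  exact h3 _ _ ((e1 _ _).1 h4) ((e2 _ _).1 h5)

lemma prod4 {A C D E : Type*} (f : A → ℝ≥0∞) (g : C → ℝ≥0∞) (k : D → ℝ≥0∞) (l : E → ℝ≥0∞) :
    ∑' q : A × C × D × E, (f q.1 * g q.2.1) * (k q.2.2.1 * l q.2.2.2)
      = ((∑' a, f a) * ∑' c, g c) * ((∑' d, k d) * ∑' e, l e) := by
  rw [ENNReal.tsum_prod']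
  have e1 : ∀ a : A, ∑' r : C × D × E, (f a * g r.1) * (k r.2.1 * l r.2.2)
      = f a * ((∑' c, g c) * ((∑' d, k d) * ∑' e, l e)) := by
    intro a
    rw [ENNReal.tsum_prod']
    have e2 : ∀ c : C, ∑' r : D × E, (f a * g c) * (k r.1 * l r.2)
        = f a * (g c * ((∑' d, k d) * ∑' e, l e)) := by
      intro c
      rw [ENNReal.tsum_prod']
      simp_rw [← mul_assoc, ENNReal.tsum_mul_left, ENNReal.tsum_mul_right]
      rw [ENNReal.tsum_mul_left]
    simp_rw [e2, ENNReal.tsum_mul_left, ENNReal.tsum_mul_right]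
  simp_rw [e1, ENNReal.tsum_mul_right]
  ring

open Classical in
lemma tsum_Pc_le {h : B → ℕ} (f : List B → ℝ≥0∞) : ∑' P : Pc h T, f P.1 ≤ ∑' L, f L :=
  ENNReal.tsum_comp_le_tsum_of_injective Subtype.val_injective f

open Classical in
/-- the reduction of a window to the landed form, at fixed heights. -/
lemma core (ΛX : B → ℝ≥0∞) (hX : B → ℕ) (zX : B → G) (sX : B → Set (G × ℕ))
    (ΛY : B' → ℝ≥0∞) (hY : B' → ℕ) (zY : B' → G) (sY : B' → Set (G × ℕ))
    (lo hi c c' h1 h2 : ℕ) (w : G) (A : List (Pc hX T) → Prop) (A' : List (Pc hY T') → Prop)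
    (D : List B → List B' → Prop) (M K : ℝ≥0∞)
    (hH : ∀ μ : G → ℝ≥0∞, ∑' x, μ x ≤ 1 → (∀ x, μ x ≤ M) →
      ∑' x, μ x * ∑' L, ∑' L', (if HT hX L = h1 ∧ HT hY L' = h2 ∧ D L L' ∧
        Ev sX zX hX sY zY hY lo hi L 0 c L' x c' then LW ΛX L * LW ΛY L' else 0) ≤ K)
    (hM : ∀ x, ∑' t, ∑' t', (if A t ∧ A' t' ∧ w + Dp (PD zY hY T') t' - Dp (PD zX hX T) t = x
      then LW (PL ΛX hX T) t * LW (PL ΛY hY T') t' else 0) ≤ M)
    (h11 : ∑' t, ∑' t', (if A t ∧ A' t' then LW (PL ΛX hX T) t * LW (PL ΛY hY T') t' else 0) ≤ 1) :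
    ∑' q : List (Pc hX T) × Pc hX T × List (Pc hY T') × Pc hY T',
      (if A q.1 ∧ A' q.2.2.1 ∧ PH hX T q.2.1 = h1 ∧ PH hY T' q.2.2.2 = h2 ∧ D q.2.1.1 q.2.2.2.1 ∧
        Ev sX zX hX sY zY hY lo hi q.2.1.1 (Dp (PD zX hX T) q.1) c q.2.2.2.1
          (w + Dp (PD zY hY T') q.2.2.1) c'
        then (LW (PL ΛX hX T) q.1 * PL ΛX hX T q.2.1) * (LW (PL ΛY hY T') q.2.2.1 * PL ΛY hY T' q.2.2.2)
        else 0) ≤ K := by
  set μ : G → ℝ≥0∞ := fun x => ∑' t, ∑' t',
    (if A t ∧ A' t' ∧ w + Dp (PD zY hY T') t' - Dp (PD zX hX T) t = x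
      then LW (PL ΛX hX T) t * LW (PL ΛY hY T') t' else 0) with hμ
  set V : G → ℝ≥0∞ := fun x => ∑' L, ∑' L', (if HT hX L = h1 ∧ HT hY L' = h2 ∧ D L L' ∧
        Ev sX zX hX sY zY hY lo hi L 0 c L' x c' then LW ΛX L * LW ΛY L' else 0) with hV
  have hμ1 : ∑' x, μ x ≤ 1 := by
    refine le_trans (le_of_eq ?_) h11
    calc ∑' x, μ x = ∑' t, ∑' t', ∑' x,
          (if A t ∧ A' t' ∧ w + Dp (PD zY hY T') t' - Dp (PD zX hX T) t = x
            then LW (PL ΛX hX T) t * LW (PL ΛY hY T') t' else 0) := by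
          rw [hμ, ENNReal.tsum_comm]
          refine tsum_congr fun t => ?_
          rw [ENNReal.tsum_comm]
      _ = _ := by
          refine tsum_congr fun t => tsum_congr fun t' => ?_
          rw [tsum_eq_single (w + Dp (PD zY hY T') t' - Dp (PD zX hX T) t)]
          · by_cases hA : A t ∧ A' t'
            · rw [if_pos hA, if_pos ⟨hA.1, hA.2, rfl⟩]
            · rw [if_neg hA, if_neg (fun hh => hA ⟨hh.1, hh.2.1⟩)]
          · intro x hx
            rw [if_neg (fun hh => hx hh.2.2.symm)]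
  refine le_trans ?_ (hH μ hμ1 hM)
  change _ ≤ ∑' x, μ x * V x
  have hstep : ∀ t t', ∑' P : Pc hX T, ∑' P' : Pc hY T',
      (if A t ∧ A' t' ∧ PH hX T P = h1 ∧ PH hY T' P' = h2 ∧ D P.1 P'.1 ∧
        Ev sX zX hX sY zY hY lo hi P.1 (Dp (PD zX hX T) t) c P'.1 (w + Dp (PD zY hY T') t') c'
        then (LW (PL ΛX hX T) t * PL ΛX hX T P) * (LW (PL ΛY hY T') t' * PL ΛY hY T' P') else 0)
      ≤ (if A t ∧ A' t' then LW (PL ΛX hX T) t * LW (PL ΛY hY T') t' else 0) *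
        V (w + Dp (PD zY hY T') t' - Dp (PD zX hX T) t) := by
    intro t t'
    by_cases hA : A t ∧ A' t'
    · rw [if_pos hA, hV]
      calc _ ≤ ∑' P : Pc hX T, ∑' P' : Pc hY T', (LW (PL ΛX hX T) t * LW (PL ΛY hY T') t') *
            (if HT hX P.1 = h1 ∧ HT hY P'.1 = h2 ∧ D P.1 P'.1 ∧
              Ev sX zX hX sY zY hY lo hi P.1 0 c P'.1
                (w + Dp (PD zY hY T') t' - Dp (PD zX hX T) t) c'
              then LW ΛX P.1 * LW ΛY P'.1 else 0) := by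
            refine ENNReal.tsum_le_tsum fun P => ENNReal.tsum_le_tsum fun P' => ?_
            by_cases hQ : A t ∧ A' t' ∧ PH hX T P = h1 ∧ PH hY T' P' = h2 ∧ D P.1 P'.1 ∧
              Ev sX zX hX sY zY hY lo hi P.1 (Dp (PD zX hX T) t) c P'.1
                (w + Dp (PD zY hY T') t') c'
            · rw [if_pos hQ, if_pos]
              · refine le_of_eq ?_
                simp only [PL]; ring
              · exact ⟨hQ.2.2.1, hQ.2.2.2.1, hQ.2.2.2.2.1,
                  Ev_shift sX zX hX sY zY hY lo hi _ _ _ _ _ _ hQ.2.2.2.2.2⟩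
            · rw [if_neg hQ]; exact zero_le
        _ = (LW (PL ΛX hX T) t * LW (PL ΛY hY T') t') * ∑' P : Pc hX T, ∑' P' : Pc hY T',
            (if HT hX P.1 = h1 ∧ HT hY P'.1 = h2 ∧ D P.1 P'.1 ∧
              Ev sX zX hX sY zY hY lo hi P.1 0 c P'.1
                (w + Dp (PD zY hY T') t' - Dp (PD zX hX T) t) c'
              then LW ΛX P.1 * LW ΛY P'.1 else 0) := by
            simp_rw [ENNReal.tsum_mul_left]
        _ ≤ _ := by
            refine mul_le_mul_right ?_ _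
            refine le_trans (ENNReal.tsum_le_tsum fun P : Pc hX T => tsum_Pc_le (h := hY) (T := T')
              (fun L' => if HT hX P.1 = h1 ∧ HT hY L' = h2 ∧ D P.1 L' ∧
              Ev sX zX hX sY zY hY lo hi P.1 0 c L'
                (w + Dp (PD zY hY T') t' - Dp (PD zX hX T) t) c'
              then LW ΛX P.1 * LW ΛY L' else 0)) ?_
            exact tsum_Pc_le (h := hX) (T := T) (fun L => ∑' L',
              if HT hX L = h1 ∧ HT hY L' = h2 ∧ D L L' ∧
              Ev sX zX hX sY zY hY lo hi L 0 c L'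
                (w + Dp (PD zY hY T') t' - Dp (PD zX hX T) t) c'
              then LW ΛX L * LW ΛY L' else 0)
    · refine le_trans (le_of_eq ?_) zero_le
      refine ENNReal.tsum_eq_zero.2 fun P => ENNReal.tsum_eq_zero.2 fun P' => ?_
      rw [if_neg (fun hh => hA ⟨hh.1, hh.2.1⟩)]
  calc _ = ∑' t, ∑' t', ∑' P : Pc hX T, ∑' P' : Pc hY T',
      (if A t ∧ A' t' ∧ PH hX T P = h1 ∧ PH hY T' P' = h2 ∧ D P.1 P'.1 ∧
        Ev sX zX hX sY zY hY lo hi P.1 (Dp (PD zX hX T) t) c P'.1 (w + Dp (PD zY hY T') t') c'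
        then (LW (PL ΛX hX T) t * PL ΛX hX T P) * (LW (PL ΛY hY T') t' * PL ΛY hY T' P')
        else 0) := by
        simp_rw [ENNReal.tsum_prod']
        exact tsum_congr fun t => ENNReal.tsum_comm
    _ ≤ ∑' t, ∑' t', (if A t ∧ A' t' then LW (PL ΛX hX T) t * LW (PL ΛY hY T') t' else 0) *
        V (w + Dp (PD zY hY T') t' - Dp (PD zX hX T) t) :=
        ENNReal.tsum_le_tsum fun t => ENNReal.tsum_le_tsum fun t' => hstep t t'
    _ = ∑' t, ∑' t', ∑' x, (if A t ∧ A' t' ∧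
          w + Dp (PD zY hY T') t' - Dp (PD zX hX T) t = x
            then LW (PL ΛX hX T) t * LW (PL ΛY hY T') t' else 0) * V x := by
        refine tsum_congr fun t => tsum_congr fun t' => ?_
        rw [tsum_eq_single (w + Dp (PD zY hY T') t' - Dp (PD zX hX T) t)]
        · by_cases hA : A t ∧ A' t'
          · rw [if_pos hA, if_pos ⟨hA.1, hA.2, rfl⟩]
          · rw [if_neg hA, if_neg (fun hh => hA ⟨hh.1, hh.2.1⟩)]
        · intro x hx
          rw [if_neg (fun hh => hx hh.2.2.symm), zero_mul]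
    _ = ∑' x, μ x * V x := by
        rw [hμ]
        simp_rw [← ENNReal.tsum_mul_right]
        symm
        exact ENNReal.tsum_comm.trans (tsum_congr fun t => ENNReal.tsum_comm)

end Crest.Agent.R154.Asm114
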