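import Crest.Agent.R154.AsmQ_648

/-! Row 154, ROAD 801 (helper240): assembly, one window (racer on the base of helper648). -/

set_option autoImplicit false

namespace Crest.Agent.R154.Asm240

open scoped ENNReal
open Crest.Agent.R154.B5A
open Crest.Agent.R154.Asm648

section II

variable {A A' : Type*} (Λ : A → ℝ≥0∞) (Λ' : A' → ℝ≥0∞)

lemma avg_le (hΛ : ∑' b, Λ b ≤ 1) (c : ℝ≥0∞) : ∑' P, Λ P * c ≤ c := by
  rw [ENNReal.tsum_mul_right]
  calc (∑' b, Λ b) * c ≤ 1 * c := mul_le_mul_left hΛ _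
    _ = c := one_mul _

/-- one walker and the other: `j` pieces, then one piece, each -/
noncomputable def II (j : ℕ) (F : List A → A → List A' → A' → ℝ≥0∞) : ℝ≥0∞ :=
  SL Λ j (fun Q => ∑' P, Λ P * SL Λ' j (fun Q' => ∑' P', Λ' P' * F Q P Q' P'))

lemma II_mono {j : ℕ} {F F' : List A → A → List A' → A' → ℝ≥0∞}
    (h : ∀ Q P Q' P', Q.length = j → Q'.length = j → F Q P Q' P' ≤ F' Q P Q' P') :
    II Λ Λ' j F ≤ II Λ Λ' j F' :=
  SL_mono Λ j fun Q hQ => ENNReal.tsum_le_tsum fun P => mul_le_mul_right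
    (SL_mono Λ' j fun Q' hQ' => ENNReal.tsum_le_tsum fun P' =>
      mul_le_mul_right (h Q P Q' P' hQ hQ') _) _

lemma II_add (j : ℕ) (F F' : List A → A → List A' → A' → ℝ≥0∞) :
    II Λ Λ' j (fun Q P Q' P' => F Q P Q' P' + F' Q P Q' P') = II Λ Λ' j F + II Λ Λ' j F' := by
  unfold II
  have e1 : ∀ Q P, SL Λ' j (fun Q' => ∑' P', Λ' P' * (F Q P Q' P' + F' Q P Q' P'))
      = SL Λ' j (fun Q' => ∑' P', Λ' P' * F Q P Q' P')
        + SL Λ' j (fun Q' => ∑' P', Λ' P' * F' Q P Q' P') := by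
    intro Q P
    rw [← SL_add_fun]
    refine SL_congr Λ' j fun Q' _ => ?_
    rw [← ENNReal.tsum_add]
    exact tsum_congr fun P' => mul_add _ _ _
  rw [← SL_add_fun]
  refine SL_congr Λ j fun Q _ => ?_
  rw [← ENNReal.tsum_add]
  refine tsum_congr fun P => ?_
  rw [e1, mul_add]

lemma SL_zero_fun (j : ℕ) : SL Λ j (fun _ => (0 : ℝ≥0∞)) = 0 := by
  simp [SL]

lemma II_zero (j : ℕ) : II Λ Λ' j (fun _ _ _ _ => 0) = 0 := by
  unfold II
  simp only [mul_zero, tsum_zero, SL_zero_fun]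

lemma II_sum {ι : Type*} (s : Finset ι) (j : ℕ) (F : ι → List A → A → List A' → A' → ℝ≥0∞) :
    II Λ Λ' j (fun Q P Q' P' => ∑ i ∈ s, F i Q P Q' P') = ∑ i ∈ s, II Λ Λ' j (F i) := by
  classical
  induction s using Finset.induction_on with
  | empty => simpa using II_zero Λ Λ' j
  | insert a s ha ih =>
    simp only [Finset.sum_insert ha]
    rw [II_add, ih]

lemma II_swap (j : ℕ) (F : List A → A → List A' → A' → ℝ≥0∞) :
    II Λ Λ' j F = SL Λ j (fun Q => SL Λ' j (fun Q' => ∑' P, Λ P * ∑' P', Λ' P' * F Q P Q' P')) := by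
  unfold II
  refine SL_congr Λ j fun Q _ => ?_
  rw [tsum_SL]

lemma II_one (hΛ : ∑' b, Λ b ≤ 1) (hΛ' : ∑' b, Λ' b ≤ 1) (j : ℕ) (c : List A → ℝ≥0∞) :
    II Λ Λ' j (fun Q _ _ _ => c Q) ≤ SL Λ j c := by
  refine SL_mono Λ j fun Q _ => ?_
  refine le_trans (ENNReal.tsum_le_tsum fun P => mul_le_mul_right ?_ _) (avg_le Λ hΛ (c Q))
  refine le_trans (SL_mono Λ' j fun Q' _ => avg_le Λ' hΛ' (c Q)) (SL_const_le Λ' hΛ' j _)

lemma II_two (hΛ : ∑' b, Λ b ≤ 1) (hΛ' : ∑' b, Λ' b ≤ 1) (j : ℕ) (c : List A' → ℝ≥0∞) :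
    II Λ Λ' j (fun _ _ Q' _ => c Q') ≤ SL Λ' j c := by
  refine le_trans (SL_mono Λ j fun Q _ => ?_) (SL_const_le Λ hΛ j _)
  refine le_trans (ENNReal.tsum_le_tsum fun P => mul_le_mul_right ?_ _) (avg_le Λ hΛ _)
  exact SL_mono Λ' j fun Q' _ => avg_le Λ' hΛ' (c Q')

lemma II_prod (hΛ : ∑' b, Λ b ≤ 1) (hΛ' : ∑' b, Λ' b ≤ 1) (j : ℕ) (a : A → ℝ≥0∞)
    (b : A' → ℝ≥0∞) :
    II Λ Λ' j (fun _ P _ P' => a P * b P') ≤ (∑' P, Λ P * a P) * ∑' P', Λ' P' * b P' := by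
  refine le_trans (SL_mono Λ j fun Q _ => ?_) (SL_const_le Λ hΛ j _)
  rw [← ENNReal.tsum_mul_right]
  refine ENNReal.tsum_le_tsum fun P => ?_
  rw [mul_assoc]
  refine mul_le_mul_right ?_ _
  refine le_trans (SL_mono Λ' j fun Q' _ => le_of_eq ?_) (SL_const_le Λ' hΛ' j _)
  rw [← ENNReal.tsum_mul_left]
  exact tsum_congr fun P' => by ring

open Classical in
lemma SS_fiber {G : Type*} (j : ℕ) (c : List A → List A' → ℝ≥0∞) (δ : List A → List A' → G)
    (κ : G → ℝ≥0∞) :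
    SL Λ j (fun Q => SL Λ' j (fun Q' => c Q Q' * κ (δ Q Q')))
      = ∑' x, (SL Λ j (fun Q => SL Λ' j (fun Q' => if δ Q Q' = x then c Q Q' else 0))) * κ x := by
  have e : ∀ Q Q', c Q Q' * κ (δ Q Q') = ∑' x, κ x * (if δ Q Q' = x then c Q Q' else 0) := by
    intro Q Q'
    rw [tsum_eq_single (δ Q Q')]
    · rw [if_pos rfl, mul_comm]
    · intro x hx
      rw [if_neg (Ne.symm hx), mul_zero]
  simp_rw [e]
  have e1 : ∀ Q, SL Λ' j (fun Q' => ∑' x, κ x * (if δ Q Q' = x then c Q Q' else 0))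
      = ∑' x, κ x * SL Λ' j (fun Q' => if δ Q Q' = x then c Q Q' else 0) :=
    fun Q => (tsum_SL Λ' κ j _).symm
  simp_rw [e1]
  rw [← tsum_SL]
  exact tsum_congr fun x => mul_comm _ _

open Classical in
lemma II_face {G : Type*} (j : ℕ) (c : List A → List A' → ℝ≥0∞) (δ : List A → List A' → G)
    (k : G → A → A' → ℝ≥0∞) :
    II Λ Λ' j (fun Q P Q' P' => c Q Q' * k (δ Q Q') P P')
      = ∑' x, (SL Λ j (fun Q => SL Λ' j (fun Q' => if δ Q Q' = x then c Q Q' else 0))) *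
        ∑' P, Λ P * ∑' P', Λ' P' * k x P P' := by
  rw [II_swap, ← SS_fiber Λ Λ' j c δ (fun x => ∑' P, Λ P * ∑' P', Λ' P' * k x P P')]
  refine SL_congr Λ j fun Q _ => SL_congr Λ' j fun Q' _ => ?_
  rw [← ENNReal.tsum_mul_left]
  refine tsum_congr fun P => ?_
  have e : ∑' P', Λ' P' * (c Q Q' * k (δ Q Q') P P') = c Q Q' * ∑' P', Λ' P' * k (δ Q Q') P P' := by
    rw [← ENNReal.tsum_mul_left]
    exact tsum_congr fun P' => by ring
  rw [e]; ring

end II

section one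

variable {B G : Type*} [AddCommGroup G] (Λ : B → ℝ≥0∞) (ht : B → ℕ) (z : B → G) (T : ℕ)

/-- key of a piece: height and displacement -/
def kz (P : Pc ht T) : ℤ × G := ((hP ht T P : ℤ), Dp z P.1)

open Classical in
/-- law of the key -/
noncomputable def pl (x : ℤ × G) : ℝ≥0∞ := ∑' P : Pc ht T, if kz ht z T P = x then wP Λ ht T P else 0

open Classical in
lemma sum_pl (F : ℤ × G → ℝ≥0∞) :
    ∑' x, F x * pl Λ ht z T x = ∑' P, wP Λ ht T P * F (kz ht z T P) := by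
  simp only [pl, ← ENNReal.tsum_mul_left]
  rw [ENNReal.tsum_comm]
  refine tsum_congr fun P => ?_
  rw [tsum_eq_single (kz ht z T P)]
  · rw [if_pos rfl, mul_comm]
  · intro x hx
    rw [if_neg (Ne.symm hx), mul_zero]

lemma kz_sum (Q : List (Pc ht T)) :
    (Q.map (kz ht z T)).sum = ((HT ht (fl ht Q) : ℤ), Dp z (fl ht Q)) := by
  induction Q with
  | nil => simp [fl_nil, HT_nil, Dp]; rfl
  | cons P Q ih =>
    rw [List.map_cons, List.sum_cons, ih, fl_cons, HT_append, Dp_append]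
    simp [kz, hP]

open Classical in
/-- quantile data of one walker -/
theorem quantile (h1 : ∀ b, 1 ≤ ht b) (hΛ : ∑' b, Λ b = 1) {u : ℝ≥0∞} (hu : u ≠ 0) (hu1 : u < 1) :
    ∃ θ : ℝ≥0∞, θ ≠ 0 ∧ θ ≤ 1 ∧
      (∑' P, wP Λ ht T P * (if pl Λ ht z T (kz ht z T P) < θ then 1 else 0)) ≤ u ∧
      (∀ h : ℤ, ∃ E : Finset G, (∀ y, θ ≤ pl Λ ht z T (h, y) → y ∈ E) ∧ (E.card : ℝ≥0∞) * θ ≤ 1) ∧
      (∀ j x, SL (wP Λ ht T) j (fun Q => if (∃ P ∈ Q, pl Λ ht z T (kz ht z T P) < 2 * θ) ∧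
        (Q.map (kz ht z T)).sum = x then 1 else 0) ≤ j * (2 * θ)) ∧
      (∀ j, SL (wP Λ ht T) j (fun Q => if ∃ P ∈ Q, pl Λ ht z T (kz ht z T P) < 2 * θ then 0 else 1)
        ≤ (1 - u) ^ j) := by
  have hs : ∑' x, pl Λ ht z T x = 1 := by
    have := sum_pl Λ ht z T (fun _ => 1)
    simp only [one_mul, mul_one] at this
    rw [this, sum_wP Λ ht h1 hΛ]
  obtain ⟨θ, h0, hθ1, hq1, hq2⟩ := AsmA789.quant (pl Λ ht z T) hs hu hu1
  refine ⟨θ, h0, hθ1, ?_, ?_, ?_, ?_⟩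
  · have := sum_pl Λ ht z T (fun x => if pl Λ ht z T x < θ then 1 else 0)
    rw [← this]
    refine le_trans (le_of_eq (tsum_congr fun x => ?_)) hq1
    split_ifs <;> simp
  · intro h
    have hinj : Function.Injective (fun y : G => ((h, y) : ℤ × G)) := fun a b e => by
      simpa using e
    have hle : ∑' y : G, pl Λ ht z T (h, y) ≤ 1 := by
      rw [← hs]
      exact ENNReal.tsum_comp_le_tsum_of_injective hinj _
    obtain ⟨hf, hc⟩ := AsmA789.card_le (fun y : G => pl Λ ht z T (h, y)) hle h0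
    refine ⟨hf.toFinset, fun y hy => by simpa using hy, ?_⟩
    rw [Set.ncard_eq_toFinset_card _ hf] at hc
    exact hc
  · intro j x
    refine le_trans (le_of_eq ?_) (AsmA789.dens (wP Λ ht T) (sum_wP Λ ht h1 hΛ T).le (kz ht z T)
      (fun P => pl Λ ht z T (kz ht z T P) < 2 * θ) (2 * θ) (fun x => ?_) j x)
    · refine SL_congr _ j fun Q _ => ?_
      congr
    by_cases hx : pl Λ ht z T x < 2 * θ
    · refine le_trans (ENNReal.tsum_le_tsum fun P => ?_) hx.le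
      by_cases h : kz ht z T P = x
      · rw [if_pos h]
        split_ifs
        · exact le_rfl
        · exact zero_le
      · rw [if_neg (fun hh => h hh.2)]; exact zero_le
    · refine le_trans (le_of_eq (ENNReal.tsum_eq_zero.2 fun P => ?_)) (zero_le)
      rw [if_neg]
      rintro ⟨ha, rfl⟩
      exact hx ha
  · intro j
    have e := AsmA789.nosmall (wP Λ ht T) (fun P => pl Λ ht z T (kz ht z T P) < 2 * θ) j
    refine le_trans (le_of_eq ?_) (le_trans (le_of_eq e) (pow_le_pow_left' ?_ j))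
    · refine SL_congr _ j fun Q _ => ?_
      congr
    refine ENNReal.le_sub_of_add_le_right (ne_top_of_lt hu1) ?_
    refine le_trans (le_of_eq (congrArg (· + u) (tsum_congr fun P => ?_)))
      (?_ : (∑' P, if pl Λ ht z T (kz ht z T P) < 2 * θ then 0 else wP Λ ht T P) + u ≤ 1)
    · congr
    calc (∑' P, if pl Λ ht z T (kz ht z T P) < 2 * θ then 0 else wP Λ ht T P) + u
        ≤ (∑' P, if pl Λ ht z T (kz ht z T P) < 2 * θ then 0 else wP Λ ht T P)
          + ∑' P, wP Λ ht T P * (if pl Λ ht z T (kz ht z T P) < 2 * θ then 1 else 0) := by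
          refine add_le_add le_rfl ?_
          rw [← sum_pl Λ ht z T (fun x => if pl Λ ht z T x < 2 * θ then 1 else 0)]
          refine hq2.trans (le_of_eq (tsum_congr fun x => ?_))
          split_ifs <;> simp
      _ = ∑' P, wP Λ ht T P := by
          rw [← ENNReal.tsum_add]
          refine tsum_congr fun P => ?_
          split_ifs <;> simp
      _ = 1 := sum_wP Λ ht h1 hΛ T

end one

end Crest.Agent.R154.Asm240
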