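import Crest.Agent.R154.AsmQ_39

/-! Row 154, ROAD 801 (helper39): list assembly, part 3: the piece law, one window. -/

set_option autoImplicit false

namespace Crest.Agent.R154.Asm39

open scoped ENNReal
open Crest.Agent.R154.B5A Crest.Agent.R154.FP178
open Crest.Agent.R154.Bind12 (TT Dp)

section law

variable {B G : Type*} [AddCommGroup G] (Λ : B → ℝ≥0∞) (ht : B → ℕ) (z : B → G)

/-- height and displacement of a list -/
def zA (A : List B) : ℤ × G := ((HT ht A : ℤ), Dp z A)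

open Classical in
/-- law of a piece -/
noncomputable def pl (T : ℕ) (q : ℤ × G) : ℝ≥0∞ := ∑' A, if zA ht z A = q then Lf Λ ht T A else 0

lemma pl_push (T : ℕ) (f : ℤ × G → ℝ≥0∞) :
    ∑' A, Lf Λ ht T A * f (zA ht z A) = ∑' q, pl Λ ht z T q * f q := by
  classical
  simp only [pl, ← ENNReal.tsum_mul_right]
  rw [ENNReal.tsum_comm]
  refine tsum_congr fun A => ?_
  rw [tsum_eq_single (zA ht z A)]
  · simp
  · intro q hq
    rw [if_neg (fun h => hq h.symm), zero_mul]

lemma Lf_one (h1 : ∀ b, 1 ≤ ht b) (hΛ : ∑' b, Λ b = 1) (T : ℕ) : ∑' A, Lf Λ ht T A = 1 := by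
  classical
  induction T using Nat.strong_induction_on with
  | _ a ih =>
    rcases Nat.eq_zero_or_pos a with rfl | ha
    · have := sum_fp_zero Λ ht (fun _ => 1)
      simp only [mul_one] at this
      simpa [Lf] using this
    · have := sum_fp_step Λ ht a ha (fun _ => 1)
      simp only [mul_one] at this
      simp only [Lf]
      rw [this]
      have e : ∀ b, Λ b * ∑' L, (if fp ht (a - ht b) L then LW Λ L else 0) = Λ b := by
        intro b
        have := ih (a - ht b) (by have := h1 b; omega)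
        simp only [Lf] at this
        rw [this, mul_one]
      rw [tsum_congr e, hΛ]

lemma pl_one (h1 : ∀ b, 1 ≤ ht b) (hΛ : ∑' b, Λ b = 1) (T : ℕ) : ∑' q, pl Λ ht z T q = 1 := by
  have := pl_push Λ ht z T (fun _ => 1)
  simp only [mul_one] at this
  rw [← this, Lf_one Λ ht h1 hΛ]

open Classical in
/-- all facts on the piece law at level `u` -/
theorem law_facts (h1 : ∀ b, 1 ≤ ht b) (hΛ : ∑' b, Λ b = 1) (T j : ℕ) {u : ℝ≥0∞} (hu : u ≠ 0)
    (hu1 : u < 1) : ∃ (θ : ℝ≥0∞) (E : ℕ → Finset G), θ ≠ 0 ∧ θ ≤ 1 ∧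
      (∀ h, ((E h).card : ℝ≥0∞) * θ ≤ 1) ∧
      (∀ A, Dp z A ∈ E (HT ht A) ↔ θ ≤ pl Λ ht z T (zA ht z A)) ∧
      (∑' A, (if Dp z A ∈ E (HT ht A) then 0 else Lf Λ ht T A) ≤ u) ∧
      (∑' As, Wj Λ ht T j As * (if ∃ P ∈ As, pl Λ ht z T (zA ht z P) < 2 * θ then 0 else 1)
        ≤ (1 - u) ^ j) ∧
      (∀ (c : ℕ) (x : G), ∑' As, Wj Λ ht T j As *
        (if (∃ P ∈ As, pl Λ ht z T (zA ht z P) < 2 * θ) ∧ HT ht As.flatten = c ∧
          Dp z As.flatten = x then 1 else 0) ≤ j * (2 * θ)) := by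
  obtain ⟨θ, hθ, hθ1, hq1, hq2⟩ := AsmA789.quant (pl Λ ht z T) (pl_one Λ ht z h1 hΛ T) hu hu1
  obtain ⟨hfin, hcard⟩ := AsmA789.card_le (pl Λ ht z T) (pl_one Λ ht z h1 hΛ T).le hθ
  have hinj : ∀ h : ℕ, Function.Injective (fun y : G => ((h : ℤ), y)) := by
    intro h a b hab
    exact (Prod.mk.inj hab).2
  have hfinh : ∀ h : ℕ, {y : G | θ ≤ pl Λ ht z T ((h : ℤ), y)}.Finite := fun h =>
    (hfin.preimage ((hinj h).injOn) : ((fun y : G => ((h : ℤ), y)) ⁻¹' {i | θ ≤ pl Λ ht z T i}).Finite)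
  refine ⟨θ, fun h => (hfinh h).toFinset, hθ, hθ1, ?_, ?_, ?_, ?_, ?_⟩
  · intro h
    refine le_trans (mul_le_mul_left ?_ _) hcard
    rw [← Set.ncard_eq_toFinset_card _ (hfinh h)]
    have : {y : G | θ ≤ pl Λ ht z T ((h : ℤ), y)}.ncard ≤ {i | θ ≤ pl Λ ht z T i}.ncard := by
      refine Set.ncard_le_ncard_of_injOn (fun y : G => ((h : ℤ), y)) (fun y hy => hy)
        ((hinj h).injOn) hfin
    exact_mod_cast this
  · intro A
    simp [zA]
  · have e : ∀ A : List B, (if Dp z A ∈ (hfinh (HT ht A)).toFinset then 0 else Lf Λ ht T A)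
        = Lf Λ ht T A * (if pl Λ ht z T (zA ht z A) < θ then 1 else 0) := by
      intro A
      by_cases h : θ ≤ pl Λ ht z T (zA ht z A)
      · rw [if_pos (by simpa [zA] using h), if_neg (not_lt.2 h), mul_zero]
      · rw [if_neg (by simpa [zA] using h), if_pos (not_le.1 h), mul_one]
    rw [tsum_congr e, pl_push Λ ht z T (fun q => if pl Λ ht z T q < θ then 1 else 0)]
    refine le_trans (le_of_eq (tsum_congr fun q => ?_)) hq1
    rw [mul_ite, mul_one, mul_zero]
  · have e := AsmA789.nosmall (Lf Λ ht T) (fun P => pl Λ ht z T (zA ht z P) < 2 * θ) j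
    rw [SL_eq_I] at e
    have e' : ∑' As, Wj Λ ht T j As * (if ∃ P ∈ As, pl Λ ht z T (zA ht z P) < 2 * θ then 0 else 1)
        = (∑' b, if pl Λ ht z T (zA ht z b) < 2 * θ then 0 else Lf Λ ht T b) ^ j := by
      refine Eq.trans ?_ (e.trans ?_)
      · simp only [I, Wj]
        refine tsum_congr fun As => ?_
        congr!
      · congr!
    rw [e']
    refine pow_le_pow_left' ?_ j
    have hs : ∑' A, (if pl Λ ht z T (zA ht z A) < 2 * θ then Lf Λ ht T A else 0)
        + ∑' A, (if pl Λ ht z T (zA ht z A) < 2 * θ then 0 else Lf Λ ht T A) = 1 := by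
      rw [← ENNReal.tsum_add, ← Lf_one Λ ht h1 hΛ T]
      refine tsum_congr fun A => ?_
      split_ifs <;> simp
    have hs' : u ≤ ∑' A, (if pl Λ ht z T (zA ht z A) < 2 * θ then Lf Λ ht T A else 0) := by
      have e2 := pl_push Λ ht z T (fun q => if pl Λ ht z T q < 2 * θ then 1 else 0)
      simp only [mul_ite, mul_one, mul_zero] at e2
      rw [e2]
      exact hq2
    refine ENNReal.le_sub_of_add_le_right (ne_top_of_lt hu1) ?_
    rw [← hs, add_comm]
    exact add_le_add hs' le_rfl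
  · intro c x
    have hM : ∀ q : ℤ × G, ∑' A, (if pl Λ ht z T (zA ht z A) < 2 * θ ∧ zA ht z A = q
        then Lf Λ ht T A else 0) ≤ 2 * θ := by
      intro q
      by_cases hq : pl Λ ht z T q < 2 * θ
      · refine le_trans (ENNReal.tsum_le_tsum fun A => ?_) (le_of_lt hq)
        by_cases h : zA ht z A = q
        · rw [if_pos h]; split_ifs <;> simp
        · rw [if_neg h, if_neg (fun h' => h h'.2)]
      · refine le_trans (le_of_eq ?_) (zero_le : (0 : ℝ≥0∞) ≤ 2 * θ)
        refine ENNReal.tsum_eq_zero.2 fun A => ?_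
        rw [if_neg]
        rintro ⟨h, h'⟩
        rw [h'] at h
        exact hq h
    have hd := AsmA789.dens (Lf Λ ht T) (Lf_one Λ ht h1 hΛ T).le (zA ht z)
      (fun P => pl Λ ht z T (zA ht z P) < 2 * θ) (2 * θ)
      (fun q => by convert hM q) j ((c : ℤ), x)
    rw [SL_eq_I] at hd
    refine le_trans (ENNReal.tsum_le_tsum fun As => ?_) hd
    simp only [Wj]
    refine mul_le_mul_right ?_ _
    have hz : (As.map (zA ht z)).sum = ((HT ht As.flatten : ℤ), Dp z As.flatten) := by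
      induction As with
      | nil => simp [HT, Dp]; rfl
      | cons A As ih =>
        rw [List.map_cons, List.sum_cons, ih, List.flatten_cons, HT_append, Dp_append, zA]
        simp
    by_cases h : (∃ P ∈ As, pl Λ ht z T (zA ht z P) < 2 * θ) ∧ HT ht As.flatten = c ∧
          Dp z As.flatten = x
    · rw [if_pos h, if_pos]
      refine ⟨h.1, ?_⟩
      rw [hz, h.2.1, h.2.2]
    · rw [if_neg h]; exact zero_le

end law

end Crest.Agent.R154.Asm39
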