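import Crest.Agent.R154.AsmQ_457

/-! Row 154, ROAD 801, abstract assembly (helper457), part 3: one window. -/

set_option autoImplicit false

namespace Crest.Agent.R154.Asm457

open scoped ENNReal
open Crest.Agent.R154.B5A Crest.Agent.R154.AsmA789

open Classical in
/-- indicator -/
noncomputable def ind (p : Prop) : ℝ≥0∞ := if p then 1 else 0

lemma ite_iff {p q : Prop} {ip : Decidable p} {iq : Decidable q} (h : p ↔ q) (a b : ℝ≥0∞) :
    @ite ℝ≥0∞ p ip a b = @ite ℝ≥0∞ q iq a b := by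
  by_cases hp : p
  · rw [if_pos hp, if_pos (h.1 hp)]
  · rw [if_neg hp, if_neg fun hq => hp (h.2 hq)]

lemma ind_pos {p : Prop} (h : p) : ind p = 1 := if_pos h
lemma ind_neg {p : Prop} (h : ¬ p) : ind p = 0 := if_neg h
lemma ind_le (p : Prop) : ind p ≤ 1 := by
  unfold ind
  split_ifs <;> simp

/-! ### quantile of the law of a first passage -/

section q

variable {B : Type*} {G : Type*} [AddCommGroup G]
variable (Λ : B → ℝ≥0∞) (h : B → ℕ) (z : B → G)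

open Classical in
/-- level set of the law of a piece -/
noncomputable def EE (l : ℕ) (th : ℝ≥0∞) (a : ℕ) : Finset G :=
  if hf : {x | th ≤ V Λ h z l (a, x)}.Finite then hf.toFinset else ∅

lemma EE_spec (h1 : ∀ b, 1 ≤ h b) (hΛ : ∑' b, Λ b = 1) (l : ℕ) {th : ℝ≥0∞} (hth : th ≠ 0) (a : ℕ) :
    (∀ x, x ∈ EE Λ h z l th a ↔ th ≤ V Λ h z l (a, x)) ∧ ((EE Λ h z l th a).card : ℝ≥0∞) * th ≤ 1 := by
  have h3 := card_le (fun x => V Λ h z l (a, x)) (V_snd Λ h z h1 hΛ l a) hth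
  have h4 : EE Λ h z l th a = h3.1.toFinset := by
    unfold EE
    rw [dif_pos h3.1]
  constructor
  · intro x
    rw [h4]
    simp
  · rw [h4, ← Set.ncard_eq_toFinset_card _ h3.1]
    exact h3.2

/-- everything needed on one walker -/
theorem quant_data (h1 : ∀ b, 1 ≤ h b) (hΛ : ∑' b, Λ b = 1) (u : ℝ≥0∞) (hu : u ≠ 0) (hu1 : u < 1)
    (l2 i0 J l1 : ℕ) (hJ : J * (l2 + i0) ≤ l1) :
    ∃ th : ℝ≥0∞, th ≠ 0 ∧ th ≤ 1 ∧
      (∑' Q, wt Λ h l2 i0 Q * ind (¬ Dp z Q ∈ EE Λ h z l2 th (HT h Q)) ≤ u) ∧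
      ∃ f Bb : ℕ × G → ℝ≥0∞, (∀ y, V Λ h z l1 y ≤ f y + Bb y) ∧ (∀ y, f y ≤ V Λ h z l1 y) ∧
        (∀ y, f y ≤ J * ((i0 + 1 : ℕ) * (2 * th))) ∧
        ∑' y, Bb y ≤ (1 - u) ^ J + J * ov Λ h i0 := by
  classical
  obtain ⟨th, hth0, hth1, hq1, hq2⟩ := quant (V Λ h z l2) (V_sum Λ h z h1 hΛ l2) hu hu1
  refine ⟨th, hth0, hth1, ?_, ?_⟩
  · have e := wt_fiber Λ h z l2 i0 (fun y => ind (¬ y.2 ∈ EE Λ h z l2 th y.1))
    rw [e]
    refine le_trans (ENNReal.tsum_le_tsum fun y => ?_) hq1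
    by_cases hc : y.1 ≤ l2 + i0
    · rw [if_pos hc]
      by_cases h4 : y.2 ∈ EE Λ h z l2 th y.1
      · rw [ind_neg (not_not.2 h4), mul_zero]; exact zero_le
      · rw [ind_pos h4, mul_one, if_pos]
        rw [(EE_spec Λ h z h1 hΛ l2 hth0 y.1).1 y.2] at h4
        exact not_le.1 h4
    · rw [if_neg hc, mul_zero]; exact zero_le
  · have hutop : u ≠ ⊤ := ne_top_of_lt hu1
    have hlg : ∑' y : ℕ × G, (if y.1 ≤ l2 + i0 ∧ ¬ V Λ h z l2 y < 2 * th then V Λ h z l2 y else 0)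
        ≤ 1 - u := by
      refine ENNReal.le_sub_of_add_le_right hutop ?_
      rw [← V_sum Λ h z h1 hΛ l2]
      refine (add_le_add le_rfl hq2).trans ?_
      rw [← ENNReal.tsum_add]
      refine ENNReal.tsum_le_tsum fun y => ?_
      by_cases h4 : V Λ h z l2 y < 2 * th
      · simp [h4]
      · simp only [h4, not_false_iff, and_true, if_false, add_zero]
        split_ifs <;> simp
    obtain ⟨Ag, Bb, b1, b2, b3⟩ := dens Λ h z h1 hΛ l2 i0 (2 * th) (1 - u) (ov Λ h i0)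
      tsub_le_self hlg (V_far Λ h z h1 hΛ i0 l2) J l1 hJ
    refine ⟨fun y => min (V Λ h z l1 y) (Ag y), Bb, fun y => ?_, fun y => min_le_left _ _,
      fun y => (min_le_right _ _).trans (b2 y), b3⟩
    beta_reduce
    rcases le_total (V Λ h z l1 y) (Ag y) with h5 | h5
    · rw [min_eq_left h5]; exact le_self_add
    · rw [min_eq_right h5]; exact b1 y

end q

variable {BX BY G : Type*} [AddCommGroup G]
variable (ΛX : BX → ℝ≥0∞) (ΛY : BY → ℝ≥0∞) (hX : BX → ℕ) (hY : BY → ℕ) (zX : BX → G) (zY : BY → G)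
  (sX : BX → Set (G × ℕ)) (sY : BY → Set (G × ℕ))

/-- the two pieces meet and all their common sites are at depths in `[lo, hi]` -/
def PE (a a' : ℕ) (x : G) (lo hi : ℕ) (Q : List BX) (Q' : List BY) : Prop :=
  (∃ z k, (z, k) ∈ TS hX zX sX Q 0 a ∧ (z, k) ∈ TS hY zY sY Q' x a') ∧
    ∀ z k, (z, k) ∈ TS hX zX sX Q 0 a → (z, k) ∈ TS hY zY sY Q' x a' → lo ≤ k ∧ k ≤ hi

open Classical in
/-- **(2)**: X local -/
def H2 (C : ℝ≥0∞) (us : ℕ → ℝ≥0∞) : Prop :=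
  ∀ (s h h' a a' lo hi : ℕ) (E : Finset G) (μ : G → ℝ≥0∞) (M lam : ℝ≥0∞),
    ∑' x, μ x ≤ 1 → (∀ x, μ x ≤ M) → M ≠ 0 → M ≠ ⊤ → lam ≠ 0 → lam ≠ ⊤ →
    a ≤ a' → a + h ≤ a' + h' → a + s ≤ lo → a' + s ≤ lo → hi + s ≤ a + h → hi + s ≤ a' + h' →
    ∑' x, μ x * ∑' L, ∑' L', (if HT hX L = h ∧ Dp zX L ∈ E ∧ HT hY L' = h' ∧
      (∃ z k, (z, k) ∈ TS hX zX sX L 0 a ∧ (z, k) ∈ TS hY zY sY L' x a') ∧
      (∀ z k, (z, k) ∈ TS hX zX sX L 0 a → (z, k) ∈ TS hY zY sY L' x a' → lo ≤ k ∧ k ≤ hi)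
      then LW ΛX L * LW ΛY L' else 0) ≤ C * (lam + M * E.card * us s / lam + us s)

open Classical in
/-- **(3)**: Y local -/
def H3 (C : ℝ≥0∞) (us : ℕ → ℝ≥0∞) : Prop :=
  ∀ (s h h' a a' lo hi : ℕ) (E : Finset G) (μ : G → ℝ≥0∞) (M lam : ℝ≥0∞),
    ∑' x, μ x ≤ 1 → (∀ x, μ x ≤ M) → M ≠ 0 → M ≠ ⊤ → lam ≠ 0 → lam ≠ ⊤ →
    a ≤ a' → a + h ≤ a' + h' → a + s ≤ lo → a' + s ≤ lo → hi + s ≤ a + h → hi + s ≤ a' + h' →
    ∑' x, μ x * ∑' L, ∑' L', (if HT hX L = h ∧ Dp zY L' ∈ E ∧ HT hY L' = h' ∧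
      (∃ z k, (z, k) ∈ TS hX zX sX L 0 a ∧ (z, k) ∈ TS hY zY sY L' x a') ∧
      (∀ z k, (z, k) ∈ TS hX zX sX L 0 a → (z, k) ∈ TS hY zY sY L' x a' → lo ≤ k ∧ k ≤ hi)
      then LW ΛX L * LW ΛY L' else 0) ≤ C * (lam + M * E.card * us s / lam + us s)

open Classical in
/-- weight of the pairs with a common site at depth exactly `k` -/
noncomputable def Pt (n k : ℕ) (w : G) : ℝ≥0∞ :=
  ∑' LX, ∑' LY, (if HT hX LX = n ∧ HT hY LY = n ∧
    (∃ z, (z, k) ∈ TS hX zX sX LX 0 0 ∧ (z, k) ∈ TS hY zY sY LY w 0)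
    then LW ΛX LX * LW ΛY LY else 0)

open Classical in
/-- weight of the pairs with a common site at a depth in `(m, m']` -/
noncomputable def Wn (n m m' : ℕ) (w : G) : ℝ≥0∞ :=
  ∑' LX, ∑' LY, (if HT hX LX = n ∧ HT hY LY = n ∧
    (∃ z k, m < k ∧ k ≤ m' ∧ (z, k) ∈ TS hX zX sX LX 0 0 ∧ (z, k) ∈ TS hY zY sY LY w 0)
    then LW ΛX LX * LW ΛY LY else 0)

open Classical in
/-- the pieces, with a weight -/
noncomputable def WF (l2 l2' i0 a a' lo hi : ℕ) (g : List BX → List BY → ℝ≥0∞) (x : G) : ℝ≥0∞ :=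
  ∑' Q, wt ΛX hX l2 i0 Q * ∑' Q', wt ΛY hY l2' i0 Q' *
    (ind (PE hX hY zX zY sX sY a a' x lo hi Q Q') * g Q Q')

lemma WF_le_one (h1X : ∀ b, 1 ≤ hX b) (h1Y : ∀ b, 1 ≤ hY b) (hΛX : ∑' b, ΛX b = 1)
    (hΛY : ∑' b, ΛY b = 1) (l2 l2' i0 a a' lo hi : ℕ) (g : List BX → List BY → ℝ≥0∞)
    (hg : ∀ Q Q', g Q Q' ≤ 1) (x : G) :
    WF ΛX ΛY hX hY zX zY sX sY l2 l2' i0 a a' lo hi g x ≤ 1 := by
  classical
  refine wsum_le _ _ 1 (wt_sum ΛX hX h1X hΛX _ _) fun Q => ?_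
  refine wsum_le _ _ 1 (wt_sum ΛY hY h1Y hΛY _ _) fun Q' => ?_
  calc _ ≤ (1 : ℝ≥0∞) * 1 := mul_le_mul' (ind_le _) (hg _ _)
    _ = 1 := one_mul 1

open Classical in
lemma WF_le (l2 l2' i0 a a' lo hi : ℕ) (D : ℕ → ℕ → List BX → List BY → Prop) (x : G) :
    WF ΛX ΛY hX hY zX zY sX sY l2 l2' i0 a a' lo hi
      (fun Q Q' => ind (D (HT hX Q) (HT hY Q') Q Q')) x
      ≤ ∑ h ∈ Finset.Icc l2 (l2 + i0), ∑ h' ∈ Finset.Icc l2' (l2' + i0), ∑' Q, ∑' Q',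
        (if HT hX Q = h ∧ HT hY Q' = h' ∧ D h h' Q Q' ∧ PE hX hY zX zY sX sY a a' x lo hi Q Q'
          then LW ΛX Q * LW ΛY Q' else 0) := by
  have e : ∑ h ∈ Finset.Icc l2 (l2 + i0), ∑ h' ∈ Finset.Icc l2' (l2' + i0), ∑' Q, ∑' Q',
        (if HT hX Q = h ∧ HT hY Q' = h' ∧ D h h' Q Q' ∧ PE hX hY zX zY sX sY a a' x lo hi Q Q'
          then LW ΛX Q * LW ΛY Q' else 0)
      = ∑' Q, ∑' Q', ∑ h ∈ Finset.Icc l2 (l2 + i0), ∑ h' ∈ Finset.Icc l2' (l2' + i0),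
        (if HT hX Q = h ∧ HT hY Q' = h' ∧ D h h' Q Q' ∧ PE hX hY zX zY sX sY a a' x lo hi Q Q'
          then LW ΛX Q * LW ΛY Q' else 0) := by
    simp_rw [← Summable.tsum_finsetSum (fun _ _ => ENNReal.summable)]
  rw [e, WF]
  refine ENNReal.tsum_le_tsum fun Q => ?_
  rw [← ENNReal.tsum_mul_left]
  refine ENNReal.tsum_le_tsum fun Q' => ?_
  unfold wt
  by_cases hQ : FP hX Q l2 ∧ HT hX Q ≤ l2 + i0
  · by_cases hQ' : FP hY Q' l2' ∧ HT hY Q' ≤ l2' + i0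
    · rw [if_pos hQ, if_pos hQ']
      by_cases hp : PE hX hY zX zY sX sY a a' x lo hi Q Q'
      · by_cases hd : D (HT hX Q) (HT hY Q') Q Q'
        · rw [ind_pos hp, ind_pos hd, mul_one, mul_one]
          have m1 : HT hX Q ∈ Finset.Icc l2 (l2 + i0) := Finset.mem_Icc.2 ⟨FP_ge hX hQ.1, hQ.2⟩
          have m2 : HT hY Q' ∈ Finset.Icc l2' (l2' + i0) :=
            Finset.mem_Icc.2 ⟨FP_ge hY hQ'.1, hQ'.2⟩
          refine le_trans ?_ (Finset.single_le_sum (f := fun h => ∑ h' ∈ Finset.Icc l2' (l2' + i0),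
            (if HT hX Q = h ∧ HT hY Q' = h' ∧ D h h' Q Q' ∧ PE hX hY zX zY sX sY a a' x lo hi Q Q'
              then LW ΛX Q * LW ΛY Q' else 0)) (fun _ _ => zero_le) m1)
          refine le_trans ?_ (Finset.single_le_sum (f := fun h' =>
            (if HT hX Q = HT hX Q ∧ HT hY Q' = h' ∧ D (HT hX Q) h' Q Q' ∧
              PE hX hY zX zY sX sY a a' x lo hi Q Q'
              then LW ΛX Q * LW ΛY Q' else 0)) (fun _ _ => zero_le) m2)
          rw [if_pos ⟨rfl, rfl, hd, hp⟩]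
        · rw [ind_neg hd, mul_zero, mul_zero, mul_zero]; exact zero_le
      · rw [ind_neg hp, zero_mul, mul_zero, mul_zero]; exact zero_le
    · rw [if_neg hQ', zero_mul, mul_zero]; exact zero_le
  · rw [if_neg hQ, zero_mul]; exact zero_le

/-- the number of the local terms -/
noncomputable def kap (C lam us Mc : ℝ≥0∞) (i0 : ℕ) : ℝ≥0∞ :=
  (i0 + 1 : ℕ) * ((i0 + 1 : ℕ) * (C * (lam + Mc * us / lam + us)))

open Classical in
lemma local_X (C : ℝ≥0∞) (us : ℕ → ℝ≥0∞) (H : H2 ΛX ΛY hX hY zX zY sX sY C us)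
    (s l2 l2' i0 a a' lo hi : ℕ) (E : ℕ → Finset G) (μ : G → ℝ≥0∞) (M Mc lam : ℝ≥0∞)
    (h1 : ∑' x, μ x ≤ 1) (h2 : ∀ x, μ x ≤ M) (hM0 : M ≠ 0) (hMt : M ≠ ⊤)
    (hE : ∀ h, M * (E h).card ≤ Mc) (hl0 : lam ≠ 0) (hlt : lam ≠ ⊤) (haa : a ≤ a')
    (hb : a + (l2 + i0) ≤ a' + l2') (h3 : a + s ≤ lo) (h4 : a' + s ≤ lo) (h5 : hi + s ≤ a + l2)
    (h6 : hi + s ≤ a' + l2') :
    ∑' x, μ x * WF ΛX ΛY hX hY zX zY sX sY l2 l2' i0 a a' lo hi
      (fun Q _ => ind (Dp zX Q ∈ E (HT hX Q))) x ≤ kap C lam (us s) Mc i0 := by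
  have e1 := fun x => WF_le ΛX ΛY hX hY zX zY sX sY l2 l2' i0 a a' lo hi
    (fun h _ Q _ => Dp zX Q ∈ E h) x
  refine (ENNReal.tsum_le_tsum fun x => mul_le_mul_right (e1 x) _).trans ?_
  simp_rw [Finset.mul_sum]
  simp_rw [Summable.tsum_finsetSum (fun _ _ => ENNReal.summable)]
  calc _ ≤ ∑ h ∈ Finset.Icc l2 (l2 + i0), ∑ h' ∈ Finset.Icc l2' (l2' + i0),
          C * (lam + Mc * us s / lam + us s) := by
        refine Finset.sum_le_sum fun h hh => Finset.sum_le_sum fun h' hh' => ?_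
        rw [Finset.mem_Icc] at hh hh'
        have := H s h h' a a' lo hi (E h) μ M lam h1 h2 hM0 hMt hl0 hlt haa (by omega) h3 h4
          (by omega) (by omega)
        refine le_trans (le_of_eq ?_) (this.trans ?_)
        · refine tsum_congr fun x => ?_
          congr 1
          refine tsum_congr fun Q => tsum_congr fun Q' => ?_
          refine ite_iff ?_ _ _
          unfold PE
          tauto
        · gcongr
          exact hE h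
    _ = _ := by
        rw [Finset.sum_const, Finset.sum_const, Nat.card_Icc, Nat.card_Icc, nsmul_eq_mul,
          nsmul_eq_mul, kap, show l2 + i0 + 1 - l2 = i0 + 1 by omega,
          show l2' + i0 + 1 - l2' = i0 + 1 by omega]

open Classical in
lemma local_Y (C : ℝ≥0∞) (us : ℕ → ℝ≥0∞) (H : H3 ΛX ΛY hX hY zX zY sX sY C us)
    (s l2 l2' i0 a a' lo hi : ℕ) (E : ℕ → Finset G) (μ : G → ℝ≥0∞) (M Mc lam : ℝ≥0∞)
    (h1 : ∑' x, μ x ≤ 1) (h2 : ∀ x, μ x ≤ M) (hM0 : M ≠ 0) (hMt : M ≠ ⊤)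
    (hE : ∀ h, M * (E h).card ≤ Mc) (hl0 : lam ≠ 0) (hlt : lam ≠ ⊤) (haa : a ≤ a')
    (hb : a + (l2 + i0) ≤ a' + l2') (h3 : a + s ≤ lo) (h4 : a' + s ≤ lo) (h5 : hi + s ≤ a + l2)
    (h6 : hi + s ≤ a' + l2') :
    ∑' x, μ x * WF ΛX ΛY hX hY zX zY sX sY l2 l2' i0 a a' lo hi
      (fun _ Q' => ind (Dp zY Q' ∈ E (HT hY Q'))) x ≤ kap C lam (us s) Mc i0 := by
  have e1 := fun x => WF_le ΛX ΛY hX hY zX zY sX sY l2 l2' i0 a a' lo hi
    (fun _ h' _ Q' => Dp zY Q' ∈ E h') x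
  refine (ENNReal.tsum_le_tsum fun x => mul_le_mul_right (e1 x) _).trans ?_
  simp_rw [Finset.mul_sum]
  simp_rw [Summable.tsum_finsetSum (fun _ _ => ENNReal.summable)]
  calc _ ≤ ∑ h ∈ Finset.Icc l2 (l2 + i0), ∑ h' ∈ Finset.Icc l2' (l2' + i0),
          C * (lam + Mc * us s / lam + us s) := by
        refine Finset.sum_le_sum fun h hh => Finset.sum_le_sum fun h' hh' => ?_
        rw [Finset.mem_Icc] at hh hh'
        have := H s h h' a a' lo hi (E h') μ M lam h1 h2 hM0 hMt hl0 hlt haa (by omega) h3 h4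
          (by omega) (by omega)
        refine le_trans (le_of_eq ?_) (this.trans ?_)
        · refine tsum_congr fun x => ?_
          congr 1
          refine tsum_congr fun Q => tsum_congr fun Q' => ?_
          refine ite_iff ?_ _ _
          unfold PE
          tauto
        · gcongr
          exact hE h'
    _ = _ := by
        rw [Finset.sum_const, Finset.sum_const, Nat.card_Icc, Nat.card_Icc, nsmul_eq_mul,
          nsmul_eq_mul, kap, show l2 + i0 + 1 - l2 = i0 + 1 by omega,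
          show l2' + i0 + 1 - l2' = i0 + 1 by omega]

end Crest.Agent.R154.Asm457
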