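import Crest.Agent.R154.FP_178
import Crest.Agent.R154.Dens_616

/-! Row 154, ROAD 801, abstract assembly (helper488, second copy of 540's). -/

set_option autoImplicit false

namespace Crest.Agent.R154.Asm488

open Crest.Agent.R154.B5A Crest.Agent.R154.FP178
open scoped ENNReal

section single
variable {B : Type*} (Λ : B → ℝ≥0∞) (ht : B → ℕ)

open Classical in
/-- weights of the good pieces -/
noncomputable def Lg (T I : ℕ) (P : List B) : ℝ≥0∞ :=
  if fp ht T P ∧ HT ht P ≤ T + I then LW Λ P else 0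

open Classical in
noncomputable def V (n : ℕ) (F : List B → ℝ≥0∞) : ℝ≥0∞ :=
  ∑' L, if HT ht L = n then LW Λ L * F L else 0

lemma Lg_ne {T I : ℕ} {P : List B} (h : Lg Λ ht T I P ≠ 0) : fp ht T P ∧ HT ht P ≤ T + I := by
  classical
  by_contra hc
  exact h (by rw [Lg, if_neg hc])

lemma V_mono (n : ℕ) {F F' : List B → ℝ≥0∞} (h : ∀ L, HT ht L = n → F L ≤ F' L) :
    V Λ ht n F ≤ V Λ ht n F' := by
  classical
  refine ENNReal.tsum_le_tsum fun L => ?_
  by_cases hL : HT ht L = n
  · rw [if_pos hL, if_pos hL]; exact mul_le_mul_right (h L hL) _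
  · rw [if_neg hL, if_neg hL]

lemma V_le_one (hU1 : ∀ n, U Λ ht n ≤ 1) (n : ℕ) {F : List B → ℝ≥0∞} (h : ∀ L, F L ≤ 1) :
    V Λ ht n F ≤ 1 := by
  classical
  refine le_trans ?_ (hU1 n)
  refine ENNReal.tsum_le_tsum fun L => ?_
  by_cases hL : HT ht L = n
  · rw [if_pos hL, if_pos hL]
    calc LW Λ L * F L ≤ LW Λ L * 1 := mul_le_mul_right (h L) _
      _ = _ := mul_one _
  · rw [if_neg hL, if_neg hL]

lemma sum_Lg_le (h1 : ∀ b, 1 ≤ ht b) (hΛ : ∑' b, Λ b ≤ 1) (T I : ℕ) :
    ∑' P, Lg Λ ht T I P ≤ 1 := by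
  classical
  refine le_trans ?_ (sum_FP Λ ht h1 hΛ T)
  refine ENNReal.tsum_le_tsum fun P => ?_
  rw [Lg]
  by_cases h : fp ht T P ∧ HT ht P ≤ T + I
  · rw [if_pos h, if_pos h.1]
  · rw [if_neg h]; exact zero_le

open Classical in
lemma V_step (h1 : ∀ b, 1 ≤ ht b) (hU1 : ∀ n, U Λ ht n ≤ 1) (T I : ℕ) (ε : ℝ≥0∞)
    (hε : ∑' P, (if fp ht T P ∧ T + I < HT ht P then LW Λ P else 0) ≤ ε)
    (n : ℕ) (hn : T + I ≤ n) (F : List B → ℝ≥0∞) (hF : ∀ L, F L ≤ 1) :
    V Λ ht n F ≤ ∑' P, Lg Λ ht T I P * V Λ ht (n - HT ht P) (fun R => F (P ++ R)) + ε := by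
  have e1 : V Λ ht n F
      = ∑' L, (if T ≤ HT ht L then LW Λ L * (if HT ht L = n then F L else 0) else 0) := by
    refine tsum_congr fun L => ?_
    by_cases h : HT ht L = n
    · rw [if_pos h, if_pos (by omega), if_pos h]
    · rw [if_neg h, if_neg h, mul_zero, ite_self]
  rw [e1, split Λ ht h1 T]
  refine le_trans ?_ (add_le_add_right hε _)
  rw [← ENNReal.tsum_add]
  refine ENNReal.tsum_le_tsum fun P => ?_
  by_cases hP : fp ht T P
  · rw [if_pos hP]
    by_cases hg : HT ht P ≤ T + I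
    · refine le_trans (le_of_eq ?_) le_self_add
      rw [Lg, if_pos ⟨hP, hg⟩]
      congr 1
      refine tsum_congr fun R => ?_
      rw [HT_append]
      by_cases hR : HT ht R = n - HT ht P
      · rw [if_pos hR, if_pos (by omega)]
      · rw [if_neg hR, if_neg (by omega), mul_zero]
    · refine le_trans ?_ le_add_self
      rw [if_pos ⟨hP, by omega⟩]
      calc LW Λ P * ∑' R, LW Λ R * (if HT ht (P ++ R) = n then F (P ++ R) else 0)
          ≤ LW Λ P * U Λ ht (n - HT ht P) := by
            refine mul_le_mul_right (ENNReal.tsum_le_tsum fun R => ?_) _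
            rw [HT_append]
            by_cases hR : HT ht P + HT ht R = n
            · rw [if_pos hR, if_pos (by omega)]
              calc LW Λ R * F (P ++ R) ≤ LW Λ R * 1 := mul_le_mul_right (hF _) _
                _ = _ := mul_one _
            · rw [if_neg hR, mul_zero]; exact zero_le
        _ ≤ LW Λ P * 1 := mul_le_mul_right (hU1 _) _
        _ = _ := mul_one _
  · rw [if_neg hP]; exact zero_le

open Classical in
lemma V_expand (h1 : ∀ b, 1 ≤ ht b) (hΛ : ∑' b, Λ b ≤ 1) (hU1 : ∀ n, U Λ ht n ≤ 1) (T I : ℕ)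
    (ε : ℝ≥0∞) (hε : ∑' P, (if fp ht T P ∧ T + I < HT ht P then LW Λ P else 0) ≤ ε) (J : ℕ) :
    ∀ n, J * (T + I) ≤ n → ∀ F : List B → ℝ≥0∞, (∀ L, F L ≤ 1) →
    V Λ ht n F ≤ SL (Lg Λ ht T I) J (fun Ls => V Λ ht (n - HT ht Ls.flatten)
      (fun R => F (Ls.flatten ++ R))) + J * ε := by
  induction J with
  | zero =>
    intro n _ F _
    rw [SL_zero]
    simp [HT_nil]
  | succ J ih =>
    intro n hn F hF
    have hn1 : T + I ≤ n := by
      refine le_trans ?_ hn
      exact Nat.le_mul_of_pos_left _ (Nat.succ_pos J)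
    refine (V_step Λ ht h1 hU1 T I ε hε n hn1 F hF).trans ?_
    have e : ∀ P, Lg Λ ht T I P * V Λ ht (n - HT ht P) (fun R => F (P ++ R))
        ≤ Lg Λ ht T I P * SL (Lg Λ ht T I) J (fun Ls =>
            V Λ ht (n - HT ht (P :: Ls).flatten) (fun R => F ((P :: Ls).flatten ++ R)))
          + Lg Λ ht T I P * (J * ε) := by
      intro P
      by_cases hP : Lg Λ ht T I P = 0
      · rw [hP]; simp
      · have hg := Lg_ne Λ ht hP
        rw [← mul_add]
        refine mul_le_mul_right ?_ _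
        have h2 := ih (n - HT ht P) (by
          have : (J + 1) * (T + I) = J * (T + I) + (T + I) := by ring
          omega) (fun R => F (P ++ R)) (fun L => hF _)
        refine h2.trans (add_le_add_left (le_of_eq ?_) _)
        congr 1
        funext Ls
        rw [List.flatten_cons, HT_append, Nat.sub_sub]
        congr 1
        funext R
        rw [List.append_assoc]
    rw [SL_succ]
    calc ∑' P, Lg Λ ht T I P * V Λ ht (n - HT ht P) (fun R => F (P ++ R)) + ε
        ≤ ∑' P, (Lg Λ ht T I P * SL (Lg Λ ht T I) J (fun Ls =>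
            V Λ ht (n - HT ht (P :: Ls).flatten) (fun R => F ((P :: Ls).flatten ++ R)))
          + Lg Λ ht T I P * (J * ε)) + ε := add_le_add_left (ENNReal.tsum_le_tsum e) _
      _ = _ + (∑' P, Lg Λ ht T I P) * (J * ε) + ε := by
          rw [ENNReal.tsum_add, ENNReal.tsum_mul_right]
      _ ≤ _ + 1 * (J * ε) + ε := by
          gcongr
          exact sum_Lg_le Λ ht h1 hΛ T I
      _ = _ := by rw [one_mul, add_assoc]; push_cast; ring_nf

end single

/-! ### part 2: smooth density and the half lemma on abstract alphabets -/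

section half
variable {C D G : Type*} [AddCommGroup G]

open Classical in
/-- weight of a list of length `j` -/
noncomputable def wj (Λ : C → ℝ≥0∞) (j : ℕ) (L : List C) : ℝ≥0∞ :=
  if L.length = j then LW Λ L else 0

lemma SL_eq (Λ : C → ℝ≥0∞) (j : ℕ) (F : List C → ℝ≥0∞) : SL Λ j F = ∑' L, wj Λ j L * F L := by
  rw [SL]
  refine tsum_congr fun L => ?_
  rw [wj]
  by_cases h : L.length = j <;> simp [h]

lemma SL_tsum {ι : Type*} (Λ : C → ℝ≥0∞) (j : ℕ) (F : ι → List C → ℝ≥0∞) :
    SL Λ j (fun L => ∑' i, F i L) = ∑' i, SL Λ j (F i) := by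
  simp only [SL_eq]
  rw [ENNReal.tsum_comm]
  exact tsum_congr fun L => ENNReal.tsum_mul_left.symm

lemma SL_le_one {Λ : C → ℝ≥0∞} (hΛ : ∑' b, Λ b ≤ 1) (j : ℕ) {F : List C → ℝ≥0∞}
    (hF : ∀ L, F L ≤ 1) : SL Λ j F ≤ 1 := by
  calc SL Λ j F ≤ SL Λ j (fun _ => 1) := SL_mono Λ j fun L _ => hF L
    _ = (∑' b, Λ b) ^ j := SL_pow Λ j
    _ ≤ 1 := pow_le_one₀ zero_le hΛ

lemma SL_le_const {Λ : C → ℝ≥0∞} (hΛ : ∑' b, Λ b ≤ 1) (j : ℕ) {F : List C → ℝ≥0∞} {c : ℝ≥0∞}
    (hF : ∀ L, F L ≤ c) : SL Λ j F ≤ c := by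
  calc SL Λ j F ≤ SL Λ j (fun _ => c * 1) := SL_mono Λ j fun L _ => by rw [mul_one]; exact hF L
    _ = c * SL Λ j (fun _ => 1) := SL_const_mul Λ j c _
    _ ≤ c * 1 := mul_le_mul_right (SL_le_one hΛ j fun _ => le_rfl) _
    _ = c := mul_one c

lemma wj_ne {Λ : C → ℝ≥0∞} {j : ℕ} {L : List C} (h : wj Λ j L ≠ 0) :
    L.length = j ∧ ∀ P ∈ L, Λ P ≠ 0 := by
  classical
  have h1 : L.length = j := by
    by_contra hc
    exact h (by rw [wj, if_neg hc])
  refine ⟨h1, fun P hP h0 => h ?_⟩
  rw [wj, if_pos h1, LW]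
  exact List.prod_eq_zero (List.mem_map.2 ⟨P, hP, h0⟩)

/-- monotonicity on the support -/
lemma SL_mono' (Λ : C → ℝ≥0∞) (j : ℕ) {F F' : List C → ℝ≥0∞}
    (h : ∀ L, L.length = j → (∀ P ∈ L, Λ P ≠ 0) → F L ≤ F' L) : SL Λ j F ≤ SL Λ j F' := by
  rw [SL_eq, SL_eq]
  refine ENNReal.tsum_le_tsum fun L => ?_
  by_cases hL : wj Λ j L = 0
  · rw [hL]; simp
  · exact mul_le_mul_right (h L (wj_ne hL).1 (wj_ne hL).2) _

/-- total displacement -/
def Dq (z : C → G) (L : List C) : G := (L.map z).sum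

lemma Dq_cons (z : C → G) (P : C) (L : List C) : Dq z (P :: L) = z P + Dq z L := by simp [Dq]

open Classical in
lemma hi_le (Λ : C → ℝ≥0∞) (low : C → Prop) (r : ℝ≥0∞)
    (hr : ∑' P, (if low P then 0 else Λ P) ≤ r) (j : ℕ) :
    SL Λ j (fun L => if ∀ P ∈ L, ¬ low P then 1 else 0) ≤ r ^ j := by
  induction j with
  | zero => rw [SL_zero]; simp
  | succ j ih =>
    rw [SL_succ, pow_succ, mul_comm]
    calc ∑' P, Λ P * SL Λ j (fun L => if ∀ Q ∈ P :: L, ¬ low Q then 1 else 0)
        ≤ ∑' P, (if low P then 0 else Λ P) * r ^ j := by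
          refine ENNReal.tsum_le_tsum fun P => ?_
          by_cases hP : low P
          · rw [if_pos hP, zero_mul]
            have : (fun L : List C => if ∀ Q ∈ P :: L, ¬ low Q then (1 : ℝ≥0∞) else 0)
                = fun _ => 0 := by
              funext L
              rw [if_neg]
              intro h
              exact h P (List.mem_cons_self) hP
            rw [this, SL_eq]
            simp
          · rw [if_neg hP]
            refine mul_le_mul_right (le_trans (SL_mono Λ j fun L _ => ?_) ih) _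
            by_cases hL : ∀ Q ∈ L, ¬ low Q
            · rw [if_pos hL]; split_ifs <;> simp
            · rw [if_neg hL, if_neg]
              intro h
              exact hL fun Q hQ => h Q (List.mem_cons_of_mem _ hQ)
      _ = (∑' P, (if low P then 0 else Λ P)) * r ^ j := ENNReal.tsum_mul_right
      _ ≤ r * r ^ j := mul_le_mul_left hr _

open Classical in
lemma smooth (Λ : C → ℝ≥0∞) (hΛ : ∑' P, Λ P ≤ 1) (h : C → ℕ) (z : C → G) (low : C → Prop)
    (th r Gd : ℝ≥0∞)
    (hlow : ∀ b y, ∑' P, (if low P ∧ h P = b ∧ z P = y then Λ P else 0) ≤ th)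
    (hr : ∑' P, (if low P then 0 else Λ P) ≤ r) (hG : th + r * Gd ≤ Gd) (j : ℕ) :
    ∀ a y, SL Λ j (fun L => if ¬ (∀ P ∈ L, ¬ low P) ∧ HT h L = a ∧ Dq z L = y then 1 else 0)
      ≤ Gd := by
  induction j with
  | zero => intro a y; rw [SL_zero]; simp
  | succ j ih =>
    intro a y
    rw [SL_succ]
    have key : ∀ P, Λ P * SL Λ j (fun L => if ¬ (∀ Q ∈ P :: L, ¬ low Q) ∧ HT h (P :: L) = a ∧
          Dq z (P :: L) = y then 1 else 0)
        ≤ (if low P then Λ P else 0) * SL Λ j (fun L => if h P = a - HT h L ∧ z P = y - Dq z L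
            then 1 else 0) + (if low P then 0 else Λ P) * Gd := by
      intro P
      by_cases hP : low P
      · rw [if_pos hP, if_pos hP, zero_mul, add_zero]
        refine mul_le_mul_right (SL_mono Λ j fun L _ => ?_) _
        by_cases hc : ¬ (∀ Q ∈ P :: L, ¬ low Q) ∧ HT h (P :: L) = a ∧ Dq z (P :: L) = y
        · rw [if_pos hc, if_pos]
          rw [HT_cons, Dq_cons] at hc
          refine ⟨by omega, ?_⟩
          rw [← hc.2.2]; abel
        · rw [if_neg hc]; exact zero_le
      · rw [if_neg hP, if_neg hP, zero_mul, zero_add]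
        refine mul_le_mul_right (le_trans (SL_mono Λ j fun L _ => ?_) (ih (a - h P) (y - z P))) _
        by_cases hc : ¬ (∀ Q ∈ P :: L, ¬ low Q) ∧ HT h (P :: L) = a ∧ Dq z (P :: L) = y
        · rw [if_pos hc, if_pos]
          rw [HT_cons, Dq_cons] at hc
          refine ⟨?_, by omega, by rw [← hc.2.2]; abel⟩
          intro hh
          refine hc.1 fun Q hQ => ?_
          rcases List.mem_cons.1 hQ with rfl | hQ
          · exact hP
          · exact hh Q hQ
        · rw [if_neg hc]; exact zero_le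
    refine (ENNReal.tsum_le_tsum key).trans ?_
    rw [ENNReal.tsum_add, ENNReal.tsum_mul_right]
    refine le_trans (add_le_add ?_ (mul_le_mul_left hr Gd)) hG
    have e1 : ∑' P, (if low P then Λ P else 0) * SL Λ j (fun L =>
          if h P = a - HT h L ∧ z P = y - Dq z L then 1 else 0)
        = SL Λ j (fun L => ∑' P, (if low P ∧ h P = a - HT h L ∧ z P = y - Dq z L
            then Λ P else 0)) := by
      rw [SL_tsum]
      refine tsum_congr fun P => ?_
      rw [← SL_const_mul]
      congr 1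
      funext L
      by_cases hP : low P
      · by_cases hc : h P = a - HT h L ∧ z P = y - Dq z L
        · rw [if_pos hP, if_pos hc, if_pos ⟨hP, hc⟩, mul_one]
        · have hc' : ¬ (low P ∧ h P = a - HT h L ∧ z P = y - Dq z L) := fun hh => hc hh.2
          rw [if_neg hc, mul_zero, if_neg hc']
      · have hc' : ¬ (low P ∧ h P = a - HT h L ∧ z P = y - Dq z L) := fun hh => hP hh.1
        rw [if_neg hP, zero_mul, if_neg hc']
    rw [e1]
    exact SL_le_const hΛ j fun L => hlow _ _

open Classical in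
/-- **half lemma** -/
theorem half (Λ : C → ℝ≥0∞) (Λ' : D → ℝ≥0∞) (hΛ : ∑' P, Λ P ≤ 1) (hΛ' : ∑' P, Λ' P ≤ 1)
    (h : C → ℕ) (z : C → G) (h' : D → ℕ) (z' : D → G) (low : C → Prop) (th r Gd : ℝ≥0∞)
    (hlow : ∀ b y, ∑' P, (if low P ∧ h P = b ∧ z P = y then Λ P else 0) ≤ th)
    (hr : ∑' P, (if low P then 0 else Λ P) ≤ r) (hG : th + r * Gd ≤ Gd) (j : ℕ) (w : G)
    (H : ℕ → ℕ → G → ℝ≥0∞) (RA : Finset ℕ)
    (hRA : ∀ L : List C, L.length = j → (∀ P ∈ L, Λ P ≠ 0) → HT h L ∈ RA)
    (hRA' : ∀ L : List D, L.length = j → (∀ P ∈ L, Λ' P ≠ 0) → HT h' L ∈ RA)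
    (hH1 : ∀ a a' x, H a a' x ≤ 1) (Bd : ℝ≥0∞)
    (hH : ∀ a ∈ RA, ∀ a' ∈ RA, ∀ μ : G → ℝ≥0∞, ∑' x, μ x ≤ 1 → (∀ x, μ x ≤ Gd) →
      ∑' x, μ x * H a a' x ≤ Bd) :
    SL Λ j (fun L => SL Λ' j (fun L' => H (HT h L) (HT h' L') (w + Dq z' L' - Dq z L)))
      ≤ r ^ j + RA.card * (RA.card * Bd) := by
  set inner : List C → ℝ≥0∞ := fun L =>
    SL Λ' j (fun L' => H (HT h L) (HT h' L') (w + Dq z' L' - Dq z L)) with hin
  have hin1 : ∀ L, inner L ≤ 1 := fun L => SL_le_one hΛ' j fun L' => hH1 _ _ _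
  -- the joint law
  set μ : ℕ → ℕ → G → ℝ≥0∞ := fun a a' x => SL Λ j (fun L => if ∀ P ∈ L, ¬ low P then 0 else
    SL Λ' j (fun L' => if HT h L = a ∧ HT h' L' = a' ∧ w + Dq z' L' - Dq z L = x then 1 else 0))
    with hμ
  have hμ1 : ∀ a a', ∑' x, μ a a' x ≤ 1 := by
    intro a a'
    rw [hμ]
    simp only
    rw [← SL_tsum]
    refine SL_le_one hΛ j fun L => ?_
    by_cases hL : ∀ P ∈ L, ¬ low P
    · simp only [if_pos hL, tsum_zero]; exact zero_le
    · simp only [if_neg hL]
      rw [← SL_tsum]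
      refine SL_le_one hΛ' j fun L' => ?_
      rw [tsum_eq_single (w + Dq z' L' - Dq z L)]
      · split_ifs <;> simp
      · intro x hx
        rw [if_neg]
        rintro ⟨_, _, h3⟩
        exact hx h3.symm
  have hμG : ∀ a a' x, μ a a' x ≤ Gd := by
    intro a a' x
    have e : μ a a' x ≤ SL Λ' j (fun L' => SL Λ j (fun L =>
        if ¬ (∀ P ∈ L, ¬ low P) ∧ HT h L = a ∧ Dq z L = w + Dq z' L' - x then 1 else 0)) := by
      rw [hμ]
      simp only
      have : ∀ L : List C, (if ∀ P ∈ L, ¬ low P then (0 : ℝ≥0∞) else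
          SL Λ' j (fun L' => if HT h L = a ∧ HT h' L' = a' ∧ w + Dq z' L' - Dq z L = x
            then 1 else 0))
          ≤ SL Λ' j (fun L' => if ¬ (∀ P ∈ L, ¬ low P) ∧ HT h L = a ∧
              Dq z L = w + Dq z' L' - x then 1 else 0) := by
        intro L
        by_cases hL : ∀ P ∈ L, ¬ low P
        · rw [if_pos hL]; exact zero_le
        · rw [if_neg hL]
          refine SL_mono Λ' j fun L' _ => ?_
          by_cases hc : HT h L = a ∧ HT h' L' = a' ∧ w + Dq z' L' - Dq z L = x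
          · rw [if_pos hc, if_pos]
            refine ⟨hL, hc.1, ?_⟩
            rw [← hc.2.2]; abel
          · rw [if_neg hc]; exact zero_le
      refine (SL_mono Λ j fun L _ => this L).trans (le_of_eq ?_)
      simp only [SL_eq]
      simp only [← ENNReal.tsum_mul_left]
      rw [ENNReal.tsum_comm]
      refine tsum_congr fun L' => tsum_congr fun L => ?_
      ring
    refine e.trans (SL_le_const hΛ' j fun L' => ?_)
    exact smooth Λ hΛ h z low th r Gd hlow hr hG j a _
  calc SL Λ j inner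
      ≤ SL Λ j (fun L => (if ∀ P ∈ L, ¬ low P then 1 else 0)
          + (if ∀ P ∈ L, ¬ low P then 0 else inner L)) := by
        refine SL_mono Λ j fun L _ => ?_
        by_cases hL : ∀ P ∈ L, ¬ low P
        · rw [if_pos hL, if_pos hL, add_zero]; exact hin1 L
        · rw [if_neg hL, if_neg hL, zero_add]
    _ = SL Λ j (fun L => if ∀ P ∈ L, ¬ low P then 1 else 0)
          + SL Λ j (fun L => if ∀ P ∈ L, ¬ low P then 0 else inner L) := SL_add_fun Λ j _ _
    _ ≤ r ^ j + ∑ a ∈ RA, ∑ a' ∈ RA, ∑' x, μ a a' x * H a a' x := by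
        refine add_le_add (hi_le Λ low r hr j) ?_
        have e2 : ∑ a ∈ RA, ∑ a' ∈ RA, ∑' x, μ a a' x * H a a' x
            = SL Λ j (fun L => if ∀ P ∈ L, ¬ low P then 0 else SL Λ' j (fun L' =>
                ∑ a ∈ RA, ∑ a' ∈ RA, ∑' x, (if HT h L = a ∧ HT h' L' = a' ∧
                  w + Dq z' L' - Dq z L = x then 1 else 0) * H a a' x)) := by
          simp only [hμ, SL_eq]
          have hs : ∀ (f : ℕ → List D → ℝ≥0∞) (s : Finset ℕ),
              ∑ a ∈ s, ∑' L', f a L' = ∑' L', ∑ a ∈ s, f a L' := fun f s =>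
            (Summable.tsum_finsetSum (fun _ _ => ENNReal.summable)).symm
          have hs2 : ∀ (f : ℕ → List C → ℝ≥0∞) (s : Finset ℕ),
              ∑ a ∈ s, ∑' L', f a L' = ∑' L', ∑ a ∈ s, f a L' := fun f s =>
            (Summable.tsum_finsetSum (fun _ _ => ENNReal.summable)).symm
          have h3 : ∀ a a', ∑' x, (∑' L, wj Λ j L * (if ∀ P ∈ L, ¬ low P then 0 else
              ∑' L', wj Λ' j L' * (if HT h L = a ∧ HT h' L' = a' ∧ w + Dq z' L' - Dq z L = x
                then 1 else 0))) * H a a' x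
              = ∑' L, wj Λ j L * (if ∀ P ∈ L, ¬ low P then 0 else
              ∑' L', wj Λ' j L' * ∑' x, (if HT h L = a ∧ HT h' L' = a' ∧ w + Dq z' L' - Dq z L = x
                then 1 else 0) * H a a' x) := by
            intro a a'
            simp only [← ENNReal.tsum_mul_right]
            rw [ENNReal.tsum_comm]
            refine tsum_congr fun L => ?_
            by_cases hL : ∀ P ∈ L, ¬ low P
            · simp [if_pos hL]
            · simp only [if_neg hL]
              simp only [← ENNReal.tsum_mul_left, ← ENNReal.tsum_mul_right]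
              rw [ENNReal.tsum_comm]
              refine tsum_congr fun L' => tsum_congr fun x => ?_
              ring
          rw [Finset.sum_congr rfl fun a _ => Finset.sum_congr rfl fun a' _ => h3 a a']
          rw [Finset.sum_congr rfl fun a _ => hs2 _ RA, hs2]
          refine tsum_congr fun L => ?_
          by_cases hL : ∀ P ∈ L, ¬ low P
          · simp [if_pos hL]
          · simp only [if_neg hL]
            simp only [← Finset.mul_sum]
            congr 1
            rw [Finset.sum_congr rfl fun a _ => hs _ RA, hs]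
            refine tsum_congr fun L' => ?_
            simp only [Finset.mul_sum]
        rw [e2]
        refine SL_mono' Λ j fun L hLl hL0 => ?_
        by_cases hL : ∀ P ∈ L, ¬ low P
        · rw [if_pos hL, if_pos hL]
        · rw [if_neg hL, if_neg hL]
          refine SL_mono' Λ' j fun L' hLl' hL0' => ?_
          have ha := hRA L hLl hL0
          have ha' := hRA' L' hLl' hL0'
          refine le_trans ?_ (Finset.single_le_sum (f := fun a => ∑ a' ∈ RA, ∑' x,
            (if HT h L = a ∧ HT h' L' = a' ∧ w + Dq z' L' - Dq z L = x then 1 else 0) * H a a' x)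
            (fun _ _ => zero_le) ha)
          refine le_trans ?_ (Finset.single_le_sum (f := fun a' => ∑' x,
            (if HT h L = HT h L ∧ HT h' L' = a' ∧ w + Dq z' L' - Dq z L = x then 1 else 0)
              * H (HT h L) a' x) (fun _ _ => zero_le) ha')
          refine le_trans ?_ (ENNReal.le_tsum (w + Dq z' L' - Dq z L))
          simp
    _ ≤ r ^ j + ∑ a ∈ RA, ∑ a' ∈ RA, Bd := by
        gcongr with a ha a' ha'
        exact hH a ha a' ha' _ (hμ1 a a') (hμG a a')
    _ = _ := by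
        rw [Finset.sum_const, Finset.sum_const, nsmul_eq_mul, nsmul_eq_mul]

end half

end Crest.Agent.R154.Asm488
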