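import Crest.Agent.R154.AsmQ_648

/-! Row 154, ROAD 801 (helper648): assembly, part 3: attempt law, pushforward. -/

set_option autoImplicit false

namespace Crest.Agent.R154.Asm648

open scoped ENNReal
open Crest.Agent.R154.B5A

section law

variable {B G : Type*} [AddCommGroup G] (Λ : B → ℝ≥0∞) (ht : B → ℕ) (z : B → G) (T : ℕ)

open Classical in
/-- attempt law -/
noncomputable def pL (h : ℕ) (x : G) : ℝ≥0∞ :=
  ∑' P : Pc ht T, if hP ht T P = h ∧ Dp z P.1 = x then wP Λ ht T P else 0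

open Classical in
lemma regroup (φ : ℕ × G → Prop) :
    ∑' i : ℕ × G, (if φ i then pL Λ ht z T i.1 i.2 else 0)
      = ∑' P : Pc ht T, (if φ (hP ht T P, Dp z P.1) then wP Λ ht T P else 0) := by
  have e : ∀ i : ℕ × G, (if φ i then pL Λ ht z T i.1 i.2 else 0)
      = ∑' P : Pc ht T, (if i = (hP ht T P, Dp z P.1) then
          (if φ i then wP Λ ht T P else 0) else 0) := by
    intro i
    rw [pL]
    by_cases h : φ i
    · simp only [h, if_true]
      refine tsum_congr fun P => ?_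
      by_cases h2 : hP ht T P = i.1 ∧ Dp z P.1 = i.2
      · rw [if_pos h2, if_pos (Prod.ext h2.1.symm h2.2.symm)]
      · rw [if_neg h2, if_neg (fun h3 => h2 ⟨(congrArg Prod.fst h3).symm,
          (congrArg Prod.snd h3).symm⟩)]
    · simp [h]
  rw [tsum_congr e, ENNReal.tsum_comm]
  refine tsum_congr fun P => ?_
  rw [tsum_eq_single (hP ht T P, Dp z P.1)]
  · simp
  · intro i hi; rw [if_neg hi]

lemma sum_pL (h1 : ∀ b, 1 ≤ ht b) (hΛ : ∑' b, Λ b = 1) :
    ∑' i : ℕ × G, pL Λ ht z T i.1 i.2 = 1 := by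
  classical
  have := regroup Λ ht z T (fun _ => True)
  simp only [if_true] at this
  rw [this]; exact sum_wP Λ ht h1 hΛ T

lemma sum_pL_le (h1 : ∀ b, 1 ≤ ht b) (hΛ : ∑' b, Λ b = 1) (h : ℕ) :
    ∑' x : G, pL Λ ht z T h x ≤ 1 := by
  rw [← sum_pL Λ ht z T h1 hΛ]
  exact ENNReal.tsum_comp_le_tsum_of_injective
    (f := fun x : G => (h, x)) (fun x y hxy => (congrArg Prod.snd hxy))
    (fun i : ℕ × G => pL Λ ht z T i.1 i.2)

open Classical in
lemma hM_bound (i0 : ℕ) (θ : ℝ≥0∞) (x : G) :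
    ∑' P : Pc ht T, (if (hP ht T P ≤ T + i0 ∧ pL Λ ht z T (hP ht T P) (Dp z P.1) < θ) ∧
      Dp z P.1 = x then wP Λ ht T P else 0) ≤ (i0 + 1) * θ := by
  calc ∑' P : Pc ht T, (if (hP ht T P ≤ T + i0 ∧ pL Λ ht z T (hP ht T P) (Dp z P.1) < θ) ∧
      Dp z P.1 = x then wP Λ ht T P else 0)
      ≤ ∑' P : Pc ht T, ∑ h ∈ Finset.Icc T (T + i0),
          (if pL Λ ht z T h x < θ then (if hP ht T P = h ∧ Dp z P.1 = x then wP Λ ht T P else 0)
            else 0) := by
        refine ENNReal.tsum_le_tsum fun P => ?_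
        by_cases h : (hP ht T P ≤ T + i0 ∧ pL Λ ht z T (hP ht T P) (Dp z P.1) < θ) ∧ Dp z P.1 = x
        · rw [if_pos h]
          refine le_trans ?_ (Finset.single_le_sum (f := fun h' =>
            (if pL Λ ht z T h' x < θ then (if hP ht T P = h' ∧ Dp z P.1 = x then wP Λ ht T P else 0)
            else 0)) (fun _ _ => zero_le) (Finset.mem_Icc.2 ⟨le_hP ht P, h.1.1⟩))
          show _ ≤ (if pL Λ ht z T (hP ht T P) x < θ then _ else _)
          rw [if_pos (by rw [← h.2]; exact h.1.2), if_pos ⟨rfl, h.2⟩]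
        · rw [if_neg h]; exact zero_le
    _ = ∑ h ∈ Finset.Icc T (T + i0), (if pL Λ ht z T h x < θ then pL Λ ht z T h x else 0) := by
        rw [Summable.tsum_finsetSum (fun _ _ => ENNReal.summable)]
        refine Finset.sum_congr rfl fun h _ => ?_
        by_cases h2 : pL Λ ht z T h x < θ
        · simp only [h2, if_true]; rfl
        · simp [h2]
    _ ≤ ∑ _h ∈ Finset.Icc T (T + i0), θ := by
        refine Finset.sum_le_sum fun h _ => ?_
        split_ifs with h2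
        · exact h2.le
        · exact zero_le
    _ = _ := by
        rw [Finset.sum_const, Nat.card_Icc, nsmul_eq_mul]
        congr 1
        rw [show T + i0 + 1 - T = i0 + 1 by omega]
        push_cast; rfl

end law

section push

variable {BX BY G : Type*} [AddCommGroup G] (ΛX : BX → ℝ≥0∞) (ΛY : BY → ℝ≥0∞)
  (hX : BX → ℕ) (hY : BY → ℕ) (zX : BX → G) (zY : BY → G)
  (sX : BX → Set (G × ℕ)) (sY : BY → Set (G × ℕ))

open Classical in
/-- pushforward to (heights, relative displacement) -/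
lemma push {T : ℕ} (j : ℕ) (w : G) (cX : List (Pc hX T) → Prop) (cY : List (Pc hY T) → Prop)
    (A : Finset ℕ) (hA : ∀ Q, Q.length = j → cX Q → HT hX (fl hX Q) ∈ A)
    (hA' : ∀ Q, Q.length = j → cY Q → HT hY (fl hY Q) ∈ A) (Φ : ℕ → ℕ → G → ℝ≥0∞) :
    SL (wP ΛX hX T) j (fun Q => SL (wP ΛY hY T) j (fun Q' => if cX Q ∧ cY Q' then
      Φ (HT hX (fl hX Q)) (HT hY (fl hY Q')) (w + Dp zY (fl hY Q') - Dp zX (fl hX Q)) else 0))
      ≤ ∑ a ∈ A, ∑ a' ∈ A, ∑' x : G, (SL (wP ΛX hX T) j (fun Q => SL (wP ΛY hY T) j (fun Q' =>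
          if cX Q ∧ cY Q' ∧ HT hX (fl hX Q) = a ∧ HT hY (fl hY Q') = a' ∧
            w + Dp zY (fl hY Q') - Dp zX (fl hX Q) = x then 1 else 0))) * Φ a a' x := by
  have e1 : ∀ Q : List (Pc hX T), Q.length = j → ∀ Q' : List (Pc hY T), Q'.length = j →
      (if cX Q ∧ cY Q' then
      Φ (HT hX (fl hX Q)) (HT hY (fl hY Q')) (w + Dp zY (fl hY Q') - Dp zX (fl hX Q)) else 0)
      ≤ ∑ a ∈ A, ∑ a' ∈ A, ∑' x : G, Φ a a' x * (if cX Q ∧ cY Q' ∧ HT hX (fl hX Q) = a ∧
        HT hY (fl hY Q') = a' ∧ w + Dp zY (fl hY Q') - Dp zX (fl hX Q) = x then 1 else 0) := by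
    intro Q hQ Q' hQ'
    by_cases hc : cX Q ∧ cY Q'
    · rw [if_pos hc]
      refine le_trans ?_ (Finset.single_le_sum (f := fun a => ∑ a' ∈ A, ∑' x : G, Φ a a' x *
        (if cX Q ∧ cY Q' ∧ HT hX (fl hX Q) = a ∧
        HT hY (fl hY Q') = a' ∧ w + Dp zY (fl hY Q') - Dp zX (fl hX Q) = x then 1 else 0))
        (fun _ _ => zero_le) (hA Q hQ hc.1))
      refine le_trans ?_ (Finset.single_le_sum (f := fun a' => ∑' x : G,
        Φ (HT hX (fl hX Q)) a' x *
        (if cX Q ∧ cY Q' ∧ HT hX (fl hX Q) = HT hX (fl hX Q) ∧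
        HT hY (fl hY Q') = a' ∧ w + Dp zY (fl hY Q') - Dp zX (fl hX Q) = x then 1 else 0))
        (fun _ _ => zero_le) (hA' Q' hQ' hc.2))
      refine le_trans ?_ (ENNReal.le_tsum (w + Dp zY (fl hY Q') - Dp zX (fl hX Q)))
      rw [if_pos ⟨hc.1, hc.2, rfl, rfl, rfl⟩, mul_one]
    · rw [if_neg hc]; exact zero_le
  calc _ ≤ SL (wP ΛX hX T) j (fun Q => SL (wP ΛY hY T) j (fun Q' =>
        ∑ a ∈ A, ∑ a' ∈ A, ∑' x : G, Φ a a' x * (if cX Q ∧ cY Q' ∧ HT hX (fl hX Q) = a ∧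
        HT hY (fl hY Q') = a' ∧ w + Dp zY (fl hY Q') - Dp zX (fl hX Q) = x then 1 else 0))) :=
        SL_mono _ j fun Q hQ => SL_mono _ j fun Q' hQ' => e1 Q hQ Q' hQ'
    _ = _ := by
        simp only [SL_sum, SL_tsum, SL_const_mul]
        refine Finset.sum_congr rfl fun a _ => Finset.sum_congr rfl fun a' _ =>
          tsum_congr fun x => mul_comm _ _

open Classical in
/-- **one local case**: everything is paid by the window hypothesis `H` -/
theorem push_bound {T : ℕ} (h1X : ∀ b, 1 ≤ hX b) (h1Y : ∀ b, 1 ≤ hY b)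
    (hΛX : ∑' b, ΛX b = 1) (hΛY : ∑' b, ΛY b = 1) (j : ℕ) (w : G) (lo hi : ℕ)
    (cX : List (Pc hX T) → Prop) (cY : List (Pc hY T) → Prop)
    (lX : Pc hX T → Prop) (lY : Pc hY T → Prop) (rX : List BX → Prop) (rY : List BY → Prop)
    (hrX : ∀ P, lX P → rX P.1) (hrY : ∀ P, lY P → rY P.1)
    (A D : Finset ℕ) (hA : ∀ Q, Q.length = j → cX Q → HT hX (fl hX Q) ∈ A)
    (hA' : ∀ Q, Q.length = j → cY Q → HT hY (fl hY Q) ∈ A)
    (hD : ∀ P, lX P → HT hX P.1 ∈ D) (hD' : ∀ P, lY P → HT hY P.1 ∈ D)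
    (M K0 : ℝ≥0∞)
    (hM : ∀ x, SL (wP ΛX hX T) j (fun Q => SL (wP ΛY hY T) j (fun Q' => if cX Q ∧ cY Q' ∧
      w + Dp zY (fl hY Q') - Dp zX (fl hX Q) = x then 1 else 0)) ≤ M)
    (H : ∀ a ∈ A, ∀ a' ∈ A, ∀ h ∈ D, ∀ h' ∈ D, ∀ μ : G → ℝ≥0∞, ∑' x, μ x ≤ 1 → (∀ x, μ x ≤ M) →
      ∑' x, μ x * ∑' L, ∑' L', (if HT hX L = h ∧ rX L ∧ HT hY L' = h' ∧ rY L' ∧
        ev hX hY zX zY sX sY lo hi a a' x L L' then LW ΛX L * LW ΛY L' else 0) ≤ K0) :
    SL (wP ΛX hX T) j (fun Q => SL (wP ΛY hY T) j (fun Q' => if cX Q ∧ cY Q' then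
      ∑' P, wP ΛX hX T P * ∑' P', wP ΛY hY T P' * (if lX P ∧ lY P' ∧
        ev hX hY zX zY sX sY lo hi (HT hX (fl hX Q)) (HT hY (fl hY Q'))
          (w + Dp zY (fl hY Q') - Dp zX (fl hX Q)) P.1 P'.1 then 1 else 0) else 0))
      ≤ A.card * (A.card * (D.card * (D.card * K0))) := by
  set g : ℕ → ℕ → ℕ → ℕ → G → List BX → List BY → ℝ≥0∞ := fun h h' a a' x L L' =>
    if HT hX L = h ∧ rX L ∧ HT hY L' = h' ∧ rY L' ∧
        ev hX hY zX zY sX sY lo hi a a' x L L' then LW ΛX L * LW ΛY L' else 0 with hg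
  set Φ : ℕ → ℕ → G → ℝ≥0∞ := fun a a' x =>
    ∑ h ∈ D, ∑ h' ∈ D, ∑' L, ∑' L', g h h' a a' x L L' with hΦ
  have step1 : ∀ a a' x, ∑' P, wP ΛX hX T P * ∑' P', wP ΛY hY T P' * (if lX P ∧ lY P' ∧
        ev hX hY zX zY sX sY lo hi a a' x P.1 P'.1 then 1 else 0) ≤ Φ a a' x := by
    intro a a' x
    calc ∑' P, wP ΛX hX T P * ∑' P', wP ΛY hY T P' * (if lX P ∧ lY P' ∧
        ev hX hY zX zY sX sY lo hi a a' x P.1 P'.1 then 1 else 0)
        ≤ ∑' P : Pc hX T, ∑' P' : Pc hY T, ∑ h ∈ D, ∑ h' ∈ D, g h h' a a' x P.1 P'.1 := by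
          refine ENNReal.tsum_le_tsum fun P => ?_
          rw [← ENNReal.tsum_mul_left]
          refine ENNReal.tsum_le_tsum fun P' => ?_
          by_cases hc : lX P ∧ lY P' ∧ ev hX hY zX zY sX sY lo hi a a' x P.1 P'.1
          · rw [if_pos hc, mul_one]
            refine le_trans ?_ (Finset.single_le_sum (f := fun h => ∑ h' ∈ D,
              g h h' a a' x P.1 P'.1) (fun _ _ => zero_le) (hD P hc.1))
            refine le_trans ?_ (Finset.single_le_sum (f := fun h' =>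
              g (HT hX P.1) h' a a' x P.1 P'.1) (fun _ _ => zero_le) (hD' P' hc.2.1))
            rw [hg]
            simp only
            rw [if_pos (by refine ⟨?_, hrX P hc.1, ?_, hrY P' hc.2.1, hc.2.2⟩ <;> trivial)]
            exact le_refl _
          · rw [if_neg hc, mul_zero, mul_zero]; exact zero_le
      _ ≤ ∑' L : List BX, ∑' L' : List BY, ∑ h ∈ D, ∑ h' ∈ D, g h h' a a' x L L' := by
          refine le_trans (ENNReal.tsum_le_tsum fun P : Pc hX T =>
            ENNReal.tsum_comp_le_tsum_of_injective (f := fun P' : Pc hY T => P'.1)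
              Subtype.val_injective (fun L' => ∑ h ∈ D, ∑ h' ∈ D, g h h' a a' x P.1 L')) ?_
          exact ENNReal.tsum_comp_le_tsum_of_injective (f := fun P : Pc hX T => P.1)
              Subtype.val_injective (fun L => ∑' L', ∑ h ∈ D, ∑ h' ∈ D, g h h' a a' x L L')
      _ = Φ a a' x := by
          rw [hΦ]
          simp only
          have : ∀ L : List BX, ∑' L' : List BY, ∑ h ∈ D, ∑ h' ∈ D, g h h' a a' x L L'
              = ∑ h ∈ D, ∑ h' ∈ D, ∑' L', g h h' a a' x L L' := by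
            intro L
            rw [Summable.tsum_finsetSum (fun _ _ => ENNReal.summable)]
            refine Finset.sum_congr rfl fun h _ => ?_
            rw [Summable.tsum_finsetSum (fun _ _ => ENNReal.summable)]
          rw [tsum_congr this, Summable.tsum_finsetSum (fun _ _ => ENNReal.summable)]
          refine Finset.sum_congr rfl fun h _ => ?_
          rw [Summable.tsum_finsetSum (fun _ _ => ENNReal.summable)]
  have step2 := push ΛX ΛY hX hY zX zY j w cX cY A hA hA' Φ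
  refine le_trans (SL_mono _ j fun Q _ => SL_mono _ j fun Q' _ => ?_) (step2.trans ?_)
  · by_cases hc : cX Q ∧ cY Q'
    · rw [if_pos hc, if_pos hc]; exact step1 _ _ _
    · rw [if_neg hc, if_neg hc]
  · have hone : ∀ (f : List (Pc hX T) → List (Pc hY T) → ℝ≥0∞), (∀ Q Q', f Q Q' ≤ 1) →
        SL (wP ΛX hX T) j (fun Q => SL (wP ΛY hY T) j (fun Q' => f Q Q')) ≤ 1 := by
      intro f hf
      refine (SL_mono _ j fun Q _ => (SL_mono _ j fun Q' _ => hf Q Q').trans
        (SL_const_le _ (sum_wP_le ΛY hY h1Y hΛY T) j 1)).trans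
        (SL_const_le _ (sum_wP_le ΛX hX h1X hΛX T) j 1)
    calc ∑ a ∈ A, ∑ a' ∈ A, ∑' x : G, (SL (wP ΛX hX T) j (fun Q => SL (wP ΛY hY T) j (fun Q' =>
          if cX Q ∧ cY Q' ∧ HT hX (fl hX Q) = a ∧ HT hY (fl hY Q') = a' ∧
            w + Dp zY (fl hY Q') - Dp zX (fl hX Q) = x then 1 else 0))) * Φ a a' x
        ≤ ∑ a ∈ A, ∑ a' ∈ A, ∑ h ∈ D, ∑ h' ∈ D, K0 := by
          refine Finset.sum_le_sum fun a ha => Finset.sum_le_sum fun a' ha' => ?_
          set μ : G → ℝ≥0∞ := fun x => SL (wP ΛX hX T) j (fun Q => SL (wP ΛY hY T) j (fun Q' =>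
          if cX Q ∧ cY Q' ∧ HT hX (fl hX Q) = a ∧ HT hY (fl hY Q') = a' ∧
            w + Dp zY (fl hY Q') - Dp zX (fl hX Q) = x then 1 else 0)) with hμ
          have hμ1 : ∑' x, μ x ≤ 1 := by
            rw [hμ]
            simp only [← SL_tsum]
            refine hone _ fun Q Q' => ?_
            rw [tsum_eq_single (w + Dp zY (fl hY Q') - Dp zX (fl hX Q))]
            · split_ifs <;> simp
            · intro x hx
              rw [if_neg]
              rintro ⟨-, -, -, -, h⟩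
              exact hx h.symm
          have hμM : ∀ x, μ x ≤ M := by
            intro x
            refine le_trans (SL_mono _ j fun Q _ => SL_mono _ j fun Q' _ => ?_) (hM x)
            by_cases hc : cX Q ∧ cY Q' ∧ w + Dp zY (fl hY Q') - Dp zX (fl hX Q) = x
            · rw [if_pos hc]; split_ifs <;> simp
            · rw [if_neg hc, if_neg]
              rintro ⟨g1, g2, -, -, g3⟩
              exact hc ⟨g1, g2, g3⟩
          calc ∑' x : G, μ x * Φ a a' x
              = ∑ h ∈ D, ∑ h' ∈ D, ∑' x, μ x * ∑' L, ∑' L', g h h' a a' x L L' := by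
                rw [hΦ]
                simp only [Finset.mul_sum]
                rw [Summable.tsum_finsetSum (fun _ _ => ENNReal.summable)]
                refine Finset.sum_congr rfl fun h _ => ?_
                rw [Summable.tsum_finsetSum (fun _ _ => ENNReal.summable)]
            _ ≤ _ := Finset.sum_le_sum fun h hh => Finset.sum_le_sum fun h' hh' =>
                H a ha a' ha' h hh h' hh' μ hμ1 hμM
      _ = _ := by simp only [Finset.sum_const, nsmul_eq_mul]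

end push

end Crest.Agent.R154.Asm648
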