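import Crest.Agent.R154.AsmQ_703

/-! Row 154 (helper703), ROAD 801: the abstract assembly, part 3: one window. -/

set_option autoImplicit false

namespace Crest.Agent.R154.Asm703

open scoped ENNReal
open B5A Asm867

section law

variable {B : Type*} {G : Type*} [AddCommGroup G] (Λ : B → ℝ≥0∞) (ht : B → ℕ) (z : B → G)

open Classical in
lemma push (T : ℕ) (φ : ℕ × G → ℝ≥0∞) :
    ∑' k : ℕ × G, pT Λ ht z T k.1 k.2 * φ k
      = ∑' L, (if FP ht T L then LW Λ L * φ (HT ht L, Dp z L) else 0) := by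
  have := disint (fun L => if FP ht T L then LW Λ L else 0)
    (fun L => (HT ht L, Dp z L)) φ
  have e1 : ∀ L, (if FP ht T L then LW Λ L else 0) * φ (HT ht L, Dp z L)
      = if FP ht T L then LW Λ L * φ (HT ht L, Dp z L) else 0 := by
    intro L
    by_cases h : FP ht T L <;> simp [h]
  rw [← tsum_congr e1, this]
  refine tsum_congr fun k => ?_
  congr 1
  rw [pT]
  refine tsum_congr fun L => ?_
  by_cases h : FP ht T L
  · by_cases h2 : HT ht L = k.1 ∧ Dp z L = k.2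
    · rw [if_pos ⟨h, h2⟩, if_pos (Prod.ext h2.1 h2.2), if_pos h]
    · rw [if_neg (fun h' => h2 h'.2), if_neg]
      intro h'
      exact h2 ⟨congrArg Prod.fst h', congrArg Prod.snd h'⟩
  · rw [if_neg (fun h' => h h'.1), if_neg h]
    simp

open Classical in
/-- the quantile of the attempt law -/
lemma law (h1 : ∀ b, 1 ≤ ht b) (hΛ : ∑' b, Λ b ≤ 1) (T : ℕ) {u : ℝ≥0∞} (hu : u ≠ 0)
    (hu1 : u ≤ 1) : ∃ θ : ℝ≥0∞, θ ≠ 0 ∧ θ ≤ 1 ∧
      (∑' L, (if FP ht T L ∧ pT Λ ht z T (HT ht L) (Dp z L) < θ then LW Λ L else 0)) ≤ u ∧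
      (∑' L, (if FP ht T L ∧ ¬ pT Λ ht z T (HT ht L) (Dp z L) < 3 * θ
        then LW Λ L else 0)) ≤ 1 - u := by
  set p : ℕ × G → ℝ≥0∞ := fun k => pT Λ ht z T k.1 k.2 with hp
  have hp1 : ∑' k, p k ≤ 1 := by
    have := push Λ ht z T (fun _ => 1)
    simp only [mul_one] at this
    rw [hp, this]
    exact FP_mass Λ ht h1 hΛ T
  obtain ⟨k, hk1, hk2, -, -⟩ := Sel300.dyq p hp1 hu
  have hut : u ≠ ⊤ := ne_top_of_le_ne_top ENNReal.one_ne_top hu1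
  have hθ0 : ((2 : ℝ≥0∞) ^ k)⁻¹ ≠ 0 := ENNReal.inv_ne_zero.2 (ENNReal.pow_ne_top (by norm_num))
  have hθ1 : ((2 : ℝ≥0∞) ^ k)⁻¹ ≤ 1 := ENNReal.inv_le_one.2 (one_le_pow₀ (by norm_num))
  have hθt : ((2 : ℝ≥0∞) ^ k)⁻¹ ≠ ⊤ := ne_top_of_le_ne_top ENNReal.one_ne_top hθ1
  have tr : ∀ S : ℝ≥0∞ → Prop, (∑' L, (if FP ht T L ∧ S (pT Λ ht z T (HT ht L) (Dp z L))
      then LW Λ L else 0)) = ∑' k, (if S (p k) then p k else 0) := by
    intro S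
    have := push Λ ht z T (fun k => if S (p k) then 1 else 0)
    rw [tsum_congr (g := fun k : ℕ × G => pT Λ ht z T k.1 k.2 * (if S (p k) then 1 else 0))
      (fun k => by by_cases h : S (p k) <;> simp [h, hp]), this]
    refine tsum_congr fun L => ?_
    by_cases h : FP ht T L <;> by_cases h2 : S (pT Λ ht z T (HT ht L) (Dp z L)) <;>
      simp [h, h2, hp]
  refine ⟨((2 : ℝ≥0∞) ^ k)⁻¹, hθ0, hθ1, ?_, ?_⟩
  · refine le_trans (le_of_eq ?_) hk1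
    convert tr (fun x => x < ((2 : ℝ≥0∞) ^ k)⁻¹)
  · have t2 : (∑' L, (if FP ht T L ∧ ¬ pT Λ ht z T (HT ht L) (Dp z L) < 3 * ((2 : ℝ≥0∞) ^ k)⁻¹
        then LW Λ L else 0)) = ∑' j, (if ¬ p j < 3 * ((2 : ℝ≥0∞) ^ k)⁻¹ then p j else 0) := by
      convert tr (fun x => ¬ x < 3 * ((2 : ℝ≥0∞) ^ k)⁻¹)
    rw [t2]
    rcases hk2 with hk0 | hk2
    · have : ∀ j, (if ¬ p j < 3 * ((2 : ℝ≥0∞) ^ k)⁻¹ then p j else 0) = 0 := by
        intro j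
        rw [if_neg]
        rw [not_not, hk0]
        calc p j ≤ ∑' j, p j := ENNReal.le_tsum j
          _ ≤ 1 := hp1
          _ < 3 * ((2 : ℝ≥0∞) ^ 0)⁻¹ := by norm_num
      rw [ENNReal.tsum_eq_zero.2 this]
      exact zero_le
    · refine ENNReal.le_sub_of_add_le_right hut ?_
      refine le_trans (add_le_add le_rfl hk2) ?_
      rw [← ENNReal.tsum_add]
      refine le_trans (ENNReal.tsum_le_tsum fun j => ?_) hp1
      have h23 : (2 : ℝ≥0∞) * ((2 : ℝ≥0∞) ^ k)⁻¹ < 3 * ((2 : ℝ≥0∞) ^ k)⁻¹ :=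
        ENNReal.mul_lt_mul_left hθ0 hθt (by norm_num)
      by_cases hj : p j ≤ 2 * ((2 : ℝ≥0∞) ^ k)⁻¹
      · rw [if_pos hj, if_neg (not_not.2 (lt_of_le_of_lt hj h23)), zero_add]
      · rw [if_neg hj, add_zero]
        split_ifs <;> simp

end law

/-- the density constant -/
lemma dens_const (i0 : ℕ) (θ u : ℝ≥0∞) (hu : u ≠ 0) (hu1 : u ≤ 1) :
    ((i0 + 1 : ℕ) : ℝ≥0∞) * (3 * θ) + (1 - u) * (((i0 + 1 : ℕ) : ℝ≥0∞) * (3 * θ) / u)
      ≤ ((i0 + 1 : ℕ) : ℝ≥0∞) * (3 * θ) / u := by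
  have hut : u ≠ ⊤ := ne_top_of_le_ne_top ENNReal.one_ne_top hu1
  set c := ((i0 + 1 : ℕ) : ℝ≥0∞) * (3 * θ) with hc
  have e1 : c = u * (c / u) := (ENNReal.mul_div_cancel hu hut).symm
  calc c + (1 - u) * (c / u) = u * (c / u) + (1 - u) * (c / u) := by rw [← e1]
    _ = (u + (1 - u)) * (c / u) := by ring
    _ = c / u := by rw [add_tsub_cancel_of_le hu1, one_mul]
    _ ≤ c / u := le_rfl

lemma swap4 {α β γ δ : Type*} (f : α → β → γ → δ → ℝ≥0∞) :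
    ∑' A, ∑' P, ∑' A', ∑' P', f A P A' P' = ∑' A', ∑' P', ∑' A, ∑' P, f A P A' P' := by
  rw [to_prod f, to_prod (fun A' P' A P => f A P A' P')]
  exact ((Equiv.prodComm (γ × δ) (α × β)).tsum_eq
    (fun x : (α × β) × (γ × δ) => f x.1.1 x.1.2 x.2.1 x.2.2)).symm

section window

variable {BX BY : Type*} {G : Type*} [AddCommGroup G] (ΛX : BX → ℝ≥0∞) (ΛY : BY → ℝ≥0∞)
  (hX : BX → ℕ) (hY : BY → ℕ) (zX : BX → G) (zY : BY → G)

open Classical in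
/-- **one window** -/
theorem window (h1X : ∀ b, 1 ≤ hX b) (hΛX : ∑' b, ΛX b ≤ 1) (hUX : ∀ n, U ΛX hX n ≤ 1)
    (h1Y : ∀ b, 1 ≤ hY b) (hΛY : ∑' b, ΛY b ≤ 1) (hUY : ∀ n, U ΛY hY n ≤ 1)
    {u : ℝ≥0∞} (hu : u ≠ 0) (hu1 : u ≤ 1)
    (a0 T a0' T' i0 J n : ℕ) (hn : a0 + i0 + T ≤ n) (hn' : a0' + i0 + T' ≤ n)
    (hJ : J * (T + i0) ≤ a0) (hJ' : J * (T' + i0) ≤ a0')
    (Ev : List BX → List BY → Prop) (q : ℕ → ℕ → List BX → List BY → G → Prop) (w : G)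
    (hQ : ∀ A P R A' P' R', Sp hX a0 T i0 A P → Sp hY a0' T' i0 A' P' →
      HT hX A + HT hX P + HT hX R = n → HT hY A' + HT hY P' + HT hY R' = n →
      Ev (A ++ (P ++ R)) (A' ++ (P' ++ R')) →
      q (HT hX A) (HT hY A') P P' (w + (Dp zY A' - Dp zX A)))
    (R1 : ℝ≥0∞)
    (HK1 : ∀ a a' h h' : ℕ, a0 ≤ a → a ≤ a0 + i0 → a0' ≤ a' → a' ≤ a0' + i0 → T ≤ h →
      h ≤ T + i0 → T' ≤ h' → h' ≤ T' + i0 →
      ∀ (E : Finset G) (μ : G → ℝ≥0∞) (M : ℝ≥0∞),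
      M * (E.card : ℝ≥0∞) ≤ 3 * ((i0 + 1 : ℕ) : ℝ≥0∞) / u → ∑' x, μ x ≤ 1 → (∀ x, μ x ≤ M) →
      ∑' δ, μ δ * ∑' P, ∑' P', (if HT hX P = h ∧ Dp zX P ∈ E ∧ HT hY P' = h' ∧ q a a' P P' δ
        then LW ΛX P * LW ΛY P' else 0) ≤ R1)
    (HK2 : ∀ a a' h h' : ℕ, a0 ≤ a → a ≤ a0 + i0 → a0' ≤ a' → a' ≤ a0' + i0 → T ≤ h →
      h ≤ T + i0 → T' ≤ h' → h' ≤ T' + i0 →
      ∀ (E : Finset G) (μ : G → ℝ≥0∞) (M : ℝ≥0∞),
      M * (E.card : ℝ≥0∞) ≤ 3 * ((i0 + 1 : ℕ) : ℝ≥0∞) / u → ∑' x, μ x ≤ 1 → (∀ x, μ x ≤ M) →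
      ∑' δ, μ δ * ∑' P, ∑' P', (if HT hX P = h ∧ Dp zY P' ∈ E ∧ HT hY P' = h' ∧ q a a' P P' δ
        then LW ΛX P * LW ΛY P' else 0) ≤ R1) :
    ∑' LX, ∑' LY, (if HT hX LX = n ∧ HT hY LY = n ∧ Ev LX LY then LW ΛX LX * LW ΛY LY else 0)
      ≤ 2 * (∑' k, tail ΛX hX (i0 + k)) + 2 * (∑' k, tail ΛY hY (i0 + k))
        + (u ^ 2 + (((1 - u) ^ J + J * ∑' k, tail ΛX hX (i0 + k))
            + ((i0 + 1 : ℕ) : ℝ≥0∞) ^ 4 * R1)
          + (((1 - u) ^ J + J * ∑' k, tail ΛY hY (i0 + k)) + ((i0 + 1 : ℕ) : ℝ≥0∞) ^ 4 * R1)) := by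
  obtain ⟨θX, hθX0, hθX1, hNX, hHX⟩ := law ΛX hX zX h1X hΛX T hu hu1
  obtain ⟨θY, hθY0, hθY1, hNY, hHY⟩ := law ΛY hY zY h1Y hΛY T' hu hu1
  have hcard : ∀ (θ : ℝ≥0∞) (E : Finset G), (E.card : ℝ≥0∞) * θ ≤ 1 →
      ((i0 + 1 : ℕ) : ℝ≥0∞) * (3 * θ) / u * (E.card : ℝ≥0∞) ≤ 3 * ((i0 + 1 : ℕ) : ℝ≥0∞) / u := by
    intro θ E hE
    calc ((i0 + 1 : ℕ) : ℝ≥0∞) * (3 * θ) / u * (E.card : ℝ≥0∞)
        = 3 * ((i0 + 1 : ℕ) : ℝ≥0∞) / u * ((E.card : ℝ≥0∞) * θ) := by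
          rw [div_eq_mul_inv, div_eq_mul_inv]; ring
      _ ≤ 3 * ((i0 + 1 : ℕ) : ℝ≥0∞) / u * 1 := mul_le_mul_right hE _
      _ = _ := mul_one _
  refine (TW ΛX ΛY hX hY h1X hΛX hUX h1Y hΛY hUY a0 T a0' T' i0 n hn hn' Ev
    (fun A P A' P' => q (HT hX A) (HT hY A') P P' (w + (Dp zY A' - Dp zX A))) hQ).trans ?_
  refine add_le_add le_rfl ?_
  have hpt : ∀ A P A' P', (if (Sp hX a0 T i0 A P ∧ Sp hY a0' T' i0 A' P') ∧
        q (HT hX A) (HT hY A') P P' (w + (Dp zY A' - Dp zX A))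
          then LW ΛX A * LW ΛX P * (LW ΛY A' * LW ΛY P') else 0)
      ≤ ((if FP hX a0 A then LW ΛX A else 0)
          * (if FP hX T P ∧ pT ΛX hX zX T (HT hX P) (Dp zX P) < θX then LW ΛX P else 0)
          * ((if FP hY a0' A' then LW ΛY A' else 0)
          * (if FP hY T' P' ∧ pT ΛY hY zY T' (HT hY P') (Dp zY P') < θY then LW ΛY P' else 0))
        + (if (Sp hX a0 T i0 A P ∧ Sp hY a0' T' i0 A' P') ∧
          (θX ≤ pT ΛX hX zX T (HT hX P) (Dp zX P) ∧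
          q (HT hX A) (HT hY A') P P' (w + (Dp zY A' - Dp zX A)))
          then LW ΛX A * LW ΛX P * (LW ΛY A' * LW ΛY P') else 0))
        + (if (Sp hX a0 T i0 A P ∧ Sp hY a0' T' i0 A' P') ∧
          (θY ≤ pT ΛY hY zY T' (HT hY P') (Dp zY P') ∧
          q (HT hX A) (HT hY A') P P' (w + (Dp zY A' - Dp zX A)))
          then LW ΛX A * LW ΛX P * (LW ΛY A' * LW ΛY P') else 0) := by
    intro A P A' P'
    by_cases h : (Sp hX a0 T i0 A P ∧ Sp hY a0' T' i0 A' P') ∧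
        q (HT hX A) (HT hY A') P P' (w + (Dp zY A' - Dp zX A))
    · rw [if_pos h]
      by_cases hx : θX ≤ pT ΛX hX zX T (HT hX P) (Dp zX P)
      · have h2 : (Sp hX a0 T i0 A P ∧ Sp hY a0' T' i0 A' P') ∧
          (θX ≤ pT ΛX hX zX T (HT hX P) (Dp zX P) ∧
          q (HT hX A) (HT hY A') P P' (w + (Dp zY A' - Dp zX A))) := ⟨h.1, hx, h.2⟩
        rw [if_pos h2]
        exact le_trans le_add_self le_self_add
      · by_cases hy : θY ≤ pT ΛY hY zY T' (HT hY P') (Dp zY P')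
        · have h2 : (Sp hX a0 T i0 A P ∧ Sp hY a0' T' i0 A' P') ∧
            (θY ≤ pT ΛY hY zY T' (HT hY P') (Dp zY P') ∧
            q (HT hX A) (HT hY A') P P' (w + (Dp zY A' - Dp zX A))) := ⟨h.1, hy, h.2⟩
          rw [if_pos h2]
          exact le_add_self
        · rw [not_le] at hx hy
          have k1 : FP hX T P ∧ pT ΛX hX zX T (HT hX P) (Dp zX P) < θX := ⟨h.1.1.2.1, hx⟩
          have k2 : FP hY T' P' ∧ pT ΛY hY zY T' (HT hY P') (Dp zY P') < θY := ⟨h.1.2.2.1, hy⟩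
          have k3 : FP hX a0 A := h.1.1.1.1
          have k4 : FP hY a0' A' := h.1.2.1.1
          rw [if_pos k1, if_pos k2, if_pos k3, if_pos k4]
          exact le_trans le_self_add le_self_add
    · rw [if_neg h]; exact zero_le
  refine (ENNReal.tsum_le_tsum fun A => ENNReal.tsum_le_tsum fun P =>
    ENNReal.tsum_le_tsum fun A' => ENNReal.tsum_le_tsum fun P' => hpt A P A' P').trans ?_
  simp only [ENNReal.tsum_add]
  rw [prod4]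
  refine add_le_add (add_le_add ?_ ?_) ?_
  · calc _ ≤ 1 * u * (1 * u) := by
          gcongr
          · exact FP_mass ΛX hX h1X hΛX a0
          · exact FP_mass ΛY hY h1Y hΛY a0'
      _ = u ^ 2 := by ring
  · refine LS ΛX ΛY hX hY zX zY h1X hΛX hUX h1Y hΛY a0 T a0' T' i0 J θX (3 * θX) (1 - u) _ hθX0
      tsub_le_self hHX (dens_const i0 θX u hu hu1) hJ q w R1 ?_
    intro a a' h h' b1 b2 b3 b4 b5 b6 b7 b8 E μ hE hμ hμM
    exact HK1 a a' h h' b1 b2 b3 b4 b5 b6 b7 b8 E μ _ (hcard θX E hE) hμ hμM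
  · rw [swap4]
    have hcg : ∀ A' P' A P, (if (Sp hX a0 T i0 A P ∧ Sp hY a0' T' i0 A' P') ∧
          (θY ≤ pT ΛY hY zY T' (HT hY P') (Dp zY P') ∧
          q (HT hX A) (HT hY A') P P' (w + (Dp zY A' - Dp zX A)))
          then LW ΛX A * LW ΛX P * (LW ΛY A' * LW ΛY P') else 0)
        = (if (Sp hY a0' T' i0 A' P' ∧ Sp hX a0 T i0 A P) ∧
          (θY ≤ pT ΛY hY zY T' (HT hY P') (Dp zY P') ∧
          (fun (a' a : ℕ) (P' : List BY) (P : List BX) (δ : G) => q a a' P P' (-δ))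
            (HT hY A') (HT hX A) P' P (-w + (Dp zX A - Dp zY A')))
          then LW ΛY A' * LW ΛY P' * (LW ΛX A * LW ΛX P) else 0) := by
      intro A' P' A P
      have e : -(-w + (Dp zX A - Dp zY A')) = w + (Dp zY A' - Dp zX A) := by abel
      simp only [e]
      by_cases h : (Sp hX a0 T i0 A P ∧ Sp hY a0' T' i0 A' P') ∧
          (θY ≤ pT ΛY hY zY T' (HT hY P') (Dp zY P') ∧
          q (HT hX A) (HT hY A') P P' (w + (Dp zY A' - Dp zX A)))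
      · rw [if_pos h, if_pos ⟨⟨h.1.2, h.1.1⟩, h.2⟩]; ring
      · rw [if_neg h, if_neg (fun h' => h ⟨⟨h'.1.2, h'.1.1⟩, h'.2⟩)]
    rw [tsum_congr fun A' => tsum_congr fun P' => tsum_congr fun A => tsum_congr fun P =>
      hcg A' P' A P]
    refine LS ΛY ΛX hY hX zY zX h1Y hΛY hUY h1X hΛX a0' T' a0 T i0 J θY (3 * θY) (1 - u) _ hθY0
      tsub_le_self hHY (dens_const i0 θY u hu hu1) hJ'
      (fun (a' a : ℕ) (P' : List BY) (P : List BX) (δ : G) => q a a' P P' (-δ)) (-w) R1 ?_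
    intro a' a h' h b1 b2 b3 b4 b5 b6 b7 b8 E μ hE hμ hμM
    have hk := HK2 a a' h h' b3 b4 b1 b2 b7 b8 b5 b6 E (fun δ => μ (-δ)) _ (hcard θY E hE)
      (by
        have := (Equiv.neg G).tsum_eq μ
        simp only [Equiv.neg_apply] at this
        rw [this]; exact hμ) (fun x => hμM _)
    refine le_trans (le_of_eq ?_) hk
    rw [← (Equiv.neg G).tsum_eq]
    refine tsum_congr fun δ => ?_
    simp only [Equiv.neg_apply, neg_neg]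
    congr 1
    rw [ENNReal.tsum_comm]
    refine tsum_congr fun P => tsum_congr fun P' => ?_
    by_cases hc : HT hX P = h ∧ Dp zY P' ∈ E ∧ HT hY P' = h' ∧ q a a' P P' δ
    · rw [if_pos hc, if_pos ⟨hc.2.2.1, hc.2.1, hc.1, hc.2.2.2⟩, mul_comm]
    · rw [if_neg hc, if_neg (fun h' => hc ⟨h'.2.2.1, h'.2.1, h'.1, h'.2.2.2⟩)]

end window

end Crest.Agent.R154.Asm703
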