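import Crest.Agent.R154.B5Abs_566
import Crest.Agent.R154.FP_178
import Crest.Agent.R154.AsmA_789

/-! Row 154, ROAD 801: abstract assembly of KAPPA' (helper772). -/

set_option autoImplicit false

namespace Crest.Agent.R154.AsmR772

open scoped ENNReal
open Crest.Agent.R154.B5A Crest.Agent.R154.FP178 Crest.Agent.R154.AsmA789

/-! ### covers -/

lemma tsum_cover {α β : Type*} (F : α → ℝ≥0∞) (g : β → α) (H : β → ℝ≥0∞)
    (h : ∀ a, F a ≠ 0 → ∃ b, g b = a ∧ F a ≤ H b) : ∑' a, F a ≤ ∑' b, H b := by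
  classical
  have hs : ∀ a : Function.support F, ∃ b, g b = a.1 ∧ F a.1 ≤ H b := fun a => h a.1 a.2
  choose s hs using hs
  have hinj : Function.Injective s := fun a a' e => Subtype.ext (by rw [← (hs a).1, ← (hs a').1, e])
  calc ∑' a, F a = ∑' a : Function.support F, F a.1 := (tsum_subtype_support F).symm
    _ ≤ ∑' a : Function.support F, H (s a) := ENNReal.tsum_le_tsum fun a => (hs a).2
    _ ≤ _ := ENNReal.tsum_comp_le_tsum_of_injective hinj H

section One
variable {B G : Type*} [AddCommGroup G]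

/-- displacement -/
def Dp (z : B → G) (L : List B) : G := (L.map z).sum

lemma Dp_append (z : B → G) (L L' : List B) : Dp z (L ++ L') = Dp z L + Dp z L' := by
  simp [Dp]

/-- data of one walker -/
structure WD (B G : Type*) [AddCommGroup G] where
  Λ : B → ℝ≥0∞
  h : B → ℕ
  z : B → G
  T : List B → G → ℕ → Set (G × ℕ)
  sum1 : ∑' b, Λ b = 1
  h1 : ∀ b, 1 ≤ h b
  mean : ∑' b, Λ b * (h b : ℝ≥0∞) ≠ ⊤
  T_app : ∀ L L' x a, T (L ++ L') x a = T L x a ∪ T L' (x + Dp z L) (a + HT h L)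
  T_shift : ∀ L x y a p k, (p, k) ∈ T L (x + y) a ↔ (p - y, k) ∈ T L x a
  T_depth : ∀ L x a p k, (p, k) ∈ T L x a → a < k ∧ k ≤ a + HT h L

variable (w : WD B G)

lemma U_le (n : ℕ) : U w.Λ w.h n ≤ 1 := by
  have h := renewal_one w.Λ w.h w.h1 w.sum1 n
  have ht0 : tail w.Λ w.h 0 = 1 := by
    rw [← w.sum1, tail]
    refine tsum_congr fun b => ?_
    rw [if_pos (by have := w.h1 b; omega)]
  rw [← h]
  have := Finset.single_le_sum (f := fun k => U w.Λ w.h (n - k) * tail w.Λ w.h k)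
    (s := Finset.range (n + 1)) (fun _ _ => zero_le) (Finset.mem_range.2 (Nat.succ_pos n))
  simpa [ht0] using this

open Classical in
/-- piece weight -/
noncomputable def PW (T : ℕ) (P : List B) : ℝ≥0∞ := if fp w.h T P then LW w.Λ P else 0

lemma PW_sum (T : ℕ) : ∑' P, PW w T P = 1 := by
  classical
  simp only [PW]
  induction T using Nat.strong_induction_on with
  | _ a ih =>
    rcases Nat.eq_zero_or_pos a with rfl | ha
    · have := sum_fp_zero w.Λ w.h (fun _ => 1)
      simpa only [mul_one] using this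
    · have := sum_fp_step w.Λ w.h a ha (fun _ => 1)
      simp only [mul_one] at this
      rw [this, ← w.sum1]
      refine tsum_congr fun b => ?_
      rw [ih (a - w.h b) (by have := w.h1 b; omega), mul_one]

lemma exists_fp (L : List B) : ∀ T : ℕ, T ≤ HT w.h L → ∃ P R, L = P ++ R ∧ fp w.h T P := by
  induction L with
  | nil => intro T hT; rw [HT_nil] at hT; exact ⟨[], [], rfl, by rw [fp_nil]; omega⟩
  | cons b L ih =>
    intro T hT
    rcases Nat.eq_zero_or_pos T with rfl | hp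
    · exact ⟨[], b :: L, rfl, by rw [fp_nil]⟩
    · rw [HT_cons] at hT
      obtain ⟨P, R, rfl, hP⟩ := ih (T - w.h b) (by omega)
      exact ⟨b :: P, R, rfl, by rw [fp_cons]; exact ⟨hp, hP⟩⟩

/-- good piece -/
def GP (T i : ℕ) (P : List B) : Prop := fp w.h T P ∧ HT w.h P ≤ T + i

lemma decomp (T i : ℕ) : ∀ (J : ℕ) (L : List B), J * (T + i) ≤ HT w.h L →
    (∃ A : List (List B), A.length = J ∧ (∀ P ∈ A, GP w T i P) ∧ ∃ R, L = A.flatten ++ R) ∨
    (∃ j, j < J ∧ ∃ A : List (List B), A.length = j ∧ (∀ P ∈ A, fp w.h T P) ∧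
      ∃ P, fp w.h T P ∧ T + i < HT w.h P ∧ ∃ R, L = A.flatten ++ (P ++ R)) := by
  intro J
  induction J with
  | zero => intro L _; exact Or.inl ⟨[], rfl, by simp, L, rfl⟩
  | succ J ih =>
    intro L hL
    rw [add_mul, one_mul] at hL
    obtain ⟨P, R, rfl, hP⟩ := exists_fp w L T (by omega)
    by_cases hPh : HT w.h P ≤ T + i
    · rw [HT_append] at hL
      rcases ih R (by omega) with ⟨A, hA, hg, R', rfl⟩ | ⟨j, hj, A, hA, hg, P', hP', ho, R', rfl⟩
      · refine Or.inl ⟨P :: A, by simp [hA], ?_, R', by simp⟩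
        intro Q hQ
        rcases List.mem_cons.1 hQ with rfl | hQ
        · exact ⟨hP, hPh⟩
        · exact hg Q hQ
      · refine Or.inr ⟨j + 1, by omega, P :: A, by simp [hA], ?_, P', hP', ho, R', by simp⟩
        intro Q hQ
        rcases List.mem_cons.1 hQ with rfl | hQ
        · exact hP
        · exact hg Q hQ
    · exact Or.inr ⟨0, by omega, [], rfl, by simp, P, hP, by omega, R, by simp⟩

lemma LW_flat (T : ℕ) (A : List (List B)) (h : ∀ P ∈ A, fp w.h T P) :
    LW (PW w T) A = LW w.Λ A.flatten := by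
  classical
  induction A with
  | nil => simp [LW]
  | cons P A ih =>
    rw [List.flatten_cons, LW_append, LW_cons, ih fun Q hQ => h Q (List.mem_cons_of_mem _ hQ), PW,
      if_pos (h P List.mem_cons_self)]

/-- height and displacement of a piece -/
def hz (P : List B) : ℤ × G := ((HT w.h P : ℤ), Dp w.z P)

lemma hz_flat (A : List (List B)) : (A.map (hz w)).sum = hz w A.flatten := by
  induction A with
  | nil => simp [hz, HT, Dp]; rfl
  | cons P A ih =>
    rw [List.map_cons, List.sum_cons, ih, List.flatten_cons]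
    simp [hz, HT_append, Dp_append]

open Classical in
/-- law of a piece -/
noncomputable def pl (T : ℕ) (x : ℤ × G) : ℝ≥0∞ := ∑' P, if hz w P = x then PW w T P else 0

open Classical in
lemma push (T : ℕ) (g : ℤ × G → ℝ≥0∞) :
    ∑' P, PW w T P * g (hz w P) = ∑' x, pl w T x * g x := by
  simp only [pl]
  simp_rw [← ENNReal.tsum_mul_right]
  rw [ENNReal.tsum_comm]
  refine tsum_congr fun P => ?_
  rw [tsum_eq_single (hz w P)]
  · rw [if_pos rfl]
  · intro x hx; rw [if_neg hx.symm, zero_mul]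

lemma pl_sum (T : ℕ) : ∑' x, pl w T x = 1 := by
  have := push w T (fun _ => 1)
  simp only [mul_one] at this
  rw [← this, PW_sum]

open Classical in
/-- overshoot mass -/
noncomputable def ov (T i : ℕ) : ℝ≥0∞ := ∑' P, if T + i < HT w.h P then PW w T P else 0

lemma ov_small {ε : ℝ≥0∞} (hε : ε ≠ 0) : ∃ i, ∀ T, ov w T i ≤ ε := by
  classical
  have hm : ∑' k, tail w.Λ w.h k ≠ ⊤ := by rw [← sum_tail w.Λ w.h w.sum1]; exact w.mean
  have ht : Filter.Tendsto (fun i => ∑' k, tail w.Λ w.h (k + i)) Filter.atTop (nhds 0) :=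
    ENNReal.tendsto_sum_nat_add _ hm
  obtain ⟨i, hi⟩ := (ht.eventually (gt_mem_nhds (pos_iff_ne_zero.2 hε))).exists
  refine ⟨i, fun T => ?_⟩
  have h1 := overshoot w.Λ w.h w.h1 (U_le w) i T
  refine le_trans (le_of_eq ?_) (le_trans h1 (le_trans (le_of_eq ?_) hi.le))
  · rw [ov]
    refine tsum_congr fun P => ?_
    rw [PW]
    by_cases ha : fp w.h T P <;> by_cases hb : T + i < HT w.h P <;> simp [ha, hb]
  · exact tsum_congr fun k => by rw [add_comm]

open Classical in
lemma R_sum (n m : ℕ) : ∑' R, (if m + HT w.h R = n then LW w.Λ R else 0) ≤ 1 := by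
  refine le_trans (ENNReal.tsum_le_tsum fun R => ?_) (U_le w (n - m))
  by_cases h : m + HT w.h R = n
  · rw [if_pos h, if_pos (by omega)]
  · rw [if_neg h]; exact zero_le

lemma SL_le_one (T j : ℕ) : SL (PW w T) j (fun _ => 1) ≤ 1 := by
  rw [SL_pow, PW_sum, one_pow]

open Classical in
/-- bad lists -/
lemma bad_le (T i J n : ℕ) :
    ∑' L, (if HT w.h L = n ∧ (∃ j, j < J ∧ ∃ A : List (List B), A.length = j ∧
        (∀ P ∈ A, fp w.h T P) ∧ ∃ P, fp w.h T P ∧ T + i < HT w.h P ∧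
          ∃ R, L = A.flatten ++ (P ++ R)) then LW w.Λ L else 0) ≤ J * ov w T i := by
  calc _ ≤ ∑' L, ∑ j ∈ Finset.range J, (if HT w.h L = n ∧ (∃ A : List (List B), A.length = j ∧
        (∀ P ∈ A, fp w.h T P) ∧ ∃ P, fp w.h T P ∧ T + i < HT w.h P ∧
          ∃ R, L = A.flatten ++ (P ++ R)) then LW w.Λ L else 0) := by
        refine ENNReal.tsum_le_tsum fun L => ?_
        split_ifs with h
        · obtain ⟨h0, j, hj, h2⟩ := h
          refine le_trans ?_ (Finset.single_le_sum (fun _ _ => zero_le) (Finset.mem_range.2 hj))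
          rw [if_pos ⟨h0, h2⟩]
        · exact zero_le
    _ = ∑ j ∈ Finset.range J, ∑' L, (if HT w.h L = n ∧ (∃ A : List (List B), A.length = j ∧
        (∀ P ∈ A, fp w.h T P) ∧ ∃ P, fp w.h T P ∧ T + i < HT w.h P ∧
          ∃ R, L = A.flatten ++ (P ++ R)) then LW w.Λ L else 0) :=
        Summable.tsum_finsetSum (fun _ _ => ENNReal.summable)
    _ ≤ ∑ _j ∈ Finset.range J, ov w T i := by
        refine Finset.sum_le_sum fun j _ => ?_
        calc _ ≤ ∑' q : List (List B) × List B × List B,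
              (if q.1.length = j then LW (PW w T) q.1 * 1 else 0) *
              ((if T + i < HT w.h q.2.1 then PW w T q.2.1 else 0) *
              (if (HT w.h q.1.flatten + HT w.h q.2.1) + HT w.h q.2.2 = n then LW w.Λ q.2.2 else 0)) := by
              refine tsum_cover _ (fun q => q.1.flatten ++ (q.2.1 ++ q.2.2)) _ fun L hL => ?_
              have hc : HT w.h L = n ∧ (∃ A : List (List B), A.length = j ∧
                (∀ P ∈ A, fp w.h T P) ∧ ∃ P, fp w.h T P ∧ T + i < HT w.h P ∧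
                ∃ R, L = A.flatten ++ (P ++ R)) := by
                by_contra hn; exact hL (if_neg hn)
              rw [if_pos hc]
              obtain ⟨h0, A, hA, hA2, P, hP, ho, R, rfl⟩ := hc
              refine ⟨(A, P, R), rfl, ?_⟩
              simp only
              rw [HT_append, HT_append] at h0
              rw [if_pos hA, if_pos ho, if_pos (by omega), LW_flat w T A hA2, PW, if_pos hP,
                LW_append, LW_append, mul_one]
          _ = SL (PW w T) j (fun A => ∑' P, (if T + i < HT w.h P then PW w T P else 0) *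
              ∑' R, (if (HT w.h A.flatten + HT w.h P) + HT w.h R = n then LW w.Λ R else 0)) := by
              rw [ENNReal.tsum_prod', SL]
              refine tsum_congr fun A => ?_
              rw [ENNReal.tsum_prod']
              by_cases hA : A.length = j
              · simp only [hA, if_true, mul_one]
                simp_rw [ENNReal.tsum_mul_left]
              · simp [hA]
          _ ≤ SL (PW w T) j (fun A => ov w T i * 1) := by
              refine SL_mono _ _ fun A _ => ?_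
              rw [ov, ← ENNReal.tsum_mul_right]
              exact ENNReal.tsum_le_tsum fun P => mul_le_mul_right (R_sum w _ _) _
          _ ≤ ov w T i := by
              rw [SL_const_mul]
              exact mul_le_of_le_one_right zero_le (SL_le_one w T j)
    _ = J * ov w T i := by simp

/-- weight of a list of `j` pieces -/
noncomputable def Aw (T j : ℕ) (A : List (List B)) : ℝ≥0∞ :=
  if A.length = j then LW (PW w T) A else 0

lemma Aw_sum (T j : ℕ) : ∑' A, Aw w T j A ≤ 1 := by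
  have := SL_le_one w T j
  rw [SL] at this
  simpa [Aw] using this

lemma SL_eq (T j : ℕ) (F : List (List B) → ℝ≥0∞) :
    SL (PW w T) j F = ∑' A, Aw w T j A * F A := by
  rw [SL]
  refine tsum_congr fun A => ?_
  rw [Aw]
  split_ifs <;> simp

/-- special piece -/
def Sp (T : ℕ) (θ : ℝ≥0∞) (P : List B) : Prop := pl w T (hz w P) < 2 * θ

open Classical in
lemma dens_A (T j : ℕ) (θ : ℝ≥0∞) (x : ℤ × G) :
    ∑' A, (if (∃ P ∈ A, Sp w T θ P) ∧ hz w A.flatten = x then Aw w T j A else 0)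
      ≤ j * (2 * θ) := by
  have hM : ∀ x, ∑' P, (if Sp w T θ P ∧ hz w P = x then PW w T P else 0) ≤ 2 * θ := by
    intro x
    by_cases hx : pl w T x < 2 * θ
    · refine le_trans (ENNReal.tsum_le_tsum fun P => ?_) hx.le
      by_cases h : hz w P = x
      · rw [if_pos h]; split_ifs <;> simp
      · rw [if_neg (fun h' => h h'.2)]; exact zero_le
    · have : ∀ P, (if Sp w T θ P ∧ hz w P = x then PW w T P else 0) = 0 := by
        intro P
        rw [if_neg]
        rintro ⟨h1, h2⟩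
        rw [Sp, h2] at h1
        exact hx h1
      simp [this]
  have h := dens (PW w T) (PW_sum w T).le (hz w) (Sp w T θ) (2 * θ)
    (fun x => by convert hM x) j x
  refine le_trans (le_of_eq ?_) h
  rw [SL_eq]
  refine tsum_congr fun A => ?_
  rw [hz_flat]
  split_ifs <;> simp

open Classical in
lemma nosp (T j K : ℕ) (hKj : K ≤ j) (θ u : ℝ≥0∞) (hu1 : u ≠ ⊤)
    (hu : u ≤ ∑' x, (if pl w T x < 2 * θ then pl w T x else 0)) :
    ∑' A, (if ∃ P ∈ A, Sp w T θ P then 0 else Aw w T j A) ≤ (1 - u) ^ K := by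
  have h := nosmall (PW w T) (Sp w T θ) j
  have h1 : ∑' P, (if Sp w T θ P then 0 else PW w T P) ≤ 1 - u := by
    have e1 : ∑' P, (if Sp w T θ P then PW w T P else 0)
        = ∑' x, (if pl w T x < 2 * θ then pl w T x else 0) := by
      have := push w T (fun x => if pl w T x < 2 * θ then 1 else 0)
      simp only [mul_ite, mul_one, mul_zero] at this
      rw [← this]
      exact tsum_congr fun P => by simp only [Sp]; congr
    have e2 : ∑' P, (if Sp w T θ P then PW w T P else 0)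
        + ∑' P, (if Sp w T θ P then 0 else PW w T P) = 1 := by
      rw [← ENNReal.tsum_add, ← PW_sum w T]
      refine tsum_congr fun P => ?_
      split_ifs <;> simp
    rw [← e1] at hu
    refine ENNReal.le_sub_of_add_le_left hu1 ?_
    rw [← e2]
    exact add_le_add hu le_rfl
  calc _ = SL (PW w T) j (fun L => if ∃ b ∈ L, Sp w T θ b then 0 else 1) := by
        rw [SL_eq]
        refine tsum_congr fun A => ?_
        split_ifs <;> simp
    _ = _ := h
    _ ≤ (1 - u) ^ j := pow_le_pow_left₀ zero_le h1 _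
    _ ≤ (1 - u) ^ K := pow_le_pow_of_le_one zero_le tsub_le_self hKj

/-- local piece -/
def Lc (T : ℕ) (θ : ℝ≥0∞) (P : List B) : Prop := ¬ pl w T (hz w P) < θ

/-- the finite set of large atoms -/
lemma fin_loc (T : ℕ) {θ : ℝ≥0∞} (hθ : θ ≠ 0) : ∃ E : Finset G, θ * E.card ≤ 1 ∧
    ∀ P, ¬ pl w T (hz w P) < θ → Dp w.z P ∈ E := by
  classical
  obtain ⟨hf, hc⟩ := card_le (pl w T) (pl_sum w T).le hθ
  refine ⟨hf.toFinset.image Prod.snd, ?_, ?_⟩
  · rw [Set.ncard_eq_toFinset_card _ hf] at hc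
    rw [mul_comm]
    refine le_trans ?_ hc
    exact mul_le_mul_left (by exact_mod_cast Finset.card_image_le) _
  · intro P hP
    rw [Finset.mem_image]
    exact ⟨hz w P, by simpa using not_lt.1 hP, rfl⟩

end One

section One'
variable {B G : Type*} [AddCommGroup G] (w : WD B G)

/-- some piece overshoots -/
def Bd (T i J : ℕ) (L : List B) : Prop :=
  ∃ j, j < J ∧ ∃ A : List (List B), A.length = j ∧ (∀ P ∈ A, fp w.h T P) ∧
      ∃ P, fp w.h T P ∧ T + i < HT w.h P ∧ ∃ R, L = A.flatten ++ (P ++ R)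

open Classical in
lemma bad_le' (T i J n : ℕ) :
    ∑' L, (if HT w.h L = n ∧ Bd w T i J L then LW w.Λ L else 0) ≤ J * ov w T i := by
  refine le_trans (le_of_eq ?_) (bad_le w T i J n)
  refine tsum_congr fun L => ?_
  by_cases h : HT w.h L = n ∧ Bd w T i J L
  · rw [if_pos h]; exact (if_pos h).symm
  · rw [if_neg h]; exact (if_neg h).symm

/-- initial piece overshoots, or a later one -/
def Bd0 (T0 T i J : ℕ) (L : List B) : Prop :=
  (∃ P, fp w.h T0 P ∧ T0 + i < HT w.h P ∧ ∃ R, L = P ++ R) ∨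
    (∃ P, fp w.h T0 P ∧ ∃ R, L = P ++ R ∧ Bd w T i J R)

open Classical in
lemma bad_le0 (T0 T i J n : ℕ) :
    ∑' L, (if HT w.h L = n ∧ Bd0 w T0 T i J L then LW w.Λ L else 0) ≤
      ov w T0 i + J * ov w T i := by
  calc _ ≤ ∑' L, ((if HT w.h L = n ∧ (∃ P, fp w.h T0 P ∧ T0 + i < HT w.h P ∧ ∃ R, L = P ++ R)
          then LW w.Λ L else 0) +
          (if HT w.h L = n ∧ (∃ P, fp w.h T0 P ∧ ∃ R, L = P ++ R ∧ Bd w T i J R)
          then LW w.Λ L else 0)) := by
        refine ENNReal.tsum_le_tsum fun L => ?_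
        split_ifs with h h1 h2 h2
        · exact le_add_right le_rfl
        · simp
        · simp
        · rcases h.2 with h3 | h3
          · exact absurd ⟨h.1, h3⟩ h1
          · exact absurd ⟨h.1, h3⟩ h2
        all_goals exact zero_le
    _ ≤ _ := by
        rw [ENNReal.tsum_add]
        refine add_le_add ?_ ?_
        · calc _ ≤ ∑' q : List B × List B, (if T0 + i < HT w.h q.1 then PW w T0 q.1 else 0) *
                (if HT w.h q.1 + HT w.h q.2 = n then LW w.Λ q.2 else 0) := by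
                refine tsum_cover _ (fun q => q.1 ++ q.2) _ fun L hL => ?_
                have hc : HT w.h L = n ∧ (∃ P, fp w.h T0 P ∧ T0 + i < HT w.h P ∧
                  ∃ R, L = P ++ R) := by
                  by_contra hn; exact hL (if_neg hn)
                rw [if_pos hc]
                obtain ⟨h0, P, hP, ho, R, rfl⟩ := hc
                refine ⟨(P, R), rfl, ?_⟩
                simp only
                rw [HT_append] at h0
                rw [if_pos ho, if_pos h0, PW, if_pos hP, LW_append]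
            _ ≤ _ := by
                rw [ENNReal.tsum_prod', ov]
                refine ENNReal.tsum_le_tsum fun P => ?_
                simp only
                rw [ENNReal.tsum_mul_left]
                exact mul_le_of_le_one_right zero_le (R_sum w _ _)
        · calc _ ≤ ∑' q : List B × List B, PW w T0 q.1 *
                (if HT w.h q.2 = n - HT w.h q.1 ∧ Bd w T i J q.2 then LW w.Λ q.2 else 0) := by
                refine tsum_cover _ (fun q => q.1 ++ q.2) _ fun L hL => ?_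
                have hc : HT w.h L = n ∧ (∃ P, fp w.h T0 P ∧ ∃ R, L = P ++ R ∧ Bd w T i J R) := by
                  by_contra hn; exact hL (if_neg hn)
                rw [if_pos hc]
                obtain ⟨h0, P, hP, R, rfl, hR⟩ := hc
                refine ⟨(P, R), rfl, ?_⟩
                simp only
                rw [HT_append] at h0
                rw [if_pos ⟨by omega, hR⟩, PW, if_pos hP, LW_append]
            _ ≤ ∑' P, PW w T0 P * (J * ov w T i) := by
                rw [ENNReal.tsum_prod']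
                refine ENNReal.tsum_le_tsum fun P => ?_
                simp only
                rw [ENNReal.tsum_mul_left]
                exact mul_le_mul_right (bad_le' w T i J _) _
            _ = _ := by rw [ENNReal.tsum_mul_right, PW_sum, one_mul]

lemma HT_flat (T i : ℕ) (A : List (List B)) (h : ∀ P ∈ A, GP w T i P) :
    A.length * T ≤ HT w.h A.flatten ∧ HT w.h A.flatten ≤ A.length * T + A.length * i := by
  induction A with
  | nil => simp [HT]
  | cons P A ih =>
    have h1 := h P List.mem_cons_self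
    have h2 := ih fun Q hQ => h Q (List.mem_cons_of_mem _ hQ)
    have h3 := le_HT_of_fp w.h h1.1
    have h4 := h1.2
    rw [List.flatten_cons, HT_append, List.length_cons, add_mul, one_mul, add_mul, one_mul]
    omega

lemma mid (C P R : List B) (x0 z : G) (k : ℕ) (hk : (z, k) ∈ w.T (C ++ (P ++ R)) x0 0)
    (h1 : HT w.h C < k) (h2 : k ≤ HT w.h C + HT w.h P) :
    (z, k) ∈ w.T P (x0 + Dp w.z C) (HT w.h C) := by
  rw [w.T_app, w.T_app, zero_add] at hk
  rcases hk with hk | hk | hk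
  · have := w.T_depth _ _ _ _ _ hk; omega
  · exact hk
  · have := w.T_depth _ _ _ _ _ hk; omega

lemma mid' (C P R : List B) (x0 z : G) (k : ℕ)
    (hk : (z, k) ∈ w.T P (x0 + Dp w.z C) (HT w.h C)) :
    (z, k) ∈ w.T (C ++ (P ++ R)) x0 0 := by
  rw [w.T_app, w.T_app, zero_add]
  exact Or.inr (Or.inl hk)

lemma cut (A : List (List B)) (j : ℕ) (hj : j < A.length) :
    ∃ A1 P A2, A = A1 ++ P :: A2 ∧ A1.length = j := by
  refine ⟨A.take j, A[j], A.drop (j + 1), ?_, ?_⟩
  · rw [← List.drop_eq_getElem_cons, List.take_append_drop]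
  · rw [List.length_take]; omega

end One'

section Two
variable {BX BY G : Type*} [AddCommGroup G] (X : WD BX G) (Y : WD BY G)

/-- window event -/
def Wv (lo hi : ℕ) (L : List BX) (x : G) (a : ℕ) (L' : List BY) (y : G) (a' : ℕ) : Prop :=
  (∃ z k, (z, k) ∈ X.T L x a ∧ (z, k) ∈ Y.T L' y a') ∧
    ∀ z k, (z, k) ∈ X.T L x a → (z, k) ∈ Y.T L' y a' → lo ≤ k ∧ k ≤ hi

lemma Wv_shift (lo hi : ℕ) (L : List BX) (x : G) (a : ℕ) (L' : List BY) (y : G) (a' : ℕ) :
    Wv X Y lo hi L x a L' y a' ↔ Wv X Y lo hi L 0 a L' (y - x) a' := by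
  have e1 : ∀ z k, (z, k) ∈ X.T L x a ↔ (z - x, k) ∈ X.T L 0 a := by
    intro z k
    have := X.T_shift L 0 x a z k
    rwa [zero_add] at this
  have e2 : ∀ z k, (z, k) ∈ Y.T L' y a' ↔ (z - x, k) ∈ Y.T L' (y - x) a' := by
    intro z k
    have := Y.T_shift L' (y - x) x a' z k
    rwa [sub_add_cancel] at this
  constructor
  · rintro ⟨⟨z, k, h1, h2⟩, h3⟩
    refine ⟨⟨z - x, k, (e1 z k).1 h1, (e2 z k).1 h2⟩, fun z k h1 h2 => h3 (z + x) k ?_ ?_⟩
    · rw [e1]; simpa using h1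
    · rw [e2]; simpa using h2
  · rintro ⟨⟨z, k, h1, h2⟩, h3⟩
    refine ⟨⟨z + x, k, ?_, ?_⟩, fun z k h1 h2 => h3 (z - x) k ((e1 z k).1 h1) ((e2 z k).1 h2)⟩
    · rw [e1]; simpa using h1
    · rw [e2]; simpa using h2

open Classical in
/-- window function, X local -/
noncomputable def PhX (E : Finset G) (lo hi h h' a a' : ℕ) (x : G) : ℝ≥0∞ :=
  ∑' L, ∑' L', (if HT X.h L = h ∧ Dp X.z L ∈ E ∧ HT Y.h L' = h' ∧
    Wv X Y lo hi L 0 a L' x a' then LW X.Λ L * LW Y.Λ L' else 0)

open Classical in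
/-- window function, Y local -/
noncomputable def PhY (E : Finset G) (lo hi h h' a a' : ℕ) (x : G) : ℝ≥0∞ :=
  ∑' L, ∑' L', (if HT X.h L = h ∧ Dp Y.z L' ∈ E ∧ HT Y.h L' = h' ∧
    Wv X Y lo hi L 0 a L' x a' then LW X.Λ L * LW Y.Λ L' else 0)

/-- geometry of a window -/
def Geo (i0 s lo hi h h' a a' : ℕ) : Prop :=
  a + s ≤ lo ∧ a' + s ≤ lo ∧ hi + s ≤ a + h ∧ hi + s ≤ a' + h' ∧ a ≤ a' ∧ a' ≤ a + i0 ∧
    a + h ≤ a' + h' ∧ a' + h' ≤ a + h + i0

/-- window lemma for a function -/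
def Hw (Ph : Finset G → ℕ → ℕ → ℕ → ℕ → ℕ → ℕ → G → ℝ≥0∞) (C : ℝ≥0∞) (i0 s : ℕ) (η : ℝ≥0∞) :
    Prop :=
  ∀ (lo hi h h' a a' : ℕ) (E : Finset G) (μ : G → ℝ≥0∞) (M lam : ℝ≥0∞),
    ∑' x, μ x ≤ 1 → (∀ x, μ x ≤ M) → M ≠ ⊤ → lam ≠ 0 → lam ≠ ⊤ → Geo i0 s lo hi h h' a a' →
    ∑' x, μ x * Ph E lo hi h h' a a' x ≤ C * (lam + M * E.card * η / lam + η)

/-- window lemma, all parameters -/
def HwE (Ph : Finset G → ℕ → ℕ → ℕ → ℕ → ℕ → ℕ → G → ℝ≥0∞) : Prop :=
  ∃ C : ℝ≥0∞, C ≠ ⊤ ∧ ∀ (i0 : ℕ) (η : ℝ≥0∞), η ≠ 0 → ∃ s0, ∀ s, s0 ≤ s → Hw Ph C i0 s η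

/-- height condition -/
def Hc (T i J j : ℕ) (c c' h h' : ℕ) : Prop :=
  (j * T ≤ c ∧ c ≤ j * T + j * i) ∧ (j * T + J * i ≤ c' ∧ c' ≤ j * T + (J * i + J * i)) ∧
    (T ≤ h ∧ h ≤ T + i) ∧ (T ≤ h' ∧ h' ≤ T + i)

/-- window condition -/
def Cd (T i J j lo hi r : ℕ) (w : G) (A : List (List BX)) (A' : List (List BY)) (P : List BX)
    (P' : List BY) : Prop :=
  Hc T i J j (HT X.h A.flatten) (r + HT Y.h A'.flatten) (HT X.h P) (HT Y.h P') ∧
    Wv X Y lo hi P (Dp X.z A.flatten) (HT X.h A.flatten) P' (w + Dp Y.z A'.flatten)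
      (r + HT Y.h A'.flatten)

/-- existence of a window -/
def We (T i J j lo hi : ℕ) (w : G) (L : List BX) (L' : List BY) : Prop :=
  ∃ (A : List (List BX)) (P : List BX) (R : List BX) (P0 : List BY) (A' : List (List BY))
    (P' : List BY) (R' : List BY), A.length = j ∧ (∀ Q ∈ A, fp X.h T Q) ∧ fp X.h T P ∧
      fp Y.h (J * i) P0 ∧ A'.length = j ∧
      (∀ Q ∈ A', fp Y.h T Q) ∧ fp Y.h T P' ∧ L = A.flatten ++ (P ++ R) ∧
      L' = P0 ++ (A'.flatten ++ (P' ++ R')) ∧
      Cd X Y T i J j lo hi (HT Y.h P0) (w + Dp Y.z P0) A A' P P'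

open Classical in
/-- window sum -/
noncomputable def WS (T i J j lo hi r : ℕ) (w : G) : ℝ≥0∞ :=
  ∑' A, ∑' A', ∑' P, ∑' P', (if Cd X Y T i J j lo hi r w A A' P P' then
    (Aw X T j A * Aw Y T j A') * (PW X T P * PW Y T P') else 0)

open Classical in
lemma We_le (T i J j lo hi n : ℕ) (w : G) (Q : ℝ≥0∞)
    (hQ : ∀ r w, WS X Y T i J j lo hi r w ≤ Q) :
    ∑' L, ∑' L', (if HT X.h L = n ∧ HT Y.h L' = n ∧ We X Y T i J j lo hi w L L'
      then LW X.Λ L * LW Y.Λ L' else 0) ≤ Q := by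
  rw [← ENNReal.tsum_prod]
  calc _ ≤ ∑' q : List BY × List (List BX) × List (List BY) × List BX × List BY × List BX × List BY,
        PW Y (J * i) q.1 * ((if Cd X Y T i J j lo hi (HT Y.h q.1) (w + Dp Y.z q.1) q.2.1 q.2.2.1
            q.2.2.2.1 q.2.2.2.2.1 then
          (Aw X T j q.2.1 * Aw Y T j q.2.2.1) * (PW X T q.2.2.2.1 * PW Y T q.2.2.2.2.1) else 0) *
        ((if (HT X.h q.2.1.flatten + HT X.h q.2.2.2.1) + HT X.h q.2.2.2.2.2.1 = n then
            LW X.Λ q.2.2.2.2.2.1 else 0) *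
          (if (HT Y.h q.1 + HT Y.h q.2.2.1.flatten + HT Y.h q.2.2.2.2.1) +
              HT Y.h q.2.2.2.2.2.2 = n then
            LW Y.Λ q.2.2.2.2.2.2 else 0))) := by
        refine tsum_cover _ (fun q => (q.2.1.flatten ++ (q.2.2.2.1 ++ q.2.2.2.2.2.1),
          q.1 ++ (q.2.2.1.flatten ++ (q.2.2.2.2.1 ++ q.2.2.2.2.2.2)))) _ ?_
        rintro ⟨L, L'⟩ hL
        simp only at hL ⊢
        have hc : HT X.h L = n ∧ HT Y.h L' = n ∧ We X Y T i J j lo hi w L L' := by
          by_contra hn; exact hL (if_neg hn)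
        rw [if_pos hc]
        obtain ⟨h1, h2, A, P, R, P0, A', P', R', hA, hA2, hP, hP0, hA', hA2', hP', rfl, rfl, hC⟩ :=
          hc
        refine ⟨(P0, A, A', P, P', R, R'), rfl, ?_⟩
        simp only
        simp only [HT_append] at h1 h2
        rw [if_pos hC, if_pos (by omega), if_pos (by omega), Aw, Aw, if_pos hA, if_pos hA', PW, PW,
          PW, if_pos hP, if_pos hP', if_pos hP0, LW_flat X T A hA2, LW_flat Y T A' hA2']
        simp only [LW_append]
        refine le_of_eq ?_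
        ring
    _ ≤ ∑' P0, PW Y (J * i) P0 * Q := by
        rw [ENNReal.tsum_prod']
        refine ENNReal.tsum_le_tsum fun P0 => ?_
        simp only
        rw [ENNReal.tsum_mul_left]
        refine mul_le_mul_right (le_trans ?_ (hQ (HT Y.h P0) (w + Dp Y.z P0))) _
        rw [ENNReal.tsum_prod', WS]
        refine ENNReal.tsum_le_tsum fun A => ?_
        rw [ENNReal.tsum_prod']
        refine ENNReal.tsum_le_tsum fun A' => ?_
        rw [ENNReal.tsum_prod']
        refine ENNReal.tsum_le_tsum fun P => ?_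
        rw [ENNReal.tsum_prod']
        refine ENNReal.tsum_le_tsum fun P' => ?_
        simp only
        rw [ENNReal.tsum_mul_left]
        refine mul_le_of_le_one_right zero_le ?_
        rw [ENNReal.tsum_prod']
        simp only
        simp_rw [ENNReal.tsum_mul_left]
        rw [ENNReal.tsum_mul_right]
        exact mul_le_one' (R_sum X _ _) (R_sum Y _ _)
    _ = Q := by rw [ENNReal.tsum_mul_right, PW_sum, one_mul]

omit [AddCommGroup G] in
open Classical in
lemma law_bound {α : Type*} (q : α → ℝ≥0∞) (ξ : α → G) (Φ : G → ℝ≥0∞) (M R : ℝ≥0∞)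
    (hq : ∑' a, q a ≤ 1) (hM : ∀ x, ∑' a, (if ξ a = x then q a else 0) ≤ M)
    (hΦ : ∀ μ : G → ℝ≥0∞, ∑' x, μ x ≤ 1 → (∀ x, μ x ≤ M) → ∑' x, μ x * Φ x ≤ R) :
    ∑' a, q a * Φ (ξ a) ≤ R := by
  have key : ∀ g : G → ℝ≥0∞, ∑' a, q a * g (ξ a)
      = ∑' x, (∑' a, (if ξ a = x then q a else 0)) * g x := by
    intro g
    simp_rw [← ENNReal.tsum_mul_right]
    rw [ENNReal.tsum_comm]
    refine tsum_congr fun a => ?_
    rw [tsum_eq_single (ξ a)]
    · rw [if_pos rfl]
    · intro x hx; rw [if_neg hx.symm, zero_mul]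
  rw [key Φ]
  refine hΦ _ ?_ hM
  have := key (fun _ => 1)
  simp only [mul_one] at this
  rw [← this]
  exact hq

/-- relative position -/
def rel (w : G) (A : List (List BX)) (A' : List (List BY)) : G :=
  (w + Dp Y.z A'.flatten) - Dp X.z A.flatten

/-- values of the heights -/
def Sv (T i J j : ℕ) : Finset (ℕ × ℕ × ℕ × ℕ) :=
  (Finset.Icc (j * T) (j * T + j * i)) ×ˢ
    ((Finset.Icc (j * T + J * i) (j * T + (J * i + J * i))) ×ˢ
      ((Finset.Icc T (T + i)) ×ˢ (Finset.Icc T (T + i))))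

lemma Sv_card (T i J j : ℕ) : (Sv T i J j).card = (j * i + 1) * ((J * i + 1) * ((i + 1) * (i + 1))) := by
  simp only [Sv, Finset.card_product, Nat.card_Icc]
  rw [show j * T + j * i + 1 - j * T = j * i + 1 by omega, show T + i + 1 - T = i + 1 by omega,
    show j * T + (J * i + J * i) + 1 - (j * T + J * i) = J * i + 1 by omega]

lemma Sv_card_le (T i J j : ℕ) (h : j ≤ J) :
    (Sv T i J j).card ≤ (J * i + 1) * ((J * i + 1) * ((i + 1) * (i + 1))) := by
  rw [Sv_card]
  exact Nat.mul_le_mul_right _ (by have := Nat.mul_le_mul_right i h; omega)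

lemma mem_Sv (T i J j : ℕ) (v : ℕ × ℕ × ℕ × ℕ) :
    v ∈ Sv T i J j ↔ Hc T i J j v.1 v.2.1 v.2.2.1 v.2.2.2 := by
  simp only [Sv, Finset.mem_product, Finset.mem_Icc, Hc]

open Classical in
lemma loc_le (T i J j lo hi r : ℕ) (hj : j ≤ J) (w : G) (loc : List BX → List BY → Prop)
    (spec : List (List BX) → List (List BY) → Prop) (Φ : ℕ → ℕ → ℕ → ℕ → G → ℝ≥0∞)
    (hΦ0 : ∀ h h' c c' x, ∑' L, ∑' L', (if HT X.h L = h ∧ HT Y.h L' = h' ∧ loc L L' ∧
      Wv X Y lo hi L 0 c L' x c' then LW X.Λ L * LW Y.Λ L' else 0) ≤ Φ h h' c c' x)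
    (V M R : ℝ≥0∞)
    (hV : ∑' A, ∑' A', (if spec A A' then 0 else Aw X T j A * Aw Y T j A') ≤ V)
    (hM : ∀ (c c' : ℕ) (x : G), ∑' A, ∑' A', (if spec A A' ∧ HT X.h A.flatten = c ∧
      (r + HT Y.h A'.flatten) = c' ∧ rel X Y w A A' = x then Aw X T j A * Aw Y T j A' else 0) ≤ M)
    (hR : ∀ c c' h h', Hc T i J j c c' h h' → ∀ μ : G → ℝ≥0∞, ∑' x, μ x ≤ 1 → (∀ x, μ x ≤ M) →
      ∑' x, μ x * Φ h h' c c' x ≤ R) :
    ∑' A, ∑' A', ∑' P, ∑' P', (if loc P P' ∧ Cd X Y T i J j lo hi r w A A' P P' then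
      (Aw X T j A * Aw Y T j A') * (PW X T P * PW Y T P') else 0)
      ≤ V + ((J * i + 1) * ((J * i + 1) * ((i + 1) * (i + 1))) : ℕ) * R := by
  have hA1 : ∑' A, ∑' A', Aw X T j A * Aw Y T j A' ≤ 1 := by
    simp_rw [ENNReal.tsum_mul_left]
    rw [ENNReal.tsum_mul_right]
    exact mul_le_one' (Aw_sum X T j) (Aw_sum Y T j)
  have hP1 : ∑' P, ∑' P', PW X T P * PW Y T P' ≤ 1 := by
    simp_rw [ENNReal.tsum_mul_left]
    rw [ENNReal.tsum_mul_right]
    exact mul_le_one' (PW_sum X T).le (PW_sum Y T).le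
  calc _ ≤ ∑' A, ∑' A', ((if spec A A' then 0 else Aw X T j A * Aw Y T j A') +
        ∑ v ∈ Sv T i J j, (if spec A A' ∧ HT X.h A.flatten = v.1 ∧ (r + HT Y.h A'.flatten) = v.2.1
          then Aw X T j A * Aw Y T j A' else 0) * Φ v.2.2.1 v.2.2.2 v.1 v.2.1 (rel X Y w A A')) := by
        refine ENNReal.tsum_le_tsum fun A => ENNReal.tsum_le_tsum fun A' => ?_
        by_cases hs : spec A A'
        · rw [if_pos hs, zero_add]
          calc _ ≤ ∑' P, ∑' P', ∑ v ∈ Sv T i J j, (if spec A A' ∧ HT X.h A.flatten = v.1 ∧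
                (r + HT Y.h A'.flatten) = v.2.1 then Aw X T j A * Aw Y T j A' else 0) *
                (if HT X.h P = v.2.2.1 ∧ HT Y.h P' = v.2.2.2 ∧ loc P P' ∧
                  Wv X Y lo hi P 0 v.1 P' (rel X Y w A A') v.2.1 then
                    LW X.Λ P * LW Y.Λ P' else 0) := by
                refine ENNReal.tsum_le_tsum fun P => ENNReal.tsum_le_tsum fun P' => ?_
                split_ifs with h
                · obtain ⟨hl, hH, hW⟩ := h
                  have hmem : (HT X.h A.flatten, (r + HT Y.h A'.flatten), HT X.h P, HT Y.h P')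
                      ∈ Sv T i J j := by rw [mem_Sv]; exact hH
                  refine le_trans ?_ (Finset.single_le_sum (fun _ _ => zero_le) hmem)
                  rw [if_pos ⟨hs, rfl, rfl⟩, if_pos ⟨rfl, rfl, hl, (Wv_shift X Y _ _ _ _ _ _ _ _).1 hW⟩]
                  refine mul_le_mul_right (mul_le_mul' ?_ ?_) _
                  · rw [PW]; split_ifs <;> simp
                  · rw [PW]; split_ifs <;> simp
                · exact zero_le
            _ = ∑ v ∈ Sv T i J j, (if spec A A' ∧ HT X.h A.flatten = v.1 ∧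
                (r + HT Y.h A'.flatten) = v.2.1 then Aw X T j A * Aw Y T j A' else 0) *
                ∑' P, ∑' P', (if HT X.h P = v.2.2.1 ∧ HT Y.h P' = v.2.2.2 ∧ loc P P' ∧
                  Wv X Y lo hi P 0 v.1 P' (rel X Y w A A') v.2.1 then
                    LW X.Λ P * LW Y.Λ P' else 0) := by
                have e1 : ∀ P : List BX, (∑' P' : List BY, ∑ v ∈ Sv T i J j,
                    (if spec A A' ∧ HT X.h A.flatten = v.1 ∧
                (r + HT Y.h A'.flatten) = v.2.1 then Aw X T j A * Aw Y T j A' else 0) *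
                (if HT X.h P = v.2.2.1 ∧ HT Y.h P' = v.2.2.2 ∧ loc P P' ∧
                  Wv X Y lo hi P 0 v.1 P' (rel X Y w A A') v.2.1 then
                    LW X.Λ P * LW Y.Λ P' else 0))
                    = ∑ v ∈ Sv T i J j, (if spec A A' ∧ HT X.h A.flatten = v.1 ∧
                (r + HT Y.h A'.flatten) = v.2.1 then Aw X T j A * Aw Y T j A' else 0) *
                ∑' P', (if HT X.h P = v.2.2.1 ∧ HT Y.h P' = v.2.2.2 ∧ loc P P' ∧
                  Wv X Y lo hi P 0 v.1 P' (rel X Y w A A') v.2.1 then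
                    LW X.Λ P * LW Y.Λ P' else 0) := by
                  intro P
                  rw [Summable.tsum_finsetSum (fun _ _ => ENNReal.summable)]
                  exact Finset.sum_congr rfl fun v _ => ENNReal.tsum_mul_left
                rw [tsum_congr e1, Summable.tsum_finsetSum (fun _ _ => ENNReal.summable)]
                exact Finset.sum_congr rfl fun v _ => ENNReal.tsum_mul_left
            _ ≤ _ := Finset.sum_le_sum fun v _ => mul_le_mul_right (hΦ0 _ _ _ _ _) _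
        · rw [if_neg hs]
          refine le_add_right ?_
          calc _ ≤ ∑' P, ∑' P', (Aw X T j A * Aw Y T j A') * (PW X T P * PW Y T P') := by
                refine ENNReal.tsum_le_tsum fun P => ENNReal.tsum_le_tsum fun P' => ?_
                split_ifs
                · exact le_rfl
                · exact zero_le
            _ = (Aw X T j A * Aw Y T j A') * ∑' P, ∑' P', (PW X T P * PW Y T P') := by
                simp_rw [ENNReal.tsum_mul_left]
            _ ≤ _ := mul_le_of_le_one_right zero_le hP1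
    _ = ∑' A, ∑' A', (if spec A A' then 0 else Aw X T j A * Aw Y T j A') +
        ∑ v ∈ Sv T i J j, ∑' A, ∑' A', (if spec A A' ∧ HT X.h A.flatten = v.1 ∧
          (r + HT Y.h A'.flatten) = v.2.1 then Aw X T j A * Aw Y T j A' else 0) *
            Φ v.2.2.1 v.2.2.2 v.1 v.2.1 (rel X Y w A A') := by
        have e1 : ∀ A : List (List BX), ∑' A' : List (List BY),
          ((if spec A A' then 0 else Aw X T j A * Aw Y T j A') +
          ∑ v ∈ Sv T i J j, (if spec A A' ∧ HT X.h A.flatten = v.1 ∧ (r + HT Y.h A'.flatten) = v.2.1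
          then Aw X T j A * Aw Y T j A' else 0) * Φ v.2.2.1 v.2.2.2 v.1 v.2.1 (rel X Y w A A'))
          = ∑' A', (if spec A A' then 0 else Aw X T j A * Aw Y T j A') +
            ∑ v ∈ Sv T i J j, ∑' A', (if spec A A' ∧ HT X.h A.flatten = v.1 ∧
              (r + HT Y.h A'.flatten) = v.2.1
          then Aw X T j A * Aw Y T j A' else 0) * Φ v.2.2.1 v.2.2.2 v.1 v.2.1 (rel X Y w A A') := by
          intro A
          rw [ENNReal.tsum_add, Summable.tsum_finsetSum (fun _ _ => ENNReal.summable)]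
        rw [tsum_congr e1, ENNReal.tsum_add, Summable.tsum_finsetSum (fun _ _ => ENNReal.summable)]
    _ ≤ V + ∑ v ∈ Sv T i J j, R := by
        refine add_le_add hV (Finset.sum_le_sum fun v hv => ?_)
        rw [mem_Sv] at hv
        have := law_bound (fun q : List (List BX) × List (List BY) =>
          if spec q.1 q.2 ∧ HT X.h q.1.flatten = v.1 ∧
          r + HT Y.h q.2.flatten = v.2.1 then Aw X T j q.1 * Aw Y T j q.2 else 0)
          (fun q => rel X Y w q.1 q.2) (Φ v.2.2.1 v.2.2.2 v.1 v.2.1) M R ?_ ?_ (hR _ _ _ _ hv)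
        · rw [ENNReal.tsum_prod'] at this
          exact this
        · rw [ENNReal.tsum_prod']
          refine le_trans (ENNReal.tsum_le_tsum fun A => ENNReal.tsum_le_tsum fun A' => ?_) hA1
          simp only
          split_ifs
          · exact le_rfl
          · exact zero_le
        · intro x
          rw [ENNReal.tsum_prod']
          refine le_trans (ENNReal.tsum_le_tsum fun A => ENNReal.tsum_le_tsum fun A' => ?_)
            (hM v.1 v.2.1 x)
          simp only
          by_cases h1 : rel X Y w A A' = x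
          · rw [if_pos h1]
            by_cases h2 : spec A A' ∧ HT X.h A.flatten = v.1 ∧ (r + HT Y.h A'.flatten) = v.2.1
            · rw [if_pos h2, if_pos ⟨h2.1, h2.2.1, h2.2.2, h1⟩]
            · rw [if_neg h2]; exact zero_le
          · rw [if_neg h1]; exact zero_le
    _ ≤ _ := by
        rw [Finset.sum_const, nsmul_eq_mul]
        exact add_le_add le_rfl (mul_le_mul_left (by exact_mod_cast Sv_card_le T i J j hj) _)

/-- right side -/
noncomputable def Rt (C : ℝ≥0∞) (u0 lam : ℝ≥0∞) (J : ℕ) : ℝ≥0∞ :=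
  C * (lam + (2 * J) * u0 / lam + u0)

omit [AddCommGroup G] in
lemma Rt_ge (C u0 lam θ : ℝ≥0∞) (E : Finset G) (hE : θ * E.card ≤ 1) {j J : ℕ} (hj : j ≤ J) :
    C * (lam + (j * (2 * θ)) * E.card * u0 / lam + u0) ≤ Rt C u0 lam J := by
  have h1 : (j * (2 * θ)) * (E.card : ℝ≥0∞) ≤ 2 * J := by
    calc (j * (2 * θ)) * (E.card : ℝ≥0∞) = (2 * j) * (θ * E.card) := by ring
      _ ≤ (2 * j) * 1 := mul_le_mul_right hE _
      _ ≤ 2 * J := by rw [mul_one]; exact mul_le_mul_right (by exact_mod_cast hj) _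
  rw [Rt]
  refine mul_le_mul_right (add_le_add (add_le_add le_rfl ?_) le_rfl) _
  exact ENNReal.div_le_div_right (mul_le_mul_left h1 _) _

open Classical in
lemma X_local (T i J j K lo hi s r : ℕ) (w : G) (C u lam θ η : ℝ≥0∞)
    (hKj : K ≤ j) (hjJ : j < J) (hlo : lo = j * T + (J * i + J * i) + s) (hhi : hi + s = j * T + T)
    (hu1 : u ≠ ⊤) (hθ : θ ≠ 0) (hθ1 : θ ≠ ⊤)
    (hu : u ≤ ∑' x, (if pl X T x < 2 * θ then pl X T x else 0))
    (hl0 : lam ≠ 0) (hl1 : lam ≠ ⊤) (H2 : Hw (PhX X Y) C ((2 * J + 2) * i) s η) :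
    ∑' A, ∑' A', ∑' P, ∑' P', (if Lc X T θ P ∧ Cd X Y T i J j lo hi r w A A' P P' then
      (Aw X T j A * Aw Y T j A') * (PW X T P * PW Y T P') else 0)
      ≤ (1 - u) ^ K + ((J * i + 1) * ((J * i + 1) * ((i + 1) * (i + 1))) : ℕ) *
        Rt C η lam J := by
  obtain ⟨E, hE, hE2⟩ := fin_loc X T hθ
  refine loc_le X Y T i J j lo hi r hjJ.le w (fun P _ => Lc X T θ P)
    (fun A _ => ∃ P ∈ A, Sp X T θ P) (fun h h' c c' x => PhX X Y E lo hi h h' c c' x) ?_
    _ (j * (2 * θ)) _ ?_ ?_ ?_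
  · intro h h' c c' x
    rw [PhX]
    refine ENNReal.tsum_le_tsum fun L => ENNReal.tsum_le_tsum fun L' => ?_
    split_ifs with h1 h2 h2
    · exact le_rfl
    · exact absurd ⟨h1.1, hE2 L h1.2.2.1, h1.2.1, h1.2.2.2⟩ h2
    · exact zero_le
    · exact le_rfl
  · refine le_trans (le_of_eq ?_) (le_trans (mul_le_of_le_one_right zero_le (Aw_sum Y T j))
      (nosp X T j K hKj θ u hu1 hu))
    rw [← ENNReal.tsum_mul_right]
    refine tsum_congr fun A => ?_
    rw [← ENNReal.tsum_mul_left]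
    refine tsum_congr fun A' => ?_
    split_ifs <;> simp
  · intro c c' x
    rw [ENNReal.tsum_comm]
    calc _ ≤ ∑' A', Aw Y T j A' * ∑' A, (if (∃ P ∈ A, Sp X T θ P) ∧
            hz X A.flatten = ((c : ℤ), w + Dp Y.z A'.flatten - x) then Aw X T j A else 0) := by
          refine ENNReal.tsum_le_tsum fun A' => ?_
          rw [← ENNReal.tsum_mul_left]
          refine ENNReal.tsum_le_tsum fun A => ?_
          split_ifs with h1 h2 h2
          · rw [mul_comm]
          · exfalso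
            apply h2
            obtain ⟨h3, h4, h5, h6⟩ := h1
            refine ⟨h3, ?_⟩
            rw [hz, h4, ← h6, rel]
            simp
          · exact zero_le
          · exact zero_le
      _ ≤ ∑' A', Aw Y T j A' * (j * (2 * θ)) :=
          ENNReal.tsum_le_tsum fun A' => mul_le_mul_right (dens_A X T j θ _) _
      _ ≤ _ := by
          rw [ENNReal.tsum_mul_right]
          exact mul_le_of_le_one_left zero_le (Aw_sum Y T j)
  · intro c c' h h' hH μ h1 h2
    refine le_trans (H2 lo hi h h' c c' E μ _ lam h1 h2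
      (ENNReal.mul_ne_top (ENNReal.natCast_ne_top j) (ENNReal.mul_ne_top (by norm_num) hθ1))
      hl0 hl1 ?_) (Rt_ge C _ lam θ E hE hjJ.le)
    obtain ⟨h3, h4, h5, h6⟩ := hH
    have hji : (j + 1) * i ≤ J * i := Nat.mul_le_mul_right i (by omega)
    rw [add_mul, one_mul] at hji
    have h2J : (2 * J + 2) * i = J * i + J * i + i + i := by ring
    rw [h2J]
    refine ⟨?_, ?_, ?_, ?_, ?_, ?_, ?_, ?_⟩ <;> omega

open Classical in
lemma Y_local (T i J j K lo hi s r : ℕ) (w : G) (C u lam θ η : ℝ≥0∞)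
    (hKj : K ≤ j) (hjJ : j < J) (hlo : lo = j * T + (J * i + J * i) + s) (hhi : hi + s = j * T + T)
    (hu1 : u ≠ ⊤) (hθ : θ ≠ 0) (hθ1 : θ ≠ ⊤)
    (hu : u ≤ ∑' x, (if pl Y T x < 2 * θ then pl Y T x else 0))
    (hl0 : lam ≠ 0) (hl1 : lam ≠ ⊤) (H3 : Hw (PhY X Y) C ((2 * J + 2) * i) s η) :
    ∑' A, ∑' A', ∑' P, ∑' P', (if Lc Y T θ P' ∧ Cd X Y T i J j lo hi r w A A' P P' then
      (Aw X T j A * Aw Y T j A') * (PW X T P * PW Y T P') else 0)
      ≤ (1 - u) ^ K + ((J * i + 1) * ((J * i + 1) * ((i + 1) * (i + 1))) : ℕ) *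
        Rt C η lam J := by
  obtain ⟨E, hE, hE2⟩ := fin_loc Y T hθ
  refine loc_le X Y T i J j lo hi r hjJ.le w (fun _ P' => Lc Y T θ P')
    (fun _ A' => ∃ P ∈ A', Sp Y T θ P) (fun h h' c c' x => PhY X Y E lo hi h h' c c' x) ?_
    _ (j * (2 * θ)) _ ?_ ?_ ?_
  · intro h h' c c' x
    rw [PhY]
    refine ENNReal.tsum_le_tsum fun L => ENNReal.tsum_le_tsum fun L' => ?_
    split_ifs with h1 h2 h2
    · exact le_rfl
    · exact absurd ⟨h1.1, hE2 L' h1.2.2.1, h1.2.1, h1.2.2.2⟩ h2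
    · exact zero_le
    · exact le_rfl
  · refine le_trans (le_of_eq ?_) (le_trans (mul_le_of_le_one_left zero_le (Aw_sum X T j))
      (nosp Y T j K hKj θ u hu1 hu))
    rw [← ENNReal.tsum_mul_right]
    refine tsum_congr fun A => ?_
    rw [← ENNReal.tsum_mul_left]
    refine tsum_congr fun A' => ?_
    split_ifs <;> simp
  · intro c c' x
    calc _ ≤ ∑' A, Aw X T j A * ∑' A', (if (∃ P ∈ A', Sp Y T θ P) ∧
            hz Y A'.flatten = ((c' : ℤ) - (r : ℤ), x + Dp X.z A.flatten - w) then Aw Y T j A' else 0) := by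
          refine ENNReal.tsum_le_tsum fun A => ?_
          rw [← ENNReal.tsum_mul_left]
          refine ENNReal.tsum_le_tsum fun A' => ?_
          split_ifs with h1 h2 h2
          · exact le_rfl
          · exfalso
            apply h2
            obtain ⟨h3, h4, h5, h6⟩ := h1
            refine ⟨h3, ?_⟩
            rw [hz, ← h5, ← h6, rel]
            simp
          · exact zero_le
          · exact zero_le
      _ ≤ ∑' A, Aw X T j A * (j * (2 * θ)) :=
          ENNReal.tsum_le_tsum fun A => mul_le_mul_right (dens_A Y T j θ _) _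
      _ ≤ _ := by
          rw [ENNReal.tsum_mul_right]
          exact mul_le_of_le_one_left zero_le (Aw_sum X T j)
  · intro c c' h h' hH μ h1 h2
    refine le_trans (H3 lo hi h h' c c' E μ _ lam h1 h2
      (ENNReal.mul_ne_top (ENNReal.natCast_ne_top j) (ENNReal.mul_ne_top (by norm_num) hθ1))
      hl0 hl1 ?_) (Rt_ge C _ lam θ E hE hjJ.le)
    obtain ⟨h3, h4, h5, h6⟩ := hH
    have hji : (j + 1) * i ≤ J * i := Nat.mul_le_mul_right i (by omega)
    rw [add_mul, one_mul] at hji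
    have h2J : (2 * J + 2) * i = J * i + J * i + i + i := by ring
    rw [h2J]
    refine ⟨?_, ?_, ?_, ?_, ?_, ?_, ?_, ?_⟩ <;> omega

open Classical in
lemma WS_le (T i J j K lo hi s r : ℕ) (w : G) (C u lam η : ℝ≥0∞)
    (hKj : K ≤ j) (hjJ : j < J) (hlo : lo = j * T + (J * i + J * i) + s) (hhi : hi + s = j * T + T)
    (hu0 : u ≠ 0) (hu1 : u < 1)
    (hl0 : lam ≠ 0) (hl1 : lam ≠ ⊤) (H2 : Hw (PhX X Y) C ((2 * J + 2) * i) s η) (H3 : Hw (PhY X Y) C ((2 * J + 2) * i) s η) :
    WS X Y T i J j lo hi r w ≤ u * u + 2 * ((1 - u) ^ K +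
      ((J * i + 1) * ((J * i + 1) * ((i + 1) * (i + 1))) : ℕ) *
        Rt C η lam J) := by
  obtain ⟨θ, hθ0, hθ1, hθ2, hθ3⟩ := quant (pl X T) (pl_sum X T) hu0 hu1
  obtain ⟨θ', hθ0', hθ1', hθ2', hθ3'⟩ := quant (pl Y T) (pl_sum Y T) hu0 hu1
  have hutop : u ≠ ⊤ := ne_top_of_lt hu1
  have hX := X_local X Y T i J j K lo hi s r w C u lam θ η hKj hjJ hlo hhi hutop hθ0
    (ne_top_of_le_ne_top ENNReal.one_ne_top hθ1)
    (by convert hθ3) hl0 hl1 H2
  have hY := Y_local X Y T i J j K lo hi s r w C u lam θ' η hKj hjJ hlo hhi hutop hθ0'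
    (ne_top_of_le_ne_top ENNReal.one_ne_top hθ1')
    (by convert hθ3') hl0 hl1 H3
  have hnl : ∀ (W : WD BX G) (θ : ℝ≥0∞), (∑' x, if pl W T x < θ then pl W T x else 0) ≤ u →
      ∑' P, (if pl W T (hz W P) < θ then PW W T P else 0) ≤ u := by
    intro W θ h
    refine le_trans (le_of_eq ?_) h
    have := push W T (fun x => if pl W T x < θ then 1 else 0)
    simp only [mul_ite, mul_one, mul_zero] at this
    exact this
  have hnl' : ∀ (W : WD BY G) (θ : ℝ≥0∞), (∑' x, if pl W T x < θ then pl W T x else 0) ≤ u →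
      ∑' P, (if pl W T (hz W P) < θ then PW W T P else 0) ≤ u := by
    intro W θ h
    refine le_trans (le_of_eq ?_) h
    have := push W T (fun x => if pl W T x < θ then 1 else 0)
    simp only [mul_ite, mul_one, mul_zero] at this
    exact this
  have h1 := hnl X θ (by convert hθ2)
  have h2 := hnl' Y θ' (by convert hθ2')
  rw [WS]
  calc _ ≤ ∑' A, ∑' A', ∑' P, ∑' P', ((Aw X T j A * Aw Y T j A') *
        ((if pl X T (hz X P) < θ then PW X T P else 0) *
          (if pl Y T (hz Y P') < θ' then PW Y T P' else 0)) +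
        ((if Lc X T θ P ∧ Cd X Y T i J j lo hi r w A A' P P' then
          (Aw X T j A * Aw Y T j A') * (PW X T P * PW Y T P') else 0) +
        (if Lc Y T θ' P' ∧ Cd X Y T i J j lo hi r w A A' P P' then
          (Aw X T j A * Aw Y T j A') * (PW X T P * PW Y T P') else 0))) := by
        refine ENNReal.tsum_le_tsum fun A => ENNReal.tsum_le_tsum fun A' =>
          ENNReal.tsum_le_tsum fun P => ENNReal.tsum_le_tsum fun P' => ?_
        by_cases hc : Cd X Y T i J j lo hi r w A A' P P'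
        · rw [if_pos hc]
          by_cases hx : pl X T (hz X P) < θ
          · by_cases hy : pl Y T (hz Y P') < θ'
            · rw [if_pos hx, if_pos hy]
              exact le_add_right le_rfl
            · refine le_add_left (le_add_left ?_)
              rw [if_pos ⟨hy, hc⟩]
          · refine le_add_left (le_add_right ?_)
            rw [if_pos ⟨hx, hc⟩]
        · rw [if_neg hc]; exact zero_le
    _ = (∑' A, ∑' A', (Aw X T j A * Aw Y T j A')) *
          ((∑' P, if pl X T (hz X P) < θ then PW X T P else 0) *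
            (∑' P', if pl Y T (hz Y P') < θ' then PW Y T P' else 0)) +
        (∑' A, ∑' A', ∑' P, ∑' P', (if Lc X T θ P ∧
          Cd X Y T i J j lo hi r w A A' P P' then
          (Aw X T j A * Aw Y T j A') * (PW X T P * PW Y T P') else 0) +
        ∑' A, ∑' A', ∑' P, ∑' P', (if Lc Y T θ' P' ∧
          Cd X Y T i J j lo hi r w A A' P P' then
          (Aw X T j A * Aw Y T j A') * (PW X T P * PW Y T P') else 0)) := by
        simp_rw [ENNReal.tsum_add, ENNReal.tsum_mul_left, ENNReal.tsum_mul_right,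
          ENNReal.tsum_mul_left]
        rw [ENNReal.tsum_mul_right]
    _ ≤ 1 * (u * u) + (_ + _) := by
        refine add_le_add (mul_le_mul' ?_ (mul_le_mul' h1 h2)) (add_le_add hX hY)
        simp_rw [ENNReal.tsum_mul_left]
        rw [ENNReal.tsum_mul_right]
        exact mul_le_one' (Aw_sum X T j) (Aw_sum Y T j)
    _ = _ := by rw [one_mul, two_mul]

lemma event (T i J K s m n : ℕ) (w : G) (hT : 0 < T) (hs : s ≤ T) (hm1 : K * T ≤ m)
    (hm2 : 2 * m + s < J * T) (hn : J * (T + i) + (J * i + i) ≤ n) (L : List BX) (L' : List BY)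
    (hL : HT X.h L = n) (hL' : HT Y.h L' = n)
    (hc : ∃ z k, m < k ∧ k ≤ 2 * m ∧ (z, k) ∈ X.T L 0 0 ∧ (z, k) ∈ Y.T L' w 0) :
    Bd X T i J L ∨ Bd0 Y (J * i) T i J L' ∨
    (∃ j ∈ Finset.Icc K J, ∃ k ∈ Finset.Icc (j * T - s) (j * T + (J * i + J * i) + s),
      ∃ z, (z, k) ∈ X.T L 0 0 ∧ (z, k) ∈ Y.T L' w 0) ∨
    (∃ j ∈ Finset.Ico K J,
      We X Y T i J j (j * T + (J * i + J * i) + s) (j * T + T - s) w L L') := by
  rcases decomp X T i J L (by omega) with ⟨A, hA, hg, R, rfl⟩ | hb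
  swap
  · exact Or.inl hb
  obtain ⟨P0, L'', rfl, hP0⟩ := exists_fp Y L' (J * i) (by omega)
  by_cases hP0' : J * i + i < HT Y.h P0
  · exact Or.inr (Or.inl (Or.inl ⟨P0, hP0, hP0', L'', rfl⟩))
  have hP01 := le_HT_of_fp Y.h hP0
  rw [HT_append] at hL'
  rcases decomp Y T i J L'' (by omega) with ⟨A', hA', hg', R', rfl⟩ | hb
  swap
  · exact Or.inr (Or.inl (Or.inr ⟨P0, hP0, L'', rfl, hb⟩))
  by_cases hsl : ∃ j ∈ Finset.Icc K J,
      ∃ k ∈ Finset.Icc (j * T - s) (j * T + (J * i + J * i) + s),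
      ∃ z, (z, k) ∈ X.T (A.flatten ++ R) 0 0 ∧ (z, k) ∈ Y.T (P0 ++ (A'.flatten ++ R')) w 0
  · exact Or.inr (Or.inr (Or.inl hsl))
  refine Or.inr (Or.inr (Or.inr ?_))
  have hno : ∀ j, K ≤ j → j ≤ J → ∀ z k, (z, k) ∈ X.T (A.flatten ++ R) 0 0 →
      (z, k) ∈ Y.T (P0 ++ (A'.flatten ++ R')) w 0 →
      k < j * T - s ∨ j * T + (J * i + J * i) + s < k := by
    intro j hj1 hj2 z k h1 h2
    by_contra hcon
    apply hsl
    exact ⟨j, Finset.mem_Icc.2 ⟨hj1, hj2⟩, k, Finset.mem_Icc.2 ⟨by omega, by omega⟩, z, h1, h2⟩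
  obtain ⟨z, k, hk1, hk2, hz1, hz2⟩ := hc
  have hj := Nat.div_add_mod k T
  have hmod := Nat.mod_lt k hT
  set j := k / T with hjdef
  rw [mul_comm] at hj
  have hKj : K ≤ j := by
    by_contra hlt
    have : (j + 1) * T ≤ K * T := Nat.mul_le_mul_right T (by omega)
    rw [add_mul, one_mul] at this
    omega
  have hjJ : j < J := by
    by_contra hlt
    have : J * T ≤ j * T := Nat.mul_le_mul_right T (by omega)
    omega
  have hsucc : (j + 1) * T = j * T + T := by ring
  obtain ⟨A1, P, A2, rfl, hA1⟩ := cut A j (by omega)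
  obtain ⟨A1', P', A2', rfl, hA1'⟩ := cut A' j (by omega)
  have hgP := hg P (by simp)
  have hgP' := hg' P' (by simp)
  have hP1 := le_HT_of_fp X.h hgP.1
  have hP1' := le_HT_of_fp Y.h hgP'.1
  have hP2 := hgP.2
  have hP2' := hgP'.2
  have hgA := fun Q (hQ : Q ∈ A1) => hg Q (List.mem_append_left _ hQ)
  have hgA' := fun Q (hQ : Q ∈ A1') => hg' Q (List.mem_append_left _ hQ)
  have hh := HT_flat X T i A1 hgA
  have hh' := HT_flat Y T i A1' hgA'
  rw [hA1] at hh
  rw [hA1'] at hh'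
  have hji : (j + 1) * i ≤ J * i := Nat.mul_le_mul_right i (by omega)
  rw [add_mul, one_mul] at hji
  have e1 : (A1 ++ P :: A2).flatten ++ R = A1.flatten ++ (P ++ (A2.flatten ++ R)) := by simp
  have e2 : P0 ++ ((A1' ++ P' :: A2').flatten ++ R')
      = P0 ++ (A1'.flatten ++ (P' ++ (A2'.flatten ++ R'))) := by
    simp
  have e3 : P0 ++ (A1'.flatten ++ (P' ++ (A2'.flatten ++ R')))
      = (P0 ++ A1'.flatten) ++ (P' ++ (A2'.flatten ++ R')) := by simp
  have n1 := hno j hKj hjJ.le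
  have n2 := hno (j + 1) (by omega) (by omega)
  rw [e1, e2, e3] at n1 n2
  rw [e1] at hz1
  rw [e2, e3] at hz2
  have c1 := n1 z k hz1 hz2
  have c2 := n2 z k hz1 hz2
  rw [hsucc] at c2
  have hC : HT Y.h (P0 ++ A1'.flatten) = HT Y.h P0 + HT Y.h A1'.flatten := HT_append _ _ _
  have hD : w + Dp Y.z (P0 ++ A1'.flatten) = w + Dp Y.z P0 + Dp Y.z A1'.flatten := by
    rw [Dp_append, add_assoc]
  refine ⟨j, Finset.mem_Ico.2 ⟨hKj, hjJ⟩, A1, P, A2.flatten ++ R, P0, A1', P', A2'.flatten ++ R',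
    hA1, fun Q hQ => (hgA Q hQ).1, hgP.1, hP0, hA1', fun Q hQ => (hgA' Q hQ).1, hgP'.1, e1, e2,
    ?_, ?_, ?_⟩
  · refine ⟨⟨?_, ?_⟩, ⟨?_, ?_⟩, ⟨?_, ?_⟩, ⟨?_, ?_⟩⟩ <;> omega
  · refine ⟨z, k, ?_, ?_⟩
    · have := mid X _ _ _ 0 z k hz1 (by omega) (by omega)
      rwa [zero_add] at this
    · have := mid Y _ _ _ w z k hz2 (by omega) (by omega)
      rwa [hD, hC] at this
  · intro z' k' h1 h2
    have d1 := X.T_depth _ _ _ _ _ h1
    have d2 := Y.T_depth _ _ _ _ _ h2
    have m1 := mid' X A1.flatten P (A2.flatten ++ R) 0 z' k' (by rwa [zero_add])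
    have m2 := mid' Y (P0 ++ A1'.flatten) P' (A2'.flatten ++ R') w z' k' (by rwa [hD, hC])
    have c1' := n1 z' k' m1 m2
    have c2' := n2 z' k' m1 m2
    rw [hsucc] at c2'
    omega

open Classical in
/-- weight of a contact at depth `k` -/
noncomputable def ptw (n k : ℕ) (w : G) : ℝ≥0∞ := ∑' LX, ∑' LY,
    (if HT X.h LX = n ∧ HT Y.h LY = n ∧ ∃ z, (z, k) ∈ X.T LX 0 0 ∧ (z, k) ∈ Y.T LY w 0
      then LW X.Λ LX * LW Y.Λ LY else 0)

open Classical in
lemma total (T i J K s m n : ℕ) (w : G) (hT : 0 < T) (hs : s ≤ T) (hm1 : K * T ≤ m)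
    (hm2 : 2 * m + s < J * T) (hn : J * (T + i) + (J * i + i) ≤ n) (Q : ℝ≥0∞)
    (hQ : ∀ j, K ≤ j → j < J → ∀ r w,
      WS X Y T i J j (j * T + (J * i + J * i) + s) (j * T + T - s) r w ≤ Q) :
    ∑' L, ∑' L', (if HT X.h L = n ∧ HT Y.h L' = n ∧
      (∃ z k, m < k ∧ k ≤ 2 * m ∧ (z, k) ∈ X.T L 0 0 ∧ (z, k) ∈ Y.T L' w 0)
      then LW X.Λ L * LW Y.Λ L' else 0) ≤
    J * ov X T i + ((ov Y (J * i) i + J * ov Y T i) +
      (∑ j ∈ Finset.Icc K J, ∑ k ∈ Finset.Icc (j * T - s) (j * T + (J * i + J * i) + s), ptw X Y n k w +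
      ∑ _j ∈ Finset.Ico K J, Q)) := by
  calc _ ≤ ∑' L, ∑' L', ((if HT X.h L = n ∧ Bd X T i J L then LW X.Λ L else 0) *
        (if HT Y.h L' = n then LW Y.Λ L' else 0) +
        ((if HT X.h L = n then LW X.Λ L else 0) *
          (if HT Y.h L' = n ∧ Bd0 Y (J * i) T i J L' then LW Y.Λ L' else 0) +
        (∑ j ∈ Finset.Icc K J, ∑ k ∈ Finset.Icc (j * T - s) (j * T + (J * i + J * i) + s),
          (if HT X.h L = n ∧ HT Y.h L' = n ∧ ∃ z, (z, k) ∈ X.T L 0 0 ∧ (z, k) ∈ Y.T L' w 0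
            then LW X.Λ L * LW Y.Λ L' else 0) +
        ∑ j ∈ Finset.Ico K J, (if HT X.h L = n ∧ HT Y.h L' = n ∧
          We X Y T i J j (j * T + (J * i + J * i) + s) (j * T + T - s) w L L'
            then LW X.Λ L * LW Y.Λ L' else 0)))) := by
        refine ENNReal.tsum_le_tsum fun L => ENNReal.tsum_le_tsum fun L' => ?_
        by_cases h : HT X.h L = n ∧ HT Y.h L' = n ∧
          (∃ z k, m < k ∧ k ≤ 2 * m ∧ (z, k) ∈ X.T L 0 0 ∧ (z, k) ∈ Y.T L' w 0)
        · rw [if_pos h]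
          obtain ⟨h1, h2, h3⟩ := h
          rcases event X Y T i J K s m n w hT hs hm1 hm2 hn L L' h1 h2 h3 with
            hb | hb | ⟨j, hj, k, hk, hz⟩ | ⟨j, hj, hw⟩
          · refine le_add_right ?_
            rw [if_pos ⟨h1, hb⟩, if_pos h2]
          · refine le_add_left (le_add_right ?_)
            rw [if_pos h1, if_pos ⟨h2, hb⟩]
          · refine le_add_left (le_add_left (le_add_right ?_))
            refine le_trans ?_ (Finset.single_le_sum (fun _ _ => zero_le) hj)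
            refine le_trans ?_ (Finset.single_le_sum (fun _ _ => zero_le) hk)
            rw [if_pos ⟨h1, h2, hz⟩]
          · refine le_add_left (le_add_left (le_add_left ?_))
            refine le_trans ?_ (Finset.single_le_sum (fun _ _ => zero_le) hj)
            rw [if_pos ⟨h1, h2, hw⟩]
        · rw [if_neg h]; exact zero_le
    _ = (∑' L, if HT X.h L = n ∧ Bd X T i J L then LW X.Λ L else 0) *
        (∑' L', if HT Y.h L' = n then LW Y.Λ L' else 0) +
        ((∑' L, if HT X.h L = n then LW X.Λ L else 0) *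
          (∑' L', if HT Y.h L' = n ∧ Bd0 Y (J * i) T i J L' then LW Y.Λ L' else 0) +
        (∑ j ∈ Finset.Icc K J, ∑ k ∈ Finset.Icc (j * T - s) (j * T + (J * i + J * i) + s), ptw X Y n k w +
        ∑ j ∈ Finset.Ico K J, ∑' L, ∑' L', (if HT X.h L = n ∧ HT Y.h L' = n ∧
          We X Y T i J j (j * T + (J * i + J * i) + s) (j * T + T - s) w L L'
            then LW X.Λ L * LW Y.Λ L' else 0))) := by
        simp_rw [ENNReal.tsum_add, ENNReal.tsum_mul_left]
        rw [ENNReal.tsum_mul_right, ENNReal.tsum_mul_right]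
        congr 2
        congr 1
        · simp only [ptw]
          have e : ∀ L : List BX, (∑' L', ∑ j ∈ Finset.Icc K J,
              ∑ k ∈ Finset.Icc (j * T - s) (j * T + (J * i + J * i) + s),
              (if HT X.h L = n ∧ HT Y.h L' = n ∧ ∃ z, (z, k) ∈ X.T L 0 0 ∧ (z, k) ∈ Y.T L' w 0
              then LW X.Λ L * LW Y.Λ L' else 0)) = ∑ j ∈ Finset.Icc K J,
              ∑ k ∈ Finset.Icc (j * T - s) (j * T + (J * i + J * i) + s), ∑' L',
              (if HT X.h L = n ∧ HT Y.h L' = n ∧ ∃ z, (z, k) ∈ X.T L 0 0 ∧ (z, k) ∈ Y.T L' w 0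
              then LW X.Λ L * LW Y.Λ L' else 0) := by
            intro L
            rw [Summable.tsum_finsetSum (fun _ _ => ENNReal.summable)]
            refine Finset.sum_congr rfl fun j _ => ?_
            rw [Summable.tsum_finsetSum (fun _ _ => ENNReal.summable)]
          rw [tsum_congr e, Summable.tsum_finsetSum (fun _ _ => ENNReal.summable)]
          refine Finset.sum_congr rfl fun j _ => ?_
          rw [Summable.tsum_finsetSum (fun _ _ => ENNReal.summable)]
        · have e : ∀ L : List BX, (∑' L', ∑ j ∈ Finset.Ico K J,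
              (if HT X.h L = n ∧ HT Y.h L' = n ∧
                We X Y T i J j (j * T + (J * i + J * i) + s) (j * T + T - s) w L L'
              then LW X.Λ L * LW Y.Λ L' else 0)) = ∑ j ∈ Finset.Ico K J, ∑' L',
              (if HT X.h L = n ∧ HT Y.h L' = n ∧
                We X Y T i J j (j * T + (J * i + J * i) + s) (j * T + T - s) w L L'
              then LW X.Λ L * LW Y.Λ L' else 0) := by
            intro L
            rw [Summable.tsum_finsetSum (fun _ _ => ENNReal.summable)]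
          rw [tsum_congr e, Summable.tsum_finsetSum (fun _ _ => ENNReal.summable)]
    _ ≤ (J * ov X T i) * 1 + (1 * (ov Y (J * i) i + J * ov Y T i) + (_ + _)) := by
        refine add_le_add (mul_le_mul' (bad_le' X T i J n) (U_le Y n)) (add_le_add
          (mul_le_mul' (U_le X n) (bad_le0 Y (J * i) T i J n)) (add_le_add le_rfl
            (Finset.sum_le_sum fun j hj => We_le X Y T i J j _ _ n w Q fun r w =>
              hQ j (Finset.mem_Ico.1 hj).1 (Finset.mem_Ico.1 hj).2 r w)))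
    _ = _ := by rw [mul_one, one_mul]

/-- contact at a given depth -/
def Pt (Ok : G → Prop) : Prop :=
  ∀ η : ℝ≥0∞, η ≠ 0 → ∃ T : ℕ, ∀ k, T ≤ k → ∀ n, ∀ w : G, Ok w → ptw X Y n k w ≤ η

lemma small (c ε : ℝ≥0∞) (hc : c ≠ ⊤) (hε : ε ≠ 0) : ∃ δ : ℝ≥0∞, δ ≠ 0 ∧ δ ≠ ⊤ ∧ c * δ ≤ ε := by
  rcases eq_or_ne ε ⊤ with rfl | hT
  · exact ⟨1, one_ne_zero, ENNReal.one_ne_top, le_top⟩
  refine ⟨ε / (c + 1), ?_, ?_, ?_⟩
  · rw [Ne, ENNReal.div_eq_zero_iff]
    push Not
    exact ⟨hε, ENNReal.add_ne_top.2 ⟨hc, ENNReal.one_ne_top⟩⟩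
  · exact ENNReal.div_ne_top hT (by simp)
  · rw [← mul_div_assoc]
    refine ENNReal.div_le_of_le_mul ?_
    rw [mul_comm]
    exact mul_le_mul_right le_self_add _

lemma ov_anti {B : Type*} (w : WD B G) (T i i' : ℕ) (h : i ≤ i') : ov w T i' ≤ ov w T i := by
  classical
  rw [ov, ov]
  refine ENNReal.tsum_le_tsum fun P => ?_
  split_ifs with h1 h2 h2
  · exact le_rfl
  · omega
  · exact zero_le
  · exact le_rfl

omit [AddCommGroup G] in
lemma Hw_mono (Ph : Finset G → ℕ → ℕ → ℕ → ℕ → ℕ → ℕ → G → ℝ≥0∞) (C C' : ℝ≥0∞) (hC : C ≤ C')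
    (i0 s : ℕ) (η : ℝ≥0∞) (h : Hw Ph C i0 s η) : Hw Ph C' i0 s η := by
  intro lo hi h1 h' a a' E μ M lam g1 g2 g3 g4 g5 g6
  exact le_trans (h lo hi h1 h' a a' E μ M lam g1 g2 g3 g4 g5 g6) (mul_le_mul_left hC _)

open Classical in
/-- **KAPPA' on lists** -/
theorem kap (Ok : G → Prop) (h2 : HwE (PhX X Y)) (h3 : HwE (PhY X Y)) (hpt : Pt X Y Ok) :
    ∀ ε : ℝ≥0∞, ε ≠ 0 → ∃ M : ℕ, ∀ m, M ≤ m → ∀ n, 6 * m ≤ n → ∀ w : G, Ok w →
      ∑' L, ∑' L', (if HT X.h L = n ∧ HT Y.h L' = n ∧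
        (∃ z k, m < k ∧ k ≤ 2 * m ∧ (z, k) ∈ X.T L 0 0 ∧ (z, k) ∈ Y.T L' w 0)
        then LW X.Λ L * LW Y.Λ L' else 0) ≤ ε := by
  intro ε hε
  have he8 : ε / 8 ≠ 0 := by
    rw [Ne, ENNReal.div_eq_zero_iff]; push Not; exact ⟨hε, by norm_num⟩
  obtain ⟨q, hq, hnum⟩ := num he8 6
  set K : ℕ := q ^ 3 with hK
  have hK1 : 1 ≤ K := Nat.one_le_pow _ _ (by omega)
  set J : ℕ := 2 * K + 3 with hJ
  set u : ℝ≥0∞ := ((q : ℝ≥0∞) ^ 2)⁻¹ with hu
  have hq2 : (1 : ℝ≥0∞) < (q : ℝ≥0∞) ^ 2 := by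
    have : (1 : ℕ) < q ^ 2 := Nat.one_lt_pow (by norm_num) (by omega)
    exact_mod_cast this
  have hu0 : u ≠ 0 := by
    rw [hu]; exact ENNReal.inv_ne_zero.2 (ENNReal.pow_ne_top (ENNReal.natCast_ne_top q))
  have hu1 : u < 1 := by rw [hu]; exact ENNReal.inv_lt_one.2 hq2
  have hN1 : (J : ℝ≥0∞) * (u * u + 2 * (1 - u) ^ K) ≤ ε / 8 := by
    refine le_trans ?_ hnum
    have g1 : (1 - u) ^ K ≤ (1 - (2 * (q : ℝ≥0∞) ^ 2)⁻¹) ^ (q ^ 3) := by
      refine pow_le_pow_left₀ zero_le (tsub_le_tsub_left ?_ _) _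
      rw [hu]
      refine ENNReal.inv_le_inv.2 ?_
      calc (q : ℝ≥0∞) ^ 2 = 1 * (q : ℝ≥0∞) ^ 2 := (one_mul _).symm
        _ ≤ _ := mul_le_mul_left (by norm_num) _
    have g2 : u * u = ((q : ℝ≥0∞) ^ 2)⁻¹ ^ 2 := by rw [hu, sq (((q : ℝ≥0∞) ^ 2)⁻¹)]
    calc (J : ℝ≥0∞) * (u * u + 2 * (1 - u) ^ K)
        ≤ (J : ℝ≥0∞) * (2 * (((q : ℝ≥0∞) ^ 2)⁻¹ ^ 2 + (1 - (2 * (q : ℝ≥0∞) ^ 2)⁻¹) ^ (q ^ 3))) := by
          refine mul_le_mul_right ?_ _
          rw [mul_add, g2]
          refine add_le_add ?_ (mul_le_mul_right g1 _)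
          exact le_mul_of_one_le_left zero_le (by norm_num)
      _ = ((J : ℝ≥0∞) * 2) * (((q : ℝ≥0∞) ^ 2)⁻¹ ^ 2 + (1 - (2 * (q : ℝ≥0∞) ^ 2)⁻¹) ^ (q ^ 3)) := by
          ring
      _ ≤ _ := by
          refine mul_le_mul_left ?_ _
          have : J * 2 ≤ 6 * (q ^ 3 + 6) := by rw [hJ, hK]; omega
          exact_mod_cast this
  -- overshoots
  obtain ⟨o, ho0, -, hoc⟩ := small (2 * J + 1) (ε / 8) (by finiteness) he8
  obtain ⟨iX, hiX⟩ := ov_small X ho0
  obtain ⟨iY, hiY⟩ := ov_small Y ho0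
  set i : ℕ := max iX iY with hi
  have oX : ∀ T, ov X T i ≤ o := fun T => (ov_anti X T iX i (le_max_left _ _)).trans (hiX T)
  have oY : ∀ T, ov Y T i ≤ o := fun T => (ov_anti Y T iY i (le_max_right _ _)).trans (hiY T)
  obtain ⟨C2, hC2, h2⟩ := h2
  obtain ⟨C3, hC3, h3⟩ := h3
  set C : ℝ≥0∞ := C2 + C3 with hC
  have hCt : C ≠ ⊤ := ENNReal.add_ne_top.2 ⟨hC2, hC3⟩
  set N : ℕ := (J * i + 1) * ((J * i + 1) * ((i + 1) * (i + 1))) with hN
  obtain ⟨lam, hl0, hl1, hlc⟩ := small (J * (2 * (N * C))) (ε / 8)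
    (by finiteness) he8
  have hc2 : (J : ℝ≥0∞) * (2 * (N * (C * (2 * J / lam + 1)))) ≠ ⊤ := by
    have : 2 * (J : ℝ≥0∞) / lam ≠ ⊤ := ENNReal.div_ne_top (by finiteness) hl0
    finiteness
  obtain ⟨η, hη0, -, hηc⟩ := small _ (ε / 8) hc2 he8
  obtain ⟨s2, hs2⟩ := h2 ((2 * J + 2) * i) η hη0
  obtain ⟨s3, hs3⟩ := h3 ((2 * J + 2) * i) η hη0
  set s : ℕ := max s2 s3 with hs
  have H2 := Hw_mono _ _ C le_self_add _ _ _ (hs2 s (le_max_left _ _))
  have H3 := Hw_mono _ _ C le_add_self _ _ _ (hs3 s (le_max_right _ _))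
  obtain ⟨p, hp0, -, hpc⟩ := small ((J + 1) * ((2 * (J * i) + 2 * s + 1 : ℕ) : ℝ≥0∞)) (ε / 8)
    (by finiteness) he8
  obtain ⟨T0, hT0⟩ := hpt p hp0
  refine ⟨K * (T0 + 2 * s + 2 * K + (2 * J + 1) * i + 1), fun m hm n hn w hw => ?_⟩
  set T : ℕ := m / K with hT
  have t1 : T0 + 2 * s + 2 * K + (2 * J + 1) * i + 1 ≤ T := by
    rw [hT, Nat.le_div_iff_mul_le (by omega), mul_comm]; exact hm
  have t2 : K * T ≤ m := Nat.mul_div_le m K
  have t3 : m < K * T + K := by
    have := Nat.lt_mul_div_succ m (show 0 < K by omega)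
    rw [mul_add, mul_one] at this
    exact this
  have t4 : J * T = K * T + K * T + 3 * T := by rw [hJ]; ring
  have t5 : T ≤ K * T := Nat.le_mul_of_pos_left T (by omega)
  have t6 : J * (T + i) + (J * i + i) = K * T + K * T + 3 * T + (2 * J + 1) * i := by
    rw [mul_add, t4]; ring
  have hWS : ∀ j, K ≤ j → j < J → ∀ r w,
      WS X Y T i J j (j * T + (J * i + J * i) + s) (j * T + T - s) r w ≤
        u * u + 2 * ((1 - u) ^ K + N * Rt C η lam J) := by
    intro j hKj hjJ r w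
    exact WS_le X Y T i J j K _ _ s r w C u lam η hKj hjJ rfl (by omega) hu0 hu1 hl0 hl1 H2 H3
  have htot := total X Y T i J K s m n w (by omega) (by omega) t2 (by omega) (by omega) _ hWS
  refine htot.trans ?_
  -- point part
  have hP : ∑ j ∈ Finset.Icc K J, ∑ k ∈ Finset.Icc (j * T - s) (j * T + (J * i + J * i) + s),
      ptw X Y n k w ≤ ε / 8 := by
    calc _ ≤ ∑ _j ∈ Finset.Icc K J, ((2 * (J * i) + 2 * s + 1 : ℕ) : ℝ≥0∞) * p := by
          refine Finset.sum_le_sum fun j hj => ?_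
          rw [Finset.mem_Icc] at hj
          have hjT : T ≤ j * T := Nat.le_mul_of_pos_left T (by omega)
          calc _ ≤ ∑ _k ∈ Finset.Icc (j * T - s) (j * T + (J * i + J * i) + s), p := by
                refine Finset.sum_le_sum fun k hk => ?_
                rw [Finset.mem_Icc] at hk
                exact hT0 k (by omega) n w hw
            _ ≤ _ := by
                rw [Finset.sum_const, nsmul_eq_mul, Nat.card_Icc]
                refine mul_le_mul_left ?_ _
                exact_mod_cast (by omega : j * T + (J * i + J * i) + s + 1 - (j * T - s)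
                  ≤ 2 * (J * i) + 2 * s + 1)
      _ ≤ (J + 1) * (((2 * (J * i) + 2 * s + 1 : ℕ) : ℝ≥0∞) * p) := by
          rw [Finset.sum_const, nsmul_eq_mul, Nat.card_Icc]
          refine mul_le_mul_left ?_ _
          exact_mod_cast (by omega : J + 1 - K ≤ J + 1)
      _ = ((J + 1) * ((2 * (J * i) + 2 * s + 1 : ℕ) : ℝ≥0∞)) * p := by rw [mul_assoc]
      _ ≤ _ := hpc
  have hQ : ∑ _j ∈ Finset.Ico K J, (u * u + 2 * ((1 - u) ^ K + N * Rt C η lam J)) ≤
      ε / 8 + (ε / 8 + ε / 8) := by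
    calc _ ≤ (J : ℝ≥0∞) * (u * u + 2 * ((1 - u) ^ K + N * Rt C η lam J)) := by
          rw [Finset.sum_const, nsmul_eq_mul, Nat.card_Ico]
          refine mul_le_mul_left ?_ _
          exact_mod_cast (by omega : J - K ≤ J)
      _ = (J : ℝ≥0∞) * (u * u + 2 * (1 - u) ^ K) + (J * (2 * (N * C)) * lam +
          J * (2 * (N * (C * (2 * J / lam + 1)))) * η) := by
          rw [Rt, div_eq_mul_inv, div_eq_mul_inv]
          ring
      _ ≤ _ := add_le_add hN1 (add_le_add hlc hηc)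
  have hov : (J : ℝ≥0∞) * ov X T i + ((ov Y (J * i) i + J * ov Y T i)) ≤ ε / 8 := by
    calc _ ≤ (J : ℝ≥0∞) * o + (o + J * o) := add_le_add (mul_le_mul_right (oX T) _)
          (add_le_add (oY _) (mul_le_mul_right (oY T) _))
      _ = (2 * J + 1) * o := by ring
      _ ≤ _ := hoc
  calc _ = ((J : ℝ≥0∞) * ov X T i + ((ov Y (J * i) i + J * ov Y T i))) +
        (∑ j ∈ Finset.Icc K J, ∑ k ∈ Finset.Icc (j * T - s) (j * T + (J * i + J * i) + s),
          ptw X Y n k w +
        ∑ _j ∈ Finset.Ico K J, (u * u + 2 * ((1 - u) ^ K + N * Rt C η lam J))) :=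
        (add_assoc _ _ _).symm
    _ ≤ ε / 8 + (ε / 8 + (ε / 8 + (ε / 8 + ε / 8))) := add_le_add hov (add_le_add hP hQ)
    _ = 5 * (ε / 8) := by ring
    _ ≤ 8 * (ε / 8) := mul_le_mul_left (by norm_num) _
    _ = ε := ENNReal.mul_div_cancel (by norm_num) (by norm_num)

end Two

end Crest.Agent.R154.AsmR772
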