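import Crest.Agent.R154.AsmW_801

/-! Row 154, ROAD 801 (helper801): the bound of one window in terms of lists of pieces. -/

set_option autoImplicit false

namespace Crest.Agent.R154.Asm801

open scoped ENNReal
open Crest.Agent.R154.B5A
open Crest.Agent.R154.FP178 (fp)
open Crest.Agent.R154.Bind12 (TT Dp)

variable {BX BY G : Type*} [AddCommGroup G]
variable (ΛX : BX → ℝ≥0∞) (sX : BX → Set (G × ℕ)) (zX : BX → G) (hX : BX → ℕ)
  (ΛY : BY → ℝ≥0∞) (sY : BY → Set (G × ℕ)) (zY : BY → G) (hY : BY → ℕ)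

open Classical in
/-- general local part: lists of pieces with a "low" list on one side, law of the tie `≤ M` -/
theorem part_le {T i0 N : ℕ} (mX1 : ∑' V, Lp ΛX hX T i0 V ≤ 1) (mY1 : ∑' V, Lp ΛY hY T i0 V ≤ 1)
    (w : G) (gX : List (List BX) → Prop) (gY : List (List BY) → Prop)
    (D : ℕ → ℕ → G → ℝ≥0∞) (M R : ℝ≥0∞)
    (hM : ∀ a a' x, SL (Lp ΛX hX T i0) N (fun VA => SL (Lp ΛY hY T i0) N (fun VB =>
      if (gX VA ∧ gY VB) ∧ HT hX VA.flatten = a ∧ HT hY VB.flatten = a' ∧
        w + Dp zY VB.flatten - Dp zX VA.flatten = x then 1 else 0)) ≤ M)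
    (hD : ∀ a ∈ Finset.Icc (N * T) (N * (T + i0)), ∀ a' ∈ Finset.Icc (N * T) (N * (T + i0)),
      ∀ μ : G → ℝ≥0∞, ∑' x, μ x ≤ 1 → (∀ x, μ x ≤ M) → ∑' x, μ x * D a a' x ≤ R) :
    SL (Lp ΛX hX T i0) N (fun VA => SL (Lp ΛY hY T i0) N (fun VB =>
      if gX VA ∧ gY VB then D (HT hX VA.flatten) (HT hY VB.flatten)
        (w + Dp zY VB.flatten - Dp zX VA.flatten) else 0))
      ≤ ((N * i0 + 1 : ℕ) : ℝ≥0∞) ^ 2 * R := by
  set I := Finset.Icc (N * T) (N * (T + i0)) with hI
  have hcard : I.card = N * i0 + 1 := by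
    rw [hI, Nat.card_Icc]
    have : N * (T + i0) = N * T + N * i0 := by ring
    omega
  set μ : ℕ → ℕ → G → ℝ≥0∞ := fun a a' x => SL (Lp ΛX hX T i0) N (fun VA =>
    SL (Lp ΛY hY T i0) N (fun VB =>
      if (gX VA ∧ gY VB) ∧ HT hX VA.flatten = a ∧ HT hY VB.flatten = a' ∧
        w + Dp zY VB.flatten - Dp zX VA.flatten = x then 1 else 0)) with hμ
  have hμ1 : ∀ a a', ∑' x, μ a a' x ≤ 1 := by
    intro a a'
    calc ∑' x, μ a a' x = SL (Lp ΛX hX T i0) N (fun VA => SL (Lp ΛY hY T i0) N (fun VB =>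
          ∑' x, (if (gX VA ∧ gY VB) ∧ HT hX VA.flatten = a ∧ HT hY VB.flatten = a' ∧
            w + Dp zY VB.flatten - Dp zX VA.flatten = x then (1 : ℝ≥0∞) else 0))) := by
          simp only [hμ]
          rw [← SL_tsum]
          refine SL_congr _ _ fun VA _ => ?_
          rw [← SL_tsum]
      _ ≤ 1 := by
          refine SL_le_one _ mX1 _ fun VA => SL_le_one _ mY1 _ fun VB => ?_
          rw [tsum_eq_single (w + Dp zY VB.flatten - Dp zX VA.flatten)]
          · split_ifs <;> simp
          · intro x hx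
            rw [if_neg (fun h => hx h.2.2.2.symm)]
  have key : SL (Lp ΛX hX T i0) N (fun VA => SL (Lp ΛY hY T i0) N (fun VB =>
      if gX VA ∧ gY VB then D (HT hX VA.flatten) (HT hY VB.flatten)
        (w + Dp zY VB.flatten - Dp zX VA.flatten) else 0))
      ≤ ∑ a ∈ I, ∑ a' ∈ I, ∑' x, μ a a' x * D a a' x := by
    have e1 : ∀ a a', ∑' x, μ a a' x * D a a' x
        = SL (Lp ΛX hX T i0) N (fun VA => SL (Lp ΛY hY T i0) N (fun VB =>
          if (gX VA ∧ gY VB) ∧ HT hX VA.flatten = a ∧ HT hY VB.flatten = a' then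
            D a a' (w + Dp zY VB.flatten - Dp zX VA.flatten) else 0)) := by
      intro a a'
      calc ∑' x, μ a a' x * D a a' x
          = ∑' x, SL (Lp ΛX hX T i0) N (fun VA => SL (Lp ΛY hY T i0) N (fun VB =>
            D a a' x * (if (gX VA ∧ gY VB) ∧ HT hX VA.flatten = a ∧ HT hY VB.flatten = a' ∧
              w + Dp zY VB.flatten - Dp zX VA.flatten = x then 1 else 0))) := by
            refine tsum_congr fun x => ?_
            simp only [hμ]
            rw [mul_comm, ← SL_const_mul]
            refine SL_congr _ _ fun VA _ => ?_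
            rw [← SL_const_mul]
        _ = _ := by
            rw [← SL_tsum]
            refine SL_congr _ _ fun VA _ => ?_
            rw [← SL_tsum]
            refine SL_congr _ _ fun VB _ => ?_
            rw [tsum_eq_single (w + Dp zY VB.flatten - Dp zX VA.flatten)]
            · by_cases h : (gX VA ∧ gY VB) ∧ HT hX VA.flatten = a ∧ HT hY VB.flatten = a'
              · rw [if_pos h, if_pos ⟨h.1, h.2.1, h.2.2, rfl⟩, mul_one]
              · rw [if_neg h, if_neg (fun h' => h ⟨h'.1, h'.2.1, h'.2.2.1⟩), mul_zero]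
            · intro x hx
              rw [if_neg (fun h => hx h.2.2.2.symm), mul_zero]
    simp only [e1]
    have e2 : ∀ (F : ℕ → ℕ → List (List BX) → List (List BY) → ℝ≥0∞),
        ∑ a ∈ I, ∑ a' ∈ I, SL (Lp ΛX hX T i0) N (fun VA => SL (Lp ΛY hY T i0) N (fun VB =>
          F a a' VA VB)) = SL (Lp ΛX hX T i0) N (fun VA => SL (Lp ΛY hY T i0) N (fun VB =>
          ∑ a ∈ I, ∑ a' ∈ I, F a a' VA VB)) := by
      intro F
      have h1 : ∀ {A : Type _} (Λ : A → ℝ≥0∞) (J : Finset ℕ) (H : ℕ → List A → ℝ≥0∞),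
          ∑ a ∈ J, SL Λ N (H a) = SL Λ N (fun L => ∑ a ∈ J, H a L) := by
        intro A Λ J H
        induction J using Finset.induction_on with
        | empty =>
          simp only [Finset.sum_empty]
          have := SL_const_mul Λ N 0 (fun _ => 0)
          simpa using this.symm
        | insert a J ha ih =>
          simp only [Finset.sum_insert ha]
          rw [SL_add_fun, ih]
      have h2 : ∀ {A : Type _} (Λ : A → ℝ≥0∞) (J : Finset ℕ) (H : ℕ → List A → ℝ≥0∞),
          ∑ a ∈ J, SL Λ N (H a) = SL Λ N (fun L => ∑ a ∈ J, H a L) := by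
        intro A Λ J H
        induction J using Finset.induction_on with
        | empty =>
          simp only [Finset.sum_empty]
          have := SL_const_mul Λ N 0 (fun _ => 0)
          simpa using this.symm
        | insert a J ha ih =>
          simp only [Finset.sum_insert ha]
          rw [SL_add_fun, ih]
      calc _ = ∑ a ∈ I, SL (Lp ΛX hX T i0) N (fun VA => SL (Lp ΛY hY T i0) N (fun VB =>
            ∑ a' ∈ I, F a a' VA VB)) := by
            refine Finset.sum_congr rfl fun a _ => ?_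
            rw [h1]
            refine SL_congr _ _ fun VA _ => ?_
            rw [h2]
        _ = _ := by
            rw [h1]
            refine SL_congr _ _ fun VA _ => ?_
            rw [h2]
    rw [e2]
    refine SL_mono_supp _ _ fun VA hA1 hA2 => SL_mono_supp _ _ fun VB hB1 hB2 => ?_
    by_cases hg : gX VA ∧ gY VB
    · rw [if_pos hg]
      have rA := range_flatten ΛX hX T i0 VA hA2
      have rB := range_flatten ΛY hY T i0 VB hB2
      rw [hA1] at rA
      rw [hB1] at rB
      refine le_trans ?_ (Finset.single_le_sum (f := fun a => ∑ a' ∈ I,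
        (if (gX VA ∧ gY VB) ∧ HT hX VA.flatten = a ∧ HT hY VB.flatten = a' then
            D a a' (w + Dp zY VB.flatten - Dp zX VA.flatten) else 0))
        (fun _ _ => zero_le) (Finset.mem_Icc.2 rA))
      refine le_trans ?_ (Finset.single_le_sum (f := fun a' =>
        (if (gX VA ∧ gY VB) ∧ HT hX VA.flatten = HT hX VA.flatten ∧ HT hY VB.flatten = a' then
            D (HT hX VA.flatten) a' (w + Dp zY VB.flatten - Dp zX VA.flatten) else 0))
        (fun _ _ => zero_le) (Finset.mem_Icc.2 rB))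
      simp only
      rw [if_pos ⟨hg, trivial, trivial⟩]
    · rw [if_neg hg]; exact zero_le
  refine key.trans ?_
  calc ∑ a ∈ I, ∑ a' ∈ I, ∑' x, μ a a' x * D a a' x ≤ ∑ a ∈ I, ∑ a' ∈ I, R :=
        Finset.sum_le_sum fun a ha => Finset.sum_le_sum fun a' ha' =>
          hD a ha a' ha' _ (hμ1 a a') (hM a a')
    _ = _ := by
        simp only [Finset.sum_const, hcard, nsmul_eq_mul]
        ring

end Crest.Agent.R154.Asm801
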