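import Crest.Agent.R154.AsmQ_877

/-! Row 154 (helper877), ROAD 801: two walkers, windows. -/

set_option autoImplicit false

namespace Crest.Agent.R154.Asm877

open scoped ENNReal
open Crest.Agent.R154.B5A
open Crest.Agent.R154.FP178

section comb

variable {G : Type*} [AddCommGroup G] {B : Type*} (h : B → ℕ) (z : B → G) (s : B → Set (G × ℕ))

/-- a site of the trace of depth `≤ N T` is read by one of the `N` attempts -/
lemma find_piece (hs : ∀ b, ∀ p ∈ s b, 1 ≤ p.2 ∧ p.2 ≤ h b) {T i0 : ℕ} (P : List (Att h T i0))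
    (R : List B) (x : G) (a : ℕ) (q : G × ℕ) (hq : q ∈ TR h z s (fl h P ++ R) x a)
    (hd : q.2 ≤ a + P.length * T) :
    ∃ P1 A S, P = P1 ++ A :: S ∧ q ∈ TR h z s A.1 (x + Dp z (fl h P1)) (a + HT h (fl h P1)) := by
  induction P generalizing x a with
  | nil =>
    have := TR_depth h z s hs R x a q (by simpa [fl_nil] using hq)
    simp only [List.length_nil] at hd
    omega
  | cons A P ih =>
    rw [fl_cons, List.append_assoc, TR_append] at hq
    rcases hq with hq | hq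
    · exact ⟨[], A, P, rfl, by simpa [fl_nil, Dp_nil, HT_nil] using hq⟩
    · have hT := le_HT_of_fp h A.2.1
      obtain ⟨P1, A', S, hP, hq'⟩ := ih _ _ hq (by
        rw [List.length_cons] at hd
        nlinarith)
      refine ⟨A :: P1, A', S, by rw [hP]; rfl, ?_⟩
      rw [fl_cons, Dp_append, HT_append, ← add_assoc, ← add_assoc]
      exact hq'

/-- the trace of a piece is part of the trace -/
lemma piece_sub {T i0 : ℕ} (P1 : List (Att h T i0)) (A : Att h T i0) (S : List (Att h T i0))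
    (R : List B) (x : G) (a : ℕ) (q : G × ℕ)
    (hq : q ∈ TR h z s A.1 (x + Dp z (fl h P1)) (a + HT h (fl h P1))) :
    q ∈ TR h z s (fl h (P1 ++ A :: S) ++ R) x a := by
  rw [fl_append, fl_cons, List.append_assoc, List.append_assoc, TR_append, TR_append]
  exact Or.inr (Or.inl hq)

end comb

section two

variable {G : Type*} [AddCommGroup G] {BX BY : Type*}
  (ΛX : BX → ℝ≥0∞) (ΛY : BY → ℝ≥0∞) (hX : BX → ℕ) (hY : BY → ℕ)
  (zX : BX → G) (zY : BY → G) (sX : BX → Set (G × ℕ)) (sY : BY → Set (G × ℕ))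

/-- common sites of two placed lists -/
def CS (L : List BX) (x : G) (a : ℕ) (L' : List BY) (x' : G) (a' : ℕ) : Set (G × ℕ) :=
  TR hX zX sX L x a ∩ TR hY zY sY L' x' a'

lemma CS_shift (L : List BX) (x t : G) (a : ℕ) (L' : List BY) (x' : G) (a' : ℕ) (q : G × ℕ) :
    q ∈ CS hX hY zX zY sX sY L (x + t) a L' (x' + t) a' ↔
      (q.1 - t, q.2) ∈ CS hX hY zX zY sX sY L x a L' x' a' := by
  unfold CS
  rw [Set.mem_inter_iff, Set.mem_inter_iff, TR_shift, TR_shift]

/-- deep contact of two placed lists -/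
def DC (L : List BX) (x : G) (a : ℕ) (L' : List BY) (x' : G) (a' lo hi : ℕ) : Prop :=
  (∃ q, q ∈ CS hX hY zX zY sX sY L x a L' x' a') ∧
    ∀ q, q ∈ CS hX hY zX zY sX sY L x a L' x' a' → lo ≤ q.2 ∧ q.2 ≤ hi

lemma DC_shift (L : List BX) (x t : G) (a : ℕ) (L' : List BY) (x' : G) (a' lo hi : ℕ) :
    DC hX hY zX zY sX sY L (x + t) a L' (x' + t) a' lo hi ↔
      DC hX hY zX zY sX sY L x a L' x' a' lo hi := by
  unfold DC
  refine and_congr ?_ ?_
  · constructor
    · rintro ⟨q, hq⟩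
      exact ⟨_, (CS_shift hX hY zX zY sX sY L x t a L' x' a' q).1 hq⟩
    · rintro ⟨q, hq⟩
      refine ⟨(q.1 + t, q.2), (CS_shift hX hY zX zY sX sY L x t a L' x' a' _).2 ?_⟩
      simpa using hq
  · constructor
    · intro H q hq
      exact H (q.1 + t, q.2) ((CS_shift hX hY zX zY sX sY L x t a L' x' a' _).2 (by simpa using hq))
    · intro H q hq
      exact H (q.1 - t, q.2) ((CS_shift hX hY zX zY sX sY L x t a L' x' a' q).1 hq)

/-- window event of the `r`-th pieces -/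
def Kev {T T' i0 : ℕ} (w : G) (lo hi : ℕ) (P : List (Att hX T i0)) (A : Att hX T i0)
    (P' : List (Att hY T' i0)) (A' : Att hY T' i0) : Prop :=
  DC hX hY zX zY sX sY A.1 (Dp zX (fl hX P)) (HT hX (fl hX P)) A'.1 (w + Dp zY (fl hY P'))
    (HT hY (fl hY P')) lo hi

/-- **combinatorics**: off the slabs, a contact of depth in `(m, 2m]` is a deep contact of two
pieces of the same index. -/
lemma comb_key (hsX : ∀ b, ∀ p ∈ sX b, 1 ≤ p.2 ∧ p.2 ≤ hX b)
    (hsY : ∀ b, ∀ p ∈ sY b, 1 ≤ p.2 ∧ p.2 ≤ hY b) {T i0 : ℕ} (w : G) (m J N s : ℕ)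
    (hJ : J * (T + 2 * i0) ≤ m) (hN : 2 * m ≤ N * T)
    (P : List (Att hX T i0)) (R : List BX) (P' : List (Att hY (T + i0) i0)) (R' : List BY)
    (hP : P.length = N) (hP' : P'.length = N)
    (hc : ∃ q, q ∈ CS hX hY zX zY sX sY (fl hX P ++ R) 0 0 (fl hY P' ++ R') w 0 ∧ m < q.2 ∧
      q.2 ≤ 2 * m)
    (hsl : ∀ q, q ∈ CS hX hY zX zY sX sY (fl hX P ++ R) 0 0 (fl hY P' ++ R') w 0 →
      ∀ j, J ≤ j → j ≤ N →
        ¬ (j * T - s ≤ q.2 ∧ q.2 < j * T - s + (2 * (N * i0) + 2 * s + 1))) :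
    ∃ r, J ≤ r ∧ r < N ∧ ∃ P1 A S P1' A' S', P = P1 ++ A :: S ∧ P1.length = r ∧
      P' = P1' ++ A' :: S' ∧ P1'.length = r ∧
      Kev hX hY zX zY sX sY w (r * T + 2 * (N * i0) + s) ((r + 1) * T - s) P1 A P1' A' := by
  obtain ⟨q, ⟨hq1, hq2⟩, hm1, hm2⟩ := hc
  obtain ⟨P1, A, S, rfl, hA⟩ := find_piece hX zX sX hsX P R 0 0 q hq1 (by
    rw [hP, zero_add]; omega)
  obtain ⟨P1', A', S', rfl, hA'⟩ := find_piece hY zY sY hsY P' R' w 0 q hq2 (by
    rw [hP', zero_add, mul_add]; omega)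
  rw [zero_add] at hA
  rw [zero_add] at hA hA'
  have hlen : P1.length < N := by
    rw [← hP, List.length_append, List.length_cons]; omega
  have hlen' : P1'.length < N := by
    rw [← hP', List.length_append, List.length_cons]; omega
  -- depth bounds for the common sites of two pieces
  have key : ∀ (q' : G × ℕ), q' ∈ TR hX zX sX A.1 (Dp zX (fl hX P1)) (HT hX (fl hX P1)) →
      P1.length * T < q'.2 ∧ q'.2 ≤ (P1.length + 1) * T + 2 * (N * i0) ∧
        q'.2 ≤ (P1.length + 1) * (T + 2 * i0) := by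
    intro q' hq'
    have h1 := TR_depth hX zX sX hsX _ _ _ _ hq'
    have h2 := HT_fl_ge hX P1
    have h3 := HT_fl_le hX P1
    have h4 := A.2.2
    have h5 : (P1.length + 1) * i0 ≤ N * i0 := Nat.mul_le_mul_right _ hlen
    refine ⟨by omega, by nlinarith, by nlinarith⟩
  have key' : ∀ (q' : G × ℕ), q' ∈ TR hY zY sY A'.1 (w + Dp zY (fl hY P1')) (HT hY (fl hY P1')) →
      P1'.length * T < q'.2 ∧ q'.2 ≤ (P1'.length + 1) * T + 2 * (N * i0) ∧
        q'.2 ≤ (P1'.length + 1) * (T + 2 * i0) := by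
    intro q' hq'
    have h1 := TR_depth hY zY sY hsY _ _ _ _ hq'
    have h2 := HT_fl_ge hY P1'
    have h3 := HT_fl_le hY P1'
    have h4 := A'.2.2
    have h5 : (P1'.length + 1) * i0 ≤ N * i0 := Nat.mul_le_mul_right _ hlen'
    refine ⟨by nlinarith, by nlinarith, by nlinarith⟩
  have hJr : J ≤ P1.length := by
    by_contra hcon
    have h1 : (P1.length + 1) * (T + 2 * i0) ≤ J * (T + 2 * i0) :=
      Nat.mul_le_mul_right _ (by omega)
    have := (key q hA).2.2
    omega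
  have hJr' : J ≤ P1'.length := by
    by_contra hcon
    have h1 : (P1'.length + 1) * (T + 2 * i0) ≤ J * (T + 2 * i0) :=
      Nat.mul_le_mul_right _ (by omega)
    have := (key' q hA').2.2
    omega
  -- off the slabs
  have off : ∀ q' : G × ℕ, q' ∈ CS hX hY zX zY sX sY (fl hX (P1 ++ A :: S) ++ R) 0 0
      (fl hY (P1' ++ A' :: S') ++ R') w 0 → ∀ r, J ≤ r → r < N → r * T < q'.2 →
      q'.2 ≤ (r + 1) * T + 2 * (N * i0) → r * T + 2 * (N * i0) + s ≤ q'.2 ∧
        q'.2 ≤ (r + 1) * T - s ∧ q'.2 < (r + 1) * T := by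
    intro q' hq' r hr1 hr2 h1 h2
    have h3 := hsl q' hq' r hr1 hr2.le
    have h4 := hsl q' hq' (r + 1) (by omega) hr2
    have h5 : (r + 1) * T = r * T + T := by ring
    omega
  have hoff := off q ⟨hq1, hq2⟩ P1.length hJr hlen (key q hA).1 (key q hA).2.1
  have hoff' := off q ⟨hq1, hq2⟩ P1'.length hJr' hlen' (key' q hA').1 (key' q hA').2.1
  have hrr : P1.length = P1'.length := by
    rcases lt_trichotomy P1.length P1'.length with hlt | heq | hlt
    · have : (P1.length + 1) * T ≤ P1'.length * T := Nat.mul_le_mul_right _ hlt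
      have := (key' q hA').1
      omega
    · exact heq
    · have : (P1'.length + 1) * T ≤ P1.length * T := Nat.mul_le_mul_right _ hlt
      have := (key q hA).1
      omega
  refine ⟨P1.length, hJr, hlen, P1, A, S, P1', A', S', rfl, rfl, rfl, hrr.symm, ?_, ?_⟩
  · exact ⟨q, hA, hA'⟩
  · rintro q' ⟨h1, h2⟩
    have hin : q' ∈ CS hX hY zX zY sX sY (fl hX (P1 ++ A :: S) ++ R) 0 0
      (fl hY (P1' ++ A' :: S') ++ R') w 0 := by
      refine ⟨piece_sub hX zX sX P1 A S R 0 0 q' ?_, piece_sub hY zY sY P1' A' S' R' w 0 q' ?_⟩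
      · rw [zero_add, zero_add]; exact h1
      · rw [zero_add]; exact h2
    have := off q' hin P1.length hJr hlen (key q' h1).1 (key q' h1).2.1
    exact ⟨this.1, this.2.1⟩

end two

end Crest.Agent.R154.Asm877
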