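import Crest.Agent.R154.AsmQ_913
import Crest.Agent.R154.AsmA_789

/-! Row 154, ROAD 801 (helper913): assembly, part 3: the bound for one window. -/

set_option autoImplicit false

namespace Crest.Agent.R154.Asm913

open scoped ENNReal
open Crest.Agent.R154.B5A Crest.Agent.R154.FP178
open Classical

section one

variable {B G : Type*} [AddCommGroup G] (Λ : B → ℝ≥0∞) (ht : B → ℕ) (z : B → G)

lemma att_sum (τ : ℕ) (Q : ℕ × G → Prop) [DecidablePred Q] :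
    ∑' P, (if fp ht τ P ∧ Q (kap ht z τ P) then LW Λ P else 0)
      = ∑' y, (if Q y then att Λ ht z τ y else 0) := by
  rw [tsum_fiber (kap ht z τ)]
  refine tsum_congr fun y => ?_
  unfold att
  by_cases hQ : Q y
  · rw [if_pos hQ]
    refine tsum_congr fun P => ?_
    by_cases h1 : fp ht τ P <;> by_cases h2 : kap ht z τ P = y <;> simp [h1, h2, hQ]
  · rw [if_neg hQ, ENNReal.tsum_eq_zero]
    intro P
    by_cases h2 : kap ht z τ P = y
    · rw [if_pos h2, h2, if_neg (fun h => hQ h.2)]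
    · rw [if_neg h2]

lemma far_mass (h1 : ∀ b, 1 ≤ ht b) (hΛ : ∑' b, Λ b = 1) (τ : ℕ) (th u : ℝ≥0∞)
    (hu : u ≤ ∑' y, (if att Λ ht z τ y ≤ th then att Λ ht z τ y else 0)) :
    ∑' P, (if fp ht τ P ∧ ¬ att Λ ht z τ (kap ht z τ P) ≤ th then LW Λ P else 0) ≤ 1 - u := by
  rw [att_sum Λ ht z τ (fun y => ¬ att Λ ht z τ y ≤ th)]
  have hs := sum_att Λ ht z h1 hΛ τ
  have e : ∑' y, att Λ ht z τ y = ∑' y, (if att Λ ht z τ y ≤ th then att Λ ht z τ y else 0) +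
      ∑' y, (if ¬ att Λ ht z τ y ≤ th then att Λ ht z τ y else 0) := by
    rw [← ENNReal.tsum_add]
    refine tsum_congr fun y => ?_
    by_cases h : att Λ ht z τ y ≤ th <;> simp [h]
  rw [hs] at e
  have hne : ∑' y, (if att Λ ht z τ y ≤ th then att Λ ht z τ y else 0) ≠ ⊤ :=
    ne_top_of_le_ne_top ENNReal.one_ne_top (by rw [e]; exact le_self_add)
  calc _ = 1 - ∑' y, (if att Λ ht z τ y ≤ th then att Λ ht z τ y else 0) := by
        rw [e, ENNReal.add_sub_cancel_left hne]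
    _ ≤ 1 - u := tsub_le_tsub_left hu 1

lemma loc_fin (h1 : ∀ b, 1 ≤ ht b) (hΛ : ∑' b, Λ b = 1) (τ : ℕ) {th : ℝ≥0∞} (hth : th ≠ 0)
    (i : ℕ) : ∃ E : Finset G, (∀ g, th ≤ att Λ ht z τ (i, g) → g ∈ E) ∧ (E.card : ℝ≥0∞) * th ≤ 1 := by
  have hle : ∑' g, att Λ ht z τ (i, g) ≤ 1 := by
    rw [← sum_att Λ ht z h1 hΛ τ]
    exact ENNReal.tsum_comp_le_tsum_of_injective (f := fun g : G => ((i, g) : ℕ × G))
      (fun a b h => by simpa using h) (fun y => att Λ ht z τ y)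
  obtain ⟨hf, hc⟩ := AsmA789.card_le (fun g => att Λ ht z τ (i, g)) hle hth
  refine ⟨hf.toFinset, fun g hg => by simpa using hg, ?_⟩
  rw [Set.ncard_eq_toFinset_card _ hf] at hc
  exact hc

lemma dens_const (i0 : ℕ) (th u : ℝ≥0∞) (hu0 : u ≠ 0) (hu1 : u ≤ 1) :
    ((i0 : ℝ≥0∞) + 1) * th + (1 - u) * (((i0 : ℝ≥0∞) + 1) * th / u)
      ≤ ((i0 : ℝ≥0∞) + 1) * th / u := by
  have hut : u ≠ ⊤ := ne_top_of_le_ne_top ENNReal.one_ne_top hu1
  calc ((i0 : ℝ≥0∞) + 1) * th + (1 - u) * (((i0 : ℝ≥0∞) + 1) * th / u)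
      = u * (((i0 : ℝ≥0∞) + 1) * th / u) + (1 - u) * (((i0 : ℝ≥0∞) + 1) * th / u) := by
        rw [ENNReal.mul_div_cancel hu0 hut]
    _ = (u + (1 - u)) * (((i0 : ℝ≥0∞) + 1) * th / u) := (add_mul _ _ _).symm
    _ = _ := by rw [add_tsub_cancel_of_le hu1, one_mul]
    _ ≤ _ := le_rfl

lemma card_bd (i0 : ℕ) (th u c : ℝ≥0∞) (hc : c * th ≤ 1) :
    ((i0 : ℝ≥0∞) + 1) * th / u * c ≤ ((i0 : ℝ≥0∞) + 1) / u := by
  calc ((i0 : ℝ≥0∞) + 1) * th / u * c = ((i0 : ℝ≥0∞) + 1) / u * (c * th) := by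
        rw [div_eq_mul_inv, div_eq_mul_inv]; ring
    _ ≤ ((i0 : ℝ≥0∞) + 1) / u * 1 := by gcongr
    _ = _ := mul_one _

end one

variable {BX BY G : Type*} [AddCommGroup G]
variable (ΛX : BX → ℝ≥0∞) (hX : BX → ℕ) (zX : BX → G) (sX : BX → Set (G × ℕ))
variable (ΛY : BY → ℝ≥0∞) (hY : BY → ℕ) (zY : BY → G) (sY : BY → Set (G × ℕ))

/-- window lemma (2) on lists -/
def H2L (C : ℝ≥0∞) (us : ℕ → ℝ≥0∞) : Prop :=
  ∀ (s h h' a a' lo : ℕ) (E : Finset G) (μ : G → ℝ≥0∞) (M lam : ℝ≥0∞),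
    ∑' x, μ x ≤ 1 → (∀ x, μ x ≤ M) → lam ≠ 0 → lam ≠ ⊤ → a ≤ a' → a + s ≤ lo → a' + s ≤ lo →
    ∑' x, μ x * (∑' L : List BX, ∑' L' : List BY, if HT hX L = h ∧ Dp zX L ∈ E ∧ HT hY L' = h' ∧
        (∃ y k, (y, k) ∈ TT sX zX hX L 0 a ∧ (y, k) ∈ TT sY zY hY L' x a') ∧
        (∀ y k, (y, k) ∈ TT sX zX hX L 0 a → (y, k) ∈ TT sY zY hY L' x a' → lo ≤ k)
        then LW ΛX L * LW ΛY L' else 0)
      ≤ C * (lam + M * E.card * us s / lam + us s)

/-- window lemma (3) on lists -/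
def H3L (C : ℝ≥0∞) (us : ℕ → ℝ≥0∞) : Prop :=
  ∀ (s h h' a a' hi : ℕ) (E : Finset G) (μ : G → ℝ≥0∞) (M lam : ℝ≥0∞),
    ∑' x, μ x ≤ 1 → (∀ x, μ x ≤ M) → lam ≠ 0 → lam ≠ ⊤ → a + h ≤ a' + h' → hi + s ≤ a + h →
    hi + s ≤ a' + h' →
    ∑' x, μ x * (∑' L : List BX, ∑' L' : List BY, if HT hX L = h ∧ HT hY L' = h' ∧ Dp zY L' ∈ E ∧
        (∃ y k, (y, k) ∈ TT sX zX hX L 0 a ∧ (y, k) ∈ TT sY zY hY L' x a') ∧
        (∀ y k, (y, k) ∈ TT sX zX hX L 0 a → (y, k) ∈ TT sY zY hY L' x a' → k ≤ hi)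
        then LW ΛX L * LW ΛY L' else 0)
      ≤ C * (lam + M * E.card * us s / lam + us s)

/-- relative displacement law -/
noncomputable def mu (w : G) (f : List BX → ℝ≥0∞) (h : List BY → ℝ≥0∞) (x : G) : ℝ≥0∞ :=
  ∑' a, ∑' c, if w + Dp zY c - Dp zX a = x then f a * h c else 0

lemma sum_mu (w : G) (f : List BX → ℝ≥0∞) (h : List BY → ℝ≥0∞) (hf : ∑' a, f a ≤ 1)
    (hh : ∑' c, h c ≤ 1) : ∑' x, mu zX zY w f h x ≤ 1 := by
  unfold mu
  rw [ENNReal.tsum_comm]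
  have e : ∀ a, ∑' x, ∑' c, (if w + Dp zY c - Dp zX a = x then f a * h c else 0)
      = f a * ∑' c, h c := by
    intro a
    rw [← tsum_fiber (fun c => w + Dp zY c - Dp zX a) (fun c => f a * h c), ENNReal.tsum_mul_left]
  rw [tsum_congr e, ENNReal.tsum_mul_right]
  exact (mul_le_mul' hf hh).trans (one_mul 1).le

lemma mu_le_X (w : G) (f : List BX → ℝ≥0∞) (h : List BY → ℝ≥0∞) (M : ℝ≥0∞)
    (hf : ∀ g, ∑' a, (if Dp zX a = g then f a else 0) ≤ M) (hh : ∑' c, h c ≤ 1) (x : G) :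
    mu zX zY w f h x ≤ M := by
  unfold mu
  rw [ENNReal.tsum_comm]
  have e : ∀ c, ∑' a, (if w + Dp zY c - Dp zX a = x then f a * h c else 0) ≤ M * h c := by
    intro c
    refine le_trans (le_of_eq ?_) (mul_le_mul_left (hf (w + Dp zY c - x)) (h c))
    rw [← ENNReal.tsum_mul_right]
    refine tsum_congr fun a => ?_
    have : (w + Dp zY c - Dp zX a = x) ↔ (Dp zX a = w + Dp zY c - x) := by
      rw [sub_eq_iff_eq_add, eq_sub_iff_add_eq, add_comm (Dp zX a) x]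
      exact eq_comm
    by_cases h1 : w + Dp zY c - Dp zX a = x
    · rw [if_pos h1, if_pos (this.1 h1)]
    · rw [if_neg h1, if_neg (fun h2 => h1 (this.2 h2)), zero_mul]
  refine (ENNReal.tsum_le_tsum e).trans ?_
  rw [ENNReal.tsum_mul_left]
  exact (mul_le_mul_right hh M).trans (mul_one M).le

lemma mu_le_Y (w : G) (f : List BX → ℝ≥0∞) (h : List BY → ℝ≥0∞) (M : ℝ≥0∞)
    (hf : ∑' a, f a ≤ 1) (hh : ∀ g, ∑' c, (if Dp zY c = g then h c else 0) ≤ M) (x : G) :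
    mu zX zY w f h x ≤ M := by
  unfold mu
  have e : ∀ a, ∑' c, (if w + Dp zY c - Dp zX a = x then f a * h c else 0) ≤ f a * M := by
    intro a
    refine le_trans (le_of_eq ?_) (mul_le_mul_right (hh (x + Dp zX a - w)) (f a))
    rw [← ENNReal.tsum_mul_left]
    refine tsum_congr fun c => ?_
    have : (w + Dp zY c - Dp zX a = x) ↔ (Dp zY c = x + Dp zX a - w) := by
      rw [sub_eq_iff_eq_add, eq_sub_iff_add_eq, add_comm w]
    by_cases h1 : w + Dp zY c - Dp zX a = x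
    · rw [if_pos h1, if_pos (this.1 h1)]
    · rw [if_neg h1, if_neg (fun h2 => h1 (this.2 h2)), mul_zero]
  refine (ENNReal.tsum_le_tsum e).trans ?_
  rw [ENNReal.tsum_mul_right]
  exact (mul_le_mul_left hf M).trans (one_mul M).le

lemma sum_HT_le {B : Type*} (Λ : B → ℝ≥0∞) (ht : B → ℕ) (h1 : ∀ b, 1 ≤ ht b) (hΛ : ∑' b, Λ b = 1)
    (n : ℕ) (Q : List B → Prop) [DecidablePred Q] :
    ∑' L, (if HT ht L = n ∧ Q L then LW Λ L else 0) ≤ 1 := by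
  refine le_trans (ENNReal.tsum_le_tsum fun L => ?_) (U_le_one Λ ht h1 hΛ n)
  by_cases h : HT ht L = n <;> by_cases h2 : Q L <;> simp [h, h2]

/-- one term of the X-local part -/
lemma term_X {C : ℝ≥0∞} {us : ℕ → ℝ≥0∞} (H2 : H2L ΛX hX zX sX ΛY hY zY sY C us)
    (hX1 : ∀ b, 1 ≤ hX b) (hΛX : ∑' b, ΛX b = 1) (hY1 : ∀ b, 1 ≤ hY b) (hΛY : ∑' b, ΛY b = 1)
    (s lo hi a a' h h' : ℕ) (w : G) (SmX : List BX → Prop) (M lam : ℝ≥0∞) (E : Finset G)
    (hM : ∀ g, ∑' L, (if HT hX L = a ∧ Dp zX L = g ∧ SmX L then LW ΛX L else 0) ≤ M)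
    (hl0 : lam ≠ 0) (hlt : lam ≠ ⊤) (h1 : a ≤ a') (h2 : a' + s ≤ lo) :
    S4 (fun L1 P L2 Q => (if HT hX L1 = a ∧ SmX L1 then LW ΛX L1 else 0) *
      (if HT hX P = h ∧ Dp zX P ∈ E then LW ΛX P else 0) *
      ((if HT hY L2 = a' ∧ True then LW ΛY L2 else 0) * (if HT hY Q = h' ∧ True then LW ΛY Q else 0)) *
      (if PE hX zX sX hY zY sY lo hi a a' (w + Dp zY L2 - Dp zX L1) P Q then 1 else 0))
    ≤ C * (lam + M * E.card * us s / lam + us s) := by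
  rw [S4_group (fun L1 => if HT hX L1 = a ∧ SmX L1 then LW ΛX L1 else 0)
    (fun P => if HT hX P = h ∧ Dp zX P ∈ E then LW ΛX P else 0)
    (fun L2 => if HT hY L2 = a' ∧ True then LW ΛY L2 else 0)
    (fun Q => if HT hY Q = h' ∧ True then LW ΛY Q else 0)
    (fun L1 L2 => w + Dp zY L2 - Dp zX L1)
    (fun x P Q => if PE hX zX sX hY zY sY lo hi a a' x P Q then 1 else 0)]
  refine le_trans ?_ (H2 s h h' a a' lo E (mu zX zY w
    (fun L1 => if HT hX L1 = a ∧ SmX L1 then LW ΛX L1 else 0)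
    (fun L2 => if HT hY L2 = a' ∧ True then LW ΛY L2 else 0)) M lam ?_ ?_ hl0 hlt h1 (by omega) h2)
  · refine ENNReal.tsum_le_tsum fun x => mul_le_mul_right (ENNReal.tsum_le_tsum fun P =>
      ENNReal.tsum_le_tsum fun Q => ?_) _
    by_cases c1 : HT hX P = h ∧ Dp zX P ∈ E
    · by_cases c2 : HT hY Q = h'
      · by_cases c3 : PE hX zX sX hY zY sY lo hi a a' x P Q
        · rw [if_pos c1, if_pos (show HT hY Q = h' ∧ True from ⟨c2, trivial⟩), if_pos c3, mul_one,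
            if_pos]
          exact ⟨c1.1, c1.2, c2, c3.1, fun y k h3 h4 => (c3.2 y k h3 h4).1⟩
        · rw [if_neg c3, mul_zero]; exact zero_le
      · rw [if_neg (show ¬ (HT hY Q = h' ∧ True) by tauto), mul_zero, zero_mul]; exact zero_le
    · rw [if_neg c1, zero_mul, zero_mul]; exact zero_le
  · exact sum_mu zX zY w _ _ (sum_HT_le ΛX hX hX1 hΛX a SmX) (sum_HT_le ΛY hY hY1 hΛY a' (fun _ => True))
  · refine mu_le_X zX zY w _ _ M (fun g => ?_) (sum_HT_le ΛY hY hY1 hΛY a' (fun _ => True))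
    refine le_trans (ENNReal.tsum_le_tsum fun L => ?_) (hM g)
    by_cases c1 : Dp zX L = g <;> by_cases c2 : HT hX L = a <;> by_cases c3 : SmX L <;>
      simp [c1, c2, c3]

/-- one term of the Y-local part -/
lemma term_Y {C : ℝ≥0∞} {us : ℕ → ℝ≥0∞} (H3 : H3L ΛX hX zX sX ΛY hY zY sY C us)
    (hX1 : ∀ b, 1 ≤ hX b) (hΛX : ∑' b, ΛX b = 1) (hY1 : ∀ b, 1 ≤ hY b) (hΛY : ∑' b, ΛY b = 1)
    (s lo hi a a' h h' : ℕ) (w : G) (SmY : List BY → Prop) (M lam : ℝ≥0∞) (E : Finset G)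
    (hM : ∀ g, ∑' L, (if HT hY L = a' ∧ Dp zY L = g ∧ SmY L then LW ΛY L else 0) ≤ M)
    (hl0 : lam ≠ 0) (hlt : lam ≠ ⊤) (h1 : a + h ≤ a' + h') (h2 : hi + s ≤ a + h) :
    S4 (fun L1 P L2 Q => (if HT hX L1 = a ∧ True then LW ΛX L1 else 0) *
      (if HT hX P = h ∧ True then LW ΛX P else 0) *
      ((if HT hY L2 = a' ∧ SmY L2 then LW ΛY L2 else 0) *
        (if HT hY Q = h' ∧ Dp zY Q ∈ E then LW ΛY Q else 0)) *
      (if PE hX zX sX hY zY sY lo hi a a' (w + Dp zY L2 - Dp zX L1) P Q then 1 else 0))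
    ≤ C * (lam + M * E.card * us s / lam + us s) := by
  rw [S4_group (fun L1 => if HT hX L1 = a ∧ True then LW ΛX L1 else 0)
    (fun P => if HT hX P = h ∧ True then LW ΛX P else 0)
    (fun L2 => if HT hY L2 = a' ∧ SmY L2 then LW ΛY L2 else 0)
    (fun Q => if HT hY Q = h' ∧ Dp zY Q ∈ E then LW ΛY Q else 0)
    (fun L1 L2 => w + Dp zY L2 - Dp zX L1)
    (fun x P Q => if PE hX zX sX hY zY sY lo hi a a' x P Q then 1 else 0)]
  refine le_trans ?_ (H3 s h h' a a' hi E (mu zX zY w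
    (fun L1 => if HT hX L1 = a ∧ True then LW ΛX L1 else 0)
    (fun L2 => if HT hY L2 = a' ∧ SmY L2 then LW ΛY L2 else 0)) M lam ?_ ?_ hl0 hlt h1 h2
      (by omega))
  · refine ENNReal.tsum_le_tsum fun x => mul_le_mul_right (ENNReal.tsum_le_tsum fun P =>
      ENNReal.tsum_le_tsum fun Q => ?_) _
    by_cases c1 : HT hY Q = h' ∧ Dp zY Q ∈ E
    · by_cases c2 : HT hX P = h
      · by_cases c3 : PE hX zX sX hY zY sY lo hi a a' x P Q
        · rw [if_pos (show HT hX P = h ∧ True from ⟨c2, trivial⟩), if_pos c1, if_pos c3, mul_one,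
            if_pos]
          exact ⟨c2, c1.1, c1.2, c3.1, fun y k h3 h4 => (c3.2 y k h3 h4).2⟩
        · rw [if_neg c3, mul_zero]; exact zero_le
      · rw [if_neg (show ¬ (HT hX P = h ∧ True) by tauto), zero_mul, zero_mul]; exact zero_le
    · rw [if_neg c1, mul_zero, zero_mul]; exact zero_le
  · exact sum_mu zX zY w _ _ (sum_HT_le ΛX hX hX1 hΛX a (fun _ => True)) (sum_HT_le ΛY hY hY1 hΛY a' SmY)
  · refine mu_le_Y zX zY w _ _ M (sum_HT_le ΛX hX hX1 hΛX a (fun _ => True)) (fun g => ?_)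
    refine le_trans (ENNReal.tsum_le_tsum fun L => ?_) (hM g)
    by_cases c1 : Dp zY L = g <;> by_cases c2 : HT hY L = a' <;> by_cases c3 : SmY L <;>
      simp [c1, c2, c3]

end Crest.Agent.R154.Asm913
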