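import Crest.Agent.R154.AsmR_1

/-! Row 154, ROAD 801 (helper1): the window theorem. -/

set_option autoImplicit false

namespace Crest.Agent.R154.AsmS1

open scoped ENNReal
open Crest.Agent.R154.B5A Crest.Agent.R154.FP178 Crest.Agent.R154.AsmP1 Crest.Agent.R154.AsmQ1
open Crest.Agent.R154.AsmR1
open Crest.Agent.R154.Asm540 (TR Cm KS H5 TR_append TR_depth TR_shift)

lemma tw_ne {B : Type*} (Λ : B → ℝ≥0∞) (ht : B → ℕ) (a0 T i0 n : ℕ)
    (t : List B × List B × List B) (h : tw Λ ht a0 T i0 n t ≠ 0) :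
    fp ht a0 t.1 ∧ HT ht t.1 ≤ a0 + i0 ∧ fp ht T t.2.1 := by
  refine ⟨?_, ?_, ?_⟩
  · by_contra hc; exact h (by simp [tw, fw, ind_false hc])
  · by_contra hc; exact h (by simp [tw, fw, ind_false hc])
  · by_contra hc; exact h (by simp [tw, fw, ind_false hc])

variable {BX BY G : Type*} [AddCommGroup G]
  (ΛX : BX → ℝ≥0∞) (ΛY : BY → ℝ≥0∞) (hX : BX → ℕ) (hY : BY → ℕ) (zX : BX → G) (zY : BY → G)
  (sX : BX → Set (G × ℕ)) (sY : BY → Set (G × ℕ))

/-- the local level set -/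
lemma exE {B : Type*} (Λ : B → ℝ≥0∞) (ht : B → ℕ) (z : B → G) (h1 : ∀ b, 1 ≤ ht b)
    (hΛ : ∑' b, Λ b = 1) (T h : ℕ) (θ : ℝ≥0∞) (hθ : θ ≠ 0) :
    ∃ E : Finset G, (∀ v, v ∈ E ↔ θ ≤ pl Λ ht z T (h, v)) ∧ (E.card : ℝ≥0∞) * θ ≤ 1 := by
  have hs : ∑' v : G, pl Λ ht z T (h, v) ≤ 1 := by
    rw [← sum_pl Λ ht z h1 hΛ T]
    exact ENNReal.tsum_comp_le_tsum_of_injective
      (f := fun v : G => (h, v)) (fun a b hab => by simpa using hab) (pl Λ ht z T)
  obtain ⟨hfin, hc⟩ := AsmA789.card_le (fun v => pl Λ ht z T (h, v)) hs hθ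
  refine ⟨hfin.toFinset, fun v => by simp, ?_⟩
  rwa [Set.ncard_eq_toFinset_card _ hfin] at hc

lemma Mcard (J i0 : ℕ) (c θ x lam : ℝ≥0∞) (hc : c * θ ≤ 1) :
    (J * ((i0 + 1) * (2 * θ))) * c * x / lam ≤ (2 * J * (i0 + 1)) * x / lam := by
  refine ENNReal.div_le_div_right ?_ lam
  refine mul_le_mul_left ?_ x
  calc (J : ℝ≥0∞) * ((i0 + 1) * (2 * θ)) * c = (2 * J * (i0 + 1)) * (c * θ) := by ring
    _ ≤ (2 * J * (i0 + 1)) * 1 := mul_le_mul_right hc _
    _ = _ := mul_one _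

/-- locality of the window piece of `X`, contact, no high contact -/
def QX (θX : ℝ≥0∞) (T lo : ℕ) (a a' : ℕ) (x : G) (L : List BX) (M : List BY) : Prop :=
  θX ≤ pl ΛX hX zX T (HT hX L, dp zX L) ∧
    (∃ g k, Cm hX hY zX zY sX sY L M x a a' g k) ∧
    (∀ g k, Cm hX hY zX zY sX sY L M x a a' g k → lo ≤ k)

/-- locality of the window piece of `Y`, contact, no low contact -/
def QY (θY : ℝ≥0∞) (T hi : ℕ) (a a' : ℕ) (x : G) (L : List BX) (M : List BY) : Prop :=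
  θY ≤ pl ΛY hY zY T (HT hY M, dp zY M) ∧
    (∃ g k, Cm hX hY zX zY sX sY L M x a a' g k) ∧
    (∀ g k, Cm hX hY zX zY sX sY L M x a a' g k → k ≤ hi)

open Classical in
lemma cellX (h1X : ∀ b, 1 ≤ hX b) (hΛX : ∑' b, ΛX b = 1) (C : ℝ≥0∞) (us : ℕ → ℝ≥0∞)
    (hH2 : H2' ΛX ΛY hX hY zX zY sX sY C us) (J i0 s T lo h h' a a' : ℕ) (θX lam : ℝ≥0∞)
    (hθ : θX ≠ 0) (hl0 : lam ≠ 0) (hlT : lam ≠ ⊤) (haa : a ≤ a') (ha : a + s ≤ lo)
    (ha' : a' + s ≤ lo) (μ : G → ℝ≥0∞) (hμ : ∑' x, μ x ≤ 1)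
    (hM : ∀ x, μ x ≤ J * ((i0 + 1) * (2 * θX))) :
    ∑' x, μ x * ∑' r : List BX × List BY, LW ΛX r.1 * LW ΛY r.2 *
        ind (HT hX r.1 = h ∧ HT hY r.2 = h' ∧
          QX ΛX hX hY zX zY sX sY θX T lo a a' x r.1 r.2)
      ≤ C * (lam + (2 * J * (i0 + 1)) * us s / lam + us s) := by
  obtain ⟨E, hE, hcard⟩ := exE ΛX hX zX h1X hΛX T h θX hθ
  refine le_trans ?_ ((hH2 s h h' a a' lo E μ _ lam hμ hM hl0 hlT haa ha ha').trans ?_)
  · refine ENNReal.tsum_le_tsum fun x => mul_le_mul_right ?_ _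
    rw [ENNReal.tsum_prod']
    refine ENNReal.tsum_le_tsum fun L => ENNReal.tsum_le_tsum fun M => ?_
    rw [ite_eq_ind, mul_comm (LW ΛX L * LW ΛY M)]
    refine mul_le_mul_left (ind_mono ?_) _
    rintro ⟨h1, h2, h3, h4, h5⟩
    refine ⟨h1, ?_, h2, h4, h5⟩
    rw [hE]
    rw [h1] at h3
    exact h3
  · exact mul_le_mul_right (add_le_add (add_le_add le_rfl (Mcard J i0 _ θX _ lam hcard)) le_rfl) _

open Classical in
lemma cellY (h1Y : ∀ b, 1 ≤ hY b) (hΛY : ∑' b, ΛY b = 1) (C : ℝ≥0∞) (us : ℕ → ℝ≥0∞)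
    (hH3 : H3' ΛX ΛY hX hY zX zY sX sY C us) (J i0 s T hi h h' a a' : ℕ) (θY lam : ℝ≥0∞)
    (hθ : θY ≠ 0) (hl0 : lam ≠ 0) (hlT : lam ≠ ⊤) (haa : a + h ≤ a' + h') (ha : hi + s ≤ a + h)
    (ha' : hi + s ≤ a' + h') (μ : G → ℝ≥0∞) (hμ : ∑' x, μ x ≤ 1)
    (hM : ∀ x, μ x ≤ J * ((i0 + 1) * (2 * θY))) :
    ∑' x, μ x * ∑' r : List BX × List BY, LW ΛX r.1 * LW ΛY r.2 *
        ind (HT hX r.1 = h ∧ HT hY r.2 = h' ∧
          QY ΛY hX hY zX zY sX sY θY T hi a a' x r.1 r.2)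
      ≤ C * (lam + (2 * J * (i0 + 1)) * us s / lam + us s) := by
  obtain ⟨E, hE, hcard⟩ := exE ΛY hY zY h1Y hΛY T h' θY hθ
  refine le_trans ?_ ((hH3 s h h' a a' hi E μ _ lam hμ hM hl0 hlT haa ha ha').trans ?_)
  · refine ENNReal.tsum_le_tsum fun x => mul_le_mul_right ?_ _
    rw [ENNReal.tsum_prod']
    refine ENNReal.tsum_le_tsum fun L => ENNReal.tsum_le_tsum fun M => ?_
    rw [ite_eq_ind, mul_comm (LW ΛX L * LW ΛY M)]
    refine mul_le_mul_left (ind_mono ?_) _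
    rintro ⟨h1, h2, h3, h4, h5⟩
    refine ⟨h1, h2, ?_, h4, h5⟩
    rw [hE]
    rw [h2] at h3
    exact h3
  · exact mul_le_mul_right (add_le_add (add_le_add le_rfl (Mcard J i0 _ θY _ lam hcard)) le_rfl) _

open Classical in
theorem window (h1X : ∀ b, 1 ≤ hX b) (h1Y : ∀ b, 1 ≤ hY b) (hΛX : ∑' b, ΛX b = 1)
    (hΛY : ∑' b, ΛY b = 1) (hUX : ∀ n, U ΛX hX n ≤ 1) (hUY : ∀ n, U ΛY hY n ≤ 1)
    (hsX : ∀ b, ∀ p ∈ sX b, 1 ≤ p.2 ∧ p.2 ≤ hX b) (hsY : ∀ b, ∀ p ∈ sY b, 1 ≤ p.2 ∧ p.2 ≤ hY b)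
    (C : ℝ≥0∞) (us : ℕ → ℝ≥0∞) (hH2 : H2' ΛX ΛY hX hY zX zY sX sY C us)
    (hH3 : H3' ΛX ΛY hX hY zX zY sX sY C us) (T i0 s n aX J : ℕ) (w : G)
    (hJX : J * (T + i0) ≤ aX) (hJY : J * (T + i0 + i0) ≤ aX + i0) (hn : aX + T + 3 * i0 ≤ n)
    (hsT : s ≤ T)
    (e θX θY u q lam : ℝ≥0∞)
    (heX : ∀ a, ∑' L, fw ΛX hX a L * ind (a + i0 < HT hX L) ≤ e)
    (heY : ∀ a, ∑' L, fw ΛY hY a L * ind (a + i0 < HT hY L) ≤ e)
    (hθX : θX ≠ 0) (hθY : θY ≠ 0)
    (hnX : ∑' L, fw ΛX hX T L * ind (pl ΛX hX zX T (HT hX L, dp zX L) < θX) ≤ u)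
    (hnY : ∑' L, fw ΛY hY (T + i0) L *
      ind (pl ΛY hY zY (T + i0) (HT hY L, dp zY L) < θY) ≤ u)
    (hqX : ∑' L, fw ΛX hX T L *
      ind (¬ pl ΛX hX zX T (HT hX L, dp zX L) < 2 * θX) ≤ q)
    (hqY : ∑' L, fw ΛY hY (T + i0) L *
      ind (¬ pl ΛY hY zY (T + i0) (HT hY L, dp zY L) < 2 * θY) ≤ q)
    (hq1 : q ≤ 1) (hl0 : lam ≠ 0) (hlT : lam ≠ ⊤) :
    ∑' L : List BX, ∑' L' : List BY, (if HT hX L = n ∧ HT hY L' = n ∧
        Ev hX hY zX zY sX sY w aX T i0 s L L' then LW ΛX L * LW ΛY L' else 0)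
      ≤ 4 * e + 2 * (q ^ J + J * e) + u * u
        + 2 * (((i0 + 1 : ℕ) : ℝ≥0∞) ^ 4 *
          (C * (lam + (2 * J * (i0 + 1)) * us s / lam + us s))) := by
  set R : ℝ≥0∞ := C * (lam + (2 * J * (i0 + 1)) * us s / lam + us s) with hR
  set loX : Set (ℕ × G) := {y | pl ΛX hX zX T y < 2 * θX} with hloX
  set loY : Set (ℕ × G) := {y | pl ΛY hY zY (T + i0) y < 2 * θY} with hloY
  set SX : List BX → Prop := Spl hX T i0 (fun A => (HT hX A, dp zX A) ∈ loX) J with hSX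
  set SY : List BY → Prop := Spl hY (T + i0) i0 (fun A => (HT hY A, dp zY A) ∈ loY) J with hSY
  -- masses
  have mX : ∀ a, ∑' L, fw ΛX hX a L * 1 ≤ 1 := fun a => by
    simpa using sum_fw_le ΛX hX h1X hΛX.le a
  have mY : ∀ a, ∑' L, fw ΛY hY a L * 1 ≤ 1 := fun a => by
    simpa using sum_fw_le ΛY hY h1Y hΛY.le a
  have nsX : ∑' L, fw ΛX hX aX L * ind (¬ SX L) ≤ q ^ J + J * e := by
    refine nospl ΛX hX h1X hΛX.le T i0 _ q e ?_ hq1 (heX T) J aX hJX
    refine le_trans (ENNReal.tsum_le_tsum fun A => mul_le_mul_right (ind_mono ?_) _) hqX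
    exact fun h => h.2
  have nsY : ∑' L, fw ΛY hY (aX + i0) L * ind (¬ SY L) ≤ q ^ J + J * e := by
    refine nospl ΛY hY h1Y hΛY.le (T + i0) i0 _ q e ?_ hq1 (heY (T + i0)) J (aX + i0) hJY
    refine le_trans (ENNReal.tsum_le_tsum fun A => mul_le_mul_right (ind_mono ?_) _) hqY
    exact fun h => h.2
  -- reduction to triples
  have key : ∑' L : List BX, ∑' L' : List BY, (if HT hX L = n ∧ HT hY L' = n ∧
        Ev hX hY zX zY sX sY w aX T i0 s L L' then LW ΛX L * LW ΛY L' else 0)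
      ≤ e + (e + ∑' t, tw ΛX hX aX T i0 n t * ∑' r, tw ΛY hY (aX + i0) (T + i0) i0 n r *
        ind (Ev hX hY zX zY sX sY w aX T i0 s (t.1 ++ (t.2.1 ++ t.2.2))
          (r.1 ++ (r.2.1 ++ r.2.2)))) := by
    set F : List BX → ℝ≥0∞ := fun L => ∑' L', ind (HT hY L' = n) * LW ΛY L' *
      ind (Ev hX hY zX zY sX sY w aX T i0 s L L') with hF
    have hF1 : ∀ L, F L ≤ 1 := by
      intro L
      refine le_trans (ENNReal.tsum_le_tsum fun L' => ?_) ((U_eq ΛY hY n).le.trans (hUY n))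
      calc _ ≤ ind (HT hY L' = n) * LW ΛY L' * 1 := mul_le_mul_right (ind_le_one _) _
        _ = _ := mul_one _
    have e1 : ∑' L : List BX, ∑' L' : List BY, (if HT hX L = n ∧ HT hY L' = n ∧
        Ev hX hY zX zY sX sY w aX T i0 s L L' then LW ΛX L * LW ΛY L' else 0)
        = ∑' L : List BX, ind (HT hX L = n) * LW ΛX L * F L := by
      refine tsum_congr fun L => ?_
      rw [hF]; simp only
      rw [← ENNReal.tsum_mul_left]
      refine tsum_congr fun L' => ?_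
      rw [ite_eq_ind, ind_and, ind_and]
      ring
    rw [e1]
    refine (tri ΛX hX h1X hUX aX T i0 n (by omega) e (heX aX) F hF1).trans ?_
    refine add_le_add le_rfl ?_
    calc ∑' t, tw ΛX hX aX T i0 n t * F (t.1 ++ (t.2.1 ++ t.2.2))
        ≤ ∑' t, tw ΛX hX aX T i0 n t * (e + ∑' r, tw ΛY hY (aX + i0) (T + i0) i0 n r *
          ind (Ev hX hY zX zY sX sY w aX T i0 s (t.1 ++ (t.2.1 ++ t.2.2))
          (r.1 ++ (r.2.1 ++ r.2.2)))) := by
          refine ENNReal.tsum_le_tsum fun t => mul_le_mul_right ?_ _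
          exact tri ΛY hY h1Y hUY (aX + i0) (T + i0) i0 n (by omega) e (heY _)
            (fun L' => ind (Ev hX hY zX zY sX sY w aX T i0 s (t.1 ++ (t.2.1 ++ t.2.2)) L'))
            (fun _ => ind_le_one _)
      _ ≤ _ := by
          simp_rw [mul_add]
          rw [ENNReal.tsum_add, ENNReal.tsum_mul_right]
          refine add_le_add ?_ le_rfl
          have := tw_sum_le ΛX hX hUX aX T i0 n (fun _ => 1) (fun _ => 1) 1 1 (mX aX) (mX T)
          simp only [mul_one] at this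
          calc _ ≤ 1 * e := mul_le_mul_left this _
            _ = e := one_mul _
  -- the seven functions
  set FX : List BX → List BX → List BY → List BY → ℝ≥0∞ := fun L1 L2 M1 M2 => ind (SX L1) *
    ind (aX ≤ HT hX L1 ∧ HT hX L1 ≤ aX + i0 ∧ aX + i0 ≤ HT hY M1 ∧ HT hY M1 ≤ aX + i0 + i0 ∧
        T ≤ HT hX L2 ∧ HT hX L2 ≤ T + i0 ∧ T + i0 ≤ HT hY M2 ∧ HT hY M2 ≤ T + i0 + i0 ∧
        QX ΛX hX hY zX zY sX sY θX T (aX + 2 * i0 + s) (HT hX L1) (HT hY M1)
          (w + dp zY M1 - dp zX L1) L2 M2) with hFX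
  set FY : List BX → List BX → List BY → List BY → ℝ≥0∞ := fun L1 L2 M1 M2 => ind (SY M1) *
    ind (aX ≤ HT hX L1 ∧ HT hX L1 ≤ aX + i0 ∧ aX + i0 ≤ HT hY M1 ∧ HT hY M1 ≤ aX + i0 + i0 ∧
        T ≤ HT hX L2 ∧ HT hX L2 ≤ T + i0 ∧ T + i0 ≤ HT hY M2 ∧ HT hY M2 ≤ T + i0 + i0 ∧
        QY ΛY hX hY zX zY sX sY θY (T + i0) (aX + T - s) (HT hX L1) (HT hY M1)
          (w + dp zY M1 - dp zX L1) L2 M2) with hFY
  have hpt : ∀ (t : List BX × List BX × List BX) (r : List BY × List BY × List BY),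
      tw ΛX hX aX T i0 n t ≠ 0 → tw ΛY hY (aX + i0) (T + i0) i0 n r ≠ 0 →
      ind (Ev hX hY zX zY sX sY w aX T i0 s (t.1 ++ (t.2.1 ++ t.2.2)) (r.1 ++ (r.2.1 ++ r.2.2)))
      ≤ (1 * ind (T + i0 < HT hX t.2.1)) * (1 * 1)
        + ((1 * 1) * (1 * ind (T + i0 + i0 < HT hY r.2.1))
        + ((ind (¬ SX t.1) * 1) * (1 * 1)
        + ((1 * 1) * (ind (¬ SY r.1) * 1)
        + ((1 * ind (pl ΛX hX zX T (HT hX t.2.1, dp zX t.2.1) < θX)) *
            (1 * ind (pl ΛY hY zY (T + i0) (HT hY r.2.1, dp zY r.2.1) < θY))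
        + (FX t.1 t.2.1 r.1 r.2.1 + FY t.1 t.2.1 r.1 r.2.1))))) := by
    intro t r ht hr
    obtain ⟨t1, t2, t3⟩ := tw_ne ΛX hX aX T i0 n t ht
    obtain ⟨r1, r2, r3⟩ := tw_ne ΛY hY (aX + i0) (T + i0) i0 n r hr
    by_cases hEv : Ev hX hY zX zY sX sY w aX T i0 s (t.1 ++ (t.2.1 ++ t.2.2))
        (r.1 ++ (r.2.1 ++ r.2.2))
    swap
    · rw [ind_false hEv]; exact zero_le
    rw [ind_true hEv]
    by_cases c1 : T + i0 < HT hX t.2.1
    · rw [ind_true c1]; simp only [mul_one]; exact le_self_add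
    refine le_trans ?_ le_add_self
    by_cases c2 : T + i0 + i0 < HT hY r.2.1
    · rw [ind_true c2]; simp only [mul_one]; exact le_self_add
    refine le_trans ?_ le_add_self
    by_cases c3 : SX t.1
    swap
    · rw [ind_true c3]; simp only [mul_one]; exact le_self_add
    refine le_trans ?_ le_add_self
    by_cases c4 : SY r.1
    swap
    · rw [ind_true c4]; simp only [mul_one]; exact le_self_add
    refine le_trans ?_ le_add_self
    have a1 := le_HT_of_fp hX t1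
    have a2 := le_HT_of_fp hX t3
    have a3 := le_HT_of_fp hY r1
    have a4 := le_HT_of_fp hY r3
    obtain ⟨g1, g2⟩ := geo hX hY zX zY sX sY hsX hsY w aX T i0 s t.1 t.2.1 t.2.2 r.1 r.2.1 r.2.2
      a1 t2 a3 r2 a2 (not_lt.1 c1) a4 hEv
    by_cases c5 : θX ≤ pl ΛX hX zX T (HT hX t.2.1, dp zX t.2.1)
    · refine le_trans ?_ le_add_self
      refine le_trans ?_ le_self_add
      rw [hFX]; simp only
      rw [ind_true c3, ind_true, one_mul]
      exact ⟨a1, t2, a3, r2, a2, not_lt.1 c1, a4, not_lt.1 c2, c5, g1,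
        fun g k h => (g2 g k h).1⟩
    · by_cases c6 : θY ≤ pl ΛY hY zY (T + i0) (HT hY r.2.1, dp zY r.2.1)
      · refine le_trans ?_ le_add_self
        refine le_trans ?_ le_add_self
        rw [hFY]; simp only
        rw [ind_true c4, ind_true, one_mul]
        exact ⟨a1, t2, a3, r2, a2, not_lt.1 c1, a4, not_lt.1 c2, c6, g1,
          fun g k h => by have := (g2 g k h).2; omega⟩
      · rw [ind_true (not_le.1 c5), ind_true (not_le.1 c6)]
        simp only [mul_one]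
        exact le_self_add
  -- the sums
  have hsum : ∑' t, tw ΛX hX aX T i0 n t * ∑' r, tw ΛY hY (aX + i0) (T + i0) i0 n r *
        ind (Ev hX hY zX zY sX sY w aX T i0 s (t.1 ++ (t.2.1 ++ t.2.2))
          (r.1 ++ (r.2.1 ++ r.2.2)))
      ≤ (1 * e) * (1 * 1) + ((1 * 1) * (1 * e) + (((q ^ J + J * e) * 1) * (1 * 1)
        + ((1 * 1) * ((q ^ J + J * e) * 1) + ((1 * u) * (1 * u)
        + (((i0 + 1 : ℕ) : ℝ≥0∞) ^ 4 * R + ((i0 + 1 : ℕ) : ℝ≥0∞) ^ 4 * R))))) := by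
    have hle : ∀ (t : List BX × List BX × List BX),
        tw ΛX hX aX T i0 n t * ∑' r, tw ΛY hY (aX + i0) (T + i0) i0 n r *
        ind (Ev hX hY zX zY sX sY w aX T i0 s (t.1 ++ (t.2.1 ++ t.2.2))
          (r.1 ++ (r.2.1 ++ r.2.2)))
        ≤ tw ΛX hX aX T i0 n t * ∑' r, tw ΛY hY (aX + i0) (T + i0) i0 n r *
          ((1 * ind (T + i0 < HT hX t.2.1)) * (1 * 1)
        + ((1 * 1) * (1 * ind (T + i0 + i0 < HT hY r.2.1))
        + ((ind (¬ SX t.1) * 1) * (1 * 1)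
        + ((1 * 1) * (ind (¬ SY r.1) * 1)
        + ((1 * ind (pl ΛX hX zX T (HT hX t.2.1, dp zX t.2.1) < θX)) *
            (1 * ind (pl ΛY hY zY (T + i0) (HT hY r.2.1, dp zY r.2.1) < θY))
        + (FX t.1 t.2.1 r.1 r.2.1 + FY t.1 t.2.1 r.1 r.2.1)))))) := by
      intro t
      by_cases h0 : tw ΛX hX aX T i0 n t = 0
      · rw [h0, zero_mul, zero_mul]
      · refine mul_le_mul_right (ENNReal.tsum_le_tsum fun r => ?_) _
        by_cases h0' : tw ΛY hY (aX + i0) (T + i0) i0 n r = 0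
        · rw [h0', zero_mul, zero_mul]
        · exact mul_le_mul_right (hpt t r h0 h0') _
    refine (ENNReal.tsum_le_tsum hle).trans ?_
    have split2 : ∀ f g : (List BX × List BX × List BX) → (List BY × List BY × List BY) → ℝ≥0∞,
        ∑' t, tw ΛX hX aX T i0 n t * ∑' r, tw ΛY hY (aX + i0) (T + i0) i0 n r *
          (f t r + g t r)
        = ∑' t, tw ΛX hX aX T i0 n t * ∑' r, tw ΛY hY (aX + i0) (T + i0) i0 n r * f t r
        + ∑' t, tw ΛX hX aX T i0 n t * ∑' r, tw ΛY hY (aX + i0) (T + i0) i0 n r * g t r := by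
      intro f g
      simp only [mul_add, ENNReal.tsum_add]
    rw [split2, split2, split2, split2, split2, split2]
    refine add_le_add ?_ (add_le_add ?_ (add_le_add ?_ (add_le_add ?_ (add_le_add ?_
      (add_le_add ?_ ?_)))))
    · exact prod4 ΛX ΛY hX hY hUX hUY aX T (aX + i0) (T + i0) i0 n (fun _ => 1)
        (fun L => ind (T + i0 < HT hX L)) (fun _ => 1) (fun _ => 1) 1 e 1 1 (mX _) (heX T)
        (mY _) (mY _)
    · exact prod4 ΛX ΛY hX hY hUX hUY aX T (aX + i0) (T + i0) i0 n (fun _ => 1)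
        (fun _ => 1) (fun _ => 1) (fun L => ind (T + i0 + i0 < HT hY L)) 1 1 1 e (mX _) (mX _)
        (mY _) (heY _)
    · exact prod4 ΛX ΛY hX hY hUX hUY aX T (aX + i0) (T + i0) i0 n (fun L => ind (¬ SX L))
        (fun _ => 1) (fun _ => 1) (fun _ => 1) _ 1 1 1 nsX (mX _) (mY _) (mY _)
    · exact prod4 ΛX ΛY hX hY hUX hUY aX T (aX + i0) (T + i0) i0 n (fun _ => 1)
        (fun _ => 1) (fun L => ind (¬ SY L)) (fun _ => 1) 1 1 _ 1 (mX _) (mX _) nsY (mY _)
    · exact prod4 ΛX ΛY hX hY hUX hUY aX T (aX + i0) (T + i0) i0 n (fun _ => 1)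
        (fun L => ind (pl ΛX hX zX T (HT hX L, dp zX L) < θX)) (fun _ => 1)
        (fun L => ind (pl ΛY hY zY (T + i0) (HT hY L, dp zY L) < θY)) 1 u 1 u (mX _) hnX
        (mY _) hnY
    · refine (tw2_le ΛX ΛY hX hY hUX hUY aX T (aX + i0) (T + i0) i0 n FX).trans ?_
      have e1 : ∀ p : List BX × List BY, (fw ΛX hX aX p.1 * fw ΛY hY (aX + i0) p.2) *
          ∑' r : List BX × List BY, LW ΛX r.1 * LW ΛY r.2 * FX p.1 r.1 p.2 r.2
          = (fw ΛX hX aX p.1 * ind (SX p.1) * fw ΛY hY (aX + i0) p.2) *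
            ∑' r : List BX × List BY, LW ΛX r.1 * LW ΛY r.2 *
            ind (aX ≤ HT hX p.1 ∧ HT hX p.1 ≤ aX + i0 ∧ aX + i0 ≤ HT hY p.2 ∧
              HT hY p.2 ≤ aX + i0 + i0 ∧ T ≤ HT hX r.1 ∧ HT hX r.1 ≤ T + i0 ∧
              T + i0 ≤ HT hY r.2 ∧ HT hY r.2 ≤ T + i0 + i0 ∧
              QX ΛX hX hY zX zY sX sY θX T (aX + 2 * i0 + s) (HT hX p.1) (HT hY p.2)
                (w + dp zY p.2 - dp zX p.1) r.1 r.2) := by
        intro p
        rw [← ENNReal.tsum_mul_left, ← ENNReal.tsum_mul_left]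
        refine tsum_congr fun r => ?_
        rw [hFX]; simp only
        ring
      rw [tsum_congr e1]
      refine cellsum ΛX hX zX ΛY hY zY w aX (aX + i0) T (T + i0) i0
        (fun p => fw ΛX hX aX p.1 * ind (SX p.1) * fw ΛY hY (aX + i0) p.2)
        (J * ((i0 + 1) * (2 * θX))) ?_ ?_
        (fun a a' x L M => QX ΛX hX hY zX zY sX sY θX T (aX + 2 * i0 + s) a a' x L M) R ?_
      · rw [ENNReal.tsum_prod']
        simp_rw [ENNReal.tsum_mul_left, ENNReal.tsum_mul_right]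
        calc _ ≤ (∑' L, fw ΛX hX aX L * 1) * ∑' M, fw ΛY hY (aX + i0) M := by
              gcongr; exact ind_le_one _
          _ ≤ 1 * 1 := mul_le_mul' (mX aX) (by simpa using mY (aX + i0))
          _ = 1 := one_mul _
      · intro x
        rw [ENNReal.tsum_prod', ENNReal.tsum_comm]
        calc ∑' M, ∑' L, fw ΛX hX aX L * ind (SX L) * fw ΛY hY (aX + i0) M *
              ind (w + dp zY M - dp zX L = x)
            ≤ ∑' M, fw ΛY hY (aX + i0) M * (J * ((i0 + 1) * (2 * θX))) := by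
              refine ENNReal.tsum_le_tsum fun M => ?_
              calc _ = fw ΛY hY (aX + i0) M * ∑' L, fw ΛX hX aX L *
                    ind (dp zX L = w + dp zY M - x ∧ SX L) := by
                    rw [← ENNReal.tsum_mul_left]
                    refine tsum_congr fun L => ?_
                    rw [ind_and, ind_congr (show w + dp zY M - dp zX L = x ↔
                      dp zX L = w + dp zY M - x by
                        constructor
                        · intro h; rw [← h]; abel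
                        · intro h; rw [h]; abel)]
                    ring
                _ ≤ _ := mul_le_mul_right (dens ΛX hX zX h1X hΛX.le T i0 loX (2 * θX)
                    (fun y hy => le_of_lt hy) J aX hJX _) _
          _ ≤ 1 * (J * ((i0 + 1) * (2 * θX))) := by
              rw [ENNReal.tsum_mul_right]
              exact mul_le_mul_left (by simpa using mY (aX + i0)) _
          _ = _ := one_mul _
      · intro a a' h h' b1 b2 b3 b4 b5 b6 b7 b8 μ hμ hM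
        exact cellX ΛX ΛY hX hY zX zY sX sY h1X hΛX C us hH2 J i0 s T (aX + 2 * i0 + s) h h' a a'
          θX lam hθX hl0 hlT (by omega) (by omega) (by omega) μ hμ hM
    · refine (tw2_le ΛX ΛY hX hY hUX hUY aX T (aX + i0) (T + i0) i0 n FY).trans ?_
      have e1 : ∀ p : List BX × List BY, (fw ΛX hX aX p.1 * fw ΛY hY (aX + i0) p.2) *
          ∑' r : List BX × List BY, LW ΛX r.1 * LW ΛY r.2 * FY p.1 r.1 p.2 r.2
          = (fw ΛX hX aX p.1 * (fw ΛY hY (aX + i0) p.2 * ind (SY p.2))) *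
            ∑' r : List BX × List BY, LW ΛX r.1 * LW ΛY r.2 *
            ind (aX ≤ HT hX p.1 ∧ HT hX p.1 ≤ aX + i0 ∧ aX + i0 ≤ HT hY p.2 ∧
              HT hY p.2 ≤ aX + i0 + i0 ∧ T ≤ HT hX r.1 ∧ HT hX r.1 ≤ T + i0 ∧
              T + i0 ≤ HT hY r.2 ∧ HT hY r.2 ≤ T + i0 + i0 ∧
              QY ΛY hX hY zX zY sX sY θY (T + i0) (aX + T - s) (HT hX p.1) (HT hY p.2)
                (w + dp zY p.2 - dp zX p.1) r.1 r.2) := by
        intro p
        rw [← ENNReal.tsum_mul_left, ← ENNReal.tsum_mul_left]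
        refine tsum_congr fun r => ?_
        rw [hFY]; simp only
        ring
      rw [tsum_congr e1]
      refine cellsum ΛX hX zX ΛY hY zY w aX (aX + i0) T (T + i0) i0
        (fun p => fw ΛX hX aX p.1 * (fw ΛY hY (aX + i0) p.2 * ind (SY p.2)))
        (J * ((i0 + 1) * (2 * θY))) ?_ ?_
        (fun a a' x L M => QY ΛY hX hY zX zY sX sY θY (T + i0) (aX + T - s) a a' x L M) R ?_
      · rw [ENNReal.tsum_prod']
        simp_rw [ENNReal.tsum_mul_left, ENNReal.tsum_mul_right]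
        calc _ ≤ (∑' L, fw ΛX hX aX L) * ∑' M, fw ΛY hY (aX + i0) M * 1 := by
              gcongr; exact ind_le_one _
          _ ≤ 1 * 1 := mul_le_mul' (by simpa using mX aX) (mY (aX + i0))
          _ = 1 := one_mul _
      · intro x
        rw [ENNReal.tsum_prod']
        calc ∑' L, ∑' M, fw ΛX hX aX L * (fw ΛY hY (aX + i0) M * ind (SY M)) *
              ind (w + dp zY M - dp zX L = x)
            ≤ ∑' L, fw ΛX hX aX L * (J * ((i0 + 1) * (2 * θY))) := by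
              refine ENNReal.tsum_le_tsum fun L => ?_
              calc _ = fw ΛX hX aX L * ∑' M, fw ΛY hY (aX + i0) M *
                    ind (dp zY M = x - w + dp zX L ∧ SY M) := by
                    rw [← ENNReal.tsum_mul_left]
                    refine tsum_congr fun M => ?_
                    rw [ind_and, ind_congr (show w + dp zY M - dp zX L = x ↔
                      dp zY M = x - w + dp zX L by
                        constructor
                        · intro h; rw [← h]; abel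
                        · intro h; rw [h]; abel)]
                    ring
                _ ≤ _ := mul_le_mul_right (dens ΛY hY zY h1Y hΛY.le (T + i0) i0 loY (2 * θY)
                    (fun y hy => le_of_lt hy) J (aX + i0) hJY _) _
          _ ≤ 1 * (J * ((i0 + 1) * (2 * θY))) := by
              rw [ENNReal.tsum_mul_right]
              exact mul_le_mul_left (by simpa using mX aX) _
          _ = _ := one_mul _
      · intro a a' h h' b1 b2 b3 b4 b5 b6 b7 b8 μ hμ hM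
        exact cellY ΛX ΛY hX hY zX zY sX sY h1Y hΛY C us hH3 J i0 s (T + i0) (aX + T - s) h h'
          a a' θY lam hθY hl0 hlT (by omega) (by omega) (by omega) μ hμ hM
  refine key.trans ?_
  refine (add_le_add le_rfl (add_le_add le_rfl hsum)).trans (le_of_eq ?_)
  ring

end Crest.Agent.R154.AsmS1
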