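import Crest.Agent.R154.AsmR_114

/-! Row 154, ROAD 801 (helper114): the law of one piece: threshold, special pieces, local pieces. -/

set_option autoImplicit false

namespace Crest.Agent.R154.Asm114

open scoped ENNReal
open Crest.Agent.R154.B5A
open Crest.Agent.R154.FP178 (fp)

variable {B G : Type*} [AddCommGroup G]

open Classical in
lemma quant1 {ι : Type*} (p : ι → ℝ≥0∞) (hp : ∑' i, p i = 1) {u : ℝ≥0∞} (hu : u ≠ 0)
    (hu1 : u ≤ 1) : ∃ θ : ℝ≥0∞, θ ≠ 0 ∧ θ ≤ 1 ∧ (∑' i, if p i < θ then p i else 0) ≤ u ∧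
      u ≤ (∑' i, if p i < 2 * θ then p i else 0) := by
  rcases lt_or_eq_of_le hu1 with h | h
  · exact AsmA789.quant p hp hu h
  · refine ⟨1, one_ne_zero, le_rfl, ?_, ?_⟩
    · rw [h]
      calc (∑' i, if p i < 1 then p i else 0) ≤ ∑' i, p i :=
            ENNReal.tsum_le_tsum fun i => by split_ifs <;> simp
        _ = 1 := hp
    · rw [h, mul_one]
      have : ∀ i, p i < 2 := fun i =>
        calc p i ≤ ∑' i, p i := ENNReal.le_tsum i
          _ = 1 := hp
          _ < 2 := by norm_num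
      simp only [this, if_true, hp]
      exact le_rfl

lemma sum_pair {A : Type*} (f : A → ℕ) (g : A → G) (t : List A) :
    (t.map (fun a => (((f a : ℕ) : ℤ), g a))).sum = ((((t.map f).sum : ℕ) : ℤ), (t.map g).sum) := by
  induction t with
  | nil => rfl
  | cons a t ih =>
    rw [List.map_cons, List.sum_cons, ih, List.map_cons, List.sum_cons, List.map_cons,
      List.sum_cons]
    simp

open Classical in
theorem pkg (Λ : B → ℝ≥0∞) (h : B → ℕ) (z : B → G) (h1 : ∀ b, 1 ≤ h b) (hΛ : ∑' b, Λ b = 1)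
    (T : ℕ) (u : ℝ≥0∞) (hu : u ≠ 0) (hu1 : u ≤ 1) :
    ∃ (th : ℝ≥0∞) (S F : Pc h T → Prop),
      (∑' P, (if F P then PL Λ h T P else 0) ≤ u) ∧
      (∀ j, ∑' t : List (Pc h T), (if t.length = j ∧ ¬ (∃ P ∈ t, S P) then LW (PL Λ h T) t else 0)
        ≤ (1 - u) ^ j) ∧
      (∀ (j c : ℕ) (x : G), ∑' t : List (Pc h T), (if t.length = j ∧ (∃ P ∈ t, S P) ∧
        HT (PH h T) t = c ∧ Dp (PD z h T) t = x then LW (PL Λ h T) t else 0) ≤ j * (2 * th)) ∧
      (∀ h0 : ℕ, ∃ E : Finset G, th * (E.card : ℝ≥0∞) ≤ 1 ∧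
        ∀ P, PH h T P = h0 → ¬ F P → PD z h T P ∈ E) := by
  set g : Pc h T → ℤ × G := fun P => (((PH h T P : ℕ) : ℤ), PD z h T P) with hg
  set p : ℤ × G → ℝ≥0∞ := fun x => ∑' P, if g P = x then PL Λ h T P else 0 with hp
  have hmap : ∀ φ : ℤ × G → Prop, ∑' P, (if φ (g P) then PL Λ h T P else 0)
      = ∑' x, (if φ x then p x else 0) := by
    intro φ
    calc ∑' P, (if φ (g P) then PL Λ h T P else 0)
        = ∑' P, ∑' x, (if φ x then (if g P = x then PL Λ h T P else 0) else 0) := by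
          refine tsum_congr fun P => ?_
          rw [tsum_eq_single (g P)]
          · rw [if_pos (rfl : g P = g P)]
          · intro x hx
            have hne : ¬ g P = x := fun e => hx e.symm
            simp [hne]
      _ = ∑' x, ∑' P, (if φ x then (if g P = x then PL Λ h T P else 0) else 0) :=
          ENNReal.tsum_comm
      _ = _ := by
          refine tsum_congr fun x => ?_
          by_cases hx : φ x
          · simp [hx, hp]
          · simp [hx]
  have hp1 : ∑' x, p x = 1 := by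
    have := hmap (fun _ => True)
    simp only [if_true] at this
    rw [← this]
    exact sum_PL Λ h1 hΛ
  obtain ⟨th, hth0, hth1, hq1, hq2⟩ := quant1 p hp1 hu hu1
  obtain ⟨φF, hF⟩ : ∃ φ : ℤ × G → Prop, ∀ x, φ x ↔ p x < th := ⟨_, fun _ => Iff.rfl⟩
  obtain ⟨φS, hS⟩ : ∃ φ : ℤ × G → Prop, ∀ x, φ x ↔ p x < 2 * th := ⟨_, fun _ => Iff.rfl⟩
  have hq1' : (∑' x, if φF x then p x else 0) ≤ u := by
    refine le_trans (le_of_eq (tsum_congr fun x => ?_)) hq1
    by_cases hx : p x < th
    · rw [if_pos hx, if_pos ((hF x).2 hx)]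
    · rw [if_neg hx, if_neg (fun hh => hx ((hF x).1 hh))]
  have hq2' : u ≤ (∑' x, if φS x then p x else 0) := by
    refine le_trans hq2 (le_of_eq (tsum_congr fun x => ?_))
    by_cases hx : p x < 2 * th
    · rw [if_pos hx, if_pos ((hS x).2 hx)]
    · rw [if_neg hx, if_neg (fun hh => hx ((hS x).1 hh))]
  refine ⟨th, fun P => φS (g P), fun P => φF (g P), ?_, ?_, ?_, ?_⟩
  · exact (hmap φF).le.trans hq1'
  · intro j
    have e := AsmA789.nosmall (PL Λ h T) (fun P => φS (g P)) j
    have hsum : (∑' P, (if φS (g P) then PL Λ h T P else 0))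
        + ∑' P, (if φS (g P) then 0 else PL Λ h T P) = 1 := by
      rw [← ENNReal.tsum_add, ← sum_PL (T := T) Λ h1 hΛ]
      refine tsum_congr fun P => ?_
      split_ifs <;> simp
    have hle : ∑' P, (if φS (g P) then 0 else PL Λ h T P) ≤ 1 - u := by
      have h2 : u ≤ ∑' P, (if φS (g P) then PL Λ h T P else 0) := by
        rw [hmap φS]; exact hq2'
      refine ENNReal.le_sub_of_add_le_left (ne_top_of_le_ne_top ENNReal.one_ne_top hu1) ?_
      rw [← hsum]
      exact add_le_add h2 le_rfl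
    calc ∑' t : List (Pc h T), (if t.length = j ∧ ¬ (∃ P ∈ t, φS (g P))
          then LW (PL Λ h T) t else 0)
        = SL (PL Λ h T) j (fun L => if ∃ b ∈ L, φS (g b) then 0 else 1) := by
          rw [SL]
          refine tsum_congr fun t => ?_
          by_cases ha : t.length = j <;> by_cases hb : ∃ P ∈ t, φS (g P)
          · rw [if_neg (fun hh => hh.2 hb), if_pos ha, if_pos hb, mul_zero]
          · rw [if_pos ⟨ha, hb⟩, if_pos ha, if_neg hb, mul_one]
          · rw [if_neg (fun hh => ha hh.1), if_neg ha]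
          · rw [if_neg (fun hh => ha hh.1), if_neg ha]
      _ = _ := e
      _ ≤ (1 - u) ^ j := pow_le_pow_left' hle j
  · intro j c x
    have hM : ∀ x : ℤ × G, ∑' P, (if φS (g P) ∧ g P = x then PL Λ h T P else 0)
        ≤ 2 * th := by
      intro x
      by_cases hx : p x < 2 * th
      · refine le_trans (ENNReal.tsum_le_tsum fun P => ?_) hx.le
        by_cases hP : g P = x
        · rw [if_pos hP]; split_ifs <;> simp
        · rw [if_neg (fun hh => hP hh.2)]; exact zero_le
      · refine (ENNReal.tsum_eq_zero.2 fun P => ?_).le.trans zero_le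
        rw [if_neg]
        rintro ⟨ha, hb⟩
        rw [hb] at ha
        exact hx ((hS x).1 ha)
    have e := AsmA789.dens (PL Λ h T) (sum_PL (T := T) Λ h1 hΛ).le g
      (fun P => φS (g P)) (2 * th)
      (fun x => le_trans (le_of_eq (tsum_congr fun P => by congr)) (hM x)) j (((c : ℕ) : ℤ), x)
    refine le_trans (le_of_eq ?_) e
    rw [SL]
    refine tsum_congr fun t => ?_
    have hs : (t.map g).sum = (((HT (PH h T) t : ℕ) : ℤ), Dp (PD z h T) t) := sum_pair _ _ t
    rw [hs]
    by_cases ha : t.length = j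
    · rw [if_pos ha]
      by_cases hb : (∃ P ∈ t, φS (g P)) ∧ HT (PH h T) t = c ∧ Dp (PD z h T) t = x
      · rw [if_pos ⟨ha, hb⟩, if_pos, mul_one]
        exact ⟨hb.1, by rw [hb.2.1, hb.2.2]⟩
      · rw [if_neg (fun hh => hb hh.2), if_neg, mul_zero]
        rintro ⟨hc, hd⟩
        rw [Prod.mk.injEq] at hd
        exact hb ⟨hc, by exact_mod_cast hd.1, hd.2⟩
    · rw [if_neg ha, if_neg (fun hh => ha hh.1)]
  · intro h0
    obtain ⟨hfin, hcard⟩ := AsmA789.card_le p hp1.le hth0
    refine ⟨(hfin.toFinset.filter (fun x => x.1 = (h0 : ℤ))).image Prod.snd, ?_, ?_⟩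
    · refine le_trans ?_ hcard
      rw [mul_comm]
      refine mul_le_mul_left ?_ _
      rw [Set.ncard_eq_toFinset_card _ hfin]
      exact_mod_cast Finset.card_image_le.trans (Finset.card_filter_le _ _)
    · intro P hP hFP
      rw [Finset.mem_image]
      refine ⟨g P, ?_, rfl⟩
      rw [Finset.mem_filter]
      refine ⟨?_, by rw [← hP]⟩
      rw [Set.Finite.mem_toFinset]
      exact not_lt.1 (fun hh => hFP ((hF _).2 hh))

end Crest.Agent.R154.Asm114
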