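import Crest.Agent.R154.AsmD_190
import Crest.Agent.R154.AsmZ_190
import Crest.Agent.R154.DensFP_787
import Crest.Agent.R154.Dens_616

/-! Row 154, ROAD 801 (helper190): local set and smooth density of the pieces of one walker. -/

set_option autoImplicit false

namespace Crest.Agent.R154.Asm190

open scoped ENNReal
open Crest.Agent.R154.B5A
open Crest.Agent.R154.FP178

variable {B G : Type*} [AddCommGroup G] (Λ : B → ℝ≥0∞) (ht : B → ℕ) (z : B → G)

open Classical in
omit [AddCommGroup G] in
theorem sum_FP_eq (h1 : ∀ b, 1 ≤ ht b) (hΛ : ∑' b, Λ b = 1) (a : ℕ) :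
    ∑' L, (if fp ht a L then LW Λ L else 0) = 1 := by
  induction a using Nat.strong_induction_on with
  | _ a ih =>
    rcases Nat.eq_zero_or_pos a with rfl | ha
    · have := sum_fp_zero Λ ht (fun _ => 1)
      simpa only [mul_one] using this
    · have := sum_fp_step Λ ht a ha (fun _ => 1)
      simp only [mul_one] at this
      rw [this]
      calc ∑' b, Λ b * ∑' L, (if fp ht (a - ht b) L then LW Λ L else 0)
          = ∑' b, Λ b * 1 := by
            refine tsum_congr fun b => ?_
            rw [ih (a - ht b) (by have := h1 b; omega)]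
        _ = 1 := by simpa using hΛ

open Classical in
lemma fw_group (a : ℕ) (g : ℕ → G → ℝ≥0∞) :
    ∑' P : List B, (if fp ht a P then LW Λ P else 0) * g (HT ht P) ((P.map z).sum)
      = ∑' A, ∑' x, DensFP787.fw Λ ht z a A x * g A x := by
  rw [group (fun P : List B => if fp ht a P then LW Λ P else 0) (HT ht) (fun P => (P.map z).sum) g]
  refine tsum_congr fun A => tsum_congr fun x => ?_
  congr 1
  unfold DensFP787.fw
  refine tsum_congr fun P => ?_
  by_cases h : HT ht P = A ∧ (P.map z).sum = x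
  · by_cases hf : fp ht a P
    · rw [if_pos h, if_pos hf, if_pos ⟨hf, h⟩]
    · rw [if_pos h, if_neg hf, if_neg (fun h' => hf h'.1)]
  · rw [if_neg h, if_neg (fun h' => h h'.2)]

open Classical in
theorem smooth (h1 : ∀ b, 1 ≤ ht b) (hΛ : ∑' b, Λ b = 1) (u : ℝ≥0∞) (hu0 : u ≠ 0) (hu1 : u < 1)
    (T i0 : ℕ) (ov : ℝ≥0∞)
    (hov : ∀ a, ∑' L, (if fp ht a L ∧ a + i0 < HT ht L then LW Λ L else 0) ≤ ov) :
    ∃ (E : ℕ → Finset G) (D : ℝ≥0∞),
      (∑' Q, fpw Λ ht T i0 Q * (if (Q.map z).sum ∈ E (HT ht Q) then 0 else 1) ≤ u) ∧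
      (∀ h, D * (E h).card ≤ (i0 + 1 : ℕ) / u) ∧
      ∀ J a, J * (T + i0) ≤ a → ∃ b : ℕ → G → ℝ≥0∞,
        (∑' A, ∑' x, b A x ≤ (1 - u) ^ J + J * ov) ∧
        ∀ A x, DensFP787.fw Λ ht z a A x ≤ D + b A x := by
  set p : ℕ × G → ℝ≥0∞ := fun y => DensFP787.fw Λ ht z T y.1 y.2 with hp
  have hp1 : ∑' y, p y = 1 := by
    rw [ENNReal.tsum_prod']
    have := fw_group Λ ht z T (fun _ _ => 1)
    simp only [mul_one] at this
    rw [← sum_FP_eq Λ ht h1 hΛ T, this]
  obtain ⟨th, hth0, hth1, hlow, hhigh⟩ := Dens616.quantile p hp1 hu0 hu1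
  have hth' : th ≠ ⊤ := ne_top_of_le_ne_top ENNReal.one_ne_top hth1
  have hutop : u ≠ ⊤ := hu1.ne_top
  have hfin : {y | th ≤ p y}.Finite :=
    Dens616.finite_local p (by rw [hp1]; exact ENNReal.one_ne_top) hth0
  set E : ℕ → Finset G := fun h => (hfin.toFinset.filter (fun y => y.1 = h)).image Prod.snd with hE
  have hmemE : ∀ h x, x ∈ E h ↔ th ≤ DensFP787.fw Λ ht z T h x := by
    intro h x
    simp only [hE, Finset.mem_image, Finset.mem_filter, Set.Finite.mem_toFinset, Set.mem_setOf_eq]
    constructor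
    · rintro ⟨⟨h', x'⟩, ⟨h2, h3⟩, h4⟩
      simp only at h3 h4
      subst h3; subst h4
      exact h2
    · intro h2
      exact ⟨(h, x), ⟨h2, rfl⟩, rfl⟩
  have hcardE : ∀ h, ((E h).card : ℝ≥0∞) * th ≤ 1 := by
    intro h
    have h2 : ((hfin.toFinset).card : ℝ≥0∞) * th ≤ 1 := by
      rw [← hp1]
      exact Dens616.card_mul_le p th _ (fun y hy => by
        rw [Set.Finite.mem_toFinset] at hy; exact hy)
    refine le_trans ?_ h2
    gcongr
    refine le_trans Finset.card_image_le ?_
    exact Finset.card_filter_le _ _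
  set D : ℝ≥0∞ := ((i0 + 1 : ℕ) * th) / u with hD
  refine ⟨E, D, ?_, ?_, ?_⟩
  · -- non local mass
    calc ∑' Q, fpw Λ ht T i0 Q * (if (Q.map z).sum ∈ E (HT ht Q) then 0 else 1)
        ≤ ∑' Q : List B, (if fp ht T Q then LW Λ Q else 0) *
            (if (Q.map z).sum ∈ E (HT ht Q) then 0 else 1) := by
          refine ENNReal.tsum_le_tsum fun Q => ?_
          gcongr
          unfold fpw
          by_cases h : fp ht T Q ∧ HT ht Q ≤ T + i0
          · rw [if_pos h, if_pos h.1]
          · rw [if_neg h]; exact zero_le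
      _ = ∑' A, ∑' x, DensFP787.fw Λ ht z T A x * (if x ∈ E A then 0 else 1) :=
          fw_group Λ ht z T (fun A x => if x ∈ E A then 0 else 1)
      _ = ∑' y : ℕ × G, (if p y < th then p y else 0) := by
          rw [ENNReal.tsum_prod']
          refine tsum_congr fun A => tsum_congr fun x => ?_
          simp only [hmemE, hp]
          by_cases h : th ≤ DensFP787.fw Λ ht z T A x
          · rw [if_pos h, if_neg (not_lt.2 h), mul_zero]
          · rw [if_neg h, if_pos (not_le.1 h), mul_one]
      _ ≤ u := hlow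
  · intro h
    calc D * (E h).card = (i0 + 1 : ℕ) * ((E h).card * th) / u := by
          rw [hD, div_eq_mul_inv, div_eq_mul_inv]; ring
      _ ≤ (i0 + 1 : ℕ) * 1 / u := by gcongr; exact hcardE h
      _ = _ := by rw [mul_one]
  · intro J a hJ
    have hq : ∑' A, ∑' x, (if th < DensFP787.fw Λ ht z T A x then DensFP787.fw Λ ht z T A x else 0)
        ≤ 1 - u := by
      have e1 : ∑' A, ∑' x, (if th < DensFP787.fw Λ ht z T A x then DensFP787.fw Λ ht z T A x
          else 0) = ∑' y : ℕ × G, (if th < p y then p y else 0) := by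
        rw [ENNReal.tsum_prod']
      rw [e1]
      refine ENNReal.le_sub_of_add_le_right hutop ?_
      calc (∑' y : ℕ × G, (if th < p y then p y else 0)) + u
          ≤ (∑' y : ℕ × G, (if th < p y then p y else 0))
            + ∑' y, (if p y ≤ th then p y else 0) := by gcongr
        _ = ∑' y, p y := by
            rw [← ENNReal.tsum_add]
            refine tsum_congr fun y => ?_
            by_cases h : p y ≤ th
            · rw [if_neg (not_lt.2 h), if_pos h, zero_add]
            · rw [if_pos (not_le.1 h), if_neg h, add_zero]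
        _ = 1 := hp1
    have hε : ∑' A, ∑' x, (if T + i0 < A then DensFP787.fw Λ ht z T A x else 0) ≤ ov := by
      refine le_trans (le_of_eq ?_) (hov T)
      have e := fw_group Λ ht z T (fun A _ => if T + i0 < A then 1 else 0)
      have e2 : ∀ A x, (if T + i0 < A then DensFP787.fw Λ ht z T A x else 0)
          = DensFP787.fw Λ ht z T A x * (if T + i0 < A then 1 else 0) := by
        intro A x
        by_cases h : T + i0 < A <;> simp [h]
      simp_rw [e2]
      rw [← e]
      refine tsum_congr fun P => ?_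
      by_cases h : fp ht T P <;> by_cases h2 : T + i0 < HT ht P <;> simp [h, h2]
    have hDD : (i0 + 1 : ℕ) * th + (1 - u) * D ≤ D := by
      have h3 : u * D = (i0 + 1 : ℕ) * th := by
        rw [hD]; exact ENNReal.mul_div_cancel hu0 hutop
      calc (i0 + 1 : ℕ) * th + (1 - u) * D = (u + (1 - u)) * D := by rw [← h3, add_mul]
        _ = 1 * D := by rw [add_tsub_cancel_of_le hu1.le]
        _ ≤ D := (one_mul D).le
    exact DensFP787.dens Λ ht z h1 hΛ.le T i0 th (1 - u) ov D hq tsub_le_self hε hDD J a hJ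

end Crest.Agent.R154.Asm190
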