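import Crest.Agent.R154.AsmR_240

/-! Row 154, ROAD 801 (helper240): assembly, window bound and sum over the windows. -/

set_option autoImplicit false

namespace Crest.Agent.R154.Asm240

open scoped ENNReal
open Crest.Agent.R154.B5A
open Crest.Agent.R154.Asm648

section main

variable {BX BY G : Type*} [AddCommGroup G] (ΛX : BX → ℝ≥0∞) (ΛY : BY → ℝ≥0∞)
  (hX : BX → ℕ) (hY : BY → ℕ) (zX : BX → G) (zY : BY → G)
  (sX : BX → Set (G × ℕ)) (sY : BY → Set (G × ℕ))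

open Classical in
/-- the facing inequality at given constants; `dd` = the local displacement -/
def FaceAt (dd : List BX → List BY → G) (Cst : ℝ≥0∞) (D s : ℕ) (η : ℝ≥0∞) : Prop :=
  ∀ a a' h h' lo hi : ℕ,
    a ≤ a' + D → a' ≤ a + D → a + h ≤ a' + h' + D → a' + h' ≤ a + h + D →
    a + s ≤ lo → a' + s ≤ lo → hi + s ≤ a + h → hi + s ≤ a' + h' →
    ∀ (E : Finset G) (μ : G → ℝ≥0∞) (M : ℝ≥0∞), M ≠ 0 → M ≠ ⊤ → ∑' x, μ x ≤ 1 →
      (∀ x, μ x ≤ M) → M * E.card ≤ Cst →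
      ∑' x, μ x * ∑' L : List BX, ∑' L' : List BY,
        (if HT hX L = h ∧ HT hY L' = h' ∧ dd L L' ∈ E ∧
          ev hX hY zX zY sX sY lo hi a a' x L L' then LW ΛX L * LW ΛY L' else 0) ≤ η

/-- **facing inequality** (weakest form) -/
def Face (dd : List BX → List BY → G) : Prop :=
  ∀ Cst : ℝ≥0∞, Cst ≠ ⊤ → ∀ (D : ℕ) (η : ℝ≥0∞), η ≠ 0 → ∃ s0 : ℕ, ∀ s, s0 ≤ s →
    FaceAt ΛX ΛY hX hY zX zY sX sY dd Cst D s η

/-- the window event -/
def EV (T i0 J j lo hi : ℕ) (w : G) (Q : List (Pc hX T)) (P : Pc hX T) (Q' : List (Pc hY T))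
    (P' : Pc hY T) : Prop :=
  (j * T ≤ HT hX (fl hX Q) ∧ HT hX (fl hX Q) ≤ j * T + J * i0) ∧
  (j * T ≤ HT hY (fl hY Q') ∧ HT hY (fl hY Q') ≤ j * T + J * i0) ∧
  (T ≤ HT hX P.1 ∧ HT hX P.1 ≤ T + i0) ∧ (T ≤ HT hY P'.1 ∧ HT hY P'.1 ≤ T + i0) ∧
  ev hX hY zX zY sX sY lo hi (HT hX (fl hX Q)) (HT hY (fl hY Q'))
    (w + Dp zY (fl hY Q') - Dp zX (fl hX Q)) P.1 P'.1

/-- index set -/
def idx (T i0 J j : ℕ) : Finset (ℕ × ℕ × ℕ × ℕ) :=
  Finset.Icc (j * T) (j * T + J * i0) ×ˢ Finset.Icc (j * T) (j * T + J * i0) ×ˢ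
    Finset.Icc T (T + i0) ×ˢ Finset.Icc T (T + i0)

lemma card_idx (T i0 J j : ℕ) :
    (idx T i0 J j).card = (J * i0 + 1) * ((J * i0 + 1) * ((i0 + 1) * (i0 + 1))) := by
  simp only [idx, Finset.card_product, Nat.card_Icc]
  congr 1
  · omega
  · congr 1
    · omega
    · congr 1 <;> omega

open Classical in
theorem face_part (h1X : ∀ b, 1 ≤ hX b) (h1Y : ∀ b, 1 ≤ hY b) (hΛX : ∑' b, ΛX b = 1)
    (hΛY : ∑' b, ΛY b = 1) {dd : List BX → List BY → G} {Cst η : ℝ≥0∞} {s T i0 J j lo hi : ℕ}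
    (hF : FaceAt ΛX ΛY hX hY zX zY sX sY dd Cst ((J + 1) * i0) s η) (w : G)
    (hlo : j * T + J * i0 + s ≤ lo) (hhi : hi + s ≤ j * T + T)
    (S : List (Pc hX T) → List (Pc hY T) → Prop) (E : ℕ → ℕ → Finset G) (M : ℝ≥0∞)
    (hM0 : M ≠ 0) (hMt : M ≠ ⊤) (hME : ∀ h h', M * (E h h').card ≤ Cst)
    (hM : ∀ A A' x, SL (wP ΛX hX T) j (fun Q => SL (wP ΛY hY T) j (fun Q' =>
      if w + Dp zY (fl hY Q') - Dp zX (fl hX Q) = x then
        (if S Q Q' ∧ HT hX (fl hX Q) = A ∧ HT hY (fl hY Q') = A' then 1 else 0) else 0)) ≤ M) :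
    II (wP ΛX hX T) (wP ΛY hY T) j (fun Q P Q' P' =>
      if S Q Q' ∧ dd P.1 P'.1 ∈ E (HT hX P.1) (HT hY P'.1) ∧
        EV hX hY zX zY sX sY T i0 J j lo hi w Q P Q' P' then 1 else 0)
      ≤ ((J * i0 + 1) * ((J * i0 + 1) * ((i0 + 1) * (i0 + 1))) : ℕ) * η := by
  have hwX := (sum_wP ΛX hX h1X hΛX T).le
  have hwY := (sum_wP ΛY hY h1Y hΛY T).le
  set c : ℕ × ℕ × ℕ × ℕ → List (Pc hX T) → List (Pc hY T) → ℝ≥0∞ := fun q Q Q' =>
    if S Q Q' ∧ HT hX (fl hX Q) = q.1 ∧ HT hY (fl hY Q') = q.2.1 then 1 else 0 with hc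
  set k : ℕ × ℕ × ℕ × ℕ → G → Pc hX T → Pc hY T → ℝ≥0∞ := fun q x P P' =>
    if HT hX P.1 = q.2.2.1 ∧ HT hY P'.1 = q.2.2.2 ∧ dd P.1 P'.1 ∈ E q.2.2.1 q.2.2.2 ∧
      ev hX hY zX zY sX sY lo hi q.1 q.2.1 x P.1 P'.1 then 1 else 0 with hk
  set δ : List (Pc hX T) → List (Pc hY T) → G := fun Q Q' =>
    w + Dp zY (fl hY Q') - Dp zX (fl hX Q) with hδ
  calc II (wP ΛX hX T) (wP ΛY hY T) j (fun Q P Q' P' =>
      if S Q Q' ∧ dd P.1 P'.1 ∈ E (HT hX P.1) (HT hY P'.1) ∧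
        EV hX hY zX zY sX sY T i0 J j lo hi w Q P Q' P' then 1 else 0)
      ≤ II (wP ΛX hX T) (wP ΛY hY T) j (fun Q P Q' P' =>
          ∑ q ∈ idx T i0 J j, c q Q Q' * k q (δ Q Q') P P') := by
        refine II_mono _ _ fun Q P Q' P' _ _ => ?_
        by_cases h : S Q Q' ∧ dd P.1 P'.1 ∈ E (HT hX P.1) (HT hY P'.1) ∧
          EV hX hY zX zY sX sY T i0 J j lo hi w Q P Q' P'
        · rw [if_pos h]
          obtain ⟨hS, hE, ⟨e1, e2⟩, ⟨e3, e4⟩, ⟨e5, e6⟩, ⟨e7, e8⟩, e9⟩ := h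
          have hq : (HT hX (fl hX Q), HT hY (fl hY Q'), HT hX P.1, HT hY P'.1) ∈ idx T i0 J j := by
            simp only [idx, Finset.mem_product, Finset.mem_Icc]
            exact ⟨⟨e1, e2⟩, ⟨e3, e4⟩, ⟨e5, e6⟩, ⟨e7, e8⟩⟩
          refine le_trans (le_of_eq ?_) (Finset.single_le_sum
            (f := fun q => c q Q Q' * k q (δ Q Q') P P') (fun _ _ => zero_le) hq)
          have hc1 : c (HT hX (fl hX Q), HT hY (fl hY Q'), HT hX P.1, HT hY P'.1) Q Q' = 1 :=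
            if_pos ⟨hS, rfl, rfl⟩
          have hk1 : k (HT hX (fl hX Q), HT hY (fl hY Q'), HT hX P.1, HT hY P'.1) (δ Q Q') P P' = 1 :=
            if_pos ⟨rfl, rfl, hE, e9⟩
          show (1 : ℝ≥0∞) = c _ Q Q' * k _ (δ Q Q') P P'
          rw [hc1, hk1, mul_one]
        · rw [if_neg h]; exact zero_le
    _ = ∑ q ∈ idx T i0 J j, II (wP ΛX hX T) (wP ΛY hY T) j (fun Q P Q' P' =>
          c q Q Q' * k q (δ Q Q') P P') := II_sum _ _ _ _ _
    _ ≤ ∑ _q ∈ idx T i0 J j, η := by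
        refine Finset.sum_le_sum fun q hq => ?_
        simp only [idx, Finset.mem_product, Finset.mem_Icc] at hq
        obtain ⟨⟨e1, e2⟩, ⟨e3, e4⟩, ⟨e5, e6⟩, ⟨e7, e8⟩⟩ := hq
        have hJi : (J + 1) * i0 = J * i0 + i0 := by ring
        rw [II_face]
        refine le_trans (ENNReal.tsum_le_tsum fun x => mul_le_mul_right ?_ _)
          (hF q.1 q.2.1 q.2.2.1 q.2.2.2 lo hi (by omega) (by omega) (by omega) (by omega)
            (by omega) (by omega) (by omega) (by omega) (E q.2.2.1 q.2.2.2) _ M hM0 hMt ?_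
            (fun x => ?_) (hME _ _))
        · calc ∑' P, wP ΛX hX T P * ∑' P', wP ΛY hY T P' * k q x P P'
              = ∑' P : Pc hX T, ∑' P' : Pc hY T, (fun (L : List BX) (L' : List BY) =>
                  if HT hX L = q.2.2.1 ∧ HT hY L' = q.2.2.2 ∧ dd L L' ∈ E q.2.2.1 q.2.2.2 ∧
                    ev hX hY zX zY sX sY lo hi q.1 q.2.1 x L L' then LW ΛX L * LW ΛY L' else 0)
                  P.1 P'.1 := by
                refine tsum_congr fun P => ?_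
                rw [← ENNReal.tsum_mul_left]
                refine tsum_congr fun P' => ?_
                simp only [hk, wP]
                split_ifs <;> simp
            _ ≤ ∑' L : List BX, ∑' P' : Pc hY T, (fun (L : List BX) (L' : List BY) =>
                  if HT hX L = q.2.2.1 ∧ HT hY L' = q.2.2.2 ∧ dd L L' ∈ E q.2.2.1 q.2.2.2 ∧
                    ev hX hY zX zY sX sY lo hi q.1 q.2.1 x L L' then LW ΛX L * LW ΛY L' else 0)
                  L P'.1 := ENNReal.tsum_comp_le_tsum_of_injective Subtype.val_injective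
                    (fun L : List BX => ∑' P' : Pc hY T, (fun (L : List BX) (L' : List BY) =>
                  if HT hX L = q.2.2.1 ∧ HT hY L' = q.2.2.2 ∧ dd L L' ∈ E q.2.2.1 q.2.2.2 ∧
                    ev hX hY zX zY sX sY lo hi q.1 q.2.1 x L L' then LW ΛX L * LW ΛY L' else 0)
                  L P'.1)
            _ ≤ _ := ENNReal.tsum_le_tsum fun L =>
                ENNReal.tsum_comp_le_tsum_of_injective Subtype.val_injective
                  (fun L' : List BY => if HT hX L = q.2.2.1 ∧ HT hY L' = q.2.2.2 ∧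
                    dd L L' ∈ E q.2.2.1 q.2.2.2 ∧
                    ev hX hY zX zY sX sY lo hi q.1 q.2.1 x L L' then LW ΛX L * LW ΛY L' else 0)
        · have h2 := SS_fiber (wP ΛX hX T) (wP ΛY hY T) j (c q) δ (fun _ => (1 : ℝ≥0∞))
          simp only [mul_one] at h2
          rw [← h2]
          have hc1 : ∀ Q Q', c q Q Q' ≤ 1 := fun Q Q' => by
            simp only [hc]; split_ifs <;> simp
          refine le_trans (SL_mono _ j fun Q _ => ?_) (SL_const_le _ hwX j 1)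
          exact le_trans (SL_mono _ j fun Q' _ => hc1 Q Q') (SL_const_le _ hwY j 1)
        · exact hM q.1 q.2.1 x
    _ = _ := by rw [Finset.sum_const, card_idx, nsmul_eq_mul]

open Classical in
/-- **one window** -/
theorem window_bd (h1X : ∀ b, 1 ≤ hX b) (h1Y : ∀ b, 1 ≤ hY b) (hΛX : ∑' b, ΛX b = 1)
    (hΛY : ∑' b, ΛY b = 1) {η u : ℝ≥0∞} (hu : u ≠ 0) (hu1 : u < 1) {s T i0 J j lo hi : ℕ}
    (hF2 : FaceAt ΛX ΛY hX hY zX zY sX sY (fun L _ => Dp zX L) (2 * J) ((J + 1) * i0) s η)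
    (hF3 : FaceAt ΛX ΛY hX hY zX zY sX sY (fun _ L' => Dp zY L') (2 * J) ((J + 1) * i0) s η)
    (w : G) (hj1 : 1 ≤ j) (hjJ : j ≤ J)
    (hlo : j * T + J * i0 + s ≤ lo) (hhi : hi + s ≤ j * T + T) :
    II (wP ΛX hX T) (wP ΛY hY T) j (fun Q P Q' P' =>
      if EV hX hY zX zY sX sY T i0 J j lo hi w Q P Q' P' then 1 else 0)
      ≤ u * u + (1 - u) ^ j + (1 - u) ^ j
        + ((J * i0 + 1) * ((J * i0 + 1) * ((i0 + 1) * (i0 + 1))) : ℕ) * η
        + ((J * i0 + 1) * ((J * i0 + 1) * ((i0 + 1) * (i0 + 1))) : ℕ) * η := by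
  have hwX := (sum_wP ΛX hX h1X hΛX T).le
  have hwY := (sum_wP ΛY hY h1Y hΛY T).le
  obtain ⟨θX, tX0, tX1, qX1, qX2, qX3, qX4⟩ := quantile ΛX hX zX T h1X hΛX hu hu1
  obtain ⟨θY, tY0, tY1, qY1, qY2, qY3, qY4⟩ := quantile ΛY hY zY T h1Y hΛY hu hu1
  choose EX hEX1 hEX2 using qX2
  choose EY hEY1 hEY2 using qY2
  obtain ⟨SX, hSX⟩ : ∃ S : List (Pc hX T) → Prop, ∀ Q, S Q ↔
    ∃ P ∈ Q, pl ΛX hX zX T (kz hX zX T P) < 2 * θX := ⟨_, fun _ => Iff.rfl⟩
  obtain ⟨SY, hSY⟩ : ∃ S : List (Pc hY T) → Prop, ∀ Q, S Q ↔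
    ∃ P ∈ Q, pl ΛY hY zY T (kz hY zY T P) < 2 * θY := ⟨_, fun _ => Iff.rfl⟩
  have hcard : ∀ (θ : ℝ≥0∞) (E : Finset G), (E.card : ℝ≥0∞) * θ ≤ 1 →
      (j : ℝ≥0∞) * (2 * θ) * E.card ≤ 2 * J := by
    intro θ E hE
    calc (j : ℝ≥0∞) * (2 * θ) * E.card = 2 * j * (E.card * θ) := by ring
      _ ≤ 2 * J * 1 := by
          refine mul_le_mul' (mul_le_mul_right ?_ _) hE
          exact_mod_cast hjJ
      _ = 2 * J := mul_one _
  have hMne : ∀ θ : ℝ≥0∞, θ ≠ 0 → (j : ℝ≥0∞) * (2 * θ) ≠ 0 := fun θ h => by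
    refine mul_ne_zero ?_ (mul_ne_zero (by norm_num) h)
    exact_mod_cast (by omega : j ≠ 0)
  have hMnt : ∀ θ : ℝ≥0∞, θ ≤ 1 → (j : ℝ≥0∞) * (2 * θ) ≠ ⊤ := fun θ h =>
    ENNReal.mul_ne_top (ENNReal.natCast_ne_top j)
      (ENNReal.mul_ne_top (by norm_num) (ne_top_of_le_ne_top ENNReal.one_ne_top h))
  -- the five parts
  have p2 := face_part ΛX ΛY hX hY zX zY sX sY h1X h1Y hΛX hΛY hF2 w hlo hhi
    (fun Q _ => SX Q) (fun h _ => EX h) (j * (2 * θX)) (hMne _ tX0) (hMnt _ tX1)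
    (fun h _ => hcard θX _ (hEX2 h)) (fun A A' x => by
      rw [SL_SL_comm]
      refine le_trans (SL_mono _ j fun Q' _ => ?_) (SL_const_le _ hwY j _)
      refine le_trans (SL_mono _ j fun Q _ => ?_) (qX3 j ((A : ℤ), w + Dp zY (fl hY Q') - x))
      by_cases hx : w + Dp zY (fl hY Q') - Dp zX (fl hX Q) = x
      · rw [if_pos hx]
        by_cases hS : SX Q ∧ HT hX (fl hX Q) = A ∧ HT hY (fl hY Q') = A'
        · rw [if_pos hS, if_pos]
          refine ⟨(hSX Q).1 hS.1, ?_⟩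
          rw [kz_sum, hS.2.1, ← hx]
          congr 1
          abel
        · rw [if_neg hS]; exact zero_le
      · rw [if_neg hx]; exact zero_le)
  have p3 := face_part ΛX ΛY hX hY zX zY sX sY h1X h1Y hΛX hΛY hF3 w hlo hhi
    (fun _ Q' => SY Q') (fun _ h' => EY h') (j * (2 * θY)) (hMne _ tY0) (hMnt _ tY1)
    (fun _ h' => hcard θY _ (hEY2 h')) (fun A A' x => by
      refine le_trans (SL_mono _ j fun Q _ => ?_) (SL_const_le _ hwX j _)
      refine le_trans (SL_mono _ j fun Q' _ => ?_) (qY3 j ((A' : ℤ), x - w + Dp zX (fl hX Q)))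
      by_cases hx : w + Dp zY (fl hY Q') - Dp zX (fl hX Q) = x
      · rw [if_pos hx]
        by_cases hS : SY Q' ∧ HT hX (fl hX Q) = A ∧ HT hY (fl hY Q') = A'
        · rw [if_pos hS, if_pos]
          refine ⟨(hSY Q').1 hS.1, ?_⟩
          rw [kz_sum, hS.2.2, ← hx]
          congr 1
          abel
        · rw [if_neg hS]; exact zero_le
      · rw [if_neg hx]; exact zero_le)
  have p0 := II_prod (wP ΛX hX T) (wP ΛY hY T) hwX hwY j
    (fun P => if pl ΛX hX zX T (kz hX zX T P) < θX then 1 else 0)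
    (fun P' => if pl ΛY hY zY T (kz hY zY T P') < θY then 1 else 0)
  have p0' := p0.trans (mul_le_mul' qX1 qY1)
  have p1 := (II_one (wP ΛX hX T) (wP ΛY hY T) hwX hwY j (fun Q => if SX Q then 0 else 1)).trans
    (le_trans (SL_mono _ j fun Q _ => by
      by_cases h : SX Q
      · rw [if_pos h]; exact zero_le
      · rw [if_neg h, if_neg (fun hh => h ((hSX Q).2 hh))]) (qX4 j))
  have p1' := (II_two (wP ΛX hX T) (wP ΛY hY T) hwX hwY j (fun Q' => if SY Q' then 0 else 1)).trans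
    (le_trans (SL_mono _ j fun Q _ => by
      by_cases h : SY Q
      · rw [if_pos h]; exact zero_le
      · rw [if_neg h, if_neg (fun hh => h ((hSY Q).2 hh))]) (qY4 j))
  refine le_trans (II_mono _ _ (F' := fun Q P Q' P' =>
    ((((if pl ΛX hX zX T (kz hX zX T P) < θX then 1 else 0) *
      (if pl ΛY hY zY T (kz hY zY T P') < θY then 1 else 0) + (if SX Q then 0 else 1)) +
      (if SY Q' then 0 else 1)) +
      (if SX Q ∧ Dp zX P.1 ∈ EX (HT hX P.1) ∧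
        EV hX hY zX zY sX sY T i0 J j lo hi w Q P Q' P' then 1 else 0)) +
      (if SY Q' ∧ Dp zY P'.1 ∈ EY (HT hY P'.1) ∧
        EV hX hY zX zY sX sY T i0 J j lo hi w Q P Q' P' then 1 else 0))
    fun Q P Q' P' _ _ => ?_) ?_
  · by_cases hE : EV hX hY zX zY sX sY T i0 J j lo hi w Q P Q' P'
    swap
    · rw [if_neg hE]; exact zero_le
    rw [if_pos hE]
    by_cases hA : SX Q
    swap
    · rw [if_neg hA]
      exact le_add_right (le_add_right (le_add_right (le_add_left le_rfl)))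
    by_cases hB : SY Q'
    swap
    · rw [if_neg hB]
      exact le_add_right (le_add_right (le_add_left le_rfl))
    by_cases hP : pl ΛX hX zX T (kz hX zX T P) < θX
    swap
    · have : Dp zX P.1 ∈ EX (HT hX P.1) := hEX1 _ _ (not_lt.1 hP)
      rw [if_pos (⟨hA, this, hE⟩ : SX Q ∧ Dp zX P.1 ∈ EX (HT hX P.1) ∧
        EV hX hY zX zY sX sY T i0 J j lo hi w Q P Q' P')]
      exact le_add_right (le_add_left le_rfl)
    by_cases hP' : pl ΛY hY zY T (kz hY zY T P') < θY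
    swap
    · have : Dp zY P'.1 ∈ EY (HT hY P'.1) := hEY1 _ _ (not_lt.1 hP')
      rw [if_pos (⟨hB, this, hE⟩ : SY Q' ∧ Dp zY P'.1 ∈ EY (HT hY P'.1) ∧
        EV hX hY zX zY sX sY T i0 J j lo hi w Q P Q' P')]
      exact le_add_left le_rfl
    rw [if_pos hP, if_pos hP', mul_one]
    exact le_add_right (le_add_right (le_add_right (le_add_right le_rfl)))
  · rw [II_add, II_add, II_add, II_add]
    exact add_le_add (add_le_add (add_le_add (add_le_add p0' p1) p1') p2) p3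

end main

end Crest.Agent.R154.Asm240
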