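import Crest.Agent.R154.AsmW_324
import Crest.Agent.R154.AsmA_789

/-! Row 154, ROAD 801 (helper324): one walker: local pieces and the smooth law of the cuts. -/

set_option autoImplicit false

namespace Crest.Agent.R154.Asm324

open scoped ENNReal
open Crest.Agent.R154.B5A Crest.Agent.R154.FP178

lemma ite_I {p : Prop} [Decidable p] (x : ℝ≥0∞) : (if p then x else 0) = I p * x := by
  by_cases h : p
  · rw [if_pos h, I_pos h, one_mul]
  · rw [if_neg h, I_neg h, zero_mul]

/-- total displacement -/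
def Dp {B G : Type*} [AddMonoid G] (z : B → G) (L : List B) : G := (L.map z).sum

section single

variable {B G : Type*} [AddCommGroup G] (Λ : B → ℝ≥0∞) (h : B → ℕ) (z : B → G)

lemma Dp_append (L L' : List B) : Dp z (L ++ L') = Dp z L + Dp z L' := by simp [Dp]

/-- key of a block -/
def ky (b : B) : ℤ × G := ((h b : ℤ), z b)

lemma Kp_ky (L : List B) : Kp (ky h z) L = ((HT h L : ℤ), Dp z L) := by
  induction L with
  | nil =>
    simp [Kp, HT, Dp]
    rfl
  | cons b L ih =>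
    simp only [Kp, List.map_cons, List.sum_cons] at ih ⊢
    rw [ih, HT_cons]
    simp only [Dp, ky, List.map_cons, List.sum_cons, Prod.mk_add_mk]
    push_cast
    rfl

open Classical in
lemma sumFP_eq (h1 : ∀ b, 1 ≤ h b) (hΛ : ∑' b, Λ b = 1) (t : ℕ) :
    ∑' L, I (fp h t L) * LW Λ L = 1 := by
  simp only [I_mul]
  induction t using Nat.strong_induction_on with
  | _ a ih =>
    rcases Nat.eq_zero_or_pos a with rfl | ha
    · have := sum_fp_zero Λ h (fun _ => 1)
      simp only [mul_one] at this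
      exact this
    · have := sum_fp_step Λ h a ha (fun _ => 1)
      simp only [mul_one] at this
      rw [this, ← hΛ]
      refine tsum_congr fun b => ?_
      rw [ih (a - h b) (by have := h1 b; omega), mul_one]

theorem single (h1 : ∀ b, 1 ≤ h b) (hΛ : ∑' b, Λ b = 1) (u : ℝ≥0∞) (hu0 : u ≠ 0) (hu1 : u < 1)
    (T i0 : ℕ) (ov : ℝ≥0∞)
    (hov : ∀ t, ∑' L, I (fp h t L ∧ t + i0 < HT h L) * LW Λ L ≤ ov) :
    ∃ (θ : ℝ≥0∞) (E : Finset G) (e : List B → Prop), (E.card : ℝ≥0∞) * θ ≤ 1 ∧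
      (∀ P, e P → Dp z P ∈ E) ∧
      ∑' P, I (¬ e P) * (I (fp h T P ∧ HT h P ≤ T + i0) * LW Λ P) ≤ u ∧
      ∀ J t, J * (T + i0) ≤ t → ∃ g b : ℕ × G → ℝ≥0∞,
        (∀ q, ∑' L, (I (fp h t L ∧ HT h L ≤ t + i0) * LW Λ L) * I ((HT h L, Dp z L) = q)
          ≤ g q + b q) ∧
        ∑' q, g q ≤ 1 ∧ (∀ q, g q ≤ J * ((i0 + 1) * (2 * θ))) ∧
        ∑' q, b q ≤ (1 - u) ^ J + J * ov := by
  classical
  set p : ℤ × G → ℝ≥0∞ := V Λ h (ky h z) T with hp
  have hp1 : ∑' q, p q = 1 := by rw [hp, sumV]; exact sumFP_eq Λ h h1 hΛ T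
  obtain ⟨θ, hθ0, -, hθu, hθl⟩ := AsmA789.quant p hp1 hu0 hu1
  simp only [ite_I] at hθu hθl
  obtain ⟨hfin, hcard⟩ := AsmA789.card_le p hp1.le hθ0
  have hpV : ∀ F : ℤ × G → ℝ≥0∞, ∑' A, (I (fp h T A) * LW Λ A) * F (Kp (ky h z) A)
      = ∑' q, p q * F q := by
    intro F
    rw [sum_key (ky h z) (fun A => I (fp h T A) * LW Λ A) F]
    refine tsum_congr fun q => ?_
    congr 1
    rw [hp, V]
    exact tsum_congr fun L => by ring
  refine ⟨θ, hfin.toFinset.image Prod.snd, fun P => θ ≤ p (Kp (ky h z) P), ?_, ?_, ?_, ?_⟩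
  · refine le_trans (mul_le_mul_left ?_ _) hcard
    rw [Set.ncard_eq_toFinset_card _ hfin]
    exact_mod_cast Finset.card_image_le
  · intro P hP
    refine Finset.mem_image.2 ⟨Kp (ky h z) P, hfin.mem_toFinset.2 hP, ?_⟩
    rw [Kp_ky]
  · calc ∑' P, I (¬ θ ≤ p (Kp (ky h z) P)) * (I (fp h T P ∧ HT h P ≤ T + i0) * LW Λ P)
        ≤ ∑' P, (I (fp h T P) * LW Λ P) * (fun q => I (p q < θ)) (Kp (ky h z) P) := by
          refine ENNReal.tsum_le_tsum fun P => ?_
          rw [mul_comm]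
          exact mul_le_mul' (mul_le_mul' (I_mono fun h => h.1) le_rfl)
            (I_mono fun h => not_le.1 h)
      _ = ∑' q, p q * I (p q < θ) := hpV (fun q => I (p q < θ))
      _ ≤ u := by
          refine le_trans (le_of_eq (tsum_congr fun q => ?_)) hθu
          rw [mul_comm]
  · intro J t hJt
    have hr : ∑' A, I (fp h T A ∧ HT h A ≤ T + i0 ∧ 2 * θ < V Λ h (ky h z) T (Kp (ky h z) A)) *
        LW Λ A ≤ 1 - u := by
      have hle : ∑' q, p q * I (2 * θ < p q) + ∑' q, p q * I (p q < 2 * θ) ≤ 1 := by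
        rw [← ENNReal.tsum_add, ← hp1]
        refine ENNReal.tsum_le_tsum fun q => ?_
        rcases lt_trichotomy (p q) (2 * θ) with h2 | h2 | h2
        · rw [I_neg (not_lt.2 h2.le), I_pos h2]; simp
        · rw [I_neg (not_lt.2 h2.le), I_neg (not_lt.2 h2.ge)]; simp
        · rw [I_pos h2, I_neg (not_lt.2 h2.le)]; simp
      have hul : u ≤ ∑' q, p q * I (p q < 2 * θ) := by
        refine le_trans hθl (le_of_eq (tsum_congr fun q => ?_))
        exact mul_comm _ _
      have h3 : ∑' q, p q * I (2 * θ < p q) ≤ 1 - u := by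
        refine ENNReal.le_sub_of_add_le_right (ne_top_of_lt hu1) ?_
        exact le_trans (add_le_add le_rfl hul) hle
      refine le_trans ?_ h3
      rw [← hpV (fun q => I (2 * θ < p q))]
      refine ENNReal.tsum_le_tsum fun A => ?_
      calc I (fp h T A ∧ HT h A ≤ T + i0 ∧ 2 * θ < V Λ h (ky h z) T (Kp (ky h z) A)) * LW Λ A
          ≤ (I (fp h T A) * I (2 * θ < p (Kp (ky h z) A))) * LW Λ A := by
            refine mul_le_mul_left ?_ _
            rw [← I_and]
            exact I_mono fun h => ⟨h.1, h.2.2⟩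
        _ = _ := by ring
    obtain ⟨g, b, h2, h3, h4⟩ := dens Λ h (ky h z) h1 hΛ.le T i0 (2 * θ) (1 - u) ov tsub_le_self
      hr (hov T) J t hJt
    set j : ℕ × G → ℤ × G := fun q => ((q.1 : ℤ), q.2) with hj
    have hinj : Function.Injective j := by
      rintro ⟨a, x⟩ ⟨a', x'⟩ hq
      simp only [hj, Prod.mk.injEq, Nat.cast_inj] at hq
      exact Prod.ext hq.1 hq.2
    refine ⟨fun q => min (g (j q)) (V Λ h (ky h z) t (j q)), fun q => b (j q), ?_, ?_, ?_, ?_⟩
    · intro q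
      have h5 : ∑' L, (I (fp h t L ∧ HT h L ≤ t + i0) * LW Λ L) * I ((HT h L, Dp z L) = q)
          ≤ V Λ h (ky h z) t (j q) := by
        rw [V]
        refine ENNReal.tsum_le_tsum fun L => ?_
        rw [mul_assoc]
        refine mul_le_mul' (I_mono fun h => h.1) (mul_le_mul_right (I_mono fun hq => ?_) _)
        rw [Kp_ky, ← hq]
      refine le_trans h5 ?_
      beta_reduce
      rcases le_total (g (j q)) (V Λ h (ky h z) t (j q)) with h6 | h6
      · rw [min_eq_left h6]; exact h2 _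
      · rw [min_eq_right h6]; exact le_add_right le_rfl
    · calc ∑' q, min (g (j q)) (V Λ h (ky h z) t (j q))
          ≤ ∑' q, V Λ h (ky h z) t (j q) := ENNReal.tsum_le_tsum fun q => min_le_right _ _
        _ ≤ ∑' q, V Λ h (ky h z) t q :=
            ENNReal.tsum_comp_le_tsum_of_injective hinj (V Λ h (ky h z) t)
        _ ≤ 1 := sumV_le Λ h (ky h z) h1 hΛ.le t
    · intro q
      exact le_trans (min_le_left _ _) (h3 _)
    · exact le_trans (ENNReal.tsum_comp_le_tsum_of_injective hinj b) h4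

lemma over_le (h1 : ∀ b, 1 ≤ h b) (hU1 : ∀ n, U Λ h n ≤ 1) (i0 t : ℕ) :
    ∑' L, I (fp h t L ∧ t + i0 < HT h L) * LW Λ L ≤ ∑' k, tail Λ h (i0 + k) := by
  classical
  have := overshoot Λ h h1 hU1 i0 t
  simpa only [ite_I] using this

lemma ov_tendsto (hm : ∑' k, tail Λ h k ≠ ⊤) :
    Filter.Tendsto (fun i0 => ∑' k, tail Λ h (i0 + k)) Filter.atTop (nhds 0) := by
  have := ENNReal.tendsto_sum_nat_add (tail Λ h) hm
  refine this.congr fun i => ?_
  exact tsum_congr fun k => by rw [add_comm]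

/-! ### cuts -/

lemma cut_exists (t : ℕ) (L : List B) (hL : t ≤ HT h L) : ∃ L1 R, L = L1 ++ R ∧ fp h t L1 := by
  induction L generalizing t with
  | nil =>
    rw [HT_nil] at hL
    exact ⟨[], [], rfl, by rw [fp_nil]; omega⟩
  | cons b L ih =>
    rcases Nat.eq_zero_or_pos t with rfl | ht
    · exact ⟨[], b :: L, rfl, by rw [fp_nil]⟩
    · rw [HT_cons] at hL
      obtain ⟨L1, R, h2, h3⟩ := ih (t - h b) (by omega)
      exact ⟨b :: L1, R, by rw [h2]; rfl, (fp_cons h t b L1).2 ⟨ht, h3⟩⟩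

/-- mean over the lists of height `n` -/
noncomputable def EX (n : ℕ) (f : List B → ℝ≥0∞) : ℝ≥0∞ := ∑' L, I (HT h L = n) * (LW Λ L * f L)

lemma EX_mono (n : ℕ) {f f' : List B → ℝ≥0∞} (hf : ∀ L, HT h L = n → f L ≤ f' L) :
    EX Λ h n f ≤ EX Λ h n f' := by
  refine ENNReal.tsum_le_tsum fun L => ?_
  by_cases hL : HT h L = n
  · exact mul_le_mul_right (mul_le_mul_right (hf L hL) _) _
  · rw [I_neg hL, zero_mul]; exact zero_le

lemma EX_add (n : ℕ) (f f' : List B → ℝ≥0∞) :
    EX Λ h n (fun L => f L + f' L) = EX Λ h n f + EX Λ h n f' := by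
  rw [EX, EX, EX, ← ENNReal.tsum_add]
  exact tsum_congr fun L => by ring

lemma EX_tsum {ι : Type*} (n : ℕ) (f : ι → List B → ℝ≥0∞) :
    EX Λ h n (fun L => ∑' i, f i L) = ∑' i, EX Λ h n (f i) := by
  simp only [EX]
  rw [ENNReal.tsum_comm]
  refine tsum_congr fun L => ?_
  rw [ENNReal.tsum_mul_left, ENNReal.tsum_mul_left]

lemma EX_sum {ι : Type*} (n : ℕ) (s : Finset ι) (f : ι → List B → ℝ≥0∞) :
    EX Λ h n (fun L => ∑ i ∈ s, f i L) = ∑ i ∈ s, EX Λ h n (f i) := by
  simp only [EX]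
  rw [← Summable.tsum_finsetSum (fun _ _ => ENNReal.summable)]
  refine tsum_congr fun L => ?_
  rw [Finset.mul_sum, Finset.mul_sum]

lemma EX_mul (n : ℕ) (c : ℝ≥0∞) (f : List B → ℝ≥0∞) :
    EX Λ h n (fun L => c * f L) = c * EX Λ h n f := by
  simp only [EX]
  rw [← ENNReal.tsum_mul_left]
  exact tsum_congr fun L => by ring

lemma EX_const (hU1 : ∀ n, U Λ h n ≤ 1) (n : ℕ) (c : ℝ≥0∞) : EX Λ h n (fun _ => c) ≤ c := by
  classical
  have h2 : ∑' L, I (HT h L = n) * LW Λ L ≤ 1 := by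
    have := hU1 n
    rw [U] at this
    refine le_trans (le_of_eq (tsum_congr fun L => ?_)) this
    by_cases hL : HT h L = n
    · rw [I_pos hL, if_pos hL, one_mul]
    · rw [I_neg hL, if_neg hL, zero_mul]
  calc EX Λ h n (fun _ => c) = (∑' L, I (HT h L = n) * LW Λ L) * c := by
        rw [EX, ← ENNReal.tsum_mul_right]
        exact tsum_congr fun L => by ring
    _ ≤ c := mul_le_of_le_one_left' h2

/-- bound of a mean by the sum over the first two parts -/
theorem cutbound (hU1 : ∀ n, U Λ h n ≤ 1) (n : ℕ) (f : List B → ℝ≥0∞)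
    (F : List B → List B → ℝ≥0∞)
    (hf : ∀ L, HT h L = n → f L ≤ ∑' p : List B × List B × List B,
      I (L = p.1 ++ (p.2.1 ++ p.2.2)) * F p.1 p.2.1) :
    EX Λ h n f ≤ ∑' L1, LW Λ L1 * ∑' P, LW Λ P * F L1 P := by
  calc EX Λ h n f ≤ EX Λ h n (fun L => ∑' p : List B × List B × List B,
        I (L = p.1 ++ (p.2.1 ++ p.2.2)) * F p.1 p.2.1) := EX_mono Λ h n hf
    _ = ∑' p : List B × List B × List B, EX Λ h n (fun L =>
        I (L = p.1 ++ (p.2.1 ++ p.2.2)) * F p.1 p.2.1) := EX_tsum Λ h n _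
    _ ≤ ∑' p : List B × List B × List B, LW Λ p.1 * (LW Λ p.2.1 * (F p.1 p.2.1 *
          (I (HT h p.2.2 = n - HT h p.1 - HT h p.2.1) * LW Λ p.2.2))) := by
        refine ENNReal.tsum_le_tsum fun p => ?_
        rw [EX, tsum_eq_single (p.1 ++ (p.2.1 ++ p.2.2))]
        · rw [I_pos rfl, one_mul, LW_append, LW_append]
          calc I (HT h (p.1 ++ (p.2.1 ++ p.2.2)) = n) *
                (LW Λ p.1 * (LW Λ p.2.1 * LW Λ p.2.2) * F p.1 p.2.1)
              ≤ I (HT h p.2.2 = n - HT h p.1 - HT h p.2.1) *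
                (LW Λ p.1 * (LW Λ p.2.1 * LW Λ p.2.2) * F p.1 p.2.1) := by
                refine mul_le_mul_left (I_mono fun hn => ?_) _
                rw [HT_append, HT_append] at hn
                omega
            _ = _ := by ring
        · intro L hL
          rw [I_neg hL]; simp
    _ = ∑' L1, LW Λ L1 * ∑' P, LW Λ P * (F L1 P *
          ∑' R, I (HT h R = n - HT h L1 - HT h P) * LW Λ R) := by
        rw [ENNReal.tsum_prod (f := fun (L1 : List B) (q : List B × List B) =>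
          LW Λ L1 * (LW Λ q.1 * (F L1 q.1 *
          (I (HT h q.2 = n - HT h L1 - HT h q.1) * LW Λ q.2))))]
        refine tsum_congr fun L1 => ?_
        rw [ENNReal.tsum_mul_left]
        congr 1
        rw [ENNReal.tsum_prod (f := fun (P : List B) (R : List B) =>
          (LW Λ P * (F L1 P * (I (HT h R = n - HT h L1 - HT h P) * LW Λ R))))]
        refine tsum_congr fun P => ?_
        rw [ENNReal.tsum_mul_left, ENNReal.tsum_mul_left]
    _ ≤ _ := by
        refine ENNReal.tsum_le_tsum fun L1 => mul_le_mul_right ?_ _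
        refine ENNReal.tsum_le_tsum fun P => mul_le_mul_right ?_ _
        refine mul_le_of_le_one_right' ?_
        have := EX_const Λ h hU1 (n - HT h L1 - HT h P) 1
        refine le_trans (le_of_eq (tsum_congr fun R => ?_)) this
        rw [mul_one]

end single

end Crest.Agent.R154.Asm324
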