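import Crest.Agent.R154.FP_178
import Crest.Agent.R154.Gap_583
import Crest.Agent.R154.AsmD_351

/-! Row 154, ROAD 801, one walker: first passages, their laws (helper351). -/

set_option autoImplicit false

namespace Crest.Agent.R154.AsmS351

open scoped ENNReal Topology
open Crest.Agent.R154.B5A Crest.Agent.R154.FP178

variable {B G : Type*} [AddCommGroup G] (Λ : B → ℝ≥0∞) (h : B → ℕ) (z : B → G)

/-- displacement -/
def Dp (L : List B) : G := (L.map z).sum

lemma Dp_append (L L' : List B) : Dp z (L ++ L') = Dp z L + Dp z L' := by simp [Dp]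

open Classical in
/-- law of (overshoot, displacement) of the first passage of depth `a` -/
noncomputable def gl (a : ℕ) (x : ℕ × G) : ℝ≥0∞ :=
  ∑' A : List B, if fp h a A ∧ HT h A = a + x.1 ∧ Dp z A = x.2 then LW Λ A else 0

open Classical in
lemma disint (a : ℕ) (F : ℕ × G → ℝ≥0∞) :
    ∑' A : List B, (if fp h a A then LW Λ A * F (HT h A - a, Dp z A) else 0)
      = ∑' x, gl Λ h z a x * F x := by
  simp only [gl, ← ENNReal.tsum_mul_right]
  rw [ENNReal.tsum_comm]
  refine tsum_congr fun A => ?_
  by_cases hA : fp h a A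
  · have hle := le_HT_of_fp h hA
    rw [if_pos hA, tsum_eq_single (HT h A - a, Dp z A)]
    · rw [if_pos ⟨hA, by simp only; omega, rfl⟩]
    · rintro ⟨i, v⟩ hne
      rw [if_neg, zero_mul]
      rintro ⟨-, h2, h3⟩
      simp only at h2 h3
      exact hne (by rw [h2, h3]; congr 1; omega)
  · rw [if_neg hA]
    simp [hA]

open Classical in
lemma gl_sum (h1 : ∀ b, 1 ≤ h b) (hΛ : ∑' b, Λ b ≤ 1) (a : ℕ) : ∑' x, gl Λ h z a x ≤ 1 := by
  have e := disint Λ h z a (fun _ => 1)
  simp only [mul_one] at e
  rw [← e]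
  exact sum_FP Λ h h1 hΛ a

open Classical in
lemma gl_rec (h1 : ∀ b, 1 ≤ h b) (hΛ : ∑' b, Λ b ≤ 1) (T i0 : ℕ) (ε : ℝ≥0∞)
    (hov : ∑' L, (if fp h T L ∧ T + i0 < HT h L then LW Λ L else 0) ≤ ε) (a : ℕ)
    (ha : T + i0 ≤ a) :
    ∃ r : ℕ × G → ℝ≥0∞, (∑' x, r x ≤ ε) ∧ ∀ i v, gl Λ h z a (i, v) ≤
      ∑ i' ∈ Finset.range (i0 + 1), ∑' z', gl Λ h z T (i', z') * gl Λ h z (a - T - i') (i, v - z')
        + r (i, v) := by
  set f : ℕ × G → List B → ℝ≥0∞ := fun x A => if HT h A = a + x.1 ∧ Dp z A = x.2 then 1 else 0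
    with hf
  refine ⟨fun x => ∑' A, (if fp h T A ∧ T + i0 < HT h A then LW Λ A *
      ∑' L, (if fp h (a - HT h A) L then LW Λ L * f x (A ++ L) else 0) else 0), ?_, ?_⟩
  · rw [ENNReal.tsum_comm]
    refine le_trans (ENNReal.tsum_le_tsum fun A => ?_) hov
    by_cases hA : fp h T A ∧ T + i0 < HT h A
    · simp only [if_pos hA]
      rw [ENNReal.tsum_mul_left, ENNReal.tsum_comm]
      calc _ ≤ LW Λ A * 1 := by
            refine mul_le_mul_right (le_trans (ENNReal.tsum_le_tsum fun L => ?_)
              (sum_FP Λ h h1 hΛ (a - HT h A))) _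
            by_cases hL : fp h (a - HT h A) L
            · simp only [if_pos hL]
              rw [ENNReal.tsum_mul_left]
              calc LW Λ L * ∑' x, f x (A ++ L) ≤ LW Λ L * 1 := by
                    refine mul_le_mul_right ?_ _
                    have : ∀ x : ℕ × G, f x (A ++ L) ≤
                        (if x = (HT h (A ++ L) - a, Dp z (A ++ L)) then 1 else 0) := by
                      rintro ⟨i, v⟩
                      simp only [hf]
                      by_cases hx : HT h (A ++ L) = a + i ∧ Dp z (A ++ L) = v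
                      · rw [if_pos hx, if_pos]
                        rw [Prod.mk.injEq]
                        exact ⟨by omega, hx.2.symm⟩
                      · rw [if_neg hx]; exact zero_le
                    refine (ENNReal.tsum_le_tsum this).trans ?_
                    rw [tsum_ite_eq]
                _ = LW Λ L := mul_one _
            · simp [hL]
        _ = LW Λ A := mul_one _
    · simp [hA]
  · intro i v
    have e0 : gl Λ h z a (i, v) = ∑' A, (if fp h a A then LW Λ A * f (i, v) A else 0) := by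
      rw [gl]
      refine tsum_congr fun A => ?_
      by_cases hA : fp h a A
      · by_cases hx : HT h A = a + i ∧ Dp z A = v
        · rw [if_pos ⟨hA, hx.1, hx.2⟩, if_pos hA]; simp only [hf]; rw [if_pos hx, mul_one]
        · rw [if_neg (fun h' => hx h'.2), if_pos hA]; simp only [hf]; rw [if_neg hx, mul_zero]
      · rw [if_neg (fun h' => hA h'.1), if_neg hA]
    rw [e0, FP178.fp_split Λ h h1 T a (by omega) (f (i, v))]
    have e1 : ∀ A : List B, (if fp h T A then LW Λ A *
          ∑' L, (if fp h (a - HT h A) L then LW Λ L * f (i, v) (A ++ L) else 0) else 0)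
        ≤ (if fp h T A then LW Λ A * (fun x : ℕ × G => if x.1 ≤ i0 then
              gl Λ h z (a - T - x.1) (i, v - x.2) else 0) (HT h A - T, Dp z A) else 0)
          + (if fp h T A ∧ T + i0 < HT h A then LW Λ A *
      ∑' L, (if fp h (a - HT h A) L then LW Λ L * f (i, v) (A ++ L) else 0) else 0) := by
      intro A
      by_cases hA : fp h T A
      · by_cases ho : T + i0 < HT h A
        · rw [if_pos (⟨hA, ho⟩ : fp h T A ∧ T + i0 < HT h A), if_pos hA]
          exact le_add_self
        · have hle := le_HT_of_fp h hA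
          rw [if_neg (fun h' : fp h T A ∧ T + i0 < HT h A => ho h'.2), add_zero, if_pos hA,
            if_pos hA]
          refine mul_le_mul_right ?_ _
          simp only
          rw [if_pos (by omega), gl, show a - T - (HT h A - T) = a - HT h A by omega]
          refine ENNReal.tsum_le_tsum fun L => ?_
          by_cases hL : fp h (a - HT h A) L
          · rw [if_pos hL]
            simp only [hf]
            by_cases hx : HT h (A ++ L) = a + i ∧ Dp z (A ++ L) = v
            · rw [if_pos hx, if_pos, mul_one]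
              rw [HT_append, Dp_append] at hx
              exact ⟨hL, by omega, by rw [← hx.2]; abel⟩
            · rw [if_neg hx, mul_zero]; exact zero_le
          · rw [if_neg hL]; exact zero_le
      · rw [if_neg hA]; exact zero_le
    refine (ENNReal.tsum_le_tsum e1).trans ?_
    rw [ENNReal.tsum_add]
    refine add_le_add ?_ le_rfl
    rw [disint Λ h z T (fun x : ℕ × G => if x.1 ≤ i0 then
              gl Λ h z (a - T - x.1) (i, v - x.2) else 0)]
    rw [ENNReal.tsum_prod' (f := fun x : ℕ × G => gl Λ h z T x * (if x.1 ≤ i0 then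
              gl Λ h z (a - T - x.1) (i, v - x.2) else 0))]
    rw [tsum_eq_sum (s := Finset.range (i0 + 1))]
    · refine Finset.sum_le_sum fun i' hi' => ?_
      have hi : i' ≤ i0 := by have := Finset.mem_range.1 hi'; omega
      simp only [hi, if_true]
      exact le_rfl
    · intro i' hi'
      have hi : ¬ i' ≤ i0 := by
        intro hh; exact hi' (Finset.mem_range.2 (by omega))
      simp [hi]

open Classical in
/-- density of the first passage law -/
theorem gl_dens (h1 : ∀ b, 1 ≤ h b) (hΛ : ∑' b, Λ b ≤ 1) (T i0 : ℕ) (ε th q : ℝ≥0∞)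
    (hov : ∑' L, (if fp h T L ∧ T + i0 < HT h L then LW Λ L else 0) ≤ ε)
    (hq : ∑' x, (if th < gl Λ h z T x then gl Λ h z T x else 0) ≤ q) (hq1 : q ≤ 1)
    (J a : ℕ) (ha : J * (T + i0) ≤ a) :
    ∃ S R : ℕ × G → ℝ≥0∞, (∀ x, gl Λ h z a x ≤ S x + R x) ∧ (∀ x, S x ≤ gl Λ h z a x) ∧
      (∀ x, S x ≤ J * (((i0 + 1 : ℕ) : ℝ≥0∞) * th)) ∧ ∑' x, R x ≤ q ^ J + J * ε := by
  obtain ⟨S, R, hS1, hS2, hS3⟩ := AsmD351.dens2 (fun i v => gl Λ h z T (i, v))
    (fun a x => gl Λ h z a x) T i0 th q ε
    (fun a ha => gl_rec Λ h z h1 hΛ T i0 ε hov a ha)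
    (fun a => gl_sum Λ h z h1 hΛ a)
    (by
      refine le_trans ?_ hq
      rw [ENNReal.tsum_prod' (f := fun x : ℕ × G =>
        (if th < gl Λ h z T x then gl Λ h z T x else 0))]
      exact ENNReal.sum_le_tsum _) hq1 J a ha
  refine ⟨fun x => min (S x) (gl Λ h z a x), R, fun x => ?_, fun x => min_le_right _ _,
    fun x => (min_le_left _ _).trans (hS2 x), hS3⟩
  rcases le_total (S x) (gl Λ h z a x) with hx | hx
  · simp only [min_eq_left hx]; exact hS1 x
  · simp only [min_eq_right hx]; exact le_self_add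

end Crest.Agent.R154.AsmS351
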