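import Crest.Agent.R154.AsmR_39

/-! Row 154, ROAD 801 (helper39): list assembly, part 4: bound of one window. -/

set_option autoImplicit false

namespace Crest.Agent.R154.Asm39

open scoped ENNReal
open Crest.Agent.R154.B5A Crest.Agent.R154.FP178
open Crest.Agent.R154.Bind12 (TT Dp)

section window

variable {BX BY G : Type*} [AddCommGroup G]
  (ΛX : BX → ℝ≥0∞) (ΛY : BY → ℝ≥0∞) (hX : BX → ℕ) (hY : BY → ℕ) (zX : BX → G) (zY : BY → G)
  (sX : BX → Set (G × ℕ)) (sY : BY → Set (G × ℕ))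

open Classical in
/-- X local -/
def HX (C : ℝ≥0∞) (us : ℕ → ℝ≥0∞) : Prop :=
  ∀ (s h h' a a' lo hi : ℕ) (E : Finset G) (μ : G → ℝ≥0∞) (M lam : ℝ≥0∞),
    ∑' x, μ x ≤ 1 → (∀ x, μ x ≤ M) → lam ≠ 0 → lam ≠ ⊤ → a < a' → a + h < a' + h' →
    a' + s ≤ lo → hi + s ≤ a + h →
    ∑' x, μ x * ∑' L, ∑' L', (if HT hX L = h ∧ HT hY L' = h' ∧ Dp zX L ∈ E ∧
      Ev lo hi (TT sX zX hX L 0 a) (TT sY zY hY L' x a') then LW ΛX L * LW ΛY L' else 0)
      ≤ C * (lam + M * E.card * us s / lam + us s)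

open Classical in
/-- Y local -/
def HY (C : ℝ≥0∞) (us : ℕ → ℝ≥0∞) : Prop :=
  ∀ (s h h' a a' lo hi : ℕ) (E : Finset G) (μ : G → ℝ≥0∞) (M lam : ℝ≥0∞),
    ∑' x, μ x ≤ 1 → (∀ x, μ x ≤ M) → lam ≠ 0 → lam ≠ ⊤ → a < a' → a + h < a' + h' →
    a' + s ≤ lo → hi + s ≤ a + h →
    ∑' x, μ x * ∑' L, ∑' L', (if HT hX L = h ∧ HT hY L' = h' ∧ Dp zY L' ∈ E ∧
      Ev lo hi (TT sX zX hX L 0 a) (TT sY zY hY L' x a') then LW ΛX L * LW ΛY L' else 0)
      ≤ C * (lam + M * E.card * us s / lam + us s)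

lemma Lf_le {B : Type*} (Λ : B → ℝ≥0∞) (ht : B → ℕ) (T : ℕ) (A : List B) :
    Lf Λ ht T A ≤ LW Λ A := by
  unfold Lf; split_ifs <;> simp

open Classical in
theorem main_term (j T i0 lo hi d0 : ℕ) (w : G)
    (hWX : ∑' As, Wj ΛX hX T j As ≤ 1) (hWY : ∑' Bs, Wj ΛY hY T j Bs ≤ 1)
    (Sm : List (List BX) → List (List BY) → Prop) (Lc : List BX → List BY → Prop)
    (M Bd : ℝ≥0∞)
    (hM : ∀ (c d : ℕ) (x : G), I (Wj ΛX hX T j) (fun As => I (Wj ΛY hY T j) (fun Bs =>
      if Sm As Bs ∧ HT hX As.flatten = c ∧ d0 + HT hY Bs.flatten = d ∧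
        w + Dp zY Bs.flatten - Dp zX As.flatten = x then 1 else 0)) ≤ M)
    (hB : ∀ c d h h' : ℕ, j * T ≤ c → c ≤ j * T + j * i0 → d0 + j * T ≤ d →
      d ≤ d0 + (j * T + j * i0) → T ≤ h → h ≤ T + i0 → T ≤ h' → h' ≤ T + i0 →
      ∀ μ : G → ℝ≥0∞, ∑' x, μ x ≤ 1 → (∀ x, μ x ≤ M) →
      ∑' x, μ x * ∑' L, ∑' L', (if HT hX L = h ∧ HT hY L' = h' ∧ Lc L L' ∧
        Ev lo hi (TT sX zX hX L 0 c) (TT sY zY hY L' x d) then LW ΛX L * LW ΛY L' else 0) ≤ Bd) :
    N (Wj ΛX hX T j) (Lf ΛX hX T) (Wj ΛY hY T j) (Lf ΛY hY T)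
      (fun As A Bs B => if Sm As Bs ∧ Lc A B then
        Phi hX hY zX zY sX sY j T i0 lo hi d0 w As A Bs B else 0)
      ≤ (((j * i0 + 1) ^ 2 * (i0 + 1) ^ 2 : ℕ) : ℝ≥0∞) * Bd := by
  set R : Finset (ℕ × ℕ × ℕ × ℕ) := (Finset.Icc (j * T) (j * T + j * i0)) ×ˢ
    (Finset.Icc (d0 + j * T) (d0 + (j * T + j * i0))) ×ˢ (Finset.Icc T (T + i0)) ×ˢ
    (Finset.Icc T (T + i0)) with hR
  have hRc : R.card = (j * i0 + 1) ^ 2 * (i0 + 1) ^ 2 := by
    rw [hR, Finset.card_product, Finset.card_product, Finset.card_product, Nat.card_Icc,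
      Nat.card_Icc, Nat.card_Icc]
    have e1 : j * T + j * i0 + 1 - j * T = j * i0 + 1 := by omega
    have e2 : d0 + (j * T + j * i0) + 1 - (d0 + j * T) = j * i0 + 1 := by omega
    have e3 : T + i0 + 1 - T = i0 + 1 := by omega
    rw [e1, e2, e3]; ring
  set g1 : ℕ → ℕ → G → List (List BX) → List (List BY) → ℝ≥0∞ := fun c d x As Bs =>
    if Sm As Bs ∧ HT hX As.flatten = c ∧ d0 + HT hY Bs.flatten = d ∧
        w + Dp zY Bs.flatten - Dp zX As.flatten = x then 1 else 0 with hg1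
  set g2 : (ℕ × ℕ × ℕ × ℕ) → G → List BX → List BY → ℝ≥0∞ := fun r x A B =>
    if HT hX A = r.2.2.1 ∧ HT hY B = r.2.2.2 ∧ Lc A B ∧
      Ev lo hi (TT sX zX hX A 0 r.1) (TT sY zY hY B x r.2.1) then 1 else 0 with hg2
  calc N (Wj ΛX hX T j) (Lf ΛX hX T) (Wj ΛY hY T j) (Lf ΛY hY T)
          (fun As A Bs B => if Sm As Bs ∧ Lc A B then
            Phi hX hY zX zY sX sY j T i0 lo hi d0 w As A Bs B else 0)
      ≤ N (Wj ΛX hX T j) (Lf ΛX hX T) (Wj ΛY hY T j) (Lf ΛY hY T)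
        (fun As A Bs B => ∑' r : R, ∑' x : G, g1 r.1.1 r.1.2.1 x As Bs * g2 r.1 x A B) := by
        refine N_mono _ _ _ _ fun As A Bs B => ?_
        by_cases h : Sm As Bs ∧ Lc A B
        · rw [if_pos h, Phi]
          split_ifs with h'
          · obtain ⟨⟨hl, hl'⟩, hg, ⟨hA, hh⟩, hg', ⟨hB', hh'⟩, hE⟩ := h'
            have hfX := HT_flat hX T i0 As hg
            have hfY := HT_flat hY T i0 Bs hg'
            rw [hl] at hfX
            rw [hl'] at hfY
            have hA' := le_HT_of_fp hX hA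
            have hB'' := le_HT_of_fp hY hB'
            have hr : (HT hX As.flatten, d0 + HT hY Bs.flatten, HT hX A, HT hY B) ∈ R := by
              rw [hR]
              simp only [Finset.mem_product, Finset.mem_Icc]
              omega
            refine le_trans ?_ (ENNReal.le_tsum (⟨_, hr⟩ : R))
            refine le_trans ?_ (ENNReal.le_tsum (w + Dp zY Bs.flatten - Dp zX As.flatten))
            have hE' := ev_shift hX hY zX zY sX sY A B _ _ _ _ _ _ hE
            have q1 : g1 (HT hX As.flatten) (d0 + HT hY Bs.flatten)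
                (w + Dp zY Bs.flatten - Dp zX As.flatten) As Bs = 1 := by
              rw [hg1]; exact if_pos ⟨h.1, rfl, rfl, rfl⟩
            have q2 : g2 (HT hX As.flatten, d0 + HT hY Bs.flatten, HT hX A, HT hY B)
                (w + Dp zY Bs.flatten - Dp zX As.flatten) A B = 1 := by
              rw [hg2]; exact if_pos ⟨rfl, rfl, h.2, hE'⟩
            simp only
            rw [q1, q2, one_mul]
          · exact zero_le
        · rw [if_neg h]; exact zero_le
    _ = ∑' r : R, ∑' x : G, (I (Wj ΛX hX T j) fun As => I (Wj ΛY hY T j) fun Bs =>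
          g1 r.1.1 r.1.2.1 x As Bs) * (I (Lf ΛX hX T) fun A => I (Lf ΛY hY T) fun B =>
          g2 r.1 x A B) := by
        rw [N_tsum]
        refine tsum_congr fun r => ?_
        rw [N_tsum]
        refine tsum_congr fun x => ?_
        exact N_prod _ _ _ _ (fun As Bs => g1 r.1.1 r.1.2.1 x As Bs) (fun A B => g2 r.1 x A B)
    _ ≤ ∑' _r : R, Bd := by
        refine ENNReal.tsum_le_tsum fun r => ?_
        obtain ⟨⟨c, d, h, h'⟩, hr⟩ := r
        rw [hR] at hr
        simp only [Finset.mem_product, Finset.mem_Icc] at hr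
        refine le_trans (ENNReal.tsum_le_tsum fun x => mul_le_mul_right ?_ _)
          (hB c d h h' (by omega) (by omega) (by omega) (by omega) (by omega) (by omega) (by omega)
            (by omega) (fun x => I (Wj ΛX hX T j) fun As => I (Wj ΛY hY T j) fun Bs =>
              g1 c d x As Bs) ?_ (fun x => hM c d x))
        · simp only [I, ← ENNReal.tsum_mul_left]
          refine ENNReal.tsum_le_tsum fun A => ENNReal.tsum_le_tsum fun B => ?_
          rw [hg2]
          simp only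
          split_ifs
          · rw [mul_one]
            exact mul_le_mul' (Lf_le ΛX hX T A) (Lf_le ΛY hY T B)
          · simp
        · rw [← I_tsum]
          refine I_le _ hWX fun As => ?_
          rw [← I_tsum]
          refine I_le _ hWY fun Bs => ?_
          rw [tsum_eq_single (w + Dp zY Bs.flatten - Dp zX As.flatten)]
          · rw [hg1]; simp only; split_ifs <;> simp
          · intro x hx
            rw [hg1]
            simp only
            rw [if_neg]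
            rintro ⟨-, -, -, h⟩
            exact hx h.symm
    _ = _ := by
        rw [tsum_fintype, Finset.sum_const, Finset.card_univ, Fintype.card_coe, hRc, nsmul_eq_mul]

open Classical in
theorem window (h1X : ∀ b, 1 ≤ hX b) (h1Y : ∀ b, 1 ≤ hY b) (hΛX : ∑' b, ΛX b = 1)
    (hΛY : ∑' b, ΛY b = 1) (C : ℝ≥0∞) (us : ℕ → ℝ≥0∞)
    (H2 : HX ΛX ΛY hX hY zX zY sX sY C us) (H3 : HY ΛX ΛY hX hY zX zY sX sY C us)
    (j T i0 lo hi d0 s : ℕ) (w : G) (hd0 : (j + 1) * i0 < d0)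
    (hlo : d0 + (j * T + j * i0) + s ≤ lo) (hhi : hi + s ≤ (j + 1) * T)
    {u lam : ℝ≥0∞} (hu : u ≠ 0) (hu1 : u < 1) (hl : lam ≠ 0) (hl' : lam ≠ ⊤) :
    N (Wj ΛX hX T j) (Lf ΛX hX T) (Wj ΛY hY T j) (Lf ΛY hY T)
      (Phi hX hY zX zY sX sY j T i0 lo hi d0 w)
      ≤ u * u + 2 * (1 - u) ^ j + 2 * ((((j * i0 + 1) ^ 2 * (i0 + 1) ^ 2 : ℕ) : ℝ≥0∞) *
        (C * (lam + 2 * j * us s / lam + us s))) := by
  obtain ⟨θX, EX, hX0, hX1, hXc, -, hXl, hXs, hXd⟩ := law_facts ΛX hX zX h1X hΛX T j hu hu1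
  obtain ⟨θY, EY, hY0, hY1, hYc, -, hYl, hYs, hYd⟩ := law_facts ΛY hY zY h1Y hΛY T j hu hu1
  obtain ⟨LX, hLX⟩ : ∃ P : List BX → Prop, ∀ A, P A ↔ Dp zX A ∈ EX (HT hX A) :=
    ⟨_, fun _ => Iff.rfl⟩
  obtain ⟨LY, hLY⟩ : ∃ P : List BY → Prop, ∀ A, P A ↔ Dp zY A ∈ EY (HT hY A) :=
    ⟨_, fun _ => Iff.rfl⟩
  have hXl' : ∑' A, (if LX A then 0 else Lf ΛX hX T A) ≤ u := by
    refine le_trans (le_of_eq (tsum_congr fun A => ?_)) hXl
    by_cases h : LX A
    · rw [if_pos h, if_pos ((hLX A).1 h)]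
    · rw [if_neg h, if_neg (fun h' => h ((hLX A).2 h'))]
  have hYl' : ∑' A, (if LY A then 0 else Lf ΛY hY T A) ≤ u := by
    refine le_trans (le_of_eq (tsum_congr fun A => ?_)) hYl
    by_cases h : LY A
    · rw [if_pos h, if_pos ((hLY A).1 h)]
    · rw [if_neg h, if_neg (fun h' => h ((hLY A).2 h'))]
  have hmX : ∑' A, Lf ΛX hX T A ≤ 1 := Lf_sum ΛX hX h1X hΛX.le T
  have hmY : ∑' A, Lf ΛY hY T A ≤ 1 := Lf_sum ΛY hY h1Y hΛY.le T
  have hWX : ∑' As, Wj ΛX hX T j As ≤ 1 := SLw_sum _ hmX j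
  have hWY : ∑' As, Wj ΛY hY T j As ≤ 1 := SLw_sum _ hmY j
  obtain ⟨SX, hSX⟩ : ∃ S : List (List BX) → Prop,
      ∀ As, S As ↔ ∃ P ∈ As, pl ΛX hX zX T (zA hX zX P) < 2 * θX := ⟨_, fun _ => Iff.rfl⟩
  obtain ⟨SY, hSY⟩ : ∃ S : List (List BY) → Prop,
      ∀ As, S As ↔ ∃ P ∈ As, pl ΛY hY zY T (zA hY zY P) < 2 * θY := ⟨_, fun _ => Iff.rfl⟩
  have hXs' : ∑' As, Wj ΛX hX T j As * (if SX As then 0 else 1) ≤ (1 - u) ^ j := by
    refine le_trans (le_of_eq (tsum_congr fun As => ?_)) hXs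
    by_cases h : SX As
    · rw [if_pos h, if_pos ((hSX As).1 h)]
    · rw [if_neg h, if_neg (fun h' => h ((hSX As).2 h'))]
  have hYs' : ∑' As, Wj ΛY hY T j As * (if SY As then 0 else 1) ≤ (1 - u) ^ j := by
    refine le_trans (le_of_eq (tsum_congr fun As => ?_)) hYs
    by_cases h : SY As
    · rw [if_pos h, if_pos ((hSY As).1 h)]
    · rw [if_neg h, if_neg (fun h' => h ((hSY As).2 h'))]
  have e1 : (j + 1) * T = j * T + T := by ring
  have e2 : (j + 1) * i0 = j * i0 + i0 := by ring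
  have hcard : ∀ (θ : ℝ≥0∞) (c : ℕ), (c : ℝ≥0∞) * θ ≤ 1 →
      C * (lam + j * (2 * θ) * c * us s / lam + us s) ≤ C * (lam + 2 * j * us s / lam + us s) := by
    intro θ c hc
    refine mul_le_mul_right (add_le_add (add_le_add le_rfl ?_) le_rfl) _
    refine ENNReal.div_le_div_right (mul_le_mul_left ?_ _) _
    calc (j : ℝ≥0∞) * (2 * θ) * c = 2 * j * (c * θ) := by ring
      _ ≤ 2 * j * 1 := mul_le_mul_right hc _
      _ = _ := mul_one _
  have t3 := main_term ΛX ΛY hX hY zX zY sX sY j T i0 lo hi d0 w hWX hWY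
    (fun As _ => SX As) (fun A _ => LX A) (j * (2 * θX))
    (C * (lam + 2 * j * us s / lam + us s)) (by
      intro c d x
      rw [I_comm]
      refine I_le _ hWY fun Bs => ?_
      refine le_trans (I_mono _ fun As => ?_) (hXd c (w + Dp zY Bs.flatten - x))
      by_cases h : SX As ∧ HT hX As.flatten = c ∧ d0 + HT hY Bs.flatten = d ∧
        w + Dp zY Bs.flatten - Dp zX As.flatten = x
      · rw [if_pos h, if_pos]
        refine ⟨(hSX As).1 h.1, h.2.1, ?_⟩
        rw [← h.2.2.2]; abel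
      · rw [if_neg h]; exact zero_le) (by
      intro c d h h' hc1 hc2 hd1 hd2 hh1 hh2 hh3 hh4 μ hμ1 hμ2
      refine le_trans (le_of_eq ?_) ((H2 s h h' c d lo hi (EX h) μ _ lam hμ1 hμ2 hl hl'
        (by omega) (by omega) (by omega) (by omega)).trans (hcard θX _ (hXc h)))
      refine tsum_congr fun x => ?_
      congr 1
      refine tsum_congr fun L => tsum_congr fun L' => ?_
      by_cases hL : HT hX L = h ∧ HT hY L' = h' ∧ LX L ∧
        Ev lo hi (TT sX zX hX L 0 c) (TT sY zY hY L' x d)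
      · rw [if_pos hL, if_pos ⟨hL.1, hL.2.1, hL.1 ▸ (hLX L).1 hL.2.2.1, hL.2.2.2⟩]
      · rw [if_neg hL, if_neg]
        rintro ⟨a1, a2, a3, a4⟩
        exact hL ⟨a1, a2, (hLX L).2 (by rw [a1]; exact a3), a4⟩)
  have t5 := main_term ΛX ΛY hX hY zX zY sX sY j T i0 lo hi d0 w hWX hWY
    (fun _ Bs => SY Bs) (fun _ B => LY B) (j * (2 * θY))
    (C * (lam + 2 * j * us s / lam + us s)) (by
      intro c d x
      refine I_le _ hWX fun As => ?_
      refine le_trans (I_mono _ fun Bs => ?_) (hYd (d - d0) (x + Dp zX As.flatten - w))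
      by_cases h : SY Bs ∧ HT hX As.flatten = c ∧ d0 + HT hY Bs.flatten = d ∧
        w + Dp zY Bs.flatten - Dp zX As.flatten = x
      · rw [if_pos h, if_pos]
        refine ⟨(hSY Bs).1 h.1, by omega, ?_⟩
        rw [← h.2.2.2]; abel
      · rw [if_neg h]; exact zero_le) (by
      intro c d h h' hc1 hc2 hd1 hd2 hh1 hh2 hh3 hh4 μ hμ1 hμ2
      refine le_trans (le_of_eq ?_) ((H3 s h h' c d lo hi (EY h') μ _ lam hμ1 hμ2 hl hl'
        (by omega) (by omega) (by omega) (by omega)).trans (hcard θY _ (hYc h')))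
      refine tsum_congr fun x => ?_
      congr 1
      refine tsum_congr fun L => tsum_congr fun L' => ?_
      by_cases hL : HT hX L = h ∧ HT hY L' = h' ∧ LY L' ∧
        Ev lo hi (TT sX zX hX L 0 c) (TT sY zY hY L' x d)
      · rw [if_pos hL, if_pos ⟨hL.1, hL.2.1, hL.2.1 ▸ (hLY L').1 hL.2.2.1, hL.2.2.2⟩]
      · rw [if_neg hL, if_neg]
        rintro ⟨a1, a2, a3, a4⟩
        exact hL ⟨a1, a2, (hLY L').2 (by rw [a2]; exact a3), a4⟩)
  have hPhi1 : ∀ As A Bs B, Phi hX hY zX zY sX sY j T i0 lo hi d0 w As A Bs B ≤ 1 := by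
    intro As A Bs B
    unfold Phi
    split_ifs <;> simp
  have t1 : N (Wj ΛX hX T j) (Lf ΛX hX T) (Wj ΛY hY T j) (Lf ΛY hY T)
      (fun _ A _ B => (if LX A then 0 else 1) *
        (if LY B then 0 else 1)) ≤ u * u := by
    refine I_le _ hWX fun As => ?_
    have q2 : I (Lf ΛY hY T) (fun B => if LY B then 0 else 1) ≤ u := by
      refine le_trans (le_of_eq (tsum_congr fun B => ?_)) hYl'
      by_cases h : LY B <;> simp [h]
    have q1 : I (Lf ΛX hX T) (fun A => if LX A then 0 else 1) ≤ u := by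
      refine le_trans (le_of_eq (tsum_congr fun B => ?_)) hXl'
      by_cases h : LX B <;> simp [h]
    calc _ ≤ I (Lf ΛX hX T) (fun A => (if LX A then 0 else 1) * u) := by
          refine I_mono _ fun A => ?_
          refine I_le _ hWY fun Bs => ?_
          rw [I_mul_left]
          exact mul_le_mul_right q2 _
      _ ≤ u * u := by
          rw [I_mul_right]
          exact mul_le_mul_left q1 _
  have t2 : N (Wj ΛX hX T j) (Lf ΛX hX T) (Wj ΛY hY T j) (Lf ΛY hY T)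
      (fun As _ _ _ => if SX As then 0 else 1) ≤ (1 - u) ^ j := by
    refine le_trans (I_mono _ (g := fun As => if SX As then 0 else 1) fun As => ?_) hXs'
    exact I_le _ hmX fun A => I_le _ hWY fun Bs => I_le _ hmY fun B => le_rfl
  have t4 : N (Wj ΛX hX T j) (Lf ΛX hX T) (Wj ΛY hY T j) (Lf ΛY hY T)
      (fun _ _ Bs _ => if SY Bs then 0 else 1) ≤ (1 - u) ^ j := by
    refine I_le _ hWX fun As => I_le _ hmX fun A => ?_
    refine le_trans (I_mono _ (g := fun Bs => if SY Bs then 0 else 1) fun Bs => ?_) hYs'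
    exact I_le _ hmY fun B => le_rfl
  calc N (Wj ΛX hX T j) (Lf ΛX hX T) (Wj ΛY hY T j) (Lf ΛY hY T)
          (Phi hX hY zX zY sX sY j T i0 lo hi d0 w)
      ≤ N (Wj ΛX hX T j) (Lf ΛX hX T) (Wj ΛY hY T j) (Lf ΛY hY T) (fun As A Bs B =>
        (((((if LX A then 0 else 1) *
        (if LY B then 0 else 1)) + (if SX As then 0 else 1)) +
        (if SX As ∧ LX A then
          Phi hX hY zX zY sX sY j T i0 lo hi d0 w As A Bs B else 0)) + (if SY Bs then 0 else 1)) +
        (if SY Bs ∧ LY B then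
          Phi hX hY zX zY sX sY j T i0 lo hi d0 w As A Bs B else 0)) := by
        refine N_mono _ _ _ _ fun As A Bs B => ?_
        have hp := hPhi1 As A Bs B
        by_cases c1 : LX A
        · by_cases c2 : SX As
          · rw [if_pos (⟨c2, c1⟩ : SX As ∧ LX A)]
            exact le_add_right (le_add_right (le_add_left le_rfl))
          · rw [if_neg c2]
            exact le_add_right (le_add_right (le_add_right (le_add_left hp)))
        · by_cases c3 : LY B
          · by_cases c4 : SY Bs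
            · rw [if_pos (⟨c4, c3⟩ : SY Bs ∧ LY B)]
              exact le_add_left le_rfl
            · rw [if_neg c4]
              exact le_add_right (le_add_left hp)
          · rw [if_neg c1, if_neg c3, one_mul]
            exact le_add_right (le_add_right (le_add_right (le_add_right hp)))
    _ ≤ u * u + (1 - u) ^ j + ((((j * i0 + 1) ^ 2 * (i0 + 1) ^ 2 : ℕ) : ℝ≥0∞) *
        (C * (lam + 2 * j * us s / lam + us s))) + (1 - u) ^ j +
        ((((j * i0 + 1) ^ 2 * (i0 + 1) ^ 2 : ℕ) : ℝ≥0∞) *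
        (C * (lam + 2 * j * us s / lam + us s))) := by
        rw [N_add, N_add, N_add, N_add]
        exact add_le_add (add_le_add (add_le_add (add_le_add t1 t2) t3) t4) t5
    _ = _ := by ring

end window

end Crest.Agent.R154.Asm39
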