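import Crest.Agent.R154.AsmR_457

/-! Row 154, ROAD 801, abstract assembly (helper457), part 4: the estimate of one window. -/

set_option autoImplicit false

namespace Crest.Agent.R154.Asm457

open scoped ENNReal
open Crest.Agent.R154.B5A Crest.Agent.R154.AsmA789

lemma wsum_add {ι : Type*} (f g : ι → ℝ≥0∞) (A : ℝ≥0∞) (hf : ∑' i, f i ≤ 1) :
    ∑' i, f i * (A + g i) ≤ A + ∑' i, f i * g i := by
  simp_rw [mul_add]
  rw [ENNReal.tsum_add, ENNReal.tsum_mul_right]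
  refine add_le_add ?_ le_rfl
  calc _ ≤ 1 * A := mul_le_mul_left hf _
    _ = A := one_mul A

lemma wswap {ι κ : Type*} (f : ι → ℝ≥0∞) (g : κ → ℝ≥0∞) (k : ι → κ → ℝ≥0∞) :
    ∑' i, f i * ∑' j, g j * k i j = ∑' j, g j * ∑' i, f i * k i j := by
  simp_rw [← ENNReal.tsum_mul_left]
  rw [ENNReal.tsum_comm]
  refine tsum_congr fun j => tsum_congr fun i => ?_
  ring

variable {BX BY G : Type*} [AddCommGroup G]
variable (ΛX : BX → ℝ≥0∞) (ΛY : BY → ℝ≥0∞) (hX : BX → ℕ) (hY : BY → ℕ) (zX : BX → G) (zY : BY → G)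
  (sX : BX → Set (G × ℕ)) (sY : BY → Set (G × ℕ))

/-- the slab -/
def SS (b t i0 s : ℕ) : Finset ℕ :=
  Finset.Ioo b (b + 2 * i0 + s) ∪ Finset.Ioc (b + 3 * t - s) (b + 3 * t + 2 * i0)

/-- contact in the window, none in the slab -/
def Fp (b t i0 s : ℕ) (w : G) (LX : List BX) (LY : List BY) : Prop :=
  (∃ z k, b + t < k ∧ k ≤ b + 2 * t ∧ (z, k) ∈ TS hX zX sX LX 0 0 ∧
    (z, k) ∈ TS hY zY sY LY w 0) ∧
  ∀ z k, (z, k) ∈ TS hX zX sX LX 0 0 → (z, k) ∈ TS hY zY sY LY w 0 → k ∉ SS b t i0 s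

lemma SS_card (b t i0 s : ℕ) (hst : s ≤ t) : (SS b t i0 s).card ≤ 2 * (2 * i0 + s) := by
  refine (Finset.card_union_le _ _).trans ?_
  rw [Nat.card_Ioo, Nat.card_Ioc]
  omega

open Classical in
lemma Wn_le (b t i0 s n : ℕ) (w : G) :
    Wn ΛX ΛY hX hY zX zY sX sY n (b + t) (b + 2 * t) w
      ≤ ∑ k ∈ SS b t i0 s, Pt ΛX ΛY hX hY zX zY sX sY n k w +
        ∑' LX, (if HT hX LX = n then LW ΛX LX * ∑' LY, (if HT hY LY = n then
          LW ΛY LY * ind (Fp hX hY zX zY sX sY b t i0 s w LX LY) else 0) else 0) := by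
  simp only [Pt]
  simp_rw [← Summable.tsum_finsetSum (fun _ _ => ENNReal.summable)]
  rw [← ENNReal.tsum_add, Wn]
  refine ENNReal.tsum_le_tsum fun LX => ?_
  by_cases hx : HT hX LX = n
  · rw [if_pos hx, ← ENNReal.tsum_mul_left, ← ENNReal.tsum_add]
    refine ENNReal.tsum_le_tsum fun LY => ?_
    by_cases hy : HT hY LY = n
    · by_cases hc : ∃ z k, b + t < k ∧ k ≤ b + 2 * t ∧ (z, k) ∈ TS hX zX sX LX 0 0 ∧
          (z, k) ∈ TS hY zY sY LY w 0
      · rw [if_pos ⟨hx, hy, hc⟩]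
        by_cases hd : ∀ z k, (z, k) ∈ TS hX zX sX LX 0 0 → (z, k) ∈ TS hY zY sY LY w 0 →
            k ∉ SS b t i0 s
        · refine le_add_left ?_
          rw [if_pos hy, ind_pos ⟨hc, hd⟩, mul_one]
        · push Not at hd
          obtain ⟨z, k, h3, h4, h5⟩ := hd
          refine le_add_right ?_
          refine le_trans ?_ (Finset.single_le_sum (f := fun k => if HT hX LX = n ∧ HT hY LY = n ∧
            (∃ z, (z, k) ∈ TS hX zX sX LX 0 0 ∧ (z, k) ∈ TS hY zY sY LY w 0)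
            then LW ΛX LX * LW ΛY LY else 0) (fun _ _ => zero_le) h5)
          rw [if_pos ⟨hx, hy, z, h3, h4⟩]
      · rw [if_neg fun h => hc h.2.2]; exact zero_le
    · rw [if_neg fun h => hy h.2.1]; exact zero_le
  · refine le_trans (le_of_eq ?_) zero_le
    rw [ENNReal.tsum_eq_zero]
    intro LY
    rw [if_neg fun h => hx h.1]

/-- **geometry of one window** -/
lemma geo (hsX : ∀ b p, p ∈ sX b → 1 ≤ p.2 ∧ p.2 ≤ hX b)
    (hsY : ∀ b p, p ∈ sY b → 1 ≤ p.2 ∧ p.2 ≤ hY b) (b t i0 s : ℕ) (ht : 2 * i0 ≤ t)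
    (w : G) (P Q R : List BX) (P' Q' R' : List BY)
    (a1 : b ≤ HT hX P) (a2 : HT hX P ≤ b + i0) (a3 : 3 * t ≤ HT hX Q)
    (a4 : HT hX Q ≤ 3 * t + i0) (b1 : b + i0 ≤ HT hY P') (b2 : HT hY P' ≤ b + i0 + i0)
    (b3 : 3 * t + i0 ≤ HT hY Q') (b4 : HT hY Q' ≤ 3 * t + i0 + i0)
    (hF : Fp hX hY zX zY sX sY b t i0 s w (P ++ (Q ++ R)) (P' ++ (Q' ++ R'))) :
    PE hX hY zX zY sX sY (HT hX P) (HT hY P') (w + Dp zY P' - Dp zX P) (b + 2 * i0 + s)
      (b + 3 * t - s) Q Q' := by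
  have sx : ∀ z k, (z, k) ∈ TS hX zX sX Q (0 + Dp zX P) (0 + HT hX P) ↔
      (z - Dp zX P, k) ∈ TS hX zX sX Q 0 (HT hX P) := by
    intro z k
    rw [TS_shift, zero_add]
  have sy : ∀ z k, (z, k) ∈ TS hY zY sY Q' (w + Dp zY P') (0 + HT hY P') ↔
      (z - Dp zX P, k) ∈ TS hY zY sY Q' (w + Dp zY P' - Dp zX P) (HT hY P') := by
    intro z k
    rw [← TS_shift, zero_add, sub_add_cancel]
  constructor
  · obtain ⟨z, k, h1, h2, h3, h4⟩ := hF.1
    refine ⟨z - Dp zX P, k, (sx z k).1 ?_, (sy z k).1 ?_⟩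
    · rw [TS_append, TS_append] at h3
      rcases h3 with h3 | h3 | h3
      · have := TS_depth hX zX sX hsX _ _ _ _ h3
        simp only at this
        omega
      · exact h3
      · have := TS_depth hX zX sX hsX _ _ _ _ h3
        simp only at this
        omega
    · rw [TS_append, TS_append] at h4
      rcases h4 with h4 | h4 | h4
      · have := TS_depth hY zY sY hsY _ _ _ _ h4
        simp only at this
        omega
      · exact h4
      · have := TS_depth hY zY sY hsY _ _ _ _ h4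
        simp only at this
        omega
  · intro z k h3 h4
    have d1 := TS_depth hX zX sX hsX _ _ _ _ h3
    simp only at d1
    have h5 : k ∉ SS b t i0 s := by
      refine hF.2 (z + Dp zX P) k ?_ ?_
      · rw [TS_append, TS_append]
        refine Or.inr (Or.inl ?_)
        rw [sx, add_sub_cancel_right]
        exact h3
      · rw [TS_append, TS_append]
        refine Or.inr (Or.inl ?_)
        rw [sy, add_sub_cancel_right]
        exact h4
    rw [SS, Finset.mem_union, Finset.mem_Ioo, Finset.mem_Ioc] at h5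
    omega

/-- final number of the local terms -/
noncomputable def kap2 (C lam us : ℝ≥0∞) (J i0 : ℕ) : ℝ≥0∞ :=
  (i0 + 1 : ℕ) * ((i0 + 1 : ℕ) * kap C lam us (J * ((i0 + 1 : ℕ) * 2)) i0)

open Classical in
/-- **one window** -/
theorem window (h1X : ∀ b, 1 ≤ hX b) (h1Y : ∀ b, 1 ≤ hY b) (hΛX : ∑' b, ΛX b = 1)
    (hΛY : ∑' b, ΛY b = 1) (hsX : ∀ b p, p ∈ sX b → 1 ≤ p.2 ∧ p.2 ≤ hX b)
    (hsY : ∀ b p, p ∈ sY b → 1 ≤ p.2 ∧ p.2 ≤ hY b) (C : ℝ≥0∞) (us : ℕ → ℝ≥0∞)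
    (hH2 : H2 ΛX ΛY hX hY zX zY sX sY C us) (hH3 : H3 ΛX ΛY hX hY zX zY sX sY C us)
    (u : ℝ≥0∞) (hu : u ≠ 0) (hu1 : u < 1) (J : ℕ) (hJ1 : J ≠ 0) (i0 s t b n : ℕ) (lam : ℝ≥0∞)
    (hl0 : lam ≠ 0) (hlt : lam ≠ ⊤) (ht : 2 * i0 ≤ t) (hst : s ≤ t)
    (hJ : J * (3 * t + 2 * i0) ≤ b) (hn : b + 3 * t + 3 * i0 ≤ n) (w : G) (δ : ℝ≥0∞)
    (hPt : ∀ k, b < k → k ≤ b + 3 * t + 2 * i0 → Pt ΛX ΛY hX hY zX zY sX sY n k w ≤ δ) :
    Wn ΛX ΛY hX hY zX zY sX sY n (b + t) (b + 2 * t) w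
      ≤ (2 * (2 * i0 + s) : ℕ) * δ + ((ov ΛX hX i0 + ov ΛX hX i0) + ((ov ΛY hY i0 + ov ΛY hY i0) +
        ((kap2 C lam (us s) J i0 + ((1 - u) ^ J + J * ov ΛX hX i0)) +
        (kap2 C lam (us s) J i0 + ((1 - u) ^ J + J * ov ΛY hY i0)) + u * u))) := by
  set lo := b + 2 * i0 + s with hlo
  set hi := b + 3 * t - s with hhi
  obtain ⟨thX, tx0, tx1, tx2, fX, BX', gx1, gx2, gx3, gx4⟩ := quant_data ΛX hX zX h1X hΛX u hu hu1
    (3 * t) i0 J b (le_trans (Nat.mul_le_mul_left _ (by omega)) hJ)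
  obtain ⟨thY, ty0, ty1, ty2, fY, BY', gy1, gy2, gy3, gy4⟩ := quant_data ΛY hY zY h1Y hΛY u hu hu1
    (3 * t + i0) i0 J (b + i0) (le_trans (le_trans (Nat.mul_le_mul_left _ (by omega)) hJ) (by omega))
  refine (Wn_le ΛX ΛY hX hY zX zY sX sY b t i0 s n w).trans (add_le_add ?_ ?_)
  · calc _ ≤ ∑ k ∈ SS b t i0 s, δ := by
          refine Finset.sum_le_sum fun k hk => hPt k ?_ ?_
          · rw [SS, Finset.mem_union, Finset.mem_Ioo, Finset.mem_Ioc] at hk
            omega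
          · rw [SS, Finset.mem_union, Finset.mem_Ioo, Finset.mem_Ioc] at hk
            omega
      _ = ((SS b t i0 s).card : ℝ≥0∞) * δ := by rw [Finset.sum_const, nsmul_eq_mul]
      _ ≤ _ := by
          refine mul_le_mul_left ?_ _
          exact_mod_cast SS_card b t i0 s hst
  -- decomposition of the two walkers
  have stepC := dec ΛX hX h1X hΛX b (3 * t) i0 n (by omega)
    (fun LX => ∑' LY, (if HT hY LY = n then
          LW ΛY LY * ind (Fp hX hY zX zY sX sY b t i0 s w LX LY) else 0))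
    (fun LX => by
      refine le_trans (ENNReal.tsum_le_tsum fun LY => ?_) (U_le ΛY hY h1Y hΛY n)
      split_ifs
      · calc _ ≤ LW ΛY LY * 1 := mul_le_mul_right (ind_le _) _
          _ = _ := mul_one _
      · exact le_rfl)
    (fun P Q => (ov ΛY hY i0 + ov ΛY hY i0) + ∑' P', wt ΛY hY (b + i0) i0 P' *
      ∑' Q', wt ΛY hY (3 * t + i0) i0 Q' * ind (PE hX hY zX zY sX sY (HT hX P) (HT hY P')
        (w + Dp zY P' - Dp zX P) lo hi Q Q'))
    (fun P Q R c1 c2 c3 c4 _ => by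
      refine dec ΛY hY h1Y hΛY (b + i0) (3 * t + i0) i0 n (by omega)
        (fun LY => ind (Fp hX hY zX zY sX sY b t i0 s w (P ++ (Q ++ R)) LY))
        (fun LY => ind_le _) _ ?_
      intro P' Q' R' d1 d2 d3 d4 _
      beta_reduce
      by_cases hF : Fp hX hY zX zY sX sY b t i0 s w (P ++ (Q ++ R)) (P' ++ (Q' ++ R'))
      · rw [ind_pos hF, ind_pos]
        exact geo hX hY zX zY sX sY hsX hsY b t i0 s ht w P Q R P' Q' R' (FP_ge hX c1) c2
          (FP_ge hX c3) c4 (FP_ge hY d1) d2 (FP_ge hY d3) d4 hF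
      · rw [ind_neg hF]; exact zero_le)
  refine stepC.trans (add_le_add le_rfl ?_)
  set TM : ℝ≥0∞ := ∑' P, wt ΛX hX b i0 P * ∑' P', wt ΛY hY (b + i0) i0 P' *
    WF ΛX ΛY hX hY zX zY sX sY (3 * t) (3 * t + i0) i0 (HT hX P) (HT hY P') lo hi
      (fun _ _ => 1) (w + Dp zY P' - Dp zX P) with hTM
  have stepD : ∑' P, wt ΛX hX b i0 P * ∑' Q, wt ΛX hX (3 * t) i0 Q *
      ((ov ΛY hY i0 + ov ΛY hY i0) + ∑' P', wt ΛY hY (b + i0) i0 P' *
      ∑' Q', wt ΛY hY (3 * t + i0) i0 Q' * ind (PE hX hY zX zY sX sY (HT hX P) (HT hY P')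
        (w + Dp zY P' - Dp zX P) lo hi Q Q')) ≤ (ov ΛY hY i0 + ov ΛY hY i0) + TM := by
    refine le_trans (ENNReal.tsum_le_tsum fun P => mul_le_mul_right
      (wsum_add _ _ _ (wt_sum ΛX hX h1X hΛX _ _)) _) ?_
    refine (wsum_add _ _ _ (wt_sum ΛX hX h1X hΛX _ _)).trans (add_le_add le_rfl (le_of_eq ?_))
    rw [hTM]
    refine tsum_congr fun P => ?_
    rw [wswap]
    simp only [WF, mul_one]
  refine stepD.trans (add_le_add le_rfl ?_)
  -- locality
  set EX := EE ΛX hX zX (3 * t) thX with hEX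
  set EY := EE ΛY hY zY (3 * t + i0) thY with hEY
  have stepE : ∀ a a' x, WF ΛX ΛY hX hY zX zY sX sY (3 * t) (3 * t + i0) i0 a a' lo hi
      (fun _ _ => 1) x ≤ WF ΛX ΛY hX hY zX zY sX sY (3 * t) (3 * t + i0) i0 a a' lo hi
      (fun Q _ => ind (Dp zX Q ∈ EX (HT hX Q))) x
      + WF ΛX ΛY hX hY zX zY sX sY (3 * t) (3 * t + i0) i0 a a' lo hi
      (fun _ Q' => ind (Dp zY Q' ∈ EY (HT hY Q'))) x + u * u := by
    intro a a' x
    have e3 : ∑' Q, wt ΛX hX (3 * t) i0 Q * ∑' Q', wt ΛY hY (3 * t + i0) i0 Q' *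
        (ind (¬ Dp zX Q ∈ EX (HT hX Q)) * ind (¬ Dp zY Q' ∈ EY (HT hY Q'))) ≤ u * u := by
      calc _ = (∑' Q, wt ΛX hX (3 * t) i0 Q * ind (¬ Dp zX Q ∈ EX (HT hX Q))) *
            ∑' Q', wt ΛY hY (3 * t + i0) i0 Q' * ind (¬ Dp zY Q' ∈ EY (HT hY Q')) := by
            rw [← ENNReal.tsum_mul_right]
            refine tsum_congr fun Q => ?_
            rw [mul_assoc]
            congr 1
            rw [← ENNReal.tsum_mul_left]
            refine tsum_congr fun Q' => ?_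
            ring
        _ ≤ _ := mul_le_mul' tx2 ty2
    refine le_trans ?_ (add_le_add le_rfl e3)
    simp only [WF]
    rw [← ENNReal.tsum_add, ← ENNReal.tsum_add]
    refine ENNReal.tsum_le_tsum fun Q => ?_
    rw [← mul_add, ← mul_add, ← ENNReal.tsum_add, ← ENNReal.tsum_add]
    refine mul_le_mul_right (ENNReal.tsum_le_tsum fun Q' => ?_) _
    rw [← mul_add, ← mul_add]
    refine mul_le_mul_right ?_ _
    by_cases q1 : Dp zX Q ∈ EX (HT hX Q)
    · rw [ind_pos q1, add_assoc]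
      exact le_add_right le_rfl
    · by_cases q2 : Dp zY Q' ∈ EY (HT hY Q')
      · rw [ind_pos q2, add_assoc]
        exact le_add_left (le_add_right le_rfl)
      · rw [ind_pos (p := ¬ Dp zX Q ∈ EX (HT hX Q)) q1,
          ind_pos (p := ¬ Dp zY Q' ∈ EY (HT hY Q')) q2]
        refine le_add_left ?_
        rw [mul_one, mul_one]
        exact ind_le _
  have stepF : TM ≤ (∑' P, wt ΛX hX b i0 P * ∑' P', wt ΛY hY (b + i0) i0 P' *
      WF ΛX ΛY hX hY zX zY sX sY (3 * t) (3 * t + i0) i0 (HT hX P) (HT hY P') lo hi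
      (fun Q _ => ind (Dp zX Q ∈ EX (HT hX Q))) (w + Dp zY P' - Dp zX P))
      + (∑' P, wt ΛX hX b i0 P * ∑' P', wt ΛY hY (b + i0) i0 P' *
      WF ΛX ΛY hX hY zX zY sX sY (3 * t) (3 * t + i0) i0 (HT hX P) (HT hY P') lo hi
      (fun _ Q' => ind (Dp zY Q' ∈ EY (HT hY Q'))) (w + Dp zY P' - Dp zX P)) + u * u := by
    rw [hTM]
    calc _ ≤ ∑' P, wt ΛX hX b i0 P * (u * u + ∑' P', wt ΛY hY (b + i0) i0 P' *
          (WF ΛX ΛY hX hY zX zY sX sY (3 * t) (3 * t + i0) i0 (HT hX P) (HT hY P') lo hi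
            (fun Q _ => ind (Dp zX Q ∈ EX (HT hX Q))) (w + Dp zY P' - Dp zX P) +
          WF ΛX ΛY hX hY zX zY sX sY (3 * t) (3 * t + i0) i0 (HT hX P) (HT hY P') lo hi
            (fun _ Q' => ind (Dp zY Q' ∈ EY (HT hY Q'))) (w + Dp zY P' - Dp zX P))) := by
          refine ENNReal.tsum_le_tsum fun P => mul_le_mul_right ?_ _
          refine le_trans (ENNReal.tsum_le_tsum fun P' => mul_le_mul_right
            ((stepE _ _ _).trans (le_of_eq (add_comm _ _))) _) ?_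
          exact wsum_add _ _ _ (wt_sum ΛY hY h1Y hΛY _ _)
      _ ≤ u * u + ∑' P, wt ΛX hX b i0 P * ∑' P', wt ΛY hY (b + i0) i0 P' *
          (WF ΛX ΛY hX hY zX zY sX sY (3 * t) (3 * t + i0) i0 (HT hX P) (HT hY P') lo hi
            (fun Q _ => ind (Dp zX Q ∈ EX (HT hX Q))) (w + Dp zY P' - Dp zX P) +
          WF ΛX ΛY hX hY zX zY sX sY (3 * t) (3 * t + i0) i0 (HT hX P) (HT hY P') lo hi
            (fun _ Q' => ind (Dp zY Q' ∈ EY (HT hY Q'))) (w + Dp zY P' - Dp zX P)) :=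
          wsum_add _ _ _ (wt_sum ΛX hX h1X hΛX _ _)
      _ = _ := by
          rw [add_comm]
          congr 1
          simp_rw [mul_add, ENNReal.tsum_add, mul_add, ENNReal.tsum_add]
  refine stepF.trans (add_le_add ?_ le_rfl)
  -- sums over the tie laws
  have stepG : ∀ g : List BX → List BY → ℝ≥0∞, (∑' P, wt ΛX hX b i0 P *
      ∑' P', wt ΛY hY (b + i0) i0 P' *
      WF ΛX ΛY hX hY zX zY sX sY (3 * t) (3 * t + i0) i0 (HT hX P) (HT hY P') lo hi
      g (w + Dp zY P' - Dp zX P))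
      = ∑' y : ℕ × G, V ΛX hX zX b y * (if y.1 ≤ b + i0 then
          ∑' y' : ℕ × G, V ΛY hY zY (b + i0) y' * (if y'.1 ≤ b + i0 + i0 then
          WF ΛX ΛY hX hY zX zY sX sY (3 * t) (3 * t + i0) i0 y.1 y'.1 lo hi g
            (w + y'.2 - y.2) else 0) else 0) := by
    intro g
    rw [← wt_fiber ΛX hX zX b i0 (fun y => ∑' y' : ℕ × G, V ΛY hY zY (b + i0) y' *
      (if y'.1 ≤ b + i0 + i0 then
          WF ΛX ΛY hX hY zX zY sX sY (3 * t) (3 * t + i0) i0 y.1 y'.1 lo hi g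
            (w + y'.2 - y.2) else 0))]
    refine tsum_congr fun P => ?_
    beta_reduce
    congr 1
    exact wt_fiber ΛY hY zY (b + i0) i0 (fun y' =>
      WF ΛX ΛY hX hY zX zY sX sY (3 * t) (3 * t + i0) i0 (HT hX P) y'.1 lo hi g
            (w + y'.2 - Dp zX P))
  have hKle : ∀ g : List BX → List BY → ℝ≥0∞, (∀ Q Q', g Q Q' ≤ 1) → ∀ a x (y' : ℕ × G),
      (if y'.1 ≤ b + i0 + i0 then WF ΛX ΛY hX hY zX zY sX sY (3 * t) (3 * t + i0) i0 a y'.1
        lo hi g x else 0) ≤ 1 := by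
    intro g hg a x y'
    split_ifs
    · exact WF_le_one ΛX ΛY hX hY zX zY sX sY h1X h1Y hΛX hΛY _ _ _ _ _ _ _ g hg x
    · exact zero_le
  have hMne : ∀ th : ℝ≥0∞, th ≠ 0 → (J : ℝ≥0∞) * ((i0 + 1 : ℕ) * (2 * th)) ≠ 0 := by
    intro th h0
    refine mul_ne_zero (by exact_mod_cast hJ1) (mul_ne_zero (by exact_mod_cast Nat.succ_ne_zero i0)
      (mul_ne_zero (by norm_num) h0))
  have hMtop : ∀ th : ℝ≥0∞, th ≤ 1 → (J : ℝ≥0∞) * ((i0 + 1 : ℕ) * (2 * th)) ≠ ⊤ := by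
    intro th h0
    refine ENNReal.mul_ne_top (ENNReal.natCast_ne_top _) (ENNReal.mul_ne_top
      (ENNReal.natCast_ne_top _) (ENNReal.mul_ne_top (by norm_num)
      (ne_top_of_le_ne_top ENNReal.one_ne_top h0)))
  have hMc : ∀ (th c : ℝ≥0∞), c * th ≤ 1 → (J : ℝ≥0∞) * ((i0 + 1 : ℕ) * (2 * th)) * c
      ≤ J * ((i0 + 1 : ℕ) * 2) := by
    intro th c hc
    calc _ = J * ((i0 + 1 : ℕ) * 2) * (c * th) := by ring
      _ ≤ J * ((i0 + 1 : ℕ) * 2) * 1 := mul_le_mul_right hc _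
      _ = _ := mul_one _
  have hVX := V_snd ΛX hX zX h1X hΛX b
  have hVY := V_snd ΛY hY zY h1Y hΛY (b + i0)
  refine add_le_add ?_ ?_
  · -- X local
    rw [stepG]
    calc _ ≤ ∑' y : ℕ × G, (fX y + BX' y) * (if y.1 ≤ b + i0 then
          ∑' y' : ℕ × G, V ΛY hY zY (b + i0) y' * (if y'.1 ≤ b + i0 + i0 then
          WF ΛX ΛY hX hY zX zY sX sY (3 * t) (3 * t + i0) i0 y.1 y'.1 lo hi
            (fun Q _ => ind (Dp zX Q ∈ EX (HT hX Q))) (w + y'.2 - y.2) else 0) else 0) :=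
          ENNReal.tsum_le_tsum fun y => mul_le_mul_left (gx1 y) _
      _ ≤ kap2 C lam (us s) J i0 + ∑' y, BX' y * 1 := by
          simp_rw [add_mul]
          rw [ENNReal.tsum_add]
          refine add_le_add ?_ (ENNReal.tsum_le_tsum fun y => mul_le_mul_right ?_ _)
          · refine tie b (b + i0) i0 fX (V ΛY hY zY (b + i0)) w
              (J * ((i0 + 1 : ℕ) * (2 * thX))) (kap C lam (us s) (J * ((i0 + 1 : ℕ) * 2)) i0)
              (fun y hy => le_antisymm ((gx2 y).trans (V_zero ΛX hX zX hy).le) zero_le)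
              (fun y hy => V_zero ΛY hY zY hy)
              (fun a => le_trans (ENNReal.tsum_le_tsum fun x => gx2 _) (hVX a)) hVY (Or.inl gx3)
              (fun a a' => WF ΛX ΛY hX hY zX zY sX sY (3 * t) (3 * t + i0) i0 a a' lo hi
                (fun Q _ => ind (Dp zX Q ∈ EX (HT hX Q)))) ?_
            intro a a' ha1 ha2 ha3 ha4 μ hμ1 hμ2
            exact local_X ΛX ΛY hX hY zX zY sX sY C us hH2 s (3 * t) (3 * t + i0) i0 a a' lo hi
              EX μ _ _ lam hμ1 hμ2 (hMne _ tx0) (hMtop _ tx1)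
              (fun h => hMc thX _ (EE_spec ΛX hX zX h1X hΛX (3 * t) tx0 h).2) hl0 hlt (by omega)
              (by omega) (by omega) (by omega) (by omega) (by omega)
          · split_ifs
            · exact wsum_le _ _ 1 (V_sum ΛY hY zY h1Y hΛY _).le
                (fun y' => hKle _ (fun _ _ => ind_le _) _ _ y')
            · exact zero_le
      _ ≤ _ := by
          simp only [mul_one]
          exact add_le_add le_rfl gx4
  · -- Y local
    rw [stepG]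
    calc _ ≤ ∑' y : ℕ × G, V ΛX hX zX b y * ((∑' y', BY' y') + (if y.1 ≤ b + i0 then
          ∑' y' : ℕ × G, fY y' * (if y'.1 ≤ b + i0 + i0 then
          WF ΛX ΛY hX hY zX zY sX sY (3 * t) (3 * t + i0) i0 y.1 y'.1 lo hi
            (fun _ Q' => ind (Dp zY Q' ∈ EY (HT hY Q'))) (w + y'.2 - y.2) else 0) else 0)) := by
          refine ENNReal.tsum_le_tsum fun y => mul_le_mul_right ?_ _
          by_cases hy : y.1 ≤ b + i0
          · rw [if_pos hy, if_pos hy, ← ENNReal.tsum_add]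
            refine ENNReal.tsum_le_tsum fun y' => ?_
            refine (mul_le_mul_left (gy1 y') _).trans ?_
            rw [add_mul, add_comm]
            refine add_le_add ?_ le_rfl
            calc _ ≤ BY' y' * 1 := mul_le_mul_right (hKle _ (fun _ _ => ind_le _) _ _ y') _
              _ = _ := mul_one _
          · rw [if_neg hy]; exact zero_le
      _ ≤ (∑' y', BY' y') + _ := wsum_add _ _ _ (V_sum ΛX hX zX h1X hΛX b).le
      _ ≤ ((1 - u) ^ J + J * ov ΛY hY i0) + kap2 C lam (us s) J i0 := by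
          refine add_le_add gy4 ?_
          refine tie b (b + i0) i0 (V ΛX hX zX b) fY w
            (J * ((i0 + 1 : ℕ) * (2 * thY))) (kap C lam (us s) (J * ((i0 + 1 : ℕ) * 2)) i0)
            (fun y hy => V_zero ΛX hX zX hy)
            (fun y hy => le_antisymm ((gy2 y).trans (V_zero ΛY hY zY hy).le) zero_le)
            hVX (fun a => le_trans (ENNReal.tsum_le_tsum fun x => gy2 _) (hVY a)) (Or.inr gy3)
            (fun a a' => WF ΛX ΛY hX hY zX zY sX sY (3 * t) (3 * t + i0) i0 a a' lo hi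
              (fun _ Q' => ind (Dp zY Q' ∈ EY (HT hY Q')))) ?_
          intro a a' ha1 ha2 ha3 ha4 μ hμ1 hμ2
          exact local_Y ΛX ΛY hX hY zX zY sX sY C us hH3 s (3 * t) (3 * t + i0) i0 a a' lo hi
            EY μ _ _ lam hμ1 hμ2 (hMne _ ty0) (hMtop _ ty1)
            (fun h => hMc thY _ (EE_spec ΛY hY zY h1Y hΛY (3 * t + i0) ty0 h).2) hl0 hlt (by omega)
            (by omega) (by omega) (by omega) (by omega) (by omega)
      _ = _ := add_comm _ _

end Crest.Agent.R154.Asm457
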