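import Crest.Agent.R154.AsmA_380
import Crest.Agent.R154.AsmA_519
import Crest.Agent.R154.Num_337

/-! Row 154, ROAD 801 (helper666): staggered assembly, single walker lists. -/

set_option autoImplicit false

namespace Crest.Agent.R154.AsmS666

open scoped ENNReal
open Crest.Agent.R154.B5A Crest.Agent.R154.FP178
open Crest.Agent.R154.Asm519 (Dz pl)
open Crest.Agent.R154.Asm380 (q)

section tools

lemma swap {α β : Type*} (a : α → ℝ≥0∞) (b : β → ℝ≥0∞) (f : α → β → ℝ≥0∞) :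
    ∑' i, a i * ∑' j, b j * f i j = ∑' j, b j * ∑' i, a i * f i j := by
  simp_rw [← ENNReal.tsum_mul_left]
  rw [ENNReal.tsum_comm]
  refine tsum_congr fun j => tsum_congr fun i => ?_
  ring

lemma op_mono {α : Type*} (a : α → ℝ≥0∞) {f g : α → ℝ≥0∞} (h : ∀ i, f i ≤ g i) :
    ∑' i, a i * f i ≤ ∑' i, a i * g i :=
  ENNReal.tsum_le_tsum fun i => mul_le_mul_right (h i) _

lemma op_le {α : Type*} {a : α → ℝ≥0∞} (ha : ∑' i, a i ≤ 1) {f : α → ℝ≥0∞} {c : ℝ≥0∞}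
    (h : ∀ i, f i ≤ c) : ∑' i, a i * f i ≤ c := by
  refine (op_mono a h).trans ?_
  rw [ENNReal.tsum_mul_right]
  calc _ ≤ 1 * c := mul_le_mul_left ha _
    _ = c := one_mul c

lemma op_add {α : Type*} (a : α → ℝ≥0∞) (f g : α → ℝ≥0∞) :
    ∑' i, a i * (f i + g i) = ∑' i, a i * f i + ∑' i, a i * g i := by
  rw [← ENNReal.tsum_add]
  exact tsum_congr fun i => mul_add _ _ _

lemma tsum_fin {α : Type*} (n : ℕ) (f : ℕ → α → ℝ≥0∞) :
    ∑' x, ∑ i ∈ Finset.range n, f i x = ∑ i ∈ Finset.range n, ∑' x, f i x :=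
  Summable.tsum_finsetSum fun _ _ => ENNReal.summable

end tools

section one

variable {B G : Type*} [AddCommGroup G] (Λ : B → ℝ≥0∞) (ht : B → ℕ) (z : B → G)

lemma qs (h1 : ∀ b, 1 ≤ ht b) (hΛ : ∑' b, Λ b = 1) (a : ℕ) : ∑' L, q Λ ht a L ≤ 1 :=
  (Asm380.q_sum Λ ht h1 hΛ a).le

/-- non local pieces -/
def nl (T : ℕ) (th : ℝ≥0∞) (P : List B) : Prop := pl Λ ht z T (HT ht P, Dz z P) < th

open Classical in
lemma nl_mass (T : ℕ) (th u : ℝ≥0∞)
    (hu : ∑' x, (if pl Λ ht z T x < th then pl Λ ht z T x else 0) ≤ u) :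
    ∑' P, q Λ ht T P * (if nl Λ ht z T th P then 1 else 0) ≤ u := by
  have := Asm519.regroup Λ ht z T (fun x => if pl Λ ht z T x < th then 1 else 0)
  refine le_trans (le_of_eq ?_) hu
  rw [show (∑' x, (if pl Λ ht z T x < th then pl Λ ht z T x else 0))
      = ∑' x, pl Λ ht z T x * (if pl Λ ht z T x < th then 1 else 0) from
      tsum_congr fun x => by split_ifs <;> simp, ← this]
  refine tsum_congr fun P => ?_
  rw [q]
  by_cases h : fp ht T P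
  · rw [if_pos h, if_pos h]
    exact congrArg _ (if_congr Iff.rfl rfl rfl)
  · rw [if_neg h, if_neg h, zero_mul]

open Classical in
/-- the finite set of local displacements at height `h` -/
lemma exists_E (h1 : ∀ b, 1 ≤ ht b) (hΛ : ∑' b, Λ b = 1) (T : ℕ) (th : ℝ≥0∞) (hth : th ≠ 0) :
    ∃ E : ℕ → Finset G, (∀ h x, x ∈ E h ↔ th ≤ pl Λ ht z T (h, x)) ∧
      ∀ h, th * ((E h).card : ℝ≥0∞) ≤ 1 := by
  have hp : ∑' x, pl Λ ht z T x = 1 := Asm519.pl_sum Λ ht z h1 hΛ T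
  have hh : ∀ h, ∑' x : G, pl Λ ht z T (h, x) ≤ 1 := by
    intro h
    rw [← hp]
    exact ENNReal.tsum_comp_le_tsum_of_injective (f := fun x : G => (h, x))
      (fun x y hxy => (Prod.ext_iff.1 hxy).2) (pl Λ ht z T)
  have hfin : ∀ h, {x : G | th ≤ pl Λ ht z T (h, x)}.Finite := fun h =>
    Dens903.finite_level (fun x => pl Λ ht z T (h, x)) (ne_top_of_le_ne_top ENNReal.one_ne_top (hh h)) hth
  refine ⟨fun h => (hfin h).toFinset, fun h x => by simp, fun h => ?_⟩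
  have h2 := (Dens903.card_le (fun x => pl Λ ht z T (h, x)) th).trans (hh h)
  refine le_trans (mul_le_mul_right ?_ _) h2
  rw [← ENNReal.sum_add_tsum_compl (hfin h).toFinset (fun a => if th ≤ pl Λ ht z T (h, a) then (1:ℝ≥0∞) else 0)]
  refine le_trans (le_of_eq ?_) le_self_add
  rw [Finset.sum_congr rfl (g := fun _ => (1 : ℝ≥0∞))]
  · simp
  · intro x hx
    rw [if_pos (by simpa using hx)]

end one

section two

variable {BX BY G : Type*} [AddCommGroup G]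
  (ΛX : BX → ℝ≥0∞) (ΛY : BY → ℝ≥0∞) (hX : BX → ℕ) (hY : BY → ℕ) (zX : BX → G) (zY : BY → G)
  (TX : List BX → G → ℕ → Set (G × ℕ)) (TY : List BY → G → ℕ → Set (G × ℕ))

/-- trace axioms -/
structure Tr {B : Type*} (ht : B → ℕ) (z : B → G) (TX : List B → G → ℕ → Set (G × ℕ)) : Prop where
  app : ∀ L L' x a, TX (L ++ L') x a = TX L x a ∪ TX L' (x + Dz z L) (a + HT ht L)
  dep : ∀ L x a g k, (g, k) ∈ TX L x a → a < k ∧ k ≤ a + HT ht L
  shift : ∀ L x y a g k, (g, k) ∈ TX L (x + y) a ↔ (g - y, k) ∈ TX L x a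

/-- contact of two pieces, all contacts with depth in `[lo, hi]` -/
def Ev (lo hi : ℕ) (P : List BX) (x : G) (a : ℕ) (P' : List BY) (y : G) (a' : ℕ) : Prop :=
  (∃ g k, (g, k) ∈ TX P x a ∧ (g, k) ∈ TY P' y a') ∧
    ∀ g k, (g, k) ∈ TX P x a → (g, k) ∈ TY P' y a' → lo ≤ k ∧ k ≤ hi

variable {hX hY zX zY TX TY} in
lemma ev_shift (hTX : Tr hX zX TX) (hTY : Tr hY zY TY) (lo hi : ℕ) (P : List BX) (x : G) (a : ℕ)
    (P' : List BY) (y : G) (a' : ℕ) :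
    Ev TX TY lo hi P x a P' y a' ↔ Ev TX TY lo hi P 0 a P' (y - x) a' := by
  have e1 : ∀ g k, (g, k) ∈ TX P x a ↔ (g - x, k) ∈ TX P 0 a := fun g k => by
    rw [← hTX.shift, zero_add]
  have e2 : ∀ g k, (g, k) ∈ TY P' y a' ↔ (g - x, k) ∈ TY P' (y - x) a' := fun g k => by
    rw [← hTY.shift, sub_add_cancel]
  unfold Ev
  constructor
  · rintro ⟨⟨g, k, h1, h2⟩, h3⟩
    refine ⟨⟨g - x, k, (e1 g k).1 h1, (e2 g k).1 h2⟩, fun g k h4 h5 => h3 (g + x) k ?_ ?_⟩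
    · rw [e1, add_sub_cancel_right]; exact h4
    · rw [e2, add_sub_cancel_right]; exact h5
  · rintro ⟨⟨g, k, h1, h2⟩, h3⟩
    refine ⟨⟨g + x, k, ?_, ?_⟩, fun g k h4 h5 => h3 (g - x) k ((e1 g k).1 h4) ((e2 g k).1 h5)⟩
    · rw [e1, add_sub_cancel_right]; exact h1
    · rw [e2, add_sub_cancel_right]; exact h2

open Classical in
/-- `X` local -/
def H2 (C : ℝ≥0∞) (us : ℕ → ℝ≥0∞) : Prop :=
  ∀ (s h h' a a' lo : ℕ) (E : Finset G) (μ : G → ℝ≥0∞) (M lam : ℝ≥0∞), ∑' x, μ x ≤ 1 →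
    (∀ x, μ x ≤ M) → M ≠ ⊤ → lam ≠ 0 → lam ≠ ⊤ → a ≤ a' → a + h ≤ a' + h' →
    a + s ≤ lo → a' + s ≤ lo →
    ∑' x, μ x * ∑' L : List BX, ∑' L' : List BY,
      (if HT hX L = h ∧ Dz zX L ∈ E ∧ HT hY L' = h' ∧
          (∃ g k, (g, k) ∈ TX L 0 a ∧ (g, k) ∈ TY L' x a') ∧
          (∀ g k, (g, k) ∈ TX L 0 a → (g, k) ∈ TY L' x a' → lo ≤ k) then LW ΛX L * LW ΛY L' else 0)
      ≤ C * (lam + M * E.card * us s / lam + us s)

open Classical in
/-- `Y` local -/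
def H3 (C : ℝ≥0∞) (us : ℕ → ℝ≥0∞) : Prop :=
  ∀ (s h h' a a' hi : ℕ) (E : Finset G) (μ : G → ℝ≥0∞) (M lam : ℝ≥0∞), ∑' x, μ x ≤ 1 →
    (∀ x, μ x ≤ M) → M ≠ ⊤ → lam ≠ 0 → lam ≠ ⊤ → a ≤ a' → a + h ≤ a' + h' →
    hi + s ≤ a + h → hi + s ≤ a' + h' →
    ∑' x, μ x * ∑' L : List BX, ∑' L' : List BY,
      (if HT hX L = h ∧ HT hY L' = h' ∧ Dz zY L' ∈ E ∧
          (∃ g k, (g, k) ∈ TX L 0 a ∧ (g, k) ∈ TY L' x a') ∧
          (∀ g k, (g, k) ∈ TX L 0 a → (g, k) ∈ TY L' x a' → k ≤ hi) then LW ΛX L * LW ΛY L' else 0)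
      ≤ C * (lam + M * E.card * us s / lam + us s)

open Classical in
/-- the inner sum of `X` local pieces -/
lemma inner2 {C : ℝ≥0∞} {us : ℕ → ℝ≥0∞} (hH : H2 ΛX ΛY hX hY zX TX TY C us)
    (hTX : Tr hX zX TX) (hTY : Tr hY zY TY)
    (h1X : ∀ b, 1 ≤ hX b) (hΛX : ∑' b, ΛX b = 1)
    (T T' i0 s lo hi a a' : ℕ) (th lam : ℝ≥0∞) (hth : th ≠ 0) (hth1 : th ≤ 1) (hl : lam ≠ 0)
    (hl' : lam ≠ ⊤) (haa : a ≤ a') (hT : a + T + i0 ≤ a' + T') (hlo : a + s ≤ lo)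
    (hlo' : a' + s ≤ lo) (y : G) (ν : G → ℝ≥0∞) (hν : ∑' z, ν z ≤ 1) (hνth : ∀ z, ν z ≤ th) :
    ∑' z, ν z * ∑' P, q ΛX hX T P * ∑' P', q ΛY hY T' P' *
      (if ¬ nl ΛX hX zX T th P ∧ HT hX P ≤ T + i0 ∧ HT hY P' ≤ T' + i0 ∧
        Ev TX TY lo hi P z a P' y a' then 1 else 0)
      ≤ (i0 + 1 : ℕ) * ((i0 + 1 : ℕ) * (C * (lam + us s / lam + us s))) := by
  obtain ⟨E, hE, hEc⟩ := exists_E ΛX hX zX h1X hΛX T th hth
  set K : ℕ → ℕ → G → ℝ≥0∞ := fun i j x => ∑' P : List BX, ∑' P' : List BY,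
    (if HT hX P = T + i ∧ Dz zX P ∈ E (T + i) ∧ HT hY P' = T' + j ∧
          (∃ g k, (g, k) ∈ TX P 0 a ∧ (g, k) ∈ TY P' x a') ∧
          (∀ g k, (g, k) ∈ TX P 0 a → (g, k) ∈ TY P' x a' → lo ≤ k) then LW ΛX P * LW ΛY P' else 0)
    with hK
  have hKb : ∀ i j, ∀ μ : G → ℝ≥0∞, ∑' z, μ z ≤ 1 → (∀ z, μ z ≤ th) → i ≤ i0 →
      ∑' x, μ x * K i j x ≤ C * (lam + us s / lam + us s) := by
    intro i j μ hμ hμth hi0
    refine (hH s (T + i) (T' + j) a a' lo (E (T + i)) μ th lam hμ hμth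
      (ne_top_of_le_ne_top ENNReal.one_ne_top hth1) hl hl' haa (by omega) hlo hlo').trans ?_
    gcongr
    calc th * ((E (T + i)).card : ℝ≥0∞) * us s ≤ 1 * us s := mul_le_mul_left (hEc _) _
      _ = us s := one_mul _
  have hpt : ∀ z, ∑' P, q ΛX hX T P * ∑' P', q ΛY hY T' P' *
      (if ¬ nl ΛX hX zX T th P ∧ HT hX P ≤ T + i0 ∧ HT hY P' ≤ T' + i0 ∧
        Ev TX TY lo hi P z a P' y a' then 1 else 0)
      ≤ ∑ i ∈ Finset.range (i0 + 1), ∑ j ∈ Finset.range (i0 + 1), K i j (y - z) := by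
    intro z
    have e : ∑ i ∈ Finset.range (i0 + 1), ∑ j ∈ Finset.range (i0 + 1), K i j (y - z)
        = ∑' P : List BX, ∑' P' : List BY, ∑ i ∈ Finset.range (i0 + 1), ∑ j ∈ Finset.range (i0 + 1),
          (if HT hX P = T + i ∧ Dz zX P ∈ E (T + i) ∧ HT hY P' = T' + j ∧
          (∃ g k, (g, k) ∈ TX P 0 a ∧ (g, k) ∈ TY P' (y - z) a') ∧
          (∀ g k, (g, k) ∈ TX P 0 a → (g, k) ∈ TY P' (y - z) a' → lo ≤ k) then LW ΛX P * LW ΛY P' else 0) := by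
      simp only [hK, tsum_fin]
    rw [e]
    refine ENNReal.tsum_le_tsum fun P => ?_
    rw [← ENNReal.tsum_mul_left]
    refine ENNReal.tsum_le_tsum fun P' => ?_
    by_cases h : fp hX T P ∧ fp hY T' P' ∧ ¬ nl ΛX hX zX T th P ∧ HT hX P ≤ T + i0 ∧
        HT hY P' ≤ T' + i0 ∧ Ev TX TY lo hi P z a P' y a'
    · obtain ⟨h1, h2, h3, h4, h5, h6⟩ := h
      have h7 := (ev_shift hTX hTY lo hi P z a P' y a').1 h6
      have g1 := le_HT_of_fp hX h1
      have g2 := le_HT_of_fp hY h2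
      rw [q, if_pos h1, q, if_pos h2, if_pos ⟨h3, h4, h5, h6⟩, mul_one]
      refine le_trans ?_ (Finset.single_le_sum (fun _ _ => zero_le)
        (Finset.mem_range.2 (show HT hX P - T < i0 + 1 by omega)))
      refine le_trans ?_ (Finset.single_le_sum (fun _ _ => zero_le)
        (Finset.mem_range.2 (show HT hY P' - T' < i0 + 1 by omega)))
      rw [if_pos]
      refine ⟨by omega, ?_, by omega, h7.1, fun g k hg hk => (h7.2 g k hg hk).1⟩
      rw [hE, show T + (HT hX P - T) = HT hX P by omega]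
      exact not_lt.1 h3
    · refine le_trans (le_of_eq ?_) zero_le
      rw [q, q]
      by_cases h1 : fp hX T P
      · by_cases h2 : fp hY T' P'
        · rw [if_neg (fun h3 => h ⟨h1, h2, h3⟩)]; simp
        · rw [if_neg h2]; simp
      · rw [if_neg h1]; simp
  calc _ ≤ ∑' z, ν z * ∑ i ∈ Finset.range (i0 + 1), ∑ j ∈ Finset.range (i0 + 1), K i j (y - z) :=
        op_mono ν hpt
    _ = ∑ i ∈ Finset.range (i0 + 1), ∑ j ∈ Finset.range (i0 + 1), ∑' z, ν z * K i j (y - z) := by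
        simp only [Finset.mul_sum, tsum_fin]
    _ ≤ ∑ i ∈ Finset.range (i0 + 1), ∑ j ∈ Finset.range (i0 + 1), C * (lam + us s / lam + us s) := by
        refine Finset.sum_le_sum fun i hi' => Finset.sum_le_sum fun j _ => ?_
        have e : ∑' z, ν z * K i j (y - z) = ∑' x, ν (y - x) * K i j x := by
          rw [← (Equiv.subLeft y).tsum_eq (fun x => ν (y - x) * K i j x)]
          refine tsum_congr fun z => ?_
          simp
        rw [e]
        refine hKb i j (fun x => ν (y - x)) ?_ (fun x => hνth _)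
          (by have := Finset.mem_range.1 hi'; omega)
        exact ((Equiv.subLeft y).tsum_eq ν).le.trans hν
    _ = _ := by
        rw [Finset.sum_const, Finset.sum_const, Finset.card_range, nsmul_eq_mul, nsmul_eq_mul]

open Classical in
/-- the inner sum of `Y` local pieces -/
lemma inner3 {C : ℝ≥0∞} {us : ℕ → ℝ≥0∞} (hH : H3 ΛX ΛY hX hY zY TX TY C us)
    (hTX : Tr hX zX TX) (hTY : Tr hY zY TY)
    (h1Y : ∀ b, 1 ≤ hY b) (hΛY : ∑' b, ΛY b = 1)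
    (T T' i0 s lo hi a a' : ℕ) (th lam : ℝ≥0∞) (hth : th ≠ 0) (hth1 : th ≤ 1) (hl : lam ≠ 0)
    (hl' : lam ≠ ⊤) (haa : a ≤ a') (hT : a + T + i0 ≤ a' + T') (hhi : hi + s ≤ a + T)
    (hhi' : hi + s ≤ a' + T') (x : G) (ν : G → ℝ≥0∞) (hν : ∑' z, ν z ≤ 1) (hνth : ∀ z, ν z ≤ th)
    (w : G) :
    ∑' z', ν z' * ∑' P, q ΛX hX T P * ∑' P', q ΛY hY T' P' *
      (if ¬ nl ΛY hY zY T' th P' ∧ HT hX P ≤ T + i0 ∧ HT hY P' ≤ T' + i0 ∧
        Ev TX TY lo hi P x a P' (w + z') a' then 1 else 0)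
      ≤ (i0 + 1 : ℕ) * ((i0 + 1 : ℕ) * (C * (lam + us s / lam + us s))) := by
  obtain ⟨E, hE, hEc⟩ := exists_E ΛY hY zY h1Y hΛY T' th hth
  set K : ℕ → ℕ → G → ℝ≥0∞ := fun i j x => ∑' P : List BX, ∑' P' : List BY,
    (if HT hX P = T + i ∧ HT hY P' = T' + j ∧ Dz zY P' ∈ E (T' + j) ∧
          (∃ g k, (g, k) ∈ TX P 0 a ∧ (g, k) ∈ TY P' x a') ∧
          (∀ g k, (g, k) ∈ TX P 0 a → (g, k) ∈ TY P' x a' → k ≤ hi) then LW ΛX P * LW ΛY P' else 0)
    with hK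
  have hKb : ∀ i j, ∀ μ : G → ℝ≥0∞, ∑' z, μ z ≤ 1 → (∀ z, μ z ≤ th) → i ≤ i0 →
      ∑' x, μ x * K i j x ≤ C * (lam + us s / lam + us s) := by
    intro i j μ hμ hμth hi0
    refine (hH s (T + i) (T' + j) a a' hi (E (T' + j)) μ th lam hμ hμth
      (ne_top_of_le_ne_top ENNReal.one_ne_top hth1) hl hl' haa (by omega) (by omega)
      (by omega)).trans ?_
    gcongr
    calc th * ((E (T' + j)).card : ℝ≥0∞) * us s ≤ 1 * us s := mul_le_mul_left (hEc _) _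
      _ = us s := one_mul _
  have hpt : ∀ z', ∑' P, q ΛX hX T P * ∑' P', q ΛY hY T' P' *
      (if ¬ nl ΛY hY zY T' th P' ∧ HT hX P ≤ T + i0 ∧ HT hY P' ≤ T' + i0 ∧
        Ev TX TY lo hi P x a P' (w + z') a' then 1 else 0)
      ≤ ∑ i ∈ Finset.range (i0 + 1), ∑ j ∈ Finset.range (i0 + 1), K i j (w + z' - x) := by
    intro z'
    have e : ∑ i ∈ Finset.range (i0 + 1), ∑ j ∈ Finset.range (i0 + 1), K i j (w + z' - x)
        = ∑' P : List BX, ∑' P' : List BY, ∑ i ∈ Finset.range (i0 + 1), ∑ j ∈ Finset.range (i0 + 1),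
          (if HT hX P = T + i ∧ HT hY P' = T' + j ∧ Dz zY P' ∈ E (T' + j) ∧
          (∃ g k, (g, k) ∈ TX P 0 a ∧ (g, k) ∈ TY P' (w + z' - x) a') ∧
          (∀ g k, (g, k) ∈ TX P 0 a → (g, k) ∈ TY P' (w + z' - x) a' → k ≤ hi)
            then LW ΛX P * LW ΛY P' else 0) := by
      simp only [hK, tsum_fin]
    rw [e]
    refine ENNReal.tsum_le_tsum fun P => ?_
    rw [← ENNReal.tsum_mul_left]
    refine ENNReal.tsum_le_tsum fun P' => ?_
    by_cases h : fp hX T P ∧ fp hY T' P' ∧ ¬ nl ΛY hY zY T' th P' ∧ HT hX P ≤ T + i0 ∧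
        HT hY P' ≤ T' + i0 ∧ Ev TX TY lo hi P x a P' (w + z') a'
    · obtain ⟨h1, h2, h3, h4, h5, h6⟩ := h
      have h7 := (ev_shift hTX hTY lo hi P x a P' (w + z') a').1 h6
      have g1 := le_HT_of_fp hX h1
      have g2 := le_HT_of_fp hY h2
      rw [q, if_pos h1, q, if_pos h2, if_pos ⟨h3, h4, h5, h6⟩, mul_one]
      refine le_trans ?_ (Finset.single_le_sum (fun _ _ => zero_le)
        (Finset.mem_range.2 (show HT hX P - T < i0 + 1 by omega)))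
      refine le_trans ?_ (Finset.single_le_sum (fun _ _ => zero_le)
        (Finset.mem_range.2 (show HT hY P' - T' < i0 + 1 by omega)))
      rw [if_pos]
      refine ⟨by omega, by omega, ?_, h7.1, fun g k hg hk => (h7.2 g k hg hk).2⟩
      rw [hE, show T' + (HT hY P' - T') = HT hY P' by omega]
      exact not_lt.1 h3
    · refine le_trans (le_of_eq ?_) zero_le
      rw [q, q]
      by_cases h1 : fp hX T P
      · by_cases h2 : fp hY T' P'
        · rw [if_neg (fun h3 => h ⟨h1, h2, h3⟩)]; simp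
        · rw [if_neg h2]; simp
      · rw [if_neg h1]; simp
  calc _ ≤ ∑' z', ν z' * ∑ i ∈ Finset.range (i0 + 1), ∑ j ∈ Finset.range (i0 + 1),
          K i j (w + z' - x) := op_mono ν hpt
    _ = ∑ i ∈ Finset.range (i0 + 1), ∑ j ∈ Finset.range (i0 + 1), ∑' z', ν z' * K i j (w + z' - x) := by
        simp only [Finset.mul_sum, tsum_fin]
    _ ≤ ∑ i ∈ Finset.range (i0 + 1), ∑ j ∈ Finset.range (i0 + 1), C * (lam + us s / lam + us s) := by
        refine Finset.sum_le_sum fun i hi' => Finset.sum_le_sum fun j _ => ?_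
        have e : ∑' z', ν z' * K i j (w + z' - x) = ∑' y, ν (y + (x - w)) * K i j y := by
          rw [← (Equiv.addRight (w - x)).tsum_eq (fun y => ν (y + (x - w)) * K i j y)]
          refine tsum_congr fun z' => ?_
          simp only [Equiv.coe_addRight]
          rw [show z' + (w - x) + (x - w) = z' by abel, show z' + (w - x) = w + z' - x by abel]
        rw [e]
        refine hKb i j (fun y => ν (y + (x - w))) ?_ (fun x => hνth _)
          (by have := Finset.mem_range.1 hi'; omega)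
        exact ((Equiv.addRight (x - w)).tsum_eq ν).le.trans hν
    _ = _ := by
        rw [Finset.sum_const, Finset.sum_const, Finset.card_range, nsmul_eq_mul, nsmul_eq_mul]

lemma q_const {B : Type*} (Λ : B → ℝ≥0∞) (ht : B → ℕ) (h1 : ∀ b, 1 ≤ ht b) (hΛ : ∑' b, Λ b = 1)
    {a : ℕ} {F : List B → ℝ≥0∞} {c : ℝ≥0∞} (h : ∀ L, fp ht a L → F L ≤ c) :
    ∑' L, q Λ ht a L * F L ≤ c :=
  (Asm380.q_mul_le Λ ht (G := fun _ => c) h).trans (op_le (qs Λ ht h1 hΛ a) fun _ => le_rfl)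

open Classical in
/-- one window, after the cuts -/
theorem win {C : ℝ≥0∞} {us : ℕ → ℝ≥0∞} (hH2 : H2 ΛX ΛY hX hY zX TX TY C us)
    (hH3 : H3 ΛX ΛY hX hY zY TX TY C us) (hTX : Tr hX zX TX) (hTY : Tr hY zY TY)
    (h1X : ∀ b, 1 ≤ hX b) (h1Y : ∀ b, 1 ≤ hY b) (hΛX : ∑' b, ΛX b = 1) (hΛY : ∑' b, ΛY b = 1)
    (i0 J : ℕ) (e u : ℝ≥0∞)
    (heX : ∀ a, ∑' L, (if fp hX a L ∧ a + i0 < HT hX L then LW ΛX L else 0) ≤ e)
    (heY : ∀ a, ∑' L, (if fp hY a L ∧ a + i0 < HT hY L then LW ΛY L else 0) ≤ e)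
    (D T s : ℕ) (hJ : J * (T + i0 + i0) ≤ D) (hs : s ≤ T)
    (thX thY lam : ℝ≥0∞) (hthX : thX ≠ 0) (hthX1 : thX ≤ 1) (hthY : thY ≠ 0) (hthY1 : thY ≤ 1)
    (hl : lam ≠ 0) (hl' : lam ≠ ⊤)
    (huX : ∑' x, (if pl ΛX hX zX T x < thX then pl ΛX hX zX T x else 0) ≤ u)
    (huY : ∑' x, (if pl ΛY hY zY (T + i0) x < thY then pl ΛY hY zY (T + i0) x else 0) ≤ u)
    (hvX : ∑' x, (if thX < pl ΛX hX zX T x then pl ΛX hX zX T x else 0) ≤ 1 - u)
    (hvY : ∑' x, (if thY < pl ΛY hY zY (T + i0) x then pl ΛY hY zY (T + i0) x else 0) ≤ 1 - u)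
    (w : G) :
    ∑' A, q ΛX hX D A * ∑' P, q ΛX hX T P * ∑' A', q ΛY hY (D + i0) A' * ∑' P',
      q ΛY hY (T + i0) P' *
      (if (HT hX A ≤ D + i0 ∧ HT hY A' ≤ D + i0 + i0) ∧ HT hX P ≤ T + i0 ∧
        HT hY P' ≤ T + i0 + i0 ∧
        Ev TX TY (D + 2 * i0 + s + 1) (D + T - s) P (Dz zX A) (HT hX A) P' (w + Dz zY A') (HT hY A')
        then 1 else 0)
      ≤ u * u + 2 * ((1 - u) ^ J + J * e + J * ((i0 + 1) * ((i0 + 1 : ℕ) * ((i0 + 1 : ℕ) *
          (C * (lam + us s / lam + us s)))))) := by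
  set Bd : ℝ≥0∞ := (i0 + 1 : ℕ) * ((i0 + 1 : ℕ) * (C * (lam + us s / lam + us s))) with hBd
  set R : ℝ≥0∞ := (1 - u) ^ J + J * e + J * ((i0 + 1) * Bd) with hR
  set lo := D + 2 * i0 + s + 1 with hlo
  set hi := D + T - s with hhi
  have hu1 : (1 : ℝ≥0∞) - u ≤ 1 := tsub_le_self
  -- pointwise
  have hpt : ∀ A P A' P', (if (HT hX A ≤ D + i0 ∧ HT hY A' ≤ D + i0 + i0) ∧ HT hX P ≤ T + i0 ∧
        HT hY P' ≤ T + i0 + i0 ∧
        Ev TX TY lo hi P (Dz zX A) (HT hX A) P' (w + Dz zY A') (HT hY A') then (1 : ℝ≥0∞) else 0)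
      ≤ (if nl ΛX hX zX T thX P then 1 else 0) * (if nl ΛY hY zY (T + i0) thY P' then 1 else 0)
        + ((if HT hX A ≤ D + i0 ∧ HT hY A' ≤ D + i0 + i0 then 1 else 0) *
          (if ¬ nl ΛX hX zX T thX P ∧ HT hX P ≤ T + i0 ∧ HT hY P' ≤ T + i0 + i0 ∧
            Ev TX TY lo hi P (Dz zX A) (HT hX A) P' (w + Dz zY A') (HT hY A') then 1 else 0)
          + (if HT hX A ≤ D + i0 ∧ HT hY A' ≤ D + i0 + i0 then 1 else 0) *
          (if ¬ nl ΛY hY zY (T + i0) thY P' ∧ HT hX P ≤ T + i0 ∧ HT hY P' ≤ T + i0 + i0 ∧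
            Ev TX TY lo hi P (Dz zX A) (HT hX A) P' (w + Dz zY A') (HT hY A') then 1 else 0)) := by
    intro A P A' P'
    by_cases h : (HT hX A ≤ D + i0 ∧ HT hY A' ≤ D + i0 + i0) ∧ HT hX P ≤ T + i0 ∧
        HT hY P' ≤ T + i0 + i0 ∧
        Ev TX TY lo hi P (Dz zX A) (HT hX A) P' (w + Dz zY A') (HT hY A')
    · rw [if_pos h, if_pos h.1, one_mul, one_mul]
      by_cases hx : nl ΛX hX zX T thX P
      · by_cases hy : nl ΛY hY zY (T + i0) thY P'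
        · rw [if_pos hx, if_pos hy, one_mul]; exact le_self_add
        · rw [if_pos (⟨hy, h.2⟩ : ¬ nl ΛY hY zY (T + i0) thY P' ∧ _)]
          exact le_trans le_add_self le_add_self
      · rw [if_pos (⟨hx, h.2⟩ : ¬ nl ΛX hX zX T thX P ∧ _)]
        exact le_trans le_self_add le_add_self
    · rw [if_neg h]; exact zero_le
  refine (op_mono _ fun A => op_mono _ fun P => op_mono _ fun A' => op_mono _ fun P' =>
    hpt A P A' P').trans ?_
  simp only [op_add]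
  rw [two_mul]
  refine add_le_add ?_ (add_le_add ?_ ?_)
  · -- both non local
    refine op_le (qs ΛX hX h1X hΛX D) fun A => ?_
    calc ∑' P, q ΛX hX T P * ∑' A', q ΛY hY (D + i0) A' * ∑' P', q ΛY hY (T + i0) P' *
          ((if nl ΛX hX zX T thX P then 1 else 0) * (if nl ΛY hY zY (T + i0) thY P' then 1 else 0))
        ≤ ∑' P, q ΛX hX T P * ((if nl ΛX hX zX T thX P then 1 else 0) * u) := by
          refine op_mono _ fun P => op_le (qs ΛY hY h1Y hΛY (D + i0)) fun A' => ?_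
          calc _ = (if nl ΛX hX zX T thX P then 1 else 0) * ∑' P', q ΛY hY (T + i0) P' *
                (if nl ΛY hY zY (T + i0) thY P' then 1 else 0) := by
                rw [← ENNReal.tsum_mul_left]
                exact tsum_congr fun P' => by ring
            _ ≤ _ := mul_le_mul_right (nl_mass ΛY hY zY (T + i0) thY u huY) _
      _ = (∑' P, q ΛX hX T P * (if nl ΛX hX zX T thX P then 1 else 0)) * u := by
          rw [← ENNReal.tsum_mul_right]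
          exact tsum_congr fun P => by ring
      _ ≤ u * u := mul_le_mul_left (nl_mass ΛX hX zX T thX u huX) _
  · -- X local
    rw [show (∑' A, q ΛX hX D A * ∑' P, q ΛX hX T P * ∑' A', q ΛY hY (D + i0) A' * ∑' P',
        q ΛY hY (T + i0) P' * ((if HT hX A ≤ D + i0 ∧ HT hY A' ≤ D + i0 + i0 then 1 else 0) *
          (if ¬ nl ΛX hX zX T thX P ∧ HT hX P ≤ T + i0 ∧ HT hY P' ≤ T + i0 + i0 ∧
            Ev TX TY lo hi P (Dz zX A) (HT hX A) P' (w + Dz zY A') (HT hY A') then 1 else 0)))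
      = ∑' A', q ΛY hY (D + i0) A' * ∑' A, q ΛX hX D A * ∑' P, q ΛX hX T P * ∑' P',
        q ΛY hY (T + i0) P' * ((if HT hX A ≤ D + i0 ∧ HT hY A' ≤ D + i0 + i0 then 1 else 0) *
          (if ¬ nl ΛX hX zX T thX P ∧ HT hX P ≤ T + i0 ∧ HT hY P' ≤ T + i0 + i0 ∧
            Ev TX TY lo hi P (Dz zX A) (HT hX A) P' (w + Dz zY A') (HT hY A') then 1 else 0)) from
        (tsum_congr fun A => congrArg (fun t => q ΛX hX D A * t) (swap _ _ _)).trans (swap _ _ _)]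
    refine q_const ΛY hY h1Y hΛY fun A' hA' => ?_
    have hfa := le_HT_of_fp hY hA'
    by_cases hb : HT hY A' ≤ D + i0 + i0
    · set F : ℕ → G → ℝ≥0∞ := fun a z => ∑' P, q ΛX hX T P * ∑' P', q ΛY hY (T + i0) P' *
        (if ¬ nl ΛX hX zX T thX P ∧ HT hX P ≤ T + i0 ∧ HT hY P' ≤ T + i0 + i0 ∧
          Ev TX TY lo hi P z a P' (w + Dz zY A') (HT hY A') then 1 else 0) with hF
      have key := Asm519.descent ΛX hX zX h1X hΛX T i0 thX (1 - u) e Bd hu1 hvX heX J D F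
        (le_trans (Nat.mul_le_mul_left J (by omega)) hJ)
        (fun a z => op_le (qs ΛX hX h1X hΛX T) fun P => op_le (qs ΛY hY h1Y hΛY (T + i0)) fun P' => by
          split_ifs
          · exact le_rfl
          · exact zero_le)
        (fun a ha ha' ν hν hνth => by
          simp only [hF]
          exact inner2 ΛX ΛY hX hY zX zY TX TY hH2 hTX hTY h1X hΛX T (T + i0) i0 s lo hi a (HT hY A')
            thX lam hthX hthX1 hl hl' (by omega) (by omega) (by omega) (by omega) (w + Dz zY A')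
            ν hν hνth)
      refine le_trans (le_of_eq ?_) key
      refine tsum_congr fun A => ?_
      rw [q]
      by_cases hA : fp hX D A
      · rw [if_pos hA, if_pos hA]
        congr 1
        by_cases ha : HT hX A ≤ D + i0
        · rw [if_pos ha, if_pos ⟨ha, hb⟩]
          simp only [one_mul, hF]
        · rw [if_neg ha, if_neg (fun h => ha h.1)]
          simp
      · rw [if_neg hA, if_neg hA, zero_mul]
    · refine le_trans (le_of_eq ?_) zero_le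
      rw [ENNReal.tsum_eq_zero]
      intro A
      rw [if_neg (fun h => hb h.2)]
      simp
  · -- Y local
    refine q_const ΛX hX h1X hΛX fun A hA => ?_
    rw [swap]
    have hfa := le_HT_of_fp hX hA
    by_cases hb : HT hX A ≤ D + i0
    · set F : ℕ → G → ℝ≥0∞ := fun a' z' => ∑' P, q ΛX hX T P * ∑' P', q ΛY hY (T + i0) P' *
        (if ¬ nl ΛY hY zY (T + i0) thY P' ∧ HT hX P ≤ T + i0 ∧ HT hY P' ≤ T + i0 + i0 ∧
          Ev TX TY lo hi P (Dz zX A) (HT hX A) P' (w + z') a' then 1 else 0) with hF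
      have key := Asm519.descent ΛY hY zY h1Y hΛY (T + i0) i0 thY (1 - u) e Bd hu1 hvY heY J
        (D + i0) F (by omega)
        (fun a z => op_le (qs ΛX hX h1X hΛX T) fun P => op_le (qs ΛY hY h1Y hΛY (T + i0)) fun P' => by
          split_ifs
          · exact le_rfl
          · exact zero_le)
        (fun a' ha ha' ν hν hνth => by
          simp only [hF]
          exact inner3 ΛX ΛY hX hY zX zY TX TY hH3 hTX hTY h1Y hΛY T (T + i0) i0 s lo hi (HT hX A) a'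
            thY lam hthY hthY1 hl hl' (by omega) (by omega) (by omega) (by omega) (Dz zX A)
            ν hν hνth w)
      refine le_trans (le_of_eq ?_) key
      refine tsum_congr fun A' => ?_
      rw [q]
      by_cases hA' : fp hY (D + i0) A'
      · rw [if_pos hA', if_pos hA']
        congr 1
        by_cases ha : HT hY A' ≤ D + i0 + i0
        · rw [if_pos ha, if_pos ⟨hb, ha⟩]
          simp only [one_mul, hF]
        · rw [if_neg ha, if_neg (fun h => ha h.2)]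
          simp
      · rw [if_neg hA', if_neg hA', zero_mul]
    · refine le_trans (le_of_eq ?_) zero_le
      rw [ENNReal.tsum_eq_zero]
      intro A'
      rw [if_neg (fun h => hb h.1)]
      simp

variable {hX hY zX zY TX TY} in
open Classical in
/-- the two cuts -/
theorem cuts (hTX : Tr hX zX TX) (hTY : Tr hY zY TY)
    (h1X : ∀ b, 1 ≤ hX b) (h1Y : ∀ b, 1 ≤ hY b) (hΛX : ∑' b, ΛX b = 1) (hΛY : ∑' b, ΛY b = 1)
    (hUX : ∀ n, U ΛX hX n ≤ 1) (hUY : ∀ n, U ΛY hY n ≤ 1)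
    (i0 : ℕ) (e : ℝ≥0∞)
    (heX : ∀ a, ∑' L, (if fp hX a L ∧ a + i0 < HT hX L then LW ΛX L else 0) ≤ e)
    (heY : ∀ a, ∑' L, (if fp hY a L ∧ a + i0 < HT hY L then LW ΛY L else 0) ≤ e)
    (n D T s : ℕ) (hn : D + T + 3 * i0 ≤ n) (w : G) :
    ∑' L : List BX, ∑' L' : List BY, (if HT hX L = n ∧ HT hY L' = n ∧
        (∃ g k, (g, k) ∈ TX L 0 0 ∧ (g, k) ∈ TY L' w 0 ∧ D + 2 * i0 + s + 1 ≤ k ∧ k ≤ D + T - s) ∧
        (∀ g k, (g, k) ∈ TX L 0 0 → (g, k) ∈ TY L' w 0 → D ≤ k → k ≤ D + T + 2 * i0 →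
          D + 2 * i0 + s + 1 ≤ k ∧ k ≤ D + T - s) then LW ΛX L * LW ΛY L' else 0)
      ≤ ∑' A, q ΛX hX D A * ∑' P, q ΛX hX T P * ∑' A', q ΛY hY (D + i0) A' * ∑' P',
      q ΛY hY (T + i0) P' *
      (if (HT hX A ≤ D + i0 ∧ HT hY A' ≤ D + i0 + i0) ∧ HT hX P ≤ T + i0 ∧
        HT hY P' ≤ T + i0 + i0 ∧
        Ev TX TY (D + 2 * i0 + s + 1) (D + T - s) P (Dz zX A) (HT hX A) P' (w + Dz zY A') (HT hY A')
        then 1 else 0) + 2 * e + 2 * e := by
  set lo := D + 2 * i0 + s + 1 with hlo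
  set hi := D + T - s with hhi
  have heX' : ∀ a, ∑' L, q ΛX hX a L * (if a + i0 < HT hX L then 1 else 0) ≤ e := by
    intro a
    refine le_trans (le_of_eq (tsum_congr fun L => ?_)) (heX a)
    rw [q]
    by_cases h : fp hX a L <;> by_cases h2 : a + i0 < HT hX L <;> simp [h, h2]
  have heY' : ∀ a, ∑' L, q ΛY hY a L * (if a + i0 < HT hY L then 1 else 0) ≤ e := by
    intro a
    refine le_trans (le_of_eq (tsum_congr fun L => ?_)) (heY a)
    rw [q]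
    by_cases h : fp hY a L <;> by_cases h2 : a + i0 < HT hY L <;> simp [h, h2]
  -- events
  set G0 : List BX → List BY → Prop := fun L L' =>
    (∃ g k, (g, k) ∈ TX L 0 0 ∧ (g, k) ∈ TY L' w 0 ∧ lo ≤ k ∧ k ≤ hi) ∧
        (∀ g k, (g, k) ∈ TX L 0 0 → (g, k) ∈ TY L' w 0 → D ≤ k → k ≤ D + T + 2 * i0 →
          lo ≤ k ∧ k ≤ hi) with hG0
  set G1 : List BX → List BX → List BY → Prop := fun A P L' =>
    (∃ g k, (g, k) ∈ TX P (Dz zX A) (HT hX A) ∧ (g, k) ∈ TY L' w 0 ∧ lo ≤ k ∧ k ≤ hi) ∧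
        (∀ g k, (g, k) ∈ TX P (Dz zX A) (HT hX A) → (g, k) ∈ TY L' w 0 → lo ≤ k ∧ k ≤ hi) with hG1
  have h01 : ∀ A P R L', fp hX D A → HT hX A ≤ D + i0 → fp hX T P → HT hX P ≤ T + i0 →
      G0 (A ++ (P ++ R)) L' → G1 A P L' := by
    rintro A P R L' hA hA' hP hP' ⟨⟨g, k, h1, h2, h3, h4⟩, h5⟩
    have a1 := le_HT_of_fp hX hA
    have a2 := le_HT_of_fp hX hP
    refine ⟨⟨g, k, ?_, h2, h3, h4⟩, fun g k h6 h7 => ?_⟩
    · rw [hTX.app, hTX.app, zero_add, zero_add] at h1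
      rcases h1 with h1 | h1 | h1
      · have := hTX.dep _ _ _ _ _ h1; omega
      · exact h1
      · have := hTX.dep _ _ _ _ _ h1; omega
    · have := hTX.dep _ _ _ _ _ h6
      refine h5 g k ?_ h7 (by omega) (by omega)
      rw [hTX.app, hTX.app, zero_add, zero_add]
      exact Or.inr (Or.inl h6)
  have h12 : ∀ A P A' P' R', fp hY (D + i0) A' → HT hY A' ≤ D + i0 + i0 → fp hY (T + i0) P' →
      G1 A P (A' ++ (P' ++ R')) → Ev TX TY lo hi P (Dz zX A) (HT hX A) P' (w + Dz zY A') (HT hY A') := by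
    rintro A P A' P' R' hA hA' hP ⟨⟨g, k, h1, h2, h3, h4⟩, h5⟩
    have a1 := le_HT_of_fp hY hA
    have a2 := le_HT_of_fp hY hP
    refine ⟨⟨g, k, h1, ?_⟩, fun g k h6 h7 => ?_⟩
    · rw [hTY.app, hTY.app, zero_add] at h2
      rcases h2 with h2 | h2 | h2
      · have := hTY.dep _ _ _ _ _ h2; omega
      · exact h2
      · have := hTY.dep _ _ _ _ _ h2; omega
    · refine h5 g k h6 ?_
      rw [hTY.app, hTY.app, zero_add]
      exact Or.inr (Or.inl h7)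
  -- first cut
  set F : List BX → ℝ≥0∞ := fun L => ∑' L' : List BY,
    (if HT hY L' = n then LW ΛY L' * (if G0 L L' then 1 else 0) else 0) with hF
  have hF1 : ∀ L, F L ≤ 1 := by
    intro L
    refine le_trans (ENNReal.tsum_le_tsum fun L' => ?_) (hUY n)
    by_cases h : HT hY L' = n
    · rw [if_pos h, if_pos h]
      split_ifs <;> simp
    · rw [if_neg h]; exact zero_le
  have c1 := Asm380.cut ΛX hX h1X hΛX hUX e i0 heX' n D T (by omega) F hF1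
    (fun A P => if HT hX A ≤ D + i0 ∧ HT hX P ≤ T + i0 then ∑' L' : List BY,
      (if HT hY L' = n then LW ΛY L' * (if G1 A P L' then 1 else 0) else 0) else 0)
    (fun A P R hA hA' hP hP' => by
      rw [if_pos ⟨hA', hP'⟩]
      refine ENNReal.tsum_le_tsum fun L' => ?_
      by_cases h : HT hY L' = n
      · rw [if_pos h, if_pos h]
        refine mul_le_mul_right ?_ _
        by_cases h2 : G0 (A ++ (P ++ R)) L'
        · rw [if_pos h2, if_pos (h01 A P R L' hA hA' hP hP' h2)]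
        · rw [if_neg h2]; exact zero_le
      · rw [if_neg h, if_neg h])
  refine le_trans (le_of_eq ?_) (c1.trans ?_)
  · refine tsum_congr fun L => ?_
    by_cases h : HT hX L = n
    · rw [if_pos h, ← ENNReal.tsum_mul_left]
      refine tsum_congr fun L' => ?_
      by_cases h2 : HT hY L' = n
      · by_cases h3 : G0 L L'
        · rw [if_pos ⟨h, h2, h3⟩, if_pos h2, if_pos h3, mul_one]
        · rw [if_neg (fun h' => h3 h'.2.2), if_pos h2, if_neg h3]; simp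
      · rw [if_neg (fun h' => h2 h'.2.1), if_neg h2, mul_zero]
    · rw [if_neg h, ENNReal.tsum_eq_zero]
      intro L'
      rw [if_neg (fun h' => h h'.1)]
  refine add_le_add_left ?_ _
  -- second cut
  have c2 : ∀ A P, (if HT hX A ≤ D + i0 ∧ HT hX P ≤ T + i0 then ∑' L' : List BY,
      (if HT hY L' = n then LW ΛY L' * (if G1 A P L' then 1 else 0) else 0) else 0)
      ≤ (∑' A', q ΛY hY (D + i0) A' * ∑' P', q ΛY hY (T + i0) P' *
      (if (HT hX A ≤ D + i0 ∧ HT hY A' ≤ D + i0 + i0) ∧ HT hX P ≤ T + i0 ∧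
        HT hY P' ≤ T + i0 + i0 ∧
        Ev TX TY lo hi P (Dz zX A) (HT hX A) P' (w + Dz zY A') (HT hY A')
        then 1 else 0)) + 2 * e := by
    intro A P
    by_cases h : HT hX A ≤ D + i0 ∧ HT hX P ≤ T + i0
    · rw [if_pos h]
      refine Asm380.cut ΛY hY h1Y hΛY hUY e i0 heY' n (D + i0) (T + i0) (by omega)
        (fun L' => if G1 A P L' then 1 else 0) (fun L' => by split_ifs <;> simp)
        (fun A' P' => (if (HT hX A ≤ D + i0 ∧ HT hY A' ≤ D + i0 + i0) ∧ HT hX P ≤ T + i0 ∧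
        HT hY P' ≤ T + i0 + i0 ∧
        Ev TX TY lo hi P (Dz zX A) (HT hX A) P' (w + Dz zY A') (HT hY A')
        then 1 else 0)) (fun A' P' R' hA hA' hP hP' => ?_)
      by_cases h2 : G1 A P (A' ++ (P' ++ R'))
      · rw [if_pos h2, if_pos ⟨⟨h.1, hA'⟩, h.2, hP', h12 A P A' P' R' hA hA' hP h2⟩]
      · rw [if_neg h2]; exact zero_le
    · rw [if_neg h]; exact zero_le
  refine (op_mono _ fun A => op_mono _ fun P => c2 A P).trans ?_
  simp only [op_add]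
  refine add_le_add_right ?_ _
  exact op_le (qs ΛX hX h1X hΛX D) fun A => op_le (qs ΛX hX h1X hΛX T) fun P => le_rfl

open Classical in
/-- crossing pairs of height `n` having a common site with depth in `S` -/
noncomputable def KS (n : ℕ) (w : G) (S : Set ℕ) : ℝ≥0∞ :=
  ∑' L : List BX, ∑' L' : List BY,
    (if HT hX L = n ∧ HT hY L' = n ∧ ∃ g k, k ∈ S ∧ (g, k) ∈ TX L 0 0 ∧ (g, k) ∈ TY L' w 0
      then LW ΛX L * LW ΛY L' else 0)

/-- thin slab -/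
def H5 : Prop := ∀ (s : ℕ) (η : ℝ≥0∞), η ≠ 0 → ∃ T, ∀ a, T ≤ a → ∀ n w,
  KS ΛX ΛY hX hY TX TY n w (Set.Ico a (a + s)) ≤ η

open Classical in
lemma window_le (n D T i0 s : ℕ) (hs : s ≤ T) (w : G) :
    KS ΛX ΛY hX hY TX TY n w (Set.Ico D (D + T))
      ≤ KS ΛX ΛY hX hY TX TY n w (Set.Ico D (D + (2 * i0 + s + 1)))
        + KS ΛX ΛY hX hY TX TY n w (Set.Ico (D + T - s) (D + T - s + (2 * i0 + s + 1)))
        + ∑' L : List BX, ∑' L' : List BY, (if HT hX L = n ∧ HT hY L' = n ∧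
        (∃ g k, (g, k) ∈ TX L 0 0 ∧ (g, k) ∈ TY L' w 0 ∧ D + 2 * i0 + s + 1 ≤ k ∧ k ≤ D + T - s) ∧
        (∀ g k, (g, k) ∈ TX L 0 0 → (g, k) ∈ TY L' w 0 → D ≤ k → k ≤ D + T + 2 * i0 →
          D + 2 * i0 + s + 1 ≤ k ∧ k ≤ D + T - s) then LW ΛX L * LW ΛY L' else 0) := by
  rw [KS, KS, KS, ← ENNReal.tsum_add, ← ENNReal.tsum_add]
  refine ENNReal.tsum_le_tsum fun L => ?_
  rw [← ENNReal.tsum_add, ← ENNReal.tsum_add]
  refine ENNReal.tsum_le_tsum fun L' => ?_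
  by_cases h : HT hX L = n ∧ HT hY L' = n ∧
      ∃ g k, k ∈ Set.Ico D (D + T) ∧ (g, k) ∈ TX L 0 0 ∧ (g, k) ∈ TY L' w 0
  · obtain ⟨hx, hy, g, k, hk, h1, h2⟩ := h
    rw [if_pos ⟨hx, hy, g, k, hk, h1, h2⟩]
    by_cases h3 : ∃ g k, k ∈ Set.Ico D (D + (2 * i0 + s + 1)) ∧ (g, k) ∈ TX L 0 0 ∧
        (g, k) ∈ TY L' w 0
    · rw [if_pos ⟨hx, hy, h3⟩]
      exact le_trans le_self_add le_self_add
    · by_cases h4 : ∃ g k, k ∈ Set.Ico (D + T - s) (D + T - s + (2 * i0 + s + 1)) ∧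
          (g, k) ∈ TX L 0 0 ∧ (g, k) ∈ TY L' w 0
      · rw [if_neg (fun h => h3 h.2.2), if_pos ⟨hx, hy, h4⟩, zero_add]
        exact le_self_add
      · refine le_trans ?_ le_add_self
        have hall : ∀ g k, (g, k) ∈ TX L 0 0 → (g, k) ∈ TY L' w 0 → D ≤ k → k ≤ D + T + 2 * i0 →
            D + 2 * i0 + s + 1 ≤ k ∧ k ≤ D + T - s := by
          intro g k g1 g2 g3 g4
          have a1 : ¬ k < D + (2 * i0 + s + 1) := fun h5 => h3 ⟨g, k, ⟨g3, h5⟩, g1, g2⟩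
          have a2 : ¬ D + T - s ≤ k := fun h5 => h4 ⟨g, k, ⟨h5, by omega⟩, g1, g2⟩
          omega
        have hk' := Set.mem_Ico.1 hk
        have h5 := hall g k h1 h2 hk'.1 (by omega)
        rw [if_pos ⟨hx, hy, ⟨g, k, h1, h2, h5.1, h5.2⟩, hall⟩]
  · rw [if_neg h]; exact zero_le

lemma ex_mul {A δ : ℝ≥0∞} (hA : A ≠ ⊤) (hδ : δ ≠ 0) : ∃ x : ℝ≥0∞, x ≠ 0 ∧ x ≠ ⊤ ∧ A * x ≤ δ := by
  have hm : min δ 1 ≠ 0 := (lt_min (pos_iff_ne_zero.2 hδ) one_pos).ne'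
  have hA1 : A + 1 ≠ ⊤ := by simp [hA]
  refine ⟨min δ 1 / (A + 1), ?_, ?_, ?_⟩
  · rw [ne_eq, ENNReal.div_eq_zero_iff, not_or]; exact ⟨hm, hA1⟩
  · exact (ENNReal.div_lt_top (ne_top_of_le_ne_top ENNReal.one_ne_top (min_le_right _ _))
      (by simp)).ne
  · calc A * (min δ 1 / (A + 1)) ≤ (A + 1) * (min δ 1 / (A + 1)) :=
        mul_le_mul_left le_self_add _
      _ = min δ 1 := ENNReal.mul_div_cancel (by simp) hA1
      _ ≤ δ := min_le_left _ _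

open Classical in
lemma exists_i0 {B : Type*} (Λ : B → ℝ≥0∞) (ht : B → ℕ) (h1 : ∀ b, 1 ≤ ht b)
    (hΛ : ∑' b, Λ b = 1) (hU1 : ∀ n, U Λ ht n ≤ 1) (hE : ∑' b, Λ b * (ht b : ℝ≥0∞) ≠ ⊤)
    (e : ℝ≥0∞) (he : e ≠ 0) :
    ∃ i0, ∀ i, i0 ≤ i → ∀ a, ∑' L, (if fp ht a L ∧ a + i < HT ht L then LW Λ L else 0) ≤ e := by
  have hs : ∑' k, tail Λ ht k ≠ ⊤ := by rw [← sum_tail Λ ht hΛ]; exact hE
  have := ENNReal.tendsto_sum_nat_add (tail Λ ht) hs
  obtain ⟨i0, hi0⟩ := Filter.eventually_atTop.1 (this.eventually_le_const (pos_iff_ne_zero.2 he))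
  refine ⟨i0, fun i hi a => (overshoot Λ ht h1 hU1 i a).trans (le_trans (le_of_eq ?_) (hi0 i hi))⟩
  exact tsum_congr fun k => by rw [add_comm]

lemma hv_of_quant {α : Type*} (p : α → ℝ≥0∞) (hp : ∑' a, p a = 1) {th u : ℝ≥0∞} (hu1 : u ≤ 1)
    (h : u ≤ ∑' a, (if p a ≤ th then p a else 0)) :
    ∑' a, (if th < p a then p a else 0) ≤ 1 - u := by
  have hu : u ≠ ⊤ := ne_top_of_le_ne_top ENNReal.one_ne_top hu1
  refine ENNReal.le_sub_of_add_le_right hu ?_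
  refine (add_le_add_right h _).trans ?_
  rw [← ENNReal.tsum_add, ← hp]
  refine ENNReal.tsum_le_tsum fun a => ?_
  by_cases h1 : th < p a
  · rw [if_pos h1, if_neg (not_le.2 h1), add_zero]
  · rw [if_neg h1, if_pos (not_lt.1 h1), zero_add]

open Classical in
theorem one {C : ℝ≥0∞} {us : ℕ → ℝ≥0∞} (hH2 : H2 ΛX ΛY hX hY zX TX TY C us)
    (hH3 : H3 ΛX ΛY hX hY zY TX TY C us) (hTX : Tr hX zX TX) (hTY : Tr hY zY TY)
    (h1X : ∀ b, 1 ≤ hX b) (h1Y : ∀ b, 1 ≤ hY b) (hΛX : ∑' b, ΛX b = 1) (hΛY : ∑' b, ΛY b = 1)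
    (hUX : ∀ n, U ΛX hX n ≤ 1) (hUY : ∀ n, U ΛY hY n ≤ 1)
    (i0 J : ℕ) (e u : ℝ≥0∞) (hu0 : u ≠ 0) (hu1 : u ≤ 1)
    (heX : ∀ a, ∑' L, (if fp hX a L ∧ a + i0 < HT hX L then LW ΛX L else 0) ≤ e)
    (heY : ∀ a, ∑' L, (if fp hY a L ∧ a + i0 < HT hY L then LW ΛY L else 0) ≤ e)
    (D T s : ℕ) (hJ : J * (T + i0 + i0) ≤ D) (hs : s ≤ T) (lam η : ℝ≥0∞)
    (hl : lam ≠ 0) (hl' : lam ≠ ⊤) (n : ℕ) (hn : D + T + 3 * i0 ≤ n) (w : G)
    (h5 : ∀ a, D ≤ a → KS ΛX ΛY hX hY TX TY n w (Set.Ico a (a + (2 * i0 + s + 1))) ≤ η) :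
    KS ΛX ΛY hX hY TX TY n w (Set.Ico D (D + T))
      ≤ η + η + ((u * u + 2 * ((1 - u) ^ J + J * e + J * ((i0 + 1) * ((i0 + 1 : ℕ) *
        ((i0 + 1 : ℕ) * (C * (lam + us s / lam + us s)))))) ) + 2 * e + 2 * e) := by
  obtain ⟨thX, x1, x2, x3, x4⟩ := Dens903.quantile (pl ΛX hX zX T)
    (Asm519.pl_sum ΛX hX zX h1X hΛX T) hu0 hu1
  obtain ⟨thY, y1, y2, y3, y4⟩ := Dens903.quantile (pl ΛY hY zY (T + i0))
    (Asm519.pl_sum ΛY hY zY h1Y hΛY (T + i0)) hu0 hu1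
  refine (window_le ΛX ΛY hX hY TX TY n D T i0 s hs w).trans ?_
  refine add_le_add (add_le_add (h5 D le_rfl) (h5 _ (by omega))) ?_
  refine (cuts ΛX ΛY hTX hTY h1X h1Y hΛX hΛY hUX hUY i0 e heX heY n D T s hn w).trans ?_
  refine add_le_add_left (add_le_add_left ?_ _) _
  exact win ΛX ΛY hX hY zX zY TX TY hH2 hH3 hTX hTY h1X h1Y hΛX hΛY i0 J e u heX heY D T s hJ hs
    thX thY lam x1 x2 y1 y2 hl hl' x3 y3
    (hv_of_quant _ (Asm519.pl_sum ΛX hX zX h1X hΛX T) hu1 x4)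
    (hv_of_quant _ (Asm519.pl_sum ΛY hY zY h1Y hΛY (T + i0)) hu1 y4) w

open Classical in
lemma ks_union (n m N T : ℕ) (hT : m < N * T) (w : G) :
    KS ΛX ΛY hX hY TX TY n w (Set.Ioc m (2 * m))
      ≤ ∑ j ∈ Finset.range N, KS ΛX ΛY hX hY TX TY n w (Set.Ico (m + j * T) (m + j * T + T)) := by
  simp only [KS]
  rw [← tsum_fin]
  refine ENNReal.tsum_le_tsum fun L => ?_
  rw [← tsum_fin]
  refine ENNReal.tsum_le_tsum fun L' => ?_
  by_cases h : HT hX L = n ∧ HT hY L' = n ∧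
      ∃ g k, k ∈ Set.Ioc m (2 * m) ∧ (g, k) ∈ TX L 0 0 ∧ (g, k) ∈ TY L' w 0
  · obtain ⟨hx, hy, g, k, hk, h1, h2⟩ := h
    rw [if_pos ⟨hx, hy, g, k, hk, h1, h2⟩]
    have hk' := Set.mem_Ioc.1 hk
    have hT0 : 0 < T := by
      rcases Nat.eq_zero_or_pos T with h | h
      · subst h; omega
      · exact h
    have hj : (k - m) / T < N := by
      rw [Nat.div_lt_iff_lt_mul hT0]; omega
    refine le_trans ?_ (Finset.single_le_sum (fun _ _ => zero_le) (Finset.mem_range.2 hj))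
    rw [if_pos]
    refine ⟨hx, hy, g, k, ?_, h1, h2⟩
    have e1 := Nat.div_add_mod (k - m) T
    have e2 := Nat.mod_lt (k - m) hT0
    rw [mul_comm] at e1
    constructor <;> omega
  · rw [if_neg h]; exact zero_le

/-- **KAPPA' for single walker lists** (weak form, `n` large after `m`). -/
theorem kapS {C : ℝ≥0∞} {us : ℕ → ℝ≥0∞} (hC : C ≠ ⊤)
    (hus : Filter.Tendsto us Filter.atTop (nhds 0))
    (hH2 : H2 ΛX ΛY hX hY zX TX TY C us)
    (hH3 : H3 ΛX ΛY hX hY zY TX TY C us) (hH5 : H5 ΛX ΛY hX hY TX TY)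
    (hTX : Tr hX zX TX) (hTY : Tr hY zY TY)
    (h1X : ∀ b, 1 ≤ hX b) (h1Y : ∀ b, 1 ≤ hY b) (hΛX : ∑' b, ΛX b = 1) (hΛY : ∑' b, ΛY b = 1)
    (hUX : ∀ n, U ΛX hX n ≤ 1) (hUY : ∀ n, U ΛY hY n ≤ 1)
    (hEX : ∑' b, ΛX b * (hX b : ℝ≥0∞) ≠ ⊤) (hEY : ∑' b, ΛY b * (hY b : ℝ≥0∞) ≠ ⊤)
    (ε : ℝ≥0∞) (hε : ε ≠ 0) :
    ∃ M : ℕ, ∀ m, M ≤ m → ∃ n0, ∀ n, n0 ≤ n → ∀ w,
      KS ΛX ΛY hX hY TX TY n w (Set.Ioc m (2 * m)) ≤ ε := by
  classical
  set δ := ε / 8 with hδ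
  have hδ0 : δ ≠ 0 := by
    rw [hδ, ne_eq, ENNReal.div_eq_zero_iff, not_or]; exact ⟨hε, by norm_num⟩
  obtain ⟨K, u, hK4, hu0, hu1, hKu, hKv⟩ := Num337.exKu δ hδ0
  set J := K / 4 with hJ
  have hJ1 : 1 ≤ J := by omega
  set N := 4 * J with hN
  have hNK : (N : ℝ≥0∞) ≤ ((4 * K + 8 : ℕ) : ℝ≥0∞) := by
    exact_mod_cast (by omega : N ≤ 4 * K + 8)
  obtain ⟨e, he0, he1, he⟩ := ex_mul (A := (N : ℝ≥0∞) * (4 + 2 * J)) (by finiteness) hδ0
  obtain ⟨iX, hiX⟩ := exists_i0 ΛX hX h1X hΛX hUX hEX e he0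
  obtain ⟨iY, hiY⟩ := exists_i0 ΛY hY h1Y hΛY hUY hEY e he0
  set i0 := max iX iY with hi0
  have heX := hiX i0 (le_max_left _ _)
  have heY := hiY i0 (le_max_right _ _)
  set c0 : ℝ≥0∞ := (N : ℝ≥0∞) * 2 * J * ((i0 + 1) * ((i0 + 1 : ℕ) * ((i0 + 1 : ℕ) * C))) with hc0
  have hc0t : c0 ≠ ⊤ := by rw [hc0]; finiteness
  obtain ⟨lam, hl0, hl1, hl⟩ := ex_mul hc0t hδ0
  obtain ⟨y, hy0, hy1, hy⟩ := ex_mul (A := c0 * (lam⁻¹ + 1))
    (ENNReal.mul_ne_top hc0t (by simp [hl0])) hδ0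
  obtain ⟨s, hs⟩ := (hus.eventually_le_const (pos_iff_ne_zero.2 hy0)).exists
  obtain ⟨η, hη0, hη1, hη⟩ := ex_mul (A := (N : ℝ≥0∞) * 2) (by finiteness) hδ0
  obtain ⟨T5, hT5⟩ := hH5 (2 * i0 + s + 1) η hη0
  refine ⟨max T5 (2 * J * (2 * i0 + s + 1)), fun m hm => ?_⟩
  have hm1 : T5 ≤ m := le_trans (le_max_left _ _) hm
  have hm2 : 2 * J * (2 * i0 + s + 1) ≤ m := le_trans (le_max_right _ _) hm
  set T := m / (2 * J) with hT
  have hT1 : 2 * i0 + s + 1 ≤ T := by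
    rw [hT, Nat.le_div_iff_mul_le (by omega), mul_comm]; exact hm2
  have hT2 : 2 * J * T ≤ m := Nat.mul_div_le m (2 * J)
  have hT3 : m < N * T := by
    have h1 : m < 2 * J * (T + 1) := Nat.lt_mul_div_succ m (by omega)
    have h2 : 2 * J * (T + 1) ≤ 2 * J * (2 * T) := Nat.mul_le_mul_left _ (by omega)
    have h3 : 2 * J * (2 * T) = N * T := by rw [hN]; ring
    omega
  have hJT : J * (T + i0 + i0) ≤ m := by
    have h2 : J * (T + i0 + i0) ≤ J * (2 * T) := Nat.mul_le_mul_left _ (by omega)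
    have h3 : J * (2 * T) = 2 * J * T := by ring
    omega
  refine ⟨m + N * T + T + 3 * i0, fun n hn w => ?_⟩
  refine (ks_union ΛX ΛY hX hY TX TY n m N T hT3 w).trans ?_
  calc _ ≤ ∑ j ∈ Finset.range N, (η + η + ((u * u + 2 * ((1 - u) ^ J + J * e + J * ((i0 + 1) *
        ((i0 + 1 : ℕ) * ((i0 + 1 : ℕ) * (C * (lam + us s / lam + us s)))))) ) + 2 * e + 2 * e)) := by
        refine Finset.sum_le_sum fun j hj => ?_
        have hjN := Finset.mem_range.1 hj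
        have hjT : j * T + T ≤ N * T := by
          have : (j + 1) * T ≤ N * T := Nat.mul_le_mul_right _ (by omega)
          have h2 : (j + 1) * T = j * T + T := by ring
          omega
        exact one ΛX ΛY hX hY zX zY TX TY hH2 hH3 hTX hTY h1X h1Y hΛX hΛY hUX hUY i0 J e u hu0
          hu1.le heX heY (m + j * T) T s (by omega) (by omega) lam η hl0 hl1 n (by omega) w
          (fun a ha => hT5 a (by omega) n w)
    _ = (N : ℝ≥0∞) * 2 * η + N * (4 + 2 * J) * e + N * (u * u) + 2 * (N * (1 - u) ^ J)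
        + (c0 * lam + c0 * (us s / lam + us s)) := by
        rw [Finset.sum_const, Finset.card_range, nsmul_eq_mul, hc0]
        generalize us s / lam = t
        ring
    _ ≤ δ + δ + δ + 2 * δ + (δ + δ) := by
        refine add_le_add (add_le_add (add_le_add (add_le_add hη he) ?_) ?_) (add_le_add hl ?_)
        · exact (mul_le_mul_left hNK _).trans hKu
        · have hv : (N : ℝ≥0∞) * (1 - u) ^ J ≤ δ := (mul_le_mul_left hNK _).trans hKv
          exact mul_le_mul' le_rfl hv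
        · have h7 : us s / lam + us s ≤ (lam⁻¹ + 1) * y := by
            calc us s / lam + us s = (lam⁻¹ + 1) * us s := by
                  rw [add_mul, one_mul, ENNReal.div_eq_inv_mul]
              _ ≤ (lam⁻¹ + 1) * y := mul_le_mul' le_rfl hs
          have h8 : c0 * (us s / lam + us s) ≤ c0 * ((lam⁻¹ + 1) * y) := mul_le_mul' le_rfl h7
          rw [← mul_assoc] at h8
          exact h8.trans hy
    _ ≤ 8 * δ := by
        have : δ + δ + δ + 2 * δ + (δ + δ) = 7 * δ := by ring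
        rw [this]
        gcongr
        norm_num
    _ = ε := by rw [hδ]; exact ENNReal.mul_div_cancel (by norm_num) (by norm_num)

end two

end Crest.Agent.R154.AsmS666
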