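import Crest.Agent.R154.AsmR_801

/-! Row 154, ROAD 801 (helper801): the bound of one window, all cases. -/

set_option autoImplicit false

namespace Crest.Agent.R154.Asm801

open scoped ENNReal
open Crest.Agent.R154.B5A
open Crest.Agent.R154.FP178 (fp)
open Crest.Agent.R154.Bind12 (TT Dp)

variable {BX BY G : Type*} [AddCommGroup G]
variable (ΛX : BX → ℝ≥0∞) (sX : BX → Set (G × ℕ)) (zX : BX → G) (hX : BX → ℕ)
  (ΛY : BY → ℝ≥0∞) (sY : BY → Set (G × ℕ)) (zY : BY → G) (hY : BY → ℕ)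

lemma D0_le_one {T i0 : ℕ} (mX1 : ∑' V, Lp ΛX hX T i0 V ≤ 1) (mY1 : ∑' V, Lp ΛY hY T i0 V ≤ 1)
    (a a' lo hi : ℕ) (x : G) (φ : List BX → List BY → ℝ≥0∞) (hφ : ∀ P P', φ P P' ≤ 1) :
    D0 ΛX sX zX hX ΛY sY zY hY T i0 a a' lo hi x φ ≤ 1 := by
  unfold D0
  calc _ ≤ ∑' P, Lp ΛX hX T i0 P * 1 := by
        refine ENNReal.tsum_le_tsum fun P => mul_le_mul_right ?_ _
        refine le_trans (ENNReal.tsum_le_tsum fun P' => ?_) mY1
        refine (mul_le_mul_right (b := _) (c := 1) ?_ _).trans (by rw [mul_one])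
        split_ifs
        · exact hφ _ _
        · exact zero_le
    _ ≤ 1 := by simpa using mX1

open Classical in
/-- bound of the local part, for one pair of tops -/
lemma hD_loc {T i0 N s : ℕ} (C : ℝ≥0∞) (us : ℕ → ℕ → ℝ≥0∞) (locX : Bool)
    (H : HW ΛX sX zX hX ΛY sY zY hY locX C us)
    (hs : 1 ≤ s) (hsT : s ≤ (N + 1) * T) (lam : ℝ≥0∞) (hl : lam ≠ 0) (hl' : lam ≠ ⊤)
    (θ : ℝ≥0∞) (hθ1 : θ ≤ 1) (E : ℕ → Finset G) (hE : ∀ h, ((E h).card : ℝ≥0∞) * θ ≤ 1)
    (φ : List BX → List BY → ℝ≥0∞) (hφ : ∀ P P', φ P P' ≤ 1)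
    (hφE : ∀ P P', φ P P' ≠ 0 →
      if locX = true then Dp zX P ∈ E (HT hX P) else Dp zY P' ∈ E (HT hY P'))
    (a a' : ℕ) (ha : a ∈ Finset.Icc (N * T) (N * (T + i0)))
    (ha' : a' ∈ Finset.Icc (N * T) (N * (T + i0))) (μ : G → ℝ≥0∞) (hμ1 : ∑' x, μ x ≤ 1)
    (hμM : ∀ x, μ x ≤ N * (2 * θ)) :
    ∑' x, μ x * D0 ΛX sX zX hX ΛY sY zY hY T i0 a a' (N * (T + i0) + s) ((N + 1) * T - s) x φ
      ≤ ((i0 + 1 : ℕ) : ℝ≥0∞) ^ 2 * (C * (lam + 2 * N * us ((N + 1) * i0) s / lam
        + us ((N + 1) * i0) s)) := by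
  set H' := Finset.Icc T (T + i0) with hH'
  have hcard : H'.card = i0 + 1 := by rw [hH', Nat.card_Icc]; omega
  set Θ : ℕ → ℕ → G → ℝ≥0∞ := fun h h' x => ∑' P : List BX, ∑' P' : List BY,
          (if HT hX P = h ∧ HT hY P' = h' ∧
            (if locX = true then Dp zX P ∈ E h else Dp zY P' ∈ E h') ∧
            ev sX zX hX sY zY hY a a' (N * (T + i0) + s) ((N + 1) * T - s) x P P'
            then LW ΛX P * LW ΛY P' else 0) with hΘ
  have hM : (N : ℝ≥0∞) * (2 * θ) ≠ ⊤ := by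
    refine ENNReal.mul_ne_top (ENNReal.natCast_ne_top N) (ENNReal.mul_ne_top (by norm_num) ?_)
    exact ne_top_of_le_ne_top ENNReal.one_ne_top hθ1
  have hNi : N * (T + i0) = N * T + N * i0 := by ring
  have hN1 : (N + 1) * T = N * T + T := by ring
  have hN2 : (N + 1) * i0 = N * i0 + i0 := by ring
  rw [Finset.mem_Icc] at ha ha'
  have step : ∀ h ∈ H', ∀ h' ∈ H', ∑' x, μ x * Θ h h' x
      ≤ C * (lam + 2 * N * us ((N + 1) * i0) s / lam + us ((N + 1) * i0) s) := by
    intro h hh h' hh'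
    rw [hH', Finset.mem_Icc] at hh hh'
    have key : ∀ E0 : Finset G, (E0.card : ℝ≥0∞) * θ ≤ 1 →
        C * (lam + N * (2 * θ) * E0.card * us ((N + 1) * i0) s / lam + us ((N + 1) * i0) s)
        ≤ C * (lam + 2 * N * us ((N + 1) * i0) s / lam + us ((N + 1) * i0) s) := by
      intro E0 hE0
      refine mul_le_mul_right (add_le_add (add_le_add le_rfl (ENNReal.div_le_div_right
        (mul_le_mul_left ?_ _) _)) le_rfl) _
      calc (N : ℝ≥0∞) * (2 * θ) * E0.card = 2 * N * (E0.card * θ) := by ring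
        _ ≤ 2 * N * 1 := mul_le_mul_right hE0 _
        _ = 2 * N := mul_one _
    cases locX with
    | true =>
      refine le_trans ?_ (key (E h) (hE h))
      have := H ((N + 1) * i0) s h h' a a' (N * (T + i0) + s) ((N + 1) * T - s) (E h) μ
        (N * (2 * θ)) lam hμ1 hμM hM hl hl' (by omega) (by omega) (by omega) (by omega)
        (by omega) (by omega) (by omega) (by omega) hs
      simpa [hΘ] using this
    | false =>
      refine le_trans ?_ (key (E h') (hE h'))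
      have := H ((N + 1) * i0) s h h' a a' (N * (T + i0) + s) ((N + 1) * T - s) (E h') μ
        (N * (2 * θ)) lam hμ1 hμM hM hl hl' (by omega) (by omega) (by omega) (by omega)
        (by omega) (by omega) (by omega) (by omega) hs
      simpa [hΘ] using this
  calc _ ≤ ∑' x, μ x * ∑ h ∈ H', ∑ h' ∈ H', Θ h h' x :=
        ENNReal.tsum_le_tsum fun x => mul_le_mul_right
          (D0_loc_le ΛX sX zX hX ΛY sY zY hY T i0 a a' _ _ x locX E φ hφ hφE) _
    _ = ∑ h ∈ H', ∑ h' ∈ H', ∑' x, μ x * Θ h h' x := by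
        simp_rw [Finset.mul_sum]
        rw [Summable.tsum_finsetSum (fun _ _ => ENNReal.summable)]
        refine Finset.sum_congr rfl fun h _ => ?_
        rw [Summable.tsum_finsetSum (fun _ _ => ENNReal.summable)]
    _ ≤ ∑ h ∈ H', ∑ h' ∈ H', C * (lam + 2 * N * us ((N + 1) * i0) s / lam
          + us ((N + 1) * i0) s) :=
        Finset.sum_le_sum fun h hh => Finset.sum_le_sum fun h' hh' => step h hh h' hh'
    _ = _ := by
        simp only [Finset.sum_const, hcard, nsmul_eq_mul]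
        ring

open Classical in
/-- finite sets of local displacements -/
lemma exists_E {B : Type*} (Λ : List B → ℝ≥0∞) (z : B → G) (h : B → ℕ) (θ : ℝ≥0∞)
    (hfin : {x | θ ≤ pw Λ (gp z h) x}.Finite)
    (hc : (({x | θ ≤ pw Λ (gp z h) x}.ncard : ℕ) : ℝ≥0∞) * θ ≤ 1) :
    ∃ E : ℕ → Finset G, (∀ n, ((E n).card : ℝ≥0∞) * θ ≤ 1) ∧
      ∀ P : List B, θ ≤ pw Λ (gp z h) (gp z h P) → Dp z P ∈ E (HT h P) := by
  have hinj : ∀ n : ℕ, Function.Injective (fun y : G => (((n : ℤ), y) : ℤ × G)) := by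
    intro n y y' hy
    exact (Prod.mk.inj hy).2
  have hf : ∀ n : ℕ, {y : G | θ ≤ pw Λ (gp z h) ((n : ℤ), y)}.Finite := fun n =>
    hfin.preimage (hinj n).injOn
  refine ⟨fun n => (hf n).toFinset, fun n => ?_, fun P hP => ?_⟩
  · refine le_trans (mul_le_mul_left ?_ _) hc
    rw [Nat.cast_le, ← Set.ncard_eq_toFinset_card _ (hf n)]
    rw [← Set.ncard_image_of_injective _ (hinj n)]
    refine Set.ncard_le_ncard ?_ hfin
    rintro _ ⟨y, hy, rfl⟩
    exact hy
  · rw [Set.Finite.mem_toFinset]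
    exact hP

open Classical in
/-- **one window**, in lists of pieces -/
theorem win_pieces {T i0 N s : ℕ} (C : ℝ≥0∞) (us : ℕ → ℕ → ℝ≥0∞)
    (H2 : HW ΛX sX zX hX ΛY sY zY hY true C us) (H3 : HW ΛX sX zX hX ΛY sY zY hY false C us)
    (mX1 : ∑' V, Lp ΛX hX T i0 V ≤ 1) (mY1 : ∑' V, Lp ΛY hY T i0 V ≤ 1)
    (u : ℝ≥0∞) (hu : u ≠ 0) (huX : u ≤ ∑' V, Lp ΛX hX T i0 V) (huY : u ≤ ∑' V, Lp ΛY hY T i0 V)
    (hs : 1 ≤ s) (hsT : s ≤ (N + 1) * T) (lam : ℝ≥0∞) (hl : lam ≠ 0) (hl' : lam ≠ ⊤) (w : G) :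
    SL (Lp ΛX hX T i0) N (fun VA => SL (Lp ΛY hY T i0) N (fun VB =>
      D0 ΛX sX zX hX ΛY sY zY hY T i0 (HT hX VA.flatten) (HT hY VB.flatten)
        (N * (T + i0) + s) ((N + 1) * T - s) (w + Dp zY VB.flatten - Dp zX VA.flatten)
        (fun _ _ => 1)))
      ≤ u * u + 2 * (1 - u) ^ N + 2 * (((N * i0 + 1 : ℕ) : ℝ≥0∞) ^ 2 *
        (((i0 + 1 : ℕ) : ℝ≥0∞) ^ 2 * (C * (lam + 2 * N * us ((N + 1) * i0) s / lam
        + us ((N + 1) * i0) s)))) := by
  obtain ⟨θX, hθX0, hθX1, nlX, lowX, denX, finX, cardX⟩ := loc (Lp ΛX hX T i0) (gp zX hX) mX1 hu huX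
  obtain ⟨θY, hθY0, hθY1, nlY, lowY, denY, finY, cardY⟩ := loc (Lp ΛY hY T i0) (gp zY hY) mY1 hu huY
  obtain ⟨EX, hEX, hEX'⟩ := exists_E (Lp ΛX hX T i0) zX hX θX finX cardX
  obtain ⟨EY, hEY, hEY'⟩ := exists_E (Lp ΛY hY T i0) zY hY θY finY cardY
  set pX := pw (Lp ΛX hX T i0) (gp zX hX) with hpX
  set pY := pw (Lp ΛY hY T i0) (gp zY hY) with hpY
  set gX : List (List BX) → Prop := fun VA => ∃ V ∈ VA, pX (gp zX hX V) < 2 * θX with hgX
  set gY : List (List BY) → Prop := fun VB => ∃ V ∈ VB, pY (gp zY hY V) < 2 * θY with hgY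
  set φX : List BX → List BY → ℝ≥0∞ := fun P _ => if θX ≤ pX (gp zX hX P) then 1 else 0 with hφX
  set φY : List BX → List BY → ℝ≥0∞ := fun _ P' => if θY ≤ pY (gp zY hY P') then 1 else 0 with hφY
  have hφX1 : ∀ P P', φX P P' ≤ 1 := fun P P' => by simp only [hφX]; split_ifs <;> simp
  have hφY1 : ∀ P P', φY P P' ≤ 1 := fun P P' => by simp only [hφY]; split_ifs <;> simp
  set lo := N * (T + i0) + s with hlo
  set hi := (N + 1) * T - s with hhi
  set DX : ℕ → ℕ → G → ℝ≥0∞ := fun a a' x =>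
    D0 ΛX sX zX hX ΛY sY zY hY T i0 a a' lo hi x φX with hDX
  set DY : ℕ → ℕ → G → ℝ≥0∞ := fun a a' x =>
    D0 ΛX sX zX hX ΛY sY zY hY T i0 a a' lo hi x φY with hDY
  -- pointwise bound of the two last pieces
  have p1 : ∀ a a' x, D0 ΛX sX zX hX ΛY sY zY hY T i0 a a' lo hi x (fun _ _ => 1)
      ≤ u * u + DX a a' x + DY a a' x := by
    intro a a' x
    have q1 : ∑' P, (if pX (gp zX hX P) < θX then Lp ΛX hX T i0 P else 0) *
        ∑' P', (if pY (gp zY hY P') < θY then Lp ΛY hY T i0 P' else 0) ≤ u * u := by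
      rw [ENNReal.tsum_mul_right]
      exact mul_le_mul' nlX nlY
    refine le_trans ?_ (add_le_add (add_le_add q1 le_rfl) le_rfl)
    simp only [hDX, hDY, D0]
    rw [← ENNReal.tsum_add, ← ENNReal.tsum_add]
    refine ENNReal.tsum_le_tsum fun P => ?_
    rw [← ENNReal.tsum_mul_left, ← ENNReal.tsum_mul_left, ← ENNReal.tsum_mul_left,
      ← ENNReal.tsum_mul_left, ← ENNReal.tsum_add, ← ENNReal.tsum_add]
    refine ENNReal.tsum_le_tsum fun P' => ?_
    by_cases hev : ev sX zX hX sY zY hY a a' lo hi x P P'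
    · simp only [if_pos hev, hφX, hφY]
      by_cases hP : pX (gp zX hX P) < θX
      · by_cases hP' : pY (gp zY hY P') < θY
        · rw [if_pos hP, if_pos hP', mul_one]
          exact le_add_right (le_add_right le_rfl)
        · rw [if_pos (not_lt.1 hP')]
          exact le_add_left le_rfl
      · rw [if_pos (not_lt.1 hP)]
        exact le_add_right (le_add_left le_rfl)
    · simp [if_neg hev]
  have p2 : ∀ VA VB, D0 ΛX sX zX hX ΛY sY zY hY T i0 (HT hX VA.flatten) (HT hY VB.flatten)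
        lo hi (w + Dp zY VB.flatten - Dp zX VA.flatten) (fun _ _ => 1)
      ≤ (u * u + ((if gX VA then 0 else 1) + (if gY VB then 0 else 1)))
        + ((if gX VA ∧ True then DX (HT hX VA.flatten) (HT hY VB.flatten)
            (w + Dp zY VB.flatten - Dp zX VA.flatten) else 0)
          + (if True ∧ gY VB then DY (HT hX VA.flatten) (HT hY VB.flatten)
            (w + Dp zY VB.flatten - Dp zX VA.flatten) else 0)) := by
    intro VA VB
    refine (p1 _ _ _).trans ?_
    set dX := DX (HT hX VA.flatten) (HT hY VB.flatten) (w + Dp zY VB.flatten - Dp zX VA.flatten)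
    set dY := DY (HT hX VA.flatten) (HT hY VB.flatten) (w + Dp zY VB.flatten - Dp zX VA.flatten)
    have b1 : dX ≤ (if gX VA then 0 else 1) + (if gX VA ∧ True then dX else 0) := by
      by_cases h : gX VA
      · rw [if_pos h, if_pos ⟨h, trivial⟩, zero_add]
      · rw [if_neg h]
        exact le_add_right (D0_le_one ΛX sX zX hX ΛY sY zY hY mX1 mY1 _ _ _ _ _ _ hφX1)
    have b2 : dY ≤ (if gY VB then 0 else 1) + (if True ∧ gY VB then dY else 0) := by
      by_cases h : gY VB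
      · rw [if_pos h, if_pos ⟨trivial, h⟩, zero_add]
      · rw [if_neg h]
        exact le_add_right (D0_le_one ΛX sX zX hX ΛY sY zY hY mX1 mY1 _ _ _ _ _ _ hφY1)
    calc u * u + dX + dY ≤ u * u + ((if gX VA then 0 else 1) + (if gX VA ∧ True then dX else 0))
          + ((if gY VB then 0 else 1) + (if True ∧ gY VB then dY else 0)) :=
          add_le_add (add_le_add le_rfl b1) b2
      _ = _ := by ring
  -- summation
  have c1 : SL (Lp ΛX hX T i0) N (fun VA => SL (Lp ΛY hY T i0) N (fun VB =>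
      (if gX VA then (0 : ℝ≥0∞) else 1))) ≤ (1 - u) ^ N := by
    calc _ ≤ SL (Lp ΛX hX T i0) N (fun VA => (if gX VA then (0 : ℝ≥0∞) else 1)) :=
          SL_mono _ _ fun VA _ => SL_le_const _ mY1 _ _ fun VB => le_rfl
      _ = (∑' V, if pX (gp zX hX V) < 2 * θX then 0 else Lp ΛX hX T i0 V) ^ N :=
          by
            have h0 := AsmA789.nosmall (Lp ΛX hX T i0) (fun V => pX (gp zX hX V) < 2 * θX) N
            convert h0
      _ ≤ _ := pow_le_pow_left' lowX _
  have c2 : SL (Lp ΛX hX T i0) N (fun VA => SL (Lp ΛY hY T i0) N (fun VB =>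
      (if gY VB then (0 : ℝ≥0∞) else 1))) ≤ (1 - u) ^ N := by
    refine SL_le_const _ mX1 _ _ fun VA => ?_
    calc _ = (∑' V, if pY (gp zY hY V) < 2 * θY then 0 else Lp ΛY hY T i0 V) ^ N :=
          by
            have h0 := AsmA789.nosmall (Lp ΛY hY T i0) (fun V => pY (gp zY hY V) < 2 * θY) N
            convert h0
      _ ≤ _ := pow_le_pow_left' lowY _
  have c3 := part_le ΛX zX hX ΛY zY hY (T := T) (i0 := i0) (N := N) mX1 mY1 w gX (fun _ => True)
    DX (N * (2 * θX)) (((i0 + 1 : ℕ) : ℝ≥0∞) ^ 2 * (C * (lam + 2 * N * us ((N + 1) * i0) s / lam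
        + us ((N + 1) * i0) s))) (by
      intro a a' x
      rw [SL_comm]
      refine SL_le_const _ mY1 _ _ fun VB => ?_
      have hd := AsmA789.dens (Lp ΛX hX T i0) mX1 (gp zX hX)
        (fun V => pX (gp zX hX V) < 2 * θX) (2 * θX) (fun x => by convert denX x) N
        ((a : ℤ), w + Dp zY VB.flatten - x)
      refine le_trans (SL_mono _ _ fun VA _ => ?_) hd
      by_cases hc : (gX VA ∧ True) ∧ HT hX VA.flatten = a ∧ HT hY VB.flatten = a' ∧
        w + Dp zY VB.flatten - Dp zX VA.flatten = x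
      · rw [if_pos hc, if_pos]
        refine ⟨hc.1.1, ?_⟩
        rw [sum_gp, hc.2.1, ← hc.2.2.2]
        congr 1
        abel
      · rw [if_neg hc]; exact zero_le)
    (fun a ha a' ha' μ h1 h2 => hD_loc ΛX sX zX hX ΛY sY zY hY C us true H2 hs hsT lam hl hl'
      θX hθX1 EX hEX φX hφX1 (by
        intro P P' hP
        simp only [hφX] at hP
        simp only [if_true]
        refine hEX' P ?_
        by_contra hcon
        exact hP (if_neg hcon)) a a' ha ha' μ h1 h2)
  have c4 := part_le ΛX zX hX ΛY zY hY (T := T) (i0 := i0) (N := N) mX1 mY1 w (fun _ => True) gY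
    DY (N * (2 * θY)) (((i0 + 1 : ℕ) : ℝ≥0∞) ^ 2 * (C * (lam + 2 * N * us ((N + 1) * i0) s / lam
        + us ((N + 1) * i0) s))) (by
      intro a a' x
      refine SL_le_const _ mX1 _ _ fun VA => ?_
      have hd := AsmA789.dens (Lp ΛY hY T i0) mY1 (gp zY hY)
        (fun V => pY (gp zY hY V) < 2 * θY) (2 * θY) (fun x => by convert denY x) N
        ((a' : ℤ), x - w + Dp zX VA.flatten)
      refine le_trans (SL_mono _ _ fun VB _ => ?_) hd
      by_cases hc : (True ∧ gY VB) ∧ HT hX VA.flatten = a ∧ HT hY VB.flatten = a' ∧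
        w + Dp zY VB.flatten - Dp zX VA.flatten = x
      · rw [if_pos hc, if_pos]
        refine ⟨hc.1.2, ?_⟩
        rw [sum_gp, hc.2.2.1, ← hc.2.2.2]
        congr 1
        abel
      · rw [if_neg hc]; exact zero_le)
    (fun a ha a' ha' μ h1 h2 => hD_loc ΛX sX zX hX ΛY sY zY hY C us false H3 hs hsT lam hl hl'
      θY hθY1 EY hEY φY hφY1 (by
        intro P P' hP
        simp only [hφY] at hP
        simp only [Bool.false_eq_true, if_false]
        refine hEY' P' ?_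
        by_contra hcon
        exact hP (if_neg hcon)) a a' ha ha' μ h1 h2)
  set R := ((N * i0 + 1 : ℕ) : ℝ≥0∞) ^ 2 *
        (((i0 + 1 : ℕ) : ℝ≥0∞) ^ 2 * (C * (lam + 2 * N * us ((N + 1) * i0) s / lam
        + us ((N + 1) * i0) s))) with hR
  calc _ ≤ SL (Lp ΛX hX T i0) N (fun VA => SL (Lp ΛY hY T i0) N (fun VB =>
        (u * u + ((if gX VA then 0 else 1) + (if gY VB then 0 else 1)))
        + ((if gX VA ∧ True then DX (HT hX VA.flatten) (HT hY VB.flatten)
            (w + Dp zY VB.flatten - Dp zX VA.flatten) else 0)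
          + (if True ∧ gY VB then DY (HT hX VA.flatten) (HT hY VB.flatten)
            (w + Dp zY VB.flatten - Dp zX VA.flatten) else 0)))) :=
        SL_mono _ _ fun VA _ => SL_mono _ _ fun VB _ => p2 VA VB
    _ = (SL (Lp ΛX hX T i0) N (fun VA => SL (Lp ΛY hY T i0) N (fun VB => u * u))
        + (SL (Lp ΛX hX T i0) N (fun VA => SL (Lp ΛY hY T i0) N (fun VB =>
            (if gX VA then (0 : ℝ≥0∞) else 1)))
          + SL (Lp ΛX hX T i0) N (fun VA => SL (Lp ΛY hY T i0) N (fun VB =>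
            (if gY VB then (0 : ℝ≥0∞) else 1)))))
        + (SL (Lp ΛX hX T i0) N (fun VA => SL (Lp ΛY hY T i0) N (fun VB =>
            (if gX VA ∧ True then DX (HT hX VA.flatten) (HT hY VB.flatten)
            (w + Dp zY VB.flatten - Dp zX VA.flatten) else 0)))
          + SL (Lp ΛX hX T i0) N (fun VA => SL (Lp ΛY hY T i0) N (fun VB =>
            (if True ∧ gY VB then DY (HT hX VA.flatten) (HT hY VB.flatten)
            (w + Dp zY VB.flatten - Dp zX VA.flatten) else 0)))) := by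
        simp only [SL_add_fun]
    _ ≤ (u * u + ((1 - u) ^ N + (1 - u) ^ N)) + (R + R) := by
        refine add_le_add (add_le_add ?_ (add_le_add c1 c2)) (add_le_add
          (le_trans (le_of_eq (SL_congr _ _ fun VA _ => SL_congr _ _ fun VB _ => by
            by_cases h : gX VA ∧ True
            · rw [if_pos h, if_pos h]
            · rw [if_neg h, if_neg h])) c3)
          (le_trans (le_of_eq (SL_congr _ _ fun VA _ => SL_congr _ _ fun VB _ => by
            by_cases h : True ∧ gY VB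
            · rw [if_pos h, if_pos h]
            · rw [if_neg h, if_neg h])) c4))
        exact SL_le_const _ mX1 _ _ fun VA => SL_le_const _ mY1 _ _ fun VB => le_rfl
    _ = _ := by ring

end Crest.Agent.R154.Asm801
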