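import Crest.Agent.R154.AsmR_877

/-! Row 154 (helper877), ROAD 801: the window sum. -/

set_option autoImplicit false

namespace Crest.Agent.R154.Asm877

open scoped ENNReal
open Crest.Agent.R154.B5A
open Crest.Agent.R154.FP178

lemma SL_tsum {C ι : Type*} (W : C → ℝ≥0∞) (r : ℕ) (F : ι → List C → ℝ≥0∞) :
    SL W r (fun P => ∑' i, F i P) = ∑' i, SL W r (F i) := by
  unfold SL
  rw [ENNReal.tsum_comm]
  refine tsum_congr fun P => ?_
  by_cases hP : P.length = r
  · simp only [hP, if_true]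
    rw [ENNReal.tsum_mul_left]
  · simp [hP]

lemma SL_zero_fun {C : Type*} (W : C → ℝ≥0∞) (r : ℕ) : SL W r (fun _ => 0) = 0 := by
  simp [SL]

lemma SL_mul_const {C : Type*} (W : C → ℝ≥0∞) (r : ℕ) (F : List C → ℝ≥0∞) (a : ℝ≥0∞) :
    SL W r (fun P => F P * a) = SL W r F * a := by
  have := SL_const_mul W r a F
  rw [mul_comm (SL W r F), ← this]
  exact SL_congr W r fun P _ => mul_comm _ _

section tot

variable {C C' : Type*} (W : C → ℝ≥0∞) (W' : C' → ℝ≥0∞) (r : ℕ)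

/-- the window sum -/
noncomputable def Tot (F : List C → List C' → C → C' → ℝ≥0∞) : ℝ≥0∞ :=
  SL W r (fun P => SL W' r (fun P' => ∑' A, ∑' A', W A * W' A' * F P P' A A'))

lemma Tot_mono {F F' : List C → List C' → C → C' → ℝ≥0∞}
    (h : ∀ P P' A A', P.length = r → P'.length = r → F P P' A A' ≤ F' P P' A A') :
    Tot W W' r F ≤ Tot W W' r F' :=
  SL_mono W r fun P hP => SL_mono W' r fun P' hP' => ENNReal.tsum_le_tsum fun A =>
    ENNReal.tsum_le_tsum fun A' => mul_le_mul_right (h P P' A A' hP hP') _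

lemma Tot_add (F F' : List C → List C' → C → C' → ℝ≥0∞) :
    Tot W W' r (fun P P' A A' => F P P' A A' + F' P P' A A') = Tot W W' r F + Tot W W' r F' := by
  unfold Tot
  rw [← SL_add_fun]
  refine SL_congr W r fun P _ => ?_
  rw [← SL_add_fun]
  refine SL_congr W' r fun P' _ => ?_
  rw [← ENNReal.tsum_add]
  refine tsum_congr fun A => ?_
  rw [← ENNReal.tsum_add]
  refine tsum_congr fun A' => ?_
  rw [mul_add]

lemma Tot_zero : Tot W W' r (fun _ _ _ _ => 0) = 0 := by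
  unfold Tot
  simp only [mul_zero, tsum_zero, SL_zero_fun]

lemma Tot_finset {ι : Type*} (s : Finset ι) (F : ι → List C → List C' → C → C' → ℝ≥0∞) :
    Tot W W' r (fun P P' A A' => ∑ i ∈ s, F i P P' A A') = ∑ i ∈ s, Tot W W' r (F i) := by
  classical
  induction s using Finset.induction_on with
  | empty => simpa using Tot_zero W W' r
  | insert i s hi ih =>
    simp only [Finset.sum_insert hi]
    rw [Tot_add, ih]

lemma Tot_tsum {ι : Type*} (F : ι → List C → List C' → C → C' → ℝ≥0∞) :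
    Tot W W' r (fun P P' A A' => ∑' i, F i P P' A A') = ∑' i, Tot W W' r (F i) := by
  unfold Tot
  rw [← SL_tsum]
  refine SL_congr W r fun P _ => ?_
  rw [← SL_tsum]
  refine SL_congr W' r fun P' _ => ?_
  symm
  rw [ENNReal.tsum_comm]
  refine tsum_congr fun A => ?_
  rw [ENNReal.tsum_comm]
  refine tsum_congr fun A' => ?_
  rw [ENNReal.tsum_mul_left]

lemma Tot_prod (α : List C → List C' → ℝ≥0∞) (β : C → C' → ℝ≥0∞) :
    Tot W W' r (fun P P' A A' => α P P' * β A A')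
      = SL W r (fun P => SL W' r (fun P' => α P P')) * ∑' A, ∑' A', W A * W' A' * β A A' := by
  unfold Tot
  rw [← SL_mul_const]
  refine SL_congr W r fun P _ => ?_
  rw [← SL_mul_const]
  refine SL_congr W' r fun P' _ => ?_
  rw [← ENNReal.tsum_mul_left]
  refine tsum_congr fun A => ?_
  rw [← ENNReal.tsum_mul_left]
  refine tsum_congr fun A' => ?_
  ring

end tot

section win

variable {G : Type*} [AddCommGroup G] {BX BY : Type*}
  (ΛX : BX → ℝ≥0∞) (ΛY : BY → ℝ≥0∞) (hX : BX → ℕ) (hY : BY → ℕ)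
  (zX : BX → G) (zY : BY → G) (sX : BX → Set (G × ℕ)) (sY : BY → Set (G × ℕ))

open Classical in
/-- **one window, one local piece** -/
theorem win (T T' i0 r N : ℕ) (hrN : r < N) (w : G) (lo hi : ℕ)
    (hWX : ∑' A, wA ΛX hX T i0 A ≤ 1) (hWY : ∑' A, wA ΛY hY T' i0 A ≤ 1)
    (α : List (Att hX T i0) → List (Att hY T' i0) → Prop) (M : ℝ≥0∞)
    (hM : ∀ x, SL (wA ΛX hX T i0) r (fun P => SL (wA ΛY hY T' i0) r (fun P' =>
      if α P P' ∧ w + Dp zY (fl hY P') - Dp zX (fl hX P) = x then 1 else 0)) ≤ M)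
    (Q : ℕ → ℕ → G → G → Prop) (Bd : ℝ≥0∞)
    (hB : ∀ a a' k k' : ℕ, r * T ≤ a → a ≤ r * T + r * i0 → r * T' ≤ a' → a' ≤ r * T' + r * i0 →
      T ≤ k → k ≤ T + i0 → T' ≤ k' → k' ≤ T' + i0 →
      ∀ μ : G → ℝ≥0∞, ∑' x, μ x ≤ 1 → (∀ x, μ x ≤ M) →
      ∑' x, μ x * ∑' L, ∑' L', (if HT hX L = k ∧ HT hY L' = k' ∧ Q k k' (Dp zX L) (Dp zY L') ∧
        DC hX hY zX zY sX sY L 0 a L' x a' lo hi then LW ΛX L * LW ΛY L' else 0) ≤ Bd) :
    Tot (wA ΛX hX T i0) (wA ΛY hY T' i0) r (fun P P' A A' =>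
      if α P P' ∧ Q (HT hX A.1) (HT hY A'.1) (Dp zX A.1) (Dp zY A'.1) ∧
        Kev hX hY zX zY sX sY w lo hi P A P' A' then 1 else 0)
      ≤ ((N * i0 + 1) ^ 4 : ℕ) * Bd := by
  set I := Finset.Icc (r * T) (r * T + r * i0) with hI
  set K := Finset.Icc T (T + i0) with hK
  set I' := Finset.Icc (r * T') (r * T' + r * i0) with hI'
  set K' := Finset.Icc T' (T' + i0) with hK'
  -- pointwise
  have hpt : ∀ P P' A A', P.length = r → P'.length = r →
      (if α P P' ∧ Q (HT hX A.1) (HT hY A'.1) (Dp zX A.1) (Dp zY A'.1) ∧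
        Kev hX hY zX zY sX sY w lo hi P A P' A' then (1 : ℝ≥0∞) else 0)
      ≤ ∑ i ∈ I ×ˢ I' ×ˢ K ×ˢ K', ∑' x : G,
        (if HT hX (fl hX P) = i.1 ∧ HT hY (fl hY P') = i.2.1 ∧ α P P' ∧
          w + Dp zY (fl hY P') - Dp zX (fl hX P) = x then 1 else 0) *
        (if HT hX A.1 = i.2.2.1 ∧ HT hY A'.1 = i.2.2.2 ∧
          Q i.2.2.1 i.2.2.2 (Dp zX A.1) (Dp zY A'.1) ∧
          DC hX hY zX zY sX sY A.1 0 i.1 A'.1 x i.2.1 lo hi then 1 else 0) := by
    intro P P' A A' hP hP'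
    by_cases hc : α P P' ∧ Q (HT hX A.1) (HT hY A'.1) (Dp zX A.1) (Dp zY A'.1) ∧
        Kev hX hY zX zY sX sY w lo hi P A P' A'
    · rw [if_pos hc]
      have m1 : HT hX (fl hX P) ∈ I := by
        rw [hI, Finset.mem_Icc]
        have h1 := HT_fl_ge hX P
        have h2 := HT_fl_le hX P
        rw [hP] at h1 h2
        exact ⟨h1, by rw [mul_add] at h2; exact h2⟩
      have m2 : HT hY (fl hY P') ∈ I' := by
        rw [hI', Finset.mem_Icc]
        have h1 := HT_fl_ge hY P'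
        have h2 := HT_fl_le hY P'
        rw [hP'] at h1 h2
        exact ⟨h1, by rw [mul_add] at h2; exact h2⟩
      have m3 : HT hX A.1 ∈ K := Finset.mem_Icc.2 ⟨le_HT_of_fp hX A.2.1, A.2.2⟩
      have m4 : HT hY A'.1 ∈ K' := Finset.mem_Icc.2 ⟨le_HT_of_fp hY A'.2.1, A'.2.2⟩
      refine le_trans ?_ (Finset.single_le_sum (fun _ _ => zero_le)
        (Finset.mk_mem_product m1 (Finset.mk_mem_product m2 (Finset.mk_mem_product m3 m4))))
      refine le_trans ?_ (ENNReal.le_tsum (w + Dp zY (fl hY P') - Dp zX (fl hX P)))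
      have hd : DC hX hY zX zY sX sY A.1 0 (HT hX (fl hX P)) A'.1
          (w + Dp zY (fl hY P') - Dp zX (fl hX P)) (HT hY (fl hY P')) lo hi := by
        have := hc.2.2
        unfold Kev at this
        rw [← DC_shift hX hY zX zY sX sY A.1 0 (Dp zX (fl hX P)), zero_add, sub_add_cancel]
        exact this
      rw [if_pos ⟨rfl, rfl, hc.1, rfl⟩, if_pos ⟨rfl, rfl, hc.2.1, hd⟩, one_mul]
    · rw [if_neg hc]; exact zero_le
  refine (Tot_mono _ _ r hpt).trans ?_
  rw [Tot_finset]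
  have hcard : (I ×ˢ I' ×ˢ K ×ˢ K').card ≤ (N * i0 + 1) ^ 4 := by
    rw [Finset.card_product, Finset.card_product, Finset.card_product, hI, hK, hI', hK',
      Nat.card_Icc, Nat.card_Icc, Nat.card_Icc, Nat.card_Icc]
    have h1 : r * T + r * i0 + 1 - r * T ≤ N * i0 + 1 := by
      have : r * i0 ≤ N * i0 := Nat.mul_le_mul_right _ hrN.le
      omega
    have h2 : T + i0 + 1 - T ≤ N * i0 + 1 := by
      have : 1 * i0 ≤ N * i0 := Nat.mul_le_mul_right _ (by omega)
      omega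
    have h1' : r * T' + r * i0 + 1 - r * T' ≤ N * i0 + 1 := by
      have : r * i0 ≤ N * i0 := Nat.mul_le_mul_right _ hrN.le
      omega
    have h2' : T' + i0 + 1 - T' ≤ N * i0 + 1 := by
      have : 1 * i0 ≤ N * i0 := Nat.mul_le_mul_right _ (by omega)
      omega
    calc _ ≤ (N * i0 + 1) * ((N * i0 + 1) * ((N * i0 + 1) * (N * i0 + 1))) :=
          Nat.mul_le_mul h1 (Nat.mul_le_mul h1' (Nat.mul_le_mul h2 h2'))
      _ = _ := by ring
  refine le_trans (Finset.sum_le_card_nsmul _ _ Bd ?_) ?_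
  · rintro ⟨a, a', k, k'⟩ hi'
    rw [Finset.mem_product, Finset.mem_product, Finset.mem_product] at hi'
    obtain ⟨m1, m2, m3, m4⟩ := hi'
    simp only [hI, hK, hI', hK', Finset.mem_Icc] at m1 m2 m3 m4
    rw [Tot_tsum]
    set μ : G → ℝ≥0∞ := fun x => SL (wA ΛX hX T i0) r (fun P => SL (wA ΛY hY T' i0) r (fun P' =>
      if HT hX (fl hX P) = a ∧ HT hY (fl hY P') = a' ∧ α P P' ∧
          w + Dp zY (fl hY P') - Dp zX (fl hX P) = x then 1 else 0)) with hμ
    have hμM : ∀ x, μ x ≤ M := by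
      intro x
      refine le_trans ?_ (hM x)
      refine SL_mono _ r fun P _ => SL_mono _ r fun P' _ => ?_
      by_cases hc : HT hX (fl hX P) = a ∧ HT hY (fl hY P') = a' ∧ α P P' ∧
          w + Dp zY (fl hY P') - Dp zX (fl hX P) = x
      · rw [if_pos hc, if_pos hc.2.2]
      · rw [if_neg hc]; exact zero_le
    have hμ1 : ∑' x, μ x ≤ 1 := by
      have e1 : ∑' x, μ x = SL (wA ΛX hX T i0) r (fun P => SL (wA ΛY hY T' i0) r (fun P' =>
          ∑' x, if HT hX (fl hX P) = a ∧ HT hY (fl hY P') = a' ∧ α P P' ∧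
          w + Dp zY (fl hY P') - Dp zX (fl hX P) = x then 1 else 0)) := by
        rw [hμ, ← SL_tsum]
        refine SL_congr _ r fun P _ => ?_
        rw [← SL_tsum]
      rw [e1]
      refine le_trans (SL_mono _ r fun P _ => le_trans (SL_mono _ r fun P' _ => ?_)
        (SL_one_le _ hWY r)) (SL_one_le _ hWX r)
      rw [tsum_eq_single (w + Dp zY (fl hY P') - Dp zX (fl hX P))]
      · split_ifs <;> simp
      · intro x hx
        rw [if_neg (fun hh => hx hh.2.2.2.symm)]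
    refine le_trans (ENNReal.tsum_le_tsum fun x => ?_)
      (hB a a' k k' m1.1 m1.2 m2.1 m2.2 m3.1 m3.2 m4.1 m4.2 μ hμ1 hμM)
    rw [Tot_prod (wA ΛX hX T i0) (wA ΛY hY T' i0) r
      (fun P P' => if HT hX (fl hX P) = a ∧ HT hY (fl hY P') = a' ∧ α P P' ∧
          w + Dp zY (fl hY P') - Dp zX (fl hX P) = x then 1 else 0)
      (fun A A' => if HT hX A.1 = k ∧ HT hY A'.1 = k' ∧
          Q k k' (Dp zX A.1) (Dp zY A'.1) ∧
          DC hX hY zX zY sX sY A.1 0 a A'.1 x a' lo hi then 1 else 0)]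
    refine mul_le_mul_right ?_ _
    -- drop the first passage constraint
    have e2 : ∀ A : Att hX T i0, ∑' A' : Att hY T' i0, wA ΛX hX T i0 A * wA ΛY hY T' i0 A' *
        (if HT hX A.1 = k ∧ HT hY A'.1 = k' ∧ Q k k' (Dp zX A.1) (Dp zY A'.1) ∧
          DC hX hY zX zY sX sY A.1 0 a A'.1 x a' lo hi then 1 else 0)
        ≤ ∑' L', (if HT hX A.1 = k ∧ HT hY L' = k' ∧ Q k k' (Dp zX A.1) (Dp zY L') ∧
        DC hX hY zX zY sX sY A.1 0 a L' x a' lo hi then LW ΛX A.1 * LW ΛY L' else 0) := by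
      intro A
      refine le_trans (le_of_eq ?_) (ENNReal.tsum_comp_le_tsum_of_injective
        (f := fun A' : Att hY T' i0 => A'.1) Subtype.val_injective _)
      refine tsum_congr fun A' => ?_
      split_ifs
      · rw [mul_one]; rfl
      · rw [mul_zero]
    refine (ENNReal.tsum_le_tsum e2).trans ?_
    exact ENNReal.tsum_comp_le_tsum_of_injective
        (f := fun A : Att hX T i0 => A.1) Subtype.val_injective
        (fun L => ∑' L', (if HT hX L = k ∧ HT hY L' = k' ∧ Q k k' (Dp zX L) (Dp zY L') ∧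
        DC hX hY zX zY sX sY L 0 a L' x a' lo hi then LW ΛX L * LW ΛY L' else 0))
  · rw [nsmul_eq_mul]
    refine mul_le_mul_left ?_ _
    exact_mod_cast hcard

end win

end Crest.Agent.R154.Asm877
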