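import Crest.Agent.R154.AsmR_913

/-! Row 154, ROAD 801 (helper913): assembly, part 4: the bound for one window. -/

set_option autoImplicit false

namespace Crest.Agent.R154.Asm913

open scoped ENNReal
open Crest.Agent.R154.B5A Crest.Agent.R154.FP178
open Classical

variable {BX BY G : Type*} [AddCommGroup G]
variable (ΛX : BX → ℝ≥0∞) (hX : BX → ℕ) (zX : BX → G) (sX : BX → Set (G × ℕ))
variable (ΛY : BY → ℝ≥0∞) (hY : BY → ℕ) (zY : BY → G) (sY : BY → Set (G × ℕ))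

theorem win2 {C : ℝ≥0∞} {us : ℕ → ℝ≥0∞} (H2 : H2L ΛX hX zX sX ΛY hY zY sY C us)
    (H3 : H3L ΛX hX zX sX ΛY hY zY sY C us)
    (hX1 : ∀ b, 1 ≤ hX b) (hΛX : ∑' b, ΛX b = 1) (hY1 : ∀ b, 1 ≤ hY b) (hΛY : ∑' b, ΛY b = 1)
    (i0 : ℕ) (ε1 : ℝ≥0∞)
    (hovX : ∀ a, ∑' L, (if fp hX a L ∧ a + i0 < HT hX L then LW ΛX L else 0) ≤ ε1)
    (hovY : ∀ a, ∑' L, (if fp hY a L ∧ a + i0 < HT hY L then LW ΛY L else 0) ≤ ε1)
    (A t s J : ℕ) (hJ : J * (3 * t + 2 * i0) ≤ A) (hs : s ≤ 3 * t) (w : G)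
    (u thX thY lam : ℝ≥0∞) (hu0 : u ≠ 0) (hu1 : u ≤ 1) (hthX : thX ≠ 0) (hthY : thY ≠ 0)
    (hl0 : lam ≠ 0) (hlt : lam ≠ ⊤)
    (hX2 : ∑' y, (if att ΛX hX zX (3 * t) y < thX then att ΛX hX zX (3 * t) y else 0) ≤ u)
    (hX3 : u ≤ ∑' y, (if att ΛX hX zX (3 * t) y ≤ thX then att ΛX hX zX (3 * t) y else 0))
    (hY2 : ∑' y, (if att ΛY hY zY (3 * t + i0) y < thY then att ΛY hY zY (3 * t + i0) y else 0) ≤ u)
    (hY3 : u ≤ ∑' y, (if att ΛY hY zY (3 * t + i0) y ≤ thY then att ΛY hY zY (3 * t + i0) y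
      else 0)) :
    S4 (fun L1 P L2 Q => wA ΛX hX i0 A L1 * wA ΛX hX i0 (3 * t) P *
        (wA ΛY hY i0 (A + i0) L2 * wA ΛY hY i0 (3 * t + i0) Q) *
        (if PE hX zX sX hY zY sY (A + 2 * i0 + s) (A + 3 * t - s) (HT hX L1) (HT hY L2)
          (w + Dp zY L2 - Dp zX L1) P Q then 1 else 0))
    ≤ ((i0 : ℝ≥0∞) + 1) ^ 4 * (C * (lam + ((i0 : ℝ≥0∞) + 1) / u * us s / lam + us s)) +
      (((i0 : ℝ≥0∞) + 1) ^ 4 * (C * (lam + ((i0 : ℝ≥0∞) + 1) / u * us s / lam + us s)) +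
      (u * u + (((1 - u) ^ J + J * ε1) + ((1 - u) ^ J + J * ε1)))) := by
  set lo := A + 2 * i0 + s with hlo
  set hi := A + 3 * t - s with hhi
  set τ := 3 * t with hτ
  set SmX : List BX → Prop := Sm hX τ i0 (fun P => att ΛX hX zX τ (kap hX zX τ P) ≤ thX) J with hSmX
  set SmY : List BY → Prop := Sm hY (τ + i0) i0
    (fun P => att ΛY hY zY (τ + i0) (kap hY zY (τ + i0) P) ≤ thY) J with hSmY
  choose EX hEX1 hEX2 using fun i => loc_fin ΛX hX zX hX1 hΛX τ hthX i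
  choose EY hEY1 hEY2 using fun i => loc_fin ΛY hY zY hY1 hΛY (τ + i0) hthY i
  set I : Finset (ℕ × ℕ × ℕ × ℕ) := Finset.range (i0 + 1) ×ˢ Finset.range (i0 + 1) ×ˢ
    Finset.range (i0 + 1) ×ˢ Finset.range (i0 + 1) with hI
  set T1 : ℕ × ℕ × ℕ × ℕ → List BX → List BX → List BY → List BY → ℝ≥0∞ := fun q L1 P L2 Q =>
    (if HT hX L1 = A + q.1 ∧ SmX L1 then LW ΛX L1 else 0) *
      (if HT hX P = τ + q.2.1 ∧ Dp zX P ∈ EX q.2.1 then LW ΛX P else 0) *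
      ((if HT hY L2 = A + i0 + q.2.2.1 ∧ True then LW ΛY L2 else 0) *
        (if HT hY Q = τ + i0 + q.2.2.2 ∧ True then LW ΛY Q else 0)) *
      (if PE hX zX sX hY zY sY lo hi (A + q.1) (A + i0 + q.2.2.1) (w + Dp zY L2 - Dp zX L1) P Q
        then 1 else 0) with hT1
  set T2 : ℕ × ℕ × ℕ × ℕ → List BX → List BX → List BY → List BY → ℝ≥0∞ := fun q L1 P L2 Q =>
    (if HT hX L1 = A + q.1 ∧ True then LW ΛX L1 else 0) *
      (if HT hX P = τ + q.2.1 ∧ True then LW ΛX P else 0) *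
      ((if HT hY L2 = A + i0 + q.2.2.1 ∧ SmY L2 then LW ΛY L2 else 0) *
        (if HT hY Q = τ + i0 + q.2.2.2 ∧ Dp zY Q ∈ EY q.2.2.2 then LW ΛY Q else 0)) *
      (if PE hX zX sX hY zY sY lo hi (A + q.1) (A + i0 + q.2.2.1) (w + Dp zY L2 - Dp zX L1) P Q
        then 1 else 0) with hT2
  set nX : List BX → ℝ≥0∞ := fun P => if fp hX τ P ∧ att ΛX hX zX τ (kap hX zX τ P) < thX
    then LW ΛX P else 0 with hnX
  set nY : List BY → ℝ≥0∞ := fun Q => if fp hY (τ + i0) Q ∧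
    att ΛY hY zY (τ + i0) (kap hY zY (τ + i0) Q) < thY then LW ΛY Q else 0 with hnY
  set bX : List BX → ℝ≥0∞ := fun L => if fp hX A L ∧ ¬ SmX L then LW ΛX L else 0 with hbX
  set bY : List BY → ℝ≥0∞ := fun L => if fp hY (A + i0) L ∧ ¬ SmY L then LW ΛY L else 0 with hbY
  have hpt : ∀ (L1 P : List BX) (L2 Q : List BY), wA ΛX hX i0 A L1 * wA ΛX hX i0 τ P *
        (wA ΛY hY i0 (A + i0) L2 * wA ΛY hY i0 (τ + i0) Q) *
        (if PE hX zX sX hY zY sY lo hi (HT hX L1) (HT hY L2) (w + Dp zY L2 - Dp zX L1) P Q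
          then 1 else 0)
      ≤ (∑ q ∈ I, T1 q L1 P L2 Q) + ((∑ q ∈ I, T2 q L1 P L2 Q) +
        (wA ΛX hX i0 A L1 * nX P * (wA ΛY hY i0 (A + i0) L2 * nY Q) +
        (bX L1 * wA ΛX hX i0 τ P * (wA ΛY hY i0 (A + i0) L2 * wA ΛY hY i0 (τ + i0) Q) +
          wA ΛX hX i0 A L1 * wA ΛX hX i0 τ P * (bY L2 * wA ΛY hY i0 (τ + i0) Q)))) := by
    intro L1 P L2 Q
    by_cases c1 : fp hX A L1 ∧ HT hX L1 ≤ A + i0
    swap
    · have : wA ΛX hX i0 A L1 = 0 := if_neg c1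
      rw [this]; simp
    by_cases c2 : fp hX τ P ∧ HT hX P ≤ τ + i0
    swap
    · have : wA ΛX hX i0 τ P = 0 := if_neg c2
      rw [this]; simp
    by_cases c3 : fp hY (A + i0) L2 ∧ HT hY L2 ≤ A + i0 + i0
    swap
    · have : wA ΛY hY i0 (A + i0) L2 = 0 := if_neg c3
      rw [this]; simp
    by_cases c4 : fp hY (τ + i0) Q ∧ HT hY Q ≤ τ + i0 + i0
    swap
    · have : wA ΛY hY i0 (τ + i0) Q = 0 := if_neg c4
      rw [this]; simp
    by_cases c5 : PE hX zX sX hY zY sY lo hi (HT hX L1) (HT hY L2) (w + Dp zY L2 - Dp zX L1) P Q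
    swap
    · rw [if_neg c5, mul_zero]; exact zero_le
    have e1 : wA ΛX hX i0 A L1 = LW ΛX L1 := if_pos c1
    have e2 : wA ΛX hX i0 τ P = LW ΛX P := if_pos c2
    have e3 : wA ΛY hY i0 (A + i0) L2 = LW ΛY L2 := if_pos c3
    have e4 : wA ΛY hY i0 (τ + i0) Q = LW ΛY Q := if_pos c4
    rw [e1, e2, e3, e4, if_pos c5, mul_one]
    have k1 := le_HT_of_fp hX c1.1
    have k2 := le_HT_of_fp hX c2.1
    have k3 := le_HT_of_fp hY c3.1
    have k4 := le_HT_of_fp hY c4.1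
    have g1 : A + (HT hX L1 - A) = HT hX L1 := by omega
    have g2 : τ + (HT hX P - τ) = HT hX P := by omega
    have g3 : A + i0 + (HT hY L2 - (A + i0)) = HT hY L2 := by omega
    have g4 : τ + i0 + (HT hY Q - (τ + i0)) = HT hY Q := by omega
    have hq : ((HT hX L1 - A, HT hX P - τ, HT hY L2 - (A + i0), HT hY Q - (τ + i0)) :
        ℕ × ℕ × ℕ × ℕ) ∈ I := by
      rw [hI, Finset.mem_product, Finset.mem_product, Finset.mem_product]
      simp only [Finset.mem_range]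
      refine ⟨?_, ?_, ?_, ?_⟩ <;> omega
    by_cases hsx : SmX L1
    · by_cases hsy : SmY L2
      · by_cases hlx : thX ≤ att ΛX hX zX τ (kap hX zX τ P)
        · refine le_trans ?_ le_self_add
          refine le_trans ?_ (Finset.single_le_sum (f := fun q => T1 q L1 P L2 Q)
            (fun _ _ => zero_le) hq)
          simp only [hT1]
          rw [g1, g2, g3, g4, if_pos (show HT hX L1 = HT hX L1 ∧ SmX L1 from ⟨rfl, hsx⟩),
            if_pos (show HT hX P = HT hX P ∧ Dp zX P ∈ EX (HT hX P - τ) from ⟨rfl, hEX1 _ _ hlx⟩),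
            if_pos (show HT hY L2 = HT hY L2 ∧ True from ⟨rfl, trivial⟩),
            if_pos (show HT hY Q = HT hY Q ∧ True from ⟨rfl, trivial⟩), if_pos c5, mul_one]
        · by_cases hly : thY ≤ att ΛY hY zY (τ + i0) (kap hY zY (τ + i0) Q)
          · refine le_trans ?_ le_add_self
            refine le_trans ?_ le_self_add
            refine le_trans ?_ (Finset.single_le_sum (f := fun q => T2 q L1 P L2 Q)
              (fun _ _ => zero_le) hq)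
            simp only [hT2]
            rw [g1, g2, g3, g4, if_pos (show HT hX L1 = HT hX L1 ∧ True from ⟨rfl, trivial⟩),
              if_pos (show HT hX P = HT hX P ∧ True from ⟨rfl, trivial⟩),
              if_pos (show HT hY L2 = HT hY L2 ∧ SmY L2 from ⟨rfl, hsy⟩),
              if_pos (show HT hY Q = HT hY Q ∧ Dp zY Q ∈ EY (HT hY Q - (τ + i0)) from
                ⟨rfl, hEY1 _ _ hly⟩), if_pos c5, mul_one]
          · refine le_trans ?_ le_add_self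
            refine le_trans ?_ le_add_self
            refine le_trans ?_ le_self_add
            have f1 : nX P = LW ΛX P := if_pos ⟨c2.1, not_le.1 hlx⟩
            have f2 : nY Q = LW ΛY Q := if_pos ⟨c4.1, not_le.1 hly⟩
            rw [f1, f2]
      · refine le_trans ?_ le_add_self
        refine le_trans ?_ le_add_self
        refine le_trans ?_ le_add_self
        refine le_trans ?_ le_add_self
        have f1 : bY L2 = LW ΛY L2 := if_pos ⟨c3.1, hsy⟩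
        rw [f1]
    · refine le_trans ?_ le_add_self
      refine le_trans ?_ le_add_self
      refine le_trans ?_ le_add_self
      refine le_trans ?_ le_self_add
      have f1 : bX L1 = LW ΛX L1 := if_pos ⟨c1.1, hsx⟩
      rw [f1]
  refine (S4_mono hpt).trans ?_
  rw [S4_add (fun L1 P L2 Q => ∑ q ∈ I, T1 q L1 P L2 Q)
    (fun L1 P L2 Q => (∑ q ∈ I, T2 q L1 P L2 Q) +
        (wA ΛX hX i0 A L1 * nX P * (wA ΛY hY i0 (A + i0) L2 * nY Q) +
        (bX L1 * wA ΛX hX i0 τ P * (wA ΛY hY i0 (A + i0) L2 * wA ΛY hY i0 (τ + i0) Q) +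
          wA ΛX hX i0 A L1 * wA ΛX hX i0 τ P * (bY L2 * wA ΛY hY i0 (τ + i0) Q)))),
    S4_add (fun L1 P L2 Q => ∑ q ∈ I, T2 q L1 P L2 Q)
    (fun L1 P L2 Q => (wA ΛX hX i0 A L1 * nX P * (wA ΛY hY i0 (A + i0) L2 * nY Q) +
        (bX L1 * wA ΛX hX i0 τ P * (wA ΛY hY i0 (A + i0) L2 * wA ΛY hY i0 (τ + i0) Q) +
          wA ΛX hX i0 A L1 * wA ΛX hX i0 τ P * (bY L2 * wA ΛY hY i0 (τ + i0) Q)))),
    S4_add (fun L1 P L2 Q => wA ΛX hX i0 A L1 * nX P * (wA ΛY hY i0 (A + i0) L2 * nY Q))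
    (fun L1 P L2 Q => (bX L1 * wA ΛX hX i0 τ P * (wA ΛY hY i0 (A + i0) L2 * wA ΛY hY i0 (τ + i0) Q)
      + wA ΛX hX i0 A L1 * wA ΛX hX i0 τ P * (bY L2 * wA ΛY hY i0 (τ + i0) Q))),
    S4_add (fun L1 P L2 Q => bX L1 * wA ΛX hX i0 τ P *
      (wA ΛY hY i0 (A + i0) L2 * wA ΛY hY i0 (τ + i0) Q))
    (fun L1 P L2 Q => wA ΛX hX i0 A L1 * wA ΛX hX i0 τ P * (bY L2 * wA ΛY hY i0 (τ + i0) Q)),
    S4_sum, S4_sum, S4_prod, S4_prod, S4_prod]
  have sX1 := sum_wA ΛX hX hX1 hΛX i0 A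
  have sX2 := sum_wA ΛX hX hX1 hΛX i0 τ
  have sY1 := sum_wA ΛY hY hY1 hΛY i0 (A + i0)
  have sY2 := sum_wA ΛY hY hY1 hΛY i0 (τ + i0)
  have hnX' : ∑' P, nX P ≤ u := by
    rw [hnX, att_sum ΛX hX zX τ (fun y => att ΛX hX zX τ y < thX)]; exact hX2
  have hnY' : ∑' Q, nY Q ≤ u := by
    rw [hnY, att_sum ΛY hY zY (τ + i0) (fun y => att ΛY hY zY (τ + i0) y < thY)]; exact hY2
  have hrX := far_mass ΛX hX zX hX1 hΛX τ thX u hX3
  have hrY := far_mass ΛY hY zY hY1 hΛY (τ + i0) thY u hY3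
  have hJ1 : J * (τ + i0) ≤ A := le_trans (Nat.mul_le_mul_left J (by omega)) hJ
  have hJ2 : J * (τ + i0 + i0) ≤ A + i0 :=
    le_trans (Nat.mul_le_mul_left J (show τ + i0 + i0 ≤ τ + 2 * i0 by omega)) (by omega)
  have hbX' : ∑' L, bX L ≤ (1 - u) ^ J + J * ε1 :=
    Sm_rest ΛX hX hX1 hΛX τ i0 _ (1 - u) ε1 tsub_le_self
      (by convert hrX) (hovX τ) J A hJ1
  have hbY' : ∑' L, bY L ≤ (1 - u) ^ J + J * ε1 :=
    Sm_rest ΛY hY hY1 hΛY (τ + i0) i0 _ (1 - u) ε1 tsub_le_self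
      (by convert hrY) (hovY (τ + i0)) J (A + i0) hJ2
  have hUX := U_le_one ΛX hX hX1 hΛX
  have hUY := U_le_one ΛY hY hY1 hΛY
  have hcardI : (I.card : ℝ≥0∞) = ((i0 : ℝ≥0∞) + 1) ^ 4 := by
    rw [hI, Finset.card_product, Finset.card_product, Finset.card_product, Finset.card_range]
    push_cast
    ring
  have bd : ∀ (th : ℝ≥0∞) (c : ℕ), (c : ℝ≥0∞) * th ≤ 1 →
      C * (lam + ((i0 : ℝ≥0∞) + 1) * th / u * c * us s / lam + us s)
      ≤ C * (lam + ((i0 : ℝ≥0∞) + 1) / u * us s / lam + us s) := by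
    intro th c hc
    gcongr C * (lam + ?_ * us s / lam + us s)
    exact card_bd i0 th u c hc
  have hs1 : ∑ q ∈ I, S4 (T1 q) ≤ ((i0 : ℝ≥0∞) + 1) ^ 4 *
      (C * (lam + ((i0 : ℝ≥0∞) + 1) / u * us s / lam + us s)) := by
    rw [← hcardI, ← nsmul_eq_mul]
    refine Finset.sum_le_card_nsmul I _ _ fun q hq => ?_
    rw [hI, Finset.mem_product, Finset.mem_product, Finset.mem_product] at hq
    simp only [Finset.mem_range] at hq
    refine le_trans (term_X ΛX hX zX sX ΛY hY zY sY H2 hX1 hΛX hY1 hΛY s lo hi (A + q.1)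
      (A + i0 + q.2.2.1) (τ + q.2.1) (τ + i0 + q.2.2.2) w SmX
      (((i0 : ℝ≥0∞) + 1) * thX / u) lam (EX q.2.1) (fun g => ?_) hl0 hlt (by omega) (by omega))
      (bd thX _ (hEX2 _))
    exact Sm_dens ΛX hX zX hUX τ i0 thX (1 - u) _ hrX (dens_const i0 thX u hu0 hu1) J _ g
  have hs2 : ∑ q ∈ I, S4 (T2 q) ≤ ((i0 : ℝ≥0∞) + 1) ^ 4 *
      (C * (lam + ((i0 : ℝ≥0∞) + 1) / u * us s / lam + us s)) := by
    rw [← hcardI, ← nsmul_eq_mul]
    refine Finset.sum_le_card_nsmul I _ _ fun q hq => ?_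
    rw [hI, Finset.mem_product, Finset.mem_product, Finset.mem_product] at hq
    simp only [Finset.mem_range] at hq
    refine le_trans (term_Y ΛX hX zX sX ΛY hY zY sY H3 hX1 hΛX hY1 hΛY s lo hi (A + q.1)
      (A + i0 + q.2.2.1) (τ + q.2.1) (τ + i0 + q.2.2.2) w SmY
      (((i0 : ℝ≥0∞) + 1) * thY / u) lam (EY q.2.2.2) (fun g => ?_) hl0 hlt (by omega) (by omega))
      (bd thY _ (hEY2 _))
    exact Sm_dens ΛY hY zY hUY (τ + i0) i0 thY (1 - u) _ hrY (dens_const i0 thY u hu0 hu1) J _ g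
  refine add_le_add hs1 (add_le_add hs2 (add_le_add ?_ (add_le_add ?_ ?_)))
  · calc (∑' a, wA ΛX hX i0 A a) * (∑' b, nX b) * ((∑' c, wA ΛY hY i0 (A + i0) c) * ∑' d, nY d)
        ≤ 1 * u * (1 * u) := by gcongr
      _ = u * u := by ring
  · calc (∑' a, bX a) * (∑' b, wA ΛX hX i0 τ b) * ((∑' c, wA ΛY hY i0 (A + i0) c) *
        ∑' d, wA ΛY hY i0 (τ + i0) d)
        ≤ ((1 - u) ^ J + J * ε1) * 1 * (1 * 1) := by gcongr
      _ = _ := by ring
  · calc (∑' a, wA ΛX hX i0 A a) * (∑' b, wA ΛX hX i0 τ b) * ((∑' c, bY c) *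
        ∑' d, wA ΛY hY i0 (τ + i0) d)
        ≤ 1 * 1 * (((1 - u) ^ J + J * ε1) * 1) := by gcongr
      _ = _ := by ring

end Crest.Agent.R154.Asm913
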