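import Crest.Agent.R154.FP_178

/-! Row 154 (helper950), ROAD 801: single-walker part of the abstract assembly. -/

set_option autoImplicit false

namespace Crest.Agent.R154.Asm950

open scoped ENNReal
open Crest.Agent.R154.B5A
open Crest.Agent.R154.FP178

/-- displacement of a list of blocks -/
def Dp {B G : Type*} [AddCommGroup G] (z : B → G) (L : List B) : G := (L.map z).sum

section Single

variable {B G : Type*} [AddCommGroup G] (Λ : B → ℝ≥0∞) (ht : B → ℕ) (zz : B → G)

lemma Dp_append (L L' : List B) : Dp zz (L ++ L') = Dp zz L + Dp zz L' := by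
  simp [Dp]

open Classical in
/-- joint law of (height, displacement) of the first passage of depth `a` -/
noncomputable def fl (a α : ℕ) (z : G) : ℝ≥0∞ :=
  ∑' L, (if fp ht a L ∧ HT ht L = α ∧ Dp zz L = z then LW Λ L else 0)

open Classical in
lemma fl_pull (a : ℕ) (F : ℕ → G → ℝ≥0∞) :
    ∑' L, (if fp ht a L then LW Λ L * F (HT ht L) (Dp zz L) else 0)
      = ∑' α, ∑' z, fl Λ ht zz a α z * F α z := by
  have e : ∀ α z, fl Λ ht zz a α z * F α z
      = ∑' L, (if fp ht a L ∧ HT ht L = α ∧ Dp zz L = z then LW Λ L * F α z else 0) := by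
    intro α z
    rw [fl, ← ENNReal.tsum_mul_right]
    refine tsum_congr fun L => ?_
    split_ifs <;> simp
  simp_rw [e]
  have e2 : ∀ α, ∑' z, ∑' L, (if fp ht a L ∧ HT ht L = α ∧ Dp zz L = z then LW Λ L * F α z else 0)
      = ∑' L, (if fp ht a L ∧ HT ht L = α then LW Λ L * F α (Dp zz L) else 0) := by
    intro α
    rw [ENNReal.tsum_comm]
    refine tsum_congr fun L => ?_
    rw [tsum_eq_single (Dp zz L)]
    · by_cases h : fp ht a L ∧ HT ht L = α
      · rw [if_pos h, if_pos ⟨h.1, h.2, rfl⟩]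
      · rw [if_neg h, if_neg (fun h' => h ⟨h'.1, h'.2.1⟩)]
    · intro z hz
      rw [if_neg (fun h' => hz h'.2.2.symm)]
  simp_rw [e2]
  rw [ENNReal.tsum_comm]
  refine tsum_congr fun L => ?_
  rw [tsum_eq_single (HT ht L)]
  · by_cases h : fp ht a L
    · rw [if_pos h, if_pos ⟨h, rfl⟩]
    · rw [if_neg h, if_neg (fun h' => h h'.1)]
  · intro α hα
    rw [if_neg (fun h' => hα h'.2.symm)]

open Classical in
lemma sum_FP_eq (h1 : ∀ b, 1 ≤ ht b) (hΛ : ∑' b, Λ b = 1) (a : ℕ) :
    ∑' L, (if fp ht a L then LW Λ L else 0) = 1 := by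
  induction a using Nat.strong_induction_on with
  | _ a ih =>
    rcases Nat.eq_zero_or_pos a with rfl | ha
    · have := sum_fp_zero Λ ht (fun _ => 1)
      simpa only [mul_one] using this
    · have := sum_fp_step Λ ht a ha (fun _ => 1)
      simp only [mul_one] at this
      rw [this]
      calc ∑' b, Λ b * ∑' L, (if fp ht (a - ht b) L then LW Λ L else 0)
          = ∑' b, Λ b * 1 := by
            refine tsum_congr fun b => ?_
            rw [ih (a - ht b) (by have := h1 b; omega)]
        _ = 1 := by simpa using hΛ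

lemma sum_fl (h1 : ∀ b, 1 ≤ ht b) (hΛ : ∑' b, Λ b = 1) (a : ℕ) :
    ∑' α, ∑' z, fl Λ ht zz a α z = 1 := by
  have := fl_pull Λ ht zz a (fun _ _ => 1)
  simp only [mul_one] at this
  rw [← this, sum_FP_eq Λ ht h1 hΛ]

lemma sum_fl_z (h1 : ∀ b, 1 ≤ ht b) (hΛ : ∑' b, Λ b = 1) (a α : ℕ) :
    ∑' z, fl Λ ht zz a α z ≤ 1 := by
  rw [← sum_fl Λ ht zz h1 hΛ a]
  exact ENNReal.le_tsum (f := fun α => ∑' z, fl Λ ht zz a α z) α

lemma fl_lt (a α : ℕ) (z : G) (h : α < a) : fl Λ ht zz a α z = 0 := by
  classical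
  rw [fl, ENNReal.tsum_eq_zero]
  intro L
  rw [if_neg]
  rintro ⟨h1, h2, -⟩
  have := le_HT_of_fp ht h1
  omega

open Classical in
/-- first attempt -/
lemma fl_step (h1 : ∀ b, 1 ≤ ht b) (τ a : ℕ) (hτ : τ ≤ a) (α : ℕ) (z : G) :
    fl Λ ht zz a α z = ∑' α', ∑' z', fl Λ ht zz τ α' z' *
      (if α' ≤ α then fl Λ ht zz (a - α') (α - α') (z - z') else 0) := by
  have e0 : fl Λ ht zz a α z = ∑' L, (if fp ht a L then LW Λ L *
      (if HT ht L = α ∧ Dp zz L = z then 1 else 0) else 0) := by
    rw [fl]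
    refine tsum_congr fun L => ?_
    by_cases h : fp ht a L <;> by_cases h' : HT ht L = α ∧ Dp zz L = z <;> simp [h, h']
  rw [e0, fp_split Λ ht h1 τ a hτ]
  rw [← fl_pull Λ ht zz τ (fun α' z' => if α' ≤ α then fl Λ ht zz (a - α') (α - α') (z - z') else 0)]
  refine tsum_congr fun A => ?_
  by_cases hA : fp ht τ A
  · rw [if_pos hA, if_pos hA]
    congr 1
    by_cases hle : HT ht A ≤ α
    · rw [if_pos hle, fl]
      refine tsum_congr fun L => ?_
      by_cases hL : fp ht (a - HT ht A) L
      · rw [if_pos hL]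
        have hiff : (HT ht (A ++ L) = α ∧ Dp zz (A ++ L) = z) ↔
            (HT ht L = α - HT ht A ∧ Dp zz L = z - Dp zz A) := by
          rw [HT_append, Dp_append]
          constructor
          · rintro ⟨h2, h3⟩
            exact ⟨by omega, by rw [← h3]; abel⟩
          · rintro ⟨h2, h3⟩
            exact ⟨by omega, by rw [h3]; abel⟩
        by_cases h' : HT ht L = α - HT ht A ∧ Dp zz L = z - Dp zz A
        · have c1 : HT ht (A ++ L) = α ∧ Dp zz (A ++ L) = z := hiff.2 h'
          have c2 : fp ht (a - HT ht A) L ∧ HT ht L = α - HT ht A ∧ Dp zz L = z - Dp zz A := ⟨hL, h'⟩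
          rw [if_pos c1, if_pos c2, mul_one]
        · have c1 : ¬ (HT ht (A ++ L) = α ∧ Dp zz (A ++ L) = z) := fun h => h' (hiff.1 h)
          have c2 : ¬ (fp ht (a - HT ht A) L ∧ HT ht L = α - HT ht A ∧ Dp zz L = z - Dp zz A) :=
            fun h => h' h.2
          rw [if_neg c1, if_neg c2, mul_zero]
      · rw [if_neg hL, if_neg (fun h => hL h.1)]
    · rw [if_neg hle]
      rw [ENNReal.tsum_eq_zero]
      intro L
      by_cases hL : fp ht (a - HT ht A) L
      · rw [if_pos hL, if_neg, mul_zero]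
        rintro ⟨h2, -⟩
        rw [HT_append] at h2
        omega
      · rw [if_neg hL]
  · rw [if_neg hA, if_neg hA]

lemma shiftN (F : ℕ → ℝ≥0∞) (c : ℕ) :
    ∑' α, (if c ≤ α then F (α - c) else 0) ≤ ∑' β, F β := by
  classical
  have e : ∀ α, (if c ≤ α then F (α - c) else 0) = ∑' β, (if α = β + c then F β else 0) := by
    intro α
    by_cases h : c ≤ α
    · rw [if_pos h, tsum_eq_single (α - c)]
      · rw [if_pos (by omega)]
      · intro β hβ; rw [if_neg (by omega)]
    · rw [if_neg h, eq_comm, ENNReal.tsum_eq_zero]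
      intro β; rw [if_neg (by omega)]
  simp_rw [e]
  rw [ENNReal.tsum_comm]
  refine ENNReal.tsum_le_tsum fun β => ?_
  rw [tsum_eq_single (β + c)]
  · rw [if_pos rfl]
  · intro α hα; rw [if_neg hα]

lemma shiftG (F : G → ℝ≥0∞) (c : G) : ∑' z, F (z - c) = ∑' z, F z :=
  (Equiv.subRight c).tsum_eq F

lemma shiftG' (F : G → ℝ≥0∞) (c : G) : ∑' z, F (c - z) = ∑' z, F z :=
  (Equiv.subLeft c).tsum_eq F

lemma shift2 (F : ℕ → G → ℝ≥0∞) (c : ℕ) (x : G) :
    ∑' α, ∑' z, (if c ≤ α then F (α - c) (z - x) else 0) ≤ ∑' α, ∑' z, F α z := by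
  have e : ∀ α, ∑' z, (if c ≤ α then F (α - c) (z - x) else 0)
      = (if c ≤ α then (∑' z, F (α - c) z) else 0) := by
    intro α
    by_cases h : c ≤ α
    · simp only [if_pos h]; exact shiftG (fun z => F (α - c) z) x
    · simp only [if_neg h, tsum_zero]
  simp_rw [e]
  exact shiftN (fun β => ∑' z, F β z) c

lemma tsum_Icc_le (F : ℕ → ℝ≥0∞) (a i : ℕ) (c : ℝ≥0∞)
    (h0 : ∀ α, ¬ (a ≤ α ∧ α ≤ a + i) → F α = 0) (hc : ∀ α, F α ≤ c) :
    ∑' α, F α ≤ ((i : ℝ≥0∞) + 1) * c := by
  rw [tsum_eq_sum (s := Finset.Icc a (a + i))]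
  · calc ∑ α ∈ Finset.Icc a (a + i), F α ≤ ∑ _α ∈ Finset.Icc a (a + i), c :=
        Finset.sum_le_sum fun α _ => hc α
      _ = _ := by
        rw [Finset.sum_const, Nat.card_Icc, nsmul_eq_mul]
        congr 1
        rw [show a + i + 1 - a = i + 1 by omega]; push_cast; rfl
  · intro α hα
    exact h0 α (fun h => hα (Finset.mem_Icc.2 h))

open Classical in
/-- **801 (1)** : the law of the first passage = bounded part + small part. -/
theorem dens (h1 : ∀ b, 1 ≤ ht b) (hΛ : ∑' b, Λ b = 1) (τ i0 : ℕ) (th r εo : ℝ≥0∞) (hr : r ≤ 1)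
    (hR : ∑' α, ∑' z, (if α ≤ τ + i0 ∧ th < fl Λ ht zz τ α z then fl Λ ht zz τ α z else 0) ≤ r)
    (hO : ∑' α, ∑' z, (if τ + i0 < α then fl Λ ht zz τ α z else 0) ≤ εo) (J : ℕ) :
    ∀ a, J * (τ + i0) ≤ a → ∃ g b : ℕ → G → ℝ≥0∞, (∀ α z, fl Λ ht zz a α z ≤ g α z + b α z) ∧
      (∀ α z, g α z ≤ J * (((i0 : ℝ≥0∞) + 1) * th)) ∧ ∑' α, ∑' z, b α z ≤ r ^ J + J * εo := by
  induction J with
  | zero =>
    intro a _
    refine ⟨fun _ _ => 0, fl Λ ht zz a, fun α z => by simp, fun α z => by simp, ?_⟩
    rw [sum_fl Λ ht zz h1 hΛ]; simp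
  | succ J ih =>
    intro a ha
    have ha' : (J + 1) * (τ + i0) = J * (τ + i0) + (τ + i0) := by ring
    -- data for every first attempt
    have hex : ∀ α' : ℕ, ∃ g b : ℕ → G → ℝ≥0∞, (α' ≤ τ + i0 →
        ((∀ α z, fl Λ ht zz (a - α') α z ≤ g α z + b α z) ∧
        (∀ α z, g α z ≤ J * (((i0 : ℝ≥0∞) + 1) * th)) ∧ ∑' α, ∑' z, b α z ≤ r ^ J + J * εo)) := by
      intro α'
      by_cases h : α' ≤ τ + i0
      · obtain ⟨g, b, hgb⟩ := ih (a - α') (by omega)
        exact ⟨g, b, fun _ => hgb⟩
      · exact ⟨fun _ _ => 0, fun _ _ => 0, fun h' => absurd h' h⟩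
    choose g b hgb using hex
    set p := fl Λ ht zz τ with hp
    refine ⟨fun α z => ∑' α', ∑' z', ((if τ ≤ α' ∧ α' ≤ τ + i0 then
          th * (if α' ≤ α then fl Λ ht zz (a - α') (α - α') (z - z') else 0) else 0)
        + (if α' ≤ τ + i0 ∧ th < p α' z' then p α' z' * (if α' ≤ α then g α' (α - α') (z - z') else 0)
            else 0)),
      fun α z => ∑' α', ∑' z', ((if α' ≤ τ + i0 ∧ th < p α' z' then
          p α' z' * (if α' ≤ α then b α' (α - α') (z - z') else 0) else 0)
        + (if τ + i0 < α' then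
          p α' z' * (if α' ≤ α then fl Λ ht zz (a - α') (α - α') (z - z') else 0) else 0)),
      ?_, ?_, ?_⟩
    · intro α z
      rw [fl_step Λ ht zz h1 τ a (by omega) α z]
      simp only
      rw [← ENNReal.tsum_add]
      refine ENNReal.tsum_le_tsum fun α' => ?_
      rw [← ENNReal.tsum_add]
      refine ENNReal.tsum_le_tsum fun z' => ?_
      change p α' z' * _ ≤ _
      rcases Nat.lt_or_ge (τ + i0) α' with h | h
      · refine le_trans ?_ le_add_self
        refine le_trans ?_ le_add_self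
        rw [if_pos h]
      · by_cases ht' : th < p α' z'
        · have c1 : α' ≤ τ + i0 ∧ th < p α' z' := ⟨h, ht'⟩
          have c2 : ¬ τ + i0 < α' := not_lt.2 h
          rw [if_pos c1, if_pos c1, if_neg c2, add_zero]
          by_cases hα : α' ≤ α
          · simp only [if_pos hα]
            calc p α' z' * fl Λ ht zz (a - α') (α - α') (z - z')
                ≤ p α' z' * (g α' (α - α') (z - z') + b α' (α - α') (z - z')) :=
                  mul_le_mul_right ((hgb α' h).1 _ _) _
              _ = p α' z' * g α' (α - α') (z - z') + p α' z' * b α' (α - α') (z - z') := mul_add _ _ _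
              _ ≤ _ := by gcongr; exact le_add_self
          · simp only [if_neg hα, mul_zero, zero_le]
        · rcases Nat.lt_or_ge α' τ with h2 | h2
          · have : p α' z' = 0 := fl_lt Λ ht zz τ α' z' h2
            rw [this, zero_mul]; exact zero_le
          · have c1 : τ ≤ α' ∧ α' ≤ τ + i0 := ⟨h2, h⟩
            rw [if_pos c1]
            refine le_trans (mul_le_mul_left (not_lt.1 ht') _) ?_
            refine le_trans ?_ le_self_add
            exact le_self_add
    · intro α z
      simp only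
      have e : ∀ α', ∑' z', ((if τ ≤ α' ∧ α' ≤ τ + i0 then
          th * (if α' ≤ α then fl Λ ht zz (a - α') (α - α') (z - z') else 0) else 0)
        + (if α' ≤ τ + i0 ∧ th < p α' z' then p α' z' * (if α' ≤ α then g α' (α - α') (z - z') else 0)
            else 0))
          = (∑' z', (if τ ≤ α' ∧ α' ≤ τ + i0 then
          th * (if α' ≤ α then fl Λ ht zz (a - α') (α - α') (z - z') else 0) else 0))
          + ∑' z', (if α' ≤ τ + i0 ∧ th < p α' z' then
              p α' z' * (if α' ≤ α then g α' (α - α') (z - z') else 0) else 0) :=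
        fun α' => ENNReal.tsum_add
      simp_rw [e]
      rw [ENNReal.tsum_add]
      have hA : ∑' α', ∑' z', (if τ ≤ α' ∧ α' ≤ τ + i0 then
          th * (if α' ≤ α then fl Λ ht zz (a - α') (α - α') (z - z') else 0) else 0)
          ≤ ((i0 : ℝ≥0∞) + 1) * th := by
        refine tsum_Icc_le _ τ i0 th ?_ ?_
        · intro α' h
          simp only [if_neg h, tsum_zero]
        · intro α'
          by_cases h : τ ≤ α' ∧ α' ≤ τ + i0
          · simp only [if_pos h]
            rw [ENNReal.tsum_mul_left]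
            by_cases hα : α' ≤ α
            · simp only [if_pos hα]
              rw [shiftG' (fun z' => fl Λ ht zz (a - α') (α - α') z') z]
              calc th * _ ≤ th * 1 := mul_le_mul_right (sum_fl_z Λ ht zz h1 hΛ _ _) _
                _ = th := mul_one _
            · simp only [if_neg hα, tsum_zero, mul_zero, zero_le]
          · simp only [if_neg h, tsum_zero, zero_le]
      have hB : ∑' α', ∑' z', (if α' ≤ τ + i0 ∧ th < p α' z' then
              p α' z' * (if α' ≤ α then g α' (α - α') (z - z') else 0) else 0)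
          ≤ J * (((i0 : ℝ≥0∞) + 1) * th) := by
        calc _ ≤ ∑' α', ∑' z', (if α' ≤ τ + i0 ∧ th < p α' z' then p α' z' else 0)
              * (J * (((i0 : ℝ≥0∞) + 1) * th)) := by
              refine ENNReal.tsum_le_tsum fun α' => ENNReal.tsum_le_tsum fun z' => ?_
              by_cases h : α' ≤ τ + i0 ∧ th < p α' z'
              · rw [if_pos h, if_pos h]
                refine mul_le_mul_right ?_ _
                by_cases hα : α' ≤ α
                · rw [if_pos hα]; exact (hgb α' h.1).2.1 _ _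
                · rw [if_neg hα]; exact zero_le
              · rw [if_neg h, if_neg h, zero_mul]
          _ = (∑' α', ∑' z', (if α' ≤ τ + i0 ∧ th < p α' z' then p α' z' else 0))
              * (J * (((i0 : ℝ≥0∞) + 1) * th)) := by
              simp_rw [ENNReal.tsum_mul_right]
          _ ≤ 1 * (J * (((i0 : ℝ≥0∞) + 1) * th)) := mul_le_mul_left (le_trans hR hr) _
          _ = _ := one_mul _
      calc _ ≤ ((i0 : ℝ≥0∞) + 1) * th + J * (((i0 : ℝ≥0∞) + 1) * th) := add_le_add hA hB
        _ = _ := by push_cast; ring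
    · simp only
      have hsw : ∀ F : ℕ → G → ℕ → G → ℝ≥0∞, ∑' α, ∑' z, ∑' α', ∑' z', F α z α' z'
          = ∑' α', ∑' z', ∑' α, ∑' z, F α z α' z' := by
        intro F
        calc ∑' α, ∑' z, ∑' α', ∑' z', F α z α' z'
            = ∑' α, ∑' α', ∑' z, ∑' z', F α z α' z' := by
              refine tsum_congr fun α => ENNReal.tsum_comm
          _ = ∑' α', ∑' α, ∑' z, ∑' z', F α z α' z' := ENNReal.tsum_comm
          _ = ∑' α', ∑' α, ∑' z', ∑' z, F α z α' z' := by
              refine tsum_congr fun α' => tsum_congr fun α => ENNReal.tsum_comm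
          _ = ∑' α', ∑' z', ∑' α, ∑' z, F α z α' z' := by
              refine tsum_congr fun α' => ENNReal.tsum_comm
      rw [hsw]
      have hkey : ∀ α' z', ∑' α, ∑' z, ((if α' ≤ τ + i0 ∧ th < p α' z' then
          p α' z' * (if α' ≤ α then b α' (α - α') (z - z') else 0) else 0)
        + (if τ + i0 < α' then
          p α' z' * (if α' ≤ α then fl Λ ht zz (a - α') (α - α') (z - z') else 0) else 0))
          ≤ (if α' ≤ τ + i0 ∧ th < p α' z' then p α' z' else 0) * (r ^ J + J * εo)
            + (if τ + i0 < α' then p α' z' else 0) := by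
        intro α' z'
        by_cases h : α' ≤ τ + i0 ∧ th < p α' z'
        · have h2 : ¬ τ + i0 < α' := not_lt.2 h.1
          simp only [if_pos h, if_neg h2, add_zero]
          simp_rw [ENNReal.tsum_mul_left]
          exact mul_le_mul_right (le_trans (shift2 (b α') α' z') (hgb α' h.1).2.2) _
        · by_cases h2 : τ + i0 < α'
          · simp only [if_neg h, if_pos h2, zero_add, zero_mul]
            simp_rw [ENNReal.tsum_mul_left]
            calc p α' z' * _ ≤ p α' z' * 1 := by
                  refine mul_le_mul_right ?_ _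
                  refine le_trans (shift2 (fl Λ ht zz (a - α')) α' z') ?_
                  exact (sum_fl Λ ht zz h1 hΛ _).le
              _ = _ := mul_one _
          · simp only [if_neg h, if_neg h2, add_zero, tsum_zero, zero_mul, le_refl]
      calc _ ≤ ∑' α', ∑' z', ((if α' ≤ τ + i0 ∧ th < p α' z' then p α' z' else 0) * (r ^ J + J * εo)
            + (if τ + i0 < α' then p α' z' else 0)) :=
            ENNReal.tsum_le_tsum fun α' => ENNReal.tsum_le_tsum fun z' => hkey α' z'
        _ = (∑' α', ∑' z', (if α' ≤ τ + i0 ∧ th < p α' z' then p α' z' else 0)) * (r ^ J + J * εo)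
            + ∑' α', ∑' z', (if τ + i0 < α' then p α' z' else 0) := by
            simp_rw [ENNReal.tsum_add, ENNReal.tsum_mul_right]
        _ ≤ r * (r ^ J + J * εo) + εo := add_le_add (mul_le_mul_left hR _) hO
        _ = r ^ (J + 1) + (r * (J * εo) + εo) := by ring
        _ ≤ r ^ (J + 1) + (1 * (J * εo) + εo) := by gcongr
        _ = _ := by push_cast; ring

end Single

end Crest.Agent.R154.Asm950
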