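import Crest.Agent.R154.AsmS_1
import Crest.Agent.R154.Ext_583

/-! Row 154, ROAD 801 (helper1): `kapS` from the window theorem. -/

set_option autoImplicit false

namespace Crest.Agent.R154.AsmT1

open scoped ENNReal Topology
open Crest.Agent.R154.B5A Crest.Agent.R154.FP178 Crest.Agent.R154.AsmP1 Crest.Agent.R154.AsmQ1
open Crest.Agent.R154.AsmR1 Crest.Agent.R154.AsmS1
open Crest.Agent.R154.Asm540 (TR Cm KS H5 TR_append TR_depth TR_shift)

lemma small (K : ℝ≥0∞) (hK : K ≠ ⊤) (ε : ℝ≥0∞) (hε : ε ≠ 0) :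
    ∃ δ : ℝ≥0∞, δ ≠ 0 ∧ δ ≠ ⊤ ∧ K * δ ≤ ε := by
  have hK1 : K + 1 ≠ ⊤ := ENNReal.add_ne_top.2 ⟨hK, ENNReal.one_ne_top⟩
  have hK0 : K + 1 ≠ 0 := by simp
  refine ⟨min 1 (ε / (K + 1)), ?_, ?_, ?_⟩
  · have h1 : 0 < ε / (K + 1) := ENNReal.div_pos hε hK1
    exact (lt_min one_pos h1).ne'
  · exact ne_top_of_le_ne_top ENNReal.one_ne_top (min_le_left _ _)
  · calc K * min 1 (ε / (K + 1)) ≤ (K + 1) * (ε / (K + 1)) :=
          mul_le_mul' le_self_add (min_le_right _ _)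
      _ = ε := ENNReal.mul_div_cancel hK0 hK1

section one

variable {B : Type*} (Λ : B → ℝ≥0∞) (ht : B → ℕ)

lemma sum_tail : ∑' k, tail Λ ht k = ∑' b, Λ b * (ht b : ℝ≥0∞) := by
  simp only [tail]
  rw [ENNReal.tsum_comm]
  refine tsum_congr fun b => ?_
  rw [tsum_eq_sum (s := Finset.range (ht b))]
  · rw [Finset.sum_congr rfl (g := fun _ => Λ b)]
    · rw [Finset.sum_const, Finset.card_range, nsmul_eq_mul, mul_comm]
    · intro k hk
      rw [if_pos (Finset.mem_range.1 hk)]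
  · intro k hk
    rw [if_neg (fun h => hk (Finset.mem_range.2 h))]

lemma tail_tendsto (h : ∑' b, Λ b * (ht b : ℝ≥0∞) ≠ ⊤) :
    Filter.Tendsto (fun i => ∑' k, tail Λ ht (i + k)) Filter.atTop (𝓝 0) := by
  have := ENNReal.tendsto_sum_nat_add (tail Λ ht) (by rw [sum_tail]; exact h)
  refine this.congr fun i => tsum_congr fun k => ?_
  rw [add_comm]

lemma over_le' (h1 : ∀ b, 1 ≤ ht b) (hU1 : ∀ n, U Λ ht n ≤ 1) (i a : ℕ) :
    ∑' L, fw Λ ht a L * ind (a + i < HT ht L) ≤ ∑' k, tail Λ ht (i + k) := by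
  refine le_trans (le_of_eq (tsum_congr fun L => ?_)) (overshoot Λ ht h1 hU1 i a)
  classical
  rw [ite_eq_ind, ind_and, fw]
  ring

lemma quantile {G : Type*} [AddCommGroup G] (z : B → G) (h1 : ∀ b, 1 ≤ ht b)
    (hΛ : ∑' b, Λ b = 1) (T : ℕ) (u : ℝ≥0∞) (hu : u ≠ 0) (hu1 : u < 1) :
    ∃ θ : ℝ≥0∞, θ ≠ 0 ∧
      ∑' L, fw Λ ht T L * ind (pl Λ ht z T (HT ht L, dp z L) < θ) ≤ u ∧
      ∑' L, fw Λ ht T L * ind (¬ pl Λ ht z T (HT ht L, dp z L) < 2 * θ) ≤ 1 - u := by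
  classical
  obtain ⟨θ, h0, -, h2, h3⟩ := AsmA789.quant (pl Λ ht z T) (sum_pl Λ ht z h1 hΛ T) hu hu1
  have e : ∀ P : ℕ × G → Prop, ∑' L, fw Λ ht T L * ind (P (HT ht L, dp z L))
      = ∑' y, pl Λ ht z T y * ind (P y) := fun P =>
    fiber (fw Λ ht T) (fun L => (HT ht L, dp z L)) (fun y => ind (P y))
  have h2' : ∑' y, pl Λ ht z T y * ind (pl Λ ht z T y < θ) ≤ u := by
    refine le_trans (le_of_eq (tsum_congr fun y => ?_)) h2
    rw [ite_eq_ind, mul_comm]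
  have h3' : u ≤ ∑' y, pl Λ ht z T y * ind (pl Λ ht z T y < 2 * θ) := by
    refine le_trans h3 (le_of_eq (tsum_congr fun y => ?_))
    rw [ite_eq_ind, mul_comm]
  refine ⟨θ, h0, ?_, ?_⟩
  · rw [e (fun y => pl Λ ht z T y < θ)]; exact h2'
  · rw [e (fun y => ¬ pl Λ ht z T y < 2 * θ)]
    have hs : ∑' y, pl Λ ht z T y * ind (pl Λ ht z T y < 2 * θ)
        + ∑' y, pl Λ ht z T y * ind (¬ pl Λ ht z T y < 2 * θ) = 1 := by
      rw [← ENNReal.tsum_add, ← sum_pl Λ ht z h1 hΛ T]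
      refine tsum_congr fun y => ?_
      by_cases h : pl Λ ht z T y < 2 * θ
      · rw [ind_true h, ind_false (not_not.2 h), mul_one, mul_zero, add_zero]
      · rw [ind_false h, ind_true h, mul_one, mul_zero, zero_add]
    have hu' : u ≠ ⊤ := hu1.ne_top
    refine ENNReal.le_sub_of_add_le_left hu' ?_
    rw [← hs]
    exact add_le_add h3' le_rfl

end one

variable {BX BY G : Type*} [AddCommGroup G]
  (ΛX : BX → ℝ≥0∞) (ΛY : BY → ℝ≥0∞) (hX : BX → ℕ) (hY : BY → ℕ) (zX : BX → G) (zY : BY → G)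
  (sX : BX → Set (G × ℕ)) (sY : BY → Set (G × ℕ))

open Classical in
/-- windows cover -/
lemma cover (n m τ K i0 s : ℕ) (w : G) (hK : 1 ≤ K) (hτ1 : K * τ ≤ m) (hτ2 : m < (K + 1) * τ)
    (hτ : 2 * i0 + 2 * s + 1 ≤ τ) :
    KS ΛX ΛY hX hY zX zY sX sY n w (Set.Ioc m (2 * m))
      ≤ ∑ j ∈ Finset.Icc (K - 1) (2 * K + 1),
        ((∑' L : List BX, ∑' L' : List BY, (if HT hX L = n ∧ HT hY L' = n ∧
          Ev hX hY zX zY sX sY w (j * τ) (2 * τ) i0 s L L' then LW ΛX L * LW ΛY L' else 0))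
        + (KS ΛX ΛY hX hY zX zY sX sY n w
            (Set.Ico (j * τ + 1) (j * τ + 1 + (2 * i0 + s)))
        + KS ΛX ΛY hX hY zX zY sX sY n w
            (Set.Ico (j * τ + 2 * τ - s + 1) (j * τ + 2 * τ - s + 1 + (2 * i0 + s))))) := by
  have hpt : ∀ (L : List BX) (L' : List BY),
      (if HT hX L = n ∧ HT hY L' = n ∧ ∃ g k, k ∈ Set.Ioc m (2 * m) ∧
        Cm hX hY zX zY sX sY L L' w 0 0 g k then LW ΛX L * LW ΛY L' else 0)
      ≤ ∑ j ∈ Finset.Icc (K - 1) (2 * K + 1),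
        ((if HT hX L = n ∧ HT hY L' = n ∧
          Ev hX hY zX zY sX sY w (j * τ) (2 * τ) i0 s L L' then LW ΛX L * LW ΛY L' else 0)
        + ((if HT hX L = n ∧ HT hY L' = n ∧ ∃ g k,
            k ∈ Set.Ico (j * τ + 1) (j * τ + 1 + (2 * i0 + s)) ∧
            Cm hX hY zX zY sX sY L L' w 0 0 g k then LW ΛX L * LW ΛY L' else 0)
        + (if HT hX L = n ∧ HT hY L' = n ∧ ∃ g k,
            k ∈ Set.Ico (j * τ + 2 * τ - s + 1) (j * τ + 2 * τ - s + 1 + (2 * i0 + s)) ∧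
            Cm hX hY zX zY sX sY L L' w 0 0 g k then LW ΛX L * LW ΛY L' else 0))) := by
    intro L L'
    by_cases h : HT hX L = n ∧ HT hY L' = n ∧ ∃ g k, k ∈ Set.Ioc m (2 * m) ∧
        Cm hX hY zX zY sX sY L L' w 0 0 g k
    swap
    · rw [if_neg h]; exact zero_le
    rw [if_pos h]
    obtain ⟨h1, h2, g, k, hk, hc⟩ := h
    obtain ⟨hk1, hk2⟩ := hk
    set j := (k - 2 * i0 - s - 1) / τ with hj
    have hτ0 : 0 < τ := by omega
    have hj1 : j * τ ≤ k - 2 * i0 - s - 1 := Nat.div_mul_le_self _ _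
    have hj2 : k - 2 * i0 - s - 1 < (j + 1) * τ :=
      (Nat.div_lt_iff_lt_mul hτ0).1 (Nat.lt_succ_self _)
    have hj3 : (j + 1) * τ = j * τ + τ := by ring
    have hKτ : τ ≤ K * τ := Nat.le_mul_of_pos_left τ hK
    have hjK : K - 1 ≤ j := by
      rw [hj, Nat.le_div_iff_mul_le hτ0, Nat.sub_mul, one_mul]
      omega
    have hjK2 : j ≤ 2 * K + 1 := by
      have : j < 2 * K + 2 := by
        rw [hj, Nat.div_lt_iff_lt_mul hτ0]
        have : (2 * K + 2) * τ = 2 * ((K + 1) * τ) := by ring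
        omega
      omega
    have hjm : j ∈ Finset.Icc (K - 1) (2 * K + 1) := Finset.mem_Icc.2 ⟨hjK, hjK2⟩
    refine le_trans ?_ (Finset.single_le_sum (fun _ _ => zero_le) hjm)
    rw [hj3] at hj2
    by_cases hA : ∃ g k, k ∈ Set.Ico (j * τ + 1) (j * τ + 1 + (2 * i0 + s)) ∧
            Cm hX hY zX zY sX sY L L' w 0 0 g k
    · refine le_trans ?_ le_add_self
      refine le_trans ?_ le_self_add
      rw [if_pos ⟨h1, h2, hA⟩]
    · by_cases hB : ∃ g k,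
            k ∈ Set.Ico (j * τ + 2 * τ - s + 1) (j * τ + 2 * τ - s + 1 + (2 * i0 + s)) ∧
            Cm hX hY zX zY sX sY L L' w 0 0 g k
      · refine le_trans ?_ le_add_self
        refine le_trans ?_ le_add_self
        rw [if_pos ⟨h1, h2, hB⟩]
      · refine le_trans ?_ le_self_add
        rw [if_pos]
        refine ⟨h1, h2, ⟨g, k, by omega, by omega, hc⟩, ?_⟩
        intro g' k' hc'
        constructor
        · rintro ⟨h3, h4⟩
          exact hA ⟨g', k', ⟨by omega, by omega⟩, hc'⟩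
        · rintro ⟨h3, h4⟩
          exact hB ⟨g', k', ⟨by omega, by omega⟩, hc'⟩
  calc _ ≤ ∑' L : List BX, ∑' L' : List BY, ∑ j ∈ Finset.Icc (K - 1) (2 * K + 1), _ :=
        ENNReal.tsum_le_tsum fun L => ENNReal.tsum_le_tsum fun L' => hpt L L'
    _ = _ := by
        simp_rw [Summable.tsum_finsetSum (fun _ _ => ENNReal.summable), ENNReal.tsum_add]
        rfl

end Crest.Agent.R154.AsmT1
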