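import Crest.Agent.R154.AsmS_114

/-! Row 154, ROAD 801 (helper114): the bound of one window. -/

set_option autoImplicit false

namespace Crest.Agent.R154.Asm114

open scoped ENNReal
open Crest.Agent.R154.B5A
open Crest.Agent.R154.FP178 (fp)

variable {B B' G : Type*} [AddCommGroup G]

open Classical in
/-- window lemma, `X` local (weakest form: both-sided event, `a ≤ a'`, `a + h ≤ a' + h'`, offsets `≤ i`) -/
def HX (ΛX : B → ℝ≥0∞) (hX : B → ℕ) (zX : B → G) (sX : B → Set (G × ℕ))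
    (ΛY : B' → ℝ≥0∞) (hY : B' → ℕ) (zY : B' → G) (sY : B' → Set (G × ℕ))
    (C : ℕ → ℝ≥0∞) (us : ℕ → ℕ → ℝ≥0∞) : Prop :=
  ∀ (i s h h' a a' lo hi : ℕ) (E : Finset G) (μ : G → ℝ≥0∞) (M lam : ℝ≥0∞), ∑' x, μ x ≤ 1 →
    (∀ x, μ x ≤ M) → lam ≠ 0 → lam ≠ ⊤ → a ≤ a' → a' ≤ a + i → a + h ≤ a' + h' →
    a' + h' ≤ a + h + i → a + s ≤ lo → a' + s ≤ lo → hi + s ≤ a + h → hi + s ≤ a' + h' →
    ∑' x, μ x * ∑' L : List B, ∑' L' : List B', (if HT hX L = h ∧ HT hY L' = h' ∧ Dp zX L ∈ E ∧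
        Ev sX zX hX sY zY hY lo hi L 0 a L' x a' then LW ΛX L * LW ΛY L' else 0)
      ≤ C i * (lam + M * E.card * us i s / lam + us i s)

open Classical in
/-- window lemma, `Y` local -/
def HY (ΛX : B → ℝ≥0∞) (hX : B → ℕ) (zX : B → G) (sX : B → Set (G × ℕ))
    (ΛY : B' → ℝ≥0∞) (hY : B' → ℕ) (zY : B' → G) (sY : B' → Set (G × ℕ))
    (C : ℕ → ℝ≥0∞) (us : ℕ → ℕ → ℝ≥0∞) : Prop :=
  ∀ (i s h h' a a' lo hi : ℕ) (E : Finset G) (μ : G → ℝ≥0∞) (M lam : ℝ≥0∞), ∑' x, μ x ≤ 1 →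
    (∀ x, μ x ≤ M) → lam ≠ 0 → lam ≠ ⊤ → a ≤ a' → a' ≤ a + i → a + h ≤ a' + h' →
    a' + h' ≤ a + h + i → a + s ≤ lo → a' + s ≤ lo → hi + s ≤ a + h → hi + s ≤ a' + h' →
    ∑' x, μ x * ∑' L : List B, ∑' L' : List B', (if HT hX L = h ∧ HT hY L' = h' ∧ Dp zY L' ∈ E ∧
        Ev sX zX hX sY zY hY lo hi L 0 a L' x a' then LW ΛX L * LW ΛY L' else 0)
      ≤ C i * (lam + M * E.card * us i s / lam + us i s)

open Classical in
lemma sum_len {Λ : B → ℝ≥0∞} {h : B → ℕ} {T : ℕ} (h1 : ∀ b, 1 ≤ h b) (hΛ : ∑' b, Λ b = 1) (j : ℕ) :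
    ∑' t : List (Pc h T), (if t.length = j then LW (PL Λ h T) t else 0) = 1 := by
  have e := SL_one (PL Λ h T) (sum_PL (T := T) Λ h1 hΛ) j
  rw [SL] at e
  simpa using e

open Classical in
theorem window (ΛX : B → ℝ≥0∞) (hX : B → ℕ) (zX : B → G) (sX : B → Set (G × ℕ))
    (ΛY : B' → ℝ≥0∞) (hY : B' → ℕ) (zY : B' → G) (sY : B' → Set (G × ℕ))
    (h1X : ∀ b, 1 ≤ hX b) (h1Y : ∀ b, 1 ≤ hY b) (hΛX : ∑' b, ΛX b = 1) (hΛY : ∑' b, ΛY b = 1)
    (C : ℕ → ℝ≥0∞) (us : ℕ → ℕ → ℝ≥0∞) (H2 : HX ΛX hX zX sX ΛY hY zY sY C us)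
    (H3 : HY ΛX hX zX sX ΛY hY zY sY C us) (u : ℝ≥0∞) (hu : u ≠ 0) (hu1 : u ≤ 1)
    (lam : ℝ≥0∞) (hl0 : lam ≠ 0) (hl1 : lam ≠ ⊤) (w : G) (j T T' i0 i s lo hi : ℕ)
    (hT' : T' = T + i0) (hi1 : 2 * (j + 1) * i0 ≤ i) (hlo : j * (T + i0 + i0) + s ≤ lo) (hhi : hi + s ≤ (j + 1) * T) :
    ∑' q : List (Pc hX T) × Pc hX T × List (Pc hY T') × Pc hY T',
      (if (q.1.length = j ∧ q.2.2.1.length = j) ∧ (∀ Q ∈ q.1, PH hX T Q ≤ T + i0) ∧
          PH hX T q.2.1 ≤ T + i0 ∧ (∀ Q ∈ q.2.2.1, PH hY T' Q ≤ T' + i0) ∧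
          PH hY T' q.2.2.2 ≤ T' + i0 ∧
          Ev sX zX hX sY zY hY lo hi q.2.1.1 (Dp (PD zX hX T) q.1) (HT (PH hX T) q.1) q.2.2.2.1
            (w + Dp (PD zY hY T') q.2.2.1) (HT (PH hY T') q.2.2.1)
        then (LW (PL ΛX hX T) q.1 * PL ΛX hX T q.2.1) *
          (LW (PL ΛY hY T') q.2.2.1 * PL ΛY hY T' q.2.2.2) else 0)
      ≤ (1 - u) ^ j + (1 - u) ^ j + u * u +
        ((j * i0 + 1) * (j * i0 + 1) * ((i0 + 1) * (i0 + 1)) : ℕ) *
          (C i * (lam + 2 * j * us i s / lam + us i s)) +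
        ((j * i0 + 1) * (j * i0 + 1) * ((i0 + 1) * (i0 + 1)) : ℕ) *
          (C i * (lam + 2 * j * us i s / lam + us i s)) := by
  obtain ⟨thX, SX, FX, aX, bX, cX, dX⟩ := pkg ΛX hX zX h1X hΛX T u hu hu1
  obtain ⟨thY, SY, FY, aY, bY, cY, dY⟩ := pkg ΛY hY zY h1Y hΛY T' u hu hu1
  choose EX eX fX using dX
  choose EY eY fY using dY
  set R : Finset (ℕ × ℕ × ℕ × ℕ) := (Finset.Icc (j * T) (j * T + j * i0)) ×ˢ
    (Finset.Icc (j * T') (j * T' + j * i0)) ×ˢ (Finset.Icc T (T + i0)) ×ˢ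
    (Finset.Icc T' (T' + i0)) with hR
  have hcard : R.card = (j * i0 + 1) * (j * i0 + 1) * ((i0 + 1) * (i0 + 1)) := by
    rw [hR]
    simp only [Finset.card_product, Nat.card_Icc]
    rw [show j * T + j * i0 + 1 - j * T = j * i0 + 1 by omega,
      show j * T' + j * i0 + 1 - j * T' = j * i0 + 1 by omega,
      show T + i0 + 1 - T = i0 + 1 by omega, show T' + i0 + 1 - T' = i0 + 1 by omega]
    ring
  set W4 : List (Pc hX T) × Pc hX T × List (Pc hY T') × Pc hY T' → ℝ≥0∞ := fun q =>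
    (LW (PL ΛX hX T) q.1 * PL ΛX hX T q.2.1) * (LW (PL ΛY hY T') q.2.2.1 * PL ΛY hY T' q.2.2.2)
    with hW4
  set I4 : (ℕ × ℕ × ℕ × ℕ) → List (Pc hX T) × Pc hX T × List (Pc hY T') × Pc hY T' → ℝ≥0∞ :=
    fun r q => if (q.1.length = j ∧ (∃ P ∈ q.1, SX P) ∧ HT (PH hX T) q.1 = r.1) ∧
      (q.2.2.1.length = j ∧ HT (PH hY T') q.2.2.1 = r.2.1) ∧ PH hX T q.2.1 = r.2.2.1 ∧
      PH hY T' q.2.2.2 = r.2.2.2 ∧ Dp zX q.2.1.1 ∈ EX r.2.2.1 ∧
      Ev sX zX hX sY zY hY lo hi q.2.1.1 (Dp (PD zX hX T) q.1) r.1 q.2.2.2.1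
          (w + Dp (PD zY hY T') q.2.2.1) r.2.1 then W4 q else 0 with hI4
  set I5 : (ℕ × ℕ × ℕ × ℕ) → List (Pc hX T) × Pc hX T × List (Pc hY T') × Pc hY T' → ℝ≥0∞ :=
    fun r q => if (q.1.length = j ∧ HT (PH hX T) q.1 = r.1) ∧
      (q.2.2.1.length = j ∧ (∃ P ∈ q.2.2.1, SY P) ∧ HT (PH hY T') q.2.2.1 = r.2.1) ∧
      PH hX T q.2.1 = r.2.2.1 ∧
      PH hY T' q.2.2.2 = r.2.2.2 ∧ Dp zY q.2.2.2.1 ∈ EY r.2.2.2 ∧
      Ev sX zX hX sY zY hY lo hi q.2.1.1 (Dp (PD zX hX T) q.1) r.1 q.2.2.2.1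
          (w + Dp (PD zY hY T') q.2.2.1) r.2.1 then W4 q else 0 with hI5
  set f1 : List (Pc hX T) → ℝ≥0∞ := fun t => if t.length = j then LW (PL ΛX hX T) t else 0 with hf1
  set f2 : List (Pc hY T') → ℝ≥0∞ := fun t => if t.length = j then LW (PL ΛY hY T') t else 0
    with hf2
  set g1 : List (Pc hX T) → ℝ≥0∞ := fun t =>
    if t.length = j ∧ ¬ (∃ P ∈ t, SX P) then LW (PL ΛX hX T) t else 0 with hg1
  set g2 : List (Pc hY T') → ℝ≥0∞ := fun t =>
    if t.length = j ∧ ¬ (∃ P ∈ t, SY P) then LW (PL ΛY hY T') t else 0 with hg2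
  -- pointwise
  have hpt : ∀ q : List (Pc hX T) × Pc hX T × List (Pc hY T') × Pc hY T',
      (if (q.1.length = j ∧ q.2.2.1.length = j) ∧ (∀ Q ∈ q.1, PH hX T Q ≤ T + i0) ∧
          PH hX T q.2.1 ≤ T + i0 ∧ (∀ Q ∈ q.2.2.1, PH hY T' Q ≤ T' + i0) ∧
          PH hY T' q.2.2.2 ≤ T' + i0 ∧
          Ev sX zX hX sY zY hY lo hi q.2.1.1 (Dp (PD zX hX T) q.1) (HT (PH hX T) q.1) q.2.2.2.1
            (w + Dp (PD zY hY T') q.2.2.1) (HT (PH hY T') q.2.2.1)
        then W4 q else 0)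
      ≤ (g1 q.1 * PL ΛX hX T q.2.1) * (f2 q.2.2.1 * PL ΛY hY T' q.2.2.2) +
        (f1 q.1 * PL ΛX hX T q.2.1) * (g2 q.2.2.1 * PL ΛY hY T' q.2.2.2) +
        (f1 q.1 * (if FX q.2.1 then PL ΛX hX T q.2.1 else 0)) *
          (f2 q.2.2.1 * (if FY q.2.2.2 then PL ΛY hY T' q.2.2.2 else 0)) +
        ∑ r ∈ R, I4 r q + ∑ r ∈ R, I5 r q := by
    intro q
    by_cases hq : (q.1.length = j ∧ q.2.2.1.length = j) ∧ (∀ Q ∈ q.1, PH hX T Q ≤ T + i0) ∧
          PH hX T q.2.1 ≤ T + i0 ∧ (∀ Q ∈ q.2.2.1, PH hY T' Q ≤ T' + i0) ∧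
          PH hY T' q.2.2.2 ≤ T' + i0 ∧
          Ev sX zX hX sY zY hY lo hi q.2.1.1 (Dp (PD zX hX T) q.1) (HT (PH hX T) q.1) q.2.2.2.1
            (w + Dp (PD zY hY T') q.2.2.1) (HT (PH hY T') q.2.2.1)
    · rw [if_pos hq]
      obtain ⟨⟨hl, hl'⟩, hb1, hb2, hb3, hb4, hE⟩ := hq
      have hr : (HT (PH hX T) q.1, HT (PH hY T') q.2.2.1, PH hX T q.2.1, PH hY T' q.2.2.2) ∈ R := by
        rw [hR]
        simp only [Finset.mem_product, Finset.mem_Icc]
        have a1 := HT_ge q.1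
        have a2 := HT_le i0 q.1 hb1
        have a3 := HT_ge q.2.2.1
        have a4 := HT_le i0 q.2.2.1 hb3
        rw [hl] at a1 a2
        rw [hl'] at a3 a4
        exact ⟨⟨a1, a2⟩, ⟨a3, a4⟩, ⟨T_le_PH _, hb2⟩, ⟨T_le_PH _, hb4⟩⟩
      by_cases hSX : ∃ P ∈ q.1, SX P
      · by_cases hSY : ∃ P ∈ q.2.2.1, SY P
        · by_cases hFX : FX q.2.1
          · by_cases hFY : FY q.2.2.2
            · refine le_trans (le_of_eq ?_) (le_trans (le_add_left le_rfl)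
                (le_trans le_self_add le_self_add))
              simp only [hW4, hf1, hf2, if_pos hl, if_pos hl', if_pos hFX, if_pos hFY]
            · refine le_trans ?_ (le_add_left (Finset.single_le_sum (fun _ _ => zero_le) hr))
              exact le_of_eq (if_pos
                ⟨⟨hl, rfl⟩, ⟨hl', hSY, rfl⟩, rfl, rfl, fY _ _ rfl hFY, hE⟩).symm
          · refine le_trans ?_ (le_trans (le_add_left (Finset.single_le_sum
              (fun _ _ => zero_le) hr)) le_self_add)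
            exact le_of_eq (if_pos
              ⟨⟨hl, hSX, rfl⟩, ⟨hl', rfl⟩, rfl, rfl, fX _ _ rfl hFX, hE⟩).symm
        · refine le_trans (le_of_eq ?_) (le_trans (le_add_left le_rfl) (le_trans le_self_add
            (le_trans le_self_add le_self_add)))
          simp only [hW4, hf1, hg2, if_pos hl, if_pos (⟨hl', hSY⟩ : q.2.2.1.length = j ∧ _)]
      · refine le_trans (le_of_eq ?_) (le_trans le_self_add (le_trans le_self_add
          (le_trans le_self_add le_self_add)))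
        simp only [hW4, hg1, hf2, if_pos hl', if_pos (⟨hl, hSX⟩ : q.1.length = j ∧ _)]
    · rw [if_neg hq]; exact zero_le
  have s1 : ∑' t, f1 t = 1 := sum_len h1X hΛX j
  have s2 : ∑' t, f2 t = 1 := sum_len h1Y hΛY j
  have p1 : ∑' P, PL ΛX hX T P = 1 := sum_PL ΛX h1X hΛX
  have p2 : ∑' P, PL ΛY hY T' P = 1 := sum_PL ΛY h1Y hΛY
  have hfin : ∀ I : (ℕ × ℕ × ℕ × ℕ) → List (Pc hX T) × Pc hX T × List (Pc hY T') × Pc hY T' →
      ℝ≥0∞, ∑' q, ∑ r ∈ R, I r q = ∑ r ∈ R, ∑' q, I r q := fun I =>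
    Summable.tsum_finsetSum fun _ _ => ENNReal.summable
  -- landed form bounds
  have hj : ∀ (th : ℝ≥0∞) (E : Finset G), th * (E.card : ℝ≥0∞) ≤ 1 →
      C i * (lam + (j * (2 * th)) * E.card * us i s / lam + us i s)
        ≤ C i * (lam + 2 * j * us i s / lam + us i s) := by
    intro th E hE
    refine mul_le_mul_right ?_ _
    refine add_le_add (add_le_add le_rfl ?_) le_rfl
    refine ENNReal.div_le_div_right (mul_le_mul_left ?_ _) _
    calc (j : ℝ≥0∞) * (2 * th) * (E.card : ℝ≥0∞) = 2 * j * (th * (E.card : ℝ≥0∞)) := by ring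
      _ ≤ 2 * j * 1 := mul_le_mul_right hE _
      _ = 2 * j := mul_one _
  have geo : ∀ r ∈ R, r.1 ≤ r.2.1 ∧ r.2.1 ≤ r.1 + i ∧ r.1 + r.2.2.1 ≤ r.2.1 + r.2.2.2 ∧
      r.2.1 + r.2.2.2 ≤ r.1 + r.2.2.1 + i ∧ r.1 + s ≤ lo ∧ r.2.1 + s ≤ lo ∧
      hi + s ≤ r.1 + r.2.2.1 ∧ hi + s ≤ r.2.1 + r.2.2.2 := by
    rintro ⟨c, c', h1, h2⟩ hr
    rw [hR] at hr
    simp only [Finset.mem_product, Finset.mem_Icc] at hr
    obtain ⟨⟨a1, a2⟩, ⟨a3, a4⟩, ⟨a5, a6⟩, ⟨a7, a8⟩⟩ := hr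
    have e1 : j * T' = j * T + j * i0 := by rw [hT']; ring
    have e2 : (j + 1) * T = j * T + T := by ring
    have e3 : 2 * (j + 1) * i0 = 2 * (j * i0) + 2 * i0 := by ring
    have e4 : j * (T + i0 + i0) = j * T + 2 * (j * i0) := by ring
    rw [e3] at hi1
    rw [e4] at hlo
    rw [e2] at hhi
    simp only
    refine ⟨?_, ?_, ?_, ?_, ?_, ?_, ?_, ?_⟩ <;> omega
  have bI4 : ∀ r ∈ R, ∑' q, I4 r q ≤ C i * (lam + 2 * j * us i s / lam + us i s) := by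
    intro r hr
    obtain ⟨g1', g2', g3', g4', g5', g6', g7', g8'⟩ := geo r hr
    refine le_trans (le_trans (le_of_eq (tsum_congr fun q => by simp only [hI4, hW4]; congr))
      (core ΛX hX zX sX ΛY hY zY sY lo hi r.1 r.2.1 r.2.2.1 r.2.2.2 w
      (fun t => t.length = j ∧ (∃ P ∈ t, SX P) ∧ HT (PH hX T) t = r.1)
      (fun t => t.length = j ∧ HT (PH hY T') t = r.2.1)
      (fun L _ => Dp zX L ∈ EX r.2.2.1) (j * (2 * thX)) _ ?_ ?_ ?_)) (hj thX (EX r.2.2.1) (eX _))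
    · intro μ hμ1 hμM
      refine le_trans (le_of_eq (tsum_congr fun x => ?_)) (H2 i s r.2.2.1 r.2.2.2 r.1 r.2.1 lo hi
        (EX r.2.2.1) μ _ lam hμ1 hμM hl0 hl1 g1' g2' g3' g4' g5' g6' g7' g8')
      refine congrArg (fun v => μ x * v) (tsum_congr fun L => tsum_congr fun L' => ?_)
      congr
    · intro x
      rw [ENNReal.tsum_comm]
      calc _ ≤ ∑' t', f2 t' * (j * (2 * thX)) := by
            refine ENNReal.tsum_le_tsum fun t' => ?_
            by_cases hl : t'.length = j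
            · rw [hf2]
              simp only [if_pos hl]
              refine le_trans ?_ (mul_le_mul_right (cX j r.1 (w + Dp (PD zY hY T') t' - x)) _)
              rw [← ENNReal.tsum_mul_left]
              refine ENNReal.tsum_le_tsum fun t => ?_
              by_cases ht : (t.length = j ∧ (∃ P ∈ t, SX P) ∧ HT (PH hX T) t = r.1) ∧
                (t'.length = j ∧ HT (PH hY T') t' = r.2.1) ∧
                w + Dp (PD zY hY T') t' - Dp (PD zX hX T) t = x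
              · rw [if_pos ht, if_pos, mul_comm]
                exact ⟨ht.1.1, ht.1.2.1, ht.1.2.2, by rw [← ht.2.2]; abel⟩
              · rw [if_neg ht]; exact zero_le
            · refine (ENNReal.tsum_eq_zero.2 fun t => ?_).le.trans zero_le
              rw [if_neg (fun hh => hl hh.2.1.1)]
        _ = j * (2 * thX) := by rw [ENNReal.tsum_mul_right, s2, one_mul]
    · calc _ ≤ ∑' t, ∑' t', f1 t * f2 t' := by
            refine ENNReal.tsum_le_tsum fun t => ENNReal.tsum_le_tsum fun t' => ?_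
            by_cases ht : (t.length = j ∧ (∃ P ∈ t, SX P) ∧ HT (PH hX T) t = r.1) ∧
                (t'.length = j ∧ HT (PH hY T') t' = r.2.1)
            · rw [if_pos ht]
              simp only [hf1, hf2, if_pos ht.1.1, if_pos ht.2.1, le_refl]
            · rw [if_neg ht]; exact zero_le
        _ = 1 := by simp_rw [ENNReal.tsum_mul_left, s2, mul_one, s1]
        _ ≤ 1 := le_rfl
  have bI5 : ∀ r ∈ R, ∑' q, I5 r q ≤ C i * (lam + 2 * j * us i s / lam + us i s) := by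
    intro r hr
    obtain ⟨g1', g2', g3', g4', g5', g6', g7', g8'⟩ := geo r hr
    refine le_trans (le_trans (le_of_eq (tsum_congr fun q => by simp only [hI5, hW4]; congr))
      (core ΛX hX zX sX ΛY hY zY sY lo hi r.1 r.2.1 r.2.2.1 r.2.2.2 w
      (fun t => t.length = j ∧ HT (PH hX T) t = r.1)
      (fun t => t.length = j ∧ (∃ P ∈ t, SY P) ∧ HT (PH hY T') t = r.2.1)
      (fun _ L => Dp zY L ∈ EY r.2.2.2) (j * (2 * thY)) _ ?_ ?_ ?_)) (hj thY (EY r.2.2.2) (eY _))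
    · intro μ hμ1 hμM
      refine le_trans (le_of_eq (tsum_congr fun x => ?_)) (H3 i s r.2.2.1 r.2.2.2 r.1 r.2.1 lo hi
        (EY r.2.2.2) μ _ lam hμ1 hμM hl0 hl1 g1' g2' g3' g4' g5' g6' g7' g8')
      refine congrArg (fun v => μ x * v) (tsum_congr fun L => tsum_congr fun L' => ?_)
      congr
    · intro x
      calc _ ≤ ∑' t, f1 t * (j * (2 * thY)) := by
            refine ENNReal.tsum_le_tsum fun t => ?_
            by_cases hl : t.length = j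
            · rw [hf1]
              simp only [if_pos hl]
              refine le_trans ?_ (mul_le_mul_right (cY j r.2.1 (x - w + Dp (PD zX hX T) t)) _)
              rw [← ENNReal.tsum_mul_left]
              refine ENNReal.tsum_le_tsum fun t' => ?_
              by_cases ht : (t.length = j ∧ HT (PH hX T) t = r.1) ∧
                (t'.length = j ∧ (∃ P ∈ t', SY P) ∧ HT (PH hY T') t' = r.2.1) ∧
                w + Dp (PD zY hY T') t' - Dp (PD zX hX T) t = x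
              · rw [if_pos ht, if_pos]
                exact ⟨ht.2.1.1, ht.2.1.2.1, ht.2.1.2.2, by rw [← ht.2.2]; abel⟩
              · rw [if_neg ht]; exact zero_le
            · refine (ENNReal.tsum_eq_zero.2 fun t' => ?_).le.trans zero_le
              rw [if_neg (fun hh => hl hh.1.1)]
        _ = j * (2 * thY) := by rw [ENNReal.tsum_mul_right, s1, one_mul]
    · calc _ ≤ ∑' t, ∑' t', f1 t * f2 t' := by
            refine ENNReal.tsum_le_tsum fun t => ENNReal.tsum_le_tsum fun t' => ?_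
            by_cases ht : (t.length = j ∧ HT (PH hX T) t = r.1) ∧
                (t'.length = j ∧ (∃ P ∈ t', SY P) ∧ HT (PH hY T') t' = r.2.1)
            · rw [if_pos ht]
              simp only [hf1, hf2, if_pos ht.1.1, if_pos ht.2.1, le_refl]
            · rw [if_neg ht]; exact zero_le
        _ = 1 := by simp_rw [ENNReal.tsum_mul_left, s2, mul_one, s1]
        _ ≤ 1 := le_rfl
  refine (ENNReal.tsum_le_tsum hpt).trans ?_
  rw [ENNReal.tsum_add, ENNReal.tsum_add, ENNReal.tsum_add, ENNReal.tsum_add, hfin, hfin,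
    prod4 g1 (PL ΛX hX T) f2 (PL ΛY hY T'), prod4 f1 (PL ΛX hX T) g2 (PL ΛY hY T'),
    prod4 f1 (fun P => if FX P then PL ΛX hX T P else 0) f2
      (fun P => if FY P then PL ΛY hY T' P else 0), s1, s2, p1, p2]
  refine add_le_add (add_le_add (add_le_add (add_le_add ?_ ?_) ?_) ?_) ?_
  · calc _ = ∑' a, g1 a := by ring
      _ ≤ _ := bX j
  · calc _ = ∑' a, g2 a := by ring
      _ ≤ _ := bY j
  · rw [one_mul, one_mul]
    exact mul_le_mul' aX aY
  · calc ∑ r ∈ R, ∑' q, I4 r q ≤ R.card • (C i * (lam + 2 * j * us i s / lam + us i s)) :=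
          Finset.sum_le_card_nsmul _ _ _ bI4
      _ = _ := by rw [hcard, nsmul_eq_mul]
  · calc ∑ r ∈ R, ∑' q, I5 r q ≤ R.card • (C i * (lam + 2 * j * us i s / lam + us i s)) :=
          Finset.sum_le_card_nsmul _ _ _ bI5
      _ = _ := by rw [hcard, nsmul_eq_mul]

end Crest.Agent.R154.Asm114
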