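import Crest.Agent.R154.Asm_195

/-! Row 154, ROAD 801 (helper195): abstract assembly, racer: one window. -/

set_option autoImplicit false

namespace Crest.Agent.R154.Asm195

open Crest.Agent.R154.B5A
open scoped ENNReal Topology Classical
open Filter Finset

lemma lev_set {G : Type*} (p : G → ℝ≥0∞) (hp : ∑' z, p z ≤ 1) {th : ℝ≥0∞} (hth : th ≠ 0) :
    ∃ E : Finset G, (∀ z, z ∈ E ↔ th ≤ p z) ∧ th * E.card ≤ 1 := by
  have hf : {z | th ≤ p z}.Finite :=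
    Dens903.finite_level p (ne_top_of_le_ne_top ENNReal.one_ne_top hp) hth
  refine ⟨hf.toFinset, fun z => by simp, ?_⟩
  calc th * (hf.toFinset.card : ℝ≥0∞) = ∑ z ∈ hf.toFinset, th := by
        rw [Finset.sum_const, nsmul_eq_mul, mul_comm]
    _ ≤ ∑ z ∈ hf.toFinset, p z := Finset.sum_le_sum fun z hz => by simpa using hz
    _ ≤ ∑' z, p z := ENNReal.sum_le_tsum _
    _ ≤ 1 := hp

lemma ds {α β ι : Type*} (s : Finset ι) (f : ι → α → β → ℝ≥0∞) :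
    ∑' a, ∑' b, ∑ i ∈ s, f i a b = ∑ i ∈ s, ∑' a, ∑' b, f i a b := by
  calc _ = ∑' a, ∑ i ∈ s, ∑' b, f i a b :=
        tsum_congr fun a => Summable.tsum_finsetSum (fun _ _ => ENNReal.summable)
    _ = _ := Summable.tsum_finsetSum (fun _ _ => ENNReal.summable)

lemma swp {α β : Type*} (f : α → ℝ≥0∞) (g : β → ℝ≥0∞) (I : α → β → ℝ≥0∞) :
    ∑' a, f a * ∑' b, g b * I a b = ∑' b, g b * ∑' a, f a * I a b := by
  simp_rw [← ENNReal.tsum_mul_left]
  rw [ENNReal.tsum_comm]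
  refine tsum_congr fun b => tsum_congr fun a => ?_
  ring

section topsum

variable {B : Type*} {G : Type*} [AddCommGroup G] (Λ : B → ℝ≥0∞) (ht : B → ℕ) (dz : B → G)

theorem top_sum' (h1 : ∀ b, 1 ≤ ht b) (hΛ : ∑' b, Λ b = 1) (i0 A : ℕ) (M bb R : ℝ≥0∞)
    (g b : ℕ × G → ℝ≥0∞) (hgb : ∀ v, fl Λ ht dz A v ≤ g v + b v) (hg : ∀ v, g v ≤ M)
    (hb : ∑' v, b v ≤ bb) (K : ℕ → G → ℝ≥0∞) (hK1 : ∀ j z, K j z ≤ 1)
    (hK : ∀ a, A ≤ a → a ≤ A + i0 → ∀ μ : G → ℝ≥0∞, ∑' z, μ z ≤ 1 → (∀ z, μ z ≤ M) →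
      ∑' z, μ z * K a z ≤ R) :
    ∑' L, gw Λ ht i0 A L * K (HT ht L) (Dp dz L) ≤ (i0 + 1) * R + bb := by
  refine le_trans (le_of_eq ?_) (top_sum Λ ht dz h1 hΛ i0 A M bb R g b hgb hg hb
    (fun j z => K (A + j) z) (fun j z => hK1 _ _)
    (fun j hj μ hμ hμ' => hK (A + j) (by omega) (by omega) μ hμ hμ'))
  refine tsum_congr fun L => ?_
  unfold gw
  by_cases h : fp ht L A ∧ HT ht L ≤ A + i0
  · have := fp_le ht L A h.1
    rw [if_pos h, show A + (HT ht L - A) = HT ht L by omega]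
  · rw [if_neg h, zero_mul, zero_mul]

lemma nonloc (h1 : ∀ b, 1 ≤ ht b) (i0 S : ℕ) (th u : ℝ≥0∞)
    (hu : ∑' v, (if fl Λ ht dz S v < th then fl Λ ht dz S v else 0) ≤ u) :
    ∑' L, gw Λ ht i0 S L * (if th ≤ fl Λ ht dz S (HT ht L - S, Dp dz L) then 0 else 1) ≤ u := by
  rw [gw_fiber Λ ht dz i0 S (fun i z => if th ≤ fl Λ ht dz S (i, z) then 0 else 1)]
  refine le_trans ?_ hu
  rw [ENNReal.tsum_prod']
  refine le_trans (le_of_eq ?_) (ENNReal.sum_le_tsum (f := fun i => ∑' z,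
    (if fl Λ ht dz S (i, z) < th then fl Λ ht dz S (i, z) else 0)) (range (i0 + 1)))
  refine Finset.sum_congr rfl fun i _ => tsum_congr fun z => ?_
  by_cases h : th ≤ fl Λ ht dz S (i, z)
  · rw [if_pos h, if_neg (not_lt.2 h), mul_zero]
  · rw [if_neg h, if_pos (not_le.1 h), mul_one]

lemma gw_avg (h1 : ∀ b, 1 ≤ ht b) (hΛ : ∑' b, Λ b = 1) (i0 A : ℕ) (X : List B → ℝ≥0∞)
    (R : ℝ≥0∞) (hX : ∀ L, fp ht L A → HT ht L ≤ A + i0 → X L ≤ R) :
    ∑' L, gw Λ ht i0 A L * X L ≤ R := by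
  calc ∑' L, gw Λ ht i0 A L * X L ≤ ∑' L, gw Λ ht i0 A L * R := by
        refine ENNReal.tsum_le_tsum fun L => ?_
        unfold gw
        by_cases h : fp ht L A ∧ HT ht L ≤ A + i0
        · rw [if_pos h]; exact mul_le_mul_right (hX L h.1 h.2) _
        · rw [if_neg h, zero_mul]; exact zero_le
    _ = (∑' L, gw Λ ht i0 A L) * R := ENNReal.tsum_mul_right
    _ ≤ 1 * R := mul_le_mul_left (gw_mass Λ ht h1 hΛ i0 A) _
    _ = R := one_mul _

lemma gw_add (h1 : ∀ b, 1 ≤ ht b) (hΛ : ∑' b, Λ b = 1) (i0 A : ℕ) (c : ℝ≥0∞)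
    (X : List B → ℝ≥0∞) :
    ∑' L, gw Λ ht i0 A L * (c + X L) ≤ c + ∑' L, gw Λ ht i0 A L * X L := by
  simp_rw [mul_add]
  rw [ENNReal.tsum_add, ENNReal.tsum_mul_right]
  refine add_le_add ?_ le_rfl
  calc _ ≤ 1 * c := mul_le_mul_left (gw_mass Λ ht h1 hΛ i0 A) _
    _ = c := one_mul _

end topsum

section two

variable {BX BY G : Type*} [AddCommGroup G]
  (ΛX : BX → ℝ≥0∞) (hX : BX → ℕ) (zX : BX → G) (TX : List BX → G → ℕ → Set (G × ℕ))
  (ΛY : BY → ℝ≥0∞) (hY : BY → ℕ) (zY : BY → G) (TY : List BY → G → ℕ → Set (G × ℕ))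

/-- window lemma (2), lists -/
def H2L (C : ℝ≥0∞) (us : ℕ → ℝ≥0∞) : Prop :=
  ∀ (s h h' a a' lo : ℕ) (E : Finset G) (μ : G → ℝ≥0∞) (M lam : ℝ≥0∞),
    ∑' x, μ x ≤ 1 → (∀ x, μ x ≤ M) → lam ≠ 0 → lam ≠ ⊤ → a ≤ a' → a + s ≤ lo → a' + s ≤ lo →
    ∑' x, μ x * (∑' L, ∑' L', if HT hX L = h ∧ Dp zX L ∈ E ∧ HT hY L' = h' ∧
      (∃ z k, (z, k) ∈ TX L 0 a ∧ (z, k) ∈ TY L' x a') ∧
      (∀ z k, (z, k) ∈ TX L 0 a → (z, k) ∈ TY L' x a' → lo ≤ k)
      then LW ΛX L * LW ΛY L' else 0) ≤ C * (lam + M * E.card * us s / lam + us s)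

/-- window lemma (3), lists -/
def H3L (C : ℝ≥0∞) (us : ℕ → ℝ≥0∞) : Prop :=
  ∀ (s h h' a a' hi : ℕ) (E : Finset G) (μ : G → ℝ≥0∞) (M lam : ℝ≥0∞),
    ∑' x, μ x ≤ 1 → (∀ x, μ x ≤ M) → lam ≠ 0 → lam ≠ ⊤ → a + h ≤ a' + h' →
    hi + s ≤ a + h → hi + s ≤ a' + h' →
    ∑' x, μ x * (∑' L, ∑' L', if HT hX L = h ∧ Dp zY L' ∈ E ∧ HT hY L' = h' ∧
      (∃ z k, (z, k) ∈ TX L 0 a ∧ (z, k) ∈ TY L' x a') ∧
      (∀ z k, (z, k) ∈ TX L 0 a → (z, k) ∈ TY L' x a' → k ≤ hi)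
      then LW ΛX L * LW ΛY L' else 0) ≤ C * (lam + M * E.card * us s / lam + us s)

/-- contact of two pieces, all contacts in `[lo, hi]` -/
def Ev (L : List BX) (L' : List BY) (x : G) (a a' lo hi : ℕ) : Prop :=
  (∃ z k, (z, k) ∈ TX L 0 a ∧ (z, k) ∈ TY L' x a') ∧
    ∀ z k, (z, k) ∈ TX L 0 a → (z, k) ∈ TY L' x a' → lo ≤ k ∧ k ≤ hi

variable {ΛX hX zX TX ΛY hY zY TY}

lemma locX_le {C : ℝ≥0∞} {us : ℕ → ℝ≥0∞} (H : H2L ΛX hX zX TX ΛY hY TY C us)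
    (i0 S S' s a a' lo hi : ℕ) (ha : a ≤ a') (hs : a + s ≤ lo) (hs' : a' + s ≤ lo)
    (th M : ℝ≥0∞) (E : ℕ → Finset G) (hE : ∀ i z, z ∈ E i ↔ th ≤ fl ΛX hX zX S (i, z))
    (κ : ℝ≥0∞) (hM : ∀ i, M * (E i).card ≤ κ) (lam : ℝ≥0∞) (hl0 : lam ≠ 0) (hl1 : lam ≠ ⊤)
    (μ : G → ℝ≥0∞) (hμ1 : ∑' x, μ x ≤ 1) (hμM : ∀ x, μ x ≤ M) :
    ∑' x, μ x * (∑' L, gw ΛX hX i0 S L * ∑' L', gw ΛY hY i0 S' L' *
      (if th ≤ fl ΛX hX zX S (HT hX L - S, Dp zX L) ∧ Ev TX TY L L' x a a' lo hi then 1 else 0))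
      ≤ (i0 + 1) * ((i0 + 1) * (C * (lam + κ * us s / lam + us s))) := by
  set t : ℕ → ℕ → G → List BX → List BY → ℝ≥0∞ := fun i i' x L L' =>
    if HT hX L = S + i ∧ Dp zX L ∈ E i ∧ HT hY L' = S' + i' ∧
      (∃ z k, (z, k) ∈ TX L 0 a ∧ (z, k) ∈ TY L' x a') ∧
      (∀ z k, (z, k) ∈ TX L 0 a → (z, k) ∈ TY L' x a' → lo ≤ k)
      then LW ΛX L * LW ΛY L' else 0 with ht
  have hpt : ∀ x L L', gw ΛX hX i0 S L * (gw ΛY hY i0 S' L' *
      (if th ≤ fl ΛX hX zX S (HT hX L - S, Dp zX L) ∧ Ev TX TY L L' x a a' lo hi then 1 else 0))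
      ≤ ∑ i ∈ range (i0 + 1), ∑ i' ∈ range (i0 + 1), t i i' x L L' := by
    intro x L L'
    unfold gw
    by_cases h1 : fp hX L S ∧ HT hX L ≤ S + i0
    · by_cases h2 : fp hY L' S' ∧ HT hY L' ≤ S' + i0
      · by_cases h3 : th ≤ fl ΛX hX zX S (HT hX L - S, Dp zX L) ∧ Ev TX TY L L' x a a' lo hi
        · have e1 := fp_le hX L S h1.1
          have e2 := fp_le hY L' S' h2.1
          refine le_trans ?_ (Finset.single_le_sum (f := fun i => ∑ i' ∈ range (i0 + 1),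
            t i i' x L L') (fun _ _ => zero_le)
            (mem_range.2 (show HT hX L - S < i0 + 1 by omega)))
          refine le_trans ?_ (Finset.single_le_sum (f := fun i' => t (HT hX L - S) i' x L L')
            (fun _ _ => zero_le) (mem_range.2 (show HT hY L' - S' < i0 + 1 by omega)))
          simp only [ht]
          rw [if_pos h1, if_pos h2, if_pos h3, mul_one, if_pos]
          exact ⟨by omega, (hE _ _).2 h3.1, by omega, h3.2.1,
            fun z k hz hz' => (h3.2.2 z k hz hz').1⟩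
        · rw [if_neg h3, mul_zero, mul_zero]; exact zero_le
      · rw [if_neg h2, zero_mul, mul_zero]; exact zero_le
    · rw [if_neg h1, zero_mul]; exact zero_le
  calc _ ≤ ∑' x, μ x * (∑ i ∈ range (i0 + 1), ∑ i' ∈ range (i0 + 1),
        ∑' L, ∑' L', t i i' x L L') := by
        refine ENNReal.tsum_le_tsum fun x => mul_le_mul_right ?_ _
        calc _ = ∑' L, ∑' L', gw ΛX hX i0 S L * (gw ΛY hY i0 S' L' *
            (if th ≤ fl ΛX hX zX S (HT hX L - S, Dp zX L) ∧ Ev TX TY L L' x a a' lo hi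
              then 1 else 0)) := tsum_congr fun L => ENNReal.tsum_mul_left.symm
          _ ≤ ∑' L, ∑' L', ∑ i ∈ range (i0 + 1), ∑ i' ∈ range (i0 + 1), t i i' x L L' :=
              ENNReal.tsum_le_tsum fun L => ENNReal.tsum_le_tsum fun L' => hpt x L L'
          _ = _ := by
              rw [ds]
              exact Finset.sum_congr rfl fun i _ => ds _ _
    _ = ∑ i ∈ range (i0 + 1), ∑ i' ∈ range (i0 + 1),
        ∑' x, μ x * (∑' L, ∑' L', t i i' x L L') := by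
        simp_rw [Finset.mul_sum]
        rw [Summable.tsum_finsetSum (fun _ _ => ENNReal.summable)]
        refine Finset.sum_congr rfl fun i _ => ?_
        rw [Summable.tsum_finsetSum (fun _ _ => ENNReal.summable)]
    _ ≤ ∑ i ∈ range (i0 + 1), ∑ i' ∈ range (i0 + 1),
        (C * (lam + κ * us s / lam + us s)) := by
        refine Finset.sum_le_sum fun i _ => Finset.sum_le_sum fun i' _ => ?_
        refine (H s (S + i) (S' + i') a a' lo (E i) μ M lam hμ1 hμM hl0 hl1 ha hs hs').trans ?_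
        refine mul_le_mul_right (add_le_add (add_le_add le_rfl ?_) le_rfl) _
        exact ENNReal.div_le_div_right (mul_le_mul_left (hM i) _) _
    _ = _ := by
        rw [Finset.sum_const, Finset.sum_const, card_range, nsmul_eq_mul, nsmul_eq_mul]
        push_cast; rfl

lemma locY_le {C : ℝ≥0∞} {us : ℕ → ℝ≥0∞} (H : H3L ΛX hX TX ΛY hY zY TY C us)
    (i0 S S' s a a' lo hi : ℕ) (ha : a + (S + i0) ≤ a' + S') (hs : hi + s ≤ a + S) (hs' : hi + s ≤ a' + S')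
    (th M : ℝ≥0∞) (E : ℕ → Finset G) (hE : ∀ i z, z ∈ E i ↔ th ≤ fl ΛY hY zY S' (i, z))
    (κ : ℝ≥0∞) (hM : ∀ i, M * (E i).card ≤ κ) (lam : ℝ≥0∞) (hl0 : lam ≠ 0) (hl1 : lam ≠ ⊤)
    (μ : G → ℝ≥0∞) (hμ1 : ∑' x, μ x ≤ 1) (hμM : ∀ x, μ x ≤ M) :
    ∑' x, μ x * (∑' L, gw ΛX hX i0 S L * ∑' L', gw ΛY hY i0 S' L' *
      (if th ≤ fl ΛY hY zY S' (HT hY L' - S', Dp zY L') ∧ Ev TX TY L L' x a a' lo hi then 1 else 0))
      ≤ (i0 + 1) * ((i0 + 1) * (C * (lam + κ * us s / lam + us s))) := by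
  set t : ℕ → ℕ → G → List BX → List BY → ℝ≥0∞ := fun i i' x L L' =>
    if HT hX L = S + i ∧ Dp zY L' ∈ E i' ∧ HT hY L' = S' + i' ∧
      (∃ z k, (z, k) ∈ TX L 0 a ∧ (z, k) ∈ TY L' x a') ∧
      (∀ z k, (z, k) ∈ TX L 0 a → (z, k) ∈ TY L' x a' → k ≤ hi)
      then LW ΛX L * LW ΛY L' else 0 with ht
  have hpt : ∀ x L L', gw ΛX hX i0 S L * (gw ΛY hY i0 S' L' *
      (if th ≤ fl ΛY hY zY S' (HT hY L' - S', Dp zY L') ∧ Ev TX TY L L' x a a' lo hi then 1 else 0))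
      ≤ ∑ i ∈ range (i0 + 1), ∑ i' ∈ range (i0 + 1), t i i' x L L' := by
    intro x L L'
    unfold gw
    by_cases h1 : fp hX L S ∧ HT hX L ≤ S + i0
    · by_cases h2 : fp hY L' S' ∧ HT hY L' ≤ S' + i0
      · by_cases h3 : th ≤ fl ΛY hY zY S' (HT hY L' - S', Dp zY L') ∧ Ev TX TY L L' x a a' lo hi
        · have e1 := fp_le hX L S h1.1
          have e2 := fp_le hY L' S' h2.1
          refine le_trans ?_ (Finset.single_le_sum (f := fun i => ∑ i' ∈ range (i0 + 1),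
            t i i' x L L') (fun _ _ => zero_le)
            (mem_range.2 (show HT hX L - S < i0 + 1 by omega)))
          refine le_trans ?_ (Finset.single_le_sum (f := fun i' => t (HT hX L - S) i' x L L')
            (fun _ _ => zero_le) (mem_range.2 (show HT hY L' - S' < i0 + 1 by omega)))
          simp only [ht]
          rw [if_pos h1, if_pos h2, if_pos h3, mul_one, if_pos]
          exact ⟨by omega, (hE _ _).2 h3.1, by omega, h3.2.1,
            fun z k hz hz' => (h3.2.2 z k hz hz').2⟩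
        · rw [if_neg h3, mul_zero, mul_zero]; exact zero_le
      · rw [if_neg h2, zero_mul, mul_zero]; exact zero_le
    · rw [if_neg h1, zero_mul]; exact zero_le
  calc _ ≤ ∑' x, μ x * (∑ i ∈ range (i0 + 1), ∑ i' ∈ range (i0 + 1),
        ∑' L, ∑' L', t i i' x L L') := by
        refine ENNReal.tsum_le_tsum fun x => mul_le_mul_right ?_ _
        calc _ = ∑' L, ∑' L', gw ΛX hX i0 S L * (gw ΛY hY i0 S' L' *
            (if th ≤ fl ΛY hY zY S' (HT hY L' - S', Dp zY L') ∧ Ev TX TY L L' x a a' lo hi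
              then 1 else 0)) := tsum_congr fun L => ENNReal.tsum_mul_left.symm
          _ ≤ ∑' L, ∑' L', ∑ i ∈ range (i0 + 1), ∑ i' ∈ range (i0 + 1), t i i' x L L' :=
              ENNReal.tsum_le_tsum fun L => ENNReal.tsum_le_tsum fun L' => hpt x L L'
          _ = _ := by
              rw [ds]
              exact Finset.sum_congr rfl fun i _ => ds _ _
    _ = ∑ i ∈ range (i0 + 1), ∑ i' ∈ range (i0 + 1),
        ∑' x, μ x * (∑' L, ∑' L', t i i' x L L') := by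
        simp_rw [Finset.mul_sum]
        rw [Summable.tsum_finsetSum (fun _ _ => ENNReal.summable)]
        refine Finset.sum_congr rfl fun i _ => ?_
        rw [Summable.tsum_finsetSum (fun _ _ => ENNReal.summable)]
    _ ≤ ∑ i ∈ range (i0 + 1), ∑ i' ∈ range (i0 + 1),
        (C * (lam + κ * us s / lam + us s)) := by
        refine Finset.sum_le_sum fun i hi1 => Finset.sum_le_sum fun i' _ => ?_
        refine (H s (S + i) (S' + i') a a' hi (E i') μ M lam hμ1 hμM hl0 hl1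
          (by have := mem_range.1 hi1; omega) (by omega) (by omega)).trans ?_
        refine mul_le_mul_right (add_le_add (add_le_add le_rfl ?_) le_rfl) _
        exact ENNReal.div_le_div_right (mul_le_mul_left (hM i') _) _
    _ = _ := by
        rw [Finset.sum_const, Finset.sum_const, card_range, nsmul_eq_mul, nsmul_eq_mul]
        push_cast; rfl

lemma piece_ev (aX : ∀ L L' x a, TX (L ++ L') x a = TX L x a ∪ TX L' (x + Dp zX L) (a + HT hX L))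
    (dX : ∀ L x a z k, (z, k) ∈ TX L x a → a < k ∧ k ≤ a + HT hX L)
    (tX : ∀ L x c a z k, (z, k) ∈ TX L (x + c) a ↔ (z - c, k) ∈ TX L x a)
    (aY : ∀ L L' x a, TY (L ++ L') x a = TY L x a ∪ TY L' (x + Dp zY L) (a + HT hY L))
    (dY : ∀ L x a z k, (z, k) ∈ TY L x a → a < k ∧ k ≤ a + HT hY L)
    (tY : ∀ L x c a z k, (z, k) ∈ TY L (x + c) a ↔ (z - c, k) ∈ TY L x a)
    (i0 S s A w1 w2 : ℕ) (w : G) (hw1 : A + 2 * i0 < w1) (hw2 : w2 ≤ A + S) (hsS : s ≤ A + S)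
    (L1 L2 L3 : List BX) (L1' L2' L3' : List BY)
    (e1 : A ≤ HT hX L1) (e2 : HT hX L1 ≤ A + i0) (e3 : S ≤ HT hX L2) (e4 : HT hX L2 ≤ S + i0)
    (e5 : A + i0 ≤ HT hY L1') (e6 : HT hY L1' ≤ A + i0 + i0) (e7 : S + i0 ≤ HT hY L2')
    (hwin : ∃ z k, w1 ≤ k ∧ k ≤ w2 ∧ (z, k) ∈ TX (L1 ++ (L2 ++ L3)) 0 0 ∧
      (z, k) ∈ TY (L1' ++ (L2' ++ L3')) w 0)
    (hs1 : ¬ ∃ z k, A ≤ k ∧ k < A + (s + 2 * i0 + 1) ∧ (z, k) ∈ TX (L1 ++ (L2 ++ L3)) 0 0 ∧
      (z, k) ∈ TY (L1' ++ (L2' ++ L3')) w 0)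
    (hs2 : ¬ ∃ z k, A + S - s ≤ k ∧ k < A + S - s + (s + 2 * i0 + 1) ∧
      (z, k) ∈ TX (L1 ++ (L2 ++ L3)) 0 0 ∧ (z, k) ∈ TY (L1' ++ (L2' ++ L3')) w 0) :
    Ev TX TY L2 L2' (w + Dp zY L1' - Dp zX L1) (HT hX L1) (HT hY L1') (A + 2 * i0 + s)
      (A + S - s) := by
  have up : ∀ z k, (z, k) ∈ TX L2 0 (HT hX L1) →
      (z, k) ∈ TY L2' (w + Dp zY L1' - Dp zX L1) (HT hY L1') →
      (z + Dp zX L1, k) ∈ TX (L1 ++ (L2 ++ L3)) 0 0 ∧
      (z + Dp zX L1, k) ∈ TY (L1' ++ (L2' ++ L3')) w 0 := by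
    intro z k h1 h2
    constructor
    · rw [aX, aX]
      refine Or.inr (Or.inl ?_)
      rw [tX, zero_add, add_sub_cancel_right]
      exact h1
    · rw [aY, aY]
      refine Or.inr (Or.inl ?_)
      have : w + Dp zY L1' = (w + Dp zY L1' - Dp zX L1) + Dp zX L1 := by abel
      rw [this, tY, zero_add, add_sub_cancel_right]
      exact h2
  refine ⟨?_, ?_⟩
  · obtain ⟨z, k, hk1, hk2, hx, hy⟩ := hwin
    rw [aX, aX] at hx
    rw [aY, aY] at hy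
    have hx' : (z, k) ∈ TX L2 (0 + Dp zX L1) (0 + HT hX L1) := by
      rcases hx with hx | hx | hx
      · have := dX _ _ _ _ _ hx; omega
      · exact hx
      · have := dX _ _ _ _ _ hx; omega
    have hy' : (z, k) ∈ TY L2' (w + Dp zY L1') (0 + HT hY L1') := by
      rcases hy with hy | hy | hy
      · have := dY _ _ _ _ _ hy; omega
      · exact hy
      · have := dY _ _ _ _ _ hy; omega
    refine ⟨z - Dp zX L1, k, ?_, ?_⟩
    · rw [tX, zero_add] at hx'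
      exact hx'
    · have : w + Dp zY L1' = (w + Dp zY L1' - Dp zX L1) + Dp zX L1 := by abel
      rw [this, tY, zero_add] at hy'
      exact hy'
  · intro z k h1 h2
    obtain ⟨h3, h4⟩ := up z k h1 h2
    have h5 := dX _ _ _ _ _ h1
    constructor
    · by_contra h
      exact hs1 ⟨_, k, by omega, by omega, h3, h4⟩
    · by_contra h
      exact hs2 ⟨_, k, by omega, by omega, h3, h4⟩

/-- one window -/
theorem window (h1X : ∀ b, 1 ≤ hX b) (hΛX : ∑' b, ΛX b = 1) (h1Y : ∀ b, 1 ≤ hY b)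
    (hΛY : ∑' b, ΛY b = 1)
    (aX : ∀ L L' x a, TX (L ++ L') x a = TX L x a ∪ TX L' (x + Dp zX L) (a + HT hX L))
    (dX : ∀ L x a z k, (z, k) ∈ TX L x a → a < k ∧ k ≤ a + HT hX L)
    (tX : ∀ L x c a z k, (z, k) ∈ TX L (x + c) a ↔ (z - c, k) ∈ TX L x a)
    (aY : ∀ L L' x a, TY (L ++ L') x a = TY L x a ∪ TY L' (x + Dp zY L) (a + HT hY L))
    (dY : ∀ L x a z k, (z, k) ∈ TY L x a → a < k ∧ k ≤ a + HT hY L)
    (tY : ∀ L x c a z k, (z, k) ∈ TY L (x + c) a ↔ (z - c, k) ∈ TY L x a)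
    {C : ℝ≥0∞} {us : ℕ → ℝ≥0∞} (H2 : H2L ΛX hX zX TX ΛY hY TY C us)
    (H3 : H3L ΛX hX TX ΛY hY zY TY C us)
    (i0 S s J A n w1 w2 : ℕ) (u o lam η : ℝ≥0∞) (hu0 : u ≠ 0) (hu1 : u ≤ 1) (hl0 : lam ≠ 0)
    (hl1 : lam ≠ ⊤)
    (hoX : ∀ A, ∑' L, (if fp hX L A ∧ A + i0 < HT hX L then LW ΛX L else 0) ≤ o)
    (hoY : ∀ A, ∑' L, (if fp hY L A ∧ A + i0 < HT hY L then LW ΛY L else 0) ≤ o)
    (hJ : J * (S + i0 + i0) ≤ A) (hn : A + 3 * i0 + S ≤ n)
    (w : G) (hw1 : A + 2 * i0 < w1) (hw2 : w2 ≤ A + S) (hsS : s ≤ A + S)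
    (hη1 : ∑' LX, ∑' LY, (if HT hX LX = n ∧ HT hY LY = n ∧ (∃ z k, A ≤ k ∧
      k < A + (s + 2 * i0 + 1) ∧ (z, k) ∈ TX LX 0 0 ∧ (z, k) ∈ TY LY w 0)
      then LW ΛX LX * LW ΛY LY else 0) ≤ η)
    (hη2 : ∑' LX, ∑' LY, (if HT hX LX = n ∧ HT hY LY = n ∧ (∃ z k, A + S - s ≤ k ∧
      k < A + S - s + (s + 2 * i0 + 1) ∧ (z, k) ∈ TX LX 0 0 ∧ (z, k) ∈ TY LY w 0)
      then LW ΛX LX * LW ΛY LY else 0) ≤ η) :
    ∑' LX, ∑' LY, (if HT hX LX = n ∧ HT hY LY = n ∧ (∃ z k, w1 ≤ k ∧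
      k ≤ w2 ∧ (z, k) ∈ TX LX 0 0 ∧ (z, k) ∈ TY LY w 0)
      then LW ΛX LX * LW ΛY LY else 0) ≤ η + η + (2 * o + (2 * o + (u * u +
        (((i0 + 1) * ((i0 + 1) * ((i0 + 1) * (C * (lam + (i0 + 1) * u⁻¹ * us s / lam + us s))))
          + ((1 - u) ^ J + o * u⁻¹)) +
        ((i0 + 1) * ((i0 + 1) * ((i0 + 1) * (C * (lam + (i0 + 1) * u⁻¹ * us s / lam + us s))))
          + ((1 - u) ^ J + o * u⁻¹)))))) := by
  set lo := A + 2 * i0 + s with hlo
  set hi := A + S - s with hhi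
  -- events
  set win : List BX → List BY → Prop := fun LX LY => ∃ z k, w1 ≤ k ∧
      k ≤ w2 ∧ (z, k) ∈ TX LX 0 0 ∧ (z, k) ∈ TY LY w 0 with hwin
  set sl1 : List BX → List BY → Prop := fun LX LY => ∃ z k, A ≤ k ∧
      k < A + (s + 2 * i0 + 1) ∧ (z, k) ∈ TX LX 0 0 ∧ (z, k) ∈ TY LY w 0 with hsl1
  set sl2 : List BX → List BY → Prop := fun LX LY => ∃ z k, hi ≤ k ∧
      k < hi + (s + 2 * i0 + 1) ∧ (z, k) ∈ TX LX 0 0 ∧ (z, k) ∈ TY LY w 0 with hsl2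
  set φ : List BX → List BY → ℝ≥0∞ := fun LX LY =>
    if win LX LY ∧ ¬ sl1 LX LY ∧ ¬ sl2 LX LY then 1 else 0 with hφ
  set Φ : List BX → ℝ≥0∞ := fun LX => ∑' LY, (if HT hY LY = n then LW ΛY LY * φ LX LY else 0)
    with hΦ
  have step0 : ∑' LX, ∑' LY, (if HT hX LX = n ∧ HT hY LY = n ∧ win LX LY
      then LW ΛX LX * LW ΛY LY else 0) ≤ η + η + ∑' LX, (if HT hX LX = n then
        LW ΛX LX * Φ LX else 0) := by
    refine le_trans ?_ (add_le_add (add_le_add hη1 hη2) le_rfl)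
    rw [← ENNReal.tsum_add, ← ENNReal.tsum_add]
    refine ENNReal.tsum_le_tsum fun LX => ?_
    have e : (if HT hX LX = n then LW ΛX LX * Φ LX else 0)
        = ∑' LY, (if HT hX LX = n then LW ΛX LX * (if HT hY LY = n then LW ΛY LY * φ LX LY
          else 0) else 0) := by
      by_cases h : HT hX LX = n
      · simp only [if_pos h]; rw [ENNReal.tsum_mul_left]
      · simp only [if_neg h, tsum_zero]
    rw [e, ← ENNReal.tsum_add, ← ENNReal.tsum_add]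
    refine ENNReal.tsum_le_tsum fun LY => ?_
    by_cases h : HT hX LX = n ∧ HT hY LY = n ∧ win LX LY
    · rw [if_pos h]
      by_cases h1 : sl1 LX LY
      · refine le_add_right (le_add_right ?_)
        rw [if_pos ⟨h.1, h.2.1, h1⟩]
      · by_cases h2 : sl2 LX LY
        · refine le_add_right (le_add_left ?_)
          rw [if_pos ⟨h.1, h.2.1, h2⟩]
        · refine le_add_left ?_
          rw [if_pos h.1, if_pos h.2.1]
          simp only [hφ]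
          rw [if_pos ⟨h.2.2, h1, h2⟩, mul_one]
    · rw [if_neg h]; exact zero_le
  refine step0.trans (add_le_add le_rfl ?_)
  have hφ1 : ∀ LX LY, φ LX LY ≤ 1 := by
    intro LX LY
    simp only [hφ]; split_ifs <;> simp
  have hΦ1 : ∀ LX, Φ LX ≤ 1 := by
    intro LX
    refine le_trans ?_ (U_le_one hY ΛY h1Y hΛY n)
    refine ENNReal.tsum_le_tsum fun LY => ?_
    by_cases h : HT hY LY = n
    · rw [if_pos h, if_pos h]
      calc _ ≤ LW ΛY LY * 1 := mul_le_mul_right (hφ1 _ _) _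
        _ = _ := mul_one _
    · rw [if_neg h, if_neg h]
  set ψ : List BX → List BX → List BY → List BY → ℝ≥0∞ := fun L1 L2 L1' L2' =>
    if Ev TX TY L2 L2' (w + Dp zY L1' - Dp zX L1) (HT hX L1) (HT hY L1') lo hi then 1 else 0
    with hψ
  have dec := decomp ΛX hX h1X hΛX i0 o hoX n A S (by omega) Φ hΦ1
    (fun L1 L2 => 2 * o + ∑' L1', gw ΛY hY i0 (A + i0) L1' * ∑' L2', gw ΛY hY i0 (S + i0) L2' *
      ψ L1 L2 L1' L2') (by
      intro L1 L2 L3 f1 g1 f2 g2 _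
      refine decomp ΛY hY h1Y hΛY i0 o hoY n (A + i0) (S + i0) (by omega) _ (hφ1 _) _ ?_
      intro L1' L2' L3' f1' g1' f2' g2' _
      simp only [hφ, hψ]
      by_cases h : win (L1 ++ (L2 ++ L3)) (L1' ++ (L2' ++ L3')) ∧
        ¬ sl1 (L1 ++ (L2 ++ L3)) (L1' ++ (L2' ++ L3')) ∧
        ¬ sl2 (L1 ++ (L2 ++ L3)) (L1' ++ (L2' ++ L3'))
      · rw [if_pos h, if_pos]
        exact piece_ev aX dX tX aY dY tY i0 S s A w1 w2 w hw1 hw2 hsS L1 L2 L3 L1' L2' L3'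
          (fp_le _ _ _ f1) g1 (fp_le _ _ _ f2) g2 (fp_le _ _ _ f1') g1' (fp_le _ _ _ f2')
          h.1 h.2.1 h.2.2
      · rw [if_neg h]; exact zero_le)
  refine dec.trans (add_le_add le_rfl ?_)
  -- quantiles
  obtain ⟨thX, hX0, -, hXu, hXl⟩ := Dens903.quantile (fl ΛX hX zX S)
    (fl_mass ΛX hX zX h1X hΛX S) hu0 hu1
  obtain ⟨thY, hY0, -, hYu, hYl⟩ := Dens903.quantile (fl ΛY hY zY (S + i0))
    (fl_mass ΛY hY zY h1Y hΛY (S + i0)) hu0 hu1
  obtain ⟨gX, bX, hgbX, hgX, hbX⟩ := top_dens ΛX hX zX h1X hΛX S i0 thX u o hu0 hu1 hXl (hoX S)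
    J A (le_trans (Nat.mul_le_mul le_rfl (by omega)) hJ)
  obtain ⟨gY, bY, hgbY, hgY, hbY⟩ := top_dens ΛY hY zY h1Y hΛY (S + i0) i0 thY u o hu0 hu1 hYl
    (hoY _) J (A + i0) (le_trans (le_of_eq (by ring)) (le_trans hJ (Nat.le_add_right A i0)))
  -- level sets
  have hEX : ∀ i, ∃ E : Finset G, (∀ z, z ∈ E ↔ thX ≤ fl ΛX hX zX S (i, z)) ∧
      thX * E.card ≤ 1 := fun i => lev_set (fun z => fl ΛX hX zX S (i, z))
    (le_trans (ENNReal.tsum_comp_le_tsum_of_injective (f := fun z : G => (i, z))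
      (fun z z' h => by simpa using h) _) (fl_mass ΛX hX zX h1X hΛX S).le) hX0
  have hEY : ∀ i, ∃ E : Finset G, (∀ z, z ∈ E ↔ thY ≤ fl ΛY hY zY (S + i0) (i, z)) ∧
      thY * E.card ≤ 1 := fun i => lev_set (fun z => fl ΛY hY zY (S + i0) (i, z))
    (le_trans (ENNReal.tsum_comp_le_tsum_of_injective (f := fun z : G => (i, z))
      (fun z z' h => by simpa using h) _) (fl_mass ΛY hY zY h1Y hΛY (S + i0)).le) hY0
  choose EX hEX1 hEX2 using hEX
  choose EY hEY1 hEY2 using hEY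
  have hκX : ∀ i, ((i0 + 1) * thX * u⁻¹) * ((EX i).card : ℝ≥0∞) ≤ (i0 + 1) * u⁻¹ := by
    intro i
    calc _ = (i0 + 1) * u⁻¹ * (thX * (EX i).card) := by ring
      _ ≤ (i0 + 1) * u⁻¹ * 1 := mul_le_mul_right (hEX2 i) _
      _ = _ := mul_one _
  have hκY : ∀ i, ((i0 + 1) * thY * u⁻¹) * ((EY i).card : ℝ≥0∞) ≤ (i0 + 1) * u⁻¹ := by
    intro i
    calc _ = (i0 + 1) * u⁻¹ * (thY * (EY i).card) := by ring
      _ ≤ (i0 + 1) * u⁻¹ * 1 := mul_le_mul_right (hEY2 i) _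
      _ = _ := mul_one _
  set R : ℝ≥0∞ := (i0 + 1) * ((i0 + 1) * (C * (lam + (i0 + 1) * u⁻¹ * us s / lam + us s)))
    with hR
  set KX : ℕ → ℕ → G → ℝ≥0∞ := fun a a' x => ∑' L, gw ΛX hX i0 S L * ∑' L',
    gw ΛY hY i0 (S + i0) L' * (if thX ≤ fl ΛX hX zX S (HT hX L - S, Dp zX L) ∧
      Ev TX TY L L' x a a' lo hi then 1 else 0) with hKX
  set KY : ℕ → ℕ → G → ℝ≥0∞ := fun a a' x => ∑' L, gw ΛX hX i0 S L * ∑' L',
    gw ΛY hY i0 (S + i0) L' * (if thY ≤ fl ΛY hY zY (S + i0) (HT hY L' - (S + i0), Dp zY L') ∧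
      Ev TX TY L L' x a a' lo hi then 1 else 0) with hKY
  have hK1 : ∀ f : List BX → List BY → ℝ≥0∞, (∀ L L', f L L' ≤ 1) →
      ∑' L, gw ΛX hX i0 S L * ∑' L', gw ΛY hY i0 (S + i0) L' * f L L' ≤ 1 :=
    fun f hf => gw_avg ΛX hX h1X hΛX i0 S _ 1 fun L _ _ =>
      gw_avg ΛY hY h1Y hΛY i0 (S + i0) _ 1 fun L' _ _ => hf L L'
  have hQX : ∀ L1', fp hY L1' (A + i0) → HT hY L1' ≤ A + i0 + i0 →
      ∑' L1, gw ΛX hX i0 A L1 * KX (HT hX L1) (HT hY L1') (w + Dp zY L1' - Dp zX L1)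
        ≤ (i0 + 1) * R + ((1 - u) ^ J + o * u⁻¹) := by
    intro L1' f1 g1
    have h0 := fp_le _ _ _ f1
    refine top_sum' ΛX hX zX h1X hΛX i0 A ((i0 + 1) * thX * u⁻¹) _ R gX bX hgbX hgX hbX
      (fun a z => KX a (HT hY L1') (w + Dp zY L1' - z))
      (fun a z => hK1 _ (fun _ _ => by split_ifs <;> simp)) ?_
    intro a ha1 ha2 μ hμ1 hμM
    have e := (Equiv.subLeft (w + Dp zY L1')).tsum_eq
      (fun x => μ (w + Dp zY L1' - x) * KX a (HT hY L1') x)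
    simp only [Equiv.subLeft_apply, sub_sub_cancel] at e
    rw [e]
    refine locX_le H2 i0 S (S + i0) s a (HT hY L1') lo hi (by omega) (by omega) (by omega) thX _
      EX hEX1 _ hκX lam hl0 hl1 (fun x => μ (w + Dp zY L1' - x)) ?_ (fun x => hμM _)
    have e2 := (Equiv.subLeft (w + Dp zY L1')).tsum_eq μ
    simp only [Equiv.subLeft_apply] at e2
    rw [e2]; exact hμ1
  have hQY : ∀ L1, fp hX L1 A → HT hX L1 ≤ A + i0 →
      ∑' L1', gw ΛY hY i0 (A + i0) L1' * KY (HT hX L1) (HT hY L1') (w + Dp zY L1' - Dp zX L1)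
        ≤ (i0 + 1) * R + ((1 - u) ^ J + o * u⁻¹) := by
    intro L1 f1 g1
    have h0 := fp_le _ _ _ f1
    refine top_sum' ΛY hY zY h1Y hΛY i0 (A + i0) ((i0 + 1) * thY * u⁻¹) _ R gY bY hgbY hgY hbY
      (fun a' z => KY (HT hX L1) a' (w + z - Dp zX L1))
      (fun a z => hK1 _ (fun _ _ => by split_ifs <;> simp)) ?_
    intro a' ha1 ha2 μ hμ1 hμM
    have e := (Equiv.addRight (w - Dp zX L1)).tsum_eq
      (fun x => μ (x - (w - Dp zX L1)) * KY (HT hX L1) a' x)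
    simp only [Equiv.coe_addRight, add_sub_cancel_right] at e
    have e' : ∀ z, w + z - Dp zX L1 = z + (w - Dp zX L1) := fun z => by abel
    simp only [e']
    rw [e]
    refine locY_le H3 i0 S (S + i0) s (HT hX L1) a' lo hi (by omega) (by omega) (by omega) thY _
      EY hEY1 _ hκY lam hl0 hl1 (fun x => μ (x - (w - Dp zX L1))) ?_ (fun x => hμM _)
    have e2 := (Equiv.subRight (w - Dp zX L1)).tsum_eq μ
    simp only [Equiv.subRight_apply] at e2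
    rw [e2]; exact hμ1
  -- splitting of `ψ`
  have hKK : ∀ L1 L1', ∑' L2, gw ΛX hX i0 S L2 * ∑' L2', gw ΛY hY i0 (S + i0) L2' *
      ψ L1 L2 L1' L2' ≤ u * u + (KX (HT hX L1) (HT hY L1') (w + Dp zY L1' - Dp zX L1)
        + KY (HT hX L1) (HT hY L1') (w + Dp zY L1' - Dp zX L1)) := by
    intro L1 L1'
    set nX : List BX → ℝ≥0∞ := fun L => if thX ≤ fl ΛX hX zX S (HT hX L - S, Dp zX L) then 0
      else 1 with hnX
    set nY : List BY → ℝ≥0∞ := fun L' => if thY ≤ fl ΛY hY zY (S + i0)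
      (HT hY L' - (S + i0), Dp zY L') then 0 else 1 with hnY
    have hsp : ∀ L2 L2', ψ L1 L2 L1' L2' ≤ nX L2 * nY L2' +
        ((if thX ≤ fl ΛX hX zX S (HT hX L2 - S, Dp zX L2) ∧
          Ev TX TY L2 L2' (w + Dp zY L1' - Dp zX L1) (HT hX L1) (HT hY L1') lo hi then 1 else 0)
        + (if thY ≤ fl ΛY hY zY (S + i0) (HT hY L2' - (S + i0), Dp zY L2') ∧
          Ev TX TY L2 L2' (w + Dp zY L1' - Dp zX L1) (HT hX L1) (HT hY L1') lo hi
            then 1 else 0)) := by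
      intro L2 L2'
      simp only [hψ]
      by_cases h : Ev TX TY L2 L2' (w + Dp zY L1' - Dp zX L1) (HT hX L1) (HT hY L1') lo hi
      · rw [if_pos h]
        by_cases h1 : thX ≤ fl ΛX hX zX S (HT hX L2 - S, Dp zX L2)
        · rw [if_pos ⟨h1, h⟩]
          exact le_add_left (le_add_right le_rfl)
        · by_cases h2 : thY ≤ fl ΛY hY zY (S + i0) (HT hY L2' - (S + i0), Dp zY L2')
          · rw [if_pos (show _ ∧ _ from ⟨h2, h⟩)]
            exact le_add_left (le_add_left le_rfl)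
          · simp only [hnX, hnY]
            rw [if_neg h1, if_neg h2, mul_one]
            exact le_add_right le_rfl
      · rw [if_neg h]; exact zero_le
    calc _ ≤ ∑' L2, gw ΛX hX i0 S L2 * ∑' L2', gw ΛY hY i0 (S + i0) L2' * (nX L2 * nY L2' +
        ((if thX ≤ fl ΛX hX zX S (HT hX L2 - S, Dp zX L2) ∧
          Ev TX TY L2 L2' (w + Dp zY L1' - Dp zX L1) (HT hX L1) (HT hY L1') lo hi then 1 else 0)
        + (if thY ≤ fl ΛY hY zY (S + i0) (HT hY L2' - (S + i0), Dp zY L2') ∧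
          Ev TX TY L2 L2' (w + Dp zY L1' - Dp zX L1) (HT hX L1) (HT hY L1') lo hi
            then 1 else 0))) :=
          ENNReal.tsum_le_tsum fun L2 => mul_le_mul_right
            (ENNReal.tsum_le_tsum fun L2' => mul_le_mul_right (hsp L2 L2') _) _
      _ = (∑' L2, gw ΛX hX i0 S L2 * nX L2) * (∑' L2', gw ΛY hY i0 (S + i0) L2' * nY L2')
          + (KX (HT hX L1) (HT hY L1') (w + Dp zY L1' - Dp zX L1)
          + KY (HT hX L1) (HT hY L1') (w + Dp zY L1' - Dp zX L1)) := by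
          simp_rw [mul_add, ENNReal.tsum_add, mul_add, ENNReal.tsum_add]
          congr 1
          rw [← ENNReal.tsum_mul_right]
          refine tsum_congr fun L2 => ?_
          rw [mul_assoc, ← ENNReal.tsum_mul_left (a := nX L2)]
          congr 1
          refine tsum_congr fun L2' => ?_
          ring
      _ ≤ _ := by
          refine add_le_add (mul_le_mul' ?_ ?_) le_rfl
          · exact nonloc ΛX hX zX h1X i0 S thX u hXu
          · exact nonloc ΛY hY zY h1Y i0 (S + i0) thY u hYu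
  -- final sum
  calc _ ≤ ∑' L1, gw ΛX hX i0 A L1 * (2 * o + ∑' L2, gw ΛX hX i0 S L2 *
        ∑' L1', gw ΛY hY i0 (A + i0) L1' * ∑' L2', gw ΛY hY i0 (S + i0) L2' *
          ψ L1 L2 L1' L2') :=
        ENNReal.tsum_le_tsum fun L1 => mul_le_mul_right (gw_add ΛX hX h1X hΛX i0 S _ _) _
    _ ≤ 2 * o + ∑' L1, gw ΛX hX i0 A L1 * ∑' L2, gw ΛX hX i0 S L2 *
        ∑' L1', gw ΛY hY i0 (A + i0) L1' * ∑' L2', gw ΛY hY i0 (S + i0) L2' *
          ψ L1 L2 L1' L2' := gw_add ΛX hX h1X hΛX i0 A _ _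
    _ = 2 * o + ∑' L1, gw ΛX hX i0 A L1 * ∑' L1', gw ΛY hY i0 (A + i0) L1' *
        ∑' L2, gw ΛX hX i0 S L2 * ∑' L2', gw ΛY hY i0 (S + i0) L2' * ψ L1 L2 L1' L2' := by
        congr 1
        refine tsum_congr fun L1 => ?_
        rw [swp]
    _ ≤ 2 * o + ∑' L1, gw ΛX hX i0 A L1 * ∑' L1', gw ΛY hY i0 (A + i0) L1' *
        (u * u + (KX (HT hX L1) (HT hY L1') (w + Dp zY L1' - Dp zX L1)
        + KY (HT hX L1) (HT hY L1') (w + Dp zY L1' - Dp zX L1))) :=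
        add_le_add le_rfl (ENNReal.tsum_le_tsum fun L1 => mul_le_mul_right
          (ENNReal.tsum_le_tsum fun L1' => mul_le_mul_right (hKK L1 L1') _) _)
    _ ≤ 2 * o + ∑' L1, gw ΛX hX i0 A L1 * (u * u + ∑' L1', gw ΛY hY i0 (A + i0) L1' *
        (KX (HT hX L1) (HT hY L1') (w + Dp zY L1' - Dp zX L1)
        + KY (HT hX L1) (HT hY L1') (w + Dp zY L1' - Dp zX L1))) :=
        add_le_add le_rfl (ENNReal.tsum_le_tsum fun L1 => mul_le_mul_right
          (gw_add ΛY hY h1Y hΛY i0 (A + i0) _ _) _)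
    _ ≤ 2 * o + (u * u + ∑' L1, gw ΛX hX i0 A L1 * ∑' L1', gw ΛY hY i0 (A + i0) L1' *
        (KX (HT hX L1) (HT hY L1') (w + Dp zY L1' - Dp zX L1)
        + KY (HT hX L1) (HT hY L1') (w + Dp zY L1' - Dp zX L1))) :=
        add_le_add le_rfl (gw_add ΛX hX h1X hΛX i0 A _ _)
    _ ≤ _ := by
        refine add_le_add le_rfl (add_le_add le_rfl ?_)
        simp_rw [mul_add, ENNReal.tsum_add, mul_add, ENNReal.tsum_add]
        refine add_le_add ?_ ?_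
        · rw [swp]
          exact gw_avg ΛY hY h1Y hΛY i0 (A + i0) _ _ fun L1' f g => by
            simpa only [hR, mul_assoc] using hQX L1' f g
        · exact gw_avg ΛX hX h1X hΛX i0 A _ _ fun L1 f g => by
            simpa only [hR, mul_assoc] using hQY L1 f g

end two

end Crest.Agent.R154.Asm195
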