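import Crest.Agent.R154.AsmS_240
import Crest.Agent.R154.Num_337

/-! Row 154, ROAD 801 (helper240): assembly, KAPPA' on block lists. -/

set_option autoImplicit false

namespace Crest.Agent.R154.Asm240

open scoped ENNReal
open Crest.Agent.R154.B5A
open Crest.Agent.R154.Asm648

section dec1

variable {B : Type*} (Λ : B → ℝ≥0∞) (ht : B → ℕ)

open Classical in
lemma one_dec (h1 : ∀ b, 1 ≤ ht b) (hΛ : ∑' b, Λ b = 1) (hU1 : ∀ n, U Λ ht n ≤ 1)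
    {T i0 : ℕ} {η : ℝ≥0∞}
    (hη : ∑' P : Pc ht T, (if T + i0 < hP ht T P then wP Λ ht T P else 0) ≤ η) {J n : ℕ}
    (hn : J * (T + i0) ≤ n) (F : List B → ℝ≥0∞) (hF : ∀ L, F L ≤ 1)
    (C : List (Pc ht T) → ℝ≥0∞) (hC : ∀ Q R, Q.length = J → (∀ P ∈ Q, hP ht T P ≤ T + i0) →
      F (fl ht Q ++ R) ≤ C Q) :
    ∑' L, (if HT ht L = n then LW Λ L * F L else 0) ≤ SL (wP Λ ht T) J C + J * η := by
  refine (decomp Λ ht h1 hΛ hU1 T i0 η hη J n F hF hn).trans (add_le_add ?_ le_rfl)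
  refine SL_mono _ J fun Q hQ => ?_
  by_cases hok : ∀ P ∈ Q, hP ht T P ≤ T + i0
  swap
  · rw [if_neg hok]; exact zero_le
  rw [if_pos hok]
  calc ∑' R, (if HT ht (fl ht Q) + HT ht R = n then LW Λ R * F (fl ht Q ++ R) else 0)
      ≤ ∑' R, (if HT ht R = n - HT ht (fl ht Q) then LW Λ R else 0) * C Q := by
        refine ENNReal.tsum_le_tsum fun R => ?_
        by_cases h : HT ht (fl ht Q) + HT ht R = n
        · rw [if_pos h, if_pos (by omega)]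
          exact mul_le_mul_right (hC Q R hQ hok) _
        · rw [if_neg h]; exact zero_le
    _ = U Λ ht (n - HT ht (fl ht Q)) * C Q := by rw [ENNReal.tsum_mul_right]; rfl
    _ ≤ 1 * C Q := mul_le_mul_left (hU1 _) _
    _ = C Q := one_mul _

end dec1

section fin

variable {BX BY G : Type*} [AddCommGroup G] (ΛX : BX → ℝ≥0∞) (ΛY : BY → ℝ≥0∞)
  (hX : BX → ℕ) (hY : BY → ℕ) (zX : BX → G) (zY : BY → G)
  (sX : BX → Set (G × ℕ)) (sY : BY → Set (G × ℕ))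

open Classical in
theorem pair_decomp (h1X : ∀ b, 1 ≤ hX b) (h1Y : ∀ b, 1 ≤ hY b) (hΛX : ∑' b, ΛX b = 1)
    (hΛY : ∑' b, ΛY b = 1) (hUX : ∀ n, U ΛX hX n ≤ 1) (hUY : ∀ n, U ΛY hY n ≤ 1)
    {T i0 : ℕ} {ηX ηY : ℝ≥0∞}
    (hηX : ∑' P : Pc hX T, (if T + i0 < hP hX T P then wP ΛX hX T P else 0) ≤ ηX)
    (hηY : ∑' P : Pc hY T, (if T + i0 < hP hY T P then wP ΛY hY T P else 0) ≤ ηY) {J n : ℕ}
    (hn : J * (T + i0) ≤ n) (Φ : List BX → List BY → Prop)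
    (Ψ : List (Pc hX T) → List (Pc hY T) → ℝ≥0∞)
    (hΨ : ∀ Q Q' R R', Q.length = J → Q'.length = J → (∀ P ∈ Q, hP hX T P ≤ T + i0) →
      (∀ P ∈ Q', hP hY T P ≤ T + i0) → Φ (fl hX Q ++ R) (fl hY Q' ++ R') → 1 ≤ Ψ Q Q') :
    ∑' LX : List BX, ∑' LY : List BY,
      (if HT hX LX = n ∧ HT hY LY = n ∧ Φ LX LY then LW ΛX LX * LW ΛY LY else 0)
      ≤ SL (wP ΛX hX T) J (fun Q => SL (wP ΛY hY T) J (fun Q' => Ψ Q Q')) + J * ηY + J * ηX := by
  have e : ∀ LX : List BX, ∑' LY : List BY,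
      (if HT hX LX = n ∧ HT hY LY = n ∧ Φ LX LY then LW ΛX LX * LW ΛY LY else 0)
      = if HT hX LX = n then LW ΛX LX * ∑' LY : List BY, (if HT hY LY = n then LW ΛY LY *
        (if Φ LX LY then 1 else 0) else 0) else 0 := by
    intro LX
    by_cases h : HT hX LX = n
    · rw [if_pos h, ← ENNReal.tsum_mul_left]
      refine tsum_congr fun LY => ?_
      by_cases h2 : HT hY LY = n <;> by_cases h3 : Φ LX LY <;> simp [h, h2, h3]
    · rw [if_neg h]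
      refine ENNReal.tsum_eq_zero.2 fun LY => if_neg fun hh => h hh.1
  rw [tsum_congr e]
  refine (one_dec ΛX hX h1X hΛX hUX hηX hn _ (fun LX => ?_)
    (fun Q => SL (wP ΛY hY T) J (fun Q' => Ψ Q Q') + J * ηY) (fun Q R hQ hok => ?_)).trans ?_
  · refine le_trans (ENNReal.tsum_le_tsum fun LY => ?_) (hUY n)
    split_ifs <;> simp
  · refine one_dec ΛY hY h1Y hΛY hUY hηY hn (fun LY => if Φ (fl hX Q ++ R) LY then 1 else 0)
      (fun LY => by split_ifs <;> simp) (fun Q' => Ψ Q Q') (fun Q' R' hQ' hok' => ?_)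
    by_cases h : Φ (fl hX Q ++ R) (fl hY Q' ++ R')
    · rw [if_pos h]; exact hΨ Q Q' R R' hQ hQ' hok hok' h
    · rw [if_neg h]; exact zero_le
  · rw [SL_add_fun]
    exact add_le_add (add_le_add le_rfl
      (SL_const_le _ (sum_wP ΛX hX h1X hΛX T).le J _)) le_rfl

open Classical in
/-- indicator of a window in a pair of piece lists -/
noncomputable def psi (T i0 J s : ℕ) (w : G) (j : ℕ) (Q : List (Pc hX T)) (Q' : List (Pc hY T)) :
    ℝ≥0∞ :=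
  if ∃ Q1 P Q2 Q1' P' Q2', Q = Q1 ++ P :: Q2 ∧ Q1.length = j ∧ Q' = Q1' ++ P' :: Q2' ∧
    Q1'.length = j ∧
    EV hX hY zX zY sX sY T i0 J j (j * T + J * i0 + s) ((j + 1) * T - s) w Q1 P Q1' P'
  then 1 else 0

open Classical in
lemma one_window (h1X : ∀ b, 1 ≤ hX b) (h1Y : ∀ b, 1 ≤ hY b) (hΛX : ∑' b, ΛX b = 1)
    (hΛY : ∑' b, ΛY b = 1) (T i0 J s : ℕ) (w : G) (j : ℕ) (hj : j < J) :
    SL (wP ΛX hX T) J (fun Q => SL (wP ΛY hY T) J (fun Q' =>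
      psi hX hY zX zY sX sY T i0 J s w j Q Q'))
      ≤ II (wP ΛX hX T) (wP ΛY hY T) j (fun Q P Q' P' =>
        if EV hX hY zX zY sX sY T i0 J j (j * T + J * i0 + s) ((j + 1) * T - s) w Q P Q' P'
        then 1 else 0) := by
  have hwX := (sum_wP ΛX hX h1X hΛX T).le
  have hwY := (sum_wP ΛY hY h1Y hΛY T).le
  obtain ⟨r, hr⟩ : ∃ r, J = j + (r + 1) := ⟨J - j - 1, by omega⟩
  have key := SL_mid (wP ΛX hX T) hwX j r
    (fun Q => SL (wP ΛY hY T) (j + (r + 1)) (fun Q' => psi hX hY zX zY sX sY T i0 J s w j Q Q'))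
    (fun Q P => SL (wP ΛY hY T) j (fun Q' => ∑' P', wP ΛY hY T P' *
      (if EV hX hY zX zY sX sY T i0 J j (j * T + J * i0 + s) ((j + 1) * T - s) w Q P Q' P'
        then 1 else 0)))
    (fun Q1 P Q2 hQ1 hQ2 => by
      refine SL_mid (wP ΛY hY T) hwY j r _ _ fun Q1' P' Q2' hQ1' hQ2' => ?_
      unfold psi
      by_cases h : ∃ Q3 P3 Q4 Q3' P3' Q4', Q1 ++ P :: Q2 = Q3 ++ P3 :: Q4 ∧ Q3.length = j ∧
          Q1' ++ P' :: Q2' = Q3' ++ P3' :: Q4' ∧ Q3'.length = j ∧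
          EV hX hY zX zY sX sY T i0 J j (j * T + J * i0 + s) ((j + 1) * T - s) w Q3 P3 Q3' P3'
      · rw [if_pos h]
        obtain ⟨Q3, P3, Q4, Q3', P3', Q4', e1, l1, e2, l2, hE⟩ := h
        obtain ⟨a1, a2⟩ := List.append_inj e1 (by rw [hQ1, l1])
        obtain ⟨b1, b2⟩ := List.append_inj e2 (by rw [hQ1', l2])
        simp only [List.cons.injEq] at a2 b2
        obtain ⟨a2, _⟩ := a2
        obtain ⟨b2, _⟩ := b2
        subst a1 a2 b1 b2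
        rw [if_pos hE]
      · rw [if_neg h]; exact zero_le)
  rw [hr] at key ⊢
  exact key

open Classical in
/-- **KAPPA' on block lists** from the two facing inequalities and the point estimate. -/
theorem kapS (h1X : ∀ b, 1 ≤ hX b) (h1Y : ∀ b, 1 ≤ hY b) (hΛX : ∑' b, ΛX b = 1)
    (hΛY : ∑' b, ΛY b = 1) (hUX : ∀ n, U ΛX hX n ≤ 1) (hUY : ∀ n, U ΛY hY n ≤ 1)
    (hovX : Filter.Tendsto (fun i => ∑' k, tail ΛX hX (i + k)) Filter.atTop (nhds 0))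
    (hovY : Filter.Tendsto (fun i => ∑' k, tail ΛY hY (i + k)) Filter.atTop (nhds 0))
    (hsX : ∀ b q, q ∈ sX b → 1 ≤ q.2 ∧ q.2 ≤ hX b)
    (hsY : ∀ b q, q ∈ sY b → 1 ≤ q.2 ∧ q.2 ≤ hY b)
    (hF2 : Face ΛX ΛY hX hY zX zY sX sY (fun L _ => Dp zX L))
    (hF3 : Face ΛX ΛY hX hY zX zY sX sY (fun _ L' => Dp zY L'))
    (hPt : ∀ η : ℝ≥0∞, η ≠ 0 → ∃ k0 : ℕ, ∀ k, k0 ≤ k → ∀ n, k ≤ n → ∀ w : G,
      ∑' LX : List BX, ∑' LY : List BY, (if HT hX LX = n ∧ HT hY LY = n ∧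
        (∃ y, (y, k) ∈ TT sX zX hX LX 0 0 ∧ (y, k) ∈ TT sY zY hY LY w 0)
        then LW ΛX LX * LW ΛY LY else 0) ≤ η) :
    ∀ ε : ℝ≥0∞, ε ≠ 0 → ∃ Mm : ℕ, ∀ m, Mm ≤ m → ∃ n0 : ℕ, ∀ n, n0 ≤ n → ∀ w : G,
      ∑' LX : List BX, ∑' LY : List BY, (if HT hX LX = n ∧ HT hY LY = n ∧
        (∃ y k, (y, k) ∈ TT sX zX hX LX 0 0 ∧ (y, k) ∈ TT sY zY hY LY w 0 ∧ m < k ∧ k ≤ 2 * m)
        then LW ΛX LX * LW ΛY LY else 0) ≤ ε := by
  intro ε hε
  rcases eq_or_ne ε ⊤ with rfl | hεt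
  · exact ⟨0, fun m _ => ⟨0, fun n _ w => le_top⟩⟩
  have hε4 : ε / 4 ≠ 0 := (ENNReal.div_pos hε (by norm_num)).ne'
  have hε4t : ε / 4 ≠ ⊤ := (ENNReal.div_lt_top hεt (by norm_num)).ne
  have hε8 : ε / 8 ≠ 0 := (ENNReal.div_pos hε (by norm_num)).ne'
  obtain ⟨q, hq2, hq⟩ := AsmA789.num hε4 8
  set j0 : ℕ := q ^ 3 with hj0
  set J : ℕ := 4 * q ^ 3 with hJ
  have hq1 : 1 ≤ q ^ 3 := Nat.one_le_pow _ _ (by omega)
  set u : ℝ≥0∞ := (2 * (q : ℝ≥0∞) ^ 2)⁻¹ with hu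
  have hqq : (2 : ℝ≥0∞) ≤ q := by exact_mod_cast hq2
  have hq0 : (q : ℝ≥0∞) ^ 2 ≠ 0 := pow_ne_zero _ (by
    intro h; rw [h] at hqq; simp at hqq)
  have hqt : (q : ℝ≥0∞) ^ 2 ≠ ⊤ := ENNReal.pow_ne_top (ENNReal.natCast_ne_top q)
  have hu0 : u ≠ 0 := ENNReal.inv_ne_zero.2 (ENNReal.mul_ne_top (by norm_num) hqt)
  have hu1 : u < 1 := by
    rw [hu, ENNReal.inv_lt_one]
    calc (1 : ℝ≥0∞) < 2 := by norm_num
      _ = 2 * 1 := (mul_one _).symm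
      _ ≤ 2 * (q : ℝ≥0∞) ^ 2 := mul_le_mul_right (one_le_pow₀ (le_trans (by norm_num) hqq)) _
  have huu : u * u ≤ ((q : ℝ≥0∞) ^ 2)⁻¹ ^ 2 := by
    rw [pow_two]
    have : u ≤ ((q : ℝ≥0∞) ^ 2)⁻¹ := by
      rw [hu]
      refine ENNReal.inv_le_inv' ?_
      calc (q : ℝ≥0∞) ^ 2 = 1 * (q : ℝ≥0∞) ^ 2 := (one_mul _).symm
        _ ≤ 2 * (q : ℝ≥0∞) ^ 2 := mul_le_mul_left (by norm_num) _
    exact mul_le_mul' this this
  -- overshoot
  obtain ⟨iX, hiX⟩ := Num337.exSmall _ hovX (J : ℝ≥0∞) (ENNReal.natCast_ne_top J) (ε / 8) hε8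
  obtain ⟨iY, hiY⟩ := Num337.exSmall _ hovY (J : ℝ≥0∞) (ENNReal.natCast_ne_top J) (ε / 8) hε8
  set i0 : ℕ := max iX iY with hi0
  have oX := hiX i0 (le_max_left _ _)
  have oY := hiY i0 (le_max_right _ _)
  -- facing
  set N : ℕ := (J * i0 + 1) * ((J * i0 + 1) * ((i0 + 1) * (i0 + 1))) with hN
  set A2 : ℝ≥0∞ := (J : ℝ≥0∞) * (N + N) with hA2
  have hJ0 : (J : ℝ≥0∞) ≠ 0 := by exact_mod_cast (by omega : J ≠ 0)
  have hN0 : (N : ℝ≥0∞) ≠ 0 := by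
    have : 0 < N := by positivity
    exact_mod_cast this.ne'
  have hA0 : A2 ≠ 0 := mul_ne_zero hJ0 (by simp [hN0])
  have hAt : A2 ≠ ⊤ := ENNReal.mul_ne_top (ENNReal.natCast_ne_top J)
    (ENNReal.add_ne_top.2 ⟨ENNReal.natCast_ne_top N, ENNReal.natCast_ne_top N⟩)
  set η2 : ℝ≥0∞ := ε / 4 / A2 with hη2
  have hη20 : η2 ≠ 0 := (ENNReal.div_pos hε4 hAt).ne'
  have hη2e : A2 * η2 = ε / 4 := ENNReal.mul_div_cancel hA0 hAt
  have hC : (2 : ℝ≥0∞) * J ≠ ⊤ := ENNReal.mul_ne_top (by norm_num) (ENNReal.natCast_ne_top J)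
  obtain ⟨s2, hs2⟩ := hF2 (2 * J) hC ((J + 1) * i0) η2 hη20
  obtain ⟨s3, hs3⟩ := hF3 (2 * J) hC ((J + 1) * i0) η2 hη20
  set s : ℕ := max s2 s3 with hs
  have f2 := hs2 s (le_max_left _ _)
  have f3 := hs3 s (le_max_right _ _)
  -- point
  set NK : ℕ := (J + 1) * (J * i0 + 2 * s + 1) with hNK
  have hNK0 : (NK : ℝ≥0∞) ≠ 0 := by
    have : 0 < NK := by positivity
    exact_mod_cast this.ne'
  have hNKt : (NK : ℝ≥0∞) ≠ ⊤ := ENNReal.natCast_ne_top NK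
  set η3 : ℝ≥0∞ := ε / 4 / NK with hη3
  have hη30 : η3 ≠ 0 := (ENNReal.div_pos hε4 hNKt).ne'
  have hη3e : (NK : ℝ≥0∞) * η3 = ε / 4 := ENNReal.mul_div_cancel hNK0 hNKt
  obtain ⟨k0, hk0⟩ := hPt η3 hη30
  refine ⟨J * (s + k0 + 1) + 2 * J, fun m hm => ?_⟩
  set T : ℕ := 2 * m / J + 1 with hT
  have hJpos : 0 < J := by omega
  have hdm : J * (2 * m / J) ≤ 2 * m := Nat.mul_div_le _ _
  have hdm2 : 2 * m < J * (2 * m / J + 1) := Nat.lt_mul_div_succ _ hJpos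
  have hTbig : s + k0 + 1 ≤ 2 * m / J := by
    rw [Nat.le_div_iff_mul_le hJpos, mul_comm]
    omega
  have hJT : 2 * m ≤ J * T := by rw [hT]; exact hdm2.le
  have hj0T : j0 * T ≤ m := by
    have e1 : J * (2 * m / J) = 4 * (j0 * (2 * m / J)) := by
      rw [hJ, hj0]
      generalize 2 * m / (4 * q ^ 3) = v
      ring
    have e2 : j0 * T = j0 * (2 * m / J) + j0 := by rw [hT]; ring
    have e3 : J = 4 * j0 := by rw [hJ, hj0]
    rw [e1] at hdm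
    omega
  refine ⟨J * (T + i0) + J * T + J * i0 + s, fun n hn w => ?_⟩
  have hTs : s ≤ T := by omega
  have hT1 : 1 ≤ T := by omega
  -- slabs
  set K : Finset ℕ := (Finset.Icc j0 J).biUnion
    (fun j => Finset.Icc (j * T - s) (j * T + J * i0 + s)) with hK
  have hKcard : K.card ≤ NK := by
    refine Finset.card_biUnion_le.trans ?_
    calc ∑ j ∈ Finset.Icc j0 J, (Finset.Icc (j * T - s) (j * T + J * i0 + s)).card
        ≤ ∑ _j ∈ Finset.Icc j0 J, (J * i0 + 2 * s + 1) := by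
          refine Finset.sum_le_sum fun j _ => ?_
          rw [Nat.card_Icc]
          omega
      _ = (J + 1 - j0) * (J * i0 + 2 * s + 1) := by
          rw [Finset.sum_const, Nat.card_Icc, smul_eq_mul]
      _ ≤ NK := Nat.mul_le_mul_right _ (by omega)
  have hKmem : ∀ k ∈ K, k0 ≤ k ∧ k ≤ n := by
    intro k hk
    simp only [hK, Finset.mem_biUnion, Finset.mem_Icc] at hk
    obtain ⟨j, ⟨hj1, hj2⟩, hk1, hk2⟩ := hk
    have a1 : 1 * T ≤ j * T := Nat.mul_le_mul_right _ (by omega)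
    have a2 : j * T ≤ J * T := Nat.mul_le_mul_right _ hj2
    have a3 : 0 ≤ J * (T + i0) := Nat.zero_le _
    constructor <;> omega
  obtain ⟨Φ, hΦ⟩ : ∃ Φ : List BX → List BY → Prop, ∀ LX LY, Φ LX LY ↔
    ((∃ y k, (y, k) ∈ TT sX zX hX LX 0 0 ∧ (y, k) ∈ TT sY zY hY LY w 0 ∧ m < k ∧ k ≤ 2 * m) ∧
    (∀ j, j0 ≤ j → j ≤ J → ∀ y k, (y, k) ∈ TT sX zX hX LX 0 0 →
      (y, k) ∈ TT sY zY hY LY w 0 → ¬ (j * T ≤ k + s ∧ k ≤ j * T + J * i0 + s))) :=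
    ⟨_, fun _ _ => Iff.rfl⟩
  have hηX := over_wP ΛX hX h1X hUX T i0
  have hηY := over_wP ΛY hY h1Y hUY T i0
  have hdec := pair_decomp ΛX ΛY hX hY h1X h1Y hΛX hΛY hUX hUY hηX hηY (J := J) (n := n)
    (by omega) Φ
    (fun Q Q' => ∑ j ∈ Finset.Ico j0 J, psi hX hY zX zY sX sY T i0 J s w j Q Q')
    (fun Q Q' R R' hQ hQ' ok ok' hΦ' => by
      obtain ⟨hc, hnn⟩ := (hΦ _ _).1 hΦ'
      obtain ⟨j, hj1, hj2, Q1, P, Q2, Q1', P', Q2', e1, l1, e2, l2, hev⟩ :=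
        find_window hX hY zX zY sX sY hsX hsY hTs hT1 hJT hj0T w Q Q' R R' hQ hQ' ok ok'
          hc hnn
      have a1 := sum_ok hX Q1 (i0 := i0)
        (fun P0 h => ok P0 (by rw [e1]; exact List.mem_append_left _ h))
      have a2 := sum_ok hY Q1' (i0 := i0)
        (fun P0 h => ok' P0 (by rw [e2]; exact List.mem_append_left _ h))
      have b1 := le_hP hX P
      have b2 := le_hP hY P'
      have b3 := ok P (by rw [e1]; simp)
      have b4 := ok' P' (by rw [e2]; simp)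
      rw [l1] at a1
      rw [l2] at a2
      have hji : j * i0 ≤ J * i0 := Nat.mul_le_mul_right _ hj2.le
      have hji2 : j * (T + i0) = j * T + j * i0 := by ring
      have hE : EV hX hY zX zY sX sY T i0 J j (j * T + J * i0 + s) ((j + 1) * T - s) w
          Q1 P Q1' P' :=
        ⟨⟨a1.1, by omega⟩, ⟨a2.1, by omega⟩, ⟨b1, b3⟩, ⟨b2, b4⟩, hev⟩
      refine le_trans (le_of_eq ?_) (Finset.single_le_sum
        (f := fun j => psi hX hY zX zY sX sY T i0 J s w j Q Q') (fun _ _ => zero_le)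
        (Finset.mem_Ico.2 ⟨hj1, hj2⟩))
      show (1 : ℝ≥0∞) = psi hX hY zX zY sX sY T i0 J s w j Q Q'
      unfold psi
      rw [if_pos ⟨Q1, P, Q2, Q1', P', Q2', e1, l1, e2, l2, hE⟩])
  have hwin : SL (wP ΛX hX T) J (fun Q => SL (wP ΛY hY T) J (fun Q' =>
      ∑ j ∈ Finset.Ico j0 J, psi hX hY zX zY sX sY T i0 J s w j Q Q')) ≤ ε / 4 + ε / 4 := by
    have e1 : SL (wP ΛX hX T) J (fun Q => SL (wP ΛY hY T) J (fun Q' =>
        ∑ j ∈ Finset.Ico j0 J, psi hX hY zX zY sX sY T i0 J s w j Q Q'))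
        = ∑ j ∈ Finset.Ico j0 J, SL (wP ΛX hX T) J (fun Q => SL (wP ΛY hY T) J (fun Q' =>
          psi hX hY zX zY sX sY T i0 J s w j Q Q')) := by
      rw [← SL_sum]
      exact SL_congr _ J fun Q _ => SL_sum _ _ _ _
    rw [e1]
    calc ∑ j ∈ Finset.Ico j0 J, SL (wP ΛX hX T) J (fun Q => SL (wP ΛY hY T) J (fun Q' =>
          psi hX hY zX zY sX sY T i0 J s w j Q Q'))
        ≤ ∑ _j ∈ Finset.Ico j0 J, (u * u + (1 - u) ^ j0 + (1 - u) ^ j0 + N * η2 + N * η2) := by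
          refine Finset.sum_le_sum fun j hj => ?_
          obtain ⟨hj1, hj2⟩ := Finset.mem_Ico.1 hj
          refine (one_window ΛX ΛY hX hY zX zY sX sY h1X h1Y hΛX hΛY T i0 J s w j hj2).trans ?_
          have hjT : (j + 1) * T = j * T + T := by ring
          refine (window_bd ΛX ΛY hX hY zX zY sX sY h1X h1Y hΛX hΛY hu0 hu1 f2 f3 w
            (by omega) hj2.le (le_refl _) (by omega)).trans ?_
          have hp : (1 - u) ^ j ≤ (1 - u) ^ j0 := pow_le_pow_right_of_le_one' tsub_le_self hj1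
          exact add_le_add (add_le_add (add_le_add (add_le_add le_rfl hp) hp) le_rfl) le_rfl
      _ = ((J - j0 : ℕ) : ℝ≥0∞) * (u * u + (1 - u) ^ j0 + (1 - u) ^ j0 + N * η2 + N * η2) := by
          rw [Finset.sum_const, Nat.card_Ico, nsmul_eq_mul]
      _ ≤ (J : ℝ≥0∞) * (u * u + (1 - u) ^ j0 + (1 - u) ^ j0 + N * η2 + N * η2) :=
          mul_le_mul_left (by exact_mod_cast Nat.sub_le _ _) _
      _ = (J : ℝ≥0∞) * (u * u + (1 - u) ^ j0 + (1 - u) ^ j0) + A2 * η2 := by rw [hA2]; ring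
      _ ≤ ε / 4 + ε / 4 := by
          refine add_le_add (le_trans ?_ hq) hη2e.le
          calc (J : ℝ≥0∞) * (u * u + (1 - u) ^ j0 + (1 - u) ^ j0)
              ≤ (J : ℝ≥0∞) * (2 * (((q : ℝ≥0∞) ^ 2)⁻¹ ^ 2 + (1 - u) ^ (q ^ 3))) := by
                refine mul_le_mul_right ?_ _
                calc u * u + (1 - u) ^ j0 + (1 - u) ^ j0
                    ≤ (u * u + u * u) + (1 - u) ^ j0 + (1 - u) ^ j0 :=
                      add_le_add (add_le_add le_self_add le_rfl) le_rfl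
                  _ = 2 * (u * u + (1 - u) ^ (q ^ 3)) := by rw [hj0]; ring
                  _ ≤ _ := mul_le_mul_right (add_le_add huu le_rfl) _
            _ = (8 * (q : ℝ≥0∞) ^ 3) * (((q : ℝ≥0∞) ^ 2)⁻¹ ^ 2 + (1 - u) ^ (q ^ 3)) := by
                rw [hJ]; push_cast; ring
            _ ≤ ((8 : ℕ) * ((q : ℝ≥0∞) ^ 3 + (8 : ℕ))) *
                (((q : ℝ≥0∞) ^ 2)⁻¹ ^ 2 + (1 - u) ^ (q ^ 3)) := by
                refine mul_le_mul_left ?_ _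
                push_cast
                exact mul_le_mul_right le_self_add _
  -- put together
  have hpt : ∀ k ∈ K, ∑' LX : List BX, ∑' LY : List BY, (if HT hX LX = n ∧ HT hY LY = n ∧
      (∃ y, (y, k) ∈ TT sX zX hX LX 0 0 ∧ (y, k) ∈ TT sY zY hY LY w 0)
      then LW ΛX LX * LW ΛY LY else 0) ≤ η3 := fun k hk =>
    hk0 k (hKmem k hk).1 n (hKmem k hk).2 w
  have hsplit : ∀ (LX : List BX) (LY : List BY),
      (if HT hX LX = n ∧ HT hY LY = n ∧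
        (∃ y k, (y, k) ∈ TT sX zX hX LX 0 0 ∧ (y, k) ∈ TT sY zY hY LY w 0 ∧ m < k ∧ k ≤ 2 * m)
        then LW ΛX LX * LW ΛY LY else 0)
      ≤ (if HT hX LX = n ∧ HT hY LY = n ∧ Φ LX LY then LW ΛX LX * LW ΛY LY else 0)
        + ∑ k ∈ K, (if HT hX LX = n ∧ HT hY LY = n ∧
          (∃ y, (y, k) ∈ TT sX zX hX LX 0 0 ∧ (y, k) ∈ TT sY zY hY LY w 0)
          then LW ΛX LX * LW ΛY LY else 0) := by
    intro LX LY
    by_cases h : HT hX LX = n ∧ HT hY LY = n ∧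
        (∃ y k, (y, k) ∈ TT sX zX hX LX 0 0 ∧ (y, k) ∈ TT sY zY hY LY w 0 ∧ m < k ∧ k ≤ 2 * m)
    swap
    · rw [if_neg h]; exact zero_le
    rw [if_pos h]
    by_cases hP : Φ LX LY
    · rw [if_pos ⟨h.1, h.2.1, hP⟩]; exact le_self_add
    · refine le_add_left ?_
      have : ∃ k ∈ K, ∃ y, (y, k) ∈ TT sX zX hX LX 0 0 ∧ (y, k) ∈ TT sY zY hY LY w 0 := by
        by_contra hcon
        apply hP
        rw [hΦ]
        refine ⟨h.2.2, fun j hj1 hj2 y k hx hy hk => hcon ⟨k, ?_, y, hx, hy⟩⟩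
        simp only [hK, Finset.mem_biUnion, Finset.mem_Icc]
        exact ⟨j, ⟨hj1, hj2⟩, by omega, hk.2⟩
      obtain ⟨k, hk, hy⟩ := this
      refine le_trans (le_of_eq ?_) (Finset.single_le_sum
        (f := fun k => if HT hX LX = n ∧ HT hY LY = n ∧
          (∃ y, (y, k) ∈ TT sX zX hX LX 0 0 ∧ (y, k) ∈ TT sY zY hY LY w 0)
          then LW ΛX LX * LW ΛY LY else 0) (fun _ _ => zero_le) hk)
      exact (if_pos ⟨h.1, h.2.1, hy⟩).symm
  calc _ ≤ ∑' LX : List BX, ∑' LY : List BY,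
        ((if HT hX LX = n ∧ HT hY LY = n ∧ Φ LX LY then LW ΛX LX * LW ΛY LY else 0)
        + ∑ k ∈ K, (if HT hX LX = n ∧ HT hY LY = n ∧
          (∃ y, (y, k) ∈ TT sX zX hX LX 0 0 ∧ (y, k) ∈ TT sY zY hY LY w 0)
          then LW ΛX LX * LW ΛY LY else 0)) :=
        ENNReal.tsum_le_tsum fun LX => ENNReal.tsum_le_tsum fun LY => hsplit LX LY
    _ = ∑' LX : List BX, ∑' LY : List BY,
        (if HT hX LX = n ∧ HT hY LY = n ∧ Φ LX LY then LW ΛX LX * LW ΛY LY else 0)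
        + ∑ k ∈ K, ∑' LX : List BX, ∑' LY : List BY, (if HT hX LX = n ∧ HT hY LY = n ∧
          (∃ y, (y, k) ∈ TT sX zX hX LX 0 0 ∧ (y, k) ∈ TT sY zY hY LY w 0)
          then LW ΛX LX * LW ΛY LY else 0) := by
        simp only [ENNReal.tsum_add]
        congr 1
        rw [← Summable.tsum_finsetSum (fun _ _ => ENNReal.summable)]
        refine tsum_congr fun LX => ?_
        rw [← Summable.tsum_finsetSum (fun _ _ => ENNReal.summable)]
    _ ≤ (ε / 4 + ε / 4 + ε / 8 + ε / 8) + ∑ _k ∈ K, η3 := by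
        refine add_le_add (hdec.trans ?_) (Finset.sum_le_sum hpt)
        exact add_le_add (add_le_add hwin oY) oX
    _ ≤ (ε / 4 + ε / 4 + ε / 8 + ε / 8) + ε / 4 := by
        refine add_le_add le_rfl ?_
        rw [Finset.sum_const, nsmul_eq_mul]
        exact (mul_le_mul_left (by exact_mod_cast hKcard) _).trans hη3e.le
    _ = ε := by
        have e8 : ε / 8 + ε / 8 = ε / 4 := by
          rw [ENNReal.div_add_div_same, ← two_mul]
          rw [show (8 : ℝ≥0∞) = 2 * 4 by norm_num]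
          exact ENNReal.mul_div_mul_left _ _ (by norm_num) (by norm_num)
        have e4 : ε / 4 + ε / 4 = ε / 2 := by
          rw [ENNReal.div_add_div_same, ← two_mul]
          rw [show (4 : ℝ≥0∞) = 2 * 2 by norm_num]
          exact ENNReal.mul_div_mul_left _ _ (by norm_num) (by norm_num)
        calc ε / 4 + ε / 4 + ε / 8 + ε / 8 + ε / 4
            = (ε / 4 + ε / 4) + ((ε / 8 + ε / 8) + ε / 4) := by ring
          _ = ε / 2 + ε / 2 := by rw [e8, e4]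
          _ = ε := ENNReal.add_halves ε

end fin

end Crest.Agent.R154.Asm240
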