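import Crest.Agent.R154.FP_178

/-! Row 154, ROAD 801, assembly (helper247), part 1: traces of lists, three-piece decomposition. -/

set_option autoImplicit false

namespace Crest.Agent.R154.Asm247

open scoped ENNReal
open Crest.Agent.R154.B5A Crest.Agent.R154.FP178

variable {B G : Type*} [AddCommGroup G]

/-- displacement of a list -/
def Dp (z : B → G) (L : List B) : G := (L.map z).sum

/-- trace of a list read from the tie down, hung at `x` at depth `a` -/
def TR (h : B → ℕ) (z : B → G) (s : B → Set (G × ℕ)) : List B → G → ℕ → Set (G × ℕ)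
  | [], _, _ => ∅
  | b :: L, x, a => {p | ∃ q ∈ s b, p = (x + q.1, a + q.2)} ∪ TR h z s L (x + z b) (a + h b)

lemma Dp_nil (z : B → G) : Dp z [] = 0 := by simp [Dp]
lemma Dp_cons (z : B → G) (b : B) (L : List B) : Dp z (b :: L) = z b + Dp z L := by simp [Dp]
lemma Dp_append (z : B → G) (L L' : List B) : Dp z (L ++ L') = Dp z L + Dp z L' := by simp [Dp]

lemma TR_append (h : B → ℕ) (z : B → G) (s : B → Set (G × ℕ)) (L L' : List B) (x : G) (a : ℕ) :
    TR h z s (L ++ L') x a = TR h z s L x a ∪ TR h z s L' (x + Dp z L) (a + HT h L) := by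
  induction L generalizing x a with
  | nil => simp [TR, Dp_nil, HT_nil]
  | cons b L ih =>
    rw [List.cons_append, TR, ih, TR, Dp_cons, HT_cons, Set.union_assoc, add_assoc, add_assoc]

lemma TR_depth (h : B → ℕ) (z : B → G) (s : B → Set (G × ℕ))
    (hs : ∀ b, ∀ q ∈ s b, 1 ≤ q.2 ∧ q.2 ≤ h b) (L : List B) (x : G) (a : ℕ) (p : G × ℕ)
    (hp : p ∈ TR h z s L x a) : a < p.2 ∧ p.2 ≤ a + HT h L := by
  induction L generalizing x a with
  | nil => exact absurd hp (by simp [TR])
  | cons b L ih =>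
    rw [HT_cons]
    rcases hp with ⟨q, hq, rfl⟩ | hp
    · have := hs b q hq; simp only; omega
    · have := ih _ _ hp; omega

lemma TR_shift (h : B → ℕ) (z : B → G) (s : B → Set (G × ℕ)) (L : List B) (x y : G) (a k : ℕ)
    (v : G) : (v, k) ∈ TR h z s L (x + y) a ↔ (v - x, k) ∈ TR h z s L y a := by
  induction L generalizing y a with
  | nil => simp [TR]
  | cons b L ih =>
    rw [TR, TR, Set.mem_union, Set.mem_union, add_assoc, ih (y + z b) (a + h b)]
    refine or_congr ?_ Iff.rfl
    constructor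
    · rintro ⟨q, hq, he⟩
      refine ⟨q, hq, ?_⟩
      rw [Prod.mk.injEq] at he ⊢
      exact ⟨by rw [he.1]; abel, he.2⟩
    · rintro ⟨q, hq, he⟩
      refine ⟨q, hq, ?_⟩
      rw [Prod.mk.injEq] at he ⊢
      exact ⟨by rw [sub_eq_iff_eq_add] at he; rw [he.1]; abel, he.2⟩

variable (Λ : B → ℝ≥0∞) (ht : B → ℕ)

/-- mass of the lists of given height, weighted by a function `≤ 1` -/
lemma sum_n_le (hU1 : ∀ n, U Λ ht n ≤ 1) (n : ℕ) (f : List B → ℝ≥0∞) (hf : ∀ L, f L ≤ 1) :
    ∑' L, LW Λ L * (if HT ht L = n then f L else 0) ≤ 1 := by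
  refine le_trans (ENNReal.tsum_le_tsum fun L => ?_) (hU1 n)
  by_cases h : HT ht L = n
  · rw [if_pos h]
    have : (if HT ht L = n then LW Λ L else 0) = LW Λ L := if_pos h
    calc LW Λ L * f L ≤ LW Λ L * 1 := by gcongr; exact hf L
      _ = _ := by rw [mul_one]; exact this.symm
  · rw [if_neg h, mul_zero]; exact zero_le

open Classical in
/-- three pieces -/
theorem three (h1 : ∀ b, 1 ≤ ht b) (hU1 : ∀ n, U Λ ht n ≤ 1) (hΛ : ∑' b, Λ b ≤ 1)
    (c τ i0 n : ℕ) (hn : c + i0 + τ ≤ n) (f : List B → ℝ≥0∞) (hf : ∀ L, f L ≤ 1)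
    (g : List B → List B → ℝ≥0∞)
    (hg : ∀ L1 L2 L3, fp ht c L1 → HT ht L1 ≤ c + i0 → fp ht τ L2 → HT ht L2 ≤ τ + i0 →
      f (L1 ++ (L2 ++ L3)) ≤ g L1 L2) :
    ∑' L, LW Λ L * (if HT ht L = n then f L else 0)
      ≤ (∑' L1, if fp ht c L1 ∧ HT ht L1 ≤ c + i0 then LW Λ L1 *
          ∑' L2, (if fp ht τ L2 ∧ HT ht L2 ≤ τ + i0 then LW Λ L2 * g L1 L2 else 0) else 0)
        + 2 * ∑' k, tail Λ ht (i0 + k) := by
  set ov := ∑' k, tail Λ ht (i0 + k) with hov
  have e0 : ∑' L, LW Λ L * (if HT ht L = n then f L else 0)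
      = ∑' L, (if c ≤ HT ht L then LW Λ L * (if HT ht L = n then f L else 0) else 0) := by
    refine tsum_congr fun L => ?_
    by_cases h : HT ht L = n
    · rw [if_pos (show c ≤ HT ht L by omega)]
    · rw [if_neg h, mul_zero]; split_ifs <;> rfl
  rw [e0, split Λ ht h1 c]
  have e1 : ∀ L1, (if fp ht c L1 then LW Λ L1 * ∑' L2, LW Λ L2 *
        (if HT ht (L1 ++ L2) = n then f (L1 ++ L2) else 0) else 0)
      ≤ ((if fp ht c L1 ∧ HT ht L1 ≤ c + i0 then LW Λ L1 *
          ∑' L2, (if fp ht τ L2 ∧ HT ht L2 ≤ τ + i0 then LW Λ L2 * g L1 L2 else 0) else 0)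
          + (if fp ht c L1 then LW Λ L1 else 0) * ov)
          + (if fp ht c L1 ∧ c + i0 < HT ht L1 then LW Λ L1 else 0) := by
    intro L1
    by_cases hf1 : fp ht c L1
    swap
    · rw [if_neg hf1]; exact zero_le
    rw [if_pos hf1]
    have e2 : ∀ L2, LW Λ L2 * (if HT ht (L1 ++ L2) = n then f (L1 ++ L2) else 0)
        ≤ LW Λ L2 * (if HT ht L2 = n - HT ht L1 then f (L1 ++ L2) else 0) := by
      intro L2
      gcongr
      rw [HT_append]
      by_cases h : HT ht L1 + HT ht L2 = n
      · rw [if_pos h, if_pos (by omega)]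
      · rw [if_neg h]; exact zero_le
    by_cases hh : HT ht L1 ≤ c + i0
    swap
    · rw [if_neg (by tauto), zero_add, if_pos (show fp ht c L1 ∧ c + i0 < HT ht L1 from ⟨hf1, by omega⟩)]
      calc LW Λ L1 * ∑' L2, LW Λ L2 * (if HT ht (L1 ++ L2) = n then f (L1 ++ L2) else 0)
          ≤ LW Λ L1 * ∑' L2, LW Λ L2 * (if HT ht L2 = n - HT ht L1 then f (L1 ++ L2) else 0) := by
            exact mul_le_mul_right (ENNReal.tsum_le_tsum e2) _
        _ ≤ LW Λ L1 * 1 := by
            gcongr
            exact sum_n_le Λ ht hU1 _ (fun L => f (L1 ++ L)) (fun L => hf _)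
        _ ≤ _ := by rw [mul_one]; exact le_add_self
    rw [if_pos (show fp ht c L1 ∧ HT ht L1 ≤ c + i0 from ⟨hf1, hh⟩),
      if_neg (show ¬ (fp ht c L1 ∧ c + i0 < HT ht L1) by omega), add_zero, if_pos hf1, ← mul_add]
    gcongr
    calc ∑' L2, LW Λ L2 * (if HT ht (L1 ++ L2) = n then f (L1 ++ L2) else 0)
        ≤ ∑' L2, LW Λ L2 * (if HT ht L2 = n - HT ht L1 then f (L1 ++ L2) else 0) :=
          ENNReal.tsum_le_tsum e2
      _ = ∑' L2, (if τ ≤ HT ht L2 then LW Λ L2 *
            (if HT ht L2 = n - HT ht L1 then f (L1 ++ L2) else 0) else 0) := by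
          refine tsum_congr fun L2 => ?_
          by_cases h : HT ht L2 = n - HT ht L1
          · rw [if_pos h, if_pos (show τ ≤ HT ht L2 by omega)]
          · rw [if_neg h, mul_zero]; split_ifs <;> rfl
      _ = ∑' L2, (if fp ht τ L2 then LW Λ L2 * ∑' L3, LW Λ L3 *
            (if HT ht (L2 ++ L3) = n - HT ht L1 then f (L1 ++ (L2 ++ L3)) else 0) else 0) :=
          split Λ ht h1 τ (fun L => if HT ht L = n - HT ht L1 then f (L1 ++ L) else 0)
      _ ≤ ∑' L2, ((if fp ht τ L2 ∧ HT ht L2 ≤ τ + i0 then LW Λ L2 * g L1 L2 else 0)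
            + (if fp ht τ L2 ∧ τ + i0 < HT ht L2 then LW Λ L2 else 0)) := by
          refine ENNReal.tsum_le_tsum fun L2 => ?_
          by_cases hf2 : fp ht τ L2
          swap
          · rw [if_neg hf2]; exact zero_le
          rw [if_pos hf2]
          have e3 : ∀ F : List B → ℝ≥0∞, (∀ L, F L ≤ 1) →
              ∑' L3, LW Λ L3 * (if HT ht (L2 ++ L3) = n - HT ht L1 then F L3 else 0) ≤ 1 := by
            intro F hF
            refine le_trans (ENNReal.tsum_le_tsum fun L3 => ?_)
              (sum_n_le Λ ht hU1 (n - HT ht L1 - HT ht L2) F hF)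
            gcongr
            rw [HT_append]
            by_cases h : HT ht L2 + HT ht L3 = n - HT ht L1
            · rw [if_pos h, if_pos (by omega)]
            · rw [if_neg h]; exact zero_le
          by_cases hh2 : HT ht L2 ≤ τ + i0
          · rw [if_pos (show fp ht τ L2 ∧ HT ht L2 ≤ τ + i0 from ⟨hf2, hh2⟩)]
            refine le_trans ?_ le_self_add
            gcongr
            have hc : ∀ L3, f (L1 ++ (L2 ++ L3)) ≤ g L1 L2 := fun L3 => hg L1 L2 L3 hf1 hh hf2 hh2
            calc ∑' L3, LW Λ L3 * (if HT ht (L2 ++ L3) = n - HT ht L1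
                  then f (L1 ++ (L2 ++ L3)) else 0)
                ≤ ∑' L3, g L1 L2 * (LW Λ L3 * (if HT ht (L2 ++ L3) = n - HT ht L1
                  then 1 else 0)) := by
                  refine ENNReal.tsum_le_tsum fun L3 => ?_
                  by_cases h : HT ht (L2 ++ L3) = n - HT ht L1
                  · rw [if_pos h, if_pos h, mul_one, mul_comm]
                    gcongr
                    exact hc L3
                  · rw [if_neg h, mul_zero]; exact zero_le
              _ = g L1 L2 * ∑' L3, (LW Λ L3 * (if HT ht (L2 ++ L3) = n - HT ht L1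
                  then 1 else 0)) := ENNReal.tsum_mul_left
              _ ≤ g L1 L2 * 1 := by
                  gcongr
                  exact e3 (fun _ => 1) (fun _ => le_rfl)
              _ = g L1 L2 := mul_one _
          · rw [if_neg (show ¬ (fp ht τ L2 ∧ HT ht L2 ≤ τ + i0) from fun h => hh2 h.2), zero_add,
              if_pos (show fp ht τ L2 ∧ τ + i0 < HT ht L2 from ⟨hf2, by omega⟩)]
            calc LW Λ L2 * _ ≤ LW Λ L2 * 1 := by
                  gcongr
                  exact e3 (fun L3 => f (L1 ++ (L2 ++ L3))) (fun _ => hf _)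
              _ = _ := mul_one _
      _ ≤ _ := by
          rw [ENNReal.tsum_add]
          gcongr
          exact overshoot Λ ht h1 hU1 i0 τ
  refine le_trans (ENNReal.tsum_le_tsum e1) ?_
  rw [ENNReal.tsum_add, ENNReal.tsum_add, add_assoc, two_mul]
  gcongr
  · rw [ENNReal.tsum_mul_right]
    calc _ ≤ 1 * ov := by gcongr; exact sum_FP Λ ht h1 hΛ c
      _ = ov := one_mul _
  · exact overshoot Λ ht h1 hU1 i0 c

open Classical in
/-- with mass one, the first passage law has mass one -/
theorem sum_FP_eq (h1 : ∀ b, 1 ≤ ht b) (hΛ : ∑' b, Λ b = 1) (a : ℕ) :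
    ∑' L, (if fp ht a L then LW Λ L else 0) = 1 := by
  induction a using Nat.strong_induction_on with
  | _ a ih =>
    rcases Nat.eq_zero_or_pos a with rfl | ha
    · have := sum_fp_zero Λ ht (fun _ => 1)
      simp only [mul_one] at this
      exact this
    · have := sum_fp_step Λ ht a ha (fun _ => 1)
      simp only [mul_one] at this
      rw [this]
      calc ∑' b, Λ b * ∑' L, (if fp ht (a - ht b) L then LW Λ L else 0)
          = ∑' b, Λ b * 1 := by
            refine tsum_congr fun b => ?_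
            rw [ih (a - ht b) (by have := h1 b; omega)]
        _ = 1 := by simpa using hΛ

end Crest.Agent.R154.Asm247
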