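import Crest.Agent.R154.AsmS_351

/-! Row 154, ROAD 801, one walker: top part, piece, rest (helper351). -/

set_option autoImplicit false

namespace Crest.Agent.R154.AsmS351

open scoped ENNReal Topology
open Crest.Agent.R154.B5A Crest.Agent.R154.FP178

variable {B G : Type*} [AddCommGroup G] (Λ : B → ℝ≥0∞) (h : B → ℕ) (z : B → G)

lemma U_le_one (h1 : ∀ b, 1 ≤ h b) (hΛ : ∑' b, Λ b ≤ 1) (n : ℕ) : U Λ h n ≤ 1 := by
  classical
  induction n using Nat.strong_induction_on with
  | _ n ih =>
    rcases n with _ | n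
    · exact (U_zero Λ h h1).le
    · rw [U_succ Λ h h1]
      calc ∑ k ∈ Finset.range (n + 1), U Λ h (n - k) * Ph Λ h (k + 1)
          ≤ ∑ k ∈ Finset.range (n + 1), 1 * Ph Λ h (k + 1) :=
            Finset.sum_le_sum fun k _ => mul_le_mul_left (ih _ (by omega)) _
        _ = ∑ k ∈ Finset.range (n + 1), ∑' b, (if h b = k + 1 then Λ b else 0) := by
            simp only [one_mul, Ph]
        _ = ∑' b, ∑ k ∈ Finset.range (n + 1), (if h b = k + 1 then Λ b else 0) := by
            rw [Summable.tsum_finsetSum (fun _ _ => ENNReal.summable)]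
        _ ≤ ∑' b, Λ b := by
            refine ENNReal.tsum_le_tsum fun b => ?_
            calc ∑ k ∈ Finset.range (n + 1), (if h b = k + 1 then Λ b else 0)
                ≤ ∑ k ∈ Finset.range (n + 1), (if k = h b - 1 then Λ b else 0) := by
                  refine Finset.sum_le_sum fun k _ => ?_
                  by_cases hk : h b = k + 1
                  · rw [if_pos hk, if_pos (by omega)]
                  · rw [if_neg hk]; exact zero_le
              _ ≤ Λ b := by
                  rw [Finset.sum_ite_eq']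
                  split_ifs
                  · exact le_rfl
                  · exact zero_le
        _ ≤ 1 := hΛ

open Classical in
/-- top part, piece and rest of a list of height `n` -/
theorem two_step (h1 : ∀ b, 1 ≤ h b) (hΛ : ∑' b, Λ b ≤ 1) (a T i0 n : ℕ)
    (hn : a + i0 + T ≤ n) (ε : ℝ≥0∞)
    (hova : ∑' L, (if fp h a L ∧ a + i0 < HT h L then LW Λ L else 0) ≤ ε)
    (hovT : ∑' L, (if fp h T L ∧ T + i0 < HT h L then LW Λ L else 0) ≤ ε)
    (F : List B → ℝ≥0∞) (hF : ∀ L, F L ≤ 1) (H : List B → List B → ℝ≥0∞)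
    (hH : ∀ A P R, fp h a A → HT h A ≤ a + i0 → fp h T P → HT h P ≤ T + i0 →
      HT h (A ++ P ++ R) = n → F (A ++ P ++ R) ≤ H A P) :
    ∑' L, (if HT h L = n then LW Λ L * F L else 0)
      ≤ ∑' A, (if fp h a A ∧ HT h A ≤ a + i0 then LW Λ A *
          ∑' P, (if fp h T P ∧ HT h P ≤ T + i0 then LW Λ P * H A P else 0) else 0) + 2 * ε := by
  set f : List B → ℝ≥0∞ := fun L => if HT h L = n then F L else 0 with hf
  have hUle := U_le_one Λ h h1 hΛ
  have hU : ∀ A : List B, ∑' R, LW Λ R * f (A ++ R) ≤ 1 := by
    intro A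
    refine le_trans (ENNReal.tsum_le_tsum fun R => ?_) (hUle (n - HT h A))
    simp only [hf, HT_append]
    by_cases hR : HT h A + HT h R = n
    · rw [if_pos hR, if_pos (by omega)]
      calc LW Λ R * F (A ++ R) ≤ LW Λ R * 1 := mul_le_mul_right (hF _) _
        _ = _ := mul_one _
    · rw [if_neg hR, mul_zero]; exact zero_le
  have s1 : ∑' L, (if HT h L = n then LW Λ L * F L else 0)
      ≤ ∑' L, (if a ≤ HT h L then LW Λ L * f L else 0) := by
    refine ENNReal.tsum_le_tsum fun L => ?_
    by_cases hL : HT h L = n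
    · rw [if_pos hL, if_pos (by omega)]; simp only [hf]; rw [if_pos hL]
    · rw [if_neg hL]; exact zero_le
  refine s1.trans ?_
  rw [FP178.split Λ h h1 a f]
  -- inner bound
  have key : ∀ A : List B, fp h a A → HT h A ≤ a + i0 →
      ∑' L2, LW Λ L2 * f (A ++ L2)
        ≤ ∑' P, (if fp h T P ∧ HT h P ≤ T + i0 then LW Λ P * H A P else 0) + ε := by
    intro A hA hAi
    have s2 : ∑' L2, LW Λ L2 * f (A ++ L2)
        ≤ ∑' L2, (if T ≤ HT h L2 then LW Λ L2 * f (A ++ L2) else 0) := by
      refine ENNReal.tsum_le_tsum fun L2 => ?_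
      by_cases hT : T ≤ HT h L2
      · rw [if_pos hT]
      · simp only [hf, HT_append]
        rw [if_neg (by omega), mul_zero]; exact zero_le
    refine s2.trans ?_
    rw [FP178.split Λ h h1 T (fun L2 => f (A ++ L2))]
    refine le_trans (ENNReal.tsum_le_tsum (g := fun P =>
      (if fp h T P ∧ HT h P ≤ T + i0 then LW Λ P * H A P else 0)
        + (if fp h T P ∧ T + i0 < HT h P then LW Λ P else 0)) fun P => ?_) ?_
    · by_cases hP : fp h T P
      · rw [if_pos hP]
        by_cases hPi : HT h P ≤ T + i0
        · rw [if_pos ⟨hP, hPi⟩, if_neg (fun h' => absurd h'.2 (not_lt.2 hPi)), add_zero]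
          refine mul_le_mul_right ?_ _
          calc ∑' R, LW Λ R * f (A ++ (P ++ R))
              ≤ ∑' R, (if HT h R = n - HT h A - HT h P then LW Λ R else 0) * H A P := by
                refine ENNReal.tsum_le_tsum fun R => ?_
                simp only [hf]
                by_cases hR : HT h (A ++ (P ++ R)) = n
                · rw [if_pos hR, if_pos (by rw [HT_append, HT_append] at hR; omega)]
                  refine mul_le_mul_right ?_ _
                  have := hH A P R hA hAi hP hPi (by rw [List.append_assoc]; exact hR)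
                  rwa [List.append_assoc] at this
                · rw [if_neg hR, mul_zero]; exact zero_le
            _ = U Λ h (n - HT h A - HT h P) * H A P := by rw [ENNReal.tsum_mul_right, U]
            _ ≤ 1 * H A P := mul_le_mul_left (hUle _) _
            _ = _ := one_mul _
        · rw [if_neg (fun h' => hPi h'.2), zero_add, if_pos ⟨hP, not_le.1 hPi⟩]
          calc LW Λ P * ∑' R, LW Λ R * f (A ++ (P ++ R)) ≤ LW Λ P * 1 := by
                refine mul_le_mul_right ?_ _
                have := hU (A ++ P)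
                simpa only [List.append_assoc] using this
            _ = _ := mul_one _
      · rw [if_neg hP]; exact zero_le
    · rw [ENNReal.tsum_add]
      exact add_le_add le_rfl hovT
  refine le_trans (ENNReal.tsum_le_tsum (g := fun A =>
      (if fp h a A ∧ HT h A ≤ a + i0 then LW Λ A *
          ∑' P, (if fp h T P ∧ HT h P ≤ T + i0 then LW Λ P * H A P else 0) else 0)
        + ((if fp h a A then LW Λ A else 0) * ε
        + (if fp h a A ∧ a + i0 < HT h A then LW Λ A else 0))) fun A => ?_) ?_
  · by_cases hA : fp h a A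
    · rw [if_pos hA]
      by_cases hAi : HT h A ≤ a + i0
      · rw [if_pos ⟨hA, hAi⟩, if_pos hA, ← add_assoc, ← mul_add]
        exact le_add_right (mul_le_mul_right (key A hA hAi) _)
      · rw [if_neg (fun h' => hAi h'.2), zero_add, if_pos (⟨hA, not_le.1 hAi⟩ :
          fp h a A ∧ a + i0 < HT h A)]
        refine le_add_left ?_
        calc _ ≤ LW Λ A * 1 := mul_le_mul_right (hU A) _
          _ = _ := mul_one _
    · rw [if_neg hA]; exact zero_le
  · rw [ENNReal.tsum_add, ENNReal.tsum_add, ENNReal.tsum_mul_right]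
    refine add_le_add le_rfl ?_
    rw [two_mul]
    refine add_le_add ?_ hova
    calc _ ≤ 1 * ε := mul_le_mul_left (sum_FP Λ h h1 hΛ a) _
      _ = ε := one_mul _

/-! ### traces -/

/-- trace of a list: top at position `x`, depth `a` -/
def TT (s : B → Set (G × ℕ)) : List B → G → ℕ → Set (G × ℕ)
  | [], _, _ => ∅
  | b :: L, x, a => {p | ∃ q ∈ s b, p = (x + q.1, a + q.2)} ∪ TT s L (x + z b) (a + h b)

lemma TT_append (s : B → Set (G × ℕ)) (L L' : List B) (x : G) (a : ℕ) :
    TT h z s (L ++ L') x a = TT h z s L x a ∪ TT h z s L' (x + Dp z L) (a + HT h L) := by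
  induction L generalizing x a with
  | nil => simp [TT, Dp, HT]
  | cons b L ih =>
    simp only [List.cons_append, TT, ih, HT_cons]
    rw [Set.union_assoc]
    simp only [Dp, List.map_cons, List.sum_cons, add_assoc]

lemma TT_depth (s : B → Set (G × ℕ)) (hs : ∀ b q, q ∈ s b → 1 ≤ q.2 ∧ q.2 ≤ h b) (L : List B)
    (x : G) (a : ℕ) (p : G × ℕ) (hp : p ∈ TT h z s L x a) : a < p.2 ∧ p.2 ≤ a + HT h L := by
  induction L generalizing x a with
  | nil => exact absurd hp (Set.notMem_empty _)
  | cons b L ih =>
    rw [HT_cons]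
    rcases hp with ⟨q, hq, rfl⟩ | hp
    · have := hs b q hq; simp only; omega
    · have := ih _ _ hp; omega

lemma TT_shift (s : B → Set (G × ℕ)) (L : List B) (x v : G) (a : ℕ) (y : G) (k : ℕ) :
    (y, k) ∈ TT h z s L (x + v) a ↔ (y - v, k) ∈ TT h z s L x a := by
  induction L generalizing x a with
  | nil => simp [TT]
  | cons b L ih =>
    simp only [TT, Set.mem_union]
    refine or_congr ?_ ?_
    · constructor
      · rintro ⟨q, hq, e⟩
        rw [Prod.mk.injEq] at e
        exact ⟨q, hq, by rw [Prod.mk.injEq]; exact ⟨by rw [e.1]; abel, e.2⟩⟩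
      · rintro ⟨q, hq, e⟩
        rw [Prod.mk.injEq] at e
        refine ⟨q, hq, ?_⟩
        rw [Prod.mk.injEq]
        exact ⟨by rw [sub_eq_iff_eq_add.1 e.1]; abel, e.2⟩
    · rw [add_right_comm, ih]

end Crest.Agent.R154.AsmS351
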