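import Crest.Agent.R154.AsmS_39
import Crest.Agent.R154.Num_869

/-! Row 154, ROAD 801 (helper39): list assembly, part 5: the sum over the windows. -/

set_option autoImplicit false

namespace Crest.Agent.R154.Asm39

open scoped ENNReal
open Crest.Agent.R154.B5A Crest.Agent.R154.FP178
open Crest.Agent.R154.Bind12 (TT Dp)

lemma pick (A e : ℝ≥0∞) (hA : A ≠ ⊤) (he : e ≠ 0) : ∃ l : ℝ≥0∞, l ≠ 0 ∧ l ≤ 1 ∧ A * l ≤ e := by
  have h1 : e / (A + 1) ≠ 0 := (ENNReal.div_pos he (by finiteness)).ne'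
  refine ⟨min 1 (e / (A + 1)), (lt_min one_pos (pos_iff_ne_zero.2 h1)).ne', min_le_left _ _, ?_⟩
  calc A * min 1 (e / (A + 1)) ≤ (A + 1) * (e / (A + 1)) := mul_le_mul' le_self_add (min_le_right _ _)
    _ ≤ e := ENNReal.mul_div_le

/-- the constants `K`, `u` -/
lemma pickK (e : ℝ≥0∞) (he : e ≠ 0) : ∃ (K : ℕ) (u : ℝ≥0∞), 1 ≤ K ∧ u ≠ 0 ∧ u < 1 ∧
    ((2 * K + 1 : ℕ) : ℝ≥0∞) * (u * u + 2 * (1 - u) ^ K) ≤ e := by
  obtain ⟨K, u, hK, hu0, hu1, h⟩ := Num869.choose_Ku (e / 6) (by simp [he])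
  refine ⟨K, u / 2, hK, by simp [hu0], ?_, ?_⟩
  · calc u / 2 ≤ 1 / 2 := ENNReal.div_le_div_right hu1 _
      _ < 1 := by rw [one_div]; exact ENNReal.inv_lt_one.2 (by norm_num)
  · have hK' : ((2 * K + 1 : ℕ) : ℝ≥0∞) ≤ 3 * K := by
      exact_mod_cast (by omega : 2 * K + 1 ≤ 3 * K)
    have h2 : u / 2 * (u / 2) ≤ (2 * u) ^ 2 := by
      rw [sq]
      have : u / 2 ≤ 2 * u := by
        calc u / 2 ≤ u := ENNReal.div_le_of_le_mul (by rw [mul_two]; exact le_self_add)
          _ ≤ 2 * u := by rw [two_mul]; exact le_self_add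
      exact mul_le_mul' this this
    calc ((2 * K + 1 : ℕ) : ℝ≥0∞) * (u / 2 * (u / 2) + 2 * (1 - u / 2) ^ K)
        ≤ (3 * K) * (2 * (2 * u) ^ 2 + 2 * (1 - u / 2) ^ K) := by
          refine mul_le_mul' hK' (add_le_add (h2.trans ?_) le_rfl)
          rw [two_mul ((2 * u) ^ 2)]; exact le_self_add
      _ = 6 * (K * ((2 * u) ^ 2 + (1 - u / 2) ^ K)) := by ring
      _ ≤ 6 * (e / 6) := mul_le_mul_right h _
      _ ≤ e := ENNReal.mul_div_le

section full

variable {BX BY G : Type*} [AddCommGroup G]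
  (ΛX : BX → ℝ≥0∞) (ΛY : BY → ℝ≥0∞) (hX : BX → ℕ) (hY : BY → ℕ) (zX : BX → G) (zY : BY → G)
  (sX : BX → Set (G × ℕ)) (sY : BY → Set (G × ℕ))

open Classical in
theorem full_window (h1X : ∀ b, 1 ≤ hX b) (h1Y : ∀ b, 1 ≤ hY b) (hΛX : ∑' b, ΛX b = 1)
    (hΛY : ∑' b, ΛY b = 1) (hUX : ∀ n, U ΛX hX n ≤ 1) (hUY : ∀ n, U ΛY hY n ≤ 1)
    (hsX : ∀ b, ∀ q ∈ sX b, 1 ≤ q.2 ∧ q.2 ≤ hX b)
    (hsY : ∀ b, ∀ q ∈ sY b, 1 ≤ q.2 ∧ q.2 ≤ hY b) (C : ℝ≥0∞) (us : ℕ → ℝ≥0∞)
    (H2 : HX ΛX ΛY hX hY zX zY sX sY C us) (H3 : HY ΛX ΛY hX hY zX zY sX sY C us)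
    (j T i0 n lo hi α β δ s : ℕ) (w : G) (hδ : (j + 1) * i0 < δ)
    (hn : (j + 1) * (T + i0) + (δ + i0) ≤ n)
    (hlo : (δ + i0) + (j * T + j * i0) + s + 1 ≤ lo) (hhi : hi + s ≤ (j + 1) * T)
    (hα : α ≤ j * T) (hβ : (j + 1) * (T + i0) ≤ β)
    {u lam : ℝ≥0∞} (hu : u ≠ 0) (hu1 : u < 1) (hl : lam ≠ 0) (hl' : lam ≠ ⊤) :
    ∑' LX, ∑' LY, (if HT hX LX = n ∧ HT hY LY = n ∧
        Wn lo hi α β (TT sX zX hX LX 0 0) (TT sY zY hY LY w 0) then LW ΛX LX * LW ΛY LY else 0)
      ≤ (u * u + 2 * (1 - u) ^ j + 2 * ((((j * i0 + 1) ^ 2 * (i0 + 1) ^ 2 : ℕ) : ℝ≥0∞) *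
        (C * (lam + 2 * j * us s / lam + us s)))
        + (j + 1) * ovr ΛX hX i0 + (j + 1) * ovr ΛY hY i0) + ovr ΛY hY i0 := by
  set V : ℝ≥0∞ := (u * u + 2 * (1 - u) ^ j + 2 * ((((j * i0 + 1) ^ 2 * (i0 + 1) ^ 2 : ℕ) : ℝ≥0∞) *
        (C * (lam + 2 * j * us s / lam + us s)))
        + (j + 1) * ovr ΛX hX i0 + (j + 1) * ovr ΛY hY i0) with hV
  set F : List BY → ℝ≥0∞ := fun LY => ∑' LX, (if HT hX LX = n then LW ΛX LX *
    (if Wn lo hi α β (TT sX zX hX LX 0 0) (TT sY zY hY LY w 0) then 1 else 0) else 0) with hF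
  have hFle : ∀ L, F L ≤ 1 := by
    intro L
    refine le_trans (ENNReal.tsum_le_tsum fun LX => ?_) (hUX n)
    split_ifs <;> simp
  have e0 : ∑' LX, ∑' LY, (if HT hX LX = n ∧ HT hY LY = n ∧
        Wn lo hi α β (TT sX zX hX LX 0 0) (TT sY zY hY LY w 0) then LW ΛX LX * LW ΛY LY else 0)
      = ∑' LY, (if HT hY LY = n then LW ΛY LY * F LY else 0) := by
    rw [ENNReal.tsum_comm]
    refine tsum_congr fun LY => ?_
    by_cases h : HT hY LY = n
    · rw [if_pos h, hF]
      simp only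
      rw [← ENNReal.tsum_mul_left]
      refine tsum_congr fun LX => ?_
      by_cases h' : HT hX LX = n <;> by_cases h'' : Wn lo hi α β (TT sX zX hX LX 0 0)
        (TT sY zY hY LY w 0) <;> simp [h, h', h'', mul_comm]
    · rw [if_neg h]
      simp [h]
  rw [e0]
  refine (dec1 ΛY hY h1Y hUY δ i0 n (by omega) F hFle (fun _ => V) ?_).trans ?_
  · intro B0 hB0 hh
    have hB1 := le_HT_of_fp hY hB0
    have key := two_dec ΛX ΛY hX hY zX zY sX sY h1X h1Y hΛX.le hΛY.le hUX hUY hsX hsY T i0 j n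
      (n - HT hY B0) lo hi α β (HT hY B0) (w + Dp zY B0) (by omega) (by omega) (by omega)
      (by omega) hα hβ
    have win := window ΛX ΛY hX hY zX zY sX sY h1X h1Y hΛX hΛY C us H2 H3 j T i0 lo hi
      (HT hY B0) s (w + Dp zY B0) (by omega) (by omega) hhi hu hu1 hl hl'
    refine le_trans ?_ (key.trans (add_le_add (add_le_add win le_rfl) le_rfl))
    rw [ENNReal.tsum_comm]
    refine ENNReal.tsum_le_tsum fun R => ?_
    by_cases hR : HT hY R = n - HT hY B0
    · rw [if_pos hR, hF]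
      simp only
      rw [← ENNReal.tsum_mul_left]
      refine ENNReal.tsum_le_tsum fun LX => ?_
      by_cases h' : HT hX LX = n
      · rw [if_pos h']
        by_cases h'' : Wn lo hi α β (TT sX zX hX LX 0 0) (TT sY zY hY (B0 ++ R) w 0)
        · rw [if_pos h'', if_pos, mul_one, mul_comm]
          refine ⟨h', hR, ?_⟩
          rw [TT_append, zero_add] at h''
          obtain ⟨⟨z, k, hz, hz', hk1, hk2⟩, hall⟩ := h''
          refine ⟨⟨z, k, hz, ?_, hk1, hk2⟩, fun z k hz hz' => hall z k hz (Or.inr hz')⟩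
          rcases hz' with hz' | hz'
          · have := TT_depth hY sY zY hsY _ _ _ _ hz'
            simp only at this; omega
          · exact hz'
        · rw [if_neg h'', mul_zero, mul_zero]; exact zero_le
      · rw [if_neg h', mul_zero]; exact zero_le
    · rw [if_neg hR]; exact zero_le
  · refine add_le_add ?_ le_rfl
    rw [ENNReal.tsum_mul_right]
    calc _ ≤ 1 * V := mul_le_mul_left (Lf_sum ΛY hY h1Y hΛY.le δ) _
      _ = V := one_mul _

open Classical in
/-- **list form of KAPPA'** -/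
theorem kap (h1X : ∀ b, 1 ≤ hX b) (h1Y : ∀ b, 1 ≤ hY b) (hΛX : ∑' b, ΛX b = 1)
    (hΛY : ∑' b, ΛY b = 1) (hUX : ∀ n, U ΛX hX n ≤ 1) (hUY : ∀ n, U ΛY hY n ≤ 1)
    (hoX : Filter.Tendsto (ovr ΛX hX) Filter.atTop (nhds 0))
    (hoY : Filter.Tendsto (ovr ΛY hY) Filter.atTop (nhds 0))
    (hsX : ∀ b, ∀ q ∈ sX b, 1 ≤ q.2 ∧ q.2 ≤ hX b)
    (hsY : ∀ b, ∀ q ∈ sY b, 1 ≤ q.2 ∧ q.2 ≤ hY b) (C : ℝ≥0∞) (hC : C ≠ ⊤) (us : ℕ → ℝ≥0∞)
    (hus : Filter.Tendsto us Filter.atTop (nhds 0))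
    (H2 : HX ΛX ΛY hX hY zX zY sX sY C us) (H3 : HY ΛX ΛY hX hY zX zY sX sY C us)
    (hPt : ∀ ε : ℝ≥0∞, ε ≠ 0 → ∃ k0 : ℕ, ∀ k, k0 ≤ k → ∀ n, k ≤ n → ∀ w : G,
      ∑' LX, ∑' LY, (if HT hX LX = n ∧ HT hY LY = n ∧
        (∃ z, (z, k) ∈ TT sX zX hX LX 0 0 ∧ (z, k) ∈ TT sY zY hY LY w 0)
        then LW ΛX LX * LW ΛY LY else 0) ≤ ε)
    (ε : ℝ≥0∞) (hε : ε ≠ 0) : ∃ M : ℕ, ∀ m, M ≤ m → ∀ n, 4 * m ≤ n → ∀ w : G,
      ∑' LX, ∑' LY, (if HT hX LX = n ∧ HT hY LY = n ∧
        (∀ z k, (z, k) ∈ TT sX zX hX LX 0 0 → (z, k) ∈ TT sY zY hY LY w 0 → m < k) ∧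
        (∃ z k, k ≤ 2 * m ∧ (z, k) ∈ TT sX zX hX LX 0 0 ∧ (z, k) ∈ TT sY zY hY LY w 0)
        then LW ΛX LX * LW ΛY LY else 0) ≤ ε := by
  have h4 : ε / 4 ≠ 0 := by simp [hε]
  obtain ⟨K, u, hK, hu, hu1, hKu⟩ := pickK (ε / 4) h4
  set J : ℕ := 2 * K + 1 with hJ
  -- i0
  obtain ⟨τ, hτ0, -, hτ⟩ := pick ((J : ℝ≥0∞) * ((J + 1) + (J + 1 + 1))) (ε / 4) (by finiteness) h4
  obtain ⟨i0, hi1, hi2⟩ := (((ENNReal.tendsto_nhds_zero.1 hoX) τ (pos_iff_ne_zero.2 hτ0)).and
    ((ENNReal.tendsto_nhds_zero.1 hoY) τ (pos_iff_ne_zero.2 hτ0))).exists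
  -- lam
  set Nl : ℝ≥0∞ := (((J * i0 + 1) ^ 2 * (i0 + 1) ^ 2 : ℕ) : ℝ≥0∞) with hNl
  have hNlt : Nl ≠ ⊤ := by rw [hNl]; exact ENNReal.natCast_ne_top _
  obtain ⟨lam, hl0, hl1, hlam⟩ := pick ((J : ℝ≥0∞) * (2 * (Nl * (C * 3)))) (ε / 4)
    (by finiteness) h4
  have hlt : lam ≠ ⊤ := ne_top_of_le_ne_top ENNReal.one_ne_top hl1
  -- s
  obtain ⟨ρ, hρ0, hρ1, hρ⟩ := pick (2 * J / lam + 1) lam
    (by
      refine ENNReal.add_ne_top.2 ⟨ENNReal.div_ne_top (by finiteness) hl0, by finiteness⟩) hl0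
  obtain ⟨s, hs⟩ := ((ENNReal.tendsto_nhds_zero.1 hus) ρ (pos_iff_ne_zero.2 hρ0)).exists
  have hBd : lam + 2 * J * us s / lam + us s ≤ 3 * lam := by
    have h1 : 2 * J * us s / lam + us s ≤ lam := by
      calc 2 * (J : ℝ≥0∞) * us s / lam + us s = (2 * J / lam + 1) * us s := by
            rw [add_mul, one_mul, div_eq_mul_inv, div_eq_mul_inv]; ring
        _ ≤ (2 * J / lam + 1) * ρ := mul_le_mul_right hs _
        _ ≤ lam := hρ
    calc lam + 2 * J * us s / lam + us s = lam + (2 * J * us s / lam + us s) := by ring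
      _ ≤ lam + lam := add_le_add le_rfl h1
      _ ≤ 3 * lam := by
        have : (3 : ℝ≥0∞) * lam = lam + lam + lam := by ring
        rw [this]; exact le_self_add
  set δ : ℕ := (J + 1) * i0 + 1 with hδ
  set D : ℕ := δ + i0 + J * i0 + s + 1 with hD
  -- eta
  obtain ⟨η, hη0, -, hη⟩ := pick (((J + 1 : ℕ) : ℝ≥0∞) * ((D + s : ℕ) : ℝ≥0∞)) (ε / 4)
    (by finiteness) h4
  obtain ⟨k0, hk0⟩ := hPt η hη0
  set T0 : ℕ := 2 * K + s + D + 1 with hT0
  refine ⟨max (K * T0) k0, fun m hm n hn w => ?_⟩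
  have hm1 : K * T0 ≤ m := le_trans (le_max_left _ _) hm
  have hm2 : k0 ≤ m := le_trans (le_max_right _ _) hm
  set T : ℕ := m / K with hT
  have hTT : T0 ≤ T := (Nat.le_div_iff_mul_le (by omega)).2 (by rw [mul_comm]; exact hm1)
  have hKT : K * T ≤ m := Nat.mul_div_le m K
  have hKT' : m < K * T + K := by
    have := Nat.lt_mul_div_succ m (show 0 < K by omega)
    rw [mul_add, mul_one] at this
    exact this
  have hTm : T ≤ m := by
    have : T ≤ K * T := Nat.le_mul_of_pos_left _ (by omega)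
    omega
  have eJT : J * T = 2 * (K * T) + T := by rw [hJ]; ring
  -- the pointwise bound
  have hpt : ∀ (LX : List BX) (LY : List BY),
      (if HT hX LX = n ∧ HT hY LY = n ∧
        (∀ z k, (z, k) ∈ TT sX zX hX LX 0 0 → (z, k) ∈ TT sY zY hY LY w 0 → m < k) ∧
        (∃ z k, k ≤ 2 * m ∧ (z, k) ∈ TT sX zX hX LX 0 0 ∧ (z, k) ∈ TT sY zY hY LY w 0)
        then LW ΛX LX * LW ΛY LY else 0)
      ≤ ∑ j ∈ Finset.range (J + 1), ∑ i ∈ Finset.range (D + s),
          (if m < j * T - s + i then (if HT hX LX = n ∧ HT hY LY = n ∧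
            (∃ z, (z, j * T - s + i) ∈ TT sX zX hX LX 0 0 ∧
              (z, j * T - s + i) ∈ TT sY zY hY LY w 0) then LW ΛX LX * LW ΛY LY else 0) else 0)
        + ∑ j ∈ Finset.range J, (if K ≤ j then (if HT hX LX = n ∧ HT hY LY = n ∧
            Wn (j * T + D) ((j + 1) * T - s) (j * T) ((j + 1) * T + (J + 1) * i0)
              (TT sX zX hX LX 0 0) (TT sY zY hY LY w 0) then LW ΛX LX * LW ΛY LY else 0) else 0) := by
    intro LX LY
    split_ifs with h
    · obtain ⟨hn1, hn2, hfar, z, k, hk, hz, hz'⟩ := h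
      by_cases hslab : ∃ j ∈ Finset.range (J + 1), ∃ i ∈ Finset.range (D + s),
          m < j * T - s + i ∧ ∃ z, (z, j * T - s + i) ∈ TT sX zX hX LX 0 0 ∧
              (z, j * T - s + i) ∈ TT sY zY hY LY w 0
      · obtain ⟨j, hj, i, hi, hmk, hc⟩ := hslab
        refine le_add_right ?_
        refine le_trans ?_ (Finset.single_le_sum (f := fun j => ∑ i ∈ Finset.range (D + s),
          (if m < j * T - s + i then (if HT hX LX = n ∧ HT hY LY = n ∧
            (∃ z, (z, j * T - s + i) ∈ TT sX zX hX LX 0 0 ∧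
              (z, j * T - s + i) ∈ TT sY zY hY LY w 0) then LW ΛX LX * LW ΛY LY else 0) else 0))
          (fun _ _ => zero_le) hj)
        refine le_trans ?_ (Finset.single_le_sum (f := fun i =>
          (if m < j * T - s + i then (if HT hX LX = n ∧ HT hY LY = n ∧
            (∃ z, (z, j * T - s + i) ∈ TT sX zX hX LX 0 0 ∧
              (z, j * T - s + i) ∈ TT sY zY hY LY w 0) then LW ΛX LX * LW ΛY LY else 0) else 0))
          (fun _ _ => zero_le) hi)
        rw [if_pos hmk, if_pos ⟨hn1, hn2, hc⟩]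
      · -- all contacts avoid the slabs
        have hav : ∀ j, j ≤ J → ∀ z k, (z, k) ∈ TT sX zX hX LX 0 0 →
            (z, k) ∈ TT sY zY hY LY w 0 → j * T < k + s → k < j * T + D → False := by
          intro j hj z k hz hz' h1 h2
          have hmk := hfar z k hz hz'
          refine hslab ⟨j, Finset.mem_range.2 (by omega), k - (j * T - s),
            Finset.mem_range.2 (by omega), ?_, z, ?_⟩
          · omega
          · rw [show j * T - s + (k - (j * T - s)) = k by omega]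
            exact ⟨hz, hz'⟩
        have hmk := hfar z k hz hz'
        have hjT := Nat.div_add_mod k T
        have hTpos : 0 < T := by omega
        have hmod := Nat.mod_lt k hTpos
        set j : ℕ := k / T with hj
        have hjk1 : j * T ≤ k := by rw [mul_comm]; omega
        have hjk2 : k < (j + 1) * T := by
          have : (j + 1) * T = T * j + T := by ring
          omega
        have hKj : K ≤ j := by
          by_contra hcon
          have h1 : (j + 1) * T ≤ K * T := Nat.mul_le_mul_right T (by omega)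
          omega
        have hjJ : j < J := by
          by_contra hcon
          have h1 : J * T ≤ j * T := Nat.mul_le_mul_right T (by omega)
          omega
        have e1 : (j + 1) * T = j * T + T := by ring
        have hlow : ∀ z k, (z, k) ∈ TT sX zX hX LX 0 0 → (z, k) ∈ TT sY zY hY LY w 0 →
            j * T ≤ k → k ≤ (j + 1) * T + (J + 1) * i0 → j * T + D ≤ k ∧ k ≤ (j + 1) * T - s := by
          intro z k hz hz' h1 h2
          constructor
          · by_contra hcon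
            exact hav j (by omega) z k hz hz' (by
              have := hfar z k hz hz'
              rcases Nat.eq_zero_or_pos s with hs0 | hs0
              · -- `k = j T` is impossible at `s = 0` only if excluded
                by_contra h3
                have h4 : k = j * T := by omega
                have h5 := hav
                exact hslab ⟨j, Finset.mem_range.2 (by omega), 0, Finset.mem_range.2 (by omega),
                  by omega, z, by rw [show j * T - s + 0 = k by omega]; exact ⟨hz, hz'⟩⟩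
              · omega) (by omega)
          · by_contra hcon
            exact hav (j + 1) (by omega) z k hz hz' (by omega) (by omega)
        refine le_add_left ?_
        refine le_trans ?_ (Finset.single_le_sum (f := fun j => (if K ≤ j then
          (if HT hX LX = n ∧ HT hY LY = n ∧
            Wn (j * T + D) ((j + 1) * T - s) (j * T) ((j + 1) * T + (J + 1) * i0)
              (TT sX zX hX LX 0 0) (TT sY zY hY LY w 0) then LW ΛX LX * LW ΛY LY else 0) else 0))
          (fun _ _ => zero_le) (Finset.mem_range.2 hjJ))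
        rw [if_pos hKj, if_pos]
        refine ⟨hn1, hn2, ⟨z, k, hz, hz', ?_⟩, fun z k hz hz' h1 h2 => hlow z k hz hz' h1 h2⟩
        exact hlow z k hz hz' hjk1 (by omega)
    · exact zero_le
  -- the sum
  have hsum : ∀ j ∈ Finset.range J, (∑' LX, ∑' LY, (if K ≤ j then
      (if HT hX LX = n ∧ HT hY LY = n ∧
            Wn (j * T + D) ((j + 1) * T - s) (j * T) ((j + 1) * T + (J + 1) * i0)
              (TT sX zX hX LX 0 0) (TT sY zY hY LY w 0) then LW ΛX LX * LW ΛY LY else 0) else 0))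
      ≤ (u * u + 2 * (1 - u) ^ K) + 2 * (Nl * (C * (3 * lam))) + ((J + 1) + (J + 1 + 1)) * τ := by
    intro j hj
    have hjJ := Finset.mem_range.1 hj
    by_cases hKj : K ≤ j
    · simp only [if_pos hKj]
      have e1 : (j + 1) * T = j * T + T := by ring
      have e2 : (j + 1) * (T + i0) = j * T + j * i0 + T + i0 := by ring
      have e3 : j * T ≤ J * T := Nat.mul_le_mul_right T hjJ.le
      have e3' : (j + 1) * T ≤ J * T := Nat.mul_le_mul_right T hjJ
      have e4 : j * i0 ≤ J * i0 := Nat.mul_le_mul_right i0 hjJ.le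
      have e5 : (j + 1) * i0 = j * i0 + i0 := by ring
      have e6 : (J + 1) * i0 = J * i0 + i0 := by ring
      have hA : (j + 1) * (T + i0) ≤ J * T + J * i0 := by
        calc (j + 1) * (T + i0) ≤ J * (T + i0) := Nat.mul_le_mul_right _ hjJ
          _ = _ := by ring
      have hA' : (j + 1) * i0 ≤ J * i0 := Nat.mul_le_mul_right _ hjJ
      have hB : (j + 1) * (T + i0) + (δ + i0) ≤ n := by omega
      have hsT : s ≤ T := by omega
      have fw := full_window ΛX ΛY hX hY zX zY sX sY h1X h1Y hΛX hΛY hUX hUY hsX hsY C us H2 H3 j T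
        i0 n (j * T + D) ((j + 1) * T - s) (j * T) ((j + 1) * T + (J + 1) * i0) δ s w
        (by omega) hB (by omega) (by omega) le_rfl (by omega) hu hu1 hl0 hlt
      refine fw.trans ?_
      have hj' : (j : ℝ≥0∞) ≤ J := by exact_mod_cast hjJ.le
      have q1 : (1 - u) ^ j ≤ (1 - u) ^ K :=
        pow_le_pow_of_le_one zero_le tsub_le_self hKj
      have q2 : (((j * i0 + 1) ^ 2 * (i0 + 1) ^ 2 : ℕ) : ℝ≥0∞) ≤ Nl := by
        rw [hNl]
        exact_mod_cast Nat.mul_le_mul_right _ (Nat.pow_le_pow_left (by omega) 2)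
      have q3 : lam + 2 * j * us s / lam + us s ≤ 3 * lam := by
        refine le_trans (add_le_add (add_le_add le_rfl ?_) le_rfl) hBd
        exact ENNReal.div_le_div_right (mul_le_mul_left (mul_le_mul_right hj' _) _) _
      calc _ ≤ (u * u + 2 * (1 - u) ^ K + 2 * (Nl * (C * (3 * lam))) + (J + 1) * τ
            + (J + 1) * τ) + τ := by
            refine add_le_add (add_le_add (add_le_add (add_le_add (add_le_add le_rfl ?_) ?_) ?_) ?_) hi2
            · exact mul_le_mul_right q1 _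
            · exact mul_le_mul_right (mul_le_mul' q2 (mul_le_mul_right q3 _)) _
            · exact mul_le_mul' (add_le_add hj' le_rfl) hi1
            · exact mul_le_mul' (add_le_add hj' le_rfl) hi2
        _ = _ := by ring
    · simp only [if_neg hKj, tsum_zero]
      exact zero_le
  have hslabs : ∀ j ∈ Finset.range (J + 1), ∀ i ∈ Finset.range (D + s), (∑' LX, ∑' LY,
      (if m < j * T - s + i then (if HT hX LX = n ∧ HT hY LY = n ∧
            (∃ z, (z, j * T - s + i) ∈ TT sX zX hX LX 0 0 ∧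
              (z, j * T - s + i) ∈ TT sY zY hY LY w 0) then LW ΛX LX * LW ΛY LY else 0) else 0))
      ≤ η := by
    intro j hj i hi
    have hjJ := Finset.mem_range.1 hj
    have hiD := Finset.mem_range.1 hi
    have e3 : j * T ≤ J * T := Nat.mul_le_mul_right T (by omega)
    by_cases hmk : m < j * T - s + i
    · simp only [if_pos hmk]
      exact hk0 _ (by omega) n (by omega) w
    · simp only [if_neg hmk, tsum_zero]
      exact zero_le
  calc _ ≤ ∑' LX, ∑' LY, (∑ j ∈ Finset.range (J + 1), ∑ i ∈ Finset.range (D + s),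
          (if m < j * T - s + i then (if HT hX LX = n ∧ HT hY LY = n ∧
            (∃ z, (z, j * T - s + i) ∈ TT sX zX hX LX 0 0 ∧
              (z, j * T - s + i) ∈ TT sY zY hY LY w 0) then LW ΛX LX * LW ΛY LY else 0) else 0)
        + ∑ j ∈ Finset.range J, (if K ≤ j then (if HT hX LX = n ∧ HT hY LY = n ∧
            Wn (j * T + D) ((j + 1) * T - s) (j * T) ((j + 1) * T + (J + 1) * i0)
              (TT sX zX hX LX 0 0) (TT sY zY hY LY w 0) then LW ΛX LX * LW ΛY LY else 0) else 0)) :=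
        ENNReal.tsum_le_tsum fun LX => ENNReal.tsum_le_tsum fun LY => hpt LX LY
    _ = (∑ j ∈ Finset.range (J + 1), ∑ i ∈ Finset.range (D + s), ∑' LX, ∑' LY,
          (if m < j * T - s + i then (if HT hX LX = n ∧ HT hY LY = n ∧
            (∃ z, (z, j * T - s + i) ∈ TT sX zX hX LX 0 0 ∧
              (z, j * T - s + i) ∈ TT sY zY hY LY w 0) then LW ΛX LX * LW ΛY LY else 0) else 0))
        + ∑ j ∈ Finset.range J, ∑' LX, ∑' LY, (if K ≤ j then (if HT hX LX = n ∧ HT hY LY = n ∧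
            Wn (j * T + D) ((j + 1) * T - s) (j * T) ((j + 1) * T + (J + 1) * i0)
              (TT sX zX hX LX 0 0) (TT sY zY hY LY w 0) then LW ΛX LX * LW ΛY LY else 0) else 0) := by
        simp only [ENNReal.tsum_add]
        congr 1
        · simp only [Summable.tsum_finsetSum (fun _ _ => ENNReal.summable)]
        · simp only [Summable.tsum_finsetSum (fun _ _ => ENNReal.summable)]
    _ ≤ (∑ _j ∈ Finset.range (J + 1), ∑ _i ∈ Finset.range (D + s), η)
        + ∑ _j ∈ Finset.range J, ((u * u + 2 * (1 - u) ^ K) + 2 * (Nl * (C * (3 * lam)))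
          + ((J + 1) + (J + 1 + 1)) * τ) :=
        add_le_add (Finset.sum_le_sum fun j hj => Finset.sum_le_sum fun i hi => hslabs j hj i hi)
          (Finset.sum_le_sum hsum)
    _ = ((J + 1 : ℕ) : ℝ≥0∞) * ((D + s : ℕ) : ℝ≥0∞) * η
        + ((J : ℝ≥0∞) * (u * u + 2 * (1 - u) ^ K) + (J : ℝ≥0∞) * (2 * (Nl * (C * 3))) * lam
          + (J : ℝ≥0∞) * ((J + 1) + (J + 1 + 1)) * τ) := by
        simp only [Finset.sum_const, Finset.card_range, nsmul_eq_mul]
        ring
    _ ≤ ε / 4 + (ε / 4 + ε / 4 + ε / 4) := by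
        refine add_le_add hη (add_le_add (add_le_add ?_ hlam) hτ)
        exact hKu
    _ = ε := by
        have : ε / 4 + (ε / 4 + ε / 4 + ε / 4) = 4 * (ε / 4) := by ring
        rw [this]
        exact ENNReal.mul_div_cancel (by norm_num) (by norm_num)

end full

end Crest.Agent.R154.Asm39
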