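import Crest.Agent.R154.AsmS_396
import Crest.Agent.R154.AsmO_396

/-! Row 154, ROAD 801 (helper396): lists -> windows, staggered cuts. -/

set_option autoImplicit false
set_option linter.unusedVariables false

namespace Crest.Agent.R154.AsmS396

open Crest.Agent.R154.B5A Crest.Agent.R154.Ren396
open Crest.Agent.R154.Asm396 (TT_append TT_shift TT_depth mark2_le over2_le CC CP prod_le)
open Crest.Agent.R154.Bind12 (TT)
open scoped ENNReal

section pair

variable {BX BY : Type*} (ΛX : BX → ℝ≥0∞) (ΛY : BY → ℝ≥0∞) (hX : BX → ℕ) (hY : BY → ℕ)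
  {G : Type*} [AddCommGroup G] (zX : BX → G) (zY : BY → G)
  (sX : BX → Set (G × ℕ)) (sY : BY → Set (G × ℕ))

/-- the window event on `(P, Q, P2, Q2)` -/
def WE (T i0 A lo hi : ℕ) (w : G) (P : List BX) (Q : List BY) (P2 : List BX) (Q2 : List BY) :
    Prop :=
  (FR hX P A ∧ HT hX P ≤ A + i0) ∧ (FR hY Q (A + i0) ∧ HT hY Q ≤ A + i0 + i0) ∧
    (FR hX P2 T ∧ HT hX P2 ≤ T + i0 ∧ FR hY Q2 (T + i0) ∧ HT hY Q2 ≤ T + i0 + i0 ∧ True ∧
      CC hX hY zX zY sX sY P2 Q2 (w + dp zY Q - dp zX P) (HT hX P) (HT hY Q) lo hi)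

open Classical in
/-- the four-fold sum is the left side of `window` -/
theorem we_sum (T i0 A lo hi : ℕ) (w : G) :
    ∑' P : List BX, ∑' Q : List BY, ∑' P2 : List BX, ∑' Q2 : List BY,
        (if WE hX hY zX zY sX sY T i0 A lo hi w P Q P2 Q2
          then LW ΛX P * LW ΛX P2 * (LW ΛY Q * LW ΛY Q2) else 0)
      = ∑' P : List BX, (if FR hX P A ∧ HT hX P ≤ A + i0 then LW ΛX P *
      ∑' Q : List BY, (if FR hY Q (A + i0) ∧ HT hY Q ≤ A + i0 + i0 then LW ΛY Q *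
        FW ΛX ΛY hX hY zX zY sX sY T i0 lo hi (fun _ _ => True) (HT hX P) (HT hY Q)
          (w + dp zY Q - dp zX P) else 0) else 0) := by
  refine tsum_congr fun P => ?_
  by_cases h1 : FR hX P A ∧ HT hX P ≤ A + i0
  · rw [if_pos h1, ← ENNReal.tsum_mul_left]
    refine tsum_congr fun Q => ?_
    by_cases h2 : FR hY Q (A + i0) ∧ HT hY Q ≤ A + i0 + i0
    · rw [if_pos h2, FW, ← ENNReal.tsum_mul_left, ← ENNReal.tsum_mul_left]
      refine tsum_congr fun P2 => ?_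
      rw [← ENNReal.tsum_mul_left, ← ENNReal.tsum_mul_left]
      refine tsum_congr fun Q2 => ?_
      by_cases h3 : FR hX P2 T ∧ HT hX P2 ≤ T + i0 ∧ FR hY Q2 (T + i0) ∧ HT hY Q2 ≤ T + i0 + i0 ∧ True ∧
          CC hX hY zX zY sX sY P2 Q2 (w + dp zY Q - dp zX P) (HT hX P) (HT hY Q) lo hi
      · rw [if_pos (show WE hX hY zX zY sX sY T i0 A lo hi w P Q P2 Q2 from ⟨h1, h2, h3⟩),
          if_pos h3]
        ring
      · rw [if_neg (fun hh : WE hX hY zX zY sX sY T i0 A lo hi w P Q P2 Q2 => h3 hh.2.2),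
          if_neg h3]
        simp
    · rw [if_neg h2, mul_zero, ENNReal.tsum_eq_zero]
      intro P2
      rw [ENNReal.tsum_eq_zero]
      intro Q2
      rw [if_neg (fun hh => h2 hh.2.1)]
  · rw [if_neg h1, ENNReal.tsum_eq_zero]
    intro Q
    rw [ENNReal.tsum_eq_zero]
    intro P2
    rw [ENNReal.tsum_eq_zero]
    intro Q2
    rw [if_neg (fun hh => h1 hh.1)]

/-- **pointwise**: a common site of depth in `[jT, (j+1)T)`, no common site in the slabs round the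
multiples `jT`, `(j+1)T`: an overshoot, or the window event. -/
theorem pointwise (hsX : ∀ b p, p ∈ sX b → 1 ≤ p.2 ∧ p.2 ≤ hX b)
    (hsY : ∀ b p, p ∈ sY b → 1 ≤ p.2 ∧ p.2 ≤ hY b) (n T i0 A σ : ℕ) (hσ : 2 * i0 + 1 ≤ σ)
    (hn : A + 4 * i0 + T ≤ n) (w : G) (LX : List BX) (LY : List BY) (hLX : HT hX LX = n)
    (hLY : HT hY LY = n) (z0 : G) (k0 : ℕ) (hk0 : A ≤ k0 ∧ k0 < A + T)
    (hz0 : (z0, k0) ∈ TT sX zX hX LX 0 0 ∧ (z0, k0) ∈ TT sY zY hY LY w 0)
    (hslab : ∀ z k, (z, k) ∈ TT sX zX hX LX 0 0 → (z, k) ∈ TT sY zY hY LY w 0 →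
      (A ≤ k + σ ∧ k < A + σ → False) ∧ (A + T ≤ k + σ ∧ k < A + T + σ → False)) :
    (∃ t : List BX × List BX × List BX, t.1 ++ (t.2.1 ++ t.2.2) = LX ∧
        (HT hX t.1 + (HT hX t.2.1 + HT hX t.2.2) = n ∧
          ((FR hX t.1 A ∧ A + i0 < HT hX t.1 ∧ t.2.1 = []) ∨
           (FR hX t.1 A ∧ FR hX t.2.1 T ∧ T + i0 < HT hX t.2.1)))) ∨
    (∃ t : List BY × List BY × List BY, t.1 ++ (t.2.1 ++ t.2.2) = LY ∧
        (HT hY t.1 + (HT hY t.2.1 + HT hY t.2.2) = n ∧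
          ((FR hY t.1 (A + i0) ∧ A + i0 + i0 < HT hY t.1 ∧ t.2.1 = []) ∨
           (FR hY t.1 (A + i0) ∧ FR hY t.2.1 (T + i0) ∧ T + i0 + i0 < HT hY t.2.1)))) ∨
    (∃ t : (List BX × List BY) × (List BX × List BY) × (List BX × List BY),
        ((t.1.1 ++ (t.2.1.1 ++ t.2.2.1), t.1.2 ++ (t.2.1.2 ++ t.2.2.2)) : List BX × List BY)
          = (LX, LY) ∧
        (HT hX t.1.1 + (HT hX t.2.1.1 + HT hX t.2.2.1) = n ∧
          HT hY t.1.2 + (HT hY t.2.1.2 + HT hY t.2.2.2) = n ∧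
          WE hX hY zX zY sX sY T i0 A (A + σ) (A + T - σ) w t.1.1 t.1.2 t.2.1.1 t.2.1.2)) := by
  obtain ⟨P, L1, hP, hPF⟩ := FR_exists hX LX (T := A) (by omega)
  obtain ⟨Q, L2, hQ, hQF⟩ := FR_exists hY LY (T := A + i0) (by omega)
  have hPn : HT hX P + HT hX L1 = n := by rw [← HT_append, hP, hLX]
  have hQn : HT hY Q + HT hY L2 = n := by rw [← HT_append, hQ, hLY]
  by_cases o1 : A + i0 < HT hX P
  · left
    exact ⟨(P, [], L1), by simpa using hP, by simpa [HT_nil] using hPn, Or.inl ⟨hPF, o1, rfl⟩⟩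
  by_cases o2 : A + i0 + i0 < HT hY Q
  · right; left
    exact ⟨(Q, [], L2), by simpa using hQ, by simpa [HT_nil] using hQn, Or.inl ⟨hQF, o2, rfl⟩⟩
  obtain ⟨P2, R, hP2, hP2F⟩ := FR_exists hX L1 (T := T) (by omega)
  obtain ⟨Q2, R', hQ2, hQ2F⟩ := FR_exists hY L2 (T := T + i0) (by omega)
  have hPn2 : HT hX P + (HT hX P2 + HT hX R) = n := by rw [← HT_append hX P2 R, hP2, hPn]
  have hQn2 : HT hY Q + (HT hY Q2 + HT hY R') = n := by rw [← HT_append hY Q2 R', hQ2, hQn]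
  by_cases o3 : T + i0 < HT hX P2
  · left
    exact ⟨(P, P2, R), by simp only [hP2, hP], hPn2, Or.inr ⟨hPF, hP2F, o3⟩⟩
  by_cases o4 : T + i0 + i0 < HT hY Q2
  · right; left
    exact ⟨(Q, Q2, R'), by simp only [hQ2, hQ], hQn2, Or.inr ⟨hQF, hQ2F, o4⟩⟩
  right; right
  have eX : LX = P ++ (P2 ++ R) := by rw [hP2, hP]
  have eY : LY = Q ++ (Q2 ++ R') := by rw [hQ2, hQ]
  have f1 := FR_le hX hPF
  have f2 := FR_le hY hQF
  have f3 := FR_le hX hP2F
  have f4 := FR_le hY hQ2F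
  refine ⟨((P, Q), (P2, Q2), (R, R')), by rw [eX, eY], hPn2, hQn2, ⟨hPF, not_lt.1 o1⟩,
    ⟨hQF, not_lt.1 o2⟩, hP2F, not_lt.1 o3, hQ2F, not_lt.1 o4, trivial, ?_, ?_⟩
  · -- the common site is in both pieces
    obtain ⟨g1, g2⟩ := hz0
    have g3 := hslab z0 k0 g1 g2
    have hk1 : A + σ ≤ k0 := by
      by_contra hcon
      exact g3.1 ⟨by omega, by omega⟩
    rw [eX, TT_append, TT_append] at g1
    rw [eY, TT_append, TT_append] at g2
    refine ⟨z0 - dp zX P, k0, ?_, ?_⟩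
    · rcases g1 with g1 | g1 | g1
      · have := TT_depth hX zX sX hsX _ _ _ _ _ g1
        omega
      · rw [zero_add, zero_add] at g1
        rw [TT_shift hX zX sX P2 0 (dp zX P)]
        simpa using g1
      · have := TT_depth hX zX sX hsX _ _ _ _ _ g1
        omega
    · rcases g2 with g2 | g2 | g2
      · have := TT_depth hY zY sY hsY _ _ _ _ _ g2
        omega
      · rw [zero_add] at g2
        rw [TT_shift hY zY sY Q2 _ (dp zX P)]
        simpa using g2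
      · have := TT_depth hY zY sY hsY _ _ _ _ _ g2
        omega
  · intro z k g1 g2
    have h1 : HT hX P + 1 ≤ k ∧ k ≤ HT hX P + HT hX P2 := TT_depth hX zX sX hsX _ _ _ _ _ g1
    have g1' : (z + dp zX P, k) ∈ TT sX zX hX LX 0 0 := by
      rw [eX, TT_append, TT_append]
      right; left
      rw [zero_add, zero_add]
      rw [TT_shift hX zX sX P2 0 (dp zX P)] at g1
      simpa using g1
    have g2' : (z + dp zX P, k) ∈ TT sY zY hY LY w 0 := by
      rw [eY, TT_append, TT_append]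
      right; left
      rw [zero_add]
      rw [TT_shift hY zY sY Q2 _ (dp zX P)] at g2
      simpa using g2
    have g3 := hslab _ _ g1' g2'
    refine ⟨?_, ?_⟩
    · by_contra hcon
      exact g3.1 ⟨by omega, by omega⟩
    · by_contra hcon
      exact g3.2 ⟨by omega, by omega⟩

open Classical in
theorem octw (hΛX : ∑' b, ΛX b ≤ 1) (h1X : ∀ b, 1 ≤ hX b) (hU1X : ∀ n, U ΛX hX n ≤ 1)
    (hΛY : ∑' b, ΛY b ≤ 1) (h1Y : ∀ b, 1 ≤ hY b) (hU1Y : ∀ n, U ΛY hY n ≤ 1)
    (hsX : ∀ b p, p ∈ sX b → 1 ≤ p.2 ∧ p.2 ≤ hX b)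
    (hsY : ∀ b p, p ∈ sY b → 1 ≤ p.2 ∧ p.2 ≤ hY b)
    (n T i0 A σ : ℕ) (hσ : 2 * i0 + 1 ≤ σ) (hn : A + 4 * i0 + T ≤ n) (w : G) (η e R : ℝ≥0∞)
    (hs1 : CP ΛX ΛY hX hY zX zY sX sY n (A - σ) (A - σ + 2 * σ) w ≤ η)
    (hs2 : CP ΛX ΛY hX hY zX zY sX sY n (A + T - σ) (A + T - σ + 2 * σ) w ≤ η)
    (heX : TS ΛX hX (i0 + 1) ≤ e) (heY : TS ΛY hY (i0 + 1) ≤ e) (hσA : σ ≤ A)
    (hR : ∑' P : List BX, (if FR hX P A ∧ HT hX P ≤ A + i0 then LW ΛX P *
      ∑' Q : List BY, (if FR hY Q (A + i0) ∧ HT hY Q ≤ A + i0 + i0 then LW ΛY Q *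
        FW ΛX ΛY hX hY zX zY sX sY T i0 (A + σ) (A + T - σ) (fun _ _ => True) (HT hX P) (HT hY Q)
          (w + dp zY Q - dp zX P) else 0) else 0) ≤ R) :
    CP ΛX ΛY hX hY zX zY sX sY n A (A + T) w ≤ 2 * η + 4 * e + R := by
  -- the five events
  set eX : List BX → Prop := fun LX => ∃ t : List BX × List BX × List BX,
    t.1 ++ (t.2.1 ++ t.2.2) = LX ∧ (HT hX t.1 + (HT hX t.2.1 + HT hX t.2.2) = n ∧
      ((FR hX t.1 A ∧ A + i0 < HT hX t.1 ∧ t.2.1 = []) ∨
       (FR hX t.1 A ∧ FR hX t.2.1 T ∧ T + i0 < HT hX t.2.1))) with heX'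
  set eY : List BY → Prop := fun LY => ∃ t : List BY × List BY × List BY,
    t.1 ++ (t.2.1 ++ t.2.2) = LY ∧ (HT hY t.1 + (HT hY t.2.1 + HT hY t.2.2) = n ∧
      ((FR hY t.1 (A + i0) ∧ A + i0 + i0 < HT hY t.1 ∧ t.2.1 = []) ∨
       (FR hY t.1 (A + i0) ∧ FR hY t.2.1 (T + i0) ∧ T + i0 + i0 < HT hY t.2.1))) with heY'
  set eW : List BX × List BY → Prop := fun LL => ∃ t : (List BX × List BY) ×
    (List BX × List BY) × (List BX × List BY),
        ((t.1.1 ++ (t.2.1.1 ++ t.2.2.1), t.1.2 ++ (t.2.1.2 ++ t.2.2.2)) : List BX × List BY)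
          = LL ∧
        (HT hX t.1.1 + (HT hX t.2.1.1 + HT hX t.2.2.1) = n ∧
          HT hY t.1.2 + (HT hY t.2.1.2 + HT hY t.2.2.2) = n ∧
          WE hX hY zX zY sX sY T i0 A (A + σ) (A + T - σ) w t.1.1 t.1.2 t.2.1.1 t.2.1.2) with heW
  set sl : ℕ → List BX → List BY → Prop := fun a LX LY => HT hX LX = n ∧ HT hY LY = n ∧
    ∃ z k, a ≤ k ∧ k < a + 2 * σ ∧
    (z, k) ∈ TT sX zX hX LX 0 0 ∧ (z, k) ∈ TT sY zY hY LY w 0 with hsl
  have B3 : ∑' LX : List BX, ∑' LY : List BY,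
      (if eX LX then LW ΛX LX else 0) * (if HT hY LY = n then LW ΛY LY else 0) ≤ 2 * e * 1 :=
    prod_le _ _ ((over2_le ΛX hX hΛX h1X hU1X n A T i0).trans (mul_le_mul_right heX _)) (hU1Y n)
  have B4 : ∑' LX : List BX, ∑' LY : List BY,
      (if HT hX LX = n then LW ΛX LX else 0) * (if eY LY then LW ΛY LY else 0) ≤ 1 * (2 * e) :=
    prod_le _ _ (hU1X n) ((over2_le ΛY hY hΛY h1Y hU1Y n (A + i0) (T + i0) i0).trans (mul_le_mul_right heY _))
  have B5 : ∑' LX : List BX, ∑' LY : List BY,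
      (if eW (LX, LY) then LW ΛX LX * LW ΛY LY else 0) ≤ R := by
    have h1 := mark2_le ΛX ΛY hX hY hU1X hU1Y n
      (WE hX hY zX zY sX sY T i0 A (A + σ) (A + T - σ) w)
    rw [ENNReal.tsum_prod'] at h1
    rw [we_sum] at h1
    exact h1.trans hR
  calc CP ΛX ΛY hX hY zX zY sX sY n A (A + T) w
      ≤ ∑' LX : List BX, ∑' LY : List BY,
        ((if sl (A - σ) LX LY then LW ΛX LX * LW ΛY LY else 0)
        + (if sl (A + T - σ) LX LY then LW ΛX LX * LW ΛY LY else 0)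
        + (if eX LX then LW ΛX LX else 0) * (if HT hY LY = n then LW ΛY LY else 0)
        + (if HT hX LX = n then LW ΛX LX else 0) * (if eY LY then LW ΛY LY else 0)
        + (if eW (LX, LY) then LW ΛX LX * LW ΛY LY else 0)) := by
        refine ENNReal.tsum_le_tsum fun LX => ENNReal.tsum_le_tsum fun LY => ?_
        by_cases h : HT hX LX = n ∧ HT hY LY = n ∧ ∃ z k, A ≤ k ∧ k < A + T ∧
            (z, k) ∈ TT sX zX hX LX 0 0 ∧ (z, k) ∈ TT sY zY hY LY w 0
        · rw [if_pos h]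
          obtain ⟨g1, g2, z0, k0, g3, g4, g5⟩ := h
          by_cases c1 : sl (A - σ) LX LY
          · rw [if_pos c1]
            exact le_add_right (le_add_right (le_add_right (le_add_right le_rfl)))
          by_cases c2 : sl (A + T - σ) LX LY
          · rw [if_pos c2]
            exact le_add_right (le_add_right (le_add_right (le_add_left le_rfl)))
          have h3 := pointwise hX hY zX zY sX sY hsX hsY n T i0 A σ hσ hn w LX LY g1 g2 z0 k0
            ⟨g3, g4⟩ g5 (by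
              intro z k q1 q2
              refine ⟨?_, ?_⟩
              · rintro ⟨q3, q4⟩
                exact c1 ⟨g1, g2, z, k, by omega, by omega, q1, q2⟩
              · rintro ⟨q3, q4⟩
                exact c2 ⟨g1, g2, z, k, by omega, by omega, q1, q2⟩)
          rcases h3 with h3 | h3 | h3
          · have h4 : eX LX := h3
            rw [if_pos h4, if_pos g2]
            exact le_add_right (le_add_right (le_add_left le_rfl))
          · have h4 : eY LY := h3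
            rw [if_pos h4, if_pos g1]
            exact le_add_right (le_add_left le_rfl)
          · have h4 : eW (LX, LY) := h3
            rw [if_pos h4]
            exact le_add_left le_rfl
        · rw [if_neg h]; exact zero_le
    _ = (∑' LX : List BX, ∑' LY : List BY, (if sl (A - σ) LX LY then LW ΛX LX * LW ΛY LY else 0))
        + (∑' LX : List BX, ∑' LY : List BY,
          (if sl (A + T - σ) LX LY then LW ΛX LX * LW ΛY LY else 0))
        + (∑' LX : List BX, ∑' LY : List BY,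
          (if eX LX then LW ΛX LX else 0) * (if HT hY LY = n then LW ΛY LY else 0))
        + (∑' LX : List BX, ∑' LY : List BY,
          (if HT hX LX = n then LW ΛX LX else 0) * (if eY LY then LW ΛY LY else 0))
        + (∑' LX : List BX, ∑' LY : List BY,
          (if eW (LX, LY) then LW ΛX LX * LW ΛY LY else 0)) := by
        simp only [ENNReal.tsum_add]
    _ ≤ η + η + 2 * e * 1 + 1 * (2 * e) + R :=
        add_le_add (add_le_add (add_le_add (add_le_add hs1 hs2) B3) B4) B5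
    _ = _ := by ring

end pair

end Crest.Agent.R154.AsmS396
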