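import Crest.Agent.R154.AsmS_457

/-! Row 154, ROAD 801, abstract assembly (helper457), part 5: sum over the windows, constants. -/

set_option autoImplicit false

namespace Crest.Agent.R154.Asm457

open scoped ENNReal
open Crest.Agent.R154.B5A Crest.Agent.R154.AsmA789

lemma small (a η : ℝ≥0∞) (ha : a ≠ ⊤) (hη : η ≠ 0) : ∃ δ : ℝ≥0∞, δ ≠ 0 ∧ δ ≠ ⊤ ∧ a * δ ≤ η := by
  refine ⟨min 1 (η / (a + 1)), ?_, ?_, ?_⟩
  · have : η / (a + 1) ≠ 0 := by
      rw [Ne, ENNReal.div_eq_zero_iff, not_or]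
      exact ⟨hη, ENNReal.add_ne_top.2 ⟨ha, ENNReal.one_ne_top⟩⟩
    rcases min_choice (1 : ℝ≥0∞) (η / (a + 1)) with h | h <;> rw [h]
    · exact one_ne_zero
    · exact this
  · exact ne_top_of_le_ne_top ENNReal.one_ne_top (min_le_left _ _)
  · calc a * min 1 (η / (a + 1)) ≤ (a + 1) * (η / (a + 1)) :=
          mul_le_mul' le_self_add (min_le_right _ _)
      _ ≤ η := ENNReal.mul_div_le

section one

variable {B : Type*} (h : B → ℕ)

lemma app_le (h1 : ∀ b, 1 ≤ h b) (n : ℕ) (F : List B → ℝ≥0∞) :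
    ∑' L, (if HT h L = n then ∑' R, F (L ++ R) else 0) ≤ ∑' L, F L := by
  induction n using Nat.strong_induction_on generalizing F with
  | _ n ih =>
    rw [tsum_list]
    by_cases hn : n = 0
    · subst hn
      have : ∀ b (L : List B), ¬ HT h (b :: L) = 0 := fun b L => by
        rw [HT_cons]; have := h1 b; omega
      simp only [HT_nil, if_true, List.nil_append, if_neg (this _ _), tsum_zero, add_zero]
      exact le_rfl
    · rw [HT_nil, if_neg (Ne.symm hn), zero_add, tsum_list F]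
      refine le_add_left (ENNReal.tsum_le_tsum fun b => ?_)
      have hb := h1 b
      by_cases hbn : h b ≤ n
      · refine le_trans (le_of_eq ?_) (ih (n - h b) (by omega) (fun L => F (b :: L)))
        refine tsum_congr fun L => ?_
        rw [HT_cons]
        by_cases h3 : h b + HT h L = n
        · rw [if_pos h3, if_pos (by omega)]
          rfl
        · rw [if_neg h3, if_neg (by omega)]
      · refine le_trans (le_of_eq ?_) zero_le
        rw [ENNReal.tsum_eq_zero]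
        intro L
        rw [HT_cons, if_neg (by omega)]

end one

variable {BX BY G : Type*} [AddCommGroup G]
variable (ΛX : BX → ℝ≥0∞) (ΛY : BY → ℝ≥0∞) (hX : BX → ℕ) (hY : BY → ℕ) (zX : BX → G) (zY : BY → G)
  (sX : BX → Set (G × ℕ)) (sY : BY → Set (G × ℕ))

open Classical in
lemma Wn_union (n m K t : ℕ) (ht : 1 ≤ t) (hm : K * t ≤ m) (hm2 : m < (K + 1) * t) (w : G) :
    Wn ΛX ΛY hX hY zX zY sX sY n m (2 * m) w
      ≤ ∑ j ∈ Finset.Icc K (2 * K + 1), Wn ΛX ΛY hX hY zX zY sX sY n (j * t) ((j + 1) * t) w := by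
  simp only [Wn]
  simp_rw [← Summable.tsum_finsetSum (fun _ _ => ENNReal.summable)]
  refine ENNReal.tsum_le_tsum fun LX => ENNReal.tsum_le_tsum fun LY => ?_
  by_cases hc : HT hX LX = n ∧ HT hY LY = n ∧ (∃ z k, m < k ∧ k ≤ 2 * m ∧
      (z, k) ∈ TS hX zX sX LX 0 0 ∧ (z, k) ∈ TS hY zY sY LY w 0)
  · obtain ⟨hx, hy, z, k, h1, h2, h3, h4⟩ := hc
    rw [if_pos ⟨hx, hy, z, k, h1, h2, h3, h4⟩]
    set j := (k - 1) / t with hj
    have e1 : j * t ≤ k - 1 := Nat.div_mul_le_self _ _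
    have e2 : k - 1 < (j + 1) * t := by
      rw [add_mul, one_mul]
      exact Nat.lt_div_mul_add ht
    have j1 : K ≤ j := by
      rw [hj, Nat.le_div_iff_mul_le ht]
      omega
    have j2 : j ≤ 2 * K + 1 := by
      by_contra hcon
      have : (2 * K + 2) * t ≤ j * t := Nat.mul_le_mul_right _ (by omega)
      have e3 : (2 * K + 2) * t = 2 * ((K + 1) * t) := by ring
      omega
    refine le_trans ?_ (Finset.single_le_sum (f := fun j => if HT hX LX = n ∧ HT hY LY = n ∧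
      (∃ z k, j * t < k ∧ k ≤ (j + 1) * t ∧ (z, k) ∈ TS hX zX sX LX 0 0 ∧
        (z, k) ∈ TS hY zY sY LY w 0) then LW ΛX LX * LW ΛY LY else 0)
      (fun _ _ => zero_le) (Finset.mem_Icc.2 ⟨j1, j2⟩))
    rw [if_pos ⟨hx, hy, z, k, by omega, by omega, h3, h4⟩]
  · rw [if_neg hc]; exact zero_le

/-- **the assembly, long crossings** -/
theorem kapS0 (h1X : ∀ b, 1 ≤ hX b) (h1Y : ∀ b, 1 ≤ hY b) (hΛX : ∑' b, ΛX b = 1)
    (hΛY : ∑' b, ΛY b = 1) (hmX : ∑' b, ΛX b * (hX b : ℝ≥0∞) ≠ ⊤)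
    (hmY : ∑' b, ΛY b * (hY b : ℝ≥0∞) ≠ ⊤) (hsX : ∀ b p, p ∈ sX b → 1 ≤ p.2 ∧ p.2 ≤ hX b)
    (hsY : ∀ b p, p ∈ sY b → 1 ≤ p.2 ∧ p.2 ≤ hY b) (C : ℝ≥0∞) (us : ℕ → ℝ≥0∞) (hC : C ≠ ⊤)
    (hus : Filter.Tendsto us Filter.atTop (nhds 0))
    (hH2 : H2 ΛX ΛY hX hY zX zY sX sY C us) (hH3 : H3 ΛX ΛY hX hY zX zY sX sY C us)
    (hPt : ∀ ε : ℝ≥0∞, ε ≠ 0 → ∃ k0 : ℕ, ∀ k, k0 ≤ k → ∀ n, k ≤ n → ∀ w,
      Pt ΛX ΛY hX hY zX zY sX sY n k w ≤ ε) (ε : ℝ≥0∞) (hε : ε ≠ 0) :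
    ∃ M : ℕ, ∀ m, M ≤ m → ∀ n, 4 * m ≤ n → ∀ w,
      Wn ΛX ΛY hX hY zX zY sX sY n m (2 * m) w ≤ ε := by
  have hη : ε / 4 ≠ 0 := by
    rw [Ne, ENNReal.div_eq_zero_iff, not_or]
    exact ⟨hε, by norm_num⟩
  set η := ε / 4 with hηdef
  obtain ⟨q, hq2, hnum⟩ := num hη 16
  set J := q ^ 3 with hJ
  have hJ1 : J ≠ 0 := by rw [hJ]; positivity
  have hJ8 : 8 ≤ J := by
    rw [hJ]
    calc 8 = 2 ^ 3 := by norm_num
      _ ≤ q ^ 3 := Nat.pow_le_pow_left hq2 3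
  set u : ℝ≥0∞ := ((q : ℝ≥0∞) ^ 2)⁻¹ with hudef
  have hq2' : (q : ℝ≥0∞) ^ 2 ≠ ⊤ := ENNReal.pow_ne_top (ENNReal.natCast_ne_top q)
  have hu : u ≠ 0 := ENNReal.inv_ne_zero.2 hq2'
  have hu1 : u < 1 := by
    rw [hudef, ENNReal.inv_lt_one]
    have : (1 : ℕ) < q ^ 2 := by nlinarith
    exact_mod_cast this
  set N : ℝ≥0∞ := ((4 * J + 3 : ℕ) : ℝ≥0∞) with hN
  have hNt : N ≠ ⊤ := ENNReal.natCast_ne_top _
  -- (A) numbers
  have hA : N * (u * u + ((1 - u) ^ J + (1 - u) ^ J)) ≤ η := by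
    refine le_trans ?_ hnum
    have e1 : (1 - u) ^ J ≤ (1 - (2 * (q : ℝ≥0∞) ^ 2)⁻¹) ^ (q ^ 3) := by
      refine pow_le_pow_left₀ zero_le (tsub_le_tsub_left ?_ 1) _
      rw [hudef]
      refine ENNReal.inv_le_inv.2 ?_
      calc (q : ℝ≥0∞) ^ 2 = 1 * (q : ℝ≥0∞) ^ 2 := (one_mul _).symm
        _ ≤ 2 * (q : ℝ≥0∞) ^ 2 := mul_le_mul_left (by norm_num) _
    set P := (1 - (2 * (q : ℝ≥0∞) ^ 2)⁻¹) ^ (q ^ 3) with hP
    have e2 : N * 2 ≤ ((16 : ℕ) : ℝ≥0∞) * ((q : ℝ≥0∞) ^ 3 + ((16 : ℕ) : ℝ≥0∞)) := by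
      have : (4 * J + 3) * 2 ≤ 16 * (q ^ 3 + 16) := by rw [← hJ]; omega
      rw [hN]
      exact_mod_cast this
    calc _ ≤ N * (2 * (u ^ 2 + P)) := by
          refine mul_le_mul_right ?_ _
          calc u * u + ((1 - u) ^ J + (1 - u) ^ J) ≤ (u ^ 2 + u ^ 2) + (P + P) := by
                refine add_le_add ?_ (add_le_add e1 e1)
                rw [sq]; exact le_self_add
            _ = _ := by ring
      _ = N * 2 * (u ^ 2 + P) := by ring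
      _ ≤ _ := mul_le_mul_left e2 _
  -- (B) overshoot
  obtain ⟨δo, o1, _, o3⟩ := small (N * ((2 + J) * 2)) η
    (ENNReal.mul_ne_top hNt (ENNReal.mul_ne_top (ENNReal.add_ne_top.2
      ⟨by norm_num, ENNReal.natCast_ne_top J⟩) (by norm_num))) hη
  obtain ⟨i0, hoX, hoY⟩ := (((ov_tendsto ΛX hX hmX hΛX).eventually
    (gt_mem_nhds (pos_iff_ne_zero.2 o1))).and ((ov_tendsto ΛY hY hmY hΛY).eventually
    (gt_mem_nhds (pos_iff_ne_zero.2 o1)))).exists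
  have hB : N * ((2 + J) * (ov ΛX hX i0 + ov ΛY hY i0)) ≤ η := by
    refine le_trans ?_ o3
    calc _ ≤ N * ((2 + J) * (δo + δo)) :=
          mul_le_mul_right (mul_le_mul_right (add_le_add hoX.le hoY.le) _) _
      _ = _ := by ring
  -- (C) local terms
  set I : ℝ≥0∞ := ((i0 + 1 : ℕ) : ℝ≥0∞) with hI
  have hIt : I ≠ ⊤ := ENNReal.natCast_ne_top _
  set A4 : ℝ≥0∞ := N * (2 * (I * (I * (I * (I * C))))) with hA4
  have hA4t : A4 ≠ ⊤ := ENNReal.mul_ne_top hNt (ENNReal.mul_ne_top (by norm_num)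
    (ENNReal.mul_ne_top hIt (ENNReal.mul_ne_top hIt (ENNReal.mul_ne_top hIt
      (ENNReal.mul_ne_top hIt hC)))))
  obtain ⟨lam, l1, l2, l3⟩ := small (A4 * 2) η (ENNReal.mul_ne_top hA4t (by norm_num)) hη
  set Mc : ℝ≥0∞ := J * (I * 2) with hMc
  have hMct : Mc ≠ ⊤ := ENNReal.mul_ne_top (ENNReal.natCast_ne_top _)
    (ENNReal.mul_ne_top hIt (by norm_num))
  obtain ⟨δu, u1, _, u3⟩ := small (A4 * 2 * (Mc / lam + 1)) η
    (ENNReal.mul_ne_top (ENNReal.mul_ne_top hA4t (by norm_num)) (ENNReal.add_ne_top.2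
      ⟨ENNReal.div_ne_top hMct l1, ENNReal.one_ne_top⟩)) hη
  obtain ⟨s, hs⟩ := (hus.eventually (gt_mem_nhds (pos_iff_ne_zero.2 u1))).exists
  have hCk : N * (kap2 C lam (us s) J i0 + kap2 C lam (us s) J i0) ≤ η := by
    have e1 : N * (kap2 C lam (us s) J i0 + kap2 C lam (us s) J i0)
        = A4 * lam + A4 * (Mc / lam + 1) * us s := by
      rw [kap2, kap, ← hI, ← hMc, hA4, div_eq_mul_inv, div_eq_mul_inv]
      ring
    rw [e1]
    have e2 : A4 * lam + A4 * lam ≤ η := by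
      refine le_trans (le_of_eq ?_) l3
      ring
    have e3 : A4 * (Mc / lam + 1) * us s + A4 * (Mc / lam + 1) * us s ≤ η := by
      refine le_trans ?_ u3
      calc _ ≤ A4 * (Mc / lam + 1) * δu + A4 * (Mc / lam + 1) * δu :=
            add_le_add (mul_le_mul_right hs.le _) (mul_le_mul_right hs.le _)
        _ = _ := by ring
    rcases le_total (A4 * lam) (A4 * (Mc / lam + 1) * us s) with h | h
    · exact (add_le_add h le_rfl).trans e3
    · exact (add_le_add le_rfl h).trans e2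
  -- (D) slabs
  obtain ⟨δ, d1, _, d3⟩ := small (N * ((2 * (2 * i0 + s) : ℕ) : ℝ≥0∞)) η
    (ENNReal.mul_ne_top hNt (ENNReal.natCast_ne_top _)) hη
  obtain ⟨k0, hk0⟩ := hPt δ d1
  set K := 4 * J + 1 with hK
  refine ⟨K * (2 * i0 + s + 1 + k0 + K), fun m hm n hn w => ?_⟩
  set t := m / K with ht
  have hK0 : 0 < K := by omega
  have ht1 : 2 * i0 + s + 1 + k0 + K ≤ t := by
    rw [ht, Nat.le_div_iff_mul_le hK0, mul_comm]
    exact hm
  have hm1 : K * t ≤ m := by rw [mul_comm]; exact Nat.div_mul_le_self m K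
  have hm2 : m < (K + 1) * t := by
    have h3 := Nat.lt_div_mul_add (a := m) hK0
    rw [← ht] at h3
    have h4 : (K + 1) * t = t * K + t := by ring
    omega
  refine (Wn_union ΛX ΛY hX hY zX zY sX sY n m K t (by omega) hm1 hm2 w).trans ?_
  have hwin : ∀ j ∈ Finset.Icc K (2 * K + 1),
      Wn ΛX ΛY hX hY zX zY sX sY n (j * t) ((j + 1) * t) w
      ≤ (2 * (2 * i0 + s) : ℕ) * δ + ((ov ΛX hX i0 + ov ΛX hX i0) + ((ov ΛY hY i0 + ov ΛY hY i0) +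
        ((kap2 C lam (us s) J i0 + ((1 - u) ^ J + J * ov ΛX hX i0)) +
        (kap2 C lam (us s) J i0 + ((1 - u) ^ J + J * ov ΛY hY i0)) + u * u))) := by
    intro j hj
    rw [Finset.mem_Icc] at hj
    obtain ⟨b', rfl⟩ : ∃ b', j = b' + 1 := ⟨j - 1, by omega⟩
    have e1 : (b' + 1) * t = b' * t + t := by ring
    have e2 : (b' + 1 + 1) * t = b' * t + 2 * t := by ring
    rw [e1, e2]
    have f1 : 4 * J ≤ b' := by omega
    have f2 : J * (3 * t + 2 * i0) ≤ b' * t := by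
      calc J * (3 * t + 2 * i0) ≤ J * (4 * t) := Nat.mul_le_mul_left _ (by omega)
        _ = (4 * J) * t := by ring
        _ ≤ b' * t := Nat.mul_le_mul_right _ f1
    have f3 : b' * t + 3 * t + 3 * i0 ≤ n := by
      have g1 : b' * t ≤ (2 * K) * t := Nat.mul_le_mul_right _ (by omega)
      have g2 : (2 * K + 5) * t ≤ (4 * K) * t := Nat.mul_le_mul_right _ (by omega)
      have g3 : (2 * K + 5) * t = (2 * K) * t + 5 * t := by ring
      have g4 : (4 * K) * t = 4 * (K * t) := by ring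
      omega
    have f4 : t ≤ b' * t := Nat.le_mul_of_pos_left t (by omega)
    exact window ΛX ΛY hX hY zX zY sX sY h1X h1Y hΛX hΛY hsX hsY C us hH2 hH3 u hu hu1 J hJ1
      i0 s t (b' * t) n lam l1 l2 (by omega) (by omega) f2 f3 w δ
      (fun k hk1 hk2 => hk0 k (by omega) n (by omega) w)
  refine (Finset.sum_le_sum hwin).trans ?_
  rw [Finset.sum_const, Nat.card_Icc, nsmul_eq_mul,
    show 2 * K + 1 + 1 - K = 4 * J + 3 by omega, ← hN]
  calc _ = N * ((2 * (2 * i0 + s) : ℕ) : ℝ≥0∞) * δ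
        + N * ((2 + J) * (ov ΛX hX i0 + ov ΛY hY i0))
        + N * (kap2 C lam (us s) J i0 + kap2 C lam (us s) J i0)
        + N * (u * u + ((1 - u) ^ J + (1 - u) ^ J)) := by ring
    _ ≤ η + η + η + η := add_le_add (add_le_add (add_le_add d3 hB) hCk) hA
    _ = 4 * η := by ring
    _ = ε := by
      rw [hηdef]
      exact ENNReal.mul_div_cancel (by norm_num) (by norm_num)

open Classical in
/-- extension of the crossings -/
lemma Wn_ext (h1X : ∀ b, 1 ≤ hX b) (h1Y : ∀ b, 1 ≤ hY b) (n N m m' : ℕ) (w : G) :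
    Wn ΛX ΛY hX hY zX zY sX sY n m m' w * (U ΛX hX N * U ΛY hY N)
      ≤ Wn ΛX ΛY hX hY zX zY sX sY (n + N) m m' w := by
  set Gf : List BX → List BY → ℝ≥0∞ := fun LX LY => if HT hX LX = n + N ∧ HT hY LY = n + N ∧
    (∃ z k, m < k ∧ k ≤ m' ∧ (z, k) ∈ TS hX zX sX LX 0 0 ∧ (z, k) ∈ TS hY zY sY LY w 0)
    then LW ΛX LX * LW ΛY LY else 0 with hG
  have a1 : ∑' LX, (if HT hX LX = n then ∑' RX, ∑' LY, (if HT hY LY = n then
      ∑' RY, Gf (LX ++ RX) (LY ++ RY) else 0) else 0) ≤ ∑' LX, ∑' LY, Gf LX LY := by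
    refine le_trans (ENNReal.tsum_le_tsum fun LX => ?_)
      (app_le hX h1X n (fun LX => ∑' LY, Gf LX LY))
    split_ifs
    · exact ENNReal.tsum_le_tsum fun RX => app_le hY h1Y n (fun LY => Gf (LX ++ RX) LY)
    · exact le_rfl
  refine le_trans ?_ a1
  rw [Wn, ← ENNReal.tsum_mul_right]
  refine ENNReal.tsum_le_tsum fun LX => ?_
  by_cases hx : HT hX LX = n
  · rw [if_pos hx, ENNReal.tsum_comm, ← ENNReal.tsum_mul_right]
    refine ENNReal.tsum_le_tsum fun LY => ?_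
    by_cases hc : HT hY LY = n ∧ (∃ z k, m < k ∧ k ≤ m' ∧ (z, k) ∈ TS hX zX sX LX 0 0 ∧
        (z, k) ∈ TS hY zY sY LY w 0)
    · rw [if_pos ⟨hx, hc⟩]
      refine le_trans ?_ (le_of_eq (tsum_congr fun RX => (if_pos hc.1).symm))
      have hLHS : LW ΛX LX * LW ΛY LY * (U ΛX hX N * U ΛY hY N) =
          ∑' RX, ∑' RY, LW ΛX LX * LW ΛY LY * ((if HT hX RX = N then LW ΛX RX else 0) *
            (if HT hY RY = N then LW ΛY RY else 0)) := by
        rw [U, U, ← ENNReal.tsum_mul_right, ← ENNReal.tsum_mul_left]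
        refine tsum_congr fun RX => ?_
        rw [← ENNReal.tsum_mul_left, ← ENNReal.tsum_mul_left]
      rw [hLHS]
      refine ENNReal.tsum_le_tsum fun RX => ENNReal.tsum_le_tsum fun RY => ?_
      by_cases hr : HT hX RX = N ∧ HT hY RY = N
      · rw [if_pos hr.1, if_pos hr.2, hG]
        simp only
        rw [if_pos]
        · rw [LW_append, LW_append]
          exact le_of_eq (by ring)
        · refine ⟨by rw [HT_append]; omega, by rw [HT_append]; omega, ?_⟩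
          obtain ⟨z, k, h1, h2, h3, h4⟩ := hc.2
          exact ⟨z, k, h1, h2, by rw [TS_append]; exact Or.inl h3,
            by rw [TS_append]; exact Or.inl h4⟩
      · rw [not_and_or] at hr
        rcases hr with hr | hr
        · rw [if_neg hr]; simp
        · rw [if_neg hr]; simp
    · rw [if_neg fun h => hc h.2, zero_mul]; exact zero_le
  · refine le_trans (le_of_eq ?_) zero_le
    have : ∀ LY, ¬ (HT hX LX = n ∧ HT hY LY = n ∧ (∃ z k, m < k ∧ k ≤ m' ∧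
      (z, k) ∈ TS hX zX sX LX 0 0 ∧ (z, k) ∈ TS hY zY sY LY w 0)) := fun LY h => hx h.1
    simp [this]

/-- **the assembly of ROAD 801** -/
theorem kapS (h1X : ∀ b, 1 ≤ hX b) (h1Y : ∀ b, 1 ≤ hY b) (hΛX : ∑' b, ΛX b = 1)
    (hΛY : ∑' b, ΛY b = 1) (hmX : ∑' b, ΛX b * (hX b : ℝ≥0∞) ≠ ⊤)
    (hmY : ∑' b, ΛY b * (hY b : ℝ≥0∞) ≠ ⊤) (c : ℝ≥0∞) (hc : c ≠ 0) (R : ℕ)
    (hUX : ∀ n, R ≤ n → c ≤ U ΛX hX n) (hUY : ∀ n, R ≤ n → c ≤ U ΛY hY n)
    (hsX : ∀ b p, p ∈ sX b → 1 ≤ p.2 ∧ p.2 ≤ hX b)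
    (hsY : ∀ b p, p ∈ sY b → 1 ≤ p.2 ∧ p.2 ≤ hY b) (C : ℝ≥0∞) (us : ℕ → ℝ≥0∞) (hC : C ≠ ⊤)
    (hus : Filter.Tendsto us Filter.atTop (nhds 0))
    (hH2 : H2 ΛX ΛY hX hY zX zY sX sY C us) (hH3 : H3 ΛX ΛY hX hY zX zY sX sY C us)
    (hPt : ∀ ε : ℝ≥0∞, ε ≠ 0 → ∃ k0 : ℕ, ∀ k, k0 ≤ k → ∀ n, k ≤ n → ∀ w,
      Pt ΛX ΛY hX hY zX zY sX sY n k w ≤ ε) (ε : ℝ≥0∞) (hε : ε ≠ 0) :
    ∃ M : ℕ, ∀ m, M ≤ m → ∀ n, 2 * m ≤ n → ∀ w,
      Wn ΛX ΛY hX hY zX zY sX sY n m (2 * m) w ≤ ε := by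
  have hc1 : c ≤ 1 := (hUX R le_rfl).trans (U_le ΛX hX h1X hΛX R)
  have hct : c ≠ ⊤ := ne_top_of_le_ne_top ENNReal.one_ne_top hc1
  have hcc0 : c * c ≠ 0 := mul_ne_zero hc hc
  have hcct : c * c ≠ ⊤ := ENNReal.mul_ne_top hct hct
  obtain ⟨M, hM⟩ := kapS0 ΛX ΛY hX hY zX zY sX sY h1X h1Y hΛX hΛY hmX hmY hsX hsY C us hC hus
    hH2 hH3 hPt (ε * (c * c)) (mul_ne_zero hε hcc0)
  refine ⟨M, fun m hm n hn w => ?_⟩
  have e1 := hM m hm (n + (2 * m + R)) (by omega) w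
  have e2 := Wn_ext ΛX ΛY hX hY zX zY sX sY h1X h1Y n (2 * m + R) m (2 * m) w
  have e3 : Wn ΛX ΛY hX hY zX zY sX sY n m (2 * m) w * (c * c) ≤ ε * (c * c) := by
    refine le_trans ?_ (e2.trans e1)
    exact mul_le_mul_right (mul_le_mul' (hUX _ (by omega)) (hUY _ (by omega))) _
  exact (ENNReal.mul_le_mul_iff_left hcc0 hcct).1 e3

end Crest.Agent.R154.Asm457
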