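import Crest.Agent.R154.AsmU_543
import Crest.Agent.R154.Num_869

/-! Row 154, ROAD 801, abstract assembly, part 6 (helper543): sum over the windows. -/

set_option autoImplicit false

namespace Crest.Agent.R154.Asm543

open Crest.Agent.R154.B5A Filter Topology
open scoped ENNReal

section win
variable {BX BY G : Type*} [AddCommGroup G] (ΛX : BX → ℝ≥0∞) (ΛY : BY → ℝ≥0∞)
  (hX : BX → ℕ) (hY : BY → ℕ) (zX : BX → G) (zY : BY → G)
  (sX : BX → Set (G × ℕ)) (sY : BY → Set (G × ℕ))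

/-- pairs of lists of height `n` -/
noncomputable def N (n : ℕ) (Φ : List BX → List BY → ℝ≥0∞) : ℝ≥0∞ :=
  ∑' LX, I (HT hX LX = n) * LW ΛX LX * ∑' LY, I (HT hY LY = n) * LW ΛY LY * Φ LX LY

lemma N_mono (n : ℕ) (Φ Φ' : List BX → List BY → ℝ≥0∞) (h : ∀ L L', Φ L L' ≤ Φ' L L') :
    N ΛX ΛY hX hY n Φ ≤ N ΛX ΛY hX hY n Φ' :=
  ENNReal.tsum_le_tsum fun L => mul_le_mul_right (ENNReal.tsum_le_tsum fun L' =>
    mul_le_mul_right (h L L') _) _

lemma N_add (n : ℕ) (Φ Φ' : List BX → List BY → ℝ≥0∞) :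
    N ΛX ΛY hX hY n (fun L L' => Φ L L' + Φ' L L') = N ΛX ΛY hX hY n Φ + N ΛX ΛY hX hY n Φ' := by
  simp only [N, mul_add, ENNReal.tsum_add]

lemma N_sum {ι : Type*} (n : ℕ) (s : Finset ι) (Φ : ι → List BX → List BY → ℝ≥0∞) :
    N ΛX ΛY hX hY n (fun L L' => ∑ i ∈ s, Φ i L L') = ∑ i ∈ s, N ΛX ΛY hX hY n (Φ i) := by
  classical
  induction s using Finset.induction_on with
  | empty => simp [N]
  | insert i s hi ih => simp only [Finset.sum_insert hi, N_add, ih]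

lemma N_eq (n : ℕ) (Q : List BX → List BY → Prop) [∀ L L', Decidable (Q L L')] :
    N ΛX ΛY hX hY n (fun L L' => I (Q L L')) = ∑' LX, ∑' LY,
      (if HT hX LX = n ∧ HT hY LY = n ∧ Q LX LY then LW ΛX LX * LW ΛY LY else 0) := by
  simp only [N, ← ENNReal.tsum_mul_left]
  refine tsum_congr fun L => tsum_congr fun L' => ?_
  by_cases h1 : HT hX L = n
  · by_cases h2 : HT hY L' = n
    · by_cases h3 : Q L L'
      · rw [I_pos h1, I_pos h2, I_pos h3, if_pos ⟨h1, h2, h3⟩]; ring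
      · rw [I_neg h3, if_neg (fun hh => h3 hh.2.2)]; simp
    · rw [I_neg h2, if_neg (fun hh => h2 hh.2.1)]; simp
  · rw [I_neg h1, if_neg (fun hh => h1 hh.1)]; simp

/-- contact at depth `k` -/
def Pt (w : G) (k : ℕ) (L : List BX) (L' : List BY) : Prop :=
  ∃ z, (z, k) ∈ TS hX zX sX L 0 0 ∧ (z, k) ∈ TS hY zY sY L' w 0

lemma card_slab (a0 b0 lo hi A : ℕ) (hA : lo ≤ a0 + A) (hB : b0 ≤ hi + A) :
    ((Finset.Ioc a0 b0).filter fun k => ¬ (lo ≤ k ∧ k ≤ hi)).card ≤ 2 * A := by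
  have hs : ((Finset.Ioc a0 b0).filter fun k => ¬ (lo ≤ k ∧ k ≤ hi))
      ⊆ Finset.Ioc a0 (a0 + A) ∪ Finset.Ioc hi (hi + A) := by
    intro k hk
    simp only [Finset.mem_filter, Finset.mem_Ioc, Finset.mem_union] at hk ⊢
    omega
  refine (Finset.card_le_card hs).trans ((Finset.card_union_le _ _).trans ?_)
  simp; omega

lemma cover (hsX : ∀ b p, p ∈ sX b → 1 ≤ p.2 ∧ p.2 ≤ hX b) (w : G) (m T J i0 s : ℕ)
    (hT1 : (4 * J + 1) * T ≤ m) (hT2 : m < (4 * J + 1) * (T + 1)) (hT3 : 2 * (4 * J + 1) ≤ T)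
    (hT4 : 0 < T) (L : List BX) (L' : List BY) :
    I (∃ k z, m < k ∧ k ≤ 2 * m ∧ (z, k) ∈ TS hX zX sX L 0 0 ∧ (z, k) ∈ TS hY zY sY L' w 0) ≤
      ∑ q ∈ Finset.Icc (4 * J) (8 * J + 1),
        (I (QW hX hY zX zY sX sY w (q * T) (q * T + 3 * T + 2 * i0) (q * T + 2 * i0 + s)
          (q * T + 3 * T - s) (q * T + T) (q * T + 2 * T) L L')
        + ∑ k ∈ (Finset.Ioc (q * T) (q * T + 3 * T + 2 * i0)).filter
            (fun k => ¬ (q * T + 2 * i0 + s ≤ k ∧ k ≤ q * T + 3 * T - s)),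
          I (Pt hX hY zX zY sX sY w k L L')) := by
  by_cases hE : ∃ k z, m < k ∧ k ≤ 2 * m ∧ (z, k) ∈ TS hX zX sX L 0 0 ∧ (z, k) ∈ TS hY zY sY L' w 0
  swap
  · rw [I_neg hE]; exact zero_le
  rw [I_pos hE]
  obtain ⟨k, z, hk1, hk2, hzX, hzY⟩ := hE
  obtain ⟨d, hd⟩ : ∃ d, d = (k - 1) / T := ⟨_, rfl⟩
  have hd1 : d * T ≤ k - 1 := by rw [hd]; exact Nat.div_mul_le_self _ _
  have hd2 : k - 1 < (d + 1) * T := by
    rw [hd, mul_comm]; exact Nat.lt_mul_div_succ _ hT4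
  have hd3 : 4 * J + 1 ≤ d := by
    rw [hd, Nat.le_div_iff_mul_le hT4]; omega
  have hd4 : d < 2 * (4 * J + 1) + 1 := by
    rw [hd, Nat.div_lt_iff_lt_mul hT4]
    have e1 : (4 * J + 1) * (T + 1) = (4 * J + 1) * T + (4 * J + 1) := by ring
    have e2 : (2 * (4 * J + 1) + 1) * T = 2 * ((4 * J + 1) * T) + T := by ring
    rw [e2]
    rw [e1] at hT2
    generalize (4 * J + 1) * T = P at *
    omega
  obtain ⟨q, rfl⟩ : ∃ q, d = q + 1 := ⟨d - 1, by omega⟩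
  have hq : q ∈ Finset.Icc (4 * J) (8 * J + 1) := by
    rw [Finset.mem_Icc]; omega
  refine le_trans ?_ (Finset.single_le_sum (f := fun q => (I (QW hX hY zX zY sX sY w (q * T)
          (q * T + 3 * T + 2 * i0) (q * T + 2 * i0 + s)
          (q * T + 3 * T - s) (q * T + T) (q * T + 2 * T) L L')
        + ∑ k ∈ (Finset.Ioc (q * T) (q * T + 3 * T + 2 * i0)).filter
            (fun k => ¬ (q * T + 2 * i0 + s ≤ k ∧ k ≤ q * T + 3 * T - s)),
          I (Pt hX hY zX zY sX sY w k L L'))) (fun _ _ => zero_le) hq)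
  by_cases hS : ∃ k ∈ (Finset.Ioc (q * T) (q * T + 3 * T + 2 * i0)).filter
            (fun k => ¬ (q * T + 2 * i0 + s ≤ k ∧ k ≤ q * T + 3 * T - s)),
            Pt hX hY zX zY sX sY w k L L'
  · obtain ⟨k', hk', hP⟩ := hS
    refine le_add_left ?_
    refine le_trans (le_of_eq (I_pos hP).symm) ?_
    exact Finset.single_le_sum (f := fun k => I (Pt hX hY zX zY sX sY w k L L'))
      (fun _ _ => zero_le) hk'
  · refine le_add_right ?_
    rw [I_pos]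
    refine ⟨⟨z, k, ?_, ?_, hzX, hzY⟩, ?_⟩
    · rw [add_mul, one_mul] at hd1; omega
    · have : (q + 1 + 1) * T = q * T + 2 * T := by ring
      omega
    · intro z' k' h1 h2 h3 h4
      by_contra hcon
      exact hS ⟨k', by rw [Finset.mem_filter, Finset.mem_Ioc]; exact ⟨⟨h3, h4⟩, hcon⟩, z', h1, h2⟩

/-- **the assembly**, weak form (`n ≥ 8 m`) -/
theorem kap8 (h1X : ∀ b, 1 ≤ hX b) (hΛX : ∑' b, ΛX b = 1) (h1Y : ∀ b, 1 ≤ hY b)
    (hΛY : ∑' b, ΛY b = 1) (hEX : ∑' b, ΛX b * (hX b : ℝ≥0∞) ≠ ⊤)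
    (hEY : ∑' b, ΛY b * (hY b : ℝ≥0∞) ≠ ⊤)
    (hsX : ∀ b p, p ∈ sX b → 1 ≤ p.2 ∧ p.2 ≤ hX b)
    (hsY : ∀ b p, p ∈ sY b → 1 ≤ p.2 ∧ p.2 ≤ hY b)
    (C : ℝ≥0∞) (hC : C ≠ ⊤) (us : ℕ → ℝ≥0∞) (hus : Tendsto us atTop (𝓝 0))
    (H2 : HW ΛX ΛY hX hY zX zY sX sY (fun E L _ => Dp zX L ∈ E) C us)
    (H3 : HW ΛX ΛY hX hY zX zY sX sY (fun E _ L' => Dp zY L' ∈ E) C us)
    (hPt : ∀ ε : ℝ≥0∞, ε ≠ 0 → ∃ k0, ∀ k, k0 ≤ k → ∀ n, k ≤ n → ∀ w,
      N ΛX ΛY hX hY n (fun L L' => I (Pt hX hY zX zY sX sY w k L L')) ≤ ε) :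
    ∀ ε : ℝ≥0∞, ε ≠ 0 → ∃ M, ∀ m, M ≤ m → ∀ n, 8 * m ≤ n → ∀ w,
      N ΛX ΛY hX hY n (fun L L' => I (∃ k z, m < k ∧ k ≤ 2 * m ∧ (z, k) ∈ TS hX zX sX L 0 0 ∧
        (z, k) ∈ TS hY zY sY L' w 0)) ≤ ε := by
  intro ε hε
  have hε2 : ε / 2 ≠ 0 := by simp [hε]
  have hep : Tendsto (fun i => ep ΛX hX i + ep ΛY hY i) atTop (𝓝 0) := by
    have := (ep_tendsto ΛX hX hΛX hEX).add (ep_tendsto ΛY hY hΛY hEY)
    simpa using this
  have hε18 : ε / 2 / 18 ≠ 0 := by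
    rw [Ne, ENNReal.div_eq_zero_iff]; push Not; exact ⟨hε2, by finiteness⟩
  obtain ⟨J, u, hJ1, hu0, hu1, i0, lam, s, hl0, hlt, -, -, hnum⟩ :=
    Num869.choose' us (fun i => ep ΛX hX i + ep ΛY hY i) hus hep (2 * C) (by finiteness) 4
      (ε / 2 / 18) hε18
  have hut : u ≠ ⊤ := ne_top_of_le_ne_top ENNReal.one_ne_top hu1
  have hu20 : u / 2 ≠ 0 := by simp [hu0]
  have hu21 : u / 2 < 1 := (ENNReal.half_lt_self hu0 hut).trans_le hu1
  -- the slab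
  set NN : ℕ := (4 * J + 2) * (2 * (2 * i0 + s)) + 1 with hNN
  have hNN0 : (NN : ℝ≥0∞) ≠ 0 := 
    Nat.cast_ne_zero.2 (by rw [hNN]; exact Nat.succ_ne_zero _)
  have hNNt : (NN : ℝ≥0∞) ≠ ⊤ := ENNReal.natCast_ne_top _
  obtain ⟨k0, hk0⟩ := hPt (ε / 2 / NN) (ENNReal.div_pos hε2 hNNt).ne'
  -- the threshold
  refine ⟨(4 * J + 1) * (2 * (4 * J + 1) + 2 * i0 + s + k0 + 1), fun m hm n hn w => ?_⟩
  obtain ⟨T, hT⟩ : ∃ T, T = m / (4 * J + 1) := ⟨_, rfl⟩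
  have hT0 : 2 * (4 * J + 1) + 2 * i0 + s + k0 + 1 ≤ T := by
    rw [hT, Nat.le_div_iff_mul_le (by omega), mul_comm]; exact hm
  have hT1 : (4 * J + 1) * T ≤ m := by rw [hT]; exact Nat.mul_div_le _ _
  have hT2 : m < (4 * J + 1) * (T + 1) := by rw [hT]; exact Nat.lt_mul_div_succ _ (by omega)
  set WB : ℝ≥0∞ := 2 * ep ΛX hX i0 + (2 * ep ΛY hY i0 + ((u / 2) * (u / 2) +
        (((1 - u / 2) ^ J + J * ep ΛX hX i0) + ((1 - u / 2) ^ J + J * ep ΛY hY i0) +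
        2 * ((i0 + 1 : ℕ) * ((i0 + 1 : ℕ) * ((i0 + 1 : ℕ) * ((i0 + 1 : ℕ) *
          (C * (lam + ((i0 + 1 : ℕ) / (u / 2)) * us s / lam + us s))))))))) with hWB
  refine (N_mono ΛX ΛY hX hY n _ _ (cover hX hY zX zY sX sY hsX w m T J i0 s hT1 hT2 (by omega)
    (by omega))).trans ?_
  rw [N_sum]
  have hterm : ∀ q ∈ Finset.Icc (4 * J) (8 * J + 1),
      N ΛX ΛY hX hY n (fun L L' => (I (QW hX hY zX zY sX sY w (q * T)
          (q * T + 3 * T + 2 * i0) (q * T + 2 * i0 + s)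
          (q * T + 3 * T - s) (q * T + T) (q * T + 2 * T) L L')
        + ∑ k ∈ (Finset.Ioc (q * T) (q * T + 3 * T + 2 * i0)).filter
            (fun k => ¬ (q * T + 2 * i0 + s ≤ k ∧ k ≤ q * T + 3 * T - s)),
          I (Pt hX hY zX zY sX sY w k L L'))) ≤ WB + (2 * (2 * i0 + s) : ℕ) * (ε / 2 / NN) := by
    intro q hq
    rw [Finset.mem_Icc] at hq
    have hqT1 : 4 * J * T ≤ q * T := Nat.mul_le_mul_right _ hq.1
    have hqT2 : q * T ≤ (8 * J + 1) * T := Nat.mul_le_mul_right _ hq.2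
    have hqT3 : T ≤ 4 * J * T := by nlinarith
    have hqn : q * T + 3 * T + 3 * i0 ≤ n := by nlinarith
    rw [N_add, N_sum]
    refine add_le_add ?_ ?_
    · refine window ΛX ΛY hX hY zX zY sX sY h1X hΛX h1Y hΛY hsX hsY C us H2 H3 w i0 (q * T) (3 * T) n
        s (q * T + 3 * T + 2 * i0) (q * T + 2 * i0 + s) (q * T + 3 * T - s) (q * T + T)
        (q * T + 2 * T) J (u / 2) lam hu20 hu21 hl0 hlt ?_ hqn (by omega) (by omega) le_rfl le_rfl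
        (by omega)
      calc J * (3 * T + 2 * i0) ≤ J * (4 * T) := Nat.mul_le_mul_left _ (by omega)
        _ = 4 * J * T := by ring
        _ ≤ q * T := hqT1
    · calc ∑ k ∈ (Finset.Ioc (q * T) (q * T + 3 * T + 2 * i0)).filter
            (fun k => ¬ (q * T + 2 * i0 + s ≤ k ∧ k ≤ q * T + 3 * T - s)),
            N ΛX ΛY hX hY n (fun L L' => I (Pt hX hY zX zY sX sY w k L L'))
          ≤ ∑ k ∈ (Finset.Ioc (q * T) (q * T + 3 * T + 2 * i0)).filter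
            (fun k => ¬ (q * T + 2 * i0 + s ≤ k ∧ k ≤ q * T + 3 * T - s)), ε / 2 / NN := by
            refine Finset.sum_le_sum fun k hk => ?_
            rw [Finset.mem_filter, Finset.mem_Ioc] at hk
            exact hk0 k (by omega) n (by omega) w
        _ ≤ _ := by
            rw [Finset.sum_const, nsmul_eq_mul]
            refine mul_le_mul_left ?_ _
            exact_mod_cast card_slab _ _ _ _ _ (by omega) (by omega)
  refine (Finset.sum_le_sum hterm).trans ?_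
  rw [Finset.sum_const, Nat.card_Icc, nsmul_eq_mul, mul_add]
  refine le_trans (add_le_add (b := ε / 2) (d := ε / 2) ?_ ?_) (ENNReal.add_halves ε).le
  · set X : ℝ≥0∞ := (u + (ep ΛX hX i0 + ep ΛY hY i0)) ^ 2 + ((1 - u / 2) ^ J +
        J * (ep ΛX hX i0 + ep ΛY hY i0)) + ((i0 : ℝ≥0∞) + 1) ^ 4 *
          (2 * C * (lam + (((i0 : ℝ≥0∞) + 1) / u) * us s / lam + us s)) with hXd
    have hJ1' : (1 : ℝ≥0∞) ≤ J := by exact_mod_cast hJ1
    have e0 : 2 * (ep ΛX hX i0 + ep ΛY hY i0) ≤ 2 * (J * (ep ΛX hX i0 + ep ΛY hY i0)) := by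
      refine mul_le_mul_right ?_ _
      calc _ = 1 * (ep ΛX hX i0 + ep ΛY hY i0) := (one_mul _).symm
        _ ≤ _ := mul_le_mul_left hJ1' _
    have e1 : (u / 2) * (u / 2) ≤ (u + (ep ΛX hX i0 + ep ΛY hY i0)) ^ 2 := by
      rw [sq]
      have : u / 2 ≤ u + (ep ΛX hX i0 + ep ΛY hY i0) := ENNReal.half_le_self.trans le_self_add
      exact mul_le_mul' this this
    have e2 : (C * (lam + ((i0 + 1 : ℕ) / (u / 2)) * us s / lam + us s)) ≤
        2 * C * (lam + (((i0 : ℝ≥0∞) + 1) / u) * us s / lam + us s) := by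
      have e3 : (((i0 + 1 : ℕ) : ℝ≥0∞) / (u / 2)) = 2 * (((i0 : ℝ≥0∞) + 1) / u) := by
        rw [div_eq_mul_inv, div_eq_mul_inv, div_eq_mul_inv, ENNReal.mul_inv (Or.inl hu0)
          (Or.inl hut), inv_inv]
        push_cast; ring
      rw [e3]
      refine le_trans (mul_le_mul_right (c := 2 * (lam + (((i0 : ℝ≥0∞) + 1) / u) * us s / lam + us s))
        ?_ C) (le_of_eq (by ring))
      calc lam + 2 * (((i0 : ℝ≥0∞) + 1) / u) * us s / lam + us s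
          = lam + 2 * ((((i0 : ℝ≥0∞) + 1) / u) * us s / lam) + us s := by
            rw [div_eq_mul_inv _ lam, div_eq_mul_inv _ lam]; ring
        _ ≤ (lam + lam) + 2 * ((((i0 : ℝ≥0∞) + 1) / u) * us s / lam) + (us s + us s) := by
            gcongr <;> exact le_self_add
        _ = _ := by ring
    have hWX : WB ≤ 3 * X := by
      have e4 : ((i0 + 1 : ℕ) * ((i0 + 1 : ℕ) * ((i0 + 1 : ℕ) * ((i0 + 1 : ℕ) *
          (C * (lam + ((i0 + 1 : ℕ) / (u / 2)) * us s / lam + us s))))) : ℝ≥0∞) ≤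
          ((i0 : ℝ≥0∞) + 1) ^ 4 *
          (2 * C * (lam + (((i0 : ℝ≥0∞) + 1) / u) * us s / lam + us s)) := by
        refine le_trans (le_of_eq ?_) (mul_le_mul_right e2 _)
        push_cast; ring
      calc WB = 2 * (ep ΛX hX i0 + ep ΛY hY i0) + (u / 2) * (u / 2) +
            2 * (1 - u / 2) ^ J + J * (ep ΛX hX i0 + ep ΛY hY i0) + 2 *
            ((i0 + 1 : ℕ) * ((i0 + 1 : ℕ) * ((i0 + 1 : ℕ) * ((i0 + 1 : ℕ) *
          (C * (lam + ((i0 + 1 : ℕ) / (u / 2)) * us s / lam + us s)))))) := by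
            rw [hWB]; ring
        _ ≤ 2 * (J * (ep ΛX hX i0 + ep ΛY hY i0)) + (u + (ep ΛX hX i0 + ep ΛY hY i0)) ^ 2 +
            2 * (1 - u / 2) ^ J + J * (ep ΛX hX i0 + ep ΛY hY i0) + 2 *
            (((i0 : ℝ≥0∞) + 1) ^ 4 *
          (2 * C * (lam + (((i0 : ℝ≥0∞) + 1) / u) * us s / lam + us s))) := by
            gcongr
        _ ≤ 2 * (J * (ep ΛX hX i0 + ep ΛY hY i0)) + 3 * (u + (ep ΛX hX i0 + ep ΛY hY i0)) ^ 2 +
            3 * (1 - u / 2) ^ J + J * (ep ΛX hX i0 + ep ΛY hY i0) + 3 *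
            (((i0 : ℝ≥0∞) + 1) ^ 4 *
          (2 * C * (lam + (((i0 : ℝ≥0∞) + 1) / u) * us s / lam + us s))) := by
            have h13 : (1 : ℝ≥0∞) ≤ 3 := by norm_num
            have h23 : (2 : ℝ≥0∞) ≤ 3 := by norm_num
            have : (u + (ep ΛX hX i0 + ep ΛY hY i0)) ^ 2 ≤
                3 * (u + (ep ΛX hX i0 + ep ΛY hY i0)) ^ 2 := by
              calc _ = 1 * (u + (ep ΛX hX i0 + ep ΛY hY i0)) ^ 2 := (one_mul _).symm
                _ ≤ _ := mul_le_mul_left h13 _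
            gcongr
        _ = 3 * X := by rw [hXd]; ring
    have h6 : ((8 * J + 1 + 1 - 4 * J : ℕ) : ℝ≥0∞) ≤ 6 * J := by
      have : 8 * J + 1 + 1 - 4 * J ≤ 6 * J := by omega
      exact_mod_cast this
    calc ((8 * J + 1 + 1 - 4 * J : ℕ) : ℝ≥0∞) * WB ≤ (6 * J) * (3 * X) := mul_le_mul' h6 hWX
      _ = 18 * (J * X) := by ring
      _ ≤ 18 * (ε / 2 / 18) := mul_le_mul_right hnum _
      _ = ε / 2 := ENNReal.mul_div_cancel (by norm_num) (by finiteness)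
  · calc ((8 * J + 1 + 1 - 4 * J : ℕ) : ℝ≥0∞) * ((2 * (2 * i0 + s) : ℕ) * (ε / 2 / NN))
        = (((8 * J + 1 + 1 - 4 * J) * (2 * (2 * i0 + s)) : ℕ) : ℝ≥0∞) * (ε / 2 / NN) := by
          rw [← mul_assoc]; norm_cast
      _ ≤ (NN : ℝ≥0∞) * (ε / 2 / NN) := by
          refine mul_le_mul_left ?_ _
          have : (8 * J + 1 + 1 - 4 * J) = 4 * J + 2 := by omega
          rw [this, hNN]
          exact_mod_cast Nat.le_succ _
      _ = ε / 2 := ENNReal.mul_div_cancel hNN0 hNNt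

end win

end Crest.Agent.R154.Asm543
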