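import Crest.Agent.R154.AsmP_642

/-! Row 154, ROAD 801: pair part of the assembly (helper642). -/

set_option autoImplicit false

namespace Crest.Agent.R154.Asm642

open Crest.Agent.R154.B5A
open scoped ENNReal Topology Classical

/-! ### single walker: a class of attempts at a first passage level -/

section one

variable {B G : Type*} [AddCommGroup G] (Λ : B → ℝ≥0∞) (h : B → ℕ)

lemma wn_attempt (h1 : ∀ b, 1 ≤ h b) (hΛ : ∑' b, Λ b = 1) (hU1 : ∀ n, U Λ h n ≤ 1) (n D T : ℕ)
    (Q : List B → Prop) (v : ℝ≥0∞)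
    (hv : ∑' P : List B, (if FP h T P ∧ Q P then LW Λ P else 0) ≤ v) :
    wn Λ h n (fun L => ∃ A P R, L = A ++ (P ++ R) ∧ FP h D A ∧ FP h T P ∧ Q P) ≤ v := by
  set g : List B × List B × List B → ℝ≥0∞ := fun p =>
    (if FP h D p.1 then LW Λ p.1 else 0) * ((if FP h T p.2.1 ∧ Q p.2.1 then LW Λ p.2.1 else 0) *
      (if HT h p.2.2 = n - HT h p.1 - HT h p.2.1 then LW Λ p.2.2 else 0)) with hg
  have hcov : wn Λ h n (fun L => ∃ A P R, L = A ++ (P ++ R) ∧ FP h D A ∧ FP h T P ∧ Q P)
      ≤ ∑' p, g p := by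
    refine tsum_cover _ _ (fun p : List B × List B × List B => p.1 ++ (p.2.1 ++ p.2.2)) ?_
    intro L hL
    have hc : HT h L = n ∧ ∃ A P R, L = A ++ (P ++ R) ∧ FP h D A ∧ FP h T P ∧ Q P := by
      by_contra hcon
      rw [if_neg hcon] at hL
      exact hL rfl
    rw [if_pos hc]
    obtain ⟨h2, A, P, R, hL, hA, hP, hQ⟩ := hc
    refine ⟨(A, P, R), hL.symm, ?_⟩
    have h4 : HT h A + (HT h P + HT h R) = n := by rw [← HT_append, ← HT_append, ← hL]; exact h2
    simp only [hg]
    rw [if_pos hA, if_pos ⟨hP, hQ⟩, if_pos (by omega), hL, LW_append, LW_append]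
  refine hcov.trans ?_
  rw [ENNReal.tsum_prod']
  calc ∑' (A : List B) (q : List B × List B), g (A, q)
      ≤ ∑' A : List B, (if FP h D A then LW Λ A else 0) * v := by
        refine ENNReal.tsum_le_tsum fun A => ?_
        simp only [hg]
        rw [ENNReal.tsum_mul_left]
        refine mul_le_mul_right ?_ _
        rw [ENNReal.tsum_prod']
        refine le_trans (ENNReal.tsum_le_tsum fun P => ?_) hv
        simp only
        rw [ENNReal.tsum_mul_left]
        calc _ ≤ (if FP h T P ∧ Q P then LW Λ P else 0) * 1 := mul_le_mul_right (hU1 _) _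
          _ = _ := mul_one _
    _ = 1 * v := by rw [ENNReal.tsum_mul_right, sum_FP Λ h h1 hΛ D]
    _ = v := one_mul v

lemma wn_first (hU1 : ∀ n, U Λ h n ≤ 1) (n D i0 : ℕ) :
    wn Λ h n (fun L => ∃ A R, L = A ++ R ∧ FP h D A ∧ D + i0 < HT h A)
      ≤ ∑' b, Λ b * ((h b - i0 : ℕ) : ℝ≥0∞) := by
  set g : List B × List B → ℝ≥0∞ := fun p =>
    (if FP h D p.1 ∧ D + i0 < HT h p.1 then LW Λ p.1 else 0) *
      (if HT h p.2 = n - HT h p.1 then LW Λ p.2 else 0) with hg
  have hcov : wn Λ h n (fun L => ∃ A R, L = A ++ R ∧ FP h D A ∧ D + i0 < HT h A)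
      ≤ ∑' p, g p := by
    refine tsum_cover _ _ (fun p : List B × List B => p.1 ++ p.2) ?_
    intro L hL
    have hc : HT h L = n ∧ ∃ A R, L = A ++ R ∧ FP h D A ∧ D + i0 < HT h A := by
      by_contra hcon
      rw [if_neg hcon] at hL
      exact hL rfl
    rw [if_pos hc]
    obtain ⟨h2, A, R, hL, hA⟩ := hc
    refine ⟨(A, R), hL.symm, ?_⟩
    have h4 : HT h A + HT h R = n := by rw [← HT_append, ← hL]; exact h2
    simp only [hg]
    rw [if_pos hA, if_pos (by omega), hL, LW_append]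
  refine hcov.trans ?_
  rw [ENNReal.tsum_prod']
  refine le_trans (ENNReal.tsum_le_tsum fun A => ?_) (sum_over Λ h hU1 D i0)
  simp only [hg]
  rw [ENNReal.tsum_mul_left]
  calc _ ≤ (if FP h D A ∧ D + i0 < HT h A then LW Λ A else 0) * 1 := mul_le_mul_right (hU1 _) _
    _ = _ := mul_one _

end one

/-! ### pairs -/

section pair

variable {BX BY G : Type*} [AddCommGroup G]
variable (ΛX : BX → ℝ≥0∞) (hX : BX → ℕ) (ΛY : BY → ℝ≥0∞) (hY : BY → ℕ)

/-- weight of the pairs of lists of height `n` in a class -/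
noncomputable def WW (n : ℕ) (S : List BX → List BY → Prop) : ℝ≥0∞ :=
  ∑' p : List BX × List BY,
    if HT hX p.1 = n ∧ HT hY p.2 = n ∧ S p.1 p.2 then LW ΛX p.1 * LW ΛY p.2 else 0

lemma WW_mono (n : ℕ) {S S' : List BX → List BY → Prop}
    (hS : ∀ L L', HT hX L = n → HT hY L' = n → S L L' → S' L L') :
    WW ΛX hX ΛY hY n S ≤ WW ΛX hX ΛY hY n S' := by
  refine ENNReal.tsum_le_tsum fun p => ?_
  by_cases hc : HT hX p.1 = n ∧ HT hY p.2 = n ∧ S p.1 p.2
  · rw [if_pos hc, if_pos ⟨hc.1, hc.2.1, hS _ _ hc.1 hc.2.1 hc.2.2⟩]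
  · rw [if_neg hc]; exact zero_le

lemma WW_or (n : ℕ) (S S' : List BX → List BY → Prop) :
    WW ΛX hX ΛY hY n (fun L L' => S L L' ∨ S' L L')
      ≤ WW ΛX hX ΛY hY n S + WW ΛX hX ΛY hY n S' := by
  rw [WW, WW, WW, ← ENNReal.tsum_add]
  refine ENNReal.tsum_le_tsum fun p => ?_
  by_cases hc : HT hX p.1 = n ∧ HT hY p.2 = n ∧ (S p.1 p.2 ∨ S' p.1 p.2)
  · rw [if_pos hc]
    rcases hc.2.2 with h | h
    · rw [if_pos (⟨hc.1, hc.2.1, h⟩ : HT hX p.1 = n ∧ HT hY p.2 = n ∧ S p.1 p.2)]
      exact le_self_add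
    · rw [if_pos (⟨hc.1, hc.2.1, h⟩ : HT hX p.1 = n ∧ HT hY p.2 = n ∧ S' p.1 p.2)]
      exact le_add_self
  · rw [if_neg hc]; exact zero_le

lemma WW_bex {ι : Type*} (n : ℕ) (F : Finset ι) (S : ι → List BX → List BY → Prop) :
    WW ΛX hX ΛY hY n (fun L L' => ∃ i ∈ F, S i L L') ≤ ∑ i ∈ F, WW ΛX hX ΛY hY n (S i) := by
  simp only [WW]
  rw [← Summable.tsum_finsetSum (fun _ _ => ENNReal.summable)]
  refine ENNReal.tsum_le_tsum fun p => ?_
  by_cases hc : HT hX p.1 = n ∧ HT hY p.2 = n ∧ (∃ i ∈ F, S i p.1 p.2)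
  · rw [if_pos hc]
    obtain ⟨h1, h2, i, hi, h3⟩ := hc
    refine le_trans ?_ (Finset.single_le_sum (f := fun i => if HT hX p.1 = n ∧ HT hY p.2 = n ∧
      S i p.1 p.2 then LW ΛX p.1 * LW ΛY p.2 else 0) (fun _ _ => zero_le) hi)
    rw [if_pos (⟨h1, h2, h3⟩ : HT hX p.1 = n ∧ HT hY p.2 = n ∧ S i p.1 p.2)]
  · rw [if_neg hc]; exact zero_le

lemma WW_prod (n : ℕ) (S : List BX → Prop) (S' : List BY → Prop) :
    WW ΛX hX ΛY hY n (fun L L' => S L ∧ S' L') ≤ wn ΛX hX n S * wn ΛY hY n S' := by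
  rw [WW, ENNReal.tsum_prod', wn, ← ENNReal.tsum_mul_right]
  refine ENNReal.tsum_le_tsum fun L => ?_
  rw [wn, ← ENNReal.tsum_mul_left]
  refine ENNReal.tsum_le_tsum fun L' => ?_
  by_cases hc : HT hX L = n ∧ HT hY L' = n ∧ (S L ∧ S' L')
  · rw [if_pos hc, if_pos ⟨hc.1, hc.2.2.1⟩, if_pos ⟨hc.2.1, hc.2.2.2⟩]
  · rw [if_neg hc]; exact zero_le

lemma WW_left (hU1 : ∀ n, U ΛY hY n ≤ 1) (n : ℕ) (S : List BX → Prop) :
    WW ΛX hX ΛY hY n (fun L _ => S L) ≤ wn ΛX hX n S := by
  calc _ ≤ WW ΛX hX ΛY hY n (fun L _ => S L ∧ True) :=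
        WW_mono ΛX hX ΛY hY n fun L L' _ _ h => ⟨h, trivial⟩
    _ ≤ wn ΛX hX n S * wn ΛY hY n (fun _ => True) := WW_prod ΛX hX ΛY hY n S (fun _ => True)
    _ ≤ wn ΛX hX n S * 1 := mul_le_mul_right (wn_le_one ΛY hY hU1 n _) _
    _ = _ := mul_one _

lemma WW_right (hU1 : ∀ n, U ΛX hX n ≤ 1) (n : ℕ) (S : List BY → Prop) :
    WW ΛX hX ΛY hY n (fun _ L' => S L') ≤ wn ΛY hY n S := by
  calc _ ≤ WW ΛX hX ΛY hY n (fun _ L' => True ∧ S L') :=
        WW_mono ΛX hX ΛY hY n fun L L' _ _ h => ⟨trivial, h⟩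
    _ ≤ wn ΛX hX n (fun _ => True) * wn ΛY hY n S := WW_prod ΛX hX ΛY hY n (fun _ => True) S
    _ ≤ 1 * wn ΛY hY n S := mul_le_mul_left (wn_le_one ΛX hX hU1 n _) _
    _ = _ := one_mul _

variable (zX : BX → G) (zY : BY → G)

/-- **pieces**: prefixes of heights `a, a'` in classes `SA, SA'`, pieces of heights `r, r'` -/
theorem WW_piece (hUX : ∀ n, U ΛX hX n ≤ 1) (hUY : ∀ n, U ΛY hY n ≤ 1) (n a a' r r' : ℕ) (w : G)
    (SA : List BX → Prop) (SA' : List BY → Prop) (Φ : G → List BX → List BY → Prop)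
    (M V : ℝ≥0∞)
    (hM : (∀ x, wn ΛX hX a (fun L => Dp zX L = x ∧ SA L) ≤ M) ∨
      (∀ x, wn ΛY hY a' (fun L => Dp zY L = x ∧ SA' L) ≤ M))
    (hV : ∀ μ : G → ℝ≥0∞, ∑' x, μ x ≤ 1 → (∀ x, μ x ≤ M) →
      ∑' x, μ x * ∑' P : List BX, ∑' P' : List BY,
        (if HT hX P = r ∧ HT hY P' = r' ∧ Φ x P P' then LW ΛX P * LW ΛY P' else 0) ≤ V) :
    WW ΛX hX ΛY hY n (fun L L' => ∃ A P R A' P' R', L = A ++ (P ++ R) ∧ L' = A' ++ (P' ++ R') ∧
      (HT hX A = a ∧ SA A) ∧ (HT hY A' = a' ∧ SA' A') ∧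
      (HT hX P = r ∧ HT hY P' = r' ∧ Φ (w + Dp zY A' - Dp zX A) P P')) ≤ V := by
  set f : List BX × List BY → ℝ≥0∞ := fun p =>
    (if HT hX p.1 = a ∧ SA p.1 then LW ΛX p.1 else 0) *
      (if HT hY p.2 = a' ∧ SA' p.2 then LW ΛY p.2 else 0) with hf
  set k : G → List BX × List BY → ℝ≥0∞ := fun x p =>
    if HT hX p.1 = r ∧ HT hY p.2 = r' ∧ Φ x p.1 p.2 then LW ΛX p.1 * LW ΛY p.2 else 0 with hk
  set t : List BX × List BY → ℝ≥0∞ := fun p =>
    (if HT hX p.1 = n - a - r then LW ΛX p.1 else 0) *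
      (if HT hY p.2 = n - a' - r' then LW ΛY p.2 else 0) with ht
  set π : List BX × List BY → G := fun p => w + Dp zY p.2 - Dp zX p.1 with hπ
  set g : (List BX × List BY) × (List BX × List BY) × (List BX × List BY) → ℝ≥0∞ := fun p =>
    f p.1 * (k (π p.1) p.2.1 * t p.2.2) with hg
  have hcov : WW ΛX hX ΛY hY n (fun L L' => ∃ A P R A' P' R', L = A ++ (P ++ R) ∧
      L' = A' ++ (P' ++ R') ∧ (HT hX A = a ∧ SA A) ∧ (HT hY A' = a' ∧ SA' A') ∧
      (HT hX P = r ∧ HT hY P' = r' ∧ Φ (w + Dp zY A' - Dp zX A) P P')) ≤ ∑' p, g p := by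
    refine tsum_cover _ _ (fun p => (p.1.1 ++ (p.2.1.1 ++ p.2.2.1), p.1.2 ++ (p.2.1.2 ++ p.2.2.2)))
      ?_
    rintro ⟨L, L'⟩ hL
    have hc : HT hX L = n ∧ HT hY L' = n ∧ ∃ A P R A' P' R', L = A ++ (P ++ R) ∧
      L' = A' ++ (P' ++ R') ∧ (HT hX A = a ∧ SA A) ∧ (HT hY A' = a' ∧ SA' A') ∧
      (HT hX P = r ∧ HT hY P' = r' ∧ Φ (w + Dp zY A' - Dp zX A) P P') := by
      by_contra hcon
      exact hL (if_neg hcon)
    rw [if_pos hc]
    obtain ⟨h2, h2', A, P, R, A', P', R', hL1, hL2, hA, hA', hP⟩ := hc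
    refine ⟨((A, A'), (P, P'), (R, R')), by rw [hL1, hL2], ?_⟩
    have h4 : HT hX A + (HT hX P + HT hX R) = n := by
      rw [← HT_append, ← HT_append, ← hL1]; exact h2
    have h4' : HT hY A' + (HT hY P' + HT hY R') = n := by
      rw [← HT_append, ← HT_append, ← hL2]; exact h2'
    have e1 : HT hX R = n - a - r := by have := hA.1; have := hP.1; omega
    have e2 : HT hY R' = n - a' - r' := by have := hA'.1; have := hP.2.1; omega
    simp only [hg, hf, hk, ht, hπ]
    rw [if_pos hA, if_pos hA', if_pos hP, if_pos e1, if_pos e2, hL1, hL2]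
    simp only [LW_append]
    apply le_of_eq
    ring
  refine hcov.trans ?_
  have hK : ∀ x, ∑' q : List BX × List BY, k x q = ∑' P : List BX, ∑' P' : List BY,
        (if HT hX P = r ∧ HT hY P' = r' ∧ Φ x P P' then LW ΛX P * LW ΛY P' else 0) := by
    intro x
    rw [ENNReal.tsum_prod']
  have ht1 : ∑' q, t q ≤ 1 := by
    rw [ENNReal.tsum_prod']
    calc ∑' (R : List BX) (R' : List BY), t (R, R')
        = ∑' R : List BX, (if HT hX R = n - a - r then LW ΛX R else 0) * U ΛY hY (n - a' - r') := by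
          refine tsum_congr fun R => ?_
          simp only [ht]
          rw [ENNReal.tsum_mul_left]; rfl
      _ = U ΛX hX (n - a - r) * U ΛY hY (n - a' - r') := by rw [ENNReal.tsum_mul_right]; rfl
      _ ≤ 1 * 1 := mul_le_mul' (hUX _) (hUY _)
      _ = 1 := one_mul 1
  set μ : G → ℝ≥0∞ := fun x => ∑' p, (if π p = x then f p else 0) with hμ
  have hsum : ∑' p, g p ≤ ∑' x, μ x * ∑' P : List BX, ∑' P' : List BY,
        (if HT hX P = r ∧ HT hY P' = r' ∧ Φ x P P' then LW ΛX P * LW ΛY P' else 0) := by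
    rw [ENNReal.tsum_prod']
    calc ∑' (p : List BX × List BY) (q : (List BX × List BY) × (List BX × List BY)), g (p, q)
        ≤ ∑' p, (∑' q, k (π p) q) * f p := by
          refine ENNReal.tsum_le_tsum fun p => ?_
          simp only [hg]
          rw [ENNReal.tsum_mul_left, mul_comm]
          refine mul_le_mul_left ?_ _
          rw [ENNReal.tsum_prod']
          refine ENNReal.tsum_le_tsum fun q => ?_
          simp only
          rw [ENNReal.tsum_mul_left]
          calc _ ≤ k (π p) q * 1 := mul_le_mul_right ht1 _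
            _ = _ := mul_one _
      _ = ∑' x, (∑' q, k x q) * ∑' p, (if π p = x then f p else 0) :=
          tsum_fiber π (fun x => ∑' q, k x q) f
      _ = _ := by
          refine tsum_congr fun x => ?_
          rw [hK x, mul_comm]
  refine hsum.trans (hV μ ?_ ?_)
  · -- total mass
    have e : ∑' x, μ x = ∑' p, f p := by
      have := tsum_fiber π (fun _ => 1) f
      simp only [one_mul] at this
      rw [this]
    rw [e, ENNReal.tsum_prod']
    calc ∑' (A : List BX) (A' : List BY), f (A, A')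
        = ∑' A : List BX, (if HT hX A = a ∧ SA A then LW ΛX A else 0) * wn ΛY hY a' SA' := by
          refine tsum_congr fun A => ?_
          simp only [hf]
          rw [ENNReal.tsum_mul_left]; rfl
      _ = wn ΛX hX a SA * wn ΛY hY a' SA' := by rw [ENNReal.tsum_mul_right]; rfl
      _ ≤ 1 * 1 := mul_le_mul' (wn_le_one ΛX hX hUX _ _) (wn_le_one ΛY hY hUY _ _)
      _ = 1 := one_mul 1
  · intro x
    rcases hM with hM | hM
    · -- density of `X`
      simp only [hμ]
      rw [ENNReal.tsum_prod', ENNReal.tsum_comm]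
      calc ∑' (A' : List BY) (A : List BX), (if π (A, A') = x then f (A, A') else 0)
          ≤ ∑' A' : List BY, (if HT hY A' = a' ∧ SA' A' then LW ΛY A' else 0) * M := by
            refine ENNReal.tsum_le_tsum fun A' => ?_
            calc ∑' A : List BX, (if π (A, A') = x then f (A, A') else 0)
                ≤ ∑' A : List BX, (if HT hY A' = a' ∧ SA' A' then LW ΛY A' else 0) *
                    (if HT hX A = a ∧ (Dp zX A = w + Dp zY A' - x ∧ SA A) then LW ΛX A else 0) := by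
                  refine ENNReal.tsum_le_tsum fun A => ?_
                  by_cases h1 : π (A, A') = x
                  · rw [if_pos h1]
                    have h2 : Dp zX A = w + Dp zY A' - x := by
                      rw [← h1]; simp only [hπ]; abel
                    simp only [hf]
                    rw [mul_comm]
                    refine mul_le_mul_right ?_ _
                    by_cases h3 : HT hX A = a ∧ SA A
                    · rw [if_pos h3, if_pos ⟨h3.1, h2, h3.2⟩]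
                    · rw [if_neg h3]; exact zero_le
                  · rw [if_neg h1]; exact zero_le
              _ ≤ (if HT hY A' = a' ∧ SA' A' then LW ΛY A' else 0) * M := by
                  rw [ENNReal.tsum_mul_left]
                  refine mul_le_mul_right (le_trans (le_of_eq ?_) (hM (w + Dp zY A' - x))) _
                  exact tsum_congr fun A => by congr
        _ = wn ΛY hY a' SA' * M := by rw [ENNReal.tsum_mul_right]; rfl
        _ ≤ 1 * M := mul_le_mul_left (wn_le_one ΛY hY hUY _ _) _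
        _ = M := one_mul M
    · simp only [hμ]
      rw [ENNReal.tsum_prod']
      calc ∑' (A : List BX) (A' : List BY), (if π (A, A') = x then f (A, A') else 0)
          ≤ ∑' A : List BX, (if HT hX A = a ∧ SA A then LW ΛX A else 0) * M := by
            refine ENNReal.tsum_le_tsum fun A => ?_
            calc ∑' A' : List BY, (if π (A, A') = x then f (A, A') else 0)
                ≤ ∑' A' : List BY, (if HT hX A = a ∧ SA A then LW ΛX A else 0) *
                    (if HT hY A' = a' ∧ (Dp zY A' = x - w + Dp zX A ∧ SA' A')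
                      then LW ΛY A' else 0) := by
                  refine ENNReal.tsum_le_tsum fun A' => ?_
                  by_cases h1 : π (A, A') = x
                  · rw [if_pos h1]
                    have h2 : Dp zY A' = x - w + Dp zX A := by
                      rw [← h1]; simp only [hπ]; abel
                    simp only [hf]
                    refine mul_le_mul_right ?_ _
                    by_cases h3 : HT hY A' = a' ∧ SA' A'
                    · rw [if_pos h3, if_pos ⟨h3.1, h2, h3.2⟩]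
                    · rw [if_neg h3]; exact zero_le
                  · rw [if_neg h1]; exact zero_le
              _ ≤ (if HT hX A = a ∧ SA A then LW ΛX A else 0) * M := by
                  rw [ENNReal.tsum_mul_left]
                  refine mul_le_mul_right (le_trans (le_of_eq ?_) (hM (x - w + Dp zX A))) _
                  exact tsum_congr fun A' => by congr
        _ = wn ΛX hX a SA * M := by rw [ENNReal.tsum_mul_right]; rfl
        _ ≤ 1 * M := mul_le_mul_left (wn_le_one ΛX hX hUX _ _) _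
        _ = M := one_mul M

end pair

end Crest.Agent.R154.Asm642
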