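import Crest.Agent.R154.AsmR_703

/-! Row 154 (helper703), ROAD 801: the abstract assembly, part 4: sum over the windows and the
order of the constants.  Generic traces `TX`, `TY` (structure `Tr`). -/

set_option autoImplicit false

namespace Crest.Agent.R154.Asm703

open scoped ENNReal Topology
open B5A Asm867 Filter

lemma ite_cg {α : Type*} {p : Prop} (d1 d2 : Decidable p) (x y : α) :
    @ite α p d1 x y = @ite α p d2 x y := by
  congr

/-- the three properties of the trace of a list -/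
structure Tr {B G : Type*} [AddCommGroup G] (z : B → G) (h : B → ℕ)
    (TX : List B → G → ℕ → Set (G × ℕ)) : Prop where
  app : ∀ L L' x a, TX (L ++ L') x a = TX L x a ∪ TX L' (x + Dp z L) (a + HT h L)
  rng : ∀ L x a v k, (v, k) ∈ TX L x a → a + 1 ≤ k ∧ k ≤ a + HT h L
  shf : ∀ L x y a v k, (v, k) ∈ TX L (x + y) a ↔ (v - y, k) ∈ TX L x a

section main

variable {BX BY : Type*} {G : Type*} [AddCommGroup G] (ΛX : BX → ℝ≥0∞) (ΛY : BY → ℝ≥0∞)
  (hX : BX → ℕ) (hY : BY → ℕ) (zX : BX → G) (zY : BY → G)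
  (TX : List BX → G → ℕ → Set (G × ℕ)) (TY : List BY → G → ℕ → Set (G × ℕ))

/-- common site `(g, k)` of the `X`-list at `(0, a)` and the `Y`-list at `(x, a')` -/
def Ct (L : List BX) (L' : List BY) (x : G) (a a' : ℕ) (g : G) (k : ℕ) : Prop :=
  (g, k) ∈ TX L 0 a ∧ (g, k) ∈ TY L' x a'

open Classical in
/-- `X` local window lemma (weakest form) -/
def H2 (C : ℝ≥0∞) (us : ℕ → ℝ≥0∞) : Prop :=
  ∀ (s h h' a a' lo hi : ℕ) (E : Finset G) (μ : G → ℝ≥0∞) (M lam : ℝ≥0∞), ∑' x, μ x ≤ 1 →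
    (∀ x, μ x ≤ M) → lam ≠ 0 → lam ≠ ⊤ → a ≤ a' → a + h ≤ a' + h' →
    a + s ≤ lo → a' + s ≤ lo → hi + s ≤ a + h → hi + s ≤ a' + h' →
    ∑' x, μ x * ∑' L : List BX, ∑' L' : List BY,
      (if HT hX L = h ∧ Dp zX L ∈ E ∧ HT hY L' = h' ∧ (∃ g k, Ct TX TY L L' x a a' g k) ∧
          (∀ g k, Ct TX TY L L' x a a' g k → lo ≤ k ∧ k ≤ hi) then LW ΛX L * LW ΛY L' else 0)
      ≤ C * (lam + M * E.card * us s / lam + us s)

open Classical in
/-- `Y` local window lemma (weakest form) -/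
def H3 (C : ℝ≥0∞) (us : ℕ → ℝ≥0∞) : Prop :=
  ∀ (s h h' a a' lo hi : ℕ) (E : Finset G) (μ : G → ℝ≥0∞) (M lam : ℝ≥0∞), ∑' x, μ x ≤ 1 →
    (∀ x, μ x ≤ M) → lam ≠ 0 → lam ≠ ⊤ → a ≤ a' → a + h ≤ a' + h' →
    a + s ≤ lo → a' + s ≤ lo → hi + s ≤ a + h → hi + s ≤ a' + h' →
    ∑' x, μ x * ∑' L : List BX, ∑' L' : List BY,
      (if HT hX L = h ∧ Dp zY L' ∈ E ∧ HT hY L' = h' ∧ (∃ g k, Ct TX TY L L' x a a' g k) ∧
          (∀ g k, Ct TX TY L L' x a a' g k → lo ≤ k ∧ k ≤ hi) then LW ΛX L * LW ΛY L' else 0)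
      ≤ C * (lam + M * E.card * us s / lam + us s)

open Classical in
/-- thin slab -/
def H5 : Prop := ∀ (s : ℕ) (η : ℝ≥0∞), η ≠ 0 → ∃ T, ∀ a, T ≤ a → ∀ n w,
  ∑' LX : List BX, ∑' LY : List BY, (if HT hX LX = n ∧ HT hY LY = n ∧
    (∃ g k, (a ≤ k ∧ k < a + s) ∧ Ct TX TY LX LY w 0 0 g k) then LW ΛX LX * LW ΛY LY else 0) ≤ η

/-- window event: a contact in the window, none in the two slabs -/
def EvW (w : G) (t i0 s a0 : ℕ) (LX : List BX) (LY : List BY) : Prop :=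
  (∃ g k, (a0 + t < k ∧ k ≤ a0 + t + t) ∧ Ct TX TY LX LY w 0 0 g k)
      ∧ (∀ g k, Ct TX TY LX LY w 0 0 g k →
        ¬ (a0 ≤ k ∧ k < a0 + (3 * i0 + s + 1)) ∧
        ¬ (a0 + 3 * t - s ≤ k ∧ k < a0 + 3 * t - s + (3 * i0 + s + 1)))

variable {TX TY zX zY hX hY}

/-- cutting the lists -/
lemma cutQ (tX : Tr zX hX TX) (tY : Tr zY hY TY) {t i0 s a0 : ℕ} (h3 : 3 * i0 + s + 1 ≤ t)
    {w : G} {A P R : List BX} {A' P' R' : List BY}
    (hS : Sp hX a0 (3 * t) i0 A P) (hS' : Sp hY (a0 + 2 * i0) (3 * t) i0 A' P')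
    (h : (∃ g k, (a0 + t < k ∧ k ≤ a0 + t + t) ∧ Ct TX TY (A ++ (P ++ R)) (A' ++ (P' ++ R')) w 0 0 g k)
      ∧ (∀ g k, Ct TX TY (A ++ (P ++ R)) (A' ++ (P' ++ R')) w 0 0 g k →
        ¬ (a0 ≤ k ∧ k < a0 + (3 * i0 + s + 1)) ∧
        ¬ (a0 + 3 * t - s ≤ k ∧ k < a0 + 3 * t - s + (3 * i0 + s + 1)))) :
    (∃ g k, Ct TX TY P P' (w + (Dp zY A' - Dp zX A)) (HT hX A) (HT hY A') g k) ∧
    (∀ g k, Ct TX TY P P' (w + (Dp zY A' - Dp zX A)) (HT hX A) (HT hY A') g k →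
      a0 + 3 * i0 + s ≤ k ∧ k ≤ a0 + 3 * t - s) := by
  obtain ⟨⟨g, k, ⟨hk1, hk2⟩, hgX, hgY⟩, hall⟩ := h
  obtain ⟨⟨hA, hA2⟩, ⟨hP, hP2⟩⟩ := hS
  obtain ⟨⟨hA', hA2'⟩, ⟨hP', hP2'⟩⟩ := hS'
  have a1 := hA.1
  have a2 := hP.1
  have a3 := hA'.1
  have a4 := hP'.1
  have eX : ∀ g k, (g, k) ∈ TX P (0 + Dp zX A) (0 + HT hX A) ↔ (g - Dp zX A, k) ∈ TX P 0 (HT hX A) := by
    intro g k
    rw [tX.shf, zero_add]
  have eY : ∀ g k, (g, k) ∈ TY P' (w + Dp zY A') (0 + HT hY A') ↔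
      (g - Dp zX A, k) ∈ TY P' (w + (Dp zY A' - Dp zX A)) (HT hY A') := by
    intro g k
    rw [← tY.shf, zero_add]
    rw [show w + (Dp zY A' - Dp zX A) + Dp zX A = w + Dp zY A' by abel]
  refine ⟨⟨g - Dp zX A, k, ?_, ?_⟩, ?_⟩
  · rw [← eX]
    rw [tX.app, tX.app] at hgX
    rcases hgX with h1 | h1 | h1
    · have := tX.rng _ _ _ _ _ h1
      omega
    · exact h1
    · have := tX.rng _ _ _ _ _ h1
      omega
  · rw [← eY]
    rw [tY.app, tY.app] at hgY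
    rcases hgY with h1 | h1 | h1
    · have := tY.rng _ _ _ _ _ h1
      omega
    · exact h1
    · have := tY.rng _ _ _ _ _ h1
      omega
  · rintro g' k' ⟨hx, hy⟩
    have b1 := tX.rng _ _ _ _ _ hx
    have b2 := tY.rng _ _ _ _ _ hy
    have hx' : (g' + Dp zX A, k') ∈ TX (A ++ (P ++ R)) 0 0 := by
      rw [tX.app, tX.app]
      refine Or.inr (Or.inl ?_)
      rw [eX, add_sub_cancel_right]
      exact hx
    have hy' : (g' + Dp zX A, k') ∈ TY (A' ++ (P' ++ R')) w 0 := by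
      rw [tY.app, tY.app]
      refine Or.inr (Or.inl ?_)
      rw [eY, add_sub_cancel_right]
      exact hy
    obtain ⟨n1, n2⟩ := hall _ _ ⟨hx', hy'⟩
    omega

variable (TX TY zX zY hX hY)

lemma ov_tendsto {B : Type*} (Λ : B → ℝ≥0∞) (ht : B → ℕ) (hΛ : ∑' b, Λ b = 1)
    (hm : ∑' b, Λ b * (ht b : ℝ≥0∞) ≠ ⊤) :
    Tendsto (fun i => ∑' k, tail Λ ht (i + k)) atTop (𝓝 0) := by
  rw [sum_tail Λ ht hΛ] at hm
  have := ENNReal.tendsto_sum_nat_add (fun k => tail Λ ht k) hm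
  refine this.congr fun i => ?_
  refine tsum_congr fun k => ?_
  rw [add_comm]

open Classical in
/-- **KAPPA'**, abstract assembly -/
theorem kap (h1X : ∀ b, 1 ≤ hX b) (hΛX : ∑' b, ΛX b = 1) (hUX : ∀ n, U ΛX hX n ≤ 1)
    (hmX : ∑' b, ΛX b * (hX b : ℝ≥0∞) ≠ ⊤)
    (h1Y : ∀ b, 1 ≤ hY b) (hΛY : ∑' b, ΛY b = 1) (hUY : ∀ n, U ΛY hY n ≤ 1)
    (hmY : ∑' b, ΛY b * (hY b : ℝ≥0∞) ≠ ⊤)
    (tX : Tr zX hX TX) (tY : Tr zY hY TY)
    (C : ℝ≥0∞) (hC : C ≠ ⊤) (us : ℕ → ℝ≥0∞) (hus : Tendsto us atTop (𝓝 0))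
    (h2 : H2 ΛX ΛY hX hY zX TX TY C us) (h3 : H3 ΛX ΛY hX hY zY TX TY C us)
    (h5 : H5 ΛX ΛY hX hY TX TY) :
    ∀ ε : ℝ≥0∞, ε ≠ 0 → ∃ M0 : ℕ, ∀ m, M0 ≤ m → ∀ n, 4 * m ≤ n → ∀ w,
      ∑' LX : List BX, ∑' LY : List BY, (if HT hX LX = n ∧ HT hY LY = n ∧
        (∃ g k, (m < k ∧ k ≤ 2 * m) ∧ Ct TX TY LX LY w 0 0 g k)
        then LW ΛX LX * LW ΛY LY else 0) ≤ ε := by
  intro ε hε
  have hε2 : ε / 2 ≠ 0 := (ENNReal.div_pos hε (by norm_num)).ne'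
  have hε4 : ε / 4 ≠ 0 := (ENNReal.div_pos hε (by norm_num)).ne'
  obtain ⟨u, K, hu, hu1, hK, hsel⟩ := Sel300.sel 2 24 24 (by norm_num) hε2
  set J := K / 24 with hJ
  have hJK : 24 * J ≤ K := Nat.mul_div_le K 24
  set oX : ℕ → ℝ≥0∞ := fun i => ∑' k, tail ΛX hX (i + k) with hoX
  set oY : ℕ → ℝ≥0∞ := fun i => ∑' k, tail ΛY hY (i + k) with hoY
  have hto : Tendsto (fun i => oX i + oY i) atTop (𝓝 0) := by
    have := (ov_tendsto ΛX hX hΛX hmX).add (ov_tendsto ΛY hY hΛY hmY)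
    simpa using this
  have hKt : (K : ℝ≥0∞) ≠ ⊤ := ENNReal.natCast_ne_top K
  have hut : u ≠ ⊤ := ne_top_of_le_ne_top ENNReal.one_ne_top hu1
  have hc1 : (K : ℝ≥0∞) * (2 + J) ≠ ⊤ := by finiteness
  have hc2 : 2 * (K : ℝ≥0∞) * C ≠ ⊤ := by finiteness
  have h3u : (3 : ℝ≥0∞) / u ≠ ⊤ := ENNReal.div_ne_top (by norm_num) hu
  have hc3 : 2 * (K : ℝ≥0∞) * C * (3 / u + 1) ≠ ⊤ := by finiteness
  obtain ⟨i0, lam, s, t0, hl0, hlt, hs2⟩ := Sel300.sel2 hc1 hc2 hc3 (fun _ _ => 0)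
    (fun _ _ => by simp) (fun i => oX i + oY i) (fun _ => 0) (fun _ => us) hto
    tendsto_const_nhds (fun _ => hus) 5 hε4
  have hs2 := hs2 t0 le_rfl
  simp only [mul_zero, add_zero] at hs2
  -- the slab
  obtain ⟨η, hη, hηK⟩ : ∃ η : ℝ≥0∞, η ≠ 0 ∧ (K : ℝ≥0∞) * (2 * η) ≤ ε / 4 := by
    have hK0 : (2 * (K : ℝ≥0∞)) ≠ 0 := by
      have : (K : ℝ≥0∞) ≠ 0 := by exact_mod_cast (by omega : K ≠ 0)
      simp [this]
    have hKt2 : (2 * (K : ℝ≥0∞)) ≠ ⊤ := by finiteness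
    refine ⟨ε / 4 / (2 * K), ENNReal.div_ne_zero.2 ⟨hε4, hKt2⟩, ?_⟩
    calc (K : ℝ≥0∞) * (2 * (ε / 4 / (2 * K))) = (2 * K) * (ε / 4 / (2 * K)) := by ring
      _ ≤ ε / 4 := ENNReal.mul_div_le
  obtain ⟨T1, hT1⟩ := h5 (3 * i0 + s + 1) η hη
  refine ⟨K * (3 * i0 + s + T1 + 24), fun m hm n hn w => ?_⟩
  -- the width
  set r := m / K with hr
  set t := r + 1 with ht
  have hK0 : 0 < K := by omega
  have hrN : 3 * i0 + s + T1 + 24 ≤ r := by
    rw [hr, Nat.le_div_iff_mul_le hK0, mul_comm]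
    exact hm
  have hKr : K * r ≤ m := Nat.mul_div_le m K
  have hKt' : m < K * t := by
    rw [ht, hr]; exact Nat.lt_mul_div_succ m hK0
  have hKr' : K * t = K * r + K := by rw [ht]; ring
  have h24r : 24 * r ≤ K * r := Nat.mul_le_mul_right r hK
  have hKK : K * 24 ≤ K * r := Nat.mul_le_mul_left K (by omega)
  have hJr : 24 * (J * r) ≤ K * r := by
    calc 24 * (J * r) = (24 * J) * r := by ring
      _ ≤ K * r := Nat.mul_le_mul_right r hJK
  have hJ1 : J ≤ J * r := Nat.le_mul_of_pos_right J (by omega)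
  have hJt : J * (3 * t + i0) ≤ m - t := by
    have e1 : J * (3 * t + i0) ≤ J * (4 * t) := Nat.mul_le_mul_left J (by omega)
    have e2 : J * (4 * t) = 4 * (J * r) + 4 * J := by rw [ht]; ring
    omega
  set R1 : ℝ≥0∞ := C * (lam + (3 * ((i0 + 1 : ℕ) : ℝ≥0∞) / u) * us s / lam + us s) with hR1
  set Win : ℝ≥0∞ := 2 * oX i0 + 2 * oY i0
        + (u ^ 2 + (((1 - u) ^ J + J * oX i0) + ((i0 + 1 : ℕ) : ℝ≥0∞) ^ 4 * R1)
          + (((1 - u) ^ J + J * oY i0) + ((i0 + 1 : ℕ) : ℝ≥0∞) ^ 4 * R1)) with hWin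
  -- the window events
  set a0 : ℕ → ℕ := fun j => m + j * t - t with ha0
  have hwin : ∀ j, j < K → ∑' LX : List BX, ∑' LY : List BY,
      (if HT hX LX = n ∧ HT hY LY = n ∧ EvW TX TY w t i0 s (a0 j) LX LY then LW ΛX LX * LW ΛY LY else 0) ≤ Win := by
    intro j hj
    have hjt : j * t + t ≤ K * t := by
      calc j * t + t = (j + 1) * t := by ring
        _ ≤ K * t := Nat.mul_le_mul_right t hj
    have ha0m : m - t ≤ a0 j := by
      simp only [ha0]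
      have : 0 ≤ j * t := Nat.zero_le _
      omega
    refine window ΛX ΛY hX hY zX zY h1X hΛX.le hUX h1Y hΛY.le hUY hu hu1 (a0 j) (3 * t)
      (a0 j + 2 * i0) (3 * t) i0 J n ?_ ?_ (hJt.trans ha0m) ((hJt.trans ha0m).trans (by omega))
      (EvW TX TY w t i0 s (a0 j)) (fun a a' P P' δ => (∃ g k, Ct TX TY P P' δ a a' g k) ∧
        (∀ g k, Ct TX TY P P' δ a a' g k → a0 j + 3 * i0 + s ≤ k ∧ k ≤ a0 j + 3 * t - s)) w
      ?_ R1 ?_ ?_
    · simp only [ha0]; omega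
    · simp only [ha0]; omega
    · intro A P R A' P' R' hS hS' _ _ hE
      exact cutQ tX tY (by omega) hS hS' hE
    · intro a a' h h' b1 b2 b3 b4 b5 b6 b7 b8 E μ M hM hμ hμM
      have hh := h2 s h h' a a' (a0 j + 3 * i0 + s) (a0 j + 3 * t - s) E μ M lam hμ hμM hl0 hlt
        (by omega) (by omega) (by omega) (by omega) (by omega) (by omega)
      refine le_trans (le_of_eq ?_) (hh.trans ?_)
      · refine tsum_congr fun δ => ?_
        congr 1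
        refine tsum_congr fun P => tsum_congr fun P' => ?_
        exact ite_cg _ _ _ _
      · rw [hR1]
        gcongr
    · intro a a' h h' b1 b2 b3 b4 b5 b6 b7 b8 E μ M hM hμ hμM
      have hh := h3 s h h' a a' (a0 j + 3 * i0 + s) (a0 j + 3 * t - s) E μ M lam hμ hμM hl0 hlt
        (by omega) (by omega) (by omega) (by omega) (by omega) (by omega)
      refine le_trans (le_of_eq ?_) (hh.trans ?_)
      · refine tsum_congr fun δ => ?_
        congr 1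
        refine tsum_congr fun P => tsum_congr fun P' => ?_
        exact ite_cg _ _ _ _
      · rw [hR1]
        gcongr
  -- the union
  have hpt : ∀ LX LY, (if HT hX LX = n ∧ HT hY LY = n ∧
        (∃ g k, (m < k ∧ k ≤ 2 * m) ∧ Ct TX TY LX LY w 0 0 g k)
        then LW ΛX LX * LW ΛY LY else 0)
      ≤ ∑ j ∈ Finset.range K,
        ((if HT hX LX = n ∧ HT hY LY = n ∧ EvW TX TY w t i0 s (a0 j) LX LY then LW ΛX LX * LW ΛY LY else 0)
        + ((if HT hX LX = n ∧ HT hY LY = n ∧ (∃ g k, (a0 j ≤ k ∧ k < a0 j + (3 * i0 + s + 1)) ∧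
            Ct TX TY LX LY w 0 0 g k) then LW ΛX LX * LW ΛY LY else 0)
        + (if HT hX LX = n ∧ HT hY LY = n ∧ (∃ g k, (a0 j + 3 * t - s ≤ k ∧
            k < a0 j + 3 * t - s + (3 * i0 + s + 1)) ∧
            Ct TX TY LX LY w 0 0 g k) then LW ΛX LX * LW ΛY LY else 0))) := by
    intro LX LY
    by_cases h : HT hX LX = n ∧ HT hY LY = n ∧
        (∃ g k, (m < k ∧ k ≤ 2 * m) ∧ Ct TX TY LX LY w 0 0 g k)
    · obtain ⟨e1, e2, g, k, ⟨hk1, hk2⟩, hc⟩ := h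
      set j := (k - m - 1) / t with hjd
      have htp : 0 < t := by omega
      have hj1 : j * t ≤ k - m - 1 := Nat.div_mul_le_self _ _
      have hj2 : k - m - 1 < j * t + t := by
        have := Nat.lt_mul_div_succ (k - m - 1) htp
        calc k - m - 1 < t * (j + 1) := this
          _ = j * t + t := by ring
      have hjK : j < K := by
        rw [hjd, Nat.div_lt_iff_lt_mul htp]
        omega
      refine le_trans ?_ (Finset.single_le_sum (f := fun j =>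
        ((if HT hX LX = n ∧ HT hY LY = n ∧ EvW TX TY w t i0 s (a0 j) LX LY then LW ΛX LX * LW ΛY LY else 0)
        + ((if HT hX LX = n ∧ HT hY LY = n ∧ (∃ g k, (a0 j ≤ k ∧ k < a0 j + (3 * i0 + s + 1)) ∧
            Ct TX TY LX LY w 0 0 g k) then LW ΛX LX * LW ΛY LY else 0)
        + (if HT hX LX = n ∧ HT hY LY = n ∧ (∃ g k, (a0 j + 3 * t - s ≤ k ∧
            k < a0 j + 3 * t - s + (3 * i0 + s + 1)) ∧
            Ct TX TY LX LY w 0 0 g k) then LW ΛX LX * LW ΛY LY else 0))))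
        (fun _ _ => zero_le) (Finset.mem_range.2 hjK))
      rw [if_pos ⟨e1, e2, g, k, ⟨hk1, hk2⟩, hc⟩]
      by_cases hs1 : ∃ g k, (a0 j ≤ k ∧ k < a0 j + (3 * i0 + s + 1)) ∧ Ct TX TY LX LY w 0 0 g k
      · have hh : HT hX LX = n ∧ HT hY LY = n ∧
          (∃ g k, (a0 j ≤ k ∧ k < a0 j + (3 * i0 + s + 1)) ∧ Ct TX TY LX LY w 0 0 g k) :=
          ⟨e1, e2, hs1⟩
        rw [if_pos hh]
        exact le_trans le_self_add le_add_self
      · by_cases hs2' : ∃ g k, (a0 j + 3 * t - s ≤ k ∧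
            k < a0 j + 3 * t - s + (3 * i0 + s + 1)) ∧ Ct TX TY LX LY w 0 0 g k
        · have hh : HT hX LX = n ∧ HT hY LY = n ∧ (∃ g k, (a0 j + 3 * t - s ≤ k ∧
            k < a0 j + 3 * t - s + (3 * i0 + s + 1)) ∧ Ct TX TY LX LY w 0 0 g k) :=
            ⟨e1, e2, hs2'⟩
          rw [if_pos hh]
          exact le_trans le_add_self le_add_self
        · have hh : HT hX LX = n ∧ HT hY LY = n ∧ EvW TX TY w t i0 s (a0 j) LX LY := by
            refine ⟨e1, e2, ⟨g, k, ⟨?_, ?_⟩, hc⟩, fun g' k' hc' => ⟨?_, ?_⟩⟩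
            · simp only [ha0]; omega
            · simp only [ha0]; omega
            · intro hb; exact hs1 ⟨g', k', hb, hc'⟩
            · intro hb; exact hs2' ⟨g', k', hb, hc'⟩
          rw [if_pos hh]
          exact le_self_add
    · rw [if_neg h]; exact zero_le
  refine (ENNReal.tsum_le_tsum fun LX => ENNReal.tsum_le_tsum fun LY => hpt LX LY).trans ?_
  have hsw : (∑' LX : List BX, ∑' LY : List BY, ∑ j ∈ Finset.range K,
        ((if HT hX LX = n ∧ HT hY LY = n ∧ EvW TX TY w t i0 s (a0 j) LX LY then LW ΛX LX * LW ΛY LY else 0)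
        + ((if HT hX LX = n ∧ HT hY LY = n ∧ (∃ g k, (a0 j ≤ k ∧ k < a0 j + (3 * i0 + s + 1)) ∧
            Ct TX TY LX LY w 0 0 g k) then LW ΛX LX * LW ΛY LY else 0)
        + (if HT hX LX = n ∧ HT hY LY = n ∧ (∃ g k, (a0 j + 3 * t - s ≤ k ∧
            k < a0 j + 3 * t - s + (3 * i0 + s + 1)) ∧
            Ct TX TY LX LY w 0 0 g k) then LW ΛX LX * LW ΛY LY else 0))))
      ≤ ∑ j ∈ Finset.range K, (Win + (η + η)) := by
    simp_rw [Summable.tsum_finsetSum (fun _ _ => ENNReal.summable)]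
    refine Finset.sum_le_sum fun j hj => ?_
    have hjK := Finset.mem_range.1 hj
    simp only [ENNReal.tsum_add]
    have hTm : T1 ≤ a0 j := by
      simp only [ha0]
      have : 0 ≤ j * t := Nat.zero_le _
      omega
    refine add_le_add (hwin j hjK) (add_le_add ?_ ?_)
    · exact hT1 (a0 j) hTm n w
    · exact hT1 (a0 j + 3 * t - s) (by omega) n w
  refine hsw.trans ?_
  rw [Finset.sum_const, Finset.card_range, nsmul_eq_mul]
  -- the constants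
  set x : ℝ≥0∞ := (i0 : ℝ≥0∞) + 1 with hx
  have hxc : ((i0 + 1 : ℕ) : ℝ≥0∞) = x := by push_cast; rfl
  have hx1 : (1 : ℝ≥0∞) ≤ x := le_add_self
  have hx45 : x ^ 4 ≤ x ^ 5 := pow_le_pow_right₀ hx1 (by norm_num)
  have hRb : 2 * (K : ℝ≥0∞) * (x ^ 4 * R1) ≤ 2 * (K : ℝ≥0∞) * C * x ^ 5 * lam
      + 2 * (K : ℝ≥0∞) * C * (3 / u + 1) * x ^ 5 * (us s / lam + us s) := by
    rw [hR1, hxc]
    calc 2 * (K : ℝ≥0∞) * (x ^ 4 * (C * (lam + 3 * x / u * us s / lam + us s)))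
        = 2 * (K : ℝ≥0∞) * C * x ^ 4 * lam + (2 * (K : ℝ≥0∞) * C * (3 / u) * x ^ 5 * (us s / lam)
          + 2 * (K : ℝ≥0∞) * C * x ^ 4 * us s) := by
          simp only [div_eq_mul_inv]; ring
      _ ≤ 2 * (K : ℝ≥0∞) * C * x ^ 5 * lam + (2 * (K : ℝ≥0∞) * C * (3 / u + 1) * x ^ 5 * (us s / lam)
          + 2 * (K : ℝ≥0∞) * C * (3 / u + 1) * x ^ 5 * us s) := by
          gcongr ?_ * lam + (?_ * (us s / lam) + ?_ * us s)
          · gcongr
          · gcongr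
            exact le_self_add
          · calc 2 * (K : ℝ≥0∞) * C * x ^ 4 = 2 * (K : ℝ≥0∞) * C * 1 * x ^ 4 := by ring
              _ ≤ 2 * (K : ℝ≥0∞) * C * (3 / u + 1) * x ^ 5 := by
                gcongr
                exact le_add_self
      _ = _ := by ring
  calc (K : ℝ≥0∞) * (Win + (η + η))
      = ((K : ℝ≥0∞) * (u ^ 2 + 2 * (1 - u) ^ J)) + (((K : ℝ≥0∞) * (2 + J) * (oX i0 + oY i0)
        + 2 * (K : ℝ≥0∞) * (x ^ 4 * R1)) + (K : ℝ≥0∞) * (2 * η)) := by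
        rw [hWin, hxc]; ring
    _ ≤ (2 * (K : ℝ≥0∞) * (u ^ 2 + (1 - u) ^ J)) + (((K : ℝ≥0∞) * (2 + J) * (oX i0 + oY i0)
        + (2 * (K : ℝ≥0∞) * C * x ^ 5 * lam
      + 2 * (K : ℝ≥0∞) * C * (3 / u + 1) * x ^ 5 * (us s / lam + us s))) + ε / 4) := by
        refine add_le_add ?_ (add_le_add (add_le_add le_rfl hRb) hηK)
        calc (K : ℝ≥0∞) * (u ^ 2 + 2 * (1 - u) ^ J)
            ≤ (K : ℝ≥0∞) * (2 * u ^ 2 + 2 * (1 - u) ^ J) := by
              gcongr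
              calc u ^ 2 = 1 * u ^ 2 := (one_mul _).symm
                _ ≤ 2 * u ^ 2 := mul_le_mul_left (by norm_num) _
          _ = 2 * (K : ℝ≥0∞) * (u ^ 2 + (1 - u) ^ J) := by ring
    _ ≤ ε / 2 + (ε / 4 + ε / 4) := by
        refine add_le_add ?_ (add_le_add ?_ le_rfl)
        · refine le_trans (le_of_eq ?_) hsel
          push_cast
          rfl
        · refine le_trans (le_of_eq ?_) hs2
          ring
    _ = ε := by
        have e4 : ε / 4 + ε / 4 = ε / 2 := by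
          rw [← two_mul, ← mul_div_assoc, show (4 : ℝ≥0∞) = 2 * 2 by norm_num,
            ENNReal.mul_div_mul_left _ _ (by norm_num) (by norm_num)]
        rw [e4, ENNReal.add_halves]

end main

end Crest.Agent.R154.Asm703
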