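import Crest.Agent.R154.AsmS_801

/-! Row 154, ROAD 801 (helper801): one window for lists. -/

set_option autoImplicit false

namespace Crest.Agent.R154.Asm801

open scoped ENNReal
open Crest.Agent.R154.B5A
open Crest.Agent.R154.FP178 (fp)
open Crest.Agent.R154.Bind12 (TT Dp)

variable {BX BY G : Type*} [AddCommGroup G]
variable (ΛX : BX → ℝ≥0∞) (sX : BX → Set (G × ℕ)) (zX : BX → G) (hX : BX → ℕ)
  (ΛY : BY → ℝ≥0∞) (sY : BY → Set (G × ℕ)) (zY : BY → G) (hY : BY → ℕ)

/-- common site at depth `k` -/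
def Cs (w : G) (LX : List BX) (LY : List BY) (k : ℕ) : Prop :=
  ∃ y, (y, k) ∈ TT sX zX hX LX 0 0 ∧ (y, k) ∈ TT sY zY hY LY w 0

/-- slab contact -/
def Sc (w : G) (LX : List BX) (LY : List BY) (T s W N : ℕ) : Prop :=
  ∃ k, N * T - s ≤ k ∧ k < N * T - s + W ∧ Cs sX zX hX sY zY hY w LX LY k

/-- window event -/
def WE (w : G) (LX : List BX) (LY : List BY) (T i0 s W N : ℕ) : Prop :=
  (∃ k, N * (T + i0) + s ≤ k ∧ k ≤ (N + 1) * T - s ∧ Cs sX zX hX sY zY hY w LX LY k) ∧
    ¬ Sc sX zX hX sY zY hY w LX LY T s W N ∧ ¬ Sc sX zX hX sY zY hY w LX LY T s W (N + 1)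

lemma geo (hsX : ∀ b, ∀ q ∈ sX b, 1 ≤ q.2 ∧ q.2 ≤ hX b)
    (hsY : ∀ b, ∀ q ∈ sY b, 1 ≤ q.2 ∧ q.2 ≤ hY b) {T i0 s W N : ℕ} (hs : 1 ≤ s)
    (hsN : s ≤ N * T) (hW : (N + 1) * i0 + 2 * s ≤ W) (w : G)
    (A P RX : List BX) (A' P' RY : List BY)
    (hA : N * T ≤ HT hX A ∧ HT hX A ≤ N * (T + i0)) (hA' : N * T ≤ HT hY A' ∧ HT hY A' ≤ N * (T + i0))
    (hP : T ≤ HT hX P ∧ HT hX P ≤ T + i0) (hP' : T ≤ HT hY P' ∧ HT hY P' ≤ T + i0)
    (h : WE sX zX hX sY zY hY w (A ++ (P ++ RX)) (A' ++ (P' ++ RY)) T i0 s W N) :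
    ev sX zX hX sY zY hY (HT hX A) (HT hY A') (N * (T + i0) + s) ((N + 1) * T - s)
      (w + Dp zY A' - Dp zX A) P P' := by
  have e1 : N * (T + i0) = N * T + N * i0 := by ring
  have e2 : (N + 1) * T = N * T + T := by ring
  have e3 : (N + 1) * i0 = N * i0 + i0 := by ring
  obtain ⟨⟨k, hk1, hk2, y, hyX, hyY⟩, hn1, hn2⟩ := h
  constructor
  · rw [TT_append, TT_append] at hyX hyY
    refine ⟨y - Dp zX A, k, ?_, ?_⟩
    · rcases hyX with h | h | h
      · have := TT_depth sX zX hX hsX A _ _ _ _ h; omega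
      · have h2 := (TT_shift sX zX hX P 0 (Dp zX A) (HT hX A) (y - Dp zX A) k).1
        rw [sub_add_cancel, zero_add] at h2
        rw [zero_add, zero_add] at h
        exact h2 h
      · have := TT_depth sX zX hX hsX RX _ _ _ _ h; omega
    · rcases hyY with h | h | h
      · have := TT_depth sY zY hY hsY A' _ _ _ _ h; omega
      · have h2 := (TT_shift sY zY hY P' (w + Dp zY A' - Dp zX A) (Dp zX A) (HT hY A')
          (y - Dp zX A) k).1
        rw [sub_add_cancel, sub_add_cancel] at h2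
        rw [zero_add] at h
        exact h2 h
      · have := TT_depth sY zY hY hsY RY _ _ _ _ h; omega
  · intro y k hy hy'
    have d1 := TT_depth sX zX hX hsX P _ _ _ _ hy
    have d2 := TT_depth sY zY hY hsY P' _ _ _ _ hy'
    have hc : Cs sX zX hX sY zY hY w (A ++ (P ++ RX)) (A' ++ (P' ++ RY)) k := by
      refine ⟨y + Dp zX A, ?_, ?_⟩
      · rw [TT_append, TT_append]
        refine Or.inr (Or.inl ?_)
        have h2 := (TT_shift sX zX hX P 0 (Dp zX A) (HT hX A) y k).2 hy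
        simpa using h2
      · rw [TT_append, TT_append]
        refine Or.inr (Or.inl ?_)
        have h2 := (TT_shift sY zY hY P' (w + Dp zY A' - Dp zX A) (Dp zX A) (HT hY A') y k).2 hy'
        rw [sub_add_cancel] at h2
        simpa using h2
    have f1 : ¬ (N * T - s ≤ k ∧ k < N * T - s + W) := fun hh => hn1 ⟨k, hh.1, hh.2, hc⟩
    have f2 : ¬ ((N + 1) * T - s ≤ k ∧ k < (N + 1) * T - s + W) := fun hh =>
      hn2 ⟨k, hh.1, hh.2, hc⟩
    constructor <;> omega

open Classical in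
lemma SL_snoc {A : Type*} (Λ : A → ℝ≥0∞) (N : ℕ) (F : List A → ℝ≥0∞) :
    SL Λ (N + 1) F = SL Λ N (fun VA => ∑' P, Λ P * F (VA ++ [P])) := by
  rw [SL_add]
  refine SL_congr _ _ fun VA _ => ?_
  rw [SL_succ]
  refine tsum_congr fun P => ?_
  rw [SL_zero]

open Classical in
/-- **one window for lists** -/
theorem win_lists (h1X : ∀ b, 1 ≤ hX b) (h1Y : ∀ b, 1 ≤ hY b)
    (hΛX : ∑' b, ΛX b ≤ 1) (hΛY : ∑' b, ΛY b ≤ 1)
    (hU1X : ∀ n, U ΛX hX n ≤ 1) (hU1Y : ∀ n, U ΛY hY n ≤ 1)
    (hsX : ∀ b, ∀ q ∈ sX b, 1 ≤ q.2 ∧ q.2 ≤ hX b)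
    (hsY : ∀ b, ∀ q ∈ sY b, 1 ≤ q.2 ∧ q.2 ≤ hY b) {T i0 s W N : ℕ} (hs : 1 ≤ s)
    (hsN : s ≤ N * T) (hW : (N + 1) * i0 + 2 * s ≤ W) (w : G) (n : ℕ) (hn : (N + 1) * (T + i0) ≤ n) :
    ∑' LX : List BX, ∑' LY : List BY,
      (if HT hX LX = n ∧ HT hY LY = n ∧ WE sX zX hX sY zY hY w LX LY T i0 s W N
        then LW ΛX LX * LW ΛY LY else 0)
      ≤ ((N + 1 : ℕ) : ℝ≥0∞) * ov ΛX hX T i0 + ((N + 1 : ℕ) : ℝ≥0∞) * ov ΛY hY T i0
        + SL (Lp ΛX hX T i0) N (fun VA => SL (Lp ΛY hY T i0) N (fun VB =>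
          D0 ΛX sX zX hX ΛY sY zY hY T i0 (HT hX VA.flatten) (HT hY VB.flatten)
          (N * (T + i0) + s) ((N + 1) * T - s) (w + Dp zY VB.flatten - Dp zX VA.flatten)
          (fun _ _ => 1))) := by
  have mX1 := Lp_mass_le ΛX hX h1X hΛX T i0
  have mY1 := Lp_mass_le ΛY hY h1Y hΛY T i0
  set F2 : List BX → List BY → ℝ≥0∞ := fun LX LY =>
    if WE sX zX hX sY zY hY w LX LY T i0 s W N then 1 else 0 with hF2
  have hF2' : ∀ LX LY, F2 LX LY ≤ 1 := fun _ _ => by simp only [hF2]; split_ifs <;> simp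
  set F1 : List BX → ℝ≥0∞ := fun LX =>
    ∑' LY : List BY, LW ΛY LY * (if HT hY LY = n then F2 LX LY else 0) with hF1
  have hF1' : ∀ LX, F1 LX ≤ 1 := by
    intro LX
    have := rest_le ΛY hY hU1Y n [] (F2 LX) (hF2' LX)
    simpa [hF1] using this
  have s1 : ∑' LX : List BX, ∑' LY : List BY,
      (if HT hX LX = n ∧ HT hY LY = n ∧ WE sX zX hX sY zY hY w LX LY T i0 s W N
        then LW ΛX LX * LW ΛY LY else 0)
      = ∑' LX : List BX, LW ΛX LX * (if HT hX LX = n then F1 LX else 0) := by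
    refine tsum_congr fun LX => ?_
    by_cases hx : HT hX LX = n
    · rw [if_pos hx, hF1, ← ENNReal.tsum_mul_left]
      refine tsum_congr fun LY => ?_
      by_cases hy : HT hY LY = n
      · by_cases hw : WE sX zX hX sY zY hY w LX LY T i0 s W N
        · rw [if_pos ⟨hx, hy, hw⟩, if_pos hy]; simp [hF2, hw]
        · rw [if_neg (fun h => hw h.2.2), if_pos hy]; simp [hF2, hw]
      · rw [if_neg (fun h => hy h.2.1), if_neg hy]; simp
    · rw [if_neg hx, mul_zero]
      simp [hx]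
  have c1 := chain ΛX hX h1X hΛX hU1X T i0 (N + 1) n F1 hF1' hn
  have c2 : ∀ LX, F1 LX ≤ ((N + 1 : ℕ) : ℝ≥0∞) * ov ΛY hY T i0
      + SL (Lp ΛY hY T i0) (N + 1) (fun VV => ∑' R : List BY,
          LW ΛY R * (if HT hY (VV.flatten ++ R) = n then F2 LX (VV.flatten ++ R) else 0)) :=
    fun LX => chain ΛY hY h1Y hΛY hU1Y T i0 (N + 1) n (F2 LX) (hF2' LX) hn
  set e : ℝ≥0∞ := ((N + 1 : ℕ) : ℝ≥0∞) * ov ΛY hY T i0 with he
  set ind : List (List BX) → List BX → List (List BY) → List BY → ℝ≥0∞ := fun VA P VB P' =>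
    if ev sX zX hX sY zY hY (HT hX VA.flatten) (HT hY VB.flatten) (N * (T + i0) + s)
      ((N + 1) * T - s) (w + Dp zY VB.flatten - Dp zX VA.flatten) P P' then 1 else 0 with hind
  rw [s1]
  refine c1.trans ?_
  rw [add_assoc]
  refine add_le_add le_rfl ?_
  rw [SL_snoc]
  calc SL (Lp ΛX hX T i0) N (fun VA => ∑' P, Lp ΛX hX T i0 P *
        ∑' R : List BX, LW ΛX R * (if HT hX ((VA ++ [P]).flatten ++ R) = n
          then F1 ((VA ++ [P]).flatten ++ R) else 0))
      ≤ SL (Lp ΛX hX T i0) N (fun VA => ∑' P, Lp ΛX hX T i0 P *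
          (e + SL (Lp ΛY hY T i0) N (fun VB => ∑' P', Lp ΛY hY T i0 P' * ind VA P VB P'))) := by
        refine SL_mono_supp _ _ fun VA hVA1 hVA2 => ?_
        refine ENNReal.tsum_le_tsum fun P => ?_
        by_cases hP0 : Lp ΛX hX T i0 P = 0
        · rw [hP0]; simp
        refine mul_le_mul_right ?_ _
        have rA := range_flatten ΛX hX T i0 VA hVA2
        rw [hVA1] at rA
        have rP := mem_range_of_Lp ΛX hX T i0 P hP0
        set K0 := e + SL (Lp ΛY hY T i0) N (fun VB => ∑' P', Lp ΛY hY T i0 P' * ind VA P VB P')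
          with hK0
        have hR : ∀ R : List BX, F1 ((VA ++ [P]).flatten ++ R) ≤ K0 := by
          intro R
          refine (c2 _).trans (add_le_add le_rfl ?_)
          rw [SL_snoc]
          refine SL_mono_supp _ _ fun VB hVB1 hVB2 => ?_
          refine ENNReal.tsum_le_tsum fun P' => ?_
          by_cases hP0' : Lp ΛY hY T i0 P' = 0
          · rw [hP0']; simp
          refine mul_le_mul_right ?_ _
          have rB := range_flatten ΛY hY T i0 VB hVB2
          rw [hVB1] at rB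
          have rP' := mem_range_of_Lp ΛY hY T i0 P' hP0'
          by_cases hev : ev sX zX hX sY zY hY (HT hX VA.flatten) (HT hY VB.flatten)
            (N * (T + i0) + s) ((N + 1) * T - s) (w + Dp zY VB.flatten - Dp zX VA.flatten) P P'
          · simp only [hind, if_pos hev]
            exact rest_le ΛY hY hU1Y n _ (fun R' => F2 _ ((VB ++ [P']).flatten ++ R'))
              fun _ => hF2' _ _
          · have : ∀ R' : List BY, F2 ((VA ++ [P]).flatten ++ R) ((VB ++ [P']).flatten ++ R') = 0 := by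
              intro R'
              simp only [hF2]
              rw [if_neg]
              intro hwe
              apply hev
              refine geo sX zX hX sY zY hY hsX hsY hs hsN hW w VA.flatten P R VB.flatten P' R'
                rA rB rP rP' ?_
              simpa [List.flatten_append, List.append_assoc] using hwe
            refine le_trans (le_of_eq (ENNReal.tsum_eq_zero.2 fun R' => ?_)) zero_le
            rw [this R']; simp
        calc ∑' R : List BX, LW ΛX R * (if HT hX ((VA ++ [P]).flatten ++ R) = n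
              then F1 ((VA ++ [P]).flatten ++ R) else 0)
            ≤ ∑' R : List BX, (LW ΛX R * (if HT hX ((VA ++ [P]).flatten ++ R) = n
              then 1 else 0)) * K0 := by
              refine ENNReal.tsum_le_tsum fun R => ?_
              by_cases hh : HT hX ((VA ++ [P]).flatten ++ R) = n
              · rw [if_pos hh, if_pos hh, mul_one]
                exact mul_le_mul_right (hR R) _
              · rw [if_neg hh]; simp
          _ ≤ 1 * K0 := by
              rw [ENNReal.tsum_mul_right]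
              exact mul_le_mul_left (rest_le ΛX hX hU1X n _ (fun _ => 1) fun _ => le_rfl) _
          _ = K0 := one_mul _
    _ ≤ e + SL (Lp ΛX hX T i0) N (fun VA => ∑' P, Lp ΛX hX T i0 P *
          SL (Lp ΛY hY T i0) N (fun VB => ∑' P', Lp ΛY hY T i0 P' * ind VA P VB P')) := by
        simp only [mul_add]
        have : ∀ VA : List (List BX), ∑' P, (Lp ΛX hX T i0 P * e + Lp ΛX hX T i0 P *
            SL (Lp ΛY hY T i0) N (fun VB => ∑' P', Lp ΛY hY T i0 P' * ind VA P VB P'))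
            = (∑' P, Lp ΛX hX T i0 P * e) + ∑' P, Lp ΛX hX T i0 P *
            SL (Lp ΛY hY T i0) N (fun VB => ∑' P', Lp ΛY hY T i0 P' * ind VA P VB P') :=
          fun VA => ENNReal.tsum_add
        simp only [this]
        rw [SL_add_fun]
        refine add_le_add ?_ le_rfl
        refine SL_le_const _ mX1 _ _ fun VA => ?_
        rw [ENNReal.tsum_mul_right]
        calc _ ≤ 1 * e := mul_le_mul_left mX1 _
          _ = e := one_mul _
    _ = _ := by
        congr 1
        refine SL_congr _ _ fun VA _ => ?_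
        have : ∀ P, Lp ΛX hX T i0 P *
            SL (Lp ΛY hY T i0) N (fun VB => ∑' P', Lp ΛY hY T i0 P' * ind VA P VB P')
            = SL (Lp ΛY hY T i0) N (fun VB => Lp ΛX hX T i0 P *
              ∑' P', Lp ΛY hY T i0 P' * ind VA P VB P') := fun P => (SL_const_mul _ _ _ _).symm
        simp only [this]
        rw [← SL_tsum]
        refine SL_congr _ _ fun VB _ => ?_
        simp only [D0, hind]

end Crest.Agent.R154.Asm801
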