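import Crest.Agent.R154.AsmS_877

/-! Row 154 (helper877), ROAD 801: one window, complete. -/

set_option autoImplicit false

namespace Crest.Agent.R154.Asm877

open scoped ENNReal
open Crest.Agent.R154.B5A
open Crest.Agent.R154.FP178

lemma SL_comm {C C' : Type*} (W : C → ℝ≥0∞) (W' : C' → ℝ≥0∞) (r r' : ℕ)
    (F : List C → List C' → ℝ≥0∞) :
    SL W r (fun P => SL W' r' (fun P' => F P P')) = SL W' r' (fun P' => SL W r (fun P => F P P')) := by
  have e : SL W r (fun P => SL W' r' (fun P' => F P P'))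
      = ∑' P', SL W r (fun P => if P'.length = r' then LW W' P' * F P P' else 0) := by
    rw [← SL_tsum]
    rfl
  rw [e]
  conv_rhs => unfold SL
  refine tsum_congr fun P' => ?_
  by_cases hP : P'.length = r'
  · simp only [hP, if_true]
    exact SL_const_mul W r _ _
  · simp only [hP, if_false]
    exact SL_zero_fun W r

lemma Dp_fl {G : Type*} [AddCommGroup G] {B : Type*} (h : B → ℕ) (z : B → G) {T i0 : ℕ}
    (P : List (Att h T i0)) : Dp z (fl h P) = (P.map (fun A => Dp z A.1)).sum := by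
  induction P with
  | nil => rfl
  | cons A P ih => rw [fl_cons, Dp_append, ih, List.map_cons, List.sum_cons]

section

variable {G : Type*} [AddCommGroup G] {BX BY : Type*}
  (ΛX : BX → ℝ≥0∞) (ΛY : BY → ℝ≥0∞) (hX : BX → ℕ) (hY : BY → ℕ)
  (zX : BX → G) (zY : BY → G) (sX : BX → Set (G × ℕ)) (sY : BY → Set (G × ℕ))

open Classical in
/-- window lemma, X local -/
def H2 (C : ℝ≥0∞) (us : ℕ → ℝ≥0∞) : Prop :=
  ∀ (s k k' a a' lo hi : ℕ) (E : Finset G) (μ : G → ℝ≥0∞) (M lam : ℝ≥0∞),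
    ∑' x, μ x ≤ 1 → (∀ x, μ x ≤ M) → lam ≠ 0 → lam ≠ ⊤ → a + s ≤ lo → a' + s ≤ lo →
    hi + s ≤ a + k → hi + s ≤ a' + k' → a ≤ a' → a + k ≤ a' + k' →
    ∑' x, μ x * ∑' L, ∑' L', (if HT hX L = k ∧ Dp zX L ∈ E ∧ HT hY L' = k' ∧
        DC hX hY zX zY sX sY L 0 a L' x a' lo hi then LW ΛX L * LW ΛY L' else 0)
      ≤ C * (lam + M * E.card * us s / lam + us s)

open Classical in
/-- window lemma, Y local -/
def H3 (C : ℝ≥0∞) (us : ℕ → ℝ≥0∞) : Prop :=
  ∀ (s k k' a a' lo hi : ℕ) (E : Finset G) (μ : G → ℝ≥0∞) (M lam : ℝ≥0∞),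
    ∑' x, μ x ≤ 1 → (∀ x, μ x ≤ M) → lam ≠ 0 → lam ≠ ⊤ → a + s ≤ lo → a' + s ≤ lo →
    hi + s ≤ a + k → hi + s ≤ a' + k' → a ≤ a' → a + k ≤ a' + k' →
    ∑' x, μ x * ∑' L, ∑' L', (if HT hX L = k ∧ Dp zY L' ∈ E ∧ HT hY L' = k' ∧
        DC hX hY zX zY sX sY L 0 a L' x a' lo hi then LW ΛX L * LW ΛY L' else 0)
      ≤ C * (lam + M * E.card * us s / lam + us s)

open Classical in
/-- thin slab -/
def H5 : Prop :=
  ∀ s : ℕ, ∀ η : ℝ≥0∞, η ≠ 0 → ∃ T : ℕ, ∀ a, T ≤ a → ∀ n, ∀ w : G,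
    ∑' LX, ∑' LY, (if HT hX LX = n ∧ HT hY LY = n ∧
      (∃ q, q ∈ CS hX hY zX zY sX sY LX 0 0 LY w 0 ∧ a ≤ q.2 ∧ q.2 < a + s)
      then LW ΛX LX * LW ΛY LY else 0) ≤ η

lemma quant (h : BX → ℕ) (z : BX → G) (h1 : ∀ b, 1 ≤ h b) (hΛ : ∑' b, ΛX b = 1) (T : ℕ)
    {u : ℝ≥0∞} (hu : u ≠ 0) (hu1 : u < 1) :
    ∃ th : ℝ≥0∞, th ≠ 0 ∧ (∀ S : ℕ × G → Prop, (∀ x, S x → pr ΛX h z T x < th) →
      ∀ (_ : DecidablePred S), ∑' x, (if S x then pr ΛX h z T x else 0) ≤ u) ∧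
      (∀ S : ℕ × G → Prop, (∀ x, S x → th < pr ΛX h z T x) →
      ∀ (_ : DecidablePred S), ∑' x, (if S x then pr ΛX h z T x else 0) ≤ 1 - u) := by
  classical
  have hp := pr_one ΛX h z h1 hΛ T
  obtain ⟨th, ht0, _, ht2, ht3⟩ := Dens616.quantile (pr ΛX h z T) hp hu hu1
  refine ⟨th, ht0, ?_, ?_⟩
  · intro S hS _
    refine le_trans (ENNReal.tsum_le_tsum fun x => ?_) ht2
    by_cases hx : S x
    · rw [if_pos hx, if_pos (hS x hx)]
    · rw [if_neg hx]; exact zero_le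
  · intro S hS _
    refine ENNReal.le_sub_of_add_le_left (ne_top_of_lt hu1) ?_
    calc u + ∑' x, (if S x then pr ΛX h z T x else 0)
        ≤ (∑' x, if pr ΛX h z T x ≤ th then pr ΛX h z T x else 0) +
          ∑' x, (if S x then pr ΛX h z T x else 0) := add_le_add ht3 le_rfl
      _ = ∑' x, ((if pr ΛX h z T x ≤ th then pr ΛX h z T x else 0) +
          (if S x then pr ΛX h z T x else 0)) := by rw [ENNReal.tsum_add]
      _ ≤ ∑' x, pr ΛX h z T x := by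
          refine ENNReal.tsum_le_tsum fun x => ?_
          by_cases hx : S x
          · rw [if_pos hx, if_neg (not_le.2 (hS x hx)), zero_add]
          · rw [if_neg hx, add_zero]; split_ifs <;> simp
      _ = 1 := hp

open Classical in
lemma locE (h : BX → ℕ) (z : BX → G) (h1 : ∀ b, 1 ≤ h b) (hΛ : ∑' b, ΛX b = 1) (T : ℕ)
    {th : ℝ≥0∞} (hth : th ≠ 0) (k : ℕ) : ∃ E : Finset G,
      (∀ z', z' ∈ E ↔ th ≤ pr ΛX h z T (k, z')) ∧ (E.card : ℝ≥0∞) * th ≤ 1 := by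
  have hp := pr_one ΛX h z h1 hΛ T
  have hk : ∑' z', pr ΛX h z T (k, z') ≤ 1 := by
    rw [← hp]
    exact ENNReal.tsum_comp_le_tsum_of_injective (f := fun z' : G => (k, z'))
      (fun a b hab => (Prod.mk.inj hab).2) _
  have hfin := Dens616.finite_local (fun z' => pr ΛX h z T (k, z'))
    (ne_top_of_le_ne_top ENNReal.one_ne_top hk) hth
  refine ⟨hfin.toFinset, fun z' => by simp, ?_⟩
  refine (Dens616.card_mul_le (fun z' => pr ΛX h z T (k, z')) th hfin.toFinset ?_).trans hk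
  intro x hx
  simpa using hx


open Classical in
/-- small attempts of X -/
lemma smX (T T' i0 r : ℕ) (w : G) (h1 : ∀ b, 1 ≤ hX b) (hΛ : ∑' b, ΛX b = 1)
    (h1Y : ∀ b, 1 ≤ hY b) (hΛY : ∑' b, ΛY b = 1) (th : ℝ≥0∞) (x : G) :
    SL (wA ΛX hX T i0) r (fun P => SL (wA ΛY hY T' i0) r (fun P' =>
      if (∃ A ∈ P, pr ΛX hX zX T (ty hX zX A) ≤ th) ∧ w + Dp zY (fl hY P') - Dp zX (fl hX P) = x
        then 1 else 0)) ≤ r * (((i0 + 1 : ℕ) : ℝ≥0∞) * th) := by
  rw [SL_comm]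
  refine le_trans (SL_mono _ r fun P' _ => ?_) (SL_const_le _ (sum_wA_le ΛY hY h1Y hΛY T' i0) r _)
  have hd := densL (wA ΛX hX T i0) (sum_wA_le ΛX hX h1 hΛ T i0) (fun A => Dp zX A.1)
    (fun A => pr ΛX hX zX T (ty hX zX A) ≤ th) (((i0 + 1 : ℕ) : ℝ≥0∞) * th)
    (fun y => by convert att_dens ΛX hX zX T i0 th y) r (w + Dp zY (fl hY P') - x)
  refine le_trans (SL_mono _ r fun P _ => ?_) hd
  by_cases hc : (∃ A ∈ P, pr ΛX hX zX T (ty hX zX A) ≤ th) ∧
      w + Dp zY (fl hY P') - Dp zX (fl hX P) = x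
  · rw [if_pos hc, if_pos]
    refine ⟨hc.1, ?_⟩
    rw [← Dp_fl, ← hc.2]; abel
  · rw [if_neg hc]; exact zero_le

open Classical in
/-- small attempts of Y -/
lemma smY (T T' i0 r : ℕ) (w : G) (h1 : ∀ b, 1 ≤ hX b) (hΛ : ∑' b, ΛX b = 1)
    (h1Y : ∀ b, 1 ≤ hY b) (hΛY : ∑' b, ΛY b = 1) (th : ℝ≥0∞) (x : G) :
    SL (wA ΛX hX T i0) r (fun P => SL (wA ΛY hY T' i0) r (fun P' =>
      if (∃ A ∈ P', pr ΛY hY zY T' (ty hY zY A) ≤ th) ∧ w + Dp zY (fl hY P') - Dp zX (fl hX P) = x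
        then 1 else 0)) ≤ r * (((i0 + 1 : ℕ) : ℝ≥0∞) * th) := by
  refine le_trans (SL_mono _ r fun P _ => ?_) (SL_const_le _ (sum_wA_le ΛX hX h1 hΛ T i0) r _)
  have hd := densL (wA ΛY hY T' i0) (sum_wA_le ΛY hY h1Y hΛY T' i0) (fun A => Dp zY A.1)
    (fun A => pr ΛY hY zY T' (ty hY zY A) ≤ th) (((i0 + 1 : ℕ) : ℝ≥0∞) * th)
    (fun y => by convert att_dens ΛY hY zY T' i0 th y) r (x - w + Dp zX (fl hX P))
  refine le_trans (SL_mono _ r fun P' _ => ?_) hd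
  by_cases hc : (∃ A ∈ P', pr ΛY hY zY T' (ty hY zY A) ≤ th) ∧
      w + Dp zY (fl hY P') - Dp zX (fl hX P) = x
  · rw [if_pos hc, if_pos]
    refine ⟨hc.1, ?_⟩
    rw [← Dp_fl, ← hc.2]; abel
  · rw [if_neg hc]; exact zero_le

/-- cost of one local window -/
noncomputable def Bd (C : ℝ≥0∞) (us : ℕ → ℝ≥0∞) (N i0 s : ℕ) (lam : ℝ≥0∞) : ℝ≥0∞ :=
  C * (lam + ((N * (i0 + 1) : ℕ) : ℝ≥0∞) * us s / lam + us s)

lemma Mcard (r N i0 : ℕ) (hrN : r < N) (th : ℝ≥0∞) (c : ℕ) (hc : (c : ℝ≥0∞) * th ≤ 1) :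
    (r * (((i0 + 1 : ℕ) : ℝ≥0∞) * th)) * c ≤ ((N * (i0 + 1) : ℕ) : ℝ≥0∞) := by
  calc (r * (((i0 + 1 : ℕ) : ℝ≥0∞) * th)) * c = ((r * (i0 + 1) : ℕ) : ℝ≥0∞) * (c * th) := by
        push_cast; ring
    _ ≤ ((N * (i0 + 1) : ℕ) : ℝ≥0∞) * 1 := by
        refine mul_le_mul' ?_ hc
        exact_mod_cast Nat.mul_le_mul_right _ hrN.le
    _ = _ := mul_one _

open Classical in
/-- **one window** -/
theorem winAll (C : ℝ≥0∞) (us : ℕ → ℝ≥0∞)
    (H2h : H2 ΛX ΛY hX hY zX zY sX sY C us) (H3h : H3 ΛX ΛY hX hY zX zY sX sY C us)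
    (h1 : ∀ b, 1 ≤ hX b) (hΛ : ∑' b, ΛX b = 1) (h1Y : ∀ b, 1 ≤ hY b) (hΛY : ∑' b, ΛY b = 1)
    (T i0 r N s : ℕ) (hrN : r < N) (hsT : s ≤ T) (w : G) (u lam : ℝ≥0∞) (hu : u ≠ 0)
    (hu1 : u < 1) (hlam : lam ≠ 0) (hlam' : lam ≠ ⊤) :
    Tot (wA ΛX hX T i0) (wA ΛY hY (T + i0) i0) r (fun P P' A A' =>
      if Kev hX hY zX zY sX sY w (r * T + 2 * (N * i0) + s) ((r + 1) * T - s) P A P' A'
        then 1 else 0)
      ≤ u * u + (((1 - u) ^ r + ((N * i0 + 1) ^ 4 : ℕ) * Bd C us N i0 s lam) +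
        ((1 - u) ^ r + ((N * i0 + 1) ^ 4 : ℕ) * Bd C us N i0 s lam)) := by
  have hWX := sum_wA_le ΛX hX h1 hΛ T i0
  have hWY := sum_wA_le ΛY hY h1Y hΛY (T + i0) i0
  obtain ⟨thX, hX0, hXu, hXq⟩ := quant ΛX hX zX h1 hΛ T hu hu1
  obtain ⟨thY, hY0, hYu, hYq⟩ := quant ΛY hY zY h1Y hΛY (T + i0) hu hu1
  choose EX hEX hEXc using fun k => locE ΛX hX zX h1 hΛ T hX0 k
  choose EY hEY hEYc using fun k => locE ΛY hY zY h1Y hΛY (T + i0) hY0 k
  set lo := r * T + 2 * (N * i0) + s with hlo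
  set hi := (r + 1) * T - s with hhi
  have hri : r * i0 ≤ N * i0 := Nat.mul_le_mul_right _ hrN.le
  have hTr : (r + 1) * T = r * T + T := by ring
  -- geometry of the levels
  have geo : ∀ a a' k k' : ℕ, r * T ≤ a → a ≤ r * T + r * i0 → r * (T + i0) ≤ a' →
      a' ≤ r * (T + i0) + r * i0 → T ≤ k → k ≤ T + i0 → T + i0 ≤ k' → k' ≤ T + i0 + i0 →
      a + s ≤ lo ∧ a' + s ≤ lo ∧ hi + s ≤ a + k ∧ hi + s ≤ a' + k' ∧ a ≤ a' ∧
        a + k ≤ a' + k' := by
    intro a a' k k' b1 b2 b3 b4 b5 b6 b7 b8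
    have e1 : r * (T + i0) = r * T + r * i0 := by ring
    rw [e1] at b3 b4
    refine ⟨by omega, by omega, by omega, by omega, by omega, by omega⟩
  have wX := win ΛX ΛY hX hY zX zY sX sY T (T + i0) i0 r N hrN w lo hi hWX hWY
    (fun P _ => ∃ A ∈ P, pr ΛX hX zX T (ty hX zX A) ≤ thX)
    (r * (((i0 + 1 : ℕ) : ℝ≥0∞) * thX))
    (fun x => by convert smX ΛX ΛY hX hY zX zY T (T + i0) i0 r w h1 hΛ h1Y hΛY thX x)
    (fun k _ z' _ => z' ∈ EX k) (Bd C us N i0 s lam) (by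
      intro a a' k k' b1 b2 b3 b4 b5 b6 b7 b8 μ hμ1 hμM
      obtain ⟨g1, g2, g3, g4, g5, g6⟩ := geo a a' k k' b1 b2 b3 b4 b5 b6 b7 b8
      have := H2h s k k' a a' lo hi (EX k) μ _ lam hμ1 hμM hlam hlam' g1 g2 g3 g4 g5 g6
      refine le_trans (le_of_eq ?_) (this.trans ?_)
      · refine tsum_congr fun x => ?_
        congr 1
        refine tsum_congr fun L => tsum_congr fun L' => ?_
        split_ifs <;> first | rfl | (exfalso; tauto)
      · unfold Bd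
        refine mul_le_mul_right ?_ _
        refine add_le_add (add_le_add le_rfl ?_) le_rfl
        refine ENNReal.div_le_div_right ?_ _
        exact mul_le_mul_left (Mcard r N i0 hrN thX _ (hEXc k)) _)
  have wY := win ΛX ΛY hX hY zX zY sX sY T (T + i0) i0 r N hrN w lo hi hWX hWY
    (fun _ P' => ∃ A ∈ P', pr ΛY hY zY (T + i0) (ty hY zY A) ≤ thY)
    (r * (((i0 + 1 : ℕ) : ℝ≥0∞) * thY))
    (fun x => by convert smY ΛX ΛY hX hY zX zY T (T + i0) i0 r w h1 hΛ h1Y hΛY thY x)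
    (fun _ k' _ z' => z' ∈ EY k') (Bd C us N i0 s lam) (by
      intro a a' k k' b1 b2 b3 b4 b5 b6 b7 b8 μ hμ1 hμM
      obtain ⟨g1, g2, g3, g4, g5, g6⟩ := geo a a' k k' b1 b2 b3 b4 b5 b6 b7 b8
      have := H3h s k k' a a' lo hi (EY k') μ _ lam hμ1 hμM hlam hlam' g1 g2 g3 g4 g5 g6
      refine le_trans (le_of_eq ?_) (this.trans ?_)
      · refine tsum_congr fun x => ?_
        congr 1
        refine tsum_congr fun L => tsum_congr fun L' => ?_
        split_ifs <;> first | rfl | (exfalso; tauto)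
      · unfold Bd
        refine mul_le_mul_right ?_ _
        refine add_le_add (add_le_add le_rfl ?_) le_rfl
        refine ENNReal.div_le_div_right ?_ _
        exact mul_le_mul_left (Mcard r N i0 hrN thY _ (hEYc k')) _)
  -- non local pieces
  have nX : ∑' A : Att hX T i0, (if pr ΛX hX zX T (ty hX zX A) < thX then wA ΛX hX T i0 A else 0)
      ≤ u := by
    refine le_trans (le_of_eq (tsum_congr fun A => ?_)) ((att_mass ΛX hX zX T i0
      (fun x => pr ΛX hX zX T x < thX)).trans (hXu _ (fun _ hx => hx) _))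
    split_ifs <;> rfl
  have nY : ∑' A : Att hY (T + i0) i0, (if pr ΛY hY zY (T + i0) (ty hY zY A) < thY
      then wA ΛY hY (T + i0) i0 A else 0)
      ≤ u := by
    refine le_trans (le_of_eq (tsum_congr fun A => ?_)) ((att_mass ΛY hY zY (T + i0) i0
      (fun x => pr ΛY hY zY (T + i0) x < thY)).trans (hYu _ (fun _ hx => hx) _))
    split_ifs <;> rfl
  -- no small attempt
  have qX : ∑' A : Att hX T i0, (if pr ΛX hX zX T (ty hX zX A) ≤ thX then 0 else wA ΛX hX T i0 A)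
      ≤ 1 - u := by
    refine le_trans (le_of_eq ?_) ((att_mass ΛX hX zX T i0 (fun x => thX < pr ΛX hX zX T x)).trans
        (hXq _ (fun _ hx => hx) _))
    refine tsum_congr fun A => ?_
    by_cases hc : pr ΛX hX zX T (ty hX zX A) ≤ thX
    · rw [if_pos hc, if_neg (not_lt.2 hc)]
    · rw [if_neg hc, if_pos (not_le.1 hc)]
  have qY : ∑' A : Att hY (T + i0) i0, (if pr ΛY hY zY (T + i0) (ty hY zY A) ≤ thY then 0
      else wA ΛY hY (T + i0) i0 A) ≤ 1 - u := by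
    refine le_trans (le_of_eq ?_) ((att_mass ΛY hY zY (T + i0) i0
      (fun x => thY < pr ΛY hY zY (T + i0) x)).trans (hYq _ (fun _ hx => hx) _))
    refine tsum_congr fun A => ?_
    by_cases hc : pr ΛY hY zY (T + i0) (ty hY zY A) ≤ thY
    · rw [if_pos hc, if_neg (not_lt.2 hc)]
    · rw [if_neg hc, if_pos (not_le.1 hc)]
  have ww : ∑' A : Att hX T i0, ∑' A' : Att hY (T + i0) i0,
      wA ΛX hX T i0 A * wA ΛY hY (T + i0) i0 A' * (1 : ℝ≥0∞) ≤ 1 := by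
    simp only [mul_one]
    calc _ = (∑' A : Att hX T i0, wA ΛX hX T i0 A) *
          ∑' A' : Att hY (T + i0) i0, wA ΛY hY (T + i0) i0 A' := by
          rw [← ENNReal.tsum_mul_right]
          exact tsum_congr fun A => ENNReal.tsum_mul_left
      _ ≤ 1 * 1 := mul_le_mul' hWX hWY
      _ = 1 := mul_one 1
  -- the three pieces
  have tN : Tot (wA ΛX hX T i0) (wA ΛY hY (T + i0) i0) r (fun _ _ A A' =>
      (fun _ _ => (1 : ℝ≥0∞)) (0 : ℕ) (0 : ℕ) * (if pr ΛX hX zX T (ty hX zX A) < thX ∧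
        pr ΛY hY zY (T + i0) (ty hY zY A') < thY then 1 else 0)) ≤ u * u := by
    have e := Tot_prod (wA ΛX hX T i0) (wA ΛY hY (T + i0) i0) r (fun _ _ => (1 : ℝ≥0∞))
      (fun A A' => if pr ΛX hX zX T (ty hX zX A) < thX ∧
        pr ΛY hY zY (T + i0) (ty hY zY A') < thY then 1 else 0)
    refine (le_of_eq e).trans ?_
    calc _ ≤ 1 * ((∑' A : Att hX T i0, (if pr ΛX hX zX T (ty hX zX A) < thX then wA ΛX hX T i0 A
            else 0)) * ∑' A : Att hY (T + i0) i0, (if pr ΛY hY zY (T + i0) (ty hY zY A) < thY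
            then wA ΛY hY (T + i0) i0 A else 0)) := by
          refine mul_le_mul' ?_ (le_of_eq ?_)
          · exact le_trans (SL_mono _ r fun P _ => SL_one_le _ hWY r) (SL_one_le _ hWX r)
          · rw [← ENNReal.tsum_mul_right]
            refine tsum_congr fun A => ?_
            rw [← ENNReal.tsum_mul_left]
            refine tsum_congr fun A' => ?_
            by_cases c1 : pr ΛX hX zX T (ty hX zX A) < thX <;>
            by_cases c2 : pr ΛY hY zY (T + i0) (ty hY zY A') < thY <;> simp [c1, c2]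
      _ ≤ 1 * (u * u) := mul_le_mul_right (mul_le_mul' nX nY) _
      _ = _ := one_mul _
  have tX : Tot (wA ΛX hX T i0) (wA ΛY hY (T + i0) i0) r (fun P _ _ _ =>
      (if ∃ A ∈ P, pr ΛX hX zX T (ty hX zX A) ≤ thX then 0 else 1) * (1 : ℝ≥0∞)) ≤ (1 - u) ^ r := by
    have e := Tot_prod (wA ΛX hX T i0) (wA ΛY hY (T + i0) i0) r
      (fun P _ => if ∃ A ∈ P, pr ΛX hX zX T (ty hX zX A) ≤ thX then (0 : ℝ≥0∞) else 1)
      (fun _ _ => 1)
    refine (le_of_eq e).trans ?_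
    calc _ ≤ (1 - u) ^ r * 1 := by
          refine mul_le_mul' ?_ ww
          refine le_trans (SL_mono _ r fun P _ => SL_const_le _ hWY r _) ?_
          refine le_trans (le_of_eq (SL_congr _ r fun P _ => ?_))
            (noS (wA ΛX hX T i0) (fun A => pr ΛX hX zX T (ty hX zX A) ≤ thX) (1 - u)
            (by convert qX) r)
          split_ifs <;> rfl
      _ = _ := mul_one _
  have tY : Tot (wA ΛX hX T i0) (wA ΛY hY (T + i0) i0) r (fun _ P' _ _ =>
      (if ∃ A ∈ P', pr ΛY hY zY (T + i0) (ty hY zY A) ≤ thY then 0 else 1) * (1 : ℝ≥0∞))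
        ≤ (1 - u) ^ r := by
    have e := Tot_prod (wA ΛX hX T i0) (wA ΛY hY (T + i0) i0) r
      (fun _ P' => if ∃ A ∈ P', pr ΛY hY zY (T + i0) (ty hY zY A) ≤ thY then (0 : ℝ≥0∞) else 1)
      (fun _ _ => 1)
    refine (le_of_eq e).trans ?_
    calc _ ≤ (1 - u) ^ r * 1 := by
          refine mul_le_mul' ?_ ww
          refine le_trans (SL_const_le _ hWX r _) ?_
          refine le_trans (le_of_eq (SL_congr _ r fun P _ => ?_))
            (noS (wA ΛY hY (T + i0) i0) (fun A => pr ΛY hY zY (T + i0) (ty hY zY A) ≤ thY)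
            (1 - u) (by convert qY) r)
          split_ifs <;> rfl
      _ = _ := mul_one _
  refine le_trans ?_ (add_le_add tN (add_le_add (add_le_add tX wX) (add_le_add tY wY)))
  rw [← Tot_add, ← Tot_add, ← Tot_add, ← Tot_add]
  refine Tot_mono _ _ r fun P P' A A' _ _ => ?_
  by_cases hK : Kev hX hY zX zY sX sY w lo hi P A P' A'
  · rw [if_pos hK]
    by_cases c1 : pr ΛX hX zX T (ty hX zX A) < thX
    · by_cases c2 : pr ΛY hY zY (T + i0) (ty hY zY A') < thY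
      · rw [if_pos (⟨c1, c2⟩ : pr ΛX hX zX T (ty hX zX A) < thX ∧
          pr ΛY hY zY (T + i0) (ty hY zY A') < thY), one_mul]
        exact le_self_add
      · by_cases c3 : ∃ A ∈ P', pr ΛY hY zY (T + i0) (ty hY zY A) ≤ thY
        · refine le_trans ?_ le_add_self
          refine le_trans ?_ le_add_self
          refine le_trans ?_ le_add_self
          rw [if_pos ⟨c3, (hEY _ _).2 (not_lt.1 c2), hK⟩]
        · refine le_trans ?_ le_add_self
          refine le_trans ?_ le_add_self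
          rw [if_neg c3, mul_one]
          exact le_self_add
    · by_cases c3 : ∃ A ∈ P, pr ΛX hX zX T (ty hX zX A) ≤ thX
      · refine le_trans ?_ le_add_self
        refine le_trans ?_ le_self_add
        refine le_trans ?_ le_add_self
        rw [if_pos ⟨c3, (hEX _ _).2 (not_lt.1 c1), hK⟩]
      · refine le_trans ?_ le_add_self
        refine le_trans ?_ le_self_add
        rw [if_neg c3, mul_one]
        exact le_self_add
  · rw [if_neg hK]; exact zero_le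

end

end Crest.Agent.R154.Asm877
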