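import Crest.Agent.R154.AsmS_913

/-! Row 154, ROAD 801 (helper913): assembly, part 5: **KAPPA' on lists** from the window lemmas (2), (3)
and the thin slab (5). -/

set_option autoImplicit false

namespace Crest.Agent.R154.Asm913

open scoped ENNReal
open Crest.Agent.R154.B5A Crest.Agent.R154.FP178
open Classical Filter Topology

variable {BX BY G : Type*} [AddCommGroup G]
variable (ΛX : BX → ℝ≥0∞) (hX : BX → ℕ) (zX : BX → G) (sX : BX → Set (G × ℕ))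
variable (ΛY : BY → ℝ≥0∞) (hY : BY → ℕ) (zY : BY → G) (sY : BY → Set (G × ℕ))

/-- one window with slabs -/
theorem win3 {C : ℝ≥0∞} {us : ℕ → ℝ≥0∞} (H2 : H2L ΛX hX zX sX ΛY hY zY sY C us)
    (H3 : H3L ΛX hX zX sX ΛY hY zY sY C us)
    (hX1 : ∀ b, 1 ≤ hX b) (hΛX : ∑' b, ΛX b = 1) (hY1 : ∀ b, 1 ≤ hY b) (hΛY : ∑' b, ΛY b = 1)
    (hsX : ∀ b, ∀ q ∈ sX b, 1 ≤ q.2 ∧ q.2 ≤ hX b)
    (hsY : ∀ b, ∀ q ∈ sY b, 1 ≤ q.2 ∧ q.2 ≤ hY b)
    (i0 : ℕ) (ε1 : ℝ≥0∞)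
    (hovX : ∀ a, ∑' L, (if fp hX a L ∧ a + i0 < HT hX L then LW ΛX L else 0) ≤ ε1)
    (hovY : ∀ a, ∑' L, (if fp hY a L ∧ a + i0 < HT hY L then LW ΛY L else 0) ≤ ε1)
    (A t s J n : ℕ) (hJ : J * (3 * t + 2 * i0) ≤ A) (hs : s ≤ 3 * t) (hi0 : 2 * i0 ≤ t)
    (hn : A + 3 * t + 3 * i0 ≤ n) (w : G)
    (u lam η : ℝ≥0∞) (hu0 : u ≠ 0) (hu1 : u ≤ 1) (hl0 : lam ≠ 0) (hlt : lam ≠ ⊤) (T : ℕ)
    (hT : ∀ a, T ≤ a → ∀ n, ∀ w : G, ∑' LX : List BX, ∑' LY : List BY,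
      (if HT hX LX = n ∧ HT hY LY = n ∧ ∃ y k, a ≤ k ∧ k < a + (s + 2 * i0 + 1) ∧
          (y, k) ∈ TT sX zX hX LX 0 0 ∧ (y, k) ∈ TT sY zY hY LY w 0
        then LW ΛX LX * LW ΛY LY else 0) ≤ η) (hTA : T ≤ A) (hTs : T ≤ A + 3 * t - s) :
    ∑' LX : List BX, ∑' LY : List BY,
      (if HT hX LX = n ∧ HT hY LY = n ∧ ∃ y k, A + t < k ∧ k ≤ A + 2 * t ∧
          (y, k) ∈ TT sX zX hX LX 0 0 ∧ (y, k) ∈ TT sY zY hY LY w 0
        then LW ΛX LX * LW ΛY LY else 0)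
    ≤ η + (η + (4 * ε1 + (((i0 : ℝ≥0∞) + 1) ^ 4 *
        (C * (lam + ((i0 : ℝ≥0∞) + 1) / u * us s / lam + us s)) +
      (((i0 : ℝ≥0∞) + 1) ^ 4 * (C * (lam + ((i0 : ℝ≥0∞) + 1) / u * us s / lam + us s)) +
      (u * u + (((1 - u) ^ J + J * ε1) + ((1 - u) ^ J + J * ε1))))))) := by
  obtain ⟨thX, hthX, -, hX2, hX3⟩ := Dens903.quantile (att ΛX hX zX (3 * t))
    (sum_att ΛX hX zX hX1 hΛX (3 * t)) hu0 hu1
  obtain ⟨thY, hthY, -, hY2, hY3⟩ := Dens903.quantile (att ΛY hY zY (3 * t + i0))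
    (sum_att ΛY hY zY hY1 hΛY (3 * t + i0)) hu0 hu1
  have hw := (win1 ΛX hX zX sX ΛY hY zY sY hX1 hΛX hY1 hΛY hsX hsY i0 ε1 hovX hovY A t
    (A + 2 * i0 + s) (A + 3 * t - s) n w hi0 hn).trans (add_le_add le_rfl
    (win2 ΛX hX zX sX ΛY hY zY sY H2 H3 hX1 hΛX hY1 hΛY i0 ε1 hovX hovY A t s J hJ hs w u thX thY
      lam hu0 hu1 hthX hthY hl0 hlt (by convert hX2) (by convert hX3) (by convert hY2)
      (by convert hY3)))
  refine le_trans ?_ (add_le_add (hT A hTA n w) (add_le_add (hT (A + 3 * t - s) hTs n w) hw))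
  rw [← ENNReal.tsum_add, ← ENNReal.tsum_add]
  refine ENNReal.tsum_le_tsum fun LX => ?_
  rw [← ENNReal.tsum_add, ← ENNReal.tsum_add]
  refine ENNReal.tsum_le_tsum fun LY => ?_
  by_cases c0 : HT hX LX = n ∧ HT hY LY = n ∧ ∃ y k, A + t < k ∧ k ≤ A + 2 * t ∧
          (y, k) ∈ TT sX zX hX LX 0 0 ∧ (y, k) ∈ TT sY zY hY LY w 0
  swap
  · rw [if_neg c0]; exact zero_le
  rw [if_pos c0]
  by_cases c1 : ∃ y k, A ≤ k ∧ k < A + (s + 2 * i0 + 1) ∧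
          (y, k) ∈ TT sX zX hX LX 0 0 ∧ (y, k) ∈ TT sY zY hY LY w 0
  · refine le_trans ?_ le_self_add
    rw [if_pos ⟨c0.1, c0.2.1, c1⟩]
  by_cases c2 : ∃ y k, A + 3 * t - s ≤ k ∧ k < A + 3 * t - s + (s + 2 * i0 + 1) ∧
          (y, k) ∈ TT sX zX hX LX 0 0 ∧ (y, k) ∈ TT sY zY hY LY w 0
  · refine le_trans ?_ le_add_self
    refine le_trans ?_ le_self_add
    rw [if_pos ⟨c0.1, c0.2.1, c2⟩]
  · refine le_trans ?_ le_add_self
    refine le_trans ?_ le_add_self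
    rw [if_pos]
    refine ⟨c0.1, c0.2.1, c0.2.2, fun y k h1 h2 => ⟨fun h3 => ?_, fun h3 => ?_⟩⟩
    · exact c1 ⟨y, k, by omega, by omega, h1, h2⟩
    · exact c2 ⟨y, k, by omega, by omega, h1, h2⟩

lemma ex_small_const (c δ : ℝ≥0∞) (hc : c ≠ ⊤) (hδ : δ ≠ 0) : ∃ x, x ≠ 0 ∧ x ≠ ⊤ ∧ c * x ≤ δ := by
  by_cases h0 : c = 0
  · exact ⟨1, one_ne_zero, ENNReal.one_ne_top, by rw [h0, zero_mul]; exact zero_le⟩
  · refine ⟨min 1 (δ / c), ?_, ?_, ?_⟩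
    · have h1 : δ / c ≠ 0 := by
        rw [Ne, ENNReal.div_eq_zero_iff, not_or]
        exact ⟨hδ, hc⟩
      rcases min_choice 1 (δ / c) with h | h <;> rw [h]
      · exact one_ne_zero
      · exact h1
    · exact ne_top_of_le_ne_top ENNReal.one_ne_top (min_le_left _ _)
    · exact (mul_le_mul_right (min_le_right _ _) c).trans ENNReal.mul_div_le

/-- **KAPPA' on lists** -/
theorem kapS {C : ℝ≥0∞} {us : ℕ → ℝ≥0∞} (H2 : H2L ΛX hX zX sX ΛY hY zY sY C us)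
    (H3 : H3L ΛX hX zX sX ΛY hY zY sY C us) (hC : C ≠ ⊤) (hus : Tendsto us atTop (𝓝 0))
    (hX1 : ∀ b, 1 ≤ hX b) (hΛX : ∑' b, ΛX b = 1) (hY1 : ∀ b, 1 ≤ hY b) (hΛY : ∑' b, ΛY b = 1)
    (hmX : ∑' b, ΛX b * (hX b : ℝ≥0∞) ≠ ⊤) (hmY : ∑' b, ΛY b * (hY b : ℝ≥0∞) ≠ ⊤)
    (hsX : ∀ b, ∀ q ∈ sX b, 1 ≤ q.2 ∧ q.2 ≤ hX b)
    (hsY : ∀ b, ∀ q ∈ sY b, 1 ≤ q.2 ∧ q.2 ≤ hY b)
    (H5 : ∀ (s : ℕ) (η : ℝ≥0∞), η ≠ 0 → ∃ T, ∀ a, T ≤ a → ∀ n, ∀ w : G,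
      ∑' LX : List BX, ∑' LY : List BY,
      (if HT hX LX = n ∧ HT hY LY = n ∧ ∃ y k, a ≤ k ∧ k < a + s ∧
          (y, k) ∈ TT sX zX hX LX 0 0 ∧ (y, k) ∈ TT sY zY hY LY w 0
        then LW ΛX LX * LW ΛY LY else 0) ≤ η) :
    ∀ ε : ℝ≥0∞, ε ≠ 0 → ∃ M : ℕ, ∀ m, M ≤ m → ∃ n0 : ℕ, ∀ n, n0 ≤ n → ∀ w : G,
      ∑' LX : List BX, ∑' LY : List BY,
      (if HT hX LX = n ∧ HT hY LY = n ∧ ∃ y k, m < k ∧ k ≤ 2 * m ∧
          (y, k) ∈ TT sX zX hX LX 0 0 ∧ (y, k) ∈ TT sY zY hY LY w 0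
        then LW ΛX LX * LW ΛY LY else 0) ≤ ε := by
  intro ε hε
  set δ : ℝ≥0∞ := ε / 8 with hδ
  have hδ0 : δ ≠ 0 := by
    rw [hδ, Ne, ENNReal.div_eq_zero_iff, not_or]
    exact ⟨hε, by simp⟩
  -- K, u
  obtain ⟨K, u, hK8, -, -, hu0, hu1, hKu, hKJ⟩ := KU823.exists_Ku 2 8 (by norm_num) δ hδ0 8
  have hut : u ≠ ⊤ := ne_top_of_le_ne_top ENNReal.one_ne_top hu1
  set J := K / 8 with hJdef
  have hKJ' : ((K : ℝ≥0∞) + (2 : ℕ)) * (1 - u) ^ J ≤ δ := by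
    refine le_trans (mul_le_mul_right (pow_le_pow_left' (tsub_le_tsub_left ?_ 1) _) _) hKJ
    exact ENNReal.half_le_self
  -- i0
  have hTX : ∑' k, tail ΛX hX k ≠ ⊤ := by rw [← sum_tail ΛX hX hΛX]; exact hmX
  have hTY : ∑' k, tail ΛY hY k ≠ ⊤ := by rw [← sum_tail ΛY hY hΛY]; exact hmY
  have htX : Tendsto (fun i => ∑' k, tail ΛX hX (i + k)) atTop (𝓝 0) := by
    have := ENNReal.tendsto_sum_nat_add (tail ΛX hX) hTX
    simpa only [add_comm] using this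
  have htY : Tendsto (fun i => ∑' k, tail ΛY hY (i + k)) atTop (𝓝 0) := by
    have := ENNReal.tendsto_sum_nat_add (tail ΛY hY) hTY
    simpa only [add_comm] using this
  have hte : Tendsto (fun i => ∑' k, tail ΛX hX (i + k) + ∑' k, tail ΛY hY (i + k)) atTop
      (𝓝 0) := by simpa using htX.add htY
  have hKt : ((K : ℝ≥0∞) + 2) ≠ ⊤ := by simp
  obtain ⟨i0, -, hi0⟩ := KU823.exists_small _ hte (((K : ℝ≥0∞) + 2) * (4 + 2 * J))
    (ENNReal.mul_ne_top hKt (by simp [ENNReal.mul_eq_top])) δ hδ0 0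
  set ε1 : ℝ≥0∞ := ∑' k, tail ΛX hX (i0 + k) + ∑' k, tail ΛY hY (i0 + k) with hε1
  have hi0' : ((K : ℝ≥0∞) + 2) * (4 + 2 * J) * ε1 ≤ δ := hi0 i0 le_rfl
  have hovX : ∀ a, ∑' L, (if fp hX a L ∧ a + i0 < HT hX L then LW ΛX L else 0) ≤ ε1 := fun a =>
    (overshoot ΛX hX hX1 (U_le_one ΛX hX hX1 hΛX) i0 a).trans le_self_add
  have hovY : ∀ a, ∑' L, (if fp hY a L ∧ a + i0 < HT hY L then LW ΛY L else 0) ≤ ε1 := fun a =>
    (overshoot ΛY hY hY1 (U_le_one ΛY hY hY1 hΛY) i0 a).trans le_add_self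
  -- lam
  set c4 : ℝ≥0∞ := ((K : ℝ≥0∞) + 2) * (2 * (((i0 : ℝ≥0∞) + 1) ^ 4 * C)) with hc4
  have hc4t : c4 ≠ ⊤ := by
    refine ENNReal.mul_ne_top hKt (ENNReal.mul_ne_top (by simp) (ENNReal.mul_ne_top ?_ hC))
    exact ENNReal.pow_ne_top (by simp)
  obtain ⟨lam, hl0, hlt, hlam⟩ := ex_small_const c4 δ hc4t hδ0
  -- s
  set c5 : ℝ≥0∞ := c4 * (((i0 : ℝ≥0∞) + 1) / u / lam + 1) with hc5
  have hc5t : c5 ≠ ⊤ := by
    refine ENNReal.mul_ne_top hc4t (ENNReal.add_ne_top.2 ⟨?_, ENNReal.one_ne_top⟩)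
    exact ENNReal.div_ne_top (ENNReal.div_ne_top (by simp) hu0) hl0
  obtain ⟨s, -, hs⟩ := KU823.exists_small us hus c5 hc5t δ hδ0 0
  have hs' := hs s le_rfl
  -- η
  obtain ⟨η, hη0, -, hη⟩ := ex_small_const (((K : ℝ≥0∞) + 2) * 2) δ
    (ENNReal.mul_ne_top hKt (by simp)) hδ0
  obtain ⟨T, hT⟩ := H5 (s + 2 * i0 + 1) η hη0
  refine ⟨K * (2 * i0 + s + K + T + 1), fun m hm => ⟨5 * m + 3 * i0, fun n hn w => ?_⟩⟩
  set t := m / K with htdef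
  have hKpos : 0 < K := by omega
  have htm : K * t ≤ m := Nat.mul_div_le m K
  have htm2 : m < K * t + K := by
    have := Nat.lt_mul_div_succ m hKpos
    rw [← htdef, mul_add, mul_one] at this
    exact this
  have htbig : 2 * i0 + s + K + T + 1 ≤ t := (Nat.le_div_iff_mul_le hKpos).2 (by rw [mul_comm]; exact hm)
  have htlem : t ≤ m := Nat.div_le_self m K
  set Bq : ℝ≥0∞ := η + (η + (4 * ε1 + (((i0 : ℝ≥0∞) + 1) ^ 4 *
        (C * (lam + ((i0 : ℝ≥0∞) + 1) / u * us s / lam + us s)) +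
      (((i0 : ℝ≥0∞) + 1) ^ 4 * (C * (lam + ((i0 : ℝ≥0∞) + 1) / u * us s / lam + us s)) +
      (u * u + (((1 - u) ^ J + J * ε1) + ((1 - u) ^ J + J * ε1))))))) with hBq
  have hwin : ∀ q ∈ Finset.range (K + 2), ∑' LX : List BX, ∑' LY : List BY,
      (if HT hX LX = n ∧ HT hY LY = n ∧ ∃ y k, (K + q - 1) * t + t < k ∧
          k ≤ (K + q - 1) * t + 2 * t ∧
          (y, k) ∈ TT sX zX hX LX 0 0 ∧ (y, k) ∈ TT sY zY hY LY w 0
        then LW ΛX LX * LW ΛY LY else 0) ≤ Bq := by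
    intro q hq
    have hq' := Finset.mem_range.1 hq
    have hA1 : (K - 1) * t ≤ (K + q - 1) * t := Nat.mul_le_mul_right t (by omega)
    have hA2 : 1 * t ≤ (K - 1) * t := Nat.mul_le_mul_right t (by omega)
    have hA3 : (K + q - 1) * t ≤ (2 * K) * t := Nat.mul_le_mul_right t (by omega)
    have hA4 : (2 * K) * t = 2 * (K * t) := by ring
    have hJ4 : J * (3 * t + 2 * i0) ≤ (K + q - 1) * t := by
      calc J * (3 * t + 2 * i0) ≤ J * (4 * t) := Nat.mul_le_mul_left J (by omega)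
        _ = (4 * J) * t := by ring
        _ ≤ (K + q - 1) * t := Nat.mul_le_mul_right t (by omega)
    exact win3 ΛX hX zX sX ΛY hY zY sY H2 H3 hX1 hΛX hY1 hΛY hsX hsY i0 ε1 hovX hovY
      ((K + q - 1) * t) t s J n hJ4 (by omega) (by omega) (by omega) w u lam η hu0 hu1 hl0 hlt T hT
      (by omega) (by omega)
  have hunion : ∑' LX : List BX, ∑' LY : List BY,
      (if HT hX LX = n ∧ HT hY LY = n ∧ ∃ y k, m < k ∧ k ≤ 2 * m ∧
          (y, k) ∈ TT sX zX hX LX 0 0 ∧ (y, k) ∈ TT sY zY hY LY w 0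
        then LW ΛX LX * LW ΛY LY else 0)
      ≤ ∑ q ∈ Finset.range (K + 2), ∑' LX : List BX, ∑' LY : List BY,
      (if HT hX LX = n ∧ HT hY LY = n ∧ ∃ y k, (K + q - 1) * t + t < k ∧
          k ≤ (K + q - 1) * t + 2 * t ∧
          (y, k) ∈ TT sX zX hX LX 0 0 ∧ (y, k) ∈ TT sY zY hY LY w 0
        then LW ΛX LX * LW ΛY LY else 0) := by
    rw [← Summable.tsum_finsetSum (fun _ _ => ENNReal.summable)]
    refine ENNReal.tsum_le_tsum fun LX => ?_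
    rw [← Summable.tsum_finsetSum (fun _ _ => ENNReal.summable)]
    refine ENNReal.tsum_le_tsum fun LY => ?_
    split_ifs with hc
    · obtain ⟨e1, e2, y, k, hk1, hk2, hy1, hy2⟩ := hc
      have htpos : 0 < t := by omega
      have hr1 : (k - 1) / t * t ≤ k - 1 := Nat.div_mul_le_self _ _
      have hr2 : k - 1 < ((k - 1) / t + 1) * t := by
        have := Nat.lt_mul_div_succ (k - 1) htpos
        rw [mul_comm]; exact this
      have hrK : K ≤ (k - 1) / t := (Nat.le_div_iff_mul_le htpos).2 (by omega)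
      have hrK2 : (k - 1) / t < 2 * K + 2 := by
        rw [Nat.div_lt_iff_lt_mul htpos]
        have : (2 * K + 2) * t = 2 * (K * t) + 2 * t := by ring
        omega
      set r := (k - 1) / t with hr
      refine le_trans ?_ (Finset.single_le_sum (fun _ _ => zero_le)
        (show r - K ∈ Finset.range (K + 2) from Finset.mem_range.2 (by omega)))
      have hrr : (K + (r - K) - 1) * t + t = r * t := by
        have h9 : K + (r - K) - 1 + 1 = r := by omega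
        calc (K + (r - K) - 1) * t + t = (K + (r - K) - 1 + 1) * t := by ring
          _ = r * t := by rw [h9]
      have hr2' : (r + 1) * t = r * t + t := by ring
      rw [if_pos ⟨e1, e2, y, k, by omega, by omega, hy1, hy2⟩]
    · exact zero_le
  refine hunion.trans ((Finset.sum_le_card_nsmul _ _ Bq hwin).trans ?_)
  rw [Finset.card_range, nsmul_eq_mul]
  have hX0 : ((i0 : ℝ≥0∞) + 1) / u * us s / lam + us s = (((i0 : ℝ≥0∞) + 1) / u / lam + 1) * us s := by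
    simp only [div_eq_mul_inv]; ring
  calc ((K + 2 : ℕ) : ℝ≥0∞) * Bq
      = (((K : ℝ≥0∞) + 2) * 2) * η + (((K : ℝ≥0∞) + 2) * (4 + 2 * J) * ε1 +
        (c4 * lam + (c5 * us s + (((K : ℝ≥0∞) + (2 : ℕ)) * u ^ 2 +
        (((K : ℝ≥0∞) + (2 : ℕ)) * (1 - u) ^ J + ((K : ℝ≥0∞) + (2 : ℕ)) * (1 - u) ^ J))))) := by
        rw [hBq, add_assoc lam, hX0, hc5, hc4]
        push_cast
        ring
    _ ≤ δ + (δ + (δ + (δ + (δ + (δ + δ))))) :=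
        add_le_add hη (add_le_add hi0' (add_le_add hlam (add_le_add hs' (add_le_add hKu
          (add_le_add hKJ' hKJ')))))
    _ ≤ 8 * δ := by
        have : δ + (δ + (δ + (δ + (δ + (δ + δ))))) = 7 * δ := by ring
        rw [this]
        gcongr
        norm_num
    _ = ε := by rw [hδ]; exact ENNReal.mul_div_cancel (by simp) (by simp)

end Crest.Agent.R154.Asm913
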