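import Crest.Agent.R154.AsmS_950

/-! Row 154 (helper950), ROAD 801: traces, cuts, one window. -/

set_option autoImplicit false

namespace Crest.Agent.R154.Asm950

open scoped ENNReal
open Crest.Agent.R154.B5A
open Crest.Agent.R154.FP178

section Trace

variable {B G : Type*} [AddCommGroup G] (s : B → Set (G × ℕ)) (ht : B → ℕ) (zz : B → G)

/-- trace of a list of blocks -/
def TT : List B → G → ℕ → Set (G × ℕ)
  | [], _, _ => ∅
  | b :: L, x, a => {p | ∃ q ∈ s b, p = (x + q.1, a + q.2)} ∪ TT L (x + zz b) (a + ht b)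

lemma TT_append (L L' : List B) (x : G) (a : ℕ) :
    TT s ht zz (L ++ L') x a = TT s ht zz L x a ∪ TT s ht zz L' (x + Dp zz L) (a + HT ht L) := by
  induction L generalizing x a with
  | nil => simp [TT, Dp, HT_nil]
  | cons b L ih =>
    rw [List.cons_append, TT, TT, ih, Set.union_assoc]
    congr 2
    rw [HT_cons]
    simp only [Dp, List.map_cons, List.sum_cons]
    rw [← add_assoc, ← add_assoc]

lemma TT_shift (L : List B) (x y : G) (a : ℕ) (z : G) (k : ℕ) :
    (z, k) ∈ TT s ht zz L (x + y) a ↔ (z - y, k) ∈ TT s ht zz L x a := by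
  induction L generalizing x a with
  | nil => simp [TT]
  | cons b L ih =>
    rw [TT, TT, Set.mem_union, Set.mem_union]
    have h1 : x + y + zz b = (x + zz b) + y := by abel
    rw [h1, ih]
    refine or_congr ?_ Iff.rfl
    simp only [Set.mem_ofPred_eq, Prod.mk.injEq]
    constructor
    · rintro ⟨q, hq, e1, e2⟩
      exact ⟨q, hq, by rw [e1]; abel, e2⟩
    · rintro ⟨q, hq, e1, e2⟩
      exact ⟨q, hq, by rw [sub_eq_iff_eq_add] at e1; rw [e1]; abel, e2⟩

lemma TT_depth (hs : ∀ b, ∀ q ∈ s b, 1 ≤ q.2 ∧ q.2 ≤ ht b) (L : List B) (x : G) (a : ℕ)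
    (z : G) (k : ℕ) (h : (z, k) ∈ TT s ht zz L x a) : a < k ∧ k ≤ a + HT ht L := by
  induction L generalizing x a with
  | nil => simp [TT] at h
  | cons b L ih =>
    rw [TT, Set.mem_union] at h
    rw [HT_cons]
    rcases h with h | h
    · simp only [Set.mem_ofPred_eq, Prod.mk.injEq] at h
      obtain ⟨q, hq, -, e2⟩ := h
      have := hs b q hq
      omega
    · have := ih _ _ h
      omega

end Trace

section Cut

variable {B : Type*} (Λ : B → ℝ≥0∞) (ht : B → ℕ)

open Classical in
/-- overshoot tail -/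
noncomputable def ov (i : ℕ) (a : ℕ) : ℝ≥0∞ := ∑' L, (if fp ht a L ∧ a + i < HT ht L then LW Λ L else 0)

open Classical in
lemma cut1 (h1 : ∀ b, 1 ≤ ht b) (hU1 : ∀ n, U Λ ht n ≤ 1) (n a i : ℕ) (hn : a + i ≤ n)
    (f : List B → ℝ≥0∞) (hf : ∀ L, f L ≤ 1) :
    ∑' L, (if HT ht L = n then LW Λ L * f L else 0)
      ≤ ov Λ ht i a + ∑' A, (if fp ht a A ∧ HT ht A ≤ a + i then
          LW Λ A * ∑' R, (if HT ht R = n - HT ht A then LW Λ R * f (A ++ R) else 0) else 0) := by
  have e1 : ∑' L, (if HT ht L = n then LW Λ L * f L else 0)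
      = ∑' L, (if a ≤ HT ht L then LW Λ L * (if HT ht L = n then f L else 0) else 0) := by
    refine tsum_congr fun L => ?_
    by_cases h : HT ht L = n
    · rw [if_pos h, if_pos (by omega), if_pos h]
    · rw [if_neg h]
      simp only [if_neg h, mul_zero, ite_self]
  rw [e1, split Λ ht h1 a (fun L => if HT ht L = n then f L else 0), ov, ← ENNReal.tsum_add]
  refine ENNReal.tsum_le_tsum fun A => ?_
  by_cases hA : fp ht a A
  · rw [if_pos hA]
    by_cases hi : HT ht A ≤ a + i
    · have c1 : ¬ (fp ht a A ∧ a + i < HT ht A) := fun h => absurd h.2 (not_lt.2 hi)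
      rw [if_neg c1, if_pos (show fp ht a A ∧ HT ht A ≤ a + i from ⟨hA, hi⟩), zero_add]
      refine mul_le_mul_right (ENNReal.tsum_le_tsum fun R => ?_) _
      by_cases h : HT ht R = n - HT ht A
      · rw [if_pos h, if_pos (by rw [HT_append]; omega)]
      · rw [if_neg h, if_neg (by rw [HT_append]; omega), mul_zero]
    · have c1 : fp ht a A ∧ a + i < HT ht A := ⟨hA, by omega⟩
      rw [if_pos c1, if_neg (fun h : fp ht a A ∧ HT ht A ≤ a + i => hi h.2), add_zero]
      calc LW Λ A * ∑' L2, LW Λ L2 * (if HT ht (A ++ L2) = n then f (A ++ L2) else 0)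
          ≤ LW Λ A * 1 := by
            refine mul_le_mul_right ?_ _
            by_cases hAn : HT ht A ≤ n
            · refine le_trans ?_ (hU1 (n - HT ht A))
              rw [U]
              refine ENNReal.tsum_le_tsum fun R => ?_
              by_cases h : HT ht R = n - HT ht A
              · rw [if_pos h, if_pos (by rw [HT_append]; omega)]
                calc LW Λ R * f (A ++ R) ≤ LW Λ R * 1 := mul_le_mul_right (hf _) _
                  _ = _ := mul_one _
              · rw [if_neg h, if_neg (by rw [HT_append]; omega), mul_zero]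
            · have : ∑' L2, LW Λ L2 * (if HT ht (A ++ L2) = n then f (A ++ L2) else 0) = 0 := by
                rw [ENNReal.tsum_eq_zero]
                intro R
                rw [if_neg (by rw [HT_append]; omega), mul_zero]
              rw [this]; exact zero_le
        _ = _ := mul_one _
  · rw [if_neg hA]; exact zero_le

open Classical in
/-- both cuts -/
lemma cut2 (h1 : ∀ b, 1 ≤ ht b) (hU1 : ∀ n, U Λ ht n ≤ 1) (hFP : ∀ a, ∑' L, (if fp ht a L then LW Λ L else 0) ≤ 1)
    (n a τ i : ℕ) (hn : a + i + (τ + i) ≤ n)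
    (f : List B → ℝ≥0∞) (hf : ∀ L, f L ≤ 1) (F : List B → List B → ℝ≥0∞)
    (hF : ∀ A P R, fp ht a A → HT ht A ≤ a + i → fp ht τ P → HT ht P ≤ τ + i →
      f (A ++ (P ++ R)) ≤ F A P) :
    ∑' L, (if HT ht L = n then LW Λ L * f L else 0)
      ≤ ov Λ ht i a + ov Λ ht i τ + ∑' A, (if fp ht a A ∧ HT ht A ≤ a + i then
          LW Λ A * ∑' P, (if fp ht τ P ∧ HT ht P ≤ τ + i then LW Λ P * F A P else 0) else 0) := by
  refine le_trans (cut1 Λ ht h1 hU1 n a i (by omega) f hf) ?_
  rw [add_assoc]
  refine add_le_add le_rfl ?_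
  have key : ∀ A, fp ht a A → HT ht A ≤ a + i →
      ∑' R, (if HT ht R = n - HT ht A then LW Λ R * f (A ++ R) else 0)
      ≤ ov Λ ht i τ + ∑' P, (if fp ht τ P ∧ HT ht P ≤ τ + i then LW Λ P * F A P else 0) := by
    intro A hA hAi
    refine le_trans (cut1 Λ ht h1 hU1 (n - HT ht A) τ i (by omega) (fun R => f (A ++ R))
      (fun R => hf _)) ?_
    refine add_le_add le_rfl (ENNReal.tsum_le_tsum fun P => ?_)
    by_cases hP : fp ht τ P ∧ HT ht P ≤ τ + i
    · rw [if_pos hP, if_pos hP]
      refine mul_le_mul_right ?_ _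
      calc ∑' R, (if HT ht R = n - HT ht A - HT ht P then LW Λ R * f (A ++ (P ++ R)) else 0)
          ≤ ∑' R, (if HT ht R = n - HT ht A - HT ht P then LW Λ R else 0) * F A P := by
            refine ENNReal.tsum_le_tsum fun R => ?_
            by_cases h : HT ht R = n - HT ht A - HT ht P
            · rw [if_pos h, if_pos h]
              exact mul_le_mul_right (hF A P R hA hAi hP.1 hP.2) _
            · rw [if_neg h, if_neg h, zero_mul]
        _ = U Λ ht (n - HT ht A - HT ht P) * F A P := by rw [ENNReal.tsum_mul_right, U]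
        _ ≤ 1 * F A P := mul_le_mul_left (hU1 _) _
        _ = _ := one_mul _
    · rw [if_neg hP, if_neg hP]
  calc ∑' A, (if fp ht a A ∧ HT ht A ≤ a + i then
          LW Λ A * ∑' R, (if HT ht R = n - HT ht A then LW Λ R * f (A ++ R) else 0) else 0)
      ≤ ∑' A, ((if fp ht a A then LW Λ A else 0) * ov Λ ht i τ
        + (if fp ht a A ∧ HT ht A ≤ a + i then
          LW Λ A * ∑' P, (if fp ht τ P ∧ HT ht P ≤ τ + i then LW Λ P * F A P else 0) else 0)) := by
        refine ENNReal.tsum_le_tsum fun A => ?_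
        by_cases hA : fp ht a A ∧ HT ht A ≤ a + i
        · rw [if_pos hA, if_pos hA, if_pos hA.1, ← mul_add]
          exact mul_le_mul_right (key A hA.1 hA.2) _
        · rw [if_neg hA]; exact zero_le
    _ = (∑' A, (if fp ht a A then LW Λ A else 0)) * ov Λ ht i τ + _ := by
        rw [ENNReal.tsum_add, ENNReal.tsum_mul_right]
    _ ≤ 1 * ov Λ ht i τ + _ := add_le_add (mul_le_mul_left (hFP a) _) le_rfl
    _ = _ := by rw [one_mul]

end Cut

end Crest.Agent.R154.Asm950
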