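import Crest.Agent.R154.AsmT_114

/-! Row 154, ROAD 801 (helper114): the cases of a contact. -/

set_option autoImplicit false

namespace Crest.Agent.R154.Asm114

open scoped ENNReal
open Crest.Agent.R154.B5A
open Crest.Agent.R154.FP178 (fp)

variable {B B' G : Type*} [AddCommGroup G]

/-- overshoot of the piece number `j` -/
def Bd (h : B → ℕ) (T i0 j : ℕ) (L : List B) : Prop :=
  ∃ (t : List (Pc h T)) (P : Pc h T) (R : List B), t.length = j ∧
    L = fl t ++ (P.1 ++ R) ∧ T + i0 < PH h T P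

/-- window event of pieces -/
def Qw (hX : B → ℕ) (zX : B → G) (sX : B → Set (G × ℕ)) (hY : B' → ℕ) (zY : B' → G)
    (sY : B' → Set (G × ℕ)) (w : G) (T T' i0 lo hi : ℕ)
    (t : List (Pc hX T)) (P : Pc hX T) (t' : List (Pc hY T')) (P' : Pc hY T') : Prop :=
  (∀ Q ∈ t, PH hX T Q ≤ T + i0) ∧ PH hX T P ≤ T + i0 ∧ (∀ Q ∈ t', PH hY T' Q ≤ T' + i0) ∧
    PH hY T' P' ≤ T' + i0 ∧
    Ev sX zX hX sY zY hY lo hi P.1 (Dp (PD zX hX T) t) (HT (PH hX T) t) P'.1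
      (w + Dp (PD zY hY T') t') (HT (PH hY T') t')

/-- window event of lists -/
def Wn (hX : B → ℕ) (zX : B → G) (sX : B → Set (G × ℕ)) (hY : B' → ℕ) (zY : B' → G)
    (sY : B' → Set (G × ℕ)) (w : G) (T T' i0 j lo hi : ℕ) (L : List B) (L' : List B') : Prop :=
  ∃ (t : List (Pc hX T)) (P : Pc hX T) (R : List B) (t' : List (Pc hY T')) (P' : Pc hY T')
    (R' : List B'), t.length = j ∧ L = fl t ++ (P.1 ++ R) ∧ t'.length = j ∧
    L' = fl t' ++ (P'.1 ++ R') ∧ Qw hX zX sX hY zY sY w T T' i0 lo hi t P t' P'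

/-- contact at depths in `S` -/
def Cc (hX : B → ℕ) (zX : B → G) (sX : B → Set (G × ℕ)) (hY : B' → ℕ) (zY : B' → G)
    (sY : B' → Set (G × ℕ)) (w : G) (S : Set ℕ) (L : List B) (L' : List B') : Prop :=
  ∃ y k, k ∈ S ∧ (y, k) ∈ TT sX zX hX L 0 0 ∧ (y, k) ∈ TT sY zY hY L' w 0

lemma split_at {A : Type*} (t : List A) (j : ℕ) (hj : j < t.length) :
    ∃ t1 P t2, t = t1 ++ P :: t2 ∧ t1.length = j := by
  refine ⟨t.take j, t[j], t.drop (j + 1), ?_, ?_⟩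
  · rw [List.getElem_cons_drop, List.take_append_drop]
  · rw [List.length_take]; omega

lemma in_piece (h : B → ℕ) (z : B → G) (s : B → Set (G × ℕ)) (hs : ∀ b q, q ∈ s b → 1 ≤ q.2 ∧ q.2 ≤ h b)
    {T : ℕ} (t1 : List (Pc h T)) (P : Pc h T) (R : List B) (x : G) (y : G) (k : ℕ)
    (hk : (y, k) ∈ TT s z h (fl t1 ++ (P.1 ++ R)) x 0) (h1 : HT (PH h T) t1 < k)
    (h2 : k ≤ HT (PH h T) t1 + PH h T P) :
    (y, k) ∈ TT s z h P.1 (x + Dp (PD z h T) t1) (HT (PH h T) t1) := by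
  rw [TT_append, TT_append, HT_fl, Dp_fl, zero_add] at hk
  rcases hk with hk | hk | hk
  · have := TT_depth s z h hs _ _ _ _ _ hk
    rw [HT_fl] at this
    omega
  · exact hk
  · have := TT_depth s z h hs _ _ _ _ _ hk
    have e : PH h T P = HT h P.1 := rfl
    omega

lemma of_piece (h : B → ℕ) (z : B → G) (s : B → Set (G × ℕ))
    {T : ℕ} (t1 : List (Pc h T)) (P : Pc h T) (R : List B) (x : G) (y : G) (k : ℕ)
    (hk : (y, k) ∈ TT s z h P.1 (x + Dp (PD z h T) t1) (HT (PH h T) t1)) :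
    (y, k) ∈ TT s z h (fl t1 ++ (P.1 ++ R)) x 0 := by
  rw [TT_append, TT_append, HT_fl, Dp_fl, zero_add]
  exact Or.inr (Or.inl hk)

theorem cases (hX : B → ℕ) (zX : B → G) (sX : B → Set (G × ℕ)) (hY : B' → ℕ) (zY : B' → G)
    (sY : B' → Set (G × ℕ)) (hsX : ∀ b q, q ∈ sX b → 1 ≤ q.2 ∧ q.2 ≤ hX b)
    (hsY : ∀ b q, q ∈ sY b → 1 ≤ q.2 ∧ q.2 ≤ hY b) (w : G) (T T' i0 s K N m n : ℕ)
    (hT' : T' = T + i0) (hT0 : 0 < T) (hsT : s ≤ T) (hK : K * T ≤ m) (hN : 2 * m < N * T)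
    (hn : N * (T' + i0) ≤ n) (L : List B) (L' : List B')
    (hL : HT hX L = n) (hL' : HT hY L' = n) (hc : Cc hX zX sX hY zY sY w (Set.Ioc m (2 * m)) L L') :
    (∃ j ∈ Finset.range N, Bd hX T i0 j L) ∨ (∃ j ∈ Finset.range N, Bd hY T' i0 j L') ∨
    (∃ j ∈ Finset.Icc K N, Cc hX zX sX hY zY sY w
      (Set.Ico (j * T - s) (j * T - s + (2 * (N * i0) + 2 * s + 2))) L L') ∨
    (∃ j ∈ Finset.Ico K N, Wn hX zX sX hY zY sY w T T' i0 j (j * (T + i0 + i0) + s)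
      ((j + 1) * T - s) L L') := by
  by_cases hb1 : ∃ j ∈ Finset.range N, Bd hX T i0 j L
  · exact Or.inl hb1
  by_cases hb2 : ∃ j ∈ Finset.range N, Bd hY T' i0 j L'
  · exact Or.inr (Or.inl hb2)
  by_cases hb3 : ∃ j ∈ Finset.Icc K N, Cc hX zX sX hY zY sY w
      (Set.Ico (j * T - s) (j * T - s + (2 * (N * i0) + 2 * s + 2))) L L'
  · exact Or.inr (Or.inr (Or.inl hb3))
  refine Or.inr (Or.inr (Or.inr ?_))
  -- decompositions
  rcases decomp (h := hX) (T := T) i0 N L (by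
    rw [hL]; refine le_trans (Nat.mul_le_mul_left N ?_) hn; omega) with
    ⟨j, hj, t, P, R, a1, a2, a3⟩ | ⟨t, R, a1, a2, a3⟩
  · exact absurd ⟨j, Finset.mem_range.2 hj, t, P, R, a1, a2, a3⟩ hb1
  rcases decomp (h := hY) (T := T') i0 N L' (by rw [hL']; exact hn) with
    ⟨j, hj, t', P', R', a1', a2', a3'⟩ | ⟨t', R', a1', a2', a3'⟩
  · exact absurd ⟨j, Finset.mem_range.2 hj, t', P', R', a1', a2', a3'⟩ hb2
  -- no slab contact
  have hns : ∀ j, K ≤ j → j ≤ N → ∀ y k, (y, k) ∈ TT sX zX hX L 0 0 → (y, k) ∈ TT sY zY hY L' w 0 →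
      k < j * T - s ∨ j * T - s + (2 * (N * i0) + 2 * s + 2) ≤ k := by
    intro j hj1 hj2 y k h1 h2
    by_contra hcon
    rw [not_or, not_lt, not_le] at hcon
    exact hb3 ⟨j, Finset.mem_Icc.2 ⟨hj1, hj2⟩, y, k, ⟨hcon.1, hcon.2⟩, h1, h2⟩
  obtain ⟨y, k, ⟨hk1, hk2⟩, hkX, hkY⟩ := hc
  set j := k / T with hjdef
  have hj1 : j * T ≤ k := Nat.div_mul_le_self k T
  have hj2 : k < (j + 1) * T := by
    rw [hjdef]
    have := Nat.lt_div_mul_add hT0 (a := k)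
    rw [add_mul, one_mul]; exact this
  have hKj : K ≤ j := by
    by_contra hcon
    have : (j + 1) * T ≤ K * T := Nat.mul_le_mul_right T (by omega)
    omega
  have hjN : j < N := by
    by_contra hcon
    have : N * T ≤ j * T := Nat.mul_le_mul_right T (by omega)
    omega
  refine ⟨j, Finset.mem_Ico.2 ⟨hKj, hjN⟩, ?_⟩
  have e2 : (j + 1) * T = j * T + T := by ring
  have e3 : j * (T + i0 + i0) = j * T + 2 * (j * i0) := by ring
  have e5 : j * i0 ≤ N * i0 := Nat.mul_le_mul_right i0 hjN.le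
  have e6 : (j + 1) * i0 ≤ N * i0 := Nat.mul_le_mul_right i0 hjN
  have e7 : (j + 1) * i0 = j * i0 + i0 := by ring
  have hlo := (hns j hKj hjN.le y k hkX hkY)
  have hhi := (hns (j + 1) (by omega) hjN y k hkX hkY)
  rw [e2] at hhi
  obtain ⟨t1, P, t2, ht, hlen⟩ := split_at t j (by omega)
  obtain ⟨t1', P', t2', ht', hlen'⟩ := split_at t' j (by omega)
  have hLe : L = fl t1 ++ (P.1 ++ (fl t2 ++ R)) := by
    rw [a3, ht, fl_append, fl_cons]; simp [List.append_assoc]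
  have hLe' : L' = fl t1' ++ (P'.1 ++ (fl t2' ++ R')) := by
    rw [a3', ht', fl_append, fl_cons]; simp [List.append_assoc]
  have b1 : ∀ Q ∈ t1, PH hX T Q ≤ T + i0 := fun Q hQ => a2 Q (by rw [ht]; simp [hQ])
  have b2 : PH hX T P ≤ T + i0 := a2 P (by rw [ht]; simp)
  have b3 : ∀ Q ∈ t1', PH hY T' Q ≤ T' + i0 := fun Q hQ => a2' Q (by rw [ht']; simp [hQ])
  have b4 : PH hY T' P' ≤ T' + i0 := a2' P' (by rw [ht']; simp)
  have c1 := HT_ge t1
  have c2 := HT_le i0 t1 b1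
  have c3 := HT_ge t1'
  have c4 := HT_le i0 t1' b3
  rw [hlen] at c1 c2
  rw [hlen'] at c3 c4
  have c5 := T_le_PH P
  have c6 := T_le_PH P'
  have e1 : j * T' = j * T + j * i0 := by rw [hT']; ring
  have d1 : (y, k) ∈ TT sX zX hX P.1 (0 + Dp (PD zX hX T) t1) (HT (PH hX T) t1) := by
    refine in_piece hX zX sX hsX t1 P (fl t2 ++ R) 0 y k (by rw [← hLe]; exact hkX) ?_ ?_
    · omega
    · omega
  have d2 : (y, k) ∈ TT sY zY hY P'.1 (w + Dp (PD zY hY T') t1') (HT (PH hY T') t1') := by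
    refine in_piece hY zY sY hsY t1' P' (fl t2' ++ R') w y k (by rw [← hLe']; exact hkY) ?_ ?_
    · omega
    · omega
  rw [zero_add] at d1
  refine ⟨t1, P, fl t2 ++ R, t1', P', fl t2' ++ R', hlen, hLe, hlen', hLe', b1, b2, b3, b4,
    ⟨y, k, d1, d2⟩, ?_⟩
  intro y' k' f1 f2
  have g1 := TT_depth sX zX hX hsX _ _ _ _ _ f1
  have g2 := TT_depth sY zY hY hsY _ _ _ _ _ f2
  have eP : HT hX P.1 = PH hX T P := rfl
  have f1' : (y', k') ∈ TT sX zX hX L 0 0 := by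
    rw [hLe]; exact of_piece hX zX sX t1 P _ 0 y' k' (by rw [zero_add]; exact f1)
  have f2' : (y', k') ∈ TT sY zY hY L' w 0 := by
    rw [hLe']; exact of_piece hY zY sY t1' P' _ w y' k' f2
  have q1 := hns j hKj hjN.le y' k' f1' f2'
  have q2 := hns (j + 1) (by omega) hjN y' k' f1' f2'
  rw [e2] at q2
  rw [e2, e3]
  constructor <;> omega

end Crest.Agent.R154.Asm114
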