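import Crest.Agent.R154.AsmV_498

/-! Row 154, ROAD 801 (helper498): the bound of one window, final form. -/

set_option autoImplicit false

namespace Crest.Agent.R154.Asm498

open Crest.Agent.R154.B5A
open Crest.Agent.R154.Asm508
open Crest.Agent.R154.H5N501 (TS TS_append TS_depth)
open scoped ENNReal

section win

variable {BX BY G : Type*} [AddCommGroup G]
variable (ΛX : BX → ℝ≥0∞) (hX : BX → ℕ) (zX : BX → G) (sX : BX → Set (G × ℕ))
variable (ΛY : BY → ℝ≥0∞) (hY : BY → ℕ) (zY : BY → G) (sY : BY → Set (G × ℕ))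

open Classical in
/-- weight of the pairs of lists of height `n` with the window event -/
noncomputable def WS (n a e lo hi : ℕ) (w : G) : ℝ≥0∞ :=
  ∑' LX : List BX, LW ΛX LX * ∑' LY : List BY, LW ΛY LY *
    (if HT hX LX = n ∧ HT hY LY = n ∧ WE hX zX sX hY zY sY a e lo hi w LX LY then 1 else 0)

variable {hX zX sX hY zY sY}

open Classical in
lemma WS_core (h1X : ∀ b, 1 ≤ hX b) (h1Y : ∀ b, 1 ≤ hY b) (hΛX : ∑' b, ΛX b = 1)
    (hΛY : ∑' b, ΛY b = 1) (hsX : ∀ b, ∀ q ∈ sX b, 1 ≤ q.2 ∧ q.2 ≤ hX b)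
    (hsY : ∀ b, ∀ q ∈ sY b, 1 ≤ q.2 ∧ q.2 ≤ hY b) (a t i0 s lo hi n : ℕ)
    (hn : a + t + 4 * i0 ≤ n)
    (hlo : lo = a + 2 * i0 + s + 1) (hhi : hi + s = a + t) (w : G) :
    WS ΛX hX zX sX ΛY hY zY sY n a (a + t + 4 * i0) lo hi w ≤ ov ΛX hX i0 + (ov ΛY hY i0 +
      ∑' p : ℕ × G, V ΛX hX zX a p * (if p.1 ≤ i0 then
        ∑' p' : ℕ × G, V ΛY hY zY (a + i0) p' * (if p'.1 ≤ i0 then
          Psi ΛX hX zX sX ΛY hY zY sY t i0 lo hi (a + p.1) (a + i0 + p'.1) (w + p'.2 - p.2)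
          else 0) else 0)) := by
  set ψ : List BX → List BX → List BY → List BY → ℝ≥0∞ := fun A P A' P' =>
    if t + i0 < HT hX P ∨
      Ev hX zX sX hY zY sY lo hi (HT hX A) (HT hY A') (w + Dp zY A' - Dp zX A) P P' then 1 else 0
    with hψ
  set Φ : List BX → ℝ≥0∞ := fun LX => ∑' LY : List BY, LW ΛY LY *
    (if HT hX LX = n ∧ HT hY LY = n ∧ WE hX zX sX hY zY sY a (a + t + 4 * i0) lo hi w LX LY
      then 1 else 0) with hΦ
  have hΦ1 : ∀ L, Φ L ≤ 1 := by
    intro L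
    refine U_sum_le ΛY hY h1Y hΛY 0 n _ _ fun R => ?_
    by_cases hR : HT hY R = n
    · simp only [zero_add, hR, if_true]
      split_ifs <;> simp
    · rw [if_neg (fun hh => hR hh.2.1)]; exact zero_le
  have hΦn : ∀ L, Φ L ≠ 0 → HT hX L = n := by
    intro L hL
    by_contra hc
    apply hL
    simp only [hΦ, ENNReal.tsum_eq_zero]
    intro R
    rw [if_neg (fun hh => hc hh.1), mul_zero]
  have st1 := walk_le ΛX hX h1X hΛX a t n i0 (by omega) Φ hΦ1 hΦn
    (fun A P => ov ΛY hY i0 + fpS ΛY hY (a + i0) (fun A' => if HT hY A' ≤ a + i0 + i0 then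
      fpS ΛY hY (t + i0) (fun P' => ψ A P A' P') else 0)) (by
      intro A P R hA hA2 hP
      simp only [hΦ]
      refine walk_le ΛY hY h1Y hΛY (a + i0) (t + i0) n i0 (by omega) _ ?_ ?_ _ ?_
      · intro L; split_ifs <;> simp
      · intro L hL
        by_contra hc
        exact hL (if_neg fun hh => hc hh.2.1)
      · intro A' P' R' hA' hA2' hP'
        simp only [hψ]
        by_cases hov : t + i0 < HT hX P
        · rw [if_pos (Or.inl hov)]; split_ifs <;> simp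
        · by_cases hW : HT hX (A ++ (P ++ R)) = n ∧ HT hY (A' ++ (P' ++ R')) = n ∧
            WE hX zX sX hY zY sY a (a + t + 4 * i0) lo hi w (A ++ (P ++ R)) (A' ++ (P' ++ R'))
          · rw [if_pos hW, if_pos (Or.inr (we_ev hsX hsY hlo hhi hA hA2 hP hA' hA2' hP'
              (not_lt.1 hov) hW.2.2))]
          · rw [if_neg hW]; exact zero_le)
  refine st1.trans (add_le_add le_rfl ?_)
  have st2 : fpS ΛX hX a (fun A => if HT hX A ≤ a + i0 then fpS ΛX hX t (fun P =>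
      ov ΛY hY i0 + fpS ΛY hY (a + i0) (fun A' => if HT hY A' ≤ a + i0 + i0 then
      fpS ΛY hY (t + i0) (fun P' => ψ A P A' P') else 0)) else 0)
      ≤ ov ΛY hY i0 + fpS ΛX hX a (fun A => if HT hX A ≤ a + i0 then
        fpS ΛY hY (a + i0) (fun A' => if HT hY A' ≤ a + i0 + i0 then
        Psi ΛX hX zX sX ΛY hY zY sY t i0 lo hi (HT hX A) (HT hY A') (w + Dp zY A' - Dp zX A)
        else 0) else 0) := by
    calc _ ≤ fpS ΛX hX a (fun A => ov ΛY hY i0 + if HT hX A ≤ a + i0 then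
        fpS ΛY hY (a + i0) (fun A' => if HT hY A' ≤ a + i0 + i0 then
        Psi ΛX hX zX sX ΛY hY zY sY t i0 lo hi (HT hX A) (HT hY A') (w + Dp zY A' - Dp zX A)
        else 0) else 0) := by
          refine fpS_mono _ _ _ fun A _ => ?_
          by_cases hA : HT hX A ≤ a + i0
          · rw [if_pos hA, if_pos hA, fpS_add]
            refine add_le_add (fpS_const_le ΛX hX h1X hΛX _ _) ?_
            rw [fpS_swap]
            refine fpS_mono _ _ _ fun A' _ => ?_
            by_cases hA' : HT hY A' ≤ a + i0 + i0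
            · simp only [hA', if_true]
              exact le_rfl
            · simp only [hA', if_false]
              exact fpS_const_le ΛX hX h1X hΛX _ _
          · rw [if_neg hA]; exact zero_le
      _ ≤ _ := by
          rw [fpS_add]
          exact add_le_add (fpS_const_le ΛX hX h1X hΛX _ _) le_rfl
  refine st2.trans (add_le_add le_rfl ?_)
  have e2 : ∀ (c : ℕ) (g : G), fpS ΛY hY (a + i0) (fun A' => if HT hY A' ≤ a + i0 + i0 then
        Psi ΛX hX zX sX ΛY hY zY sY t i0 lo hi c (HT hY A') (w + Dp zY A' - g) else 0)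
      = ∑' p' : ℕ × G, V ΛY hY zY (a + i0) p' * (if p'.1 ≤ i0 then
          Psi ΛX hX zX sX ΛY hY zY sY t i0 lo hi c (a + i0 + p'.1) (w + p'.2 - g) else 0) := by
    intro c g
    rw [← V_push]
    refine fpS_congr _ _ _ fun A' hA' => ?_
    have := FP_ge _ _ _ hA'
    simp only
    by_cases hc : HT hY A' ≤ a + i0 + i0
    · rw [if_pos hc, if_pos (by omega), show a + i0 + (HT hY A' - (a + i0)) = HT hY A' by omega]
    · rw [if_neg hc, if_neg (by omega)]
  have e1 : fpS ΛX hX a (fun A => if HT hX A ≤ a + i0 then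
        fpS ΛY hY (a + i0) (fun A' => if HT hY A' ≤ a + i0 + i0 then
        Psi ΛX hX zX sX ΛY hY zY sY t i0 lo hi (HT hX A) (HT hY A') (w + Dp zY A' - Dp zX A)
        else 0) else 0)
      = ∑' p : ℕ × G, V ΛX hX zX a p * (if p.1 ≤ i0 then
        ∑' p' : ℕ × G, V ΛY hY zY (a + i0) p' * (if p'.1 ≤ i0 then
          Psi ΛX hX zX sX ΛY hY zY sY t i0 lo hi (a + p.1) (a + i0 + p'.1) (w + p'.2 - p.2)
          else 0) else 0) := by
    rw [← V_push]
    refine fpS_congr _ _ _ fun A hA => ?_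
    have := FP_ge _ _ _ hA
    simp only
    by_cases hc : HT hX A ≤ a + i0
    · rw [if_pos hc, if_pos (by omega), e2, show a + (HT hX A - a) = HT hX A by omega]
    · rw [if_neg hc, if_neg (by omega)]
  exact e1.le

lemma psi_le_one (h1X : ∀ b, 1 ≤ hX b) (h1Y : ∀ b, 1 ≤ hY b) (hΛX : ∑' b, ΛX b = 1)
    (hΛY : ∑' b, ΛY b = 1) (t i0 lo hi c c' : ℕ) (x : G) :
    Psi ΛX hX zX sX ΛY hY zY sY t i0 lo hi c c' x ≤ 1 := by
  classical
  refine (fpS_mono _ _ _ fun P _ => (fpS_mono _ _ _ fun P' _ => ?_).trans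
    (fpS_const_le ΛY hY h1Y hΛY _ 1)).trans (fpS_const_le ΛX hX h1X hΛX _ 1)
  split_ifs <;> simp

lemma split_bad {ι : Type*} (v b φ : ι → ℝ≥0∞) (M β : ℝ≥0∞) (hv : ∀ p, v p ≤ M + b p)
    (hb : ∑' p, b p ≤ β) (hφ : ∀ p, φ p ≤ 1) :
    ∑' p, v p * φ p ≤ β + ∑' p, min (v p) M * φ p := by
  calc ∑' p, v p * φ p ≤ ∑' p, (b p + min (v p) M * φ p) := by
        refine ENNReal.tsum_le_tsum fun p => ?_
        rcases le_total (v p) M with h | h
        · rw [min_eq_left h]; exact le_add_self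
        · rw [min_eq_right h]
          calc v p * φ p ≤ (M + b p) * φ p := mul_le_mul_left (hv p) _
            _ = b p * φ p + M * φ p := by ring
            _ ≤ b p * 1 + M * φ p := by gcongr; exact hφ p
            _ = _ := by rw [mul_one]
    _ = ∑' p, b p + ∑' p, min (v p) M * φ p := ENNReal.tsum_add
    _ ≤ _ := add_le_add hb le_rfl

open Classical in
theorem window (h1X : ∀ b, 1 ≤ hX b) (h1Y : ∀ b, 1 ≤ hY b) (hΛX : ∑' b, ΛX b = 1)
    (hΛY : ∑' b, ΛY b = 1) (hsX : ∀ b, ∀ q ∈ sX b, 1 ≤ q.2 ∧ q.2 ≤ hX b)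
    (hsY : ∀ b, ∀ q ∈ sY b, 1 ≤ q.2 ∧ q.2 ≤ hY b) (a t i0 s lo hi n : ℕ)
    (hn : a + t + 4 * i0 ≤ n)
    (hlo : lo = a + 2 * i0 + s + 1) (hhi : hi + s = a + t) (w : G)
    (C : ℝ≥0∞) (us : ℕ → ℕ → ℝ≥0∞)
    (H2 : HW ΛX hX zX sX ΛY hY zY sY (locX zX) C us)
    (H3 : HW ΛX hX zX sX ΛY hY zY sY (locY zY) C us)
    (θX θY u MX MY βX βY κ lam : ℝ≥0∞) (hlam : lam ≠ 0) (hlam' : lam ≠ ⊤)
    (hnX : ∑' p, (if V ΛX hX zX t p < θX then V ΛX hX zX t p else 0) ≤ u)
    (hnY : ∑' p, (if V ΛY hY zY (t + i0) p < θY then V ΛY hY zY (t + i0) p else 0) ≤ u)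
    (EX EY : ℕ → Finset G) (hEX : ∀ i y, θX ≤ V ΛX hX zX t (i, y) → y ∈ EX i)
    (hEY : ∀ i y, θY ≤ V ΛY hY zY (t + i0) (i, y) → y ∈ EY i)
    (hκX : ∀ i, MX * (EX i).card ≤ κ) (hκY : ∀ i, MY * (EY i).card ≤ κ)
    (bX bY : ℕ × G → ℝ≥0∞)
    (hdX : ∀ p, V ΛX hX zX a p ≤ MX + bX p) (hbX : ∑' p, bX p ≤ βX)
    (hdY : ∀ p, V ΛY hY zY (a + i0) p ≤ MY + bY p) (hbY : ∑' p, bY p ≤ βY) :
    WS ΛX hX zX sX ΛY hY zY sY n a (a + t + 4 * i0) lo hi w ≤
      2 * (ov ΛX hX i0 + ov ΛY hY i0) + (βX + βY) + u * u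
      + (i0 + 1) ^ 4 * (2 * (C * (lam + κ * us (4 * i0) s / lam + us (4 * i0) s))) := by
  set D : ℝ≥0∞ := C * (lam + κ * us (4 * i0) s / lam + us (4 * i0) s) with hD
  refine (WS_core ΛX ΛY h1X h1Y hΛX hΛY hsX hsY a t i0 s lo hi n hn hlo hhi w).trans ?_
  set VX : ℕ × G → ℝ≥0∞ := V ΛX hX zX a with hVX
  set VY : ℕ × G → ℝ≥0∞ := V ΛY hY zY (a + i0) with hVY
  have sVX : ∑' p, VX p ≤ 1 := V_sum ΛX hX zX h1X hΛX a
  have sVY : ∑' p, VY p ≤ 1 := V_sum ΛY hY zY h1Y hΛY (a + i0)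
  set ps : ℕ → ℕ → G → ℝ≥0∞ := fun α α' x =>
    Psi ΛX hX zX sX ΛY hY zY sY t i0 lo hi (a + α) (a + i0 + α') x with hps
  have hps1 : ∀ α α' x, ps α α' x ≤ 1 := fun α α' x =>
    psi_le_one ΛX ΛY h1X h1Y hΛX hΛY t i0 lo hi _ _ x
  -- inner sum is at most one
  have in1 : ∀ p : ℕ × G, (if p.1 ≤ i0 then ∑' p' : ℕ × G, VY p' * (if p'.1 ≤ i0 then
      ps p.1 p'.1 (w + p'.2 - p.2) else 0) else 0) ≤ 1 := by
    intro p
    split_ifs
    · refine le_trans (ENNReal.tsum_le_tsum fun p' => ?_) sVY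
      calc _ ≤ VY p' * 1 := by
            gcongr
            split_ifs
            · exact hps1 _ _ _
            · exact zero_le
        _ = _ := mul_one _
    · exact zero_le
  have stA := split_bad VX bX (fun p : ℕ × G => if p.1 ≤ i0 then ∑' p' : ℕ × G, VY p' *
    (if p'.1 ≤ i0 then ps p.1 p'.1 (w + p'.2 - p.2) else 0) else 0) MX βX hdX hbX in1
  set V1 : ℕ × G → ℝ≥0∞ := fun p => min (VX p) MX with hV1
  set V2 : ℕ × G → ℝ≥0∞ := fun p => min (VY p) MY with hV2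
  have sV1 : ∑' p, V1 p ≤ 1 := (ENNReal.tsum_le_tsum fun p => min_le_left _ _).trans sVX
  have sV2 : ∑' p, V2 p ≤ 1 := (ENNReal.tsum_le_tsum fun p => min_le_left _ _).trans sVY
  -- replace VY by V2
  have stB : ∑' p : ℕ × G, V1 p * (if p.1 ≤ i0 then ∑' p' : ℕ × G, VY p' *
      (if p'.1 ≤ i0 then ps p.1 p'.1 (w + p'.2 - p.2) else 0) else 0) ≤ βY +
      ∑' p : ℕ × G, V1 p * (if p.1 ≤ i0 then ∑' p' : ℕ × G, V2 p' *
      (if p'.1 ≤ i0 then ps p.1 p'.1 (w + p'.2 - p.2) else 0) else 0) := by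
    calc _ ≤ ∑' p : ℕ × G, (V1 p * βY + V1 p * (if p.1 ≤ i0 then ∑' p' : ℕ × G, V2 p' *
        (if p'.1 ≤ i0 then ps p.1 p'.1 (w + p'.2 - p.2) else 0) else 0)) := by
          refine ENNReal.tsum_le_tsum fun p => ?_
          rw [← mul_add]
          gcongr
          by_cases hp : p.1 ≤ i0
          · simp only [hp, if_true]
            exact split_bad VY bY (fun p' : ℕ × G => if p'.1 ≤ i0 then
              ps p.1 p'.1 (w + p'.2 - p.2) else 0) MY βY hdY hbY (fun p' => by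
                split_ifs
                · exact hps1 _ _ _
                · exact zero_le)
          · simp [hp]
      _ = (∑' p, V1 p) * βY + _ := by rw [ENNReal.tsum_add, ENNReal.tsum_mul_right]
      _ ≤ 1 * βY + _ := by gcongr
      _ = _ := by rw [one_mul]
  -- the main part
  set K0 : ℝ≥0∞ := ov ΛX hX i0 + ov ΛY hY i0 + u * u with hK0
  set R := Finset.range (i0 + 1) with hR
  set qX : ℕ → ℕ → ℕ → ℕ → G → ℝ≥0∞ := fun β β' α α' x =>
    QQ ΛX hX zX sX ΛY hY zY sY (locX zX) (EX β) (t + β) (t + i0 + β') lo hi (a + α) (a + i0 + α') x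
    with hqX
  set qY : ℕ → ℕ → ℕ → ℕ → G → ℝ≥0∞ := fun β β' α α' x =>
    QQ ΛX hX zX sX ΛY hY zY sY (locY zY) (EY β') (t + β) (t + i0 + β') lo hi (a + α) (a + i0 + α') x
    with hqY
  have hps2 : ∀ α α' x, ps α α' x ≤ K0 + ∑ β ∈ R, ∑ β' ∈ R, (qX β β' α α' x + qY β β' α α' x) :=
    fun α α' x => psi_le ΛX hX zX sX ΛY hY zY sY h1X h1Y hΛX hΛY t i0 lo hi _ _ x θX θY u
      hnX hnY EX EY hEX hEY
  set S : (ℕ → ℕ → G → ℝ≥0∞) → ℝ≥0∞ := fun q => ∑' p : ℕ × G, V1 p * (if p.1 ≤ i0 then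
    ∑' p' : ℕ × G, V2 p' * (if p'.1 ≤ i0 then q p.1 p'.1 (w + p'.2 - p.2) else 0) else 0) with hS
  have Smono : ∀ q q' : ℕ → ℕ → G → ℝ≥0∞, (∀ α α' x, q α α' x ≤ q' α α' x) → S q ≤ S q' := by
    intro q q' hq
    simp only [hS]
    gcongr with p
    split_ifs
    · gcongr with p'
      split_ifs
      · exact hq _ _ _
      · exact le_rfl
    · exact le_rfl
  have Sadd : ∀ q q' : ℕ → ℕ → G → ℝ≥0∞, S (fun α α' x => q α α' x + q' α α' x) = S q + S q' := by
    intro q q'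
    simp only [hS]
    rw [← ENNReal.tsum_add]
    refine tsum_congr fun p => ?_
    rw [← mul_add]
    congr 1
    by_cases hp : p.1 ≤ i0
    · simp only [hp, if_true]
      rw [← ENNReal.tsum_add]
      refine tsum_congr fun p' => ?_
      rw [← mul_add]
      congr 1
      split_ifs <;> simp
    · simp [hp]
  have Ssum : ∀ (T : Finset ℕ) (q : ℕ → ℕ → ℕ → G → ℝ≥0∞),
      S (fun α α' x => ∑ i ∈ T, q i α α' x) = ∑ i ∈ T, S (q i) := by
    intro T q
    induction T using Finset.induction_on with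
    | empty => simp [hS]
    | insert i T hi ih =>
      simp only [Finset.sum_insert hi]
      rw [← ih]
      exact Sadd (q i) (fun α α' x => ∑ j ∈ T, q j α α' x)
  have Sconst : S (fun _ _ _ => K0) ≤ K0 := by
    simp only [hS]
    calc _ ≤ ∑' p, V1 p * K0 := by
          gcongr with p
          split_ifs
          · calc _ ≤ ∑' p', V2 p' * K0 := by
                  gcongr with p'
                  split_ifs
                  · exact le_rfl
                  · exact zero_le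
              _ = (∑' p', V2 p') * K0 := ENNReal.tsum_mul_right
              _ ≤ 1 * K0 := by gcongr
              _ = K0 := one_mul _
          · exact zero_le
      _ = (∑' p, V1 p) * K0 := ENNReal.tsum_mul_right
      _ ≤ 1 * K0 := by gcongr
      _ = K0 := one_mul _
  have boundX : ∀ β ∈ R, ∀ β' ∈ R, S (qX β β') ≤ (i0 + 1) * ((i0 + 1) * D) := by
    intro β hβ β' hβ'
    have hβ1 : β ≤ i0 := by have := Finset.mem_range.1 hβ; omega
    have hβ1' : β' ≤ i0 := by have := Finset.mem_range.1 hβ'; omega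
    refine mix V1 V2 sV1 sV2 MX (Or.inl fun p => min_le_right _ _) i0 w (qX β β') D ?_
    intro α hα α' hα' μ hμ hμM
    refine (H2 (4 * i0) s (t + β) (t + i0 + β') (a + α) (a + i0 + α') lo hi (EX β) μ MX lam
      hμ hμM hlam hlam' (by omega) (by omega) (by omega) (by omega) (by omega) (by omega)
      (by omega) (by omega)).trans ?_
    rw [hD]
    gcongr
    exact hκX β
  have boundY : ∀ β ∈ R, ∀ β' ∈ R, S (qY β β') ≤ (i0 + 1) * ((i0 + 1) * D) := by
    intro β hβ β' hβ'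
    have hβ1 : β ≤ i0 := by have := Finset.mem_range.1 hβ; omega
    have hβ1' : β' ≤ i0 := by have := Finset.mem_range.1 hβ'; omega
    refine mix V1 V2 sV1 sV2 MY (Or.inr fun p => min_le_right _ _) i0 w (qY β β') D ?_
    intro α hα α' hα' μ hμ hμM
    refine (H3 (4 * i0) s (t + β) (t + i0 + β') (a + α) (a + i0 + α') lo hi (EY β') μ MY lam
      hμ hμM hlam hlam' (by omega) (by omega) (by omega) (by omega) (by omega) (by omega)
      (by omega) (by omega)).trans ?_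
    rw [hD]
    gcongr
    exact hκY β'
  have stC : S ps ≤ K0 + (i0 + 1) ^ 4 * (2 * D) := by
    refine (Smono _ _ hps2).trans ?_
    refine (le_of_eq (Sadd (fun _ _ _ => K0)
      (fun α α' x => ∑ β ∈ R, ∑ β' ∈ R, (qX β β' α α' x + qY β β' α α' x)))).trans ?_
    refine add_le_add Sconst ?_
    refine (le_of_eq (Ssum R
      (fun β α α' x => ∑ β' ∈ R, (qX β β' α α' x + qY β β' α α' x)))).trans ?_
    calc ∑ β ∈ R, S (fun α α' x => ∑ β' ∈ R, (qX β β' α α' x + qY β β' α α' x))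
        ≤ ∑ _β ∈ R, ∑ _β' ∈ R, ((i0 + 1) * ((i0 + 1) * D) + (i0 + 1) * ((i0 + 1) * D)) := by
          refine Finset.sum_le_sum fun β hβ => ?_
          refine (le_of_eq (Ssum R (fun β' α α' x => (qX β β' α α' x + qY β β' α α' x)))).trans ?_
          refine Finset.sum_le_sum fun β' hβ' => ?_
          refine (le_of_eq (Sadd (qX β β') (qY β β'))).trans ?_
          exact add_le_add (boundX β hβ β' hβ') (boundY β hβ β' hβ')
      _ = _ := by
          simp only [Finset.sum_const, hR, Finset.card_range, nsmul_eq_mul]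
          push_cast
          ring
  calc _ ≤ ov ΛX hX i0 + (ov ΛY hY i0 + (βX + (βY + (K0 + (i0 + 1) ^ 4 * (2 * D))))) := by
        gcongr
        refine stA.trans ?_
        gcongr
        exact stB.trans (add_le_add le_rfl stC)
    _ = _ := by rw [hK0]; ring

end win

end Crest.Agent.R154.Asm498
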