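import Crest.Agent.R154.AsmV_543

/-! Row 154, ROAD 801, abstract assembly, part 5 (helper543): the window bound. -/

set_option autoImplicit false

namespace Crest.Agent.R154.Asm543

open Crest.Agent.R154.B5A Filter Topology
open scoped ENNReal

section win
variable {BX BY G : Type*} [AddCommGroup G] (ΛX : BX → ℝ≥0∞) (ΛY : BY → ℝ≥0∞)
  (hX : BX → ℕ) (hY : BY → ℕ) (zX : BX → G) (zY : BY → G)
  (sX : BX → Set (G × ℕ)) (sY : BY → Set (G × ℕ))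

/-- four pieces -/
noncomputable def S4 (i0 a0 T : ℕ) (Φ : List BX → List BX → List BY → List BY → ℝ≥0∞) : ℝ≥0∞ :=
  ∑' A, wt ΛX hX i0 a0 A * ∑' P, wt ΛX hX i0 T P * ∑' A', wt ΛY hY i0 (a0 + i0) A' *
    ∑' P', wt ΛY hY i0 (T + i0) P' * Φ A P A' P'

lemma S4_mono (i0 a0 T : ℕ) (Φ Φ' : List BX → List BX → List BY → List BY → ℝ≥0∞)
    (h : ∀ A P A' P', Φ A P A' P' ≤ Φ' A P A' P') :
    S4 ΛX ΛY hX hY i0 a0 T Φ ≤ S4 ΛX ΛY hX hY i0 a0 T Φ' :=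
  ENNReal.tsum_le_tsum fun A => mul_le_mul_right (ENNReal.tsum_le_tsum fun P =>
    mul_le_mul_right (ENNReal.tsum_le_tsum fun A' => mul_le_mul_right
      (ENNReal.tsum_le_tsum fun P' => mul_le_mul_right (h A P A' P') _) _) _) _

lemma S4_add (i0 a0 T : ℕ) (Φ Φ' : List BX → List BX → List BY → List BY → ℝ≥0∞) :
    S4 ΛX ΛY hX hY i0 a0 T (fun A P A' P' => Φ A P A' P' + Φ' A P A' P')
      = S4 ΛX ΛY hX hY i0 a0 T Φ + S4 ΛX ΛY hX hY i0 a0 T Φ' := by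
  simp only [S4, mul_add, ENNReal.tsum_add]

lemma S4_prod (h1X : ∀ b, 1 ≤ hX b) (hΛX : ∑' b, ΛX b = 1) (h1Y : ∀ b, 1 ≤ hY b)
    (hΛY : ∑' b, ΛY b = 1) (i0 a0 T : ℕ) (f : List BX → ℝ≥0∞) (g : List BY → ℝ≥0∞) (u v : ℝ≥0∞)
    (hf : ∑' P, wt ΛX hX i0 T P * f P ≤ u) (hg : ∑' P', wt ΛY hY i0 (T + i0) P' * g P' ≤ v) :
    S4 ΛX ΛY hX hY i0 a0 T (fun _ P _ P' => f P * g P') ≤ u * v := by
  unfold S4
  refine sub1 _ (wt_mass ΛX hX h1X hΛX i0 a0) _ _ fun A => ?_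
  calc ∑' P, wt ΛX hX i0 T P * ∑' A', wt ΛY hY i0 (a0 + i0) A' *
        ∑' P', wt ΛY hY i0 (T + i0) P' * (f P * g P')
      ≤ ∑' P, wt ΛX hX i0 T P * (f P * v) := by
        refine ENNReal.tsum_le_tsum fun P => mul_le_mul_right ?_ _
        refine sub1 _ (wt_mass ΛY hY h1Y hΛY i0 _) _ _ fun A' => ?_
        calc ∑' P', wt ΛY hY i0 (T + i0) P' * (f P * g P')
            = f P * ∑' P', wt ΛY hY i0 (T + i0) P' * g P' := by
              rw [← ENNReal.tsum_mul_left]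
              exact tsum_congr fun P' => by ring
          _ ≤ f P * v := mul_le_mul_right hg _
    _ = (∑' P, wt ΛX hX i0 T P * f P) * v := by
        rw [← ENNReal.tsum_mul_right]
        exact tsum_congr fun P' => by ring
    _ ≤ u * v := mul_le_mul_left hf _

/-- one local piece -/
lemma S4_loc (loc : Finset G → List BX → List BY → Prop) (E : ℕ → ℕ → Finset G)
    (w : G) (i0 a0 T lo hi : ℕ) :
    S4 ΛX ΛY hX hY i0 a0 T (fun A P A' P' => I (loc (E (HT hX P - T) (HT hY P' - (T + i0))) P P' ∧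
      Ct hX hY zX zY sX sY P 0 (a0 + (HT hX A - a0)) P' (w + Dp zY A' - Dp zX A)
        (a0 + i0 + (HT hY A' - (a0 + i0))) lo hi))
    ≤ ∑' A, wt ΛX hX i0 a0 A * ∑' A', wt ΛY hY i0 (a0 + i0) A' *
      Kf ΛX ΛY hX hY zX zY sX sY loc E i0 a0 (a0 + i0) T (T + i0) lo hi (HT hX A - a0)
        (HT hY A' - (a0 + i0)) (w + Dp zY A' - Dp zX A) := by
  unfold S4
  refine ENNReal.tsum_le_tsum fun A => ?_
  by_cases hA : FP hX A a0 ∧ HT hX A ≤ a0 + i0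
  swap
  · unfold wt; rw [I_neg hA, zero_mul, zero_mul]; exact zero_le
  refine mul_le_mul_right ?_ _
  rw [swap2]
  refine ENNReal.tsum_le_tsum fun A' => ?_
  by_cases hA' : FP hY A' (a0 + i0) ∧ HT hY A' ≤ (a0 + i0) + i0
  swap
  · unfold wt; rw [I_neg hA', zero_mul, zero_mul]; exact zero_le
  refine mul_le_mul_right ?_ _
  unfold Kf
  refine ENNReal.tsum_le_tsum fun P => ?_
  rw [← ENNReal.tsum_mul_left]
  refine ENNReal.tsum_le_tsum fun P' => ?_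
  unfold wt
  have e1 := hA.2
  have e2 := hA'.2
  by_cases hP : FP hX P T ∧ HT hX P ≤ T + i0
  swap
  · rw [I_neg hP, zero_mul, zero_mul]; exact zero_le
  by_cases hP' : FP hY P' (T + i0) ∧ HT hY P' ≤ (T + i0) + i0
  swap
  · rw [I_neg hP', zero_mul, zero_mul, mul_zero]; exact zero_le
  rw [I_pos hP, I_pos hP', one_mul, one_mul]
  calc _ = I (loc (E (HT hX P - T) (HT hY P' - (T + i0))) P P' ∧
      Ct hX hY zX zY sX sY P 0 (a0 + (HT hX A - a0)) P' (w + Dp zY A' - Dp zX A)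
        (a0 + i0 + (HT hY A' - (a0 + i0))) lo hi) * (LW ΛX P * LW ΛY P') := by ring
    _ ≤ _ := mul_le_mul_left (I_mono fun hh => ⟨⟨by omega, by omega⟩, hP, hP', hh.1, hh.2⟩) _

/-- **the window bound** -/
theorem window (h1X : ∀ b, 1 ≤ hX b) (hΛX : ∑' b, ΛX b = 1) (h1Y : ∀ b, 1 ≤ hY b)
    (hΛY : ∑' b, ΛY b = 1)
    (hsX : ∀ b p, p ∈ sX b → 1 ≤ p.2 ∧ p.2 ≤ hX b)
    (hsY : ∀ b p, p ∈ sY b → 1 ≤ p.2 ∧ p.2 ≤ hY b)
    (C : ℝ≥0∞) (us : ℕ → ℝ≥0∞)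
    (H2 : HW ΛX ΛY hX hY zX zY sX sY (fun E L _ => Dp zX L ∈ E) C us)
    (H3 : HW ΛX ΛY hX hY zX zY sX sY (fun E _ L' => Dp zY L' ∈ E) C us)
    (w : G) (i0 a0 T n s b0 lo hi lo0 hi0 J : ℕ) (u lam : ℝ≥0∞) (hu0 : u ≠ 0) (hu1 : u < 1)
    (hl0 : lam ≠ 0) (hlt : lam ≠ ⊤)
    (hJ : J * (T + 2 * i0) ≤ a0) (hn : a0 + T + 3 * i0 ≤ n)
    (hlo0 : a0 + 2 * i0 ≤ lo0) (hhi0 : hi0 ≤ a0 + T) (hb0 : a0 + T + 2 * i0 ≤ b0)
    (hlo : a0 + 2 * i0 + s ≤ lo) (hhi : hi + s ≤ a0 + T) :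
    ∑' LX, I (HT hX LX = n) * LW ΛX LX * ∑' LY, I (HT hY LY = n) * LW ΛY LY *
      I (QW hX hY zX zY sX sY w a0 b0 lo hi lo0 hi0 LX LY)
    ≤ 2 * ep ΛX hX i0 + (2 * ep ΛY hY i0 + (u * u +
        (((1 - u) ^ J + J * ep ΛX hX i0) + ((1 - u) ^ J + J * ep ΛY hY i0) +
        2 * ((i0 + 1 : ℕ) * ((i0 + 1 : ℕ) * ((i0 + 1 : ℕ) * ((i0 + 1 : ℕ) *
          (C * (lam + ((i0 + 1 : ℕ) / u) * us s / lam + us s))))))))) := by
  classical
  set W0 : ℝ≥0∞ := C * (lam + ((i0 + 1 : ℕ) / u) * us s / lam + us s) with hW0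
  have hU : ∀ m, ∑' R, I (HT hY R = m) * LW ΛY R ≤ 1 := by
    intro m
    refine le_trans (le_of_eq ?_) (U_le_one ΛY hY h1Y hΛY m)
    rw [U]
    refine tsum_congr fun L => ?_
    by_cases hh : HT hY L = m
    · rw [I_pos hh, if_pos hh, one_mul]
    · rw [I_neg hh, if_neg hh, zero_mul]
  -- the event for the pieces
  let Q2 : List BX → List BX → List BY → List BY → Prop := fun A P A' P' =>
    Ct hX hY zX zY sX sY P 0 (a0 + (HT hX A - a0)) P' (w + Dp zY A' - Dp zX A)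
      (a0 + i0 + (HT hY A' - (a0 + i0))) lo hi
  -- data
  obtain ⟨EX, DX, hX1, hX2, hX3⟩ := loc_data ΛX hX h1X hΛX zX T i0 u hu0 hu1
  obtain ⟨EY, DY, hY1, hY2, hY3⟩ := loc_data ΛY hY h1Y hΛY zY (T + i0) i0 u hu0 hu1
  obtain ⟨bX, hbX, hDX⟩ := hX3 J a0 (le_trans (Nat.mul_le_mul_left _ (by omega)) hJ)
  obtain ⟨bY, hbY, hDY⟩ := hY3 J (a0 + i0)
    (le_trans (Nat.mul_le_mul_left _ (by omega)) (hJ.trans (by omega)))
  have hWX : ∀ i j, i ≤ i0 → j ≤ i0 →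
      C * (lam + DX * (EX i).card * us s / lam + us s) ≤ W0 := fun i j _ _ => by
    rw [hW0]; gcongr; exact hX2 i
  have hWY : ∀ i j, i ≤ i0 → j ≤ i0 →
      C * (lam + DY * (EY j).card * us s / lam + us s) ≤ W0 := fun i j _ _ => by
    rw [hW0]; gcongr; exact hY2 j
  -- first cut
  have c1 := cut2 ΛX hX h1X hΛX i0 a0 T n (by omega)
    (fun LX => ∑' LY, I (HT hY LY = n) * LW ΛY LY *
      I (QW hX hY zX zY sX sY w a0 b0 lo hi lo0 hi0 LX LY))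
    (fun LX => by
      refine le_trans (ENNReal.tsum_le_tsum fun LY => ?_) (hU n)
      calc _ ≤ I (HT hY LY = n) * LW ΛY LY * 1 := mul_le_mul_right (I_le_one _) _
        _ = _ := mul_one _)
    (fun A P => 2 * ep ΛY hY i0 + ∑' A', wt ΛY hY i0 (a0 + i0) A' *
        ∑' P', wt ΛY hY i0 (T + i0) P' * I (Q2 A P A' P'))
    (fun A P R hA hA2 hP hP2 => cut2 ΛY hY h1Y hΛY i0 (a0 + i0) (T + i0) n (by omega)
      (fun LY => I (QW hX hY zX zY sX sY w a0 b0 lo hi lo0 hi0 (A ++ (P ++ R)) LY))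
      (fun LY => I_le_one _) (fun A' P' => I (Q2 A P A' P'))
      (fun A' P' R' hA' hA2' hP' hP2' => I_mono fun hQ =>
        ev hX hY zX zY sX sY hsX hsY w i0 a0 T b0 lo hi lo0 hi0 hlo0 hhi0 hb0 A P R A' P' R'
          hA hA2 hP hP2 hA' hA2' hP' hQ))
  refine c1.trans ?_
  refine add_le_add le_rfl ?_
  have c2 : ∑' A, I (FP hX A a0 ∧ HT hX A ≤ a0 + i0) * LW ΛX A *
        ∑' P, I (FP hX P T ∧ HT hX P ≤ T + i0) * LW ΛX P * (2 * ep ΛY hY i0 +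
          ∑' A', wt ΛY hY i0 (a0 + i0) A' *
        ∑' P', wt ΛY hY i0 (T + i0) P' * I (Q2 A P A' P'))
      ≤ 2 * ep ΛY hY i0 + S4 ΛX ΛY hX hY i0 a0 T (fun A P A' P' => I (Q2 A P A' P')) := by
    show ∑' A, wt ΛX hX i0 a0 A * ∑' P, wt ΛX hX i0 T P * (2 * ep ΛY hY i0 + _) ≤ _
    simp only [mul_add, ENNReal.tsum_add]
    refine add_le_add ?_ le_rfl
    refine sub1 _ (wt_mass ΛX hX h1X hΛX i0 a0) _ _ fun A => ?_
    exact sub1 _ (wt_mass ΛX hX h1X hΛX i0 T) _ _ fun P => le_rfl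
  refine c2.trans (add_le_add le_rfl ?_)
  -- three parts
  let ΦX : List BX → List BX → List BY → List BY → ℝ≥0∞ := fun A P A' P' =>
    I (Dp zX P ∈ EX (HT hX P - T) ∧ Q2 A P A' P')
  let ΦY : List BX → List BX → List BY → List BY → ℝ≥0∞ := fun A P A' P' =>
    I (Dp zY P' ∈ EY (HT hY P' - (T + i0)) ∧ Q2 A P A' P')
  let ΦN : List BX → List BX → List BY → List BY → ℝ≥0∞ := fun A P A' P' =>
    I (Dp zX P ∉ EX (HT hX P - T)) * I (Dp zY P' ∉ EY (HT hY P' - (T + i0)))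
  have c3 : S4 ΛX ΛY hX hY i0 a0 T (fun A P A' P' => I (Q2 A P A' P')) ≤
      S4 ΛX ΛY hX hY i0 a0 T ΦN + (S4 ΛX ΛY hX hY i0 a0 T ΦX + S4 ΛX ΛY hX hY i0 a0 T ΦY) := by
    rw [← S4_add, ← S4_add]
    refine S4_mono ΛX ΛY hX hY i0 a0 T _ _ fun A P A' P' => ?_
    by_cases hq : Q2 A P A' P'
    swap
    · rw [I_neg hq]; exact zero_le
    by_cases hx : Dp zX P ∈ EX (HT hX P - T)
    · have e : ΦX A P A' P' = 1 := I_pos ⟨hx, hq⟩
      rw [e, I_pos hq]; exact le_add_left (le_add_right le_rfl)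
    by_cases hy : Dp zY P' ∈ EY (HT hY P' - (T + i0))
    · have e : ΦY A P A' P' = 1 := I_pos ⟨hy, hq⟩
      rw [e, I_pos hq]; exact le_add_left (le_add_left le_rfl)
    · have e : ΦN A P A' P' = 1 := by show I _ * I _ = 1; rw [I_pos hx, I_pos hy, one_mul]
      rw [e, I_pos hq]; exact le_add_right le_rfl
  refine c3.trans (add_le_add ?_ ?_)
  · refine S4_prod ΛX ΛY hX hY h1X hΛX h1Y hΛY i0 a0 T
      (fun P => I (Dp zX P ∉ EX (HT hX P - T))) (fun P' => I (Dp zY P' ∉ EY (HT hY P' - (T + i0))))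
      u u ?_ ?_
    · refine le_trans (ENNReal.tsum_le_tsum fun P => ?_) hX1
      unfold wt
      by_cases h1 : Dp zX P ∉ EX (HT hX P - T)
      · by_cases h2 : FP hX P T
        · rw [I_pos h1, mul_one, I_pos (show FP hX P T ∧ Dp zX P ∉ EX (HT hX P - T) from ⟨h2, h1⟩)]
          exact mul_le_mul_left (I_le_one _) _
        · rw [I_neg (fun hh => h2 hh.1), zero_mul, zero_mul]; exact zero_le
      · rw [I_neg h1, mul_zero]; exact zero_le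
    · refine le_trans (ENNReal.tsum_le_tsum fun P => ?_) hY1
      unfold wt
      by_cases h1 : Dp zY P ∉ EY (HT hY P - (T + i0))
      · by_cases h2 : FP hY P (T + i0)
        · rw [I_pos h1, mul_one,
            I_pos (show FP hY P (T + i0) ∧ Dp zY P ∉ EY (HT hY P - (T + i0)) from ⟨h2, h1⟩)]
          exact mul_le_mul_left (I_le_one _) _
        · rw [I_neg (fun hh => h2 hh.1), zero_mul, zero_mul]; exact zero_le
      · rw [I_neg h1, mul_zero]; exact zero_le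
  · have dX : S4 ΛX ΛY hX hY i0 a0 T ΦX ≤ ((1 - u) ^ J + J * ep ΛX hX i0) +
        (i0 + 1 : ℕ) * ((i0 + 1 : ℕ) * ((i0 + 1 : ℕ) * ((i0 + 1 : ℕ) * W0))) := by
      refine (S4_loc ΛX ΛY hX hY zX zY sX sY (fun E L _ => Dp zX L ∈ E) (fun i _ => EX i)
        w i0 a0 T lo hi).trans ?_
      set K := Kf ΛX ΛY hX hY zX zY sX sY (fun E L _ => Dp zX L ∈ E) (fun i _ => EX i) i0 a0
        (a0 + i0) T (T + i0) lo hi with hK
      have t := tie i0 (Fq ΛX hX zX a0) (Fq ΛY hY zY (a0 + i0)) K (fun y' => Equiv.subLeft (w + y'))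
        DX _ ((i0 + 1 : ℕ) * ((i0 + 1 : ℕ) * W0)) bX hbX (Fq_mass ΛX hX h1X hΛX zX a0).le
        (Fq_mass ΛY hY h1Y hΛY zY (a0 + i0)).le hDX
        (fun j j' x => Kf_le_one ΛX ΛY hX hY zX zY sX sY h1X hΛX h1Y hΛY _ _ _ _ _ _ _ _ _ _ _ _)
        (fun j j' x hh => Kf_zero ΛX ΛY hX hY zX zY sX sY _ _ _ _ _ _ _ _ _ _ _ _ hh)
        (fun j j' hj hj' μ hμ hμD => Kf_bound ΛX ΛY hX hY zX zY sX sY _ C us H2 _ i0 a0 T lo hi s
          hlo hhi DX W0 lam hl0 hlt hWX j j' hj hj' μ hμ hμD)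
      refine le_trans ?_ t
      refine le_trans (ENNReal.tsum_le_tsum fun A => mul_le_mul_right
        (wt_sum ΛY hY zY i0 (a0 + i0) (fun j' y' => K (HT hX A - a0) j' (w + y' - Dp zX A))) _) ?_
      exact wt_sum ΛX hX zX i0 a0 (fun j y => ∑' j', ∑' y', Fq ΛY hY zY (a0 + i0) j' y' *
        K j j' (w + y' - y))
    have dY : S4 ΛX ΛY hX hY i0 a0 T ΦY ≤ ((1 - u) ^ J + J * ep ΛY hY i0) +
        (i0 + 1 : ℕ) * ((i0 + 1 : ℕ) * ((i0 + 1 : ℕ) * ((i0 + 1 : ℕ) * W0))) := by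
      refine (S4_loc ΛX ΛY hX hY zX zY sX sY (fun E _ L' => Dp zY L' ∈ E) (fun _ i => EY i)
        w i0 a0 T lo hi).trans ?_
      rw [swap2]
      set K := Kf ΛX ΛY hX hY zX zY sX sY (fun E _ L' => Dp zY L' ∈ E) (fun _ i => EY i) i0 a0
        (a0 + i0) T (T + i0) lo hi with hK
      have t := tie i0 (Fq ΛY hY zY (a0 + i0)) (Fq ΛX hX zX a0) (fun j j' x => K j' j x)
        (fun y' => Equiv.addLeft (w - y'))
        DY _ ((i0 + 1 : ℕ) * ((i0 + 1 : ℕ) * W0)) bY hbY (Fq_mass ΛY hY h1Y hΛY zY (a0 + i0)).le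
        (Fq_mass ΛX hX h1X hΛX zX a0).le hDY
        (fun j j' x => Kf_le_one ΛX ΛY hX hY zX zY sX sY h1X hΛX h1Y hΛY _ _ _ _ _ _ _ _ _ _ _ _)
        (fun j j' x hh => Kf_zero ΛX ΛY hX hY zX zY sX sY _ _ _ _ _ _ _ _ _ _ _ _
          (fun h' => hh ⟨h'.2, h'.1⟩))
        (fun j j' hj hj' μ hμ hμD => Kf_bound ΛX ΛY hX hY zX zY sX sY _ C us H3 _ i0 a0 T lo hi s
          hlo hhi DY W0 lam hl0 hlt hWY j' j hj' hj μ hμ hμD)
      refine le_trans ?_ t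
      refine le_trans (ENNReal.tsum_le_tsum fun A' => mul_le_mul_right
        (wt_sum ΛX hX zX i0 a0 (fun j' y' => K j' (HT hY A' - (a0 + i0)) (w + Dp zY A' - y'))) _) ?_
      refine le_trans (wt_sum ΛY hY zY i0 (a0 + i0) (fun j y => ∑' j', ∑' y', Fq ΛX hX zX a0 j' y' *
        K j' j (w + y - y'))) (le_of_eq ?_)
      refine tsum_congr fun j => tsum_congr fun y => ?_
      congr 1
      refine tsum_congr fun j' => tsum_congr fun y' => ?_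
      congr 1
      show K j' j (w + y - y') = K j' j (w - y' + y)
      rw [show w + y - y' = w - y' + y by abel]
    refine (add_le_add dX dY).trans (le_of_eq ?_)
    ring

end win

end Crest.Agent.R154.Asm543
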