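import Crest.Agent.R154.AsmT_877

/-! Row 154 (helper877), ROAD 801: sum over the windows. -/

set_option autoImplicit false

namespace Crest.Agent.R154.Asm877

open scoped ENNReal
open Crest.Agent.R154.B5A
open Crest.Agent.R154.FP178

lemma SL_finset {C ι : Type*} (W : C → ℝ≥0∞) (r : ℕ) (s : Finset ι) (F : ι → List C → ℝ≥0∞) :
    SL W r (fun P => ∑ i ∈ s, F i P) = ∑ i ∈ s, SL W r (F i) := by
  classical
  induction s using Finset.induction_on with
  | empty => simpa using SL_zero_fun W r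
  | insert i s hi ih =>
    simp only [Finset.sum_insert hi]
    rw [SL_add_fun, ih]

open Classical in
/-- two middle pieces -/
lemma two_mid {C C' : Type*} (W : C → ℝ≥0∞) (W' : C' → ℝ≥0∞) (hW : ∑' b, W b ≤ 1)
    (hW' : ∑' b, W' b ≤ 1) (r N : ℕ) (hr : r < N) (K : List C → C → List C' → C' → Prop) :
    SL W N (fun P => SL W' N (fun P' => if ∃ P1 A S P1' A' S', P = P1 ++ A :: S ∧ P1.length = r ∧
      P' = P1' ++ A' :: S' ∧ P1'.length = r ∧ K P1 A P1' A' then 1 else 0))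
      ≤ Tot W W' r (fun P P' A A' => if K P A P' A' then 1 else 0) := by
  have h1 := SL_mid W hW r N hr (fun P => SL W' N (fun P' => if ∃ P1 A S P1' A' S',
      P = P1 ++ A :: S ∧ P1.length = r ∧
      P' = P1' ++ A' :: S' ∧ P1'.length = r ∧ K P1 A P1' A' then 1 else 0))
    (fun P1 A => SL W' r (fun P1' => ∑' A', W' A' * (if K P1 A P1' A' then 1 else 0))) (by
      intro P A S hP
      refine SL_mid W' hW' r N hr _ (fun P1' A' => if K P A P1' A' then 1 else 0) ?_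
      intro P' A' S' hP'
      split_ifs with c1 c2
      · exact le_rfl
      · exfalso
        obtain ⟨P1, A1, S1, P1', A1', S1', e1, e2, e3, e4, e5⟩ := c1
        have i1 := List.append_inj e1 (by rw [hP, e2])
        have i2 := List.append_inj e3 (by rw [hP', e4])
        have j1 := (List.cons.inj i1.2).1
        have j2 := (List.cons.inj i2.2).1
        rw [← i1.1, ← i2.1, ← j1, ← j2] at e5
        exact c2 e5
      · exact zero_le
      · exact le_rfl)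
  refine h1.trans (le_of_eq ?_)
  unfold Tot
  refine SL_congr W r fun P _ => ?_
  calc ∑' A, W A * SL W' r (fun P1' => ∑' A', W' A' * (if K P A P1' A' then 1 else 0))
      = ∑' A, SL W' r (fun P1' => ∑' A', W A * W' A' * (if K P A P1' A' then 1 else 0)) := by
        refine tsum_congr fun A => ?_
        rw [← SL_const_mul]
        refine SL_congr W' r fun P' _ => ?_
        rw [← ENNReal.tsum_mul_left]
        refine tsum_congr fun A' => ?_
        rw [mul_assoc]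
    _ = _ := by
        rw [← SL_tsum]

section

variable {G : Type*} [AddCommGroup G] {BX BY : Type*}
  (ΛX : BX → ℝ≥0∞) (ΛY : BY → ℝ≥0∞) (hX : BX → ℕ) (hY : BY → ℕ)
  (zX : BX → G) (zY : BY → G) (sX : BX → Set (G × ℕ)) (sY : BY → Set (G × ℕ))

open Classical in
/-- **the sum over the windows** -/
theorem total (C : ℝ≥0∞) (us : ℕ → ℝ≥0∞)
    (H2h : H2 ΛX ΛY hX hY zX zY sX sY C us) (H3h : H3 ΛX ΛY hX hY zX zY sX sY C us)
    (h1 : ∀ b, 1 ≤ hX b) (hΛ : ∑' b, ΛX b = 1) (h1Y : ∀ b, 1 ≤ hY b) (hΛY : ∑' b, ΛY b = 1)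
    (hU : ∀ n, U ΛX hX n ≤ 1) (hUY : ∀ n, U ΛY hY n ≤ 1)
    (hsX : ∀ b, ∀ p ∈ sX b, 1 ≤ p.2 ∧ p.2 ≤ hX b) (hsY : ∀ b, ∀ p ∈ sY b, 1 ≤ p.2 ∧ p.2 ≤ hY b)
    (T i0 J N m n s : ℕ) (w : G) (η u lam : ℝ≥0∞) (hu : u ≠ 0) (hu1 : u < 1) (hlam : lam ≠ 0)
    (hlam' : lam ≠ ⊤) (hsT : s ≤ T) (hJ : J * (T + 2 * i0) ≤ m) (hN : 2 * m ≤ N * T)
    (hn : N * (T + 2 * i0) ≤ n)
    (hslab : ∀ j, J ≤ j → ∑' LX, ∑' LY, (if HT hX LX = n ∧ HT hY LY = n ∧
      (∃ q, q ∈ CS hX hY zX zY sX sY LX 0 0 LY w 0 ∧ j * T - s ≤ q.2 ∧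
        q.2 < j * T - s + (2 * (N * i0) + 2 * s + 1)) then LW ΛX LX * LW ΛY LY else 0) ≤ η) :
    ∑' LX, ∑' LY, (if HT hX LX = n ∧ HT hY LY = n ∧
      (∃ q, q ∈ CS hX hY zX zY sX sY LX 0 0 LY w 0 ∧ m < q.2 ∧ q.2 ≤ 2 * m)
      then LW ΛX LX * LW ΛY LY else 0)
    ≤ ((N + 1 : ℕ) : ℝ≥0∞) * η + (N * dlt ΛX hX T i0 + (N * dlt ΛY hY (T + i0) i0 +
      N * (u * u + (((1 - u) ^ J + ((N * i0 + 1) ^ 4 : ℕ) * Bd C us N i0 s lam) +
        ((1 - u) ^ J + ((N * i0 + 1) ^ 4 : ℕ) * Bd C us N i0 s lam))))) := by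
  have hWX := sum_wA_le ΛX hX h1 hΛ T i0
  have hWY := sum_wA_le ΛY hY h1Y hΛY (T + i0) i0
  -- good event
  set g : List BX → List BY → ℝ≥0∞ := fun LX LY =>
    if (∃ q, q ∈ CS hX hY zX zY sX sY LX 0 0 LY w 0 ∧ m < q.2 ∧ q.2 ≤ 2 * m) ∧
      (∀ q, q ∈ CS hX hY zX zY sX sY LX 0 0 LY w 0 → ∀ j, J ≤ j → j ≤ N →
        ¬ (j * T - s ≤ q.2 ∧ q.2 < j * T - s + (2 * (N * i0) + 2 * s + 1))) then 1 else 0 with hg
  have hg1 : ∀ LX LY, g LX LY ≤ 1 := by
    intro LX LY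
    simp only [hg]
    split_ifs <;> simp
  set Wr : ℕ → List (Att hX T i0) → List (Att hY (T + i0) i0) → ℝ≥0∞ := fun r P P' =>
    if ∃ P1 A S P1' A' S', P = P1 ++ A :: S ∧ P1.length = r ∧
      P' = P1' ++ A' :: S' ∧ P1'.length = r ∧
      Kev hX hY zX zY sX sY w (r * T + 2 * (N * i0) + s) ((r + 1) * T - s) P1 A P1' A'
      then 1 else 0 with hWr
  -- split off the slabs
  have step1 : ∑' LX, ∑' LY, (if HT hX LX = n ∧ HT hY LY = n ∧
      (∃ q, q ∈ CS hX hY zX zY sX sY LX 0 0 LY w 0 ∧ m < q.2 ∧ q.2 ≤ 2 * m)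
      then LW ΛX LX * LW ΛY LY else 0)
      ≤ (∑ j ∈ Finset.Icc J N, ∑' LX, ∑' LY, (if HT hX LX = n ∧ HT hY LY = n ∧
      (∃ q, q ∈ CS hX hY zX zY sX sY LX 0 0 LY w 0 ∧ j * T - s ≤ q.2 ∧
        q.2 < j * T - s + (2 * (N * i0) + 2 * s + 1)) then LW ΛX LX * LW ΛY LY else 0)) +
      ∑' LX, (if HT hX LX = n then LW ΛX LX * (∑' LY, if HT hY LY = n then LW ΛY LY * g LX LY
        else 0) else 0) := by
    rw [← Summable.tsum_finsetSum (fun _ _ => ENNReal.summable), ← ENNReal.tsum_add]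
    refine ENNReal.tsum_le_tsum fun LX => ?_
    rw [← Summable.tsum_finsetSum (fun _ _ => ENNReal.summable)]
    by_cases cX : HT hX LX = n
    · rw [if_pos cX, ← ENNReal.tsum_mul_left, ← ENNReal.tsum_add]
      refine ENNReal.tsum_le_tsum fun LY => ?_
      by_cases cc : HT hX LX = n ∧ HT hY LY = n ∧
        (∃ q, q ∈ CS hX hY zX zY sX sY LX 0 0 LY w 0 ∧ m < q.2 ∧ q.2 ≤ 2 * m)
      · rw [if_pos cc]
        by_cases cs : ∀ q, q ∈ CS hX hY zX zY sX sY LX 0 0 LY w 0 → ∀ j, J ≤ j → j ≤ N →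
          ¬ (j * T - s ≤ q.2 ∧ q.2 < j * T - s + (2 * (N * i0) + 2 * s + 1))
        · refine le_trans ?_ le_add_self
          rw [if_pos cc.2.1]
          simp only [hg]
          rw [if_pos ⟨cc.2.2, cs⟩, mul_one]
        · push Not at cs
          obtain ⟨q, hq, j, hj1, hj2, hq1, hq2⟩ := cs
          refine le_trans ?_ le_self_add
          refine le_trans ?_ (Finset.single_le_sum (fun _ _ => zero_le)
            (Finset.mem_Icc.2 ⟨hj1, hj2⟩))
          rw [if_pos ⟨cc.1, cc.2.1, q, hq, hq1, hq2⟩]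
      · rw [if_neg cc]; exact zero_le
    · refine le_trans (le_of_eq ?_) zero_le
      rw [ENNReal.tsum_eq_zero]
      intro LY
      rw [if_neg (fun hh => cX hh.1)]
  have hslabs : (∑ j ∈ Finset.Icc J N, ∑' LX, ∑' LY, (if HT hX LX = n ∧ HT hY LY = n ∧
      (∃ q, q ∈ CS hX hY zX zY sX sY LX 0 0 LY w 0 ∧ j * T - s ≤ q.2 ∧
        q.2 < j * T - s + (2 * (N * i0) + 2 * s + 1)) then LW ΛX LX * LW ΛY LY else 0))
      ≤ ((N + 1 : ℕ) : ℝ≥0∞) * η := by
    refine le_trans (Finset.sum_le_card_nsmul _ _ η fun j hj =>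
      hslab j (Finset.mem_Icc.1 hj).1) ?_
    rw [nsmul_eq_mul]
    refine mul_le_mul_left ?_ _
    have : (Finset.Icc J N).card ≤ N + 1 := by rw [Nat.card_Icc]; omega
    exact_mod_cast this
  refine step1.trans (add_le_add hslabs ?_)
  -- decomposition
  have hgX : ∀ LX, (∑' LY, if HT hY LY = n then LW ΛY LY * g LX LY else 0) ≤ 1 := by
    intro LX
    refine le_trans (ENNReal.tsum_le_tsum fun LY => ?_) (hUY n)
    by_cases c : HT hY LY = n
    · rw [if_pos c, if_pos c]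
      calc LW ΛY LY * g LX LY ≤ LW ΛY LY * 1 := mul_le_mul_right (hg1 _ _) _
        _ = _ := mul_one _
    · rw [if_neg c, if_neg c]
  have hnX : N * (T + i0) ≤ n := by nlinarith
  have hnY : N * (T + i0 + i0) ≤ n := by
    rw [show T + i0 + i0 = T + 2 * i0 by ring]; exact hn
  have decX := dec ΛX hX h1 hΛ hU T i0 N n hnX
    (fun LX => ∑' LY, if HT hY LY = n then LW ΛY LY * g LX LY else 0) hgX
    (fun P => N * dlt ΛY hY (T + i0) i0 +
      SL (wA ΛY hY (T + i0) i0) N (fun P' => ∑ r ∈ Finset.Ico J N, Wr r P P')) (by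
      intro P R hP hR
      refine dec ΛY hY h1Y hΛY hUY (T + i0) i0 N n hnY (fun LY => g (fl hX P ++ R) LY)
        (fun LY => hg1 _ _) (fun P' => ∑ r ∈ Finset.Ico J N, Wr r P P') ?_
      intro P' R' hP' hR'
      simp only [hg]
      split_ifs with c
      · obtain ⟨r, hr1, hr2, hev⟩ := comb_key hX hY zX zY sX sY hsX hsY w m J N s hJ hN P R P' R'
          hP hP' c.1 c.2
        refine le_trans ?_ (Finset.single_le_sum (fun _ _ => zero_le)
            (Finset.mem_Ico.2 ⟨hr1, hr2⟩))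
        simp only [hWr]
        rw [if_pos hev]
      · exact zero_le)
  refine decX.trans (add_le_add le_rfl ?_)
  rw [SL_add_fun]
  refine add_le_add (SL_const_le _ hWX N _) ?_
  have e1 : SL (wA ΛX hX T i0) N (fun P => SL (wA ΛY hY (T + i0) i0) N
      (fun P' => ∑ r ∈ Finset.Ico J N, Wr r P P'))
      = ∑ r ∈ Finset.Ico J N, SL (wA ΛX hX T i0) N (fun P => SL (wA ΛY hY (T + i0) i0) N
        (fun P' => Wr r P P')) := by
    rw [← SL_finset]
    refine SL_congr _ N fun P _ => ?_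
    rw [SL_finset]
  rw [e1]
  refine le_trans (Finset.sum_le_card_nsmul _ _ (u * u + (((1 - u) ^ J +
    ((N * i0 + 1) ^ 4 : ℕ) * Bd C us N i0 s lam) +
        ((1 - u) ^ J + ((N * i0 + 1) ^ 4 : ℕ) * Bd C us N i0 s lam))) fun r hr => ?_) ?_
  · rw [Finset.mem_Ico] at hr
    refine (two_mid _ _ hWX hWY r N hr.2 _).trans ((winAll ΛX ΛY hX hY zX zY sX sY C us H2h H3h
      h1 hΛ h1Y hΛY T i0 r N s hr.2 hsT w u lam hu hu1 hlam hlam').trans ?_)
    have hp : (1 - u) ^ r ≤ (1 - u) ^ J :=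
      pow_le_pow_right_of_le_one' (tsub_le_self) hr.1
    exact add_le_add le_rfl (add_le_add (add_le_add hp le_rfl) (add_le_add hp le_rfl))
  · rw [nsmul_eq_mul]
    refine mul_le_mul_left ?_ _
    have : (Finset.Ico J N).card ≤ N := by rw [Nat.card_Ico]; omega
    exact_mod_cast this

end

end Crest.Agent.R154.Asm877
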