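import Crest.Agent.R154.FP_178
import Crest.Agent.R154.AsmA_789

/-! Row 154, ROAD 801 (helper917): assembly, part 1: chains of first-passage pieces. -/

set_option autoImplicit false

namespace Crest.Agent.R154.Asm917

open scoped ENNReal
open Crest.Agent.R154.B5A Crest.Agent.R154.FP178

section one

variable {B : Type*} (Λ : B → ℝ≥0∞) (ht : B → ℕ)

open Classical in
/-- weight of a good piece: first passage of depth `T`, overshoot at most `i0` -/
noncomputable def Wm (T i0 : ℕ) (A : List B) : ℝ≥0∞ :=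
  if fp ht T A ∧ HT ht A ≤ T + i0 then LW Λ A else 0

open Classical in
/-- mass of the bad pieces -/
noncomputable def Ov (T i0 : ℕ) : ℝ≥0∞ :=
  ∑' A : List B, if fp ht T A ∧ T + i0 < HT ht A then LW Λ A else 0

open Classical in
lemma sum_Wm (h1 : ∀ b, 1 ≤ ht b) (hΛ : ∑' b, Λ b ≤ 1) (T i0 : ℕ) :
    ∑' A, Wm Λ ht T i0 A ≤ 1 := by
  refine (ENNReal.tsum_le_tsum fun A => ?_).trans (sum_FP Λ ht h1 hΛ T)
  unfold Wm
  by_cases h : fp ht T A
  · rw [if_pos h]; split_ifs <;> simp
  · rw [if_neg (fun h' => h h'.1), if_neg h]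

lemma Wm_supp {T i0 : ℕ} {A : List B} (h : Wm Λ ht T i0 A ≠ 0) :
    T ≤ HT ht A ∧ HT ht A ≤ T + i0 := by
  classical
  unfold Wm at h
  split_ifs at h with h'
  · exact ⟨le_HT_of_fp ht h'.1, h'.2⟩
  · exact absurd rfl h

open Classical in
lemma Wm_le {T i0 : ℕ} (A : List B) : Wm Λ ht T i0 A ≤ LW Λ A := by
  unfold Wm; split_ifs <;> simp

open Classical in
lemma one_step (h1 : ∀ b, 1 ≤ ht b) (hU1 : ∀ n, U Λ ht n ≤ 1) (T i0 n : ℕ) (hn : T + i0 ≤ n)
    (F : List B → ℝ≥0∞) (hF : ∀ L, F L ≤ 1) :
    ∑' L, (if HT ht L = n then LW Λ L * F L else 0)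
      ≤ Ov Λ ht T i0 + ∑' A, Wm Λ ht T i0 A *
        ∑' R, (if HT ht R = n - HT ht A then LW Λ R * F (A ++ R) else 0) := by
  have e : ∑' L, (if HT ht L = n then LW Λ L * F L else 0)
      = ∑' L, (if T ≤ HT ht L then LW Λ L * (if HT ht L = n then F L else 0) else 0) := by
    refine tsum_congr fun L => ?_
    by_cases h : HT ht L = n
    · rw [if_pos h, if_pos h, if_pos (by omega)]
    · rw [if_neg h, if_neg h]; simp
  rw [e, split Λ ht h1 T, Ov, ← ENNReal.tsum_add]
  refine ENNReal.tsum_le_tsum fun A => ?_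
  by_cases hfp : fp ht T A
  · rw [if_pos hfp]
    by_cases hg : HT ht A ≤ T + i0
    · refine le_add_left ?_
      rw [Wm, if_pos ⟨hfp, hg⟩]
      refine mul_le_mul_right (ENNReal.tsum_le_tsum fun R => ?_) _
      by_cases h : HT ht (A ++ R) = n
      · rw [if_pos h, if_pos (by rw [HT_append] at h; omega)]
      · rw [if_neg h, mul_zero]; exact zero_le
    · refine le_add_right ?_
      rw [if_pos ⟨hfp, by omega⟩]
      calc LW Λ A * ∑' R, LW Λ R * (if HT ht (A ++ R) = n then F (A ++ R) else 0)
          ≤ LW Λ A * 1 := by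
            refine mul_le_mul_right ?_ _
            by_cases hA : HT ht A ≤ n
            · refine le_trans (ENNReal.tsum_le_tsum fun R => ?_) (hU1 (n - HT ht A))
              by_cases h : HT ht R = n - HT ht A
              · rw [if_pos h]
                calc _ ≤ LW Λ R * 1 := by
                      refine mul_le_mul_right ?_ _
                      split_ifs
                      · exact hF _
                      · exact zero_le
                  _ = _ := mul_one _
              · rw [if_neg h, if_neg (by rw [HT_append]; omega), mul_zero]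
            · rw [ENNReal.tsum_eq_zero.2]
              · exact zero_le
              · intro R; rw [if_neg (by rw [HT_append]; omega), mul_zero]
        _ = _ := mul_one _
  · rw [if_neg hfp]; exact zero_le

lemma SL_le_const {Λ : B → ℝ≥0∞} (hΛ : ∑' b, Λ b ≤ 1) (j : ℕ) (c : ℝ≥0∞) :
    SL Λ j (fun _ => c) ≤ c := by
  have := SL_const_mul Λ j c (fun _ => 1)
  simp only [mul_one] at this
  rw [this, SL_pow]
  calc c * (∑' b, Λ b) ^ j ≤ c * 1 := mul_le_mul_right (pow_le_one' hΛ _) _
    _ = c := mul_one _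

lemma SL_mono' {Λ : B → ℝ≥0∞} (j : ℕ) {F F' : List B → ℝ≥0∞}
    (h : ∀ L, L.length = j → (∀ b ∈ L, Λ b ≠ 0) → F L ≤ F' L) : SL Λ j F ≤ SL Λ j F' := by
  refine ENNReal.tsum_le_tsum fun L => ?_
  by_cases hL : L.length = j
  · simp only [hL, if_true]
    by_cases h0 : ∀ b ∈ L, Λ b ≠ 0
    · exact mul_le_mul_right (h L hL h0) _
    · push Not at h0
      obtain ⟨b, hb, hb0⟩ := h0
      have : LW Λ L = 0 := by
        unfold LW
        exact List.prod_eq_zero (List.mem_map.2 ⟨b, hb, hb0⟩)
      rw [this, zero_mul, zero_mul]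
  · simp [hL]

open Classical in
lemma iter (h1 : ∀ b, 1 ≤ ht b) (hΛ : ∑' b, Λ b ≤ 1) (hU1 : ∀ n, U Λ ht n ≤ 1) (T i0 J : ℕ) :
    ∀ n : ℕ, J * (T + i0) ≤ n → ∀ F : List B → ℝ≥0∞, (∀ L, F L ≤ 1) →
    ∑' L, (if HT ht L = n then LW Λ L * F L else 0)
      ≤ J * Ov Λ ht T i0 + SL (Wm Λ ht T i0) J (fun P =>
        ∑' R, (if HT ht R = n - HT ht P.flatten then LW Λ R * F (P.flatten ++ R) else 0)) := by
  induction J with
  | zero =>
    intro n _ F _
    rw [SL_zero]
    simp [HT_nil]
  | succ J ih =>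
    intro n hn F hF
    have hJ : (J + 1) * (T + i0) = J * (T + i0) + (T + i0) := by ring
    refine (one_step Λ ht h1 hU1 T i0 n (by omega) F hF).trans ?_
    rw [SL_succ]
    set X : List B → ℝ≥0∞ := fun A => SL (Wm Λ ht T i0) J (fun P =>
      ∑' R, (if HT ht R = n - HT ht (A :: P).flatten then
        LW Λ R * F ((A :: P).flatten ++ R) else 0)) with hX
    calc Ov Λ ht T i0 + ∑' A, Wm Λ ht T i0 A *
          ∑' R, (if HT ht R = n - HT ht A then LW Λ R * F (A ++ R) else 0)
        ≤ Ov Λ ht T i0 + ∑' A, Wm Λ ht T i0 A * (J * Ov Λ ht T i0 + X A) := by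
          refine add_le_add le_rfl (ENNReal.tsum_le_tsum fun A => ?_)
          by_cases hA : fp ht T A ∧ HT ht A ≤ T + i0
          · refine mul_le_mul_right ?_ _
            have := ih (n - HT ht A) (by have := hA.2; omega) (fun L => F (A ++ L)) (fun L => hF _)
            refine this.trans (add_le_add le_rfl (le_of_eq ?_))
            rw [hX]
            refine SL_congr _ J fun P _ => tsum_congr fun R => ?_
            rw [List.flatten_cons, HT_append, List.append_assoc, Nat.sub_sub]
          · rw [Wm, if_neg hA, zero_mul]; exact zero_le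
      _ = Ov Λ ht T i0 + ((∑' A, Wm Λ ht T i0 A) * (J * Ov Λ ht T i0)
            + ∑' A, Wm Λ ht T i0 A * X A) := by
          simp_rw [mul_add]
          rw [ENNReal.tsum_add, ENNReal.tsum_mul_right]
      _ ≤ Ov Λ ht T i0 + (1 * (J * Ov Λ ht T i0) + ∑' A, Wm Λ ht T i0 A * X A) :=
          add_le_add le_rfl (add_le_add (mul_le_mul_left (sum_Wm Λ ht h1 hΛ T i0) _) le_rfl)
      _ = _ := by push_cast; ring

end one

section two

variable {BX BY : Type*} (ΛX : BX → ℝ≥0∞) (hX : BX → ℕ) (ΛY : BY → ℝ≥0∞) (hY : BY → ℕ)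

open Classical in
/-- both walkers cut into pieces -/
lemma two (hX1 : ∀ b, 1 ≤ hX b) (hΛX : ∑' b, ΛX b ≤ 1) (hUX : ∀ n, U ΛX hX n ≤ 1)
    (hY1 : ∀ b, 1 ≤ hY b) (hΛY : ∑' b, ΛY b ≤ 1) (hUY : ∀ n, U ΛY hY n ≤ 1)
    (T i0 J n n' : ℕ) (hn : J * (T + i0) ≤ n) (hn' : J * (T + i0) ≤ n')
    (E : List BX → List BY → Prop) (K : List (List BX) → List (List BY) → ℝ≥0∞)
    (hK : ∀ P Q RX RY, P.length = J → Q.length = J → (∀ A ∈ P, Wm ΛX hX T i0 A ≠ 0) →
      (∀ A ∈ Q, Wm ΛY hY T i0 A ≠ 0) → E (P.flatten ++ RX) (Q.flatten ++ RY) → 1 ≤ K P Q) :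
    ∑' LX, ∑' LY, (if HT hX LX = n ∧ HT hY LY = n' ∧ E LX LY then LW ΛX LX * LW ΛY LY else 0)
      ≤ J * Ov ΛX hX T i0 + J * Ov ΛY hY T i0
        + SL (Wm ΛX hX T i0) J (fun P => SL (Wm ΛY hY T i0) J (fun Q => K P Q)) := by
  set F : List BX → ℝ≥0∞ := fun LX => ∑' LY, (if HT hY LY = n' then
    LW ΛY LY * (if E LX LY then 1 else 0) else 0) with hF
  have e1 : ∑' LX, ∑' LY, (if HT hX LX = n ∧ HT hY LY = n' ∧ E LX LY
      then LW ΛX LX * LW ΛY LY else 0) = ∑' LX, (if HT hX LX = n then LW ΛX LX * F LX else 0) := by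
    refine tsum_congr fun LX => ?_
    by_cases h : HT hX LX = n
    · rw [if_pos h, hF, ← ENNReal.tsum_mul_left]
      refine tsum_congr fun LY => ?_
      by_cases h' : HT hY LY = n'
      · by_cases hE : E LX LY
        · simp [h, h', hE]
        · simp [h, h', hE]
      · simp [h']
    · simp [h]
  have hF1 : ∀ LX, F LX ≤ 1 := fun LX => by
    refine (ENNReal.tsum_le_tsum fun LY => ?_).trans (hUY n')
    by_cases h' : HT hY LY = n'
    · rw [if_pos h', if_pos h']
      calc _ ≤ LW ΛY LY * 1 := mul_le_mul_right (by split_ifs <;> simp) _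
        _ = _ := mul_one _
    · rw [if_neg h', if_neg h']
  rw [e1]
  refine (iter ΛX hX hX1 hΛX hUX T i0 J n hn F hF1).trans ?_
  rw [add_assoc]
  refine add_le_add le_rfl ?_
  calc SL (Wm ΛX hX T i0) J (fun P => ∑' R, (if HT hX R = n - HT hX P.flatten then
        LW ΛX R * F (P.flatten ++ R) else 0))
      ≤ SL (Wm ΛX hX T i0) J (fun P => J * Ov ΛY hY T i0
          + SL (Wm ΛY hY T i0) J (fun Q => K P Q)) := by
        refine SL_mono' J fun P hP hP0 => ?_
        calc ∑' R, (if HT hX R = n - HT hX P.flatten then LW ΛX R * F (P.flatten ++ R) else 0)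
            ≤ ∑' R, (if HT hX R = n - HT hX P.flatten then LW ΛX R else 0)
                * (J * Ov ΛY hY T i0 + SL (Wm ΛY hY T i0) J (fun Q => K P Q)) := by
              refine ENNReal.tsum_le_tsum fun R => ?_
              by_cases h : HT hX R = n - HT hX P.flatten
              · rw [if_pos h, if_pos h]
                refine mul_le_mul_right ?_ _
                refine (iter ΛY hY hY1 hΛY hUY T i0 J n' hn' (fun LY =>
                  if E (P.flatten ++ R) LY then 1 else 0) (fun L => by split_ifs <;> simp)).trans ?_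
                refine add_le_add le_rfl (SL_mono' J fun Q hQ hQ0 => ?_)
                calc ∑' R', (if HT hY R' = n' - HT hY Q.flatten then LW ΛY R' *
                      (if E (P.flatten ++ R) (Q.flatten ++ R') then 1 else 0) else 0)
                    ≤ ∑' R', (if HT hY R' = n' - HT hY Q.flatten then LW ΛY R' else 0)
                        * K P Q := by
                      refine ENNReal.tsum_le_tsum fun R' => ?_
                      by_cases h' : HT hY R' = n' - HT hY Q.flatten
                      · rw [if_pos h', if_pos h']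
                        refine mul_le_mul_right ?_ _
                        by_cases hE : E (P.flatten ++ R) (Q.flatten ++ R')
                        · rw [if_pos hE]; exact hK P Q R R' hP hQ hP0 hQ0 hE
                        · rw [if_neg hE]; exact zero_le
                      · rw [if_neg h', if_neg h', zero_mul]
                  _ ≤ 1 * K P Q := by
                      rw [ENNReal.tsum_mul_right]
                      exact mul_le_mul_left (hUY _) _
                  _ = K P Q := one_mul _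
              · rw [if_neg h, if_neg h, zero_mul]
          _ ≤ 1 * (J * Ov ΛY hY T i0 + SL (Wm ΛY hY T i0) J (fun Q => K P Q)) := by
              rw [ENNReal.tsum_mul_right]
              exact mul_le_mul_left (hUX _) _
          _ = _ := one_mul _
    _ ≤ J * Ov ΛY hY T i0 + SL (Wm ΛX hX T i0) J (fun P =>
          SL (Wm ΛY hY T i0) J (fun Q => K P Q)) := by
        rw [SL_add_fun]
        exact add_le_add (SL_le_const (sum_Wm ΛX hX hX1 hΛX T i0) J _) le_rfl

end two

end Crest.Agent.R154.Asm917
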