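import Crest.Agent.R154.AsmT_1

/-! Row 154, ROAD 801 (helper1): `kapS` from `H2'`, `H3'`, `H5`. -/

set_option autoImplicit false

namespace Crest.Agent.R154.AsmV1

open scoped ENNReal Topology
open Crest.Agent.R154.B5A Crest.Agent.R154.FP178 Crest.Agent.R154.AsmP1 Crest.Agent.R154.AsmQ1
open Crest.Agent.R154.AsmR1 Crest.Agent.R154.AsmS1 Crest.Agent.R154.AsmT1
open Crest.Agent.R154.Asm540 (TR Cm KS H5 TR_append TR_depth TR_shift)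

variable {BX BY G : Type*} [AddCommGroup G]
  (ΛX : BX → ℝ≥0∞) (ΛY : BY → ℝ≥0∞) (hX : BX → ℕ) (hY : BY → ℕ) (zX : BX → G) (zY : BY → G)
  (sX : BX → Set (G × ℕ)) (sY : BY → Set (G × ℕ))

open Classical in
/-- all the windows, for tall crossings -/
theorem tall (h1X : ∀ b, 1 ≤ hX b) (h1Y : ∀ b, 1 ≤ hY b) (hΛX : ∑' b, ΛX b = 1)
    (hΛY : ∑' b, ΛY b = 1) (hUX : ∀ n, U ΛX hX n ≤ 1) (hUY : ∀ n, U ΛY hY n ≤ 1)
    (hEX : ∑' b, ΛX b * (hX b : ℝ≥0∞) ≠ ⊤) (hEY : ∑' b, ΛY b * (hY b : ℝ≥0∞) ≠ ⊤)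
    (hsX : ∀ b, ∀ p ∈ sX b, 1 ≤ p.2 ∧ p.2 ≤ hX b) (hsY : ∀ b, ∀ p ∈ sY b, 1 ≤ p.2 ∧ p.2 ≤ hY b)
    (C : ℝ≥0∞) (hC : C ≠ ⊤) (us : ℕ → ℝ≥0∞) (hus : Filter.Tendsto us Filter.atTop (𝓝 0))
    (hH2 : H2' ΛX ΛY hX hY zX zY sX sY C us) (hH3 : H3' ΛX ΛY hX hY zX zY sX sY C us)
    (hH5 : H5 ΛX ΛY hX hY zX zY sX sY) (ε : ℝ≥0∞) (hε : ε ≠ 0) :
    ∃ M : ℕ, ∀ m, M ≤ m → ∀ n, 6 * m ≤ n → ∀ w,
      KS ΛX ΛY hX hY zX zY sX sY n w (Set.Ioc m (2 * m)) ≤ ε := by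
  -- the four parts
  have hε4 : ε / 4 ≠ 0 := by
    rw [Ne, ENNReal.div_eq_zero_iff, not_or]; exact ⟨hε, by norm_num⟩
  obtain ⟨q, hq2, hq⟩ := AsmA789.num hε4 6
  set J : ℕ := q ^ 3 with hJ
  set u : ℝ≥0∞ := ((q : ℝ≥0∞) ^ 2)⁻¹ with hu
  set qq : ℝ≥0∞ := 1 - (2 * (q : ℝ≥0∞) ^ 2)⁻¹ with hqq
  have hq4 : (4 : ℝ≥0∞) ≤ (q : ℝ≥0∞) ^ 2 := by
    calc (4 : ℝ≥0∞) = ((2 : ℕ) : ℝ≥0∞) ^ 2 := by norm_num
      _ ≤ _ := by gcongr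
  have hqT : (q : ℝ≥0∞) ^ 2 ≠ ⊤ := ENNReal.pow_ne_top (ENNReal.natCast_ne_top q)
  have hu0 : u ≠ 0 := ENNReal.inv_ne_zero.2 hqT
  have hu1 : u < 1 := by
    rw [hu]; exact ENNReal.inv_lt_one.2 (lt_of_lt_of_le (by norm_num) hq4)
  have hqq1 : qq ≤ 1 := tsub_le_self
  have huq : 1 - u ≤ qq := by
    rw [hqq, hu]
    refine tsub_le_tsub_left ?_ _
    exact ENNReal.inv_le_inv.2 (by
      calc (q : ℝ≥0∞) ^ 2 = 1 * (q : ℝ≥0∞) ^ 2 := (one_mul _).symm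
        _ ≤ _ := by gcongr; norm_num)
  set K : ℕ := 3 * J + 1 with hK
  have hJ1 : 1 ≤ J := Nat.one_le_iff_ne_zero.2 (pow_ne_zero _ (by omega))
  set N : ℝ≥0∞ := ((3 * J + 5 : ℕ) : ℝ≥0∞) with hN
  have hNT : N ≠ ⊤ := ENNReal.natCast_ne_top _
  -- i0
  obtain ⟨δe, hδe, -, hδe2⟩ := small (N * (4 + 2 * J)) (ENNReal.mul_ne_top hNT
    (ENNReal.add_ne_top.2 ⟨by norm_num, ENNReal.mul_ne_top (by norm_num)
      (ENNReal.natCast_ne_top J)⟩)) (ε / 4) hε4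
  have htend := (tail_tendsto ΛX hX hEX).add (tail_tendsto ΛY hY hEY)
  rw [add_zero] at htend
  obtain ⟨i0, hi0⟩ := (htend.eventually (gt_mem_nhds (pos_iff_ne_zero.2 hδe))).exists
  set e : ℝ≥0∞ := ∑' k, tail ΛX hX (i0 + k) + ∑' k, tail ΛY hY (i0 + k) with he
  have heδ : e ≤ δe := hi0.le
  -- lam
  set D : ℝ≥0∞ := 2 * ((i0 + 1 : ℕ) : ℝ≥0∞) ^ 4 * C with hD
  have hDT : D ≠ ⊤ := ENNReal.mul_ne_top (ENNReal.mul_ne_top (by norm_num)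
    (ENNReal.pow_ne_top (ENNReal.natCast_ne_top _))) hC
  have hε8 : ε / 4 / 2 ≠ 0 := by
    rw [Ne, ENNReal.div_eq_zero_iff, not_or]; exact ⟨hε4, by norm_num⟩
  obtain ⟨lam, hl0, hlT, hl⟩ := small (N * D) (ENNReal.mul_ne_top hNT hDT) (ε / 4 / 2) hε8
  -- s
  set E : ℝ≥0∞ := (2 * J * (i0 + 1)) / lam + 1 with hE
  have hET : E ≠ ⊤ := by
    refine ENNReal.add_ne_top.2 ⟨ENNReal.div_ne_top ?_ hl0, ENNReal.one_ne_top⟩
    exact ENNReal.mul_ne_top (ENNReal.mul_ne_top (by norm_num) (ENNReal.natCast_ne_top J))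
      (ENNReal.add_ne_top.2 ⟨ENNReal.natCast_ne_top i0, ENNReal.one_ne_top⟩)
  obtain ⟨δs, hδs, -, hδs2⟩ := small (N * (D * E)) (ENNReal.mul_ne_top hNT
    (ENNReal.mul_ne_top hDT hET)) (ε / 4 / 2) hε8
  obtain ⟨s, hs⟩ := (hus.eventually (gt_mem_nhds (pos_iff_ne_zero.2 hδs))).exists
  -- slabs
  obtain ⟨η, hη, -, hη2⟩ := small (N * 2) (ENNReal.mul_ne_top hNT (by norm_num)) (ε / 4) hε4
  obtain ⟨T5, hT5⟩ := hH5 (2 * i0 + s) η hη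
  refine ⟨K * (T5 + 2 * i0 + 2 * s + 1 + K), ?_⟩
  intro m hm n hn w
  set τ : ℕ := m / K with hτ
  have hK1 : 1 ≤ K := by omega
  have hτ1 : T5 + 2 * i0 + 2 * s + 1 + K ≤ τ := by
    rw [hτ, Nat.le_div_iff_mul_le (by omega), mul_comm]; exact hm
  have hτa : K * τ ≤ m := Nat.mul_div_le m K
  have hτb : m < (K + 1) * τ := by
    have h1 : m < K * (τ + 1) := by
      rw [hτ]; exact Nat.lt_mul_div_succ m (by omega)
    have h2 : K * (τ + 1) = K * τ + K := by ring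
    have h3 : (K + 1) * τ = K * τ + τ := by ring
    omega
  refine (cover ΛX ΛY hX hY zX zY sX sY n m τ K i0 s w hK1 hτa hτb (by omega)).trans ?_
  obtain ⟨θX, hθX, hX1, hX2⟩ := quantile ΛX hX zX h1X hΛX (2 * τ) u hu0 hu1
  obtain ⟨θY, hθY, hY1, hY2⟩ := quantile ΛY hY zY h1Y hΛY (2 * τ + i0) u hu0 hu1
  have hbound : ∀ j ∈ Finset.Icc (K - 1) (2 * K + 1),
      ((∑' L : List BX, ∑' L' : List BY, (if HT hX L = n ∧ HT hY L' = n ∧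
          Ev hX hY zX zY sX sY w (j * τ) (2 * τ) i0 s L L' then LW ΛX L * LW ΛY L' else 0))
        + (KS ΛX ΛY hX hY zX zY sX sY n w
            (Set.Ico (j * τ + 1) (j * τ + 1 + (2 * i0 + s)))
        + KS ΛX ΛY hX hY zX zY sX sY n w
            (Set.Ico (j * τ + 2 * τ - s + 1) (j * τ + 2 * τ - s + 1 + (2 * i0 + s)))))
      ≤ (4 * e + 2 * (qq ^ J + J * e) + u * u
        + 2 * (((i0 + 1 : ℕ) : ℝ≥0∞) ^ 4 *
          (C * (lam + (2 * J * (i0 + 1)) * us s / lam + us s)))) + (η + η) := by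
    intro j hj
    obtain ⟨hj1, hj2⟩ := Finset.mem_Icc.1 hj
    have hjJ : 3 * J ≤ j := by omega
    have hjτ : 3 * J * τ ≤ j * τ := Nat.mul_le_mul_right _ hjJ
    have hjτ' : j * τ ≤ (2 * K + 1) * τ := Nat.mul_le_mul_right _ hj2
    have hJ3 : 3 * J * τ = J * (3 * τ) := by ring
    have hτj : τ ≤ j * τ := Nat.le_mul_of_pos_left τ (by omega)
    refine add_le_add ?_ (add_le_add (hT5 _ (by omega) n w) (hT5 _ (by omega) n w))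
    refine window ΛX ΛY hX hY zX zY sX sY h1X h1Y hΛX hΛY hUX hUY hsX hsY C us hH2 hH3 (2 * τ) i0
      s n (j * τ) J w ?_ ?_ ?_ (by omega) e θX θY u qq lam ?_ ?_ hθX hθY hX1 hY1
      (hX2.trans huq) (hY2.trans huq) hqq1 hl0 hlT
    · calc J * (2 * τ + i0) ≤ J * (3 * τ) := Nat.mul_le_mul_left _ (by omega)
        _ ≤ j * τ := by omega
    · calc J * (2 * τ + i0 + i0) ≤ J * (3 * τ) := Nat.mul_le_mul_left _ (by omega)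
        _ ≤ j * τ + i0 := by omega
    · have h5 : (2 * K + 1) * τ = 2 * (K * τ) + τ := by ring
      have h6 : 4 * τ ≤ K * τ := Nat.mul_le_mul_right _ (by omega)
      omega
    · intro a
      exact (over_le' ΛX hX h1X hUX i0 a).trans le_self_add
    · intro a
      exact (over_le' ΛY hY h1Y hUY i0 a).trans le_add_self
  refine (Finset.sum_le_sum hbound).trans ?_
  rw [Finset.sum_const, nsmul_eq_mul]
  have hcard : (((Finset.Icc (K - 1) (2 * K + 1)).card : ℕ) : ℝ≥0∞) ≤ N := by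
    rw [hN, Nat.card_Icc]
    exact_mod_cast (by omega : 2 * K + 1 + 1 - (K - 1) ≤ 3 * J + 5)
  refine (mul_le_mul_left hcard _).trans ?_
  have hsplit : N * ((4 * e + 2 * (qq ^ J + J * e) + u * u
        + 2 * (((i0 + 1 : ℕ) : ℝ≥0∞) ^ 4 *
          (C * (lam + (2 * J * (i0 + 1)) * us s / lam + us s)))) + (η + η))
      = N * (4 + 2 * J) * e + N * (2 * qq ^ J + u * u) + N * D * lam + N * (D * E) * us s
        + N * 2 * η := by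
    rw [hD, hE]
    simp only [div_eq_mul_inv]
    ring
  rw [hsplit]
  have p1 : N * (4 + 2 * J) * e ≤ ε / 4 := (mul_le_mul_right heδ _).trans hδe2
  have p2 : N * (2 * qq ^ J + u * u) ≤ ε / 4 := by
    refine le_trans ?_ hq
    have h12 : (1 : ℝ≥0∞) ≤ 2 := by norm_num
    have huu : u * u ≤ 2 * (u * u) := by
      calc u * u = 1 * (u * u) := (one_mul _).symm
        _ ≤ 2 * (u * u) := mul_le_mul_left h12 _
    calc N * (2 * qq ^ J + u * u) ≤ N * (2 * qq ^ J + 2 * (u * u)) :=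
          mul_le_mul_right (add_le_add le_rfl huu) _
      _ = (N * 2) * (u ^ 2 + qq ^ J) := by ring
      _ ≤ ((6 : ℕ) : ℝ≥0∞) * ((q : ℝ≥0∞) ^ 3 + ((6 : ℕ) : ℝ≥0∞)) * (u ^ 2 + qq ^ J) := by
          refine mul_le_mul_left ?_ _
          rw [hN]
          have : (((3 * J + 5 : ℕ) : ℝ≥0∞)) * 2 = ((2 * (3 * J + 5) : ℕ) : ℝ≥0∞) := by
            push_cast; ring
          rw [this]
          have h2 : ((6 : ℕ) : ℝ≥0∞) * ((q : ℝ≥0∞) ^ 3 + ((6 : ℕ) : ℝ≥0∞))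
              = ((6 * (q ^ 3 + 6) : ℕ) : ℝ≥0∞) := by push_cast; ring
          rw [h2]
          exact_mod_cast (by omega : 2 * (3 * J + 5) ≤ 6 * (q ^ 3 + 6))
  have p4 : N * (D * E) * us s ≤ ε / 4 / 2 := (mul_le_mul_right hs.le _).trans hδs2
  calc _ ≤ ε / 4 + ε / 4 + ε / 4 / 2 + ε / 4 / 2 + ε / 4 :=
        add_le_add (add_le_add (add_le_add (add_le_add p1 p2) hl) p4) hη2
    _ = ε := by
        rw [add_assoc (ε / 4 + ε / 4), ENNReal.add_halves]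
        have h4 : ε / 4 = ε * 4⁻¹ := div_eq_mul_inv _ _
        rw [h4]
        calc ε * 4⁻¹ + ε * 4⁻¹ + ε * 4⁻¹ + ε * 4⁻¹ = ε * (4 * 4⁻¹) := by ring
          _ = ε := by rw [ENNReal.mul_inv_cancel (by norm_num) (by norm_num), mul_one]

open Classical in
/-- **the abstract assembly of ROAD 801** -/
theorem kapS (h1X : ∀ b, 1 ≤ hX b) (h1Y : ∀ b, 1 ≤ hY b) (c : ℝ≥0∞) (hc : c ≠ 0) (R : ℕ)
    (hcX : ∀ n, R ≤ n → c ≤ U ΛX hX n) (hcY : ∀ n, R ≤ n → c ≤ U ΛY hY n)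
    (hUX : ∀ n, U ΛX hX n ≤ 1) (hUY : ∀ n, U ΛY hY n ≤ 1)
    (hsX : ∀ b, ∀ p ∈ sX b, 1 ≤ p.2 ∧ p.2 ≤ hX b) (hsY : ∀ b, ∀ p ∈ sY b, 1 ≤ p.2 ∧ p.2 ≤ hY b)
    (C : ℝ≥0∞) (hC : C ≠ ⊤) (us : ℕ → ℝ≥0∞) (hus : Filter.Tendsto us Filter.atTop (𝓝 0))
    (hH2 : H2' ΛX ΛY hX hY zX zY sX sY C us) (hH3 : H3' ΛX ΛY hX hY zX zY sX sY C us)
    (hH5 : H5 ΛX ΛY hX hY zX zY sX sY) (ε : ℝ≥0∞) (hε : ε ≠ 0) :
    ∃ M : ℕ, ∀ m, M ≤ m → ∀ n, 2 * m ≤ n → ∀ w,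
      KS ΛX ΛY hX hY zX zY sX sY n w (Set.Ioc m (2 * m)) ≤ ε := by
  have hc1 : c ≤ 1 := (hcX R le_rfl).trans (hUX R)
  have hcT : c ≠ ⊤ := ne_top_of_le_ne_top ENNReal.one_ne_top hc1
  have hΛX : ∑' b, ΛX b = 1 :=
    le_antisymm (mass_le_one ΛX hX h1X hUX) (mass_ge_one ΛX hX c hc R hcX)
  have hΛY : ∑' b, ΛY b = 1 :=
    le_antisymm (mass_le_one ΛY hY h1Y hUY) (mass_ge_one ΛY hY c hc R hcY)
  have hEX : ∑' b, ΛX b * (hX b : ℝ≥0∞) ≠ ⊤ :=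
    ne_top_of_le_ne_top (ENNReal.inv_ne_top.2 hc) (mean_le ΛX hX h1X hΛX c hc hcT R hcX)
  have hEY : ∑' b, ΛY b * (hY b : ℝ≥0∞) ≠ ⊤ :=
    ne_top_of_le_ne_top (ENNReal.inv_ne_top.2 hc) (mean_le ΛY hY h1Y hΛY c hc hcT R hcY)
  have hcc0 : c * c ≠ 0 := mul_ne_zero hc hc
  have hccT : c * c ≠ ⊤ := ENNReal.mul_ne_top hcT hcT
  obtain ⟨M, hM⟩ := tall ΛX ΛY hX hY zX zY sX sY h1X h1Y hΛX hΛY hUX hUY hEX hEY hsX hsY C hC us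
    hus hH2 hH3 hH5 (ε * (c * c)) (mul_ne_zero hε hcc0)
  refine ⟨M, fun m hm n hn w => ?_⟩
  set N : ℕ := 6 * m + R with hN
  have h1 := hM m hm (n + N) (by omega) w
  have h2 := Ext583.ext_le ΛX hX ΛY hY h1X h1Y n N
    (fun L L' => ∃ g k, k ∈ Set.Ioc m (2 * m) ∧ Cm hX hY zX zY sX sY L L' w 0 0 g k) (by
      rintro LX LY RX RY - - ⟨g, k, hk, hc1, hc2⟩
      refine ⟨g, k, hk, ?_, ?_⟩
      · rw [TR_append]; exact Or.inl hc1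
      · rw [TR_append]; exact Or.inl hc2)
  have h3 : KS ΛX ΛY hX hY zX zY sX sY n w (Set.Ioc m (2 * m)) * (c * c) ≤ ε * (c * c) := by
    calc _ ≤ KS ΛX ΛY hX hY zX zY sX sY n w (Set.Ioc m (2 * m)) * (U ΛX hX N * U ΛY hY N) :=
          mul_le_mul_right (mul_le_mul' (hcX N (by omega)) (hcY N (by omega))) _
      _ ≤ KS ΛX ΛY hX hY zX zY sX sY (n + N) w (Set.Ioc m (2 * m)) := h2
      _ ≤ _ := h1
  calc KS ΛX ΛY hX hY zX zY sX sY n w (Set.Ioc m (2 * m))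
      = KS ΛX ΛY hX hY zX zY sX sY n w (Set.Ioc m (2 * m)) * (c * c) * (c * c)⁻¹ := by
        rw [mul_assoc, ENNReal.mul_inv_cancel hcc0 hccT, mul_one]
    _ ≤ ε * (c * c) * (c * c)⁻¹ := mul_le_mul_left h3 _
    _ = ε := by rw [mul_assoc, ENNReal.mul_inv_cancel hcc0 hccT, mul_one]

end Crest.Agent.R154.AsmV1
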