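import Crest.Agent.R154.AsmW_247

/-! Row 154, ROAD 801, assembly (helper247), part 5: bound of one window. -/

set_option autoImplicit false

namespace Crest.Agent.R154.Asm247

open scoped ENNReal
open Crest.Agent.R154.B5A Crest.Agent.R154.FP178

lemma swap4 {A1 A2 B1 B2 : Type*} (a : A1 → ℝ≥0∞) (b : A2 → ℝ≥0∞) (c : B1 → ℝ≥0∞)
    (e : B2 → ℝ≥0∞) (I : A1 → A2 → B1 → B2 → ℝ≥0∞) :
    ∑' x1, ∑' x2, a x1 * b x2 * ∑' y1, ∑' y2, c y1 * e y2 * I x1 x2 y1 y2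
      = ∑' x1, ∑' y1, a x1 * c y1 * ∑' x2, ∑' y2, b x2 * e y2 * I x1 x2 y1 y2 := by
  refine tsum_congr fun x1 => ?_
  simp_rw [← ENNReal.tsum_mul_left]
  rw [ENNReal.tsum_comm]
  refine tsum_congr fun y1 => tsum_congr fun x2 => tsum_congr fun y2 => ?_
  ring

variable {BX BY G : Type*} [AddCommGroup G]
  (ΛX : BX → ℝ≥0∞) (hX : BX → ℕ) (zX : BX → G) (sX : BX → Set (G × ℕ))
  (ΛY : BY → ℝ≥0∞) (hY : BY → ℕ) (zY : BY → G) (sY : BY → Set (G × ℕ))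

open Classical in
lemma toheights (P : List BX → List BY → Prop) (τ τ' i0 lo hi a a' : ℕ) (μ : G → ℝ≥0∞)
    (R0 : ℝ≥0∞)
    (hR : ∀ h, h ≤ i0 → ∀ h', h' ≤ i0 → ∑' x, μ x * ∑' L : List BX, ∑' L' : List BY,
      (if HT hX L = τ + h ∧ HT hY L' = τ' + h' ∧ P L L' ∧
        QQ (TR hX zX sX L 0 a) (TR hY zY sY L' x a') lo hi then LW ΛX L * LW ΛY L' else 0) ≤ R0) :
    ∑' x, μ x * (∑' L : List BX, ∑' L' : List BY, W1 ΛX hX τ i0 L * W1 ΛY hY τ' i0 L' *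
      (if P L L' ∧ QQ (TR hX zX sX L 0 a) (TR hY zY sY L' x a') lo hi then 1 else 0))
      ≤ (i0 + 1) * ((i0 + 1) * R0) := by
  have e1 : ∀ x, (∑' L : List BX, ∑' L' : List BY, W1 ΛX hX τ i0 L * W1 ΛY hY τ' i0 L' *
      (if P L L' ∧ QQ (TR hX zX sX L 0 a) (TR hY zY sY L' x a') lo hi then 1 else 0))
      ≤ ∑ h ∈ Finset.range (i0 + 1), ∑ h' ∈ Finset.range (i0 + 1), ∑' L : List BX,
        ∑' L' : List BY, (if HT hX L = τ + h ∧ HT hY L' = τ' + h' ∧ P L L' ∧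
        QQ (TR hX zX sX L 0 a) (TR hY zY sY L' x a') lo hi then LW ΛX L * LW ΛY L' else 0) := by
    intro x
    simp_rw [← Summable.tsum_finsetSum (fun _ _ => ENNReal.summable)]
    refine ENNReal.tsum_le_tsum fun L => ENNReal.tsum_le_tsum fun L' => ?_
    by_cases hP : P L L' ∧ QQ (TR hX zX sX L 0 a) (TR hY zY sY L' x a') lo hi
    swap
    · rw [if_neg hP, mul_zero]; exact zero_le
    by_cases h1 : fp hX τ L ∧ HT hX L ≤ τ + i0
    swap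
    · rw [W1, if_neg h1, zero_mul, zero_mul]; exact zero_le
    by_cases h2 : fp hY τ' L' ∧ HT hY L' ≤ τ' + i0
    swap
    · rw [W1, W1, if_neg h2, mul_zero, zero_mul]; exact zero_le
    rw [W1, W1, if_pos h1, if_pos h2, if_pos hP, mul_one]
    have g1 := le_HT_of_fp hX h1.1
    have g2 := le_HT_of_fp hY h2.1
    have m1 : HT hX L - τ ∈ Finset.range (i0 + 1) := by rw [Finset.mem_range]; omega
    have m2 : HT hY L' - τ' ∈ Finset.range (i0 + 1) := by rw [Finset.mem_range]; omega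
    refine le_trans ?_ (Finset.single_le_sum (f := fun h : ℕ => ∑ h' ∈ Finset.range (i0 + 1),
      (if HT hX L = τ + h ∧ HT hY L' = τ' + h' ∧ P L L' ∧
        QQ (TR hX zX sX L 0 a) (TR hY zY sY L' x a') lo hi then LW ΛX L * LW ΛY L' else 0))
      (fun _ _ => zero_le) m1)
    refine le_trans ?_ (Finset.single_le_sum (f := fun h' : ℕ =>
      (if HT hX L = τ + (HT hX L - τ) ∧ HT hY L' = τ' + h' ∧ P L L' ∧
        QQ (TR hX zX sX L 0 a) (TR hY zY sY L' x a') lo hi then LW ΛX L * LW ΛY L' else 0))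
      (fun _ _ => zero_le) m2)
    rw [if_pos ⟨by omega, by omega, hP⟩]
  calc _ ≤ ∑' x, μ x * ∑ h ∈ Finset.range (i0 + 1), ∑ h' ∈ Finset.range (i0 + 1),
        ∑' L : List BX, ∑' L' : List BY, (if HT hX L = τ + h ∧ HT hY L' = τ' + h' ∧ P L L' ∧
        QQ (TR hX zX sX L 0 a) (TR hY zY sY L' x a') lo hi then LW ΛX L * LW ΛY L' else 0) :=
        ENNReal.tsum_le_tsum fun x => mul_le_mul_right (e1 x) _
    _ = ∑ h ∈ Finset.range (i0 + 1), ∑ h' ∈ Finset.range (i0 + 1), ∑' x, μ x *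
        ∑' L : List BX, ∑' L' : List BY, (if HT hX L = τ + h ∧ HT hY L' = τ' + h' ∧ P L L' ∧
        QQ (TR hX zX sX L 0 a) (TR hY zY sY L' x a') lo hi then LW ΛX L * LW ΛY L' else 0) := by
        simp_rw [Finset.mul_sum]
        rw [Summable.tsum_finsetSum (fun _ _ => ENNReal.summable)]
        refine Finset.sum_congr rfl fun h _ => ?_
        rw [Summable.tsum_finsetSum (fun _ _ => ENNReal.summable)]
    _ ≤ ∑ h ∈ Finset.range (i0 + 1), ∑ h' ∈ Finset.range (i0 + 1), R0 := by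
        refine Finset.sum_le_sum fun h hh => Finset.sum_le_sum fun h' hh' => ?_
        rw [Finset.mem_range] at hh hh'
        exact hR h (by omega) h' (by omega)
    _ = _ := by simp

open Classical in
/-- mass of the non-local pieces -/
lemma nonlocal_mass {B : Type*} (Λ : B → ℝ≥0∞) (ht : B → ℕ) (z : B → G) (τ i0 : ℕ)
    (θ u : ℝ≥0∞) (hu : ∑' κ, (if mk Λ ht z τ κ < θ then mk Λ ht z τ κ else 0) ≤ u) :
    ∑' L, W1 Λ ht τ i0 L * (if mk Λ ht z τ (ky ht z L) < θ then 1 else 0) ≤ u := by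
  refine le_trans ?_ hu
  have := keysum Λ ht z τ (fun κ => if mk Λ ht z τ κ < θ then 1 else 0)
  have e : ∀ κ, mk Λ ht z τ κ * (if mk Λ ht z τ κ < θ then 1 else 0)
      = (if mk Λ ht z τ κ < θ then mk Λ ht z τ κ else 0) := by
    intro κ; split_ifs <;> simp
  rw [tsum_congr e] at this
  rw [← this]
  refine ENNReal.tsum_le_tsum fun L => ?_
  by_cases h : fp ht τ L ∧ HT ht L ≤ τ + i0
  · rw [W1, if_pos h, if_pos h.1]
  · rw [W1, if_neg h, zero_mul]; exact zero_le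

/-- finite level sets -/
lemma level_finset {B : Type*} (Λ : B → ℝ≥0∞) (ht : B → ℕ) (z : B → G) (h1 : ∀ b, 1 ≤ ht b)
    (hΛ : ∑' b, Λ b ≤ 1) (τ : ℕ) (θ : ℝ≥0∞) (hθ : θ ≠ 0) (i : ℤ) :
    ∃ E : Finset G, (∀ v, v ∈ E ↔ θ ≤ mk Λ ht z τ (i, v)) ∧ θ * (E.card : ℝ≥0∞) ≤ 1 := by
  classical
  have hs : ∑' v : G, mk Λ ht z τ (i, v) ≤ 1 :=
    le_trans (ENNReal.tsum_comp_le_tsum_of_injective (Prod.mk_right_injective i) (mk Λ ht z τ))
      (mk_mass Λ ht z h1 hΛ τ)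
  have hfin : {v : G | θ ≤ mk Λ ht z τ (i, v)}.Finite :=
    ENNReal.finite_const_le_of_tsum_ne_top (ne_top_of_le_ne_top ENNReal.one_ne_top hs) hθ
  refine ⟨hfin.toFinset, fun v => by simp, ?_⟩
  calc θ * (hfin.toFinset.card : ℝ≥0∞) = ∑ v ∈ hfin.toFinset, θ := by
        rw [Finset.sum_const, nsmul_eq_mul, mul_comm]
    _ ≤ ∑ v ∈ hfin.toFinset, mk Λ ht z τ (i, v) := by
        refine Finset.sum_le_sum fun v hv => ?_
        simpa using hv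
    _ ≤ ∑' v, mk Λ ht z τ (i, v) := ENNReal.sum_le_tsum _
    _ ≤ 1 := hs

open Classical in
/-- **bound of one window** -/
theorem window (h1X : ∀ b, 1 ≤ hX b) (h1Y : ∀ b, 1 ≤ hY b)
    (hUX : ∀ n, U ΛX hX n ≤ 1) (hUY : ∀ n, U ΛY hY n ≤ 1)
    (hΛX : ∑' b, ΛX b ≤ 1) (hΛY : ∑' b, ΛY b ≤ 1)
    (hsX : ∀ b, ∀ q ∈ sX b, 1 ≤ q.2 ∧ q.2 ≤ hX b) (hsY : ∀ b, ∀ q ∈ sY b, 1 ≤ q.2 ∧ q.2 ≤ hY b)
    (C : ℝ≥0∞) (us : ℕ → ℝ≥0∞)
    (H2 : H2P ΛX hX zX sX ΛY hY zY sY C us) (H3 : H3P ΛX hX zX sX ΛY hY zY sY C us)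
    (c τ i0 n lo hi hi2 s J : ℕ) (w : G) (hn : (c + i0) + i0 + (τ + i0) ≤ n)
    (hlo : c + i0 + i0 + s < lo) (hhi : hi + s ≤ c + τ) (hhi2 : c + τ + 2 * i0 ≤ hi2)
    (lam u β θX θY : ℝ≥0∞) (hl : lam ≠ 0) (hl' : lam ≠ ⊤) (hθX : θX ≠ 0) (hθY : θY ≠ 0)
    (huX : ∑' κ, (if mk ΛX hX zX τ κ < θX then mk ΛX hX zX τ κ else 0) ≤ u)
    (huY : ∑' κ, (if mk ΛY hY zY (τ + i0) κ < θY then mk ΛY hY zY (τ + i0) κ else 0) ≤ u)
    (hdX : ∃ g b : ℤ × G → ℝ≥0∞, (∀ κ, mk ΛX hX zX c κ ≤ g κ + b κ) ∧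
      (∀ κ, g κ ≤ J * ((i0 + 1) * θX)) ∧ ∑' κ, b κ ≤ β)
    (hdY : ∃ g b : ℤ × G → ℝ≥0∞, (∀ κ, mk ΛY hY zY (c + i0) κ ≤ g κ + b κ) ∧
      (∀ κ, g κ ≤ J * ((i0 + 1) * θY)) ∧ ∑' κ, b κ ≤ β) :
    ∑' L : List BX, ∑' L' : List BY, (if HT hX L = n ∧ HT hY L' = n ∧
        WE (TR hX zX sX L 0 0) (TR hY zY sY L' w 0) lo hi hi2 then LW ΛX L * LW ΛY L' else 0)
      ≤ u * u + 2 * (β + (i0 + 1) * ((i0 + 1) * ((i0 + 1) * ((i0 + 1) *
          (C * (lam + J * (i0 + 1) * us s / lam + us s))))))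
        + (2 * ∑' k, tail ΛY hY (i0 + k) + 2 * ∑' k, tail ΛX hX (i0 + k)) := by
  refine le_trans (win_pieces ΛX hX zX sX ΛY hY zY sY h1X h1Y hUX hUY hΛX hΛY hsX hsY c τ i0 n lo hi
    hi2 w hn (by omega) (by omega) hhi2) ?_
  rw [add_assoc]
  refine add_le_add ?_ le_rfl
  set R0 : ℝ≥0∞ := C * (lam + J * (i0 + 1) * us s / lam + us s) with hR0
  obtain ⟨lX, hlX⟩ : ∃ lX : List BX → Prop, ∀ L, lX L ↔ θX ≤ mk ΛX hX zX τ (ky hX zX L) :=
    ⟨_, fun _ => Iff.rfl⟩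
  obtain ⟨lY, hlY⟩ : ∃ lY : List BY → Prop, ∀ L, lY L ↔ θY ≤ mk ΛY hY zY (τ + i0) (ky hY zY L) :=
    ⟨_, fun _ => Iff.rfl⟩
  set I : List BX → List BX → List BY → List BY → ℝ≥0∞ := fun L1 L2 L1' L2' =>
    if QQ (TR hX zX sX L2 (Dp zX L1) (HT hX L1))
              (TR hY zY sY L2' (w + Dp zY L1') (HT hY L1')) lo hi then 1 else 0 with hI
  have hMul : ∀ (θ : ℝ≥0∞) (E : Finset G), θ * (E.card : ℝ≥0∞) ≤ 1 →
      C * (lam + J * ((i0 + 1) * θ) * (E.card : ℝ≥0∞) * us s / lam + us s) ≤ R0 := by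
    intro θ E h
    simp only [hR0]
    have : (J : ℝ≥0∞) * ((i0 + 1) * θ) * (E.card : ℝ≥0∞) ≤ J * (i0 + 1) := by
      calc (J : ℝ≥0∞) * ((i0 + 1) * θ) * (E.card : ℝ≥0∞) = J * (i0 + 1) * (θ * E.card) := by ring
        _ ≤ J * (i0 + 1) * 1 := by gcongr
        _ = _ := mul_one _
    gcongr
  -- pointwise split
  have hsplit : ∀ L1 L2 L1' L2', I L1 L2 L1' L2'
      ≤ ((if ¬ lX L2 then 1 else 0) * (if ¬ lY L2' then 1 else 0))
        + ((if lX L2 ∧ QQ (TR hX zX sX L2 (Dp zX L1) (HT hX L1))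
              (TR hY zY sY L2' (w + Dp zY L1') (HT hY L1')) lo hi then 1 else 0)
        + (if lY L2' ∧ QQ (TR hX zX sX L2 (Dp zX L1) (HT hX L1))
              (TR hY zY sY L2' (w + Dp zY L1') (HT hY L1')) lo hi then 1 else 0)) := by
    intro L1 L2 L1' L2'
    simp only [hI]
    by_cases hq : QQ (TR hX zX sX L2 (Dp zX L1) (HT hX L1))
              (TR hY zY sY L2' (w + Dp zY L1') (HT hY L1')) lo hi
    swap
    · rw [if_neg hq]; exact zero_le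
    rw [if_pos hq]
    by_cases ha : lX L2
    · rw [if_pos (⟨ha, hq⟩ : lX L2 ∧ _)]
      exact le_trans le_self_add le_add_self
    · by_cases hb : lY L2'
      · rw [if_pos (⟨hb, hq⟩ : lY L2' ∧ _)]
        exact le_trans le_add_self le_add_self
      · rw [if_pos ha, if_pos hb, one_mul]
        exact le_self_add
  rw [swap4]
  -- the three parts
  have t1 : ∑' L1, ∑' L1', W1 ΛX hX c i0 L1 * W1 ΛY hY (c + i0) i0 L1' *
      ∑' L2, ∑' L2', W1 ΛX hX τ i0 L2 * W1 ΛY hY (τ + i0) i0 L2' *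
        ((if ¬ lX L2 then 1 else 0) * (if ¬ lY L2' then 1 else 0)) ≤ u * u := by
    have e : ∀ L2 L2', W1 ΛX hX τ i0 L2 * W1 ΛY hY (τ + i0) i0 L2' *
        ((if ¬ lX L2 then 1 else 0) * (if ¬ lY L2' then 1 else 0))
        = (W1 ΛX hX τ i0 L2 * (if ¬ lX L2 then 1 else 0)) *
          (W1 ΛY hY (τ + i0) i0 L2' * (if ¬ lY L2' then 1 else 0)) := by
      intro L2 L2'; ring
    simp_rw [e, ENNReal.tsum_mul_left, ENNReal.tsum_mul_right]
    have a1 := W1_mass ΛX hX h1X hΛX c i0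
    have a2 := W1_mass ΛY hY h1Y hΛY (c + i0) i0
    have a3 : ∑' L, W1 ΛX hX τ i0 L * (if ¬ lX L then 1 else 0) ≤ u := by
      refine le_trans (le_of_eq (tsum_congr fun L => ?_)) (nonlocal_mass ΛX hX zX τ i0 θX u huX)
      congr 1
      by_cases h : lX L
      · rw [if_neg (not_not.2 h), if_neg (not_lt.2 ((hlX L).1 h))]
      · rw [if_pos h, if_pos (not_le.1 (fun h' => h ((hlX L).2 h')))]
    have a4 : ∑' L, W1 ΛY hY (τ + i0) i0 L * (if ¬ lY L then 1 else 0) ≤ u := by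
      refine le_trans (le_of_eq (tsum_congr fun L => ?_))
        (nonlocal_mass ΛY hY zY (τ + i0) i0 θY u huY)
      congr 1
      by_cases h : lY L
      · rw [if_neg (not_not.2 h), if_neg (not_lt.2 ((hlY L).1 h))]
      · rw [if_pos h, if_pos (not_le.1 (fun h' => h ((hlY L).2 h')))]
    have a12 : ∑' L : List BX, ∑' L' : List BY, W1 ΛX hX c i0 L * W1 ΛY hY (c + i0) i0 L' ≤ 1 := by
      simp_rw [ENNReal.tsum_mul_left, ENNReal.tsum_mul_right]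
      calc _ ≤ (1 : ℝ≥0∞) * 1 := mul_le_mul' a1 a2
        _ = 1 := one_mul 1
    calc _ ≤ 1 * (u * u) := mul_le_mul' a12 (mul_le_mul' a3 a4)
      _ = u * u := one_mul _
  have t2 : ∑' L1, ∑' L1', W1 ΛX hX c i0 L1 * W1 ΛY hY (c + i0) i0 L1' *
      ∑' L2, ∑' L2', W1 ΛX hX τ i0 L2 * W1 ΛY hY (τ + i0) i0 L2' *
        (if lX L2 ∧ QQ (TR hX zX sX L2 (Dp zX L1) (HT hX L1))
              (TR hY zY sY L2' (w + Dp zY L1') (HT hY L1')) lo hi then 1 else 0)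
      ≤ β + (i0 + 1) * ((i0 + 1) * ((i0 + 1) * ((i0 + 1) * R0))) := by
    have e : ∀ L1 L1', ∑' L2, ∑' L2', W1 ΛX hX τ i0 L2 * W1 ΛY hY (τ + i0) i0 L2' *
        (if lX L2 ∧ QQ (TR hX zX sX L2 (Dp zX L1) (HT hX L1))
              (TR hY zY sY L2' (w + Dp zY L1') (HT hY L1')) lo hi then 1 else 0)
        = (fun a a' x => ∑' L2, ∑' L2', W1 ΛX hX τ i0 L2 * W1 ΛY hY (τ + i0) i0 L2' *
          (if lX L2 ∧ QQ (TR hX zX sX L2 0 a) (TR hY zY sY L2' x a') lo hi then (1 : ℝ≥0∞) else 0))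
          (HT hX L1) (HT hY L1') (w + Dp zY L1' - Dp zX L1) := by
      intro L1 L1'
      simp only [QQ_shift hX zX sX hY zY sY _ _ (Dp zX L1) (w + Dp zY L1')]
    simp_rw [e]
    refine pair' ΛX hX zX ΛY hY zY h1X h1Y hΛX hΛY c (c + i0) i0 (J * ((i0 + 1) * θX)) β
      ((i0 + 1) * ((i0 + 1) * R0)) hdX
      (fun a a' x => ∑' L2, ∑' L2', W1 ΛX hX τ i0 L2 * W1 ΛY hY (τ + i0) i0 L2' *
          (if lX L2 ∧ QQ (TR hX zX sX L2 0 a) (TR hY zY sY L2' x a') lo hi then (1 : ℝ≥0∞) else 0))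
      ?_ w ?_
    · intro a a' x
      calc _ ≤ ∑' L2, ∑' L2', W1 ΛX hX τ i0 L2 * W1 ΛY hY (τ + i0) i0 L2' * 1 := by
            refine ENNReal.tsum_le_tsum fun L2 => ENNReal.tsum_le_tsum fun L2' => ?_
            gcongr; split_ifs <;> simp
        _ ≤ 1 := by
            simp_rw [mul_one, ENNReal.tsum_mul_left, ENNReal.tsum_mul_right]
            calc _ ≤ (1 : ℝ≥0∞) * 1 := mul_le_mul' (W1_mass ΛX hX h1X hΛX τ i0)
                  (W1_mass ΛY hY h1Y hΛY (τ + i0) i0)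
              _ = 1 := one_mul 1
    · intro a a' ha1 ha2 ha3 ha4 μ hμ hμM
      refine toheights ΛX hX zX sX ΛY hY zY sY (fun L _ => lX L) τ (τ + i0) i0 lo hi a a' μ R0 ?_
      intro h hh h' hh'
      obtain ⟨E, hE, hEc⟩ := level_finset ΛX hX zX h1X hΛX τ θX hθX ((τ + h : ℕ) : ℤ)
      refine le_trans ?_ (le_trans (H2 s (τ + h) (τ + i0 + h') a a' lo E μ
        (J * ((i0 + 1) * θX)) lam hμ hμM hl hl' (by omega) (by omega) (by omega)) (hMul θX E hEc))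
      refine ENNReal.tsum_le_tsum fun x => mul_le_mul_right ?_ _
      refine ENNReal.tsum_le_tsum fun L => ENNReal.tsum_le_tsum fun L' => ?_
      by_cases hq : HT hX L = τ + h ∧ HT hY L' = τ + i0 + h' ∧ lX L ∧
          QQ (TR hX zX sX L 0 a) (TR hY zY sY L' x a') lo hi
      swap
      · rw [if_neg hq]; exact zero_le
      rw [if_pos hq]
      obtain ⟨q1, q2, q3, q4, q5⟩ := hq
      have hm : Dp zX L ∈ E := by
        have : ky hX zX L = (((τ + h : ℕ) : ℤ), Dp zX L) := by rw [ky, q1]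
        rw [hE, ← this]
        exact (hlX L).1 q3
      rw [if_pos ⟨q1, hm, q2, q4, fun v k hv1 hv2 => (q5 v k hv1 hv2).1⟩]
  have t3 : ∑' L1, ∑' L1', W1 ΛX hX c i0 L1 * W1 ΛY hY (c + i0) i0 L1' *
      ∑' L2, ∑' L2', W1 ΛX hX τ i0 L2 * W1 ΛY hY (τ + i0) i0 L2' *
        (if lY L2' ∧ QQ (TR hX zX sX L2 (Dp zX L1) (HT hX L1))
              (TR hY zY sY L2' (w + Dp zY L1') (HT hY L1')) lo hi then 1 else 0)
      ≤ β + (i0 + 1) * ((i0 + 1) * ((i0 + 1) * ((i0 + 1) * R0))) := by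
    rw [ENNReal.tsum_comm]
    have e : ∀ L1' L1, W1 ΛX hX c i0 L1 * W1 ΛY hY (c + i0) i0 L1' *
        ∑' L2, ∑' L2', W1 ΛX hX τ i0 L2 * W1 ΛY hY (τ + i0) i0 L2' *
        (if lY L2' ∧ QQ (TR hX zX sX L2 (Dp zX L1) (HT hX L1))
              (TR hY zY sY L2' (w + Dp zY L1') (HT hY L1')) lo hi then 1 else 0)
        = W1 ΛY hY (c + i0) i0 L1' * W1 ΛX hX c i0 L1 *
          (fun a' a x => ∑' L2, ∑' L2', W1 ΛX hX τ i0 L2 * W1 ΛY hY (τ + i0) i0 L2' *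
          (if lY L2' ∧ QQ (TR hX zX sX L2 0 a) (TR hY zY sY L2' (-x) a') lo hi
            then (1 : ℝ≥0∞) else 0))
          (HT hY L1') (HT hX L1) (-w + Dp zX L1 - Dp zY L1') := by
      intro L1' L1
      have : -(-w + Dp zX L1 - Dp zY L1') = w + Dp zY L1' - Dp zX L1 := by abel
      simp only [QQ_shift hX zX sX hY zY sY _ _ (Dp zX L1) (w + Dp zY L1'), this]
      rw [mul_comm (W1 ΛX hX c i0 L1)]
    simp_rw [e]
    refine pair' ΛY hY zY ΛX hX zX h1Y h1X hΛY hΛX (c + i0) c i0 (J * ((i0 + 1) * θY)) β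
      ((i0 + 1) * ((i0 + 1) * R0)) hdY
      (fun a' a x => ∑' L2, ∑' L2', W1 ΛX hX τ i0 L2 * W1 ΛY hY (τ + i0) i0 L2' *
          (if lY L2' ∧ QQ (TR hX zX sX L2 0 a) (TR hY zY sY L2' (-x) a') lo hi
            then (1 : ℝ≥0∞) else 0))
      ?_ (-w) ?_
    · intro a a' x
      calc _ ≤ ∑' L2, ∑' L2', W1 ΛX hX τ i0 L2 * W1 ΛY hY (τ + i0) i0 L2' * 1 := by
            refine ENNReal.tsum_le_tsum fun L2 => ENNReal.tsum_le_tsum fun L2' => ?_
            gcongr; split_ifs <;> simp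
        _ ≤ 1 := by
            simp_rw [mul_one, ENNReal.tsum_mul_left, ENNReal.tsum_mul_right]
            calc _ ≤ (1 : ℝ≥0∞) * 1 := mul_le_mul' (W1_mass ΛX hX h1X hΛX τ i0)
                  (W1_mass ΛY hY h1Y hΛY (τ + i0) i0)
              _ = 1 := one_mul 1
    · intro a' a ha1 ha2 ha3 ha4 μ hμ hμM
      rw [← (Equiv.neg G).tsum_eq]
      simp only [Equiv.neg_apply, neg_neg]
      refine toheights ΛX hX zX sX ΛY hY zY sY (fun _ L' => lY L') τ (τ + i0) i0 lo hi a a'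
        (fun x => μ (-x)) R0 ?_
      intro h hh h' hh'
      obtain ⟨E, hE, hEc⟩ := level_finset ΛY hY zY h1Y hΛY (τ + i0) θY hθY ((τ + i0 + h' : ℕ) : ℤ)
      refine le_trans ?_ (le_trans (H3 s (τ + h) (τ + i0 + h') a a' hi E (fun x => μ (-x))
        (J * ((i0 + 1) * θY)) lam ?_ (fun x => hμM _) hl hl' (by omega) (by omega) (by omega))
        (hMul θY E hEc))
      · refine ENNReal.tsum_le_tsum fun x => mul_le_mul_right ?_ _
        refine ENNReal.tsum_le_tsum fun L => ENNReal.tsum_le_tsum fun L' => ?_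
        by_cases hq : HT hX L = τ + h ∧ HT hY L' = τ + i0 + h' ∧ lY L' ∧
            QQ (TR hX zX sX L 0 a) (TR hY zY sY L' x a') lo hi
        swap
        · rw [if_neg hq]; exact zero_le
        rw [if_pos hq]
        obtain ⟨q1, q2, q3, q4, q5⟩ := hq
        have hm : Dp zY L' ∈ E := by
          have : ky hY zY L' = (((τ + i0 + h' : ℕ) : ℤ), Dp zY L') := by rw [ky, q2]
          rw [hE, ← this]
          exact (hlY L').1 q3
        rw [if_pos ⟨q1, hm, q2, q4, fun v k hv1 hv2 => (q5 v k hv1 hv2).2⟩]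
      · exact le_trans (le_of_eq ((Equiv.neg G).tsum_eq (fun x => μ x))) hμ
  calc ∑' L1, ∑' L1', W1 ΛX hX c i0 L1 * W1 ΛY hY (c + i0) i0 L1' *
        ∑' L2, ∑' L2', W1 ΛX hX τ i0 L2 * W1 ΛY hY (τ + i0) i0 L2' * I L1 L2 L1' L2'
      ≤ ∑' L1, ∑' L1', W1 ΛX hX c i0 L1 * W1 ΛY hY (c + i0) i0 L1' *
        ∑' L2, ∑' L2', W1 ΛX hX τ i0 L2 * W1 ΛY hY (τ + i0) i0 L2' *
        (((if ¬ lX L2 then 1 else 0) * (if ¬ lY L2' then 1 else 0))
        + ((if lX L2 ∧ QQ (TR hX zX sX L2 (Dp zX L1) (HT hX L1))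
              (TR hY zY sY L2' (w + Dp zY L1') (HT hY L1')) lo hi then 1 else 0)
        + (if lY L2' ∧ QQ (TR hX zX sX L2 (Dp zX L1) (HT hX L1))
              (TR hY zY sY L2' (w + Dp zY L1') (HT hY L1')) lo hi then 1 else 0))) := by
        refine ENNReal.tsum_le_tsum fun L1 => ENNReal.tsum_le_tsum fun L1' =>
          mul_le_mul_right (ENNReal.tsum_le_tsum fun L2 => ENNReal.tsum_le_tsum fun L2' =>
          mul_le_mul_right (hsplit L1 L2 L1' L2') _) _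
    _ ≤ u * u + ((β + (i0 + 1) * ((i0 + 1) * ((i0 + 1) * ((i0 + 1) * R0)))) +
          (β + (i0 + 1) * ((i0 + 1) * ((i0 + 1) * ((i0 + 1) * R0))))) := by
        refine le_trans (le_of_eq ?_) (add_le_add t1 (add_le_add t2 t3))
        simp_rw [mul_add, ENNReal.tsum_add, mul_add, ENNReal.tsum_add]
    _ = _ := by rw [two_mul]

end Crest.Agent.R154.Asm247
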