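import Crest.Agent.R154.AsmZ_34

/-! Row 154 (helper34), ROAD 801: one window of the abstract assembly, part 5: the window inequality. -/

set_option autoImplicit false

namespace Crest.Agent.R154.Asm34

open scoped ENNReal
open Crest.Agent.R154.B5A Crest.Agent.R154.FP178

variable {BX BY G : Type*} [AddCommGroup G] (ΛX : BX → ℝ≥0∞) (hX : BX → ℕ) (zX : BX → G)
  (ΛY : BY → ℝ≥0∞) (hY : BY → ℕ) (zY : BY → G)
variable (tX : List BX → G → ℕ → Set (G × ℕ)) (tY : List BY → G → ℕ → Set (G × ℕ))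
variable (hTX : Tr hX zX tX) (hTY : Tr hY zY tY)

lemma of_cw_ne {B : Type*} {Λ : B → ℝ≥0∞} {ht : B → ℕ} {T i0 : ℕ} {L : List B}
    (h : cw Λ ht T i0 L ≠ 0) : T ≤ HT ht L ∧ HT ht L ≤ T + i0 := by
  classical
  unfold cw at h
  by_cases h' : fp ht T L ∧ HT ht L ≤ T + i0
  · exact ⟨le_HT_of_fp ht h'.1, h'.2⟩
  · rw [if_neg h'] at h; exact absurd rfl h

lemma ite_inst (p : Prop) (i j : Decidable p) :
    @ite ℝ≥0∞ p i 1 0 = @ite ℝ≥0∞ p j 1 0 := by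
  by_cases h : p
  · rw [if_pos h, if_pos h]
  · rw [if_neg h, if_neg h]

open Classical in
include hTX hTY in
theorem window (T τ T' τ' i0 n lo hi mid : ℕ) (w : G) (hn : T + i0 + τ ≤ n)
    (hn' : T' + i0 + τ' ≤ n) (g1 : T + i0 < lo) (g2 : T' + i0 < lo)
    (g3 : mid ≤ T + τ) (g4 : mid ≤ T' + τ')
    (h1X : ∀ b, 1 ≤ hX b) (h1Y : ∀ b, 1 ≤ hY b) (hΛX : ∑' b, ΛX b ≤ 1) (hΛY : ∑' b, ΛY b ≤ 1)
    (hUX : ∀ n, U ΛX hX n ≤ 1) (hUY : ∀ n, U ΛY hY n ≤ 1)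
    (GX : List BX → Prop) (GY : List BY → Prop) (EX EY : ℕ → Set G)
    (bX bY uX uY MX MY R2 R3 : ℝ≥0∞)
    (hbX : ∑' L, (if fp hX T L ∧ ¬ GX L then LW ΛX L else 0) ≤ bX)
    (hbY : ∑' L, (if fp hY T' L ∧ ¬ GY L then LW ΛY L else 0) ≤ bY)
    (huX : ∑' L, (if fp hX τ L ∧ Dp zX L ∉ EX (HT hX L) then LW ΛX L else 0) ≤ uX)
    (huY : ∑' L, (if fp hY τ' L ∧ Dp zY L ∉ EY (HT hY L) then LW ΛY L else 0) ≤ uY)
    (hdX : ∀ x, ∑' L, (if fp hX T L ∧ GX L ∧ Dp zX L = x then LW ΛX L else 0) ≤ MX)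
    (hdY : ∀ x, ∑' L, (if fp hY T' L ∧ GY L ∧ Dp zY L = x then LW ΛY L else 0) ≤ MY)
    (hH2 : ∀ a a' h h', T ≤ a → a ≤ T + i0 → T' ≤ a' → a' ≤ T' + i0 → τ ≤ h → h ≤ τ + i0 →
      τ' ≤ h' → h' ≤ τ' + i0 → ∀ μ : G → ℝ≥0∞, (∑' x, μ x ≤ 1) → (∀ x, μ x ≤ MX) →
      ∑' x, μ x * ∑' L, ∑' L', (if HT hX L = h ∧ Dp zX L ∈ EX h ∧ HT hY L' = h' ∧
        (∃ z k, (z, k) ∈ tX L 0 a ∧ (z, k) ∈ tY L' x a') ∧
        (∀ z k, (z, k) ∈ tX L 0 a → (z, k) ∈ tY L' x a' → lo ≤ k)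
        then LW ΛX L * LW ΛY L' else 0) ≤ R2)
    (hH3 : ∀ a a' h h', T ≤ a → a ≤ T + i0 → T' ≤ a' → a' ≤ T' + i0 → τ ≤ h → h ≤ τ + i0 →
      τ' ≤ h' → h' ≤ τ' + i0 → ∀ μ : G → ℝ≥0∞, (∑' x, μ x ≤ 1) → (∀ x, μ x ≤ MY) →
      ∑' x, μ x * ∑' L, ∑' L', (if HT hX L = h ∧ HT hY L' = h' ∧ Dp zY L' ∈ EY h' ∧
        (∃ z k, (z, k) ∈ tX L 0 a ∧ (z, k) ∈ tY L' x a') ∧
        (∀ z k, (z, k) ∈ tX L 0 a → (z, k) ∈ tY L' x a' → k ≤ hi)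
        then LW ΛX L * LW ΛY L' else 0) ≤ R3) :
    ∑' LX, ∑' LY, (if HT hX LX = n ∧ HT hY LY = n ∧
        Ev tX tY lo hi (T + τ + 2 * i0) mid w LX LY then LW ΛX LX * LW ΛY LY else 0)
      ≤ (bX + bY + uX * uY + ((i0 + 1 : ℕ) : ℝ≥0∞) ^ 4 * R2 + ((i0 + 1 : ℕ) : ℝ≥0∞) ^ 4 * R3)
        + ((ov ΛX hX T i0 + ov ΛX hX τ i0) + (ov ΛY hY T' i0 + ov ΛY hY τ' i0)) := by
  refine le_trans (cut_pair ΛX hX ΛY hY h1X h1Y hΛX hΛY hUX hUY T τ T' τ' i0 n hn hn'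
    (Ev tX tY lo hi (T + τ + 2 * i0) mid w)) ?_
  refine add_le_add ?_ le_rfl
  -- the five terms
  set f1 : List BX → List BX → List BY → List BY → ℝ≥0∞ := fun X1 _ _ _ =>
    ((if GX X1 then 0 else 1) * 1) * (1 * 1) with hf1
  set f2 : List BX → List BX → List BY → List BY → ℝ≥0∞ := fun _ _ Y1 _ =>
    (1 * (if GY Y1 then 0 else 1)) * (1 * 1) with hf2
  set f3 : List BX → List BX → List BY → List BY → ℝ≥0∞ := fun _ X2 _ Y2 =>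
    (1 * 1) * ((if Dp zX X2 ∈ EX (HT hX X2) then 0 else 1) *
      (if Dp zY Y2 ∈ EY (HT hY Y2) then 0 else 1)) with hf3
  set f4 : List BX → List BX → List BY → List BY → ℝ≥0∞ := fun X1 X2 Y1 Y2 =>
    (if GX X1 ∧ True ∧ Dp zX X2 ∈ EX (HT hX X2) ∧ True ∧
      Pc tX tY lo hi X2 Y2 (w + Dp zY Y1 - Dp zX X1) (HT hX X1) (HT hY Y1) then 1 else 0) with hf4
  set f5 : List BX → List BX → List BY → List BY → ℝ≥0∞ := fun X1 X2 Y1 Y2 =>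
    (if True ∧ GY Y1 ∧ True ∧ Dp zY Y2 ∈ EY (HT hY Y2) ∧
      Pc tX tY lo hi X2 Y2 (w + Dp zY Y1 - Dp zX X1) (HT hX X1) (HT hY Y1) then 1 else 0) with hf5
  have hsplit : S4 ΛX hX ΛY hY T τ T' τ' i0 (fun X1 X2 Y1 Y2 =>
      if ∃ X3 Y3, Ev tX tY lo hi (T + τ + 2 * i0) mid w (X1 ++ (X2 ++ X3)) (Y1 ++ (Y2 ++ Y3))
        then 1 else 0)
      ≤ S4 ΛX hX ΛY hY T τ T' τ' i0 (fun X1 X2 Y1 Y2 => (((f1 X1 X2 Y1 Y2 + f2 X1 X2 Y1 Y2)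
        + f3 X1 X2 Y1 Y2) + f4 X1 X2 Y1 Y2) + f5 X1 X2 Y1 Y2) := by
    refine S4_mono ΛX hX ΛY hY T τ T' τ' i0 fun X1 X2 Y1 Y2 c1 c2 c3 c4 => ?_
    by_cases hE : ∃ X3 Y3, Ev tX tY lo hi (T + τ + 2 * i0) mid w (X1 ++ (X2 ++ X3))
        (Y1 ++ (Y2 ++ Y3))
    swap
    · rw [if_neg hE]; exact zero_le
    obtain ⟨X3, Y3, hE'⟩ := hE
    rw [if_pos ⟨X3, Y3, hE'⟩]
    obtain ⟨a1, a2⟩ := of_cw_ne c1
    obtain ⟨a3, a4⟩ := of_cw_ne c2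
    obtain ⟨b1, b2⟩ := of_cw_ne c3
    obtain ⟨b3, b4⟩ := of_cw_ne c4
    have hP := pieces_of hX zX hY zY tX tY hTX hTY g1 g2 g3 g4 a1 a2 a3 a4 b1 b2 b3 hE'
    by_cases hG1 : GX X1
    swap
    · simp only [hf1, hG1, if_false, mul_one]
      exact le_add_right (le_add_right (le_add_right (le_add_right le_rfl)))
    by_cases hG2 : GY Y1
    swap
    · simp only [hf2, hG2, if_false, mul_one]
      exact le_add_right (le_add_right (le_add_right (le_add_left le_rfl)))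
    by_cases hL1 : Dp zX X2 ∈ EX (HT hX X2)
    · refine le_add_right (le_add_left ?_)
      simp only [hf4]
      rw [if_pos ⟨hG1, trivial, hL1, trivial, hP⟩]
    by_cases hL2 : Dp zY Y2 ∈ EY (HT hY Y2)
    · refine le_add_left ?_
      simp only [hf5]
      rw [if_pos ⟨trivial, hG2, trivial, hL2, hP⟩]
    simp only [hf3, hL1, hL2, if_false, mul_one]
    exact le_add_right (le_add_right (le_add_left le_rfl))
  refine hsplit.trans ?_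
  rw [S4_add, S4_add, S4_add, S4_add]
  have one1 : ∑' L, cw ΛX hX T i0 L * 1 ≤ 1 := by
    simp only [mul_one]; exact sum_cw_le ΛX hX h1X hΛX T i0
  have one2 : ∑' L, cw ΛX hX τ i0 L * 1 ≤ 1 := by
    simp only [mul_one]; exact sum_cw_le ΛX hX h1X hΛX τ i0
  have one3 : ∑' L, cw ΛY hY T' i0 L * 1 ≤ 1 := by
    simp only [mul_one]; exact sum_cw_le ΛY hY h1Y hΛY T' i0
  have one4 : ∑' L, cw ΛY hY τ' i0 L * 1 ≤ 1 := by
    simp only [mul_one]; exact sum_cw_le ΛY hY h1Y hΛY τ' i0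
  have cwb : ∀ {B : Type _} (Λ : B → ℝ≥0∞) (ht : B → ℕ) (S : ℕ) (Q : List B → Prop),
      ∑' L, cw Λ ht S i0 L * (if Q L then 0 else 1)
        ≤ ∑' L, (if fp ht S L ∧ ¬ Q L then LW Λ L else 0) := by
    intro B Λ ht S Q
    refine ENNReal.tsum_le_tsum fun L => ?_
    by_cases hQ : Q L
    · simp [hQ]
    · unfold cw
      by_cases h1 : fp ht S L
      · by_cases h2 : HT ht L ≤ S + i0 <;> simp [hQ, h1, h2]
      · simp [h1]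
  have cwb' : ∀ {B : Type _} (Λ : B → ℝ≥0∞) (ht : B → ℕ) (S : ℕ) (Q : List B → Prop),
      ∑' L, cw Λ ht S i0 L * (if Q L then 0 else 1)
        ≤ ∑' L, (if fp ht S L ∧ ¬ Q L then LW Λ L else 0) := by
    intro B Λ ht S Q
    refine ENNReal.tsum_le_tsum fun L => ?_
    by_cases hQ : Q L
    · simp [hQ]
    · unfold cw
      by_cases h1 : fp ht S L
      · by_cases h2 : HT ht L ≤ S + i0 <;> simp [hQ, h1, h2]
      · simp [h1]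
  have t1 : S4 ΛX hX ΛY hY T τ T' τ' i0 f1 ≤ bX := by
    rw [hf1, S4_prod ΛX hX ΛY hY T τ T' τ' i0 (fun X1 => if GX X1 then 0 else 1) (fun _ => 1)
      (fun _ => 1) (fun _ => 1)]
    calc _ ≤ (bX * 1) * (1 * 1) :=
          mul_le_mul' (mul_le_mul' ((cwb ΛX hX T GX).trans hbX) one3) (mul_le_mul' one2 one4)
      _ = bX := by simp
  have t2 : S4 ΛX hX ΛY hY T τ T' τ' i0 f2 ≤ bY := by
    rw [hf2, S4_prod ΛX hX ΛY hY T τ T' τ' i0 (fun _ => 1) (fun _ => 1)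
      (fun Y1 => if GY Y1 then 0 else 1) (fun _ => 1)]
    calc _ ≤ (1 * bY) * (1 * 1) :=
          mul_le_mul' (mul_le_mul' one1 ((cwb' ΛY hY T' GY).trans hbY)) (mul_le_mul' one2 one4)
      _ = bY := by simp
  have t3 : S4 ΛX hX ΛY hY T τ T' τ' i0 f3 ≤ uX * uY := by
    rw [hf3, S4_prod ΛX hX ΛY hY T τ T' τ' i0 (fun _ => 1)
      (fun X2 => if Dp zX X2 ∈ EX (HT hX X2) then 0 else 1) (fun _ => 1)
      (fun Y2 => if Dp zY Y2 ∈ EY (HT hY Y2) then 0 else 1)]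
    calc _ ≤ (1 * 1) * (uX * uY) :=
          mul_le_mul' (mul_le_mul' one1 one3) (mul_le_mul'
            ((cwb ΛX hX τ (fun L => Dp zX L ∈ EX (HT hX L))).trans huX)
            ((cwb' ΛY hY τ' (fun L => Dp zY L ∈ EY (HT hY L))).trans huY))
      _ = uX * uY := by simp
  have t4 : S4 ΛX hX ΛY hY T τ T' τ' i0 f4 ≤ ((i0 + 1 : ℕ) : ℝ≥0∞) ^ 4 * R2 := by
    refine S4_slice ΛX hX ΛY hY T τ T' τ' i0 f4 R2 ?_
    intro a a' h h' k1 k2 k3 k4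
    rw [Finset.mem_Icc] at k1 k2 k3 k4
    refine le_trans (le_of_eq ?_) (slice_le ΛX hX zX ΛY hY zY tX tY T τ T' τ' a a' h h' lo hi w GX
      (fun _ => True) (fun L => Dp zX L ∈ EX (HT hX L)) (fun _ => True) MX R2 h1X h1Y hΛX hΛY
      (Or.inl hdX) ?_)
    · refine tsum_congr fun X1 => tsum_congr fun Y1 => ?_
      congr 1
      refine tsum_congr fun X2 => tsum_congr fun Y2 => ?_
      congr 1
      exact ite_inst _ _ _
    intro μ hμ hμM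
    refine le_trans (ENNReal.tsum_le_tsum fun x => mul_le_mul_right
      (ENNReal.tsum_le_tsum fun L => ENNReal.tsum_le_tsum fun L' => ?_) _)
      (hH2 a a' h h' k1.1 k1.2 k2.1 k2.2 k3.1 k3.2 k4.1 k4.2 μ hμ hμM)
    by_cases hc : HT hX L = h ∧ HT hY L' = h' ∧ Dp zX L ∈ EX (HT hX L) ∧ True ∧
        Pc tX tY lo hi L L' x a a'
    · obtain ⟨e1, e2, e3, -, e4, e5, e6⟩ := hc
      rw [if_pos ⟨e1, e2, e3, trivial, e4, e5, e6⟩, if_pos ⟨e1, by rwa [← e1], e2, e4, e5⟩]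
    · rw [if_neg hc]; exact zero_le
  have t5 : S4 ΛX hX ΛY hY T τ T' τ' i0 f5 ≤ ((i0 + 1 : ℕ) : ℝ≥0∞) ^ 4 * R3 := by
    refine S4_slice ΛX hX ΛY hY T τ T' τ' i0 f5 R3 ?_
    intro a a' h h' k1 k2 k3 k4
    rw [Finset.mem_Icc] at k1 k2 k3 k4
    refine le_trans (le_of_eq ?_) (slice_le ΛX hX zX ΛY hY zY tX tY T τ T' τ' a a' h h' lo hi w
      (fun _ => True) GY (fun _ => True) (fun L => Dp zY L ∈ EY (HT hY L)) MY R3 h1X h1Y hΛX hΛY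
      (Or.inr hdY) ?_)
    · refine tsum_congr fun X1 => tsum_congr fun Y1 => ?_
      congr 1
      refine tsum_congr fun X2 => tsum_congr fun Y2 => ?_
      congr 1
      exact ite_inst _ _ _
    intro μ hμ hμM
    refine le_trans (ENNReal.tsum_le_tsum fun x => mul_le_mul_right
      (ENNReal.tsum_le_tsum fun L => ENNReal.tsum_le_tsum fun L' => ?_) _)
      (hH3 a a' h h' k1.1 k1.2 k2.1 k2.2 k3.1 k3.2 k4.1 k4.2 μ hμ hμM)
    by_cases hc : HT hX L = h ∧ HT hY L' = h' ∧ True ∧ Dp zY L' ∈ EY (HT hY L') ∧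
        Pc tX tY lo hi L L' x a a'
    · obtain ⟨e1, e2, -, e3, e4, e5, e6⟩ := hc
      rw [if_pos ⟨e1, e2, trivial, e3, e4, e5, e6⟩, if_pos ⟨e1, e2, by rwa [← e2], e4, e6⟩]
    · rw [if_neg hc]; exact zero_le
  exact add_le_add (add_le_add (add_le_add (add_le_add t1 t2) t3) t4) t5

end Crest.Agent.R154.Asm34
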