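import Crest.Agent.R154.AsmW_498

/-! Row 154, ROAD 801 (helper498): the bound of one window. -/

set_option autoImplicit false

namespace Crest.Agent.R154.Asm498

open Crest.Agent.R154.B5A
open Crest.Agent.R154.Asm508
open Crest.Agent.R154.H5N501 (TS TS_append TS_depth)
open scoped ENNReal

lemma fpS_fsum {B ι : Type*} (Λ : B → ℝ≥0∞) (h : B → ℕ) (a : ℕ) (S : Finset ι)
    (F : ι → List B → ℝ≥0∞) :
    fpS Λ h a (fun L => ∑ i ∈ S, F i L) = ∑ i ∈ S, fpS Λ h a (F i) := by
  classical
  induction S using Finset.induction_on with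
  | empty =>
    simp only [Finset.sum_empty, fpS, mul_zero, ite_self, tsum_zero]
  | insert i S hi ih =>
    simp only [Finset.sum_insert hi]
    rw [fpS_add, ih]

lemma fpS_le_tsum {B : Type*} (Λ : B → ℝ≥0∞) (h : B → ℕ) (a : ℕ) (F : List B → ℝ≥0∞) :
    fpS Λ h a F ≤ ∑' L, LW Λ L * F L := by
  classical
  refine ENNReal.tsum_le_tsum fun L => ?_
  split_ifs
  · exact le_rfl
  · exact zero_le

lemma tsum_le_i0 (i0 : ℕ) (f : ℕ → ℝ≥0∞) (D : ℝ≥0∞) (hf : ∀ i ≤ i0, f i ≤ D) :
    ∑' i, (if i ≤ i0 then f i else 0) ≤ (i0 + 1) * D := by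
  rw [tsum_eq_sum (s := Finset.range (i0 + 1)) (fun i hi => if_neg fun h => hi (by
    simpa using Nat.lt_succ_of_le h))]
  calc _ ≤ ∑ _i ∈ Finset.range (i0 + 1), D := by
        refine Finset.sum_le_sum fun i hi => ?_
        have : i ≤ i0 := by have := Finset.mem_range.1 hi; omega
        rw [if_pos this]; exact hf i this
    _ = _ := by simp

lemma mix {G : Type*} [AddCommGroup G] (V1 V2 : ℕ × G → ℝ≥0∞) (h1 : ∑' p, V1 p ≤ 1)
    (h2 : ∑' p, V2 p ≤ 1) (M : ℝ≥0∞) (hM : (∀ p, V1 p ≤ M) ∨ (∀ p, V2 p ≤ M)) (i0 : ℕ) (w : G)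
    (Q : ℕ → ℕ → G → ℝ≥0∞) (D : ℝ≥0∞)
    (hQ : ∀ α ≤ i0, ∀ α' ≤ i0, ∀ μ : G → ℝ≥0∞, ∑' x, μ x ≤ 1 → (∀ x, μ x ≤ M) →
      ∑' x, μ x * Q α α' x ≤ D) :
    ∑' p : ℕ × G, V1 p * (if p.1 ≤ i0 then ∑' p' : ℕ × G, V2 p' *
      (if p'.1 ≤ i0 then Q p.1 p'.1 (w + p'.2 - p.2) else 0) else 0)
      ≤ (i0 + 1) * ((i0 + 1) * D) := by
  have key : ∀ α ≤ i0, ∀ α' ≤ i0,
      ∑' x, V1 (α, x) * ∑' x', V2 (α', x') * Q α α' (w + x' - x) ≤ D := by
    intro α hα α' hα'
    have s1 : ∑' x, V1 (α, x) ≤ 1 := by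
      refine le_trans ?_ h1
      exact ENNReal.tsum_comp_le_tsum_of_injective (f := fun x : G => (α, x))
        (fun x y h => by simpa using h) _
    have s2 : ∑' x, V2 (α', x) ≤ 1 := by
      refine le_trans ?_ h2
      exact ENNReal.tsum_comp_le_tsum_of_injective (f := fun x : G => (α', x))
        (fun x y h => by simpa using h) _
    have e0 : ∀ (x' : G) (f : G → ℝ≥0∞), ∑' x, f (w + x' - x) = ∑' x, f x := fun x' f =>
      (Equiv.subLeft (w + x')).tsum_eq f
    refine le_trans (le_of_eq ?_)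
      (hQ α hα α' hα' (fun y => ∑' x', V2 (α', x') * V1 (α, w + x' - y)) ?_ ?_)
    · calc ∑' x, V1 (α, x) * ∑' x', V2 (α', x') * Q α α' (w + x' - x)
          = ∑' x', ∑' x, V2 (α', x') * V1 (α, x) * Q α α' (w + x' - x) := by
            rw [ENNReal.tsum_comm]
            refine tsum_congr fun x => ?_
            rw [← ENNReal.tsum_mul_left]
            exact tsum_congr fun x' => by ring
        _ = ∑' x', ∑' y, V2 (α', x') * V1 (α, w + x' - y) * Q α α' y := by
            refine tsum_congr fun x' => ?_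
            rw [← e0 x' (fun x => V2 (α', x') * V1 (α, x) * Q α α' (w + x' - x))]
            refine tsum_congr fun y => ?_
            rw [sub_sub_cancel]
        _ = _ := by
            rw [ENNReal.tsum_comm]
            exact tsum_congr fun y => ENNReal.tsum_mul_right
    · rw [ENNReal.tsum_comm]
      calc ∑' x', ∑' y, V2 (α', x') * V1 (α, w + x' - y)
          = ∑' x', V2 (α', x') * ∑' x, V1 (α, x) := by
            refine tsum_congr fun x' => ?_
            rw [ENNReal.tsum_mul_left]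
            congr 1
            exact e0 x' (fun x => V1 (α, x))
        _ ≤ ∑' x', V2 (α', x') * 1 := by gcongr
        _ ≤ 1 := by simpa using s2
    · intro y
      rcases hM with hM | hM
      · calc ∑' x', V2 (α', x') * V1 (α, w + x' - y) ≤ ∑' x', V2 (α', x') * M := by
              gcongr with x'; exact hM _
          _ = (∑' x', V2 (α', x')) * M := ENNReal.tsum_mul_right
          _ ≤ 1 * M := by gcongr
          _ = M := one_mul M
      · calc ∑' x', V2 (α', x') * V1 (α, w + x' - y)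
            ≤ ∑' x', M * V1 (α, w + x' - y) := by gcongr with x'; exact hM _
          _ = M * ∑' x', V1 (α, w + x' - y) := ENNReal.tsum_mul_left
          _ ≤ M * 1 := by
              gcongr
              refine le_trans (le_of_eq ?_) s1
              have := (Equiv.addRight (w - y)).tsum_eq (fun x => V1 (α, x))
              refine (tsum_congr fun x' => ?_).trans this
              simp only [Equiv.coe_addRight]
              rw [show x' + (w - y) = w + x' - y by abel]
          _ = M := mul_one M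
  calc _ = ∑' α : ℕ, (if α ≤ i0 then ∑' α' : ℕ, (if α' ≤ i0 then
        ∑' x, V1 (α, x) * ∑' x', V2 (α', x') * Q α α' (w + x' - x) else 0) else 0) := by
        rw [ENNReal.tsum_prod']
        refine tsum_congr fun α => ?_
        by_cases hα : α ≤ i0
        · simp only [hα, if_true]
          calc _ = ∑' x, ∑' α' : ℕ, V1 (α, x) * ∑' x', V2 (α', x') *
                (if α' ≤ i0 then Q α α' (w + x' - x) else 0) := by
                refine tsum_congr fun x => ?_
                rw [ENNReal.tsum_prod', ← ENNReal.tsum_mul_left]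
            _ = _ := by
                rw [ENNReal.tsum_comm]
                refine tsum_congr fun α' => ?_
                by_cases hα' : α' ≤ i0
                · simp only [hα', if_true]
                · simp [hα']
        · simp [hα]
    _ ≤ _ := by
        refine tsum_le_i0 i0 _ _ fun α hα => ?_
        exact tsum_le_i0 i0 _ _ fun α' hα' => key α hα α' hα'

section win

variable {BX BY G : Type*} [AddCommGroup G]
variable (ΛX : BX → ℝ≥0∞) (hX : BX → ℕ) (zX : BX → G) (sX : BX → Set (G × ℕ))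
variable (ΛY : BY → ℝ≥0∞) (hY : BY → ℕ) (zY : BY → G) (sY : BY → Set (G × ℕ))

open Classical in
/-- weight of the pairs of pieces -/
noncomputable def Psi (t i0 lo hi c c' : ℕ) (x : G) : ℝ≥0∞ :=
  fpS ΛX hX t (fun P => fpS ΛY hY (t + i0) (fun P' =>
    if t + i0 < HT hX P ∨ Ev hX zX sX hY zY sY lo hi c c' x P P' then 1 else 0))

open Classical in
/-- weight of the pairs of pieces of given heights, one of them local -/
noncomputable def QQ (loc : Finset G → List BX → List BY → Prop) (E : Finset G) (h h' lo hi c c' : ℕ)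
    (x : G) : ℝ≥0∞ :=
  ∑' L : List BX, ∑' L' : List BY,
      (if HT hX L = h ∧ HT hY L' = h' ∧ loc E L L' ∧ Ev hX zX sX hY zY sY lo hi c c' x L L'
        then LW ΛX L * LW ΛY L' else 0)

/-- X local -/
def locX (E : Finset G) (L : List BX) (_ : List BY) : Prop := Dp zX L ∈ E
/-- Y local -/
def locY (E : Finset G) (_ : List BX) (L' : List BY) : Prop := Dp zY L' ∈ E

open Classical in
lemma psi_le (h1X : ∀ b, 1 ≤ hX b) (h1Y : ∀ b, 1 ≤ hY b) (hΛX : ∑' b, ΛX b = 1)
    (hΛY : ∑' b, ΛY b = 1) (t i0 lo hi c c' : ℕ) (x : G) (θX θY u : ℝ≥0∞)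
    (hnX : ∑' p, (if V ΛX hX zX t p < θX then V ΛX hX zX t p else 0) ≤ u)
    (hnY : ∑' p, (if V ΛY hY zY (t + i0) p < θY then V ΛY hY zY (t + i0) p else 0) ≤ u)
    (EX EY : ℕ → Finset G) (hEX : ∀ i y, θX ≤ V ΛX hX zX t (i, y) → y ∈ EX i)
    (hEY : ∀ i y, θY ≤ V ΛY hY zY (t + i0) (i, y) → y ∈ EY i) :
    Psi ΛX hX zX sX ΛY hY zY sY t i0 lo hi c c' x ≤ ov ΛX hX i0 + ov ΛY hY i0 + u * u +
      ∑ β ∈ Finset.range (i0 + 1), ∑ β' ∈ Finset.range (i0 + 1),
        (QQ ΛX hX zX sX ΛY hY zY sY (locX zX) (EX β) (t + β) (t + i0 + β') lo hi c c' x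
        + QQ ΛX hX zX sX ΛY hY zY sY (locY zY) (EY β') (t + β) (t + i0 + β') lo hi c c' x) := by
  set nX : List BX → ℝ≥0∞ := fun P =>
    (fun p : ℕ × G => if V ΛX hX zX t p < θX then (1 : ℝ≥0∞) else 0) (HT hX P - t, Dp zX P) with hnXd
  set nY : List BY → ℝ≥0∞ := fun P =>
    (fun p : ℕ × G => if V ΛY hY zY (t + i0) p < θY then (1 : ℝ≥0∞) else 0)
      (HT hY P - (t + i0), Dp zY P) with hnYd
  have inX : fpS ΛX hX t nX ≤ u := by
    refine le_trans (le_of_eq ?_) hnX
    refine (V_push ΛX hX zX t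
      (fun p : ℕ × G => if V ΛX hX zX t p < θX then (1 : ℝ≥0∞) else 0)).trans ?_
    exact tsum_congr fun p => by split_ifs <;> simp
  have inY : fpS ΛY hY (t + i0) nY ≤ u := by
    refine le_trans (le_of_eq ?_) hnY
    refine (V_push ΛY hY zY (t + i0)
      (fun p : ℕ × G => if V ΛY hY zY (t + i0) p < θY then (1 : ℝ≥0∞) else 0)).trans ?_
    exact tsum_congr fun p => by split_ifs <;> simp
  set f : ℕ → ℕ → List BX → List BY → ℝ≥0∞ := fun β β' P P' =>
    (if HT hX P = t + β ∧ HT hY P' = t + i0 + β' ∧ locX zX (EX β) P P' ∧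
      Ev hX zX sX hY zY sY lo hi c c' x P P' then 1 else 0)
    + (if HT hX P = t + β ∧ HT hY P' = t + i0 + β' ∧ locY zY (EY β') P P' ∧
      Ev hX zX sX hY zY sY lo hi c c' x P P' then 1 else 0) with hf
  have hpt : ∀ P, FP hX P t → ∀ P', FP hY P' (t + i0) →
      (if t + i0 < HT hX P ∨ Ev hX zX sX hY zY sY lo hi c c' x P P' then (1 : ℝ≥0∞) else 0)
      ≤ ((if t + i0 < HT hX P then 1 else 0) + ((if t + i0 + i0 < HT hY P' then 1 else 0)
        + (nX P * nY P' + ∑ β ∈ Finset.range (i0 + 1), ∑ β' ∈ Finset.range (i0 + 1),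
          f β β' P P'))) := by
    intro P hP P' hP'
    have g1 := FP_ge _ _ _ hP
    have g2 := FP_ge _ _ _ hP'
    by_cases c1 : t + i0 < HT hX P
    · rw [if_pos (Or.inl c1), if_pos c1]; exact le_self_add
    by_cases c2 : t + i0 + i0 < HT hY P'
    · rw [if_pos c2]
      refine le_trans ?_ le_add_self
      refine le_trans ?_ le_self_add
      split_ifs <;> simp
    by_cases c3 : Ev hX zX sX hY zY sY lo hi c c' x P P'
    · rw [if_pos (Or.inr c3)]
      refine le_trans ?_ le_add_self
      refine le_trans ?_ le_add_self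
      by_cases c4 : V ΛX hX zX t (HT hX P - t, Dp zX P) < θX
      · by_cases c5 : V ΛY hY zY (t + i0) (HT hY P' - (t + i0), Dp zY P') < θY
        · refine le_trans ?_ le_self_add
          simp only [hnXd, hnYd, c4, c5, if_true, mul_one, le_refl]
        · refine le_trans ?_ le_add_self
          have m1 : HT hX P - t ∈ Finset.range (i0 + 1) := Finset.mem_range.2 (by omega)
          have m2 : HT hY P' - (t + i0) ∈ Finset.range (i0 + 1) := Finset.mem_range.2 (by omega)
          refine le_trans ?_ (Finset.single_le_sum (f := fun β =>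
            ∑ β' ∈ Finset.range (i0 + 1), f β β' P P') (fun _ _ => zero_le) m1)
          refine le_trans ?_ (Finset.single_le_sum (f := fun β' => f (HT hX P - t) β' P P')
            (fun _ _ => zero_le) m2)
          simp only [hf]
          refine le_trans ?_ le_add_self
          rw [if_pos ⟨by omega, by omega, hEY _ _ (not_lt.1 c5), c3⟩]
      · refine le_trans ?_ le_add_self
        have m1 : HT hX P - t ∈ Finset.range (i0 + 1) := Finset.mem_range.2 (by omega)
        have m2 : HT hY P' - (t + i0) ∈ Finset.range (i0 + 1) := Finset.mem_range.2 (by omega)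
        refine le_trans ?_ (Finset.single_le_sum (f := fun β =>
          ∑ β' ∈ Finset.range (i0 + 1), f β β' P P') (fun _ _ => zero_le) m1)
        refine le_trans ?_ (Finset.single_le_sum (f := fun β' => f (HT hX P - t) β' P P')
          (fun _ _ => zero_le) m2)
        simp only [hf]
        refine le_trans ?_ le_self_add
        rw [if_pos ⟨by omega, by omega, hEX _ _ (not_lt.1 c4), c3⟩]
    · rw [if_neg (by rintro (h | h); exacts [c1 h, c3 h])]
      exact zero_le
  have hf2 : ∀ β β', fpS ΛX hX t (fun P => fpS ΛY hY (t + i0) (fun P' => f β β' P P'))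
      ≤ QQ ΛX hX zX sX ΛY hY zY sY (locX zX) (EX β) (t + β) (t + i0 + β') lo hi c c' x
        + QQ ΛX hX zX sX ΛY hY zY sY (locY zY) (EY β') (t + β) (t + i0 + β') lo hi c c' x := by
    intro β β'
    refine (fpS_mono _ _ _ fun P _ => fpS_le_tsum ΛY hY _ _).trans ?_
    refine (fpS_le_tsum _ _ _ _).trans ?_
    simp only [QQ]
    rw [← ENNReal.tsum_add]
    refine ENNReal.tsum_le_tsum fun L => ?_
    rw [← ENNReal.tsum_add, ← ENNReal.tsum_mul_left]
    refine ENNReal.tsum_le_tsum fun L' => ?_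
    simp only [hf]
    rw [mul_add, mul_add]
    refine add_le_add ?_ ?_ <;> split_ifs <;> simp
  rw [Psi]
  calc _ ≤ fpS ΛX hX t (fun P => fpS ΛY hY (t + i0) (fun P' =>
        ((if t + i0 < HT hX P then 1 else 0) + ((if t + i0 + i0 < HT hY P' then 1 else 0)
        + (nX P * nY P' + ∑ β ∈ Finset.range (i0 + 1), ∑ β' ∈ Finset.range (i0 + 1),
          f β β' P P'))))) :=
        fpS_mono _ _ _ fun P hP => fpS_mono _ _ _ fun P' hP' => hpt P hP P' hP'
    _ = fpS ΛX hX t (fun P => fpS ΛY hY (t + i0) (fun _ => if t + i0 < HT hX P then 1 else 0))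
        + (fpS ΛX hX t (fun _ => fpS ΛY hY (t + i0)
            (fun P' => if t + i0 + i0 < HT hY P' then 1 else 0))
        + (fpS ΛX hX t (fun P => fpS ΛY hY (t + i0) (fun P' => nX P * nY P'))
        + ∑ β ∈ Finset.range (i0 + 1), ∑ β' ∈ Finset.range (i0 + 1),
          fpS ΛX hX t (fun P => fpS ΛY hY (t + i0) (fun P' => f β β' P P')))) := by
        simp only [fpS_add, fpS_fsum]
    _ ≤ ov ΛX hX i0 + (ov ΛY hY i0 + (u * u + ∑ β ∈ Finset.range (i0 + 1),
          ∑ β' ∈ Finset.range (i0 + 1),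
        (QQ ΛX hX zX sX ΛY hY zY sY (locX zX) (EX β) (t + β) (t + i0 + β') lo hi c c' x
        + QQ ΛX hX zX sX ΛY hY zY sY (locY zY) (EY β') (t + β) (t + i0 + β') lo hi c c' x))) := by
        refine add_le_add ?_ (add_le_add ?_ (add_le_add ?_ ?_))
        · refine le_trans (fpS_mono _ _ _ fun P _ => fpS_const_le ΛY hY h1Y hΛY _ _) ?_
          exact over_le ΛX hX h1X hΛX t i0
        · exact (fpS_const_le ΛX hX h1X hΛX t _).trans (over_le ΛY hY h1Y hΛY (t + i0) i0)
        · simp only [fpS_mul]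
          have : (fun P => nX P * fpS ΛY hY (t + i0) nY) = fun P => fpS ΛY hY (t + i0) nY * nX P := by
            funext P; rw [mul_comm]
          rw [this, fpS_mul]
          exact mul_le_mul' inY inX
        · exact Finset.sum_le_sum fun β _ => Finset.sum_le_sum fun β' _ => hf2 β β'
    _ = _ := by ring

end win

end Crest.Agent.R154.Asm498
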