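import Crest.Agent.R154.AsmW_543

/-! Row 154, ROAD 801, abstract assembly, part 4 (helper543): the window bound. -/

set_option autoImplicit false

namespace Crest.Agent.R154.Asm543

open Crest.Agent.R154.B5A Filter Topology
open scoped ENNReal

lemma loc_data {B G : Type*} [AddCommGroup G] (Λ : B → ℝ≥0∞) (ht : B → ℕ) (h1 : ∀ b, 1 ≤ ht b)
    (hΛ : ∑' b, Λ b = 1) (z : B → G) (T i0 : ℕ) (u : ℝ≥0∞) (hu0 : u ≠ 0) (hu1 : u < 1) :
    ∃ (E : ℕ → Finset G) (D : ℝ≥0∞),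
      (∑' A, I (FP ht A T ∧ Dp z A ∉ E (HT ht A - T)) * LW Λ A ≤ u) ∧
      (∀ i, D * (E i).card ≤ (i0 + 1 : ℕ) / u) ∧
      ∀ J a, J * (T + i0) ≤ a → ∃ b : ℕ → G → ℝ≥0∞,
        (∑' j, ∑' x, b j x ≤ (1 - u) ^ J + J * ep Λ ht i0) ∧
        ∀ j x, Fq Λ ht z a j x ≤ D + b j x := by
  classical
  have hm : ∑' c : ℕ × G, Fq Λ ht z T c.1 c.2 = 1 := by
    rw [ENNReal.tsum_prod']; exact Fq_mass Λ ht h1 hΛ z T
  have hut : u ≠ ⊤ := ne_top_of_lt hu1
  obtain ⟨th, hth0, hth1, hlow, hhigh⟩ :=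
    Dens616.quantile (fun c : ℕ × G => Fq Λ ht z T c.1 c.2) hm hu0 hu1
  have htht : th ≠ ⊤ := ne_top_of_le_ne_top ENNReal.one_ne_top hth1
  have hmi : ∀ i, ∑' x, Fq Λ ht z T i x ≤ 1 := fun i =>
    le_trans (ENNReal.le_tsum (f := fun i => ∑' x, Fq Λ ht z T i x) i) (Fq_mass Λ ht h1 hΛ z T).le
  have hfin : ∀ i, {x | th ≤ Fq Λ ht z T i x}.Finite := fun i =>
    Dens616.finite_local _ (ne_top_of_le_ne_top ENNReal.one_ne_top (hmi i)) hth0
  have hD : (i0 + 1 : ℕ) * th + (1 - u) * ((i0 + 1 : ℕ) * th / u) ≤ (i0 + 1 : ℕ) * th / u := by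
    have e : ((i0 + 1 : ℕ) * th : ℝ≥0∞) = u * ((i0 + 1 : ℕ) * th / u) :=
      (ENNReal.mul_div_cancel hu0 hut).symm
    calc ((i0 + 1 : ℕ) * th : ℝ≥0∞) + (1 - u) * ((i0 + 1 : ℕ) * th / u)
        = u * ((i0 + 1 : ℕ) * th / u) + (1 - u) * ((i0 + 1 : ℕ) * th / u) := by rw [← e]
      _ = (u + (1 - u)) * ((i0 + 1 : ℕ) * th / u) := by rw [add_mul]
      _ ≤ _ := by rw [add_tsub_cancel_of_le hu1.le, one_mul]
  refine ⟨fun i => (hfin i).toFinset, (i0 + 1 : ℕ) * th / u, ?_, ?_, ?_⟩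
  · have e : ∑' A, I (FP ht A T ∧ Dp z A ∉ (hfin (HT ht A - T)).toFinset) * LW Λ A
        = ∑' j, ∑' x, Fq Λ ht z T j x * I (x ∉ (hfin j).toFinset) := by
      rw [Fq_sum Λ ht z T (fun j x => I (x ∉ (hfin j).toFinset))]
      refine tsum_congr fun A => ?_
      by_cases hA : FP ht A T
      · rw [if_pos hA, mul_comm]
        congr 1
        by_cases h2 : Dp z A ∉ (hfin (HT ht A - T)).toFinset
        · rw [I_pos h2, I_pos ⟨hA, h2⟩]
        · rw [I_neg h2, I_neg (fun hh => h2 hh.2)]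
      · rw [if_neg hA, I_neg (fun hh => hA hh.1), zero_mul]
    rw [e]
    refine le_trans (le_of_eq ?_) hlow
    rw [ENNReal.tsum_prod']
    refine tsum_congr fun j => tsum_congr fun x => ?_
    by_cases hx : Fq Λ ht z T j x < th
    · rw [if_pos hx, I_pos (by simpa using hx), mul_one]
    · rw [if_neg hx, I_neg (by simpa using hx), mul_zero]
  · intro i
    have hc : (((hfin i).toFinset.card : ℕ) : ℝ≥0∞) * th ≤ 1 :=
      (Dens616.card_mul_le (fun x => Fq Λ ht z T i x) th _ (fun x hx => by simpa using hx)).trans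
        (hmi i)
    calc ((i0 + 1 : ℕ) * th / u : ℝ≥0∞) * ((hfin i).toFinset.card : ℕ)
        = (i0 + 1 : ℕ) * ((((hfin i).toFinset.card : ℕ) : ℝ≥0∞) * th) / u := by
          rw [div_eq_mul_inv, div_eq_mul_inv]; ring
      _ ≤ (i0 + 1 : ℕ) * 1 / u := by gcongr
      _ = _ := by rw [mul_one]
  · refine fun J a hJ => Fq_dens Λ ht h1 hΛ z T i0 th (1 - u) _ ?_ tsub_le_self hD J a hJ
    refine ENNReal.le_sub_of_add_le_left hut ?_
    calc u + ∑' i, ∑' x, (if i ≤ i0 ∧ th < Fq Λ ht z T i x then Fq Λ ht z T i x else 0)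
        ≤ (∑' c : ℕ × G, if Fq Λ ht z T c.1 c.2 ≤ th then Fq Λ ht z T c.1 c.2 else 0)
          + ∑' c : ℕ × G, (if th < Fq Λ ht z T c.1 c.2 then Fq Λ ht z T c.1 c.2 else 0) := by
          refine add_le_add hhigh ?_
          rw [ENNReal.tsum_prod']
          refine ENNReal.tsum_le_tsum fun i => ENNReal.tsum_le_tsum fun x => ?_
          by_cases hc : th < Fq Λ ht z T i x
          · rw [if_pos hc]; split_ifs <;> simp
          · rw [if_neg (fun hh => hc hh.2)]; exact zero_le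
      _ = 1 := by
          rw [← ENNReal.tsum_add, ← hm]
          refine tsum_congr fun c => ?_
          by_cases hc : th < Fq Λ ht z T c.1 c.2
          · rw [if_pos hc, if_neg (not_le.2 hc), zero_add]
          · rw [if_neg hc, if_pos (not_lt.1 hc), add_zero]

section win
variable {BX BY G : Type*} [AddCommGroup G] (ΛX : BX → ℝ≥0∞) (ΛY : BY → ℝ≥0∞)
  (hX : BX → ℕ) (hY : BY → ℕ) (zX : BX → G) (zY : BY → G)
  (sX : BX → Set (G × ℕ)) (sY : BY → Set (G × ℕ))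

/-- window event on the full lists -/
def QW (w : G) (a0 b0 lo hi lo0 hi0 : ℕ) (LX : List BX) (LY : List BY) : Prop :=
  (∃ z k, lo0 < k ∧ k ≤ hi0 ∧ (z, k) ∈ TS hX zX sX LX 0 0 ∧ (z, k) ∈ TS hY zY sY LY w 0) ∧
  ∀ z k, (z, k) ∈ TS hX zX sX LX 0 0 → (z, k) ∈ TS hY zY sY LY w 0 → a0 < k → k ≤ b0 →
    lo ≤ k ∧ k ≤ hi

lemma ev (hsX : ∀ b p, p ∈ sX b → 1 ≤ p.2 ∧ p.2 ≤ hX b)
    (hsY : ∀ b p, p ∈ sY b → 1 ≤ p.2 ∧ p.2 ≤ hY b)
    (w : G) (i0 a0 T b0 lo hi lo0 hi0 : ℕ) (hlo0 : a0 + 2 * i0 ≤ lo0) (hhi0 : hi0 ≤ a0 + T)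
    (hb0 : a0 + T + 2 * i0 ≤ b0) (A P R : List BX) (A' P' R' : List BY)
    (hA : FP hX A a0) (hA2 : HT hX A ≤ a0 + i0) (hP : FP hX P T) (hP2 : HT hX P ≤ T + i0)
    (hA' : FP hY A' (a0 + i0)) (hA2' : HT hY A' ≤ a0 + i0 + i0) (hP' : FP hY P' (T + i0))
    (hQ : QW hX hY zX zY sX sY w a0 b0 lo hi lo0 hi0 (A ++ (P ++ R)) (A' ++ (P' ++ R'))) :
    Ct hX hY zX zY sX sY P 0 (a0 + (HT hX A - a0)) P' (w + Dp zY A' - Dp zX A)
      (a0 + i0 + (HT hY A' - (a0 + i0))) lo hi := by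
  have hA1 := FP_le hX A a0 hA
  have hP1 := FP_le hX P T hP
  have hA1' := FP_le hY A' _ hA'
  have hP1' := FP_le hY P' _ hP'
  rw [show a0 + (HT hX A - a0) = HT hX A by omega,
    show a0 + i0 + (HT hY A' - (a0 + i0)) = HT hY A' by omega]
  have key1 : ∀ z k, (z, k) ∈ TS hX zX sX P 0 (HT hX A) →
      (Dp zX A + z, k) ∈ TS hX zX sX (A ++ (P ++ R)) 0 0 := by
    intro z k hz
    rw [TS_append, TS_append]
    refine Or.inr (Or.inl ?_)
    rw [zero_add, zero_add, show Dp zX A = Dp zX A + 0 by rw [add_zero], TS_shift, add_zero,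
      add_sub_cancel_left]
    exact hz
  have key2 : ∀ z k, (z, k) ∈ TS hY zY sY P' (w + Dp zY A' - Dp zX A) (HT hY A') →
      (Dp zX A + z, k) ∈ TS hY zY sY (A' ++ (P' ++ R')) w 0 := by
    intro z k hz
    rw [TS_append, TS_append]
    refine Or.inr (Or.inl ?_)
    rw [zero_add, show w + Dp zY A' = Dp zX A + (w + Dp zY A' - Dp zX A) by abel, TS_shift,
      add_sub_cancel_left]
    exact hz
  obtain ⟨⟨z, k, hk1, hk2, hzX, hzY⟩, hall⟩ := hQ
  refine ⟨⟨z - Dp zX A, k, ?_, ?_⟩, ?_⟩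
  · rw [TS_append, TS_append] at hzX
    rcases hzX with h | h | h
    · have := TS_depth hX zX sX hsX _ _ _ _ h; simp only at this; omega
    · rw [zero_add, zero_add, show Dp zX A = Dp zX A + 0 by rw [add_zero], TS_shift] at h
      simpa using h
    · have := TS_depth hX zX sX hsX _ _ _ _ h; simp only at this; omega
  · rw [TS_append, TS_append] at hzY
    rcases hzY with h | h | h
    · have := TS_depth hY zY sY hsY _ _ _ _ h; simp only at this; omega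
    · rw [zero_add, show w + Dp zY A' = Dp zX A + (w + Dp zY A' - Dp zX A) by abel, TS_shift] at h
      exact h
    · have := TS_depth hY zY sY hsY _ _ _ _ h; simp only at this; omega
  · intro z' k' h1 h2
    have d1 := TS_depth hX zX sX hsX _ _ _ _ h1
    simp only at d1
    exact hall _ _ (key1 _ _ h1) (key2 _ _ h2) (by omega) (by omega)

lemma Kf_zero (loc : Finset G → List BX → List BY → Prop) (E : ℕ → ℕ → Finset G)
    (i0 a0 a0' T T' lo hi j j' : ℕ) (x : G) (h : ¬ (j ≤ i0 ∧ j' ≤ i0)) :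
    Kf ΛX ΛY hX hY zX zY sX sY loc E i0 a0 a0' T T' lo hi j j' x = 0 := by
  refine ENNReal.tsum_eq_zero.2 fun P => ENNReal.tsum_eq_zero.2 fun P' => ?_
  rw [I_neg (fun hh => h hh.1), zero_mul]

lemma Kf_le_one (h1X : ∀ b, 1 ≤ hX b) (hΛX : ∑' b, ΛX b = 1) (h1Y : ∀ b, 1 ≤ hY b)
    (hΛY : ∑' b, ΛY b = 1) (loc : Finset G → List BX → List BY → Prop) (E : ℕ → ℕ → Finset G)
    (i0 a0 a0' T T' lo hi j j' : ℕ) (x : G) :
    Kf ΛX ΛY hX hY zX zY sX sY loc E i0 a0 a0' T T' lo hi j j' x ≤ 1 := by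
  calc Kf ΛX ΛY hX hY zX zY sX sY loc E i0 a0 a0' T T' lo hi j j' x
      ≤ ∑' P, wt ΛX hX i0 T P * ∑' P', wt ΛY hY i0 T' P' := by
        refine ENNReal.tsum_le_tsum fun P => ?_
        rw [← ENNReal.tsum_mul_left]
        refine ENNReal.tsum_le_tsum fun P' => ?_
        unfold wt
        by_cases hh : (FP hX P T ∧ HT hX P ≤ T + i0) ∧ (FP hY P' T' ∧ HT hY P' ≤ T' + i0)
        · rw [I_pos hh.1, I_pos hh.2, one_mul, one_mul]
          calc _ ≤ 1 * (LW ΛX P * LW ΛY P') := mul_le_mul_left (I_le_one _) _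
            _ = _ := one_mul _
        · rw [I_neg (fun h' => hh ⟨h'.2.1, h'.2.2.1⟩), zero_mul]; exact zero_le
    _ ≤ ∑' P, wt ΛX hX i0 T P * 1 := ENNReal.tsum_le_tsum fun P =>
        mul_le_mul_right (wt_mass ΛY hY h1Y hΛY i0 T') _
    _ ≤ 1 := by simpa using wt_mass ΛX hX h1X hΛX i0 T

end win

end Crest.Agent.R154.Asm543
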