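import Crest.Agent.R154.AsmZ_751

/-! Row 154, ROAD 801: one window, bound (helper751). -/

set_option autoImplicit false

namespace Crest.Agent.R154.Asm751

open scoped ENNReal
open Crest.Agent.R154.B5A (LW HT LW_nil LW_cons LW_append HT_nil HT_cons HT_append tsum_list U tail)

variable {BX BY G : Type*} [AddCommGroup G]
  {ΛX : BX → ℝ≥0∞} {ΛY : BY → ℝ≥0∞} {hX : BX → ℕ} {hY : BY → ℕ} {zX : BX → G} {zY : BY → G}
  {sX : BX → Set (G × ℕ)} {sY : BY → Set (G × ℕ)}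

/-- the local term, `X` local -/
lemma loc_X (hΛX : ∑' b, ΛX b = 1) (h1X : ∀ b, 1 ≤ hX b) (hΛY : ∑' b, ΛY b = 1)
    (h1Y : ∀ b, 1 ≤ hY b) (w : G) (A D i0 lo hi s : ℕ) (g β κ C η lam : ℝ≥0∞)
    (hg : g ≠ ⊤) (hlam : lam ≠ 0) (hlam' : lam ≠ ⊤)
    (hb : ∃ b : ℕ → G → ℝ≥0∞, (∑' i, ∑' z, b i z ≤ β) ∧ ∀ i z, law ΛX hX zX A i z ≤ g + b i z)
    (E : ℕ → Finset G) (hE : ∀ i, g * (E i).card ≤ κ)
    (HX : HXl ΛX ΛY hX hY zX zY sX sY C η s (4 * i0))
    (hlo : A + 3 * i0 + s ≤ lo) (hhi : hi + s ≤ A + D) :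
    Q4 ΛX ΛY hX hY A (A + 2 * i0) D i0 (fun L1 L2 L1' L2' =>
      I (HT hX L2 ≤ D + i0 ∧ HT hY L2' ≤ D + i0 ∧ dp zX L2 ∈ E (HT hX L2 - D) ∧
        PE hX hY zX zY sX sY lo hi (dp zX L1) (HT hX L1) L2 (w + dp zY L1') (HT hY L1') L2'))
      ≤ β + (i0 + 1 : ℕ) ^ 4 * (C * (lam + κ * η / lam + η)) := by
  classical
  refine loc hΛX h1X hΛY h1Y zX zY A (A + 2 * i0) D i0 g β _ hb (fun a x L a' y L' =>
      I (HT hX L ≤ D + i0 ∧ HT hY L' ≤ D + i0 ∧ dp zX L ∈ E (HT hX L - D) ∧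
        PE hX hY zX zY sX sY lo hi x a L (w + y) a' L')) (fun _ _ _ _ _ _ => I_le _) ?_ ?_ ?_
  · intro a x L a' y L' h; exact I_false (fun h' => by omega)
  · intro a x L a' y L' h; exact I_false (fun h' => by omega)
  · intro i i' j j' hi1 hi2 hj hj' α γ hα hαg hγ
    set K : G → ℝ≥0∞ := fun v => ∑' L : List BX, ∑' L' : List BY,
      (if HT hX L = D + j ∧ dp zX L ∈ E j ∧ HT hY L' = D + j' ∧
        PE hX hY zX zY sX sY lo hi 0 (A + i) L v (A + 2 * i0 + i') L'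
        then LW ΛX L * LW ΛY L' else 0) with hK
    obtain ⟨ν, hν1, hνg, hν⟩ := conv w α γ K g hα hγ (Or.inl hαg)
    have hH := HX (D + j) (D + j') (A + i) (A + 2 * i0 + i') lo hi (E j) ν g lam hν1 hνg hg hlam
      hlam' (by omega) (by omega) (by omega) (by omega) (by omega) (by omega)
    calc _ ≤ ∑' x, α x * ∑' y, γ y * K (w + y - x) := by
          refine ENNReal.tsum_le_tsum fun x => mul_le_mul_right (ENNReal.tsum_le_tsum fun y =>
            mul_le_mul_right (ENNReal.tsum_le_tsum fun L => ENNReal.tsum_le_tsum fun L' => ?_) _) _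
          by_cases h : HT hX L = D + j ∧ HT hY L' = D + j'
          · rw [if_pos h]
            by_cases h2 : (HT hX L ≤ D + i0 ∧ HT hY L' ≤ D + i0 ∧ dp zX L ∈ E (HT hX L - D) ∧
              PE hX hY zX zY sX sY lo hi x (A + i) L (w + y) (A + 2 * i0 + i') L')
            · rw [I_true h2, mul_one, if_pos]
              refine ⟨h.1, ?_, h.2, ?_⟩
              · have := h2.2.2.1
                rwa [h.1, Nat.add_sub_cancel_left] at this
              · exact (PE_shift lo hi x (A + i) L (w + y) (A + 2 * i0 + i') L').1 h2.2.2.2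
            · rw [I_false h2, mul_zero]; exact zero_le
          · rw [if_neg h]; exact zero_le
      _ = ∑' v, ν v * K v := hν
      _ ≤ C * (lam + g * (E j).card * η / lam + η) := hH
      _ ≤ _ := by gcongr; exact hE j

/-- the local term, `Y` local -/
lemma loc_Y (hΛX : ∑' b, ΛX b = 1) (h1X : ∀ b, 1 ≤ hX b) (hΛY : ∑' b, ΛY b = 1)
    (h1Y : ∀ b, 1 ≤ hY b) (w : G) (A D i0 lo hi s : ℕ) (g β κ C η lam : ℝ≥0∞)
    (hg : g ≠ ⊤) (hlam : lam ≠ 0) (hlam' : lam ≠ ⊤)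
    (hb : ∃ b : ℕ → G → ℝ≥0∞, (∑' i, ∑' z, b i z ≤ β) ∧
      ∀ i z, law ΛY hY zY (A + 2 * i0) i z ≤ g + b i z)
    (E : ℕ → Finset G) (hE : ∀ i, g * (E i).card ≤ κ)
    (HY : HYl ΛX ΛY hX hY zX zY sX sY C η s (4 * i0))
    (hlo : A + 3 * i0 + s ≤ lo) (hhi : hi + s ≤ A + D) :
    Q4 ΛX ΛY hX hY A (A + 2 * i0) D i0 (fun L1 L2 L1' L2' =>
      I (HT hX L2 ≤ D + i0 ∧ HT hY L2' ≤ D + i0 ∧ dp zY L2' ∈ E (HT hY L2' - D) ∧
        PE hX hY zX zY sX sY lo hi (dp zX L1) (HT hX L1) L2 (w + dp zY L1') (HT hY L1') L2'))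
      ≤ β + (i0 + 1 : ℕ) ^ 4 * (C * (lam + κ * η / lam + η)) := by
  classical
  rw [Q4_swap]
  refine loc hΛY h1Y hΛX h1X zY zX (A + 2 * i0) A D i0 g β _ hb (fun a' y L' a x L =>
      I (HT hX L ≤ D + i0 ∧ HT hY L' ≤ D + i0 ∧ dp zY L' ∈ E (HT hY L' - D) ∧
        PE hX hY zX zY sX sY lo hi x a L (w + y) a' L')) (fun _ _ _ _ _ _ => I_le _) ?_ ?_ ?_
  · intro a x L a' y L' h; exact I_false (fun h' => by omega)
  · intro a x L a' y L' h; exact I_false (fun h' => by omega)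
  · intro i i' j j' hi1 hi2 hj hj' α γ hα hαg hγ
    set K : G → ℝ≥0∞ := fun v => ∑' L : List BX, ∑' L' : List BY,
      (if HT hX L = D + j' ∧ dp zY L' ∈ E j ∧ HT hY L' = D + j ∧
        PE hX hY zX zY sX sY lo hi 0 (A + i') L v (A + 2 * i0 + i) L'
        then LW ΛX L * LW ΛY L' else 0) with hK
    obtain ⟨ν, hν1, hνg, hν⟩ := conv w γ α K g hγ hα (Or.inr hαg)
    have hH := HY (D + j') (D + j) (A + i') (A + 2 * i0 + i) lo hi (E j) ν g lam hν1 hνg hg hlam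
      hlam' (by omega) (by omega) (by omega) (by omega) (by omega) (by omega)
    calc _ ≤ ∑' y, α y * ∑' x, γ x * K (w + y - x) := by
          refine ENNReal.tsum_le_tsum fun y => mul_le_mul_right (ENNReal.tsum_le_tsum fun x =>
            mul_le_mul_right ?_ _) _
          rw [hK, ENNReal.tsum_comm]
          refine ENNReal.tsum_le_tsum fun L => ENNReal.tsum_le_tsum fun L' => ?_
          by_cases h : HT hY L' = D + j ∧ HT hX L = D + j'
          · rw [if_pos h]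
            by_cases h2 : (HT hX L ≤ D + i0 ∧ HT hY L' ≤ D + i0 ∧ dp zY L' ∈ E (HT hY L' - D) ∧
              PE hX hY zX zY sX sY lo hi x (A + i') L (w + y) (A + 2 * i0 + i) L')
            · rw [I_true h2, mul_one, if_pos, mul_comm]
              refine ⟨h.2, ?_, h.1, ?_⟩
              · have := h2.2.2.1
                rwa [h.1, Nat.add_sub_cancel_left] at this
              · exact (PE_shift lo hi x (A + i') L (w + y) (A + 2 * i0 + i) L').1 h2.2.2.2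
            · rw [I_false h2, mul_zero]; exact zero_le
          · rw [if_neg h]; exact zero_le
      _ = ∑' x, γ x * ∑' y, α y * K (w + y - x) := by
          simp_rw [← ENNReal.tsum_mul_left]
          rw [ENNReal.tsum_comm]
          refine tsum_congr fun x => tsum_congr fun y => ?_
          ring
      _ = ∑' v, ν v * K v := hν
      _ ≤ C * (lam + g * (E j).card * η / lam + η) := hH
      _ ≤ _ := by gcongr; exact hE j

/-- **one window** -/
theorem window (hΛX : ∑' b, ΛX b = 1) (h1X : ∀ b, 1 ≤ hX b) (hΛY : ∑' b, ΛY b = 1)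
    (h1Y : ∀ b, 1 ≤ hY b) (hsX : ∀ b p, p ∈ sX b → 1 ≤ p.2 ∧ p.2 ≤ hX b)
    (hsY : ∀ b p, p ∈ sY b → 1 ≤ p.2 ∧ p.2 ≤ hY b)
    (w : G) (n A D i0 lo hi cm s : ℕ) (gX βX thX uX gY βY thY uY κ C η lam : ℝ≥0∞)
    (hgX : gX ≠ ⊤) (hgY : gY ≠ ⊤) (hlam : lam ≠ 0) (hlam' : lam ≠ ⊤)
    (hbX : ∃ b : ℕ → G → ℝ≥0∞, (∑' i, ∑' z, b i z ≤ βX) ∧
      ∀ i z, law ΛX hX zX A i z ≤ gX + b i z)
    (hbY : ∃ b : ℕ → G → ℝ≥0∞, (∑' i, ∑' z, b i z ≤ βY) ∧
      ∀ i z, law ΛY hY zY (A + 2 * i0) i z ≤ gY + b i z)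
    (EX : ℕ → Finset G) (hEX : ∀ i, gX * (EX i).card ≤ κ)
    (hEX' : ∀ i x, thX ≤ law ΛX hX zX D i x → x ∈ EX i)
    (EY : ℕ → Finset G) (hEY : ∀ i, gY * (EY i).card ≤ κ)
    (hEY' : ∀ i x, thY ≤ law ΛY hY zY D i x → x ∈ EY i)
    (hnX : R ΛX hX D (fun L => I (law ΛX hX zX D (HT hX L - D) (dp zX L) < thX)) ≤ uX)
    (hnY : R ΛY hY D (fun L => I (law ΛY hY zY D (HT hY L - D) (dp zY L) < thY)) ≤ uY)
    (HX : HXl ΛX ΛY hX hY zX zY sX sY C η s (4 * i0))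
    (HY : HYl ΛX ΛY hX hY zX zY sX sY C η s (4 * i0))
    (hlo : A + 3 * i0 + s < lo) (hhi : hi + s ≤ A + D) (hcm : cm ≤ A + D)
    (hn : A + 3 * i0 + D ≤ n) :
    KQ ΛX ΛY hX hY n (fun L L' => (∀ z k, Bo hX hY zX zY sX sY 0 0 L w 0 L' z k → lo ≤ k) ∧
        ∃ z k, Bo hX hY zX zY sX sY 0 0 L w 0 L' z k ∧ k ≤ cm)
      ≤ KQ ΛX ΛY hX hY n (fun L L' => ∃ z k, Bo hX hY zX zY sX sY 0 0 L w 0 L' z k ∧
          hi < k ∧ k ≤ A + D + 2 * i0)
        + (ep ΛX hX i0 + ep ΛY hY i0 + (ep ΛX hX i0 + ep ΛY hY i0 + uX * uY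
          + (βX + (i0 + 1 : ℕ) ^ 4 * (C * (lam + κ * η / lam + η)))
          + (βY + (i0 + 1 : ℕ) ^ 4 * (C * (lam + κ * η / lam + η))))) := by
  classical
  refine (KQ_or n (Q' := fun L L' => ∃ z k, Bo hX hY zX zY sX sY 0 0 L w 0 L' z k ∧
          hi < k ∧ k ≤ A + D + 2 * i0)
    (Q'' := fun L L' => ((∀ z k, Bo hX hY zX zY sX sY 0 0 L w 0 L' z k → lo ≤ k) ∧
        ∃ z k, Bo hX hY zX zY sX sY 0 0 L w 0 L' z k ∧ k ≤ cm) ∧
        ¬ ∃ z k, Bo hX hY zX zY sX sY 0 0 L w 0 L' z k ∧ hi < k ∧ k ≤ A + D + 2 * i0) ?_).trans ?_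
  · intro L L' _ _ h
    by_cases h' : ∃ z k, Bo hX hY zX zY sX sY 0 0 L w 0 L' z k ∧ hi < k ∧ k ≤ A + D + 2 * i0
    · exact Or.inl h'
    · exact Or.inr ⟨h, h'⟩
  gcongr
  set P1 : List BX → List BX → List BY → List BY → ℝ≥0∞ := fun _ L2 _ L2' =>
    I (D + i0 < HT hX L2) * (fun _ : List BY => (1 : ℝ≥0∞)) L2' with hP1
  set P2 : List BX → List BX → List BY → List BY → ℝ≥0∞ := fun _ L2 _ L2' =>
    (fun _ : List BX => (1 : ℝ≥0∞)) L2 * I (D + i0 < HT hY L2') with hP2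
  set P3 : List BX → List BX → List BY → List BY → ℝ≥0∞ := fun _ L2 _ L2' =>
    I (law ΛX hX zX D (HT hX L2 - D) (dp zX L2) < thX) *
      I (law ΛY hY zY D (HT hY L2' - D) (dp zY L2') < thY) with hP3
  set P4 : List BX → List BX → List BY → List BY → ℝ≥0∞ := fun L1 L2 L1' L2' =>
      I (HT hX L2 ≤ D + i0 ∧ HT hY L2' ≤ D + i0 ∧ dp zX L2 ∈ EX (HT hX L2 - D) ∧
        PE hX hY zX zY sX sY lo hi (dp zX L1) (HT hX L1) L2 (w + dp zY L1') (HT hY L1') L2') with hP4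
  set P5 : List BX → List BX → List BY → List BY → ℝ≥0∞ := fun L1 L2 L1' L2' =>
      I (HT hX L2 ≤ D + i0 ∧ HT hY L2' ≤ D + i0 ∧ dp zY L2' ∈ EY (HT hY L2' - D) ∧
        PE hX hY zX zY sX sY lo hi (dp zX L1) (HT hX L1) L2 (w + dp zY L1') (HT hY L1') L2') with hP5
  refine (to_Q4 hΛX h1X hΛY h1Y n A (A + 2 * i0) D i0 (by omega) (by omega) _
    (fun L1 L2 L1' L2' => P1 L1 L2 L1' L2' + P2 L1 L2 L1' L2' + P3 L1 L2 L1' L2'
      + P4 L1 L2 L1' L2' + P5 L1 L2 L1' L2') ?_).trans ?_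
  · intro L1 L2 L3 L1' L2' L3' hL1 hL2 hL1a hL1' hL2' hL1a' hq
    by_cases ho : D + i0 < HT hX L2
    · have : P1 L1 L2 L1' L2' = 1 := by simp only [hP1]; rw [I_true ho, one_mul]
      rw [this]
      exact le_add_right (le_add_right (le_add_right (le_add_right le_rfl)))
    by_cases ho' : D + i0 < HT hY L2'
    · have : P2 L1 L2 L1' L2' = 1 := by simp only [hP2]; rw [I_true ho', one_mul]
      rw [this]
      exact le_add_right (le_add_right (le_add_right (le_add_left le_rfl)))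
    have hA1 := FP_le hX L1 _ hL1
    have hA1' := FP_le hY L1' _ hL1'
    have hA2 := FP_le hX L2 _ hL2
    have hA2' := FP_le hY L2' _ hL2'
    have hpe := PE_of_full hsX hsY w lo hi (A + D + 2 * i0) cm L1 L2 L3 L1' L2' L3' (by omega)
      (by omega) (by omega) (by omega) (by omega) hq.1.1 hq.1.2 hq.2
    by_cases hx : law ΛX hX zX D (HT hX L2 - D) (dp zX L2) < thX
    · by_cases hy : law ΛY hY zY D (HT hY L2' - D) (dp zY L2') < thY
      · have : P3 L1 L2 L1' L2' = 1 := by simp only [hP3]; rw [I_true hx, I_true hy, one_mul]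
        rw [this]
        exact le_add_right (le_add_right (le_add_left le_rfl))
      · have : P5 L1 L2 L1' L2' = 1 := by
          simp only [hP5]
          exact I_true ⟨by omega, by omega, hEY' _ _ (not_lt.1 hy), hpe⟩
        rw [this]
        exact le_add_left le_rfl
    · have : P4 L1 L2 L1' L2' = 1 := by
          simp only [hP4]
          exact I_true ⟨by omega, by omega, hEX' _ _ (not_lt.1 hx), hpe⟩
      rw [this]
      exact le_add_right (le_add_left le_rfl)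
  · gcongr
    rw [Q4_add, Q4_add, Q4_add, Q4_add]
    refine add_le_add (add_le_add (add_le_add (add_le_add ?_ ?_) ?_) ?_) ?_
    · refine (Q4_prod hΛX h1X hΛY h1Y A (A + 2 * i0) D i0 (fun L2 => I (D + i0 < HT hX L2))
        (fun _ => 1)).trans ?_
      rw [R_one ΛY hY hΛY h1Y, mul_one]
      refine le_trans (R_mono _ _ _ fun L _ => ?_) (over_le ΛX hX hΛX h1X i0 D)
      by_cases h : D + i0 < HT hX L
      · rw [I_true h, if_pos h]
      · rw [I_false h]; exact zero_le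
    · refine (Q4_prod hΛX h1X hΛY h1Y A (A + 2 * i0) D i0 (fun _ => 1)
        (fun L2' => I (D + i0 < HT hY L2'))).trans ?_
      rw [R_one ΛX hX hΛX h1X, one_mul]
      refine le_trans (R_mono _ _ _ fun L _ => ?_) (over_le ΛY hY hΛY h1Y i0 D)
      by_cases h : D + i0 < HT hY L
      · rw [I_true h, if_pos h]
      · rw [I_false h]; exact zero_le
    · exact (Q4_prod hΛX h1X hΛY h1Y A (A + 2 * i0) D i0 _ _).trans (mul_le_mul' hnX hnY)
    · exact loc_X hΛX h1X hΛY h1Y w A D i0 lo hi s gX βX κ C η lam hgX hlam hlam' hbX EX hEX HX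
        (by omega) hhi
    · exact loc_Y hΛX h1X hΛY h1Y w A D i0 lo hi s gY βY κ C η lam hgY hlam hlam' hbY EY hEY HY
        (by omega) hhi

end Crest.Agent.R154.Asm751
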