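import Crest.Agent.R154.AsmU_877

/-! Row 154 (helper877), ROAD 801: **the abstract assembly** `kapS`. -/

set_option autoImplicit false

namespace Crest.Agent.R154.Asm877

open scoped ENNReal Topology
open Filter
open Crest.Agent.R154.B5A
open Crest.Agent.R154.FP178

lemma small (A e : ℝ≥0∞) (hA : A ≠ ⊤) (he : e ≠ 0) : ∃ x : ℝ≥0∞, x ≠ 0 ∧ x ≠ ⊤ ∧ A * x ≤ e := by
  refine ⟨min 1 (e / (A + 1)), ?_, ?_, ?_⟩
  · rw [ne_eq, min_eq_iff.not]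
    push Not
    refine ⟨fun h => absurd h one_ne_zero, fun h => ?_⟩
    exact absurd h (ENNReal.div_ne_zero.2 ⟨he, ENNReal.add_ne_top.2 ⟨hA, ENNReal.one_ne_top⟩⟩)
  · exact ne_top_of_le_ne_top ENNReal.one_ne_top (min_le_left _ _)
  · calc A * min 1 (e / (A + 1)) ≤ (A + 1) * (e / (A + 1)) :=
        mul_le_mul' le_self_add (min_le_right _ _)
      _ ≤ e := ENNReal.mul_div_le

lemma params (e : ℝ≥0∞) (he : e ≠ 0) : ∃ (J : ℕ) (u : ℝ≥0∞), 1 ≤ J ∧ u ≠ 0 ∧ u < 1 ∧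
    ((3 * J : ℕ) : ℝ≥0∞) * (u * u) ≤ e ∧ ((3 * J : ℕ) : ℝ≥0∞) * (1 - u) ^ J ≤ e := by
  obtain ⟨r, hr0, hre⟩ : ∃ r : ℝ, 0 < r ∧ ENNReal.ofReal r ≤ e := by
    by_cases ht : e = ⊤
    · exact ⟨1, one_pos, by rw [ht]; exact le_top⟩
    · exact ⟨e.toReal, ENNReal.toReal_pos he ht, ENNReal.ofReal_toReal_le⟩
  have t1 : Tendsto (fun k : ℕ => 3 / (k : ℝ)) atTop (𝓝 0) :=
    tendsto_const_div_atTop_nhds_zero_nat 3
  have t2 : Tendsto (fun k : ℕ => 3 * ((k : ℝ) ^ 3 * Real.exp (-(k : ℝ)))) atTop (𝓝 0) := by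
    have := (Real.tendsto_pow_mul_exp_neg_atTop_nhds_zero 3).comp
      (tendsto_natCast_atTop_atTop (R := ℝ))
    simpa using this.const_mul 3
  obtain ⟨k, hk1, hk2, hk3⟩ := ((t1.eventually_lt_const hr0).and
    ((t2.eventually_lt_const hr0).and (eventually_ge_atTop 2))).exists
  have hk0 : (0 : ℝ) < k := by exact_mod_cast (by omega : 0 < k)
  have hk2' : (2 : ℝ) ≤ k := by exact_mod_cast hk3
  have hkk : (0 : ℝ) < 1 / (k : ℝ) ^ 2 := by positivity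
  have hkk1 : 1 / (k : ℝ) ^ 2 < 1 := by
    rw [div_lt_one (by positivity)]
    nlinarith
  refine ⟨k ^ 3, ENNReal.ofReal (1 / (k : ℝ) ^ 2), Nat.one_le_pow _ _ (by omega), ?_, ?_, ?_, ?_⟩
  · exact (ENNReal.ofReal_pos.2 hkk).ne'
  · rw [← ENNReal.ofReal_one]
    exact (ENNReal.ofReal_lt_ofReal_iff one_pos).2 hkk1
  · refine le_trans (le_of_eq ?_) ((ENNReal.ofReal_le_ofReal hk1.le).trans hre)
    rw [← ENNReal.ofReal_mul hkk.le, ← ENNReal.ofReal_natCast, ← ENNReal.ofReal_mul (by positivity)]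
    congr 1
    push_cast
    field_simp
  · refine le_trans ?_ ((ENNReal.ofReal_le_ofReal hk2.le).trans hre)
    rw [← ENNReal.ofReal_one, ← ENNReal.ofReal_sub _ hkk.le,
      ← ENNReal.ofReal_pow (by linarith), ← ENNReal.ofReal_natCast,
      ← ENNReal.ofReal_mul (by positivity)]
    refine ENNReal.ofReal_le_ofReal ?_
    have h1 : (1 - 1 / (k : ℝ) ^ 2) ^ (k ^ 3) ≤ Real.exp (-(k : ℝ)) := by
      calc (1 - 1 / (k : ℝ) ^ 2) ^ (k ^ 3) ≤ (Real.exp (-(1 / (k : ℝ) ^ 2))) ^ (k ^ 3) := by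
            refine pow_le_pow_left₀ (by linarith) ?_ _
            have := Real.add_one_le_exp (-(1 / (k : ℝ) ^ 2))
            linarith
        _ = Real.exp (-(k : ℝ)) := by
            rw [← Real.exp_nat_mul]
            congr 1
            push_cast
            field_simp
    have h2 : ((3 * k ^ 3 : ℕ) : ℝ) = 3 * (k : ℝ) ^ 3 := by push_cast; ring
    rw [h2, mul_assoc]
    refine mul_le_mul_of_nonneg_left ?_ (by norm_num)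
    exact mul_le_mul_of_nonneg_left h1 (by positivity)

lemma dlt_le {B : Type*} (Λ : B → ℝ≥0∞) (ht : B → ℕ) (h1 : ∀ b, 1 ≤ ht b)
    (hU : ∀ n, U Λ ht n ≤ 1) (T i0 : ℕ) : dlt Λ ht T i0 ≤ ∑' k, tail Λ ht (k + i0) := by
  classical
  refine (overshoot Λ ht h1 hU i0 T).trans (le_of_eq (tsum_congr fun k => ?_))
  rw [add_comm]

lemma dlt_tendsto {B : Type*} (Λ : B → ℝ≥0∞) (ht : B → ℕ) (hΛ : ∑' b, Λ b = 1)
    (hE : ∑' b, Λ b * (ht b : ℝ≥0∞) ≠ ⊤) :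
    Tendsto (fun i0 : ℕ => ∑' k, tail Λ ht (k + i0)) atTop (𝓝 0) := by
  have hsum : ∑' k, tail Λ ht k ≠ ⊤ := by rw [← sum_tail Λ ht hΛ]; exact hE
  exact ENNReal.tendsto_sum_nat_add _ hsum

section

variable {G : Type*} [AddCommGroup G] {BX BY : Type*}
  (ΛX : BX → ℝ≥0∞) (ΛY : BY → ℝ≥0∞) (hX : BX → ℕ) (hY : BY → ℕ)
  (zX : BX → G) (zY : BY → G) (sX : BX → Set (G × ℕ)) (sY : BY → Set (G × ℕ))

open Classical in
/-- **the abstract assembly**: the weight of the pairs of lists of height `n` with a contact of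
depth in `(m, 2m]` tends to `0`. -/
theorem kapS (C : ℝ≥0∞) (hC : C ≠ ⊤) (us : ℕ → ℝ≥0∞) (hus : Tendsto us atTop (𝓝 0))
    (H2h : H2 ΛX ΛY hX hY zX zY sX sY C us) (H3h : H3 ΛX ΛY hX hY zX zY sX sY C us)
    (H5h : H5 ΛX ΛY hX hY zX zY sX sY)
    (h1 : ∀ b, 1 ≤ hX b) (hΛ : ∑' b, ΛX b = 1) (h1Y : ∀ b, 1 ≤ hY b) (hΛY : ∑' b, ΛY b = 1)
    (hU : ∀ n, U ΛX hX n ≤ 1) (hUY : ∀ n, U ΛY hY n ≤ 1)
    (hE : ∑' b, ΛX b * (hX b : ℝ≥0∞) ≠ ⊤) (hEY : ∑' b, ΛY b * (hY b : ℝ≥0∞) ≠ ⊤)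
    (hsX : ∀ b, ∀ p ∈ sX b, 1 ≤ p.2 ∧ p.2 ≤ hX b) (hsY : ∀ b, ∀ p ∈ sY b, 1 ≤ p.2 ∧ p.2 ≤ hY b) :
    ∀ ε : ℝ≥0∞, ε ≠ 0 → ∃ M : ℕ, ∀ m, M ≤ m → ∃ n0 : ℕ, ∀ n, n0 ≤ n → ∀ w : G,
    ∑' LX, ∑' LY, (if HT hX LX = n ∧ HT hY LY = n ∧
      (∃ q, q ∈ CS hX hY zX zY sX sY LX 0 0 LY w 0 ∧ m < q.2 ∧ q.2 ≤ 2 * m)
      then LW ΛX LX * LW ΛY LY else 0) ≤ ε := by
  intro ε hε
  have he : ε / 8 ≠ 0 := ENNReal.div_ne_zero.2 ⟨hε, by norm_num⟩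
  obtain ⟨J, u, hJ1, hu0, hu1, hu2, hu3⟩ := params (ε / 8) he
  set N := 3 * J with hN
  -- overshoot
  obtain ⟨x1, hx10, hx1t, hx1⟩ := small (N : ℝ≥0∞) (ε / 8) (ENNReal.natCast_ne_top _) he
  obtain ⟨i0, hi0, hi0'⟩ := (((dlt_tendsto ΛX hX hΛ hE).eventually_le_const
    (pos_iff_ne_zero.2 hx10)).and ((dlt_tendsto ΛY hY hΛY hEY).eventually_le_const
    (pos_iff_ne_zero.2 hx10))).exists
  -- lam
  set A : ℝ≥0∞ := (N : ℝ≥0∞) * (((N * i0 + 1) ^ 4 : ℕ) : ℝ≥0∞) * C with hA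
  have hAt : A ≠ ⊤ := ENNReal.mul_ne_top (ENNReal.mul_ne_top (ENNReal.natCast_ne_top _)
    (ENNReal.natCast_ne_top _)) hC
  have he2 : ε / 8 / 2 ≠ 0 := ENNReal.div_ne_zero.2 ⟨he, by norm_num⟩
  obtain ⟨lam, hl0, hlt, hl⟩ := small A (ε / 8 / 2) hAt he2
  -- s
  set K : ℝ≥0∞ := ((N * (i0 + 1) : ℕ) : ℝ≥0∞) with hK
  have hBt : A * (K / lam + 1) ≠ ⊤ := ENNReal.mul_ne_top hAt (ENNReal.add_ne_top.2
    ⟨ENNReal.div_ne_top (ENNReal.natCast_ne_top _) hl0, ENNReal.one_ne_top⟩)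
  obtain ⟨x2, hx20, hx2t, hx2⟩ := small (A * (K / lam + 1)) (ε / 8 / 2) hBt he2
  obtain ⟨s, hs⟩ := (hus.eventually_le_const (pos_iff_ne_zero.2 hx20)).exists
  -- eta
  obtain ⟨η, hη0, hηt, hη⟩ := small (((N + 1 : ℕ) : ℝ≥0∞)) (ε / 8) (ENNReal.natCast_ne_top _) he
  obtain ⟨T5, hT5⟩ := H5h (2 * (N * i0) + 2 * s + 1) η hη0
  refine ⟨3 * J + 6 * (J * i0) + J * (T5 + s + 2 * i0), fun m hm => ?_⟩
  set T := m / J - 2 * i0 with hT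
  have hJm : J * (m / J) ≤ m := Nat.mul_div_le m J
  have hmJ : m < J * (m / J) + J := by
    have := Nat.div_add_mod m J
    have := Nat.mod_lt m (by omega : 0 < J)
    omega
  have hTb : T5 + s + 2 * i0 ≤ m / J := by
    rw [Nat.le_div_iff_mul_le (by omega)]
    nlinarith
  have hTT : T + 2 * i0 = m / J := by omega
  refine ⟨N * (T + 2 * i0), fun n hn w => ?_⟩
  have hmain := total ΛX ΛY hX hY zX zY sX sY C us H2h H3h h1 hΛ h1Y hΛY hU hUY hsX hsY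
    T i0 J N m n s w η u lam hu0 hu1 hl0 hlt (by omega) (by rw [hTT]; exact hJm)
    (by
      have e1 : N * T + 6 * (J * i0) = 3 * (J * (m / J)) := by
        rw [← hTT, hN]; ring
      omega) hn (fun j hj => by
      refine hT5 _ ?_ n w
      have : 1 * T ≤ j * T := Nat.mul_le_mul_right _ (by omega)
      omega)
  refine hmain.trans ?_
  have b1 : ((N + 1 : ℕ) : ℝ≥0∞) * η ≤ ε / 8 := hη
  have b2 : (N : ℝ≥0∞) * dlt ΛX hX T i0 ≤ ε / 8 :=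
    (mul_le_mul_right ((dlt_le ΛX hX h1 hU T i0).trans hi0) _).trans hx1
  have b3 : (N : ℝ≥0∞) * dlt ΛY hY (T + i0) i0 ≤ ε / 8 :=
    (mul_le_mul_right ((dlt_le ΛY hY h1Y hUY (T + i0) i0).trans hi0') _).trans hx1
  have b4 : (N : ℝ≥0∞) * (((N * i0 + 1) ^ 4 : ℕ) * Bd C us N i0 s lam) ≤ ε / 8 := by
    calc (N : ℝ≥0∞) * (((N * i0 + 1) ^ 4 : ℕ) * Bd C us N i0 s lam)
        = A * lam + A * (K / lam + 1) * us s := by
          rw [Bd, hA, hK, ENNReal.div_eq_inv_mul, ENNReal.div_eq_inv_mul]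
          ring
      _ ≤ ε / 8 / 2 + ε / 8 / 2 := add_le_add hl ((mul_le_mul_right hs _).trans hx2)
      _ = ε / 8 := ENNReal.add_halves _
  calc ((N + 1 : ℕ) : ℝ≥0∞) * η + (N * dlt ΛX hX T i0 + (N * dlt ΛY hY (T + i0) i0 +
      N * (u * u + (((1 - u) ^ J + ((N * i0 + 1) ^ 4 : ℕ) * Bd C us N i0 s lam) +
        ((1 - u) ^ J + ((N * i0 + 1) ^ 4 : ℕ) * Bd C us N i0 s lam)))))
      = ((N + 1 : ℕ) : ℝ≥0∞) * η + (N * dlt ΛX hX T i0 + (N * dlt ΛY hY (T + i0) i0 +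
        (N * (u * u) + ((N * (1 - u) ^ J + N * (((N * i0 + 1) ^ 4 : ℕ) * Bd C us N i0 s lam)) +
          (N * (1 - u) ^ J + N * (((N * i0 + 1) ^ 4 : ℕ) * Bd C us N i0 s lam)))))) := by ring
    _ ≤ ε / 8 + (ε / 8 + (ε / 8 + (ε / 8 + ((ε / 8 + ε / 8) + (ε / 8 + ε / 8))))) :=
        add_le_add b1 (add_le_add b2 (add_le_add b3 (add_le_add hu2 (add_le_add
          (add_le_add hu3 b4) (add_le_add hu3 b4)))))
    _ = 8 * (ε / 8) := by ring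
    _ ≤ ε := ENNReal.mul_div_le

end

end Crest.Agent.R154.Asm877
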