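import Crest.Agent.R154.AsmU_917

/-! Row 154, ROAD 801 (helper917): assembly, part 2: one window. -/

set_option autoImplicit false

namespace Crest.Agent.R154.Asm917

open scoped ENNReal
open Crest.Agent.R154.B5A Crest.Agent.R154.FP178

section gen

variable {B : Type*} (Λ : B → ℝ≥0∞)

lemma SL_tsum {ι : Type*} (j : ℕ) (F : ι → List B → ℝ≥0∞) :
    SL Λ j (fun L => ∑' i, F i L) = ∑' i, SL Λ j (F i) := by
  simp only [SL]
  rw [ENNReal.tsum_comm]
  refine tsum_congr fun L => ?_
  by_cases hL : L.length = j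
  · simp only [hL, if_true]; rw [ENNReal.tsum_mul_left]
  · simp [hL]

lemma SL_sum {ι : Type*} (s : Finset ι) (j : ℕ) (F : ι → List B → ℝ≥0∞) :
    SL Λ j (fun L => ∑ i ∈ s, F i L) = ∑ i ∈ s, SL Λ j (F i) := by
  classical
  induction s using Finset.induction_on with
  | empty =>
    simp only [Finset.sum_empty]
    simpa using SL_const_mul Λ j 0 (fun _ => 0)
  | insert a s ha ih =>
    simp only [Finset.sum_insert ha]
    rw [SL_add_fun, ih]

lemma SL_mul_const (j : ℕ) (a : ℝ≥0∞) (F : List B → ℝ≥0∞) :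
    SL Λ j (fun L => F L * a) = SL Λ j F * a := by
  rw [mul_comm, ← SL_const_mul]
  exact SL_congr Λ j fun L _ => mul_comm _ _

lemma SL_comm {B' : Type*} (Λ' : B' → ℝ≥0∞) (j j' : ℕ) (F : List B → List B' → ℝ≥0∞) :
    SL Λ j (fun L => SL Λ' j' (fun L' => F L L'))
      = SL Λ' j' (fun L' => SL Λ j (fun L => F L L')) := by
  simp only [SL]
  have e1 : ∀ L : List B, (if L.length = j then LW Λ L *
      ∑' L' : List B', (if L'.length = j' then LW Λ' L' * F L L' else 0) else 0)
      = ∑' L' : List B', (if L.length = j ∧ L'.length = j' then LW Λ L * (LW Λ' L' * F L L')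
        else 0) := by
    intro L
    by_cases h : L.length = j
    · rw [if_pos h, ← ENNReal.tsum_mul_left]
      refine tsum_congr fun L' => ?_
      by_cases h' : L'.length = j'
      · simp [h, h']
      · simp [h']
    · simp [h]
  have e2 : ∀ L' : List B', (if L'.length = j' then LW Λ' L' *
      ∑' L : List B, (if L.length = j then LW Λ L * F L L' else 0) else 0)
      = ∑' L : List B, (if L.length = j ∧ L'.length = j' then LW Λ L * (LW Λ' L' * F L L')
        else 0) := by
    intro L'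
    by_cases h : L'.length = j'
    · rw [if_pos h, ← ENNReal.tsum_mul_left]
      refine tsum_congr fun L => ?_
      by_cases h' : L.length = j
      · simp only [h, h', and_self, if_true]; ring
      · simp [h']
    · simp [h]
  rw [tsum_congr e1, tsum_congr e2, ENNReal.tsum_comm]

/-- marginal of a sum over lists of length `j + (r + 1)` -/
lemma SL_mid (hΛ : ∑' b, Λ b ≤ 1) (j r : ℕ) (F : List B → ℝ≥0∞) (F' : List B → B → ℝ≥0∞)
    (h : ∀ P1 A P2, P1.length = j → P2.length = r → F (P1 ++ A :: P2) ≤ F' P1 A) :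
    SL Λ (j + (r + 1)) F ≤ SL Λ j (fun P1 => ∑' A, Λ A * F' P1 A) := by
  rw [SL_add]
  refine SL_mono Λ j fun P1 hP1 => ?_
  rw [SL_succ]
  refine ENNReal.tsum_le_tsum fun A => mul_le_mul_right ?_ _
  exact (SL_mono Λ r fun P2 hP2 => h P1 A P2 hP1 hP2).trans (SL_le_const hΛ r _)

end gen

section half

variable {B B' G : Type*} [AddCommGroup G] (Λ : B → ℝ≥0∞) (ht : B → ℕ) (z : B → G)
  (Λ' : B' → ℝ≥0∞) (ht' : B' → ℕ)

/-- total displacement -/
def Dq (z : B → G) (L : List B) : G := (L.map z).sum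

lemma HT_flatten_supp {T i0 : ℕ} (P : List (List B)) (hP : ∀ A ∈ P, Wm Λ ht T i0 A ≠ 0) :
    P.length * T ≤ HT ht P.flatten ∧ HT ht P.flatten ≤ P.length * (T + i0) := by
  induction P with
  | nil => simp [HT_nil]
  | cons A P ih =>
    have h1 := Wm_supp Λ ht (hP A List.mem_cons_self)
    have h2 := ih fun A' hA' => hP A' (List.mem_cons_of_mem _ hA')
    rw [List.flatten_cons, HT_append, List.length_cons]
    constructor
    · have : (P.length + 1) * T = P.length * T + T := by ring
      omega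
    · have : (P.length + 1) * (T + i0) = P.length * (T + i0) + (T + i0) := by ring
      omega

open Classical in
/-- one walker smooth and local, the other one arbitrary -/
theorem half (T i0 j : ℕ) (E : ℕ → Finset G) (Sm : List B → Prop) (M V : ℝ≥0∞)
    (hΛ1 : ∑' A, Wm Λ ht T i0 A ≤ 1)
    (K : List B → List B' → G → ℕ → Prop)
    (hdens : ∀ a x, SL (Wm Λ ht T i0) j (fun P => if (∃ A ∈ P, Sm A) ∧ HT ht P.flatten = a ∧
      Dq z P.flatten = x then 1 else 0) ≤ M)
    (hK : ∀ a ∈ Finset.Icc (j * T) (j * (T + i0)), ∀ h ∈ Finset.Icc T (T + i0),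
      ∀ h' ∈ Finset.Icc T (T + i0), ∀ μ : G → ℝ≥0∞, ∑' x, μ x ≤ 1 → (∀ x, μ x ≤ M) →
      ∑' x, μ x * ∑' L, ∑' L', (if HT ht L = h ∧ Dq z L ∈ E h ∧ HT ht' L' = h' ∧ K L L' x a
        then LW Λ L * LW Λ' L' else 0) ≤ V) (y : G) :
    SL (Wm Λ ht T i0) j (fun P => ∑' A, ∑' A', Wm Λ ht T i0 A * Wm Λ' ht' T i0 A' *
      (if Dq z A ∈ E (HT ht A) ∧ (∃ b ∈ P, Sm b) ∧ K A A' (y - Dq z P.flatten) (HT ht P.flatten)
        then 1 else 0))
      ≤ ((Finset.Icc (j * T) (j * (T + i0))).card * ((i0 + 1) * (i0 + 1)) : ℕ) * V := by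
  set W := Wm Λ ht T i0 with hW
  set W' := Wm Λ' ht' T i0 with hW'
  set ra := Finset.Icc (j * T) (j * (T + i0)) with hra
  set hs := Finset.Icc T (T + i0) with hhs
  set Φ : ℕ → G → ℝ≥0∞ := fun a x => ∑' A, ∑' A', W A * W' A' *
    (if Dq z A ∈ E (HT ht A) ∧ K A A' x a then 1 else 0) with hΦ
  set μ : ℕ → G → ℝ≥0∞ := fun a x => SL W j (fun P => if (∃ A ∈ P, Sm A) ∧
    HT ht P.flatten = a ∧ Dq z P.flatten = y - x then 1 else 0) with hμ
  -- step 1
  have s1 : SL W j (fun P => ∑' A, ∑' A', W A * W' A' *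
      (if Dq z A ∈ E (HT ht A) ∧ (∃ b ∈ P, Sm b) ∧ K A A' (y - Dq z P.flatten) (HT ht P.flatten)
        then 1 else 0)) ≤ ∑ a ∈ ra, ∑' x, μ a x * Φ a x := by
    calc _ ≤ SL W j (fun P => ∑ a ∈ ra, ∑' x, (if (∃ A ∈ P, Sm A) ∧ HT ht P.flatten = a ∧
          Dq z P.flatten = y - x then 1 else 0) * Φ a x) := by
          refine SL_mono' j fun P hP hP0 => ?_
          by_cases hsm : ∃ b ∈ P, Sm b
          · have hb := HT_flatten_supp Λ ht P hP0
            rw [hP] at hb
            have ha : HT ht P.flatten ∈ ra := Finset.mem_Icc.2 hb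
            refine le_trans ?_ (Finset.single_le_sum (f := fun a => ∑' x,
              (if (∃ A ∈ P, Sm A) ∧ HT ht P.flatten = a ∧
              Dq z P.flatten = y - x then (1 : ℝ≥0∞) else 0) * Φ a x) (fun _ _ => zero_le) ha)
            refine le_trans ?_ (ENNReal.le_tsum (y - Dq z P.flatten))
            rw [if_pos ⟨hsm, rfl, by abel⟩, one_mul, hΦ]
            refine ENNReal.tsum_le_tsum fun A => ENNReal.tsum_le_tsum fun A' =>
              mul_le_mul_right ?_ _
            by_cases hc : Dq z A ∈ E (HT ht A) ∧ K A A' (y - Dq z P.flatten) (HT ht P.flatten)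
            · rw [if_pos hc]; split_ifs <;> simp
            · rw [if_neg hc, if_neg (fun h => hc ⟨h.1, h.2.2⟩)]
          · refine le_trans (le_of_eq ?_) zero_le
            refine ENNReal.tsum_eq_zero.2 fun A => ENNReal.tsum_eq_zero.2 fun A' => ?_
            rw [if_neg (fun h => hsm h.2.1), mul_zero]
      _ = ∑ a ∈ ra, ∑' x, μ a x * Φ a x := by
          rw [SL_sum]
          refine Finset.sum_congr rfl fun a _ => ?_
          rw [SL_tsum]
          refine tsum_congr fun x => ?_
          rw [SL_mul_const]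
  -- step 2
  have s2 : ∀ a x, Φ a x ≤ ∑ h ∈ hs, ∑ h' ∈ hs, ∑' L, ∑' L', (if HT ht L = h ∧ Dq z L ∈ E h ∧
      HT ht' L' = h' ∧ K L L' x a then LW Λ L * LW Λ' L' else 0) := by
    intro a x
    rw [hΦ]
    calc _ ≤ ∑' A, ∑' A', ∑ h ∈ hs, ∑ h' ∈ hs, (if HT ht A = h ∧ Dq z A ∈ E h ∧
      HT ht' A' = h' ∧ K A A' x a then LW Λ A * LW Λ' A' else 0) := by
          refine ENNReal.tsum_le_tsum fun A => ENNReal.tsum_le_tsum fun A' => ?_
          by_cases hc : Dq z A ∈ E (HT ht A) ∧ K A A' x a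
          · by_cases hA : W A = 0
            · rw [hA]; simp
            · by_cases hA' : W' A' = 0
              · rw [hA']; simp
              · have h1 : HT ht A ∈ hs := Finset.mem_Icc.2 (Wm_supp Λ ht hA)
                have h2 : HT ht' A' ∈ hs := Finset.mem_Icc.2 (Wm_supp Λ' ht' hA')
                refine le_trans ?_ (Finset.single_le_sum (f := fun h => ∑ h' ∈ hs,
                  (if HT ht A = h ∧ Dq z A ∈ E h ∧
                  HT ht' A' = h' ∧ K A A' x a then LW Λ A * LW Λ' A' else (0 : ℝ≥0∞)))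
                  (fun _ _ => zero_le) h1)
                refine le_trans ?_ (Finset.single_le_sum (f := fun h' =>
                  (if HT ht A = HT ht A ∧ Dq z A ∈ E (HT ht A) ∧
                  HT ht' A' = h' ∧ K A A' x a then LW Λ A * LW Λ' A' else (0 : ℝ≥0∞)))
                  (fun _ _ => zero_le) h2)
                rw [if_pos hc, if_pos ⟨rfl, hc.1, rfl, hc.2⟩, mul_one]
                exact mul_le_mul' (Wm_le Λ ht A) (Wm_le Λ' ht' A')
          · rw [if_neg hc, mul_zero]; exact zero_le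
      _ = _ := by
          have e1 : ∀ A : List B, ∑' A', ∑ h ∈ hs, ∑ h' ∈ hs, (if HT ht A = h ∧ Dq z A ∈ E h ∧
              HT ht' A' = h' ∧ K A A' x a then LW Λ A * LW Λ' A' else 0)
              = ∑ h ∈ hs, ∑ h' ∈ hs, ∑' A', (if HT ht A = h ∧ Dq z A ∈ E h ∧
              HT ht' A' = h' ∧ K A A' x a then LW Λ A * LW Λ' A' else 0) := by
            intro A
            rw [Summable.tsum_finsetSum (fun _ _ => ENNReal.summable)]
            refine Finset.sum_congr rfl fun h _ => ?_
            rw [Summable.tsum_finsetSum (fun _ _ => ENNReal.summable)]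
          rw [tsum_congr e1, Summable.tsum_finsetSum (fun _ _ => ENNReal.summable)]
          refine Finset.sum_congr rfl fun h _ => ?_
          rw [Summable.tsum_finsetSum (fun _ _ => ENNReal.summable)]
  -- step 3
  have hμ1 : ∀ a, ∑' x, μ a x ≤ 1 := by
    intro a
    rw [hμ, ← SL_tsum]
    calc _ ≤ SL W j (fun _ => 1) := by
          refine SL_mono W j fun P _ => ?_
          rw [tsum_eq_single (y - Dq z P.flatten)]
          · split_ifs <;> simp
          · intro x hx
            rw [if_neg]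
            rintro ⟨-, -, h⟩
            exact hx (by rw [h]; abel)
      _ ≤ 1 := SL_le_const hΛ1 j 1
  have hμM : ∀ a x, μ a x ≤ M := fun a x => hdens a (y - x)
  have s3 : ∀ a ∈ ra, ∑' x, μ a x * Φ a x ≤ ((i0 + 1) * (i0 + 1) : ℕ) * V := by
    intro a ha
    calc ∑' x, μ a x * Φ a x
        ≤ ∑' x, μ a x * ∑ h ∈ hs, ∑ h' ∈ hs, ∑' L, ∑' L', (if HT ht L = h ∧ Dq z L ∈ E h ∧
            HT ht' L' = h' ∧ K L L' x a then LW Λ L * LW Λ' L' else 0) :=
          ENNReal.tsum_le_tsum fun x => mul_le_mul_right (s2 a x) _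
      _ = ∑ h ∈ hs, ∑ h' ∈ hs, ∑' x, μ a x * ∑' L, ∑' L', (if HT ht L = h ∧ Dq z L ∈ E h ∧
            HT ht' L' = h' ∧ K L L' x a then LW Λ L * LW Λ' L' else 0) := by
          have e1 : ∀ x, μ a x * ∑ h ∈ hs, ∑ h' ∈ hs, ∑' L, ∑' L', (if HT ht L = h ∧
              Dq z L ∈ E h ∧ HT ht' L' = h' ∧ K L L' x a then LW Λ L * LW Λ' L' else 0)
              = ∑ h ∈ hs, ∑ h' ∈ hs, μ a x * ∑' L, ∑' L', (if HT ht L = h ∧
              Dq z L ∈ E h ∧ HT ht' L' = h' ∧ K L L' x a then LW Λ L * LW Λ' L' else 0) := by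
            intro x
            rw [Finset.mul_sum]
            exact Finset.sum_congr rfl fun h _ => Finset.mul_sum _ _ _
          rw [tsum_congr e1, Summable.tsum_finsetSum (fun _ _ => ENNReal.summable)]
          refine Finset.sum_congr rfl fun h _ => ?_
          rw [Summable.tsum_finsetSum (fun _ _ => ENNReal.summable)]
      _ ≤ ∑ _h ∈ hs, ∑ _h' ∈ hs, V :=
          Finset.sum_le_sum fun h hh => Finset.sum_le_sum fun h' hh' =>
            hK a ha h hh h' hh' (μ a) (hμ1 a) (hμM a)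
      _ = ((i0 + 1) * (i0 + 1) : ℕ) * V := by
          have hc : hs.card = i0 + 1 := by rw [hhs, Nat.card_Icc]; omega
          rw [Finset.sum_const, Finset.sum_const, hc, nsmul_eq_mul, nsmul_eq_mul]
          push_cast; ring
  refine s1.trans ((Finset.sum_le_sum s3).trans (le_of_eq ?_))
  rw [Finset.sum_const, nsmul_eq_mul]
  push_cast; ring

end half

end Crest.Agent.R154.Asm917
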