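import Crest.Agent.R154.AsmW_950

/-! Row 154 (helper950), ROAD 801: one window, both walkers. -/

set_option autoImplicit false

namespace Crest.Agent.R154.Asm950

open scoped ENNReal
open Crest.Agent.R154.B5A
open Crest.Agent.R154.FP178

section Window

variable {BX BY G : Type*} [AddCommGroup G]
  (ΛX : BX → ℝ≥0∞) (hX : BX → ℕ) (zX : BX → G) (sX : BX → Set (G × ℕ))
  (ΛY : BY → ℝ≥0∞) (hY : BY → ℕ) (zY : BY → G) (sY : BY → Set (G × ℕ))

/-- the two pieces meet, and all their contacts have depth in `[lo, hi]` -/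
def Q (lo hi : ℕ) (L : List BX) (L' : List BY) (a a' : ℕ) (x : G) : Prop :=
  (∃ z k, (z, k) ∈ TT sX hX zX L 0 a ∧ (z, k) ∈ TT sY hY zY L' x a') ∧
    (∀ z k, (z, k) ∈ TT sX hX zX L 0 a → (z, k) ∈ TT sY hY zY L' x a' → lo ≤ k ∧ k ≤ hi)

open Classical in
/-- window lemma, X local (weakest form: all side conditions given) -/
def H2 (C : ℝ≥0∞) (us : ℕ → ℕ → ℝ≥0∞) : Prop :=
  ∀ (i s h h' a a' lo hi : ℕ) (E : Finset G) (μ : G → ℝ≥0∞) (M lam : ℝ≥0∞),
    ∑' x, μ x ≤ 1 → (∀ x, μ x ≤ M) → lam ≠ 0 → lam ≠ ⊤ →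
    a + s ≤ lo → a' + s ≤ lo → hi + s ≤ a + h → hi + s ≤ a' + h' →
    a < a' → a' ≤ a + i → a + h < a' + h' → a' + h' ≤ a + h + i →
    ∑' x, μ x * ∑' L, ∑' L', (if HT hX L = h ∧ Dp zX L ∈ E ∧ HT hY L' = h' ∧
      Q hX zX sX hY zY sY lo hi L L' a a' x then LW ΛX L * LW ΛY L' else 0)
      ≤ C * (lam + M * E.card * us i s / lam + us i s)

open Classical in
/-- window lemma, Y local -/
def H3 (C : ℝ≥0∞) (us : ℕ → ℕ → ℝ≥0∞) : Prop :=
  ∀ (i s h h' a a' lo hi : ℕ) (E : Finset G) (μ : G → ℝ≥0∞) (M lam : ℝ≥0∞),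
    ∑' x, μ x ≤ 1 → (∀ x, μ x ≤ M) → lam ≠ 0 → lam ≠ ⊤ →
    a + s ≤ lo → a' + s ≤ lo → hi + s ≤ a + h → hi + s ≤ a' + h' →
    a < a' → a' ≤ a + i → a + h < a' + h' → a' + h' ≤ a + h + i →
    ∑' x, μ x * ∑' L, ∑' L', (if HT hX L = h ∧ HT hY L' = h' ∧ Dp zY L' ∈ E ∧
      Q hX zX sX hY zY sY lo hi L L' a a' x then LW ΛX L * LW ΛY L' else 0)
      ≤ C * (lam + M * E.card * us i s / lam + us i s)

variable (w : G)

/-- `(z, k)` is a common site of the two hung lists -/
def Com (LX : List BX) (LY : List BY) (z : G) (k : ℕ) : Prop :=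
  (z, k) ∈ TT sX hX zX LX 0 0 ∧ (z, k) ∈ TT sY hY zY LY w 0

/-- the event of one window -/
def Ev (lo mid hi top : ℕ) (LX : List BX) (LY : List BY) : Prop :=
  (∀ z k, Com hX zX sX hY zY sY w LX LY z k → lo ≤ k ∧ ¬ (hi < k ∧ k ≤ top)) ∧
    ∃ z k, Com hX zX sX hY zY sY w LX LY z k ∧ k ≤ mid

lemma ev_Q (hsX : ∀ b, ∀ q ∈ sX b, 1 ≤ q.2 ∧ q.2 ≤ hX b)
    (hsY : ∀ b, ∀ q ∈ sY b, 1 ≤ q.2 ∧ q.2 ≤ hY b) (lo mid hi top : ℕ)
    (A P R : List BX) (A' P' R' : List BY)
    (h1 : HT hX A < lo) (h2 : HT hY A' < lo) (h3 : mid ≤ HT hX A + HT hX P)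
    (h4 : mid ≤ HT hY A' + HT hY P') (h5 : HT hX A + HT hX P ≤ top)
    (h : Ev hX zX sX hY zY sY w lo mid hi top (A ++ (P ++ R)) (A' ++ (P' ++ R'))) :
    Q hX zX sX hY zY sY lo hi P P' (HT hX A) (HT hY A') (w + Dp zY A' - Dp zX A) := by
  obtain ⟨hall, z0, k0, hc, hk0⟩ := h
  have tX : ∀ z k, (z, k) ∈ TT sX hX zX P (Dp zX A) (HT hX A) →
      (z, k) ∈ TT sX hX zX (A ++ (P ++ R)) 0 0 := by
    intro z k hz
    rw [TT_append, TT_append, zero_add, zero_add]
    exact Or.inr (Or.inl hz)
  have tY : ∀ z k, (z, k) ∈ TT sY hY zY P' (w + Dp zY A') (HT hY A') →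
      (z, k) ∈ TT sY hY zY (A' ++ (P' ++ R')) w 0 := by
    intro z k hz
    rw [TT_append, TT_append, zero_add]
    exact Or.inr (Or.inl hz)
  have sX' : ∀ z k, (z, k) ∈ TT sX hX zX P 0 (HT hX A) ↔
      (z + Dp zX A, k) ∈ TT sX hX zX P (Dp zX A) (HT hX A) := by
    intro z k
    have := TT_shift sX hX zX P 0 (Dp zX A) (HT hX A) (z + Dp zX A) k
    rw [zero_add, add_sub_cancel_right] at this
    exact this.symm
  have sY' : ∀ z k, (z, k) ∈ TT sY hY zY P' (w + Dp zY A' - Dp zX A) (HT hY A') ↔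
      (z + Dp zX A, k) ∈ TT sY hY zY P' (w + Dp zY A') (HT hY A') := by
    intro z k
    have := TT_shift sY hY zY P' (w + Dp zY A' - Dp zX A) (Dp zX A) (HT hY A') (z + Dp zX A) k
    rw [sub_add_cancel, add_sub_cancel_right] at this
    exact this.symm
  have hlo := (hall z0 k0 hc).1
  refine ⟨⟨z0 - Dp zX A, k0, ?_, ?_⟩, ?_⟩
  · rw [sX', sub_add_cancel]
    have := hc.1
    rw [TT_append, TT_append, zero_add, zero_add] at this
    rcases this with h | h | h
    · have := TT_depth sX hX zX hsX _ _ _ _ _ h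
      omega
    · exact h
    · have := TT_depth sX hX zX hsX _ _ _ _ _ h
      omega
  · rw [sY', sub_add_cancel]
    have := hc.2
    rw [TT_append, TT_append, zero_add] at this
    rcases this with h | h | h
    · have := TT_depth sY hY zY hsY _ _ _ _ _ h
      omega
    · exact h
    · have := TT_depth sY hY zY hsY _ _ _ _ _ h
      omega
  · intro z k hz hz'
    rw [sX'] at hz
    rw [sY'] at hz'
    have hd := TT_depth sX hX zX hsX _ _ _ _ _ hz
    have := hall _ _ ⟨tX _ _ hz, tY _ _ hz'⟩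
    refine ⟨this.1, ?_⟩
    by_contra hh
    exact this.2 ⟨by omega, by omega⟩

open Classical in
/-- the piece function -/
noncomputable def Phi (τ i0 lo hi : ℕ) (S : List BX → List BY → Prop) (α α' : ℕ) (x : G) : ℝ≥0∞ :=
  ∑' P, ∑' P', (if ((fp hX τ P ∧ HT hX P ≤ τ + i0) ∧ (fp hY τ P' ∧ HT hY P' ≤ τ + i0)) ∧ S P P' ∧
    Q hX zX sX hY zY sY lo hi P P' α α' x then LW ΛX P * LW ΛY P' else 0)

open Classical in
lemma Phi_le_one (hFX : ∀ a, ∑' L, (if fp hX a L then LW ΛX L else 0) ≤ 1)
    (hFY : ∀ a, ∑' L, (if fp hY a L then LW ΛY L else 0) ≤ 1)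
    (τ i0 lo hi : ℕ) (S : List BX → List BY → Prop) (α α' : ℕ) (x : G) :
    Phi ΛX hX zX sX ΛY hY zY sY τ i0 lo hi S α α' x ≤ 1 := by
  calc Phi ΛX hX zX sX ΛY hY zY sY τ i0 lo hi S α α' x
      ≤ ∑' P, ∑' P', (if fp hX τ P then LW ΛX P else 0) * (if fp hY τ P' then LW ΛY P' else 0) := by
        refine ENNReal.tsum_le_tsum fun P => ENNReal.tsum_le_tsum fun P' => ?_
        split_ifs with h h1 h2 h3 <;> first | exact le_rfl | exact zero_le | (exfalso; tauto)
    _ = (∑' P, (if fp hX τ P then LW ΛX P else 0)) * ∑' P', (if fp hY τ P' then LW ΛY P' else 0) := by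
        simp_rw [ENNReal.tsum_mul_left, ENNReal.tsum_mul_right]
    _ ≤ 1 * 1 := mul_le_mul' (hFX τ) (hFY τ)
    _ = 1 := one_mul _

open Classical in
/-- reduction of the window sum to the law of the prefixes -/
theorem win_le (h1X : ∀ b, 1 ≤ hX b) (h1Y : ∀ b, 1 ≤ hY b)
    (hΛX : ∑' b, ΛX b = 1) (hΛY : ∑' b, ΛY b = 1)
    (hUX : ∀ n, U ΛX hX n ≤ 1) (hUY : ∀ n, U ΛY hY n ≤ 1)
    (hsX : ∀ b, ∀ q ∈ sX b, 1 ≤ q.2 ∧ q.2 ≤ hX b)
    (hsY : ∀ b, ∀ q ∈ sY b, 1 ≤ q.2 ∧ q.2 ≤ hY b)
    (a0 b0 τ i0 lo mid hi top n : ℕ) (hlo1 : a0 + i0 < lo) (hlo2 : b0 + i0 < lo)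
    (hmid : mid ≤ a0 + τ) (hmid' : mid ≤ b0 + τ) (htop : a0 + i0 + (τ + i0) ≤ top)
    (hn : a0 + i0 + (τ + i0) ≤ n) (hn' : b0 + i0 + (τ + i0) ≤ n) :
    ∑' LX, ∑' LY, (if HT hX LX = n ∧ HT hY LY = n ∧
        Ev hX zX sX hY zY sY w lo mid hi top LX LY then LW ΛX LX * LW ΛY LY else 0)
      ≤ (ov ΛX hX i0 a0 + ov ΛX hX i0 τ) + (ov ΛY hY i0 b0 + ov ΛY hY i0 τ)
        + LAW (fl ΛX hX zX a0) (fl ΛY hY zY b0) w a0 b0 i0
            (Phi ΛX hX zX sX ΛY hY zY sY τ i0 lo hi (fun _ _ => True)) := by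
  have hFX : ∀ a, ∑' L, (if fp hX a L then LW ΛX L else 0) ≤ 1 := fun a =>
    (sum_FP_eq ΛX hX h1X hΛX a).le
  have hFY : ∀ a, ∑' L, (if fp hY a L then LW ΛY L else 0) ≤ 1 := fun a =>
    (sum_FP_eq ΛY hY h1Y hΛY a).le
  set PX : List BX → Prop := fun P => fp hX τ P ∧ HT hX P ≤ τ + i0 with hPX
  set PY : List BY → Prop := fun P => fp hY τ P ∧ HT hY P ≤ τ + i0 with hPY
  set AX : List BX → Prop := fun A => fp hX a0 A ∧ HT hX A ≤ a0 + i0 with hAX
  set AY : List BY → Prop := fun A => fp hY b0 A ∧ HT hY A ≤ b0 + i0 with hAY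
  set QQ : List BX → List BX → List BY → List BY → ℝ≥0∞ := fun A P A' P' =>
    if Q hX zX sX hY zY sY lo hi P P' (HT hX A) (HT hY A') (w + Dp zY A' - Dp zX A) then 1 else 0
    with hQQ
  -- cut X
  have step1 : ∑' LX, ∑' LY, (if HT hX LX = n ∧ HT hY LY = n ∧
        Ev hX zX sX hY zY sY w lo mid hi top LX LY then LW ΛX LX * LW ΛY LY else 0)
      = ∑' LX, (if HT hX LX = n then LW ΛX LX * (∑' LY, (if HT hY LY = n then LW ΛY LY *
          (if Ev hX zX sX hY zY sY w lo mid hi top LX LY then 1 else 0) else 0)) else 0) := by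
    refine tsum_congr fun LX => ?_
    by_cases h : HT hX LX = n
    · rw [if_pos h, ← ENNReal.tsum_mul_left]
      refine tsum_congr fun LY => ?_
      by_cases h2 : HT hY LY = n
      · by_cases h3 : Ev hX zX sX hY zY sY w lo mid hi top LX LY
        · rw [if_pos ⟨h, h2, h3⟩, if_pos h2, if_pos h3, mul_one]
        · rw [if_neg (fun h' => h3 h'.2.2), if_pos h2, if_neg h3, mul_zero, mul_zero]
      · rw [if_neg (fun h' => h2 h'.2.1), if_neg h2, mul_zero]
    · rw [if_neg h, ENNReal.tsum_eq_zero]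
      intro LY
      rw [if_neg (fun h' => h h'.1)]
  rw [step1]
  have hf1 : ∀ (g : List BY → ℝ≥0∞), (∀ L, g L ≤ 1) →
      ∑' LY, (if HT hY LY = n then LW ΛY LY * g LY else 0) ≤ 1 := by
    intro g hg
    refine le_trans ?_ (hUY n)
    rw [U]
    refine ENNReal.tsum_le_tsum fun L => ?_
    split_ifs
    · calc _ ≤ LW ΛY L * 1 := mul_le_mul_right (hg L) _
        _ = _ := mul_one _
    · exact le_rfl
  refine le_trans (cut2 ΛX hX h1X hUX hFX n a0 τ i0 hn
    (fun LX => ∑' LY, (if HT hY LY = n then LW ΛY LY *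
          (if Ev hX zX sX hY zY sY w lo mid hi top LX LY then 1 else 0) else 0))
    (fun LX => hf1 _ (fun L => by split_ifs <;> simp))
    (fun A P => ∑' LY, (if HT hY LY = n then LW ΛY LY *
          (if ∃ R, Ev hX zX sX hY zY sY w lo mid hi top (A ++ (P ++ R)) LY then 1 else 0) else 0))
    (fun A P R _ _ _ _ => ?_)) ?_
  · refine ENNReal.tsum_le_tsum fun LY => ?_
    by_cases h : HT hY LY = n
    · rw [if_pos h, if_pos h]
      refine mul_le_mul_right ?_ _
      by_cases h2 : Ev hX zX sX hY zY sY w lo mid hi top (A ++ (P ++ R)) LY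
      · rw [if_pos h2, if_pos ⟨R, h2⟩]
      · rw [if_neg h2]; exact zero_le
    · rw [if_neg h, if_neg h]
  rw [add_assoc (ov ΛX hX i0 a0 + ov ΛX hX i0 τ)]
  refine add_le_add le_rfl ?_
  -- cut Y
  have step2 : ∀ A P, AX A → PX P → ∑' LY, (if HT hY LY = n then LW ΛY LY *
          (if ∃ R, Ev hX zX sX hY zY sY w lo mid hi top (A ++ (P ++ R)) LY then 1 else 0) else 0)
      ≤ (ov ΛY hY i0 b0 + ov ΛY hY i0 τ) + ∑' A', (if AY A' then LW ΛY A' *
          ∑' P', (if PY P' then LW ΛY P' * QQ A P A' P' else 0) else 0) := by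
    intro A P hA hP
    refine cut2 ΛY hY h1Y hUY hFY n b0 τ i0 hn'
      (fun LY => if ∃ R, Ev hX zX sX hY zY sY w lo mid hi top (A ++ (P ++ R)) LY then 1 else 0)
      (fun L => by split_ifs <;> simp) (fun A' P' => QQ A P A' P') ?_
    intro A' P' R' hA' hA'2 hP' hP'2
    by_cases h : ∃ R, Ev hX zX sX hY zY sY w lo mid hi top (A ++ (P ++ R)) (A' ++ (P' ++ R'))
    · obtain ⟨R, hR⟩ := h
      have hAl := le_HT_of_fp hX hA.1
      have hPl := le_HT_of_fp hX hP.1
      have hAl' := le_HT_of_fp hY hA'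
      have hPl' := le_HT_of_fp hY hP'
      have hA2 := hA.2
      have hP2 := hP.2
      have := ev_Q hX zX sX hY zY sY w hsX hsY lo mid hi top A P R A' P' R'
        (by omega) (by omega) (by omega) (by omega) (by omega) hR
      simp only [hQQ]
      rw [if_pos this]
      split_ifs <;> simp
    · simp only [if_neg h]; exact zero_le
  calc ∑' A, (if fp hX a0 A ∧ HT hX A ≤ a0 + i0 then
          LW ΛX A * ∑' P, (if fp hX τ P ∧ HT hX P ≤ τ + i0 then LW ΛX P * _ else 0) else 0)
      ≤ ∑' A, (if AX A then LW ΛX A * ∑' P, (if PX P then LW ΛX P *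
          ((ov ΛY hY i0 b0 + ov ΛY hY i0 τ) + ∑' A', (if AY A' then LW ΛY A' *
          ∑' P', (if PY P' then LW ΛY P' * QQ A P A' P' else 0) else 0)) else 0) else 0) := by
        refine ENNReal.tsum_le_tsum fun A => ?_
        by_cases hA : AX A
        · rw [if_pos hA, if_pos hA]
          refine mul_le_mul_right (ENNReal.tsum_le_tsum fun P => ?_) _
          by_cases hP : PX P
          · rw [if_pos hP, if_pos hP]
            exact mul_le_mul_right (step2 A P hA hP) _
          · rw [if_neg hP, if_neg hP]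
        · rw [if_neg hA, if_neg hA]
    _ ≤ (ov ΛY hY i0 b0 + ov ΛY hY i0 τ)
        + ∑' A, (if AX A then LW ΛX A * ∑' P, (if PX P then LW ΛX P *
          (∑' A', (if AY A' then LW ΛY A' *
          ∑' P', (if PY P' then LW ΛY P' * QQ A P A' P' else 0) else 0)) else 0) else 0) := by
        set o := ov ΛY hY i0 b0 + ov ΛY hY i0 τ with ho
        have e : ∀ A, (if AX A then LW ΛX A * ∑' P, (if PX P then LW ΛX P *
          (o + ∑' A', (if AY A' then LW ΛY A' *
          ∑' P', (if PY P' then LW ΛY P' * QQ A P A' P' else 0) else 0)) else 0) else 0)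
            = (if AX A then LW ΛX A * ∑' P, (if PX P then LW ΛX P * o else 0) else 0)
            + (if AX A then LW ΛX A * ∑' P, (if PX P then LW ΛX P *
          (∑' A', (if AY A' then LW ΛY A' *
          ∑' P', (if PY P' then LW ΛY P' * QQ A P A' P' else 0) else 0)) else 0) else 0) := by
          intro A
          by_cases hA : AX A
          · simp only [if_pos hA]
            rw [← mul_add, ← ENNReal.tsum_add]
            congr 1
            refine tsum_congr fun P => ?_
            by_cases hP : PX P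
            · simp only [if_pos hP]; rw [mul_add]
            · simp only [if_neg hP, add_zero]
          · simp only [if_neg hA, add_zero]
        rw [tsum_congr e, ENNReal.tsum_add]
        refine add_le_add ?_ le_rfl
        calc ∑' A, (if AX A then LW ΛX A * ∑' P, (if PX P then LW ΛX P * o else 0) else 0)
            ≤ ∑' A, (if fp hX a0 A then LW ΛX A else 0) * ((∑' P, (if fp hX τ P then LW ΛX P else 0)) * o) := by
              refine ENNReal.tsum_le_tsum fun A => ?_
              by_cases hA : AX A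
              · rw [if_pos hA, if_pos hA.1, ← ENNReal.tsum_mul_right]
                refine mul_le_mul_right (ENNReal.tsum_le_tsum fun P => ?_) _
                by_cases hP : PX P
                · rw [if_pos hP, if_pos hP.1]
                · rw [if_neg hP]; exact zero_le
              · rw [if_neg hA]; exact zero_le
          _ = (∑' A, (if fp hX a0 A then LW ΛX A else 0)) * ((∑' P, (if fp hX τ P then LW ΛX P else 0)) * o) :=
              ENNReal.tsum_mul_right
          _ ≤ 1 * (1 * o) := mul_le_mul' (hFX _) (mul_le_mul_left (hFX _) _)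
          _ = o := by rw [one_mul, one_mul]
    _ ≤ (ov ΛY hY i0 b0 + ov ΛY hY i0 τ) + LAW (fl ΛX hX zX a0) (fl ΛY hY zY b0) w a0 b0 i0
            (Phi ΛX hX zX sX ΛY hY zY sY τ i0 lo hi (fun _ _ => True)) := by
        refine add_le_add le_rfl ?_
        -- pull the laws
        set Ph' := Phi ΛX hX zX sX ΛY hY zY sY τ i0 lo hi (fun _ _ => True) with hPh'
        have hL : LAW (fl ΛX hX zX a0) (fl ΛY hY zY b0) w a0 b0 i0 Ph'
            = ∑' A, (if fp hX a0 A then LW ΛX A * (∑' A', (if fp hY b0 A' then LW ΛY A' *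
              (if (a0 ≤ HT hX A ∧ HT hX A ≤ a0 + i0) ∧ (b0 ≤ HT hY A' ∧ HT hY A' ≤ b0 + i0) then
                Ph' (HT hX A) (HT hY A') (w + Dp zY A' - Dp zX A) else 0) else 0)) else 0) := by
          rw [LAW]
          rw [← fl_pull ΛX hX zX a0 (fun α z => ∑' α', ∑' z', fl ΛY hY zY b0 α' z' *
            (if (a0 ≤ α ∧ α ≤ a0 + i0) ∧ (b0 ≤ α' ∧ α' ≤ b0 + i0) then Ph' α α' (w + z' - z) else 0))]
          refine tsum_congr fun A => ?_
          by_cases hA : fp hX a0 A
          · rw [if_pos hA, if_pos hA]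
            congr 1
            rw [← fl_pull ΛY hY zY b0 (fun α' z' =>
              (if (a0 ≤ HT hX A ∧ HT hX A ≤ a0 + i0) ∧ (b0 ≤ α' ∧ α' ≤ b0 + i0) then
                Ph' (HT hX A) α' (w + z' - Dp zX A) else 0))]
          · rw [if_neg hA, if_neg hA]
        rw [hL]
        refine ENNReal.tsum_le_tsum fun A => ?_
        by_cases hA : AX A
        · rw [if_pos hA, if_pos hA.1]
          refine mul_le_mul_right ?_ _
          -- swap the sums over P and A'
          calc ∑' P, (if PX P then LW ΛX P * (∑' A', (if AY A' then LW ΛY A' *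
                ∑' P', (if PY P' then LW ΛY P' * QQ A P A' P' else 0) else 0)) else 0)
              = ∑' P, ∑' A', (if PX P ∧ AY A' then LW ΛX P * (LW ΛY A' *
                ∑' P', (if PY P' then LW ΛY P' * QQ A P A' P' else 0)) else 0) := by
                refine tsum_congr fun P => ?_
                by_cases hP : PX P
                · rw [if_pos hP, ← ENNReal.tsum_mul_left]
                  refine tsum_congr fun A' => ?_
                  by_cases hA' : AY A'
                  · rw [if_pos hA', if_pos ⟨hP, hA'⟩]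
                  · rw [if_neg hA', if_neg (fun h => hA' h.2), mul_zero]
                · rw [if_neg hP, eq_comm, ENNReal.tsum_eq_zero]
                  intro A'
                  rw [if_neg (fun h => hP h.1)]
            _ = ∑' A', ∑' P, (if PX P ∧ AY A' then LW ΛX P * (LW ΛY A' *
                ∑' P', (if PY P' then LW ΛY P' * QQ A P A' P' else 0)) else 0) := ENNReal.tsum_comm
            _ ≤ _ := by
                refine ENNReal.tsum_le_tsum fun A' => ?_
                by_cases hA' : AY A'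
                · have hA1 := le_HT_of_fp hX hA.1
                  have hA2 := le_HT_of_fp hY hA'.1
                  rw [if_pos hA'.1, if_pos ⟨⟨hA1, hA.2⟩, ⟨hA2, hA'.2⟩⟩, hPh', Phi,
                    ← ENNReal.tsum_mul_left]
                  refine ENNReal.tsum_le_tsum fun P => ?_
                  by_cases hP : PX P
                  · rw [if_pos ⟨hP, hA'⟩, ← ENNReal.tsum_mul_left, ← ENNReal.tsum_mul_left,
                      ← ENNReal.tsum_mul_left]
                    refine ENNReal.tsum_le_tsum fun P' => ?_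
                    by_cases hP' : PY P'
                    · rw [if_pos hP']
                      by_cases hq : Q hX zX sX hY zY sY lo hi P P' (HT hX A) (HT hY A')
                          (w + Dp zY A' - Dp zX A)
                      · simp only [hQQ]
                        rw [if_pos hq, if_pos ⟨⟨hP, hP'⟩, trivial, hq⟩, mul_one]
                        exact le_of_eq (by ring)
                      · simp only [hQQ]
                        rw [if_neg hq, mul_zero, mul_zero, mul_zero]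
                        exact zero_le
                    · rw [if_neg hP', mul_zero, mul_zero]; exact zero_le
                  · rw [if_neg (fun h => hP h.1)]; exact zero_le
                · have : ∑' P, (if PX P ∧ AY A' then LW ΛX P * (LW ΛY A' *
                    ∑' P', (if PY P' then LW ΛY P' * QQ A P A' P' else 0)) else 0) = 0 := by
                    rw [ENNReal.tsum_eq_zero]
                    intro P
                    rw [if_neg (fun h => hA' h.2)]
                  rw [this]; exact zero_le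
        · rw [if_neg hA]; exact zero_le

end Window

end Crest.Agent.R154.Asm950
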