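import Crest.Agent.R154.Ren_396

/-! Row 154, ROAD 801 (helper396): law of `Del` = (Y at its renewal) - (X at its renewal), with the
sup / failure split from X's attempts alone or from Y's attempts alone; local sets. -/

set_option autoImplicit false
set_option linter.unusedVariables false

namespace Crest.Agent.R154.Ren396

open Crest.Agent.R154.B5A
open scoped ENNReal

variable {BX BY : Type*} (ΛX : BX → ℝ≥0∞) (ΛY : BY → ℝ≥0∞) (hX : BX → ℕ) (hY : BY → ℕ)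
  {G : Type*} [AddCommGroup G] (zX : BX → G) (zY : BY → G)

/-- law of `Del` for the first renewals `≥ A` of X (height `c`) and `≥ A'` of Y (height `d`) -/
noncomputable def Del (A A' c d : ℕ) (δ : G) : ℝ≥0∞ :=
  ∑' x, W ΛX hX zX A c x * W ΛY hY zY A' d (x + δ)

/-- convolution with a general `f` in the place of X's law -/
lemma conv_sup {f g : G → ℝ≥0∞} {M : ℝ≥0∞} (hf : ∀ x, f x ≤ M) (hg : ∑' x, g x ≤ 1) (δ : G) :
    ∑' x, f x * g (x + δ) ≤ M := by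
  calc _ ≤ ∑' x, M * g (x + δ) := ENNReal.tsum_le_tsum fun x => mul_le_mul_left (hf x) _
    _ = M * ∑' x, g x := by
        rw [ENNReal.tsum_mul_left]
        congr 1
        exact (Equiv.addRight δ).tsum_eq g
    _ ≤ M * 1 := mul_le_mul_right hg _
    _ = M := mul_one _

lemma conv_sup' {f g : G → ℝ≥0∞} {M : ℝ≥0∞} (hf : ∑' x, f x ≤ 1) (hg : ∀ x, g x ≤ M) (δ : G) :
    ∑' x, f x * g (x + δ) ≤ M := by
  calc _ ≤ ∑' x, f x * M := ENNReal.tsum_le_tsum fun x => mul_le_mul_right (hg _) _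
    _ = (∑' x, f x) * M := ENNReal.tsum_mul_right
    _ ≤ 1 * M := mul_le_mul_left hf _
    _ = M := one_mul _

/-- total mass of a convolution -/
lemma conv_mass (f g : G → ℝ≥0∞) :
    ∑' δ, ∑' x, f x * g (x + δ) = (∑' x, f x) * ∑' x, g x := by
  rw [ENNReal.tsum_comm, ← ENNReal.tsum_mul_right]
  refine tsum_congr fun x => ?_
  rw [ENNReal.tsum_mul_left]
  congr 1
  exact (Equiv.addLeft x).tsum_eq g

theorem Del_mass (hΛX : ∑' b, ΛX b ≤ 1) (h1X : ∀ b, 1 ≤ hX b) (hΛY : ∑' b, ΛY b ≤ 1)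
    (h1Y : ∀ b, 1 ≤ hY b) (A A' : ℕ) :
    ∑' c, ∑' d, ∑' δ, Del ΛX ΛY hX hY zX zY A A' c d δ ≤ 1 := by
  classical
  simp only [Del, conv_mass]
  calc _ = ∑' c, (∑' x, W ΛX hX zX A c x) * ∑' d, ∑' x, W ΛY hY zY A' d x := by
        refine tsum_congr fun c => ?_
        rw [ENNReal.tsum_mul_left]
    _ ≤ ∑' c, (∑' x, W ΛX hX zX A c x) * 1 := by
        refine ENNReal.tsum_le_tsum fun c => mul_le_mul_right ?_ _
        rw [tsum_tsum_W]
        exact mass_FR ΛY hY hΛY h1Y A'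
    _ ≤ 1 := by
        simp only [mul_one]
        rw [tsum_tsum_W]
        exact mass_FR ΛX hX hΛX h1X A

/-- **density of Del from X's attempts**, failure paid once (total over `c`, `d`). -/
theorem Del_X (hΛX : ∑' b, ΛX b ≤ 1) (h1X : ∀ b, 1 ≤ hX b) (hΛY : ∑' b, ΛY b ≤ 1)
    (h1Y : ∀ b, 1 ≤ hY b) (A A' : ℕ) (M q : ℝ≥0∞)
    (h : ∃ Wg Wb : ℕ → G → ℝ≥0∞, (∀ c δ, W ΛX hX zX A c δ ≤ Wg c δ + Wb c δ) ∧
      (∀ c δ, Wg c δ ≤ M) ∧ ∑' c, ∑' δ, Wb c δ ≤ q) :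
    ∃ Dg Db : ℕ → ℕ → G → ℝ≥0∞,
      (∀ c d δ, Del ΛX ΛY hX hY zX zY A A' c d δ ≤ Dg c d δ + Db c d δ) ∧
      (∀ c d δ, Dg c d δ ≤ M) ∧ ∑' c, ∑' d, ∑' δ, Db c d δ ≤ q := by
  obtain ⟨Wg, Wb, h1, h2, h3⟩ := h
  refine ⟨fun c d δ => ∑' x, Wg c x * W ΛY hY zY A' d (x + δ),
    fun c d δ => ∑' x, Wb c x * W ΛY hY zY A' d (x + δ), ?_, ?_, ?_⟩
  · intro c d δ
    rw [Del, ← ENNReal.tsum_add]
    refine ENNReal.tsum_le_tsum fun x => ?_
    rw [← add_mul]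
    exact mul_le_mul_left (h1 _ _) _
  · intro c d δ
    exact conv_sup (h2 c) (tsum_W_le ΛY hY zY hΛY h1Y A' d) δ
  · simp only [conv_mass]
    calc _ = ∑' c, (∑' x, Wb c x) * ∑' d, ∑' x, W ΛY hY zY A' d x := by
          refine tsum_congr fun c => ?_
          rw [ENNReal.tsum_mul_left]
      _ ≤ ∑' c, (∑' x, Wb c x) * 1 := by
          refine ENNReal.tsum_le_tsum fun c => mul_le_mul_right ?_ _
          classical
          rw [tsum_tsum_W]
          exact mass_FR ΛY hY hΛY h1Y A'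
      _ ≤ q := by simpa only [mul_one] using h3

/-- **density of Del from Y's attempts**, failure paid once. -/
theorem Del_Y (hΛX : ∑' b, ΛX b ≤ 1) (h1X : ∀ b, 1 ≤ hX b) (A A' : ℕ) (M q : ℝ≥0∞)
    (h : ∃ Wg Wb : ℕ → G → ℝ≥0∞, (∀ c δ, W ΛY hY zY A' c δ ≤ Wg c δ + Wb c δ) ∧
      (∀ c δ, Wg c δ ≤ M) ∧ ∑' c, ∑' δ, Wb c δ ≤ q) :
    ∃ Dg Db : ℕ → ℕ → G → ℝ≥0∞,
      (∀ c d δ, Del ΛX ΛY hX hY zX zY A A' c d δ ≤ Dg c d δ + Db c d δ) ∧
      (∀ c d δ, Dg c d δ ≤ M) ∧ ∑' c, ∑' d, ∑' δ, Db c d δ ≤ q := by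
  obtain ⟨Wg, Wb, h1, h2, h3⟩ := h
  refine ⟨fun c d δ => ∑' x, W ΛX hX zX A c x * Wg d (x + δ),
    fun c d δ => ∑' x, W ΛX hX zX A c x * Wb d (x + δ), ?_, ?_, ?_⟩
  · intro c d δ
    rw [Del, ← ENNReal.tsum_add]
    refine ENNReal.tsum_le_tsum fun x => ?_
    rw [← mul_add]
    exact mul_le_mul_right (h1 _ _) _
  · intro c d δ
    exact conv_sup' (tsum_W_le ΛX hX zX hΛX h1X A c) (fun x => h2 d x) δ
  · simp only [conv_mass]
    calc _ = ∑' c, (∑' x, W ΛX hX zX A c x) * ∑' d, ∑' x, Wb d x := by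
          refine tsum_congr fun c => ?_
          rw [ENNReal.tsum_mul_left]
      _ ≤ ∑' c, (∑' x, W ΛX hX zX A c x) * q := by
          exact ENNReal.tsum_le_tsum fun c => mul_le_mul_right h3 _
      _ = (∑' c, ∑' x, W ΛX hX zX A c x) * q := ENNReal.tsum_mul_right
      _ ≤ 1 * q := by
          refine mul_le_mul_left ?_ _
          classical
          rw [tsum_tsum_W]
          exact mass_FR ΛX hX hΛX h1X A
      _ = q := one_mul q

/-! ### local sets -/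

/-- the level set of a sub-probability is finite, of size `≤ 1/θ` -/
theorem level_set {α : Type*} (p : α → ℝ≥0∞) (hp : ∑' a, p a ≤ 1) (θ : ℝ≥0∞) (hθ : θ ≠ 0) :
    ∃ E : Finset α, (∀ a, a ∈ E ↔ θ ≤ p a) ∧ (E.card : ℝ≥0∞) ≤ 1 / θ := by
  classical
  have hne : ∑' a, p a ≠ ⊤ := ne_top_of_le_ne_top ENNReal.one_ne_top hp
  have hfin : {a | θ ≤ p a}.Finite := ENNReal.finite_const_le_of_tsum_ne_top hne hθ
  refine ⟨hfin.toFinset, fun a => by simp, ?_⟩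
  rcases eq_or_ne θ ⊤ with h | h
  · have he : hfin.toFinset = ∅ := by
      rw [Finset.eq_empty_iff_forall_notMem]
      intro a ha
      rw [Set.Finite.mem_toFinset] at ha
      have h2 : p a = ⊤ := top_le_iff.1 (h ▸ ha)
      exact hne (top_le_iff.1 (h2 ▸ ENNReal.le_tsum a))
    rw [he]; simp
  · rw [ENNReal.le_div_iff_mul_le (Or.inl hθ) (Or.inl h)]
    calc ((hfin.toFinset.card : ℝ≥0∞)) * θ = ∑ _a ∈ hfin.toFinset, θ := by simp
      _ ≤ ∑ a ∈ hfin.toFinset, p a := Finset.sum_le_sum fun a ha => by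
          rw [Set.Finite.mem_toFinset] at ha; exact ha
      _ ≤ ∑' a, p a := ENNReal.sum_le_tsum _
      _ ≤ 1 := hp

end Crest.Agent.R154.Ren396
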