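import Crest.Agent.R154.AsmK_190
import Crest.Agent.R154.AsmS_190

/-! Row 154, ROAD 801 (helper190): one window of the assembly from the two window lemmas. -/

set_option autoImplicit false

namespace Crest.Agent.R154.Asm190

open scoped ENNReal
open Crest.Agent.R154.B5A
open Crest.Agent.R154.FP178

variable {B B' G : Type*} [AddCommGroup G] (Λ : B → ℝ≥0∞) (ht : B → ℕ) (z : B → G)
  (Λ' : B' → ℝ≥0∞) (ht' : B' → ℕ) (z' : B' → G)
  (TX : List B → G → ℕ → Set (G × ℕ)) (TY : List B' → G → ℕ → Set (G × ℕ))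

open Classical in
/-- window lemma, first walker local -/
def H2 (C : ℝ≥0∞) (us : ℕ → ℝ≥0∞) : Prop :=
  ∀ (s h h' a a' lo hi : ℕ) (E : Finset G) (μ : G → ℝ≥0∞) (M lam : ℝ≥0∞),
    ∑' x, μ x ≤ 1 → (∀ x, μ x ≤ M) → lam ≠ 0 → lam ≠ ⊤ →
    a + s ≤ lo → a' + s ≤ lo → hi + s ≤ a + h → hi + s ≤ a' + h' →
    a ≤ a' → a + h ≤ a' + h' →
    ∑' x, μ x * ∑' L, ∑' L', (if HT ht L = h ∧ (L.map z).sum ∈ E ∧ HT ht' L' = h' ∧
        (∃ y k, (y, k) ∈ TX L 0 a ∧ (y, k) ∈ TY L' x a') ∧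
        (∀ y k, (y, k) ∈ TX L 0 a → (y, k) ∈ TY L' x a' → lo ≤ k ∧ k ≤ hi)
      then LW Λ L * LW Λ' L' else 0)
      ≤ C * (lam + M * E.card * us s / lam + us s)

open Classical in
/-- window lemma, second walker local -/
def H3 (C : ℝ≥0∞) (us : ℕ → ℝ≥0∞) : Prop :=
  ∀ (s h h' a a' lo hi : ℕ) (E : Finset G) (μ : G → ℝ≥0∞) (M lam : ℝ≥0∞),
    ∑' x, μ x ≤ 1 → (∀ x, μ x ≤ M) → lam ≠ 0 → lam ≠ ⊤ →
    a + s ≤ lo → a' + s ≤ lo → hi + s ≤ a + h → hi + s ≤ a' + h' →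
    a ≤ a' → a + h ≤ a' + h' →
    ∑' x, μ x * ∑' L, ∑' L', (if HT ht L = h ∧ HT ht' L' = h' ∧ (L'.map z').sum ∈ E ∧
        (∃ y k, (y, k) ∈ TX L 0 a ∧ (y, k) ∈ TY L' x a') ∧
        (∀ y k, (y, k) ∈ TX L 0 a → (y, k) ∈ TY L' x a' → lo ≤ k ∧ k ≤ hi)
      then LW Λ L * LW Λ' L' else 0)
      ≤ C * (lam + M * E.card * us s / lam + us s)

/-- the window event for a pair of crossings -/
def Ev (a T i0 s : ℕ) (w : G) (L : List B) (L' : List B') : Prop :=
  (∃ y k, a + 2 * i0 + s ≤ k ∧ k ≤ a + T - s ∧ (y, k) ∈ TX L 0 0 ∧ (y, k) ∈ TY L' w 0) ∧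
    ∀ y k, (y, k) ∈ TX L 0 0 → (y, k) ∈ TY L' w 0 → a < k → k ≤ a + T + 2 * i0 →
      a + 2 * i0 + s ≤ k ∧ k ≤ a + T - s

open Classical in
/-- **one window** -/
theorem window (h1 : ∀ b, 1 ≤ ht b) (hΛ : ∑' b, Λ b = 1) (hU1 : ∀ n, U Λ ht n ≤ 1)
    (h1' : ∀ b, 1 ≤ ht' b) (hΛ' : ∑' b, Λ' b = 1) (hU1' : ∀ n, U Λ' ht' n ≤ 1)
    (hX : ∀ L x v a y k, (y, k) ∈ TX L (x + v) a ↔ (y - v, k) ∈ TX L x a)
    (hY : ∀ L x v a y k, (y, k) ∈ TY L (x + v) a ↔ (y - v, k) ∈ TY L x a)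
    (hXa : ∀ L1 L2 x a, TX (L1 ++ L2) x a = TX L1 x a ∪ TX L2 (x + (L1.map z).sum) (a + HT ht L1))
    (hYa : ∀ L1 L2 x a, TY (L1 ++ L2) x a
      = TY L1 x a ∪ TY L2 (x + (L1.map z').sum) (a + HT ht' L1))
    (hXr : ∀ L x a y k, (y, k) ∈ TX L x a → a < k ∧ k ≤ a + HT ht L)
    (hYr : ∀ L x a y k, (y, k) ∈ TY L x a → a < k ∧ k ≤ a + HT ht' L)
    (C : ℝ≥0∞) (us : ℕ → ℝ≥0∞)
    (hH2 : H2 Λ ht z Λ' ht' TX TY C us) (hH3 : H3 Λ ht Λ' ht' z' TX TY C us)
    (i0 : ℕ) (ov : ℝ≥0∞)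
    (hov : ∀ a, ∑' L, (if fp ht a L ∧ a + i0 < HT ht L then LW Λ L else 0) ≤ ov)
    (hov' : ∀ a, ∑' L, (if fp ht' a L ∧ a + i0 < HT ht' L then LW Λ' L else 0) ≤ ov)
    (u : ℝ≥0∞) (hu0 : u ≠ 0) (hu1 : u < 1) (lam : ℝ≥0∞) (hlam : lam ≠ 0) (hlam' : lam ≠ ⊤)
    (J T s a n : ℕ) (hJ : J * (T + 2 * i0) ≤ a) (hn : a + 3 * i0 + T ≤ n) (hs : 1 ≤ s) (hsT : s ≤ T)
    (w : G) :
    ∑' L, ∑' L', (if HT ht L = n ∧ HT ht' L' = n ∧ Ev TX TY a T i0 s w L L'
        then LW Λ L * LW Λ' L' else 0)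
      ≤ 4 * ov + u * u + 2 * ((1 - u) ^ J + J * ov) +
        2 * ((i0 + 1 : ℕ) ^ 4 * (C * (lam + ((i0 + 1 : ℕ) / u) * us s / lam
          + us s))) := by
  obtain ⟨E, D, hE1, hE2, hE3⟩ := smooth Λ ht z h1 hΛ u hu0 hu1 T i0 ov hov
  set a' := a + i0 with ha'
  set T' := T + i0 with hT'
  obtain ⟨E', D', hE1', hE2', hE3'⟩ := smooth Λ' ht' z' h1' hΛ' u hu0 hu1 T' i0 ov hov'
  have hJ1 : J * (T + i0) ≤ a := le_trans (Nat.mul_le_mul_left J (by omega)) hJ
  have hJ2 : J * (T' + i0) ≤ a' := by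
    refine le_trans (Nat.mul_le_mul_left J ?_) (hJ.trans (by omega))
    omega
  set R : ℝ≥0∞ := C * (lam + ((i0 + 1 : ℕ) / u) * us s / lam + us s) with hR
  set lo := a + 2 * i0 + s with hlo
  set hi := a + T - s with hhi
  obtain ⟨c1, hc1⟩ : ∃ c : List B → Prop, ∀ Q, c Q ↔ (Q.map z).sum ∈ E (HT ht Q) :=
    ⟨_, fun _ => Iff.rfl⟩
  obtain ⟨c2, hc2⟩ : ∃ c : List B' → Prop, ∀ Q, c Q ↔ (Q.map z').sum ∈ E' (HT ht' Q) :=
    ⟨_, fun _ => Iff.rfl⟩
  set g : List B → List B → List B' → List B' → ℝ≥0∞ := fun P Q P' Q' =>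
    if Ct TX TY lo hi Q Q' ((P.map z).sum) (HT ht P) (w + (P'.map z').sum) (HT ht' P')
      then 1 else 0 with hg
  have step1 := dec2 Λ ht Λ' ht' h1 hΛ.le hU1 h1' hΛ'.le hU1' i0 ov ov hov hov' a T a' T' n (by omega) (by omega)
    (Ev TX TY a T i0 s w) g (by
      intro P Q S P' Q' S' hP hP2 hQ hQ2 hP' hP2' hQ' hQ2' hev
      have hPa := le_HT_of_fp ht hP
      have hPa' := le_HT_of_fp ht' hP'
      have hQT := le_HT_of_fp ht hQ
      have hQT' := le_HT_of_fp ht' hQ'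
      have hC : Ct TX TY lo hi Q Q' ((P.map z).sum) (HT ht P) (w + (P'.map z').sum)
          (HT ht' P') := by
        obtain ⟨⟨y, k, hk1, hk2, hy1, hy2⟩, hall⟩ := hev
        have memX : ∀ y k, (y, k) ∈ TX Q ((P.map z).sum) (HT ht P) →
            (y, k) ∈ TX (P ++ (Q ++ S)) 0 0 := by
          intro y k hh
          rw [hXa, hXa, zero_add, Nat.zero_add]
          exact Or.inr (Or.inl hh)
        have memY : ∀ y k, (y, k) ∈ TY Q' (w + (P'.map z').sum) (HT ht' P') →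
            (y, k) ∈ TY (P' ++ (Q' ++ S')) w 0 := by
          intro y k hh
          rw [hYa, hYa, Nat.zero_add]
          exact Or.inr (Or.inl hh)
        refine ⟨⟨y, k, ?_, ?_⟩, ?_⟩
        · rw [hXa, hXa, zero_add, Nat.zero_add] at hy1
          rcases hy1 with hy1 | hy1 | hy1
          · have := hXr _ _ _ _ _ hy1
            omega
          · exact hy1
          · have := hXr _ _ _ _ _ hy1
            omega
        · rw [hYa, hYa, Nat.zero_add] at hy2
          rcases hy2 with hy2 | hy2 | hy2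
          · have := hYr _ _ _ _ _ hy2
            omega
          · exact hy2
          · have := hYr _ _ _ _ _ hy2
            omega
        · intro y' k' h3 h4
          have h5 := hXr _ _ _ _ _ h3
          exact hall y' k' (memX y' k' h3) (memY y' k' h4) (by omega) (by omega)
      simp only [hg]
      rw [if_pos hC])
  refine step1.trans ?_
  -- split of the indicator
  have hsplit : ∀ P Q P' Q', g P Q P' Q' ≤ (if ¬ c1 Q then 1 else 0) * (if ¬ c2 Q' then 1 else 0)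
      + ((if c1 Q ∧ Ct TX TY lo hi Q Q' ((P.map z).sum) (HT ht P) (w + (P'.map z').sum)
        (HT ht' P') then 1 else 0)
      + (if c2 Q' ∧ Ct TX TY lo hi Q Q' ((P.map z).sum) (HT ht P) (w + (P'.map z').sum)
        (HT ht' P') then 1 else 0)) := by
    intro P Q P' Q'
    simp only [hg]
    by_cases h : Ct TX TY lo hi Q Q' ((P.map z).sum) (HT ht P) (w + (P'.map z').sum) (HT ht' P')
    · by_cases h2 : c1 Q
      · by_cases h3 : c2 Q' <;> simp [h, h2, h3]
      · by_cases h3 : c2 Q' <;> simp [h, h2, h3]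
    · rw [if_neg h]; exact zero_le
  have hsum : ∑' P, fpw Λ ht a i0 P * ∑' Q, fpw Λ ht T i0 Q *
          ∑' P', fpw Λ' ht' a' i0 P' * ∑' Q', fpw Λ' ht' T' i0 Q' * g P Q P' Q'
      ≤ ∑' P, fpw Λ ht a i0 P * ∑' Q, fpw Λ ht T i0 Q *
          ∑' P', fpw Λ' ht' a' i0 P' * ∑' Q', fpw Λ' ht' T' i0 Q' *
            ((if ¬ c1 Q then 1 else 0) * (if ¬ c2 Q' then 1 else 0))
        + (∑' P, fpw Λ ht a i0 P * ∑' Q, fpw Λ ht T i0 Q *
          ∑' P', fpw Λ' ht' a' i0 P' * ∑' Q', fpw Λ' ht' T' i0 Q' *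
            (if c1 Q ∧ Ct TX TY lo hi Q Q' ((P.map z).sum) (HT ht P) (w + (P'.map z').sum)
              (HT ht' P') then 1 else 0)
        + ∑' P, fpw Λ ht a i0 P * ∑' Q, fpw Λ ht T i0 Q *
          ∑' P', fpw Λ' ht' a' i0 P' * ∑' Q', fpw Λ' ht' T' i0 Q' *
            (if c2 Q' ∧ Ct TX TY lo hi Q Q' ((P.map z).sum) (HT ht P) (w + (P'.map z').sum)
              (HT ht' P') then 1 else 0)) := by
    simp_rw [← ENNReal.tsum_mul_left, ← ENNReal.tsum_add]
    gcongr with P Q P' Q'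
    simp_rw [← mul_add]
    gcongr
    exact hsplit P Q P' Q'
  -- both non local
  have hNN : ∑' P, fpw Λ ht a i0 P * ∑' Q, fpw Λ ht T i0 Q *
          ∑' P', fpw Λ' ht' a' i0 P' * ∑' Q', fpw Λ' ht' T' i0 Q' *
            ((if ¬ c1 Q then 1 else 0) * (if ¬ c2 Q' then 1 else 0)) ≤ u * u := by
    have e1 : ∑' Q', fpw Λ' ht' T' i0 Q' * (if ¬ c2 Q' then 1 else 0) ≤ u := by
      refine le_trans (le_of_eq ?_) hE1'
      refine tsum_congr fun Q' => ?_
      simp only [hc2]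
      by_cases h : (Q'.map z').sum ∈ E' (HT ht' Q') <;> simp [h]
    have e2 : ∑' Q, fpw Λ ht T i0 Q * (if ¬ c1 Q then 1 else 0) ≤ u := by
      refine le_trans (le_of_eq ?_) hE1
      refine tsum_congr fun Q => ?_
      simp only [hc1]
      by_cases h : (Q.map z).sum ∈ E (HT ht Q) <;> simp [h]
    calc ∑' P, fpw Λ ht a i0 P * ∑' Q, fpw Λ ht T i0 Q *
          ∑' P', fpw Λ' ht' a' i0 P' * ∑' Q', fpw Λ' ht' T' i0 Q' *
            ((if ¬ c1 Q then 1 else 0) * (if ¬ c2 Q' then 1 else 0))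
        ≤ ∑' P, fpw Λ ht a i0 P * (u * u) := by
          gcongr with P
          calc ∑' Q, fpw Λ ht T i0 Q * ∑' P', fpw Λ' ht' a' i0 P' * ∑' Q', fpw Λ' ht' T' i0 Q' *
                ((if ¬ c1 Q then 1 else 0) * (if ¬ c2 Q' then 1 else 0))
              ≤ ∑' Q, (fpw Λ ht T i0 Q * (if ¬ c1 Q then 1 else 0)) * u := by
                refine ENNReal.tsum_le_tsum fun Q => ?_
                rw [mul_assoc]
                gcongr
                calc ∑' P', fpw Λ' ht' a' i0 P' * ∑' Q', fpw Λ' ht' T' i0 Q' *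
                      ((if ¬ c1 Q then 1 else 0) * (if ¬ c2 Q' then 1 else 0))
                    ≤ ∑' P', fpw Λ' ht' a' i0 P' * ((if ¬ c1 Q then 1 else 0) * u) := by
                      gcongr with P'
                      calc ∑' Q', fpw Λ' ht' T' i0 Q' *
                            ((if ¬ c1 Q then 1 else 0) * (if ¬ c2 Q' then 1 else 0))
                          = (if ¬ c1 Q then 1 else 0) *
                            ∑' Q', fpw Λ' ht' T' i0 Q' * (if ¬ c2 Q' then 1 else 0) := by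
                            rw [← ENNReal.tsum_mul_left]
                            refine tsum_congr fun Q' => ?_
                            ring
                        _ ≤ _ := by gcongr
                  _ = (∑' P', fpw Λ' ht' a' i0 P') * ((if ¬ c1 Q then 1 else 0) * u) :=
                      ENNReal.tsum_mul_right
                  _ ≤ 1 * ((if ¬ c1 Q then 1 else 0) * u) := by
                      gcongr; exact sum_fpw_le Λ' ht' h1' hΛ'.le a' i0
                  _ = _ := one_mul _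
            _ = (∑' Q, fpw Λ ht T i0 Q * (if ¬ c1 Q then 1 else 0)) * u := ENNReal.tsum_mul_right
            _ ≤ u * u := by gcongr
      _ = (∑' P, fpw Λ ht a i0 P) * (u * u) := ENNReal.tsum_mul_right
      _ ≤ 1 * (u * u) := by gcongr; exact sum_fpw_le Λ ht h1 hΛ.le a i0
      _ = u * u := one_mul _
  -- first walker local
  have hXL : ∑' P, fpw Λ ht a i0 P * ∑' Q, fpw Λ ht T i0 Q *
          ∑' P', fpw Λ' ht' a' i0 P' * ∑' Q', fpw Λ' ht' T' i0 Q' *
            (if c1 Q ∧ Ct TX TY lo hi Q Q' ((P.map z).sum) (HT ht P) (w + (P'.map z').sum)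
              (HT ht' P') then 1 else 0) ≤ ((1 - u) ^ J + J * ov) + (i0 + 1 : ℕ) ^ 4 * R := by
    have e4 := four Λ ht z Λ' ht' z' TX TY hX hY a T a' T' i0 lo hi w (fun Q _ => c1 Q)
    refine le_trans (le_of_eq e4) ?_
    refine (halfX Λ ht z Λ' ht' z' TX TY h1 hΛ.le h1' hΛ'.le a T a' T' i0 lo hi w (fun Q _ => c1 Q) D
      ((1 - u) ^ J + J * ov) (((i0 + 1) * (i0 + 1) : ℕ) * R) (hE3 J a hJ1) ?_).trans ?_
    · intro A hA A' hA' μ hμ1 hμD
      rw [Finset.mem_Icc] at hA hA'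
      have eker : ∀ y, ker Λ ht Λ' ht' TX TY T T' i0 (fun Q _ => c1 Q) lo hi A A' y
          = ∑' Q, fpw Λ ht T i0 Q * ∑' Q', fpw Λ' ht' T' i0 Q' *
            @ite _ (c1 Q ∧ Ct TX TY lo hi Q Q' 0 A y A') (Classical.propDecidable _) 1 0 := by
        intro y
        unfold ker
        refine tsum_congr fun Q => ?_
        congr 1
        refine tsum_congr fun Q' => ?_
        congr 1
        by_cases hh : c1 Q ∧ Ct TX TY lo hi Q Q' 0 A y A'
        · rw [if_pos hh, if_pos hh]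
        · rw [if_neg hh, if_neg hh]
      simp_rw [eker]
      refine KB Λ ht Λ' ht' T T' i0 μ (fun y Q Q' => c1 Q ∧ Ct TX TY lo hi Q Q' 0 A y A') R ?_
      intro h hh h' hh'
      rw [Finset.mem_Icc] at hh hh'
      have h2 := hH2 s h h' A A' lo hi (E h) μ D lam hμ1 hμD hlam hlam'
        (by omega) (by omega) (by omega) (by omega) (by omega) (by omega)
      refine le_trans (ENNReal.tsum_le_tsum fun y => ?_) (h2.trans ?_)
      · gcongr with Q Q'
        split_ifs with h3 h4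
        · exact le_rfl
        · exfalso
          apply h4
          obtain ⟨h5, h6, h7, h8⟩ := h3
          refine ⟨h5, ?_, h6, h8⟩
          rw [← h5]
          exact (hc1 _).1 h7
        · exact zero_le
        · exact le_rfl
      · rw [hR]
        gcongr
        exact hE2 h
    · refine le_of_eq ?_
      push_cast
      ring
  have hYL : ∑' P, fpw Λ ht a i0 P * ∑' Q, fpw Λ ht T i0 Q *
          ∑' P', fpw Λ' ht' a' i0 P' * ∑' Q', fpw Λ' ht' T' i0 Q' *
            (if c2 Q' ∧ Ct TX TY lo hi Q Q' ((P.map z).sum) (HT ht P) (w + (P'.map z').sum)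
              (HT ht' P') then 1 else 0) ≤ ((1 - u) ^ J + J * ov) + (i0 + 1 : ℕ) ^ 4 * R := by
    have e4 := four Λ ht z Λ' ht' z' TX TY hX hY a T a' T' i0 lo hi w (fun _ Q' => c2 Q')
    refine le_trans (le_of_eq e4) ?_
    refine (halfY Λ ht z Λ' ht' z' TX TY h1 hΛ.le h1' hΛ'.le a T a' T' i0 lo hi w (fun _ Q' => c2 Q') D'
      ((1 - u) ^ J + J * ov) (((i0 + 1) * (i0 + 1) : ℕ) * R) (hE3' J a' hJ2) ?_).trans ?_
    · intro A hA A' hA' μ hμ1 hμD
      rw [Finset.mem_Icc] at hA hA'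
      have eker : ∀ y, ker Λ ht Λ' ht' TX TY T T' i0 (fun _ Q' => c2 Q') lo hi A A' y
          = ∑' Q, fpw Λ ht T i0 Q * ∑' Q', fpw Λ' ht' T' i0 Q' *
            @ite _ (c2 Q' ∧ Ct TX TY lo hi Q Q' 0 A y A') (Classical.propDecidable _) 1 0 := by
        intro y
        unfold ker
        refine tsum_congr fun Q => ?_
        congr 1
        refine tsum_congr fun Q' => ?_
        congr 1
        by_cases hh : c2 Q' ∧ Ct TX TY lo hi Q Q' 0 A y A'
        · rw [if_pos hh, if_pos hh]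
        · rw [if_neg hh, if_neg hh]
      simp_rw [eker]
      refine KB Λ ht Λ' ht' T T' i0 μ (fun y Q Q' => c2 Q' ∧ Ct TX TY lo hi Q Q' 0 A y A') R ?_
      intro h hh h' hh'
      rw [Finset.mem_Icc] at hh hh'
      have h2 := hH3 s h h' A A' lo hi (E' h') μ D' lam hμ1 hμD hlam hlam'
        (by omega) (by omega) (by omega) (by omega) (by omega) (by omega)
      refine le_trans (ENNReal.tsum_le_tsum fun y => ?_) (h2.trans ?_)
      · gcongr with Q Q'
        split_ifs with h3 h4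
        · exact le_rfl
        · exfalso
          apply h4
          obtain ⟨h5, h6, h7, h8⟩ := h3
          refine ⟨h5, h6, ?_, h8⟩
          rw [← h6]
          exact (hc2 _).1 h7
        · exact zero_le
        · exact le_rfl
      · rw [hR]
        gcongr
        exact hE2' h'
    · refine le_of_eq ?_
      push_cast
      ring
  calc 2 * ov + 2 * ov + _ ≤ 2 * ov + 2 * ov + (u * u +
        ((((1 - u) ^ J + J * ov) + (i0 + 1 : ℕ) ^ 4 * R)
          + (((1 - u) ^ J + J * ov) + (i0 + 1 : ℕ) ^ 4 * R))) := by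
        gcongr
        exact hsum.trans (add_le_add hNN (add_le_add hXL hYL))
    _ = _ := by ring

end Crest.Agent.R154.Asm190
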