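import Crest.Agent.R154.AsmP_247

/-! Row 154, ROAD 801, assembly (helper247), part 4: one window. -/

set_option autoImplicit false

namespace Crest.Agent.R154.Asm247

open scoped ENNReal
open Crest.Agent.R154.B5A Crest.Agent.R154.FP178

variable {BX BY G : Type*} [AddCommGroup G]
  (ΛX : BX → ℝ≥0∞) (hX : BX → ℕ) (zX : BX → G) (sX : BX → Set (G × ℕ))
  (ΛY : BY → ℝ≥0∞) (hY : BY → ℕ) (zY : BY → G) (sY : BY → Set (G × ℕ))

open Classical in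
/-- `X` local -/
def H2P (C : ℝ≥0∞) (us : ℕ → ℝ≥0∞) : Prop :=
  ∀ (s h h' a a' lo : ℕ) (E : Finset G) (μ : G → ℝ≥0∞) (M lam : ℝ≥0∞), ∑' x, μ x ≤ 1 →
    (∀ x, μ x ≤ M) → lam ≠ 0 → lam ≠ ⊤ → a ≤ a' → a + s ≤ lo → a' + s ≤ lo →
    ∑' x, μ x * ∑' L : List BX, ∑' L' : List BY, (if HT hX L = h ∧ Dp zX L ∈ E ∧ HT hY L' = h' ∧
        (∃ v k, (v, k) ∈ TR hX zX sX L 0 a ∧ (v, k) ∈ TR hY zY sY L' x a') ∧
        (∀ v k, (v, k) ∈ TR hX zX sX L 0 a → (v, k) ∈ TR hY zY sY L' x a' → lo ≤ k)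
      then LW ΛX L * LW ΛY L' else 0) ≤ C * (lam + M * (E.card : ℝ≥0∞) * us s / lam + us s)

open Classical in
/-- `Y` local -/
def H3P (C : ℝ≥0∞) (us : ℕ → ℝ≥0∞) : Prop :=
  ∀ (s h h' a a' hi : ℕ) (E : Finset G) (μ : G → ℝ≥0∞) (M lam : ℝ≥0∞), ∑' x, μ x ≤ 1 →
    (∀ x, μ x ≤ M) → lam ≠ 0 → lam ≠ ⊤ → a + h ≤ a' + h' → hi + s ≤ a + h → hi + s ≤ a' + h' →
    ∑' x, μ x * ∑' L : List BX, ∑' L' : List BY, (if HT hX L = h ∧ Dp zY L' ∈ E ∧ HT hY L' = h' ∧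
        (∃ v k, (v, k) ∈ TR hX zX sX L 0 a ∧ (v, k) ∈ TR hY zY sY L' x a') ∧
        (∀ v k, (v, k) ∈ TR hX zX sX L 0 a → (v, k) ∈ TR hY zY sY L' x a' → k ≤ hi)
      then LW ΛX L * LW ΛY L' else 0) ≤ C * (lam + M * (E.card : ℝ≥0∞) * us s / lam + us s)

/-- contact event of two traces -/
def QQ (S1 S2 : Set (G × ℕ)) (lo hi : ℕ) : Prop :=
  (∃ v k, (v, k) ∈ S1 ∧ (v, k) ∈ S2) ∧ ∀ v k, (v, k) ∈ S1 → (v, k) ∈ S2 → lo ≤ k ∧ k ≤ hi

/-- window event of two lists from the tie -/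
def WE (S1 S2 : Set (G × ℕ)) (lo hi hi2 : ℕ) : Prop :=
  (∃ v k, k ≤ hi ∧ (v, k) ∈ S1 ∧ (v, k) ∈ S2) ∧
    ∀ v k, (v, k) ∈ S1 → (v, k) ∈ S2 → lo ≤ k ∧ ¬ (hi < k ∧ k ≤ hi2)

lemma QQ_shift (L : List BX) (L' : List BY) (x y : G) (a a' lo hi : ℕ) :
    QQ (TR hX zX sX L x a) (TR hY zY sY L' y a') lo hi ↔
      QQ (TR hX zX sX L 0 a) (TR hY zY sY L' (y - x) a') lo hi := by
  have e1 : ∀ v k, (v, k) ∈ TR hX zX sX L x a ↔ (v - x, k) ∈ TR hX zX sX L 0 a := by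
    intro v k
    have := TR_shift hX zX sX L x 0 a k v
    rwa [add_zero] at this
  have e2 : ∀ v k, (v, k) ∈ TR hY zY sY L' y a' ↔ (v - x, k) ∈ TR hY zY sY L' (y - x) a' := by
    intro v k
    have := TR_shift hY zY sY L' x (y - x) a' k v
    rwa [add_sub_cancel] at this
  constructor
  · rintro ⟨⟨v, k, h1, h2⟩, h⟩
    refine ⟨⟨v - x, k, (e1 v k).1 h1, (e2 v k).1 h2⟩, fun v k h1 h2 => ?_⟩
    refine h (v + x) k ((e1 _ k).2 ?_) ((e2 _ k).2 ?_)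
    · rwa [add_sub_cancel_right]
    · rwa [add_sub_cancel_right]
  · rintro ⟨⟨v, k, h1, h2⟩, h⟩
    refine ⟨⟨v + x, k, (e1 _ k).2 ?_, (e2 _ k).2 ?_⟩, fun v k h1 h2 => ?_⟩
    · rwa [add_sub_cancel_right]
    · rwa [add_sub_cancel_right]
    · exact h (v - x) k ((e1 v k).1 h1) ((e2 v k).1 h2)

/-- restriction of the event to a middle piece of `X` -/
lemma WE_pieceX (hsX : ∀ b, ∀ q ∈ sX b, 1 ≤ q.2 ∧ q.2 ≤ hX b) (L1 L2 L3 : List BX)
    (S : Set (G × ℕ)) (c i0 τ lo hi hi2 : ℕ) (h1 : HT hX L1 ≤ c + i0) (h2 : c ≤ HT hX L1)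
    (h3 : HT hX L2 ≤ τ + i0) (h4 : τ ≤ HT hX L2) (hlo : c + i0 < lo) (hhi : hi ≤ c + τ)
    (hhi2 : c + τ + 2 * i0 ≤ hi2)
    (h : WE (TR hX zX sX (L1 ++ (L2 ++ L3)) 0 0) S lo hi hi2) :
    QQ (TR hX zX sX L2 (Dp zX L1) (HT hX L1)) S lo hi := by
  rw [TR_append, TR_append, zero_add, zero_add] at h
  obtain ⟨⟨v, k, hk, hv1, hv2⟩, hall⟩ := h
  refine ⟨⟨v, k, ?_, hv2⟩, fun v' k' h1' h2' => ?_⟩
  · have hlo' := (hall v k hv1 hv2).1
    rcases hv1 with hv1 | hv1 | hv1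
    · have := TR_depth hX zX sX hsX _ _ _ _ hv1; simp only at this; omega
    · exact hv1
    · have := TR_depth hX zX sX hsX _ _ _ _ hv1; simp only at this; omega
  · have := hall v' k' (Or.inr (Or.inl h1')) h2'
    have hd := TR_depth hX zX sX hsX _ _ _ _ h1'
    simp only at hd
    omega

lemma QQ_pieceY (hsY : ∀ b, ∀ q ∈ sY b, 1 ≤ q.2 ∧ q.2 ≤ hY b) (L1 L2 L3 : List BY)
    (S : Set (G × ℕ)) (w : G) (c i0 τ lo hi : ℕ) (h1 : HT hY L1 ≤ c + i0) (h2 : c ≤ HT hY L1)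
    (h4 : τ ≤ HT hY L2) (hlo : c + i0 < lo) (hhi : hi ≤ c + τ)
    (h : QQ S (TR hY zY sY (L1 ++ (L2 ++ L3)) w 0) lo hi) :
    QQ S (TR hY zY sY L2 (w + Dp zY L1) (HT hY L1)) lo hi := by
  rw [TR_append, TR_append, zero_add] at h
  obtain ⟨⟨v, k, hv1, hv2⟩, hall⟩ := h
  refine ⟨⟨v, k, hv1, ?_⟩, fun v' k' h1' h2' => hall v' k' h1' (Or.inr (Or.inl h2'))⟩
  have hlo' := hall v k hv1 hv2
  rcases hv2 with hv2 | hv2 | hv2
  · have := TR_depth hY zY sY hsY _ _ _ _ hv2; simp only at this; omega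
  · exact hv2
  · have := TR_depth hY zY sY hsY _ _ _ _ hv2; simp only at this; omega

open Classical in
/-- conversion of nested forms to product form -/
lemma nest_eq (F : List BX → List BX → ℝ≥0∞) (Λ : BX → ℝ≥0∞) (h : BX → ℕ) (c τ i0 : ℕ) :
    ∑' L1, (if fp h c L1 ∧ HT h L1 ≤ c + i0 then LW Λ L1 *
        ∑' L2, (if fp h τ L2 ∧ HT h L2 ≤ τ + i0 then LW Λ L2 * F L1 L2 else 0) else 0)
      = ∑' L1, ∑' L2, W1 Λ h c i0 L1 * W1 Λ h τ i0 L2 * F L1 L2 := by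
  refine tsum_congr fun L1 => ?_
  by_cases h1 : fp h c L1 ∧ HT h L1 ≤ c + i0
  · rw [if_pos h1, ← ENNReal.tsum_mul_left]
    refine tsum_congr fun L2 => ?_
    simp only [W1, if_pos h1]
    by_cases h2 : fp h τ L2 ∧ HT h L2 ≤ τ + i0
    · rw [if_pos h2, if_pos h2, mul_assoc]
    · rw [if_neg h2, if_neg h2, mul_zero, zero_mul]
  · rw [if_neg h1]
    simp only [W1, if_neg h1, zero_mul, tsum_zero]

open Classical in
/-- reduction of one window to pieces -/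
theorem win_pieces (h1X : ∀ b, 1 ≤ hX b) (h1Y : ∀ b, 1 ≤ hY b)
    (hUX : ∀ n, U ΛX hX n ≤ 1) (hUY : ∀ n, U ΛY hY n ≤ 1)
    (hΛX : ∑' b, ΛX b ≤ 1) (hΛY : ∑' b, ΛY b ≤ 1)
    (hsX : ∀ b, ∀ q ∈ sX b, 1 ≤ q.2 ∧ q.2 ≤ hX b) (hsY : ∀ b, ∀ q ∈ sY b, 1 ≤ q.2 ∧ q.2 ≤ hY b)
    (c τ i0 n lo hi hi2 : ℕ) (w : G) (hn : (c + i0) + i0 + (τ + i0) ≤ n)
    (hlo : c + i0 + i0 < lo) (hhi : hi ≤ c + τ) (hhi2 : c + τ + 2 * i0 ≤ hi2) :
    ∑' L : List BX, ∑' L' : List BY, (if HT hX L = n ∧ HT hY L' = n ∧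
        WE (TR hX zX sX L 0 0) (TR hY zY sY L' w 0) lo hi hi2 then LW ΛX L * LW ΛY L' else 0)
      ≤ (∑' L1, ∑' L2, W1 ΛX hX c i0 L1 * W1 ΛX hX τ i0 L2 *
          ∑' L1', ∑' L2', W1 ΛY hY (c + i0) i0 L1' * W1 ΛY hY (τ + i0) i0 L2' *
            (if QQ (TR hX zX sX L2 (Dp zX L1) (HT hX L1))
              (TR hY zY sY L2' (w + Dp zY L1') (HT hY L1')) lo hi then 1 else 0))
        + 2 * ∑' k, tail ΛY hY (i0 + k) + 2 * ∑' k, tail ΛX hX (i0 + k) := by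
  set f : List BX → ℝ≥0∞ := fun L => ∑' L' : List BY, LW ΛY L' * (if HT hY L' = n then
    (if WE (TR hX zX sX L 0 0) (TR hY zY sY L' w 0) lo hi hi2 then 1 else 0) else 0) with hf
  have hf1 : ∀ L, f L ≤ 1 := fun L => sum_n_le ΛY hY hUY n _ (fun L' => by split_ifs <;> simp)
  have e0 : ∀ L : List BX, ∑' L' : List BY, (if HT hX L = n ∧ HT hY L' = n ∧
        WE (TR hX zX sX L 0 0) (TR hY zY sY L' w 0) lo hi hi2 then LW ΛX L * LW ΛY L' else 0)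
      = LW ΛX L * (if HT hX L = n then f L else 0) := by
    intro L
    by_cases h : HT hX L = n
    · rw [if_pos h]
      simp only [hf]
      rw [← ENNReal.tsum_mul_left]
      refine tsum_congr fun L' => ?_
      by_cases h' : HT hY L' = n
      · by_cases h'' : WE (TR hX zX sX L 0 0) (TR hY zY sY L' w 0) lo hi hi2
        · rw [if_pos ⟨h, h', h''⟩, if_pos h', if_pos h'', mul_one]
        · rw [if_neg (fun hh => h'' hh.2.2), if_pos h', if_neg h'', mul_zero, mul_zero]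
      · rw [if_neg (fun hh => h' hh.2.1), if_neg h', mul_zero, mul_zero]
    · rw [if_neg h, mul_zero]
      rw [ENNReal.tsum_eq_zero]
      intro L'
      rw [if_neg (fun hh => h hh.1)]
  rw [tsum_congr e0]
  set F : List BX → List BX → ℝ≥0∞ := fun L1 L2 =>
    (∑' L1', ∑' L2', W1 ΛY hY (c + i0) i0 L1' * W1 ΛY hY (τ + i0) i0 L2' *
            (if QQ (TR hX zX sX L2 (Dp zX L1) (HT hX L1))
              (TR hY zY sY L2' (w + Dp zY L1') (HT hY L1')) lo hi then 1 else 0))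
      + 2 * ∑' k, tail ΛY hY (i0 + k) with hF
  refine le_trans (three ΛX hX h1X hUX hΛX c τ i0 n (by omega) f hf1 F ?_) ?_
  · intro L1 L2 L3 hL1 hL1' hL2 hL2'
    have hc := le_HT_of_fp hX hL1
    have ht := le_HT_of_fp hX hL2
    have e1 : f (L1 ++ (L2 ++ L3)) ≤ ∑' L' : List BY, LW ΛY L' * (if HT hY L' = n then
        (if QQ (TR hX zX sX L2 (Dp zX L1) (HT hX L1)) (TR hY zY sY L' w 0) lo hi
          then 1 else 0) else 0) := by
      refine ENNReal.tsum_le_tsum fun L' => ?_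
      gcongr
      by_cases h' : HT hY L' = n
      swap
      · rw [if_neg h']; exact zero_le
      rw [if_pos h', if_pos h']
      by_cases h : WE (TR hX zX sX (L1 ++ (L2 ++ L3)) 0 0) (TR hY zY sY L' w 0) lo hi hi2
      · rw [if_pos h, if_pos (WE_pieceX hX zX sX hsX L1 L2 L3 _ c i0 τ lo hi hi2 hL1' hc hL2' ht
          (by omega) hhi hhi2 h)]
      · rw [if_neg h]; exact zero_le
    refine e1.trans ?_
    refine le_trans (three ΛY hY h1Y hUY hΛY (c + i0) (τ + i0) i0 n (by omega)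
      (fun L' => if QQ (TR hX zX sX L2 (Dp zX L1) (HT hX L1)) (TR hY zY sY L' w 0) lo hi
          then 1 else 0) (fun L' => by split_ifs <;> simp)
      (fun L1' L2' => if QQ (TR hX zX sX L2 (Dp zX L1) (HT hX L1))
              (TR hY zY sY L2' (w + Dp zY L1') (HT hY L1')) lo hi then 1 else 0) ?_) ?_
    · intro L1' L2' L3' g1 g2 g3 g4
      have gc := le_HT_of_fp hY g1
      have gt := le_HT_of_fp hY g3
      by_cases h : QQ (TR hX zX sX L2 (Dp zX L1) (HT hX L1))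
          (TR hY zY sY (L1' ++ (L2' ++ L3')) w 0) lo hi
      · rw [if_pos h, if_pos (QQ_pieceY hY zY sY hsY L1' L2' L3' _ w (c + i0) i0 (τ + i0) lo hi
          g2 gc gt (by omega) (by omega) h)]
      · rw [if_neg h]; exact zero_le
    · rw [nest_eq]
  · rw [nest_eq]
    gcongr
    have e2 : ∀ L1 L2, W1 ΛX hX c i0 L1 * W1 ΛX hX τ i0 L2 * F L1 L2
        = W1 ΛX hX c i0 L1 * W1 ΛX hX τ i0 L2 * (∑' L1', ∑' L2', W1 ΛY hY (c + i0) i0 L1' *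
          W1 ΛY hY (τ + i0) i0 L2' * (if QQ (TR hX zX sX L2 (Dp zX L1) (HT hX L1))
              (TR hY zY sY L2' (w + Dp zY L1') (HT hY L1')) lo hi then 1 else 0))
          + W1 ΛX hX c i0 L1 * (W1 ΛX hX τ i0 L2 * (2 * ∑' k, tail ΛY hY (i0 + k))) := by
      intro L1 L2
      simp only [hF]
      rw [mul_add, mul_assoc (W1 ΛX hX c i0 L1) (W1 ΛX hX τ i0 L2) (2 * ∑' k, tail ΛY hY (i0 + k))]
    simp_rw [e2]
    simp_rw [ENNReal.tsum_add]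
    gcongr
    simp_rw [ENNReal.tsum_mul_left, ENNReal.tsum_mul_right]
    calc (∑' L, W1 ΛX hX c i0 L) * ((∑' L, W1 ΛX hX τ i0 L) * (2 * ∑' k, tail ΛY hY (i0 + k)))
        ≤ 1 * (1 * (2 * ∑' k, tail ΛY hY (i0 + k))) := by
          gcongr
          · exact W1_mass ΛX hX h1X hΛX c i0
          · exact W1_mass ΛX hX h1X hΛX τ i0
      _ = _ := by rw [one_mul, one_mul]

end Crest.Agent.R154.Asm247
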