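import Crest.Agent.R154.AsmD_324

/-! Row 154, ROAD 801 (helper324): one window of the abstract assembly. -/

set_option autoImplicit false

namespace Crest.Agent.R154.Asm324

open scoped ENNReal
open Crest.Agent.R154.B5A Crest.Agent.R154.FP178

lemma sum_push {ι S : Type*} (w : ι → ℝ≥0∞) (k : ι → S) (F : S → ℝ≥0∞) :
    ∑' i, w i * F (k i) = ∑' q, (∑' i, w i * I (k i = q)) * F q := by
  have : ∀ i, w i * F (k i) = ∑' q, w i * I (k i = q) * F q := by
    intro i
    rw [← tsum_I (k i) F, ← ENNReal.tsum_mul_left]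
    exact tsum_congr fun q => by ring
  rw [tsum_congr this, ENNReal.tsum_comm]
  exact tsum_congr fun q => by rw [ENNReal.tsum_mul_right]

lemma sum_push_one {ι S : Type*} (w : ι → ℝ≥0∞) (k : ι → S) :
    ∑' q, ∑' i, w i * I (k i = q) = ∑' i, w i := by
  have := sum_push w k (fun _ => 1)
  simp only [mul_one] at this
  exact this.symm

lemma tsum_le_unique {α : Type*} (f : α → ℝ≥0∞) (M : ℝ≥0∞) (hM : ∀ x, f x ≤ M)
    (hu : ∀ x y, f x ≠ 0 → f y ≠ 0 → x = y) : ∑' x, f x ≤ M := by
  by_cases h : ∃ x, f x ≠ 0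
  · obtain ⟨x, hx⟩ := h
    rw [tsum_eq_single x]
    · exact hM x
    · intro y hy
      by_contra h0
      exact hy (hu y x h0 hx)
  · have h' : ∀ x, f x = 0 := fun x => by
      by_contra h0
      exact h ⟨x, h0⟩
    simp [h']

section half

variable {ι ι' G : Type*}

theorem half (α : ι → ℝ≥0∞) (α' : ι' → ℝ≥0∞) (a : ι → ℕ) (z : ι → G) (a' : ι' → ℕ) (z' : ι' → G)
    (hα' : ∑' i, α' i ≤ 1) (g b : ℕ × G → ℝ≥0∞) (M Bad D : ℝ≥0∞)
    (hV : ∀ q, ∑' i, α i * I ((a i, z i) = q) ≤ g q + b q) (hg1 : ∑' q, g q ≤ 1)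
    (hgM : ∀ q, g q ≤ M) (hb : ∑' q, b q ≤ Bad) (A A' : Finset ℕ)
    (hA : ∀ i, α i ≠ 0 → a i ∈ A) (hA' : ∀ i, α' i ≠ 0 → a' i ∈ A')
    (φ : G → G → G) (hφ : ∀ y x x', φ x y = φ x' y → x = x')
    (Γ : ℕ → ℕ → G → ℝ≥0∞) (hΓ1 : ∀ a a' x, Γ a a' x ≤ 1)
    (hΓ : ∀ a ∈ A, ∀ a' ∈ A', ∀ μ : G → ℝ≥0∞, ∑' x, μ x ≤ 1 → (∀ x, μ x ≤ M) →
      ∑' x, μ x * Γ a a' x ≤ D) :
    ∑' i, α i * ∑' i', α' i' * Γ (a i) (a' i') (φ (z i) (z' i')) ≤
      A.card * (A'.card * D) + Bad := by
  set F : ℕ × G → ℝ≥0∞ := fun q => I (q.1 ∈ A) * ∑' i', α' i' * Γ q.1 (a' i') (φ q.2 (z' i'))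
    with hF
  have hF1 : ∀ q, F q ≤ 1 := by
    intro q
    calc F q ≤ 1 * ∑' i', α' i' * 1 :=
          mul_le_mul' (I_le _) (ENNReal.tsum_le_tsum fun i' => mul_le_mul_right (hΓ1 _ _ _) _)
      _ ≤ 1 := by simpa using hα'
  have hgF : ∑' q, g q * F q ≤ A.card * (A'.card * D) := by
    refine fib A (fun q : ℕ × G => q.1) _ ?_ _ ?_
    · intro q hq
      by_contra hn
      refine hq ?_
      simp only [hF]
      rw [I_neg hn]; simp
    · intro c hc
      calc ∑' q : ℕ × G, I (q.1 = c) * (g q * F q)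
          ≤ ∑' q : ℕ × G, ∑' i', I (q.1 = c) * g q * (α' i' * Γ c (a' i') (φ q.2 (z' i'))) := by
            refine ENNReal.tsum_le_tsum fun q => ?_
            rw [ENNReal.tsum_mul_left]
            by_cases hq : q.1 = c
            · simp only [hF]
              rw [hq, I_pos rfl, I_pos hc]
              simp only [one_mul]
              exact le_rfl
            · rw [I_neg hq]; simp
        _ = ∑' p : (ℕ × G) × ι', I (p.1.1 = c) * g p.1 *
              (α' p.2 * Γ c (a' p.2) (φ p.1.2 (z' p.2))) := by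
            rw [← ENNReal.tsum_prod (f := fun (q : ℕ × G) (i' : ι') => I (q.1 = c) * g q *
              (α' i' * Γ c (a' i') (φ q.2 (z' i'))))]
        _ ≤ A'.card * D := by
            refine fib A' (fun p : (ℕ × G) × ι' => a' p.2) _ ?_ _ ?_
            · intro p hp
              refine hA' _ fun h0 => hp ?_
              rw [h0]; simp
            · intro c' hc'
              set w : (ℕ × G) × ι' → ℝ≥0∞ := fun p =>
                I (a' p.2 = c') * α' p.2 * (I (p.1.1 = c) * g p.1) with hw
              have e1 : ∑' p : (ℕ × G) × ι', I (a' p.2 = c') * (I (p.1.1 = c) * g p.1 *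
                  (α' p.2 * Γ c (a' p.2) (φ p.1.2 (z' p.2))))
                  = ∑' p, w p * Γ c c' (φ p.1.2 (z' p.2)) := by
                refine tsum_congr fun p => ?_
                simp only [hw]
                by_cases h : a' p.2 = c'
                · rw [h]; ring
                · rw [I_neg h]; simp
              rw [e1, sum_push w (fun p => φ p.1.2 (z' p.2)) (Γ c c')]
              refine hΓ c hc c' hc' _ ?_ ?_
              · rw [sum_push_one]
                calc ∑' p, w p ≤ ∑' p : (ℕ × G) × ι', g p.1 * α' p.2 := by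
                      refine ENNReal.tsum_le_tsum fun p => ?_
                      simp only [hw]
                      calc I (a' p.2 = c') * α' p.2 * (I (p.1.1 = c) * g p.1)
                          ≤ 1 * α' p.2 * (1 * g p.1) :=
                            mul_le_mul' (mul_le_mul' (I_le _) le_rfl) (mul_le_mul' (I_le _) le_rfl)
                        _ = _ := by ring
                  _ = (∑' q, g q) * ∑' i', α' i' := by
                      rw [ENNReal.tsum_prod (f := fun (q : ℕ × G) (i' : ι') => g q * α' i'),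
                        ← ENNReal.tsum_mul_right]
                      exact tsum_congr fun q => ENNReal.tsum_mul_left
                  _ ≤ 1 * 1 := mul_le_mul' hg1 hα'
                  _ = 1 := one_mul 1
              · intro x
                calc ∑' p : (ℕ × G) × ι', w p * I (φ p.1.2 (z' p.2) = x)
                    = ∑' i', ∑' q : ℕ × G, w (q, i') * I (φ q.2 (z' i') = x) := by
                      rw [ENNReal.tsum_prod (f := fun (q : ℕ × G) (i' : ι') =>
                        w (q, i') * I (φ q.2 (z' i') = x)), ENNReal.tsum_comm]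
                  _ ≤ ∑' i', α' i' * M := by
                      refine ENNReal.tsum_le_tsum fun i' => ?_
                      calc ∑' q : ℕ × G, w (q, i') * I (φ q.2 (z' i') = x)
                          ≤ ∑' q : ℕ × G, α' i' * (I (q.1 = c ∧ φ q.2 (z' i') = x) * g q) := by
                            refine ENNReal.tsum_le_tsum fun q => ?_
                            simp only [hw]
                            rw [I_and]
                            calc I (a' i' = c') * α' i' * (I (q.1 = c) * g q) *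
                                  I (φ q.2 (z' i') = x)
                                ≤ 1 * α' i' * (I (q.1 = c) * g q) * I (φ q.2 (z' i') = x) :=
                                  mul_le_mul' (mul_le_mul' (mul_le_mul' (I_le _) le_rfl) le_rfl)
                                    le_rfl
                              _ = _ := by ring
                        _ = α' i' * ∑' q : ℕ × G, I (q.1 = c ∧ φ q.2 (z' i') = x) * g q :=
                            ENNReal.tsum_mul_left
                        _ ≤ α' i' * M := by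
                            refine mul_le_mul_right (tsum_le_unique _ _ ?_ ?_) _
                            · intro q
                              exact le_trans (mul_le_of_le_one_left' (I_le _)) (hgM q)
                            · intro q q' hq hq'
                              have h1 : q.1 = c ∧ φ q.2 (z' i') = x := by
                                by_contra hn
                                exact hq (by rw [I_neg hn, zero_mul])
                              have h2 : q'.1 = c ∧ φ q'.2 (z' i') = x := by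
                                by_contra hn
                                exact hq' (by rw [I_neg hn, zero_mul])
                              exact Prod.ext (h1.1.trans h2.1.symm)
                                (hφ _ _ _ (h1.2.trans h2.2.symm))
                  _ ≤ M := by
                      rw [ENNReal.tsum_mul_right]
                      exact mul_le_of_le_one_left' hα'
  calc ∑' i, α i * ∑' i', α' i' * Γ (a i) (a' i') (φ (z i) (z' i'))
      ≤ ∑' i, α i * F (a i, z i) := by
        refine ENNReal.tsum_le_tsum fun i => ?_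
        by_cases h0 : α i = 0
        · rw [h0, zero_mul, zero_mul]
        · simp only [hF]
          rw [I_pos (hA i h0), one_mul]
    _ = ∑' q, (∑' i, α i * I ((a i, z i) = q)) * F q := sum_push α (fun i => (a i, z i)) F
    _ ≤ ∑' q, (g q * F q + b q * F q) := by
        refine ENNReal.tsum_le_tsum fun q => ?_
        rw [← add_mul]
        exact mul_le_mul_left (hV q) _
    _ = ∑' q, g q * F q + ∑' q, b q * F q := ENNReal.tsum_add
    _ ≤ A.card * (A'.card * D) + Bad := by
        refine add_le_add hgF (le_trans (ENNReal.tsum_le_tsum fun q => ?_) hb)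
        exact mul_le_of_le_one_right' (hF1 q)

theorem gam {κ κ' : Type*} (β : κ → ℝ≥0∞) (β' : κ' → ℝ≥0∞) (h : κ → ℕ) (h' : κ' → ℕ)
    (H H' : Finset ℕ) (hβ : ∀ i, β i ≠ 0 → h i ∈ H) (hβ' : ∀ i, β' i ≠ 0 → h' i ∈ H')
    (R : G → κ → κ' → Prop) (μ : G → ℝ≥0∞) (D : ℝ≥0∞)
    (hD : ∀ c ∈ H, ∀ c' ∈ H', ∑' x, μ x * ∑' i, ∑' i',
      I (h i = c ∧ h' i' = c' ∧ R x i i') * (β i * β' i') ≤ D) :
    ∑' x, μ x * ∑' i, β i * ∑' i', β' i' * I (R x i i') ≤ H.card * (H'.card * D) := by
  have e0 : ∀ F : G → κ → κ' → ℝ≥0∞, ∑' x, ∑' i, ∑' i', F x i i'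
      = ∑' p : G × κ × κ', F p.1 p.2.1 p.2.2 := by
    intro F
    rw [ENNReal.tsum_prod (f := fun (x : G) (y : κ × κ') => F x y.1 y.2)]
    refine tsum_congr fun x => ?_
    rw [ENNReal.tsum_prod (f := fun (i : κ) (i' : κ') => F x i i')]
  have e1 : ∑' x, μ x * ∑' i, β i * ∑' i', β' i' * I (R x i i')
      = ∑' p : G × κ × κ', μ p.1 * (β p.2.1 * (β' p.2.2 * I (R p.1 p.2.1 p.2.2))) := by
    rw [← e0 (fun x i i' => μ x * (β i * (β' i' * I (R x i i'))))]
    refine tsum_congr fun x => ?_
    rw [← ENNReal.tsum_mul_left]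
    refine tsum_congr fun i => ?_
    rw [← ENNReal.tsum_mul_left, ← ENNReal.tsum_mul_left]
  rw [e1]
  refine fib H (fun p : G × κ × κ' => h p.2.1) _ ?_ _ fun c hc => ?_
  · intro p hp
    refine hβ _ fun h0 => hp ?_
    rw [h0]; simp
  refine fib H' (fun p : G × κ × κ' => h' p.2.2) _ ?_ _ fun c' hc' => ?_
  · intro p hp
    refine hβ' _ fun h0 => hp ?_
    rw [h0]; simp
  refine le_trans (le_of_eq ?_) (hD c hc c' hc')
  rw [← e0 (fun x i i' => I (h' i' = c') * (I (h i = c) *
    (μ x * (β i * (β' i' * I (R x i i'))))))]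
  refine tsum_congr fun x => ?_
  rw [← ENNReal.tsum_mul_left]
  refine tsum_congr fun i => ?_
  rw [← ENNReal.tsum_mul_left]
  refine tsum_congr fun i' => ?_
  rw [I_and, I_and]
  ring

/-- one window: `α, α'` weights of the upper parts, `β, β'` weights of the pieces, `e, e'` local -/
theorem window {κ κ' : Type*} (α : ι → ℝ≥0∞) (α' : ι' → ℝ≥0∞) (a : ι → ℕ) (z : ι → G)
    (a' : ι' → ℕ) (z' : ι' → G)
    (β : κ → ℝ≥0∞) (β' : κ' → ℝ≥0∞) (e : κ → Prop) (e' : κ' → Prop)
    (hα : ∑' i, α i ≤ 1) (hα' : ∑' i, α' i ≤ 1) (hβ : ∑' i, β i ≤ 1) (hβ' : ∑' i, β' i ≤ 1)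
    (u : ℝ≥0∞) (hu : ∑' i, I (¬ e i) * β i ≤ u) (hu' : ∑' i, I (¬ e' i) * β' i ≤ u)
    (g b g' b' : ℕ × G → ℝ≥0∞) (M Bad D M' Bad' D' : ℝ≥0∞)
    (hV : ∀ q, ∑' i, α i * I ((a i, z i) = q) ≤ g q + b q) (hg1 : ∑' q, g q ≤ 1)
    (hgM : ∀ q, g q ≤ M) (hb : ∑' q, b q ≤ Bad)
    (hV' : ∀ q, ∑' i, α' i * I ((a' i, z' i) = q) ≤ g' q + b' q) (hg1' : ∑' q, g' q ≤ 1)
    (hgM' : ∀ q, g' q ≤ M') (hb' : ∑' q, b' q ≤ Bad')
    (A A' : Finset ℕ)
    (hA : ∀ i, α i ≠ 0 → a i ∈ A) (hA' : ∀ i, α' i ≠ 0 → a' i ∈ A')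
    (φ : G → G → G) (hφ : ∀ y x x', φ x y = φ x' y → x = x')
    (hφ' : ∀ y x x', φ y x = φ y x' → x = x')
    (R : G → ℕ → ℕ → κ → κ' → Prop)
    (hD : ∀ c ∈ A, ∀ c' ∈ A', ∀ μ : G → ℝ≥0∞, ∑' x, μ x ≤ 1 → (∀ x, μ x ≤ M) →
      ∑' x, μ x * ∑' i, (I (e i) * β i) * ∑' i', β' i' * I (R x c c' i i') ≤ D)
    (hD' : ∀ c ∈ A, ∀ c' ∈ A', ∀ μ : G → ℝ≥0∞, ∑' x, μ x ≤ 1 → (∀ x, μ x ≤ M') →
      ∑' x, μ x * ∑' i, β i * ∑' i', (I (e' i') * β' i') * I (R x c c' i i') ≤ D') :
    ∑' i, α i * ∑' i', α' i' * (∑' j, β j * ∑' j', β' j' *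
        I (R (φ (z i) (z' i')) (a i) (a' i') j j')) ≤
      u * u + (A.card * (A'.card * D) + Bad) + (A'.card * (A.card * D') + Bad') := by
  have e1 : ∀ (e : κ → Prop), ∑' j, I (e j) * β j ≤ 1 := fun e =>
    le_trans (ENNReal.tsum_le_tsum fun j => mul_le_of_le_one_left' (I_le _)) hβ
  have e1' : ∀ (e : κ' → Prop), ∑' j, I (e j) * β' j ≤ 1 := fun e =>
    le_trans (ENNReal.tsum_le_tsum fun j => mul_le_of_le_one_left' (I_le _)) hβ'
  have hin : ∀ (c c' : ℕ) (x : G), ∑' j, β j * ∑' j', β' j' * I (R x c c' j j')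
      ≤ u * u + ∑' j, (I (e j) * β j) * ∑' j', β' j' * I (R x c c' j j')
        + ∑' j, β j * ∑' j', (I (e' j') * β' j') * I (R x c c' j j') := by
    intro c c' x
    have h1 : ∑' j, (I (¬ e j) * β j) * ∑' j', (I (¬ e' j') * β' j') ≤ u * u := by
      rw [ENNReal.tsum_mul_right]; exact mul_le_mul' hu hu'
    refine le_trans ?_ (add_le_add (add_le_add h1 le_rfl) le_rfl)
    rw [← ENNReal.tsum_add, ← ENNReal.tsum_add]
    refine ENNReal.tsum_le_tsum fun j => ?_
    by_cases hj : e j
    · rw [I_pos hj, one_mul]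
      exact le_add_right (le_add_left le_rfl)
    · rw [I_pos (p := ¬ e j) hj, I_neg hj, one_mul, zero_mul, zero_mul, add_zero, ← mul_add,
        ← ENNReal.tsum_add]
      refine mul_le_mul_right (ENNReal.tsum_le_tsum fun j' => ?_) _
      by_cases hj' : e' j'
      · rw [I_pos hj', one_mul]
        exact le_add_left le_rfl
      · rw [I_pos (p := ¬ e' j') hj', one_mul]
        exact le_add_right (mul_le_of_le_one_right' (I_le _))
  have h2 := half α α' a z a' z' hα' g b M Bad D hV hg1 hgM hb A A' hA hA' φ hφ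
    (fun c c' x => ∑' j, (I (e j) * β j) * ∑' j', β' j' * I (R x c c' j j'))
    (fun c c' x => by
      calc ∑' j, (I (e j) * β j) * ∑' j', β' j' * I (R x c c' j j')
          ≤ ∑' j, (I (e j) * β j) * 1 := by
            refine ENNReal.tsum_le_tsum fun j => mul_le_mul_right ?_ _
            exact le_trans (ENNReal.tsum_le_tsum fun j' => mul_le_of_le_one_right' (I_le _)) hβ'
        _ ≤ 1 := by simpa using e1 e) hD
  have h3 := half α' α a' z' a z hα g' b' M' Bad' D' hV' hg1' hgM' hb' A' A hA' hA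
    (fun x y => φ y x) (fun y x x' h => hφ' y x x' h)
    (fun c' c x => ∑' j, β j * ∑' j', (I (e' j') * β' j') * I (R x c c' j j'))
    (fun c' c x => by
      calc ∑' j, β j * ∑' j', (I (e' j') * β' j') * I (R x c c' j j')
          ≤ ∑' j, β j * 1 := by
            refine ENNReal.tsum_le_tsum fun j => mul_le_mul_right ?_ _
            exact le_trans (ENNReal.tsum_le_tsum fun j' => mul_le_of_le_one_right' (I_le _))
              (e1' e')
        _ ≤ 1 := by simpa using hβ) (fun c' hc' c hc => hD' c hc c' hc')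
  calc ∑' i, α i * ∑' i', α' i' * (∑' j, β j * ∑' j', β' j' *
        I (R (φ (z i) (z' i')) (a i) (a' i') j j'))
      ≤ ∑' i, α i * ∑' i', α' i' * (u * u
          + ∑' j, (I (e j) * β j) * ∑' j', β' j' * I (R (φ (z i) (z' i')) (a i) (a' i') j j')
          + ∑' j, β j * ∑' j', (I (e' j') * β' j') * I (R (φ (z i) (z' i')) (a i) (a' i') j j')) :=
        ENNReal.tsum_le_tsum fun i => mul_le_mul_right
          (ENNReal.tsum_le_tsum fun i' => mul_le_mul_right (hin _ _ _) _) _
    _ = ∑' i, α i * ∑' i', α' i' * (u * u)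
        + ∑' i, α i * ∑' i', α' i' * (∑' j, (I (e j) * β j) * ∑' j', β' j' *
            I (R (φ (z i) (z' i')) (a i) (a' i') j j'))
        + ∑' i, α i * ∑' i', α' i' * (∑' j, β j * ∑' j', (I (e' j') * β' j') *
            I (R (φ (z i) (z' i')) (a i) (a' i') j j')) := by
        rw [← ENNReal.tsum_add, ← ENNReal.tsum_add]
        refine tsum_congr fun i => ?_
        rw [← mul_add, ← mul_add, ← ENNReal.tsum_add, ← ENNReal.tsum_add]
        congr 1
        refine tsum_congr fun i' => ?_
        rw [← mul_add, ← mul_add]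
    _ ≤ _ := by
        refine add_le_add (add_le_add ?_ h2) ?_
        · rw [ENNReal.tsum_mul_right]
          refine mul_le_of_le_one_left' hα |>.trans ?_
          rw [ENNReal.tsum_mul_right]
          exact mul_le_of_le_one_left' hα'
        · refine le_trans (le_of_eq ?_) h3
          have e5 : ∀ i, α i * ∑' i', α' i' * (∑' j, β j * ∑' j', (I (e' j') * β' j') *
            I (R (φ (z i) (z' i')) (a i) (a' i') j j')) = ∑' i', α i * (α' i' *
              (∑' j, β j * ∑' j', (I (e' j') * β' j') *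
            I (R (φ (z i) (z' i')) (a i) (a' i') j j'))) := fun i => by
              rw [ENNReal.tsum_mul_left]
          rw [tsum_congr e5, ENNReal.tsum_comm]
          refine tsum_congr fun i' => ?_
          rw [← ENNReal.tsum_mul_left]
          refine tsum_congr fun i => ?_
          ring

end half

end Crest.Agent.R154.Asm324
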