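import Crest.Agent.R154.FP_178
import Crest.Agent.R154.AsmA_789

/-! Row 154 (helper34), ROAD 801: one window of the abstract assembly. -/

set_option autoImplicit false

namespace Crest.Agent.R154.Asm34

open scoped ENNReal
open Crest.Agent.R154.B5A Crest.Agent.R154.FP178

section one
variable {B : Type*} {G : Type*} [AddCommGroup G] (Λ : B → ℝ≥0∞) (ht : B → ℕ) (z : B → G)

/-- displacement of a list -/
def Dp (z : B → G) (L : List B) : G := (L.map z).sum

lemma Dp_append (L L' : List B) : Dp z (L ++ L') = Dp z L + Dp z L' := by simp [Dp]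

lemma fp_unique {a : ℕ} {A A' R R' : List B} (h : fp ht a A) (h' : fp ht a A')
    (e : A ++ R = A' ++ R') : A = A' ∧ R = R' := by
  induction A generalizing a A' with
  | nil =>
    rw [fp_nil] at h; subst h
    rw [fp_zero] at h'; subst h'
    exact ⟨rfl, by simpa using e⟩
  | cons b A ih =>
    rw [fp_cons] at h
    cases A' with
    | nil => rw [fp_nil] at h'; omega
    | cons b' A' =>
      rw [fp_cons] at h'
      simp only [List.cons_append, List.cons.injEq] at e
      obtain ⟨rfl, e2⟩ := e
      obtain ⟨h3, h4⟩ := ih h.2 h'.2 e2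
      exact ⟨by rw [h3], h4⟩

open Classical in
/-- total mass of a first passage is one -/
theorem sum_FP_one (h1 : ∀ b, 1 ≤ ht b) (hΛ : ∑' b, Λ b = 1) (a : ℕ) :
    ∑' L, (if fp ht a L then LW Λ L else 0) = 1 := by
  induction a using Nat.strong_induction_on with
  | _ a ih =>
    rcases Nat.eq_zero_or_pos a with rfl | ha
    · have := sum_fp_zero Λ ht (fun _ => 1)
      simp only [mul_one] at this
      exact this
    · have := sum_fp_step Λ ht a ha (fun _ => 1)
      simp only [mul_one] at this
      rw [this]
      calc ∑' b, Λ b * ∑' L, (if fp ht (a - ht b) L then LW Λ L else 0)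
          = ∑' b, Λ b * 1 := by
            refine tsum_congr fun b => ?_
            rw [ih (a - ht b) (by have := h1 b; omega)]
        _ = 1 := by simpa using hΛ

/-- some attempt among the first `J` is in `S`, with no overshoot before -/
def Good (τ i0 : ℕ) (S : List B → Prop) : ℕ → List B → Prop
  | 0, _ => False
  | J + 1, L => ∃ A R, L = A ++ R ∧ fp ht τ A ∧ HT ht A ≤ τ + i0 ∧ (S A ∨ Good τ i0 S J R)

variable (τ i0 : ℕ) (S : List B → Prop)

lemma ite1 (p : Prop) [Decidable p] : (if p then (1 : ℝ≥0∞) else 0) ≤ 1 := by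
  by_cases h : p
  · rw [if_pos h]
  · rw [if_neg h]; exact zero_le

lemma good_succ_append {J : ℕ} {A R : List B} (hA : fp ht τ A) :
    Good ht τ i0 S (J + 1) (A ++ R) ↔ HT ht A ≤ τ + i0 ∧ (S A ∨ Good ht τ i0 S J R) := by
  constructor
  · rintro ⟨A', R', e, h1, h2, h3⟩
    obtain ⟨rfl, rfl⟩ := fp_unique ht hA h1 e
    exact ⟨h2, h3⟩
  · rintro ⟨h2, h3⟩
    exact ⟨A, R, rfl, hA, h2, h3⟩

open Classical in
/-- mass of the bad lists -/
theorem bad_le (h1 : ∀ b, 1 ≤ ht b) (hΛ : ∑' b, Λ b ≤ 1) (q ε : ℝ≥0∞) (hq1 : q ≤ 1)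
    (hq : ∑' A, (if fp ht τ A ∧ ¬ S A then LW Λ A else 0) ≤ q)
    (hε : ∑' A, (if fp ht τ A ∧ τ + i0 < HT ht A then LW Λ A else 0) ≤ ε) (J : ℕ) :
    ∀ a, J * (τ + i0) ≤ a →
      ∑' L, (if fp ht a L ∧ ¬ Good ht τ i0 S J L then LW Λ L else 0) ≤ q ^ J + J * ε := by
  induction J with
  | zero =>
    intro a _
    simp only [pow_zero, Nat.cast_zero, zero_mul, add_zero]
    refine le_trans (ENNReal.tsum_le_tsum fun L => ?_) (sum_FP Λ ht h1 hΛ a)
    split_ifs with h h' h' <;> first | exact le_rfl | exact zero_le | exact absurd h.1 h'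
  | succ J ih =>
    intro a ha
    have hτ : τ ≤ a := by
      have : (J + 1) * (τ + i0) = J * (τ + i0) + τ + i0 := by ring
      omega
    have e := fp_split Λ ht h1 τ a hτ (fun L => if ¬ Good ht τ i0 S (J + 1) L then 1 else 0)
    have e0 : ∑' L, (if fp ht a L ∧ ¬ Good ht τ i0 S (J + 1) L then LW Λ L else 0)
        = ∑' L, (if fp ht a L then LW Λ L * (if ¬ Good ht τ i0 S (J + 1) L then 1 else 0) else 0) := by
      refine tsum_congr fun L => ?_
      by_cases h : fp ht a L <;> by_cases h' : Good ht τ i0 S (J + 1) L <;> simp [h, h']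
    rw [e0, e]
    have hbound : ∀ A, (if fp ht τ A then LW Λ A *
          ∑' L, (if fp ht (a - HT ht A) L then LW Λ L *
            (if ¬ Good ht τ i0 S (J + 1) (A ++ L) then 1 else 0) else 0) else 0)
        ≤ (if fp ht τ A ∧ ¬ S A then LW Λ A else 0) * (q ^ J + J * ε)
          + (if fp ht τ A ∧ τ + i0 < HT ht A then LW Λ A else 0) := by
      intro A
      by_cases hA : fp ht τ A
      · rw [if_pos hA]
        by_cases hov : τ + i0 < HT ht A
        · rw [if_pos (⟨hA, hov⟩ : fp ht τ A ∧ τ + i0 < HT ht A)]
          refine le_add_left ?_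
          calc LW Λ A * _ ≤ LW Λ A * 1 := by
                refine mul_le_mul_right ?_ _
                refine le_trans (ENNReal.tsum_le_tsum fun L => ?_)
                  (sum_FP Λ ht h1 hΛ (a - HT ht A))
                by_cases hL : fp ht (a - HT ht A) L
                · rw [if_pos hL, if_pos hL]
                  exact (mul_le_mul_right (ite1 _) _).trans (mul_one _).le
                · rw [if_neg hL, if_neg hL]
            _ = LW Λ A := mul_one _
        · rw [if_neg (fun h => hov h.2 : ¬ (fp ht τ A ∧ τ + i0 < HT ht A)), add_zero]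
          have hle : HT ht A ≤ τ + i0 := not_lt.1 hov
          by_cases hS : S A
          · have : ∀ L, Good ht τ i0 S (J + 1) (A ++ L) := fun L =>
              (good_succ_append ht τ i0 S hA).2 ⟨hle, Or.inl hS⟩
            simp [this]
          · rw [if_pos (⟨hA, hS⟩ : fp ht τ A ∧ ¬ S A)]
            refine mul_le_mul_right ?_ _
            refine le_trans (ENNReal.tsum_le_tsum fun L => ?_)
              (ih (a - HT ht A) (by
                have : (J + 1) * (τ + i0) = J * (τ + i0) + (τ + i0) := by ring
                omega))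
            by_cases hL : fp ht (a - HT ht A) L
            · by_cases hG : Good ht τ i0 S J L
              · have : Good ht τ i0 S (J + 1) (A ++ L) :=
                  (good_succ_append ht τ i0 S hA).2 ⟨hle, Or.inr hG⟩
                simp [this]
              · simp only [hL, hG, if_true, not_false_eq_true, and_self]
                exact (mul_le_mul_right (ite1 _) _).trans (mul_one _).le
            · simp [hL]
      · simp [hA]
    calc _ ≤ ∑' A, ((if fp ht τ A ∧ ¬ S A then LW Λ A else 0) * (q ^ J + J * ε)
          + (if fp ht τ A ∧ τ + i0 < HT ht A then LW Λ A else 0)) := ENNReal.tsum_le_tsum hbound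
      _ = (∑' A, (if fp ht τ A ∧ ¬ S A then LW Λ A else 0)) * (q ^ J + J * ε)
          + ∑' A, (if fp ht τ A ∧ τ + i0 < HT ht A then LW Λ A else 0) := by
          rw [ENNReal.tsum_add, ENNReal.tsum_mul_right]
      _ ≤ q * (q ^ J + J * ε) + ε := by gcongr
      _ ≤ q ^ (J + 1) + (J + 1 : ℕ) * ε := by
          have e1 : q * (q ^ J + J * ε) + ε = q ^ (J + 1) + (q * (J * ε) + ε) := by ring
          rw [e1]
          refine add_le_add le_rfl ?_
          calc q * (J * ε) + ε ≤ 1 * (J * ε) + ε := by gcongr
            _ = _ := by push_cast; ring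

open Classical in
/-- density of the good lists -/
theorem dens_le (h1 : ∀ b, 1 ≤ ht b) (hΛ : ∑' b, Λ b ≤ 1) (θ : ℝ≥0∞)
    (hθ : ∀ h x, ∑' A, (if fp ht τ A ∧ S A ∧ HT ht A = h ∧ Dp z A = x then LW Λ A else 0) ≤ θ)
    (J : ℕ) :
    ∀ a, J * (τ + i0) ≤ a → ∀ x,
      ∑' L, (if fp ht a L ∧ Good ht τ i0 S J L ∧ Dp z L = x then LW Λ L else 0)
        ≤ J * ((i0 + 1) * θ) := by
  induction J with
  | zero =>
    intro a _ x
    simp [Good]
  | succ J ih =>
    intro a ha x
    have hτ : τ ≤ a := by
      have : (J + 1) * (τ + i0) = J * (τ + i0) + τ + i0 := by ring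
      omega
    have e := fp_split Λ ht h1 τ a hτ
      (fun L => if Good ht τ i0 S (J + 1) L ∧ Dp z L = x then 1 else 0)
    have e0 : ∑' L, (if fp ht a L ∧ Good ht τ i0 S (J + 1) L ∧ Dp z L = x then LW Λ L else 0)
        = ∑' L, (if fp ht a L then
          LW Λ L * (if Good ht τ i0 S (J + 1) L ∧ Dp z L = x then 1 else 0) else 0) := by
      refine tsum_congr fun L => ?_
      by_cases h : fp ht a L <;> by_cases h' : Good ht τ i0 S (J + 1) L ∧ Dp z L = x <;> simp [h, h']
    rw [e0, e]
    have hbound : ∀ A, (if fp ht τ A then LW Λ A *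
          ∑' L, (if fp ht (a - HT ht A) L then LW Λ L *
            (if Good ht τ i0 S (J + 1) (A ++ L) ∧ Dp z (A ++ L) = x then 1 else 0) else 0) else 0)
        ≤ (if fp ht τ A ∧ S A ∧ HT ht A ≤ τ + i0 then LW Λ A *
            ∑' L, (if fp ht (a - HT ht A) L ∧ Dp z A = x - Dp z L then LW Λ L else 0) else 0)
          + (if fp ht τ A then LW Λ A else 0) * (J * ((i0 + 1) * θ)) := by
      intro A
      by_cases hA : fp ht τ A
      · rw [if_pos hA, if_pos hA]
        by_cases hov : HT ht A ≤ τ + i0
        · by_cases hS : S A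
          · rw [if_pos ⟨hA, hS, hov⟩]
            refine le_add_right ?_
            refine mul_le_mul_right (ENNReal.tsum_le_tsum fun L => ?_) _
            by_cases hL : fp ht (a - HT ht A) L
            · by_cases hx : Dp z (A ++ L) = x
              · have hx' : Dp z A = x - Dp z L := by
                  rw [← hx, Dp_append]; abel
                rw [if_pos hL, if_pos (⟨hL, hx'⟩ : fp ht (a - HT ht A) L ∧ Dp z A = x - Dp z L)]
                exact (mul_le_mul_right (ite1 _) _).trans (mul_one _).le
              · simp [hx]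
            · simp [hL]
          · refine le_add_left ?_
            refine mul_le_mul_right ?_ _
            refine le_trans (ENNReal.tsum_le_tsum fun L => ?_)
              (ih (a - HT ht A) (by
                have : (J + 1) * (τ + i0) = J * (τ + i0) + (τ + i0) := by ring
                omega) (x - Dp z A))
            by_cases hL : fp ht (a - HT ht A) L
            · by_cases hG : Good ht τ i0 S (J + 1) (A ++ L) ∧ Dp z (A ++ L) = x
              · have hG' : Good ht τ i0 S J L := by
                  have := ((good_succ_append ht τ i0 S hA).1 hG.1).2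
                  exact this.resolve_left hS
                have hx : Dp z L = x - Dp z A := by rw [← hG.2, Dp_append]; abel
                rw [if_pos hL, if_pos hG, if_pos ⟨hL, hG', hx⟩, mul_one]
              · rw [if_pos hL, if_neg hG, mul_zero]; exact zero_le
            · simp [hL]
        · have : ∀ L, ¬ Good ht τ i0 S (J + 1) (A ++ L) := fun L hG =>
            hov ((good_succ_append ht τ i0 S hA).1 hG).1
          simp [this]
      · simp [hA]
    have hfirst : ∑' A, (if fp ht τ A ∧ S A ∧ HT ht A ≤ τ + i0 then LW Λ A *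
            ∑' L, (if fp ht (a - HT ht A) L ∧ Dp z A = x - Dp z L then LW Λ L else 0) else 0)
        ≤ (i0 + 1) * θ := by
      have hs : ∀ A, (if fp ht τ A ∧ S A ∧ HT ht A ≤ τ + i0 then LW Λ A *
            ∑' L, (if fp ht (a - HT ht A) L ∧ Dp z A = x - Dp z L then LW Λ L else 0) else 0)
          ≤ ∑ i ∈ Finset.range (i0 + 1), ∑' L, (if fp ht (a - (τ + i)) L then LW Λ L else 0)
              * (if fp ht τ A ∧ S A ∧ HT ht A = τ + i ∧ Dp z A = x - Dp z L then LW Λ A else 0) := by
        intro A
        by_cases hA : fp ht τ A ∧ S A ∧ HT ht A ≤ τ + i0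
        · rw [if_pos hA]
          have hτA : τ ≤ HT ht A := le_HT_of_fp ht hA.1
          have hi : HT ht A - τ ∈ Finset.range (i0 + 1) := by
            rw [Finset.mem_range]; omega
          refine le_trans ?_ (Finset.single_le_sum (f := fun i => ∑' L,
            (if fp ht (a - (τ + i)) L then LW Λ L else 0)
              * (if fp ht τ A ∧ S A ∧ HT ht A = τ + i ∧ Dp z A = x - Dp z L then LW Λ A else 0))
            (fun _ _ => zero_le) hi)
          have e3 : τ + (HT ht A - τ) = HT ht A := by omega
          simp only [e3]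
          rw [← ENNReal.tsum_mul_left]
          refine ENNReal.tsum_le_tsum fun L => ?_
          by_cases hL : fp ht (a - HT ht A) L ∧ Dp z A = x - Dp z L
          · rw [if_pos hL, if_pos hL.1, if_pos ⟨hA.1, hA.2.1, trivial, hL.2⟩, mul_comm]
          · rw [if_neg hL, mul_zero]; exact zero_le
        · rw [if_neg hA]; exact zero_le
      calc _ ≤ ∑' A, ∑ i ∈ Finset.range (i0 + 1), ∑' L,
              (if fp ht (a - (τ + i)) L then LW Λ L else 0)
              * (if fp ht τ A ∧ S A ∧ HT ht A = τ + i ∧ Dp z A = x - Dp z L then LW Λ A else 0) :=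
            ENNReal.tsum_le_tsum hs
        _ = ∑ i ∈ Finset.range (i0 + 1), ∑' A, ∑' L,
              (if fp ht (a - (τ + i)) L then LW Λ L else 0)
              * (if fp ht τ A ∧ S A ∧ HT ht A = τ + i ∧ Dp z A = x - Dp z L then LW Λ A else 0) :=
            Summable.tsum_finsetSum (fun _ _ => ENNReal.summable)
        _ ≤ ∑ i ∈ Finset.range (i0 + 1), θ := by
            refine Finset.sum_le_sum fun i _ => ?_
            rw [ENNReal.tsum_comm]
            calc _ = ∑' L, (if fp ht (a - (τ + i)) L then LW Λ L else 0) *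
                  ∑' A, (if fp ht τ A ∧ S A ∧ HT ht A = τ + i ∧ Dp z A = x - Dp z L
                    then LW Λ A else 0) := by
                  refine tsum_congr fun L => ?_
                  rw [ENNReal.tsum_mul_left]
              _ ≤ ∑' L, (if fp ht (a - (τ + i)) L then LW Λ L else 0) * θ :=
                  ENNReal.tsum_le_tsum fun L => mul_le_mul_right (hθ _ _) _
              _ = (∑' L, (if fp ht (a - (τ + i)) L then LW Λ L else 0)) * θ :=
                  ENNReal.tsum_mul_right
              _ ≤ 1 * θ := by gcongr; exact sum_FP Λ ht h1 hΛ _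
              _ = θ := one_mul _
        _ = (i0 + 1) * θ := by
            rw [Finset.sum_const, Finset.card_range, nsmul_eq_mul]; push_cast; ring
    calc _ ≤ ∑' A, ((if fp ht τ A ∧ S A ∧ HT ht A ≤ τ + i0 then LW Λ A *
            ∑' L, (if fp ht (a - HT ht A) L ∧ Dp z A = x - Dp z L then LW Λ L else 0) else 0)
          + (if fp ht τ A then LW Λ A else 0) * (J * ((i0 + 1) * θ))) :=
          ENNReal.tsum_le_tsum hbound
      _ = (∑' A, (if fp ht τ A ∧ S A ∧ HT ht A ≤ τ + i0 then LW Λ A *
            ∑' L, (if fp ht (a - HT ht A) L ∧ Dp z A = x - Dp z L then LW Λ L else 0) else 0))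
          + (∑' A, (if fp ht τ A then LW Λ A else 0)) * (J * ((i0 + 1) * θ)) := by
          rw [ENNReal.tsum_add, ENNReal.tsum_mul_right]
      _ ≤ (i0 + 1) * θ + 1 * (J * ((i0 + 1) * θ)) := by
          gcongr
          exact sum_FP Λ ht h1 hΛ τ
      _ = _ := by push_cast; ring

end one

end Crest.Agent.R154.Asm34
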