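import Crest.Agent.R154.AsmH_351

/-! Row 154, ROAD 801, one window (helper351). -/

set_option autoImplicit false

namespace Crest.Agent.R154.AsmS351

open scoped ENNReal Topology
open Crest.Agent.R154.B5A Crest.Agent.R154.FP178

lemma swap2 {α β : Type*} (c : α → ℝ≥0∞) (d : β → ℝ≥0∞) (H : α → β → ℝ≥0∞) :
    ∑' A, c A * ∑' B, d B * H A B = ∑' B, d B * ∑' A, c A * H A B := by
  simp only [← ENNReal.tsum_mul_left]
  rw [ENNReal.tsum_comm]
  exact tsum_congr fun B => tsum_congr fun A => by ring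

lemma reorder {α β γ δ : Type*} (c1 : α → ℝ≥0∞) (p1 : β → ℝ≥0∞) (c2 : γ → ℝ≥0∞)
    (p2 : δ → ℝ≥0∞) (H : α → β → γ → δ → ℝ≥0∞) :
    ∑' A, c1 A * ∑' P, p1 P * ∑' A', c2 A' * ∑' P', p2 P' * H A P A' P'
      = ∑' A', c2 A' * ∑' P', p2 P' * ∑' A, c1 A * ∑' P, p1 P * H A P A' P' := by
  calc _ = ∑' A, c1 A * ∑' A', c2 A' * ∑' P, p1 P * ∑' P', p2 P' * H A P A' P' :=
        tsum_congr fun A => by rw [swap2]
    _ = ∑' A', c2 A' * ∑' A, c1 A * ∑' P, p1 P * ∑' P', p2 P' * H A P A' P' := swap2 _ _ _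
    _ = ∑' A', c2 A' * ∑' A, c1 A * ∑' P', p2 P' * ∑' P, p1 P * H A P A' P' :=
        tsum_congr fun A' => by
          congr 1
          exact tsum_congr fun A => by rw [swap2]
    _ = _ := tsum_congr fun A' => by rw [swap2]

lemma four_mono {α β γ δ : Type*} (c1 : α → ℝ≥0∞) (p1 : β → ℝ≥0∞) (c2 : γ → ℝ≥0∞)
    (p2 : δ → ℝ≥0∞) (H H' : α → β → γ → δ → ℝ≥0∞)
    (hH : ∀ A P A' P', c1 A ≠ 0 → c2 A' ≠ 0 → H A P A' P' ≤ H' A P A' P') :
    ∑' A, c1 A * ∑' P, p1 P * ∑' A', c2 A' * ∑' P', p2 P' * H A P A' P'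
      ≤ ∑' A, c1 A * ∑' P, p1 P * ∑' A', c2 A' * ∑' P', p2 P' * H' A P A' P' := by
  refine ENNReal.tsum_le_tsum fun A => ?_
  by_cases hA : c1 A = 0
  · rw [hA, zero_mul, zero_mul]
  refine mul_le_mul_right (ENNReal.tsum_le_tsum fun P => mul_le_mul_right
    (ENNReal.tsum_le_tsum fun A' => ?_) _) _
  by_cases hA' : c2 A' = 0
  · rw [hA', zero_mul, zero_mul]
  exact mul_le_mul_right (ENNReal.tsum_le_tsum fun P' => mul_le_mul_right (hH A P A' P' hA hA') _) _

variable {BX BY G : Type*} [AddCommGroup G] (ΛX : BX → ℝ≥0∞) (hX : BX → ℕ) (zX : BX → G)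
  (sX : BX → Set (G × ℕ)) (ΛY : BY → ℝ≥0∞) (hY : BY → ℕ) (zY : BY → G) (sY : BY → Set (G × ℕ))

/-- common depths -/
def CT (L : List BX) (x : G) (a : ℕ) (L' : List BY) (x' : G) (a' : ℕ) : Set ℕ :=
  {k | ∃ y, (y, k) ∈ TT hX zX sX L x a ∧ (y, k) ∈ TT hY zY sY L' x' a'}

lemma CT_shift (L : List BX) (x : G) (a : ℕ) (L' : List BY) (x' : G) (a' : ℕ) (v : G) :
    CT hX zX sX hY zY sY L (x + v) a L' (x' + v) a' = CT hX zX sX hY zY sY L x a L' x' a' := by
  ext k
  constructor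
  · rintro ⟨y, h1, h2⟩
    exact ⟨y - v, (TT_shift hX zX sX L x v a y k).1 h1, (TT_shift hY zY sY L' x' v a' y k).1 h2⟩
  · rintro ⟨y, h1, h2⟩
    refine ⟨y + v, (TT_shift hX zX sX L x v a _ k).2 ?_, (TT_shift hY zY sY L' x' v a' _ k).2 ?_⟩
    · rw [add_sub_cancel_right]; exact h1
    · rw [add_sub_cancel_right]; exact h2

/-- nonempty and within `[lo, hi]` -/
def Gd (lo hi : ℕ) (C : Set ℕ) : Prop := C.Nonempty ∧ ∀ k ∈ C, lo ≤ k ∧ k ≤ hi

/-- the event of one window for the full lists -/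
def Ev (w : G) (a T i0 lo hi : ℕ) (LX : List BX) (LY : List BY) : Prop :=
  (∃ k ∈ CT hX zX sX hY zY sY LX 0 0 LY w 0, a < k ∧ k ≤ a + T) ∧
    ∀ k ∈ CT hX zX sX hY zY sY LX 0 0 LY w 0, ¬ (a < k ∧ k < lo) ∧
      ¬ (hi < k ∧ k ≤ a + T + 2 * i0)

lemma pieces (hsX : ∀ b q, q ∈ sX b → 1 ≤ q.2 ∧ q.2 ≤ hX b)
    (hsY : ∀ b q, q ∈ sY b → 1 ≤ q.2 ∧ q.2 ≤ hY b) (w : G) (a T i0 lo hi : ℕ)
    (hlo : a + i0 < lo) (A P R : List BX) (A' P' R' : List BY)
    (hA : fp hX a A) (hAi : HT hX A ≤ a + i0) (hP : fp hX T P) (hPi : HT hX P ≤ T + i0)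
    (hA' : fp hY a A') (hAi' : HT hY A' ≤ a + i0) (hP' : fp hY T P') (hPi' : HT hY P' ≤ T + i0)
    (hE : Ev hX zX sX hY zY sY w a T i0 lo hi (A ++ P ++ R) (A' ++ P' ++ R')) :
    Gd lo hi (CT hX zX sX hY zY sY P (Dp zX A) (HT hX A) P' (w + Dp zY A') (HT hY A')) := by
  obtain ⟨⟨k0, ⟨y0, hx0, hy0⟩, hk1, hk2⟩, hall⟩ := hE
  have eX : ∀ p, p ∈ TT hX zX sX (A ++ P ++ R) 0 0 ↔ p ∈ TT hX zX sX A 0 0 ∨
      p ∈ TT hX zX sX P (Dp zX A) (HT hX A) ∨
      p ∈ TT hX zX sX R (Dp zX (A ++ P)) (HT hX A + HT hX P) := by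
    intro p
    rw [TT_append, TT_append, zero_add, zero_add, zero_add, zero_add, HT_append, Set.mem_union,
      Set.mem_union, or_assoc]
  have eY : ∀ p, p ∈ TT hY zY sY (A' ++ P' ++ R') w 0 ↔ p ∈ TT hY zY sY A' w 0 ∨
      p ∈ TT hY zY sY P' (w + Dp zY A') (HT hY A') ∨
      p ∈ TT hY zY sY R' (w + Dp zY (A' ++ P')) (HT hY A' + HT hY P') := by
    intro p
    rw [TT_append, TT_append, zero_add, zero_add, HT_append, Set.mem_union,
      Set.mem_union, or_assoc]
  have a1 := le_HT_of_fp hX hA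
  have a2 := le_HT_of_fp hX hP
  have a3 := le_HT_of_fp hY hA'
  have a4 := le_HT_of_fp hY hP'
  refine ⟨⟨k0, y0, ?_, ?_⟩, ?_⟩
  · have hb := (hall k0 ⟨y0, hx0, hy0⟩).1
    rcases (eX _).1 hx0 with h | h | h
    · have := TT_depth hX zX sX hsX _ _ _ _ h; simp only at this; omega
    · exact h
    · have := TT_depth hX zX sX hsX _ _ _ _ h; simp only at this; omega
  · have hb := (hall k0 ⟨y0, hx0, hy0⟩).1
    rcases (eY _).1 hy0 with h | h | h
    · have := TT_depth hY zY sY hsY _ _ _ _ h; simp only at this; omega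
    · exact h
    · have := TT_depth hY zY sY hsY _ _ _ _ h; simp only at this; omega
  · rintro k ⟨y, hx, hy⟩
    have hk := hall k ⟨y, (eX _).2 (Or.inr (Or.inl hx)), (eY _).2 (Or.inr (Or.inl hy))⟩
    have := TT_depth hX zX sX hsX _ _ _ _ hx
    simp only at this
    omega

lemma CT_conv (w : G) (a : ℕ) (A P : List BX) (A' P' : List BY) (c1 : a ≤ HT hX A)
    (c2 : a ≤ HT hY A') :
    CT hX zX sX hY zY sY P (Dp zX A) (HT hX A) P' (w + Dp zY A') (HT hY A')
      = CT hX zX sX hY zY sY P 0 (a + (HT hX A - a)) P' (w + Dp zY A' - Dp zX A)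
        (a + (HT hY A' - a)) := by
  rw [show a + (HT hX A - a) = HT hX A by omega, show a + (HT hY A' - a) = HT hY A' by omega,
    ← CT_shift hX zX sX hY zY sY P 0 (HT hX A) P' (w + Dp zY A' - Dp zX A) (HT hY A') (Dp zX A),
    zero_add, sub_add_cancel]

set_option maxHeartbeats 2000000 in
open Classical in
theorem window (h1X : ∀ b, 1 ≤ hX b) (h1Y : ∀ b, 1 ≤ hY b) (hΛX : ∑' b, ΛX b ≤ 1)
    (hΛY : ∑' b, ΛY b ≤ 1) (hsX : ∀ b q, q ∈ sX b → 1 ≤ q.2 ∧ q.2 ≤ hX b)
    (hsY : ∀ b q, q ∈ sY b → 1 ≤ q.2 ∧ q.2 ≤ hY b) (w : G) (a T i0 lo hi n : ℕ)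
    (hlo : a + i0 < lo) (hn : a + i0 + T ≤ n) (ε u : ℝ≥0∞)
    (hoXa : ∑' L, (if fp hX a L ∧ a + i0 < HT hX L then LW ΛX L else 0) ≤ ε)
    (hoXT : ∑' L, (if fp hX T L ∧ T + i0 < HT hX L then LW ΛX L else 0) ≤ ε)
    (hoYa : ∑' L, (if fp hY a L ∧ a + i0 < HT hY L then LW ΛY L else 0) ≤ ε)
    (hoYT : ∑' L, (if fp hY T L ∧ T + i0 < HT hY L then LW ΛY L else 0) ≤ ε)
    (locX : List BX → Prop) (locY : List BY → Prop)
    (hnX : ∑' P, (if fp hX T P ∧ ¬ locX P then LW ΛX P else 0) ≤ u)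
    (hnY : ∑' P, (if fp hY T P ∧ ¬ locY P then LW ΛY P else 0) ≤ u)
    (EX EY : ℕ → Finset G)
    (hEX : ∀ P, locX P → Dp zX P ∈ EX (HT hX P - T)) (hEY : ∀ P, locY P → Dp zY P ∈ EY (HT hY P - T))
    (MX MY η ρ : ℝ≥0∞) (SX RX SY RY : ℕ × G → ℝ≥0∞)
    (hSRX : ∀ x, gl ΛX hX zX a x ≤ SX x + RX x) (hSX : ∀ x, SX x ≤ gl ΛX hX zX a x)
    (hMX : ∀ x, SX x ≤ MX) (hRX : ∑' x, RX x ≤ ρ)
    (hSRY : ∀ x, gl ΛY hY zY a x ≤ SY x + RY x) (hSY : ∀ x, SY x ≤ gl ΛY hY zY a x)
    (hMY : ∀ x, SY x ≤ MY) (hRY : ∑' x, RY x ≤ ρ)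
    (hWX : ∀ i i' j j', i ≤ i0 → i' ≤ i0 → j ≤ i0 → j' ≤ i0 → ∀ μ : G → ℝ≥0∞, ∑' v, μ v ≤ 1 →
      (∀ v, μ v ≤ MX) → ∑' v, μ v * (∑' P, ∑' P', (if HT hX P = T + j ∧ Dp zX P ∈ EX j ∧
        HT hY P' = T + j' ∧ Gd lo hi (CT hX zX sX hY zY sY P 0 (a + i) P' v (a + i'))
        then LW ΛX P * LW ΛY P' else 0)) ≤ η)
    (hWY : ∀ i i' j j', i ≤ i0 → i' ≤ i0 → j ≤ i0 → j' ≤ i0 → ∀ μ : G → ℝ≥0∞, ∑' v, μ v ≤ 1 →
      (∀ v, μ v ≤ MY) → ∑' v, μ v * (∑' P', ∑' P, (if HT hY P' = T + j ∧ Dp zY P' ∈ EY j ∧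
        HT hX P = T + j' ∧ Gd lo hi (CT hX zX sX hY zY sY P 0 (a + i') P' (-v) (a + i))
        then LW ΛY P' * LW ΛX P else 0)) ≤ η) :
    ∑' LX, ∑' LY, (if HT hX LX = n ∧ HT hY LY = n ∧ Ev hX zX sX hY zY sY w a T i0 lo hi LX LY
        then LW ΛX LX * LW ΛY LY else 0)
      ≤ u * u + (ρ + ((i0 + 1 : ℕ) : ℝ≥0∞) ^ 4 * η) + (ρ + ((i0 + 1 : ℕ) : ℝ≥0∞) ^ 4 * η)
        + 4 * ε := by
  set cX : List BX → ℝ≥0∞ := fun A => if fp hX a A ∧ HT hX A ≤ a + i0 then LW ΛX A else 0 with hcX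
  set cY : List BY → ℝ≥0∞ := fun A => if fp hY a A ∧ HT hY A ≤ a + i0 then LW ΛY A else 0 with hcY
  set pX : List BX → ℝ≥0∞ := fun A => if fp hX T A ∧ HT hX A ≤ T + i0 then LW ΛX A else 0 with hpX
  set pY : List BY → ℝ≥0∞ := fun A => if fp hY T A ∧ HT hY A ≤ T + i0 then LW ΛY A else 0 with hpY
  set pXl : List BX → ℝ≥0∞ := fun A =>
    if fp hX T A ∧ HT hX A ≤ T + i0 ∧ locX A then LW ΛX A else 0 with hpXl
  set pYl : List BY → ℝ≥0∞ := fun A =>
    if fp hY T A ∧ HT hY A ≤ T + i0 ∧ locY A then LW ΛY A else 0 with hpYl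
  set pXn : List BX → ℝ≥0∞ := fun A => if fp hX T A ∧ ¬ locX A then LW ΛX A else 0 with hpXn
  set pYn : List BY → ℝ≥0∞ := fun A => if fp hY T A ∧ ¬ locY A then LW ΛY A else 0 with hpYn
  set H : List BX → List BX → List BY → List BY → ℝ≥0∞ := fun A P A' P' =>
    if Gd lo hi (CT hX zX sX hY zY sY P (Dp zX A) (HT hX A) P' (w + Dp zY A') (HT hY A'))
      then 1 else 0 with hH
  have hH1 : ∀ A P A' P', H A P A' P' ≤ 1 := by
    intro A P A' P'; simp only [hH]; split_ifs <;> simp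
  have scX : ∑' A, cX A ≤ 1 := by
    refine le_trans (ENNReal.tsum_le_tsum fun A => ?_) (sum_FP ΛX hX h1X hΛX a)
    simp only [hcX]
    by_cases hA : fp hX a A
    · rw [if_pos hA]; split_ifs
      · exact le_rfl
      · exact zero_le
    · rw [if_neg (fun h' => hA h'.1)]; exact zero_le
  have scY : ∑' A, cY A ≤ 1 := by
    refine le_trans (ENNReal.tsum_le_tsum fun A => ?_) (sum_FP ΛY hY h1Y hΛY a)
    simp only [hcY]
    by_cases hA : fp hY a A
    · rw [if_pos hA]; split_ifs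
      · exact le_rfl
      · exact zero_le
    · rw [if_neg (fun h' => hA h'.1)]; exact zero_le
  have spX : ∑' A, pX A ≤ 1 := by
    refine le_trans (ENNReal.tsum_le_tsum fun A => ?_) (sum_FP ΛX hX h1X hΛX T)
    simp only [hpX]
    by_cases hA : fp hX T A
    · rw [if_pos hA]; split_ifs
      · exact le_rfl
      · exact zero_le
    · rw [if_neg (fun h' => hA h'.1)]; exact zero_le
  -- step 1
  have st1 : ∑' LX, ∑' LY, (if HT hX LX = n ∧ HT hY LY = n ∧
        Ev hX zX sX hY zY sY w a T i0 lo hi LX LY then LW ΛX LX * LW ΛY LY else 0)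
      = ∑' LX, (if HT hX LX = n then LW ΛX LX * (fun LX => ∑' LY, (if HT hY LY = n then LW ΛY LY *
        (if Ev hX zX sX hY zY sY w a T i0 lo hi LX LY then (1 : ℝ≥0∞) else 0) else 0)) LX
        else 0) := by
    refine tsum_congr fun LX => ?_
    by_cases hx : HT hX LX = n
    · rw [if_pos hx, ← ENNReal.tsum_mul_left]
      refine tsum_congr fun LY => ?_
      by_cases hy : HT hY LY = n
      · by_cases he : Ev hX zX sX hY zY sY w a T i0 lo hi LX LY
        · simp [hx, hy, he]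
        · simp [he]
      · simp [hy]
    · simp [hx]
  rw [st1]
  have hconv : ∀ (c : Prop) [Decidable c] (x y : ℝ≥0∞),
      (if c then x * y else 0) = (if c then x else 0) * y := by
    intro c _ x y; split_ifs <;> simp
  have st2 := two_step ΛX hX h1X hΛX a T i0 n hn ε hoXa hoXT
    (fun LX => ∑' LY, (if HT hY LY = n then LW ΛY LY *
        (if Ev hX zX sX hY zY sY w a T i0 lo hi LX LY then (1 : ℝ≥0∞) else 0) else 0))
    (by
      intro LX
      refine le_trans (ENNReal.tsum_le_tsum fun LY => ?_) (U_le_one ΛY hY h1Y hΛY n)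
      by_cases hy : HT hY LY = n
      · rw [if_pos hy, if_pos hy]
        split_ifs <;> simp
      · rw [if_neg hy]; exact zero_le)
    (fun A P => (∑' A', cY A' * ∑' P', pY P' * H A P A' P') + 2 * ε)
    (by
      intro A P R hA hAi hP hPi _
      have := two_step ΛY hY h1Y hΛY a T i0 n hn ε hoYa hoYT
        (fun LY => if Ev hX zX sX hY zY sY w a T i0 lo hi (A ++ P ++ R) LY then (1 : ℝ≥0∞) else 0)
        (by intro LY; split_ifs <;> simp)
        (fun A' P' => H A P A' P')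
        (by
          intro A' P' R' hA' hAi' hP' hPi' _
          by_cases he : Ev hX zX sX hY zY sY w a T i0 lo hi (A ++ P ++ R) (A' ++ P' ++ R')
          · rw [if_pos he]
            simp only [hH]
            rw [if_pos (pieces hX zX sX hY zY sY hsX hsY w a T i0 lo hi hlo A P R A' P' R' hA hAi
              hP hPi hA' hAi' hP' hPi' he)]
          · rw [if_neg he]; exact zero_le)
      refine this.trans (le_of_eq ?_)
      simp only [hconv, hcY, hpY])
  refine st2.trans ?_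
  -- step 3: remove the constant
  have st3 : ∑' A, (if fp hX a A ∧ HT hX A ≤ a + i0 then LW ΛX A *
          ∑' P, (if fp hX T P ∧ HT hX P ≤ T + i0 then LW ΛX P *
            ((∑' A', cY A' * ∑' P', pY P' * H A P A' P') + 2 * ε) else 0) else 0)
      ≤ ∑' A, cX A * ∑' P, pX P * (∑' A', cY A' * ∑' P', pY P' * H A P A' P') + 2 * ε := by
    have : ∀ A, (if fp hX a A ∧ HT hX A ≤ a + i0 then LW ΛX A *
          ∑' P, (if fp hX T P ∧ HT hX P ≤ T + i0 then LW ΛX P *
            ((∑' A', cY A' * ∑' P', pY P' * H A P A' P') + 2 * ε) else 0) else 0)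
        ≤ cX A * ∑' P, pX P * (∑' A', cY A' * ∑' P', pY P' * H A P A' P') + cX A * (2 * ε) := by
      intro A
      rw [hconv, ← mul_add]
      refine mul_le_mul_right ?_ _
      simp only [hconv]
      calc ∑' P, (if fp hX T P ∧ HT hX P ≤ T + i0 then LW ΛX P else 0) *
            ((∑' A', cY A' * ∑' P', pY P' * H A P A' P') + 2 * ε)
          = ∑' P, (pX P * (∑' A', cY A' * ∑' P', pY P' * H A P A' P') + pX P * (2 * ε)) :=
            tsum_congr fun P => by rw [mul_add]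
        _ = ∑' P, pX P * (∑' A', cY A' * ∑' P', pY P' * H A P A' P') + (∑' P, pX P) * (2 * ε) := by
            rw [ENNReal.tsum_add, ENNReal.tsum_mul_right]
        _ ≤ _ := add_le_add le_rfl (by
            calc (∑' P, pX P) * (2 * ε) ≤ 1 * (2 * ε) := mul_le_mul_left spX _
              _ = _ := one_mul _)
    refine (ENNReal.tsum_le_tsum this).trans ?_
    rw [ENNReal.tsum_add, ENNReal.tsum_mul_right]
    refine add_le_add le_rfl ?_
    calc (∑' A, cX A) * (2 * ε) ≤ 1 * (2 * ε) := mul_le_mul_left scX _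
      _ = _ := one_mul _
  refine (add_le_add st3 le_rfl).trans ?_
  rw [show (4 : ℝ≥0∞) * ε = 2 * ε + 2 * ε by ring, ← add_assoc]
  refine add_le_add (add_le_add ?_ le_rfl) le_rfl
  -- step 4: the three cases
  have st4 : ∀ A, ∑' P, pX P * (∑' A', cY A' * ∑' P', pY P' * H A P A' P')
      ≤ ∑' P, pXl P * (∑' A', cY A' * ∑' P', pY P' * H A P A' P') + u * u
        + ∑' P, pX P * (∑' A', cY A' * ∑' P', pYl P' * H A P A' P') := by
    intro A
    have hI : ∀ P, ∑' A', cY A' * ∑' P', pY P' * H A P A' P'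
        ≤ u + ∑' A', cY A' * ∑' P', pYl P' * H A P A' P' := by
      intro P
      calc ∑' A', cY A' * ∑' P', pY P' * H A P A' P'
          ≤ ∑' A', (cY A' * u + cY A' * ∑' P', pYl P' * H A P A' P') := by
            refine ENNReal.tsum_le_tsum fun A' => ?_
            rw [← mul_add]
            refine mul_le_mul_right ?_ _
            refine le_trans ?_ (add_le_add hnY le_rfl)
            rw [← ENNReal.tsum_add]
            refine ENNReal.tsum_le_tsum fun P' => ?_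
            simp only [hpY, hpYl]
            by_cases hP : fp hY T P' ∧ HT hY P' ≤ T + i0
            · rw [if_pos hP]
              by_cases hl : locY P'
              · rw [if_neg (fun h' => h'.2 hl), zero_add, if_pos ⟨hP.1, hP.2, hl⟩]
              · rw [if_pos ⟨hP.1, hl⟩]
                refine le_add_right ?_
                calc LW ΛY P' * H A P A' P' ≤ LW ΛY P' * 1 := mul_le_mul_right (hH1 _ _ _ _) _
                  _ = _ := mul_one _
            · rw [if_neg hP, zero_mul]; exact zero_le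
        _ = (∑' A', cY A') * u + ∑' A', cY A' * ∑' P', pYl P' * H A P A' P' := by
            rw [ENNReal.tsum_add, ENNReal.tsum_mul_right]
        _ ≤ 1 * u + _ := add_le_add (mul_le_mul_left scY _) le_rfl
        _ = _ := by rw [one_mul]
    calc ∑' P, pX P * (∑' A', cY A' * ∑' P', pY P' * H A P A' P')
        ≤ ∑' P, (pXl P * (∑' A', cY A' * ∑' P', pY P' * H A P A' P') + pXn P * u
          + pX P * (∑' A', cY A' * ∑' P', pYl P' * H A P A' P')) := by
          refine ENNReal.tsum_le_tsum fun P => ?_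
          simp only [hpX, hpXl, hpXn]
          by_cases hP : fp hX T P ∧ HT hX P ≤ T + i0
          · rw [if_pos hP]
            by_cases hl : locX P
            · rw [if_pos (⟨hP.1, hP.2, hl⟩ : fp hX T P ∧ HT hX P ≤ T + i0 ∧ locX P), add_assoc]
              exact le_add_right le_rfl
            · rw [if_neg (fun h' : fp hX T P ∧ HT hX P ≤ T + i0 ∧ locX P => hl h'.2.2),
                if_pos (⟨hP.1, hl⟩ : fp hX T P ∧ ¬ locX P), zero_mul, zero_add, ← mul_add]
              exact mul_le_mul_right (hI P) _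
          · rw [if_neg hP, zero_mul]; exact zero_le
      _ = ∑' P, pXl P * (∑' A', cY A' * ∑' P', pY P' * H A P A' P') + (∑' P, pXn P) * u
          + ∑' P, pX P * (∑' A', cY A' * ∑' P', pYl P' * H A P A' P') := by
          rw [ENNReal.tsum_add, ENNReal.tsum_add, ENNReal.tsum_mul_right]
      _ ≤ _ := add_le_add (add_le_add le_rfl (mul_le_mul_left hnX _)) le_rfl
  have st5 : ∑' A, cX A * ∑' P, pX P * (∑' A', cY A' * ∑' P', pY P' * H A P A' P')
      ≤ u * u + ∑' A, cX A * ∑' P, pXl P * (∑' A', cY A' * ∑' P', pY P' * H A P A' P')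
        + ∑' A, cX A * ∑' P, pX P * (∑' A', cY A' * ∑' P', pYl P' * H A P A' P') := by
    calc _ ≤ ∑' A, (cX A * ∑' P, pXl P * (∑' A', cY A' * ∑' P', pY P' * H A P A' P')
          + cX A * (u * u)
          + cX A * ∑' P, pX P * (∑' A', cY A' * ∑' P', pYl P' * H A P A' P')) := by
          refine ENNReal.tsum_le_tsum fun A => ?_
          rw [← mul_add, ← mul_add]
          exact mul_le_mul_right (st4 A) _
      _ = ∑' A, cX A * ∑' P, pXl P * (∑' A', cY A' * ∑' P', pY P' * H A P A' P')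
          + (∑' A, cX A) * (u * u)
          + ∑' A, cX A * ∑' P, pX P * (∑' A', cY A' * ∑' P', pYl P' * H A P A' P') := by
          rw [ENNReal.tsum_add, ENNReal.tsum_add, ENNReal.tsum_mul_right]
      _ ≤ ∑' A, cX A * ∑' P, pXl P * (∑' A', cY A' * ∑' P', pY P' * H A P A' P')
          + 1 * (u * u)
          + ∑' A, cX A * ∑' P, pX P * (∑' A', cY A' * ∑' P', pYl P' * H A P A' P') :=
          add_le_add (add_le_add le_rfl (mul_le_mul_left scX _)) le_rfl
      _ = _ := by rw [one_mul]; ring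
  refine st5.trans (add_le_add (add_le_add le_rfl ?_) ?_)
  · -- X local
    refine le_trans (four_mono cX pXl cY pY H (fun A P A' P' =>
      if (fun (P : List BX) (P' : List BY) (i i' : ℕ) (v : G) =>
        Gd lo hi (CT hX zX sX hY zY sY P 0 (a + i) P' v (a + i'))) P P' (HT hX A - a)
        (HT hY A' - a) (w + Dp zY A' - Dp zX A) then (1 : ℝ≥0∞) else 0) ?_) ?_
    · intro A P A' P' hA hA'
      have b1 : fp hX a A := by
        by_contra hc; exact hA (by simp only [hcX]; rw [if_neg (fun h' => hc h'.1)])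
      have b2 : fp hY a A' := by
        by_contra hc; exact hA' (by simp only [hcY]; rw [if_neg (fun h' => hc h'.1)])
      have e := CT_conv hX zX sX hY zY sY w a A P A' P' (le_HT_of_fp hX b1) (le_HT_of_fp hY b2)
      simp only [hH]
      by_cases hg : Gd lo hi
          (CT hX zX sX hY zY sY P (Dp zX A) (HT hX A) P' (w + Dp zY A') (HT hY A'))
      · rw [if_pos hg, if_pos (by rw [← e]; exact hg)]
      · rw [if_neg hg]; exact zero_le
    · exact half ΛX hX zX ΛY hY zY h1X h1Y hΛX hΛY a T i0 w _ locX EX hEX MX η ρ SX RX hSRX hSX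
        hMX hRX hWX
  · -- Y local
    rw [reorder]
    refine le_trans (four_mono cY pYl cX pX (fun A' P' A P => H A P A' P') (fun A' P' A P =>
      if (fun (P' : List BY) (P : List BX) (i i' : ℕ) (v : G) =>
        Gd lo hi (CT hX zX sX hY zY sY P 0 (a + i') P' (-v) (a + i))) P' P (HT hY A' - a)
        (HT hX A - a) (-w + Dp zX A - Dp zY A') then (1 : ℝ≥0∞) else 0) ?_) ?_
    · intro A' P' A P hA' hA
      have b1 : fp hX a A := by
        by_contra hc; exact hA (by simp only [hcX]; rw [if_neg (fun h' => hc h'.1)])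
      have b2 : fp hY a A' := by
        by_contra hc; exact hA' (by simp only [hcY]; rw [if_neg (fun h' => hc h'.1)])
      have e := CT_conv hX zX sX hY zY sY w a A P A' P' (le_HT_of_fp hX b1) (le_HT_of_fp hY b2)
      rw [show w + Dp zY A' - Dp zX A = -(-w + Dp zX A - Dp zY A') by abel] at e
      simp only [hH]
      by_cases hg : Gd lo hi
          (CT hX zX sX hY zY sY P (Dp zX A) (HT hX A) P' (w + Dp zY A') (HT hY A'))
      · rw [if_pos hg, if_pos (by rw [← e]; exact hg)]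
      · rw [if_neg hg]; exact zero_le
    · exact half ΛY hY zY ΛX hX zX h1Y h1X hΛY hΛX a T i0 (-w) _ locY EY hEY MY η ρ SY RY hSRY hSY
        hMY hRY hWY

end Crest.Agent.R154.AsmS351
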