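import Crest.Agent.R154.Del_396
import Crest.Agent.R154.Bind801_12

/-! Row 154, ROAD 801 (helper396): ONE WINDOW of the abstract assembly, in the letters of 540 / 12
(`TT`), failure of smoothness paid once. -/

set_option autoImplicit false
set_option linter.unusedVariables false

namespace Crest.Agent.R154.Asm396

open Crest.Agent.R154.B5A Crest.Agent.R154.Ren396
open Crest.Agent.R154.Bind12 (TT)
open scoped ENNReal

section group

variable {B : Type*} (Λ : B → ℝ≥0∞) (ht : B → ℕ) {G : Type*} [AddCommGroup G] (z : B → G)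

open Classical in
/-- grouping of a sum over first-renewal lists by (height, displacement) -/
theorem group (A i0 : ℕ) (H : ℕ → G → ℝ≥0∞) :
    ∑' P : List B, (if FR ht P A ∧ HT ht P ≤ A + i0 then LW Λ P * H (HT ht P) (dp z P) else 0)
      = ∑ c ∈ Finset.Icc A (A + i0), ∑' x, W Λ ht z A c x * H c x := by
  symm
  calc _ = ∑ c ∈ Finset.Icc A (A + i0), ∑' P : List B, ∑' x,
        (if FR ht P A then (if HT ht P = c ∧ dp z P = x then LW Λ P else 0) else 0) * H c x := by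
        refine Finset.sum_congr rfl fun c _ => ?_
        rw [ENNReal.tsum_comm]
        refine tsum_congr fun x => ?_
        rw [W, ENNReal.tsum_mul_right]
    _ = ∑' P : List B, ∑ c ∈ Finset.Icc A (A + i0), ∑' x,
        (if FR ht P A then (if HT ht P = c ∧ dp z P = x then LW Λ P else 0) else 0) * H c x := by
        rw [Summable.tsum_finsetSum (fun _ _ => ENNReal.summable)]
    _ = _ := by
        refine tsum_congr fun P => ?_
        by_cases h : FR ht P A
        · have h2 := FR_le ht h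
          by_cases h3 : HT ht P ≤ A + i0
          · rw [if_pos ⟨h, h3⟩, Finset.sum_eq_single (HT ht P)]
            · rw [tsum_eq_single (dp z P)]
              · simp [h]
              · intro x hx
                rw [if_pos h, if_neg (fun hh => hx hh.2.symm), zero_mul]
            · intro c _ hc
              rw [ENNReal.tsum_eq_zero]
              intro x
              rw [if_pos h, if_neg (fun hh => hc hh.1.symm), zero_mul]
            · intro h4
              exact absurd (Finset.mem_Icc.2 ⟨h2, h3⟩) h4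
          · rw [if_neg (fun hh => h3 hh.2)]
            refine Finset.sum_eq_zero fun c hc => ?_
            rw [ENNReal.tsum_eq_zero]
            intro x
            have := Finset.mem_Icc.1 hc
            rw [if_pos h, if_neg (fun hh => h3 (by omega)), zero_mul]
        · simp [h]

end group

/-- mixture bound: density `M` off a part of total mass `q` -/
theorem mix_le {G : Type*} (μ Dg Db F : ℕ → ℕ → G → ℝ≥0∞) (S : Finset ℕ) (M q R : ℝ≥0∞)
    (hμ : ∀ c d x, μ c d x ≤ Dg c d x + Db c d x) (hDg : ∀ c d x, Dg c d x ≤ M)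
    (hDb : ∑' c, ∑' d, ∑' x, Db c d x ≤ q) (hF1 : ∀ c d x, F c d x ≤ 1)
    (hμ1 : ∀ c d, ∑' x, μ c d x ≤ 1)
    (hR : ∀ c ∈ S, ∀ d ∈ S, ∀ ν : G → ℝ≥0∞, ∑' x, ν x ≤ 1 → (∀ x, ν x ≤ M) →
      ∑' x, ν x * F c d x ≤ R) :
    ∑ c ∈ S, ∑ d ∈ S, ∑' x, μ c d x * F c d x ≤ (S.card : ℝ≥0∞) ^ 2 * R + q := by
  have h1 : ∀ c d x, μ c d x ≤ min (μ c d x) (Dg c d x) + Db c d x := by
    intro c d x
    rcases le_total (μ c d x) (Dg c d x) with h | h
    · rw [min_eq_left h]; exact le_self_add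
    · rw [min_eq_right h]; exact hμ c d x
  calc _ ≤ ∑ c ∈ S, ∑ d ∈ S, (R + ∑' x, Db c d x) := by
        refine Finset.sum_le_sum fun c hc => Finset.sum_le_sum fun d hd => ?_
        calc _ ≤ ∑' x, (min (μ c d x) (Dg c d x) * F c d x + Db c d x) := by
              refine ENNReal.tsum_le_tsum fun x => ?_
              calc _ ≤ (min (μ c d x) (Dg c d x) + Db c d x) * F c d x :=
                    mul_le_mul_left (h1 c d x) _
                _ = min (μ c d x) (Dg c d x) * F c d x + Db c d x * F c d x := add_mul _ _ _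
                _ ≤ _ := by
                    refine add_le_add le_rfl ?_
                    calc _ ≤ Db c d x * 1 := mul_le_mul_right (hF1 c d x) _
                      _ = _ := mul_one _
          _ = ∑' x, min (μ c d x) (Dg c d x) * F c d x + ∑' x, Db c d x := ENNReal.tsum_add
          _ ≤ _ := by
              refine add_le_add (hR c hc d hd _ ?_ ?_) le_rfl
              · exact (ENNReal.tsum_le_tsum fun x => min_le_left _ _).trans (hμ1 c d)
              · exact fun x => (min_le_right _ _).trans (hDg c d x)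
    _ = (S.card : ℝ≥0∞) ^ 2 * R + ∑ c ∈ S, ∑ d ∈ S, ∑' x, Db c d x := by
        simp only [Finset.sum_add_distrib, Finset.sum_const, nsmul_eq_mul]
        ring
    _ ≤ _ := by
        refine add_le_add le_rfl ?_
        refine le_trans ?_ hDb
        refine le_trans (Finset.sum_le_sum fun c _ => ENNReal.sum_le_tsum S) ?_
        exact ENNReal.sum_le_tsum S

section window

variable {BX BY : Type*} (ΛX : BX → ℝ≥0∞) (ΛY : BY → ℝ≥0∞) (hX : BX → ℕ) (hY : BY → ℕ)
  {G : Type*} [AddCommGroup G] (zX : BX → G) (zY : BY → G)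
  (sX : BX → Set (G × ℕ)) (sY : BY → Set (G × ℕ))

/-- clean contact of two placed lists: they meet, and all common sites have depth in `[lo, hi]` -/
def CC (L : List BX) (L' : List BY) (x : G) (a a' lo hi : ℕ) : Prop :=
  (∃ z k, (z, k) ∈ TT sX zX hX L 0 a ∧ (z, k) ∈ TT sY zY hY L' x a') ∧
  (∀ z k, (z, k) ∈ TT sX zX hX L 0 a → (z, k) ∈ TT sY zY hY L' x a' → lo ≤ k ∧ k ≤ hi)

open Classical in
/-- weight of the clean contact of the window pieces -/
noncomputable def FW (T i0 lo hi : ℕ) (Φ : List BX → List BY → Prop) (c d : ℕ) (x : G) : ℝ≥0∞ :=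
  ∑' P : List BX, ∑' Q : List BY, (if FR hX P T ∧ HT hX P ≤ T + i0 ∧ FR hY Q T ∧
    HT hY Q ≤ T + i0 ∧ Φ P Q ∧ CC hX hY zX zY sX sY P Q x c d lo hi then LW ΛX P * LW ΛY Q else 0)

lemma FW_le_one (hΛX : ∑' b, ΛX b ≤ 1) (h1X : ∀ b, 1 ≤ hX b) (hΛY : ∑' b, ΛY b ≤ 1)
    (h1Y : ∀ b, 1 ≤ hY b) (T i0 lo hi : ℕ) (Φ : List BX → List BY → Prop) (c d : ℕ) (x : G) :
    FW ΛX ΛY hX hY zX zY sX sY T i0 lo hi Φ c d x ≤ 1 := by
  classical
  calc _ ≤ ∑' P : List BX, ∑' Q : List BY,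
        (if FR hX P T then LW ΛX P else 0) * (if FR hY Q T then LW ΛY Q else 0) := by
        refine ENNReal.tsum_le_tsum fun P => ENNReal.tsum_le_tsum fun Q => ?_
        split_ifs with h h1 h2 h2
        · exact le_rfl
        · exact absurd h.2.2.1 h2
        · exact absurd h.1 h1
        · exact absurd h.1 h1
        all_goals exact zero_le
    _ = (∑' P : List BX, (if FR hX P T then LW ΛX P else 0)) *
        ∑' Q : List BY, (if FR hY Q T then LW ΛY Q else 0) := by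
        rw [← ENNReal.tsum_mul_right]
        exact tsum_congr fun P => ENNReal.tsum_mul_left
    _ ≤ 1 * 1 := mul_le_mul' (mass_FR ΛX hX hΛX h1X T) (mass_FR ΛY hY hΛY h1Y T)
    _ = 1 := one_mul _

open Classical in
/-- H2 (X local) at shift `i1` -/
def H2At (i1 : ℕ) (C : ℝ≥0∞) (us : ℕ → ℝ≥0∞) : Prop :=
  ∀ (s h h' a a' lo hi : ℕ) (E : Finset G) (μ : G → ℝ≥0∞) (M lam : ℝ≥0∞),
    ∑' x, μ x ≤ 1 → (∀ x, μ x ≤ M) → lam ≠ 0 → lam ≠ ⊤ → a + s ≤ lo → a' + s ≤ lo →
    hi + s ≤ a + h → hi + s ≤ a' + h' → a ≤ a' + i1 → a' ≤ a + i1 → a + h ≤ a' + h' + i1 →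
    a' + h' ≤ a + h + i1 →
    ∑' x, μ x * ∑' L : List BX, ∑' L' : List BY, (if HT hX L = h ∧ dp zX L ∈ E ∧ HT hY L' = h' ∧
      CC hX hY zX zY sX sY L L' x a a' lo hi then LW ΛX L * LW ΛY L' else 0)
      ≤ C * (lam + M * E.card * us s / lam + us s)

open Classical in
/-- H3 (Y local) at shift `i1` -/
def H3At (i1 : ℕ) (C : ℝ≥0∞) (us : ℕ → ℝ≥0∞) : Prop :=
  ∀ (s h h' a a' lo hi : ℕ) (E : Finset G) (μ : G → ℝ≥0∞) (M lam : ℝ≥0∞),
    ∑' x, μ x ≤ 1 → (∀ x, μ x ≤ M) → lam ≠ 0 → lam ≠ ⊤ → a + s ≤ lo → a' + s ≤ lo →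
    hi + s ≤ a + h → hi + s ≤ a' + h' → a ≤ a' + i1 → a' ≤ a + i1 → a + h ≤ a' + h' + i1 →
    a' + h' ≤ a + h + i1 →
    ∑' x, μ x * ∑' L : List BX, ∑' L' : List BY, (if HT hX L = h ∧ HT hY L' = h' ∧ dp zY L' ∈ E ∧
      CC hX hY zX zY sX sY L L' x a a' lo hi then LW ΛX L * LW ΛY L' else 0)
      ≤ C * (lam + M * E.card * us s / lam + us s)

lemma card_bound (C lam M us κ θ : ℝ≥0∞) (h : κ ≤ 1 / θ) :
    C * (lam + M * κ * us / lam + us) ≤ C * (lam + M * (1 / θ) * us / lam + us) := by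
  refine mul_le_mul_right (add_le_add (add_le_add le_rfl ?_) le_rfl) _
  exact ENNReal.div_le_div_right (mul_le_mul_left (mul_le_mul_right h _) _) _

open Classical in
theorem win_X (hΛX : ∑' b, ΛX b ≤ 1) (h1X : ∀ b, 1 ≤ hX b) {i0 : ℕ} {C : ℝ≥0∞}
    {us : ℕ → ℝ≥0∞} (H : H2At ΛX ΛY hX hY zX zY sX sY (2 * i0) C us)
    (T s A lo hi : ℕ) (θ M lam : ℝ≥0∞) (hθ : θ ≠ 0) (hlam : lam ≠ 0) (hlam' : lam ≠ ⊤)
    (hlo : A + i0 + s ≤ lo) (hhi : hi + s ≤ A + T)
    (c d : ℕ) (hc : c ∈ Finset.Icc A (A + i0)) (hd : d ∈ Finset.Icc A (A + i0))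
    (ν : G → ℝ≥0∞) (hν : ∑' x, ν x ≤ 1) (hνM : ∀ x, ν x ≤ M) :
    ∑' x, ν x * FW ΛX ΛY hX hY zX zY sX sY T i0 lo hi
      (fun P _ => θ ≤ W ΛX hX zX T (HT hX P) (dp zX P)) c d x
      ≤ ((i0 : ℝ≥0∞) + 1) ^ 2 * (C * (lam + M * (1 / θ) * us s / lam + us s)) := by
  have hE : ∀ h : ℕ, ∃ E : Finset G, (∀ a, a ∈ E ↔ θ ≤ W ΛX hX zX T h a) ∧
      (E.card : ℝ≥0∞) ≤ 1 / θ := fun h =>
    level_set (W ΛX hX zX T h) (tsum_W_le ΛX hX zX hΛX h1X T h) θ hθ
  choose E hE1 hE2 using hE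
  rw [Finset.mem_Icc] at hc hd
  calc _ ≤ ∑' x, ∑ h ∈ Finset.Icc T (T + i0), ∑ h' ∈ Finset.Icc T (T + i0), ν x *
        ∑' L : List BX, ∑' L' : List BY, (if HT hX L = h ∧ dp zX L ∈ E h ∧ HT hY L' = h' ∧
        CC hX hY zX zY sX sY L L' x c d lo hi then LW ΛX L * LW ΛY L' else 0) := by
        refine ENNReal.tsum_le_tsum fun x => ?_
        simp only [← Finset.mul_sum]
        refine mul_le_mul_right ?_ _
        rw [FW]
        calc _ ≤ ∑' L : List BX, ∑' L' : List BY, ∑ h ∈ Finset.Icc T (T + i0),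
              ∑ h' ∈ Finset.Icc T (T + i0), (if HT hX L = h ∧ dp zX L ∈ E h ∧ HT hY L' = h' ∧
              CC hX hY zX zY sX sY L L' x c d lo hi then LW ΛX L * LW ΛY L' else 0) := by
              refine ENNReal.tsum_le_tsum fun L => ENNReal.tsum_le_tsum fun L' => ?_
              by_cases hh : FR hX L T ∧ HT hX L ≤ T + i0 ∧ FR hY L' T ∧ HT hY L' ≤ T + i0 ∧
                  θ ≤ W ΛX hX zX T (HT hX L) (dp zX L) ∧ CC hX hY zX zY sX sY L L' x c d lo hi
              · rw [if_pos hh]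
                obtain ⟨g1, g2, g3, g4, g5, g6⟩ := hh
                refine le_trans ?_ (Finset.single_le_sum (f := fun h =>
                  ∑ h' ∈ Finset.Icc T (T + i0), (if HT hX L = h ∧ dp zX L ∈ E h ∧ HT hY L' = h' ∧
                  CC hX hY zX zY sX sY L L' x c d lo hi then LW ΛX L * LW ΛY L' else 0))
                  (fun _ _ => zero_le) (Finset.mem_Icc.2 ⟨FR_le hX g1, g2⟩))
                refine le_trans ?_ (Finset.single_le_sum (f := fun h' =>
                  (if HT hX L = HT hX L ∧ dp zX L ∈ E (HT hX L) ∧ HT hY L' = h' ∧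
                  CC hX hY zX zY sX sY L L' x c d lo hi then LW ΛX L * LW ΛY L' else 0))
                  (fun _ _ => zero_le) (Finset.mem_Icc.2 ⟨FR_le hY g3, g4⟩))
                rw [if_pos ⟨rfl, (hE1 _ _).2 g5, rfl, g6⟩]
              · rw [if_neg hh]; exact zero_le
          _ = _ := by
              have e1 : ∀ L : List BX, ∑' L' : List BY, ∑ h ∈ Finset.Icc T (T + i0),
                  ∑ h' ∈ Finset.Icc T (T + i0), (if HT hX L = h ∧ dp zX L ∈ E h ∧ HT hY L' = h' ∧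
                  CC hX hY zX zY sX sY L L' x c d lo hi then LW ΛX L * LW ΛY L' else 0)
                  = ∑ h ∈ Finset.Icc T (T + i0), ∑ h' ∈ Finset.Icc T (T + i0), ∑' L' : List BY,
                  (if HT hX L = h ∧ dp zX L ∈ E h ∧ HT hY L' = h' ∧
                  CC hX hY zX zY sX sY L L' x c d lo hi then LW ΛX L * LW ΛY L' else 0) := by
                intro L
                rw [Summable.tsum_finsetSum (fun _ _ => ENNReal.summable)]
                exact Finset.sum_congr rfl fun h _ =>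
                  Summable.tsum_finsetSum (fun _ _ => ENNReal.summable)
              simp_rw [e1]
              rw [Summable.tsum_finsetSum (fun _ _ => ENNReal.summable)]
              exact Finset.sum_congr rfl fun h _ =>
                Summable.tsum_finsetSum (fun _ _ => ENNReal.summable)
    _ = ∑ h ∈ Finset.Icc T (T + i0), ∑ h' ∈ Finset.Icc T (T + i0), ∑' x, ν x *
        ∑' L : List BX, ∑' L' : List BY, (if HT hX L = h ∧ dp zX L ∈ E h ∧ HT hY L' = h' ∧
        CC hX hY zX zY sX sY L L' x c d lo hi then LW ΛX L * LW ΛY L' else 0) := by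
        rw [Summable.tsum_finsetSum (fun _ _ => ENNReal.summable)]
        exact Finset.sum_congr rfl fun h _ =>
          Summable.tsum_finsetSum (fun _ _ => ENNReal.summable)
    _ ≤ ∑ h ∈ Finset.Icc T (T + i0), ∑ h' ∈ Finset.Icc T (T + i0),
        (C * (lam + M * (1 / θ) * us s / lam + us s)) := by
        refine Finset.sum_le_sum fun h hh => Finset.sum_le_sum fun h' hh' => ?_
        rw [Finset.mem_Icc] at hh hh'
        refine le_trans (H s h h' c d lo hi (E h) ν M lam hν hνM hlam hlam' (by omega) (by omega)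
          (by omega) (by omega) (by omega) (by omega) (by omega) (by omega)) ?_
        exact card_bound C lam M (us s) _ θ (hE2 h)
    _ = _ := by
        simp only [Finset.sum_const, nsmul_eq_mul, Nat.card_Icc]
        rw [show T + i0 + 1 - T = i0 + 1 by omega]
        push_cast
        ring

open Classical in
theorem win_Y (hΛY : ∑' b, ΛY b ≤ 1) (h1Y : ∀ b, 1 ≤ hY b) {i0 : ℕ} {C : ℝ≥0∞}
    {us : ℕ → ℝ≥0∞} (H : H3At ΛX ΛY hX hY zX zY sX sY (2 * i0) C us)
    (T s A lo hi : ℕ) (θ M lam : ℝ≥0∞) (hθ : θ ≠ 0) (hlam : lam ≠ 0) (hlam' : lam ≠ ⊤)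
    (hlo : A + i0 + s ≤ lo) (hhi : hi + s ≤ A + T)
    (c d : ℕ) (hc : c ∈ Finset.Icc A (A + i0)) (hd : d ∈ Finset.Icc A (A + i0))
    (ν : G → ℝ≥0∞) (hν : ∑' x, ν x ≤ 1) (hνM : ∀ x, ν x ≤ M) :
    ∑' x, ν x * FW ΛX ΛY hX hY zX zY sX sY T i0 lo hi
      (fun _ Q => θ ≤ W ΛY hY zY T (HT hY Q) (dp zY Q)) c d x
      ≤ ((i0 : ℝ≥0∞) + 1) ^ 2 * (C * (lam + M * (1 / θ) * us s / lam + us s)) := by
  have hE : ∀ h : ℕ, ∃ E : Finset G, (∀ a, a ∈ E ↔ θ ≤ W ΛY hY zY T h a) ∧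
      (E.card : ℝ≥0∞) ≤ 1 / θ := fun h =>
    level_set (W ΛY hY zY T h) (tsum_W_le ΛY hY zY hΛY h1Y T h) θ hθ
  choose E hE1 hE2 using hE
  rw [Finset.mem_Icc] at hc hd
  calc _ ≤ ∑' x, ∑ h ∈ Finset.Icc T (T + i0), ∑ h' ∈ Finset.Icc T (T + i0), ν x *
        ∑' L : List BX, ∑' L' : List BY, (if HT hX L = h ∧ HT hY L' = h' ∧ dp zY L' ∈ E h' ∧
        CC hX hY zX zY sX sY L L' x c d lo hi then LW ΛX L * LW ΛY L' else 0) := by
        refine ENNReal.tsum_le_tsum fun x => ?_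
        simp only [← Finset.mul_sum]
        refine mul_le_mul_right ?_ _
        rw [FW]
        calc _ ≤ ∑' L : List BX, ∑' L' : List BY, ∑ h ∈ Finset.Icc T (T + i0),
              ∑ h' ∈ Finset.Icc T (T + i0), (if HT hX L = h ∧ HT hY L' = h' ∧ dp zY L' ∈ E h' ∧
              CC hX hY zX zY sX sY L L' x c d lo hi then LW ΛX L * LW ΛY L' else 0) := by
              refine ENNReal.tsum_le_tsum fun L => ENNReal.tsum_le_tsum fun L' => ?_
              by_cases hh : FR hX L T ∧ HT hX L ≤ T + i0 ∧ FR hY L' T ∧ HT hY L' ≤ T + i0 ∧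
                  θ ≤ W ΛY hY zY T (HT hY L') (dp zY L') ∧ CC hX hY zX zY sX sY L L' x c d lo hi
              · rw [if_pos hh]
                obtain ⟨g1, g2, g3, g4, g5, g6⟩ := hh
                refine le_trans ?_ (Finset.single_le_sum (f := fun h =>
                  ∑ h' ∈ Finset.Icc T (T + i0), (if HT hX L = h ∧ HT hY L' = h' ∧ dp zY L' ∈ E h' ∧
                  CC hX hY zX zY sX sY L L' x c d lo hi then LW ΛX L * LW ΛY L' else 0))
                  (fun _ _ => zero_le) (Finset.mem_Icc.2 ⟨FR_le hX g1, g2⟩))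
                refine le_trans ?_ (Finset.single_le_sum (f := fun h' =>
                  (if HT hX L = HT hX L ∧ HT hY L' = h' ∧ dp zY L' ∈ E h' ∧
                  CC hX hY zX zY sX sY L L' x c d lo hi then LW ΛX L * LW ΛY L' else 0))
                  (fun _ _ => zero_le) (Finset.mem_Icc.2 ⟨FR_le hY g3, g4⟩))
                rw [if_pos ⟨rfl, rfl, (hE1 _ _).2 g5, g6⟩]
              · rw [if_neg hh]; exact zero_le
          _ = _ := by
              have e1 : ∀ L : List BX, ∑' L' : List BY, ∑ h ∈ Finset.Icc T (T + i0),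
                  ∑ h' ∈ Finset.Icc T (T + i0), (if HT hX L = h ∧ HT hY L' = h' ∧ dp zY L' ∈ E h' ∧
                  CC hX hY zX zY sX sY L L' x c d lo hi then LW ΛX L * LW ΛY L' else 0)
                  = ∑ h ∈ Finset.Icc T (T + i0), ∑ h' ∈ Finset.Icc T (T + i0), ∑' L' : List BY,
                  (if HT hX L = h ∧ HT hY L' = h' ∧ dp zY L' ∈ E h' ∧
                  CC hX hY zX zY sX sY L L' x c d lo hi then LW ΛX L * LW ΛY L' else 0) := by
                intro L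
                rw [Summable.tsum_finsetSum (fun _ _ => ENNReal.summable)]
                exact Finset.sum_congr rfl fun h _ =>
                  Summable.tsum_finsetSum (fun _ _ => ENNReal.summable)
              simp_rw [e1]
              rw [Summable.tsum_finsetSum (fun _ _ => ENNReal.summable)]
              exact Finset.sum_congr rfl fun h _ =>
                Summable.tsum_finsetSum (fun _ _ => ENNReal.summable)
    _ = ∑ h ∈ Finset.Icc T (T + i0), ∑ h' ∈ Finset.Icc T (T + i0), ∑' x, ν x *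
        ∑' L : List BX, ∑' L' : List BY, (if HT hX L = h ∧ HT hY L' = h' ∧ dp zY L' ∈ E h' ∧
        CC hX hY zX zY sX sY L L' x c d lo hi then LW ΛX L * LW ΛY L' else 0) := by
        rw [Summable.tsum_finsetSum (fun _ _ => ENNReal.summable)]
        exact Finset.sum_congr rfl fun h _ =>
          Summable.tsum_finsetSum (fun _ _ => ENNReal.summable)
    _ ≤ ∑ h ∈ Finset.Icc T (T + i0), ∑ h' ∈ Finset.Icc T (T + i0),
        (C * (lam + M * (1 / θ) * us s / lam + us s)) := by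
        refine Finset.sum_le_sum fun h hh => Finset.sum_le_sum fun h' hh' => ?_
        rw [Finset.mem_Icc] at hh hh'
        refine le_trans (H s h h' c d lo hi (E h') ν M lam hν hνM hlam hlam' (by omega) (by omega)
          (by omega) (by omega) (by omega) (by omega) (by omega) (by omega)) ?_
        exact card_bound C lam M (us s) _ θ (hE2 h')
    _ = _ := by
        simp only [Finset.sum_const, nsmul_eq_mul, Nat.card_Icc]
        rw [show T + i0 + 1 - T = i0 + 1 by omega]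
        push_cast
        ring

open Classical in
/-- both pieces non-local: product -/
theorem win_N (T i0 lo hi : ℕ) (θX θY uX uY : ℝ≥0∞)
    (hX1 : ∑' P : List BX, (if FR hX P T ∧ ¬ θX ≤ W ΛX hX zX T (HT hX P) (dp zX P)
      then LW ΛX P else 0) ≤ uX)
    (hY1 : ∑' Q : List BY, (if FR hY Q T ∧ ¬ θY ≤ W ΛY hY zY T (HT hY Q) (dp zY Q)
      then LW ΛY Q else 0) ≤ uY) (c d : ℕ) (x : G) :
    FW ΛX ΛY hX hY zX zY sX sY T i0 lo hi
      (fun P Q => ¬ θX ≤ W ΛX hX zX T (HT hX P) (dp zX P) ∧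
        ¬ θY ≤ W ΛY hY zY T (HT hY Q) (dp zY Q)) c d x ≤ uX * uY := by
  calc _ ≤ ∑' P : List BX, ∑' Q : List BY,
        (if FR hX P T ∧ ¬ θX ≤ W ΛX hX zX T (HT hX P) (dp zX P) then LW ΛX P else 0) *
        (if FR hY Q T ∧ ¬ θY ≤ W ΛY hY zY T (HT hY Q) (dp zY Q) then LW ΛY Q else 0) := by
        refine ENNReal.tsum_le_tsum fun P => ENNReal.tsum_le_tsum fun Q => ?_
        split_ifs with h h1 h2 h2
        · exact le_rfl
        · exact absurd ⟨h.2.2.1, h.2.2.2.2.1.2⟩ h2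
        · exact absurd ⟨h.1, h.2.2.2.2.1.1⟩ h1
        · exact absurd ⟨h.1, h.2.2.2.2.1.1⟩ h1
        all_goals exact zero_le
    _ = (∑' P : List BX, (if FR hX P T ∧ ¬ θX ≤ W ΛX hX zX T (HT hX P) (dp zX P)
          then LW ΛX P else 0)) *
        ∑' Q : List BY, (if FR hY Q T ∧ ¬ θY ≤ W ΛY hY zY T (HT hY Q) (dp zY Q)
          then LW ΛY Q else 0) := by
        rw [← ENNReal.tsum_mul_right]
        exact tsum_congr fun P => ENNReal.tsum_mul_left
    _ ≤ _ := mul_le_mul' hX1 hY1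

open Classical in
lemma FW_split (T i0 lo hi : ℕ) (ΦX ΦY : List BX → List BY → Prop) (c d : ℕ) (x : G) :
    FW ΛX ΛY hX hY zX zY sX sY T i0 lo hi (fun _ _ => True) c d x ≤
      FW ΛX ΛY hX hY zX zY sX sY T i0 lo hi ΦX c d x +
      FW ΛX ΛY hX hY zX zY sX sY T i0 lo hi ΦY c d x +
      FW ΛX ΛY hX hY zX zY sX sY T i0 lo hi (fun P Q => ¬ ΦX P Q ∧ ¬ ΦY P Q) c d x := by
  unfold FW
  rw [← ENNReal.tsum_add, ← ENNReal.tsum_add]
  refine ENNReal.tsum_le_tsum fun P => ?_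
  rw [← ENNReal.tsum_add, ← ENNReal.tsum_add]
  refine ENNReal.tsum_le_tsum fun Q => ?_
  by_cases h : FR hX P T ∧ HT hX P ≤ T + i0 ∧ FR hY Q T ∧
      HT hY Q ≤ T + i0 ∧ True ∧ CC hX hY zX zY sX sY P Q x c d lo hi
  · rw [if_pos h]
    obtain ⟨h1, h2, h3, h4, _, h5⟩ := h
    by_cases g1 : ΦX P Q
    · rw [if_pos ⟨h1, h2, h3, h4, g1, h5⟩]
      exact le_add_right (le_add_right le_rfl)
    · by_cases g2 : ΦY P Q
      · rw [if_pos (show FR hX P T ∧ HT hX P ≤ T + i0 ∧ FR hY Q T ∧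
          HT hY Q ≤ T + i0 ∧ ΦY P Q ∧ CC hX hY zX zY sX sY P Q x c d lo hi from
          ⟨h1, h2, h3, h4, g2, h5⟩)]
        exact le_add_right (le_add_left le_rfl)
      · rw [if_pos (show FR hX P T ∧ HT hX P ≤ T + i0 ∧ FR hY Q T ∧
          HT hY Q ≤ T + i0 ∧ (¬ ΦX P Q ∧ ¬ ΦY P Q) ∧ CC hX hY zX zY sX sY P Q x c d lo hi from
          ⟨h1, h2, h3, h4, ⟨g1, g2⟩, h5⟩)]
        exact le_add_left le_rfl
  · rw [if_neg h]; exact zero_le

lemma W_sum_le (hΛX : ∑' b, ΛX b ≤ 1) (h1X : ∀ b, 1 ≤ hX b) (A : ℕ) (S : Finset ℕ) :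
    ∑ c ∈ S, ∑' x, W ΛX hX zX A c x ≤ 1 := by
  classical
  refine (ENNReal.sum_le_tsum S).trans ?_
  rw [tsum_tsum_W]
  exact mass_FR ΛX hX hΛX h1X A

open Classical in
/-- **ONE WINDOW.** `A = jT`; tops in `[A, A+i0]`; relative law shifted by `w`. -/
theorem window (hΛX : ∑' b, ΛX b ≤ 1) (h1X : ∀ b, 1 ≤ hX b) (hΛY : ∑' b, ΛY b ≤ 1)
    (h1Y : ∀ b, 1 ≤ hY b) {i0 : ℕ} {C : ℝ≥0∞} {us : ℕ → ℝ≥0∞}
    (H2 : H2At ΛX ΛY hX hY zX zY sX sY (2 * i0) C us)
    (H3 : H3At ΛX ΛY hX hY zX zY sX sY (2 * i0) C us)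
    (T s A lo hi J : ℕ) (θX θY u v e lam : ℝ≥0∞) (hθX : θX ≠ 0) (hθY : θY ≠ 0)
    (hlam : lam ≠ 0) (hlam' : lam ≠ ⊤) (hlo : A + i0 + s ≤ lo) (hhi : hi + s ≤ A + T)
    (hv0 : v ≠ 0) (hJ : J * (T + i0) ≤ A)
    (hlowX : v ≤ ∑' a : List BX, (if FR hX a T ∧ HT hX a ≤ T + i0 ∧
      W ΛX hX zX T (HT hX a) (dp zX a) ≤ θX then LW ΛX a else 0))
    (hlowY : v ≤ ∑' a : List BY, (if FR hY a T ∧ HT hY a ≤ T + i0 ∧
      W ΛY hY zY T (HT hY a) (dp zY a) ≤ θY then LW ΛY a else 0))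
    (hoX : ∑' P : List BX, (if FR hX P T ∧ T + i0 < HT hX P then LW ΛX P else 0) ≤ e)
    (hoY : ∑' P : List BY, (if FR hY P T ∧ T + i0 < HT hY P then LW ΛY P else 0) ≤ e)
    (hX1 : ∑' P : List BX, (if FR hX P T ∧ ¬ θX ≤ W ΛX hX zX T (HT hX P) (dp zX P)
      then LW ΛX P else 0) ≤ u)
    (hY1 : ∑' Q : List BY, (if FR hY Q T ∧ ¬ θY ≤ W ΛY hY zY T (HT hY Q) (dp zY Q)
      then LW ΛY Q else 0) ≤ u) (w : G) :
    ∑' P : List BX, (if FR hX P A ∧ HT hX P ≤ A + i0 then LW ΛX P *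
      ∑' Q : List BY, (if FR hY Q A ∧ HT hY Q ≤ A + i0 then LW ΛY Q *
        FW ΛX ΛY hX hY zX zY sX sY T i0 lo hi (fun _ _ => True) (HT hX P) (HT hY Q)
          (w + dp zY Q - dp zX P) else 0) else 0)
      ≤ u * u + 2 * ((1 - v) ^ J + J * e)
        + ((i0 : ℝ≥0∞) + 1) ^ 4 * (C * (lam + ((i0 + 1) * θX / v) * (1 / θX) * us s / lam + us s))
        + ((i0 : ℝ≥0∞) + 1) ^ 4 * (C * (lam + ((i0 + 1) * θY / v) * (1 / θY) * us s / lam + us s))
    := by
  set S := Finset.Icc A (A + i0) with hS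
  have hcard : (S.card : ℝ≥0∞) = i0 + 1 := by
    rw [hS, Nat.card_Icc, show A + i0 + 1 - A = i0 + 1 by omega]; push_cast; rfl
  set D : ℕ → ℕ → G → ℝ≥0∞ := fun c d x => Del ΛX ΛY hX hY zX zY A A c d (x - w) with hD
  -- rewriting as a sum over heights and displacements
  have key : ∀ F : ℕ → ℕ → G → ℝ≥0∞,
      ∑' P : List BX, (if FR hX P A ∧ HT hX P ≤ A + i0 then LW ΛX P *
      ∑' Q : List BY, (if FR hY Q A ∧ HT hY Q ≤ A + i0 then LW ΛY Q *
        F (HT hX P) (HT hY Q) (w + dp zY Q - dp zX P) else 0) else 0)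
      = ∑ c ∈ S, ∑ d ∈ S, ∑' x, D c d x * F c d x := by
    intro F
    have e1 : ∀ P : List BX, ∑' Q : List BY, (if FR hY Q A ∧ HT hY Q ≤ A + i0 then LW ΛY Q *
        F (HT hX P) (HT hY Q) (w + dp zY Q - dp zX P) else 0)
        = ∑ d ∈ S, ∑' y, W ΛY hY zY A d y * F (HT hX P) d (w + y - dp zX P) := fun P =>
      group ΛY hY zY A i0 (fun d y => F (HT hX P) d (w + y - dp zX P))
    simp_rw [e1]
    rw [group ΛX hX zX A i0 (fun c x' => ∑ d ∈ S, ∑' y, W ΛY hY zY A d y * F c d (w + y - x'))]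
    refine Finset.sum_congr rfl fun c _ => ?_
    simp only [Finset.mul_sum]
    rw [Summable.tsum_finsetSum (fun _ _ => ENNReal.summable)]
    refine Finset.sum_congr rfl fun d _ => ?_
    simp only [hD, Del]
    simp_rw [← ENNReal.tsum_mul_left, ← ENNReal.tsum_mul_right]
    rw [ENNReal.tsum_comm (f := fun x x' => W ΛX hX zX A c x' * W ΛY hY zY A d (x' + (x - w)) *
      F c d x)]
    refine tsum_congr fun x' => ?_
    rw [← (Equiv.addRight (w - x')).tsum_eq
      (fun x => W ΛX hX zX A c x' * W ΛY hY zY A d (x' + (x - w)) * F c d x)]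
    refine tsum_congr fun y => ?_
    simp only [Equiv.coe_addRight]
    rw [show x' + (y + (w - x') - w) = y by abel, show y + (w - x') = w + y - x' by abel, mul_assoc]
  rw [key]
  have hD1 : ∀ c d, ∑' x, D c d x ≤ 1 := by
    intro c d
    have e1 : ∑' x, D c d x = ∑' x, Del ΛX ΛY hX hY zX zY A A c d x :=
      (Equiv.subRight w).tsum_eq (fun x => Del ΛX ΛY hX hY zX zY A A c d x)
    rw [e1]
    exact (((ENNReal.le_tsum d).trans (ENNReal.le_tsum
      (f := fun c => ∑' d, ∑' x, Del ΛX ΛY hX hY zX zY A A c d x) c))).trans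
      (Del_mass ΛX ΛY hX hY zX zY hΛX h1X hΛY h1Y A A)
  have hDtot : ∑ c ∈ S, ∑ d ∈ S, ∑' x, D c d x ≤ 1 := by
    have e1 : ∀ c d, ∑' x, D c d x = ∑' x, Del ΛX ΛY hX hY zX zY A A c d x := fun c d =>
      (Equiv.subRight w).tsum_eq (fun x => Del ΛX ΛY hX hY zX zY A A c d x)
    simp_rw [e1]
    refine le_trans ?_ (Del_mass ΛX ΛY hX hY zX zY hΛX h1X hΛY h1Y A A)
    refine le_trans (Finset.sum_le_sum fun c _ => ENNReal.sum_le_tsum S) ?_
    exact ENNReal.sum_le_tsum S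
  -- densities
  obtain ⟨Wg, Wb, a1, a2, a3⟩ := dens ΛX hX zX hΛX h1X T i0 θX v e hv0 hlowX hoX J A hJ
  obtain ⟨Vg, Vb, b1, b2, b3⟩ := dens ΛY hY zY hΛY h1Y T i0 θY v e hv0 hlowY hoY J A hJ
  obtain ⟨Dg, Db, c1, c2, c3⟩ := Del_X ΛX ΛY hX hY zX zY hΛX h1X hΛY h1Y A A _ _ ⟨Wg, Wb, a1, a2, a3⟩
  obtain ⟨Eg, Eb, d1, d2, d3⟩ := Del_Y ΛX ΛY hX hY zX zY hΛX h1X A A _ _ ⟨Vg, Vb, b1, b2, b3⟩
  have hsh : ∀ (f : ℕ → ℕ → G → ℝ≥0∞),
      ∑' c, ∑' d, ∑' x, f c d (x - w) = ∑' c, ∑' d, ∑' x, f c d x := fun f =>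
    tsum_congr fun c => tsum_congr fun d => (Equiv.subRight w).tsum_eq (fun x => f c d x)
  set ΦX : List BX → List BY → Prop := fun P _ => θX ≤ W ΛX hX zX T (HT hX P) (dp zX P) with hΦX
  set ΦY : List BX → List BY → Prop := fun _ Q => θY ≤ W ΛY hY zY T (HT hY Q) (dp zY Q) with hΦY
  have B1 := mix_le D (fun c d x => Dg c d (x - w)) (fun c d x => Db c d (x - w))
    (FW ΛX ΛY hX hY zX zY sX sY T i0 lo hi ΦX) S _ ((1 - v) ^ J + J * e) _
    (fun c d x => c1 c d (x - w)) (fun c d x => c2 c d (x - w)) ((hsh Db).le.trans c3)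
    (fun c d x => FW_le_one ΛX ΛY hX hY zX zY sX sY hΛX h1X hΛY h1Y T i0 lo hi ΦX c d x) hD1
    (fun c hc d hd ν hν hνM => win_X ΛX ΛY hX hY zX zY sX sY hΛX h1X H2 T s A lo hi θX _ lam hθX
      hlam hlam' hlo hhi c d hc hd ν hν hνM)
  have B2 := mix_le D (fun c d x => Eg c d (x - w)) (fun c d x => Eb c d (x - w))
    (FW ΛX ΛY hX hY zX zY sX sY T i0 lo hi ΦY) S _ ((1 - v) ^ J + J * e) _
    (fun c d x => d1 c d (x - w)) (fun c d x => d2 c d (x - w)) ((hsh Eb).le.trans d3)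
    (fun c d x => FW_le_one ΛX ΛY hX hY zX zY sX sY hΛX h1X hΛY h1Y T i0 lo hi ΦY c d x) hD1
    (fun c hc d hd ν hν hνM => win_Y ΛX ΛY hX hY zX zY sX sY hΛY h1Y H3 T s A lo hi θY _ lam hθY
      hlam hlam' hlo hhi c d hc hd ν hν hνM)
  calc _ ≤ ∑ c ∈ S, ∑ d ∈ S, (∑' x, D c d x * FW ΛX ΛY hX hY zX zY sX sY T i0 lo hi ΦX c d x
        + ∑' x, D c d x * FW ΛX ΛY hX hY zX zY sX sY T i0 lo hi ΦY c d x
        + (∑' x, D c d x) * (u * u)) := by
        refine Finset.sum_le_sum fun c _ => Finset.sum_le_sum fun d _ => ?_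
        rw [← ENNReal.tsum_mul_right, ← ENNReal.tsum_add, ← ENNReal.tsum_add]
        refine ENNReal.tsum_le_tsum fun x => ?_
        rw [← mul_add, ← mul_add]
        refine mul_le_mul_right ?_ _
        refine (FW_split ΛX ΛY hX hY zX zY sX sY T i0 lo hi ΦX ΦY c d x).trans ?_
        exact add_le_add le_rfl (win_N ΛX ΛY hX hY zX zY sX sY T i0 lo hi θX θY u u hX1 hY1 c d x)
    _ = (∑ c ∈ S, ∑ d ∈ S, ∑' x, D c d x * FW ΛX ΛY hX hY zX zY sX sY T i0 lo hi ΦX c d x)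
        + (∑ c ∈ S, ∑ d ∈ S, ∑' x, D c d x * FW ΛX ΛY hX hY zX zY sX sY T i0 lo hi ΦY c d x)
        + (∑ c ∈ S, ∑ d ∈ S, ∑' x, D c d x) * (u * u) := by
        simp only [Finset.sum_add_distrib, Finset.sum_mul]
    _ ≤ _ := add_le_add (add_le_add B1 B2) (mul_le_mul_left hDtot _)
    _ = _ := by
        rw [hcard]
        ring

end window

end Crest.Agent.R154.Asm396
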