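import Crest.Agent.R154.AsmC_475

/-! Row 154, ROAD 801 (helper475): assembly, part 3: one window. -/

set_option autoImplicit false

namespace Crest.Agent.R154.Asm475

open Crest.Agent.R154.B5A
open Crest.Agent.R154.Ren396
open Crest.Agent.R154.Bind12 (TT Dp)
open scoped ENNReal

section one

variable {B G : Type*} [AddCommGroup G] (Λ : B → ℝ≥0∞) (ht : B → ℕ) (z : B → G)

open Classical in
/-- weight of the first renewal `≥ b` with overshoot `≤ i0` -/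
noncomputable def wt (b i0 : ℕ) (A : List B) : ℝ≥0∞ :=
  if FR ht A b ∧ HT ht A ≤ b + i0 then LW Λ A else 0

lemma wt_of_ne {b i0 : ℕ} {A : List B} (h : wt Λ ht b i0 A ≠ 0) :
    b ≤ HT ht A ∧ HT ht A ≤ b + i0 := by
  classical
  unfold wt at h
  split_ifs at h with h2
  · exact ⟨FR_le ht h2.1, h2.2⟩
  · exact absurd rfl h

lemma wt_le (b i0 : ℕ) (A : List B) : wt Λ ht b i0 A ≤ LW Λ A := by
  classical
  unfold wt
  split_ifs
  · exact le_rfl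
  · exact zero_le

lemma sum_wt (hΛ : ∑' b, Λ b ≤ 1) (h1 : ∀ b, 1 ≤ ht b) (b i0 : ℕ) :
    ∑' A, wt Λ ht b i0 A ≤ 1 := by
  classical
  refine le_trans (ENNReal.tsum_le_tsum fun A => ?_) (mass_FR Λ ht hΛ h1 b)
  unfold wt
  split_ifs with h h2 h2
  · exact le_rfl
  · exact absurd h.1 h2
  · exact zero_le
  · exact le_rfl

lemma sum_wt_mul (hΛ : ∑' b, Λ b ≤ 1) (h1 : ∀ b, 1 ≤ ht b) (b i0 : ℕ) (F : List B → ℝ≥0∞)
    (c : ℝ≥0∞) (hF : ∀ A, wt Λ ht b i0 A ≠ 0 → F A ≤ c) :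
    ∑' A, wt Λ ht b i0 A * F A ≤ c := by
  calc _ ≤ ∑' A, wt Λ ht b i0 A * c := by
        refine ENNReal.tsum_le_tsum fun A => ?_
        by_cases h : wt Λ ht b i0 A = 0
        · rw [h, zero_mul, zero_mul]
        · exact mul_le_mul_right (hF A h) _
    _ ≤ 1 * c := by
        rw [ENNReal.tsum_mul_right]
        exact mul_le_mul_left (sum_wt Λ ht hΛ h1 b i0) _
    _ = c := one_mul _

open Classical in
theorem cut3 (hU1 : ∀ n, U Λ ht n ≤ 1) (hΛ : ∑' b, Λ b ≤ 1) (h1 : ∀ b, 1 ≤ ht b)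
    (b T i0 n : ℕ) (hn : b + i0 + T ≤ n) (Φ : List B → ℝ≥0∞) (hΦ : ∀ L, Φ L ≤ 1) (e : ℝ≥0∞)
    (he : ∀ T, ∑' P : List B, (if FR ht P T ∧ T + i0 < HT ht P then LW Λ P else 0) ≤ e)
    (Γ : List B → List B → ℝ≥0∞)
    (hΓ : ∀ A P R, wt Λ ht b i0 A ≠ 0 → wt Λ ht T i0 P ≠ 0 → HT ht (A ++ (P ++ R)) = n →
      Φ (A ++ (P ++ R)) ≤ Γ A P) :
    ∑' L : List B, (if HT ht L = n then LW Λ L * Φ L else 0)
      ≤ 2 * e + ∑' A : List B, wt Λ ht b i0 A * ∑' P : List B, wt Λ ht T i0 P * Γ A P := by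
  refine (cut2 Λ ht hU1 hΛ h1 b T i0 n hn Φ hΦ e he).trans (add_le_add le_rfl ?_)
  refine ENNReal.tsum_le_tsum fun A => ?_
  by_cases hA : FR ht A b ∧ HT ht A ≤ b + i0
  · have hwA : wt Λ ht b i0 A = LW Λ A := by unfold wt; rw [if_pos hA]
    rw [if_pos hA, hwA]
    by_cases h0 : LW Λ A = 0
    · rw [h0, zero_mul, zero_mul]
    refine mul_le_mul_right (ENNReal.tsum_le_tsum fun P => ?_) _
    by_cases hP : FR ht P T ∧ HT ht P ≤ T + i0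
    · have hwP : wt Λ ht T i0 P = LW Λ P := by unfold wt; rw [if_pos hP]
      rw [if_pos hP, hwP]
      by_cases h0' : LW Λ P = 0
      · rw [h0', zero_mul, zero_mul]
      refine mul_le_mul_right ?_ _
      calc _ ≤ ∑' R : List B, (if HT ht R = n - (HT ht A + HT ht P) then LW Λ R else 0)
            * Γ A P := by
            refine ENNReal.tsum_le_tsum fun R => ?_
            by_cases h : HT ht A + HT ht P + HT ht R = n
            · rw [if_pos h, if_pos (by omega)]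
              refine mul_le_mul_right (hΓ A P R (by rw [hwA]; exact h0) (by rw [hwP]; exact h0')
                (by rw [HT_append, HT_append]; omega)) _
            · rw [if_neg h]; exact zero_le
        _ ≤ 1 * Γ A P := by
            rw [ENNReal.tsum_mul_right]
            exact mul_le_mul_left (hU1 _) _
        _ = _ := one_mul _
    · rw [if_neg hP]; exact zero_le
  · rw [if_neg hA]; exact zero_le

/-- `core` with `wt` -/
theorem core' (hΛ : ∑' b, Λ b ≤ 1) (h1 : ∀ b, 1 ≤ ht b) (b i0 : ℕ) (f : ℕ → G → ℝ≥0∞)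
    (hf1 : ∀ c δ, f c δ ≤ 1) (M β bad : ℝ≥0∞)
    (hβ : ∀ c, b ≤ c → c ≤ b + i0 → ∀ μ : G → ℝ≥0∞, ∑' δ, μ δ ≤ 1 → (∀ δ, μ δ ≤ M) →
      ∑' δ, μ δ * f c δ ≤ β)
    (Wg Wb : ℕ → G → ℝ≥0∞) (hW : ∀ c δ, W Λ ht z b c δ ≤ Wg c δ + Wb c δ)
    (hWg : ∀ c δ, Wg c δ ≤ M) (hWb : ∑' c, ∑' δ, Wb c δ ≤ bad) :
    ∑' A : List B, wt Λ ht b i0 A * f (HT ht A) (dp z A) ≤ (i0 + 1) * β + bad := by
  classical
  refine le_trans (le_of_eq ?_) (core Λ ht z hΛ h1 b i0 f hf1 M β bad hβ Wg Wb hW hWg hWb)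
  refine tsum_congr fun A => ?_
  unfold wt
  split_ifs
  · rfl
  · rw [zero_mul]

end one

lemma swap2 {α β : Type*} (g : α → ℝ≥0∞) (h : β → ℝ≥0∞) (q : α → β → ℝ≥0∞) :
    ∑' p, g p * ∑' c, h c * q p c = ∑' c, h c * ∑' p, g p * q p c := by
  simp_rw [← ENNReal.tsum_mul_left]
  rw [ENNReal.tsum_comm]
  refine tsum_congr fun c => tsum_congr fun p => ?_
  ring

lemma swap3 {α β γ : Type*} (f : α → ℝ≥0∞) (g : β → ℝ≥0∞) (h : γ → ℝ≥0∞)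
    (q : α → β → γ → ℝ≥0∞) :
    ∑' a, f a * ∑' p, g p * ∑' c, h c * q a p c
      = ∑' c, h c * ∑' a, f a * ∑' p, g p * q a p c := by
  have e1 : ∀ a, ∑' p, g p * ∑' c, h c * q a p c = ∑' c, h c * ∑' p, g p * q a p c :=
    fun a => swap2 g h (q a)
  simp_rw [e1]
  exact swap2 f h (fun a c => ∑' p, g p * q a p c)

section two

variable {BX BY G : Type*} [AddCommGroup G]
  (ΛX : BX → ℝ≥0∞) (ΛY : BY → ℝ≥0∞) (hX : BX → ℕ) (hY : BY → ℕ) (zX : BX → G) (zY : BY → G)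
  (sX : BX → Set (G × ℕ)) (sY : BY → Set (G × ℕ))

/-- contact event of two pieces -/
def Ev (P : List BX) (P' : List BY) (x : G) (a a' lo hi : ℕ) : Prop :=
  (∃ y k, (y, k) ∈ TT sX zX hX P 0 a ∧ (y, k) ∈ TT sY zY hY P' x a') ∧
  (∀ y k, (y, k) ∈ TT sX zX hX P 0 a → (y, k) ∈ TT sY zY hY P' x a' → lo ≤ k ∧ k ≤ hi)

open Classical in
/-- X local -/
def H2 (us : ℕ → ℕ → ℝ≥0∞) (C : ℝ≥0∞) : Prop :=
  ∀ (i1 s h h' a a' lo hi : ℕ) (E : Finset G) (μ : G → ℝ≥0∞) (M lam : ℝ≥0∞),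
    ∑' x, μ x ≤ 1 → (∀ x, μ x ≤ M) → lam ≠ 0 → lam ≠ ⊤ → a ≤ a' → a' ≤ a + i1 →
    a + h ≤ a' + h' → a' + h' ≤ a + h + i1 → a + s ≤ lo → a' + s ≤ lo → hi + s ≤ a + h →
    hi + s ≤ a' + h' → 1 ≤ s →
    ∑' x, μ x * ∑' L, ∑' L', (if HT hX L = h ∧ Dp zX L ∈ E ∧ HT hY L' = h' ∧
      (∃ y k, (y, k) ∈ TT sX zX hX L 0 a ∧ (y, k) ∈ TT sY zY hY L' x a') ∧
      (∀ y k, (y, k) ∈ TT sX zX hX L 0 a → (y, k) ∈ TT sY zY hY L' x a' → lo ≤ k ∧ k ≤ hi)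
      then LW ΛX L * LW ΛY L' else 0) ≤ C * (lam + M * E.card * us i1 s / lam + us i1 s)

open Classical in
/-- Y local -/
def H3 (us : ℕ → ℕ → ℝ≥0∞) (C : ℝ≥0∞) : Prop :=
  ∀ (i1 s h h' a a' lo hi : ℕ) (E : Finset G) (μ : G → ℝ≥0∞) (M lam : ℝ≥0∞),
    ∑' x, μ x ≤ 1 → (∀ x, μ x ≤ M) → lam ≠ 0 → lam ≠ ⊤ → a ≤ a' → a' ≤ a + i1 →
    a + h ≤ a' + h' → a' + h' ≤ a + h + i1 → a + s ≤ lo → a' + s ≤ lo → hi + s ≤ a + h →
    hi + s ≤ a' + h' → 1 ≤ s →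
    ∑' x, μ x * ∑' L, ∑' L', (if HT hX L = h ∧ Dp zY L' ∈ E ∧ HT hY L' = h' ∧
      (∃ y k, (y, k) ∈ TT sX zX hX L 0 a ∧ (y, k) ∈ TT sY zY hY L' x a') ∧
      (∀ y k, (y, k) ∈ TT sX zX hX L 0 a → (y, k) ∈ TT sY zY hY L' x a' → lo ≤ k ∧ k ≤ hi)
      then LW ΛX L * LW ΛY L' else 0) ≤ C * (lam + M * E.card * us i1 s / lam + us i1 s)

/-- clean contact in the window -/
def EvF (w : G) (b0 lo hi b1 : ℕ) (LX : List BX) (LY : List BY) : Prop :=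
  (∃ y k, (y, k) ∈ TT sX zX hX LX 0 0 ∧ (y, k) ∈ TT sY zY hY LY w 0 ∧ lo ≤ k ∧ k ≤ hi) ∧
  (∀ y k, (y, k) ∈ TT sX zX hX LX 0 0 → (y, k) ∈ TT sY zY hY LY w 0 →
    ¬ (b0 ≤ k ∧ k < lo) ∧ ¬ (hi < k ∧ k ≤ b1))

lemma evF_ev (hsX : ∀ b q, q ∈ sX b → 1 ≤ q.2 ∧ q.2 ≤ hX b)
    (hsY : ∀ b q, q ∈ sY b → 1 ≤ q.2 ∧ q.2 ≤ hY b) (w : G) (b T i0 s : ℕ) (hs : 1 ≤ s)
    (hsT : s ≤ T) (A P R : List BX) (A' P' R' : List BY)
    (hA : b ≤ HT hX A ∧ HT hX A ≤ b + i0) (hP : T ≤ HT hX P ∧ HT hX P ≤ T + i0)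
    (hA' : b + i0 ≤ HT hY A' ∧ HT hY A' ≤ b + i0 + i0)
    (hP' : T + 3 * i0 ≤ HT hY P' ∧ HT hY P' ≤ T + 3 * i0 + i0)
    (h : EvF hX hY zX zY sX sY w b (b + 2 * i0 + s) (b + T - s) (b + T + 2 * i0)
      (A ++ (P ++ R)) (A' ++ (P' ++ R'))) :
    Ev hX hY zX zY sX sY P P' (w + dp zY A' - dp zX A) (HT hX A) (HT hY A')
      (b + 2 * i0 + s) (b + T - s) := by
  obtain ⟨⟨y, k, h1, h2, h3, h4⟩, h5⟩ := h
  have hX3 : ∀ y k, (y, k) ∈ TT sX zX hX P (0 + dp zX A) (0 + HT hX A) →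
      (y, k) ∈ TT sX zX hX (A ++ (P ++ R)) 0 0 := by
    intro y k h
    rw [TT_append, TT_append]
    exact Or.inr (Or.inl h)
  have hY3 : ∀ y k, (y, k) ∈ TT sY zY hY P' (w + dp zY A') (0 + HT hY A') →
      (y, k) ∈ TT sY zY hY (A' ++ (P' ++ R')) w 0 := by
    intro y k h
    rw [TT_append, TT_append]
    exact Or.inr (Or.inl h)
  have hcX : (y, k) ∈ TT sX zX hX P (0 + dp zX A) (0 + HT hX A) := by
    rw [TT_append, TT_append] at h1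
    rcases h1 with h1 | h1 | h1
    · have := TT_depth hX zX sX hsX _ _ _ _ _ h1
      omega
    · exact h1
    · have := TT_depth hX zX sX hsX _ _ _ _ _ h1
      omega
  have hcY : (y, k) ∈ TT sY zY hY P' (w + dp zY A') (0 + HT hY A') := by
    rw [TT_append, TT_append] at h2
    rcases h2 with h2 | h2 | h2
    · have := TT_depth hY zY sY hsY _ _ _ _ _ h2
      omega
    · exact h2
    · have := TT_depth hY zY sY hsY _ _ _ _ _ h2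
      omega
  have e1 : w + dp zY A' = (w + dp zY A' - dp zX A) + dp zX A := by abel
  refine ⟨⟨y - dp zX A, k, ?_, ?_⟩, ?_⟩
  · have := (mem_TT_shift hX zX sX P 0 (dp zX A) y (0 + HT hX A) k).1 hcX
    rwa [zero_add] at this
  · rw [e1] at hcY
    have := (mem_TT_shift hY zY sY P' _ (dp zX A) y (0 + HT hY A') k).1 hcY
    rwa [zero_add] at this
  · intro y' k' h6 h7
    have h8 : (y' + dp zX A, k') ∈ TT sX zX hX P (0 + dp zX A) (0 + HT hX A) := by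
      rw [mem_TT_shift, add_sub_cancel_right, zero_add]; exact h6
    have h9 : (y' + dp zX A, k') ∈ TT sY zY hY P' (w + dp zY A') (0 + HT hY A') := by
      rw [e1, mem_TT_shift, add_sub_cancel_right, zero_add]; exact h7
    have h10 := h5 _ _ (hX3 _ _ h8) (hY3 _ _ h9)
    have h11 := TT_depth hX zX sX hsX _ _ _ _ _ h6
    omega

end two

end Crest.Agent.R154.Asm475
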