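import Crest.Agent.R154.B5Abs_566

/-! Row 154, ROAD 801, leaf H5 (helper501): concentration of a renewal-reward sequence and the thin
slab estimate, in the letters of `B5Abs_566` (two single-walker lists, as in 540's literal). -/

set_option autoImplicit false

namespace Crest.Agent.R154.H5N501

open scoped ENNReal
open Crest.Agent.R154.B5A

section basics

variable {B G : Type*} [AddCommGroup G]

/-- total displacement -/
def Dp (δ : B → G) (L : List B) : G := (L.map δ).sum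

lemma Dp_nil (δ : B → G) : Dp δ [] = 0 := rfl

lemma Dp_cons (δ : B → G) (b : B) (L : List B) : Dp δ (b :: L) = δ b + Dp δ L := by simp [Dp]

lemma Dp_append (δ : B → G) (L L' : List B) : Dp δ (L ++ L') = Dp δ L + Dp δ L' := by simp [Dp]

/-- sites (position, depth) read by a list of blocks, top block first -/
def TS (ht : B → ℕ) (δ : B → G) (sb : B → Set (G × ℕ)) : List B → G → ℕ → Set (G × ℕ)
  | [], _, _ => ∅
  | b :: L, x, a => {p | ∃ q ∈ sb b, p = (x + q.1, a + q.2)} ∪ TS ht δ sb L (x + δ b) (a + ht b)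

variable (ht : B → ℕ) (δ : B → G) (sb : B → Set (G × ℕ))

lemma TS_append (L L' : List B) (x : G) (a : ℕ) :
    TS ht δ sb (L ++ L') x a = TS ht δ sb L x a ∪ TS ht δ sb L' (x + Dp δ L) (a + HT ht L) := by
  induction L generalizing x a with
  | nil => simp [TS, Dp_nil, HT_nil]
  | cons b L ih =>
    simp only [List.cons_append, TS]
    rw [ih, Set.union_assoc, Dp_cons, HT_cons, add_assoc x, add_assoc a]

lemma TS_depth (hs : ∀ b, ∀ p ∈ sb b, 1 ≤ p.2 ∧ p.2 ≤ ht b) (L : List B) (x : G) (a : ℕ)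
    (p : G × ℕ) (hp : p ∈ TS ht δ sb L x a) : a < p.2 ∧ p.2 ≤ a + HT ht L := by
  induction L generalizing x a with
  | nil => simp [TS] at hp
  | cons b L ih =>
    rw [HT_cons]
    rcases hp with ⟨q, hq, rfl⟩ | hp
    · have := hs b q hq
      simp only
      omega
    · have := ih _ _ hp
      omega

lemma TS_shift (L : List B) (x : G) (a : ℕ) (p : G × ℕ) (hp : p ∈ TS ht δ sb L x a) :
    ∃ q ∈ TS ht δ sb L 0 0, p = (x + q.1, a + q.2) := by
  have key : ∀ (L : List B) (x y : G) (a c : ℕ) (p : G × ℕ), p ∈ TS ht δ sb L (x + y) (a + c) →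
      ∃ q ∈ TS ht δ sb L y c, p = (x + q.1, a + q.2) := by
    intro L
    induction L with
    | nil => intro x y a c p hp; simp [TS] at hp
    | cons b L ih =>
      intro x y a c p hp
      rcases hp with ⟨q, hq, rfl⟩ | hp
      · exact ⟨(y + q.1, c + q.2), Or.inl ⟨q, hq, rfl⟩, by simp only [add_assoc]⟩
      · rw [add_assoc, add_assoc] at hp
        obtain ⟨q, hq, rfl⟩ := ih x (y + δ b) a (c + ht b) p hp
        exact ⟨q, Or.inr hq, rfl⟩
  have := key L x 0 a 0 p (by simpa using hp)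
  exact this

lemma TS_finite (hf : ∀ b, (sb b).Finite) (L : List B) (x : G) (a : ℕ) :
    (TS ht δ sb L x a).Finite := by
  induction L generalizing x a with
  | nil => exact Set.finite_empty
  | cons b L ih =>
    refine Set.Finite.union ?_ (ih _ _)
    have : {p : G × ℕ | ∃ q ∈ sb b, p = (x + q.1, a + q.2)}
        = (fun q : G × ℕ => (x + q.1, a + q.2)) '' sb b := by
      ext p
      constructor
      · rintro ⟨q, hq, rfl⟩; exact ⟨q, hq, rfl⟩
      · rintro ⟨q, hq, rfl⟩; exact ⟨q, hq, rfl⟩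
    rw [this]
    exact (hf b).image _

lemma exists_cut (L : List B) (a : ℕ) (ha : 1 ≤ a) (hL : a ≤ HT ht L) :
    ∃ P b R, L = P ++ b :: R ∧ HT ht P < a ∧ a ≤ HT ht P + ht b := by
  induction L generalizing a with
  | nil => rw [HT_nil] at hL; omega
  | cons c L ih =>
    by_cases hc : a ≤ ht c
    · exact ⟨[], c, L, rfl, by rw [HT_nil]; omega, by rw [HT_nil]; omega⟩
    · rw [HT_cons] at hL
      obtain ⟨P, b, R, h2, h3, h4⟩ := ih (a - ht c) (by omega) (by omega)
      refine ⟨c :: P, b, R, by rw [h2]; rfl, ?_, ?_⟩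
      · rw [HT_cons]; omega
      · rw [HT_cons]; omega

/-- the segment of a list which reads depths in `[a, a + s)` -/
lemma exists_seg (h1 : ∀ b, 1 ≤ ht b) (hs : ∀ b, ∀ p ∈ sb b, 1 ≤ p.2 ∧ p.2 ≤ ht b)
    (L : List B) (a s : ℕ) (ha : 1 ≤ a) (hL : a ≤ HT ht L) (x : G) :
    ∃ P b S R, L = P ++ (b :: S ++ R) ∧ HT ht P < a ∧ a ≤ HT ht P + ht b ∧ S.length ≤ s ∧
      ∀ z k, a ≤ k → k < a + s → (z, k) ∈ TS ht δ sb L x 0 →
        (z, k) ∈ TS ht δ sb (b :: S) (x + Dp δ P) (HT ht P) := by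
  obtain ⟨P, b, R, h2, h3, h4⟩ := exists_cut ht L a ha hL
  refine ⟨P, b, R.take s, R.drop s, ?_, h3, h4, List.length_take_le s R, ?_⟩
  · rw [h2, List.cons_append, List.take_append_drop]
  · intro z k hk1 hk2 hz
    have e : L = P ++ ((b :: R.take s) ++ R.drop s) := by
      rw [h2, List.cons_append, List.take_append_drop]
    rw [e, TS_append, TS_append] at hz
    rcases hz with hz | hz | hz
    · have := TS_depth ht δ sb hs _ _ _ _ hz
      simp only at this
      omega
    · rwa [zero_add] at hz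
    · exfalso
      have h5 := TS_depth ht δ sb hs _ _ _ _ hz
      simp only [zero_add, HT_cons] at h5
      by_cases hlen : R.length ≤ s
      · rw [List.drop_eq_nil_of_le hlen] at hz
        simp [TS] at hz
      · have h6 := length_le_HT ht h1 (R.take s)
        rw [List.length_take] at h6
        omega

end basics

/-! ### sums -/

section sums

variable {B G : Type*} [AddCommGroup G] (Λ : B → ℝ≥0∞) (ht : B → ℕ) (δ : B → G)

lemma tsum_le_of_split {α β : Type*} (f : α → ℝ≥0∞) (g : β → ℝ≥0∞) (π : β → α)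
    (h : ∀ x, f x ≠ 0 → ∃ y, π y = x ∧ f x ≤ g y) : ∑' x, f x ≤ ∑' y, g y := by
  classical
  calc ∑' x, f x ≤ ∑' x, ∑' y, (if π y = x then g y else 0) := by
        refine ENNReal.tsum_le_tsum fun x => ?_
        by_cases hx : f x = 0
        · rw [hx]; exact zero_le
        · obtain ⟨y, hy, hle⟩ := h x hx
          refine hle.trans ?_
          refine le_trans ?_ (ENNReal.le_tsum y)
          rw [if_pos hy]
    _ = ∑' y, ∑' x, (if π y = x then g y else 0) := ENNReal.tsum_comm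
    _ = ∑' y, g y := by
        refine tsum_congr fun y => ?_
        rw [tsum_eq_single (π y)]
        · rw [if_pos rfl]
        · intro x hx; rw [if_neg (Ne.symm hx)]

lemma U_le_one (h1 : ∀ b, 1 ≤ ht b) (hΛ : ∑' b, Λ b = 1) (n : ℕ) : U Λ ht n ≤ 1 := by
  have ht0 : tail Λ ht 0 = 1 := by
    rw [← hΛ, tail]
    refine tsum_congr fun b => ?_
    rw [if_pos (by have := h1 b; omega)]
  rw [← renewal_one Λ ht h1 hΛ n]
  calc U Λ ht n = U Λ ht (n - 0) * tail Λ ht 0 := by rw [ht0, mul_one, Nat.sub_zero]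
    _ ≤ _ := Finset.single_le_sum (f := fun k => U Λ ht (n - k) * tail Λ ht k)
      (fun _ _ => zero_le) (Finset.mem_range.2 (Nat.succ_pos n))

open Classical in
/-- weight of the lists of height `n` and displacement `z` -/
noncomputable def V (n : ℕ) (z : G) : ℝ≥0∞ :=
  ∑' L : List B, if HT ht L = n ∧ Dp δ L = z then LW Λ L else 0

lemma V_le_U (n : ℕ) (z : G) : V Λ ht δ n z ≤ U Λ ht n := by
  classical
  refine ENNReal.tsum_le_tsum fun L => ?_
  by_cases h : HT ht L = n
  · rw [if_pos h]; split_ifs <;> simp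
  · rw [if_neg (fun h' => h h'.1), if_neg h]

lemma tsum_V (n : ℕ) : ∑' z, V Λ ht δ n z = U Λ ht n := by
  classical
  simp only [V, U]
  rw [ENNReal.tsum_comm]
  refine tsum_congr fun L => ?_
  by_cases h : HT ht L = n
  · rw [if_pos h, tsum_eq_single (Dp δ L)]
    · rw [if_pos ⟨h, rfl⟩]
    · intro z hz; rw [if_neg (fun h' => hz h'.2.symm)]
  · rw [if_neg h]
    simp [h]

lemma V_step (n : ℕ) (hn : 1 ≤ n) (z : G) :
    V Λ ht δ n z = ∑' b, (if ht b ≤ n then Λ b * V Λ ht δ (n - ht b) (z - δ b) else 0) := by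
  classical
  rw [V, tsum_list]
  rw [if_neg (by rw [HT_nil]; omega), zero_add]
  refine tsum_congr fun b => ?_
  by_cases hb : ht b ≤ n
  · rw [if_pos hb, V, ← ENNReal.tsum_mul_left]
    refine tsum_congr fun L => ?_
    rw [HT_cons, Dp_cons, LW_cons]
    by_cases h : HT ht L = n - ht b ∧ Dp δ L = z - δ b
    · rw [if_pos h, if_pos ⟨by omega, by rw [h.2]; abel⟩]
    · rw [if_neg h, if_neg, mul_zero]
      rintro ⟨h2, h3⟩
      exact h ⟨by omega, by rw [← h3]; abel⟩
  · rw [if_neg hb]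
    refine ENNReal.tsum_eq_zero.2 fun L => ?_
    rw [if_neg]
    rw [HT_cons]
    omega

/-- one step of the maximal argument -/
lemma max_step (h1 : ∀ b, 1 ≤ ht b) (hΛ : ∑' b, Λ b = 1) (q : ℝ≥0∞) (hq1 : q ≤ 1)
    (hq : ∀ η : ℝ≥0∞, η ≠ 0 → ∃ N, ∀ n, N ≤ n → ∀ z, V Λ ht δ n z ≤ q + η)
    (c : B) (hc : Λ c ≠ 0) (hc1 : ht c = 1) (η : ℝ≥0∞) (hη : η ≠ 0) :
    ∃ η' : ℝ≥0∞, η' ≠ 0 ∧ ∃ N', ∀ n, N' ≤ n → ∀ z, q ≤ V Λ ht δ n z + η' →
      q ≤ V Λ ht δ (n - 1) (z - δ c) + η := by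
  classical
  have hct : Λ c ≠ ⊤ := ne_top_of_le_ne_top ENNReal.one_ne_top (hΛ ▸ ENNReal.le_tsum c)
  have hqt : q ≠ ⊤ := ne_top_of_le_ne_top ENNReal.one_ne_top hq1
  set η₀ : ℝ≥0∞ := min η 1 with hη₀
  have hη₀0 : η₀ ≠ 0 := by
    rw [hη₀]; exact (lt_min (pos_iff_ne_zero.2 hη) one_pos).ne'
  set η' : ℝ≥0∞ := Λ c * η₀ / 3 with hη'
  have hη'0 : η' ≠ 0 := by
    rw [hη', Ne, ENNReal.div_eq_zero_iff, not_or]
    exact ⟨mul_ne_zero hc hη₀0, by norm_num⟩
  have hη'3 : 3 * η' = Λ c * η₀ := by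
    rw [hη']; exact ENNReal.mul_div_cancel (by norm_num) (by norm_num)
  obtain ⟨N₁, hN₁⟩ := hq η' hη'0
  -- tails
  have htl : ∃ N₂ : ℕ, tail Λ ht N₂ ≤ η' := by
    have hanti : Antitone fun k => tail Λ ht k := by
      refine antitone_nat_of_succ_le fun k => ?_
      rw [tail_split Λ ht k]; exact le_add_self
    have hfin : ∑' b, Λ b ≠ ⊤ := by rw [hΛ]; exact ENNReal.one_ne_top
    have h3 := ENNReal.tendsto_tsum_compl_atTop_zero hfin
    obtain ⟨s, hs⟩ := (h3.eventually (eventually_le_nhds (pos_iff_ne_zero.2 hη'0))).exists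
    refine ⟨s.sup ht, le_trans ?_ hs⟩
    rw [tail, ← tsum_subtype_eq_of_support_subset (s := {x | x ∉ s})]
    · refine ENNReal.tsum_le_tsum fun b => ?_
      split_ifs <;> simp
    · intro b hb
      rw [Function.mem_support] at hb
      intro hbs
      apply hb
      rw [if_neg]
      rw [not_lt]
      exact Finset.le_sup hbs
  obtain ⟨N₂, hN₂⟩ := htl
  refine ⟨η', hη'0, N₁ + N₂ + 1, fun n hn z hz => ?_⟩
  set W := V Λ ht δ (n - 1) (z - δ c) with hW
  set μ := ∑' b, (if b = c then 0 else Λ b) with hμ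
  have hsum : Λ c + μ = 1 := by
    rw [← hΛ, ENNReal.tsum_eq_add_tsum_ite c]
  have hμ1 : μ ≤ 1 := by rw [← hsum]; exact le_add_self
  have hμt : μ ≠ ⊤ := ne_top_of_le_ne_top ENNReal.one_ne_top hμ1
  have hstep : V Λ ht δ n z ≤ Λ c * W + (μ * (q + η') + η') := by
    rw [V_step Λ ht δ n (by omega) z, ENNReal.tsum_eq_add_tsum_ite c]
    rw [if_pos (by omega), hc1]
    refine add_le_add le_rfl ?_
    calc _ ≤ ∑' b, ((if b = c then 0 else Λ b) * (q + η') + (if N₂ < ht b then Λ b else 0)) := by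
          refine ENNReal.tsum_le_tsum fun b => ?_
          by_cases hbc : b = c
          · rw [if_pos hbc]; exact zero_le
          · rw [if_neg hbc, if_neg hbc]
            by_cases hbn : ht b ≤ n
            · rw [if_pos hbn]
              by_cases hb2 : N₂ < ht b
              · rw [if_pos hb2]
                refine le_trans ?_ le_add_self
                calc Λ b * V Λ ht δ (n - ht b) (z - δ b) ≤ Λ b * 1 :=
                      mul_le_mul_right ((V_le_U Λ ht δ _ _).trans (U_le_one Λ ht h1 hΛ _)) _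
                  _ = Λ b := mul_one _
              · refine le_trans ?_ le_self_add
                exact mul_le_mul_right (hN₁ _ (by omega) _) _
            · rw [if_neg hbn]; exact zero_le
      _ = μ * (q + η') + tail Λ ht N₂ := by
          rw [ENNReal.tsum_add, ENNReal.tsum_mul_right, tail]
      _ ≤ _ := add_le_add le_rfl hN₂
  have h5 : Λ c * q + μ * q ≤ Λ c * W + 3 * η' + μ * q := by
    calc Λ c * q + μ * q = q := by rw [← add_mul, hsum, one_mul]
      _ ≤ V Λ ht δ n z + η' := hz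
      _ ≤ Λ c * W + (μ * (q + η') + η') + η' := add_le_add hstep le_rfl
      _ ≤ Λ c * W + (μ * q + η' + η') + η' := by
          gcongr
          rw [mul_add]
          gcongr
          exact mul_le_of_le_one_left zero_le hμ1
      _ = Λ c * W + 3 * η' + μ * q := by ring
  have h6 : Λ c * q ≤ Λ c * W + 3 * η' :=
    (ENNReal.add_le_add_iff_right (ENNReal.mul_ne_top hμt hqt)).1 h5
  rw [hη'3, ← mul_add] at h6
  have h7 := (ENNReal.mul_le_mul_iff_right hc hct).1 h6
  exact h7.trans (add_le_add le_rfl (min_le_left _ _))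

/-- **concentration**: the displacement at height `n` has no atom asymptotically -/
theorem conc (h1 : ∀ b, 1 ≤ ht b) (hΛ : ∑' b, Λ b = 1) (a b : B) (ha : Λ a ≠ 0) (hb : Λ b ≠ 0)
    (ha1 : ht a = 1) (hb1 : ht b = 1) (hv : ∀ n : ℕ, n ≠ 0 → n • (δ a - δ b) ≠ 0)
    (ε : ℝ≥0∞) (hε : ε ≠ 0) : ∃ N, ∀ n, N ≤ n → ∀ z, V Λ ht δ n z ≤ ε := by
  classical
  set q : ℝ≥0∞ := ⨅ N : ℕ, ⨆ n : ℕ, ⨆ z : G, V Λ ht δ (N + n) z with hqdef
  have hV1 : ∀ n z, V Λ ht δ n z ≤ 1 := fun n z =>
    (V_le_U Λ ht δ n z).trans (U_le_one Λ ht h1 hΛ n)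
  have hq1 : q ≤ 1 := iInf_le_of_le 0 (iSup_le fun n => iSup_le fun z => hV1 _ _)
  have hqt : q ≠ ⊤ := ne_top_of_le_ne_top ENNReal.one_ne_top hq1
  have hup : ∀ η : ℝ≥0∞, η ≠ 0 → ∃ N, ∀ n, N ≤ n → ∀ z, V Λ ht δ n z ≤ q + η := by
    intro η hη
    have hlt : q < q + η := ENNReal.lt_add_right hqt hη
    rw [hqdef] at hlt
    obtain ⟨N, hN⟩ := iInf_lt_iff.1 hlt
    refine ⟨N, fun n hn z => ?_⟩
    rw [← hqdef] at hN
    refine le_trans ?_ hN.le
    have e : n = N + (n - N) := by omega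
    rw [e]
    exact le_iSup_of_le (n - N) (le_iSup_of_le z le_rfl)
  have hlow : ∀ η : ℝ≥0∞, η ≠ 0 → ∀ N, ∃ n, N ≤ n ∧ ∃ z, q ≤ V Λ ht δ n z + η := by
    intro η hη N
    by_cases hq0 : q = 0
    · exact ⟨N, le_rfl, 0, by rw [hq0]; exact zero_le⟩
    by_contra hcon
    push Not at hcon
    have h2 : ⨆ n : ℕ, ⨆ z : G, V Λ ht δ (N + n) z ≤ q - η :=
      iSup_le fun n => iSup_le fun z => ENNReal.le_sub_of_add_le_right
        (fun h => by
          have := hcon (N + n) (by omega) z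
          rw [h, add_top] at this
          exact absurd this (by simp)) (hcon (N + n) (by omega) z).le
    have h3 : q ≤ q - η := (iInf_le _ N).trans h2
    exact absurd h3 (not_le.2 (ENNReal.sub_lt_self hqt hq0 hη))
  have hP : ∀ k : ℕ, ∀ η : ℝ≥0∞, η ≠ 0 → ∀ N, ∃ n, N ≤ n ∧ ∃ z, ∀ j, j ≤ k →
      q ≤ V Λ ht δ n (z + j • (δ a - δ b)) + η := by
    intro k
    induction k with
    | zero =>
      intro η hη N
      obtain ⟨n, hn, z, hz⟩ := hlow η hη N
      refine ⟨n, hn, z, fun j hj => ?_⟩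
      have : j = 0 := by omega
      subst this
      simpa using hz
    | succ k ih =>
      intro η hη N
      obtain ⟨η₁, hη₁, N₁, hN₁⟩ := max_step Λ ht δ h1 hΛ q hq1 hup a ha ha1 η hη
      obtain ⟨η₂, hη₂, N₂, hN₂⟩ := max_step Λ ht δ h1 hΛ q hq1 hup b hb hb1 η hη
      obtain ⟨n, hn, z, hz⟩ := ih (min η₁ η₂)
        (lt_min (pos_iff_ne_zero.2 hη₁) (pos_iff_ne_zero.2 hη₂)).ne' (N + N₁ + N₂ + 1)
      refine ⟨n - 1, by omega, z - δ a, fun j hj => ?_⟩
      by_cases hjk : j ≤ k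
      · have := hN₁ n (by omega) _ ((hz j hjk).trans (add_le_add le_rfl (min_le_left _ _)))
        convert this using 3
        abel
      · have hjk' : j = k + 1 := by omega
        subst hjk'
        have := hN₂ n (by omega) _ ((hz k le_rfl).trans (add_le_add le_rfl (min_le_right _ _)))
        convert this using 3
        rw [succ_nsmul]
        abel
  have hq0 : q = 0 := by
    by_contra hq0
    -- choose `k` with `(k+1) * (q/2) > 1`
    have hq2 : q / 2 ≠ 0 := by
      rw [Ne, ENNReal.div_eq_zero_iff, not_or]; exact ⟨hq0, by norm_num⟩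
    have hq2t : q / 2 ≠ ⊤ := ne_top_of_le_ne_top hqt (ENNReal.half_le_self)
    obtain ⟨k, hk⟩ := ENNReal.exists_nat_mul_gt hq2 ENNReal.one_ne_top
    obtain ⟨n, _, z, hz⟩ := hP k (q / 2) hq2 0
    have hge : ∀ j, j ≤ k → q / 2 ≤ V Λ ht δ n (z + j • (δ a - δ b)) := by
      intro j hj
      have := hz j hj
      rw [← ENNReal.add_halves q] at this
      exact (ENNReal.add_le_add_iff_right (by simpa using hq2t)).1 (by simpa using this)
    have hinj : Set.InjOn (fun j : ℕ => z + j • (δ a - δ b)) (Finset.range k : Finset ℕ) := by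
      intro i _ j _ hij
      have h2 : i • (δ a - δ b) = j • (δ a - δ b) := add_left_cancel hij
      by_contra hne
      rcases lt_or_gt_of_ne hne with hlt | hlt
      · apply hv (j - i) (by omega)
        have : j = i + (j - i) := by omega
        rw [this, add_nsmul] at h2
        exact (left_eq_add.1 h2)
      · apply hv (i - j) (by omega)
        have : i = j + (i - j) := by omega
        rw [this, add_nsmul] at h2
        exact (left_eq_add.1 h2.symm)
    have h8 : (k : ℝ≥0∞) * (q / 2) ≤ 1 := by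
      calc (k : ℝ≥0∞) * (q / 2) = ∑ j ∈ Finset.range k, q / 2 := by simp
        _ ≤ ∑ j ∈ Finset.range k, V Λ ht δ n (z + j • (δ a - δ b)) :=
            Finset.sum_le_sum fun j hj => hge j (Finset.mem_range.1 hj).le
        _ = ∑ y ∈ (Finset.range k).image (fun j : ℕ => z + j • (δ a - δ b)), V Λ ht δ n y := by
            rw [Finset.sum_image hinj]
        _ ≤ ∑' y, V Λ ht δ n y := ENNReal.sum_le_tsum _
        _ = U Λ ht n := tsum_V Λ ht δ n
        _ ≤ 1 := U_le_one Λ ht h1 hΛ n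
    exact absurd h8 (not_le.2 hk)
  obtain ⟨N, hN⟩ := hup ε hε
  exact ⟨N, fun n hn z => by simpa [hq0] using hN n hn z⟩

lemma sumP (h1 : ∀ b, 1 ≤ ht b) (hΛ : ∑' b, Λ b = 1) (a H : ℕ) :
    ∑' P : List B, (if HT ht P < a ∧ a ≤ HT ht P + H then LW Λ P else 0) ≤ H := by
  classical
  calc _ ≤ ∑' P : List B, ∑ h ∈ Finset.Ico (a - H) a, (if HT ht P = h then LW Λ P else 0) := by
        refine ENNReal.tsum_le_tsum fun P => ?_
        by_cases hP : HT ht P < a ∧ a ≤ HT ht P + H
        · rw [if_pos hP]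
          refine le_trans ?_ (Finset.single_le_sum (f := fun h =>
            (if HT ht P = h then LW Λ P else 0)) (fun _ _ => zero_le)
            (Finset.mem_Ico.2 ⟨by omega, hP.1⟩ : HT ht P ∈ Finset.Ico (a - H) a))
          simp
        · rw [if_neg hP]; exact zero_le
    _ = ∑ h ∈ Finset.Ico (a - H) a, U Λ ht h := by
        rw [Summable.tsum_finsetSum (fun _ _ => ENNReal.summable)]; rfl
    _ ≤ ∑ h ∈ Finset.Ico (a - H) a, 1 := Finset.sum_le_sum fun h _ => U_le_one Λ ht h1 hΛ h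
    _ ≤ H := by
        simp only [Finset.sum_const, Nat.card_Ico, nsmul_eq_mul, mul_one]
        exact_mod_cast (by omega : a - (a - H) ≤ H)

open Classical in
lemma sumPz (a H : ℕ) (ε : ℝ≥0∞) (hV : ∀ h, a - H ≤ h → ∀ z, V Λ ht δ h z ≤ ε)
    (D : Finset G) :
    ∑' P : List B, (if (HT ht P < a ∧ a ≤ HT ht P + H) ∧ Dp δ P ∈ D then LW Λ P else 0)
      ≤ H * (D.card * ε) := by
  calc _ ≤ ∑' P : List B, ∑ h ∈ Finset.Ico (a - H) a, ∑ z ∈ D,
        (if HT ht P = h ∧ Dp δ P = z then LW Λ P else 0) := by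
        refine ENNReal.tsum_le_tsum fun P => ?_
        by_cases hP : (HT ht P < a ∧ a ≤ HT ht P + H) ∧ Dp δ P ∈ D
        · rw [if_pos hP]
          refine le_trans ?_ (Finset.single_le_sum (f := fun h => ∑ z ∈ D,
            (if HT ht P = h ∧ Dp δ P = z then LW Λ P else 0)) (fun _ _ => zero_le)
            (Finset.mem_Ico.2 ⟨by omega, hP.1.1⟩ : HT ht P ∈ Finset.Ico (a - H) a))
          refine le_trans ?_ (Finset.single_le_sum (f := fun z =>
            (if HT ht P = HT ht P ∧ Dp δ P = z then LW Λ P else 0)) (fun _ _ => zero_le) hP.2)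
          simp
        · rw [if_neg hP]; exact zero_le
    _ = ∑ h ∈ Finset.Ico (a - H) a, ∑ z ∈ D, V Λ ht δ h z := by
        rw [Summable.tsum_finsetSum (fun _ _ => ENNReal.summable)]
        refine Finset.sum_congr rfl fun h _ => ?_
        rw [Summable.tsum_finsetSum (fun _ _ => ENNReal.summable)]
        rfl
    _ ≤ ∑ h ∈ Finset.Ico (a - H) a, ∑ z ∈ D, ε :=
        Finset.sum_le_sum fun h hh => Finset.sum_le_sum fun z _ =>
          hV h (Finset.mem_Ico.1 hh).1 z
    _ ≤ _ := by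
        simp only [Finset.sum_const, Nat.card_Ico, nsmul_eq_mul]
        exact mul_le_mul_left (by exact_mod_cast (by omega : a - (a - H) ≤ H)) _

end sums


/-! ### the thin slab -/

section main

open Classical in
lemma exists_fin {α : Type*} (f : α → ℝ≥0∞) (hf : ∑' x, f x ≠ ⊤) (η : ℝ≥0∞) (hη : η ≠ 0) :
    ∃ s : Finset α, ∑' x, (if x ∈ s then 0 else f x) ≤ η := by
  have h3 := ENNReal.tendsto_tsum_compl_atTop_zero hf
  obtain ⟨s, hs⟩ := (h3.eventually (eventually_le_nhds (pos_iff_ne_zero.2 hη))).exists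
  refine ⟨s, le_trans ?_ hs⟩
  rw [← tsum_subtype_eq_of_support_subset (s := {x | x ∉ s})]
  · refine ENNReal.tsum_le_tsum fun b => ?_
    split_ifs <;> simp
  · intro b hb
    rw [Function.mem_support] at hb
    intro hbs
    exact hb (if_pos hbs)

lemma sumLen {B : Type*} (Λ : B → ℝ≥0∞) (hΛ : ∑' b, Λ b = 1) (s : ℕ) :
    ∑' L : List B, (if L.length ≤ s then LW Λ L else 0) ≤ (s + 1 : ℕ) := by
  calc _ ≤ ∑' L : List B, ∑ j ∈ Finset.range (s + 1), (if L.length = j then LW Λ L * 1 else 0) := by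
        refine ENNReal.tsum_le_tsum fun L => ?_
        by_cases hL : L.length ≤ s
        · rw [if_pos hL]
          refine le_trans ?_ (Finset.single_le_sum (f := fun j =>
            (if L.length = j then LW Λ L * 1 else 0)) (fun _ _ => zero_le)
            (Finset.mem_range.2 (by omega) : L.length ∈ Finset.range (s + 1)))
          simp
        · rw [if_neg hL]; exact zero_le
    _ = ∑ j ∈ Finset.range (s + 1), SL Λ j (fun _ => 1) := by
        rw [Summable.tsum_finsetSum (fun _ _ => ENNReal.summable)]; rfl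
    _ = (s + 1 : ℕ) := by
        rw [Finset.sum_congr rfl fun j _ => SL_one Λ hΛ j]
        simp

lemma sumR {B : Type*} (Λ : B → ℝ≥0∞) (ht : B → ℕ) (h1 : ∀ b, 1 ≤ ht b) (hΛ : ∑' b, Λ b = 1)
    (c n : ℕ) : ∑' R : List B, (if c + HT ht R = n then LW Λ R else 0) ≤ 1 := by
  by_cases hc : c ≤ n
  · refine le_trans (le_of_eq ?_) (U_le_one Λ ht h1 hΛ (n - c))
    rw [U]
    refine tsum_congr fun R => ?_
    by_cases h : c + HT ht R = n
    · rw [if_pos h, if_pos (by omega)]
    · rw [if_neg h, if_neg (by omega)]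
  · refine le_trans (le_of_eq ?_) zero_le
    refine ENNReal.tsum_eq_zero.2 fun R => ?_
    rw [if_neg (by omega)]

variable {BX BY G : Type*} [AddCommGroup G]

open Classical in
/-- **H5 (thin slab)** in 540's literal. -/
theorem H5 (ΛX : BX → ℝ≥0∞) (ΛY : BY → ℝ≥0∞) (hX : BX → ℕ) (hY : BY → ℕ) (zX : BX → G)
    (zY : BY → G) (sX : BX → Set (G × ℕ)) (sY : BY → Set (G × ℕ))
    (h1X : ∀ b, 1 ≤ hX b) (h1Y : ∀ b, 1 ≤ hY b)
    (hΛX : ∑' b, ΛX b = 1) (hΛY : ∑' b, ΛY b = 1)
    (hEX : ∑' b, ΛX b * (hX b : ℝ≥0∞) ≠ ⊤) (hEY : ∑' b, ΛY b * (hY b : ℝ≥0∞) ≠ ⊤)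
    (hsX : ∀ b, ∀ p ∈ sX b, 1 ≤ p.2 ∧ p.2 ≤ hX b)
    (hsY : ∀ b, ∀ p ∈ sY b, 1 ≤ p.2 ∧ p.2 ≤ hY b)
    (hfX : ∀ b, (sX b).Finite) (hfY : ∀ b, (sY b).Finite)
    (hconc : ∀ ε : ℝ≥0∞, ε ≠ 0 → ∃ N, ∀ n, N ≤ n → ∀ z, V ΛX hX zX n z ≤ ε)
    (s : ℕ) (η : ℝ≥0∞) (hη : η ≠ 0) :
    ∃ T, ∀ a, T ≤ a → ∀ n, ∀ w : G, ∑' LX : List BX, ∑' LY : List BY,
      (if HT hX LX = n ∧ HT hY LY = n ∧ ∃ z k, a ≤ k ∧ k < a + s ∧
        (z, k) ∈ TS hX zX sX LX 0 0 ∧ (z, k) ∈ TS hY zY sY LY w 0
      then LW ΛX LX * LW ΛY LY else 0) ≤ η := by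
  -- weights of segments
  set ωX : BX × List BX → ℝ≥0∞ := fun σ => ΛX σ.1 * (if σ.2.length ≤ s then LW ΛX σ.2 else 0)
    with hωX
  set ωY : BY × List BY → ℝ≥0∞ := fun σ => ΛY σ.1 * (if σ.2.length ≤ s then LW ΛY σ.2 else 0)
    with hωY
  have hmX : ∑' σ : BX × List BX, ωX σ * (hX σ.1 : ℝ≥0∞) ≠ ⊤ := by
    have : ∑' σ : BX × List BX, ωX σ * (hX σ.1 : ℝ≥0∞)
        = (∑' b, ΛX b * (hX b : ℝ≥0∞)) *
          ∑' L : List BX, (if L.length ≤ s then LW ΛX L else 0) := by
      rw [ENNReal.tsum_prod', ← ENNReal.tsum_mul_right]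
      refine tsum_congr fun b => ?_
      rw [← ENNReal.tsum_mul_left]
      refine tsum_congr fun L => ?_
      simp only [hωX]
      ring
    rw [this]
    exact ENNReal.mul_ne_top hEX
      (ne_top_of_le_ne_top (ENNReal.natCast_ne_top _) (sumLen ΛX hΛX s))
  have hmY : ∑' σ : BY × List BY, ωY σ * (hY σ.1 : ℝ≥0∞) ≠ ⊤ := by
    have : ∑' σ : BY × List BY, ωY σ * (hY σ.1 : ℝ≥0∞)
        = (∑' b, ΛY b * (hY b : ℝ≥0∞)) *
          ∑' L : List BY, (if L.length ≤ s then LW ΛY L else 0) := by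
      rw [ENNReal.tsum_prod', ← ENNReal.tsum_mul_right]
      refine tsum_congr fun b => ?_
      rw [← ENNReal.tsum_mul_left]
      refine tsum_congr fun L => ?_
      simp only [hωY]
      ring
    rw [this]
    exact ENNReal.mul_ne_top hEY
      (ne_top_of_le_ne_top (ENNReal.natCast_ne_top _) (sumLen ΛY hΛY s))
  set f : (BX × List BX) × (BY × List BY) → ℝ≥0∞ :=
    fun x => (ωX x.1 * (hX x.1.1 : ℝ≥0∞)) * (ωY x.2 * (hY x.2.1 : ℝ≥0∞)) with hf
  have hftop : ∑' x, f x ≠ ⊤ := by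
    have : ∑' x, f x = (∑' σ : BX × List BX, ωX σ * (hX σ.1 : ℝ≥0∞))
        * ∑' σ : BY × List BY, ωY σ * (hY σ.1 : ℝ≥0∞) := by
      rw [ENNReal.tsum_prod', ← ENNReal.tsum_mul_right]
      refine tsum_congr fun σ => ?_
      rw [← ENNReal.tsum_mul_left]
    rw [this]
    exact ENNReal.mul_ne_top hmX hmY
  have hη2 : η / 2 ≠ 0 := by
    rw [Ne, ENNReal.div_eq_zero_iff, not_or]; exact ⟨hη, by norm_num⟩
  obtain ⟨K, hK⟩ := exists_fin f hftop (η / 2) hη2
  have hK' : ∑' x, (if x ∈ K then 0 else f x) ≤ η / 2 := by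
    refine le_trans (le_of_eq (tsum_congr fun x => ?_)) hK
    by_cases hx : x ∈ K
    · rw [if_pos hx, if_pos hx]
    · rw [if_neg hx, if_neg hx]
  -- the finite set of differences
  have hfin : ∀ x : (BX × List BX) × (BY × List BY),
      ((fun p : (G × ℕ) × (G × ℕ) => p.2.1 - p.1.1) ''
        ((TS hX zX sX (x.1.1 :: x.1.2) 0 0) ×ˢ (TS hY zY sY (x.2.1 :: x.2.2) 0 0))).Finite :=
    fun x => ((TS_finite hX zX sX hfX _ _ _).prod (TS_finite hY zY sY hfY _ _ _)).image _
  set DF : (BX × List BX) × (BY × List BY) → Finset G := fun x => (hfin x).toFinset with hDF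
  set Cst : ℝ≥0∞ := ∑ x ∈ K, f x * ((DF x).card : ℝ≥0∞) with hCst
  have hCt : Cst ≠ ⊤ := by
    rw [hCst]
    refine ENNReal.sum_ne_top.2 fun x _ => ENNReal.mul_ne_top ?_ (ENNReal.natCast_ne_top _)
    exact ne_top_of_le_ne_top hftop (ENNReal.le_tsum x)
  set ε : ℝ≥0∞ := (η / 2) / (Cst + 1) with hε
  have hε0 : ε ≠ 0 := by
    rw [hε, Ne, ENNReal.div_eq_zero_iff, not_or]
    exact ⟨hη2, ENNReal.add_ne_top.2 ⟨hCt, ENNReal.one_ne_top⟩⟩
  have hCε : Cst * ε ≤ η / 2 := by
    calc Cst * ε ≤ (Cst + 1) * ε := mul_le_mul_left le_self_add _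
      _ = η / 2 := by
        rw [hε]
        exact ENNReal.mul_div_cancel (by simp) (ENNReal.add_ne_top.2 ⟨hCt, ENNReal.one_ne_top⟩)
  obtain ⟨N, hN⟩ := hconc ε hε0
  set HK : ℕ := ∑ x ∈ K, hX x.1.1 with hHK
  refine ⟨N + HK + 1, fun a ha n w => ?_⟩
  -- the bound for fixed segments
  set A : (BX × List BX) × (BY × List BY) → ℝ≥0∞ := fun x =>
    ∑' PP : List BX × List BY,
      (if (HT hX PP.1 < a ∧ a ≤ HT hX PP.1 + hX x.1.1) ∧
          (HT hY PP.2 < a ∧ a ≤ HT hY PP.2 + hY x.2.1) ∧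
          Dp zX PP.1 ∈ (DF x).image (fun v => w + Dp zY PP.2 + v)
        then LW ΛX PP.1 * LW ΛY PP.2 else 0) with hA
  have hA1 : ∀ x, A x ≤ (hX x.1.1 : ℝ≥0∞) * (hY x.2.1 : ℝ≥0∞) := by
    intro x
    calc A x ≤ ∑' PP : List BX × List BY,
          (if HT hX PP.1 < a ∧ a ≤ HT hX PP.1 + hX x.1.1 then LW ΛX PP.1 else 0) *
          (if HT hY PP.2 < a ∧ a ≤ HT hY PP.2 + hY x.2.1 then LW ΛY PP.2 else 0) := by
          refine ENNReal.tsum_le_tsum fun PP => ?_
          split_ifs with h2 h3 h4 <;> first | exact le_rfl | exact zero_le | (exfalso; tauto)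
      _ = (∑' P : List BX, if HT hX P < a ∧ a ≤ HT hX P + hX x.1.1 then LW ΛX P else 0) *
          ∑' P : List BY, (if HT hY P < a ∧ a ≤ HT hY P + hY x.2.1 then LW ΛY P else 0) := by
          rw [ENNReal.tsum_prod', ← ENNReal.tsum_mul_right]
          refine tsum_congr fun P => ?_
          rw [← ENNReal.tsum_mul_left]
      _ ≤ _ := mul_le_mul' (sumP ΛX hX h1X hΛX a _) (sumP ΛY hY h1Y hΛY a _)
  have hA2 : ∀ x ∈ K, A x ≤ (hX x.1.1 : ℝ≥0∞) * (hY x.2.1 : ℝ≥0∞) * (((DF x).card : ℝ≥0∞) * ε) := by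
    intro x hx
    have hxK : hX x.1.1 ≤ HK :=
      Finset.single_le_sum (f := fun x : (BX × List BX) × (BY × List BY) => hX x.1.1)
        (fun _ _ => Nat.zero_le _) hx
    have e1 : A x = ∑' P' : List BY, ∑' P : List BX,
        (if (HT hX P < a ∧ a ≤ HT hX P + hX x.1.1) ∧
          (HT hY P' < a ∧ a ≤ HT hY P' + hY x.2.1) ∧
          Dp zX P ∈ (DF x).image (fun v => w + Dp zY P' + v)
        then LW ΛX P * LW ΛY P' else 0) := by
      simp only [hA]
      rw [ENNReal.tsum_prod', ENNReal.tsum_comm]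
    rw [e1]
    calc _ ≤ ∑' P' : List BY,
          (if HT hY P' < a ∧ a ≤ HT hY P' + hY x.2.1 then LW ΛY P' else 0) *
            ((hX x.1.1 : ℝ≥0∞) * (((DF x).card : ℝ≥0∞) * ε)) := by
          refine ENNReal.tsum_le_tsum fun P' => ?_
          by_cases hP' : HT hY P' < a ∧ a ≤ HT hY P' + hY x.2.1
          · rw [if_pos hP']
            calc _ ≤ ∑' P : List BX, LW ΛY P' *
                  (if (HT hX P < a ∧ a ≤ HT hX P + hX x.1.1) ∧
                    Dp zX P ∈ (DF x).image (fun v => w + Dp zY P' + v) then LW ΛX P else 0) := by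
                  refine ENNReal.tsum_le_tsum fun P => ?_
                  by_cases hP : (HT hX P < a ∧ a ≤ HT hX P + hX x.1.1) ∧
                    Dp zX P ∈ (DF x).image (fun v => w + Dp zY P' + v)
                  · rw [if_pos ⟨hP.1, hP', hP.2⟩, if_pos hP, mul_comm]
                  · rw [if_neg (fun h => hP ⟨h.1, h.2.2⟩)]; exact zero_le
              _ = LW ΛY P' * ∑' P : List BX,
                  (if (HT hX P < a ∧ a ≤ HT hX P + hX x.1.1) ∧
                    Dp zX P ∈ (DF x).image (fun v => w + Dp zY P' + v) then LW ΛX P else 0) :=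
                  ENNReal.tsum_mul_left
              _ ≤ _ := by
                  refine mul_le_mul_right ?_ _
                  refine (sumPz ΛX hX zX a (hX x.1.1) ε
                    (fun h hh z => hN h (by omega) z) _).trans ?_
                  refine mul_le_mul_right (mul_le_mul_left ?_ _) _
                  exact_mod_cast Finset.card_image_le
          · rw [if_neg hP', zero_mul]
            refine le_of_eq (ENNReal.tsum_eq_zero.2 fun P => ?_)
            rw [if_neg (fun h => hP' h.2.1)]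
      _ = (∑' P' : List BY, (if HT hY P' < a ∧ a ≤ HT hY P' + hY x.2.1 then LW ΛY P' else 0)) *
            ((hX x.1.1 : ℝ≥0∞) * (((DF x).card : ℝ≥0∞) * ε)) := ENNReal.tsum_mul_right
      _ ≤ (hY x.2.1 : ℝ≥0∞) * ((hX x.1.1 : ℝ≥0∞) * (((DF x).card : ℝ≥0∞) * ε)) :=
          mul_le_mul_left (sumP ΛY hY h1Y hΛY a _) _
      _ = _ := by ring
  -- reduction to segments
  have hmain : ∑' LX : List BX, ∑' LY : List BY,
      (if HT hX LX = n ∧ HT hY LY = n ∧ ∃ z k, a ≤ k ∧ k < a + s ∧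
        (z, k) ∈ TS hX zX sX LX 0 0 ∧ (z, k) ∈ TS hY zY sY LY w 0
      then LW ΛX LX * LW ΛY LY else 0) ≤ ∑' x, ωX x.1 * ωY x.2 * A x := by
    set F : List BX × List BY → ℝ≥0∞ := fun p =>
      if HT hX p.1 = n ∧ HT hY p.2 = n ∧ ∃ z k, a ≤ k ∧ k < a + s ∧
        (z, k) ∈ TS hX zX sX p.1 0 0 ∧ (z, k) ∈ TS hY zY sY p.2 w 0
      then LW ΛX p.1 * LW ΛY p.2 else 0 with hF
    have e0 : ∑' LX : List BX, ∑' LY : List BY,
      (if HT hX LX = n ∧ HT hY LY = n ∧ ∃ z k, a ≤ k ∧ k < a + s ∧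
        (z, k) ∈ TS hX zX sX LX 0 0 ∧ (z, k) ∈ TS hY zY sY LY w 0
      then LW ΛX LX * LW ΛY LY else 0) = ∑' p, F p := (ENNReal.tsum_prod' (f := F)).symm
    rw [e0]
    set g : ((BX × List BX) × (BY × List BY)) × ((List BX × List BY) × (List BX × List BY)) → ℝ≥0∞ :=
      fun y => (ωX y.1.1 * ωY y.1.2 *
        (if (HT hX y.2.1.1 < a ∧ a ≤ HT hX y.2.1.1 + hX y.1.1.1) ∧
          (HT hY y.2.1.2 < a ∧ a ≤ HT hY y.2.1.2 + hY y.1.2.1) ∧
          Dp zX y.2.1.1 ∈ (DF y.1).image (fun v => w + Dp zY y.2.1.2 + v)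
        then LW ΛX y.2.1.1 * LW ΛY y.2.1.2 else 0)) *
        ((if (HT hX y.2.1.1 + HT hX (y.1.1.1 :: y.1.1.2)) + HT hX y.2.2.1 = n
            then LW ΛX y.2.2.1 else 0) *
         (if (HT hY y.2.1.2 + HT hY (y.1.2.1 :: y.1.2.2)) + HT hY y.2.2.2 = n
            then LW ΛY y.2.2.2 else 0)) with hg
    calc _ ≤ ∑' y, g y := by
          refine tsum_le_of_split _ g (fun y =>
            (y.2.1.1 ++ (y.1.1.1 :: y.1.1.2 ++ y.2.2.1),
              y.2.1.2 ++ (y.1.2.1 :: y.1.2.2 ++ y.2.2.2))) ?_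
          rintro ⟨LX, LY⟩ hne
          simp only [hF] at hne ⊢
          rw [Ne, ite_eq_right_iff, Classical.not_imp] at hne
          obtain ⟨⟨hn1, hn2, z, k, hk1, hk2, hzX, hzY⟩, _⟩ := hne
          have dX := TS_depth hX zX sX hsX _ _ _ _ hzX
          have dY := TS_depth hY zY sY hsY _ _ _ _ hzY
          simp only [zero_add] at dX dY
          obtain ⟨P, b, S, R, eX, hP1, hP2, hS, hseg⟩ :=
            exists_seg hX zX sX h1X hsX LX a s (by omega) (by omega) 0
          obtain ⟨P', b', S', R', eY, hP1', hP2', hS', hseg'⟩ :=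
            exists_seg hY zY sY h1Y hsY LY a s (by omega) (by omega) w
          refine ⟨(((b, S), (b', S')), ((P, P'), (R, R'))), ?_, ?_⟩
          · simp only [eX, eY]
          · simp only [hg]
            rw [if_pos ⟨hn1, hn2, z, k, hk1, hk2, hzX, hzY⟩]
            have hD : Dp zX P ∈ (DF ((b, S), (b', S'))).image (fun v => w + Dp zY P' + v) := by
              obtain ⟨q1, hq1, e1⟩ := TS_shift hX zX sX _ _ _ _ (hseg z k hk1 hk2 hzX)
              obtain ⟨q2, hq2, e2⟩ := TS_shift hY zY sY _ _ _ _ (hseg' z k hk1 hk2 hzY)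
              rw [Finset.mem_image]
              refine ⟨q2.1 - q1.1, ?_, ?_⟩
              · rw [hDF, Set.Finite.mem_toFinset]
                exact ⟨(q1, q2), ⟨hq1, hq2⟩, rfl⟩
              · have f1 : z = 0 + Dp zX P + q1.1 := congrArg Prod.fst e1
                have f2 : z = w + Dp zY P' + q2.1 := congrArg Prod.fst e2
                rw [zero_add] at f1
                have f3 : Dp zX P = z - q1.1 := by rw [f1]; abel
                rw [f3, f2]; abel
            rw [if_pos ⟨⟨hP1, hP2⟩, ⟨hP1', hP2'⟩, hD⟩]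
            have hnX : HT hX P + HT hX (b :: S) + HT hX R = n := by
              rw [← hn1, eX, HT_append, HT_append]; omega
            have hnY : HT hY P' + HT hY (b' :: S') + HT hY R' = n := by
              rw [← hn2, eY, HT_append, HT_append]; omega
            rw [if_pos hnX, if_pos hnY]
            simp only [hωX, hωY]
            rw [if_pos hS, if_pos hS', eX, eY, LW_append, LW_append, LW_append, LW_append,
              LW_cons, LW_cons]
            refine le_of_eq ?_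
            ring
      _ = ∑' x, ∑' PP : List BX × List BY, ∑' RR : List BX × List BY, g (x, (PP, RR)) := by
          rw [ENNReal.tsum_prod']
          refine tsum_congr fun x => ?_
          rw [ENNReal.tsum_prod']
      _ ≤ ∑' x, ∑' PP : List BX × List BY, (ωX x.1 * ωY x.2 *
            (if (HT hX PP.1 < a ∧ a ≤ HT hX PP.1 + hX x.1.1) ∧
              (HT hY PP.2 < a ∧ a ≤ HT hY PP.2 + hY x.2.1) ∧
              Dp zX PP.1 ∈ (DF x).image (fun v => w + Dp zY PP.2 + v)
            then LW ΛX PP.1 * LW ΛY PP.2 else 0)) := by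
          refine ENNReal.tsum_le_tsum fun x => ENNReal.tsum_le_tsum fun PP => ?_
          simp only [hg]
          rw [ENNReal.tsum_mul_left]
          refine mul_le_of_le_one_right zero_le ?_
          rw [ENNReal.tsum_prod']
          calc _ = (∑' R : List BX, (if (HT hX PP.1 + HT hX (x.1.1 :: x.1.2)) + HT hX R = n
                then LW ΛX R else 0)) *
              ∑' R : List BY, (if (HT hY PP.2 + HT hY (x.2.1 :: x.2.2)) + HT hY R = n
                then LW ΛY R else 0) := by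
                rw [← ENNReal.tsum_mul_right]
                refine tsum_congr fun R => ?_
                rw [← ENNReal.tsum_mul_left]
            _ ≤ 1 * 1 := mul_le_mul' (sumR ΛX hX h1X hΛX _ _) (sumR ΛY hY h1Y hΛY _ _)
            _ = 1 := one_mul 1
      _ = ∑' x, ωX x.1 * ωY x.2 * A x := by
          refine tsum_congr fun x => ?_
          simp only [hA]
          rw [ENNReal.tsum_mul_left]
  refine hmain.trans ?_
  calc ∑' x, ωX x.1 * ωY x.2 * A x
      ≤ ∑' x, ((if x ∈ K then f x * (((DF x).card : ℝ≥0∞) * ε) else 0)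
        + (if x ∈ K then 0 else f x)) := by
        refine ENNReal.tsum_le_tsum fun x => ?_
        by_cases hx : x ∈ K
        · rw [if_pos hx, if_pos hx, add_zero]
          calc _ ≤ ωX x.1 * ωY x.2 *
                ((hX x.1.1 : ℝ≥0∞) * (hY x.2.1 : ℝ≥0∞) * (((DF x).card : ℝ≥0∞) * ε)) :=
                mul_le_mul_right (hA2 x hx) _
            _ = _ := by simp only [hf]; ring
        · rw [if_neg hx, if_neg hx, zero_add]
          calc _ ≤ ωX x.1 * ωY x.2 * ((hX x.1.1 : ℝ≥0∞) * (hY x.2.1 : ℝ≥0∞)) :=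
                mul_le_mul_right (hA1 x) _
            _ = _ := by simp only [hf]; ring
    _ = (∑' x, (if x ∈ K then f x * (((DF x).card : ℝ≥0∞) * ε) else 0))
        + ∑' x, (if x ∈ K then 0 else f x) := ENNReal.tsum_add
    _ ≤ η / 2 + η / 2 := by
        refine add_le_add ?_ hK'
        rw [tsum_eq_sum (s := K) (fun x hx => if_neg hx),
          Finset.sum_congr rfl fun x hx => if_pos hx]
        refine le_trans (le_of_eq ?_) hCε
        rw [hCst, Finset.sum_mul]
        refine Finset.sum_congr rfl fun x _ => ?_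
        ring
    _ = η := ENNReal.add_halves η

end main

end Crest.Agent.R154.H5N501
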