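import Crest.Agent.R154.AsmB_498
import Crest.Agent.R154.H5_501

/-! Row 154, ROAD 801 (helper498): one window, in operator form (`fpS` of `AsmA_508`). -/

set_option autoImplicit false

namespace Crest.Agent.R154.Asm498

open Crest.Agent.R154.B5A
open Crest.Agent.R154.Asm508
open Crest.Agent.R154.H5N501 (TS TS_append TS_depth)
open scoped ENNReal

section one

variable {B : Type*} (Λ : B → ℝ≥0∞) (h : B → ℕ)

open Classical in
lemma U_sum_le (h1 : ∀ b, 1 ≤ h b) (hΛ : ∑' b, Λ b = 1) (c n : ℕ) (F : List B → ℝ≥0∞) (v : ℝ≥0∞)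
    (hF : ∀ R, F R ≤ if c + HT h R = n then v else 0) :
    ∑' R, LW Λ R * F R ≤ v := by
  by_cases hc : c ≤ n
  · calc ∑' R, LW Λ R * F R ≤ ∑' R, v * (if HT h R = n - c then LW Λ R else 0) := by
          refine ENNReal.tsum_le_tsum fun R => ?_
          refine (mul_le_mul_right (hF R) _).trans ?_
          by_cases hR : c + HT h R = n
          · rw [if_pos hR, if_pos (by omega), mul_comm]
          · rw [if_neg hR, mul_zero]; exact zero_le
      _ = v * U Λ h (n - c) := by rw [ENNReal.tsum_mul_left]; rfl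
      _ ≤ v * 1 := mul_le_mul_right (U_le_one Λ h h1 hΛ _) _
      _ = v := mul_one v
  · refine le_trans (le_of_eq ?_) (zero_le (a := v))
    rw [ENNReal.tsum_eq_zero]
    intro R
    have := hF R
    rw [if_neg (by omega)] at this
    rw [nonpos_iff_eq_zero.1 this, mul_zero]

open Classical in
lemma walk_le (h1 : ∀ b, 1 ≤ h b) (hΛ : ∑' b, Λ b = 1) (a t n i0 : ℕ) (hn : a + i0 + t ≤ n)
    (Φ : List B → ℝ≥0∞) (hΦ1 : ∀ L, Φ L ≤ 1) (hΦn : ∀ L, Φ L ≠ 0 → HT h L = n)
    (Ψ : List B → List B → ℝ≥0∞)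
    (hΨ : ∀ A P R, FP h A a → HT h A ≤ a + i0 → FP h P t → Φ (A ++ (P ++ R)) ≤ Ψ A P) :
    ∑' L, LW Λ L * Φ L ≤ ov Λ h i0 +
      fpS Λ h a (fun A => if HT h A ≤ a + i0 then fpS Λ h t (fun P => Ψ A P) else 0) := by
  rw [fp_split Λ h h1 a Φ (fun L hL => by have := hΦn L hL; omega)]
  calc _ ≤ fpS Λ h a (fun A => (if a + i0 < HT h A then 1 else 0) +
        (if HT h A ≤ a + i0 then fpS Λ h t (fun P => Ψ A P) else 0)) := by
        refine fpS_mono Λ h a fun A hA => ?_
        by_cases hc : HT h A ≤ a + i0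
        · rw [if_neg (by omega), if_pos hc, zero_add]
          rw [fp_split Λ h h1 t (fun R => Φ (A ++ R)) (fun L hL => by
            have := hΦn _ hL
            rw [HT_append] at this
            omega)]
          refine fpS_mono Λ h t fun P hP => ?_
          refine U_sum_le Λ h h1 hΛ (HT h A + HT h P) n _ _ fun R => ?_
          by_cases h0 : Φ (A ++ (P ++ R)) = 0
          · rw [h0]; exact zero_le
          · have := hΦn _ h0
            rw [HT_append, HT_append] at this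
            rw [if_pos (by omega)]
            exact hΨ A P R hA hc hP
        · rw [if_pos (by omega), if_neg hc, add_zero]
          refine U_sum_le Λ h h1 hΛ (HT h A) n _ _ fun R => ?_
          by_cases h0 : Φ (A ++ R) = 0
          · rw [h0]; exact zero_le
          · have := hΦn _ h0
            rw [HT_append] at this
            rw [if_pos this]
            exact hΦ1 _
    _ ≤ _ := by
        rw [fpS_add]
        exact add_le_add (over_le Λ h h1 hΛ a i0) le_rfl

end one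

lemma fpS_swap {B B' : Type*} (Λ : B → ℝ≥0∞) (h : B → ℕ) (Λ' : B' → ℝ≥0∞) (h' : B' → ℕ)
    (a b : ℕ) (f : List B → List B' → ℝ≥0∞) :
    fpS Λ h a (fun A => fpS Λ' h' b (fun A' => f A A'))
      = fpS Λ' h' b (fun A' => fpS Λ h a (fun A => f A A')) := by
  classical
  have e : ∀ (A : List B), (if FP h A a then LW Λ A * fpS Λ' h' b (fun A' => f A A') else 0)
      = ∑' A', (if FP h A a ∧ FP h' A' b then LW Λ A * (LW Λ' A' * f A A') else 0) := by
    intro A
    by_cases hA : FP h A a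
    · simp only [hA, true_and, if_true, fpS]
      rw [← ENNReal.tsum_mul_left]
      refine tsum_congr fun A' => ?_
      split_ifs <;> simp
    · simp [hA]
  have e' : ∀ (A' : List B'), (if FP h' A' b then LW Λ' A' * fpS Λ h a (fun A => f A A') else 0)
      = ∑' A, (if FP h A a ∧ FP h' A' b then LW Λ A * (LW Λ' A' * f A A') else 0) := by
    intro A'
    by_cases hA : FP h' A' b
    · simp only [hA, and_true, if_true, fpS]
      rw [← ENNReal.tsum_mul_left]
      refine tsum_congr fun A => ?_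
      split_ifs
      · ring
      · simp
    · simp [hA]
  rw [fpS, tsum_congr e, ENNReal.tsum_comm, fpS]
  exact (tsum_congr e').symm

section two

variable {BX BY G : Type*} [AddCommGroup G]
variable (ΛX : BX → ℝ≥0∞) (hX : BX → ℕ) (zX : BX → G) (sX : BX → Set (G × ℕ))
variable (ΛY : BY → ℝ≥0∞) (hY : BY → ℕ) (zY : BY → G) (sY : BY → Set (G × ℕ))

/-- event of the two pieces -/
def Ev (lo hi c c' : ℕ) (x : G) (P : List BX) (P' : List BY) : Prop :=
  (∃ g k, (g, k) ∈ TS hX zX sX P 0 c ∧ (g, k) ∈ TS hY zY sY P' x c') ∧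
  (∀ g k, (g, k) ∈ TS hX zX sX P 0 c → (g, k) ∈ TS hY zY sY P' x c' → lo ≤ k ∧ k ≤ hi)

/-- event of the full lists -/
def WE (a e lo hi : ℕ) (w : G) (LX : List BX) (LY : List BY) : Prop :=
  (∃ g k, lo ≤ k ∧ k ≤ hi ∧ (g, k) ∈ TS hX zX sX LX 0 0 ∧ (g, k) ∈ TS hY zY sY LY w 0) ∧
  (∀ g k, (g, k) ∈ TS hX zX sX LX 0 0 → (g, k) ∈ TS hY zY sY LY w 0 → a < k → k ≤ e →
    lo ≤ k ∧ k ≤ hi)

open Classical in
/-- the window lemma, `loc` = which of the pieces is local -/
def HW (loc : Finset G → List BX → List BY → Prop) (C : ℝ≥0∞) (us : ℕ → ℕ → ℝ≥0∞) : Prop :=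
  ∀ (i s h h' a a' lo hi : ℕ) (E : Finset G) (μ : G → ℝ≥0∞) (M lam : ℝ≥0∞),
    ∑' x, μ x ≤ 1 → (∀ x, μ x ≤ M) → lam ≠ 0 → lam ≠ ⊤ →
    a ≤ a' → a + h ≤ a' + h' → a' ≤ a + i → a' + h' ≤ a + h + i →
    a + s ≤ lo → a' + s ≤ lo → hi + s ≤ a + h → hi + s ≤ a' + h' →
    ∑' x, μ x * ∑' L : List BX, ∑' L' : List BY,
      (if HT hX L = h ∧ HT hY L' = h' ∧ loc E L L' ∧ Ev hX zX sX hY zY sY lo hi a a' x L L'
        then LW ΛX L * LW ΛY L' else 0) ≤ C * (lam + M * E.card * us i s / lam + us i s)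

lemma TS_trans {B : Type*} (h : B → ℕ) (z : B → G) (sb : B → Set (G × ℕ)) (L : List B)
    (x y g : G) (a k : ℕ) : (g, k) ∈ TS h z sb L (x + y) a ↔ (g - y, k) ∈ TS h z sb L x a := by
  induction L generalizing x a with
  | nil => simp [TS]
  | cons b L ih =>
    simp only [TS, Set.mem_union, Set.mem_setOf_eq, Prod.mk.injEq]
    rw [show x + y + z b = (x + z b) + y by abel, ih]
    refine or_congr ⟨?_, ?_⟩ Iff.rfl
    · rintro ⟨q, hq, h1, h2⟩; exact ⟨q, hq, by rw [h1]; abel, h2⟩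
    · rintro ⟨q, hq, h1, h2⟩
      exact ⟨q, hq, by rw [show g = (g - y) + y by abel, h1]; abel, h2⟩

variable {hX zX sX hY zY sY}

lemma we_ev (hsX : ∀ b, ∀ q ∈ sX b, 1 ≤ q.2 ∧ q.2 ≤ hX b)
    (hsY : ∀ b, ∀ q ∈ sY b, 1 ≤ q.2 ∧ q.2 ≤ hY b) {a t i0 s lo hi : ℕ}
    (hlo : lo = a + 2 * i0 + s + 1) (hhi : hi + s = a + t) {w : G}
    {A P R : List BX} {A' P' R' : List BY}
    (gA : FP hX A a) (gA2 : HT hX A ≤ a + i0) (gP : FP hX P t)
    (gA' : FP hY A' (a + i0)) (gA2' : HT hY A' ≤ a + i0 + i0) (gP' : FP hY P' (t + i0))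
    (gP2 : HT hX P ≤ t + i0) 
    (hF : WE hX zX sX hY zY sY a (a + t + 4 * i0) lo hi w (A ++ (P ++ R)) (A' ++ (P' ++ R'))) :
    Ev hX zX sX hY zY sY lo hi (HT hX A) (HT hY A') (w + Dp zY A' - Dp zX A) P P' := by
  obtain ⟨⟨g, k, hk1, hk2, hpX, hpY⟩, hall⟩ := hF
  have gA1 := FP_ge _ _ _ gA
  have gP1 := FP_ge _ _ _ gP
  have gA1' := FP_ge _ _ _ gA'
  have gP1' := FP_ge _ _ _ gP'
  have shX : ∀ g k, (g, k) ∈ TS hX zX sX P 0 (HT hX A) ↔
      (g + Dp zX A, k) ∈ TS hX zX sX P (Dp zX A) (HT hX A) := by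
    intro g k
    have := TS_trans hX zX sX P 0 (Dp zX A) (g + Dp zX A) (HT hX A) k
    rw [zero_add, add_sub_cancel_right] at this
    exact this.symm
  have shY : ∀ g k, (g, k) ∈ TS hY zY sY P' (w + Dp zY A' - Dp zX A) (HT hY A') ↔
      (g + Dp zX A, k) ∈ TS hY zY sY P' (w + Dp zY A') (HT hY A') := by
    intro g k
    have := TS_trans hY zY sY P' (w + Dp zY A' - Dp zX A) (Dp zX A) (g + Dp zX A) (HT hY A') k
    rw [sub_add_cancel, add_sub_cancel_right] at this
    exact this.symm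
  constructor
  · rw [TS_append, TS_append] at hpX hpY
    simp only [zero_add] at hpX hpY
    have hX2 : (g, k) ∈ TS hX zX sX P (Dp zX A) (HT hX A) := by
      rcases hpX with hp | hp | hp
      · have := TS_depth hX zX sX hsX A _ _ _ hp; simp only at this; omega
      · exact hp
      · have := TS_depth hX zX sX hsX R _ _ _ hp; simp only at this; omega
    have hY2 : (g, k) ∈ TS hY zY sY P' (w + Dp zY A') (HT hY A') := by
      rcases hpY with hp | hp | hp
      · have := TS_depth hY zY sY hsY A' _ _ _ hp; simp only at this; omega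
      · exact hp
      · have := TS_depth hY zY sY hsY R' _ _ _ hp; simp only at this; omega
    refine ⟨g - Dp zX A, k, ?_, ?_⟩
    · rw [shX, sub_add_cancel]; exact hX2
    · rw [shY, sub_add_cancel]; exact hY2
  · intro g k hq1 hq2
    rw [shX] at hq1
    rw [shY] at hq2
    have hm1 : (g + Dp zX A, k) ∈ TS hX zX sX (A ++ (P ++ R)) 0 0 := by
      rw [TS_append, TS_append]
      simp only [zero_add]
      exact Or.inr (Or.inl hq1)
    have hm2 : (g + Dp zX A, k) ∈ TS hY zY sY (A' ++ (P' ++ R')) w 0 := by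
      rw [TS_append, TS_append]
      simp only [zero_add]
      exact Or.inr (Or.inl hq2)
    have a3 := TS_depth hX zX sX hsX P _ _ _ hq1
    simp only at a3
    exact hall _ _ hm1 hm2 (by omega) (by omega)

end two

end Crest.Agent.R154.Asm498
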