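import Crest.Agent.R154.AsmWin_543

/-! Row 154, ROAD 801, abstract assembly, part 3 (helper543): the window bound. -/

set_option autoImplicit false

namespace Crest.Agent.R154.Asm543

open Crest.Agent.R154.B5A Filter Topology
open scoped ENNReal

lemma comm3 {α β γ ι : Type*} (μ : α → ℝ≥0∞) (T : ι → α → β → γ → ℝ≥0∞) :
    ∑' x, μ x * ∑' P, ∑' P', ∑' c, T c x P P' = ∑' c, ∑' x, μ x * ∑' P, ∑' P', T c x P P' := by
  rw [ENNReal.tsum_comm (f := fun c x => μ x * ∑' P, ∑' P', T c x P P')]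
  refine tsum_congr fun x => ?_
  rw [ENNReal.tsum_mul_left]
  congr 1
  rw [ENNReal.tsum_comm (f := fun c P => ∑' P', T c x P P')]
  refine tsum_congr fun P => ?_
  rw [ENNReal.tsum_comm]

lemma tsum_I_range2 (i0 : ℕ) (f : ℕ × ℕ → ℝ≥0∞) (W : ℝ≥0∞)
    (hf : ∀ i j, f (i, j) ≤ if i ≤ i0 ∧ j ≤ i0 then W else 0) :
    ∑' c, f c ≤ (i0 + 1 : ℕ) * ((i0 + 1 : ℕ) * W) := by
  rw [ENNReal.tsum_prod']
  refine tsum_I_range i0 _ _ fun i => ?_
  by_cases hi : i ≤ i0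
  · rw [if_pos hi]
    refine tsum_I_range i0 _ _ fun j => ?_
    by_cases hj : j ≤ i0
    · rw [if_pos hj]; simpa [hi, hj] using hf i j
    · rw [if_neg hj]; simpa [hj] using hf i j
  · rw [if_neg hi]
    refine le_of_eq (ENNReal.tsum_eq_zero.2 fun j => ?_)
    simpa [hi] using hf i j

section win
variable {BX BY G : Type*} [AddCommGroup G] (ΛX : BX → ℝ≥0∞) (ΛY : BY → ℝ≥0∞)
  (hX : BX → ℕ) (hY : BY → ℕ) (zX : BX → G) (zY : BY → G)
  (sX : BX → Set (G × ℕ)) (sY : BY → Set (G × ℕ))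

/-- contact of two pieces, all contacts at depths in `[lo, hi]` -/
def Ct (P : List BX) (x : G) (a : ℕ) (P' : List BY) (x' : G) (a' lo hi : ℕ) : Prop :=
  (∃ z k, (z, k) ∈ TS hX zX sX P x a ∧ (z, k) ∈ TS hY zY sY P' x' a') ∧
  ∀ z k, (z, k) ∈ TS hX zX sX P x a → (z, k) ∈ TS hY zY sY P' x' a' → lo ≤ k ∧ k ≤ hi

/-- input `H2` / `H3` -/
def HW (loc : Finset G → List BX → List BY → Prop) (C : ℝ≥0∞) (us : ℕ → ℝ≥0∞) : Prop :=
  ∀ (s h h' a a' lo hi : ℕ) (E : Finset G) (μ : G → ℝ≥0∞) (M lam : ℝ≥0∞),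
    ∑' x, μ x ≤ 1 → (∀ x, μ x ≤ M) → lam ≠ 0 → lam ≠ ⊤ → a ≤ a' → a + h ≤ a' + h' →
    a + s ≤ lo → a' + s ≤ lo → hi + s ≤ a + h → hi + s ≤ a' + h' →
    ∑' x, μ x * ∑' L, ∑' L', I (HT hX L = h ∧ loc E L L' ∧ HT hY L' = h' ∧
      Ct hX hY zX zY sX sY L 0 a L' x a' lo hi) * (LW ΛX L * LW ΛY L')
    ≤ C * (lam + M * E.card * us s / lam + us s)

/-- kernel of one window -/
noncomputable def Kf (loc : Finset G → List BX → List BY → Prop) (E : ℕ → ℕ → Finset G)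
    (i0 a0 a0' T T' lo hi : ℕ) (j j' : ℕ) (x : G) : ℝ≥0∞ :=
  ∑' P, ∑' P', I ((j ≤ i0 ∧ j' ≤ i0) ∧ (FP hX P T ∧ HT hX P ≤ T + i0) ∧
    (FP hY P' T' ∧ HT hY P' ≤ T' + i0) ∧ loc (E (HT hX P - T) (HT hY P' - T')) P P' ∧
    Ct hX hY zX zY sX sY P 0 (a0 + j) P' x (a0' + j') lo hi) * (LW ΛX P * LW ΛY P')

lemma Kf_bound (loc : Finset G → List BX → List BY → Prop) (C : ℝ≥0∞) (us : ℕ → ℝ≥0∞)
    (H : HW ΛX ΛY hX hY zX zY sX sY loc C us) (E : ℕ → ℕ → Finset G)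
    (i0 a0 T lo hi s : ℕ) (hlo : a0 + 2 * i0 + s ≤ lo) (hhi : hi + s ≤ a0 + T)
    (D W lam : ℝ≥0∞) (hl0 : lam ≠ 0) (hlt : lam ≠ ⊤)
    (hW : ∀ i j, i ≤ i0 → j ≤ i0 → C * (lam + D * (E i j).card * us s / lam + us s) ≤ W)
    (j j' : ℕ) (hj : j ≤ i0) (hj' : j' ≤ i0) (μ : G → ℝ≥0∞) (hμ : ∑' x, μ x ≤ 1)
    (hμD : ∀ x, μ x ≤ D) :
    ∑' x, μ x * Kf ΛX ΛY hX hY zX zY sX sY loc E i0 a0 (a0 + i0) T (T + i0) lo hi j j' x
      ≤ (i0 + 1 : ℕ) * ((i0 + 1 : ℕ) * W) := by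
  let R : ℕ × ℕ → G → List BX → List BY → ℝ≥0∞ := fun c x P P' =>
    I ((c.1 ≤ i0 ∧ c.2 ≤ i0) ∧ HT hX P = T + c.1 ∧ loc (E c.1 c.2) P P' ∧
      HT hY P' = T + i0 + c.2 ∧ Ct hX hY zX zY sX sY P 0 (a0 + j) P' x (a0 + i0 + j') lo hi) *
      (LW ΛX P * LW ΛY P')
  calc ∑' x, μ x * Kf ΛX ΛY hX hY zX zY sX sY loc E i0 a0 (a0 + i0) T (T + i0) lo hi j j' x
      ≤ ∑' x, μ x * ∑' P, ∑' P', ∑' c, R c x P P' := by
        refine ENNReal.tsum_le_tsum fun x => mul_le_mul_right ?_ _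
        refine ENNReal.tsum_le_tsum fun P => ENNReal.tsum_le_tsum fun P' => ?_
        refine le_trans ?_ (ENNReal.le_tsum (HT hX P - T, HT hY P' - (T + i0)))
        refine mul_le_mul_left (I_mono ?_) _
        rintro ⟨-, ⟨h1, h2⟩, ⟨h3, h4⟩, h5, h6⟩
        have e1 := FP_le hX P T h1
        have e2 := FP_le hY P' (T + i0) h3
        exact ⟨⟨by simp only; omega, by simp only; omega⟩, by simp only; omega, h5,
          by simp only; omega, h6⟩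
    _ = ∑' c, ∑' x, μ x * ∑' P, ∑' P', R c x P P' := comm3 μ R
    _ ≤ _ := by
        refine tsum_I_range2 i0 _ _ fun i i' => ?_
        by_cases hc : i ≤ i0 ∧ i' ≤ i0
        · rw [if_pos hc]
          refine le_trans ?_ (hW i i' hc.1 hc.2)
          refine le_trans ?_ (H s (T + i) (T + i0 + i') (a0 + j) (a0 + i0 + j') lo hi (E i i') μ D lam
            hμ hμD hl0 hlt (by omega) (by omega) (by omega) (by omega) (by omega) (by omega))
          refine ENNReal.tsum_le_tsum fun x => mul_le_mul_right ?_ _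
          refine ENNReal.tsum_le_tsum fun P => ENNReal.tsum_le_tsum fun P' => ?_
          exact mul_le_mul_left (I_mono fun hh => hh.2) _
        · rw [if_neg hc]
          refine le_of_eq (ENNReal.tsum_eq_zero.2 fun x => ?_)
          have : ∑' P, ∑' P', R (i, i') x P P' = 0 := by
            refine ENNReal.tsum_eq_zero.2 fun P => ENNReal.tsum_eq_zero.2 fun P' => ?_
            show I _ * _ = 0
            rw [I_neg (fun hh => hc hh.1), zero_mul]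
          rw [this, mul_zero]

/-- weight of the first passage pieces with bounded overshoot -/
noncomputable def wt {B : Type*} (Λ : B → ℝ≥0∞) (ht : B → ℕ) (i0 a : ℕ) (A : List B) : ℝ≥0∞ :=
  I (FP ht A a ∧ HT ht A ≤ a + i0) * LW Λ A

lemma wt_mass {B : Type*} (Λ : B → ℝ≥0∞) (ht : B → ℕ) (h1 : ∀ b, 1 ≤ ht b) (hΛ : ∑' b, Λ b = 1)
    (i0 a : ℕ) : ∑' A, wt Λ ht i0 a A ≤ 1 := by
  classical
  rw [← FP_mass Λ ht h1 hΛ a]
  refine ENNReal.tsum_le_tsum fun A => ?_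
  unfold wt
  by_cases hA : FP ht A a
  · rw [if_pos hA]
    calc _ ≤ 1 * LW Λ A := mul_le_mul_left (I_le_one _) _
      _ = _ := one_mul _
  · rw [I_neg (fun hh => hA hh.1), zero_mul]; exact zero_le

lemma wt_sum {B G : Type*} [AddCommGroup G] (Λ : B → ℝ≥0∞) (ht : B → ℕ) (z : B → G) (i0 a : ℕ)
    (Ψ : ℕ → G → ℝ≥0∞) :
    ∑' A, wt Λ ht i0 a A * Ψ (HT ht A - a) (Dp z A) ≤ ∑' j, ∑' x, Fq Λ ht z a j x * Ψ j x := by
  classical
  rw [Fq_sum]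
  refine ENNReal.tsum_le_tsum fun A => ?_
  unfold wt
  by_cases hA : FP ht A a
  · rw [if_pos hA]
    refine mul_le_mul_left ?_ _
    calc _ ≤ 1 * LW Λ A := mul_le_mul_left (I_le_one _) _
      _ = _ := one_mul _
  · rw [I_neg (fun hh => hA hh.1), zero_mul, zero_mul]; exact zero_le

lemma swap2 {α β : Type*} (f : α → ℝ≥0∞) (g : β → ℝ≥0∞) (H : α → β → ℝ≥0∞) :
    ∑' a, f a * ∑' b, g b * H a b = ∑' b, g b * ∑' a, f a * H a b := by
  simp only [← ENNReal.tsum_mul_left]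
  rw [ENNReal.tsum_comm]
  exact tsum_congr fun b => tsum_congr fun a => by ring

lemma sub1 {α : Type*} (f : α → ℝ≥0∞) (hf : ∑' a, f a ≤ 1) (H : α → ℝ≥0∞) (c : ℝ≥0∞)
    (hH : ∀ a, H a ≤ c) : ∑' a, f a * H a ≤ c := by
  calc ∑' a, f a * H a ≤ ∑' a, f a * c := ENNReal.tsum_le_tsum fun a => mul_le_mul_right (hH a) _
    _ ≤ 1 * c := by rw [ENNReal.tsum_mul_right]; exact mul_le_mul_left hf _
    _ = c := one_mul _

end win

end Crest.Agent.R154.Asm543
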