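import Crest.Agent.R154.AsmT_642
import Crest.Agent.R154.Num_869

/-! Row 154, ROAD 801: one window of the assembly (helper642). -/

set_option autoImplicit false

namespace Crest.Agent.R154.Asm642

open Crest.Agent.R154.B5A
open scoped ENNReal Topology Classical

section win

variable {BX BY G : Type*} [AddCommGroup G]
variable (ΛX : BX → ℝ≥0∞) (hX : BX → ℕ) (ΛY : BY → ℝ≥0∞) (hY : BY → ℕ)
variable (zX : BX → G) (zY : BY → G) (sX : BX → Set (G × ℕ)) (sY : BY → Set (G × ℕ))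

/-- contact at depth `k` -/
def Con (w : G) (L : List BX) (L' : List BY) (k : ℕ) : Prop :=
  ∃ y, (y, k) ∈ TT sX zX hX L 0 0 ∧ (y, k) ∈ TT sY zY hY L' w 0

/-- the two pieces have a common site and all of them have depth in `[lo, hi]` -/
def Cp (a a' lo hi : ℕ) (x : G) (P : List BX) (P' : List BY) : Prop :=
  (∃ y k, (y, k) ∈ TT sX zX hX P 0 a ∧ (y, k) ∈ TT sY zY hY P' x a') ∧
  (∀ y k, (y, k) ∈ TT sX zX hX P 0 a → (y, k) ∈ TT sY zY hY P' x a' → lo ≤ k ∧ k ≤ hi)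

/-- window lemma, `X` local -/
def H2 (us : ℕ → ℕ → ℝ≥0∞) (C : ℕ → ℝ≥0∞) : Prop :=
  ∀ (ρ s r r' a a' lo hi : ℕ) (E : Finset G) (μ : G → ℝ≥0∞) (M lam : ℝ≥0∞),
    ∑' x, μ x ≤ 1 → (∀ x, μ x ≤ M) → lam ≠ 0 → lam ≠ ⊤ →
    a ≤ a' → a' ≤ a + ρ → a + r ≤ a' + r' → a' + r' ≤ a + r + ρ → a' + s ≤ lo → hi + s ≤ a + r →
    ∑' x, μ x * ∑' P : List BX, ∑' P' : List BY,
      (if HT hX P = r ∧ HT hY P' = r' ∧ (Dp zX P ∈ E ∧ Cp hX hY zX zY sX sY a a' lo hi x P P')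
        then LW ΛX P * LW ΛY P' else 0) ≤ C ρ * (lam + M * E.card * us ρ s / lam + us ρ s)

/-- window lemma, `Y` local -/
def H3 (us : ℕ → ℕ → ℝ≥0∞) (C : ℕ → ℝ≥0∞) : Prop :=
  ∀ (ρ s r r' a a' lo hi : ℕ) (E : Finset G) (μ : G → ℝ≥0∞) (M lam : ℝ≥0∞),
    ∑' x, μ x ≤ 1 → (∀ x, μ x ≤ M) → lam ≠ 0 → lam ≠ ⊤ →
    a ≤ a' → a' ≤ a + ρ → a + r ≤ a' + r' → a' + r' ≤ a + r + ρ → a' + s ≤ lo → hi + s ≤ a + r →
    ∑' x, μ x * ∑' P : List BX, ∑' P' : List BY,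
      (if HT hX P = r ∧ HT hY P' = r' ∧ (Dp zY P' ∈ E ∧ Cp hX hY zX zY sX sY a a' lo hi x P P')
        then LW ΛX P * LW ΛY P' else 0) ≤ C ρ * (lam + M * E.card * us ρ s / lam + us ρ s)

/-- geometry of one window -/
lemma piece_contact (hsX : ∀ b q, q ∈ sX b → 1 ≤ q.2 ∧ q.2 ≤ hX b)
    (hsY : ∀ b q, q ∈ sY b → 1 ≤ q.2 ∧ q.2 ≤ hY b) (w : G) (D T i0 s k : ℕ)
    (A P R : List BX) (A' P' R' : List BY)
    (hA1 : D ≤ HT hX A) (hA2 : HT hX A ≤ D + i0)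
    (hP1 : D + T ≤ HT hX A + HT hX P) (hP2 : HT hX A + HT hX P ≤ D + T + 2 * i0)
    (hA1' : D + 2 * i0 ≤ HT hY A') (hA2' : HT hY A' ≤ D + 3 * i0)
    (hP1' : D + T ≤ HT hY A' + HT hY P')
    (hk1 : D < k) (hk2 : k ≤ D + T) (_hsT : s ≤ T)
    (hcon : Con hX hY zX zY sX sY w (A ++ (P ++ R)) (A' ++ (P' ++ R')) k)
    (hno1 : ∀ k', D < k' → k' ≤ D + 3 * i0 + s →
      ¬ Con hX hY zX zY sX sY w (A ++ (P ++ R)) (A' ++ (P' ++ R')) k')
    (hno2 : ∀ k', D + T - s < k' → k' ≤ D + T + 4 * i0 →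
      ¬ Con hX hY zX zY sX sY w (A ++ (P ++ R)) (A' ++ (P' ++ R')) k') :
    Cp hX hY zX zY sX sY (HT hX A) (HT hY A') (D + 3 * i0 + s + 1) (D + T - s)
      (w + Dp zY A' - Dp zX A) P P' := by
  have hk3 : D + 3 * i0 + s < k := by
    by_contra hcn
    exact hno1 k hk1 (by omega) hcon
  -- translation
  have shX : ∀ y k', ((y, k') ∈ TT sX zX hX P (0 + Dp zX A) (0 + HT hX A) ↔
      (y - Dp zX A, k') ∈ TT sX zX hX P 0 (HT hX A)) := by
    intro y k'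
    have := mem_TT_shift sX zX hX P 0 (Dp zX A) (y - Dp zX A) (HT hX A) k'
    rw [sub_add_cancel] at this
    rw [zero_add (HT hX A)]
    exact this
  have shY : ∀ y k', ((y, k') ∈ TT sY zY hY P' (w + Dp zY A') (0 + HT hY A') ↔
      (y - Dp zX A, k') ∈ TT sY zY hY P' (w + Dp zY A' - Dp zX A) (HT hY A')) := by
    intro y k'
    have := mem_TT_shift sY zY hY P' (w + Dp zY A' - Dp zX A) (Dp zX A) (y - Dp zX A) (HT hY A') k'
    rw [sub_add_cancel, sub_add_cancel] at this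
    rw [zero_add (HT hY A')]
    exact this
  have full : ∀ y k', (y - Dp zX A, k') ∈ TT sX zX hX P 0 (HT hX A) →
      (y - Dp zX A, k') ∈ TT sY zY hY P' (w + Dp zY A' - Dp zX A) (HT hY A') →
      Con hX hY zX zY sX sY w (A ++ (P ++ R)) (A' ++ (P' ++ R')) k' := by
    intro y k' h1 h2
    refine ⟨y, ?_, ?_⟩
    · rw [TT_append, TT_append]
      exact Or.inr (Or.inl ((shX y k').2 h1))
    · rw [TT_append, TT_append]
      exact Or.inr (Or.inl ((shY y k').2 h2))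
  constructor
  · obtain ⟨y, h1, h2⟩ := hcon
    rw [TT_append, TT_append] at h1 h2
    refine ⟨y - Dp zX A, k, ?_, ?_⟩
    · rw [← shX]
      rcases h1 with h1 | h1 | h1
      · have := TT_depth sX zX hX hsX A _ _ _ _ h1
        omega
      · exact h1
      · have := TT_depth sX zX hX hsX R _ _ _ _ h1
        omega
    · rw [← shY]
      rcases h2 with h2 | h2 | h2
      · have := TT_depth sY zY hY hsY A' _ _ _ _ h2
        omega
      · exact h2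
      · have := TT_depth sY zY hY hsY R' _ _ _ _ h2
        omega
  · intro y k' h1 h2
    have d1 := TT_depth sX zX hX hsX P _ _ _ _ h1
    have d2 := TT_depth sY zY hY hsY P' _ _ _ _ h2
    have hc := full (y + Dp zX A) k' (by rw [add_sub_cancel_right]; exact h1)
      (by rw [add_sub_cancel_right]; exact h2)
    constructor
    · by_contra hcn
      exact hno1 k' (by omega) (by omega) hc
    · by_contra hcn
      exact hno2 k' (by omega) (by omega) hc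

end win

section data

variable {B G : Type*} [AddCommGroup G] (Λ : B → ℝ≥0∞) (h : B → ℕ) (z : B → G)

/-- the set of local displacements at height `r` -/
def Eset (T : ℕ) (th : ℝ≥0∞) (r : ℕ) : Set G := {x | th ≤ pl Λ h z T (r, x)}

lemma tsum_slice (T r : ℕ) (hpl : ∑' q, pl Λ h z T q = 1) : ∑' x : G, pl Λ h z T (r, x) ≤ 1 := by
  rw [← hpl]
  exact ENNReal.tsum_comp_le_tsum_of_injective
    (fun x y hxy => (Prod.mk.inj hxy).2) (fun q => pl Λ h z T q)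

lemma Eset_finite (T : ℕ) (th : ℝ≥0∞) (hth : th ≠ 0) (r : ℕ) (hpl : ∑' q, pl Λ h z T q = 1) :
    (Eset Λ h z T th r).Finite := by
  refine ENNReal.finite_const_le_of_tsum_ne_top ?_ hth
  exact ne_top_of_le_ne_top ENNReal.one_ne_top (tsum_slice Λ h z T r hpl)

lemma Eset_card (T : ℕ) (th : ℝ≥0∞) (r : ℕ) (hpl : ∑' q, pl Λ h z T q = 1)
    (E : Finset G) (hE : ∀ x ∈ E, th ≤ pl Λ h z T (r, x)) : th * E.card ≤ 1 := by
  calc th * E.card = ∑ x ∈ E, th := by rw [Finset.sum_const, nsmul_eq_mul, mul_comm]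
    _ ≤ ∑ x ∈ E, pl Λ h z T (r, x) := Finset.sum_le_sum hE
    _ ≤ ∑' x, pl Λ h z T (r, x) := ENNReal.sum_le_tsum _
    _ ≤ 1 := tsum_slice Λ h z T r hpl

/-- threshold: nonlocal mass `≤ u`, non-small mass `≤ 1 - u` -/
lemma exists_th (h1 : ∀ b, 1 ≤ h b) (hΛ : ∑' b, Λ b = 1) (T : ℕ) (u : ℝ≥0∞) (hu0 : u ≠ 0)
    (hu1 : u ≤ 1) : ∃ th : ℝ≥0∞, th ≠ 0 ∧ th ≤ 1 ∧
      ∑' P : List B, (if FP h T P ∧ pl Λ h z T (HT h P, Dp z P) < th then LW Λ P else 0) ≤ u ∧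
      ∑' P : List B, (if FP h T P ∧ ¬ (pl Λ h z T (HT h P, Dp z P) ≤ th) then LW Λ P else 0)
        ≤ 1 - u := by
  have hpl := sum_pl Λ h z h1 hΛ T
  obtain ⟨th, h0, h2, h3, h4⟩ := Dens903.quantile (pl Λ h z T) hpl hu0 hu1
  refine ⟨th, h0, h2, ?_, ?_⟩
  · refine le_trans (le_of_eq ((tsum_congr fun P => ?_).trans
      (sum_cls Λ h z T (fun q => pl Λ h z T q < th)))) (le_trans (le_of_eq (tsum_congr fun q => ?_)) h3)
    · congr
    · congr
  · refine le_trans (le_of_eq ((tsum_congr fun P => ?_).trans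
      (sum_cls Λ h z T (fun q => ¬ (pl Λ h z T q ≤ th))))) ?_
    · congr
    have e : ∑' q, (if pl Λ h z T q ≤ th then pl Λ h z T q else 0) +
        ∑' q, (if ¬ (pl Λ h z T q ≤ th) then pl Λ h z T q else 0) = 1 := by
      rw [← ENNReal.tsum_add, ← hpl]
      exact tsum_congr fun q => by split_ifs <;> simp_all
    have h5 : u + ∑' q, (if ¬ (pl Λ h z T q ≤ th) then pl Λ h z T q else 0) ≤ 1 := by
      rw [← e]
      refine add_le_add (h4.trans (le_of_eq ?_)) le_rfl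
      exact tsum_congr fun q => by congr
    refine le_trans (le_of_eq (tsum_congr fun q => ?_))
      (ENNReal.le_sub_of_add_le_left (ne_top_of_le_ne_top ENNReal.one_ne_top hu1) h5)
    congr

lemma dens_num (c u : ℝ≥0∞) (hu0 : u ≠ 0) (hu1 : u ≤ 1) : c + (1 - u) * (c / u) ≤ c / u := by
  have hut : u ≠ ⊤ := ne_top_of_le_ne_top ENNReal.one_ne_top hu1
  have e : u * (c / u) = c := ENNReal.mul_div_cancel hu0 hut
  calc c + (1 - u) * (c / u) = u * (c / u) + (1 - u) * (c / u) := by rw [e]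
    _ = (u + (1 - u)) * (c / u) := by rw [add_mul]
    _ = c / u := by rw [add_tsub_cancel_of_le hu1, one_mul]
    _ ≤ _ := le_rfl

end data

section window

variable {BX BY G : Type*} [AddCommGroup G]
variable (ΛX : BX → ℝ≥0∞) (hX : BX → ℕ) (ΛY : BY → ℝ≥0∞) (hY : BY → ℕ)
variable (zX : BX → G) (zY : BY → G) (sX : BX → Set (G × ℕ)) (sY : BY → Set (G × ℕ))

/-- **one window** -/
theorem window_le (h1X : ∀ b, 1 ≤ hX b) (h1Y : ∀ b, 1 ≤ hY b)
    (hΛX : ∑' b, ΛX b = 1) (hΛY : ∑' b, ΛY b = 1)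
    (hUX : ∀ n, U ΛX hX n ≤ 1) (hUY : ∀ n, U ΛY hY n ≤ 1)
    (hsX : ∀ b q, q ∈ sX b → 1 ≤ q.2 ∧ q.2 ≤ hX b)
    (hsY : ∀ b q, q ∈ sY b → 1 ≤ q.2 ∧ q.2 ≤ hY b)
    (us : ℕ → ℕ → ℝ≥0∞) (C : ℕ → ℝ≥0∞)
    (hH2 : H2 ΛX hX ΛY hY zX zY sX sY us C) (hH3 : H3 ΛX hX ΛY hY zX zY sX sY us C)
    (w : G) (n D T i0 s J : ℕ) (u lam thX thY g e' : ℝ≥0∞)
    (hT : i0 + s ≤ T) (hJ : J * (T + i0) ≤ D) (hn : D + 2 * T + 5 * i0 ≤ n)
    (hu0 : u ≠ 0) (hu1 : u ≤ 1) (hl0 : lam ≠ 0) (hlt : lam ≠ ⊤)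
    (hthX0 : thX ≠ 0) (hthX1 : thX ≤ 1) (hthY0 : thY ≠ 0) (hthY1 : thY ≤ 1)
    (hqX1 : ∑' P : List BX, (if FP hX T P ∧ pl ΛX hX zX T (HT hX P, Dp zX P) < thX
      then LW ΛX P else 0) ≤ u)
    (hqX2 : ∑' P : List BX, (if FP hX T P ∧ ¬ (pl ΛX hX zX T (HT hX P, Dp zX P) ≤ thX)
      then LW ΛX P else 0) ≤ 1 - u)
    (hqY1 : ∑' P : List BY, (if FP hY T P ∧ pl ΛY hY zY T (HT hY P, Dp zY P) < thY
      then LW ΛY P else 0) ≤ u)
    (hqY2 : ∑' P : List BY, (if FP hY T P ∧ ¬ (pl ΛY hY zY T (HT hY P, Dp zY P) ≤ thY)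
      then LW ΛY P else 0) ≤ 1 - u)
    (hgX : ∑' b, ΛX b * ((hX b - i0 : ℕ) : ℝ≥0∞) ≤ g)
    (hgY : ∑' b, ΛY b * ((hY b - i0 : ℕ) : ℝ≥0∞) ≤ g)
    (hpt : ∀ k, D < k → k ≤ D + T + 4 * i0 →
      WW ΛX hX ΛY hY n (fun L L' => Con hX hY zX zY sX sY w L L' k) ≤ e') :
    WW ΛX hX ΛY hY n (fun L L' => (∃ k, D < k ∧ k ≤ D + T ∧ Con hX hY zX zY sX sY w L L' k) ∧
        Sm hX zX T i0 (fun q => pl ΛX hX zX T q ≤ thX) J L ∧
        Sm hY zY T i0 (fun q => pl ΛY hY zY T q ≤ thY) J L')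
      ≤ ((3 * i0 + s : ℕ) : ℝ≥0∞) * e' + ((s + 4 * i0 : ℕ) : ℝ≥0∞) * e' + 4 * g + u * u +
        2 * (((i0 : ℝ≥0∞) + 1) ^ 4 * (C (4 * i0) * (lam + ((i0 : ℝ≥0∞) + 1) / u * us (4 * i0) s / lam
          + us (4 * i0) s))) := by
  have hut : u ≠ ⊤ := ne_top_of_le_ne_top ENNReal.one_ne_top hu1
  have hplX := sum_pl ΛX hX zX h1X hΛX T
  have hplY := sum_pl ΛY hY zY h1Y hΛY T
  set SX : ℕ × G → Prop := fun q => pl ΛX hX zX T q ≤ thX with hSX
  set SY : ℕ × G → Prop := fun q => pl ΛY hY zY T q ≤ thY with hSY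
  set lo := D + 3 * i0 + s + 1 with hlo
  set hi := D + T - s with hhi
  set EX : ℕ → Finset G := fun r => (Eset_finite ΛX hX zX T thX hthX0 r hplX).toFinset with hEX
  set EY : ℕ → Finset G := fun r => (Eset_finite ΛY hY zY T thY hthY0 r hplY).toFinset with hEY
  set F : Finset ((ℕ × ℕ) × (ℕ × ℕ)) :=
    (Finset.Icc D (D + i0) ×ˢ Finset.Icc (D + 2 * i0) (D + 2 * i0 + i0)) ×ˢ
      (Finset.Icc T (T + i0) ×ˢ Finset.Icc T (T + i0)) with hF
  have hFcard : (F.card : ℝ≥0∞) ≤ ((i0 : ℝ≥0∞) + 1) ^ 4 := by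
    have : F.card = (i0 + 1) ^ 4 := by
      rw [hF, Finset.card_product, Finset.card_product, Finset.card_product]
      simp only [Nat.card_Icc]
      rw [show D + i0 + 1 - D = i0 + 1 by omega,
        show D + 2 * i0 + i0 + 1 - (D + 2 * i0) = i0 + 1 by omega,
        show T + i0 + 1 - T = i0 + 1 by omega]
      ring
    rw [this]
    push_cast
    exact le_rfl
  -- events
  set V1 : ℕ → List BX → List BY → Prop := fun k L L' => Con hX hY zX zY sX sY w L L' k with hV1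
  set ovX1 : List BX → Prop := fun L => ∃ A R, L = A ++ R ∧ FP hX D A ∧ D + i0 < HT hX A with hovX1
  set ovX2 : List BX → Prop := fun L => ∃ A P R, L = A ++ (P ++ R) ∧ FP hX D A ∧ FP hX T P ∧
    T + i0 < HT hX P with hovX2
  set ovY1 : List BY → Prop := fun L => ∃ A R, L = A ++ R ∧ FP hY (D + 2 * i0) A ∧
    D + 2 * i0 + i0 < HT hY A with hovY1
  set ovY2 : List BY → Prop := fun L => ∃ A P R, L = A ++ (P ++ R) ∧ FP hY (D + 2 * i0) A ∧
    FP hY T P ∧ T + i0 < HT hY P with hovY2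
  set nlX : List BX → Prop := fun L => ∃ A P R, L = A ++ (P ++ R) ∧ FP hX D A ∧ FP hX T P ∧
    pl ΛX hX zX T (HT hX P, Dp zX P) < thX with hnlX
  set nlY : List BY → Prop := fun L => ∃ A P R, L = A ++ (P ++ R) ∧ FP hY (D + 2 * i0) A ∧
    FP hY T P ∧ pl ΛY hY zY T (HT hY P, Dp zY P) < thY with hnlY
  set evX : (ℕ × ℕ) × (ℕ × ℕ) → List BX → List BY → Prop := fun q L L' =>
    ∃ A P R A' P' R', L = A ++ (P ++ R) ∧ L' = A' ++ (P' ++ R') ∧
      (HT hX A = q.1.1 ∧ Sm hX zX T i0 SX J A) ∧ (HT hY A' = q.1.2 ∧ True) ∧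
      (HT hX P = q.2.1 ∧ HT hY P' = q.2.2 ∧ (Dp zX P ∈ EX q.2.1 ∧
        Cp hX hY zX zY sX sY q.1.1 q.1.2 lo hi (w + Dp zY A' - Dp zX A) P P')) with hevX
  set evY : (ℕ × ℕ) × (ℕ × ℕ) → List BX → List BY → Prop := fun q L L' =>
    ∃ A P R A' P' R', L = A ++ (P ++ R) ∧ L' = A' ++ (P' ++ R') ∧
      (HT hX A = q.1.1 ∧ True) ∧ (HT hY A' = q.1.2 ∧ Sm hY zY T i0 SY J A') ∧
      (HT hX P = q.2.1 ∧ HT hY P' = q.2.2 ∧ (Dp zY P' ∈ EY q.2.2 ∧
        Cp hX hY zX zY sX sY q.1.1 q.1.2 lo hi (w + Dp zY A' - Dp zX A) P P')) with hevY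
  -- inclusion
  have hinc : WW ΛX hX ΛY hY n (fun L L' => (∃ k, D < k ∧ k ≤ D + T ∧
        Con hX hY zX zY sX sY w L L' k) ∧ Sm hX zX T i0 SX J L ∧ Sm hY zY T i0 SY J L')
      ≤ WW ΛX hX ΛY hY n (fun L L' => (∃ k ∈ Finset.Ioc D (D + 3 * i0 + s), V1 k L L') ∨
        ((∃ k ∈ Finset.Ioc (D + T - s) (D + T + 4 * i0), V1 k L L') ∨
        (ovX1 L ∨ (ovX2 L ∨ (ovY1 L' ∨ (ovY2 L' ∨ ((nlX L ∧ nlY L') ∨
        ((∃ q ∈ F, evX q L L') ∨ (∃ q ∈ F, evY q L L'))))))))) := by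
    refine WW_mono ΛX hX ΛY hY n ?_
    rintro L L' hL hL' ⟨⟨k, hk1, hk2, hcon⟩, hsmX, hsmY⟩
    by_cases c1 : ∃ k ∈ Finset.Ioc D (D + 3 * i0 + s), V1 k L L'
    · exact Or.inl c1
    right
    by_cases c2 : ∃ k ∈ Finset.Ioc (D + T - s) (D + T + 4 * i0), V1 k L L'
    · exact Or.inl c2
    right
    by_cases c3 : ovX1 L
    · exact Or.inl c3
    right
    by_cases c4 : ovX2 L
    · exact Or.inl c4
    right
    by_cases c5 : ovY1 L'
    · exact Or.inl c5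
    right
    by_cases c6 : ovY2 L'
    · exact Or.inl c6
    right
    -- pieces
    obtain ⟨A, R0, hA0, hFA⟩ := exists_FP hX L D (by omega)
    have a1 : HT hX A ≤ D + i0 := by
      by_contra hcn
      exact c3 ⟨A, R0, hA0, hFA, by omega⟩
    have a2 : HT hX A + HT hX R0 = n := by rw [← HT_append, ← hA0]; exact hL
    obtain ⟨P, R, hP0, hFP⟩ := exists_FP hX R0 T (by omega)
    subst hP0
    have a3 : HT hX P ≤ T + i0 := by
      by_contra hcn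
      exact c4 ⟨A, P, R, hA0, hFA, hFP, by omega⟩
    obtain ⟨A', R0', hA0', hFA'⟩ := exists_FP hY L' (D + 2 * i0) (by omega)
    have b1 : HT hY A' ≤ D + 2 * i0 + i0 := by
      by_contra hcn
      exact c5 ⟨A', R0', hA0', hFA', by omega⟩
    have b2 : HT hY A' + HT hY R0' = n := by rw [← HT_append, ← hA0']; exact hL'
    obtain ⟨P', R', hP0', hFP'⟩ := exists_FP hY R0' T (by omega)
    subst hP0'
    have b3 : HT hY P' ≤ T + i0 := by
      by_contra hcn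
      exact c6 ⟨A', P', R', hA0', hFA', hFP', by omega⟩
    have a4 := hFA.1
    have a5 := hFP.1
    have b4 := hFA'.1
    have b5 := hFP'.1
    have hcp : Cp hX hY zX zY sX sY (HT hX A) (HT hY A') lo hi (w + Dp zY A' - Dp zX A) P P' := by
      refine piece_contact hX hY zX zY sX sY hsX hsY w D T i0 s k A P R A' P' R'
        a4 a1 (by omega) (by omega) b4 (by omega) (by omega) hk1 hk2 (by omega) ?_ ?_ ?_
      · rw [← hA0, ← hA0']; exact hcon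
      · intro k' hk' hk'' hc
        rw [← hA0, ← hA0'] at hc
        exact c1 ⟨k', Finset.mem_Ioc.2 ⟨hk', hk''⟩, hc⟩
      · intro k' hk' hk'' hc
        rw [← hA0, ← hA0'] at hc
        exact c2 ⟨k', Finset.mem_Ioc.2 ⟨hk', hk''⟩, hc⟩
    have hq : ((HT hX A, HT hY A'), (HT hX P, HT hY P')) ∈ F := by
      simp only [hF, Finset.mem_product, Finset.mem_Icc]
      omega
    by_cases c7 : pl ΛX hX zX T (HT hX P, Dp zX P) < thX
    · by_cases c8 : pl ΛY hY zY T (HT hY P', Dp zY P') < thY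
      · exact Or.inl ⟨⟨A, P, R, hA0, hFA, hFP, c7⟩, ⟨A', P', R', hA0', hFA', hFP', c8⟩⟩
      · right; right
        refine ⟨_, hq, A, P, R, A', P', R', hA0, hA0', ⟨rfl, trivial⟩, ⟨rfl, ?_⟩, rfl, rfl, ?_, hcp⟩
        · rw [hA0'] at hsmY
          exact Sm_prefix hY zY T i0 SY h1Y J A' _ (by omega) hsmY
        · simp only [hEY, Set.Finite.mem_toFinset, Eset, Set.mem_ofPred_eq]
          exact not_lt.1 c8
    · right; left
      refine ⟨_, hq, A, P, R, A', P', R', hA0, hA0', ⟨rfl, ?_⟩, ⟨rfl, trivial⟩, rfl, rfl, ?_, hcp⟩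
      · rw [hA0] at hsmX
        exact Sm_prefix hX zX T i0 SX h1X J A _ (by omega) hsmX
      · simp only [hEX, Set.Finite.mem_toFinset, Eset, Set.mem_ofPred_eq]
        exact not_lt.1 c7
  -- bounds
  have t1 : WW ΛX hX ΛY hY n (fun L L' => ∃ k ∈ Finset.Ioc D (D + 3 * i0 + s), V1 k L L')
      ≤ ((3 * i0 + s : ℕ) : ℝ≥0∞) * e' := by
    refine (WW_bex ΛX hX ΛY hY n _ V1).trans ?_
    calc _ ≤ ∑ k ∈ Finset.Ioc D (D + 3 * i0 + s), e' := by
          refine Finset.sum_le_sum fun k hk => ?_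
          rw [Finset.mem_Ioc] at hk
          exact hpt k hk.1 (by omega)
      _ = _ := by
          rw [Finset.sum_const, Nat.card_Ioc, nsmul_eq_mul]
          congr 2
          omega
  have t2 : WW ΛX hX ΛY hY n (fun L L' => ∃ k ∈ Finset.Ioc (D + T - s) (D + T + 4 * i0), V1 k L L')
      ≤ ((s + 4 * i0 : ℕ) : ℝ≥0∞) * e' := by
    refine (WW_bex ΛX hX ΛY hY n _ V1).trans ?_
    calc _ ≤ ∑ k ∈ Finset.Ioc (D + T - s) (D + T + 4 * i0), e' := by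
          refine Finset.sum_le_sum fun k hk => ?_
          rw [Finset.mem_Ioc] at hk
          exact hpt k (by omega) (by omega)
      _ = _ := by
          rw [Finset.sum_const, Nat.card_Ioc, nsmul_eq_mul]
          congr 2
          omega
  have t3 : WW ΛX hX ΛY hY n (fun L _ => ovX1 L) ≤ g :=
    (WW_left ΛX hX ΛY hY hUY n ovX1).trans ((wn_first ΛX hX hUX n D i0).trans hgX)
  have t4 : WW ΛX hX ΛY hY n (fun L _ => ovX2 L) ≤ g :=
    (WW_left ΛX hX ΛY hY hUY n ovX2).trans (wn_attempt ΛX hX h1X hΛX hUX n D T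
      (fun P => T + i0 < HT hX P) g ((le_of_eq (tsum_congr fun P => by congr)).trans
        ((sum_over ΛX hX hUX T i0).trans hgX)))
  have t5 : WW ΛX hX ΛY hY n (fun _ L' => ovY1 L') ≤ g :=
    (WW_right ΛX hX ΛY hY hUX n ovY1).trans ((wn_first ΛY hY hUY n (D + 2 * i0) i0).trans hgY)
  have t6 : WW ΛX hX ΛY hY n (fun _ L' => ovY2 L') ≤ g :=
    (WW_right ΛX hX ΛY hY hUX n ovY2).trans (wn_attempt ΛY hY h1Y hΛY hUY n (D + 2 * i0) T
      (fun P => T + i0 < HT hY P) g ((le_of_eq (tsum_congr fun P => by congr)).trans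
        ((sum_over ΛY hY hUY T i0).trans hgY)))
  have t7 : WW ΛX hX ΛY hY n (fun L L' => nlX L ∧ nlY L') ≤ u * u :=
    (WW_prod ΛX hX ΛY hY n nlX nlY).trans (mul_le_mul'
      (wn_attempt ΛX hX h1X hΛX hUX n D T
        (fun P => pl ΛX hX zX T (HT hX P, Dp zX P) < thX) u
        ((le_of_eq (tsum_congr fun P => by congr)).trans hqX1))
      (wn_attempt ΛY hY h1Y hΛY hUY n (D + 2 * i0) T
        (fun P => pl ΛY hY zY T (HT hY P, Dp zY P) < thY) u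
        ((le_of_eq (tsum_congr fun P => by congr)).trans hqY1)))
  set BB : ℝ≥0∞ := C (4 * i0) * (lam + ((i0 : ℝ≥0∞) + 1) / u * us (4 * i0) s / lam
          + us (4 * i0) s) with hBB
  have hcardM : ∀ (th : ℝ≥0∞) (E : Finset G), th * E.card ≤ 1 →
      ((i0 : ℝ≥0∞) + 1) * th / u * E.card ≤ ((i0 : ℝ≥0∞) + 1) / u := by
    intro th E hE
    calc ((i0 : ℝ≥0∞) + 1) * th / u * E.card = ((i0 : ℝ≥0∞) + 1) / u * (th * E.card) := by
          simp only [div_eq_mul_inv]; ring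
      _ ≤ ((i0 : ℝ≥0∞) + 1) / u * 1 := mul_le_mul_right hE _
      _ = _ := mul_one _
  have hsum : ∀ ev : (ℕ × ℕ) × (ℕ × ℕ) → List BX → List BY → Prop,
      (∀ q ∈ F, WW ΛX hX ΛY hY n (ev q) ≤ BB) →
      WW ΛX hX ΛY hY n (fun L L' => ∃ q ∈ F, ev q L L') ≤ ((i0 : ℝ≥0∞) + 1) ^ 4 * BB := by
    intro ev hev
    refine (WW_bex ΛX hX ΛY hY n F ev).trans ?_
    calc _ ≤ ∑ q ∈ F, BB := Finset.sum_le_sum hev
      _ = F.card * BB := by rw [Finset.sum_const, nsmul_eq_mul]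
      _ ≤ _ := mul_le_mul_left hFcard _
  have t8 : WW ΛX hX ΛY hY n (fun L L' => ∃ q ∈ F, evX q L L') ≤ ((i0 : ℝ≥0∞) + 1) ^ 4 * BB := by
    refine hsum evX ?_
    rintro ⟨⟨a, a'⟩, ⟨r, r'⟩⟩ hq
    simp only [hF, Finset.mem_product, Finset.mem_Icc] at hq
    have hd := sm_dens ΛX hX zX hUX T i0 SX thX (1 - u) (((i0 : ℝ≥0∞) + 1) * thX / u)
      (fun q hq => hq) ((le_of_eq (tsum_congr fun P => by congr)).trans hqX2)
      (dens_num _ u hu0 hu1) J a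
    refine WW_piece ΛX hX ΛY hY zX zY hUX hUY n a a' r r' w (fun L => Sm hX zX T i0 SX J L)
      (fun _ => True) (fun x P P' => Dp zX P ∈ EX r ∧ Cp hX hY zX zY sX sY a a' lo hi x P P')
      (((i0 : ℝ≥0∞) + 1) * thX / u) BB (Or.inl hd) ?_
    intro μ hμ1 hμ2
    refine (le_of_eq (tsum_congr fun x => congrArg (μ x * ·) (tsum_congr fun P =>
      tsum_congr fun P' => ?_))).trans
      ((hH2 (4 * i0) s r r' a a' lo hi (EX r) μ _ lam hμ1 hμ2 hl0 hlt (by omega) (by omega)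
      (by omega) (by omega) (by omega) (by omega)).trans ?_)
    · congr
    rw [hBB]
    gcongr
    exact hcardM thX _ (Eset_card ΛX hX zX T thX r hplX _ (fun x hx => by
      simpa only [hEX, Set.Finite.mem_toFinset, Eset, Set.mem_ofPred_eq] using hx))
  have t9 : WW ΛX hX ΛY hY n (fun L L' => ∃ q ∈ F, evY q L L') ≤ ((i0 : ℝ≥0∞) + 1) ^ 4 * BB := by
    refine hsum evY ?_
    rintro ⟨⟨a, a'⟩, ⟨r, r'⟩⟩ hq
    simp only [hF, Finset.mem_product, Finset.mem_Icc] at hq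
    have hd := sm_dens ΛY hY zY hUY T i0 SY thY (1 - u) (((i0 : ℝ≥0∞) + 1) * thY / u)
      (fun q hq => hq) ((le_of_eq (tsum_congr fun P => by congr)).trans hqY2)
      (dens_num _ u hu0 hu1) J a'
    refine WW_piece ΛX hX ΛY hY zX zY hUX hUY n a a' r r' w (fun _ => True)
      (fun L => Sm hY zY T i0 SY J L)
      (fun x P P' => Dp zY P' ∈ EY r' ∧ Cp hX hY zX zY sX sY a a' lo hi x P P')
      (((i0 : ℝ≥0∞) + 1) * thY / u) BB (Or.inr hd) ?_
    intro μ hμ1 hμ2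
    refine (le_of_eq (tsum_congr fun x => congrArg (μ x * ·) (tsum_congr fun P =>
      tsum_congr fun P' => ?_))).trans
      ((hH3 (4 * i0) s r r' a a' lo hi (EY r') μ _ lam hμ1 hμ2 hl0 hlt (by omega) (by omega)
      (by omega) (by omega) (by omega) (by omega)).trans ?_)
    · congr
    rw [hBB]
    gcongr
    exact hcardM thY _ (Eset_card ΛY hY zY T thY r' hplY _ (fun x hx => by
      simpa only [hEY, Set.Finite.mem_toFinset, Eset, Set.mem_ofPred_eq] using hx))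
  have u9 := (WW_or ΛX hX ΛY hY n (fun L L' => ∃ q ∈ F, evX q L L')
    (fun L L' => ∃ q ∈ F, evY q L L')).trans (add_le_add t8 t9)
  have u8 := (WW_or ΛX hX ΛY hY n (fun L L' => nlX L ∧ nlY L') _).trans (add_le_add t7 u9)
  have u7 := (WW_or ΛX hX ΛY hY n (fun _ L' => ovY2 L') _).trans (add_le_add t6 u8)
  have u6 := (WW_or ΛX hX ΛY hY n (fun _ L' => ovY1 L') _).trans (add_le_add t5 u7)
  have u5 := (WW_or ΛX hX ΛY hY n (fun L _ => ovX2 L) _).trans (add_le_add t4 u6)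
  have u4 := (WW_or ΛX hX ΛY hY n (fun L _ => ovX1 L) _).trans (add_le_add t3 u5)
  have u3 := (WW_or ΛX hX ΛY hY n (fun L L' => ∃ k ∈ Finset.Ioc (D + T - s) (D + T + 4 * i0),
    V1 k L L') _).trans (add_le_add t2 u4)
  have u2 := (WW_or ΛX hX ΛY hY n (fun L L' => ∃ k ∈ Finset.Ioc D (D + 3 * i0 + s),
    V1 k L L') _).trans (add_le_add t1 u3)
  refine hinc.trans (u2.trans (le_of_eq ?_))
  ring

end window

end Crest.Agent.R154.Asm642
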