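import Crest.Agent.R154.FPR_751

/-! Row 154, ROAD 801: one window (helper751). -/

set_option autoImplicit false

namespace Crest.Agent.R154.Asm751

open scoped ENNReal
open Crest.Agent.R154.B5A (LW HT LW_nil LW_cons LW_append HT_nil HT_cons HT_append tsum_list U tail)

variable {B G : Type*} [AddCommGroup G]

open Classical in
/-- indicator of a proposition -/
noncomputable def I (P : Prop) : ℝ≥0∞ := if P then 1 else 0

lemma I_le (P : Prop) : I P ≤ 1 := by unfold I; split_ifs <;> simp

lemma I_true {P : Prop} (h : P) : I P = 1 := if_pos h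

lemma I_false {P : Prop} (h : ¬ P) : I P = 0 := if_neg h

lemma I_mono {P Q : Prop} (h : P → Q) : I P ≤ I Q := by
  by_cases hP : P
  · rw [I_true (h hP)]; exact I_le P
  · rw [I_false hP]; exact zero_le

lemma I_and (P Q : Prop) : I (P ∧ Q) = I P * I Q := by
  by_cases hP : P <;> by_cases hQ : Q <;> simp [I, hP, hQ]

/-- sites of a list placed at `x`, depth `a` -/
def TR (ht : B → ℕ) (zz : B → G) (st : B → Set (G × ℕ)) : List B → G → ℕ → Set (G × ℕ)
  | [], _, _ => ∅
  | b :: L, x, a => {p | ∃ q ∈ st b, p = (x + q.1, a + q.2)} ∪ TR ht zz st L (x + zz b) (a + ht b)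

variable (ht : B → ℕ) (zz : B → G) (st : B → Set (G × ℕ))

lemma TR_append (L L' : List B) (x : G) (a : ℕ) :
    TR ht zz st (L ++ L') x a = TR ht zz st L x a ∪ TR ht zz st L' (x + dp zz L) (a + HT ht L) := by
  induction L generalizing x a with
  | nil => simp [TR, dp, HT_nil]
  | cons b L ih =>
    simp only [List.cons_append, TR]
    rw [ih, Set.union_assoc]
    simp only [dp, List.map_cons, List.sum_cons, HT_cons, add_assoc]

lemma TR_depth (hs : ∀ b p, p ∈ st b → 1 ≤ p.2 ∧ p.2 ≤ ht b) (L : List B) (x : G) (a : ℕ)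
    (p : G × ℕ) (hp : p ∈ TR ht zz st L x a) : a < p.2 ∧ p.2 ≤ a + HT ht L := by
  induction L generalizing x a with
  | nil => exact absurd hp (Set.notMem_empty _)
  | cons b L ih =>
    rw [HT_cons]
    rcases hp with ⟨q, hq, rfl⟩ | hp
    · have := hs b q hq
      simp only; omega
    · have := ih _ _ hp; omega

lemma TR_shift (L : List B) (x y : G) (a : ℕ) (z : G) (k : ℕ) :
    (z, k) ∈ TR ht zz st L (x + y) a ↔ (z - y, k) ∈ TR ht zz st L x a := by
  induction L generalizing x a with
  | nil => simp [TR]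
  | cons b L ih =>
    simp only [TR, Set.mem_union, Set.mem_setOf_eq, Prod.mk.injEq]
    rw [show x + y + zz b = (x + zz b) + y by abel, ih]
    refine or_congr ?_ Iff.rfl
    constructor
    · rintro ⟨q, hq, h1, h2⟩
      exact ⟨q, hq, by rw [h1]; abel, h2⟩
    · rintro ⟨q, hq, h1, h2⟩
      exact ⟨q, hq, by rw [sub_eq_iff_eq_add] at h1; rw [h1]; abel, h2⟩

/-- splitting twice -/
lemma two_split {Λ : B → ℝ≥0∞} {ht : B → ℕ} (hΛ : ∑' b, Λ b = 1) (h1 : ∀ b, 1 ≤ ht b)
    (n A D i0 : ℕ) (hn : A + i0 + D ≤ n) (F : List B → ℝ≥0∞) (hF : ∀ L, F L ≤ 1)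
    (P : List B → List B → ℝ≥0∞)
    (hP : ∀ L1 L2 L3, FP ht L1 A → FP ht L2 D → HT ht L1 ≤ A + i0 →
      HT ht (L1 ++ (L2 ++ L3)) = n → F (L1 ++ (L2 ++ L3)) ≤ P L1 L2) :
    ∑' L, LW Λ L * (I (HT ht L = n) * F L) ≤
      ep Λ ht i0 + R Λ ht A (fun L1 => I (HT ht L1 ≤ A + i0) * R Λ ht D (fun L2 => P L1 L2)) := by
  classical
  have hU : ∀ (L1 : List B) (c : ℝ≥0∞) (Fu : List B → ℝ≥0∞), (∀ L', HT ht (L1 ++ L') = n → Fu L' ≤ c) →
      ∑' L', LW Λ L' * (I (HT ht (L1 ++ L') = n) * Fu L') ≤ c := by
    intro L1 c Fu hFu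
    calc ∑' L', LW Λ L' * (I (HT ht (L1 ++ L') = n) * Fu L')
        ≤ ∑' L', (if HT ht L' = n - HT ht L1 then LW Λ L' else 0) * c := by
          refine ENNReal.tsum_le_tsum fun L' => ?_
          by_cases h : HT ht (L1 ++ L') = n
          · rw [I_true h, one_mul, if_pos (by rw [HT_append] at h; omega)]
            exact mul_le_mul_right (hFu L' h) _
          · rw [I_false h]; simp
      _ = (∑' L', (if HT ht L' = n - HT ht L1 then LW Λ L' else 0)) * c := ENNReal.tsum_mul_right
      _ ≤ 1 * c := by gcongr; exact U_le hΛ h1 _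
      _ = c := one_mul c
  calc ∑' L, LW Λ L * (I (HT ht L = n) * F L)
      = ∑' L, (if A ≤ HT ht L then LW Λ L * (I (HT ht L = n) * F L) else 0) := by
        refine tsum_congr fun L => ?_
        split_ifs with h
        · rfl
        · rw [I_false (by omega)]; simp
    _ = R Λ ht A (fun L1 => ∑' L', LW Λ L' * (I (HT ht (L1 ++ L') = n) * F (L1 ++ L'))) :=
        split Λ ht h1 A _
    _ ≤ R Λ ht A (fun L1 => (if A + i0 < HT ht L1 then 1 else 0) +
          I (HT ht L1 ≤ A + i0) * R Λ ht D (fun L2 => P L1 L2)) := by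
        refine R_mono Λ ht A fun L1 hL1 => ?_
        by_cases h : A + i0 < HT ht L1
        · rw [if_pos h]
          exact le_add_right (hU L1 1 _ fun L' _ => hF _)
        · rw [if_neg h, zero_add, I_true (not_lt.1 h), one_mul]
          calc ∑' L', LW Λ L' * (I (HT ht (L1 ++ L') = n) * F (L1 ++ L'))
              = ∑' L', (if D ≤ HT ht L' then
                  LW Λ L' * (I (HT ht (L1 ++ L') = n) * F (L1 ++ L')) else 0) := by
                refine tsum_congr fun L' => ?_
                split_ifs with h'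
                · rfl
                · rw [I_false (by rw [HT_append]; omega)]; simp
            _ = R Λ ht D (fun L2 => ∑' L3, LW Λ L3 *
                  (I (HT ht (L1 ++ (L2 ++ L3)) = n) * F (L1 ++ (L2 ++ L3)))) :=
                split Λ ht h1 D _
            _ ≤ _ := by
                refine R_mono Λ ht D fun L2 hL2 => ?_
                have := hU (L1 ++ L2) (P L1 L2) (fun L3 => F (L1 ++ (L2 ++ L3))) (by
                  intro L3 h3
                  rw [List.append_assoc] at h3
                  exact hP L1 L2 L3 hL1 hL2 (not_lt.1 h) h3)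
                simpa only [List.append_assoc] using this
    _ ≤ _ := by
        rw [R_add]
        gcongr
        exact over_le Λ ht hΛ h1 i0 A

end Crest.Agent.R154.Asm751
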