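import Crest.Agent.R154.AsmQ_801
import Crest.Agent.R154.Bind801_12

/-! Row 154, ROAD 801 (helper801): one window. -/

set_option autoImplicit false

namespace Crest.Agent.R154.Asm801

open scoped ENNReal
open Crest.Agent.R154.B5A
open Crest.Agent.R154.FP178 (fp)
open Crest.Agent.R154.Bind12 (TT Dp)

section traces

variable {B G : Type*} [AddCommGroup G] (s : B → Set (G × ℕ)) (z : B → G) (h : B → ℕ)

lemma Dp_append (L L' : List B) : Dp z (L ++ L') = Dp z L + Dp z L' := by simp [Dp]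

lemma Dp_flatten (VV : List (List B)) : Dp z VV.flatten = (VV.map (Dp z)).sum := by
  induction VV with
  | nil => simp [Dp]
  | cons V VV ih => rw [List.flatten_cons, Dp_append, ih]; simp

lemma HT_flatten (VV : List (List B)) : HT h VV.flatten = (VV.map (HT h)).sum := by
  induction VV with
  | nil => simp [HT]
  | cons V VV ih => rw [List.flatten_cons, HT_append, ih]; simp

lemma TT_append (L L' : List B) (x : G) (a : ℕ) :
    TT s z h (L ++ L') x a = TT s z h L x a ∪ TT s z h L' (x + Dp z L) (a + HT h L) := by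
  induction L generalizing x a with
  | nil => simp [TT, Dp, HT]
  | cons b L ih =>
    simp only [List.cons_append, TT]
    rw [ih, Set.union_assoc]
    congr 3
    · simp [Dp, add_assoc]
    · simp [HT, add_assoc]

lemma TT_depth (hs : ∀ b, ∀ q ∈ s b, 1 ≤ q.2 ∧ q.2 ≤ h b) (L : List B) (x : G) (a : ℕ) (y : G)
    (k : ℕ) (hk : (y, k) ∈ TT s z h L x a) : a + 1 ≤ k ∧ k ≤ a + HT h L := by
  induction L generalizing x a with
  | nil => simp [TT] at hk
  | cons b L ih =>
    rw [HT_cons]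
    rcases hk with ⟨q, hq, hp⟩ | hk
    · have h1 := hs b q hq
      obtain ⟨-, h2⟩ := Prod.mk.inj hp
      omega
    · have := ih _ _ hk
      omega

lemma TT_shift (L : List B) (x c : G) (a : ℕ) (y : G) (k : ℕ) :
    (y + c, k) ∈ TT s z h L (x + c) a ↔ (y, k) ∈ TT s z h L x a := by
  induction L generalizing x a with
  | nil => simp [TT]
  | cons b L ih =>
    simp only [TT, Set.mem_union]
    rw [show x + c + z b = x + z b + c by abel, ih]
    refine or_congr ?_ Iff.rfl
    constructor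
    · rintro ⟨q, hq, hp⟩
      obtain ⟨h1, h2⟩ := Prod.mk.inj hp
      refine ⟨q, hq, Prod.ext ?_ h2⟩
      have : y + c = x + q.1 + c := by rw [h1]; abel
      exact add_right_cancel this
    · rintro ⟨q, hq, hp⟩
      obtain ⟨h1, h2⟩ := Prod.mk.inj hp
      refine ⟨q, hq, Prod.ext ?_ h2⟩
      simp only
      rw [h1]; abel

end traces

variable {BX BY G : Type*} [AddCommGroup G]

/-- contact event of two placed pieces: some common site, all common sites at depth in `[lo, hi]` -/
def ev (sX : BX → Set (G × ℕ)) (zX : BX → G) (hX : BX → ℕ)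
    (sY : BY → Set (G × ℕ)) (zY : BY → G) (hY : BY → ℕ)
    (a a' lo hi : ℕ) (x : G) (P : List BX) (P' : List BY) : Prop :=
  (∃ y k, (y, k) ∈ TT sX zX hX P 0 a ∧ (y, k) ∈ TT sY zY hY P' x a') ∧
    ∀ y k, (y, k) ∈ TT sX zX hX P 0 a → (y, k) ∈ TT sY zY hY P' x a' → lo ≤ k ∧ k ≤ hi

open Classical in
/-- window lemma, X local (`loc = true`) or Y local -/
def HW (ΛX : BX → ℝ≥0∞) (sX : BX → Set (G × ℕ)) (zX : BX → G) (hX : BX → ℕ)
    (ΛY : BY → ℝ≥0∞) (sY : BY → Set (G × ℕ)) (zY : BY → G) (hY : BY → ℕ)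
    (locX : Bool) (C : ℝ≥0∞) (us : ℕ → ℕ → ℝ≥0∞) : Prop :=
  ∀ (i s h h' a a' lo hi : ℕ) (E : Finset G) (μ : G → ℝ≥0∞) (M lam : ℝ≥0∞),
    ∑' x, μ x ≤ 1 → (∀ x, μ x ≤ M) → M ≠ ⊤ → lam ≠ 0 → lam ≠ ⊤ →
    a + s ≤ lo → a' + s ≤ lo → hi + s ≤ a + h → hi + s ≤ a' + h' →
    a ≤ a' + i → a' ≤ a + i → a + h ≤ a' + h' + i → a' + h' ≤ a + h + i → 1 ≤ s →
    ∑' x, μ x * ∑' P : List BX, ∑' P' : List BY,
      (if HT hX P = h ∧ HT hY P' = h' ∧ (if locX = true then Dp zX P ∈ E else Dp zY P' ∈ E) ∧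
        ev sX zX hX sY zY hY a a' lo hi x P P' then LW ΛX P * LW ΛY P' else 0)
      ≤ C * (lam + M * E.card * us i s / lam + us i s)

section window

variable (ΛX : BX → ℝ≥0∞) (sX : BX → Set (G × ℕ)) (zX : BX → G) (hX : BX → ℕ)
  (ΛY : BY → ℝ≥0∞) (sY : BY → Set (G × ℕ)) (zY : BY → G) (hY : BY → ℕ)

/-- type of a piece -/
def gp {B : Type*} (z : B → G) (h : B → ℕ) (V : List B) : ℤ × G := ((HT h V : ℤ), Dp z V)

lemma sum_gp {B : Type*} (z : B → G) (h : B → ℕ) (VV : List (List B)) :
    (VV.map (gp z h)).sum = ((HT h VV.flatten : ℤ), Dp z VV.flatten) := by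
  induction VV with
  | nil => simp [HT, Dp]; rfl
  | cons V VV ih =>
    rw [List.map_cons, List.sum_cons, ih, List.flatten_cons, HT_append, Dp_append]
    simp [gp]

open Classical in
/-- double sum over the two pieces -/
noncomputable def D0 (T i0 a a' lo hi : ℕ) (x : G) (φ : List BX → List BY → ℝ≥0∞) : ℝ≥0∞ :=
  ∑' P, Lp ΛX hX T i0 P * ∑' P', Lp ΛY hY T i0 P' *
    (if ev sX zX hX sY zY hY a a' lo hi x P P' then φ P P' else 0)

lemma mem_range_of_Lp {B : Type*} (Λ : B → ℝ≥0∞) (h : B → ℕ) (T i0 : ℕ) (V : List B)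
    (hV : Lp Λ h T i0 V ≠ 0) : T ≤ HT h V ∧ HT h V ≤ T + i0 := by
  unfold Lp at hV
  by_cases hc : fp h T V ∧ HT h V ≤ T + i0
  · exact ⟨FP178.le_HT_of_fp h hc.1, hc.2⟩
  · rw [if_neg hc] at hV; exact absurd rfl hV

lemma range_flatten {B : Type*} (Λ : B → ℝ≥0∞) (h : B → ℕ) (T i0 : ℕ) (VV : List (List B))
    (hV : ∀ V ∈ VV, Lp Λ h T i0 V ≠ 0) :
    VV.length * T ≤ HT h VV.flatten ∧ HT h VV.flatten ≤ VV.length * (T + i0) := by
  induction VV with
  | nil => simp [HT]
  | cons V VV ih =>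
    have h1 := mem_range_of_Lp Λ h T i0 V (hV V (by simp))
    have h2 := ih fun V hV' => hV V (by simp [hV'])
    rw [List.flatten_cons, HT_append, List.length_cons]
    constructor
    · have : (VV.length + 1) * T = VV.length * T + T := by ring
      omega
    · have : (VV.length + 1) * (T + i0) = VV.length * (T + i0) + (T + i0) := by ring
      omega

open Classical in
/-- local double sum `≤` sum over the heights -/
lemma D0_loc_le (T i0 a a' lo hi : ℕ) (x : G) (locX : Bool) (E : ℕ → Finset G)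
    (φ : List BX → List BY → ℝ≥0∞)
    (hφ : ∀ P P', φ P P' ≤ 1)
    (hE : ∀ P P', φ P P' ≠ 0 → if locX = true then Dp zX P ∈ E (HT hX P) else Dp zY P' ∈ E (HT hY P')) :
    D0 ΛX sX zX hX ΛY sY zY hY T i0 a a' lo hi x φ
      ≤ ∑ h ∈ Finset.Icc T (T + i0), ∑ h' ∈ Finset.Icc T (T + i0),
        ∑' P : List BX, ∑' P' : List BY,
          (if HT hX P = h ∧ HT hY P' = h' ∧
            (if locX = true then Dp zX P ∈ E h else Dp zY P' ∈ E h') ∧
            ev sX zX hX sY zY hY a a' lo hi x P P' then LW ΛX P * LW ΛY P' else 0) := by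
  have e0 : ∀ h h' : ℕ, ∀ f : List BX → List BY → ℝ≥0∞, True := fun _ _ _ => trivial
  calc D0 ΛX sX zX hX ΛY sY zY hY T i0 a a' lo hi x φ
      ≤ ∑' P : List BX, ∑' P' : List BY, ∑ h ∈ Finset.Icc T (T + i0),
          ∑ h' ∈ Finset.Icc T (T + i0),
          (if HT hX P = h ∧ HT hY P' = h' ∧
            (if locX = true then Dp zX P ∈ E h else Dp zY P' ∈ E h') ∧
            ev sX zX hX sY zY hY a a' lo hi x P P' then LW ΛX P * LW ΛY P' else 0) := by
        unfold D0
        refine ENNReal.tsum_le_tsum fun P => ?_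
        rw [← ENNReal.tsum_mul_left]
        refine ENNReal.tsum_le_tsum fun P' => ?_
        by_cases hev : ev sX zX hX sY zY hY a a' lo hi x P P'
        · rw [if_pos hev]
          by_cases h0 : Lp ΛX hX T i0 P = 0
          · rw [h0]; simp
          by_cases h0' : Lp ΛY hY T i0 P' = 0
          · rw [h0']; simp
          by_cases h1 : φ P P' = 0
          · rw [h1]; simp
          have r1 := mem_range_of_Lp ΛX hX T i0 P h0
          have r2 := mem_range_of_Lp ΛY hY T i0 P' h0'
          have l1 : Lp ΛX hX T i0 P ≤ LW ΛX P := by unfold Lp; split_ifs <;> simp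
          have l2 : Lp ΛY hY T i0 P' ≤ LW ΛY P' := by unfold Lp; split_ifs <;> simp
          refine le_trans ?_ (Finset.single_le_sum (f := fun h => ∑ h' ∈ Finset.Icc T (T + i0),
            (if HT hX P = h ∧ HT hY P' = h' ∧
            (if locX = true then Dp zX P ∈ E h else Dp zY P' ∈ E h') ∧
            ev sX zX hX sY zY hY a a' lo hi x P P' then LW ΛX P * LW ΛY P' else 0))
            (fun _ _ => zero_le) (Finset.mem_Icc.2 r1))
          refine le_trans ?_ (Finset.single_le_sum (f := fun h' =>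
            (if HT hX P = HT hX P ∧ HT hY P' = h' ∧
            (if locX = true then Dp zX P ∈ E (HT hX P) else Dp zY P' ∈ E h') ∧
            ev sX zX hX sY zY hY a a' lo hi x P P' then LW ΛX P * LW ΛY P' else 0))
            (fun _ _ => zero_le) (Finset.mem_Icc.2 r2))
          simp only
          rw [if_pos ⟨trivial, trivial, hE P P' h1, hev⟩]
          calc Lp ΛX hX T i0 P * (Lp ΛY hY T i0 P' * φ P P')
              ≤ LW ΛX P * (LW ΛY P' * 1) :=
                mul_le_mul' l1 (mul_le_mul' l2 (hφ P P'))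
            _ = _ := by rw [mul_one]
        · rw [if_neg hev]; simp
    _ = _ := by
        simp_rw [Summable.tsum_finsetSum (fun _ _ => ENNReal.summable)]

end window

end Crest.Agent.R154.Asm801
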