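import Crest.Agent.R154.AsmS_852

/-! Row 154, ROAD 801 (helper852): cutting operators, traces, one window. -/

set_option autoImplicit false

namespace Crest.Agent.R154.Asm852

open scoped ENNReal
open Crest.Agent.R154.B5A Crest.Agent.R154.FP178

section ops
variable {B : Type*} (Λ : B → ℝ≥0∞) (ht : B → ℕ)

open Classical in
/-- exact height `n` -/
noncomputable def S0 (n : ℕ) (H : List B → ℝ≥0∞) : ℝ≥0∞ :=
  ∑' L, if HT ht L = n then LW Λ L * H L else 0

open Classical in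
/-- first passage of depth `a`, overshoot at most `i0` -/
noncomputable def S1 (i0 a : ℕ) (H : List B → ℝ≥0∞) : ℝ≥0∞ :=
  ∑' L, if fp ht a L ∧ HT ht L ≤ a + i0 then LW Λ L * H L else 0

/-- overshoot mass -/
noncomputable def ov (i0 : ℕ) : ℝ≥0∞ := ∑' k, tail Λ ht (i0 + k)

lemma S0_mono {n : ℕ} {H H' : List B → ℝ≥0∞} (h : ∀ L, HT ht L = n → H L ≤ H' L) :
    S0 Λ ht n H ≤ S0 Λ ht n H' := by
  refine ENNReal.tsum_le_tsum fun L => ?_
  by_cases hL : HT ht L = n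
  · rw [if_pos hL, if_pos hL]; exact mul_le_mul_right (h L hL) _
  · rw [if_neg hL, if_neg hL]

lemma S0_const (hU1 : ∀ n, U Λ ht n ≤ 1) (n : ℕ) (c : ℝ≥0∞) : S0 Λ ht n (fun _ => c) ≤ c := by
  calc S0 Λ ht n (fun _ => c) = U Λ ht n * c := by
        rw [S0, U, ← ENNReal.tsum_mul_right]
        refine tsum_congr fun L => ?_
        split_ifs <;> simp
    _ ≤ 1 * c := mul_le_mul_left (hU1 n) _
    _ = c := one_mul _

lemma S0_le (hU1 : ∀ n, U Λ ht n ≤ 1) (n : ℕ) (c : ℝ≥0∞) {H : List B → ℝ≥0∞}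
    (h : ∀ L, HT ht L = n → H L ≤ c) : S0 Λ ht n H ≤ c :=
  (S0_mono Λ ht (H' := fun _ => c) h).trans (S0_const Λ ht hU1 n c)

lemma S1_mono {i0 a : ℕ} {H H' : List B → ℝ≥0∞}
    (h : ∀ L, fp ht a L → HT ht L ≤ a + i0 → H L ≤ H' L) :
    S1 Λ ht i0 a H ≤ S1 Λ ht i0 a H' := by
  refine ENNReal.tsum_le_tsum fun L => ?_
  by_cases hL : fp ht a L ∧ HT ht L ≤ a + i0
  · rw [if_pos hL, if_pos hL]; exact mul_le_mul_right (h L hL.1 hL.2) _
  · rw [if_neg hL, if_neg hL]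

lemma S1_const (h1 : ∀ b, 1 ≤ ht b) (hΛ : ∑' b, Λ b = 1) (i0 a : ℕ) (c : ℝ≥0∞) :
    S1 Λ ht i0 a (fun _ => c) ≤ c := by
  calc S1 Λ ht i0 a (fun _ => c) ≤ (∑' L, open Classical in if fp ht a L then LW Λ L else 0) * c := by
        rw [S1, ← ENNReal.tsum_mul_right]
        refine ENNReal.tsum_le_tsum fun L => ?_
        by_cases hL : fp ht a L ∧ HT ht L ≤ a + i0
        · rw [if_pos hL, if_pos hL.1]
        · rw [if_neg hL]; exact zero_le
    _ = c := by rw [sum_FP_eq Λ ht h1 hΛ, one_mul]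

lemma S1_le (h1 : ∀ b, 1 ≤ ht b) (hΛ : ∑' b, Λ b = 1) (i0 a : ℕ) (c : ℝ≥0∞)
    {H : List B → ℝ≥0∞} (h : ∀ L, fp ht a L → HT ht L ≤ a + i0 → H L ≤ c) :
    S1 Λ ht i0 a H ≤ c :=
  (S1_mono Λ ht (H' := fun _ => c) h).trans (S1_const Λ ht h1 hΛ i0 a c)

lemma S1_add (i0 a : ℕ) (H H' : List B → ℝ≥0∞) :
    S1 Λ ht i0 a (fun L => H L + H' L) = S1 Λ ht i0 a H + S1 Λ ht i0 a H' := by
  rw [S1, S1, S1, ← ENNReal.tsum_add]
  refine tsum_congr fun L => ?_
  by_cases hL : fp ht a L ∧ HT ht L ≤ a + i0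
  · rw [if_pos hL, if_pos hL, if_pos hL, mul_add]
  · rw [if_neg hL, if_neg hL, if_neg hL, add_zero]

lemma S0_add (n : ℕ) (H H' : List B → ℝ≥0∞) :
    S0 Λ ht n (fun L => H L + H' L) = S0 Λ ht n H + S0 Λ ht n H' := by
  rw [S0, S0, S0, ← ENNReal.tsum_add]
  refine tsum_congr fun L => ?_
  by_cases hL : HT ht L = n
  · rw [if_pos hL, if_pos hL, if_pos hL, mul_add]
  · rw [if_neg hL, if_neg hL, if_neg hL, add_zero]

open Classical in
lemma onecut (h1 : ∀ b, 1 ≤ ht b) (hU1 : ∀ n, U Λ ht n ≤ 1) (i0 a n : ℕ) (han : a ≤ n)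
    (F : List B → ℝ≥0∞) (c : ℝ≥0∞) (hF : ∀ L, F L ≤ c) :
    S0 Λ ht n F ≤ S1 Λ ht i0 a (fun T => S0 Λ ht (n - HT ht T) (fun R => F (T ++ R)))
      + ov Λ ht i0 * c := by
  have e1 : S0 Λ ht n F = ∑' L, (if a ≤ HT ht L then LW Λ L * (if HT ht L = n then F L else 0)
      else 0) := by
    refine tsum_congr fun L => ?_
    by_cases hL : HT ht L = n
    · rw [if_pos hL, if_pos (by omega), if_pos hL]
    · rw [if_neg hL, if_neg hL, mul_zero, ite_self]
  rw [e1, split Λ ht h1 a]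
  have e2 : ∀ T : List B, ∑' R, LW Λ R * (if HT ht (T ++ R) = n then F (T ++ R) else 0)
      ≤ S0 Λ ht (n - HT ht T) (fun R => F (T ++ R)) := by
    intro T
    refine ENNReal.tsum_le_tsum fun R => ?_
    rw [HT_append]
    by_cases hR : HT ht T + HT ht R = n
    · rw [if_pos hR, if_pos (by omega)]
    · rw [if_neg hR, mul_zero]; exact zero_le
  have e3 : ov Λ ht i0 * c ≥ ∑' T, (if fp ht a T ∧ a + i0 < HT ht T then LW Λ T * c else 0) := by
    calc ∑' T, (if fp ht a T ∧ a + i0 < HT ht T then LW Λ T * c else 0)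
        = (∑' T, (if fp ht a T ∧ a + i0 < HT ht T then LW Λ T else 0)) * c := by
          rw [← ENNReal.tsum_mul_right]
          refine tsum_congr fun T => ?_
          split_ifs <;> simp
      _ ≤ _ := mul_le_mul_left (overshoot Λ ht h1 hU1 i0 a) _
  refine le_trans ?_ (add_le_add le_rfl e3)
  rw [S1, ← ENNReal.tsum_add]
  refine ENNReal.tsum_le_tsum fun T => ?_
  by_cases hT : fp ht a T
  · rw [if_pos hT]
    by_cases hT2 : HT ht T ≤ a + i0
    · rw [if_pos ⟨hT, hT2⟩]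
      exact le_add_right (mul_le_mul_right (e2 T) _)
    · rw [if_neg (fun h => hT2 h.2), zero_add, if_pos ⟨hT, by omega⟩]
      exact mul_le_mul_right ((e2 T).trans (S0_le Λ ht hU1 _ c fun R _ => hF _)) _
  · rw [if_neg hT]; exact zero_le

lemma twocut (h1 : ∀ b, 1 ≤ ht b) (hΛ : ∑' b, Λ b = 1) (hU1 : ∀ n, U Λ ht n ≤ 1)
    (i0 D S n : ℕ) (hn : D + i0 + S ≤ n)
    (F : List B → ℝ≥0∞) (c : ℝ≥0∞) (hF : ∀ L, F L ≤ c) :
    S0 Λ ht n F ≤ S1 Λ ht i0 D (fun T => S1 Λ ht i0 S (fun P =>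
      S0 Λ ht (n - HT ht T - HT ht P) (fun R => F (T ++ (P ++ R))))) + 2 * (ov Λ ht i0 * c) := by
  refine (onecut Λ ht h1 hU1 i0 D n (by omega) F c hF).trans ?_
  have : S1 Λ ht i0 D (fun T => S0 Λ ht (n - HT ht T) (fun R => F (T ++ R)))
      ≤ S1 Λ ht i0 D (fun T => S1 Λ ht i0 S (fun P =>
        S0 Λ ht (n - HT ht T - HT ht P) (fun R => F (T ++ (P ++ R))))) + ov Λ ht i0 * c := by
    refine le_trans ?_ (add_le_add le_rfl (S1_const Λ ht h1 hΛ i0 D (ov Λ ht i0 * c)))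
    rw [← S1_add]
    refine S1_mono Λ ht fun T _ hT2 => ?_
    exact onecut Λ ht h1 hU1 i0 S (n - HT ht T) (by omega) (fun R => F (T ++ R)) c fun R => hF _
  refine (add_le_add this le_rfl).trans (le_of_eq ?_)
  ring

end ops

section tr
variable {B G : Type*} [AddCommGroup G] (s : B → Set (G × ℕ)) (z : B → G) (ht : B → ℕ)

/-- sites read by a list placed at position `x`, depth `a` -/
def TT : List B → G → ℕ → Set (G × ℕ)
  | [], _, _ => ∅
  | b :: L, x, a => {p | ∃ q ∈ s b, p = (x + q.1, a + q.2)} ∪ TT L (x + z b) (a + ht b)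

lemma TT_append (L L' : List B) (x : G) (a : ℕ) :
    TT s z ht (L ++ L') x a = TT s z ht L x a ∪ TT s z ht L' (x + Dp z L) (a + HT ht L) := by
  induction L generalizing x a with
  | nil => simp [TT, Dp, HT_nil]
  | cons b L ih =>
    simp only [List.cons_append, TT]
    rw [ih, Set.union_assoc, HT_cons]
    simp only [Dp, List.map_cons, List.sum_cons, add_assoc]

lemma TT_depth (hs : ∀ b, ∀ p ∈ s b, 1 ≤ p.2 ∧ p.2 ≤ ht b) (L : List B) (x : G) (a : ℕ)
    (q : G × ℕ) (hq : q ∈ TT s z ht L x a) : a + 1 ≤ q.2 ∧ q.2 ≤ a + HT ht L := by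
  induction L generalizing x a with
  | nil => simp [TT] at hq
  | cons b L ih =>
    rw [HT_cons]
    rcases hq with ⟨p, hp, rfl⟩ | hq
    · have := hs b p hp; simp only; omega
    · have := ih _ _ hq; omega

lemma TT_shift (L : List B) (x y : G) (a : ℕ) (g : G) (k : ℕ) :
    (g, k) ∈ TT s z ht L (x + y) a ↔ (g - y, k) ∈ TT s z ht L x a := by
  induction L generalizing x a with
  | nil => simp [TT]
  | cons b L ih =>
    simp only [TT, Set.mem_union, Set.mem_setOf_eq, Prod.mk.injEq]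
    rw [show x + y + z b = (x + z b) + y by abel, ih]
    refine or_congr ?_ Iff.rfl
    refine exists_congr fun p => and_congr_right fun _ => and_congr_left fun _ => ?_
    constructor
    · rintro rfl; abel
    · intro h; rw [← sub_add_cancel g y, h]; abel

end tr

section pair
variable {BX BY G : Type*} [AddCommGroup G]
  (ΛX : BX → ℝ≥0∞) (ΛY : BY → ℝ≥0∞) (hX : BX → ℕ) (hY : BY → ℕ) (zX : BX → G) (zY : BY → G)
  (sX : BX → Set (G × ℕ)) (sY : BY → Set (G × ℕ))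

/-- common site -/
def Co (L : List BX) (L' : List BY) (x : G) (a a' : ℕ) (g : G) (k : ℕ) : Prop :=
  (g, k) ∈ TT sX zX hX L 0 a ∧ (g, k) ∈ TT sY zY hY L' x a'

open Classical in
/-- first contact depth in `(lo, hb]`, no contact in `(hi, top]` -/
noncomputable def Ind (w : G) (lo hb hi top : ℕ) (L : List BX) (L' : List BY) : ℝ≥0∞ :=
  if (∃ g k, Co hX hY zX zY sX sY L L' w 0 0 g k ∧ k ≤ hb) ∧
    (∀ g k, Co hX hY zX zY sX sY L L' w 0 0 g k → lo < k ∧ (k ≤ hi ∨ top < k)) then 1 else 0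

open Classical in
/-- the pieces meet, all contacts in `(lo, hi]` -/
noncomputable def W0 (lo hi a a' : ℕ) (x : G) (P : List BX) (P' : List BY) : ℝ≥0∞ :=
  if (∃ g k, Co hX hY zX zY sX sY P P' x a a' g k) ∧
    (∀ g k, Co hX hY zX zY sX sY P P' x a a' g k → lo < k ∧ k ≤ hi) then 1 else 0

lemma W0_le (lo hi a a' : ℕ) (x : G) (P : List BX) (P' : List BY) :
    W0 hX hY zX zY sX sY lo hi a a' x P P' ≤ 1 := by
  rw [W0]; split_ifs <;> simp

lemma Ind_le (w : G) (lo hb hi top : ℕ) (L : List BX) (L' : List BY) :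
    Ind hX hY zX zY sX sY w lo hb hi top L L' ≤ 1 := by
  rw [Ind]; split_ifs <;> simp

lemma Co_pieces (w : G) (T P R : List BX) (T' P' R' : List BY) (g : G) (k : ℕ)
    (h : Co hX hY zX zY sX sY P P' (w + Dp zY T' - Dp zX T) (HT hX T) (HT hY T') g k) :
    Co hX hY zX zY sX sY (T ++ (P ++ R)) (T' ++ (P' ++ R')) w 0 0 (g + Dp zX T) k := by
  obtain ⟨h1, h2⟩ := h
  constructor
  · rw [TT_append, TT_append]
    refine Or.inr (Or.inl ?_)
    rw [zero_add, zero_add]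
    have := TT_shift sX zX hX P 0 (Dp zX T) (HT hX T) (g + Dp zX T) k
    rw [zero_add, add_sub_cancel_right] at this
    exact this.2 h1
  · rw [TT_append, TT_append]
    refine Or.inr (Or.inl ?_)
    rw [zero_add]
    have := TT_shift sY zY hY P' (w + Dp zY T' - Dp zX T) (Dp zX T) (HT hY T') (g + Dp zX T) k
    rw [add_sub_cancel_right, sub_add_cancel] at this
    exact this.2 h2

lemma Ind_pieces (dX : ∀ b, ∀ p ∈ sX b, 1 ≤ p.2 ∧ p.2 ≤ hX b)
    (dY : ∀ b, ∀ p ∈ sY b, 1 ≤ p.2 ∧ p.2 ≤ hY b)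
    (w : G) (lo hb hi top : ℕ) (T P R : List BX) (T' P' R' : List BY)
    (hT : HT hX T ≤ lo) (hT' : HT hY T' ≤ lo)
    (hP : hb ≤ HT hX T + HT hX P) (hP' : hb ≤ HT hY T' + HT hY P')
    (hPt : HT hX T + HT hX P ≤ top) :
    Ind hX hY zX zY sX sY w lo hb hi top (T ++ (P ++ R)) (T' ++ (P' ++ R'))
      ≤ W0 hX hY zX zY sX sY lo hi (HT hX T) (HT hY T') (w + Dp zY T' - Dp zX T) P P' := by
  rw [Ind]
  split_ifs with h
  swap
  · exact zero_le
  obtain ⟨⟨g, k, hgk, hk⟩, hall⟩ := h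
  rw [W0, if_pos]
  refine ⟨⟨g - Dp zX T, k, ?_⟩, ?_⟩
  · have hlo := (hall g k hgk).1
    obtain ⟨h1, h2⟩ := hgk
    constructor
    · rw [TT_append, TT_append, zero_add, zero_add] at h1
      rcases h1 with h1 | h1 | h1
      · have := TT_depth sX zX hX dX _ _ _ _ h1; simp only at this; omega
      · have := TT_shift sX zX hX P 0 (Dp zX T) (HT hX T) g k
        rw [zero_add] at this
        exact this.1 h1
      · have := TT_depth sX zX hX dX _ _ _ _ h1; simp only at this; omega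
    · rw [TT_append, TT_append, zero_add] at h2
      rcases h2 with h2 | h2 | h2
      · have := TT_depth sY zY hY dY _ _ _ _ h2; simp only at this; omega
      · have := TT_shift sY zY hY P' (w + Dp zY T' - Dp zX T) (Dp zX T) (HT hY T') g k
        rw [sub_add_cancel] at this
        exact this.1 h2
      · have := TT_depth sY zY hY dY _ _ _ _ h2; simp only at this; omega
  · intro g' k' h'
    have := hall _ _ (Co_pieces hX hY zX zY sX sY w T P R T' P' R' g' k' h')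
    have hd := TT_depth sX zX hX dX _ _ _ _ h'.1
    simp only at hd
    refine ⟨this.1, ?_⟩
    rcases this.2 with h3 | h3
    · exact h3
    · omega

/-- **reduction of one window to the pieces** -/
theorem window (h1X : ∀ b, 1 ≤ hX b) (h1Y : ∀ b, 1 ≤ hY b) (hΛX : ∑' b, ΛX b = 1)
    (hΛY : ∑' b, ΛY b = 1) (hUX : ∀ n, U ΛX hX n ≤ 1) (hUY : ∀ n, U ΛY hY n ≤ 1)
    (dX : ∀ b, ∀ p ∈ sX b, 1 ≤ p.2 ∧ p.2 ≤ hX b) (dY : ∀ b, ∀ p ∈ sY b, 1 ≤ p.2 ∧ p.2 ≤ hY b)
    (i0 D D' S n lo hb hi top : ℕ) (w : G) (hn : D + i0 + S ≤ n) (hn' : D' + i0 + S ≤ n)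
    (g1 : D + i0 ≤ lo) (g2 : D' + i0 ≤ lo) (g3 : hb ≤ D + S) (g4 : hb ≤ D' + S)
    (g5 : D + S + 2 * i0 ≤ top) :
    S0 ΛX hX n (fun L => S0 ΛY hY n (fun L' => Ind hX hY zX zY sX sY w lo hb hi top L L'))
      ≤ S1 ΛX hX i0 D (fun T => S1 ΛX hX i0 S (fun P => S1 ΛY hY i0 D' (fun T' =>
          S1 ΛY hY i0 S (fun P' => W0 hX hY zX zY sX sY lo hi (HT hX T) (HT hY T')
            (w + Dp zY T' - Dp zX T) P P'))))
        + (2 * ov ΛX hX i0 + 2 * ov ΛY hY i0) := by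
  refine (twocut ΛX hX h1X hΛX hUX i0 D S n hn _ 1 ?_).trans ?_
  · intro L
    exact S0_le ΛY hY hUY n 1 fun L' _ => Ind_le hX hY zX zY sX sY w lo hb hi top L L'
  rw [mul_one, add_comm (2 * ov ΛX hX i0), ← add_assoc]
  refine add_le_add ?_ le_rfl
  refine le_trans ?_ (add_le_add le_rfl (S1_const ΛX hX h1X hΛX i0 D (2 * ov ΛY hY i0)))
  rw [← S1_add]
  refine S1_mono ΛX hX fun T hT hT2 => ?_
  refine le_trans ?_ (add_le_add le_rfl (S1_const ΛX hX h1X hΛX i0 S (2 * ov ΛY hY i0)))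
  rw [← S1_add]
  refine S1_mono ΛX hX fun P hP hP2 => ?_
  refine S0_le ΛX hX hUX _ _ fun R _ => ?_
  refine (twocut ΛY hY h1Y hΛY hUY i0 D' S n hn' _ 1 ?_).trans ?_
  · intro L'
    exact Ind_le hX hY zX zY sX sY w lo hb hi top _ L'
  rw [mul_one]
  refine add_le_add ?_ le_rfl
  refine S1_mono ΛY hY fun T' hT' hT2' => ?_
  refine S1_mono ΛY hY fun P' hP' hP2' => ?_
  refine S0_le ΛY hY hUY _ _ fun R' _ => ?_
  have a1 := le_HT_of_fp hX hT
  have a2 := le_HT_of_fp hX hP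
  have a3 := le_HT_of_fp hY hT'
  have a4 := le_HT_of_fp hY hP'
  exact Ind_pieces hX hY zX zY sX sY dX dY w lo hb hi top T P R T' P' R' (by omega) (by omega)
    (by omega) (by omega) (by omega)

end pair

end Crest.Agent.R154.Asm852
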