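import Crest.Agent.R154.WinOne_267

/-! Row 154, ROAD 801 (helper267): the one-window inequality in list letters. -/

set_option autoImplicit false

namespace Crest.Agent.R154.Win267

open scoped ENNReal
open Crest.Agent.R154.B5A

section Core
variable {BX BY G : Type*} [AddCommGroup G]

lemma push (f : List BX → ℝ≥0∞) (g : List BY → ℝ≥0∞) (δ : List BX → List BY → G)
    (K : G → ℝ≥0∞) :
    ∑' A, ∑' A', f A * g A' * K (δ A A')
      = ∑' x, (∑' A, ∑' A', f A * g A' * ind (δ A A' = x)) * K x := by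
  have e : ∀ x, (∑' A, ∑' A', f A * g A' * ind (δ A A' = x)) * K x
      = ∑' A, ∑' A', f A * g A' * ind (δ A A' = x) * K x := by
    intro x
    rw [← ENNReal.tsum_mul_right]
    refine tsum_congr fun A => ?_
    rw [← ENNReal.tsum_mul_right]
  simp only [e]
  rw [ENNReal.tsum_comm (f := fun x A => ∑' A', f A * g A' * ind (δ A A' = x) * K x)]
  refine tsum_congr fun A => ?_
  rw [ENNReal.tsum_comm (f := fun x A' => f A * g A' * ind (δ A A' = x) * K x)]
  refine tsum_congr fun A' => ?_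
  rw [tsum_eq_single (δ A A')]
  · rw [ind_true rfl, mul_one]
  · intro x hx
    rw [ind_false (Ne.symm hx), mul_zero, zero_mul]

lemma core (f : List BX → ℝ≥0∞) (g : List BY → ℝ≥0∞) (zX : BX → G) (zY : BY → G) (w : G)
    (M β : ℝ≥0∞) (hf : ∑' A, f A ≤ 1) (hg : ∑' A, g A ≤ 1)
    (hM : (∀ z, ∑' A, f A * ind (Dp zX A = z) ≤ M) ∨ (∀ z, ∑' A, g A * ind (Dp zY A = z) ≤ M))
    (K : G → ℝ≥0∞)
    (H : ∀ μ : G → ℝ≥0∞, ∑' x, μ x ≤ 1 → (∀ x, μ x ≤ M) → ∑' x, μ x * K x ≤ β) :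
    ∑' A, ∑' A', f A * g A' * K (w + Dp zY A' - Dp zX A) ≤ β := by
  rw [push f g (fun A A' => w + Dp zY A' - Dp zX A) K]
  have hs : ∑' A, ∑' A', f A * g A' ≤ 1 := by
    simp only [ENNReal.tsum_mul_left]
    rw [ENNReal.tsum_mul_right]
    exact mul_le_one' hf hg
  refine H _ ?_ ?_
  · have e := push f g (fun A A' => w + Dp zY A' - Dp zX A) (fun _ => (1 : ℝ≥0∞))
    simp only [mul_one] at e
    rw [← e]
    exact hs
  · intro x
    rcases hM with hM | hM
    · rw [ENNReal.tsum_comm]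
      calc ∑' A', ∑' A, f A * g A' * ind (w + Dp zY A' - Dp zX A = x)
          ≤ ∑' A', g A' * M := by
            refine ENNReal.tsum_le_tsum fun A' => ?_
            calc ∑' A, f A * g A' * ind (w + Dp zY A' - Dp zX A = x)
                = g A' * ∑' A, f A * ind (Dp zX A = w + Dp zY A' - x) := by
                  rw [← ENNReal.tsum_mul_left]
                  refine tsum_congr fun A => ?_
                  have : (w + Dp zY A' - Dp zX A = x) ↔ (Dp zX A = w + Dp zY A' - x) := by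
                    constructor
                    · rintro rfl; abel
                    · intro h; rw [h]; abel
                  rw [show (w + Dp zY A' - Dp zX A = x) = (Dp zX A = w + Dp zY A' - x)
                    from propext this]
                  ring
              _ ≤ _ := mul_le_mul_right (hM _) _
        _ = (∑' A', g A') * M := ENNReal.tsum_mul_right
        _ ≤ 1 * M := mul_le_mul_left hg _
        _ = M := one_mul _
    · calc ∑' A, ∑' A', f A * g A' * ind (w + Dp zY A' - Dp zX A = x)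
          ≤ ∑' A, f A * M := by
            refine ENNReal.tsum_le_tsum fun A => ?_
            calc ∑' A', f A * g A' * ind (w + Dp zY A' - Dp zX A = x)
                = f A * ∑' A', g A' * ind (Dp zY A' = x + Dp zX A - w) := by
                  rw [← ENNReal.tsum_mul_left]
                  refine tsum_congr fun A' => ?_
                  have : (w + Dp zY A' - Dp zX A = x) ↔ (Dp zY A' = x + Dp zX A - w) := by
                    constructor
                    · rintro rfl; abel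
                    · intro h; rw [h]; abel
                  rw [show (w + Dp zY A' - Dp zX A = x) = (Dp zY A' = x + Dp zX A - w)
                    from propext this]
                  ring
              _ ≤ _ := mul_le_mul_right (hM _) _
        _ = (∑' A, f A) * M := ENNReal.tsum_mul_right
        _ ≤ 1 * M := mul_le_mul_left hf _
        _ = M := one_mul _

end Core

section Four
variable {α β γ δ : Type*} (p : α → ℝ≥0∞) (q : β → ℝ≥0∞) (r : γ → ℝ≥0∞) (t : δ → ℝ≥0∞)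

/-- four-fold weighted sum -/
noncomputable def S4 (F : α → β → γ → δ → ℝ≥0∞) : ℝ≥0∞ :=
  ∑' a, p a * ∑' b, q b * ∑' c, r c * ∑' e, t e * F a b c e

lemma S4_mono {F F' : α → β → γ → δ → ℝ≥0∞} (h : ∀ a b c e, F a b c e ≤ F' a b c e) :
    S4 p q r t F ≤ S4 p q r t F' :=
  ENNReal.tsum_le_tsum fun _ => mul_le_mul_right (ENNReal.tsum_le_tsum fun _ =>
    mul_le_mul_right (ENNReal.tsum_le_tsum fun _ => mul_le_mul_right
      (ENNReal.tsum_le_tsum fun _ => mul_le_mul_right (h _ _ _ _) _) _) _) _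

lemma S4_add (F F' : α → β → γ → δ → ℝ≥0∞) :
    S4 p q r t (fun a b c e => F a b c e + F' a b c e) = S4 p q r t F + S4 p q r t F' := by
  unfold S4
  simp only [mul_add, ENNReal.tsum_add]

lemma S4_prod (f1 : α → ℝ≥0∞) (f2 : β → ℝ≥0∞) (f3 : γ → ℝ≥0∞) (f4 : δ → ℝ≥0∞) :
    S4 p q r t (fun a b c e => f1 a * f2 b * f3 c * f4 e)
      = (∑' a, p a * f1 a) * (∑' b, q b * f2 b) * (∑' c, r c * f3 c) * ∑' e, t e * f4 e := by
  unfold S4
  have e1 : ∀ a b c, ∑' e, t e * (f1 a * f2 b * f3 c * f4 e)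
      = (f1 a * f2 b * f3 c) * ∑' e, t e * f4 e := by
    intro a b c
    rw [← ENNReal.tsum_mul_left]
    exact tsum_congr fun e => by ring
  simp only [e1]
  generalize (∑' e, t e * f4 e) = T4
  have e2 : ∀ a b, ∑' c, r c * ((f1 a * f2 b * f3 c) * T4)
      = (f1 a * f2 b * T4) * (∑' c, r c * f3 c) := by
    intro a b
    rw [← ENNReal.tsum_mul_left]
    exact tsum_congr fun e => by ring
  simp only [e2]
  generalize (∑' c, r c * f3 c) = T3
  have e3 : ∀ a, ∑' b, q b * ((f1 a * f2 b * T4) * T3)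
      = (f1 a * T4 * T3) * (∑' b, q b * f2 b) := by
    intro a
    rw [← ENNReal.tsum_mul_left]
    exact tsum_congr fun e => by ring
  simp only [e3]
  generalize (∑' b, q b * f2 b) = T2
  rw [show (∑' a, p a * f1 a) * T2 * T3 * T4 = (T2 * T3 * T4) * (∑' a, p a * f1 a) by ring,
    ← ENNReal.tsum_mul_left]
  exact tsum_congr fun e => by ring

end Four

lemma tsum_four {T : Type*} (R : Finset ℕ) (F : ℕ → ℕ → ℕ → ℕ → T → ℝ≥0∞) :
    ∑' A, ∑ j ∈ R, ∑ j' ∈ R, ∑ i ∈ R, ∑ i' ∈ R, F j j' i i' A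
      = ∑ j ∈ R, ∑ j' ∈ R, ∑ i ∈ R, ∑ i' ∈ R, ∑' A, F j j' i i' A := by
  rw [Summable.tsum_finsetSum (fun _ _ => ENNReal.summable)]
  refine Finset.sum_congr rfl fun _ _ => ?_
  rw [Summable.tsum_finsetSum (fun _ _ => ENNReal.summable)]
  refine Finset.sum_congr rfl fun _ _ => ?_
  rw [Summable.tsum_finsetSum (fun _ _ => ENNReal.summable)]
  refine Finset.sum_congr rfl fun _ _ => ?_
  rw [Summable.tsum_finsetSum (fun _ _ => ENNReal.summable)]

section Win
variable {BX BY G : Type*} [AddCommGroup G]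
variable (ΛX : BX → ℝ≥0∞) (hX : BX → ℕ) (zX : BX → G) (sX : BX → Set (G × ℕ))
variable (ΛY : BY → ℝ≥0∞) (hY : BY → ℕ) (zY : BY → G) (sY : BY → Set (G × ℕ))

/-- the part `X local` / `Y local` of the four-fold sum -/
lemma part (i0 a t a' t' : ℕ) (w : G)
    (fA : List BX → ℝ≥0∞) (fA' : List BY → ℝ≥0∞)
    (hfA : ∑' A, wt ΛX hX i0 a A * fA A ≤ 1) (hfA' : ∑' A, wt ΛY hY i0 a' A * fA' A ≤ 1)
    (M β : ℝ≥0∞)
    (hM : (∀ j z, ∑' A, wt ΛX hX i0 a A * fA A * ind (HT hX A = j) * ind (Dp zX A = z) ≤ M) ∨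
      (∀ j z, ∑' A, wt ΛY hY i0 a' A * fA' A * ind (HT hY A = j) * ind (Dp zY A = z) ≤ M))
    (Q : ℕ → ℕ → List BX → List BY → G → Prop)
    (H : ∀ j j' h h' (μ : G → ℝ≥0∞), ∑' x, μ x ≤ 1 → (∀ x, μ x ≤ M) → j ≤ i0 → j' ≤ i0 →
      ∑' x, μ x * ∑' P, ∑' P', ind (HT hX P = h ∧ HT hY P' = h' ∧ Q (a + j) (a' + j') P P' x)
        * (LW ΛX P * LW ΛY P') ≤ β) :
    S4 (wt ΛX hX i0 a) (wt ΛX hX i0 t) (wt ΛY hY i0 a') (wt ΛY hY i0 t')
      (fun A P A' P' => fA A * fA' A' * ind (Q (HT hX A) (HT hY A') P P' (w + Dp zY A' - Dp zX A)))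
      ≤ ((i0 + 1 : ℕ) : ℝ≥0∞) ^ 4 * β := by
  classical
  set R := Finset.range (i0 + 1) with hR
  -- kernel
  set Ψ : ℕ → ℕ → ℕ → ℕ → G → ℝ≥0∞ := fun j j' i i' x =>
    ∑' P, ∑' P', ind (HT hX P = t + i ∧ HT hY P' = t' + i' ∧ Q (a + j) (a' + j') P P' x)
        * (LW ΛX P * LW ΛY P') with hΨ
  set f : ℕ → List BX → ℝ≥0∞ := fun j A => wt ΛX hX i0 a A * fA A * ind (HT hX A = a + j) with hf
  set g : ℕ → List BY → ℝ≥0∞ := fun j A => wt ΛY hY i0 a' A * fA' A * ind (HT hY A = a' + j) with hg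
  have main : S4 (wt ΛX hX i0 a) (wt ΛX hX i0 t) (wt ΛY hY i0 a') (wt ΛY hY i0 t')
      (fun A P A' P' => fA A * fA' A' *
        ind (Q (HT hX A) (HT hY A') P P' (w + Dp zY A' - Dp zX A)))
      ≤ ∑ j ∈ R, ∑ j' ∈ R, ∑ i ∈ R, ∑ i' ∈ R,
        ∑' A, ∑' A', f j A * g j' A' * Ψ j j' i i' (w + Dp zY A' - Dp zX A) := by
    have h1 : S4 (wt ΛX hX i0 a) (wt ΛX hX i0 t) (wt ΛY hY i0 a') (wt ΛY hY i0 t')
      (fun A P A' P' => fA A * fA' A' *
        ind (Q (HT hX A) (HT hY A') P P' (w + Dp zY A' - Dp zX A)))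
        = ∑' A, ∑' A', ∑' P, ∑' P', wt ΛX hX i0 a A * wt ΛY hY i0 a' A' * (fA A * fA' A') *
          (wt ΛX hX i0 t P * wt ΛY hY i0 t' P' *
            ind (Q (HT hX A) (HT hY A') P P' (w + Dp zY A' - Dp zX A))) := by
      unfold S4
      refine tsum_congr fun A => ?_
      rw [← ENNReal.tsum_mul_left]
      rw [ENNReal.tsum_comm]
      refine tsum_congr fun P => ?_
      rw [← ENNReal.tsum_mul_left, ← ENNReal.tsum_mul_left]
      refine tsum_congr fun A' => ?_
      rw [← ENNReal.tsum_mul_left, ← ENNReal.tsum_mul_left, ← ENNReal.tsum_mul_left]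
      exact tsum_congr fun P' => by ring
    rw [h1]
    have h2 : ∀ A A', ∑' P, ∑' P', wt ΛX hX i0 a A * wt ΛY hY i0 a' A' * (fA A * fA' A') *
          (wt ΛX hX i0 t P * wt ΛY hY i0 t' P' *
            ind (Q (HT hX A) (HT hY A') P P' (w + Dp zY A' - Dp zX A)))
        ≤ ∑ j ∈ R, ∑ j' ∈ R, ∑ i ∈ R, ∑ i' ∈ R,
          f j A * g j' A' * Ψ j j' i i' (w + Dp zY A' - Dp zX A) := by
      intro A A'
      set x := w + Dp zY A' - Dp zX A with hx
      by_cases hA : FP hX a A ∧ HT hX A ≤ a + i0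
      swap
      · have : wt ΛX hX i0 a A = 0 := by rw [wt, ind_false hA, zero_mul]
        simp [this]
      by_cases hA' : FP hY a' A' ∧ HT hY A' ≤ a' + i0
      swap
      · have : wt ΛY hY i0 a' A' = 0 := by rw [wt, ind_false hA', zero_mul]
        simp [this]
      have q1 := hA.1.1
      have q2 := hA'.1.1
      set j0 := HT hX A - a with hj0
      set j0' := HT hY A' - a' with hj0'
      have hj : j0 ∈ R := by rw [hR, Finset.mem_range]; omega
      have hj' : j0' ∈ R := by rw [hR, Finset.mem_range]; omega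
      have e1 : HT hX A = a + j0 := by omega
      have e2 : HT hY A' = a' + j0' := by omega
      calc ∑' P, ∑' P', wt ΛX hX i0 a A * wt ΛY hY i0 a' A' * (fA A * fA' A') *
          (wt ΛX hX i0 t P * wt ΛY hY i0 t' P' * ind (Q (HT hX A) (HT hY A') P P' x))
          ≤ ∑' P, ∑' P', f j0 A * g j0' A' * ∑ i ∈ R, ∑ i' ∈ R,
            ind (HT hX P = t + i ∧ HT hY P' = t' + i' ∧ Q (a + j0) (a' + j0') P P' x)
              * (LW ΛX P * LW ΛY P') := by
            refine ENNReal.tsum_le_tsum fun P => ENNReal.tsum_le_tsum fun P' => ?_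
            have e3 : wt ΛX hX i0 a A * wt ΛY hY i0 a' A' * (fA A * fA' A') = f j0 A * g j0' A' := by
              simp only [hf, hg]
              rw [ind_true e1, ind_true e2]; ring
            rw [e3]
            refine mul_le_mul_right ?_ _
            by_cases hP : FP hX t P ∧ HT hX P ≤ t + i0
            swap
            · rw [show wt ΛX hX i0 t P = 0 by rw [wt, ind_false hP, zero_mul], zero_mul, zero_mul]
              exact zero_le
            by_cases hP' : FP hY t' P' ∧ HT hY P' ≤ t' + i0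
            swap
            · rw [show wt ΛY hY i0 t' P' = 0 by rw [wt, ind_false hP', zero_mul], mul_zero, zero_mul]
              exact zero_le
            have q3 := hP.1.1
            have q4 := hP'.1.1
            refine le_trans ?_ (Finset.single_le_sum (f := fun i => ∑ i' ∈ R,
              ind (HT hX P = t + i ∧ HT hY P' = t' + i' ∧ Q (a + j0) (a' + j0') P P' x)
              * (LW ΛX P * LW ΛY P')) (fun _ _ => zero_le)
              (show HT hX P - t ∈ R by rw [hR, Finset.mem_range]; omega))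
            refine le_trans ?_ (Finset.single_le_sum (f := fun i' =>
              ind (HT hX P = t + (HT hX P - t) ∧ HT hY P' = t' + i' ∧ Q (a + j0) (a' + j0') P P' x)
              * (LW ΛX P * LW ΛY P')) (fun _ _ => zero_le)
              (show HT hY P' - t' ∈ R by rw [hR, Finset.mem_range]; omega))
            rw [wt, wt, ind_true hP, ind_true hP', one_mul, one_mul, mul_comm]
            refine mul_le_mul_left (ind_mono fun h => ⟨by omega, by omega, ?_⟩) _
            rw [← e1, ← e2]; exact h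
        _ = ∑ i ∈ R, ∑ i' ∈ R, f j0 A * g j0' A' * Ψ j0 j0' i i' x := by
            simp only [hΨ]
            simp only [ENNReal.tsum_mul_left, Finset.mul_sum]
            rw [show (∑' P : List BX, ∑' P' : List BY, ∑ i ∈ R, ∑ i' ∈ R, f j0 A * g j0' A' *
              (ind (HT hX P = t + i ∧ HT hY P' = t' + i' ∧ Q (a + j0) (a' + j0') P P' x)
              * (LW ΛX P * LW ΛY P'))) = ∑' P : List BX, ∑ i ∈ R, ∑ i' ∈ R, ∑' P' : List BY,
              f j0 A * g j0' A' *
              (ind (HT hX P = t + i ∧ HT hY P' = t' + i' ∧ Q (a + j0) (a' + j0') P P' x)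
              * (LW ΛX P * LW ΛY P')) from tsum_congr fun P => by
                rw [Summable.tsum_finsetSum (fun _ _ => ENNReal.summable)]
                refine Finset.sum_congr rfl fun i _ => ?_
                rw [Summable.tsum_finsetSum (fun _ _ => ENNReal.summable)]]
            rw [Summable.tsum_finsetSum (fun _ _ => ENNReal.summable)]
            refine Finset.sum_congr rfl fun i _ => ?_
            rw [Summable.tsum_finsetSum (fun _ _ => ENNReal.summable)]
            refine Finset.sum_congr rfl fun i' _ => ?_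
            simp only [ENNReal.tsum_mul_left]
        _ ≤ ∑ j' ∈ R, ∑ i ∈ R, ∑ i' ∈ R, f j0 A * g j' A' * Ψ j0 j' i i' x :=
            Finset.single_le_sum (f := fun j' => ∑ i ∈ R, ∑ i' ∈ R,
              f j0 A * g j' A' * Ψ j0 j' i i' x) (fun _ _ => zero_le) hj'
        _ ≤ _ := Finset.single_le_sum (f := fun j => ∑ j' ∈ R, ∑ i ∈ R, ∑ i' ∈ R,
              f j A * g j' A' * Ψ j j' i i' x) (fun _ _ => zero_le) hj
    refine (ENNReal.tsum_le_tsum fun A => ENNReal.tsum_le_tsum fun A' => h2 A A').trans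
      (le_of_eq ?_)
    have h3 : ∀ (F : ℕ → ℕ → ℕ → ℕ → List BX → List BY → ℝ≥0∞),
        ∑' A, ∑' A', ∑ j ∈ R, ∑ j' ∈ R, ∑ i ∈ R, ∑ i' ∈ R, F j j' i i' A A'
        = ∑ j ∈ R, ∑ j' ∈ R, ∑ i ∈ R, ∑ i' ∈ R, ∑' A, ∑' A', F j j' i i' A A' := by
      intro F
      calc ∑' A, ∑' A', ∑ j ∈ R, ∑ j' ∈ R, ∑ i ∈ R, ∑ i' ∈ R, F j j' i i' A A'
          = ∑' A, ∑ j ∈ R, ∑ j' ∈ R, ∑ i ∈ R, ∑ i' ∈ R, ∑' A', F j j' i i' A A' :=
            tsum_congr fun A => tsum_four R (fun j j' i i' A' => F j j' i i' A A')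
        _ = _ := tsum_four R (fun j j' i i' A => ∑' A', F j j' i i' A A')
    exact h3 _
  refine main.trans ?_
  have hb : ∀ j ∈ R, ∀ j' ∈ R, ∀ i ∈ R, ∀ i' ∈ R,
      ∑' A, ∑' A', f j A * g j' A' * Ψ j j' i i' (w + Dp zY A' - Dp zX A) ≤ β := by
    intro j hj j' hj' i _ i' _
    rw [hR, Finset.mem_range] at hj hj'
    refine core (f j) (g j') zX zY w M β ?_ ?_ ?_ (Ψ j j' i i') ?_
    · refine le_trans (ENNReal.tsum_le_tsum fun A => ?_) hfA
      simp only [hf]
      calc _ ≤ wt ΛX hX i0 a A * fA A * 1 := mul_le_mul_right (ind_le_one _) _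
        _ = _ := mul_one _
    · refine le_trans (ENNReal.tsum_le_tsum fun A => ?_) hfA'
      simp only [hg]
      calc _ ≤ wt ΛY hY i0 a' A * fA' A * 1 := mul_le_mul_right (ind_le_one _) _
        _ = _ := mul_one _
    · rcases hM with hM | hM
      · exact Or.inl fun z => hM (a + j) z
      · exact Or.inr fun z => hM (a' + j') z
    · intro μ hμ1 hμ2
      exact H j j' _ _ μ hμ1 hμ2 (by omega) (by omega)
  calc _ ≤ ∑ j ∈ R, ∑ j' ∈ R, ∑ i ∈ R, ∑ i' ∈ R, β :=
        Finset.sum_le_sum fun j hj => Finset.sum_le_sum fun j' hj' => Finset.sum_le_sum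
          fun i hi => Finset.sum_le_sum fun i' hi' => hb j hj j' hj' i hi i' hi'
    _ = _ := by
        simp only [Finset.sum_const, hR, Finset.card_range, nsmul_eq_mul]
        ring


/-- **one window** -/
theorem window (hX1 : ∀ b, 1 ≤ hX b) (hY1 : ∀ b, 1 ≤ hY b) (hΛX : ∑' b, ΛX b ≤ 1)
    (hΛY : ∑' b, ΛY b ≤ 1) (hUX : ∀ n, U ΛX hX n ≤ 1) (hUY : ∀ n, U ΛY hY n ≤ 1)
    (i0 aX tX aY tY n : ℕ) (hnX : aX + i0 + tX ≤ n) (hnY : aY + i0 + tY ≤ n) (w : G)
    (eX eY uX uY nX nY MX MY β2 β3 : ℝ≥0∞)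
    (heX : ∀ b, ∑' L, ind (FP hX b L ∧ b + i0 < HT hX L) * LW ΛX L ≤ eX)
    (heY : ∀ b, ∑' L, ind (FP hY b L ∧ b + i0 < HT hY L) * LW ΛY L ≤ eY)
    (smX : List BX → Prop) (smY : List BY → Prop)
    (hnX' : ∑' A, wt ΛX hX i0 aX A * ind (¬ smX A) ≤ nX)
    (hnY' : ∑' A, wt ΛY hY i0 aY A * ind (¬ smY A) ≤ nY)
    (hMX : ∀ j z, ∑' A, wt ΛX hX i0 aX A * ind (smX A) * ind (HT hX A = j) * ind (Dp zX A = z) ≤ MX)
    (hMY : ∀ j z, ∑' A, wt ΛY hY i0 aY A * ind (smY A) * ind (HT hY A = j) * ind (Dp zY A = z) ≤ MY)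
    (loX : List BX → Prop) (loY : List BY → Prop)
    (huX : ∑' P, wt ΛX hX i0 tX P * ind (¬ loX P) ≤ uX)
    (huY : ∑' P, wt ΛY hY i0 tY P * ind (¬ loY P) ≤ uY)
    (Cn : ℕ → ℕ → List BX → List BY → G → Prop)
    (H2 : ∀ j j' h h' (μ : G → ℝ≥0∞), ∑' x, μ x ≤ 1 → (∀ x, μ x ≤ MX) → j ≤ i0 → j' ≤ i0 →
      ∑' x, μ x * ∑' P, ∑' P', ind (HT hX P = h ∧ HT hY P' = h' ∧
        (loX P ∧ Cn (aX + j) (aY + j') P P' x)) * (LW ΛX P * LW ΛY P') ≤ β2)
    (H3 : ∀ j j' h h' (μ : G → ℝ≥0∞), ∑' x, μ x ≤ 1 → (∀ x, μ x ≤ MY) → j ≤ i0 → j' ≤ i0 →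
      ∑' x, μ x * ∑' P, ∑' P', ind (HT hX P = h ∧ HT hY P' = h' ∧
        (loY P' ∧ Cn (aX + j) (aY + j') P P' x)) * (LW ΛX P * LW ΛY P') ≤ β3)
    (Ev : List BX → List BY → Prop)
    (hEv : ∀ A P R A' P' R', FP hX aX A → HT hX A ≤ aX + i0 → FP hX tX P → HT hX P ≤ tX + i0 →
      FP hY aY A' → HT hY A' ≤ aY + i0 → FP hY tY P' → HT hY P' ≤ tY + i0 →
      HT hX (A ++ (P ++ R)) = n → HT hY (A' ++ (P' ++ R')) = n →
      Ev (A ++ (P ++ R)) (A' ++ (P' ++ R')) →
      Cn (HT hX A) (HT hY A') P P' (w + Dp zY A' - Dp zX A)) :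
    ∑' L, ∑' L', ind (HT hX L = n ∧ HT hY L' = n ∧ Ev L L') * (LW ΛX L * LW ΛY L')
      ≤ 2 * eX + 2 * eY + (uX * uY + nX + nY + ((i0 + 1 : ℕ) : ℝ≥0∞) ^ 4 * β2
        + ((i0 + 1 : ℕ) : ℝ≥0∞) ^ 4 * β3) := by
  classical
  set F : List BX → ℝ≥0∞ := fun L =>
    ∑' L', ind (HT hY L' = n) * (LW ΛY L' * ind (Ev L L')) with hF
  have s0 : ∑' L, ∑' L', ind (HT hX L = n ∧ HT hY L' = n ∧ Ev L L') * (LW ΛX L * LW ΛY L')
      = ∑' L, ind (HT hX L = n) * (LW ΛX L * F L) := by
    refine tsum_congr fun L => ?_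
    rw [hF, ← ENNReal.tsum_mul_left, ← ENNReal.tsum_mul_left]
    refine tsum_congr fun L' => ?_
    by_cases c1 : HT hX L = n
    · by_cases c2 : HT hY L' = n
      · by_cases c3 : Ev L L'
        · rw [ind_true c1, ind_true c2, ind_true c3, ind_true ⟨c1, c2, c3⟩]; ring
        · rw [ind_false c3, ind_false (fun h => c3 h.2.2)]; ring
      · rw [ind_false c2, ind_false (fun h => c2 h.2.1)]; ring
    · rw [ind_false c1, ind_false (fun h => c1 h.1)]; ring
  have hF1 : ∀ L, F L ≤ 1 := fun L => by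
    refine le_trans (ENNReal.tsum_le_tsum fun L' => ?_) (hUY n)
    rw [← one_mul (if HT hY L' = n then LW ΛY L' else 0)]
    by_cases c : HT hY L' = n
    · rw [ind_true c, if_pos c, one_mul, one_mul]
      calc LW ΛY L' * ind (Ev L L') ≤ LW ΛY L' * 1 := mul_le_mul_right (ind_le_one _) _
        _ = _ := mul_one _
    · rw [ind_false c, zero_mul]; exact zero_le
  set c4 : List BX → List BX → List BY → List BY → ℝ≥0∞ := fun A P A' P' =>
    ind (Cn (HT hX A) (HT hY A') P P' (w + Dp zY A' - Dp zX A)) with hc4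
  have s1 : ∑' L, ind (HT hX L = n) * (LW ΛX L * F L) ≤ 2 * eX +
      ∑' A, wt ΛX hX i0 aX A * ∑' P, wt ΛX hX i0 tX P * (2 * eY +
        ∑' A', wt ΛY hY i0 aY A' * ∑' P', wt ΛY hY i0 tY P' * c4 A P A' P') := by
    refine decomp ΛX hX hX1 hΛX hUX aX tX i0 n hnX eX heX F hF1 _ ?_
    intro A P R hA hA1 hP hP1 hn1
    refine decomp ΛY hY hY1 hΛY hUY aY tY i0 n hnY eY heY (fun L' => ind (Ev (A ++ (P ++ R)) L'))
      (fun _ => ind_le_one _) (fun A' P' => c4 A P A' P') ?_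
    intro A' P' R' hA' hA1' hP' hP1' hn1'
    exact ind_mono (hEv A P R A' P' R' hA hA1 hP hP1 hA' hA1' hP' hP1' hn1 hn1')
  have s2 : ∑' A, wt ΛX hX i0 aX A * ∑' P, wt ΛX hX i0 tX P * (2 * eY +
        ∑' A', wt ΛY hY i0 aY A' * ∑' P', wt ΛY hY i0 tY P' * c4 A P A' P')
      ≤ 2 * eY + S4 (wt ΛX hX i0 aX) (wt ΛX hX i0 tX) (wt ΛY hY i0 aY) (wt ΛY hY i0 tY) c4 := by
    simp only [mul_add, ENNReal.tsum_add]
    refine add_le_add ?_ le_rfl
    simp only [ENNReal.tsum_mul_right, ENNReal.tsum_mul_left]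
    calc (∑' A, wt ΛX hX i0 aX A) * ((∑' P, wt ΛX hX i0 tX P) * (2 * eY))
        ≤ 1 * (1 * (2 * eY)) := mul_le_mul' (sum_wt ΛX hX hX1 hΛX i0 aX)
          (mul_le_mul_left (sum_wt ΛX hX hX1 hΛX i0 tX) _)
      _ = 2 * eY := by rw [one_mul, one_mul]
  have s3 : S4 (wt ΛX hX i0 aX) (wt ΛX hX i0 tX) (wt ΛY hY i0 aY) (wt ΛY hY i0 tY) c4
      ≤ uX * uY + nX + nY + ((i0 + 1 : ℕ) : ℝ≥0∞) ^ 4 * β2
        + ((i0 + 1 : ℕ) : ℝ≥0∞) ^ 4 * β3 := by
    have hpt : ∀ A P A' P', c4 A P A' P' ≤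
        (1 * ind (¬ loX P) * 1 * ind (¬ loY P') + ind (¬ smX A) * 1 * 1 * 1
          + 1 * 1 * ind (¬ smY A') * 1
          + ind (smX A) * 1 * ind (loX P ∧ Cn (HT hX A) (HT hY A') P P' (w + Dp zY A' - Dp zX A))
          + 1 * ind (smY A') *
            ind (loY P' ∧ Cn (HT hX A) (HT hY A') P P' (w + Dp zY A' - Dp zX A))) := by
      intro A P A' P'
      simp only [one_mul, mul_one]
      by_cases hC : Cn (HT hX A) (HT hY A') P P' (w + Dp zY A' - Dp zX A)
      swap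
      · rw [hc4]; simp only; rw [ind_false hC]; exact zero_le
      rw [show c4 A P A' P' = 1 from ind_true hC]
      by_cases hl : loX P
      · by_cases hs : smX A
        · rw [ind_true (p := loX P ∧ _) ⟨hl, hC⟩, ind_true hs, one_mul]
          exact le_add_right le_add_self
        · rw [ind_true (p := ¬ smX A) hs]
          exact le_add_right (le_add_right (le_add_right le_add_self))
      · by_cases hl' : loY P'
        · by_cases hs : smY A'
          · rw [ind_true (p := loY P' ∧ _) ⟨hl', hC⟩, ind_true hs, one_mul]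
            exact le_add_self
          · rw [ind_true (p := ¬ smY A') hs]
            exact le_add_right (le_add_right le_add_self)
        · rw [ind_true (p := ¬ loX P) hl, ind_true (p := ¬ loY P') hl', one_mul]
          exact le_add_right (le_add_right (le_add_right le_self_add))
    refine (S4_mono _ _ _ _ hpt).trans ?_
    rw [S4_add, S4_add, S4_add, S4_add]
    refine add_le_add (add_le_add (add_le_add (add_le_add ?_ ?_) ?_) ?_) ?_
    · rw [S4_prod _ _ _ _ (fun _ => 1) (fun P => ind (¬ loX P)) (fun _ => 1)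
        (fun P' => ind (¬ loY P'))]
      simp only [mul_one]
      calc _ ≤ 1 * uX * 1 * uY := mul_le_mul' (mul_le_mul' (mul_le_mul'
            (sum_wt ΛX hX hX1 hΛX i0 aX) huX) (sum_wt ΛY hY hY1 hΛY i0 aY)) huY
        _ = _ := by ring
    · rw [S4_prod _ _ _ _ (fun A => ind (¬ smX A)) (fun _ => 1) (fun _ => 1) (fun _ => 1)]
      simp only [mul_one]
      calc _ ≤ nX * 1 * 1 * 1 := mul_le_mul' (mul_le_mul' (mul_le_mul'
            hnX' (sum_wt ΛX hX hX1 hΛX i0 tX)) (sum_wt ΛY hY hY1 hΛY i0 aY))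
            (sum_wt ΛY hY hY1 hΛY i0 tY)
        _ = _ := by ring
    · rw [S4_prod _ _ _ _ (fun _ => 1) (fun _ => 1) (fun A => ind (¬ smY A)) (fun _ => 1)]
      simp only [mul_one]
      calc _ ≤ 1 * 1 * nY * 1 := mul_le_mul' (mul_le_mul' (mul_le_mul'
            (sum_wt ΛX hX hX1 hΛX i0 aX) (sum_wt ΛX hX hX1 hΛX i0 tX)) hnY')
            (sum_wt ΛY hY hY1 hΛY i0 tY)
        _ = _ := by ring
    · refine part ΛX hX zX ΛY hY zY i0 aX tX aY tY w (fun A => ind (smX A)) (fun _ => 1) ?_ ?_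
        MX β2 (Or.inl hMX) (fun a a' P P' x => loX P ∧ Cn a a' P P' x) H2
      · refine le_trans (ENNReal.tsum_le_tsum fun A => ?_) (sum_wt ΛX hX hX1 hΛX i0 aX)
        calc _ ≤ wt ΛX hX i0 aX A * 1 := mul_le_mul_right (ind_le_one _) _
          _ = _ := mul_one _
      · simp only [mul_one]; exact sum_wt ΛY hY hY1 hΛY i0 aY
    · refine part ΛX hX zX ΛY hY zY i0 aX tX aY tY w (fun _ => 1) (fun A => ind (smY A)) ?_ ?_
        MY β3 (Or.inr hMY) (fun a a' P P' x => loY P' ∧ Cn a a' P P' x) H3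
      · simp only [mul_one]; exact sum_wt ΛX hX hX1 hΛX i0 aX
      · refine le_trans (ENNReal.tsum_le_tsum fun A => ?_) (sum_wt ΛY hY hY1 hΛY i0 aY)
        calc _ ≤ wt ΛY hY i0 aY A * 1 := mul_le_mul_right (ind_le_one _) _
          _ = _ := mul_one _
  rw [s0]
  calc _ ≤ _ := s1
    _ ≤ 2 * eX + (2 * eY + _) := add_le_add le_rfl s2
    _ ≤ 2 * eX + (2 * eY + _) := add_le_add le_rfl (add_le_add le_rfl s3)
    _ = _ := by ring

end Win

end Crest.Agent.R154.Win267
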