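import Crest.Agent.R154.Asm_908
import Crest.Agent.R154.WinTwo_267

/-! Row 154, ROAD 801: from 267's one-window inequality to KAPPA' (helper908). -/

set_option autoImplicit false

namespace Crest.Agent.R154.AsmW908

open scoped ENNReal
open Crest.Agent.R154.B5A Crest.Agent.R154.Win267
open Crest.Agent.R154.Asm908 (FS HS Smo Sm pp dlt)

section One
variable {B G : Type*} [AddCommGroup G] (Λ : B → ℝ≥0∞) (h : B → ℕ) (z : B → G)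

lemma fp_to {a : ℕ} {L : List B} (hL : FP h a L) : Asm908.FP h a L := by
  induction L generalizing a with
  | nil => have := hL.1; rw [HT_nil] at this; simp only [Asm908.FP]; omega
  | cons b L ih =>
    refine ⟨?_, ih (FP_cons h hL)⟩
    rintro rfl
    have := FP_zero h hL
    simp at this

variable {Λ h z}

lemma wt_fs (i0 a : ℕ) (F : List B → ℝ≥0∞) (F' : List B → ℝ≥0∞)
    (hF : ∀ A, HT h A ≤ a + i0 → F A ≤ F' A) :
    ∑' A, wt Λ h i0 a A * F A ≤ FS Λ h a F' := by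
  rw [FS]
  refine ENNReal.tsum_le_tsum fun A => ?_
  rw [wt]
  by_cases hA : FP h a A ∧ HT h A ≤ a + i0
  · rw [ind_true hA, one_mul, if_pos (fp_to h hA.1)]
    exact mul_le_mul_right (hF A hA.2) _
  · rw [ind_false hA, zero_mul, zero_mul]; exact zero_le

lemma over_le (hΛ : ∑' b, Λ b = 1) (h1 : ∀ b, 1 ≤ h b) (i0 : ℕ) (b : ℕ) :
    ∑' L, ind (FP h b L ∧ b + i0 < HT h L) * LW Λ L ≤ dlt Λ h i0 := by
  classical
  refine le_trans ?_ (Asm908.FS_over' (Λ := Λ) (h := h) hΛ h1 b i0)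
  rw [FS]
  refine ENNReal.tsum_le_tsum fun L => ?_
  by_cases hA : FP h b L ∧ b + i0 < HT h L
  · rw [ind_true hA, if_pos (fp_to h hA.1), if_pos hA.2, one_mul, mul_one]
  · rw [ind_false hA, zero_mul]; exact zero_le

lemma U_le (hΛ : ∑' b, Λ b = 1) (h1 : ∀ b, 1 ≤ h b) (n : ℕ) : U Λ h n ≤ 1 := by
  have := Asm908.HS_one_le (Λ := Λ) (h := h) hΛ h1 n
  rw [HS] at this
  simpa [U] using this

lemma dlt_tendsto (hT : ∑' k, tail Λ h k ≠ ⊤) {ε : ℝ≥0∞} (hε : ε ≠ 0) :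
    ∃ i0, ∀ i, i0 ≤ i → dlt Λ h i ≤ ε := by
  have ht := ENNReal.tendsto_sum_nat_add (fun k => tail Λ h k) hT
  have := (ENNReal.tendsto_nhds_zero.1 ht) ε (pos_iff_ne_zero.2 hε)
  obtain ⟨i0, hi⟩ := Filter.eventually_atTop.1 this
  exact ⟨i0, fun i h => hi i h⟩

lemma card_E (hΛ : ∑' b, Λ b = 1) (h1 : ∀ b, 1 ≤ h b) (τ : ℕ) {θ : ℝ≥0∞} (hθ : θ ≠ 0) (k : ℕ) :
    ∃ E : Finset G, (∀ x, θ ≤ pp Λ h z τ (k, x) → x ∈ E) ∧ (E.card : ℝ≥0∞) * θ ≤ 1 := by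
  have hs : ∑' x : G, pp Λ h z τ (k, x) ≤ 1 := by
    refine le_trans ?_ (Asm908.pp_sum (Λ := Λ) (h := h) (z := z) hΛ h1 τ).le
    exact ENNReal.tsum_comp_le_tsum_of_injective (f := fun x : G => (k, x))
      (fun x y hxy => (Prod.mk.inj hxy).2) (pp Λ h z τ)
  obtain ⟨hf, hc⟩ := AsmA789.card_le (fun x : G => pp Λ h z τ (k, x)) hs hθ
  refine ⟨hf.toFinset, fun x hx => hf.mem_toFinset.2 hx, ?_⟩
  rwa [← Set.ncard_eq_toFinset_card _ hf]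

/-- the data of one walker at threshold `τ` -/
lemma one_walker (hΛ : ∑' b, Λ b = 1) (h1 : ∀ b, 1 ≤ h b) (τ i0 J : ℕ) {u : ℝ≥0∞} (hu : u ≠ 0)
    (hu1 : u < 1) (z : B → G) :
    ∃ (θ : ℝ≥0∞) (sm lo : List B → Prop), θ ≠ 0 ∧
      (∀ b, J * (τ + i0) ≤ b → ∑' A, wt Λ h i0 b A * ind (¬ sm A)
        ≤ (1 - u) ^ J + J * dlt Λ h i0) ∧
      (∀ b j x, ∑' A, wt Λ h i0 b A * ind (sm A) * ind (HT h A = j) * ind (Dp z A = x)
        ≤ J * ((i0 + 1 : ℕ) * (2 * θ))) ∧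
      (∑' P, wt Λ h i0 τ P * ind (¬ lo P) ≤ u) ∧
      (∀ k, ∃ E : Finset G, (∀ P, lo P → HT h P = k → Dp z P ∈ E) ∧ (E.card : ℝ≥0∞) * θ ≤ 1) := by
  classical
  obtain ⟨θ, hθ, -, hq1, hq2⟩ := AsmA789.quant (pp Λ h z τ)
    (Asm908.pp_sum (Λ := Λ) (h := h) (z := z) hΛ h1 τ) hu hu1
  refine ⟨θ, Smo h (Sm Λ h z τ i0 (2 * θ)) τ J, fun P => θ ≤ pp Λ h z τ (HT h P, Asm908.Dp z P),
    hθ, ?_, ?_, ?_, ?_⟩
  · intro b hb
    refine le_trans (wt_fs i0 b _ (fun L => if Smo h (Sm Λ h z τ i0 (2 * θ)) τ J L then 0 else 1)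
      fun A _ => ?_) (Asm908.nosm_le (z := z) hΛ h1 τ i0 (2 * θ) (1 - u) tsub_le_self ?_ J b hb)
    · by_cases hA : Smo h (Sm Λ h z τ i0 (2 * θ)) τ J A
      · rw [if_pos hA, ind_false (not_not.2 hA)]
      · rw [if_neg hA]; exact ind_le_one _
    · refine ENNReal.le_sub_of_add_le_right (ne_top_of_lt hu1) ?_
      calc _ ≤ (∑' q, if pp Λ h z τ q < 2 * θ then 0 else pp Λ h z τ q)
            + ∑' q, (if pp Λ h z τ q < 2 * θ then pp Λ h z τ q else 0) := add_le_add le_rfl hq2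
        _ = ∑' q, pp Λ h z τ q := by
            rw [← ENNReal.tsum_add]
            refine tsum_congr fun q => ?_
            split_ifs <;> simp
        _ = 1 := Asm908.pp_sum (Λ := Λ) (h := h) (z := z) hΛ h1 τ
  · intro b j x
    refine le_trans ?_ (Asm908.dens_le (z := z) hΛ h1 τ i0 (2 * θ) J j x)
    rw [HS]
    refine ENNReal.tsum_le_tsum fun A => ?_
    by_cases h2 : HT h A = j
    · by_cases h3 : Smo h (Sm Λ h z τ i0 (2 * θ)) τ J A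
      · by_cases h4 : Dp z A = x
        · rw [if_pos h2, if_pos ⟨h3, h4⟩, ind_true h3, ind_true h2, ind_true h4, mul_one, mul_one,
            mul_one, mul_one, wt]
          calc _ ≤ 1 * LW Λ A := mul_le_mul_left (ind_le_one _) _
            _ = _ := one_mul _
        · rw [ind_false h4, mul_zero]; exact zero_le
      · rw [ind_false h3]; simp
    · rw [ind_false h2]; simp
  · refine le_trans (wt_fs i0 τ _ (fun P => (fun q => if pp Λ h z τ q < θ then (1 : ℝ≥0∞) else 0)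
      (HT h P, Asm908.Dp z P)) fun A _ => ?_) ?_
    · simp only
      by_cases hA : θ ≤ pp Λ h z τ (HT h A, Asm908.Dp z A)
      · rw [ind_false (not_not.2 hA)]; exact zero_le
      · rw [if_pos (not_le.1 hA)]; exact ind_le_one _
    · rw [Asm908.FS_law (z := z) τ (fun q => if pp Λ h z τ q < θ then (1 : ℝ≥0∞) else 0)]
      refine le_trans (le_of_eq ?_) hq1
      refine tsum_congr fun q => ?_
      split_ifs <;> simp
  · intro k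
    obtain ⟨E, hE1, hE2⟩ := card_E (z := z) hΛ h1 τ hθ k
    refine ⟨E, fun P hP hk => hE1 _ ?_, hE2⟩
    rw [← hk]
    exact hP

end One

section Two

variable {BX BY G : Type*} [AddCommGroup G]
variable (ΛX : BX → ℝ≥0∞) (hX : BX → ℕ) (zX : BX → G) (sX : BX → Set (G × ℕ))
variable (ΛY : BY → ℝ≥0∞) (hY : BY → ℕ) (zY : BY → G) (sY : BY → Set (G × ℕ))

/-- common positions of two lists, all at depths in `[lo, hi]` -/
def ConL (lo hi : ℕ) (P : List BX) (P' : List BY) (a a' : ℕ) (x : G) : Prop :=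
  (∃ z k, (z, k) ∈ TT zX hX sX P 0 a ∧ (z, k) ∈ TT zY hY sY P' x a') ∧
  ∀ z k, (z, k) ∈ TT zX hX sX P 0 a → (z, k) ∈ TT zY hY sY P' x a' → lo ≤ k ∧ k ≤ hi

/-- window event in whole lists: a contact in `(b + t, b + 2t]`, none in the two slabs -/
def EvS (b t s i0 : ℕ) (w : G) (L : List BX) (L' : List BY) : Prop :=
  (∃ z k, b + t < k ∧ k ≤ b + 2 * t ∧ (z, k) ∈ TT zX hX sX L 0 0 ∧ (z, k) ∈ TT zY hY sY L' w 0) ∧
  (∀ z k, (z, k) ∈ TT zX hX sX L 0 0 → (z, k) ∈ TT zY hY sY L' w 0 →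
    ¬ (b ≤ k ∧ k < b + (s + 2 * i0 + 1)) ∧
    ¬ (b + 3 * t - s ≤ k ∧ k < b + 3 * t - s + (s + 2 * i0 + 1)))

/-- 801's window statement, X local -/
def H2 (C : ℝ≥0∞) (us : ℕ → ℕ → ℝ≥0∞) : Prop :=
  ∀ (r s h h' a a' lo hi : ℕ) (E : Finset G) (μ : G → ℝ≥0∞) (M lam : ℝ≥0∞),
    ∑' x, μ x ≤ 1 → (∀ x, μ x ≤ M) → lam ≠ 0 → lam ≠ ⊤ →
    a ≤ a' → a' ≤ a + r → a + h ≤ a' + h' → a' + h' ≤ a + h + r →
    a + s ≤ lo → a' + s ≤ lo → hi + s ≤ a + h → hi + s ≤ a' + h' →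
    ∑' x, μ x * ∑' L, ∑' L', ind (HT hX L = h ∧ Dp zX L ∈ E ∧ HT hY L' = h' ∧
      ConL hX zX sX hY zY sY lo hi L L' a a' x) * (LW ΛX L * LW ΛY L')
      ≤ C * (lam + M * E.card * us r s / lam + us r s)

/-- 801's window statement, Y local -/
def H3 (C : ℝ≥0∞) (us : ℕ → ℕ → ℝ≥0∞) : Prop :=
  ∀ (r s h h' a a' lo hi : ℕ) (E : Finset G) (μ : G → ℝ≥0∞) (M lam : ℝ≥0∞),
    ∑' x, μ x ≤ 1 → (∀ x, μ x ≤ M) → lam ≠ 0 → lam ≠ ⊤ →
    a ≤ a' → a' ≤ a + r → a + h ≤ a' + h' → a' + h' ≤ a + h + r →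
    a + s ≤ lo → a' + s ≤ lo → hi + s ≤ a + h → hi + s ≤ a' + h' →
    ∑' x, μ x * ∑' L, ∑' L', ind (HT hX L = h ∧ HT hY L' = h' ∧ Dp zY L' ∈ E ∧
      ConL hX zX sX hY zY sY lo hi L L' a a' x) * (LW ΛX L * LW ΛY L')
      ≤ C * (lam + M * E.card * us r s / lam + us r s)

/-- thin slabs carry no contact -/
def H5 : Prop :=
  ∀ s, ∀ η : ℝ≥0∞, η ≠ 0 → ∃ T, ∀ a, T ≤ a → ∀ n w,
    ∑' L, ∑' L', ind (HT hX L = n ∧ HT hY L' = n ∧ ∃ z k, a ≤ k ∧ k < a + s ∧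
      (z, k) ∈ TT zX hX sX L 0 0 ∧ (z, k) ∈ TT zY hY sY L' w 0) * (LW ΛX L * LW ΛY L') ≤ η

/-- the bound of the local terms -/
noncomputable def bet (C : ℝ≥0∞) (J i0 : ℕ) (lam ε : ℝ≥0∞) : ℝ≥0∞ :=
  C * (lam + (J * ((i0 + 1 : ℕ) * 2)) * ε / lam + ε)

/-- **one window** -/
theorem win1 (hΛX : ∑' b, ΛX b = 1) (hΛY : ∑' b, ΛY b = 1) (h1X : ∀ b, 1 ≤ hX b)
    (h1Y : ∀ b, 1 ≤ hY b) (hsX : ∀ b p k, (p, k) ∈ sX b → 1 ≤ k ∧ k ≤ hX b)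
    (hsY : ∀ b p k, (p, k) ∈ sY b → 1 ≤ k ∧ k ≤ hY b)
    (C : ℝ≥0∞) (us : ℕ → ℕ → ℝ≥0∞) (h2 : H2 ΛX hX zX sX ΛY hY zY sY C us)
    (h3 : H3 ΛX hX zX sX ΛY hY zY sY C us)
    (J i0 t b n s : ℕ) {u : ℝ≥0∞} (hu : u ≠ 0) (hu1 : u < 1) {lam : ℝ≥0∞} (hl0 : lam ≠ 0)
    (hlt : lam ≠ ⊤) (w : G)
    (hb : J * (3 * t + 2 * i0) ≤ b) (ht : 2 * i0 + s + 1 ≤ t) (hn : b + 3 * t + 4 * i0 ≤ n) :
    ∑' L, ∑' L', ind (HT hX L = n ∧ HT hY L' = n ∧ EvS hX zX sX hY zY sY b t s i0 w L L')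
      * (LW ΛX L * LW ΛY L')
      ≤ 2 * dlt ΛX hX i0 + 2 * dlt ΛY hY i0 + (u * u + ((1 - u) ^ J + J * dlt ΛX hX i0)
        + ((1 - u) ^ J + J * dlt ΛY hY i0)
        + ((i0 + 1 : ℕ) : ℝ≥0∞) ^ 4 * bet C J i0 lam (us (4 * i0) s)
        + ((i0 + 1 : ℕ) : ℝ≥0∞) ^ 4 * bet C J i0 lam (us (4 * i0) s)) := by
  obtain ⟨θX, smX, loX, hθX, aX1, aX2, aX3, aX4⟩ := one_walker (Λ := ΛX) (h := hX) hΛX h1X (3 * t)
    i0 J hu hu1 zX
  obtain ⟨θY, smY, loY, hθY, aY1, aY2, aY3, aY4⟩ := one_walker (Λ := ΛY) (h := hY) hΛY h1Y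
    (3 * t + i0) i0 J hu hu1 zY
  have hcard : ∀ (θ : ℝ≥0∞) (E : Finset G), (E.card : ℝ≥0∞) * θ ≤ 1 →
      C * (lam + J * ((i0 + 1 : ℕ) * (2 * θ)) * E.card * us (4 * i0) s / lam + us (4 * i0) s)
        ≤ bet C J i0 lam (us (4 * i0) s) := by
    intro θ E hE
    rw [bet]
    have : (J : ℝ≥0∞) * ((i0 + 1 : ℕ) * (2 * θ)) * E.card ≤ J * ((i0 + 1 : ℕ) * 2) := by
      calc (J : ℝ≥0∞) * ((i0 + 1 : ℕ) * (2 * θ)) * E.card
          = J * ((i0 + 1 : ℕ) * 2) * (E.card * θ) := by ring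
        _ ≤ J * ((i0 + 1 : ℕ) * 2) * 1 := mul_le_mul_right hE _
        _ = _ := mul_one _
    gcongr
  have hJ1 : J * (3 * t + i0) ≤ b := le_trans (Nat.mul_le_mul_left _ (by omega)) hb
  have hJ2 : J * (3 * t + i0 + i0) ≤ b + i0 :=
    le_trans (Nat.mul_le_mul_left _ (by omega)) (hb.trans (Nat.le_add_right _ _))
  refine window ΛX hX zX ΛY hY zY h1X h1Y hΛX.le hΛY.le (U_le hΛX h1X) (U_le hΛY h1Y) i0
    b (3 * t) (b + i0) (3 * t + i0) n (by omega) (by omega) w _ _ u u _ _ _ _ _ _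
    (over_le hΛX h1X i0) (over_le hΛY h1Y i0) smX smY (aX1 b hJ1) (aY1 (b + i0) hJ2)
    (aX2 b) (aY2 (b + i0)) loX loY aX3 aY3
    (fun a a' P P' x => (b ≤ a ∧ a ≤ b + i0 ∧ b + i0 ≤ a' ∧ a' ≤ b + 2 * i0 ∧ 3 * t ≤ HT hX P ∧
      HT hX P ≤ 3 * t + i0 ∧ 3 * t + i0 ≤ HT hY P' ∧ HT hY P' ≤ 3 * t + 2 * i0) ∧
      ConL hX zX sX hY zY sY (b + 2 * i0 + s) (b + 3 * t - s) P P' a a' x) ?_ ?_
    (EvS hX zX sX hY zY sY b t s i0 w) ?_
  · intro j j' k k' μ hμ1 hμ2 hj hj'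
    obtain ⟨E, hE1, hE2⟩ := aX4 k
    by_cases hc : 3 * t ≤ k ∧ k ≤ 3 * t + i0 ∧ 3 * t + i0 ≤ k' ∧ k' ≤ 3 * t + 2 * i0
    · refine le_trans (ENNReal.tsum_le_tsum fun x => mul_le_mul_right (ENNReal.tsum_le_tsum fun P =>
        ENNReal.tsum_le_tsum fun P' => mul_le_mul_left (ind_mono ?_) _) _)
        (le_trans (h2 (4 * i0) s k k' (b + j) (b + i0 + j') (b + 2 * i0 + s) (b + 3 * t - s) E μ _ lam
          hμ1 hμ2 hl0 hlt (by omega) (by omega) (by omega) (by omega) (by omega) (by omega)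
          (by omega) (by omega)) (hcard θX E hE2))
      rintro ⟨e1, e2, e3, e4, e5⟩
      exact ⟨e1, hE1 P e3 e1, e2, e5⟩
    · refine le_trans (le_of_eq ?_) (zero_le)
      refine ENNReal.tsum_eq_zero.2 fun x => ?_
      rw [ENNReal.tsum_eq_zero.2 (fun P => ENNReal.tsum_eq_zero.2 fun P' => ?_), mul_zero]
      rw [ind_false, zero_mul]
      rintro ⟨e1, e2, e3, e4, e5⟩
      exact hc (by omega)
  · intro j j' k k' μ hμ1 hμ2 hj hj'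
    obtain ⟨E, hE1, hE2⟩ := aY4 k'
    by_cases hc : 3 * t ≤ k ∧ k ≤ 3 * t + i0 ∧ 3 * t + i0 ≤ k' ∧ k' ≤ 3 * t + 2 * i0
    · refine le_trans (ENNReal.tsum_le_tsum fun x => mul_le_mul_right (ENNReal.tsum_le_tsum fun P =>
        ENNReal.tsum_le_tsum fun P' => mul_le_mul_left (ind_mono ?_) _) _)
        (le_trans (h3 (4 * i0) s k k' (b + j) (b + i0 + j') (b + 2 * i0 + s) (b + 3 * t - s) E μ _ lam
          hμ1 hμ2 hl0 hlt (by omega) (by omega) (by omega) (by omega) (by omega) (by omega)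
          (by omega) (by omega)) (hcard θY E hE2))
      rintro ⟨e1, e2, e3, e4, e5⟩
      exact ⟨e1, e2, hE1 P' e3 e2, e5⟩
    · refine le_trans (le_of_eq ?_) (zero_le)
      refine ENNReal.tsum_eq_zero.2 fun x => ?_
      rw [ENNReal.tsum_eq_zero.2 (fun P => ENNReal.tsum_eq_zero.2 fun P' => ?_), mul_zero]
      rw [ind_false, zero_mul]
      rintro ⟨e1, e2, e3, e4, e5⟩
      exact hc (by omega)
  · intro A P R A' P' R' hA hA1 hP hP1 hA' hA1' hP' hP1' _ _ hE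
    have g1 := hA.1
    have g2 := hP.1
    have g3 := hA'.1
    have g4 := hP'.1
    refine ⟨by omega, ?_⟩
    have kX : ∀ z k, (z, k) ∈ TT zX hX sX P 0 (HT hX A) →
        (z + Dp zX A, k) ∈ TT zX hX sX (A ++ (P ++ R)) 0 0 := by
      intro z k hz
      rw [TT_append, TT_append]
      refine Or.inr (Or.inl ?_)
      rw [Nat.zero_add, TT_shift, add_sub_cancel_right]
      exact hz
    have kY : ∀ z k, (z, k) ∈ TT zY hY sY P' (w + Dp zY A' - Dp zX A) (HT hY A') →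
        (z + Dp zX A, k) ∈ TT zY hY sY (A' ++ (P' ++ R')) w 0 := by
      intro z k hz
      rw [TT_append, TT_append]
      refine Or.inr (Or.inl ?_)
      rw [Nat.zero_add]
      have e : w + Dp zY A' = (w + Dp zY A' - Dp zX A) + Dp zX A := by abel
      rw [e, TT_shift, add_sub_cancel_right]
      exact hz
    obtain ⟨⟨z, k, hk1, hk2, hzX, hzY⟩, hall⟩ := hE
    refine ⟨⟨z - Dp zX A, k, ?_, ?_⟩, ?_⟩
    · rw [TT_append, TT_append] at hzX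
      rcases hzX with h | h | h
      · have := TT_depth zX hX sX hsX _ _ _ _ _ h; omega
      · rw [Nat.zero_add, TT_shift] at h; exact h
      · have := TT_depth zX hX sX hsX _ _ _ _ _ h; omega
    · rw [TT_append, TT_append] at hzY
      rcases hzY with h | h | h
      · have := TT_depth zY hY sY hsY _ _ _ _ _ h; omega
      · rw [Nat.zero_add] at h
        have e : w + Dp zY A' = (w + Dp zY A' - Dp zX A) + Dp zX A := by abel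
        rw [e, TT_shift] at h; exact h
      · have := TT_depth zY hY sY hsY _ _ _ _ _ h; omega
    · intro z' k' h1 h2
      have d1 := TT_depth zX hX sX hsX _ _ _ _ _ h1
      have d2 := TT_depth zY hY sY hsY _ _ _ _ _ h2
      have c1 := hall _ _ (kX _ _ h1) (kY _ _ h2)
      omega

/-- pair sums at exact heights -/
noncomputable def PP (n : ℕ) (Q : List BX → List BY → Prop) : ℝ≥0∞ :=
  ∑' L, ∑' L', ind (HT hX L = n ∧ HT hY L' = n ∧ Q L L') * (LW ΛX L * LW ΛY L')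

lemma PP_mono (n : ℕ) {Q Q' : List BX → List BY → Prop} (hQ : ∀ L L', Q L L' → Q' L L') :
    PP ΛX hX ΛY hY n Q ≤ PP ΛX hX ΛY hY n Q' :=
  ENNReal.tsum_le_tsum fun _ => ENNReal.tsum_le_tsum fun _ => mul_le_mul_left
    (ind_mono fun h => ⟨h.1, h.2.1, hQ _ _ h.2.2⟩) _

lemma PP_or (n : ℕ) (Q Q' : List BX → List BY → Prop) :
    PP ΛX hX ΛY hY n (fun L L' => Q L L' ∨ Q' L L')
      ≤ PP ΛX hX ΛY hY n Q + PP ΛX hX ΛY hY n Q' := by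
  simp only [PP]
  rw [← ENNReal.tsum_add]
  refine ENNReal.tsum_le_tsum fun L => ?_
  rw [← ENNReal.tsum_add]
  refine ENNReal.tsum_le_tsum fun L' => ?_
  rw [← add_mul]
  refine mul_le_mul_left ?_ _
  by_cases h1 : HT hX L = n ∧ HT hY L' = n ∧ Q L L'
  · rw [ind_true h1]; exact le_add_right (ind_le_one _)
  · refine le_add_left (ind_mono ?_)
    rintro ⟨a, b, c | c⟩
    · exact absurd ⟨a, b, c⟩ h1
    · exact ⟨a, b, c⟩

lemma PP_ex (n N : ℕ) (Q : ℕ → List BX → List BY → Prop) :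
    PP ΛX hX ΛY hY n (fun L L' => ∃ j, j < N ∧ Q j L L')
      ≤ ∑ j ∈ Finset.range N, PP ΛX hX ΛY hY n (Q j) := by
  induction N with
  | zero =>
    refine le_trans (le_of_eq ?_) (zero_le)
    rw [PP]
    refine ENNReal.tsum_eq_zero.2 fun L => ENNReal.tsum_eq_zero.2 fun L' => ?_
    rw [ind_false, zero_mul]
    rintro ⟨_, _, j, hj, _⟩
    omega
  | succ N ih =>
    rw [Finset.sum_range_succ]
    refine le_trans (le_trans (PP_mono _ _ _ _ n (Q' := fun L L' => (∃ j, j < N ∧ Q j L L') ∨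
      Q N L L') ?_) (PP_or _ _ _ _ n _ _)) (add_le_add ih le_rfl)
    rintro L L' ⟨j, hj, hQ⟩
    rcases Nat.lt_succ_iff_lt_or_eq.1 hj with h | rfl
    · exact Or.inl ⟨j, h, hQ⟩
    · exact Or.inr hQ

lemma small {A : ℝ≥0∞} (hA : A ≠ ⊤) {ε : ℝ≥0∞} (hε : ε ≠ 0) :
    ∃ δ : ℝ≥0∞, δ ≠ 0 ∧ δ ≠ ⊤ ∧ A * δ ≤ ε := by
  have h1 : min ε 1 ≠ 0 := by simp [hε]
  have h2 : min ε 1 ≠ ⊤ := ne_top_of_le_ne_top ENNReal.one_ne_top (min_le_right _ _)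
  have hA1 : A + 1 ≠ ⊤ := by simp [hA]
  refine ⟨min ε 1 / (A + 1), ENNReal.div_ne_zero.2 ⟨h1, hA1⟩, ENNReal.div_ne_top h2 (by simp), ?_⟩
  calc A * (min ε 1 / (A + 1)) ≤ (A + 1) * (min ε 1 / (A + 1)) := by gcongr; exact le_self_add
    _ = min ε 1 := ENNReal.mul_div_cancel (by simp) hA1
    _ ≤ ε := min_le_left _ _

/-- **KAPPA on lists** -/
theorem kap (hΛX : ∑' b, ΛX b = 1) (hΛY : ∑' b, ΛY b = 1) (h1X : ∀ b, 1 ≤ hX b)
    (h1Y : ∀ b, 1 ≤ hY b) (hsX : ∀ b p k, (p, k) ∈ sX b → 1 ≤ k ∧ k ≤ hX b)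
    (hsY : ∀ b p k, (p, k) ∈ sY b → 1 ≤ k ∧ k ≤ hY b)
    (hTX : ∑' k, tail ΛX hX k ≠ ⊤) (hTY : ∑' k, tail ΛY hY k ≠ ⊤)
    (C : ℝ≥0∞) (hC : C ≠ ⊤) (us : ℕ → ℕ → ℝ≥0∞)
    (hus : ∀ r, ∀ δ : ℝ≥0∞, δ ≠ 0 → ∃ s, us r s ≤ δ)
    (h2 : H2 ΛX hX zX sX ΛY hY zY sY C us) (h3 : H3 ΛX hX zX sX ΛY hY zY sY C us)
    (h5 : H5 ΛX hX zX sX ΛY hY zY sY) :
    ∀ ε : ℝ≥0∞, ε ≠ 0 → ∃ M0, ∀ m, M0 ≤ m → ∃ n0, ∀ n, n0 ≤ n → ∀ w,
      ∑' L, ∑' L', ind (HT hX L = n ∧ HT hY L' = n ∧ ∃ z k, m < k ∧ k ≤ 2 * m ∧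
        (z, k) ∈ TT zX hX sX L 0 0 ∧ (z, k) ∈ TT zY hY sY L' w 0) * (LW ΛX L * LW ΛY L') ≤ ε := by
  intro ε hε
  have hε4 : ε / 4 ≠ 0 := ENNReal.div_ne_zero.2 ⟨hε, by simp⟩
  obtain ⟨q, hq, hnum⟩ := AsmA789.num hε4 8
  set J : ℕ := q ^ 3 with hJ
  set K : ℕ := 4 * J + 1 with hK
  set u : ℝ≥0∞ := ((q : ℝ≥0∞) ^ 2)⁻¹ with hu
  have hJ1 : 1 ≤ J := Nat.one_le_pow _ _ (by omega)
  have hq1 : (1 : ℝ≥0∞) < (q : ℝ≥0∞) ^ 2 := by
    have : 1 < q ^ 2 := Nat.one_lt_pow (by norm_num) (by omega)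
    exact_mod_cast this
  have hu0 : u ≠ 0 := by
    rw [hu]; exact ENNReal.inv_ne_zero.2 (ENNReal.pow_ne_top (ENNReal.natCast_ne_top q))
  have hu1 : u < 1 := ENNReal.inv_lt_one.2 hq1
  have hm1 : ((K + 2 : ℕ) : ℝ≥0∞) * (u * u + (1 - u) ^ J + (1 - u) ^ J) ≤ ε / 4 := by
    have e1 : (1 - u) ^ J ≤ (1 - (2 * (q : ℝ≥0∞) ^ 2)⁻¹) ^ (q ^ 3) := by
      rw [hJ]
      refine pow_le_pow_left' (tsub_le_tsub_left ?_ _) _
      rw [hu]
      refine ENNReal.inv_le_inv.2 ?_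
      calc (q : ℝ≥0∞) ^ 2 = 1 * (q : ℝ≥0∞) ^ 2 := (one_mul _).symm
        _ ≤ 2 * (q : ℝ≥0∞) ^ 2 := by gcongr; norm_num
    refine le_trans ?_ hnum
    set X := (1 - (2 * (q : ℝ≥0∞) ^ 2)⁻¹) ^ (q ^ 3) with hX
    have e2 : u * u = ((q : ℝ≥0∞) ^ 2)⁻¹ ^ 2 := (sq _).symm
    calc ((K + 2 : ℕ) : ℝ≥0∞) * (u * u + (1 - u) ^ J + (1 - u) ^ J)
        ≤ ((K + 2 : ℕ) : ℝ≥0∞) * (u * u + X + (u * u + X)) := by
          gcongr
          exact e1.trans le_add_self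
      _ = ((K + 2 : ℕ) : ℝ≥0∞) * 2 * (u * u + X) := by ring
      _ ≤ (8 : ℕ) * ((q : ℝ≥0∞) ^ 3 + (8 : ℕ)) * (((q : ℝ≥0∞) ^ 2)⁻¹ ^ 2 + X) := by
          rw [e2]
          refine mul_le_mul_left ?_ _
          have : (K + 2) * 2 ≤ 8 * (q ^ 3 + 8) := by rw [hK, hJ]; omega
          exact_mod_cast this
  -- overshoots
  obtain ⟨δ1, hδ10, -, hδ1⟩ := small (A := ((K + 2 : ℕ) : ℝ≥0∞) * ((2 + J) * 2))
    (ENNReal.mul_ne_top (ENNReal.natCast_ne_top _)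
      (ENNReal.mul_ne_top (by simp) (by simp))) hε4
  obtain ⟨i1, hi1⟩ := dlt_tendsto hTX hδ10
  obtain ⟨i2, hi2⟩ := dlt_tendsto hTY hδ10
  set i0 := max i1 i2 with hi0
  have hdX : dlt ΛX hX i0 ≤ δ1 := hi1 _ (le_max_left _ _)
  have hdY : dlt ΛY hY i0 ≤ δ1 := hi2 _ (le_max_right _ _)
  have hε8 : ε / 4 / 2 ≠ 0 := ENNReal.div_ne_zero.2 ⟨hε4, by simp⟩
  obtain ⟨lam, hl0, hlt, hlam⟩ := small
    (A := ((K + 2 : ℕ) : ℝ≥0∞) * (2 * (((i0 + 1 : ℕ) : ℝ≥0∞) ^ 4 * C)))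
    (ENNReal.mul_ne_top (ENNReal.natCast_ne_top _) (ENNReal.mul_ne_top (by simp)
      (ENNReal.mul_ne_top (ENNReal.pow_ne_top (ENNReal.natCast_ne_top _)) hC))) hε8
  obtain ⟨δ3, hδ30, -, hδ3⟩ := small
    (A := ((K + 2 : ℕ) : ℝ≥0∞) * (2 * (((i0 + 1 : ℕ) : ℝ≥0∞) ^ 4 *
      (C * ((J * ((i0 + 1 : ℕ) * 2)) / lam + 1)))))
    (ENNReal.mul_ne_top (ENNReal.natCast_ne_top _) (ENNReal.mul_ne_top (by simp)
      (ENNReal.mul_ne_top (ENNReal.pow_ne_top (ENNReal.natCast_ne_top _))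
        (ENNReal.mul_ne_top hC (ENNReal.add_ne_top.2 ⟨ENNReal.div_ne_top
          (ENNReal.mul_ne_top (ENNReal.natCast_ne_top _)
            (ENNReal.mul_ne_top (ENNReal.natCast_ne_top _) (by simp))) hl0, by simp⟩))))) hε8
  obtain ⟨s, hs⟩ := hus (4 * i0) δ3 hδ30
  obtain ⟨η, hη0, -, hη⟩ := small (A := ((K + 2 : ℕ) : ℝ≥0∞) * 2)
    (ENNReal.mul_ne_top (ENNReal.natCast_ne_top _) (by simp)) hε4
  obtain ⟨T, hT⟩ := h5 (s + 2 * i0 + 1) η hη0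
  refine ⟨K * (T + 2 * i0 + s + 1 + K), fun m hm => ⟨5 * m + 4 * i0, fun n hn w => ?_⟩⟩
  set t := m / K with ht
  have hKpos : 0 < K := by omega
  have ht1 : T + 2 * i0 + s + 1 + K ≤ t := (Nat.le_div_iff_mul_le hKpos).2 (by rw [mul_comm]; exact hm)
  have hKt : K * t ≤ m := Nat.mul_div_le m K
  have hKt2 : m < K * (t + 1) := by
    rw [mul_comm]; exact (Nat.div_lt_iff_lt_mul hKpos).1 (Nat.lt_succ_self _)
  have ht0 : 0 < t := by omega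
  have hbet : bet C J i0 lam (us (4 * i0) s)
      ≤ C * lam + C * ((J * ((i0 + 1 : ℕ) * 2)) / lam + 1) * δ3 := by
    rw [bet]
    calc C * (lam + (J * ((i0 + 1 : ℕ) * 2)) * us (4 * i0) s / lam + us (4 * i0) s)
        ≤ C * (lam + (J * ((i0 + 1 : ℕ) * 2)) * δ3 / lam + δ3) := by gcongr
      _ = _ := by
        rw [ENNReal.div_eq_inv_mul, ENNReal.div_eq_inv_mul]
        ring
  -- the windows
  have hwin : ∀ j, j < K + 2 →
      PP ΛX hX ΛY hY n (fun L L' => EvS hX zX sX hY zY sY ((4 * J + j) * t) t s i0 w L L' ∨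
        ((∃ z k, (4 * J + j) * t ≤ k ∧ k < (4 * J + j) * t + (s + 2 * i0 + 1) ∧
          (z, k) ∈ TT zX hX sX L 0 0 ∧ (z, k) ∈ TT zY hY sY L' w 0) ∨
        (∃ z k, (4 * J + j) * t + 3 * t - s ≤ k ∧
          k < (4 * J + j) * t + 3 * t - s + (s + 2 * i0 + 1) ∧
          (z, k) ∈ TT zX hX sX L 0 0 ∧ (z, k) ∈ TT zY hY sY L' w 0)))
      ≤ (2 * δ1 + 2 * δ1 + (u * u + ((1 - u) ^ J + J * δ1)
        + ((1 - u) ^ J + J * δ1)
        + ((i0 + 1 : ℕ) : ℝ≥0∞) ^ 4 * (C * lam + C * ((J * ((i0 + 1 : ℕ) * 2)) / lam + 1) * δ3)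
        + ((i0 + 1 : ℕ) : ℝ≥0∞) ^ 4 * (C * lam + C * ((J * ((i0 + 1 : ℕ) * 2)) / lam + 1) * δ3)))
        + (η + η) := by
    intro j hj
    have hb1 : 4 * J * t ≤ (4 * J + j) * t := Nat.mul_le_mul_right _ (by omega)
    have hb2 : t ≤ 4 * J * t := Nat.le_mul_of_pos_left _ (by omega)
    have hb3 : (4 * J + j) * t ≤ 2 * m := by
      calc (4 * J + j) * t ≤ (2 * K) * t := Nat.mul_le_mul_right _ (by omega)
        _ = 2 * (K * t) := by ring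
        _ ≤ 2 * m := Nat.mul_le_mul_left _ hKt
    have hb4 : J * (3 * t + 2 * i0) ≤ 4 * J * t := by
      calc J * (3 * t + 2 * i0) ≤ J * (4 * t) := Nat.mul_le_mul_left _ (by omega)
        _ = 4 * J * t := by ring
    have htm : t ≤ m := Nat.div_le_self _ _
    refine (PP_or _ _ _ _ n _ _).trans (add_le_add ?_ ((PP_or _ _ _ _ n _ _).trans
      (add_le_add ?_ ?_)))
    · refine (win1 ΛX hX zX sX ΛY hY zY sY hΛX hΛY h1X h1Y hsX hsY C us h2 h3 J i0 t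
        ((4 * J + j) * t) n s hu0 hu1 hl0 hlt w (hb4.trans hb1) (by omega) (by omega)).trans ?_
      gcongr
    · exact hT _ (by omega) n w
    · exact hT _ (by omega) n w
  have hev : ∀ L L', (∃ z k, m < k ∧ k ≤ 2 * m ∧
        (z, k) ∈ TT zX hX sX L 0 0 ∧ (z, k) ∈ TT zY hY sY L' w 0) →
      ∃ j, j < K + 2 ∧ (EvS hX zX sX hY zY sY ((4 * J + j) * t) t s i0 w L L' ∨
        ((∃ z k, (4 * J + j) * t ≤ k ∧ k < (4 * J + j) * t + (s + 2 * i0 + 1) ∧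
          (z, k) ∈ TT zX hX sX L 0 0 ∧ (z, k) ∈ TT zY hY sY L' w 0) ∨
        (∃ z k, (4 * J + j) * t + 3 * t - s ≤ k ∧
          k < (4 * J + j) * t + 3 * t - s + (s + 2 * i0 + 1) ∧
          (z, k) ∈ TT zX hX sX L 0 0 ∧ (z, k) ∈ TT zY hY sY L' w 0))) := by
    rintro L L' ⟨z, k, hk1, hk2, hzX, hzY⟩
    have hi1 : K ≤ (k - 1) / t := (Nat.le_div_iff_mul_le ht0).2 (by omega)
    have hi2 : (k - 1) / t < 2 * K + 2 := by
      refine (Nat.div_lt_iff_lt_mul ht0).2 ?_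
      have : (2 * K + 2) * t = 2 * (K * t) + 2 * t := by ring
      have h' : K * (t + 1) = K * t + K := by ring
      omega
    have hi3 : (k - 1) / t * t ≤ k - 1 := Nat.div_mul_le_self _ _
    have hi4 : k - 1 < ((k - 1) / t + 1) * t := by
      have := Nat.lt_succ_self ((k - 1) / t)
      exact (Nat.div_lt_iff_lt_mul ht0).1 this
    refine ⟨(k - 1) / t - K, by omega, ?_⟩
    set i := (k - 1) / t with hi
    have e1 : (4 * J + (i - K)) * t + t = i * t := by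
      have : 4 * J + (i - K) + 1 = i := by omega
      calc (4 * J + (i - K)) * t + t = (4 * J + (i - K) + 1) * t := by ring
        _ = i * t := by rw [this]
    have e2 : (i + 1) * t = i * t + t := by ring
    set b := (4 * J + (i - K)) * t with hb
    by_cases c1 : ∃ z k, b ≤ k ∧ k < b + (s + 2 * i0 + 1) ∧
          (z, k) ∈ TT zX hX sX L 0 0 ∧ (z, k) ∈ TT zY hY sY L' w 0
    · exact Or.inr (Or.inl c1)
    by_cases c2 : ∃ z k, b + 3 * t - s ≤ k ∧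
          k < b + 3 * t - s + (s + 2 * i0 + 1) ∧
          (z, k) ∈ TT zX hX sX L 0 0 ∧ (z, k) ∈ TT zY hY sY L' w 0
    · exact Or.inr (Or.inr c2)
    refine Or.inl ⟨⟨z, k, by omega, by omega, hzX, hzY⟩, fun z' k' g1 g2 => ⟨fun g => ?_, fun g => ?_⟩⟩
    · exact c1 ⟨z', k', g.1, g.2, g1, g2⟩
    · exact c2 ⟨z', k', g.1, g.2, g1, g2⟩
  refine le_trans (PP_mono ΛX hX ΛY hY n hev) (le_trans (PP_ex ΛX hX ΛY hY n (K + 2) _)
    (le_trans (Finset.sum_le_sum fun j hj => hwin j (Finset.mem_range.1 hj)) ?_))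
  rw [Finset.sum_const, Finset.card_range, nsmul_eq_mul]
  calc _ = ((K + 2 : ℕ) : ℝ≥0∞) * (u * u + (1 - u) ^ J + (1 - u) ^ J)
        + ((K + 2 : ℕ) : ℝ≥0∞) * ((2 + J) * 2) * δ1
        + (((K + 2 : ℕ) : ℝ≥0∞) * (2 * (((i0 + 1 : ℕ) : ℝ≥0∞) ^ 4 * C)) * lam
          + ((K + 2 : ℕ) : ℝ≥0∞) * (2 * (((i0 + 1 : ℕ) : ℝ≥0∞) ^ 4 *
            (C * ((J * ((i0 + 1 : ℕ) * 2)) / lam + 1)))) * δ3)
        + ((K + 2 : ℕ) : ℝ≥0∞) * 2 * η := by ring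
    _ ≤ ε / 4 + ε / 4 + (ε / 4 / 2 + ε / 4 / 2) + ε / 4 := by gcongr
    _ = ε / 4 * 4 := by rw [ENNReal.add_halves]; ring
    _ = ε := ENNReal.div_mul_cancel (by simp) (by simp)

end Two

end Crest.Agent.R154.AsmW908
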