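import Crest.Agent.R154.AsmV_917

/-! Row 154, ROAD 801 (helper917): assembly, part 3: law of a piece, threshold, one window. -/

set_option autoImplicit false

namespace Crest.Agent.R154.Asm917

open scoped ENNReal
open Crest.Agent.R154.B5A Crest.Agent.R154.FP178

section law

variable {B G : Type*} [AddCommGroup G] (Λ : B → ℝ≥0∞) (ht : B → ℕ) (z : B → G)

open Classical in
/-- law of (height, displacement) of one piece -/
noncomputable def pl (T : ℕ) (x : ℕ × G) : ℝ≥0∞ :=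
  ∑' A : List B, if fp ht T A ∧ (HT ht A, Dq z A) = x then LW Λ A else 0

open Classical in
lemma pl_fib (T : ℕ) (H : ℕ × G → ℝ≥0∞) :
    ∑' A : List B, (if fp ht T A then LW Λ A * H (HT ht A, Dq z A) else 0)
      = ∑' x, pl Λ ht z T x * H x := by
  have e : ∀ x, pl Λ ht z T x * H x = ∑' A : List B,
      (if fp ht T A ∧ (HT ht A, Dq z A) = x then LW Λ A * H x else 0) := by
    intro x
    rw [pl, ← ENNReal.tsum_mul_right]
    refine tsum_congr fun A => ?_
    split_ifs <;> simp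
  rw [tsum_congr e, ENNReal.tsum_comm]
  refine tsum_congr fun A => ?_
  by_cases hA : fp ht T A
  · rw [if_pos hA, tsum_eq_single (HT ht A, Dq z A)]
    · rw [if_pos ⟨hA, rfl⟩]
    · intro x hx
      rw [if_neg (fun h => hx h.2.symm)]
  · rw [if_neg hA]
    symm
    rw [ENNReal.tsum_eq_zero]
    intro x
    rw [if_neg (fun h => hA h.1)]

open Classical in
lemma pl_sum (T : ℕ) (h1 : ∑' A : List B, (if fp ht T A then LW Λ A else 0) = 1) :
    ∑' x, pl Λ ht z T x = 1 := by
  have := pl_fib Λ ht z T (fun _ => 1)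
  simp only [mul_one] at this
  rw [← this, h1]

open Classical in
lemma Wm_le_fp {T i0 : ℕ} (A : List B) : Wm Λ ht T i0 A ≤ if fp ht T A then LW Λ A else 0 := by
  unfold Wm
  by_cases h : fp ht T A
  · rw [if_pos h]; split_ifs <;> simp
  · rw [if_neg h, if_neg (fun h' => h h'.1)]

open Classical in
/-- mass of the non local pieces -/
lemma nl_le (T i0 : ℕ) {θ u : ℝ≥0∞} (E : ℕ → Finset G)
    (hE : ∀ h x, x ∈ E h ↔ θ ≤ pl Λ ht z T (h, x))
    (hu : ∑' x, (if pl Λ ht z T x < θ then pl Λ ht z T x else 0) ≤ u) :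
    ∑' A, Wm Λ ht T i0 A * (if Dq z A ∈ E (HT ht A) then 0 else 1) ≤ u := by
  refine le_trans ?_ hu
  have := pl_fib Λ ht z T (fun x => if pl Λ ht z T x < θ then 1 else 0)
  calc _ ≤ ∑' A : List B, (if fp ht T A then LW Λ A *
        (if pl Λ ht z T (HT ht A, Dq z A) < θ then 1 else 0) else 0) := by
        refine ENNReal.tsum_le_tsum fun A => ?_
        by_cases hA : Dq z A ∈ E (HT ht A)
        · rw [if_pos hA, mul_zero]; exact zero_le
        · rw [if_neg hA, mul_one, if_pos (not_le.1 (fun h => hA ((hE _ _).2 h))), mul_one]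
          exact Wm_le_fp Λ ht A
    _ = _ := this
    _ ≤ _ := ENNReal.tsum_le_tsum fun x => by split_ifs <;> simp

open Classical in
/-- mass of the pieces which are not smooth -/
lemma ns_le (T i0 : ℕ) {θ u : ℝ≥0∞} (hp : ∑' x, pl Λ ht z T x = 1)
    (hu : u ≤ ∑' x, (if pl Λ ht z T x < 2 * θ then pl Λ ht z T x else 0)) :
    ∑' A, (if pl Λ ht z T (HT ht A, Dq z A) < 2 * θ then 0 else Wm Λ ht T i0 A) ≤ 1 - u := by
  have e1 := pl_fib Λ ht z T (fun x => if pl Λ ht z T x < 2 * θ then 0 else 1)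
  have hsum : ∑' x, (if pl Λ ht z T x < 2 * θ then pl Λ ht z T x else 0)
      + ∑' x, pl Λ ht z T x * (if pl Λ ht z T x < 2 * θ then 0 else 1) = 1 := by
    rw [← ENNReal.tsum_add]
    refine Eq.trans (tsum_congr fun x => ?_) hp
    split_ifs <;> simp
  have h2 : ∑' x, pl Λ ht z T x * (if pl Λ ht z T x < 2 * θ then 0 else 1) ≤ 1 - u := by
    refine ENNReal.le_sub_of_add_le_left (ne_top_of_le_ne_top ENNReal.one_ne_top
      (hu.trans (hsum ▸ le_self_add))) ?_
    calc u + _ ≤ ∑' x, (if pl Λ ht z T x < 2 * θ then pl Λ ht z T x else 0)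
      + ∑' x, pl Λ ht z T x * (if pl Λ ht z T x < 2 * θ then 0 else 1) := add_le_add hu le_rfl
      _ = 1 := hsum
  refine le_trans ?_ h2
  rw [← e1]
  refine ENNReal.tsum_le_tsum fun A => ?_
  by_cases hA : pl Λ ht z T (HT ht A, Dq z A) < 2 * θ
  · rw [if_pos hA]; exact zero_le
  · rw [if_neg hA, if_neg hA, mul_one]; exact Wm_le_fp Λ ht A

lemma map_sum (P : List (List B)) :
    (P.map (fun A => (((HT ht A : ℕ) : ℤ), Dq z A))).sum = (((HT ht P.flatten : ℕ) : ℤ), Dq z P.flatten) := by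
  induction P with
  | nil => simp [HT_nil, Dq]; rfl
  | cons A P ih =>
    rw [List.map_cons, List.sum_cons, ih, List.flatten_cons, HT_append]
    refine Prod.ext ?_ ?_
    · simp
    · simp [Dq]

open Classical in
/-- density of the sum of `j` pieces, one of them smooth -/
lemma dens_le (T i0 j : ℕ) {θ : ℝ≥0∞} (hΛ1 : ∑' A, Wm Λ ht T i0 A ≤ 1) (a : ℕ) (x : G) :
    SL (Wm Λ ht T i0) j (fun P => if (∃ A ∈ P, pl Λ ht z T (HT ht A, Dq z A) < 2 * θ) ∧
      HT ht P.flatten = a ∧ Dq z P.flatten = x then 1 else 0) ≤ j * (2 * θ) := by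
  have h := AsmA789.dens (Wm Λ ht T i0) hΛ1 (fun A => (((HT ht A : ℕ) : ℤ), Dq z A))
    (fun A => pl Λ ht z T (HT ht A, Dq z A) < 2 * θ) (2 * θ) (by
      rintro ⟨c, y⟩
      by_cases hex : ∃ A : List B, pl Λ ht z T (HT ht A, Dq z A) < 2 * θ ∧
        (((HT ht A : ℕ) : ℤ), Dq z A) = (c, y)
      · obtain ⟨A0, hA0, hA0'⟩ := hex
        refine le_trans ?_ hA0.le
        rw [pl]
        refine ENNReal.tsum_le_tsum fun A => ?_
        by_cases hA : pl Λ ht z T (HT ht A, Dq z A) < 2 * θ ∧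
            (((HT ht A : ℕ) : ℤ), Dq z A) = (c, y)
        · rw [if_pos hA]
          have hh : (HT ht A, Dq z A) = (HT ht A0, Dq z A0) := by
            have h2 := hA.2.trans hA0'.symm
            have h3 := congrArg Prod.fst h2
            have h4 := congrArg Prod.snd h2
            simp only at h3 h4
            refine Prod.ext ?_ h4
            simp only
            exact_mod_cast h3
          refine (Wm_le_fp Λ ht A).trans ?_
          by_cases hf : fp ht T A
          · rw [if_pos hf, if_pos ⟨hf, hh⟩]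
          · rw [if_neg hf]; exact zero_le
        · rw [if_neg hA]; exact zero_le
      · rw [ENNReal.tsum_eq_zero.2]
        · exact zero_le
        · intro A
          rw [if_neg (fun h => hex ⟨A, h⟩)]) j ((a : ℤ), x)
  refine le_trans (SL_mono _ j fun P _ => ?_) h
  by_cases hc : (∃ A ∈ P, pl Λ ht z T (HT ht A, Dq z A) < 2 * θ) ∧
      HT ht P.flatten = a ∧ Dq z P.flatten = x
  · rw [if_pos hc, if_pos ⟨hc.1, by rw [map_sum, hc.2.1, hc.2.2]⟩]
  · rw [if_neg hc]; exact zero_le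

open Classical in
/-- threshold of one walker -/
lemma thr (T i0 : ℕ) (h1 : ∑' A : List B, (if fp ht T A then LW Λ A else 0) = 1)
    (hΛ1 : ∑' A, Wm Λ ht T i0 A ≤ 1)
    {u : ℝ≥0∞} (hu0 : u ≠ 0) (hu1 : u < 1) :
    ∃ (θ : ℝ≥0∞) (E : ℕ → Finset G) (Sm : List B → Prop), (∀ h, ((E h).card : ℝ≥0∞) * θ ≤ 1) ∧
      ∑' A, Wm Λ ht T i0 A * (if Dq z A ∈ E (HT ht A) then 0 else 1) ≤ u ∧
      (∀ j, SL (Wm Λ ht T i0) j (fun P => if ∃ A ∈ P, Sm A then 0 else 1) ≤ (1 - u) ^ j) ∧
      (∀ j a x, SL (Wm Λ ht T i0) j (fun P => if (∃ A ∈ P, Sm A) ∧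
        HT ht P.flatten = a ∧ Dq z P.flatten = x then 1 else 0) ≤ j * (2 * θ)) := by
  have hp := pl_sum Λ ht z T h1
  obtain ⟨θ, hθ, _, hq1, hq2⟩ := AsmA789.quant (pl Λ ht z T) hp hu0 hu1
  obtain ⟨hfin, hcard⟩ := AsmA789.card_le (pl Λ ht z T) hp.le hθ
  have hfin' : ∀ h : ℕ, {x : G | θ ≤ pl Λ ht z T (h, x)}.Finite := by
    intro h
    refine Set.Finite.preimage (f := fun x : G => (h, x)) ?_ hfin
    intro x _ y _ hxy
    exact (Prod.mk.inj hxy).2
  refine ⟨θ, fun h => (hfin' h).toFinset, fun A => pl Λ ht z T (HT ht A, Dq z A) < 2 * θ,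
    ?_, ?_, ?_, ?_⟩
  · intro h
    refine le_trans (mul_le_mul_left ?_ _) hcard
    rw [Set.ncard_eq_toFinset_card _ hfin]
    refine Nat.cast_le.2 ?_
    refine Finset.card_le_card_of_injOn (fun x : G => (h, x)) ?_ ?_
    · intro x hx
      have := (Set.Finite.mem_toFinset (hfin' h)).1 (Finset.mem_coe.1 hx)
      exact Finset.mem_coe.2 ((Set.Finite.mem_toFinset hfin).2 this)
    · intro x _ y _ hxy
      exact (Prod.mk.inj hxy).2
  · exact nl_le Λ ht z T i0 _ (fun h x => Set.Finite.mem_toFinset (hfin' h)) hq1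
  · intro j
    rw [AsmA789.nosmall]
    refine le_trans (pow_le_pow_left' (le_of_eq (tsum_congr fun A => ?_)) j)
      (pow_le_pow_left' (ns_le Λ ht z T i0 hp hq2) j)
    by_cases hA : pl Λ ht z T (HT ht A, Dq z A) < 2 * θ
    · rw [if_pos hA, if_pos hA]
    · rw [if_neg hA, if_neg hA]
  · intro j a x
    convert dens_le Λ ht z T i0 j (θ := θ) hΛ1 a x

end law

end Crest.Agent.R154.Asm917
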