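import Crest.Agent.R154.AsmD_95
import Crest.Agent.R154.Dens_616

/-! Row 154 (helper95), ROAD 801: one window. -/

set_option autoImplicit false

namespace Crest.Agent.R154.Asm95

open scoped ENNReal
open Crest.Agent.R154.B5A Crest.Agent.R154.FP178
open Classical

section One

variable {B : Type*} (Λ : B → ℝ≥0∞) (ht : B → ℕ)

/-- weight of a first passage list with overshoot at most `i0` -/
noncomputable def gg (i0 T : ℕ) (L : List B) : ℝ≥0∞ :=
  if fp ht T L ∧ HT ht L ≤ T + i0 then LW Λ L else 0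

lemma gg_le (i0 T : ℕ) (L : List B) : gg Λ ht i0 T L ≤ if fp ht T L then LW Λ L else 0 := by
  unfold gg
  by_cases h : fp ht T L
  · by_cases h' : HT ht L ≤ T + i0
    · simp [h, h']
    · simp [h, h']
  · simp [h]

lemma gg_sum (h1 : ∀ b, 1 ≤ ht b) (hΛ : ∑' b, Λ b ≤ 1) (i0 T : ℕ) :
    ∑' L, gg Λ ht i0 T L ≤ 1 :=
  (ENNReal.tsum_le_tsum fun L => gg_le Λ ht i0 T L).trans (sum_FP Λ ht h1 hΛ T)

lemma fix_sum (hU : ∀ n, U Λ ht n ≤ 1) (c n : ℕ) :
    ∑' L, LW Λ L * (if c + HT ht L = n then 1 else 0) ≤ 1 := by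
  by_cases hc : c ≤ n
  · refine le_trans (le_of_eq ?_) (hU (n - c))
    unfold U
    refine tsum_congr fun L => ?_
    by_cases h : HT ht L = n - c
    · rw [if_pos h, if_pos (by omega), mul_one]
    · rw [if_neg h, if_neg (by omega), mul_zero]
  · rw [ENNReal.tsum_eq_zero.2]
    · exact zero_le
    · intro L; rw [if_neg (by omega), mul_zero]

/-- decomposition top part / piece / rest -/
theorem cut (h1 : ∀ b, 1 ≤ ht b) (hΛ : ∑' b, Λ b ≤ 1) (hU : ∀ n, U Λ ht n ≤ 1) (i0 : ℕ)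
    (ep : ℝ≥0∞) (hε : ∀ T, ∑' L, (if fp ht T L ∧ T + i0 < HT ht L then LW Λ L else 0) ≤ ep)
    (α T n : ℕ) (hn : α + i0 + T ≤ n) (F : List B → ℝ≥0∞) (hF : ∀ L, F L ≤ 1)
    (Ψ : List B → List B → ℝ≥0∞)
    (hΨ : ∀ A P R, α ≤ HT ht A → HT ht A ≤ α + i0 → T ≤ HT ht P → HT ht P ≤ T + i0 →
      F (A ++ (P ++ R)) ≤ Ψ A P) :
    ∑' L, LW Λ L * (if HT ht L = n then F L else 0)
      ≤ 2 * ep + ∑' A, gg Λ ht i0 α A * ∑' P, gg Λ ht i0 T P * Ψ A P := by
  set f : List B → ℝ≥0∞ := fun L => if HT ht L = n then F L else 0 with hf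
  have e1 : ∑' L, LW Λ L * (if HT ht L = n then F L else 0)
      = ∑' A, (if fp ht α A then LW Λ A * ∑' L2, LW Λ L2 * f (A ++ L2) else 0) := by
    rw [← split Λ ht h1 α f]
    refine tsum_congr fun L => ?_
    by_cases h : α ≤ HT ht L
    · rw [if_pos h]
    · rw [if_neg h, if_neg (by omega), mul_zero]
  have hle : ∀ A : List B, ∑' L2, LW Λ L2 * f (A ++ L2) ≤ 1 := by
    intro A
    refine le_trans (ENNReal.tsum_le_tsum fun L2 => mul_le_mul_right ?_ _)
      (fix_sum Λ ht hU (HT ht A) n)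
    simp only [hf, HT_append]
    by_cases h : HT ht A + HT ht L2 = n
    · rw [if_pos h, if_pos h]; exact hF _
    · rw [if_neg h, if_neg h]
  have hA : ∀ A : List B, α ≤ HT ht A → HT ht A ≤ α + i0 →
      ∑' L2, LW Λ L2 * f (A ++ L2) ≤ ep + ∑' P, gg Λ ht i0 T P * Ψ A P := by
    intro A hA1 hA2
    have e2 : ∑' L2, LW Λ L2 * f (A ++ L2)
        = ∑' P, (if fp ht T P then LW Λ P * ∑' R, LW Λ R * f (A ++ (P ++ R)) else 0) := by
      rw [← split Λ ht h1 T (fun L => f (A ++ L))]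
      refine tsum_congr fun L => ?_
      by_cases h : T ≤ HT ht L
      · rw [if_pos h]
      · rw [if_neg h]
        simp only [hf, HT_append]
        rw [if_neg (by omega), mul_zero]
    rw [e2]
    calc ∑' P, (if fp ht T P then LW Λ P * ∑' R, LW Λ R * f (A ++ (P ++ R)) else 0)
        ≤ ∑' P, ((if fp ht T P ∧ T + i0 < HT ht P then LW Λ P else 0)
            + gg Λ ht i0 T P * Ψ A P) := by
          refine ENNReal.tsum_le_tsum fun P => ?_
          by_cases hP : fp ht T P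
          · have hTP := le_HT_of_fp ht hP
            rw [if_pos hP]
            by_cases hP2 : HT ht P ≤ T + i0
            · refine le_add_left ?_
              rw [gg, if_pos ⟨hP, hP2⟩]
              refine mul_le_mul_right ?_ _
              calc ∑' R, LW Λ R * f (A ++ (P ++ R))
                  ≤ ∑' R, LW Λ R * (if HT ht A + HT ht P + HT ht R = n then 1 else 0)
                      * Ψ A P := by
                    refine ENNReal.tsum_le_tsum fun R => ?_
                    rw [mul_assoc]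
                    refine mul_le_mul_right ?_ _
                    simp only [hf, HT_append]
                    by_cases h : HT ht A + (HT ht P + HT ht R) = n
                    · rw [if_pos h, if_pos (by omega), one_mul]
                      exact hΨ A P R hA1 hA2 hTP hP2
                    · rw [if_neg h]; exact zero_le
                _ ≤ 1 * Ψ A P := by
                    rw [ENNReal.tsum_mul_right]
                    exact mul_le_mul_left (fix_sum Λ ht hU _ n) _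
                _ = Ψ A P := one_mul _
            · refine le_add_right ?_
              rw [if_pos ⟨hP, by omega⟩]
              calc LW Λ P * ∑' R, LW Λ R * f (A ++ (P ++ R)) ≤ LW Λ P * 1 := by
                    refine mul_le_mul_right ?_ _
                    have := hle (A ++ P)
                    simpa only [List.append_assoc] using this
                _ = _ := mul_one _
          · rw [if_neg hP]; exact zero_le
      _ ≤ ep + ∑' P, gg Λ ht i0 T P * Ψ A P := by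
          rw [ENNReal.tsum_add]
          gcongr
          exact hε T
  rw [e1]
  calc ∑' A, (if fp ht α A then LW Λ A * ∑' L2, LW Λ L2 * f (A ++ L2) else 0)
      ≤ ∑' A, ((if fp ht α A ∧ α + i0 < HT ht A then LW Λ A else 0)
          + (gg Λ ht i0 α A * ep + gg Λ ht i0 α A * ∑' P, gg Λ ht i0 T P * Ψ A P)) := by
        refine ENNReal.tsum_le_tsum fun A => ?_
        by_cases h : fp ht α A
        · have hαA := le_HT_of_fp ht h
          rw [if_pos h]
          by_cases h2 : HT ht A ≤ α + i0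
          · refine le_add_left ?_
            rw [gg, if_pos ⟨h, h2⟩, ← mul_add]
            exact mul_le_mul_right (hA A hαA h2) _
          · refine le_add_right ?_
            rw [if_pos ⟨h, by omega⟩]
            calc _ ≤ LW Λ A * 1 := mul_le_mul_right (hle A) _
              _ = _ := mul_one _
        · rw [if_neg h]; exact zero_le
    _ ≤ ep + (1 * ep + ∑' A, gg Λ ht i0 α A * ∑' P, gg Λ ht i0 T P * Ψ A P) := by
        rw [ENNReal.tsum_add, ENNReal.tsum_add, ENNReal.tsum_mul_right]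
        gcongr
        · exact hε α
        · exact gg_sum Λ ht h1 hΛ i0 α
    _ = _ := by rw [one_mul, two_mul, add_assoc]

end One

/-- averaging over an independent top -/
lemma smooth {ι G : Type*} (v : ι → ℝ≥0∞) (hv : ∑' i, v i ≤ 1) (σ : ι → G ≃ G)
    (g : G → ℝ≥0∞) (hg : ∑' y, g y ≤ 1) (G0 : ℝ≥0∞) (hg0 : ∀ y, g y ≤ G0) (Φ : G → ℝ≥0∞)
    (Hb : ℝ≥0∞) (H : ∀ μ : G → ℝ≥0∞, ∑' x, μ x ≤ 1 → (∀ x, μ x ≤ G0) → ∑' x, μ x * Φ x ≤ Hb) :
    ∑' i, v i * ∑' y, g y * Φ (σ i y) ≤ Hb := by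
  have e : ∑' i, v i * ∑' y, g y * Φ (σ i y) = ∑' x, (∑' i, v i * g ((σ i).symm x)) * Φ x := by
    calc ∑' i, v i * ∑' y, g y * Φ (σ i y)
        = ∑' i, ∑' x, v i * g ((σ i).symm x) * Φ x := by
          refine tsum_congr fun i => ?_
          rw [← (σ i).tsum_eq (fun x => v i * g ((σ i).symm x) * Φ x), ← ENNReal.tsum_mul_left]
          refine tsum_congr fun y => ?_
          rw [Equiv.symm_apply_apply, mul_assoc]
      _ = ∑' x, ∑' i, v i * g ((σ i).symm x) * Φ x := ENNReal.tsum_comm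
      _ = _ := tsum_congr fun x => ENNReal.tsum_mul_right
  rw [e]
  refine H _ ?_ fun x => ?_
  · rw [ENNReal.tsum_comm]
    calc ∑' i, ∑' x, v i * g ((σ i).symm x) ≤ ∑' i, v i * 1 := by
          refine ENNReal.tsum_le_tsum fun i => ?_
          rw [ENNReal.tsum_mul_left]
          refine mul_le_mul_right ?_ _
          rw [(σ i).symm.tsum_eq g]
          exact hg
      _ ≤ 1 := by simpa using hv
  · calc ∑' i, v i * g ((σ i).symm x) ≤ ∑' i, v i * G0 :=
          ENNReal.tsum_le_tsum fun i => mul_le_mul_right (hg0 _) _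
      _ = (∑' i, v i) * G0 := ENNReal.tsum_mul_right
      _ ≤ 1 * G0 := mul_le_mul_left hv _
      _ = G0 := one_mul _

section Two

variable {B₁ B₂ G : Type*} [AddCommGroup G] (Λ₁ : B₁ → ℝ≥0∞) (h₁ : B₁ → ℕ) (z₁ : B₁ → G)
  (Λ₂ : B₂ → ℝ≥0∞) (h₂ : B₂ → ℕ) (z₂ : B₂ → G)

/-- the smoothing step -/
theorem smoothing (h11 : ∀ b, 1 ≤ h₁ b) (h21 : ∀ b, 1 ≤ h₂ b) (hΛ₁ : ∑' b, Λ₁ b ≤ 1)
    (hΛ₂ : ∑' b, Λ₂ b ≤ 1) (α₁ α₂ i0 : ℕ) (G0 β Hb : ℝ≥0∞) (b : ℕ → G → ℝ≥0∞)
    (hb : ∀ j y, pk Λ₁ h₁ z₁ α₁ (α₁ + j, y) ≤ G0 + b j y) (hβ : ∑' j, ∑' y, b j y ≤ β)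
    (Φ : ℕ → ℕ → G → ℝ≥0∞) (hΦ : ∀ a a' x, Φ a a' x ≤ 1)
    (H : ∀ j j', j ≤ i0 → j' ≤ i0 → ∀ μ : G → ℝ≥0∞, ∑' x, μ x ≤ 1 → (∀ x, μ x ≤ G0) →
      ∑' x, μ x * Φ (α₁ + j) (α₂ + j') x ≤ Hb) (σ : G → G ≃ G) :
    ∑' A', gg Λ₂ h₂ i0 α₂ A' * ∑' A, gg Λ₁ h₁ i0 α₁ A *
      Φ (HT h₁ A) (HT h₂ A') (σ (Dp z₂ A') (Dp z₁ A))
      ≤ β + ((i0 + 1 : ℕ) : ℝ≥0∞) * (((i0 + 1 : ℕ) : ℝ≥0∞) * Hb) := by
  set ρ : ℕ → G → ℝ≥0∞ := fun j y => min (pk Λ₁ h₁ z₁ α₁ (α₁ + j, y)) G0 with hρ
  have hin : ∀ A' : List B₂, ∑' A, gg Λ₁ h₁ i0 α₁ A *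
      Φ (HT h₁ A) (HT h₂ A') (σ (Dp z₂ A') (Dp z₁ A))
      ≤ β + ∑ j ∈ Finset.range (i0 + 1), ∑' y, ρ j y *
        Φ (α₁ + j) (HT h₂ A') (σ (Dp z₂ A') y) := by
    intro A'
    calc ∑' A, gg Λ₁ h₁ i0 α₁ A * Φ (HT h₁ A) (HT h₂ A') (σ (Dp z₂ A') (Dp z₁ A))
        = ∑' A, (if fp h₁ α₁ A then LW Λ₁ A else 0) * (fun k : ℕ × G =>
          (if α₁ ≤ k.1 ∧ k.1 ≤ α₁ + i0 then Φ k.1 (HT h₂ A') (σ (Dp z₂ A') k.2) else 0))
            (HT h₁ A, Dp z₁ A) := by
          refine tsum_congr fun A => ?_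
          unfold gg
          by_cases h : fp h₁ α₁ A
          · have := le_HT_of_fp h₁ h
            by_cases h' : HT h₁ A ≤ α₁ + i0
            · simp [h, h', this]
            · simp [h, h']
          · simp [h]
      _ = ∑' k : ℕ × G, pk Λ₁ h₁ z₁ α₁ k * (if α₁ ≤ k.1 ∧ k.1 ≤ α₁ + i0 then
            Φ k.1 (HT h₂ A') (σ (Dp z₂ A') k.2) else 0) :=
          push_pk Λ₁ h₁ z₁ α₁ (fun k : ℕ × G => (if α₁ ≤ k.1 ∧ k.1 ≤ α₁ + i0 then
            Φ k.1 (HT h₂ A') (σ (Dp z₂ A') k.2) else 0))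
      _ = ∑' h : ℕ, ∑' y : G, pk Λ₁ h₁ z₁ α₁ (h, y) * (if α₁ ≤ h ∧ h ≤ α₁ + i0 then
            Φ h (HT h₂ A') (σ (Dp z₂ A') y) else 0) := ENNReal.tsum_prod'
      _ = ∑ j ∈ Finset.range (i0 + 1), ∑' y : G, pk Λ₁ h₁ z₁ α₁ (α₁ + j, y) *
            Φ (α₁ + j) (HT h₂ A') (σ (Dp z₂ A') y) := by
          rw [tsum_eq_sum (s := (Finset.range (i0 + 1)).image (fun j => α₁ + j))]
          · rw [Finset.sum_image (fun a _ b _ hab => by simpa using hab)]
            refine Finset.sum_congr rfl fun j hj => tsum_congr fun y => ?_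
            have := Finset.mem_range.1 hj
            rw [if_pos (by omega)]
          · intro h hh
            rw [ENNReal.tsum_eq_zero.2]
            intro y
            rw [if_neg, mul_zero]
            rintro ⟨ha, hb⟩
            exact hh (Finset.mem_image.2 ⟨h - α₁, Finset.mem_range.2 (by omega), by omega⟩)
      _ ≤ ∑ j ∈ Finset.range (i0 + 1), ∑' y : G, (b j y + ρ j y *
            Φ (α₁ + j) (HT h₂ A') (σ (Dp z₂ A') y)) := by
          refine Finset.sum_le_sum fun j _ => ENNReal.tsum_le_tsum fun y => ?_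
          have h0 := hb j y
          have h1 : pk Λ₁ h₁ z₁ α₁ (α₁ + j, y) ≤ b j y + ρ j y := by
            simp only [hρ]
            rcases le_total (pk Λ₁ h₁ z₁ α₁ (α₁ + j, y)) G0 with h | h
            · rw [min_eq_left h]; exact le_add_self
            · rw [min_eq_right h, add_comm (b j y)]; exact h0
          calc _ ≤ (b j y + ρ j y) * Φ (α₁ + j) (HT h₂ A') (σ (Dp z₂ A') y) :=
                mul_le_mul_left h1 _
            _ = b j y * Φ (α₁ + j) (HT h₂ A') (σ (Dp z₂ A') y)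
                + ρ j y * Φ (α₁ + j) (HT h₂ A') (σ (Dp z₂ A') y) := add_mul _ _ _
            _ ≤ b j y * 1 + ρ j y * Φ (α₁ + j) (HT h₂ A') (σ (Dp z₂ A') y) := by
                gcongr; exact hΦ _ _ _
            _ = _ := by rw [mul_one]
      _ = (∑ j ∈ Finset.range (i0 + 1), ∑' y : G, b j y) + ∑ j ∈ Finset.range (i0 + 1),
            ∑' y : G, ρ j y * Φ (α₁ + j) (HT h₂ A') (σ (Dp z₂ A') y) := by
          rw [← Finset.sum_add_distrib]
          exact Finset.sum_congr rfl fun j _ => ENNReal.tsum_add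
      _ ≤ _ := by
          gcongr
          exact (ENNReal.sum_le_tsum _).trans hβ
  have hmass := gg_sum Λ₂ h₂ h21 hΛ₂ i0 α₂
  calc ∑' A', gg Λ₂ h₂ i0 α₂ A' * ∑' A, gg Λ₁ h₁ i0 α₁ A *
        Φ (HT h₁ A) (HT h₂ A') (σ (Dp z₂ A') (Dp z₁ A))
      ≤ ∑' A', (gg Λ₂ h₂ i0 α₂ A' * β + ∑ j ∈ Finset.range (i0 + 1),
          ∑ j' ∈ Finset.range (i0 + 1), (if HT h₂ A' = α₂ + j' then gg Λ₂ h₂ i0 α₂ A' else 0) *
          ∑' y, ρ j y * Φ (α₁ + j) (α₂ + j') (σ (Dp z₂ A') y)) := by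
        refine ENNReal.tsum_le_tsum fun A' => ?_
        refine (mul_le_mul_right (hin A') _).trans ?_
        rw [mul_add]
        gcongr
        rw [Finset.mul_sum]
        refine Finset.sum_le_sum fun j _ => ?_
        by_cases hA : fp h₂ α₂ A' ∧ HT h₂ A' ≤ α₂ + i0
        · have hle := le_HT_of_fp h₂ hA.1
          have hmem : HT h₂ A' - α₂ ∈ Finset.range (i0 + 1) := Finset.mem_range.2 (by omega)
          refine le_trans ?_ (Finset.single_le_sum (f := fun j' =>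
            (if HT h₂ A' = α₂ + j' then gg Λ₂ h₂ i0 α₂ A' else 0) *
            ∑' y, ρ j y * Φ (α₁ + j) (α₂ + j') (σ (Dp z₂ A') y)) (fun _ _ => zero_le) hmem)
          have hh : α₂ + (HT h₂ A' - α₂) = HT h₂ A' := by omega
          simp only [hh, if_true]
          exact le_rfl
        · rw [gg, if_neg hA, zero_mul]; exact zero_le
    _ = (∑' A', gg Λ₂ h₂ i0 α₂ A') * β + ∑ j ∈ Finset.range (i0 + 1),
          ∑ j' ∈ Finset.range (i0 + 1), ∑' A', (if HT h₂ A' = α₂ + j' then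
          gg Λ₂ h₂ i0 α₂ A' else 0) *
          ∑' y, ρ j y * Φ (α₁ + j) (α₂ + j') (σ (Dp z₂ A') y) := by
        rw [ENNReal.tsum_add, ENNReal.tsum_mul_right]
        congr 1
        rw [Summable.tsum_finsetSum (fun _ _ => ENNReal.summable)]
        refine Finset.sum_congr rfl fun j _ => ?_
        rw [Summable.tsum_finsetSum (fun _ _ => ENNReal.summable)]
    _ ≤ 1 * β + ∑ j ∈ Finset.range (i0 + 1), ∑ j' ∈ Finset.range (i0 + 1), Hb := by
        refine add_le_add (mul_le_mul_left hmass _) ?_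
        refine Finset.sum_le_sum fun j hj => Finset.sum_le_sum fun j' hj' => ?_
        have h1 := Finset.mem_range.1 hj
        have h2 := Finset.mem_range.1 hj'
        refine smooth (fun A' => if HT h₂ A' = α₂ + j' then gg Λ₂ h₂ i0 α₂ A' else 0) ?_
          (fun A' => σ (Dp z₂ A')) (ρ j) ?_ G0 (fun y => min_le_right _ _)
          (Φ (α₁ + j) (α₂ + j')) Hb (H j j' (by omega) (by omega))
        · refine le_trans (ENNReal.tsum_le_tsum fun A' => ?_) hmass
          by_cases h : HT h₂ A' = α₂ + j' <;> simp [h]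
        · exact (ENNReal.tsum_le_tsum fun y => min_le_left _ _).trans
            (pk_sum_row Λ₁ h₁ z₁ h11 hΛ₁ α₁ _)
    _ = _ := by
        rw [Finset.sum_const, Finset.sum_const, Finset.card_range, one_mul, nsmul_eq_mul,
          nsmul_eq_mul]

end Two

end Crest.Agent.R154.Asm95
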