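import Crest.Agent.R154.AsmT_950
import Crest.Agent.R154.AsmA_789

/-! Row 154 (helper950), ROAD 801: one window. -/

set_option autoImplicit false

namespace Crest.Agent.R154.Asm950

open scoped ENNReal
open Crest.Agent.R154.B5A
open Crest.Agent.R154.FP178

section Law

variable {G : Type*} [AddCommGroup G]

open Classical in
/-- average over the two prefixes -/
noncomputable def LAW (m m' : ℕ → G → ℝ≥0∞) (w : G) (a0 b0 i0 : ℕ) (Ψ : ℕ → ℕ → G → ℝ≥0∞) : ℝ≥0∞ :=
  ∑' α, ∑' z, m α z * ∑' α', ∑' z', m' α' z' *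
    (if (a0 ≤ α ∧ α ≤ a0 + i0) ∧ (b0 ≤ α' ∧ α' ≤ b0 + i0) then Ψ α α' (w + z' - z) else 0)

variable (m m' : ℕ → G → ℝ≥0∞) (w : G) (a0 b0 i0 : ℕ)

lemma LAW_mono {Ψ Ψ' : ℕ → ℕ → G → ℝ≥0∞} (h : ∀ α α' x, Ψ α α' x ≤ Ψ' α α' x) :
    LAW m m' w a0 b0 i0 Ψ ≤ LAW m m' w a0 b0 i0 Ψ' := by
  classical
  refine ENNReal.tsum_le_tsum fun α => ENNReal.tsum_le_tsum fun z => mul_le_mul_right ?_ _
  refine ENNReal.tsum_le_tsum fun α' => ENNReal.tsum_le_tsum fun z' => mul_le_mul_right ?_ _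
  split_ifs
  · exact h _ _ _
  · exact le_rfl

lemma LAW_add (Ψ Ψ' : ℕ → ℕ → G → ℝ≥0∞) :
    LAW m m' w a0 b0 i0 (fun α α' x => Ψ α α' x + Ψ' α α' x)
      = LAW m m' w a0 b0 i0 Ψ + LAW m m' w a0 b0 i0 Ψ' := by
  classical
  simp only [LAW]
  rw [← ENNReal.tsum_add]
  refine tsum_congr fun α => ?_
  rw [← ENNReal.tsum_add]
  refine tsum_congr fun z => ?_
  rw [← mul_add, ← ENNReal.tsum_add]
  congr 1
  refine tsum_congr fun α' => ?_
  rw [← ENNReal.tsum_add]
  refine tsum_congr fun z' => ?_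
  rw [← mul_add]
  split_ifs <;> simp

lemma LAW_const (hm : ∑' α, ∑' z, m α z ≤ 1) (hm' : ∑' α, ∑' z, m' α z ≤ 1) (c : ℝ≥0∞) :
    LAW m m' w a0 b0 i0 (fun _ _ _ => c) ≤ c := by
  classical
  calc LAW m m' w a0 b0 i0 (fun _ _ _ => c) ≤ ∑' α, ∑' z, m α z * c := by
        refine ENNReal.tsum_le_tsum fun α => ENNReal.tsum_le_tsum fun z => mul_le_mul_right ?_ _
        calc _ ≤ ∑' α', ∑' z', m' α' z' * c := by
              refine ENNReal.tsum_le_tsum fun α' => ENNReal.tsum_le_tsum fun z' =>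
                mul_le_mul_right ?_ _
              split_ifs
              · exact le_rfl
              · exact zero_le
          _ = (∑' α', ∑' z', m' α' z') * c := by simp_rw [ENNReal.tsum_mul_right]
          _ ≤ 1 * c := mul_le_mul_left hm' _
          _ = c := one_mul _
    _ = (∑' α, ∑' z, m α z) * c := by simp_rw [ENNReal.tsum_mul_right]
    _ ≤ 1 * c := mul_le_mul_left hm _
    _ = c := one_mul _

lemma tsum2_le (F : ℕ → ℕ → ℝ≥0∞) (a b i : ℕ) (c : ℝ≥0∞)
    (h0 : ∀ α α', ¬ ((a ≤ α ∧ α ≤ a + i) ∧ (b ≤ α' ∧ α' ≤ b + i)) → F α α' = 0)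
    (hc : ∀ α α', F α α' ≤ c) :
    ∑' α, ∑' α', F α α' ≤ ((i : ℝ≥0∞) + 1) ^ 2 * c := by
  calc ∑' α, ∑' α', F α α' ≤ ((i : ℝ≥0∞) + 1) * (((i : ℝ≥0∞) + 1) * c) := by
        refine tsum_Icc_le _ a i _ ?_ ?_
        · intro α h
          rw [ENNReal.tsum_eq_zero]
          exact fun α' => h0 α α' (fun h' => h h'.1)
        · intro α
          exact tsum_Icc_le _ b i _ (fun α' h => h0 α α' (fun h' => h h'.2)) (hc α)
    _ = _ := by ring

/-- density carried by `m` -/
theorem law_left (hm : ∑' α, ∑' z, m α z ≤ 1) (hm' : ∑' α, ∑' z, m' α z ≤ 1)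
    (g b : ℕ → G → ℝ≥0∞) (M bad c : ℝ≥0∞) (hgb : ∀ α z, m α z ≤ g α z + b α z)
    (hg : ∀ α z, g α z ≤ M) (hb : ∑' α, ∑' z, b α z ≤ bad) (Ψ : ℕ → ℕ → G → ℝ≥0∞)
    (hΨ1 : ∀ α α' x, Ψ α α' x ≤ 1)
    (hΨ : ∀ α α', a0 ≤ α → α ≤ a0 + i0 → b0 ≤ α' → α' ≤ b0 + i0 → ∀ μ : G → ℝ≥0∞,
      ∑' x, μ x ≤ 1 → (∀ x, μ x ≤ M) → ∑' x, μ x * Ψ α α' x ≤ c) :
    LAW m m' w a0 b0 i0 Ψ ≤ bad + ((i0 : ℝ≥0∞) + 1) ^ 2 * c := by
  classical
  set g' : ℕ → G → ℝ≥0∞ := fun α z => min (g α z) (m α z) with hg'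
  have h1 : ∀ α z, m α z ≤ b α z + g' α z := by
    intro α z
    rcases le_total (g α z) (m α z) with h | h
    · simp only [hg', min_eq_left h]; rw [add_comm]; exact hgb α z
    · simp only [hg', min_eq_right h]; exact le_add_self
  have hzm : ∀ α', ∑' z', m' α' z' ≤ 1 := fun α' =>
    le_trans (ENNReal.le_tsum (f := fun α => ∑' z, m' α z) α') hm'
  have hzg : ∀ α, ∑' z, g' α z ≤ 1 := fun α =>
    le_trans (ENNReal.tsum_le_tsum fun z => min_le_right _ _)
      (le_trans (ENNReal.le_tsum (f := fun α => ∑' z, m α z) α) hm)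
  have hsplit : LAW m m' w a0 b0 i0 Ψ ≤ LAW b m' w a0 b0 i0 Ψ + LAW g' m' w a0 b0 i0 Ψ := by
    simp only [LAW]
    rw [← ENNReal.tsum_add]
    refine ENNReal.tsum_le_tsum fun α => ?_
    rw [← ENNReal.tsum_add]
    refine ENNReal.tsum_le_tsum fun z => ?_
    rw [← add_mul]
    exact mul_le_mul_left (h1 α z) _
  refine le_trans hsplit (add_le_add ?_ ?_)
  · -- bad part
    calc LAW b m' w a0 b0 i0 Ψ ≤ ∑' α, ∑' z, b α z * 1 := by
          refine ENNReal.tsum_le_tsum fun α => ENNReal.tsum_le_tsum fun z => mul_le_mul_right ?_ _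
          calc _ ≤ ∑' α', ∑' z', m' α' z' := by
                refine ENNReal.tsum_le_tsum fun α' => ENNReal.tsum_le_tsum fun z' => ?_
                calc m' α' z' * _ ≤ m' α' z' * 1 := by
                      refine mul_le_mul_right ?_ _
                      split_ifs
                      · exact hΨ1 _ _ _
                      · exact zero_le
                  _ = _ := mul_one _
            _ ≤ 1 := hm'
      _ ≤ bad := by simpa using hb
  · have e : LAW g' m' w a0 b0 i0 Ψ = ∑' α, ∑' α', (if (a0 ≤ α ∧ α ≤ a0 + i0) ∧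
        (b0 ≤ α' ∧ α' ≤ b0 + i0) then
          ∑' x, (∑' z', m' α' z' * g' α (w + z' - x)) * Ψ α α' x else 0) := by
      simp only [LAW]
      refine tsum_congr fun α => ?_
      have e1 : ∀ z, g' α z * ∑' α', ∑' z', m' α' z' *
          (if (a0 ≤ α ∧ α ≤ a0 + i0) ∧ (b0 ≤ α' ∧ α' ≤ b0 + i0) then Ψ α α' (w + z' - z) else 0)
          = ∑' α', (if (a0 ≤ α ∧ α ≤ a0 + i0) ∧ (b0 ≤ α' ∧ α' ≤ b0 + i0) then
            ∑' z', m' α' z' * (g' α z * Ψ α α' (w + z' - z)) else 0) := by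
        intro z
        rw [← ENNReal.tsum_mul_left]
        refine tsum_congr fun α' => ?_
        by_cases h : (a0 ≤ α ∧ α ≤ a0 + i0) ∧ (b0 ≤ α' ∧ α' ≤ b0 + i0)
        · simp only [if_pos h]
          rw [← ENNReal.tsum_mul_left]
          refine tsum_congr fun z' => ?_
          ring
        · simp only [if_neg h, mul_zero, tsum_zero]
      simp_rw [e1]
      rw [ENNReal.tsum_comm]
      refine tsum_congr fun α' => ?_
      by_cases h : (a0 ≤ α ∧ α ≤ a0 + i0) ∧ (b0 ≤ α' ∧ α' ≤ b0 + i0)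
      · simp only [if_pos h]
        rw [ENNReal.tsum_comm]
        calc ∑' z', ∑' z, m' α' z' * (g' α z * Ψ α α' (w + z' - z))
            = ∑' z', ∑' x, m' α' z' * (g' α (w + z' - x) * Ψ α α' x) := by
              refine tsum_congr fun z' => ?_
              rw [← shiftG' (fun z => m' α' z' * (g' α z * Ψ α α' (w + z' - z))) (w + z')]
              refine tsum_congr fun x => ?_
              rw [show w + z' - (w + z' - x) = x by abel]
          _ = ∑' x, ∑' z', m' α' z' * (g' α (w + z' - x) * Ψ α α' x) := ENNReal.tsum_comm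
          _ = _ := by
              refine tsum_congr fun x => ?_
              rw [← ENNReal.tsum_mul_right]
              refine tsum_congr fun z' => ?_
              ring
      · simp only [if_neg h, tsum_zero]
    rw [e]
    refine tsum2_le _ a0 b0 i0 c (fun α α' h => by rw [if_neg h]) ?_
    intro α α'
    by_cases h : (a0 ≤ α ∧ α ≤ a0 + i0) ∧ (b0 ≤ α' ∧ α' ≤ b0 + i0)
    · rw [if_pos h]
      refine hΨ α α' h.1.1 h.1.2 h.2.1 h.2.2 _ ?_ ?_
      · rw [ENNReal.tsum_comm]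
        calc ∑' z', ∑' x, m' α' z' * g' α (w + z' - x) = ∑' z', m' α' z' * ∑' z, g' α z := by
              refine tsum_congr fun z' => ?_
              rw [ENNReal.tsum_mul_left, shiftG' (fun z => g' α z) (w + z')]
          _ ≤ ∑' z', m' α' z' * 1 := ENNReal.tsum_le_tsum fun z' => mul_le_mul_right (hzg α) _
          _ ≤ 1 := by simpa using hzm α'
      · intro x
        calc ∑' z', m' α' z' * g' α (w + z' - x) ≤ ∑' z', m' α' z' * M :=
              ENNReal.tsum_le_tsum fun z' => mul_le_mul_right (le_trans (min_le_left _ _) (hg _ _)) _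
          _ = (∑' z', m' α' z') * M := ENNReal.tsum_mul_right
          _ ≤ 1 * M := mul_le_mul_left (hzm α') _
          _ = M := one_mul _
    · rw [if_neg h]; exact zero_le

/-- density carried by `m'` -/
theorem law_right (hm : ∑' α, ∑' z, m α z ≤ 1) (hm' : ∑' α, ∑' z, m' α z ≤ 1)
    (g b : ℕ → G → ℝ≥0∞) (M bad c : ℝ≥0∞) (hgb : ∀ α z, m' α z ≤ g α z + b α z)
    (hg : ∀ α z, g α z ≤ M) (hb : ∑' α, ∑' z, b α z ≤ bad) (Ψ : ℕ → ℕ → G → ℝ≥0∞)
    (hΨ1 : ∀ α α' x, Ψ α α' x ≤ 1)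
    (hΨ : ∀ α α', a0 ≤ α → α ≤ a0 + i0 → b0 ≤ α' → α' ≤ b0 + i0 → ∀ μ : G → ℝ≥0∞,
      ∑' x, μ x ≤ 1 → (∀ x, μ x ≤ M) → ∑' x, μ x * Ψ α α' x ≤ c) :
    LAW m m' w a0 b0 i0 Ψ ≤ bad + ((i0 : ℝ≥0∞) + 1) ^ 2 * c := by
  classical
  set g' : ℕ → G → ℝ≥0∞ := fun α z => min (g α z) (m' α z) with hg'
  have h1 : ∀ α z, m' α z ≤ b α z + g' α z := by
    intro α z
    rcases le_total (g α z) (m' α z) with h | h
    · simp only [hg', min_eq_left h]; rw [add_comm]; exact hgb α z
    · simp only [hg', min_eq_right h]; exact le_add_self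
  have hzm : ∀ α', ∑' z', m α' z' ≤ 1 := fun α' =>
    le_trans (ENNReal.le_tsum (f := fun α => ∑' z, m α z) α') hm
  have hzg : ∀ α, ∑' z, g' α z ≤ 1 := fun α =>
    le_trans (ENNReal.tsum_le_tsum fun z => min_le_right _ _)
      (le_trans (ENNReal.le_tsum (f := fun α => ∑' z, m' α z) α) hm')
  have hsplit : LAW m m' w a0 b0 i0 Ψ ≤ LAW m b w a0 b0 i0 Ψ + LAW m g' w a0 b0 i0 Ψ := by
    simp only [LAW]
    rw [← ENNReal.tsum_add]
    refine ENNReal.tsum_le_tsum fun α => ?_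
    rw [← ENNReal.tsum_add]
    refine ENNReal.tsum_le_tsum fun z => ?_
    rw [← mul_add, ← ENNReal.tsum_add]
    refine mul_le_mul_right (ENNReal.tsum_le_tsum fun α' => ?_) _
    rw [← ENNReal.tsum_add]
    refine ENNReal.tsum_le_tsum fun z' => ?_
    rw [← add_mul]
    exact mul_le_mul_left (h1 α' z') _
  refine le_trans hsplit (add_le_add ?_ ?_)
  · calc LAW m b w a0 b0 i0 Ψ ≤ ∑' α, ∑' z, m α z * bad := by
          refine ENNReal.tsum_le_tsum fun α => ENNReal.tsum_le_tsum fun z => mul_le_mul_right ?_ _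
          calc _ ≤ ∑' α', ∑' z', b α' z' := by
                refine ENNReal.tsum_le_tsum fun α' => ENNReal.tsum_le_tsum fun z' => ?_
                calc b α' z' * _ ≤ b α' z' * 1 := by
                      refine mul_le_mul_right ?_ _
                      split_ifs
                      · exact hΨ1 _ _ _
                      · exact zero_le
                  _ = _ := mul_one _
            _ ≤ bad := hb
      _ = (∑' α, ∑' z, m α z) * bad := by simp_rw [ENNReal.tsum_mul_right]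
      _ ≤ 1 * bad := mul_le_mul_left hm _
      _ = bad := one_mul _
  · have e : LAW m g' w a0 b0 i0 Ψ = ∑' α, ∑' α', (if (a0 ≤ α ∧ α ≤ a0 + i0) ∧
        (b0 ≤ α' ∧ α' ≤ b0 + i0) then
          ∑' x, (∑' z, m α z * g' α' (x - (w - z))) * Ψ α α' x else 0) := by
      simp only [LAW]
      refine tsum_congr fun α => ?_
      have e1 : ∀ z, m α z * ∑' α', ∑' z', g' α' z' *
          (if (a0 ≤ α ∧ α ≤ a0 + i0) ∧ (b0 ≤ α' ∧ α' ≤ b0 + i0) then Ψ α α' (w + z' - z) else 0)
          = ∑' α', (if (a0 ≤ α ∧ α ≤ a0 + i0) ∧ (b0 ≤ α' ∧ α' ≤ b0 + i0) then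
            ∑' z', m α z * (g' α' z' * Ψ α α' (w + z' - z)) else 0) := by
        intro z
        rw [← ENNReal.tsum_mul_left]
        refine tsum_congr fun α' => ?_
        by_cases h : (a0 ≤ α ∧ α ≤ a0 + i0) ∧ (b0 ≤ α' ∧ α' ≤ b0 + i0)
        · simp only [if_pos h]
          rw [← ENNReal.tsum_mul_left]
        · simp only [if_neg h, mul_zero, tsum_zero]
      simp_rw [e1]
      rw [ENNReal.tsum_comm]
      refine tsum_congr fun α' => ?_
      by_cases h : (a0 ≤ α ∧ α ≤ a0 + i0) ∧ (b0 ≤ α' ∧ α' ≤ b0 + i0)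
      · simp only [if_pos h]
        calc ∑' z, ∑' z', m α z * (g' α' z' * Ψ α α' (w + z' - z))
            = ∑' z, ∑' x, m α z * (g' α' (x - (w - z)) * Ψ α α' x) := by
              refine tsum_congr fun z => ?_
              rw [← shiftG (fun z' => m α z * (g' α' z' * Ψ α α' (w + z' - z))) (w - z)]
              refine tsum_congr fun x => ?_
              rw [show w + (x - (w - z)) - z = x by abel]
          _ = ∑' x, ∑' z, m α z * (g' α' (x - (w - z)) * Ψ α α' x) := ENNReal.tsum_comm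
          _ = _ := by
              refine tsum_congr fun x => ?_
              rw [← ENNReal.tsum_mul_right]
              refine tsum_congr fun z => ?_
              ring
      · simp only [if_neg h, tsum_zero]
    rw [e]
    refine tsum2_le _ a0 b0 i0 c (fun α α' h => by rw [if_neg h]) ?_
    intro α α'
    by_cases h : (a0 ≤ α ∧ α ≤ a0 + i0) ∧ (b0 ≤ α' ∧ α' ≤ b0 + i0)
    · rw [if_pos h]
      refine hΨ α α' h.1.1 h.1.2 h.2.1 h.2.2 _ ?_ ?_
      · rw [ENNReal.tsum_comm]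
        calc ∑' z, ∑' x, m α z * g' α' (x - (w - z)) = ∑' z, m α z * ∑' z', g' α' z' := by
              refine tsum_congr fun z => ?_
              rw [ENNReal.tsum_mul_left, shiftG (fun z => g' α' z) (w - z)]
          _ ≤ ∑' z', m α z' * 1 := ENNReal.tsum_le_tsum fun z' => mul_le_mul_right (hzg α') _
          _ ≤ 1 := by simpa using hzm α
      · intro x
        calc ∑' z, m α z * g' α' (x - (w - z)) ≤ ∑' z', m α z' * M :=
              ENNReal.tsum_le_tsum fun z' => mul_le_mul_right (le_trans (min_le_left _ _) (hg _ _)) _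
          _ = (∑' z', m α z') * M := ENNReal.tsum_mul_right
          _ ≤ 1 * M := mul_le_mul_left (hzm α) _
          _ = M := one_mul _
    · rw [if_neg h]; exact zero_le

end Law

end Crest.Agent.R154.Asm950
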