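import Crest.Agent.R154.AsmFP_543

/-! Row 154, ROAD 801, abstract assembly, part 2 (helper543): one window. -/

set_option autoImplicit false

namespace Crest.Agent.R154.Asm543

open Crest.Agent.R154.B5A Filter Topology
open scoped ENNReal

/-- indicator -/
noncomputable def I (p : Prop) : ℝ≥0∞ := by classical exact if p then 1 else 0

lemma I_pos {p : Prop} (h : p) : I p = 1 := by unfold I; exact if_pos h
lemma I_neg {p : Prop} (h : ¬ p) : I p = 0 := by unfold I; exact if_neg h
lemma I_le_one (p : Prop) : I p ≤ 1 := by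
  by_cases h : p
  · rw [I_pos h]
  · rw [I_neg h]; exact zero_le
lemma I_mono {p q : Prop} (h : p → q) : I p ≤ I q := by
  by_cases hp : p
  · rw [I_pos (h hp)]; exact I_le_one p
  · rw [I_neg hp]; exact zero_le

/-- sites of a list placed with its top at `(x, a)` -/
def TS {B G : Type*} [Add G] (h : B → ℕ) (z : B → G) (s : B → Set (G × ℕ)) :
    List B → G → ℕ → Set (G × ℕ)
  | [], _, _ => ∅
  | b :: L, x, a => (fun p : G × ℕ => (x + p.1, a + p.2)) '' s b ∪ TS h z s L (x + z b) (a + h b)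

variable {B G : Type*} [AddCommGroup G] (h : B → ℕ) (z : B → G) (s : B → Set (G × ℕ))

lemma TS_append (L L' : List B) (x : G) (a : ℕ) :
    TS h z s (L ++ L') x a = TS h z s L x a ∪ TS h z s L' (x + Dp z L) (a + HT h L) := by
  induction L generalizing x a with
  | nil => simp [TS, Dp, HT]
  | cons b L ih =>
    simp only [List.cons_append, TS, ih, HT_cons, Dp, List.map_cons, List.sum_cons, Set.union_assoc,
      add_assoc]

lemma TS_depth (hs : ∀ b p, p ∈ s b → 1 ≤ p.2 ∧ p.2 ≤ h b) (L : List B) (x : G) (a : ℕ)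
    (p : G × ℕ) (hp : p ∈ TS h z s L x a) : a + 1 ≤ p.2 ∧ p.2 ≤ a + HT h L := by
  induction L generalizing x a with
  | nil => simp [TS] at hp
  | cons b L ih =>
    rw [HT_cons]
    rcases hp with ⟨q, hq, rfl⟩ | hp
    · have := hs b q hq; simp only; omega
    · have := ih _ _ hp; omega

lemma TS_shift (L : List B) (y x : G) (a : ℕ) (v : G) (k : ℕ) :
    (v, k) ∈ TS h z s L (y + x) a ↔ (v - y, k) ∈ TS h z s L x a := by
  induction L generalizing x a with
  | nil => simp [TS]
  | cons b L ih =>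
    simp only [TS, Set.mem_union, Set.mem_image, add_assoc, ih]
    refine or_congr ⟨?_, ?_⟩ Iff.rfl
    · rintro ⟨q, hq, he⟩
      refine ⟨q, hq, ?_⟩
      rw [Prod.mk.injEq] at he ⊢
      exact ⟨by rw [← he.1]; abel, he.2⟩
    · rintro ⟨q, hq, he⟩
      refine ⟨q, hq, ?_⟩
      rw [Prod.mk.injEq] at he ⊢
      exact ⟨by rw [he.1]; abel, he.2⟩

/-! ### cutting one walker -/

section cut
variable (Λ : B → ℝ≥0∞) (ht : B → ℕ)

lemma cut1 (h1 : ∀ b, 1 ≤ ht b) (hΛ : ∑' b, Λ b = 1) (i0 a n : ℕ) (han : a ≤ n)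
    (Φ : List B → ℝ≥0∞) (hΦ : ∀ L, Φ L ≤ 1) :
    ∑' L, I (HT ht L = n) * LW Λ L * Φ L ≤ ep Λ ht i0 +
      ∑' A, I (FP ht A a ∧ HT ht A ≤ a + i0) * LW Λ A *
        ∑' R, I (HT ht R = n - HT ht A) * LW Λ R * Φ (A ++ R) := by
  classical
  have e1 : ∑' L, I (HT ht L = n) * LW Λ L * Φ L
      = ∑' A, (if FP ht A a then ∑' R, I (HT ht (A ++ R) = n) * LW Λ (A ++ R) * Φ (A ++ R) else 0) := by
    rw [← FP_split ht h1 a (fun L => I (HT ht L = n) * LW Λ L * Φ L)]
    refine tsum_congr fun L => ?_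
    by_cases hL : a ≤ HT ht L
    · rw [if_pos hL]
    · rw [if_neg hL, I_neg (by omega), zero_mul, zero_mul]
  have hU : ∀ m, ∑' R, I (HT ht R = m) * LW Λ R ≤ 1 := by
    intro m
    refine le_trans (le_of_eq ?_) (U_le_one Λ ht h1 hΛ m)
    rw [U]
    refine tsum_congr fun L => ?_
    by_cases hh : HT ht L = m
    · rw [I_pos hh, if_pos hh, one_mul]
    · rw [I_neg hh, if_neg hh, zero_mul]
  rw [e1]
  refine le_trans ?_ (add_le_add_left (FP_over Λ ht h1 hΛ i0 a) _)
  rw [← ENNReal.tsum_add]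
  refine ENNReal.tsum_le_tsum fun A => ?_
  by_cases hA : FP ht A a
  · rw [if_pos hA]
    by_cases hA2 : HT ht A ≤ a + i0
    · refine le_add_left ?_
      rw [I_pos ⟨hA, hA2⟩, one_mul, ← ENNReal.tsum_mul_left]
      refine ENNReal.tsum_le_tsum fun R => ?_
      rw [LW_append, HT_append]
      by_cases hR : HT ht A + HT ht R = n
      · rw [I_pos hR, I_pos (by omega)]
        exact le_of_eq (by ring)
      · rw [I_neg hR]; simp
    · refine le_add_right ?_
      rw [if_pos ⟨hA, by omega⟩]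
      calc ∑' R, I (HT ht (A ++ R) = n) * LW Λ (A ++ R) * Φ (A ++ R)
          ≤ ∑' R, LW Λ A * (I (HT ht R = n - HT ht A) * LW Λ R) := by
            refine ENNReal.tsum_le_tsum fun R => ?_
            rw [LW_append, HT_append]
            by_cases hR : HT ht A + HT ht R = n
            · rw [I_pos hR, I_pos (by omega), one_mul, one_mul]
              calc LW Λ A * LW Λ R * Φ (A ++ R) ≤ LW Λ A * LW Λ R * 1 :=
                    mul_le_mul_right (hΦ _) _
                _ = _ := mul_one _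
            · rw [I_neg hR]; simp
        _ ≤ LW Λ A * 1 := by
            rw [ENNReal.tsum_mul_left]; exact mul_le_mul_right (hU _) _
        _ = _ := mul_one _
  · rw [if_neg hA]; exact zero_le

lemma cut2 (h1 : ∀ b, 1 ≤ ht b) (hΛ : ∑' b, Λ b = 1) (i0 a T n : ℕ) (han : a + i0 + T ≤ n)
    (Φ : List B → ℝ≥0∞) (hΦ : ∀ L, Φ L ≤ 1) (Φ2 : List B → List B → ℝ≥0∞)
    (hΦ2 : ∀ A P R, FP ht A a → HT ht A ≤ a + i0 → FP ht P T → HT ht P ≤ T + i0 →
      Φ (A ++ (P ++ R)) ≤ Φ2 A P) :
    ∑' L, I (HT ht L = n) * LW Λ L * Φ L ≤ 2 * ep Λ ht i0 +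
      ∑' A, I (FP ht A a ∧ HT ht A ≤ a + i0) * LW Λ A *
        ∑' P, I (FP ht P T ∧ HT ht P ≤ T + i0) * LW Λ P * Φ2 A P := by
  classical
  have hU : ∀ m, ∑' R, I (HT ht R = m) * LW Λ R ≤ 1 := by
    intro m
    refine le_trans (le_of_eq ?_) (U_le_one Λ ht h1 hΛ m)
    rw [U]
    refine tsum_congr fun L => ?_
    by_cases hh : HT ht L = m
    · rw [I_pos hh, if_pos hh, one_mul]
    · rw [I_neg hh, if_neg hh, zero_mul]
  have hA1 : ∑' A, I (FP ht A a ∧ HT ht A ≤ a + i0) * LW Λ A ≤ 1 := by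
    rw [← FP_mass Λ ht h1 hΛ a]
    refine ENNReal.tsum_le_tsum fun A => ?_
    by_cases hA : FP ht A a
    · rw [if_pos hA]
      calc _ ≤ 1 * LW Λ A := mul_le_mul_left (I_le_one _) _
        _ = _ := one_mul _
    · rw [I_neg (fun hh => hA hh.1), zero_mul]; exact zero_le
  refine (cut1 Λ ht h1 hΛ i0 a n (by omega) Φ hΦ).trans ?_
  rw [two_mul, add_assoc]
  refine add_le_add le_rfl ?_
  calc ∑' A, I (FP ht A a ∧ HT ht A ≤ a + i0) * LW Λ A *
        ∑' R, I (HT ht R = n - HT ht A) * LW Λ R * Φ (A ++ R)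
      ≤ ∑' A, (I (FP ht A a ∧ HT ht A ≤ a + i0) * LW Λ A * ep Λ ht i0 +
        I (FP ht A a ∧ HT ht A ≤ a + i0) * LW Λ A *
        ∑' P, I (FP ht P T ∧ HT ht P ≤ T + i0) * LW Λ P * Φ2 A P) := by
        refine ENNReal.tsum_le_tsum fun A => ?_
        by_cases hA : FP ht A a ∧ HT ht A ≤ a + i0
        · rw [← mul_add]
          refine mul_le_mul_right ?_ _
          refine (cut1 Λ ht h1 hΛ i0 T (n - HT ht A) (by omega) (fun L => Φ (A ++ L))
            (fun L => hΦ _)).trans ?_
          refine add_le_add le_rfl (ENNReal.tsum_le_tsum fun P => ?_)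
          by_cases hP : FP ht P T ∧ HT ht P ≤ T + i0
          · refine mul_le_mul_right ?_ _
            calc ∑' R, I (HT ht R = n - HT ht A - HT ht P) * LW Λ R * Φ (A ++ (P ++ R))
                ≤ ∑' R, I (HT ht R = n - HT ht A - HT ht P) * LW Λ R * Φ2 A P :=
                  ENNReal.tsum_le_tsum fun R =>
                    mul_le_mul_right (hΦ2 A P R hA.1 hA.2 hP.1 hP.2) _
              _ ≤ 1 * Φ2 A P := by
                  rw [ENNReal.tsum_mul_right]; exact mul_le_mul_left (hU _) _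
              _ = _ := one_mul _
          · rw [I_neg hP]; simp
        · rw [I_neg hA]; simp
    _ ≤ _ := by
        rw [ENNReal.tsum_add, ENNReal.tsum_mul_right]
        refine add_le_add ?_ le_rfl
        calc _ ≤ 1 * ep Λ ht i0 := mul_le_mul_left hA1 _
          _ = _ := one_mul _

end cut

/-! ### the tie -/

lemma tsum_I_range (i0 : ℕ) (f : ℕ → ℝ≥0∞) (W : ℝ≥0∞) (hf : ∀ j, f j ≤ if j ≤ i0 then W else 0) :
    ∑' j, f j ≤ (i0 + 1 : ℕ) * W := by
  calc ∑' j, f j ≤ ∑' j, (if j ≤ i0 then W else 0) := ENNReal.tsum_le_tsum hf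
    _ = ∑ j ∈ Finset.range (i0 + 1), (if j ≤ i0 then W else 0) := by
        refine tsum_eq_sum fun j hj => ?_
        rw [if_neg (fun hh => hj (Finset.mem_range.2 (by omega)))]
    _ = ∑ j ∈ Finset.range (i0 + 1), W :=
        Finset.sum_congr rfl fun j hj => if_pos (by have := Finset.mem_range.1 hj; omega)
    _ = _ := by simp

lemma tie (i0 : ℕ) (F F' : ℕ → G → ℝ≥0∞) (K : ℕ → ℕ → G → ℝ≥0∞) (e : G → (G ≃ G))
    (D β W : ℝ≥0∞) (b : ℕ → G → ℝ≥0∞) (hb : ∑' j, ∑' x, b j x ≤ β)
    (hF : ∑' j, ∑' x, F j x ≤ 1) (hF' : ∑' j, ∑' x, F' j x ≤ 1)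
    (hFb : ∀ j x, F j x ≤ D + b j x) (hK1 : ∀ j j' x, K j j' x ≤ 1)
    (hK0 : ∀ j j' x, ¬ (j ≤ i0 ∧ j' ≤ i0) → K j j' x = 0)
    (hK : ∀ j j', j ≤ i0 → j' ≤ i0 → ∀ μ : G → ℝ≥0∞, ∑' x, μ x ≤ 1 → (∀ x, μ x ≤ D) →
      ∑' x, μ x * K j j' x ≤ W) :
    ∑' j, ∑' y, F j y * ∑' j', ∑' y', F' j' y' * K j j' (e y' y)
      ≤ β + (i0 + 1 : ℕ) * ((i0 + 1 : ℕ) * W) := by
  have hmin : ∀ j y, F j y ≤ b j y + min (F j y) D := by
    intro j y
    rcases le_total (F j y) D with hh | hh
    · rw [min_eq_left hh]; exact le_add_self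
    · rw [min_eq_right hh, add_comm]; exact hFb j y
  have hin : ∀ j y, ∑' j', ∑' y', F' j' y' * K j j' (e y' y) ≤ 1 := by
    intro j y
    refine le_trans (ENNReal.tsum_le_tsum fun j' => ENNReal.tsum_le_tsum fun y' => ?_) hF'
    calc F' j' y' * K j j' (e y' y) ≤ F' j' y' * 1 := mul_le_mul_right (hK1 _ _ _) _
      _ = _ := mul_one _
  calc ∑' j, ∑' y, F j y * ∑' j', ∑' y', F' j' y' * K j j' (e y' y)
      ≤ ∑' j, ∑' y, (b j y + min (F j y) D * ∑' j', ∑' y', F' j' y' * K j j' (e y' y)) := by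
        refine ENNReal.tsum_le_tsum fun j => ENNReal.tsum_le_tsum fun y => ?_
        refine (mul_le_mul_left (hmin j y) _).trans ?_
        rw [add_mul]
        refine add_le_add ?_ le_rfl
        calc _ ≤ b j y * 1 := mul_le_mul_right (hin j y) _
          _ = _ := mul_one _
    _ = (∑' j, ∑' y, b j y) + ∑' j, ∑' y, min (F j y) D *
          ∑' j', ∑' y', F' j' y' * K j j' (e y' y) := by
        simp_rw [ENNReal.tsum_add]
    _ ≤ β + (i0 + 1 : ℕ) * ((i0 + 1 : ℕ) * W) := by
        refine add_le_add hb ?_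
        refine tsum_I_range i0 _ _ fun j => ?_
        have hsw : ∑' y, min (F j y) D * ∑' j', ∑' y', F' j' y' * K j j' (e y' y)
            = ∑' j', ∑' x, (∑' y', F' j' y' * min (F j ((e y').symm x)) D) * K j j' x := by
          simp only [← ENNReal.tsum_mul_left, ← ENNReal.tsum_mul_right]
          rw [ENNReal.tsum_comm]
          refine tsum_congr fun j' => ?_
          rw [ENNReal.tsum_comm]
          rw [ENNReal.tsum_comm (f := fun x y' => F' j' y' * min (F j ((e y').symm x)) D * K j j' x)]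
          refine tsum_congr fun y' => ?_
          rw [← (e y').tsum_eq (fun x => F' j' y' * min (F j ((e y').symm x)) D * K j j' x)]
          refine tsum_congr fun y => ?_
          rw [Equiv.symm_apply_apply]
          ring
        rw [hsw]
        by_cases hj : j ≤ i0
        · rw [if_pos hj]
          refine tsum_I_range i0 _ _ fun j' => ?_
          by_cases hj' : j' ≤ i0
          · rw [if_pos hj']
            have hFj' : ∑' y', F' j' y' ≤ 1 :=
              le_trans (ENNReal.le_tsum (f := fun j => ∑' x, F' j x) j') hF'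
            have hFj : ∑' y, F j y ≤ 1 := le_trans (ENNReal.le_tsum (f := fun j => ∑' x, F j x) j) hF
            refine hK j j' hj hj' _ ?_ ?_
            · rw [ENNReal.tsum_comm]
              calc ∑' y', ∑' x, F' j' y' * min (F j ((e y').symm x)) D
                  ≤ ∑' y', F' j' y' * 1 := by
                    refine ENNReal.tsum_le_tsum fun y' => ?_
                    rw [ENNReal.tsum_mul_left]
                    refine mul_le_mul_right ?_ _
                    calc ∑' x, min (F j ((e y').symm x)) D ≤ ∑' x, F j ((e y').symm x) :=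
                          ENNReal.tsum_le_tsum fun x => min_le_left _ _
                      _ = ∑' y, F j y := (e y').symm.tsum_eq (fun y => F j y)
                      _ ≤ 1 := hFj
                _ ≤ 1 := by simpa using hFj'
            · intro x
              calc ∑' y', F' j' y' * min (F j ((e y').symm x)) D ≤ ∑' y', F' j' y' * D :=
                    ENNReal.tsum_le_tsum fun y' => mul_le_mul_right (min_le_right _ _) _
                _ ≤ 1 * D := by rw [ENNReal.tsum_mul_right]; exact mul_le_mul_left hFj' _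
                _ = D := one_mul _
          · rw [if_neg hj']
            refine le_of_eq (ENNReal.tsum_eq_zero.2 fun x => ?_)
            rw [hK0 j j' x (fun hh => hj' hh.2), mul_zero]
        · rw [if_neg hj]
          refine le_of_eq (ENNReal.tsum_eq_zero.2 fun j' => ENNReal.tsum_eq_zero.2 fun x => ?_)
          rw [hK0 j j' x (fun hh => hj hh.1), mul_zero]

end Crest.Agent.R154.Asm543
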