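import Crest.Agent.R154.AsmFP_933

/-! Row 154, road 801: one window (helper933). -/

set_option autoImplicit false
set_option linter.unusedSectionVars false
set_option linter.unusedVariables false

namespace Crest.Agent.R154.FP933

open Crest.Agent.R154.B5A
open scoped ENNReal

section single

variable {B : Type*} (Λ : B → ℝ≥0∞) (ht : B → ℕ)

lemma FPS_le_list (h1 : ∀ b, 1 ≤ ht b) (a : ℕ) : ∀ (F : List B → ℝ≥0∞),
    FPS Λ ht a F ≤ ∑' L, LW Λ L * F L := by
  induction a using Nat.strong_induction_on with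
  | _ a ih =>
    intro F
    rcases a with _ | a
    · rw [FPS_zero, tsum_list, LW_nil, one_mul]; exact le_self_add
    · rw [FPS_succ Λ ht h1, tsum_list]
      refine le_trans ?_ le_add_self
      refine ENNReal.tsum_le_tsum fun b => ?_
      refine (mul_le_mul_right (ih (a + 1 - ht b) (by have := h1 b; omega)
        (fun T => F (b :: T))) _).trans ?_
      rw [← ENNReal.tsum_mul_left]
      refine ENNReal.tsum_le_tsum fun L => ?_
      rw [LW_cons, mul_assoc]

/-- top part, piece, rest -/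
lemma split2 (h1 : ∀ b, 1 ≤ ht b) (hΛ : ∑' b, Λ b = 1) (hU1 : ∀ n, U Λ ht n ≤ 1)
    (A s i0 n : ℕ) (hn : A + i0 + s ≤ n) (ov : ℝ≥0∞) (hov : ∑' j, tail Λ ht (i0 + j) ≤ ov)
    (F : List B → ℝ≥0∞) (hF : ∀ L, F L ≤ 1) (g : List B → List B → ℝ≥0∞)
    (hg : ∀ T P R, A ≤ HT ht T → HT ht T ≤ A + i0 → s ≤ HT ht P → HT ht P ≤ s + i0 →
      F (T ++ (P ++ R)) ≤ g T P) :
    (∑' L, if HT ht L = n then LW Λ L * F L else 0) ≤
      FPS Λ ht A (fun T => FPS Λ ht s (fun P =>
        if HT ht T ≤ A + i0 ∧ HT ht P ≤ s + i0 then g T P else 0)) + 2 * ov := by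
  have hU : ∀ (m : ℕ) (T : List B) (f : List B → ℝ≥0∞) (c : ℝ≥0∞), (∀ R, f R ≤ c) →
      (∑' R, if HT ht T + HT ht R = m then LW Λ R * f R else 0) ≤ c := by
    intro m T f c hf
    calc _ ≤ ∑' R, (if HT ht R = m - HT ht T then LW Λ R else 0) * c := by
          refine ENNReal.tsum_le_tsum fun R => ?_
          by_cases h : HT ht T + HT ht R = m
          · rw [if_pos h, if_pos (by omega)]; exact mul_le_mul_right (hf R) _
          · rw [if_neg h]; exact zero_le
      _ = U Λ ht (m - HT ht T) * c := by rw [ENNReal.tsum_mul_right]; rfl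
      _ ≤ c := (mul_le_mul_left (hU1 _) c).trans (one_mul c).le
  refine (split Λ ht h1 A n (by omega) F).trans ?_
  have key : ∀ T, A ≤ HT ht T →
      (∑' R, if HT ht T + HT ht R = n then LW Λ R * F (T ++ R) else 0) ≤
      (if A + i0 < HT ht T then 1 else 0) + (FPS Λ ht s (fun P =>
        if HT ht T ≤ A + i0 ∧ HT ht P ≤ s + i0 then g T P else 0) + ov) := by
    intro T hT
    by_cases hc : A + i0 < HT ht T
    · rw [if_pos hc]
      exact (hU n T _ 1 (fun R => hF _)).trans le_self_add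
    · rw [if_neg hc, zero_add]
      calc (∑' R, if HT ht T + HT ht R = n then LW Λ R * F (T ++ R) else 0)
          ≤ ∑' R, if HT ht R = n - HT ht T then LW Λ R * F (T ++ R) else 0 := by
            refine ENNReal.tsum_le_tsum fun R => ?_
            by_cases h : HT ht T + HT ht R = n
            · rw [if_pos h, if_pos (by omega)]
            · rw [if_neg h]; exact zero_le
        _ ≤ FPS Λ ht s (fun P => ∑' R, if HT ht P + HT ht R = n - HT ht T then
              LW Λ R * F (T ++ (P ++ R)) else 0) :=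
            split Λ ht h1 s _ (by omega) (fun R => F (T ++ R))
        _ ≤ FPS Λ ht s (fun P => (if HT ht T ≤ A + i0 ∧ HT ht P ≤ s + i0 then g T P else 0)
              + (if s + i0 < HT ht P then 1 else 0)) := by
            refine FPS_mono' Λ ht h1 s fun P hP => ?_
            by_cases hp : s + i0 < HT ht P
            · rw [if_pos hp]
              exact (hU _ P _ 1 (fun R => hF _)).trans le_add_self
            · rw [if_neg hp, add_zero, if_pos ⟨by omega, by omega⟩]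
              exact hU _ P _ _ (fun R => hg T P R hT (by omega) hP (by omega))
        _ = FPS Λ ht s (fun P => if HT ht T ≤ A + i0 ∧ HT ht P ≤ s + i0 then g T P else 0)
              + FPS Λ ht s (fun P => if s + i0 < HT ht P then 1 else 0) := FPS_add Λ ht h1 s _ _
        _ ≤ _ := add_le_add le_rfl ((FPS_over Λ ht h1 hU1 s i0).trans hov)
  refine (FPS_mono' Λ ht h1 A key).trans ?_
  rw [FPS_add Λ ht h1, FPS_add Λ ht h1, FPS_const Λ ht h1 hΛ]
  calc _ ≤ ov + (FPS Λ ht A (fun T => FPS Λ ht s (fun P =>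
        if HT ht T ≤ A + i0 ∧ HT ht P ≤ s + i0 then g T P else 0)) + ov) :=
        add_le_add ((FPS_over Λ ht h1 hU1 A i0).trans hov) le_rfl
    _ = _ := by ring

variable {G : Type*} [AddCommGroup G] (zz : B → G)

/-- smooth part and rough part of a first passage -/
lemma loc (h1 : ∀ b, 1 ≤ ht b) (A i0 : ℕ) (Ag Bb : ℕ × G → ℝ≥0∞)
    (hAB : ∀ x, Pl Λ ht zz A x ≤ Ag x + Bb x) (Φ : ℕ × G → ℝ≥0∞) (hΦ1 : ∀ x, Φ x ≤ 1)
    (hΦ0 : ∀ x : ℕ × G, i0 < x.1 → Φ x = 0) (c : ℝ≥0∞)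
    (hΦ : ∀ j, j ≤ i0 → ∑' z : G, min (Pl Λ ht zz A (j, z)) (Ag (j, z)) * Φ (j, z) ≤ c) :
    FPS Λ ht A (fun T => Φ (HT ht T - A, Dp zz T)) ≤ (i0 + 1) * c + ∑' x, Bb x := by
  rw [FPS_law Λ ht zz h1]
  calc ∑' x, Pl Λ ht zz A x * Φ x
      ≤ ∑' x : ℕ × G, (min (Pl Λ ht zz A x) (Ag x) * Φ x + Bb x) := by
        refine ENNReal.tsum_le_tsum fun x => ?_
        rcases le_total (Pl Λ ht zz A x) (Ag x) with h | h
        · rw [min_eq_left h]; exact le_self_add
        · rw [min_eq_right h]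
          calc Pl Λ ht zz A x * Φ x ≤ (Ag x + Bb x) * Φ x := mul_le_mul_left (hAB x) _
            _ = Ag x * Φ x + Bb x * Φ x := by ring
            _ ≤ Ag x * Φ x + Bb x * 1 := by gcongr; exact hΦ1 x
            _ = _ := by rw [mul_one]
    _ = ∑' x : ℕ × G, (min (Pl Λ ht zz A x) (Ag x) * Φ x) + ∑' x, Bb x := ENNReal.tsum_add
    _ ≤ _ := by
        refine add_le_add ?_ le_rfl
        rw [ENNReal.tsum_prod (f := fun j z => min (Pl Λ ht zz A (j, z)) (Ag (j, z)) * Φ (j, z))]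
        rw [tsum_eq_sum (s := Finset.range (i0 + 1))]
        · calc _ ≤ ∑ j ∈ Finset.range (i0 + 1), c :=
                Finset.sum_le_sum fun j hj => hΦ j (by have := Finset.mem_range.1 hj; omega)
            _ = (i0 + 1) * c := by simp
        · intro j hj
          rw [ENNReal.tsum_eq_zero]
          intro z
          rw [hΦ0 (j, z) (by simpa using hj), mul_zero]

end single

section pair

variable {BX BY : Type*} (ΛX : BX → ℝ≥0∞) (ΛY : BY → ℝ≥0∞) (hX : BX → ℕ) (hY : BY → ℕ)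

lemma FPS_comm (h1X : ∀ b, 1 ≤ hX b) (h1Y : ∀ b, 1 ≤ hY b) (a a' : ℕ) :
    ∀ (F : List BX → List BY → ℝ≥0∞),
    FPS ΛX hX a (fun T => FPS ΛY hY a' (fun T' => F T T'))
      = FPS ΛY hY a' (fun T' => FPS ΛX hX a (fun T => F T T')) := by
  induction a using Nat.strong_induction_on with
  | _ a ih =>
    intro F
    rcases a with _ | a
    · simp only [FPS_zero]
    · simp only [FPS_succ ΛX hX h1X]
      rw [FPS_tsum ΛY hY h1Y]
      refine tsum_congr fun b => ?_
      rw [FPS_const_mul ΛY hY h1Y, ih _ (by have := h1X b; omega) (fun T T' => F (b :: T) T')]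

open Classical in
/-- two pieces, the heights fixed -/
lemma dbl (h1X : ∀ b, 1 ≤ hX b) (h1Y : ∀ b, 1 ≤ hY b) (s1 s2 i0 : ℕ)
    (R : List BX → List BY → Prop) :
    FPS ΛX hX s1 (fun P => FPS ΛY hY s2 (fun P' =>
      if HT hX P ≤ s1 + i0 ∧ HT hY P' ≤ s2 + i0 ∧ R P P' then 1 else 0)) ≤
    ∑ i ∈ Finset.range (i0 + 1), ∑ i' ∈ Finset.range (i0 + 1), ∑' L, ∑' L',
      (if HT hX L = s1 + i ∧ HT hY L' = s2 + i' ∧ R L L' then LW ΛX L * LW ΛY L' else 0) := by
  have e : ∀ (P : List BX) (P' : List BY), s1 ≤ HT hX P → s2 ≤ HT hY P' →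
      (if HT hX P ≤ s1 + i0 ∧ HT hY P' ≤ s2 + i0 ∧ R P P' then (1 : ℝ≥0∞) else 0) ≤
      ∑ i ∈ Finset.range (i0 + 1), ∑ i' ∈ Finset.range (i0 + 1),
        (if HT hX P = s1 + i ∧ HT hY P' = s2 + i' ∧ R P P' then 1 else 0) := by
    intro P P' h2 h3
    by_cases h : HT hX P ≤ s1 + i0 ∧ HT hY P' ≤ s2 + i0 ∧ R P P'
    · rw [if_pos h]
      refine le_trans ?_ (Finset.single_le_sum (fun _ _ => zero_le)
        (Finset.mem_range.2 (show HT hX P - s1 < i0 + 1 by omega)))
      refine le_trans ?_ (Finset.single_le_sum (fun _ _ => zero_le)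
        (Finset.mem_range.2 (show HT hY P' - s2 < i0 + 1 by omega)))
      rw [if_pos ⟨by omega, by omega, h.2.2⟩]
    · rw [if_neg h]; exact zero_le
  calc _ ≤ FPS ΛX hX s1 (fun P => FPS ΛY hY s2 (fun P' =>
        ∑ i ∈ Finset.range (i0 + 1), ∑ i' ∈ Finset.range (i0 + 1),
        (if HT hX P = s1 + i ∧ HT hY P' = s2 + i' ∧ R P P' then (1 : ℝ≥0∞) else 0))) :=
        FPS_mono' ΛX hX h1X s1 fun P hP => FPS_mono' ΛY hY h1Y s2 fun P' hP' => e P P' hP hP'
    _ ≤ ∑' P, LW ΛX P * ∑' P', LW ΛY P' *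
        ∑ i ∈ Finset.range (i0 + 1), ∑ i' ∈ Finset.range (i0 + 1),
        (if HT hX P = s1 + i ∧ HT hY P' = s2 + i' ∧ R P P' then (1 : ℝ≥0∞) else 0) := by
        refine (FPS_le_list ΛX hX h1X s1 _).trans (ENNReal.tsum_le_tsum fun P => ?_)
        exact mul_le_mul_right (FPS_le_list ΛY hY h1Y s2 _) _
    _ = ∑' P, ∑' P', ∑ i ∈ Finset.range (i0 + 1), ∑ i' ∈ Finset.range (i0 + 1),
        (if HT hX P = s1 + i ∧ HT hY P' = s2 + i' ∧ R P P' then LW ΛX P * LW ΛY P' else 0) := by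
        refine tsum_congr fun P => ?_
        rw [← ENNReal.tsum_mul_left]
        refine tsum_congr fun P' => ?_
        rw [← mul_assoc, Finset.mul_sum]
        refine Finset.sum_congr rfl fun i _ => ?_
        rw [Finset.mul_sum]
        refine Finset.sum_congr rfl fun i' _ => ?_
        split_ifs <;> simp
    _ = _ := by
        simp_rw [Summable.tsum_finsetSum (fun _ _ => ENNReal.summable)]

variable {G : Type*} [AddCommGroup G] (zX : BX → G) (zY : BY → G)

/-- trace of a list -/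
structure Tr {B : Type*} (ht : B → ℕ) (zz : B → G) (TX : List B → G → ℕ → Set (G × ℕ)) :
    Prop where
  app : ∀ L L' x a, TX (L ++ L') x a = TX L x a ∪ TX L' (x + Dp zz L) (a + HT ht L)
  dep : ∀ L x a p, p ∈ TX L x a → a < p.2 ∧ p.2 ≤ a + HT ht L
  sh : ∀ L x v a z k, (z, k) ∈ TX L (x + v) a ↔ (z - v, k) ∈ TX L x a

variable (TX : List BX → G → ℕ → Set (G × ℕ)) (TY : List BY → G → ℕ → Set (G × ℕ))

/-- contact at depth `k` -/
def Ct (L : List BX) (a : ℕ) (L' : List BY) (x : G) (a' k : ℕ) : Prop :=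
  ∃ z, (z, k) ∈ TX L 0 a ∧ (z, k) ∈ TY L' x a'

lemma ct_dep (tX : Tr hX zX TX) (tY : Tr hY zY TY) {L : List BX} {a : ℕ} {L' : List BY} {x : G}
    {a' k : ℕ} (h : Ct TX TY L a L' x a' k) :
    a < k ∧ k ≤ a + HT hX L ∧ a' < k ∧ k ≤ a' + HT hY L' := by
  obtain ⟨z, h2, h3⟩ := h
  have := tX.dep _ _ _ _ h2
  have := tY.dep _ _ _ _ h3
  simp only at *
  omega

lemma ct_sub (tX : Tr hX zX TX) (tY : Tr hY zY TY) {T P R : List BX} {T' P' R' : List BY}
    {w : G} {k : ℕ} (h : Ct TX TY P (HT hX T) P' (w + Dp zY T' - Dp zX T) (HT hY T') k) :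
    Ct TX TY (T ++ (P ++ R)) 0 (T' ++ (P' ++ R')) w 0 k := by
  obtain ⟨z, h2, h3⟩ := h
  refine ⟨z + Dp zX T, ?_, ?_⟩
  · rw [tX.app, tX.app]
    refine Or.inr (Or.inl ?_)
    rw [tX.sh, zero_add, add_sub_cancel_right]; exact h2
  · rw [tY.app, tY.app]
    refine Or.inr (Or.inl ?_)
    have := (tY.sh P' (w + Dp zY T' - Dp zX T) (Dp zX T) (HT hY T') (z + Dp zX T) k).2
      (by rw [add_sub_cancel_right]; exact h3)
    rwa [sub_add_cancel, ← zero_add (HT hY T')] at this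

lemma ct_mid (tX : Tr hX zX TX) (tY : Tr hY zY TY) {T P R : List BX} {T' P' R' : List BY}
    {w : G} {k : ℕ} (h : Ct TX TY (T ++ (P ++ R)) 0 (T' ++ (P' ++ R')) w 0 k)
    (k1 : HT hX T < k) (k2 : k ≤ HT hX T + HT hX P) (k3 : HT hY T' < k)
    (k4 : k ≤ HT hY T' + HT hY P') :
    Ct TX TY P (HT hX T) P' (w + Dp zY T' - Dp zX T) (HT hY T') k := by
  obtain ⟨z, h2, h3⟩ := h
  rw [tX.app, tX.app] at h2
  rw [tY.app, tY.app] at h3
  refine ⟨z - Dp zX T, ?_, ?_⟩
  · rcases h2 with h2 | h2 | h2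
    · have := tX.dep _ _ _ _ h2; simp only at this; omega
    · rw [tX.sh, zero_add] at h2; exact h2
    · have := tX.dep _ _ _ _ h2; simp only at this; omega
  · rcases h3 with h3 | h3 | h3
    · have := tY.dep _ _ _ _ h3; simp only at this; omega
    · have e : w + Dp zY T' = (w + Dp zY T' - Dp zX T) + Dp zX T := by abel
      rw [e, tY.sh, zero_add] at h3; exact h3
    · have := tY.dep _ _ _ _ h3; simp only at this; omega

end pair

end Crest.Agent.R154.FP933
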