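import Crest.Agent.R154.AsmW_181

/-! Row 154, ROAD 801 (helper181): one window with different cut levels for X and Y. -/

set_option autoImplicit false
set_option linter.unusedVariables false
set_option linter.unusedSectionVars false

namespace Crest.Agent.R154.AsmX181

open Crest.Agent.R154.B5A Crest.Agent.R154.Ren396 Crest.Agent.R154.AsmW181
open Crest.Agent.R154.BW55 (TR)
open scoped ENNReal

section two

variable {BX BY : Type*} (ΛX : BX → ℝ≥0∞) (ΛY : BY → ℝ≥0∞) (hX : BX → ℕ) (hY : BY → ℕ)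
  {G : Type*} [AddCommGroup G] (zX : BX → G) (zY : BY → G)
  (sX : BX → Set (G × ℕ)) (sY : BY → Set (G × ℕ))

lemma evF_ev (hsX : ∀ b q, q ∈ sX b → 1 ≤ q.2 ∧ q.2 ≤ hX b)
    (hsY : ∀ b q, q ∈ sY b → 1 ≤ q.2 ∧ q.2 ≤ hY b) (w : G) (P Q R : List BX) (P' Q' R' : List BY)
    (AX TX AY TY i0 lo hi sl : ℕ) (hlo : AX + i0 < lo) (hlo' : AY + i0 < lo) (hhi : hi ≤ AX + TX) (hhi' : hi ≤ AY + TY) (hsl : AX + TX + 2 * i0 ≤ hi + sl)
    (p1 : AX ≤ HT hX P) (p2 : HT hX P ≤ AX + i0) (q1 : TX ≤ HT hX Q) (q2 : HT hX Q ≤ TX + i0)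
    (p1' : AY ≤ HT hY P') (p2' : HT hY P' ≤ AY + i0) (q1' : TY ≤ HT hY Q') (q2' : HT hY Q' ≤ TY + i0)
    (h : evF hX hY zX zY sX sY lo hi sl w (P ++ (Q ++ R)) (P' ++ (Q' ++ R'))) :
    ev hX hY zX zY sX sY lo hi (w + dp zY P' - dp zX P) (HT hX P) (HT hY P') Q Q' := by
  obtain ⟨h1, ⟨k, hk, hk2⟩, h3⟩ := h
  have hk1 := h1 k hk
  refine ⟨⟨k, cc_mid hX hY zX zY sX sY hsX hsY w P Q R P' Q' R' k hk (by omega) (by omega)
    (by omega) (by omega)⟩, fun j hj => ?_⟩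
  have hj2 := cc_sub hX hY zX zY sX sY w P Q R P' Q' R' j hj
  refine ⟨h1 j hj2, ?_⟩
  have h4 := h3 j hj2
  obtain ⟨y, h5, _⟩ := hj
  have := TR_range sX hX zX hsX _ _ _ _ _ h5
  omega


open Classical in
/-- the cutting of both lists -/
lemma cut_both (hU1X : ∀ n, U ΛX hX n ≤ 1) (hΛX : ∑' b, ΛX b ≤ 1) (h1X : ∀ b, 1 ≤ hX b)
    (hU1Y : ∀ n, U ΛY hY n ≤ 1) (hΛY : ∑' b, ΛY b ≤ 1) (h1Y : ∀ b, 1 ≤ hY b)
    (hsX : ∀ b q, q ∈ sX b → 1 ≤ q.2 ∧ q.2 ≤ hX b)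
    (hsY : ∀ b q, q ∈ sY b → 1 ≤ q.2 ∧ q.2 ≤ hY b) (w : G)
    (AX TX AY TY i0 lo hi sl n : ℕ) (hlo : AX + i0 < lo) (hlo' : AY + i0 < lo) (hhi : hi ≤ AX + TX) (hhi' : hi ≤ AY + TY)
    (hsl : AX + TX + 2 * i0 ≤ hi + sl) (hn : AX + TX + 2 * i0 ≤ n) (hn' : AY + TY + 2 * i0 ≤ n) :
    ∑' LX : List BX, ∑' LY : List BY, (if HT hX LX = n ∧ HT hY LY = n ∧
      evF hX hY zX zY sX sY lo hi sl w LX LY then LW ΛX LX * LW ΛY LY else 0) ≤
      2 * TS ΛX hX (i0 + 1) + 2 * TS ΛY hY (i0 + 1) +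
      ∑' P, fr ΛX hX AX i0 P * ∑' Q, fr ΛX hX TX i0 Q * ∑' P', fr ΛY hY AY i0 P' *
        ∑' Q', fr ΛY hY TY i0 Q' *
          iev hX hY zX zY sX sY lo hi (w + dp zY P' - dp zX P) (HT hX P) (HT hY P') Q Q' := by
  set F : List BX → ℝ≥0∞ := fun LX => ∑' LY : List BY, (if HT hY LY = n then LW ΛY LY *
    (if evF hX hY zX zY sX sY lo hi sl w LX LY then 1 else 0) else 0) with hF
  have hF1 : ∀ LX, F LX ≤ 1 := by
    intro LX
    refine le_trans (ENNReal.tsum_le_tsum fun LY => ?_) (hU1Y n)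
    split_ifs <;> simp
  calc ∑' LX : List BX, ∑' LY : List BY, (if HT hX LX = n ∧ HT hY LY = n ∧
        evF hX hY zX zY sX sY lo hi sl w LX LY then LW ΛX LX * LW ΛY LY else 0)
      = ∑' LX : List BX, (if HT hX LX = n then LW ΛX LX * F LX else 0) := by
        refine tsum_congr fun LX => ?_
        by_cases h : HT hX LX = n
        · rw [if_pos h, hF, ← ENNReal.tsum_mul_left]
          refine tsum_congr fun LY => ?_
          by_cases h2 : HT hY LY = n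
          · by_cases h3 : evF hX hY zX zY sX sY lo hi sl w LX LY
            · simp [h, h2, h3]
            · simp [h3]
          · simp [h2]
        · simp [h]
    _ ≤ 2 * TS ΛX hX (i0 + 1) + ∑' P, fr ΛX hX AX i0 P * ∑' Q, fr ΛX hX TX i0 Q *
          ∑' R : List BX, (if HT hX (P ++ (Q ++ R)) = n then LW ΛX R * F (P ++ (Q ++ R)) else 0) :=
        cut2 ΛX hX hU1X hΛX h1X AX TX i0 n hn F hF1
    _ ≤ 2 * TS ΛX hX (i0 + 1) + ∑' P, fr ΛX hX AX i0 P * ∑' Q, fr ΛX hX TX i0 Q *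
          (2 * TS ΛY hY (i0 + 1) + ∑' P', fr ΛY hY AY i0 P' *
        ∑' Q', fr ΛY hY TY i0 Q' *
          iev hX hY zX zY sX sY lo hi (w + dp zY P' - dp zX P) (HT hX P) (HT hY P') Q Q') := by
        gcongr 2 * TS ΛX hX (i0 + 1) + ?_
        refine ENNReal.tsum_le_tsum fun P => ?_
        by_cases hP : fr ΛX hX AX i0 P = 0
        · rw [hP, zero_mul]; exact zero_le
        gcongr fr ΛX hX AX i0 P * ?_
        refine ENNReal.tsum_le_tsum fun Q => ?_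
        by_cases hQ : fr ΛX hX TX i0 Q = 0
        · rw [hQ, zero_mul]; exact zero_le
        gcongr fr ΛX hX TX i0 Q * ?_
        have hP2 := fr_ne ΛX hX hP
        have hQ2 := fr_ne ΛX hX hQ
        set Ξ : ℝ≥0∞ := 2 * TS ΛY hY (i0 + 1) + ∑' P', fr ΛY hY AY i0 P' *
          ∑' Q', fr ΛY hY TY i0 Q' *
          iev hX hY zX zY sX sY lo hi (w + dp zY P' - dp zX P) (HT hX P) (HT hY P') Q Q' with hΞ
        have hFR : ∀ R, F (P ++ (Q ++ R)) ≤ Ξ := by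
          intro R
          refine (cut2 ΛY hY hU1Y hΛY h1Y AY TY i0 n hn' (fun LY =>
            if evF hX hY zX zY sX sY lo hi sl w (P ++ (Q ++ R)) LY then 1 else 0)
            (fun L => by split_ifs <;> simp)).trans ?_
          rw [hΞ]
          gcongr 2 * TS ΛY hY (i0 + 1) + ?_
          refine ENNReal.tsum_le_tsum fun P' => ?_
          change fr ΛY hY AY i0 P' * _ ≤ _
          by_cases hP' : fr ΛY hY AY i0 P' = 0
          · rw [hP', zero_mul]; exact zero_le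
          gcongr fr ΛY hY AY i0 P' * ?_
          refine ENNReal.tsum_le_tsum fun Q' => ?_
          change fr ΛY hY TY i0 Q' * _ ≤ _
          by_cases hQ' : fr ΛY hY TY i0 Q' = 0
          · rw [hQ', zero_mul]; exact zero_le
          gcongr fr ΛY hY TY i0 Q' * ?_
          have hP2' := fr_ne ΛY hY hP'
          have hQ2' := fr_ne ΛY hY hQ'
          by_cases he : ev hX hY zX zY sX sY lo hi (w + dp zY P' - dp zX P) (HT hX P) (HT hY P')
              Q Q'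
          · rw [iev, if_pos he]
            refine le_trans (ENNReal.tsum_le_tsum fun R' => ?_) (hU1Y (n - HT hY P' - HT hY Q'))
            by_cases h3 : HT hY (P' ++ (Q' ++ R')) = n
            · have h4 : HT hY R' = n - HT hY P' - HT hY Q' := by
                rw [HT_append, HT_append] at h3; omega
              rw [if_pos h3, if_pos h4]
              split_ifs <;> simp
            · rw [if_neg h3]; exact zero_le
          · refine le_trans (le_of_eq ?_) zero_le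
            rw [ENNReal.tsum_eq_zero]
            intro R'
            rw [if_neg (c := evF hX hY zX zY sX sY lo hi sl w (P ++ (Q ++ R)) (P' ++ (Q' ++ R'))),
              mul_zero, ite_self]
            intro hE
            exact he (evF_ev hX hY zX zY sX sY hsX hsY w P Q R P' Q' R' AX TX AY TY i0 lo hi sl hlo hlo' hhi hhi' hsl
              hP2.1 hP2.2 hQ2.1 hQ2.2 hP2'.1 hP2'.2 hQ2'.1 hQ2'.2 hE)
        calc ∑' R : List BX, (if HT hX (P ++ (Q ++ R)) = n then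
              LW ΛX R * F (P ++ (Q ++ R)) else 0)
            ≤ ∑' R : List BX, (if HT hX R = n - HT hX P - HT hX Q then LW ΛX R else 0) * Ξ := by
              refine ENNReal.tsum_le_tsum fun R => ?_
              by_cases h3 : HT hX (P ++ (Q ++ R)) = n
              · rw [if_pos h3, if_pos (by rw [HT_append, HT_append] at h3; omega)]
                gcongr
                exact hFR R
              · rw [if_neg h3]; exact zero_le
          _ = U ΛX hX (n - HT hX P - HT hX Q) * Ξ := by rw [ENNReal.tsum_mul_right]; rfl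
          _ ≤ 1 * Ξ := by gcongr; exact hU1X _
          _ = Ξ := one_mul _
    _ ≤ _ := by
        rw [add_assoc]
        gcongr 2 * TS ΛX hX (i0 + 1) + ?_
        simp only [mul_add, ENNReal.tsum_add]
        gcongr
        simp only [ENNReal.tsum_mul_right]
        calc _ ≤ 1 * (1 * (2 * TS ΛY hY (i0 + 1))) := by
              gcongr
              · exact fr_mass ΛX hX hΛX h1X AX i0
              · exact fr_mass ΛX hX hΛX h1X TX i0
          _ = _ := by simp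


/-- law of the pair of tops -/
lemma law2 (AX AY i0 : ℕ) (Φ : ℕ → ℕ → G → ℝ≥0∞) :
    ∑' P, fr ΛX hX AX i0 P * ∑' P', fr ΛY hY AY i0 P' * Φ (HT hX P) (HT hY P') (dp zY P' - dp zX P)
      = ∑ a ∈ Finset.Icc AX (AX + i0), ∑ a' ∈ Finset.Icc AY (AY + i0),
          ∑' δ, Del ΛX ΛY hX hY zX zY AX AY a a' δ * Φ a a' δ := by
  classical
  have e1 : ∀ P, ∑' P', fr ΛY hY AY i0 P' * Φ (HT hX P) (HT hY P') (dp zY P' - dp zX P)
      = ∑ a' ∈ Finset.Icc AY (AY + i0), ∑' y, W ΛY hY zY AY a' y * Φ (HT hX P) a' (y - dp zX P) :=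
    fun P => law1 ΛY hY zY AY i0 (fun a' y => Φ (HT hX P) a' (y - dp zX P))
  simp only [e1]
  have e2 := law1 ΛX hX zX AX i0 (fun a x =>
    ∑ a' ∈ Finset.Icc AY (AY + i0), ∑' y, W ΛY hY zY AY a' y * Φ a a' (y - x))
  refine (Eq.trans ?_ e2).trans ?_
  · rfl
  refine Finset.sum_congr rfl fun a _ => ?_
  simp only [Finset.mul_sum]
  rw [Summable.tsum_finsetSum (fun _ _ => ENNReal.summable)]
  refine Finset.sum_congr rfl fun a' _ => ?_
  simp only [Del, ← ENNReal.tsum_mul_right, ← ENNReal.tsum_mul_left]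
  rw [ENNReal.tsum_comm]
  rw [ENNReal.tsum_comm (f := fun δ x => W ΛX hX zX AX a x * W ΛY hY zY AY a' (x + δ) * Φ a a' δ)]
  rw [ENNReal.tsum_comm]
  refine tsum_congr fun x => ?_
  rw [← (Equiv.addLeft x).tsum_eq (fun y => W ΛX hX zX AX a x *
    (W ΛY hY zY AY a' y * Φ a a' (y - x)))]
  refine tsum_congr fun δ => ?_
  simp only [Equiv.coe_addLeft, add_sub_cancel_left, mul_assoc]

/-- bound through the density split -/
lemma law2_le (AX AY i0 : ℕ) (Φ : ℕ → ℕ → G → ℝ≥0∞) (hΦ : ∀ a a' δ, Φ a a' δ ≤ 1) (M q R : ℝ≥0∞)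
    (hD : ∃ Dg Db : ℕ → ℕ → G → ℝ≥0∞,
      (∀ c d δ, Del ΛX ΛY hX hY zX zY AX AY c d δ ≤ Dg c d δ + Db c d δ) ∧
      (∀ c d δ, Dg c d δ ≤ M) ∧ ∑' c, ∑' d, ∑' δ, Db c d δ ≤ q)
    (hR : ∀ a ∈ Finset.Icc AX (AX + i0), ∀ a' ∈ Finset.Icc AY (AY + i0),
      ∑' δ, min (Del ΛX ΛY hX hY zX zY AX AY a a' δ) M * Φ a a' δ ≤ R) :
    ∑' P, fr ΛX hX AX i0 P * ∑' P', fr ΛY hY AY i0 P' * Φ (HT hX P) (HT hY P') (dp zY P' - dp zX P)
      ≤ q + ((i0 : ℝ≥0∞) + 1) ^ 2 * R := by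
  obtain ⟨Dg, Db, h1, h2, h3⟩ := hD
  rw [law2]
  calc ∑ a ∈ Finset.Icc AX (AX + i0), ∑ a' ∈ Finset.Icc AY (AY + i0),
          ∑' δ, Del ΛX ΛY hX hY zX zY AX AY a a' δ * Φ a a' δ
      ≤ ∑ a ∈ Finset.Icc AX (AX + i0), ∑ a' ∈ Finset.Icc AY (AY + i0),
          (∑' δ, Db a a' δ + R) := by
        refine Finset.sum_le_sum fun a ha => Finset.sum_le_sum fun a' ha' => ?_
        refine le_trans ?_ (add_le_add_right (hR a ha a' ha') _)
        rw [← ENNReal.tsum_add]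
        refine ENNReal.tsum_le_tsum fun δ => ?_
        have hm : Del ΛX ΛY hX hY zX zY AX AY a a' δ
            ≤ Db a a' δ + min (Del ΛX ΛY hX hY zX zY AX AY a a' δ) M := by
          rcases le_total (Del ΛX ΛY hX hY zX zY AX AY a a' δ) M with h | h
          · rw [min_eq_left h]; exact le_add_self
          · rw [min_eq_right h]
            refine (h1 a a' δ).trans ?_
            rw [add_comm]
            gcongr
            exact h2 a a' δ
        calc _ ≤ (Db a a' δ + min (Del ΛX ΛY hX hY zX zY AX AY a a' δ) M) * Φ a a' δ := by gcongr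
          _ = Db a a' δ * Φ a a' δ + min (Del ΛX ΛY hX hY zX zY AX AY a a' δ) M * Φ a a' δ :=
            add_mul _ _ _
          _ ≤ Db a a' δ * 1 + min (Del ΛX ΛY hX hY zX zY AX AY a a' δ) M * Φ a a' δ := by
            gcongr; exact hΦ _ _ _
          _ = _ := by rw [mul_one]
    _ = ∑ a ∈ Finset.Icc AX (AX + i0), ∑ a' ∈ Finset.Icc AY (AY + i0), ∑' δ, Db a a' δ
          + ((i0 : ℝ≥0∞) + 1) ^ 2 * R := by
        simp only [Finset.sum_add_distrib, Finset.sum_const, nsmul_eq_mul, Nat.card_Icc]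
        congr 1
        have e1 : AX + i0 + 1 - AX = i0 + 1 := by omega
        have e2 : AY + i0 + 1 - AY = i0 + 1 := by omega
        rw [e1, e2]
        push_cast
        ring
    _ ≤ _ := by
        gcongr
        refine le_trans ?_ h3
        refine le_trans ?_ (ENNReal.sum_le_tsum (Finset.Icc AX (AX + i0)))
        refine Finset.sum_le_sum fun a _ => ENNReal.sum_le_tsum _


open Classical in
/-- sum over two pieces by heights -/
lemma pieces_le (TX TY i0 : ℕ) (pX : ℕ → G → Prop) (pY : ℕ → G → Prop)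
    (I : List BX → List BY → ℝ≥0∞) (hI : ∀ L L', I L L' ≤ 1) (J : List BX → List BY → Prop)
    (hIJ : ∀ L L', ¬ J L L' → I L L' = 0) :
    ∑' Q, fr ΛX hX TX i0 Q * ∑' Q', fr ΛY hY TY i0 Q' *
        (ind (pX (HT hX Q) (dp zX Q)) * ind (pY (HT hY Q') (dp zY Q')) * I Q Q')
      ≤ ∑ h ∈ Finset.Icc TX (TX + i0), ∑ h' ∈ Finset.Icc TY (TY + i0),
        ∑' L : List BX, ∑' L' : List BY,
          (if HT hX L = h ∧ pX h (dp zX L) ∧ HT hY L' = h' ∧ pY h' (dp zY L') ∧ J L L'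
            then LW ΛX L * LW ΛY L' else 0) := by
  have e : ∑ h ∈ Finset.Icc TX (TX + i0), ∑ h' ∈ Finset.Icc TY (TY + i0),
        ∑' L : List BX, ∑' L' : List BY,
          (if HT hX L = h ∧ pX h (dp zX L) ∧ HT hY L' = h' ∧ pY h' (dp zY L') ∧ J L L'
            then LW ΛX L * LW ΛY L' else 0)
      = ∑' L : List BX, ∑' L' : List BY, ∑ h ∈ Finset.Icc TX (TX + i0),
        ∑ h' ∈ Finset.Icc TY (TY + i0),
          (if HT hX L = h ∧ pX h (dp zX L) ∧ HT hY L' = h' ∧ pY h' (dp zY L') ∧ J L L'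
            then LW ΛX L * LW ΛY L' else 0) := by
    simp only [← Summable.tsum_finsetSum (fun _ _ => ENNReal.summable)]
  rw [e]
  simp only [← ENNReal.tsum_mul_left]
  refine ENNReal.tsum_le_tsum fun Q => ENNReal.tsum_le_tsum fun Q' => ?_
  by_cases hQ : fr ΛX hX TX i0 Q = 0
  · rw [hQ, zero_mul]; exact zero_le
  by_cases hQ' : fr ΛY hY TY i0 Q' = 0
  · rw [hQ', zero_mul, mul_zero]; exact zero_le
  by_cases h1 : pX (HT hX Q) (dp zX Q)
  · by_cases h2 : pY (HT hY Q') (dp zY Q')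
    · by_cases h3 : J Q Q'
      · have hm := Finset.mem_Icc.2 (fr_ne ΛX hX hQ)
        have hm' := Finset.mem_Icc.2 (fr_ne ΛY hY hQ')
        refine le_trans ?_ (Finset.single_le_sum (f := fun h => ∑ h' ∈ Finset.Icc TY (TY + i0),
          (if HT hX Q = h ∧ pX h (dp zX Q) ∧ HT hY Q' = h' ∧ pY h' (dp zY Q') ∧ J Q Q'
            then LW ΛX Q * LW ΛY Q' else 0)) (fun _ _ => zero_le) hm)
        refine le_trans ?_ (Finset.single_le_sum (f := fun h' =>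
          (if HT hX Q = HT hX Q ∧ pX (HT hX Q) (dp zX Q) ∧ HT hY Q' = h' ∧ pY h' (dp zY Q') ∧ J Q Q'
            then LW ΛX Q * LW ΛY Q' else 0)) (fun _ _ => zero_le) hm')
        rw [if_pos ⟨rfl, h1, rfl, h2, h3⟩]
        have f1 : fr ΛX hX TX i0 Q ≤ LW ΛX Q := by unfold fr; split_ifs <;> simp
        have f2 : fr ΛY hY TY i0 Q' ≤ LW ΛY Q' := by unfold fr; split_ifs <;> simp
        calc _ ≤ LW ΛX Q * (LW ΛY Q' * (1 * 1 * 1)) := by
              gcongr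
              · exact ind_le _
              · exact ind_le _
              · exact hI _ _
          _ = _ := by simp
      · rw [hIJ _ _ h3]; simp
    · simp [ind, h2]
  · simp [ind, h1]

open Classical in
/-- one side local -/
lemma side (hΛX : ∑' b, ΛX b ≤ 1) (h1X : ∀ b, 1 ≤ hX b) (hΛY : ∑' b, ΛY b ≤ 1)
    (h1Y : ∀ b, 1 ≤ hY b) (w : G) (AX TX AY TY i0 lo hi : ℕ) (pX : ℕ → G → Prop) (pY : ℕ → G → Prop)
    (M q R : ℝ≥0∞)
    (hD : ∃ Dg Db : ℕ → ℕ → G → ℝ≥0∞,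
      (∀ c d δ, Del ΛX ΛY hX hY zX zY AX AY c d δ ≤ Dg c d δ + Db c d δ) ∧
      (∀ c d δ, Dg c d δ ≤ M) ∧ ∑' c, ∑' d, ∑' δ, Db c d δ ≤ q)
    (hR : ∀ a ∈ Finset.Icc AX (AX + i0), ∀ a' ∈ Finset.Icc AY (AY + i0),
      ∀ h ∈ Finset.Icc TX (TX + i0), ∀ h' ∈ Finset.Icc TY (TY + i0), ∀ μ : G → ℝ≥0∞,
      ∑' x, μ x ≤ 1 → (∀ x, μ x ≤ M) → ∑' x, μ x * ∑' L : List BX, ∑' L' : List BY,
        (if HT hX L = h ∧ pX h (dp zX L) ∧ HT hY L' = h' ∧ pY h' (dp zY L') ∧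
          ev hX hY zX zY sX sY lo hi x a a' L L' then LW ΛX L * LW ΛY L' else 0) ≤ R) :
    ∑' P, fr ΛX hX AX i0 P * ∑' Q, fr ΛX hX TX i0 Q * ∑' P', fr ΛY hY AY i0 P' *
        ∑' Q', fr ΛY hY TY i0 Q' * (ind (pX (HT hX Q) (dp zX Q)) * ind (pY (HT hY Q') (dp zY Q')) *
          iev hX hY zX zY sX sY lo hi (w + dp zY P' - dp zX P) (HT hX P) (HT hY P') Q Q')
      ≤ q + ((i0 : ℝ≥0∞) + 1) ^ 4 * R := by
  set Φ : ℕ → ℕ → G → ℝ≥0∞ := fun a a' δ => ∑' Q, fr ΛX hX TX i0 Q * ∑' Q', fr ΛY hY TY i0 Q' *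
    (ind (pX (HT hX Q) (dp zX Q)) * ind (pY (HT hY Q') (dp zY Q')) *
      iev hX hY zX zY sX sY lo hi (w + δ) a a' Q Q') with hΦdef
  have hΦ1 : ∀ a a' δ, Φ a a' δ ≤ 1 := by
    intro a a' δ
    calc Φ a a' δ ≤ ∑' Q, fr ΛX hX TX i0 Q * ∑' Q', fr ΛY hY TY i0 Q' * (1 * 1 * 1) := by
          refine ENNReal.tsum_le_tsum fun Q => ?_
          gcongr
          · exact ind_le _
          · exact ind_le _
          · exact iev_le _ _ _ _ _ _ _ _ _ _ _ _ _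
      _ = (∑' Q, fr ΛX hX TX i0 Q) * ∑' Q', fr ΛY hY TY i0 Q' := by
          simp only [mul_one]; rw [ENNReal.tsum_mul_right]
      _ ≤ 1 * 1 := by
          gcongr
          · exact fr_mass ΛX hX hΛX h1X TX i0
          · exact fr_mass ΛY hY hΛY h1Y TY i0
      _ = 1 := one_mul 1
  have e1 : ∑' P, fr ΛX hX AX i0 P * ∑' Q, fr ΛX hX TX i0 Q * ∑' P', fr ΛY hY AY i0 P' *
        ∑' Q', fr ΛY hY TY i0 Q' * (ind (pX (HT hX Q) (dp zX Q)) * ind (pY (HT hY Q') (dp zY Q')) *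
          iev hX hY zX zY sX sY lo hi (w + dp zY P' - dp zX P) (HT hX P) (HT hY P') Q Q')
      = ∑' P, fr ΛX hX AX i0 P * ∑' P', fr ΛY hY AY i0 P' *
          Φ (HT hX P) (HT hY P') (dp zY P' - dp zX P) := by
    refine tsum_congr fun P => ?_
    congr 1
    simp only [hΦdef, ← ENNReal.tsum_mul_left]
    rw [ENNReal.tsum_comm]
    refine tsum_congr fun P' => tsum_congr fun Q => tsum_congr fun Q' => ?_
    rw [← add_sub_assoc]
    ring
  rw [e1]
  have hpow : ((i0 : ℝ≥0∞) + 1) ^ 4 * R = ((i0 : ℝ≥0∞) + 1) ^ 2 * (((i0 : ℝ≥0∞) + 1) ^ 2 * R) := by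
    ring
  rw [hpow]
  refine law2_le ΛX ΛY hX hY zX zY AX AY i0 Φ hΦ1 M q _ hD fun a ha a' ha' => ?_
  set μ : G → ℝ≥0∞ := fun x => min (Del ΛX ΛY hX hY zX zY AX AY a a' (x - w)) M with hμ
  have hμ1 : ∑' x, μ x ≤ 1 := by
    calc ∑' x, μ x ≤ ∑' x, Del ΛX ΛY hX hY zX zY AX AY a a' (x - w) :=
          ENNReal.tsum_le_tsum fun x => min_le_left _ _
      _ = ∑' x, Del ΛX ΛY hX hY zX zY AX AY a a' x :=
          (Equiv.subRight w).tsum_eq (fun x => Del ΛX ΛY hX hY zX zY AX AY a a' x)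
      _ ≤ ∑' c, ∑' d, ∑' δ, Del ΛX ΛY hX hY zX zY AX AY c d δ := by
          refine le_trans ?_ (ENNReal.le_tsum a)
          exact ENNReal.le_tsum a'
      _ ≤ 1 := Del_mass ΛX ΛY hX hY zX zY hΛX h1X hΛY h1Y AX AY
  calc ∑' δ, min (Del ΛX ΛY hX hY zX zY AX AY a a' δ) M * Φ a a' δ
      ≤ ∑' δ, min (Del ΛX ΛY hX hY zX zY AX AY a a' δ) M *
        ∑ h ∈ Finset.Icc TX (TX + i0), ∑ h' ∈ Finset.Icc TY (TY + i0),
        ∑' L : List BX, ∑' L' : List BY,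
          (if HT hX L = h ∧ pX h (dp zX L) ∧ HT hY L' = h' ∧ pY h' (dp zY L') ∧
            ev hX hY zX zY sX sY lo hi (w + δ) a a' L L' then LW ΛX L * LW ΛY L' else 0) := by
        refine ENNReal.tsum_le_tsum fun δ => ?_
        gcongr
        refine pieces_le ΛX ΛY hX hY zX zY TX TY i0 pX pY
          (fun L L' => iev hX hY zX zY sX sY lo hi (w + δ) a a' L L')
          (fun L L' => iev_le _ _ _ _ _ _ _ _ _ _ _ _ _)
          (fun L L' => ev hX hY zX zY sX sY lo hi (w + δ) a a' L L') (fun L L' h => ?_)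
        simp only [iev, if_neg h]
    _ = ∑ h ∈ Finset.Icc TX (TX + i0), ∑ h' ∈ Finset.Icc TY (TY + i0), ∑' x, μ x *
        ∑' L : List BX, ∑' L' : List BY,
          (if HT hX L = h ∧ pX h (dp zX L) ∧ HT hY L' = h' ∧ pY h' (dp zY L') ∧
            ev hX hY zX zY sX sY lo hi x a a' L L' then LW ΛX L * LW ΛY L' else 0) := by
        simp only [Finset.mul_sum]
        rw [Summable.tsum_finsetSum (fun _ _ => ENNReal.summable)]
        refine Finset.sum_congr rfl fun h _ => ?_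
        rw [Summable.tsum_finsetSum (fun _ _ => ENNReal.summable)]
        refine Finset.sum_congr rfl fun h' _ => ?_
        rw [← (Equiv.addLeft w).tsum_eq (fun x => μ x * ∑' L : List BX, ∑' L' : List BY,
          (if HT hX L = h ∧ pX h (dp zX L) ∧ HT hY L' = h' ∧ pY h' (dp zY L') ∧
            ev hX hY zX zY sX sY lo hi x a a' L L' then LW ΛX L * LW ΛY L' else 0))]
        refine tsum_congr fun δ => ?_
        have : μ (w + δ) = min (Del ΛX ΛY hX hY zX zY AX AY a a' δ) M := by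
          simp only [hμ, add_sub_cancel_left]
        change _ = μ (w + δ) * _
        rw [this]
        rfl
    _ ≤ ∑ h ∈ Finset.Icc TX (TX + i0), ∑ h' ∈ Finset.Icc TY (TY + i0), R :=
        Finset.sum_le_sum fun h hh => Finset.sum_le_sum fun h' hh' =>
          hR a ha a' ha' h hh h' hh' μ hμ1 (fun x => min_le_right _ _)
    _ = ((i0 : ℝ≥0∞) + 1) ^ 2 * R := by
        simp only [Finset.sum_const, nsmul_eq_mul, Nat.card_Icc]
        have e1 : TX + i0 + 1 - TX = i0 + 1 := by omega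
        have e2 : TY + i0 + 1 - TY = i0 + 1 := by omega
        rw [e1, e2]
        push_cast
        ring


open Classical in
/-- **ONE WINDOW** -/
theorem window (hU1X : ∀ n, U ΛX hX n ≤ 1) (hΛX : ∑' b, ΛX b ≤ 1) (h1X : ∀ b, 1 ≤ hX b)
    (hU1Y : ∀ n, U ΛY hY n ≤ 1) (hΛY : ∑' b, ΛY b ≤ 1) (h1Y : ∀ b, 1 ≤ hY b)
    (hsX : ∀ b q, q ∈ sX b → 1 ≤ q.2 ∧ q.2 ≤ hX b)
    (hsY : ∀ b q, q ∈ sY b → 1 ≤ q.2 ∧ q.2 ≤ hY b) (w : G)
    (AX TX AY TY i0 lo hi sl n : ℕ) (hlo : AX + i0 < lo) (hlo' : AY + i0 < lo) (hhi : hi ≤ AX + TX) (hhi' : hi ≤ AY + TY)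
    (hsl : AX + TX + 2 * i0 ≤ hi + sl) (hn : AX + TX + 2 * i0 ≤ n) (hn' : AY + TY + 2 * i0 ≤ n)
    (θX θY vX vY qX qY MX MY R : ℝ≥0∞) (hθX : θX ≠ 0) (hθY : θY ≠ 0)
    (hvX : ∑' c : ℕ × G, (if W ΛX hX zX TX c.1 c.2 < θX then W ΛX hX zX TX c.1 c.2 else 0) ≤ vX)
    (hvY : ∑' c : ℕ × G, (if W ΛY hY zY TY c.1 c.2 < θY then W ΛY hY zY TY c.1 c.2 else 0) ≤ vY)
    (hDX : ∃ Wg Wb : ℕ → G → ℝ≥0∞, (∀ c δ, W ΛX hX zX AX c δ ≤ Wg c δ + Wb c δ) ∧
      (∀ c δ, Wg c δ ≤ MX) ∧ ∑' c, ∑' δ, Wb c δ ≤ qX)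
    (hDY : ∃ Wg Wb : ℕ → G → ℝ≥0∞, (∀ c δ, W ΛY hY zY AY c δ ≤ Wg c δ + Wb c δ) ∧
      (∀ c δ, Wg c δ ≤ MY) ∧ ∑' c, ∑' δ, Wb c δ ≤ qY)
    (hR2 : ∀ a ∈ Finset.Icc AX (AX + i0), ∀ a' ∈ Finset.Icc AY (AY + i0),
      ∀ h ∈ Finset.Icc TX (TX + i0), ∀ h' ∈ Finset.Icc TY (TY + i0), ∀ (E : Finset G) (μ : G → ℝ≥0∞),
      (E.card : ℝ≥0∞) ≤ 1 / θX → ∑' x, μ x ≤ 1 → (∀ x, μ x ≤ MX) →
      ∑' x, μ x * ∑' L : List BX, ∑' L' : List BY,
        (if HT hX L = h ∧ dp zX L ∈ E ∧ HT hY L' = h' ∧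
          ev hX hY zX zY sX sY lo hi x a a' L L' then LW ΛX L * LW ΛY L' else 0) ≤ R)
    (hR3 : ∀ a ∈ Finset.Icc AX (AX + i0), ∀ a' ∈ Finset.Icc AY (AY + i0),
      ∀ h ∈ Finset.Icc TX (TX + i0), ∀ h' ∈ Finset.Icc TY (TY + i0), ∀ (E : Finset G) (μ : G → ℝ≥0∞),
      (E.card : ℝ≥0∞) ≤ 1 / θY → ∑' x, μ x ≤ 1 → (∀ x, μ x ≤ MY) →
      ∑' x, μ x * ∑' L : List BX, ∑' L' : List BY,
        (if HT hX L = h ∧ HT hY L' = h' ∧ dp zY L' ∈ E ∧
          ev hX hY zX zY sX sY lo hi x a a' L L' then LW ΛX L * LW ΛY L' else 0) ≤ R) :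
    ∑' LX : List BX, ∑' LY : List BY, (if HT hX LX = n ∧ HT hY LY = n ∧
      evF hX hY zX zY sX sY lo hi sl w LX LY then LW ΛX LX * LW ΛY LY else 0) ≤
      2 * TS ΛX hX (i0 + 1) + 2 * TS ΛY hY (i0 + 1) + vX * vY +
      ((qX + ((i0 : ℝ≥0∞) + 1) ^ 4 * R) + (qY + ((i0 : ℝ≥0∞) + 1) ^ 4 * R)) := by
  refine (cut_both ΛX ΛY hX hY zX zY sX sY hU1X hΛX h1X hU1Y hΛY h1Y hsX hsY w AX TX AY TY i0 lo hi sl n
    hlo hlo' hhi hhi' hsl hn hn').trans ?_
  rw [add_assoc (2 * TS ΛX hX (i0 + 1) + 2 * TS ΛY hY (i0 + 1))]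
  gcongr 2 * TS ΛX hX (i0 + 1) + 2 * TS ΛY hY (i0 + 1) + ?_
  set lX : ℕ → G → Prop := fun h x => θX ≤ W ΛX hX zX TX h x with hlX
  set lY : ℕ → G → Prop := fun h x => θY ≤ W ΛY hY zY TY h x with hlY
  have hsideX := side ΛX ΛY hX hY zX zY sX sY hΛX h1X hΛY h1Y w AX TX AY TY i0 lo hi lX (fun _ _ => True)
    MX qX R (Del_X ΛX ΛY hX hY zX zY hΛX h1X hΛY h1Y AX AY MX qX hDX) (by
      intro a ha a' ha' h hh h' hh' μ h1 h2
      obtain ⟨E, hE, hcard⟩ := level_set (fun x => W ΛX hX zX TX h x)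
        (tsum_W_le ΛX hX zX hΛX h1X TX h) θX hθX
      refine le_trans (le_of_eq ?_) (hR2 a ha a' ha' h hh h' hh' E μ hcard h1 h2)
      refine tsum_congr fun x => ?_
      congr 1
      refine tsum_congr fun L => tsum_congr fun L' => ?_
      refine ite_iff ?_
      rw [hE]
      simp only [hlX, true_and])
  have hsideY := side ΛX ΛY hX hY zX zY sX sY hΛX h1X hΛY h1Y w AX TX AY TY i0 lo hi (fun _ _ => True) lY
    MY qY R (Del_Y ΛX ΛY hX hY zX zY hΛX h1X AX AY MY qY hDY) (by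
      intro a ha a' ha' h hh h' hh' μ h1 h2
      obtain ⟨E, hE, hcard⟩ := level_set (fun x => W ΛY hY zY TY h' x)
        (tsum_W_le ΛY hY zY hΛY h1Y TY h') θY hθY
      refine le_trans (le_of_eq ?_) (hR3 a ha a' ha' h hh h' hh' E μ hcard h1 h2)
      refine tsum_congr fun x => ?_
      congr 1
      refine tsum_congr fun L => tsum_congr fun L' => ?_
      refine ite_iff ?_
      rw [hE]
      simp only [hlY, true_and])
  have hX' := nonloc_le ΛX hX zX TX i0 θX vX hvX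
  have hY' := nonloc_le ΛY hY zY TY i0 θY vY hvY
  have hN : ∑' P, fr ΛX hX AX i0 P * ∑' Q, fr ΛX hX TX i0 Q * ∑' P', fr ΛY hY AY i0 P' *
        ∑' Q', fr ΛY hY TY i0 Q' * (ind (¬ lX (HT hX Q) (dp zX Q)) * ind (¬ lY (HT hY Q') (dp zY Q')))
      ≤ vX * vY := by
    calc _ = (∑' P, fr ΛX hX AX i0 P) * ((∑' Q, fr ΛX hX TX i0 Q * ind (¬ lX (HT hX Q) (dp zX Q))) *
          ((∑' P', fr ΛY hY AY i0 P') *
            ∑' Q', fr ΛY hY TY i0 Q' * ind (¬ lY (HT hY Q') (dp zY Q')))) := by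
          have h1 : ∀ Q, ∑' P', fr ΛY hY AY i0 P' * ∑' Q', fr ΛY hY TY i0 Q' *
              (ind (¬ lX (HT hX Q) (dp zX Q)) * ind (¬ lY (HT hY Q') (dp zY Q')))
              = ind (¬ lX (HT hX Q) (dp zX Q)) * ((∑' P', fr ΛY hY AY i0 P') *
                ∑' Q', fr ΛY hY TY i0 Q' * ind (¬ lY (HT hY Q') (dp zY Q'))) := by
            intro Q
            rw [ENNReal.tsum_mul_right, ← mul_assoc, mul_comm (ind _) (∑' P', fr ΛY hY AY i0 P'),
              mul_assoc, ← ENNReal.tsum_mul_left (a := ind (¬ lX (HT hX Q) (dp zX Q)))]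
            congr 1
            exact tsum_congr fun Q' => by ring
          simp only [h1]
          generalize ((∑' P', fr ΛY hY AY i0 P') *
            ∑' Q', fr ΛY hY TY i0 Q' * ind (¬ lY (HT hY Q') (dp zY Q'))) = c
          rw [ENNReal.tsum_mul_right]
          congr 1
          rw [← ENNReal.tsum_mul_right]
          exact tsum_congr fun Q => by ring
      _ ≤ 1 * (vX * (1 * vY)) := by
          gcongr
          · exact fr_mass ΛX hX hΛX h1X AX i0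
          · exact fr_mass ΛY hY hΛY h1Y AY i0
      _ = vX * vY := by simp
  refine le_trans ?_ (add_le_add hN (add_le_add hsideX hsideY))
  simp only [← ENNReal.tsum_add, ← mul_add]
  refine ENNReal.tsum_le_tsum fun P => ?_
  gcongr fr ΛX hX AX i0 P * ?_
  refine ENNReal.tsum_le_tsum fun Q => ?_
  gcongr fr ΛX hX TX i0 Q * ?_
  refine ENNReal.tsum_le_tsum fun P' => ?_
  gcongr fr ΛY hY AY i0 P' * ?_
  refine ENNReal.tsum_le_tsum fun Q' => ?_
  gcongr fr ΛY hY TY i0 Q' * ?_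
  have hi1 := iev_le hX hY zX zY sX sY lo hi (w + dp zY P' - dp zX P) (HT hX P) (HT hY P') Q Q'
  set I := iev hX hY zX zY sX sY lo hi (w + dp zY P' - dp zX P) (HT hX P) (HT hY P') Q Q'
  by_cases c1 : lX (HT hX Q) (dp zX Q)
  · simp [ind, c1]
  · by_cases c2 : lY (HT hY Q') (dp zY Q')
    · simp [ind, c2]
    · simp only [ind, c1, c2, not_false_eq_true, if_true, mul_one, one_mul]
      exact hi1.trans le_self_add

end two

end Crest.Agent.R154.AsmX181
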