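import Crest.Agent.R154.AsmW_34

/-! Row 154 (helper34), ROAD 801: one window of the abstract assembly, part 2. -/

set_option autoImplicit false

namespace Crest.Agent.R154.Asm34

open scoped ENNReal
open Crest.Agent.R154.B5A Crest.Agent.R154.FP178

section cut
variable {B : Type*} (Λ : B → ℝ≥0∞) (ht : B → ℕ)

open Classical in
/-- weight of a first passage without overshoot -/
noncomputable def cw (T i0 : ℕ) (L : List B) : ℝ≥0∞ :=
  if fp ht T L ∧ HT ht L ≤ T + i0 then LW Λ L else 0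

lemma sum_cw_le (h1 : ∀ b, 1 ≤ ht b) (hΛ : ∑' b, Λ b ≤ 1) (T i0 : ℕ) :
    ∑' L, cw Λ ht T i0 L ≤ 1 := by
  classical
  refine le_trans (ENNReal.tsum_le_tsum fun L => ?_) (sum_FP Λ ht h1 hΛ T)
  unfold cw
  by_cases h : fp ht T L
  · by_cases h' : HT ht L ≤ T + i0
    · rw [if_pos ⟨h, h'⟩, if_pos h]
    · rw [if_neg (fun h'' => h' h''.2)]; exact zero_le
  · rw [if_neg (fun h'' => h h''.1)]; exact zero_le

open Classical in
/-- total overshoot mass -/
noncomputable def ov (T i0 : ℕ) : ℝ≥0∞ :=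
  ∑' L, (if fp ht T L ∧ T + i0 < HT ht L then LW Λ L else 0)

open Classical in
lemma rest_le (hU1 : ∀ n, U Λ ht n ≤ 1) (n : ℕ) (X : List B) (f : List B → ℝ≥0∞) (K : ℝ≥0∞)
    (hf : ∀ R, HT ht (X ++ R) = n → f (X ++ R) ≤ K) :
    ∑' R, LW Λ R * (if HT ht (X ++ R) = n then f (X ++ R) else 0) ≤ K := by
  calc ∑' R, LW Λ R * (if HT ht (X ++ R) = n then f (X ++ R) else 0)
      ≤ ∑' R, (if HT ht R = n - HT ht X then LW Λ R else 0) * K := by
        refine ENNReal.tsum_le_tsum fun R => ?_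
        by_cases h : HT ht (X ++ R) = n
        · have h' := h
          rw [HT_append] at h'
          rw [if_pos h, if_pos (by omega)]
          exact mul_le_mul_right (hf R h) _
        · rw [if_neg h, mul_zero]; exact zero_le
    _ = U Λ ht (n - HT ht X) * K := by rw [ENNReal.tsum_mul_right, U]
    _ ≤ 1 * K := by gcongr; exact hU1 _
    _ = K := one_mul K

open Classical in
theorem cut_one (h1 : ∀ b, 1 ≤ ht b) (hΛ : ∑' b, Λ b ≤ 1) (hU1 : ∀ n, U Λ ht n ≤ 1)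
    (T τ i0 n : ℕ) (hn : T + i0 + τ ≤ n) (f : List B → ℝ≥0∞) (F : List B → List B → ℝ≥0∞)
    (hf1 : ∀ L, f L ≤ 1)
    (hf : ∀ X1 X2 X3, fp ht T X1 → fp ht τ X2 → HT ht X1 ≤ T + i0 → HT ht X2 ≤ τ + i0 →
      f (X1 ++ (X2 ++ X3)) ≤ F X1 X2) :
    ∑' L, (if HT ht L = n then LW Λ L * f L else 0)
      ≤ (∑' X1, cw Λ ht T i0 X1 * ∑' X2, cw Λ ht τ i0 X2 * F X1 X2)
        + (ov Λ ht T i0 + ov Λ ht τ i0) := by
  have e1 : ∑' L, (if HT ht L = n then LW Λ L * f L else 0)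
      = ∑' L, (if T ≤ HT ht L then LW Λ L * (if HT ht L = n then f L else 0) else 0) := by
    refine tsum_congr fun L => ?_
    by_cases h : HT ht L = n
    · rw [if_pos h, if_pos (by omega), if_pos h]
    · rw [if_neg h, if_neg h, mul_zero, ite_self]
  rw [e1, split Λ ht h1 T (fun L => if HT ht L = n then f L else 0)]
  have hb : ∀ X1, (if fp ht T X1 then LW Λ X1 *
        ∑' R, LW Λ R * (if HT ht (X1 ++ R) = n then f (X1 ++ R) else 0) else 0)
      ≤ cw Λ ht T i0 X1 * (∑' X2, cw Λ ht τ i0 X2 * F X1 X2)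
        + (if fp ht T X1 ∧ T + i0 < HT ht X1 then LW Λ X1 else 0)
        + cw Λ ht T i0 X1 * ov Λ ht τ i0 := by
    intro X1
    by_cases hX1 : fp ht T X1
    · rw [if_pos hX1]
      by_cases ho : T + i0 < HT ht X1
      · rw [if_pos (⟨hX1, ho⟩ : fp ht T X1 ∧ T + i0 < HT ht X1)]
        refine le_add_right (le_add_left ?_)
        refine (mul_le_mul_right (rest_le Λ ht hU1 n X1 f 1 fun R _ => hf1 _) _).trans ?_
        rw [mul_one]
      · have ho' : HT ht X1 ≤ T + i0 := not_lt.1 ho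
        have hc : cw Λ ht T i0 X1 = LW Λ X1 := by rw [cw, if_pos ⟨hX1, ho'⟩]
        rw [if_neg (fun h => ho h.2 : ¬ (fp ht T X1 ∧ T + i0 < HT ht X1)), add_zero, hc, ← mul_add]
        refine mul_le_mul_right ?_ _
        have e2 : ∑' R, LW Λ R * (if HT ht (X1 ++ R) = n then f (X1 ++ R) else 0)
            = ∑' R, (if τ ≤ HT ht R then LW Λ R *
              (if HT ht (X1 ++ R) = n then f (X1 ++ R) else 0) else 0) := by
          refine tsum_congr fun R => ?_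
          by_cases h : HT ht (X1 ++ R) = n
          · have h' := h
            rw [HT_append] at h'
            rw [if_pos h, if_pos (by omega)]
          · rw [if_neg h, mul_zero, ite_self]
        rw [e2, split Λ ht h1 τ (fun R => if HT ht (X1 ++ R) = n then f (X1 ++ R) else 0), ov,
          ← ENNReal.tsum_add]
        refine ENNReal.tsum_le_tsum fun X2 => ?_
        by_cases hX2 : fp ht τ X2
        · rw [if_pos hX2]
          by_cases ho2 : τ + i0 < HT ht X2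
          · rw [if_pos (⟨hX2, ho2⟩ : fp ht τ X2 ∧ τ + i0 < HT ht X2)]
            refine le_add_left ?_
            have := rest_le Λ ht hU1 n (X1 ++ X2) f 1 fun R _ => hf1 _
            simp only [List.append_assoc] at this
            refine (mul_le_mul_right this _).trans ?_
            rw [mul_one]
          · refine le_add_right ?_
            rw [cw, if_pos ⟨hX2, not_lt.1 ho2⟩]
            refine mul_le_mul_right ?_ _
            have := rest_le Λ ht hU1 n (X1 ++ X2) f (F X1 X2) fun R _ => by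
              rw [List.append_assoc]
              exact hf X1 X2 R hX1 hX2 ho' (not_lt.1 ho2)
            simp only [List.append_assoc] at this
            exact this
        · rw [if_neg hX2]; exact zero_le
    · rw [if_neg hX1]; exact zero_le
  calc _ ≤ ∑' X1, (cw Λ ht T i0 X1 * (∑' X2, cw Λ ht τ i0 X2 * F X1 X2)
        + (if fp ht T X1 ∧ T + i0 < HT ht X1 then LW Λ X1 else 0)
        + cw Λ ht T i0 X1 * ov Λ ht τ i0) := ENNReal.tsum_le_tsum hb
    _ = (∑' X1, cw Λ ht T i0 X1 * ∑' X2, cw Λ ht τ i0 X2 * F X1 X2) + ov Λ ht T i0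
        + (∑' X1, cw Λ ht T i0 X1) * ov Λ ht τ i0 := by
        rw [ENNReal.tsum_add, ENNReal.tsum_add, ENNReal.tsum_mul_right]
        rfl
    _ ≤ (∑' X1, cw Λ ht T i0 X1 * ∑' X2, cw Λ ht τ i0 X2 * F X1 X2) + ov Λ ht T i0
        + 1 * ov Λ ht τ i0 := by gcongr; exact sum_cw_le Λ ht h1 hΛ T i0
    _ = _ := by rw [one_mul, add_assoc]

end cut

section pair
variable {BX BY : Type*} (ΛX : BX → ℝ≥0∞) (hX : BX → ℕ) (ΛY : BY → ℝ≥0∞) (hY : BY → ℕ)

/-- the four-fold sum -/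
noncomputable def S4 (T τ T' τ' i0 : ℕ)
    (F : List BX → List BX → List BY → List BY → ℝ≥0∞) : ℝ≥0∞ :=
  ∑' X1, ∑' Y1, cw ΛX hX T i0 X1 * cw ΛY hY T' i0 Y1 *
    ∑' X2, ∑' Y2, cw ΛX hX τ i0 X2 * cw ΛY hY τ' i0 Y2 * F X1 X2 Y1 Y2

open Classical in
theorem cut_pair (h1X : ∀ b, 1 ≤ hX b) (h1Y : ∀ b, 1 ≤ hY b) (hΛX : ∑' b, ΛX b ≤ 1)
    (hΛY : ∑' b, ΛY b ≤ 1) (hUX : ∀ n, U ΛX hX n ≤ 1) (hUY : ∀ n, U ΛY hY n ≤ 1)
    (T τ T' τ' i0 n : ℕ) (hn : T + i0 + τ ≤ n) (hn' : T' + i0 + τ' ≤ n)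
    (E : List BX → List BY → Prop) :
    ∑' LX, ∑' LY, (if HT hX LX = n ∧ HT hY LY = n ∧ E LX LY then LW ΛX LX * LW ΛY LY else 0)
      ≤ S4 ΛX hX ΛY hY T τ T' τ' i0 (fun X1 X2 Y1 Y2 =>
          if ∃ X3 Y3, E (X1 ++ (X2 ++ X3)) (Y1 ++ (Y2 ++ Y3)) then 1 else 0)
        + ((ov ΛX hX T i0 + ov ΛX hX τ i0) + (ov ΛY hY T' i0 + ov ΛY hY τ' i0)) := by
  -- cut Y for a fixed LX
  have hY1 : ∀ LX, (∑' LY, (if HT hX LX = n ∧ HT hY LY = n ∧ E LX LY
        then LW ΛX LX * LW ΛY LY else 0))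
      ≤ (if HT hX LX = n then LW ΛX LX *
          (∑' Y1, cw ΛY hY T' i0 Y1 * ∑' Y2, cw ΛY hY τ' i0 Y2 *
            (if ∃ Y3, E LX (Y1 ++ (Y2 ++ Y3)) then 1 else 0)) else 0)
        + (if HT hX LX = n then LW ΛX LX else 0) * (ov ΛY hY T' i0 + ov ΛY hY τ' i0) := by
    intro LX
    by_cases hLX : HT hX LX = n
    · rw [if_pos hLX, if_pos hLX, ← mul_add]
      have e : (∑' LY, (if HT hX LX = n ∧ HT hY LY = n ∧ E LX LY
          then LW ΛX LX * LW ΛY LY else 0))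
          = LW ΛX LX * ∑' LY, (if HT hY LY = n then LW ΛY LY * (if E LX LY then 1 else 0) else 0) := by
        rw [← ENNReal.tsum_mul_left]
        refine tsum_congr fun LY => ?_
        by_cases h2 : HT hY LY = n <;> by_cases h3 : E LX LY <;> simp [hLX, h2, h3]
      rw [e]
      refine mul_le_mul_right ?_ _
      refine cut_one ΛY hY h1Y hΛY hUY T' τ' i0 n hn' _ _ (fun L => ite1 _) ?_
      intro X1 X2 X3 _ _ _ _
      by_cases h : E LX (X1 ++ (X2 ++ X3))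
      · rw [if_pos h, if_pos ⟨X3, h⟩]
      · rw [if_neg h]; exact zero_le
    · have : ∀ LY, ¬ (HT hX LX = n ∧ HT hY LY = n ∧ E LX LY) := fun LY h => hLX h.1
      simp [this]
  refine le_trans (ENNReal.tsum_le_tsum hY1) ?_
  rw [ENNReal.tsum_add, ENNReal.tsum_mul_right]
  have hsum : ∑' LX, (if HT hX LX = n then LW ΛX LX else 0) ≤ 1 := hUX n
  have hmain : ∑' LX, (if HT hX LX = n then LW ΛX LX *
          (∑' Y1, cw ΛY hY T' i0 Y1 * ∑' Y2, cw ΛY hY τ' i0 Y2 *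
            (if ∃ Y3, E LX (Y1 ++ (Y2 ++ Y3)) then 1 else 0)) else 0)
      ≤ S4 ΛX hX ΛY hY T τ T' τ' i0 (fun X1 X2 Y1 Y2 =>
          if ∃ X3 Y3, E (X1 ++ (X2 ++ X3)) (Y1 ++ (Y2 ++ Y3)) then 1 else 0)
        + (ov ΛX hX T i0 + ov ΛX hX τ i0) := by
    have e : ∀ LX, (if HT hX LX = n then LW ΛX LX *
          (∑' Y1, cw ΛY hY T' i0 Y1 * ∑' Y2, cw ΛY hY τ' i0 Y2 *
            (if ∃ Y3, E LX (Y1 ++ (Y2 ++ Y3)) then 1 else 0)) else 0)
        = ∑' Y1, ∑' Y2, cw ΛY hY T' i0 Y1 * cw ΛY hY τ' i0 Y2 *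
          (if HT hX LX = n then LW ΛX LX *
            (if ∃ Y3, E LX (Y1 ++ (Y2 ++ Y3)) then 1 else 0) else 0) := by
      intro LX
      by_cases h : HT hX LX = n
      · simp only [if_pos h]
        rw [← ENNReal.tsum_mul_left]
        refine tsum_congr fun Y1 => ?_
        rw [← ENNReal.tsum_mul_left, ← ENNReal.tsum_mul_left]
        refine tsum_congr fun Y2 => ?_
        ring
      · simp [h]
    rw [tsum_congr e, ENNReal.tsum_comm]
    have e2 : ∀ Y1, ∑' LX, ∑' Y2, cw ΛY hY T' i0 Y1 * cw ΛY hY τ' i0 Y2 *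
          (if HT hX LX = n then LW ΛX LX *
            (if ∃ Y3, E LX (Y1 ++ (Y2 ++ Y3)) then 1 else 0) else 0)
        ≤ ∑' Y2, cw ΛY hY T' i0 Y1 * cw ΛY hY τ' i0 Y2 *
          ((∑' X1, cw ΛX hX T i0 X1 * ∑' X2, cw ΛX hX τ i0 X2 *
            (if ∃ X3 Y3, E (X1 ++ (X2 ++ X3)) (Y1 ++ (Y2 ++ Y3)) then 1 else 0))
            + (ov ΛX hX T i0 + ov ΛX hX τ i0)) := by
      intro Y1
      rw [ENNReal.tsum_comm]
      refine ENNReal.tsum_le_tsum fun Y2 => ?_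
      rw [ENNReal.tsum_mul_left]
      refine mul_le_mul_right ?_ _
      refine cut_one ΛX hX h1X hΛX hUX T τ i0 n hn _ _ (fun L => ite1 _) ?_
      intro X1 X2 X3 _ _ _ _
      by_cases h : ∃ Y3, E (X1 ++ (X2 ++ X3)) (Y1 ++ (Y2 ++ Y3))
      · rw [if_pos h, if_pos ⟨X3, h⟩]
      · rw [if_neg h]; exact zero_le
    refine le_trans (ENNReal.tsum_le_tsum e2) ?_
    have e3 : ∑' Y1, ∑' Y2, cw ΛY hY T' i0 Y1 * cw ΛY hY τ' i0 Y2 *
          ((∑' X1, cw ΛX hX T i0 X1 * ∑' X2, cw ΛX hX τ i0 X2 *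
            (if ∃ X3 Y3, E (X1 ++ (X2 ++ X3)) (Y1 ++ (Y2 ++ Y3)) then 1 else 0))
            + (ov ΛX hX T i0 + ov ΛX hX τ i0))
        = (∑' Y1, ∑' Y2, cw ΛY hY T' i0 Y1 * cw ΛY hY τ' i0 Y2 *
          (∑' X1, cw ΛX hX T i0 X1 * ∑' X2, cw ΛX hX τ i0 X2 *
            (if ∃ X3 Y3, E (X1 ++ (X2 ++ X3)) (Y1 ++ (Y2 ++ Y3)) then 1 else 0)))
          + (∑' Y1, ∑' Y2, cw ΛY hY T' i0 Y1 * cw ΛY hY τ' i0 Y2)
            * (ov ΛX hX T i0 + ov ΛX hX τ i0) := by
      rw [← ENNReal.tsum_mul_right, ← ENNReal.tsum_add]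
      refine tsum_congr fun Y1 => ?_
      rw [← ENNReal.tsum_mul_right, ← ENNReal.tsum_add]
      refine tsum_congr fun Y2 => ?_
      ring
    rw [e3]
    refine add_le_add (le_of_eq ?_) ?_
    · unfold S4
      rw [ENNReal.tsum_comm (f := fun X1 Y1 => cw ΛX hX T i0 X1 * cw ΛY hY T' i0 Y1 *
        ∑' X2, ∑' Y2, cw ΛX hX τ i0 X2 * cw ΛY hY τ' i0 Y2 *
          (if ∃ X3 Y3, E (X1 ++ (X2 ++ X3)) (Y1 ++ (Y2 ++ Y3)) then (1 : ℝ≥0∞) else 0))]
      refine tsum_congr fun Y1 => ?_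
      simp only [← ENNReal.tsum_mul_left]
      rw [ENNReal.tsum_comm]
      refine tsum_congr fun X1 => ?_
      rw [ENNReal.tsum_comm]
      refine tsum_congr fun X2 => ?_
      refine tsum_congr fun Y2 => ?_
      ring
    · calc _ ≤ 1 * (ov ΛX hX T i0 + ov ΛX hX τ i0) := by
            refine mul_le_mul_left ?_ _
            calc ∑' Y1, ∑' Y2, cw ΛY hY T' i0 Y1 * cw ΛY hY τ' i0 Y2
                = ∑' Y1, cw ΛY hY T' i0 Y1 * ∑' Y2, cw ΛY hY τ' i0 Y2 := by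
                  refine tsum_congr fun Y1 => ?_
                  rw [ENNReal.tsum_mul_left]
              _ ≤ ∑' Y1, cw ΛY hY T' i0 Y1 * 1 :=
                  ENNReal.tsum_le_tsum fun Y1 =>
                    mul_le_mul_right (sum_cw_le ΛY hY h1Y hΛY τ' i0) _
              _ ≤ 1 := by
                  simp only [mul_one]
                  exact sum_cw_le ΛY hY h1Y hΛY T' i0
        _ = _ := one_mul _
  calc _ ≤ (S4 ΛX hX ΛY hY T τ T' τ' i0 (fun X1 X2 Y1 Y2 =>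
          if ∃ X3 Y3, E (X1 ++ (X2 ++ X3)) (Y1 ++ (Y2 ++ Y3)) then 1 else 0)
        + (ov ΛX hX T i0 + ov ΛX hX τ i0)) + 1 * (ov ΛY hY T' i0 + ov ΛY hY τ' i0) := by
        gcongr
    _ = _ := by rw [one_mul, add_assoc]

end pair

end Crest.Agent.R154.Asm34
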