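import Crest.Agent.R154.AsmW_475

/-! Row 154, ROAD 801 (helper475): assembly, part 4: the bound of one window. -/

set_option autoImplicit false

namespace Crest.Agent.R154.Asm475

open Crest.Agent.R154.B5A
open Crest.Agent.R154.Ren396
open Crest.Agent.R154.Bind12 (TT Dp)
open scoped ENNReal

lemma tsum_sum2 {α β : Type*} (F : α → β → ℕ → ℕ → ℝ≥0∞) (S : Finset ℕ) :
    ∑' a, ∑' b, ∑ i ∈ S, ∑ j ∈ S, F a b i j = ∑ i ∈ S, ∑ j ∈ S, ∑' a, ∑' b, F a b i j := by
  have e1 : ∀ a, ∑' b, ∑ i ∈ S, ∑ j ∈ S, F a b i j = ∑ i ∈ S, ∑ j ∈ S, ∑' b, F a b i j := by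
    intro a
    rw [Summable.tsum_finsetSum (fun _ _ => ENNReal.summable)]
    refine Finset.sum_congr rfl fun i _ => ?_
    rw [Summable.tsum_finsetSum (fun _ _ => ENNReal.summable)]
  simp_rw [e1]
  rw [Summable.tsum_finsetSum (fun _ _ => ENNReal.summable)]
  refine Finset.sum_congr rfl fun i _ => ?_
  rw [Summable.tsum_finsetSum (fun _ _ => ENNReal.summable)]

lemma quad_le {α β γ δ : Type*} (f : α → ℝ≥0∞) (g : β → ℝ≥0∞) (h : γ → ℝ≥0∞) (k : δ → ℝ≥0∞)
    (q q1 q2 q3 : α → β → γ → δ → ℝ≥0∞)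
    (hq : ∀ a b c d, q a b c d ≤ q1 a b c d + (q2 a b c d + q3 a b c d)) :
    ∑' a, f a * ∑' b, g b * ∑' c, h c * ∑' d, k d * q a b c d
      ≤ (∑' a, f a * ∑' b, g b * ∑' c, h c * ∑' d, k d * q1 a b c d)
        + ((∑' a, f a * ∑' b, g b * ∑' c, h c * ∑' d, k d * q2 a b c d)
        + (∑' a, f a * ∑' b, g b * ∑' c, h c * ∑' d, k d * q3 a b c d)) := by
  calc _ ≤ ∑' a, f a * ∑' b, g b * ∑' c, h c * ∑' d, k d *
        (q1 a b c d + (q2 a b c d + q3 a b c d)) := by
        refine ENNReal.tsum_le_tsum fun a => mul_le_mul_right (ENNReal.tsum_le_tsum fun b =>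
          mul_le_mul_right (ENNReal.tsum_le_tsum fun c => mul_le_mul_right
          (ENNReal.tsum_le_tsum fun d => mul_le_mul_right (hq a b c d) _) _) _) _
    _ = _ := by simp only [mul_add, ENNReal.tsum_add]

section win

variable {BX BY G : Type*} [AddCommGroup G]
  (ΛX : BX → ℝ≥0∞) (ΛY : BY → ℝ≥0∞) (hX : BX → ℕ) (hY : BY → ℕ) (zX : BX → G) (zY : BY → G)
  (sX : BX → Set (G × ℕ)) (sY : BY → Set (G × ℕ))

/-- sums over pieces are sums over crossings of height in a range -/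
lemma pieces (T T' i0 : ℕ) (q : List BX → List BY → ℝ≥0∞) :
    ∑' P, wt ΛX hX T i0 P * ∑' P', wt ΛY hY T' i0 P' * q P P'
      ≤ ∑ i ∈ Finset.range (i0 + 1), ∑ j ∈ Finset.range (i0 + 1), ∑' P, ∑' P',
        (if HT hX P = T + i ∧ HT hY P' = T' + j then LW ΛX P * LW ΛY P' * q P P' else 0) := by
  classical
  rw [← tsum_sum2 (fun P P' i j => if HT hX P = T + i ∧ HT hY P' = T' + j then
    LW ΛX P * LW ΛY P' * q P P' else 0)]
  refine ENNReal.tsum_le_tsum fun P => ?_
  rw [← ENNReal.tsum_mul_left]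
  refine ENNReal.tsum_le_tsum fun P' => ?_
  by_cases h : wt ΛX hX T i0 P = 0
  · rw [h, zero_mul]; exact zero_le
  by_cases h' : wt ΛY hY T' i0 P' = 0
  · rw [h', zero_mul, mul_zero]; exact zero_le
  have h2 := wt_of_ne ΛX hX h
  have h3 := wt_of_ne ΛY hY h'
  refine le_trans ?_ (Finset.single_le_sum (f := fun i => ∑ j ∈ Finset.range (i0 + 1),
    (if HT hX P = T + i ∧ HT hY P' = T' + j then LW ΛX P * LW ΛY P' * q P P' else 0))
    (fun _ _ => zero_le) (Finset.mem_range.2 (show HT hX P - T < i0 + 1 by omega)))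
  refine le_trans ?_ (Finset.single_le_sum (f := fun j =>
    (if HT hX P = T + (HT hX P - T) ∧ HT hY P' = T' + j then LW ΛX P * LW ΛY P' * q P P' else 0))
    (fun _ _ => zero_le) (Finset.mem_range.2 (show HT hY P' - T' < i0 + 1 by omega)))
  rw [if_pos (by omega), ← mul_assoc]
  exact mul_le_mul_left (mul_le_mul' (wt_le _ _ _ _ _) (wt_le _ _ _ _ _)) _

open Classical in
/-- kernel of a window, restricted by `loc` -/
noncomputable def Ker (T T' i0 lo hi : ℕ) (loc : List BX → List BY → Prop) (x : G) (c c' : ℕ) :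
    ℝ≥0∞ :=
  ∑' P, wt ΛX hX T i0 P * ∑' P', wt ΛY hY T' i0 P' *
    (if loc P P' ∧ Ev hX hY zX zY sX sY P P' x c c' lo hi then 1 else 0)

lemma Ker_le_one (hΛX : ∑' b, ΛX b ≤ 1) (hΛY : ∑' b, ΛY b ≤ 1) (h1X : ∀ b, 1 ≤ hX b)
    (h1Y : ∀ b, 1 ≤ hY b) (T T' i0 lo hi : ℕ) (loc : List BX → List BY → Prop) (x : G)
    (c c' : ℕ) : Ker ΛX ΛY hX hY zX zY sX sY T T' i0 lo hi loc x c c' ≤ 1 := by
  classical
  unfold Ker
  refine sum_wt_mul ΛX hX hΛX h1X T i0 _ 1 fun P _ => ?_
  refine sum_wt_mul ΛY hY hΛY h1Y T' i0 _ 1 fun P' _ => ?_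
  split_ifs <;> simp

/-- averaging the kernel with H2 -/
lemma ker_X (us : ℕ → ℕ → ℝ≥0∞) (C : ℝ≥0∞) (h2 : H2 ΛX ΛY hX hY zX zY sX sY us C)
    (T i0 b s : ℕ) (hs : 1 ≤ s) (hsT : s ≤ T) (E : ℕ → Finset G) (M κ lam : ℝ≥0∞)
    (hM : ∀ h, M * (E h).card ≤ κ) (hl0 : lam ≠ 0) (hlt : lam ≠ ⊤) (c c' : ℕ)
    (hc : b ≤ c ∧ c ≤ b + i0) (hc' : b + i0 ≤ c' ∧ c' ≤ b + i0 + i0) (μ : G → ℝ≥0∞)
    (hμ : ∑' x, μ x ≤ 1) (hμM : ∀ x, μ x ≤ M) :
    ∑' x, μ x * Ker ΛX ΛY hX hY zX zY sX sY T (T + 3 * i0) i0 (b + 2 * i0 + s) (b + T - s)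
      (fun P _ => dp zX P ∈ E (HT hX P)) x c c'
      ≤ (i0 + 1) ^ 2 * (C * (lam + κ * us (6 * i0) s / lam + us (6 * i0) s)) := by
  classical
  calc _ ≤ ∑' x, μ x * ∑ i ∈ Finset.range (i0 + 1), ∑ j ∈ Finset.range (i0 + 1), ∑' P, ∑' P',
        (if HT hX P = T + i ∧ HT hY P' = T + 3 * i0 + j then LW ΛX P * LW ΛY P' *
          (if dp zX P ∈ E (HT hX P) ∧ Ev hX hY zX zY sX sY P P' x c c' (b + 2 * i0 + s)
            (b + T - s) then 1 else 0) else 0) := by
        refine ENNReal.tsum_le_tsum fun x => mul_le_mul_right ?_ _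
        have hp := pieces ΛX ΛY hX hY T (T + 3 * i0) i0 (fun P P' =>
          if dp zX P ∈ E (HT hX P) ∧ Ev hX hY zX zY sX sY P P' x c c' (b + 2 * i0 + s)
            (b + T - s) then 1 else 0)
        refine le_trans (le_of_eq ?_) hp
        unfold Ker
        refine tsum_congr fun P => ?_
        congr 1
        refine tsum_congr fun P' => ?_
        congr 1
        congr
    _ = ∑ i ∈ Finset.range (i0 + 1), ∑ j ∈ Finset.range (i0 + 1), ∑' x, μ x * ∑' P, ∑' P',
        (if HT hX P = T + i ∧ HT hY P' = T + 3 * i0 + j then LW ΛX P * LW ΛY P' *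
          (if dp zX P ∈ E (HT hX P) ∧ Ev hX hY zX zY sX sY P P' x c c' (b + 2 * i0 + s)
            (b + T - s) then 1 else 0) else 0) := by
        simp_rw [Finset.mul_sum]
        rw [Summable.tsum_finsetSum (fun _ _ => ENNReal.summable)]
        refine Finset.sum_congr rfl fun i _ => ?_
        rw [Summable.tsum_finsetSum (fun _ _ => ENNReal.summable)]
    _ ≤ ∑ i ∈ Finset.range (i0 + 1), ∑ j ∈ Finset.range (i0 + 1),
          (C * (lam + κ * us (6 * i0) s / lam + us (6 * i0) s)) := by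
        refine Finset.sum_le_sum fun i hi => Finset.sum_le_sum fun j hj => ?_
        have hi' := Finset.mem_range.1 hi
        have hj' := Finset.mem_range.1 hj
        have := h2 (6 * i0) s (T + i) (T + 3 * i0 + j) c c' (b + 2 * i0 + s) (b + T - s)
          (E (T + i)) μ M lam hμ hμM hl0 hlt (by omega) (by omega) (by omega) (by omega)
          (by omega) (by omega) (by omega) (by omega) hs
        refine le_trans (ENNReal.tsum_le_tsum fun x => mul_le_mul_right
          (ENNReal.tsum_le_tsum fun P => ENNReal.tsum_le_tsum fun P' => ?_) _) (this.trans ?_)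
        · by_cases h : HT hX P = T + i ∧ HT hY P' = T + 3 * i0 + j
          · rw [if_pos h]
            by_cases h' : dp zX P ∈ E (HT hX P) ∧ Ev hX hY zX zY sX sY P P' x c c'
                (b + 2 * i0 + s) (b + T - s)
            · rw [if_pos h', mul_one, if_pos]
              refine ⟨h.1, ?_, h.2, h'.2.1, h'.2.2⟩
              have := h'.1
              rw [h.1] at this
              exact this
            · rw [if_neg h', mul_zero]; exact zero_le
          · rw [if_neg h]; exact zero_le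
        · refine mul_le_mul_right (add_le_add (add_le_add le_rfl ?_) le_rfl) _
          exact ENNReal.div_le_div_right (mul_le_mul_left (hM _) _) _
    _ = _ := by
        simp only [Finset.sum_const, Finset.card_range, nsmul_eq_mul]
        push_cast
        ring

/-- averaging the kernel with H3 -/
lemma ker_Y (us : ℕ → ℕ → ℝ≥0∞) (C : ℝ≥0∞) (h3 : H3 ΛX ΛY hX hY zX zY sX sY us C)
    (T i0 b s : ℕ) (hs : 1 ≤ s) (hsT : s ≤ T) (E : ℕ → Finset G) (M κ lam : ℝ≥0∞)
    (hM : ∀ h, M * (E h).card ≤ κ) (hl0 : lam ≠ 0) (hlt : lam ≠ ⊤) (c c' : ℕ)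
    (hc : b ≤ c ∧ c ≤ b + i0) (hc' : b + i0 ≤ c' ∧ c' ≤ b + i0 + i0) (μ : G → ℝ≥0∞)
    (hμ : ∑' x, μ x ≤ 1) (hμM : ∀ x, μ x ≤ M) :
    ∑' x, μ x * Ker ΛX ΛY hX hY zX zY sX sY T (T + 3 * i0) i0 (b + 2 * i0 + s) (b + T - s)
      (fun _ P' => dp zY P' ∈ E (HT hY P')) x c c'
      ≤ (i0 + 1) ^ 2 * (C * (lam + κ * us (6 * i0) s / lam + us (6 * i0) s)) := by
  classical
  calc _ ≤ ∑' x, μ x * ∑ i ∈ Finset.range (i0 + 1), ∑ j ∈ Finset.range (i0 + 1), ∑' P, ∑' P',
        (if HT hX P = T + i ∧ HT hY P' = T + 3 * i0 + j then LW ΛX P * LW ΛY P' *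
          (if dp zY P' ∈ E (HT hY P') ∧ Ev hX hY zX zY sX sY P P' x c c' (b + 2 * i0 + s)
            (b + T - s) then 1 else 0) else 0) := by
        refine ENNReal.tsum_le_tsum fun x => mul_le_mul_right ?_ _
        have hp := pieces ΛX ΛY hX hY T (T + 3 * i0) i0 (fun P P' =>
          if dp zY P' ∈ E (HT hY P') ∧ Ev hX hY zX zY sX sY P P' x c c' (b + 2 * i0 + s)
            (b + T - s) then 1 else 0)
        refine le_trans (le_of_eq ?_) hp
        unfold Ker
        refine tsum_congr fun P => ?_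
        congr 1
        refine tsum_congr fun P' => ?_
        congr 1
        congr
    _ = ∑ i ∈ Finset.range (i0 + 1), ∑ j ∈ Finset.range (i0 + 1), ∑' x, μ x * ∑' P, ∑' P',
        (if HT hX P = T + i ∧ HT hY P' = T + 3 * i0 + j then LW ΛX P * LW ΛY P' *
          (if dp zY P' ∈ E (HT hY P') ∧ Ev hX hY zX zY sX sY P P' x c c' (b + 2 * i0 + s)
            (b + T - s) then 1 else 0) else 0) := by
        simp_rw [Finset.mul_sum]
        rw [Summable.tsum_finsetSum (fun _ _ => ENNReal.summable)]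
        refine Finset.sum_congr rfl fun i _ => ?_
        rw [Summable.tsum_finsetSum (fun _ _ => ENNReal.summable)]
    _ ≤ ∑ i ∈ Finset.range (i0 + 1), ∑ j ∈ Finset.range (i0 + 1),
          (C * (lam + κ * us (6 * i0) s / lam + us (6 * i0) s)) := by
        refine Finset.sum_le_sum fun i hi => Finset.sum_le_sum fun j hj => ?_
        have hi' := Finset.mem_range.1 hi
        have hj' := Finset.mem_range.1 hj
        have := h3 (6 * i0) s (T + i) (T + 3 * i0 + j) c c' (b + 2 * i0 + s) (b + T - s)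
          (E (T + 3 * i0 + j)) μ M lam hμ hμM hl0 hlt (by omega) (by omega) (by omega) (by omega)
          (by omega) (by omega) (by omega) (by omega) hs
        refine le_trans (ENNReal.tsum_le_tsum fun x => mul_le_mul_right
          (ENNReal.tsum_le_tsum fun P => ENNReal.tsum_le_tsum fun P' => ?_) _) (this.trans ?_)
        · by_cases h : HT hX P = T + i ∧ HT hY P' = T + 3 * i0 + j
          · rw [if_pos h]
            by_cases h' : dp zY P' ∈ E (HT hY P') ∧ Ev hX hY zX zY sX sY P P' x c c'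
                (b + 2 * i0 + s) (b + T - s)
            · rw [if_pos h', mul_one, if_pos]
              refine ⟨h.1, ?_, h.2, h'.2.1, h'.2.2⟩
              have := h'.1
              rw [h.2] at this
              exact this
            · rw [if_neg h', mul_zero]; exact zero_le
          · rw [if_neg h]; exact zero_le
        · refine mul_le_mul_right (add_le_add (add_le_add le_rfl ?_) le_rfl) _
          exact ENNReal.div_le_div_right (mul_le_mul_left (hM _) _) _
    _ = _ := by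
        simp only [Finset.sum_const, Finset.card_range, nsmul_eq_mul]
        push_cast
        ring

end win

end Crest.Agent.R154.Asm475
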