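import Crest.Agent.R154.AsmW_751

/-! Row 154, ROAD 801: the local term (helper751). -/

set_option autoImplicit false

namespace Crest.Agent.R154.Asm751

open scoped ENNReal
open Crest.Agent.R154.B5A (LW HT LW_nil LW_cons LW_append HT_nil HT_cons HT_append tsum_list U tail)

variable {BO BN G : Type*} [AddCommGroup G]

lemma R_le_one {B : Type*} {Λ : B → ℝ≥0∞} {ht : B → ℕ} (hΛ : ∑' b, Λ b = 1)
    (h1 : ∀ b, 1 ≤ ht b) (a : ℕ) {F : List B → ℝ≥0∞} (hF : ∀ L, FP ht L a → F L ≤ 1) :
    R Λ ht a F ≤ 1 :=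
  (R_mono Λ ht a hF).trans (R_one Λ ht hΛ h1 a).le

open Classical in
/-- relaxing a first passage to all lists of the given heights -/
lemma R_le_sum {B : Type*} (Λ : B → ℝ≥0∞) (ht : B → ℕ) (D i0 : ℕ) (F : List B → ℝ≥0∞)
    (hF : ∀ L, FP ht L D → D + i0 < HT ht L → F L = 0) :
    R Λ ht D F ≤ ∑ j ∈ Finset.range (i0 + 1), ∑' L, (if HT ht L = D + j then LW Λ L * F L else 0) := by
  rw [← Summable.tsum_finsetSum (fun _ _ => ENNReal.summable), R]
  refine ENNReal.tsum_le_tsum fun L => ?_
  by_cases h : FP ht L D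
  · rw [if_pos h]
    by_cases h2 : D + i0 < HT ht L
    · rw [hF L h h2]; simp
    · have h3 := FP_le ht L D h
      have h4 : HT ht L - D ∈ Finset.range (i0 + 1) := Finset.mem_range.2 (by omega)
      calc LW Λ L * F L = (if HT ht L = D + (HT ht L - D) then LW Λ L * F L else 0) := by
            rw [if_pos (by omega)]
        _ ≤ _ := Finset.single_le_sum
            (f := fun j => if HT ht L = D + j then LW Λ L * F L else 0) (fun _ _ => zero_le) h4
  · rw [if_neg h]; exact zero_le

open Classical in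
theorem loc {ΛO : BO → ℝ≥0∞} {hO : BO → ℕ} {ΛN : BN → ℝ≥0∞} {hN : BN → ℕ}
    (hΛO : ∑' b, ΛO b = 1) (h1O : ∀ b, 1 ≤ hO b) (hΛN : ∑' b, ΛN b = 1) (h1N : ∀ b, 1 ≤ hN b)
    (zO : BO → G) (zN : BN → G) (A A' D i0 : ℕ) (g β Bnd : ℝ≥0∞)
    (hb : ∃ b : ℕ → G → ℝ≥0∞, (∑' i, ∑' z, b i z ≤ β) ∧ ∀ i z, law ΛO hO zO A i z ≤ g + b i z)
    (F : ℕ → G → List BO → ℕ → G → List BN → ℝ≥0∞) (hF1 : ∀ a x L a' y L', F a x L a' y L' ≤ 1)
    (hF0 : ∀ a x L a' y L', D + i0 < HT hO L → F a x L a' y L' = 0)
    (hF0' : ∀ a x L a' y L', D + i0 < HT hN L' → F a x L a' y L' = 0)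
    (hB : ∀ i i' j j', i ≤ i0 → i' ≤ i0 → j ≤ i0 → j' ≤ i0 → ∀ α γ : G → ℝ≥0∞,
      (∑' x, α x ≤ 1) → (∀ x, α x ≤ g) → (∑' y, γ y ≤ 1) →
      ∑' x, α x * ∑' y, γ y * ∑' L, ∑' L', (if HT hO L = D + j ∧ HT hN L' = D + j' then
        LW ΛO L * LW ΛN L' * F (A + i) x L (A' + i') y L' else 0) ≤ Bnd) :
    R ΛO hO A (fun L1 => I (HT hO L1 ≤ A + i0) * R ΛO hO D (fun L2 => R ΛN hN A' (fun L1' =>
      I (HT hN L1' ≤ A' + i0) * R ΛN hN D (fun L2' =>
        F (HT hO L1) (dp zO L1) L2 (HT hN L1') (dp zN L1') L2'))))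
      ≤ β + (i0 + 1 : ℕ) ^ 4 * Bnd := by
  obtain ⟨b, hb1, hb2⟩ := hb
  set Ψ : ℕ → G → ℝ≥0∞ := fun a x => R ΛO hO D (fun L2 => R ΛN hN A' (fun L1' =>
      I (HT hN L1' ≤ A' + i0) * R ΛN hN D (fun L2' =>
        F a x L2 (HT hN L1') (dp zN L1') L2'))) with hΨ
  have hΨ1 : ∀ a x, Ψ a x ≤ 1 := by
    intro a x
    refine R_le_one hΛO h1O _ fun L2 _ => R_le_one hΛN h1N _ fun L1' _ => ?_
    calc _ ≤ 1 * 1 := mul_le_mul' (I_le _) (R_le_one hΛN h1N _ fun L2' _ => hF1 _ _ _ _ _ _)
      _ = 1 := one_mul 1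
  -- the law of the first cut
  have e1 : R ΛO hO A (fun L1 => I (HT hO L1 ≤ A + i0) * Ψ (HT hO L1) (dp zO L1))
      = ∑' i, ∑' x, law ΛO hO zO A i x * (I (A + i ≤ A + i0) * Ψ (A + i) x) :=
    R_law zO A (fun a x => I (a ≤ A + i0) * Ψ a x)
  change R ΛO hO A (fun L1 => I (HT hO L1 ≤ A + i0) * Ψ (HT hO L1) (dp zO L1)) ≤ _
  rw [e1]
  set μ : ℕ → G → ℝ≥0∞ := fun i x => min (law ΛO hO zO A i x) g with hμ
  have hμg : ∀ i x, μ i x ≤ g := fun i x => min_le_right _ _
  have hμ1 : ∀ i, ∑' x, μ i x ≤ 1 := by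
    intro i
    calc ∑' x, μ i x ≤ ∑' x, law ΛO hO zO A i x := ENNReal.tsum_le_tsum fun x => min_le_left _ _
      _ ≤ ∑' i, ∑' x, law ΛO hO zO A i x := ENNReal.le_tsum i
      _ = 1 := law_sum hΛO h1O zO A
  have hlaw : ∀ i x, law ΛO hO zO A i x ≤ μ i x + b i x := by
    intro i x
    simp only [hμ]
    rcases le_total (law ΛO hO zO A i x) g with h | h
    · rw [min_eq_left h]; exact le_self_add
    · rw [min_eq_right h]; exact hb2 i x
  have e2 : ∀ i, i ≤ i0 → ∀ x, Ψ (A + i) x ≤ ∑ i' ∈ Finset.range (i0 + 1), ∑' y,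
      law ΛN hN zN A' i' y * ∑ j ∈ Finset.range (i0 + 1), ∑ j' ∈ Finset.range (i0 + 1),
      ∑' L, ∑' L', (if HT hO L = D + j ∧ HT hN L' = D + j' then
        LW ΛO L * LW ΛN L' * F (A + i) x L (A' + i') y L' else 0) := by
    intro i hi x
    simp only [hΨ]
    rw [R_swap]
    have e3 : ∀ (a' : ℕ) (y : G), R ΛO hO D (fun L2 => R ΛN hN D (fun L2' => F (A + i) x L2 a' y L2'))
        ≤ ∑ j ∈ Finset.range (i0 + 1), ∑ j' ∈ Finset.range (i0 + 1),
      ∑' L, ∑' L', (if HT hO L = D + j ∧ HT hN L' = D + j' then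
        LW ΛO L * LW ΛN L' * F (A + i) x L a' y L' else 0) := by
      intro a' y
      refine (R_le_sum ΛO hO D i0 _ ?_).trans ?_
      · intro L _ hL
        have : (fun L2' => F (A + i) x L a' y L2') = fun _ => 0 :=
          funext fun L' => hF0 _ _ _ _ _ _ hL
        rw [this, R]
        simp
      · refine Finset.sum_le_sum fun j _ => ?_
        calc ∑' L, (if HT hO L = D + j then LW ΛO L * R ΛN hN D (fun L2' => F (A + i) x L a' y L2')
              else 0)
            ≤ ∑' L, ∑ j' ∈ Finset.range (i0 + 1), ∑' L',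
              (if HT hO L = D + j ∧ HT hN L' = D + j' then
                LW ΛO L * LW ΛN L' * F (A + i) x L a' y L' else 0) := by
              refine ENNReal.tsum_le_tsum fun L => ?_
              by_cases hL : HT hO L = D + j
              · rw [if_pos hL]
                calc LW ΛO L * R ΛN hN D (fun L2' => F (A + i) x L a' y L2')
                    ≤ LW ΛO L * ∑ j' ∈ Finset.range (i0 + 1), ∑' L',
                      (if HT hN L' = D + j' then LW ΛN L' * F (A + i) x L a' y L' else 0) := by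
                      gcongr
                      exact R_le_sum ΛN hN D i0 _ fun L' _ h => hF0' _ _ _ _ _ _ h
                  _ = _ := by
                      rw [Finset.mul_sum]
                      refine Finset.sum_congr rfl fun j' _ => ?_
                      rw [← ENNReal.tsum_mul_left]
                      refine tsum_congr fun L' => ?_
                      by_cases h' : HT hN L' = D + j'
                      · rw [if_pos h', if_pos ⟨hL, h'⟩]; ring
                      · rw [if_neg h', if_neg (fun h => h' h.2), mul_zero]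
              · rw [if_neg hL]; exact zero_le
          _ = _ := Summable.tsum_finsetSum (fun _ _ => ENNReal.summable)
    calc R ΛN hN A' (fun L1' => R ΛO hO D (fun L2 => I (HT hN L1' ≤ A' + i0) *
          R ΛN hN D (fun L2' => F (A + i) x L2 (HT hN L1') (dp zN L1') L2')))
        = R ΛN hN A' (fun L1' => I (HT hN L1' ≤ A' + i0) * R ΛO hO D (fun L2 =>
          R ΛN hN D (fun L2' => F (A + i) x L2 (HT hN L1') (dp zN L1') L2'))) :=
          R_congr _ _ _ fun L1' _ => R_mul _ _ _ _ _
      _ ≤ R ΛN hN A' (fun L1' => (fun a' y => I (a' ≤ A' + i0) *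
            ∑ j ∈ Finset.range (i0 + 1), ∑ j' ∈ Finset.range (i0 + 1),
      ∑' L, ∑' L', (if HT hO L = D + j ∧ HT hN L' = D + j' then
        LW ΛO L * LW ΛN L' * F (A + i) x L a' y L' else 0)) (HT hN L1') (dp zN L1')) :=
          R_mono _ _ _ fun L1' _ => mul_le_mul_right (e3 _ _) _
      _ = _ := by
          rw [R_law zN A' (fun a' y => I (a' ≤ A' + i0) *
            ∑ j ∈ Finset.range (i0 + 1), ∑ j' ∈ Finset.range (i0 + 1),
      ∑' L, ∑' L', (if HT hO L = D + j ∧ HT hN L' = D + j' then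
        LW ΛO L * LW ΛN L' * F (A + i) x L a' y L' else 0))]
          rw [tsum_eq_sum (s := Finset.range (i0 + 1))]
          · refine Finset.sum_congr rfl fun i' hi' => tsum_congr fun y => ?_
            rw [I_true (by have := Finset.mem_range.1 hi'; omega), one_mul]
          · intro i' hi'
            rw [ENNReal.tsum_eq_zero]
            intro y
            rw [I_false (by rw [Finset.mem_range] at hi'; omega), zero_mul, mul_zero]
  calc ∑' i, ∑' x, law ΛO hO zO A i x * (I (A + i ≤ A + i0) * Ψ (A + i) x)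
      ≤ ∑' i, ∑' x, (b i x + I (i ≤ i0) * (μ i x * Ψ (A + i) x)) := by
        refine ENNReal.tsum_le_tsum fun i => ENNReal.tsum_le_tsum fun x => ?_
        have hI : I (A + i ≤ A + i0) = I (i ≤ i0) := by
          congr 1
          exact propext (by omega)
        rw [hI]
        calc law ΛO hO zO A i x * (I (i ≤ i0) * Ψ (A + i) x)
            ≤ (μ i x + b i x) * (I (i ≤ i0) * Ψ (A + i) x) := by gcongr; exact hlaw i x
          _ = b i x * (I (i ≤ i0) * Ψ (A + i) x) + I (i ≤ i0) * (μ i x * Ψ (A + i) x) := by ring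
          _ ≤ b i x * (1 * 1) + I (i ≤ i0) * (μ i x * Ψ (A + i) x) := by
              gcongr
              · exact I_le _
              · exact hΨ1 _ _
          _ = _ := by ring
    _ = (∑' i, ∑' x, b i x) + ∑' i, ∑' x, I (i ≤ i0) * (μ i x * Ψ (A + i) x) := by
        simp_rw [ENNReal.tsum_add]
    _ ≤ β + ∑ i ∈ Finset.range (i0 + 1), ∑' x, μ i x * Ψ (A + i) x := by
        refine add_le_add hb1 (le_of_eq ?_)
        rw [tsum_eq_sum (s := Finset.range (i0 + 1))]
        · refine Finset.sum_congr rfl fun i hi => tsum_congr fun x => ?_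
          rw [I_true (by have := Finset.mem_range.1 hi; omega), one_mul]
        · intro i hi
          rw [ENNReal.tsum_eq_zero]
          intro x
          rw [I_false (by rw [Finset.mem_range] at hi; omega), zero_mul]
    _ ≤ β + ∑ i ∈ Finset.range (i0 + 1), ∑ i' ∈ Finset.range (i0 + 1),
          ∑ j ∈ Finset.range (i0 + 1), ∑ j' ∈ Finset.range (i0 + 1), Bnd := by
        gcongr with i hi
        have hi' : i ≤ i0 := by have := Finset.mem_range.1 hi; omega
        calc ∑' x, μ i x * Ψ (A + i) x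
            ≤ ∑' x, μ i x * ∑ i' ∈ Finset.range (i0 + 1), ∑' y,
              law ΛN hN zN A' i' y * ∑ j ∈ Finset.range (i0 + 1), ∑ j' ∈ Finset.range (i0 + 1),
              ∑' L, ∑' L', (if HT hO L = D + j ∧ HT hN L' = D + j' then
                LW ΛO L * LW ΛN L' * F (A + i) x L (A' + i') y L' else 0) :=
              ENNReal.tsum_le_tsum fun x => mul_le_mul_right (e2 i hi' x) _
          _ = ∑ i' ∈ Finset.range (i0 + 1), ∑ j ∈ Finset.range (i0 + 1),
              ∑ j' ∈ Finset.range (i0 + 1), ∑' x, μ i x * ∑' y, law ΛN hN zN A' i' y *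
              ∑' L, ∑' L', (if HT hO L = D + j ∧ HT hN L' = D + j' then
                LW ΛO L * LW ΛN L' * F (A + i) x L (A' + i') y L' else 0) := by
              simp_rw [Finset.mul_sum]
              rw [Summable.tsum_finsetSum (fun _ _ => ENNReal.summable)]
              refine Finset.sum_congr rfl fun i' _ => ?_
              simp_rw [Summable.tsum_finsetSum (fun _ _ => ENNReal.summable), Finset.mul_sum]
              rw [Summable.tsum_finsetSum (fun _ _ => ENNReal.summable)]
              refine Finset.sum_congr rfl fun j _ => ?_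
              rw [Summable.tsum_finsetSum (fun _ _ => ENNReal.summable)]
          _ ≤ _ := by
              refine Finset.sum_le_sum fun i' hi2 => Finset.sum_le_sum fun j hj =>
                Finset.sum_le_sum fun j' hj' => ?_
              refine hB i i' j j' hi' ?_ ?_ ?_ _ _ (hμ1 i) (hμg i) ?_
              · have := Finset.mem_range.1 hi2; omega
              · have := Finset.mem_range.1 hj; omega
              · have := Finset.mem_range.1 hj'; omega
              · calc ∑' y, law ΛN hN zN A' i' y ≤ ∑' i, ∑' y, law ΛN hN zN A' i y :=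
                    ENNReal.le_tsum i'
                  _ = 1 := law_sum hΛN h1N zN A'
    _ = _ := by
        simp only [Finset.sum_const, Finset.card_range, nsmul_eq_mul]
        ring

end Crest.Agent.R154.Asm751
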