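import Crest.Agent.R154.AsmW_852

/-! Row 154, ROAD 801 (helper852): the bound of one window. -/

set_option autoImplicit false

namespace Crest.Agent.R154.Asm852

open scoped ENNReal
open Crest.Agent.R154.B5A Crest.Agent.R154.FP178

section ops2
variable {B : Type*} (Λ : B → ℝ≥0∞) (ht : B → ℕ)

open Classical in
/-- weight of a first passage list with small overshoot -/
noncomputable def wt (i0 a : ℕ) (L : List B) : ℝ≥0∞ :=
  if fp ht a L ∧ HT ht L ≤ a + i0 then LW Λ L else 0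

lemma S1_eq (i0 a : ℕ) (H : List B → ℝ≥0∞) : S1 Λ ht i0 a H = ∑' L, wt Λ ht i0 a L * H L := by
  refine tsum_congr fun L => ?_
  rw [wt]; split_ifs <;> simp

lemma S1_comm {B' : Type*} (Λ' : B' → ℝ≥0∞) (ht' : B' → ℕ) (i0 a i1 b : ℕ)
    (H : List B → List B' → ℝ≥0∞) :
    S1 Λ ht i0 a (fun P => S1 Λ' ht' i1 b (fun Q => H P Q))
      = S1 Λ' ht' i1 b (fun Q => S1 Λ ht i0 a (fun P => H P Q)) := by
  simp only [S1_eq, ← ENNReal.tsum_mul_left]
  rw [ENNReal.tsum_comm]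
  refine tsum_congr fun Q => tsum_congr fun P => ?_
  ring

lemma S1_const_mul (i0 a : ℕ) (c : ℝ≥0∞) (H : List B → ℝ≥0∞) :
    S1 Λ ht i0 a (fun L => c * H L) = c * S1 Λ ht i0 a H := by
  simp only [S1_eq, ← ENNReal.tsum_mul_left]
  refine tsum_congr fun L => ?_
  ring

lemma S1_law {G : Type*} [AddCommGroup G] (z : B → G) (i0 D : ℕ) (Gf : ℕ → G → ℝ≥0∞) :
    S1 Λ ht i0 D (fun T => Gf (HT ht T) (Dp z T))
      = ∑ i ∈ Finset.range (i0 + 1), ∑' y, law Λ ht z D i y * Gf (D + i) y := by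
  classical
  have e := law_int Λ ht z D (fun i y => if i ≤ i0 then Gf (D + i) y else 0)
  have e2 : S1 Λ ht i0 D (fun T => Gf (HT ht T) (Dp z T))
      = ∑' L, (if fp ht D L then LW Λ L *
        (if HT ht L - D ≤ i0 then Gf (D + (HT ht L - D)) (Dp z L) else 0) else 0) := by
    refine tsum_congr fun L => ?_
    by_cases hL : fp ht D L
    · have hle := le_HT_of_fp ht hL
      by_cases h2 : HT ht L ≤ D + i0
      · rw [if_pos ⟨hL, h2⟩, if_pos hL, if_pos (by omega),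
          show D + (HT ht L - D) = HT ht L by omega]
      · rw [if_neg (fun h => h2 h.2), if_pos hL, if_neg (by omega), mul_zero]
    · rw [if_neg (fun h => hL h.1), if_neg hL]
  rw [e2, ← e, tsum_eq_sum (s := Finset.range (i0 + 1))]
  · refine Finset.sum_congr rfl fun i hi => tsum_congr fun y => ?_
    rw [if_pos (by have := Finset.mem_range.1 hi; omega)]
  · intro i hi
    refine ENNReal.tsum_eq_zero.2 fun y => ?_
    rw [if_neg (by intro h; exact hi (Finset.mem_range.2 (by omega))), mul_zero]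

end ops2

section conv
variable {G : Type*} [AddCommGroup G]

lemma conv (f1 f2 F : G → ℝ≥0∞) (M : ℝ≥0∞) (w : G) (h1 : ∑' z, f1 z ≤ 1) (h2 : ∑' z, f2 z ≤ 1)
    (hM : ∀ z, f1 z ≤ M) :
    ∃ μ : G → ℝ≥0∞, ∑' x, μ x ≤ 1 ∧ (∀ x, μ x ≤ M) ∧
      ∑' z, f1 z * ∑' z', f2 z' * F (w + z' - z) = ∑' x, μ x * F x := by
  refine ⟨fun x => ∑' z, f1 z * f2 (x - w + z), ?_, ?_, ?_⟩
  · rw [ENNReal.tsum_comm]
    calc ∑' z, ∑' x, f1 z * f2 (x - w + z) = ∑' z, f1 z * ∑' y, f2 y := by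
          refine tsum_congr fun z => ?_
          rw [ENNReal.tsum_mul_left]
          congr 1
          have := (Equiv.addRight (z - w)).tsum_eq f2
          rw [← this]
          refine tsum_congr fun x => ?_
          congr 1
          simp only [Equiv.coe_addRight]
          abel
      _ ≤ ∑' z, f1 z * 1 := ENNReal.tsum_le_tsum fun z => mul_le_mul_right h2 _
      _ ≤ 1 := by simpa using h1
  · intro x
    calc ∑' z, f1 z * f2 (x - w + z) ≤ ∑' z, M * f2 (x - w + z) :=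
          ENNReal.tsum_le_tsum fun z => mul_le_mul_left (hM z) _
      _ = M * ∑' y, f2 y := by
          rw [ENNReal.tsum_mul_left]
          congr 1
          exact (Equiv.addLeft (x - w)).tsum_eq f2
      _ ≤ M * 1 := mul_le_mul_right h2 _
      _ = M := mul_one _
  · have e : ∀ z, ∑' z', f2 z' * F (w + z' - z) = ∑' x, f2 (x - w + z) * F x := by
      intro z
      have := (Equiv.addRight (w - z)).tsum_eq (fun x => f2 (x - w + z) * F x)
      rw [← this]
      refine tsum_congr fun z' => ?_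
      simp only [Equiv.coe_addRight]
      rw [show z' + (w - z) - w + z = z' by abel, show z' + (w - z) = w + z' - z by abel]
    simp only [e, ← ENNReal.tsum_mul_left]
    rw [ENNReal.tsum_comm]
    refine tsum_congr fun x => ?_
    rw [← ENNReal.tsum_mul_right]
    refine tsum_congr fun z => ?_
    ring

/-- smooth first law -/
lemma mix (lX lY b : ℕ → G → ℝ≥0∞) (F : ℕ → ℕ → G → ℝ≥0∞) (M bad β : ℝ≥0∞) (N : ℕ) (w : G)
    (hX : ∑' i, ∑' z, lX i z ≤ 1) (hY : ∑' i, ∑' z, lY i z ≤ 1) (hF1 : ∀ i i' x, F i i' x ≤ 1)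
    (hb : ∑' i, ∑' z, b i z ≤ bad) (hsm : ∀ i z, lX i z ≤ M + b i z)
    (hF : ∀ i ∈ Finset.range N, ∀ i' ∈ Finset.range N, ∀ μ : G → ℝ≥0∞, ∑' x, μ x ≤ 1 →
      (∀ x, μ x ≤ M) → ∑' x, μ x * F i i' x ≤ β) :
    ∑ i ∈ Finset.range N, ∑' z, lX i z * ∑ i' ∈ Finset.range N, ∑' z', lY i' z' *
      F i i' (w + z' - z) ≤ bad + N * (N * β) := by
  have hY1 : ∀ i', ∑' z, lY i' z ≤ 1 := fun i' =>
    (ENNReal.le_tsum (f := fun i => ∑' z, lY i z) i').trans hY
  have hX1 : ∀ i', ∑' z, lX i' z ≤ 1 := fun i' =>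
    (ENNReal.le_tsum (f := fun i => ∑' z, lX i z) i').trans hX
  have hin : ∀ i z, ∑ i' ∈ Finset.range N, ∑' z', lY i' z' * F i i' (w + z' - z) ≤ 1 := by
    intro i z
    calc ∑ i' ∈ Finset.range N, ∑' z', lY i' z' * F i i' (w + z' - z)
        ≤ ∑ i' ∈ Finset.range N, ∑' z', lY i' z' * 1 :=
          Finset.sum_le_sum fun i' _ => ENNReal.tsum_le_tsum fun z' => mul_le_mul_right (hF1 _ _ _) _
      _ ≤ ∑' i', ∑' z', lY i' z' := by
          simp only [mul_one]
          exact ENNReal.sum_le_tsum _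
      _ ≤ 1 := hY
  have hpt : ∀ i z, lX i z ≤ min (lX i z) M + b i z := by
    intro i z
    rw [← min_add_add_right]
    exact le_min le_self_add (hsm i z)
  calc ∑ i ∈ Finset.range N, ∑' z, lX i z * ∑ i' ∈ Finset.range N, ∑' z', lY i' z' *
        F i i' (w + z' - z)
      ≤ ∑ i ∈ Finset.range N, ∑' z, (b i z + min (lX i z) M * ∑ i' ∈ Finset.range N, ∑' z',
        lY i' z' * F i i' (w + z' - z)) := by
        refine Finset.sum_le_sum fun i _ => ENNReal.tsum_le_tsum fun z => ?_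
        refine (mul_le_mul_left (hpt i z) _).trans ?_
        rw [add_mul, add_comm]
        refine add_le_add ?_ le_rfl
        exact (mul_le_mul_right (hin i z) _).trans (mul_one _).le
    _ = ∑ i ∈ Finset.range N, ∑' z, b i z + ∑ i ∈ Finset.range N, ∑' z, min (lX i z) M *
        ∑ i' ∈ Finset.range N, ∑' z', lY i' z' * F i i' (w + z' - z) := by
        rw [← Finset.sum_add_distrib]
        refine Finset.sum_congr rfl fun i _ => ?_
        rw [ENNReal.tsum_add]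
    _ ≤ bad + ∑ i ∈ Finset.range N, ∑ i' ∈ Finset.range N, β := by
        refine add_le_add ((ENNReal.sum_le_tsum _).trans hb) ?_
        refine Finset.sum_le_sum fun i hi => ?_
        have e : ∑' z, min (lX i z) M * ∑ i' ∈ Finset.range N, ∑' z', lY i' z' *
            F i i' (w + z' - z)
            = ∑ i' ∈ Finset.range N, ∑' z, min (lX i z) M * ∑' z', lY i' z' *
              F i i' (w + z' - z) := by
          simp only [Finset.mul_sum]
          rw [Summable.tsum_finsetSum (fun _ _ => ENNReal.summable)]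
        rw [e]
        refine Finset.sum_le_sum fun i' hi' => ?_
        obtain ⟨μ, hμ1, hμM, hμ⟩ := conv (fun z => min (lX i z) M) (lY i') (F i i') M w
          ((ENNReal.tsum_le_tsum fun z => min_le_left _ _).trans (hX1 i)) (hY1 i')
          (fun z => min_le_right _ _)
        rw [hμ]
        exact hF i hi i' hi' μ hμ1 hμM
    _ = _ := by simp

/-- smooth second law -/
lemma mix' (lX lY b : ℕ → G → ℝ≥0∞) (F : ℕ → ℕ → G → ℝ≥0∞) (M bad β : ℝ≥0∞) (N : ℕ) (w : G)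
    (hX : ∑' i, ∑' z, lX i z ≤ 1) (hY : ∑' i, ∑' z, lY i z ≤ 1) (hF1 : ∀ i i' x, F i i' x ≤ 1)
    (hb : ∑' i, ∑' z, b i z ≤ bad) (hsm : ∀ i z, lY i z ≤ M + b i z)
    (hF : ∀ i ∈ Finset.range N, ∀ i' ∈ Finset.range N, ∀ μ : G → ℝ≥0∞, ∑' x, μ x ≤ 1 →
      (∀ x, μ x ≤ M) → ∑' x, μ x * F i i' x ≤ β) :
    ∑ i ∈ Finset.range N, ∑' z, lX i z * ∑ i' ∈ Finset.range N, ∑' z', lY i' z' *
      F i i' (w + z' - z) ≤ bad + N * (N * β) := by
  have h := mix lY lX b (fun i' i x => F i i' (-x)) M bad β N (-w) hY hX (fun _ _ _ => hF1 _ _ _)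
    hb hsm (by
      intro i' hi' i hi μ hμ1 hμM
      have e : ∑' x, μ x * F i i' (-x) = ∑' x, μ (-x) * F i i' x := by
        have := (Equiv.neg G).tsum_eq (fun x => μ x * F i i' (-x))
        rw [← this]
        refine tsum_congr fun x => ?_
        simp
      rw [e]
      refine hF i hi i' hi' (fun x => μ (-x)) ?_ (fun x => hμM _)
      exact ((Equiv.neg G).tsum_eq μ).le.trans hμ1)
  refine le_trans (le_of_eq ?_) h
  simp only [Finset.mul_sum, ← ENNReal.tsum_mul_left]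
  have e1 : ∀ i, ∑' z, ∑ i' ∈ Finset.range N, ∑' z', lX i z * (lY i' z' * F i i' (w + z' - z))
      = ∑ i' ∈ Finset.range N, ∑' z, ∑' z', lX i z * (lY i' z' * F i i' (w + z' - z)) := by
    intro i
    rw [Summable.tsum_finsetSum (fun _ _ => ENNReal.summable)]
  have e2 : ∀ i', ∑' z, ∑ i ∈ Finset.range N, ∑' z', lY i' z * (lX i z' *
      F i i' (-(-w + z' - z)))
      = ∑ i ∈ Finset.range N, ∑' z, ∑' z', lY i' z * (lX i z' * F i i' (-(-w + z' - z))) := by
    intro i'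
    rw [Summable.tsum_finsetSum (fun _ _ => ENNReal.summable)]
  rw [Finset.sum_congr rfl fun i _ => e1 i]
  have e3 : ∑ i' ∈ Finset.range N, ∑' z, ∑ i ∈ Finset.range N, ∑' z', lY i' z * (lX i z' *
      F i i' (-(-w + z' - z)))
      = ∑ i' ∈ Finset.range N, ∑ i ∈ Finset.range N, ∑' z, ∑' z', lY i' z * (lX i z' *
        F i i' (-(-w + z' - z))) := Finset.sum_congr rfl fun i' _ => e2 i'
  rw [e3, Finset.sum_comm]
  refine Finset.sum_congr rfl fun i' _ => Finset.sum_congr rfl fun i _ => ?_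
  rw [ENNReal.tsum_comm]
  refine tsum_congr fun z' => tsum_congr fun z => ?_
  rw [show -(-w + z - z') = w + z' - z by abel]
  ring

end conv

section pair
variable {BX BY G : Type*} [AddCommGroup G]
  (ΛX : BX → ℝ≥0∞) (ΛY : BY → ℝ≥0∞) (hX : BX → ℕ) (hY : BY → ℕ) (zX : BX → G) (zY : BY → G)
  (sX : BX → Set (G × ℕ)) (sY : BY → Set (G × ℕ))

open Classical in
/-- `X` local window lemma -/
def H2 (C : ℝ≥0∞) (us : ℕ → ℕ → ℝ≥0∞) : Prop :=
  ∀ (i1 s h h' a a' lo hi : ℕ) (E : Finset G) (μ : G → ℝ≥0∞) (M lam : ℝ≥0∞), ∑' x, μ x ≤ 1 →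
    (∀ x, μ x ≤ M) → lam ≠ 0 → lam ≠ ⊤ → a < a' → a' ≤ a + i1 → a + h < a' + h' →
    a' + h' ≤ a + h + i1 → a + s ≤ lo → a' + s ≤ lo → hi + s ≤ a + h → hi + s ≤ a' + h' →
    ∑' x, μ x * ∑' L : List BX, ∑' L' : List BY,
      (if HT hX L = h ∧ Dp zX L ∈ E ∧ HT hY L' = h' ∧
          (∃ g k, Co hX hY zX zY sX sY L L' x a a' g k) ∧
          (∀ g k, Co hX hY zX zY sX sY L L' x a a' g k → lo ≤ k ∧ k ≤ hi)
        then LW ΛX L * LW ΛY L' else 0)
      ≤ C * (lam + M * E.card * us i1 s / lam + us i1 s)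

open Classical in
/-- `Y` local window lemma -/
def H3 (C : ℝ≥0∞) (us : ℕ → ℕ → ℝ≥0∞) : Prop :=
  ∀ (i1 s h h' a a' lo hi : ℕ) (E : Finset G) (μ : G → ℝ≥0∞) (M lam : ℝ≥0∞), ∑' x, μ x ≤ 1 →
    (∀ x, μ x ≤ M) → lam ≠ 0 → lam ≠ ⊤ → a < a' → a' ≤ a + i1 → a + h < a' + h' →
    a' + h' ≤ a + h + i1 → a + s ≤ lo → a' + s ≤ lo → hi + s ≤ a + h → hi + s ≤ a' + h' →
    ∑' x, μ x * ∑' L : List BX, ∑' L' : List BY,
      (if HT hX L = h ∧ HT hY L' = h' ∧ Dp zY L' ∈ E ∧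
          (∃ g k, Co hX hY zX zY sX sY L L' x a a' g k) ∧
          (∀ g k, Co hX hY zX zY sX sY L L' x a a' g k → lo ≤ k ∧ k ≤ hi)
        then LW ΛX L * LW ΛY L' else 0)
      ≤ C * (lam + M * E.card * us i1 s / lam + us i1 s)

open Classical in
/-- pieces with a property `Q`, meeting -/
noncomputable def Ph (i0 S lo hi : ℕ) (Q : List BX → List BY → Prop) (a a' : ℕ) (x : G) : ℝ≥0∞ :=
  S1 ΛX hX i0 S (fun P => S1 ΛY hY i0 S (fun P' =>
    if Q P P' then W0 hX hY zX zY sX sY lo hi a a' x P P' else 0))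

lemma Ph_le (h1X : ∀ b, 1 ≤ hX b) (h1Y : ∀ b, 1 ≤ hY b) (hΛX : ∑' b, ΛX b = 1)
    (hΛY : ∑' b, ΛY b = 1) (i0 S lo hi : ℕ) (Q : List BX → List BY → Prop) (a a' : ℕ) (x : G) :
    Ph ΛX ΛY hX hY zX zY sX sY i0 S lo hi Q a a' x ≤ 1 := by
  refine S1_le ΛX hX h1X hΛX _ _ _ fun P _ _ => ?_
  refine S1_le ΛY hY h1Y hΛY _ _ _ fun P' _ _ => ?_
  split_ifs
  · exact W0_le hX hY zX zY sX sY _ _ _ _ _ _ _
  · exact zero_le

open Classical in
/-- sum over the heights of the two pieces -/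
lemma Ph_heights (i0 S lo hi : ℕ) (Q : List BX → List BY → Prop)
    (Q2 : ℕ → ℕ → List BX → List BY → Prop)
    (hQ : ∀ P P', Q P P' → Q2 (HT hX P - S) (HT hY P' - S) P P') (a a' : ℕ) (x : G) :
    Ph ΛX ΛY hX hY zX zY sX sY i0 S lo hi Q a a' x
      ≤ ∑ j ∈ Finset.range (i0 + 1), ∑ j' ∈ Finset.range (i0 + 1),
        ∑' P : List BX, ∑' P' : List BY,
        (if HT hX P = S + j ∧ HT hY P' = S + j' ∧ Q2 j j' P P' ∧
          (∃ g k, Co hX hY zX zY sX sY P P' x a a' g k) ∧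
          (∀ g k, Co hX hY zX zY sX sY P P' x a a' g k → lo + 1 ≤ k ∧ k ≤ hi)
        then LW ΛX P * LW ΛY P' else 0) := by
  simp only [← Summable.tsum_finsetSum (fun _ _ => ENNReal.summable)]
  rw [Ph]
  simp only [S1_eq, ← ENNReal.tsum_mul_left]
  refine ENNReal.tsum_le_tsum fun P => ENNReal.tsum_le_tsum fun P' => ?_
  by_cases hP : fp hX S P ∧ HT hX P ≤ S + i0
  swap
  · rw [wt, if_neg hP, zero_mul]; exact zero_le
  by_cases hP' : fp hY S P' ∧ HT hY P' ≤ S + i0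
  swap
  · rw [wt, wt, if_neg hP', zero_mul, mul_zero]; exact zero_le
  rw [wt, wt, if_pos hP, if_pos hP']
  by_cases hq : Q P P'
  swap
  · rw [if_neg hq, mul_zero, mul_zero]; exact zero_le
  rw [if_pos hq, W0]
  split_ifs with hW
  swap
  · rw [mul_zero, mul_zero]; exact zero_le
  have b1 := le_HT_of_fp hX hP.1
  have b2 := le_HT_of_fp hY hP'.1
  refine le_trans ?_ (Finset.single_le_sum (f := fun j => ∑ j' ∈ Finset.range (i0 + 1),
    (if HT hX P = S + j ∧ HT hY P' = S + j' ∧ Q2 j j' P P' ∧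
          (∃ g k, Co hX hY zX zY sX sY P P' x a a' g k) ∧
          (∀ g k, Co hX hY zX zY sX sY P P' x a a' g k → lo + 1 ≤ k ∧ k ≤ hi)
        then LW ΛX P * LW ΛY P' else 0)) (fun _ _ => zero_le)
    (Finset.mem_range.2 (by omega : HT hX P - S < i0 + 1)))
  refine le_trans ?_ (Finset.single_le_sum (f := fun j' =>
    (if HT hX P = S + (HT hX P - S) ∧ HT hY P' = S + j' ∧ Q2 (HT hX P - S) j' P P' ∧
          (∃ g k, Co hX hY zX zY sX sY P P' x a a' g k) ∧
          (∀ g k, Co hX hY zX zY sX sY P P' x a a' g k → lo + 1 ≤ k ∧ k ≤ hi)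
        then LW ΛX P * LW ΛY P' else 0)) (fun _ _ => zero_le)
    (Finset.mem_range.2 (by omega : HT hY P' - S < i0 + 1)))
  rw [if_pos ⟨by omega, by omega, hQ P P' hq, hW.1, fun g k h => by
    have := hW.2 g k h; omega⟩, mul_one]

end pair

end Crest.Agent.R154.Asm852
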