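import Crest.Agent.R154.Fact_346
import Crest.Agent.R154.Flux1_132

/-! Row 154 (helper105): the word data of the single walkers for the assembly of KAPPA'
(lists of irreducible words read from the tie down) and `KW` as a sum over pairs of lists. -/

set_option autoImplicit false
set_option linter.unusedSectionVars false

namespace Crest.Agent.R154.WD105

open MeasureTheory ProbabilityTheory Crest.ProbabilityR.RandomEnvironment Crest.Agent.R154
open Crest.Agent.R154.Flux132 (lev opp lev_add lev_neg lev_zero lev_step_self stepVec_opp)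
open Crest.Agent.R154.Flux566 (lw endp sitesL endp_append endp_eq_add measurable_lw locOn_lw)
open Crest.Agent.R154.NB28
open Crest.Agent.R154.Fact346
open Crest.Agent.R154.B5A (LW HT LW_nil LW_cons HT_nil HT_cons HT_append LW_append)
open scoped ENNReal

variable {d : ℕ}

/-! ### words -/

lemma sitesL_append (l l' : List (Step d)) (x : Site d) :
    sitesL x (l ++ l') = sitesL x l ++ sitesL (endp x l) l' := by
  induction l generalizing x with
  | nil => rfl
  | cons e l ih => simp only [List.cons_append, sitesL, endp, ih]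

lemma mem_sitesL_add (l : List (Step d)) (x z y : Site d) :
    y ∈ sitesL (x + z) l ↔ y - z ∈ sitesL x l := by
  induction l generalizing x with
  | nil => simp [sitesL]
  | cons e l ih =>
    simp only [sitesL, List.mem_cons]
    rw [show x + z + stepVec e = x + stepVec e + z by abel, ih]
    constructor
    · rintro (h | h)
      · left; rw [h]; abel
      · right; exact h
    · rintro (h | h)
      · left; rw [← h]; abel
      · right; exact h

lemma mem_sitesL_shift (l : List (Step d)) (x y : Site d) :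
    y ∈ sitesL x l ↔ y - x ∈ sitesL 0 l := by
  have := mem_sitesL_add l 0 x y
  rwa [zero_add] at this

lemma lw_append (ω : Environment d) (l l' : List (Step d)) (x : Site d) :
    lw ω x (l ++ l') = lw ω x l * lw ω (endp x l) l' := by
  induction l generalizing x with
  | nil => simp [lw, endp]
  | cons e l ih => simp only [List.cons_append, lw, endp, ih, mul_assoc]

lemma lw_shift (ω : Environment d) (z : Site d) (l : List (Step d)) (x : Site d) :
    lw (shiftEnv z ω) x l = lw ω (x + z) l := by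
  induction l generalizing x with
  | nil => rfl
  | cons e l ih =>
    simp only [lw, ih]
    rw [show x + stepVec e + z = x + z + stepVec e by abel]
    rfl

variable (ν : Measure (Row d)) [IsProbabilityMeasure ν]

lemma aw_at (x : Site d) (l : List (Step d)) :
    ∫⁻ ω, lw ω x l ∂(iidEnvironmentLaw ν) = aw ν l := by
  unfold aw
  rw [← (Q561.iid_shift ν x).lintegral_comp (measurable_lw 0 l)]
  simp_rw [lw_shift, zero_add]

lemma aw_mul (x y : Site d) (a b : List (Step d))
    (h : ∀ z, z ∈ sitesL x a → z ∉ sitesL y b) :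
    ∫⁻ ω, lw ω x a * lw ω y b ∂(iidEnvironmentLaw ν) = aw ν a * aw ν b := by
  rw [Q561.iid_lintegral_mul ν (S := {z | z ∈ sitesL x a}) (T := {z | z ∈ sitesL y b})
    (Set.disjoint_left.2 h) (measurable_lw _ _) (measurable_lw _ _) (locOn_lw _ _)
    (locOn_lw _ _), aw_at, aw_at]

lemma aw_nil : aw ν ([] : List (Step d)) = 1 := by
  simp [aw, lw]

variable {u : Step d}

lemma aw_append_up {m n : ℕ} {a b : List (Step d)} (ha : IsUp u m a) (hb : IsUp u n b) :
    aw ν (a ++ b) = aw ν a * aw ν b := by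
  have h1 : aw ν (a ++ b) = ∫⁻ ω, lw ω 0 a * lw ω (endp 0 a) b ∂(iidEnvironmentLaw ν) := by
    unfold aw
    simp_rw [lw_append]
  rw [h1]
  refine aw_mul ν _ _ _ _ fun z hz hz' => ?_
  rw [mem_sitesL_shift] at hz'
  have h2 := (ha.1 z hz).2
  have h3 := (hb.1 _ hz').1
  rw [sub_eq_add_neg, lev_add, lev_neg, ha.2] at h3
  omega

lemma aw_append_dn {m n : ℕ} {a b : List (Step d)} (ha : IsDn u m a) (hb : IsDn u n b) :
    aw ν (a ++ b) = aw ν a * aw ν b := by
  have h1 : aw ν (a ++ b) = ∫⁻ ω, lw ω 0 a * lw ω (endp 0 a) b ∂(iidEnvironmentLaw ν) := by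
    unfold aw
    simp_rw [lw_append]
  rw [h1]
  refine aw_mul ν _ _ _ _ fun z hz hz' => ?_
  rw [mem_sitesL_shift] at hz'
  have h2 := (ha.1 z hz).1
  have h3 := (hb.1 _ hz').2
  rw [sub_eq_add_neg, lev_add, lev_neg, ha.2] at h3
  omega

/-! ### the down instance of the factorisation -/

lemma isDn_iff (u : Step d) (n : ℕ) (l : List (Step d)) : IsDn u n l ↔ IsUp (opp u) n l := by
  have ho : ∀ x : Site d, lev (opp u) x = - lev u x := by
    intro x
    unfold lev opp
    cases u.2 <;> simp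
  unfold IsDn IsUp
  simp only [ho]
  constructor
  · rintro ⟨h1, h2⟩
    exact ⟨fun y hy => by have := h1 y hy; omega, by omega⟩
  · rintro ⟨h1, h2⟩
    exact ⟨fun y hy => by have := h1 y hy; omega, by omega⟩

lemma fac_dn' (u : Step d) : Fac (IsDn u) := by
  have : IsDn u = IsUp (opp u) := by
    funext n l
    exact propext (isDn_iff u n l)
  rw [this]
  exact fac_up (opp u)

/-! ### the word data -/

/-- displacement of an up word read from its top -/
def zX (b : Irr (IsUp u)) : Site d := -(endp 0 b.1)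

/-- displacement of a down word -/
def zY (b : Irr (IsDn u)) : Site d := endp 0 b.1

/-- (site, depth) read by an up word hung at `0` -/
def sX (b : Irr (IsUp u)) : Set (Site d × ℕ) :=
  {p | p.1 ∈ sitesL (-(endp 0 b.1)) b.1 ∧ lev u p.1 = -(p.2 : ℤ)}

/-- (site, depth) read by a down word started one level below `0` -/
def sY (b : Irr (IsDn u)) : Set (Site d × ℕ) :=
  {p | p.1 ∈ sitesL (stepVec (opp u)) b.1 ∧ lev u p.1 = -(p.2 : ℤ)}

/-- annealed weights -/
noncomputable def ΛX (b : Irr (IsUp u)) : ℝ≥0∞ := aw ν b.1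

/-- annealed weights -/
noncomputable def ΛY (b : Irr (IsDn u)) : ℝ≥0∞ := aw ν b.1

/-- trace of a list of blocks read from the tie down, top at `(x, a)` -/
def TT {B G : Type*} [AddCommGroup G] (h : B → ℕ) (z : B → G) (s : B → Set (G × ℕ)) :
    List B → G → ℕ → Set (G × ℕ)
  | [], _, _ => ∅
  | b :: L, x, a => {p | ∃ q ∈ s b, p = (x + q.1, a + q.2)} ∪ TT h z s L (x + z b) (a + h b)

/-- total displacement -/
def Dp {B G : Type*} [AddCommGroup G] (z : B → G) (L : List B) : G := (L.map z).sum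

/-- the up word of a list read from the tie down -/
def wX (L : List (Irr (IsUp u))) : List (Step d) := fl L.reverse

/-- the down word of a list read from the tie down -/
def wY (L : List (Irr (IsDn u))) : List (Step d) := fl L

lemma wX_cons (b : Irr (IsUp u)) (L : List (Irr (IsUp u))) : wX (b :: L) = wX L ++ b.1 := by
  simp [wX, fl_append, fl]

lemma wX_nil : wX ([] : List (Irr (IsUp u))) = [] := rfl

lemma wY_cons (b : Irr (IsDn u)) (L : List (Irr (IsDn u))) : wY (b :: L) = b.1 ++ wY L := rfl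

lemma wY_nil : wY ([] : List (Irr (IsDn u))) = [] := rfl

lemma endp0_append (a b : List (Step d)) : endp 0 (a ++ b) = endp 0 a + endp 0 b := by
  rw [endp_append, endp_eq_add]

lemma Dp_zX (L : List (Irr (IsUp u))) : Dp zX L = -(endp 0 (wX L)) := by
  induction L with
  | nil => simp [Dp, wX, fl, endp]
  | cons b L ih =>
    rw [wX_cons, endp0_append]
    have : Dp zX (b :: L) = zX b + Dp zX L := by simp [Dp]
    rw [this, ih]
    unfold zX
    abel

lemma Dp_zY (L : List (Irr (IsDn u))) : Dp zY L = endp 0 (wY L) := by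
  induction L with
  | nil => simp [Dp, wY, fl, endp]
  | cons b L ih =>
    rw [wY_cons, endp0_append]
    have : Dp zY (b :: L) = zY b + Dp zY L := by simp [Dp]
    rw [this, ih]
    rfl

lemma sX_bd (b : Irr (IsUp u)) (z : Site d) (k : ℕ) (h : (z, k) ∈ sX b) : 1 ≤ k ∧ k ≤ ht b := by
  obtain ⟨h1, h2⟩ := h
  rw [mem_sitesL_shift] at h1
  have h3 := (ht_spec b).1 _ h1
  simp only at h2 h3
  rw [sub_neg_eq_add, lev_add, (ht_spec b).2] at h3
  omega

lemma sY_bd (b : Irr (IsDn u)) (z : Site d) (k : ℕ) (h : (z, k) ∈ sY b) : 1 ≤ k ∧ k ≤ ht b := by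
  obtain ⟨h1, h2⟩ := h
  rw [mem_sitesL_shift] at h1
  have h3 := (ht_spec b).1 _ h1
  simp only at h2 h3
  rw [stepVec_opp, sub_neg_eq_add, lev_add, lev_step_self] at h3
  omega

lemma mem_TX (L : List (Irr (IsUp u))) (x : Site d) (a : ℕ) (y : Site d) (k : ℕ) :
    (y, k) ∈ TT ht zX sX L x a
      ↔ y ∈ sitesL (x - endp 0 (wX L)) (wX L) ∧ (k : ℤ) = a + lev u x - lev u y := by
  induction L generalizing x a with
  | nil => simp [TT, wX, fl, sitesL]
  | cons b L ih =>
    rw [wX_cons, endp0_append, sitesL_append, List.mem_append]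
    have hz : lev u (zX b) = -(ht b : ℤ) := by
      unfold zX
      rw [lev_neg, (ht_spec b).2]
    have e1 : x - (endp 0 (wX L) + endp 0 b.1) = x + zX b - endp 0 (wX L) := by
      unfold zX; abel
    have e2 : endp (x - (endp 0 (wX L) + endp 0 b.1)) (wX L) = x - endp 0 b.1 := by
      rw [endp_eq_add]; abel
    rw [e2, e1]
    have key : (∃ q ∈ sX b, (y, k) = (x + q.1, a + q.2))
        ↔ (y ∈ sitesL (x - endp 0 b.1) b.1 ∧ (k : ℤ) = a + lev u x - lev u y) := by
      constructor
      · rintro ⟨⟨z, k'⟩, ⟨hz1, hz2⟩, he⟩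
        simp only [Prod.mk.injEq] at he hz1 hz2
        obtain ⟨rfl, rfl⟩ := he
        refine ⟨?_, ?_⟩
        · rw [mem_sitesL_shift] at hz1 ⊢
          rw [show x + z - (x - endp 0 b.1) = z - -(endp 0 b.1) by abel]
          exact hz1
        · rw [lev_add, hz2]; push_cast; ring
      · rintro ⟨hy, hk⟩
        have hy' := hy
        rw [mem_sitesL_shift] at hy'
        have h3 := (ht_spec b).1 _ hy'
        rw [show y - (x - endp 0 b.1) = y + (-x) + endp 0 b.1 by abel, lev_add, lev_add, lev_neg,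
          (ht_spec b).2] at h3
        refine ⟨(y - x, k - a), ⟨?_, ?_⟩, ?_⟩
        · simp only
          rw [mem_sitesL_shift]
          rw [show y - x - -(endp 0 b.1) = y - (x - endp 0 b.1) by abel]
          exact hy'
        · simp only
          rw [sub_eq_add_neg, lev_add, lev_neg]
          omega
        · simp only [Prod.mk.injEq]
          refine ⟨by abel, by omega⟩
    change ((∃ q ∈ sX b, (y, k) = (x + q.1, a + q.2)) ∨ (y, k) ∈ TT ht zX sX L (x + zX b) (a + ht b))
      ↔ _
    rw [key, ih, lev_add, hz]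
    push_cast
    constructor
    · rintro (⟨h1, h2⟩ | ⟨h1, h2⟩)
      · exact ⟨Or.inr h1, h2⟩
      · exact ⟨Or.inl h1, by omega⟩
    · rintro ⟨h1 | h1, h2⟩
      · exact Or.inr ⟨h1, by omega⟩
      · exact Or.inl ⟨h1, h2⟩

lemma mem_TY (L : List (Irr (IsDn u))) (x : Site d) (a : ℕ) (y : Site d) (k : ℕ) :
    (y, k) ∈ TT ht zY sY L x a
      ↔ y ∈ sitesL (x + stepVec (opp u)) (wY L) ∧ (k : ℤ) = a + lev u x - lev u y := by
  induction L generalizing x a with
  | nil => simp [TT, wY, fl, sitesL]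
  | cons b L ih =>
    rw [wY_cons, sitesL_append, List.mem_append]
    have hz : lev u (zY b) = -(ht b : ℤ) := (ht_spec b).2
    have e2 : endp (x + stepVec (opp u)) b.1 = x + zY b + stepVec (opp u) := by
      rw [endp_eq_add]; unfold zY; abel
    rw [e2]
    have key : (∃ q ∈ sY b, (y, k) = (x + q.1, a + q.2))
        ↔ (y ∈ sitesL (x + stepVec (opp u)) b.1 ∧ (k : ℤ) = a + lev u x - lev u y) := by
      constructor
      · rintro ⟨⟨z, k'⟩, ⟨hz1, hz2⟩, he⟩
        simp only [Prod.mk.injEq] at he hz1 hz2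
        obtain ⟨rfl, rfl⟩ := he
        refine ⟨?_, ?_⟩
        · rw [mem_sitesL_shift] at hz1 ⊢
          rw [show x + z - (x + stepVec (opp u)) = z - stepVec (opp u) by abel]
          exact hz1
        · rw [lev_add, hz2]; push_cast; ring
      · rintro ⟨hy, hk⟩
        have hy' := hy
        rw [mem_sitesL_shift] at hy'
        have h3 := (ht_spec b).1 _ hy'
        rw [show y - (x + stepVec (opp u)) = y + (-x) + (-(stepVec (opp u))) by abel, lev_add,
          lev_add, lev_neg, lev_neg, stepVec_opp, lev_neg, lev_step_self] at h3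
        refine ⟨(y - x, k - a), ⟨?_, ?_⟩, ?_⟩
        · simp only
          rw [mem_sitesL_shift]
          rw [show y - x - stepVec (opp u) = y - (x + stepVec (opp u)) by abel]
          exact hy'
        · simp only
          rw [sub_eq_add_neg, lev_add, lev_neg]
          omega
        · simp only [Prod.mk.injEq]
          refine ⟨by abel, by omega⟩
    change ((∃ q ∈ sY b, (y, k) = (x + q.1, a + q.2)) ∨ (y, k) ∈ TT ht zY sY L (x + zY b) (a + ht b))
      ↔ _
    rw [key, ih, lev_add, hz]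
    push_cast
    constructor
    · rintro (⟨h1, h2⟩ | ⟨h1, h2⟩)
      · exact ⟨Or.inl h1, h2⟩
      · exact ⟨Or.inr h1, by omega⟩
    · rintro ⟨h1 | h1, h2⟩
      · exact Or.inl ⟨h1, h2⟩
      · exact Or.inr ⟨h1, by omega⟩

/-! ### weights and sums -/

lemma HT_reverse {B : Type*} (h : B → ℕ) (L : List B) : HT h L.reverse = HT h L := by
  simp [HT]

lemma LW_reverse {B : Type*} (Λ : B → ℝ≥0∞) (L : List B) : LW Λ L.reverse = LW Λ L := by
  simp [LW, List.prod_reverse]

lemma aw_wX (L : List (Irr (IsUp u))) : aw ν (wX L) = LW (ΛX ν) L := by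
  induction L with
  | nil => rw [LW_nil]; exact aw_nil ν
  | cons b L ih =>
    have h1 : IsUp u (HT ht L) (wX L) := by
      have := P_fl (fac_up u) L.reverse
      rwa [HT_reverse] at this
    rw [wX_cons, aw_append_up ν h1 (ht_spec b), ih, LW_cons, mul_comm]
    rfl

lemma aw_wY (L : List (Irr (IsDn u))) : aw ν (wY L) = LW (ΛY ν) L := by
  induction L with
  | nil => rw [LW_nil]; exact aw_nil ν
  | cons b L ih =>
    have h1 : IsDn u (HT ht L) (wY L) := P_fl (fac_dn' u) L
    rw [wY_cons, aw_append_dn ν (ht_spec b) h1, ih, LW_cons]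
    rfl

open Classical in
theorem sumX (n : ℕ) (F : List (Step d) → ℝ≥0∞) :
    ∑' π, (if IsUp u n π then F π else 0)
      = ∑' L : List (Irr (IsUp u)), (if HT ht L = n then F (wX L) else 0) := by
  rw [tsum_fact (fac_up u)]
  have e := (List.reverse_involutive (α := Irr (IsUp u))).toPerm.tsum_eq
    (fun L : List (Irr (IsUp u)) => if HT ht L = n then F (fl L) else 0)
  rw [← e]
  refine tsum_congr fun L => ?_
  change (if HT ht L.reverse = n then F (fl L.reverse) else 0) = _
  rw [HT_reverse]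
  rfl

open Classical in
theorem sumY (n : ℕ) (F : List (Step d) → ℝ≥0∞) :
    ∑' π, (if IsDn u n π then F π else 0)
      = ∑' L : List (Irr (IsDn u)), (if HT ht L = n then F (wY L) else 0) :=
  tsum_fact (fac_dn' u) n F

open Classical in
/-- pairs of crossings = pairs of lists, any condition on the words -/
theorem sum2 (n n' : ℕ) (C : List (Step d) → List (Step d) → Prop) :
    ∑' π, ∑' γ, (if IsUp u n π ∧ IsDn u n' γ ∧ C π γ then aw ν π * aw ν γ else 0)
      = ∑' L : List (Irr (IsUp u)), ∑' L' : List (Irr (IsDn u)),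
        (if HT ht L = n ∧ HT ht L' = n' ∧ C (wX L) (wY L') then LW (ΛX ν) L * LW (ΛY ν) L'
          else 0) := by
  have h1 : ∀ π, ∑' γ, (if IsUp u n π ∧ IsDn u n' γ ∧ C π γ then aw ν π * aw ν γ else 0)
      = if IsUp u n π then ∑' γ, (if IsDn u n' γ then (if C π γ then aw ν π * aw ν γ else 0)
        else 0) else 0 := by
    intro π
    by_cases hπ : IsUp u n π
    · rw [if_pos hπ]
      refine tsum_congr fun γ => ?_
      by_cases h2 : IsDn u n' γ <;> by_cases h3 : C π γ <;> simp [hπ, h2, h3]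
    · simp [hπ]
  rw [tsum_congr h1, sumX n (fun π => ∑' γ, (if IsDn u n' γ then
    (if C π γ then aw ν π * aw ν γ else 0) else 0))]
  refine tsum_congr fun L => ?_
  by_cases hL : HT ht L = n
  · rw [if_pos hL, sumY n' (fun γ => if C (wX L) γ then aw ν (wX L) * aw ν γ else 0)]
    refine tsum_congr fun L' => ?_
    rw [aw_wX, aw_wY]
    by_cases h2 : HT ht L' = n' <;> by_cases h3 : C (wX L) (wY L') <;> simp [hL, h2, h3]
  · simp [hL]

/-- the contact depths in terms of the lists -/
lemma mem_Cm {w : Site d} (hw : lev u w = 0) (L : List (Irr (IsUp u))) (L' : List (Irr (IsDn u)))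
    (k : ℕ) : k ∈ Cm u w (wX L) (wY L')
      ↔ ∃ z, (z, k) ∈ TT ht zX sX L 0 0 ∧ (z, k) ∈ TT ht zY sY L' w 0 := by
  simp only [mem_TX, mem_TY, Cm, Set.mem_ofPred_eq, hw, lev_zero, zero_sub]
  constructor
  · rintro ⟨y, h1, h2, h3⟩
    exact ⟨y, ⟨h1, by push_cast; omega⟩, h2, by push_cast; omega⟩
  · rintro ⟨y, ⟨h1, h2⟩, h3, h4⟩
    exact ⟨y, h1, h3, by push_cast at h2; omega⟩

open Classical in
/-- **`KW` as a sum over pairs of lists of blocks** (first contact form) -/
theorem KW_eq {w : Site d} (hw : lev u w = 0) (n m : ℕ) :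
    KW ν u n m w
      = ∑' L : List (Irr (IsUp u)), ∑' L' : List (Irr (IsDn u)),
        (if HT ht L = n ∧ HT ht L' = n ∧
            (∀ z k, (z, k) ∈ TT ht zX sX L 0 0 → (z, k) ∈ TT ht zY sY L' w 0 → m < k) ∧
            (∃ z k, k ≤ 2 * m ∧ (z, k) ∈ TT ht zX sX L 0 0 ∧ (z, k) ∈ TT ht zY sY L' w 0)
          then LW (ΛX ν) L * LW (ΛY ν) L' else 0) := by
  have h0 := sum2 (u := u) ν n n (fun π γ => (∀ k ∈ Cm u w π γ, m < k) ∧ ∃ k ∈ Cm u w π γ, k ≤ 2 * m)
  have hite : ∀ (p : Prop) (i j : Decidable p) (x y : ℝ≥0∞), @ite _ p i x y = @ite _ p j x y :=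
    fun p i j x y => by congr
  unfold KW
  refine Eq.trans (tsum_congr fun π => tsum_congr fun γ => hite _ _ _ _ _) (Eq.trans h0 ?_)
  refine tsum_congr fun L => tsum_congr fun L' => ?_
  have hiff : (HT ht L = n ∧ HT ht L' = n ∧ (∀ k ∈ Cm u w (wX L) (wY L'), m < k) ∧
      ∃ k ∈ Cm u w (wX L) (wY L'), k ≤ 2 * m) ↔ (HT ht L = n ∧ HT ht L' = n ∧
            (∀ z k, (z, k) ∈ TT ht zX sX L 0 0 → (z, k) ∈ TT ht zY sY L' w 0 → m < k) ∧
            (∃ z k, k ≤ 2 * m ∧ (z, k) ∈ TT ht zX sX L 0 0 ∧ (z, k) ∈ TT ht zY sY L' w 0)) := by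
    refine and_congr_right fun _ => and_congr_right fun _ => and_congr ?_ ?_
    · constructor
      · intro h z k h1 h2
        exact h k ((mem_Cm hw L L' k).2 ⟨z, h1, h2⟩)
      · intro h k hk
        obtain ⟨z, h1, h2⟩ := (mem_Cm hw L L' k).1 hk
        exact h z k h1 h2
    · constructor
      · rintro ⟨k, hk, h2⟩
        obtain ⟨z, h3, h4⟩ := (mem_Cm hw L L' k).1 hk
        exact ⟨z, k, h2, h3, h4⟩
      · rintro ⟨z, k, h2, h3, h4⟩
        exact ⟨k, (mem_Cm hw L L' k).2 ⟨z, h3, h4⟩, h2⟩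
  by_cases hc : (HT ht L = n ∧ HT ht L' = n ∧ (∀ k ∈ Cm u w (wX L) (wY L'), m < k) ∧
      ∃ k ∈ Cm u w (wX L) (wY L'), k ≤ 2 * m)
  · rw [if_pos hc, if_pos (hiff.1 hc)]
  · rw [if_neg hc, if_neg (fun h => hc (hiff.2 h))]

open Classical in
/-- `KappaW` from the statement on lists, first contact form -/
theorem kappaW_of_lists
    (H : ∀ ε : ℝ≥0∞, ε ≠ 0 → ∃ M : ℕ, ∀ m, M ≤ m → ∀ n, 2 * m ≤ n → ∀ w : Site d, lev u w = 0 →
      ∑' L : List (Irr (IsUp u)), ∑' L' : List (Irr (IsDn u)),
        (if HT ht L = n ∧ HT ht L' = n ∧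
            (∀ z k, (z, k) ∈ TT ht zX sX L 0 0 → (z, k) ∈ TT ht zY sY L' w 0 → m < k) ∧
            (∃ z k, k ≤ 2 * m ∧ (z, k) ∈ TT ht zX sX L 0 0 ∧ (z, k) ∈ TT ht zY sY L' w 0)
          then LW (ΛX ν) L * LW (ΛY ν) L' else 0) ≤ ε) : KappaW ν u := by
  intro ε hε
  obtain ⟨M, hM⟩ := H ε hε
  refine ⟨M, fun m hm n hn w hw => ?_⟩
  rw [KW_eq ν hw]
  exact hM m hm n hn w hw

open Classical in
/-- `KappaW` from the statement on lists, any contact in `(m, 2m]` -/
theorem kappaW_of_kapS
    (H : ∀ ε : ℝ≥0∞, ε ≠ 0 → ∃ M : ℕ, ∀ m, M ≤ m → ∀ n, 2 * m ≤ n → ∀ w : Site d, lev u w = 0 →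
      ∑' L : List (Irr (IsUp u)), ∑' L' : List (Irr (IsDn u)),
        (if HT ht L = n ∧ HT ht L' = n ∧
            (∃ k z, m < k ∧ k ≤ 2 * m ∧ (z, k) ∈ TT ht zX sX L 0 0 ∧ (z, k) ∈ TT ht zY sY L' w 0)
          then LW (ΛX ν) L * LW (ΛY ν) L' else 0) ≤ ε) : KappaW ν u := by
  refine kappaW_of_lists ν fun ε hε => ?_
  obtain ⟨M, hM⟩ := H ε hε
  refine ⟨M, fun m hm n hn w hw => (ENNReal.tsum_le_tsum fun L => ENNReal.tsum_le_tsum
    fun L' => ?_).trans (hM m hm n hn w hw)⟩
  split_ifs with h1 h2 h2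
  · exact le_rfl
  · exact absurd ⟨h1.1, h1.2.1, by
      obtain ⟨z, k, h3, h4, h5⟩ := h1.2.2.2
      exact ⟨k, z, h1.2.2.1 z k h4 h5, h3, h4, h5⟩⟩ h2
  · exact zero_le
  · exact le_rfl

end Crest.Agent.R154.WD105
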