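import Crest.Agent.R154.AsmW_917
import Crest.Agent.R154.WD_105

/-! Row 154, ROAD 801 (helper917): assembly, part 4: the estimate of one window. -/

set_option autoImplicit false

namespace Crest.Agent.R154.Asm917

open scoped ENNReal
open Crest.Agent.R154.B5A Crest.Agent.R154.FP178
open Crest.Agent.R154.WD105 (TT)

section win

variable {BX BY G : Type*} [AddCommGroup G]
  (ΛX : BX → ℝ≥0∞) (hX : BX → ℕ) (zX : BX → G) (sX : BX → Set (G × ℕ))
  (ΛY : BY → ℝ≥0∞) (hY : BY → ℕ) (zY : BY → G) (sY : BY → Set (G × ℕ))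

/-- the two pieces have a common site and all the common sites are at depth in `[lo, hi]` -/
def con (lo hi : ℕ) (A : List BX) (A' : List BY) (x : G) (a a' : ℕ) : Prop :=
  (∃ z k, (z, k) ∈ TT hX zX sX A 0 a ∧ (z, k) ∈ TT hY zY sY A' x a') ∧
  (∀ z k, (z, k) ∈ TT hX zX sX A 0 a → (z, k) ∈ TT hY zY sY A' x a' → lo ≤ k ∧ k ≤ hi)

open Classical in
/-- window lemma (2), list form, X local -/
def H2 (us : ℕ → ℝ≥0∞) (C : ℝ≥0∞) : Prop :=
  ∀ (s h h' a a' lo : ℕ) (E : Finset G) (μ : G → ℝ≥0∞) (M lam : ℝ≥0∞),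
    ∑' x, μ x ≤ 1 → (∀ x, μ x ≤ M) → lam ≠ 0 → lam ≠ ⊤ → a + s ≤ lo → a' + s ≤ lo → a ≤ a' →
    ∑' x, μ x * ∑' L, ∑' L', (if HT hX L = h ∧ Dq zX L ∈ E ∧ HT hY L' = h' ∧
      (∃ z k, (z, k) ∈ TT hX zX sX L 0 a ∧ (z, k) ∈ TT hY zY sY L' x a') ∧
      (∀ z k, (z, k) ∈ TT hX zX sX L 0 a → (z, k) ∈ TT hY zY sY L' x a' → lo ≤ k)
      then LW ΛX L * LW ΛY L' else 0) ≤ C * (lam + M * E.card * us s / lam + us s)

open Classical in
/-- window lemma (3), list form, Y local -/
def H3 (us : ℕ → ℝ≥0∞) (C : ℝ≥0∞) : Prop :=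
  ∀ (s h h' a a' hi : ℕ) (E : Finset G) (μ : G → ℝ≥0∞) (M lam : ℝ≥0∞),
    ∑' x, μ x ≤ 1 → (∀ x, μ x ≤ M) → lam ≠ 0 → lam ≠ ⊤ → hi + s ≤ a + h → hi + s ≤ a' + h' →
    a + h ≤ a' + h' →
    ∑' x, μ x * ∑' L, ∑' L', (if HT hX L = h ∧ Dq zY L' ∈ E ∧ HT hY L' = h' ∧
      (∃ z k, (z, k) ∈ TT hX zX sX L 0 a ∧ (z, k) ∈ TT hY zY sY L' x a') ∧
      (∀ z k, (z, k) ∈ TT hX zX sX L 0 a → (z, k) ∈ TT hY zY sY L' x a' → k ≤ hi)
      then LW ΛX L * LW ΛY L' else 0) ≤ C * (lam + M * E.card * us s / lam + us s)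

lemma V_le {C M lam v : ℝ≥0∞} {θ : ℝ≥0∞} {j c : ℕ} (hc : (c : ℝ≥0∞) * θ ≤ 1)
    (hM : M = j * (2 * θ)) :
    C * (lam + M * c * v / lam + v) ≤ C * (lam + 2 * j * v / lam + v) := by
  refine mul_le_mul_right (add_le_add (add_le_add le_rfl ?_) le_rfl) _
  refine ENNReal.div_le_div_right ?_ _
  refine mul_le_mul_left ?_ _
  calc M * c = 2 * j * (c * θ) := by rw [hM]; ring
    _ ≤ 2 * j * 1 := mul_le_mul_right hc _
    _ = 2 * j := mul_one _

open Classical in
theorem window (us : ℕ → ℝ≥0∞) (C : ℝ≥0∞)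
    (h2 : H2 ΛX hX zX sX ΛY hY zY sY us C) (h3 : H3 ΛX hX zX sX ΛY hY zY sY us C)
    (T i0 D s j lo hi : ℕ)
    (hX1 : ∑' A, Wm ΛX hX T i0 A ≤ 1) (hY1 : ∑' A, Wm ΛY hY T i0 A ≤ 1)
    {u θX θY lam : ℝ≥0∞} (hl0 : lam ≠ 0) (hlt : lam ≠ ⊤)
    (EX EY : ℕ → Finset G) (SmX : List BX → Prop) (SmY : List BY → Prop)
    (cX : ∀ h, ((EX h).card : ℝ≥0∞) * θX ≤ 1) (cY : ∀ h, ((EY h).card : ℝ≥0∞) * θY ≤ 1)
    (nlX : ∑' A, Wm ΛX hX T i0 A * (if Dq zX A ∈ EX (HT hX A) then 0 else 1) ≤ u)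
    (nlY : ∑' A, Wm ΛY hY T i0 A * (if Dq zY A ∈ EY (HT hY A) then 0 else 1) ≤ u)
    (nsX : SL (Wm ΛX hX T i0) j (fun P => if ∃ A ∈ P, SmX A then 0 else 1) ≤ (1 - u) ^ j)
    (nsY : SL (Wm ΛY hY T i0) j (fun P => if ∃ A ∈ P, SmY A then 0 else 1) ≤ (1 - u) ^ j)
    (dX : ∀ a x, SL (Wm ΛX hX T i0) j (fun P => if (∃ A ∈ P, SmX A) ∧
        HT hX P.flatten = a ∧ Dq zX P.flatten = x then 1 else 0) ≤ j * (2 * θX))
    (dY : ∀ a x, SL (Wm ΛY hY T i0) j (fun P => if (∃ A ∈ P, SmY A) ∧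
        HT hY P.flatten = a ∧ Dq zY P.flatten = x then 1 else 0) ≤ j * (2 * θY))
    (hlo : D + i0 + j * (T + i0) + s ≤ lo) (hhi : hi + s ≤ (j + 1) * T)
    (hD : (j + 1) * i0 ≤ D) (y0 : G) (d0 : ℕ) (hd0 : D ≤ d0) (hd1 : d0 ≤ D + i0) :
    SL (Wm ΛX hX T i0) j (fun P => ∑' A, Wm ΛX hX T i0 A * SL (Wm ΛY hY T i0) j (fun Q =>
      ∑' A', Wm ΛY hY T i0 A' * (if con hX zX sX hY zY sY lo hi A A'
        (y0 + Dq zY Q.flatten - Dq zX P.flatten) (HT hX P.flatten) (d0 + HT hY Q.flatten)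
        then 1 else 0)))
      ≤ u * u + (1 - u) ^ j + (1 - u) ^ j
        + ((Finset.Icc (j * T) (j * (T + i0))).card * ((i0 + 1) * (i0 + 1)) : ℕ) *
          (C * (lam + 2 * j * us s / lam + us s))
        + ((Finset.Icc (j * T) (j * (T + i0))).card * ((i0 + 1) * (i0 + 1)) : ℕ) *
          (C * (lam + 2 * j * us s / lam + us s)) := by
  set WX := Wm ΛX hX T i0 with hWX
  set WY := Wm ΛY hY T i0 with hWY
  set V := C * (lam + 2 * j * us s / lam + us s) with hV
  set N := (((Finset.Icc (j * T) (j * (T + i0))).card * ((i0 + 1) * (i0 + 1)) : ℕ) : ℝ≥0∞) with hN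
  set cc : List (List BX) → List (List BY) → List BX → List BY → Prop := fun P Q A A' =>
    con hX zX sX hY zY sY lo hi A A'
        (y0 + Dq zY Q.flatten - Dq zX P.flatten) (HT hX P.flatten) (d0 + HT hY Q.flatten) with hcc
  -- the five parts
  set g4 : List (List BX) → List (List BY) → List BX → List BY → ℝ≥0∞ := fun _ _ A A' =>
    (if Dq zX A ∈ EX (HT hX A) then 0 else 1) * (if Dq zY A' ∈ EY (HT hY A') then 0 else 1) with hg4
  set g2 : List (List BX) → List (List BY) → List BX → List BY → ℝ≥0∞ := fun P Q A A' =>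
    (if Dq zX A ∈ EX (HT hX A) ∧ (∃ b ∈ P, SmX b) ∧ cc P Q A A' then 1 else 0) with hg2
  set g3 : List (List BX) → List (List BY) → List BX → List BY → ℝ≥0∞ := fun P Q A A' =>
    (if Dq zY A' ∈ EY (HT hY A') ∧ (∃ b ∈ Q, SmY b) ∧ cc P Q A A' then 1 else 0) with hg3
  set nX : List (List BX) → ℝ≥0∞ := fun P => if ∃ A ∈ P, SmX A then 0 else 1 with hnX
  set nY : List (List BY) → ℝ≥0∞ := fun P => if ∃ A ∈ P, SmY A then 0 else 1 with hnY
  have hle : ∀ P Q A A', (if cc P Q A A' then (1 : ℝ≥0∞) else 0)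
      ≤ g4 P Q A A' + nX P + nY Q + g2 P Q A A' + g3 P Q A A' := by
    intro P Q A A'
    by_cases hc : cc P Q A A'
    · rw [if_pos hc]
      by_cases a1 : ∃ b ∈ P, SmX b
      · by_cases a2 : ∃ b ∈ Q, SmY b
        · by_cases a3 : Dq zX A ∈ EX (HT hX A)
          · have : g2 P Q A A' = 1 := by simp only [hg2]; rw [if_pos ⟨a3, a1, hc⟩]
            rw [this]; exact le_add_right (le_add_left le_rfl)
          · by_cases a4 : Dq zY A' ∈ EY (HT hY A')
            · have : g3 P Q A A' = 1 := by simp only [hg3]; rw [if_pos ⟨a4, a2, hc⟩]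
              rw [this]; exact le_add_left le_rfl
            · have : g4 P Q A A' = 1 := by simp only [hg4]; rw [if_neg a3, if_neg a4, mul_one]
              rw [this, add_assoc, add_assoc, add_assoc]; exact le_add_right le_rfl
        · have : nY Q = 1 := by simp only [hnY]; rw [if_neg a2]
          rw [this]; exact le_add_right (le_add_right (le_add_left le_rfl))
      · have : nX P = 1 := by simp only [hnX]; rw [if_neg a1]
        rw [this]; exact le_add_right (le_add_right (le_add_right (le_add_left le_rfl)))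
    · rw [if_neg hc]; exact zero_le
  -- the quadruple sum
  set Z : (List (List BX) → List (List BY) → List BX → List BY → ℝ≥0∞) → ℝ≥0∞ := fun F =>
    SL WX j (fun P => SL WY j (fun Q => ∑' A, ∑' A', WX A * WY A' * F P Q A A')) with hZ
  have hZadd : ∀ F F', Z (fun P Q A A' => F P Q A A' + F' P Q A A') = Z F + Z F' := by
    intro F F'
    simp only [hZ]
    rw [← SL_add_fun]
    refine SL_congr WX j fun P _ => ?_
    rw [← SL_add_fun]
    refine SL_congr WY j fun Q _ => ?_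
    rw [← ENNReal.tsum_add]
    refine tsum_congr fun A => ?_
    rw [← ENNReal.tsum_add]
    exact tsum_congr fun A' => mul_add _ _ _
  have hZmono : ∀ F F', (∀ P Q A A', F P Q A A' ≤ F' P Q A A') → Z F ≤ Z F' := by
    intro F F' h
    exact SL_mono WX j fun P _ => SL_mono WY j fun Q _ => ENNReal.tsum_le_tsum fun A =>
      ENNReal.tsum_le_tsum fun A' => mul_le_mul_right (h P Q A A') _
  have e0 : SL WX j (fun P => ∑' A, WX A * SL WY j (fun Q =>
      ∑' A', WY A' * (if cc P Q A A' then 1 else 0)))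
      = Z (fun P Q A A' => if cc P Q A A' then 1 else 0) := by
    simp only [hZ]
    refine SL_congr WX j fun P _ => ?_
    rw [SL_tsum]
    refine tsum_congr fun A => ?_
    rw [← SL_const_mul]
    refine SL_congr WY j fun Q _ => ?_
    rw [← ENNReal.tsum_mul_left]
    exact tsum_congr fun A' => (mul_assoc _ _ _).symm
  have z4 : Z g4 ≤ u * u := by
    simp only [hZ]
    have : ∀ P Q, ∑' A, ∑' A', WX A * WY A' * g4 P Q A A'
        = (∑' A, WX A * (if Dq zX A ∈ EX (HT hX A) then 0 else 1))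
          * (∑' A', WY A' * (if Dq zY A' ∈ EY (HT hY A') then 0 else 1)) := by
      intro P Q
      rw [← ENNReal.tsum_mul_right]
      refine tsum_congr fun A => ?_
      rw [← ENNReal.tsum_mul_left]
      refine tsum_congr fun A' => ?_
      simp only [hg4]; ring
    calc _ ≤ SL WX j (fun _ => SL WY j (fun _ => u * u)) :=
          SL_mono WX j fun P _ => SL_mono WY j fun Q _ => by
            rw [this P Q]; exact mul_le_mul' nlX nlY
      _ ≤ SL WX j (fun _ => u * u) := SL_mono WX j fun P _ => SL_le_const hY1 j _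
      _ ≤ _ := SL_le_const hX1 j _
  have sum1 : ∀ c : ℝ≥0∞, ∑' A, ∑' A', WX A * WY A' * c ≤ c := by
    intro c
    calc ∑' A, ∑' A', WX A * WY A' * c = (∑' A, WX A) * (∑' A', WY A') * c := by
          rw [← ENNReal.tsum_mul_right, ← ENNReal.tsum_mul_right]
          refine tsum_congr fun A => ?_
          rw [← ENNReal.tsum_mul_left, ← ENNReal.tsum_mul_right]
      _ ≤ 1 * 1 * c := mul_le_mul_left (mul_le_mul' hX1 hY1) _
      _ = c := by ring
  have qX : Z (fun P _ _ _ => nX P) ≤ (1 - u) ^ j := by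
    refine le_trans (SL_mono WX j fun P _ => ?_) nsX
    exact (SL_mono WY j fun Q _ => sum1 _).trans (SL_le_const hY1 j _)
  have qY : Z (fun _ Q _ _ => nY Q) ≤ (1 - u) ^ j := by
    refine le_trans (SL_mono WX j fun P _ => ?_) (SL_le_const hX1 j _)
    exact (SL_mono WY j fun Q _ => sum1 _).trans nsY
  have z2 : Z g2 ≤ N * V := by
    simp only [hZ]
    rw [SL_comm]
    refine le_trans (SL_mono' j fun Q hQ hQ0 => ?_) (SL_le_const hY1 j _)
    have hb := HT_flatten_supp ΛY hY Q hQ0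
    rw [hQ] at hb
    have hh := half ΛX hX zX ΛY hY T i0 j EX SmX (j * (2 * θX)) V hX1
      (fun A A' x a => con hX zX sX hY zY sY lo hi A A' x a (d0 + HT hY Q.flatten)) dX (by
        intro a ha h hh h' hh' μ hμ1 hμM
        rw [Finset.mem_Icc] at ha hh hh'
        have e1 : j * (T + i0) = j * T + j * i0 := by ring
        have e2 : (j + 1) * i0 = j * i0 + i0 := by ring
        refine le_trans (ENNReal.tsum_le_tsum fun x => mul_le_mul_right
          (ENNReal.tsum_le_tsum fun L => ENNReal.tsum_le_tsum fun L' => ?_) _)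
          ((h2 s h h' a (d0 + HT hY Q.flatten) lo (EX h) μ (j * (2 * θX)) lam hμ1 hμM hl0 hlt
            (by omega) (by omega) (by omega)).trans (V_le (cX h) rfl))
        split_ifs with h4 h5
        · exact le_rfl
        · exact absurd ⟨h4.1, h4.2.1, h4.2.2.1, h4.2.2.2.1,
            fun z k hz hz' => (h4.2.2.2.2 z k hz hz').1⟩ h5
        · exact zero_le
        · exact le_rfl) (y0 + Dq zY Q.flatten)
    exact hh
  have z3 : Z g3 ≤ N * V := by
    simp only [hZ]
    refine le_trans (SL_mono' j fun P hP hP0 => ?_) (SL_le_const hX1 j _)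
    have hb := HT_flatten_supp ΛX hX P hP0
    rw [hP] at hb
    have hh := half ΛY hY zY ΛX hX T i0 j EY SmY (j * (2 * θY)) V hY1
      (fun A' A x a => con hX zX sX hY zY sY lo hi A A' (-x) (HT hX P.flatten) (d0 + a)) dY (by
        intro a ha h' hh' h hh μ hμ1 hμM
        rw [Finset.mem_Icc] at ha hh hh'
        have e1 : j * (T + i0) = j * T + j * i0 := by ring
        have e2 : (j + 1) * i0 = j * i0 + i0 := by ring
        have e3 : (j + 1) * T = j * T + T := by ring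
        have hneg : ∑' x, μ (-x) = ∑' x, μ x := (Equiv.neg G).tsum_eq μ
        have hμ1' : ∑' x, μ (-x) ≤ 1 := by
          rw [hneg]; exact hμ1
        refine le_trans ?_ ((h3 s h h' (HT hX P.flatten) (d0 + a) hi (EY h')
          (fun x => μ (-x)) (j * (2 * θY)) lam hμ1' (fun x => hμM _) hl0 hlt
            (by omega) (by omega) (by omega)).trans (V_le (cY h') rfl))
        rw [← (Equiv.neg G).tsum_eq]
        refine ENNReal.tsum_le_tsum fun x => ?_
        simp only [Equiv.neg_apply, neg_neg]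
        refine mul_le_mul_right ?_ _
        rw [ENNReal.tsum_comm]
        refine ENNReal.tsum_le_tsum fun L => ENNReal.tsum_le_tsum fun L' => ?_
        split_ifs with h4 h5
        · exact (mul_comm _ _).le
        · exact absurd ⟨h4.2.2.1, h4.2.1, h4.1, h4.2.2.2.1,
            fun z k hz hz' => (h4.2.2.2.2 z k hz hz').2⟩ h5
        · exact zero_le
        · exact le_rfl) (Dq zX P.flatten - y0)
    refine le_trans (le_of_eq ?_) hh
    refine SL_congr WY j fun Q _ => ?_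
    rw [ENNReal.tsum_comm]
    refine tsum_congr fun A' => tsum_congr fun A => ?_
    have e5 : -(Dq zX P.flatten - y0 - Dq zY Q.flatten)
        = y0 + Dq zY Q.flatten - Dq zX P.flatten := by abel
    simp only [hg3, hcc]
    rw [e5, mul_comm (WX A)]
  rw [e0]
  refine (hZmono _ _ hle).trans ?_
  rw [hZadd, hZadd, hZadd, hZadd]
  exact add_le_add (add_le_add (add_le_add (add_le_add z4 qX) qY) z2) z3

end win

end Crest.Agent.R154.Asm917
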