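import Crest.Agent.R154.AsmW_95

/-! Row 154 (helper95), ROAD 801: one window of the pair. -/

set_option autoImplicit false

namespace Crest.Agent.R154.Asm95

open scoped ENNReal
open Crest.Agent.R154.B5A Crest.Agent.R154.FP178
open Classical

lemma reorder1 {ι κ : Type*} (gA gP : ι → ℝ≥0∞) (gA' gP' : κ → ℝ≥0∞)
    (f : ι → ι → κ → κ → ℝ≥0∞) :
    ∑' A, gA A * ∑' P, gP P * ∑' A', gA' A' * ∑' P', gP' P' * f A P A' P'
      = ∑' A', gA' A' * ∑' A, gA A * ∑' P, ∑' P', gP P * gP' P' * f A P A' P' := by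
  simp only [← ENNReal.tsum_mul_left]
  calc _ = ∑' A, ∑' A', ∑' P, ∑' P', gA A * (gP P * (gA' A' * (gP' P' * f A P A' P'))) :=
        tsum_congr fun A => ENNReal.tsum_comm
    _ = ∑' A', ∑' A, ∑' P, ∑' P', gA A * (gP P * (gA' A' * (gP' P' * f A P A' P'))) :=
        ENNReal.tsum_comm
    _ = _ := by
        refine tsum_congr fun A' => tsum_congr fun A => tsum_congr fun P => tsum_congr fun P' => ?_
        ring

lemma reorder2 {ι κ : Type*} (gA gP : ι → ℝ≥0∞) (gA' gP' : κ → ℝ≥0∞)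
    (f : ι → ι → κ → κ → ℝ≥0∞) :
    ∑' A, gA A * ∑' P, gP P * ∑' A', gA' A' * ∑' P', gP' P' * f A P A' P'
      = ∑' A, gA A * ∑' A', gA' A' * ∑' P, ∑' P', gP P * gP' P' * f A P A' P' := by
  simp only [← ENNReal.tsum_mul_left]
  calc _ = ∑' A, ∑' A', ∑' P, ∑' P', gA A * (gP P * (gA' A' * (gP' P' * f A P A' P'))) :=
        tsum_congr fun A => ENNReal.tsum_comm
    _ = _ := by
        refine tsum_congr fun A' => tsum_congr fun A => tsum_congr fun P => tsum_congr fun P' => ?_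
        ring

section Win

variable {BX BY G : Type*} [AddCommGroup G]
  (ΛX : BX → ℝ≥0∞) (hX : BX → ℕ) (zX : BX → G) (TX : List BX → G → ℕ → Set (G × ℕ))
  (ΛY : BY → ℝ≥0∞) (hY : BY → ℕ) (zY : BY → G) (TY : List BY → G → ℕ → Set (G × ℕ))

/-- event of two pieces: some contact, all contacts in `[lo, hi]` -/
def Q (lo hi a a' : ℕ) (x : G) (P : List BX) (P' : List BY) : Prop :=
  (∃ y k, (y, k) ∈ TX P 0 a ∧ (y, k) ∈ TY P' x a') ∧
    ∀ y k, (y, k) ∈ TX P 0 a → (y, k) ∈ TY P' x a' → lo ≤ k ∧ k ≤ hi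

/-- event of two whole lists -/
def Ev (w : G) (lo md hi hi2 : ℕ) (L : List BX) (L' : List BY) : Prop :=
  (∃ y k, (y, k) ∈ TX L 0 0 ∧ (y, k) ∈ TY L' w 0 ∧ k ≤ md) ∧
    ∀ y k, (y, k) ∈ TX L 0 0 → (y, k) ∈ TY L' w 0 → lo ≤ k ∧ (k ≤ hi ∨ hi2 < k)

lemma two (T T' i0 : ℕ) (μ : G → ℝ≥0∞) (W : G → List BX → List BY → Prop)
    (K : ℕ → ℕ → G → List BX → List BY → Prop)
    (hK : ∀ x P P' i i', HT hX P = T + i → HT hY P' = T' + i' → W x P P' → K i i' x P P')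
    (Hb : ℝ≥0∞) (hH : ∀ i i', i ≤ i0 → i' ≤ i0 → ∑' x, μ x * ∑' P, ∑' P',
      (if K i i' x P P' then LW ΛX P * LW ΛY P' else 0) ≤ Hb) :
    ∑' x, μ x * ∑' P, ∑' P', gg ΛX hX i0 T P * gg ΛY hY i0 T' P' * (if W x P P' then 1 else 0)
      ≤ ((i0 + 1 : ℕ) : ℝ≥0∞) * (((i0 + 1 : ℕ) : ℝ≥0∞) * Hb) := by
  have hpt : ∀ x P P', gg ΛX hX i0 T P * gg ΛY hY i0 T' P' * (if W x P P' then 1 else 0)
      ≤ ∑ i ∈ Finset.range (i0 + 1), ∑ i' ∈ Finset.range (i0 + 1),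
        (if K i i' x P P' then LW ΛX P * LW ΛY P' else 0) := by
    intro x P P'
    by_cases hP : fp hX T P ∧ HT hX P ≤ T + i0
    · by_cases hP' : fp hY T' P' ∧ HT hY P' ≤ T' + i0
      · by_cases hW : W x P P'
        · have a1 := le_HT_of_fp hX hP.1
          have a2 := le_HT_of_fp hY hP'.1
          rw [gg, gg, if_pos hP, if_pos hP', if_pos hW, mul_one]
          have m1 : HT hX P - T ∈ Finset.range (i0 + 1) := Finset.mem_range.2 (by omega)
          have m2 : HT hY P' - T' ∈ Finset.range (i0 + 1) := Finset.mem_range.2 (by omega)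
          refine le_trans ?_ (Finset.single_le_sum (f := fun i =>
            ∑ i' ∈ Finset.range (i0 + 1), (if K i i' x P P' then LW ΛX P * LW ΛY P' else 0))
            (fun _ _ => zero_le) m1)
          refine le_trans ?_ (Finset.single_le_sum (f := fun i' =>
            (if K (HT hX P - T) i' x P P' then LW ΛX P * LW ΛY P' else 0))
            (fun _ _ => zero_le) m2)
          rw [if_pos (hK x P P' _ _ (by omega) (by omega) hW)]
        · rw [if_neg hW, mul_zero]; exact zero_le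
      · have : gg ΛY hY i0 T' P' = 0 := by rw [gg, if_neg hP']
        rw [this, mul_zero, zero_mul]; exact zero_le
    · have : gg ΛX hX i0 T P = 0 := by rw [gg, if_neg hP]
      rw [this, zero_mul, zero_mul]; exact zero_le
  calc ∑' x, μ x * ∑' P, ∑' P', gg ΛX hX i0 T P * gg ΛY hY i0 T' P' * (if W x P P' then 1 else 0)
      ≤ ∑' x, μ x * ∑' P, ∑' P', ∑ i ∈ Finset.range (i0 + 1), ∑ i' ∈ Finset.range (i0 + 1),
        (if K i i' x P P' then LW ΛX P * LW ΛY P' else 0) := by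
        refine ENNReal.tsum_le_tsum fun x => mul_le_mul_right ?_ _
        exact ENNReal.tsum_le_tsum fun P => ENNReal.tsum_le_tsum fun P' => hpt x P P'
    _ = ∑ i ∈ Finset.range (i0 + 1), ∑ i' ∈ Finset.range (i0 + 1), ∑' x, μ x * ∑' P, ∑' P',
        (if K i i' x P P' then LW ΛX P * LW ΛY P' else 0) := by
        simp only [Summable.tsum_finsetSum (fun _ _ => ENNReal.summable), Finset.mul_sum]
    _ ≤ ∑ i ∈ Finset.range (i0 + 1), ∑ i' ∈ Finset.range (i0 + 1), Hb := by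
        refine Finset.sum_le_sum fun i hi => Finset.sum_le_sum fun i' hi' => ?_
        have h1 := Finset.mem_range.1 hi
        have h2 := Finset.mem_range.1 hi'
        exact hH i i' (by omega) (by omega)
    _ = _ := by
        rw [Finset.sum_const, Finset.sum_const, Finset.card_range, nsmul_eq_mul, nsmul_eq_mul]

omit [AddCommGroup G] in
lemma sum_pp (h1X : ∀ b, 1 ≤ hX b) (h1Y : ∀ b, 1 ≤ hY b) (hΛX : ∑' b, ΛX b ≤ 1)
    (hΛY : ∑' b, ΛY b ≤ 1) (T T' i0 : ℕ) (W : List BX → List BY → Prop) :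
    ∑' P, ∑' P', gg ΛX hX i0 T P * gg ΛY hY i0 T' P' * (if W P P' then 1 else 0) ≤ 1 := by
  calc ∑' P, ∑' P', gg ΛX hX i0 T P * gg ΛY hY i0 T' P' * (if W P P' then 1 else 0)
      ≤ ∑' P, gg ΛX hX i0 T P * ∑' P', gg ΛY hY i0 T' P' := by
        refine ENNReal.tsum_le_tsum fun P => ?_
        rw [← ENNReal.tsum_mul_left]
        refine ENNReal.tsum_le_tsum fun P' => ?_
        by_cases h : W P P' <;> simp [h]
    _ ≤ ∑' P, gg ΛX hX i0 T P * 1 := by
        refine ENNReal.tsum_le_tsum fun P => mul_le_mul_right ?_ _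
        exact gg_sum ΛY hY h1Y hΛY i0 T'
    _ ≤ 1 := by simpa using gg_sum ΛX hX h1X hΛX i0 T

lemma nonloc {B : Type*} (Λ : B → ℝ≥0∞) (ht : B → ℕ) (z : B → G) (T i0 : ℕ) (u th : ℝ≥0∞)
    (hu : ∑' k, (if pk Λ ht z T k < th then pk Λ ht z T k else 0) ≤ u) :
    ∑' P, gg Λ ht i0 T P * (if th ≤ pk Λ ht z T (HT ht P, Dp z P) then 0 else 1) ≤ u := by
  calc ∑' P, gg Λ ht i0 T P * (if th ≤ pk Λ ht z T (HT ht P, Dp z P) then 0 else 1)
      ≤ ∑' P, (if fp ht T P then LW Λ P else 0) *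
        (fun k : ℕ × G => (if th ≤ pk Λ ht z T k then (0 : ℝ≥0∞) else 1)) (HT ht P, Dp z P) :=
        ENNReal.tsum_le_tsum fun P => mul_le_mul_left (gg_le Λ ht i0 T P) _
    _ = ∑' k, pk Λ ht z T k * (if th ≤ pk Λ ht z T k then (0 : ℝ≥0∞) else 1) :=
        push_pk Λ ht z T (fun k : ℕ × G => (if th ≤ pk Λ ht z T k then (0 : ℝ≥0∞) else 1))
    _ ≤ u := by
        refine le_trans (ENNReal.tsum_le_tsum fun k => ?_) hu
        by_cases h : pk Λ ht z T k < th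
        · rw [if_pos h, if_neg (not_le.2 h), mul_one]
        · rw [if_pos (not_lt.1 h), mul_zero]; exact zero_le

/-- the main sum of one window -/
theorem main_sum (h1X : ∀ b, 1 ≤ hX b) (h1Y : ∀ b, 1 ≤ hY b) (hΛX : ∑' b, ΛX b ≤ 1)
    (hΛY : ∑' b, ΛY b ≤ 1) (w : G) (α T α' T' i0 lo hi : ℕ) (u thX thY GX GY βX βY Hb : ℝ≥0∞)
    (huX : ∑' k, (if pk ΛX hX zX T k < thX then pk ΛX hX zX T k else 0) ≤ u)
    (huY : ∑' k, (if pk ΛY hY zY T' k < thY then pk ΛY hY zY T' k else 0) ≤ u)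
    (bX : ℕ → G → ℝ≥0∞) (hbX : ∀ j y, pk ΛX hX zX α (α + j, y) ≤ GX + bX j y)
    (hβX : ∑' j, ∑' y, bX j y ≤ βX)
    (bY : ℕ → G → ℝ≥0∞) (hbY : ∀ j y, pk ΛY hY zY α' (α' + j, y) ≤ GY + bY j y)
    (hβY : ∑' j, ∑' y, bY j y ≤ βY)
    (H2 : ∀ j j' i i', j ≤ i0 → j' ≤ i0 → i ≤ i0 → i' ≤ i0 → ∀ μ : G → ℝ≥0∞, ∑' x, μ x ≤ 1 →
      (∀ x, μ x ≤ GX) → ∑' x, μ x * ∑' P, ∑' P',
      (if HT hX P = T + i ∧ thX ≤ pk ΛX hX zX T (T + i, Dp zX P) ∧ HT hY P' = T' + i' ∧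
        Q TX TY lo hi (α + j) (α' + j') x P P' then LW ΛX P * LW ΛY P' else 0) ≤ Hb)
    (H3 : ∀ j j' i i', j ≤ i0 → j' ≤ i0 → i ≤ i0 → i' ≤ i0 → ∀ μ : G → ℝ≥0∞, ∑' x, μ x ≤ 1 →
      (∀ x, μ x ≤ GY) → ∑' x, μ x * ∑' P, ∑' P',
      (if HT hX P = T + i ∧ thY ≤ pk ΛY hY zY T' (T' + i', Dp zY P') ∧ HT hY P' = T' + i' ∧
        Q TX TY lo hi (α + j) (α' + j') x P P' then LW ΛX P * LW ΛY P' else 0) ≤ Hb) :
    ∑' A, gg ΛX hX i0 α A * ∑' P, gg ΛX hX i0 T P * ∑' A', gg ΛY hY i0 α' A' *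
      ∑' P', gg ΛY hY i0 T' P' *
        (if Q TX TY lo hi (HT hX A) (HT hY A') (w + Dp zY A' - Dp zX A) P P' then 1 else 0)
      ≤ u * u + (βX + ((i0 + 1 : ℕ) : ℝ≥0∞) * (((i0 + 1 : ℕ) : ℝ≥0∞) *
          (((i0 + 1 : ℕ) : ℝ≥0∞) * (((i0 + 1 : ℕ) : ℝ≥0∞) * Hb))))
        + (βY + ((i0 + 1 : ℕ) : ℝ≥0∞) * (((i0 + 1 : ℕ) : ℝ≥0∞) *
          (((i0 + 1 : ℕ) : ℝ≥0∞) * (((i0 + 1 : ℕ) : ℝ≥0∞) * Hb)))) := by
  set nX : List BX → ℝ≥0∞ := fun P => if thX ≤ pk ΛX hX zX T (HT hX P, Dp zX P) then 0 else 1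
    with hnX
  set nY : List BY → ℝ≥0∞ := fun P => if thY ≤ pk ΛY hY zY T' (HT hY P, Dp zY P) then 0 else 1
    with hnY
  obtain ⟨WX, hWX⟩ : ∃ W : ℕ → ℕ → G → List BX → List BY → Prop, ∀ a a' x P P', W a a' x P P' ↔
    (thX ≤ pk ΛX hX zX T (HT hX P, Dp zX P) ∧ Q TX TY lo hi a a' x P P') :=
    ⟨fun a a' x P P' => thX ≤ pk ΛX hX zX T (HT hX P, Dp zX P) ∧ Q TX TY lo hi a a' x P P',
      fun _ _ _ _ _ => Iff.rfl⟩
  obtain ⟨WY, hWY⟩ : ∃ W : ℕ → ℕ → G → List BX → List BY → Prop, ∀ a a' x P P', W a a' x P P' ↔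
    (thY ≤ pk ΛY hY zY T' (HT hY P', Dp zY P') ∧ Q TX TY lo hi a a' x P P') :=
    ⟨fun a a' x P P' => thY ≤ pk ΛY hY zY T' (HT hY P', Dp zY P') ∧ Q TX TY lo hi a a' x P P',
      fun _ _ _ _ _ => Iff.rfl⟩
  have hpt : ∀ a a' x P P', (if Q TX TY lo hi a a' x P P' then (1 : ℝ≥0∞) else 0)
      ≤ nX P * nY P' + (if WX a a' x P P' then 1 else 0) + (if WY a a' x P P' then 1 else 0) := by
    intro a a' x P P'
    by_cases hq : Q TX TY lo hi a a' x P P'
    · rw [if_pos hq]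
      by_cases h1 : thX ≤ pk ΛX hX zX T (HT hX P, Dp zX P)
      · refine le_add_right (le_add_left ?_)
        rw [if_pos ((hWX _ _ _ _ _).2 ⟨h1, hq⟩)]
      · by_cases h2 : thY ≤ pk ΛY hY zY T' (HT hY P', Dp zY P')
        · refine le_add_left ?_
          rw [if_pos ((hWY _ _ _ _ _).2 ⟨h2, hq⟩)]
        · refine le_add_right (le_add_right ?_)
          simp only [hnX, hnY]
          rw [if_neg h1, if_neg h2, mul_one]
    · rw [if_neg hq]; exact zero_le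
  have hsplit : ∑' A, gg ΛX hX i0 α A * ∑' P, gg ΛX hX i0 T P * ∑' A', gg ΛY hY i0 α' A' *
      ∑' P', gg ΛY hY i0 T' P' *
        (if Q TX TY lo hi (HT hX A) (HT hY A') (w + Dp zY A' - Dp zX A) P P' then 1 else 0)
      ≤ (∑' A, gg ΛX hX i0 α A * ∑' P, gg ΛX hX i0 T P * ∑' A', gg ΛY hY i0 α' A' *
      ∑' P', gg ΛY hY i0 T' P' * (nX P * nY P'))
      + (∑' A, gg ΛX hX i0 α A * ∑' P, gg ΛX hX i0 T P * ∑' A', gg ΛY hY i0 α' A' *
      ∑' P', gg ΛY hY i0 T' P' *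
        (if WX (HT hX A) (HT hY A') (w + Dp zY A' - Dp zX A) P P' then 1 else 0))
      + (∑' A, gg ΛX hX i0 α A * ∑' P, gg ΛX hX i0 T P * ∑' A', gg ΛY hY i0 α' A' *
      ∑' P', gg ΛY hY i0 T' P' *
        (if WY (HT hX A) (HT hY A') (w + Dp zY A' - Dp zX A) P P' then 1 else 0)) := by
    simp only [← ENNReal.tsum_add, ← mul_add]
    refine ENNReal.tsum_le_tsum fun A => mul_le_mul_right ?_ _
    refine ENNReal.tsum_le_tsum fun P => mul_le_mul_right ?_ _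
    refine ENNReal.tsum_le_tsum fun A' => mul_le_mul_right ?_ _
    refine ENNReal.tsum_le_tsum fun P' => mul_le_mul_right ?_ _
    exact hpt _ _ _ _ _
  refine hsplit.trans ?_
  refine add_le_add (add_le_add ?_ ?_) ?_
  · -- both non local
    calc ∑' A, gg ΛX hX i0 α A * ∑' P, gg ΛX hX i0 T P * ∑' A', gg ΛY hY i0 α' A' *
          ∑' P', gg ΛY hY i0 T' P' * (nX P * nY P')
        = ∑' A, gg ΛX hX i0 α A * ∑' P, gg ΛX hX i0 T P * nX P * ∑' A', gg ΛY hY i0 α' A' *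
          ∑' P', gg ΛY hY i0 T' P' * nY P' := by
          refine tsum_congr fun A => ?_
          congr 1
          refine tsum_congr fun P => ?_
          rw [mul_assoc, ← ENNReal.tsum_mul_left (a := nX P)]
          congr 1
          refine tsum_congr fun A' => ?_
          rw [← ENNReal.tsum_mul_left, ← ENNReal.tsum_mul_left, ← ENNReal.tsum_mul_left]
          refine tsum_congr fun P' => ?_
          ring
      _ ≤ ∑' A, gg ΛX hX i0 α A * ∑' P, gg ΛX hX i0 T P * nX P * ∑' A', gg ΛY hY i0 α' A' * u := by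
          refine ENNReal.tsum_le_tsum fun A => mul_le_mul_right ?_ _
          refine ENNReal.tsum_le_tsum fun P => mul_le_mul_right ?_ _
          refine ENNReal.tsum_le_tsum fun A' => mul_le_mul_right ?_ _
          exact nonloc ΛY hY zY T' i0 u thY huY
      _ ≤ ∑' A, gg ΛX hX i0 α A * ∑' P, gg ΛX hX i0 T P * nX P * u := by
          refine ENNReal.tsum_le_tsum fun A => mul_le_mul_right ?_ _
          refine ENNReal.tsum_le_tsum fun P => mul_le_mul_right ?_ _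
          rw [ENNReal.tsum_mul_right]
          calc _ ≤ 1 * u := mul_le_mul_left (gg_sum ΛY hY h1Y hΛY i0 α') _
            _ = u := one_mul _
      _ ≤ ∑' A, gg ΛX hX i0 α A * (u * u) := by
          refine ENNReal.tsum_le_tsum fun A => mul_le_mul_right ?_ _
          rw [ENNReal.tsum_mul_right]
          exact mul_le_mul_left (nonloc ΛX hX zX T i0 u thX huX) _
      _ ≤ 1 * (u * u) := by
          rw [ENNReal.tsum_mul_right]
          exact mul_le_mul_left (gg_sum ΛX hX h1X hΛX i0 α) _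
      _ = u * u := one_mul _
  · -- `X` local
    rw [reorder1]
    have := smoothing ΛX hX zX ΛY hY zY h1X h1Y hΛX hΛY α α' i0 GX βX
      (((i0 + 1 : ℕ) : ℝ≥0∞) * (((i0 + 1 : ℕ) : ℝ≥0∞) * Hb)) bX hbX hβX
      (fun a a' x => ∑' P, ∑' P', gg ΛX hX i0 T P * gg ΛY hY i0 T' P' *
        (if WX a a' x P P' then 1 else 0))
      (fun a a' x => sum_pp ΛX hX ΛY hY h1X h1Y hΛX hΛY T T' i0 _) ?_
      (fun d => Equiv.subLeft (w + d))
    · simpa only [Equiv.subLeft_apply] using this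
    · intro j j' hj hj' μ hμ hμ'
      refine two ΛX hX ΛY hY T T' i0 μ (fun x P P' => WX (α + j) (α' + j') x P P')
        (fun i i' x P P' => HT hX P = T + i ∧ thX ≤ pk ΛX hX zX T (T + i, Dp zX P) ∧
          HT hY P' = T' + i' ∧ Q TX TY lo hi (α + j) (α' + j') x P P') ?_ Hb ?_
      · intro x P P' i i' e1 e2 hW
        have hW' := (hWX _ _ _ _ _).1 hW
        refine ⟨e1, ?_, e2, hW'.2⟩
        rw [← e1]; exact hW'.1
      · intro i i' hi hi'
        convert H2 j j' i i' hj hj' hi hi' μ hμ hμ'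
  · -- `Y` local
    rw [reorder2]
    have := smoothing ΛY hY zY ΛX hX zX h1Y h1X hΛY hΛX α' α i0 GY βY
      (((i0 + 1 : ℕ) : ℝ≥0∞) * (((i0 + 1 : ℕ) : ℝ≥0∞) * Hb)) bY hbY hβY
      (fun a' a x => ∑' P, ∑' P', gg ΛX hX i0 T P * gg ΛY hY i0 T' P' *
        (if WY a a' x P P' then 1 else 0))
      (fun a a' x => sum_pp ΛX hX ΛY hY h1X h1Y hΛX hΛY T T' i0 _) ?_
      (fun d => Equiv.addLeft (w - d))
    · have e : ∀ A A', (Equiv.addLeft (w - Dp zX A)) (Dp zY A') = w + Dp zY A' - Dp zX A := by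
        intro A A'
        rw [Equiv.coe_addLeft]; abel
      simpa only [e] using this
    · intro j j' hj hj' μ hμ hμ'
      refine two ΛX hX ΛY hY T T' i0 μ (fun x P P' => WY (α + j') (α' + j) x P P')
        (fun i i' x P P' => HT hX P = T + i ∧ thY ≤ pk ΛY hY zY T' (T' + i', Dp zY P') ∧
          HT hY P' = T' + i' ∧ Q TX TY lo hi (α + j') (α' + j) x P P') ?_ Hb ?_
      · intro x P P' i i' e1 e2 hW
        have hW' := (hWY _ _ _ _ _).1 hW
        refine ⟨e1, ?_, e2, hW'.2⟩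
        rw [← e2]; exact hW'.1
      · intro i i' hi hi'
        convert H3 j' j i i' hj' hj hi hi' μ hμ hμ'

end Win

end Crest.Agent.R154.Asm95
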