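import Crest.Agent.R154.AsmX_181

/-! Row 154, ROAD 801 (helper181): preparation of one walker, numbers, all windows. -/

set_option autoImplicit false
set_option linter.unusedVariables false
set_option linter.unusedSectionVars false

namespace Crest.Agent.R154.AsmY181

open Crest.Agent.R154.B5A Crest.Agent.R154.Ren396 Crest.Agent.R154.AsmW181
open Crest.Agent.R154.BW55 (TR)
open Filter
open scoped ENNReal Topology

section single

variable {B : Type*} (Λ : B → ℝ≥0∞) (ht : B → ℕ) {G : Type*} [AddCommGroup G] (z : B → G)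

open Classical in
lemma mass_eq (hΛ : ∑' b, Λ b = 1) (h1 : ∀ b, 1 ≤ ht b) (A : ℕ) :
    ∑' L : List B, (if FR ht L A then LW Λ L else 0) = 1 := by
  induction A using Nat.strong_induction_on with
  | _ A ih =>
    rw [tsum_list]
    rcases Nat.eq_zero_or_pos A with h0 | h0
    · subst h0
      simp [FR, LW_nil]
    · have e0 : (if FR ht ([] : List B) A then LW Λ [] else 0) = 0 := by
        rw [if_neg]; simp only [FR]; omega
      rw [e0, zero_add]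
      calc _ = ∑' b, Λ b * ∑' L : List B, (if FR ht L (A - ht b) then LW Λ L else 0) := by
            refine tsum_congr fun b => ?_
            rw [← ENNReal.tsum_mul_left]
            refine tsum_congr fun L => ?_
            simp only [FR, LW_cons]
            by_cases h2 : FR ht L (A - ht b)
            · rw [if_pos ⟨by omega, h2⟩, if_pos h2]
            · rw [if_neg (fun h => h2 h.2), if_neg h2, mul_zero]
        _ = ∑' b, Λ b * 1 := by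
            refine tsum_congr fun b => ?_
            rw [ih]
            have := h1 b
            omega
        _ = 1 := by simpa using hΛ

open Classical in
/-- preparation of one walker -/
theorem prep (hΛ : ∑' b, Λ b = 1) (h1 : ∀ b, 1 ≤ ht b) (hU1 : ∀ n, U Λ ht n ≤ 1)
    (T i0 J A : ℕ) (u e : ℝ≥0∞) (hu0 : u ≠ 0) (hu1 : 2 * u < 1) (he : TS Λ ht (i0 + 1) ≤ e)
    (heu : e ≤ u) (hJ : J * (T + i0) ≤ A) :
    ∃ θ : ℝ≥0∞, θ ≠ 0 ∧ θ ≤ 1 ∧
      (∑' c : ℕ × G, (if W Λ ht z T c.1 c.2 < θ then W Λ ht z T c.1 c.2 else 0)) ≤ 2 * u ∧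
      ∃ Wg Wb : ℕ → G → ℝ≥0∞, (∀ c δ, W Λ ht z A c δ ≤ Wg c δ + Wb c δ) ∧
        (∀ c δ, Wg c δ ≤ (i0 + 1) * θ / u) ∧ ∑' c, ∑' δ, Wb c δ ≤ (1 - u) ^ J + J * e := by
  have hut : u ≠ ⊤ := by
    rintro rfl
    simp at hu1
  have hp : ∑' c : ℕ × G, W Λ ht z T c.1 c.2 = 1 := by
    rw [ENNReal.tsum_prod (f := fun (a : ℕ) (x : G) => W Λ ht z T a x), tsum_tsum_W,
      mass_eq Λ ht hΛ h1]
  obtain ⟨θ, hθ0, hθ1, hq1, hq2⟩ := Dens616.quantile (fun c : ℕ × G => W Λ ht z T c.1 c.2) hp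
    (u := 2 * u) (by simp [hu0]) hu1
  refine ⟨θ, hθ0, hθ1, hq1, ?_⟩
  refine dens Λ ht z hΛ.le h1 T i0 θ u e hu0 ?_ ((over_le Λ ht hU1 T i0).trans he) J A hJ
  -- the low mass, restricted
  have e1 : ∑' c : ℕ × G, (if W Λ ht z T c.1 c.2 ≤ θ then W Λ ht z T c.1 c.2 else 0)
      ≤ ∑' P : List B, (if FR ht P T then (if W Λ ht z T (HT ht P) (dp z P) ≤ θ then LW Λ P else 0)
          else 0) := by
    calc ∑' c : ℕ × G, (if W Λ ht z T c.1 c.2 ≤ θ then W Λ ht z T c.1 c.2 else 0)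
        = ∑' c : ℕ × G, ∑' P : List B, (if W Λ ht z T c.1 c.2 ≤ θ then
          (if FR ht P T then (if HT ht P = c.1 ∧ dp z P = c.2 then LW Λ P else 0) else 0) else 0) := by
          refine tsum_congr fun c => ?_
          by_cases h : W Λ ht z T c.1 c.2 ≤ θ
          · simp only [if_pos h]; rfl
          · simp [h]
      _ = ∑' P : List B, ∑' c : ℕ × G, (if W Λ ht z T c.1 c.2 ≤ θ then
          (if FR ht P T then (if HT ht P = c.1 ∧ dp z P = c.2 then LW Λ P else 0) else 0) else 0) :=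
          ENNReal.tsum_comm
      _ ≤ _ := by
          refine ENNReal.tsum_le_tsum fun P => ?_
          rw [tsum_eq_single (HT ht P, dp z P)]
          · by_cases h : FR ht P T
            · by_cases h2 : W Λ ht z T (HT ht P) (dp z P) ≤ θ
              · simp [h, h2]
              · simp [h2]
            · simp [h]
          · rintro ⟨a, b⟩ hc
            have : ¬ (HT ht P = a ∧ dp z P = b) := fun h => hc (by rw [h.1, h.2])
            simp [this]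
  have e2 : ∑' P : List B, (if FR ht P T then (if W Λ ht z T (HT ht P) (dp z P) ≤ θ then LW Λ P
        else 0) else 0) ≤ ∑' a : List B, (if FR ht a T ∧ HT ht a ≤ T + i0 ∧
        W Λ ht z T (HT ht a) (dp z a) ≤ θ then LW Λ a else 0) + e := by
    refine le_trans ?_ (add_le_add_right ((over_le Λ ht hU1 T i0).trans he) _)
    rw [← ENNReal.tsum_add]
    refine ENNReal.tsum_le_tsum fun P => ?_
    by_cases h : FR ht P T
    · by_cases h2 : W Λ ht z T (HT ht P) (dp z P) ≤ θ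
      · by_cases h3 : HT ht P ≤ T + i0
        · rw [if_pos h, if_pos h2, if_pos ⟨h, h3, h2⟩]; exact le_self_add
        · rw [if_pos h, if_pos h2, if_neg (fun h' => h3 h'.2.1), if_pos ⟨h, by omega⟩, zero_add]
      · rw [if_pos h, if_neg h2]; exact zero_le
    · rw [if_neg h]; exact zero_le
  have e3 := hq2.trans (e1.trans e2)
  rw [two_mul] at e3
  exact (ENNReal.add_le_add_iff_right hut).1 (e3.trans (by gcongr))

end single


/-- numbers -/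
theorem numbers {C : ℝ≥0∞} (hC : C ≠ ⊤) {us ov : ℕ → ℝ≥0∞} (hus : Tendsto us atTop (𝓝 0))
    (hov : Tendsto ov atTop (𝓝 0)) {ε : ℝ≥0∞} (hε : ε ≠ 0) :
    ∃ K : ℕ, 8 ≤ K ∧ ∃ u : ℝ≥0∞, u ≠ 0 ∧ 2 * u < 1 ∧ ∃ i0 : ℕ, ov i0 ≤ u ∧ ∃ lam η : ℝ≥0∞,
      lam ≠ 0 ∧ lam ≠ ⊤ ∧ η ≠ 0 ∧ ∃ s : ℕ,
      ((K : ℝ≥0∞) + 1) * (η + (2 * ov i0 + 2 * u * (2 * u) +
        (((1 - u) ^ (K / 8) + ((K / 8 : ℕ) : ℝ≥0∞) * ov i0 + ((i0 : ℝ≥0∞) + 1) ^ 4 *
          (C * (lam + (((i0 : ℝ≥0∞) + 1) / u) * us s / lam + us s))) +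
        ((1 - u) ^ (K / 8) + ((K / 8 : ℕ) : ℝ≥0∞) * ov i0 + ((i0 : ℝ≥0∞) + 1) ^ 4 *
          (C * (lam + (((i0 : ℝ≥0∞) + 1) / u) * us s / lam + us s)))))) ≤ ε := by
  have hε8 : min ε 1 / 8 ≠ 0 := by
    rw [Ne, ENNReal.div_eq_zero_iff, not_or]
    refine ⟨?_, by norm_num⟩
    rcases le_total ε 1 with h | h
    · rw [min_eq_left h]; exact hε
    · rw [min_eq_right h]; exact one_ne_zero
  obtain ⟨K, hK, u, hu0, hu1, i0, lam, η, hl0, hlt, hη, s, hnum⟩ := Num334.num hC hus hov hε8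
  set R' : ℝ≥0∞ := ((i0 : ℝ≥0∞) + 1) ^ 4 * (C * (lam + (K * ((i0 : ℝ≥0∞) + 1) / u) * us s / lam + us s))
    with hR'
  set R : ℝ≥0∞ := ((i0 : ℝ≥0∞) + 1) ^ 4 * (C * (lam + (((i0 : ℝ≥0∞) + 1) / u) * us s / lam + us s))
    with hR
  set D : ℝ≥0∞ := 4 * ov i0 + 4 * η + u ^ 2 + 2 * ((1 - u) ^ (K / 8) + K * ov i0 / u) + 2 * R' with hD
  have hnum' : (4 * (K : ℝ≥0∞) + 8) * D ≤ min ε 1 / 8 := by
    refine le_trans (le_of_eq ?_) hnum
    rw [hD, hR']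
    ring
  have hK1 : (1 : ℝ≥0∞) ≤ K := by exact_mod_cast (by omega : 1 ≤ K)
  have hDle : D ≤ min ε 1 / 8 := by
    refine le_trans ?_ hnum'
    calc D = 1 * D := (one_mul D).symm
      _ ≤ (4 * (K : ℝ≥0∞) + 8) * D := by
        gcongr
        calc (1 : ℝ≥0∞) ≤ 8 := by norm_num
          _ ≤ 4 * (K : ℝ≥0∞) + 8 := le_add_self
  have h18 : min ε 1 / 8 ≤ 1 / 8 := by gcongr; exact min_le_right _ _
  have hDu : u ^ 2 ≤ D := by
    rw [hD]
    calc u ^ 2 ≤ (4 * ov i0 + 4 * η) + u ^ 2 := le_add_self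
      _ ≤ (4 * ov i0 + 4 * η) + u ^ 2 + (2 * ((1 - u) ^ (K / 8) + K * ov i0 / u) + 2 * R') :=
        le_self_add
      _ = _ := by ring
  have hDo : K * ov i0 / u ≤ D := by
    rw [hD]
    calc K * ov i0 / u ≤ (4 * ov i0 + 4 * η + u ^ 2 + 2 * (1 - u) ^ (K / 8) + K * ov i0 / u + 2 * R')
        + K * ov i0 / u := le_add_self
      _ = _ := by ring
  have hut : u ≠ ⊤ := ne_top_of_le_ne_top ENNReal.one_ne_top hu1
  have h2u : 2 * u < 1 := by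
    by_contra hcon
    rw [not_lt] at hcon
    have : (1 : ℝ≥0∞) ≤ (2 * u) * (2 * u) := by
      calc (1 : ℝ≥0∞) = 1 * 1 := (one_mul 1).symm
        _ ≤ _ := by gcongr
    have h4 : (2 * u) * (2 * u) ≤ 4 * (1 / 8) := by
      calc (2 * u) * (2 * u) = 4 * u ^ 2 := by ring
        _ ≤ 4 * (1 / 8) := by gcongr; exact hDu.trans (hDle.trans h18)
    have h5 : (4 : ℝ≥0∞) * (1 / 8) < 1 := by
      rw [mul_one_div]
      refine ENNReal.div_lt_of_lt_mul' ?_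
      norm_num
    exact absurd (this.trans h4) (not_le.2 h5)
  have hou : ov i0 ≤ u := by
    have h6 : ov i0 / u ≤ 1 := by
      calc ov i0 / u ≤ K * ov i0 / u := by
            gcongr
            calc ov i0 = 1 * ov i0 := (one_mul _).symm
              _ ≤ K * ov i0 := by gcongr
        _ ≤ 1 / 8 := hDo.trans (hDle.trans h18)
        _ ≤ 1 := by
          rw [ENNReal.div_le_iff (by norm_num) (by norm_num)]
          norm_num
    rw [ENNReal.div_le_iff hu0 hut, one_mul] at h6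
    exact h6
  refine ⟨K, hK, u, hu0, h2u, i0, hou, lam, η, hl0, hlt, hη, s, ?_⟩
  have hRR : R ≤ R' := by
    rw [hR, hR']
    gcongr
    calc ((i0 : ℝ≥0∞) + 1) = 1 * ((i0 : ℝ≥0∞) + 1) := (one_mul _).symm
      _ ≤ K * ((i0 : ℝ≥0∞) + 1) := by gcongr
  have hJ : ((K / 8 : ℕ) : ℝ≥0∞) * ov i0 ≤ K * ov i0 / u := by
    calc ((K / 8 : ℕ) : ℝ≥0∞) * ov i0 ≤ K * ov i0 := by
          gcongr
          exact_mod_cast Nat.div_le_self K 8
      _ = K * ov i0 / 1 := by rw [div_one]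
      _ ≤ K * ov i0 / u := ENNReal.div_le_div_left hu1 _
  calc ((K : ℝ≥0∞) + 1) * (η + (2 * ov i0 + 2 * u * (2 * u) +
        (((1 - u) ^ (K / 8) + ((K / 8 : ℕ) : ℝ≥0∞) * ov i0 + R) +
        ((1 - u) ^ (K / 8) + ((K / 8 : ℕ) : ℝ≥0∞) * ov i0 + R))))
      ≤ ((K : ℝ≥0∞) + 1) * (η + (2 * ov i0 + 2 * u * (2 * u) +
        (((1 - u) ^ (K / 8) + K * ov i0 / u + R') +
        ((1 - u) ^ (K / 8) + K * ov i0 / u + R')))) := by gcongr
    _ ≤ ((K : ℝ≥0∞) + 1) * (4 * D) := by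
        gcongr
        have : 4 * D = (η + (2 * ov i0 + 2 * u * (2 * u) +
          (((1 - u) ^ (K / 8) + K * ov i0 / u + R') + ((1 - u) ^ (K / 8) + K * ov i0 / u + R'))))
          + (14 * ov i0 + 15 * η + 6 * ((1 - u) ^ (K / 8) + K * ov i0 / u) + 6 * R') := by
          rw [hD]; ring
        rw [this]
        exact le_self_add
    _ ≤ (4 * (K : ℝ≥0∞) + 8) * (4 * D) := by
        gcongr ?_ * (4 * D)
        calc (K : ℝ≥0∞) + 1 ≤ (K : ℝ≥0∞) + 1 + (3 * K + 7) := le_self_add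
          _ = _ := by ring
    _ = 4 * ((4 * (K : ℝ≥0∞) + 8) * D) := by ring
    _ ≤ 4 * (min ε 1 / 8) := by gcongr
    _ ≤ ε := by
        calc 4 * (min ε 1 / 8) ≤ 8 * (min ε 1 / 8) := by gcongr; norm_num
          _ = min ε 1 := ENNReal.mul_div_cancel (by norm_num) (by norm_num)
          _ ≤ ε := min_le_left _ _


section two

variable {BX BY : Type*} (ΛX : BX → ℝ≥0∞) (ΛY : BY → ℝ≥0∞) (hX : BX → ℕ) (hY : BY → ℕ)
  {G : Type*} [AddCommGroup G] (zX : BX → G) (zY : BY → G)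
  (sX : BX → Set (G × ℕ)) (sY : BY → Set (G × ℕ))

open Classical in
/-- window lemma, X local (weakest form) -/
def H2 (C : ℝ≥0∞) (us : ℕ → ℝ≥0∞) : Prop :=
  ∀ (s h h' a a' lo hi : ℕ) (E : Finset G) (μ : G → ℝ≥0∞) (M lam : ℝ≥0∞),
    ∑' x, μ x ≤ 1 → (∀ x, μ x ≤ M) → lam ≠ 0 → lam ≠ ⊤ → a ≤ a' → a + h ≤ a' + h' →
    a + s ≤ lo → a' + s ≤ lo → hi + s ≤ a + h → hi + s ≤ a' + h' →
    ∑' x, μ x * ∑' L : List BX, ∑' L' : List BY,
      (if HT hX L = h ∧ dp zX L ∈ E ∧ HT hY L' = h' ∧ ev hX hY zX zY sX sY lo hi x a a' L L'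
        then LW ΛX L * LW ΛY L' else 0) ≤ C * (lam + M * E.card * us s / lam + us s)

open Classical in
/-- window lemma, Y local (weakest form) -/
def H3 (C : ℝ≥0∞) (us : ℕ → ℝ≥0∞) : Prop :=
  ∀ (s h h' a a' lo hi : ℕ) (E : Finset G) (μ : G → ℝ≥0∞) (M lam : ℝ≥0∞),
    ∑' x, μ x ≤ 1 → (∀ x, μ x ≤ M) → lam ≠ 0 → lam ≠ ⊤ → a ≤ a' → a + h ≤ a' + h' →
    a + s ≤ lo → a' + s ≤ lo → hi + s ≤ a + h → hi + s ≤ a' + h' →
    ∑' x, μ x * ∑' L : List BX, ∑' L' : List BY,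
      (if HT hX L = h ∧ HT hY L' = h' ∧ dp zY L' ∈ E ∧ ev hX hY zX zY sX sY lo hi x a a' L L'
        then LW ΛX L * LW ΛY L' else 0) ≤ C * (lam + M * E.card * us s / lam + us s)

open Classical in
/-- thin slab -/
def H5 : Prop :=
  ∀ (sl : ℕ) (η : ℝ≥0∞), η ≠ 0 → ∃ T : ℕ, ∀ a, T ≤ a → ∀ (n : ℕ) (w : G),
    ∑' LX : List BX, ∑' LY : List BY, (if HT hX LX = n ∧ HT hY LY = n ∧
      (∃ k ∈ CC hX hY zX zY sX sY w 0 0 LX LY, a ≤ k ∧ k < a + sl)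
      then LW ΛX LX * LW ΛY LY else 0) ≤ η

lemma arith (M : ℝ≥0∞) (card θ u x y : ℝ≥0∞) (i : ℝ≥0∞) (hθ0 : θ ≠ 0) (hθt : θ ≠ ⊤)
    (hc : card ≤ 1 / θ) : i * θ / u * card ≤ i / u := by
  calc i * θ / u * card ≤ i * θ / u * (1 / θ) := by gcongr
    _ = i / u * (θ * θ⁻¹) := by
        rw [div_eq_mul_inv, div_eq_mul_inv, div_eq_mul_inv]; ring
    _ = i / u := by rw [ENNReal.mul_inv_cancel hθ0 hθt, mul_one]

open Classical in
/-- **ALL WINDOWS** -/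
theorem main {c : ℝ≥0∞} (hc0 : c ≠ 0) (hct : c ≠ ⊤) (hcX : ∀ n, c ≤ U ΛX hX n)
    (hcY : ∀ n, c ≤ U ΛY hY n) (hU1X : ∀ n, U ΛX hX n ≤ 1) (h1X : ∀ b, 1 ≤ hX b)
    (hU1Y : ∀ n, U ΛY hY n ≤ 1) (h1Y : ∀ b, 1 ≤ hY b)
    (hsX : ∀ b q, q ∈ sX b → 1 ≤ q.2 ∧ q.2 ≤ hX b)
    (hsY : ∀ b q, q ∈ sY b → 1 ≤ q.2 ∧ q.2 ≤ hY b)
    {C : ℝ≥0∞} (hC : C ≠ ⊤) {us : ℕ → ℝ≥0∞} (hus : Tendsto us atTop (𝓝 0))
    (H2' : H2 ΛX ΛY hX hY zX zY sX sY C us) (H3' : H3 ΛX ΛY hX hY zX zY sX sY C us)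
    (H5' : H5 ΛX ΛY hX hY zX zY sX sY) :
    ∀ ε : ℝ≥0∞, ε ≠ 0 → ∃ K : ℕ, 1 ≤ K ∧ ∃ T0 : ℕ, ∀ t, T0 ≤ t → ∀ k, K ≤ k → k ≤ 2 * K →
      ∀ n, (k + 4) * t ≤ n → ∀ w : G,
      ∑' LX : List BX, ∑' LY : List BY, (if HT hX LX = n ∧ HT hY LY = n ∧
        (∀ j ∈ CC hX hY zX zY sX sY w 0 0 LX LY, k * t ≤ j) ∧
        (∃ j ∈ CC hX hY zX zY sX sY w 0 0 LX LY, j < (k + 1) * t)
        then LW ΛX LX * LW ΛY LY else 0) ≤ ε / (K + 1) := by
  intro ε hε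
  have hΛX : ∑' b, ΛX b = 1 := le_antisymm (mass_le_one ΛX hX h1X hU1X)
    (mass_ge_one ΛX hX c hc0 0 fun n _ => hcX n)
  have hΛY : ∑' b, ΛY b = 1 := le_antisymm (mass_le_one ΛY hY h1Y hU1Y)
    (mass_ge_one ΛY hY c hc0 0 fun n _ => hcY n)
  have hovX := tendsto_TS ΛX hX c hc0 hct h1X hΛX 0 fun n _ => hcX n
  have hovY := tendsto_TS ΛY hY c hc0 hct h1Y hΛY 0 fun n _ => hcY n
  set ov : ℕ → ℝ≥0∞ := fun i => TS ΛX hX (i + 1) + TS ΛY hY (i + 1) with hov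
  have hovt : Tendsto ov atTop (𝓝 0) := by
    have h1 := (hovX.comp (tendsto_add_atTop_nat 1)).add (hovY.comp (tendsto_add_atTop_nat 1))
    simpa using h1
  obtain ⟨K, hK, u, hu0, hu1, i0, hou, lam, η, hl0, hlt, hη, s, hnum⟩ :=
    numbers hC hus hovt hε
  obtain ⟨T5, hT5⟩ := H5' (s + 2 * i0) η hη
  refine ⟨K, by omega, 10 * (i0 + s + 1) + T5, fun t ht k hk hk2 n hn w => ?_⟩
  -- geometry
  have hkt : K * t ≤ k * t := Nat.mul_le_mul_right t hk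
  have h8t : 8 * t ≤ K * t := Nat.mul_le_mul_right t hK
  have hk1 : (k + 1) * t = k * t + t := by ring
  have hk4 : (k + 4) * t = k * t + 4 * t := by ring
  set lo := k * t with hlo
  set hi := (k + 1) * t with hhi
  set AX := lo - 2 * i0 - s - 1 with hAX
  set TX := t + 2 * i0 + 2 * s + 1 with hTX
  have hJt : (K / 8) * (8 * t) ≤ K * t := by
    calc (K / 8) * (8 * t) = (K / 8 * 8) * t := by ring
      _ ≤ K * t := Nat.mul_le_mul_right t (Nat.div_mul_le_self K 8)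
  have hJX : (K / 8) * (TX + i0) ≤ AX := by
    have h1 : (K / 8) * (TX + i0) ≤ (K / 8) * (2 * t) :=
      Nat.mul_le_mul_left _ (by omega)
    have h2 : (K / 8) * (8 * t) = 4 * ((K / 8) * (2 * t)) := by ring
    omega
  have hJY : (K / 8) * (TX + i0 + i0) ≤ AX + i0 := by
    have h1 : (K / 8) * (TX + i0 + i0) ≤ (K / 8) * (2 * t) :=
      Nat.mul_le_mul_left _ (by omega)
    have h2 : (K / 8) * (8 * t) = 4 * ((K / 8) * (2 * t)) := by ring
    omega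
  have heX : TS ΛX hX (i0 + 1) ≤ ov i0 := le_self_add
  have heY : TS ΛY hY (i0 + 1) ≤ ov i0 := le_add_self
  obtain ⟨θX, hθX0, hθX1, hvX, hDX⟩ := prep ΛX hX zX hΛX h1X hU1X TX i0 (K / 8) AX u (ov i0) hu0
    hu1 heX hou hJX
  obtain ⟨θY, hθY0, hθY1, hvY, hDY⟩ := prep ΛY hY zY hΛY h1Y hU1Y (TX + i0) i0 (K / 8) (AX + i0)
    u (ov i0) hu0 hu1 heY hou hJY
  have hθXt : θX ≠ ⊤ := ne_top_of_le_ne_top ENNReal.one_ne_top hθX1
  have hθYt : θY ≠ ⊤ := ne_top_of_le_ne_top ENNReal.one_ne_top hθY1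
  have hwin := AsmX181.window ΛX ΛY hX hY zX zY sX sY hU1X hΛX.le h1X hU1Y hΛY.le h1Y hsX hsY w
    AX TX (AX + i0) (TX + i0) i0 lo hi (s + 2 * i0) n (by omega) (by omega) (by omega) (by omega)
    (by omega) (by omega) (by omega) θX θY (2 * u) (2 * u)
    ((1 - u) ^ (K / 8) + ((K / 8 : ℕ) : ℝ≥0∞) * ov i0)
    ((1 - u) ^ (K / 8) + ((K / 8 : ℕ) : ℝ≥0∞) * ov i0)
    (((i0 : ℝ≥0∞) + 1) * θX / u) (((i0 : ℝ≥0∞) + 1) * θY / u)
    (C * (lam + (((i0 : ℝ≥0∞) + 1) / u) * us s / lam + us s)) hθX0 hθY0 hvX hvY hDX hDY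
    (by
      intro a ha a' ha' h hh h' hh' E μ hE h1 h2
      rw [Finset.mem_Icc] at ha ha' hh hh'
      refine (H2' s h h' a a' lo hi E μ _ lam h1 h2 hl0 hlt (by omega) (by omega) (by omega)
        (by omega) (by omega) (by omega)).trans ?_
      gcongr C * (lam + ?_ * us s / lam + us s)
      exact arith 0 _ θX u 0 0 _ hθX0 hθXt hE)
    (by
      intro a ha a' ha' h hh h' hh' E μ hE h1 h2
      rw [Finset.mem_Icc] at ha ha' hh hh'
      refine (H3' s h h' a a' lo hi E μ _ lam h1 h2 hl0 hlt (by omega) (by omega) (by omega)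
        (by omega) (by omega) (by omega)).trans ?_
      gcongr C * (lam + ?_ * us s / lam + us s)
      exact arith 0 _ θY u 0 0 _ hθY0 hθYt hE)
  have hslab := hT5 (hi + 1) (by omega) n w
  -- the two events
  have hpt : ∑' LX : List BX, ∑' LY : List BY, (if HT hX LX = n ∧ HT hY LY = n ∧
        (∀ j ∈ CC hX hY zX zY sX sY w 0 0 LX LY, lo ≤ j) ∧
        (∃ j ∈ CC hX hY zX zY sX sY w 0 0 LX LY, j < hi)
        then LW ΛX LX * LW ΛY LY else 0)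
      ≤ (∑' LX : List BX, ∑' LY : List BY, (if HT hX LX = n ∧ HT hY LY = n ∧
      (∃ k ∈ CC hX hY zX zY sX sY w 0 0 LX LY, hi + 1 ≤ k ∧ k < hi + 1 + (s + 2 * i0))
      then LW ΛX LX * LW ΛY LY else 0)) +
      ∑' LX : List BX, ∑' LY : List BY, (if HT hX LX = n ∧ HT hY LY = n ∧
      evF hX hY zX zY sX sY lo hi (s + 2 * i0) w LX LY then LW ΛX LX * LW ΛY LY else 0) := by
    simp only [← ENNReal.tsum_add]
    refine ENNReal.tsum_le_tsum fun LX => ENNReal.tsum_le_tsum fun LY => ?_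
    by_cases h : HT hX LX = n ∧ HT hY LY = n ∧
        (∀ j ∈ CC hX hY zX zY sX sY w 0 0 LX LY, lo ≤ j) ∧
        (∃ j ∈ CC hX hY zX zY sX sY w 0 0 LX LY, j < hi)
    · rw [if_pos h]
      by_cases h2 : ∃ k ∈ CC hX hY zX zY sX sY w 0 0 LX LY, hi + 1 ≤ k ∧ k < hi + 1 + (s + 2 * i0)
      · rw [if_pos ⟨h.1, h.2.1, h2⟩]; exact le_self_add
      · have h3 : evF hX hY zX zY sX sY lo hi (s + 2 * i0) w LX LY := by
          refine ⟨h.2.2.1, ?_, ?_⟩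
          · obtain ⟨j, hj, hj2⟩ := h.2.2.2
            exact ⟨j, hj, hj2.le⟩
          · intro j hj hj2
            exact h2 ⟨j, hj, by omega, by omega⟩
        rw [if_pos (⟨h.1, h.2.1, h3⟩ : HT hX LX = n ∧ HT hY LY = n ∧
          evF hX hY zX zY sX sY lo hi (s + 2 * i0) w LX LY)]
        exact le_add_self
    · rw [if_neg h]; exact zero_le
  have hKK : ((K : ℝ≥0∞) + 1) ≠ 0 := by simp
  have hKt : ((K : ℝ≥0∞) + 1) ≠ ⊤ := by
    exact ENNReal.add_ne_top.2 ⟨ENNReal.natCast_ne_top K, ENNReal.one_ne_top⟩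
  rw [ENNReal.le_div_iff_mul_le (Or.inl hKK) (Or.inl hKt), mul_comm]
  refine le_trans ?_ hnum
  gcongr
  refine (hpt.trans (add_le_add hslab hwin)).trans (le_of_eq ?_)
  rw [hov]
  ring

end two

end Crest.Agent.R154.AsmY181
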