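import Crest.Agent.R154.AsmX_34

/-! Row 154 (helper34), ROAD 801: one window of the abstract assembly, part 3. -/

set_option autoImplicit false

namespace Crest.Agent.R154.Asm34

open scoped ENNReal
open Crest.Agent.R154.B5A Crest.Agent.R154.FP178

section S4s
variable {BX BY : Type*} (ΛX : BX → ℝ≥0∞) (hX : BX → ℕ) (ΛY : BY → ℝ≥0∞) (hY : BY → ℕ)
variable (T τ T' τ' i0 : ℕ)

lemma S4_flat (F : List BX → List BX → List BY → List BY → ℝ≥0∞) :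
    S4 ΛX hX ΛY hY T τ T' τ' i0 F = ∑' X1, ∑' Y1, ∑' X2, ∑' Y2,
      (cw ΛX hX T i0 X1 * cw ΛY hY T' i0 Y1) * (cw ΛX hX τ i0 X2 * cw ΛY hY τ' i0 Y2 *
        F X1 X2 Y1 Y2) := by
  unfold S4
  simp only [ENNReal.tsum_mul_left]

lemma S4_mono {F F' : List BX → List BX → List BY → List BY → ℝ≥0∞}
    (h : ∀ X1 X2 Y1 Y2, cw ΛX hX T i0 X1 ≠ 0 → cw ΛX hX τ i0 X2 ≠ 0 → cw ΛY hY T' i0 Y1 ≠ 0 →
      cw ΛY hY τ' i0 Y2 ≠ 0 → F X1 X2 Y1 Y2 ≤ F' X1 X2 Y1 Y2) :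
    S4 ΛX hX ΛY hY T τ T' τ' i0 F ≤ S4 ΛX hX ΛY hY T τ T' τ' i0 F' := by
  rw [S4_flat, S4_flat]
  refine ENNReal.tsum_le_tsum fun X1 => ENNReal.tsum_le_tsum fun Y1 =>
    ENNReal.tsum_le_tsum fun X2 => ENNReal.tsum_le_tsum fun Y2 => ?_
  by_cases h1 : cw ΛX hX T i0 X1 = 0
  · simp [h1]
  by_cases h2 : cw ΛX hX τ i0 X2 = 0
  · simp [h2]
  by_cases h3 : cw ΛY hY T' i0 Y1 = 0
  · simp [h3]
  by_cases h4 : cw ΛY hY τ' i0 Y2 = 0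
  · simp [h4]
  exact mul_le_mul_right (mul_le_mul_right (h X1 X2 Y1 Y2 h1 h2 h3 h4) _) _

lemma S4_add (F F' : List BX → List BX → List BY → List BY → ℝ≥0∞) :
    S4 ΛX hX ΛY hY T τ T' τ' i0 (fun X1 X2 Y1 Y2 => F X1 X2 Y1 Y2 + F' X1 X2 Y1 Y2)
      = S4 ΛX hX ΛY hY T τ T' τ' i0 F + S4 ΛX hX ΛY hY T τ T' τ' i0 F' := by
  rw [S4_flat, S4_flat, S4_flat]
  simp only [mul_add, ENNReal.tsum_add]

lemma S4_prod (f1 f2 : List BX → ℝ≥0∞) (g1 g2 : List BY → ℝ≥0∞) :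
    S4 ΛX hX ΛY hY T τ T' τ' i0 (fun X1 X2 Y1 Y2 => (f1 X1 * g1 Y1) * (f2 X2 * g2 Y2))
      = ((∑' L, cw ΛX hX T i0 L * f1 L) * (∑' L, cw ΛY hY T' i0 L * g1 L)) *
        ((∑' L, cw ΛX hX τ i0 L * f2 L) * (∑' L, cw ΛY hY τ' i0 L * g2 L)) := by
  have e : ∀ X1 Y1, (cw ΛX hX T i0 X1 * cw ΛY hY T' i0 Y1) *
      ∑' X2, ∑' Y2, cw ΛX hX τ i0 X2 * cw ΛY hY τ' i0 Y2 * ((f1 X1 * g1 Y1) * (f2 X2 * g2 Y2))
      = (cw ΛX hX T i0 X1 * f1 X1) * ((cw ΛY hY T' i0 Y1 * g1 Y1) *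
        ((∑' L, cw ΛX hX τ i0 L * f2 L) * (∑' L, cw ΛY hY τ' i0 L * g2 L))) := by
    intro X1 Y1
    have e1 : ∑' X2, ∑' Y2, cw ΛX hX τ i0 X2 * cw ΛY hY τ' i0 Y2 *
        ((f1 X1 * g1 Y1) * (f2 X2 * g2 Y2))
        = (f1 X1 * g1 Y1) * ((∑' L, cw ΛX hX τ i0 L * f2 L) *
          (∑' L, cw ΛY hY τ' i0 L * g2 L)) := by
      rw [← ENNReal.tsum_mul_right, ← ENNReal.tsum_mul_left]
      refine tsum_congr fun X2 => ?_
      rw [← ENNReal.tsum_mul_left, ← ENNReal.tsum_mul_left]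
      refine tsum_congr fun Y2 => ?_
      ring
    rw [e1]; ring
  unfold S4
  simp only [e]
  simp only [ENNReal.tsum_mul_left, ENNReal.tsum_mul_right]
  ring

open Classical in
/-- weight of a first passage with exact height -/
noncomputable def cs {B : Type*} (Λ : B → ℝ≥0∞) (ht : B → ℕ) (T a : ℕ) (L : List B) : ℝ≥0∞ :=
  if fp ht T L ∧ HT ht L = a then LW Λ L else 0

lemma cw_le_sum {B : Type*} (Λ : B → ℝ≥0∞) (ht : B → ℕ) (T i0 : ℕ) (L : List B) :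
    cw Λ ht T i0 L = cs Λ ht T (HT ht L) L * (if HT ht L ∈ Finset.Icc T (T + i0) then 1 else 0) := by
  classical
  unfold cw cs
  by_cases h : fp ht T L
  · have := le_HT_of_fp ht h
    by_cases h' : HT ht L ≤ T + i0
    · simp [h, h', this]
    · simp [h, h']
  · simp [h]

/-- slicing the heights -/
lemma S4_slice (F : List BX → List BX → List BY → List BY → ℝ≥0∞) (K : ℝ≥0∞)
    (hK : ∀ a a' h h', a ∈ Finset.Icc T (T + i0) → a' ∈ Finset.Icc T' (T' + i0) →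
      h ∈ Finset.Icc τ (τ + i0) → h' ∈ Finset.Icc τ' (τ' + i0) →
      ∑' X1, ∑' Y1, (cs ΛX hX T a X1 * cs ΛY hY T' a' Y1) *
        ∑' X2, ∑' Y2, cs ΛX hX τ h X2 * cs ΛY hY τ' h' Y2 * F X1 X2 Y1 Y2 ≤ K) :
    S4 ΛX hX ΛY hY T τ T' τ' i0 F ≤ ((i0 + 1 : ℕ) : ℝ≥0∞) ^ 4 * K := by
  classical
  set R := (Finset.Icc T (T + i0)) ×ˢ (Finset.Icc T' (T' + i0)) ×ˢ (Finset.Icc τ (τ + i0)) ×ˢ
    (Finset.Icc τ' (τ' + i0)) with hR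
  have hcard : (R.card : ℝ≥0∞) = ((i0 + 1 : ℕ) : ℝ≥0∞) ^ 4 := by
    rw [hR]
    simp only [Finset.card_product, Nat.card_Icc]
    rw [show T + i0 + 1 - T = i0 + 1 by omega, show T' + i0 + 1 - T' = i0 + 1 by omega,
      show τ + i0 + 1 - τ = i0 + 1 by omega, show τ' + i0 + 1 - τ' = i0 + 1 by omega]
    push_cast; ring
  have hpt : ∀ X1 Y1 X2 Y2, (cw ΛX hX T i0 X1 * cw ΛY hY T' i0 Y1) *
      (cw ΛX hX τ i0 X2 * cw ΛY hY τ' i0 Y2 * F X1 X2 Y1 Y2)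
      ≤ ∑ i ∈ R, (cs ΛX hX T i.1 X1 * cs ΛY hY T' i.2.1 Y1) *
        (cs ΛX hX τ i.2.2.1 X2 * cs ΛY hY τ' i.2.2.2 Y2 * F X1 X2 Y1 Y2) := by
    intro X1 Y1 X2 Y2
    by_cases hm : (HT hX X1, HT hY Y1, HT hX X2, HT hY Y2) ∈ R
    · refine le_trans (le_of_eq ?_) (Finset.single_le_sum (f := fun i : ℕ × ℕ × ℕ × ℕ =>
        (cs ΛX hX T i.1 X1 * cs ΛY hY T' i.2.1 Y1) *
        (cs ΛX hX τ i.2.2.1 X2 * cs ΛY hY τ' i.2.2.2 Y2 * F X1 X2 Y1 Y2))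
        (fun _ _ => zero_le) hm)
      simp only [hR, Finset.mem_product] at hm
      rw [cw_le_sum, cw_le_sum, cw_le_sum, cw_le_sum, if_pos hm.1, if_pos hm.2.1,
        if_pos hm.2.2.1, if_pos hm.2.2.2]
      simp
    · refine le_trans (le_of_eq ?_) zero_le
      simp only [hR, Finset.mem_product, not_and_or] at hm
      rw [cw_le_sum, cw_le_sum, cw_le_sum, cw_le_sum]
      rcases hm with hm | hm | hm | hm
      · rw [if_neg hm]; simp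
      · rw [if_neg hm]; simp
      · rw [if_neg hm]; simp
      · rw [if_neg hm]; simp
  rw [S4_flat]
  calc _ ≤ ∑' X1, ∑' Y1, ∑' X2, ∑' Y2, ∑ i ∈ R, (cs ΛX hX T i.1 X1 * cs ΛY hY T' i.2.1 Y1) *
        (cs ΛX hX τ i.2.2.1 X2 * cs ΛY hY τ' i.2.2.2 Y2 * F X1 X2 Y1 Y2) :=
        ENNReal.tsum_le_tsum fun X1 => ENNReal.tsum_le_tsum fun Y1 =>
          ENNReal.tsum_le_tsum fun X2 => ENNReal.tsum_le_tsum fun Y2 => hpt X1 Y1 X2 Y2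
    _ = ∑ i ∈ R, ∑' X1, ∑' Y1, ∑' X2, ∑' Y2, (cs ΛX hX T i.1 X1 * cs ΛY hY T' i.2.1 Y1) *
        (cs ΛX hX τ i.2.2.1 X2 * cs ΛY hY τ' i.2.2.2 Y2 * F X1 X2 Y1 Y2) := by
        simp_rw [Summable.tsum_finsetSum (fun _ _ => ENNReal.summable)]
    _ ≤ ∑ i ∈ R, K := by
        refine Finset.sum_le_sum fun i hi => ?_
        simp only [hR, Finset.mem_product] at hi
        refine le_trans (le_of_eq ?_) (hK i.1 i.2.1 i.2.2.1 i.2.2.2 hi.1 hi.2.1 hi.2.2.1 hi.2.2.2)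
        simp only [ENNReal.tsum_mul_left]
    _ = _ := by rw [Finset.sum_const, nsmul_eq_mul, hcard]

end S4s

end Crest.Agent.R154.Asm34
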