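import Crest.Agent.R154.AsmX_475

/-! Row 154, ROAD 801 (helper475): assembly, part 5: the bound of one window. -/

set_option autoImplicit false

namespace Crest.Agent.R154.Asm475

open Crest.Agent.R154.B5A
open Crest.Agent.R154.Ren396
open Crest.Agent.R154.Bind12 (TT Dp)
open scoped ENNReal

variable {BX BY G : Type*} [AddCommGroup G]
  (ΛX : BX → ℝ≥0∞) (ΛY : BY → ℝ≥0∞) (hX : BX → ℕ) (hY : BY → ℕ) (zX : BX → G) (zY : BY → G)
  (sX : BX → Set (G × ℕ)) (sY : BY → Set (G × ℕ))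

open Classical in
/-- clean part of one window -/
theorem window (hsX : ∀ b q, q ∈ sX b → 1 ≤ q.2 ∧ q.2 ≤ hX b)
    (hsY : ∀ b q, q ∈ sY b → 1 ≤ q.2 ∧ q.2 ≤ hY b)
    (hUX : ∀ n, U ΛX hX n ≤ 1) (hUY : ∀ n, U ΛY hY n ≤ 1)
    (hΛX : ∑' b, ΛX b ≤ 1) (hΛY : ∑' b, ΛY b ≤ 1) (h1X : ∀ b, 1 ≤ hX b) (h1Y : ∀ b, 1 ≤ hY b)
    (us : ℕ → ℕ → ℝ≥0∞) (C : ℝ≥0∞) (h2 : H2 ΛX ΛY hX hY zX zY sX sY us C)
    (h3 : H3 ΛX ΛY hX hY zX zY sX sY us C) (w : G) (b T i0 s n J : ℕ) (hs : 1 ≤ s) (hsT : s ≤ T)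
    (hn : b + i0 + i0 + (T + 3 * i0) ≤ n) (hJ : J * (T + 4 * i0) ≤ b)
    (u e lam : ℝ≥0∞) (hu0 : u ≠ 0) (hu1 : u ≤ 1) (heu : e ≤ u / 2)
    (heX : ∀ T, ∑' P : List BX, (if FR hX P T ∧ T + i0 < HT hX P then LW ΛX P else 0) ≤ e)
    (heY : ∀ T, ∑' P : List BY, (if FR hY P T ∧ T + i0 < HT hY P then LW ΛY P else 0) ≤ e)
    (hl0 : lam ≠ 0) (hlt : lam ≠ ⊤) :
    ∑' LX, ∑' LY, (if HT hX LX = n ∧ HT hY LY = n ∧ EvF hX hY zX zY sX sY w b (b + 2 * i0 + s)
      (b + T - s) (b + T + 2 * i0) LX LY then LW ΛX LX * LW ΛY LY else 0)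
      ≤ 4 * e + (u * u + 2 * ((i0 + 1) * ((i0 + 1) ^ 2 *
        (C * (lam + 4 * ((i0 + 1) / u) * us (6 * i0) s / lam + us (6 * i0) s)))
        + ((1 - u / 2) ^ J + J * e))) := by
  obtain ⟨MX, EX, WgX, WbX, hWX, hgX, hbX, hMX, hnX⟩ :=
    loc ΛX hX zX hΛX h1X T i0 u e hu0 hu1 heu (heX T) J b
      (le_trans (Nat.mul_le_mul_left _ (by omega)) hJ)
  obtain ⟨MY, EY, WgY, WbY, hWY, hgY, hbY, hMY, hnY⟩ :=
    loc ΛY hY zY hΛY h1Y (T + 3 * i0) i0 u e hu0 hu1 heu (heY _) J (b + i0)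
      (le_trans (Nat.mul_le_mul_left _ (by omega)) (hJ.trans (by omega)))
  set κ : ℝ≥0∞ := 4 * ((i0 + 1) / u) with hκ
  set β0 : ℝ≥0∞ := (i0 + 1) ^ 2 * (C * (lam + κ * us (6 * i0) s / lam + us (6 * i0) s)) with hβ0
  set bad : ℝ≥0∞ := (1 - u / 2) ^ J + J * e with hbad
  set lo := b + 2 * i0 + s with hlo
  set hi := b + T - s with hhi
  set g : List BX → List BX → List BY → List BY → ℝ≥0∞ := fun A P A' P' =>
    if Ev hX hY zX zY sX sY P P' (w + dp zY A' - dp zX A) (HT hX A) (HT hY A') lo hi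
      then 1 else 0 with hg
  -- cuts
  have hS : ∑' LX, ∑' LY, (if HT hX LX = n ∧ HT hY LY = n ∧ EvF hX hY zX zY sX sY w b lo hi
      (b + T + 2 * i0) LX LY then LW ΛX LX * LW ΛY LY else 0)
      = ∑' LX, (if HT hX LX = n then LW ΛX LX * (∑' LY, (if HT hY LY = n then LW ΛY LY *
        (if EvF hX hY zX zY sX sY w b lo hi (b + T + 2 * i0) LX LY then 1 else 0) else 0))
        else 0) := by
    refine tsum_congr fun LX => ?_
    by_cases h : HT hX LX = n
    · rw [if_pos h, ← ENNReal.tsum_mul_left]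
      refine tsum_congr fun LY => ?_
      by_cases h' : HT hY LY = n
      · by_cases h'' : EvF hX hY zX zY sX sY w b lo hi (b + T + 2 * i0) LX LY
        · rw [if_pos ⟨h, h', h''⟩, if_pos h', if_pos h'', mul_one]
        · rw [if_neg (fun hh => h'' hh.2.2), if_pos h', if_neg h'', mul_zero, mul_zero]
      · rw [if_neg (fun hh => h' hh.2.1), if_neg h', mul_zero]
    · rw [if_neg h]
      simp [h]
  rw [hS]
  have hΦ1 : ∀ LX, ∑' LY, (if HT hY LY = n then LW ΛY LY *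
        (if EvF hX hY zX zY sX sY w b lo hi (b + T + 2 * i0) LX LY then 1 else 0) else 0) ≤ 1 := by
    intro LX
    refine le_trans (ENNReal.tsum_le_tsum fun LY => ?_) (hUY n)
    by_cases h : HT hY LY = n
    · rw [if_pos h, if_pos h]
      calc _ ≤ LW ΛY LY * 1 := mul_le_mul_right (by split_ifs <;> simp) _
        _ = _ := mul_one _
    · rw [if_neg h]; exact zero_le
  refine (cut3 ΛX hX hUX hΛX h1X b T i0 n (by omega) _ hΦ1 e heX
    (fun A P => 2 * e + ∑' A', wt ΛY hY (b + i0) i0 A' * ∑' P', wt ΛY hY (T + 3 * i0) i0 P' *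
      g A P A' P') ?_).trans ?_
  · intro A P R hA hP _
    refine cut3 ΛY hY hUY hΛY h1Y (b + i0) (T + 3 * i0) i0 n (by omega) _
      (fun LY => by split_ifs <;> simp) e heY (fun A' P' => g A P A' P') ?_
    intro A' P' R' hA' hP' _
    by_cases h : EvF hX hY zX zY sX sY w b lo hi (b + T + 2 * i0) (A ++ (P ++ R))
        (A' ++ (P' ++ R'))
    · rw [if_pos h]
      have := evF_ev hX hY zX zY sX sY hsX hsY w b T i0 s hs hsT A P R A' P' R'
        (wt_of_ne _ _ hA) (wt_of_ne _ _ hP) (wt_of_ne _ _ hA') (wt_of_ne _ _ hP') h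
      simp only [hg]
      rw [if_pos this]
    · rw [if_neg h]; exact zero_le
  -- main part
  have hmain : ∑' A, wt ΛX hX b i0 A * ∑' P, wt ΛX hX T i0 P *
      (2 * e + ∑' A', wt ΛY hY (b + i0) i0 A' * ∑' P', wt ΛY hY (T + 3 * i0) i0 P' * g A P A' P')
      ≤ 2 * e + ∑' A, wt ΛX hX b i0 A * ∑' P, wt ΛX hX T i0 P *
      ∑' A', wt ΛY hY (b + i0) i0 A' * ∑' P', wt ΛY hY (T + 3 * i0) i0 P' * g A P A' P' := by
    simp only [mul_add, ENNReal.tsum_add]
    refine add_le_add ?_ le_rfl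
    refine sum_wt_mul ΛX hX hΛX h1X b i0 _ _ fun A _ => ?_
    exact sum_wt_mul ΛX hX hΛX h1X T i0 _ _ fun P _ => le_rfl
  refine (add_le_add le_rfl hmain).trans ?_
  rw [← add_assoc, show (2 : ℝ≥0∞) * e + 2 * e = 4 * e by ring]
  refine add_le_add le_rfl ?_
  -- local / non-local
  refine (quad_le _ _ _ _ g
    (fun _ P _ P' => if dp zX P ∉ EX (HT hX P) ∧ dp zY P' ∉ EY (HT hY P') then 1 else 0)
    (fun A P A' P' => if dp zX P ∈ EX (HT hX P) ∧ Ev hX hY zX zY sX sY P P'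
      (w + dp zY A' - dp zX A) (HT hX A) (HT hY A') lo hi then 1 else 0)
    (fun A P A' P' => if dp zY P' ∈ EY (HT hY P') ∧ Ev hX hY zX zY sX sY P P'
      (w + dp zY A' - dp zX A) (HT hX A) (HT hY A') lo hi then 1 else 0) ?_).trans ?_
  · intro A P A' P'
    simp only [hg]
    by_cases h : Ev hX hY zX zY sX sY P P' (w + dp zY A' - dp zX A) (HT hX A) (HT hY A') lo hi
    · by_cases h2 : dp zX P ∈ EX (HT hX P)
      · rw [if_pos h, if_pos (⟨h2, h⟩ : _ ∧ _)]
        exact le_add_left le_self_add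
      · by_cases h3 : dp zY P' ∈ EY (HT hY P')
        · rw [if_pos h, if_pos (⟨h3, h⟩ : _ ∧ _)]
          exact le_add_left le_add_self
        · rw [if_pos h, if_pos (⟨h2, h3⟩ : _ ∧ _)]
          exact le_self_add
    · rw [if_neg h]; exact zero_le
  refine add_le_add ?_ ?_
  · -- both non-local
    refine sum_wt_mul ΛX hX hΛX h1X b i0 _ _ fun A _ => ?_
    calc _ ≤ ∑' P, (if FR hX P T ∧ dp zX P ∉ EX (HT hX P) then LW ΛX P else 0) * u := by
          refine ENNReal.tsum_le_tsum fun P => ?_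
          by_cases h : dp zX P ∈ EX (HT hX P)
          · have : ∀ A' : List BY, ∑' P' : List BY, wt ΛY hY (T + 3 * i0) i0 P' *
                (if dp zX P ∉ EX (HT hX P) ∧ dp zY P' ∉ EY (HT hY P') then (1 : ℝ≥0∞) else 0)
                = 0 := by
              intro A'
              rw [ENNReal.tsum_eq_zero]
              intro P'
              rw [if_neg (fun hh => hh.1 h), mul_zero]
            refine le_trans (le_of_eq ?_) zero_le
            beta_reduce
            rw [mul_eq_zero]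
            right
            rw [ENNReal.tsum_eq_zero]
            intro A'
            rw [this A', mul_zero]
          · refine mul_le_mul' ?_ ?_
            · unfold wt
              by_cases h2 : FR hX P T ∧ HT hX P ≤ T + i0
              · rw [if_pos h2, if_pos ⟨h2.1, h⟩]
              · rw [if_neg h2]; exact zero_le
            · refine sum_wt_mul ΛY hY hΛY h1Y (b + i0) i0 _ _ fun A' _ => ?_
              refine le_trans (ENNReal.tsum_le_tsum fun P' => ?_) hnY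
              by_cases h2 : FR hY P' (T + 3 * i0) ∧ HT hY P' ≤ T + 3 * i0 + i0
              · by_cases h3 : dp zY P' ∈ EY (HT hY P')
                · rw [if_neg (fun hh => hh.2 h3), mul_zero]; exact zero_le
                · rw [if_pos (⟨h, h3⟩ : _ ∧ _), if_pos ⟨h2.1, h3⟩, mul_one]
                  exact wt_le _ _ _ _ _
              · unfold wt
                rw [if_neg h2, zero_mul]; exact zero_le
      _ ≤ u * u := by
          rw [ENNReal.tsum_mul_right]
          exact mul_le_mul_left hnX _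
  rw [two_mul]
  refine add_le_add ?_ ?_
  · -- X local
    rw [swap3]
    refine sum_wt_mul ΛY hY hΛY h1Y (b + i0) i0 _ _ fun A' hA' => ?_
    have hc' := wt_of_ne _ _ hA'
    refine le_trans (le_of_eq (tsum_congr fun A => ?_)) (core' ΛX hX zX hΛX h1X b i0 (fun c δ => Ker ΛX ΛY hX hY zX zY sX sY T (T + 3 * i0) i0
      lo hi (fun P _ => dp zX P ∈ EX (HT hX P)) (w + dp zY A' - δ) c (HT hY A'))
      (fun c δ => Ker_le_one ΛX ΛY hX hY zX zY sX sY hΛX hΛY h1X h1Y _ _ _ _ _ _ _ _ _) MX β0 bad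
      ?_ WgX WbX hWX hgX hbX)
    · beta_reduce
      congr 1
      unfold Ker
      refine tsum_congr fun P => ?_
      congr 1
      refine tsum_congr fun P' => ?_
      congr 1
      congr
    intro c hc1 hc2 μ hμ hμM
    have e1 := (Equiv.subLeft (w + dp zY A')).tsum_eq (fun x => μ (w + dp zY A' - x) *
      Ker ΛX ΛY hX hY zX zY sX sY T (T + 3 * i0) i0 lo hi (fun P _ => dp zX P ∈ EX (HT hX P))
        x c (HT hY A'))
    simp only [Equiv.subLeft_apply, sub_sub_cancel] at e1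
    rw [e1]
    refine ker_X ΛX ΛY hX hY zX zY sX sY us C h2 T i0 b s hs hsT EX MX κ lam hMX hl0 hlt c
      (HT hY A') ⟨hc1, hc2⟩ hc' (fun x => μ (w + dp zY A' - x)) ?_ (fun x => hμM _)
    exact le_trans (le_of_eq ((Equiv.subLeft (w + dp zY A')).tsum_eq μ)) hμ
  · -- Y local
    refine sum_wt_mul ΛX hX hΛX h1X b i0 _ _ fun A hA => ?_
    have hc := wt_of_ne _ _ hA
    rw [swap2]
    refine le_trans (le_of_eq (tsum_congr fun A' => ?_)) (core' ΛY hY zY hΛY h1Y (b + i0) i0 (fun c' δ => Ker ΛX ΛY hX hY zX zY sX sY T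
      (T + 3 * i0) i0 lo hi (fun _ P' => dp zY P' ∈ EY (HT hY P')) (w + δ - dp zX A) (HT hX A) c')
      (fun c δ => Ker_le_one ΛX ΛY hX hY zX zY sX sY hΛX hΛY h1X h1Y _ _ _ _ _ _ _ _ _) MY β0 bad
      ?_ WgY WbY hWY hgY hbY)
    · beta_reduce
      congr 1
      unfold Ker
      refine tsum_congr fun P => ?_
      congr 1
      refine tsum_congr fun P' => ?_
      congr 1
      congr
    intro c' hc1 hc2 μ hμ hμM
    have e1 := (Equiv.subRight (w - dp zX A)).tsum_eq (fun δ => μ δ *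
      Ker ΛX ΛY hX hY zX zY sX sY T (T + 3 * i0) i0 lo hi (fun _ P' => dp zY P' ∈ EY (HT hY P'))
        (w + δ - dp zX A) (HT hX A) c')
    have e2 : ∀ x : G, w + (x - (w - dp zX A)) - dp zX A = x := fun x => by abel
    simp only [Equiv.subRight_apply, e2] at e1
    rw [← e1]
    refine ker_Y ΛX ΛY hX hY zX zY sX sY us C h3 T i0 b s hs hsT EY MY κ lam hMY hl0 hlt
      (HT hX A) c' hc ⟨hc1, hc2⟩ (fun x => μ (x - (w - dp zX A))) ?_ (fun x => hμM _)
    exact le_trans (le_of_eq ((Equiv.subRight (w - dp zX A)).tsum_eq μ)) hμ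

end Crest.Agent.R154.Asm475
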