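import Crest.Agent.R154.AsmX_751

/-! Row 154, ROAD 801: one window (helper751). -/

set_option autoImplicit false

namespace Crest.Agent.R154.Asm751

open scoped ENNReal
open Crest.Agent.R154.B5A (LW HT LW_nil LW_cons LW_append HT_nil HT_cons HT_append tsum_list U tail)

variable {BX BY G : Type*} [AddCommGroup G]
  (ΛX : BX → ℝ≥0∞) (ΛY : BY → ℝ≥0∞) (hX : BX → ℕ) (hY : BY → ℕ) (zX : BX → G) (zY : BY → G)
  (sX : BX → Set (G × ℕ)) (sY : BY → Set (G × ℕ))

/-- contact at `(z, k)` -/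
def Bo (x : G) (a : ℕ) (L : List BX) (y : G) (a' : ℕ) (L' : List BY) (z : G) (k : ℕ) : Prop :=
  (z, k) ∈ TR hX zX sX L x a ∧ (z, k) ∈ TR hY zY sY L' y a'

/-- pieces in contact, every contact has depth in `[lo, hi]` -/
def PE (lo hi : ℕ) (x : G) (a : ℕ) (L : List BX) (y : G) (a' : ℕ) (L' : List BY) : Prop :=
  (∃ z k, Bo hX hY zX zY sX sY x a L y a' L' z k) ∧
    ∀ z k, Bo hX hY zX zY sX sY x a L y a' L' z k → lo ≤ k ∧ k ≤ hi

open Classical in
/-- `X` local window lemma (weakest form) at the numbers `s, r0, η` -/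
def HXl (C η : ℝ≥0∞) (s r0 : ℕ) : Prop :=
  ∀ (h h' a a' lo hi : ℕ) (E : Finset G) (μ : G → ℝ≥0∞) (M lam : ℝ≥0∞), (∑' x, μ x ≤ 1) →
    (∀ x, μ x ≤ M) → M ≠ ⊤ → lam ≠ 0 → lam ≠ ⊤ → a ≤ a' → a' ≤ a + r0 → a + h ≤ a' + h' →
    a' + h' ≤ a + h + r0 → a' + s ≤ lo → hi + s ≤ a + h →
    ∑' x, μ x * ∑' L : List BX, ∑' L' : List BY,
      (if HT hX L = h ∧ dp zX L ∈ E ∧ HT hY L' = h' ∧ PE hX hY zX zY sX sY lo hi 0 a L x a' L'
        then LW ΛX L * LW ΛY L' else 0) ≤ C * (lam + M * E.card * η / lam + η)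

open Classical in
/-- `Y` local window lemma (weakest form) at the numbers `s, r0, η` -/
def HYl (C η : ℝ≥0∞) (s r0 : ℕ) : Prop :=
  ∀ (h h' a a' lo hi : ℕ) (E : Finset G) (μ : G → ℝ≥0∞) (M lam : ℝ≥0∞), (∑' x, μ x ≤ 1) →
    (∀ x, μ x ≤ M) → M ≠ ⊤ → lam ≠ 0 → lam ≠ ⊤ → a ≤ a' → a' ≤ a + r0 → a + h ≤ a' + h' →
    a' + h' ≤ a + h + r0 → a' + s ≤ lo → hi + s ≤ a + h →
    ∑' x, μ x * ∑' L : List BX, ∑' L' : List BY,
      (if HT hX L = h ∧ dp zY L' ∈ E ∧ HT hY L' = h' ∧ PE hX hY zX zY sX sY lo hi 0 a L x a' L'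
        then LW ΛX L * LW ΛY L' else 0) ≤ C * (lam + M * E.card * η / lam + η)

variable {hX hY zX zY sX sY}

lemma PE_shift (lo hi : ℕ) (x : G) (a : ℕ) (L : List BX) (y : G) (a' : ℕ) (L' : List BY) :
    PE hX hY zX zY sX sY lo hi x a L y a' L' ↔ PE hX hY zX zY sX sY lo hi 0 a L (y - x) a' L' := by
  have key : ∀ z k, Bo hX hY zX zY sX sY x a L y a' L' z k ↔
      Bo hX hY zX zY sX sY 0 a L (y - x) a' L' (z - x) k := by
    intro z k
    unfold Bo
    have e1 := TR_shift hX zX sX L 0 x a z k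
    have e2 := TR_shift hY zY sY L' (y - x) x a' z k
    rw [zero_add] at e1
    rw [sub_add_cancel] at e2
    rw [e1, e2]
  unfold PE
  refine and_congr ?_ ?_
  · constructor
    · rintro ⟨z, k, h⟩; exact ⟨_, k, (key z k).1 h⟩
    · rintro ⟨z, k, h⟩
      exact ⟨z + x, k, (key _ k).2 (by rwa [add_sub_cancel_right])⟩
  · constructor
    · intro H z k h
      exact H (z + x) k ((key _ k).2 (by rwa [add_sub_cancel_right]))
    · intro H z k h
      exact H _ k ((key z k).1 h)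

lemma conv (w : G) (α γ K : G → ℝ≥0∞) (g : ℝ≥0∞) (hα : ∑' x, α x ≤ 1) (hγ : ∑' x, γ x ≤ 1)
    (hg : (∀ x, α x ≤ g) ∨ (∀ x, γ x ≤ g)) :
    ∃ ν : G → ℝ≥0∞, (∑' v, ν v ≤ 1) ∧ (∀ v, ν v ≤ g) ∧
      ∑' x, α x * ∑' y, γ y * K (w + y - x) = ∑' v, ν v * K v := by
  have hre : ∀ (f : G → ℝ≥0∞) (x : G), ∑' v, f (v + x - w) = ∑' y, f y := by
    intro f x
    have := ((Equiv.addRight (x - w)).tsum_eq f)
    rw [← this]
    refine tsum_congr fun v => ?_
    simp only [Equiv.coe_addRight]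
    congr 1; abel
  have hre2 : ∀ v, ∑' x, γ (v + x - w) = ∑' y, γ y := by
    intro v
    rw [← (Equiv.addLeft (v - w)).tsum_eq γ]
    refine tsum_congr fun x => ?_
    simp only [Equiv.coe_addLeft]
    congr 1; abel
  refine ⟨fun v => ∑' x, α x * γ (v + x - w), ?_, ?_, ?_⟩
  · rw [ENNReal.tsum_comm]
    calc ∑' x, ∑' v, α x * γ (v + x - w) = ∑' x, α x * ∑' y, γ y := by
          refine tsum_congr fun x => ?_
          rw [ENNReal.tsum_mul_left, hre γ x]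
      _ = (∑' x, α x) * ∑' y, γ y := ENNReal.tsum_mul_right
      _ ≤ 1 * 1 := mul_le_mul' hα hγ
      _ = 1 := one_mul 1
  · intro v
    rcases hg with hg | hg
    · calc ∑' x, α x * γ (v + x - w) ≤ ∑' x, g * γ (v + x - w) :=
            ENNReal.tsum_le_tsum fun x => mul_le_mul_left (hg x) _
        _ = g * ∑' x, γ (v + x - w) := ENNReal.tsum_mul_left
        _ ≤ g * 1 := by gcongr; rw [hre2]; exact hγ
        _ = g := mul_one g
    · calc ∑' x, α x * γ (v + x - w) ≤ ∑' x, α x * g :=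
            ENNReal.tsum_le_tsum fun x => mul_le_mul_right (hg _) _
        _ = (∑' x, α x) * g := ENNReal.tsum_mul_right
        _ ≤ 1 * g := by gcongr
        _ = g := one_mul g
  · have e : ∀ x, ∑' y, γ y * K (w + y - x) = ∑' v, γ (v + x - w) * K v := by
      intro x
      rw [← hre (fun y => γ y * K (w + y - x)) x]
      refine tsum_congr fun v => ?_
      congr 2; abel
    simp_rw [e, ← ENNReal.tsum_mul_left, ← ENNReal.tsum_mul_right]
    rw [ENNReal.tsum_comm]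
    refine tsum_congr fun v => tsum_congr fun x => ?_
    ring

/-- four-fold sum -/
noncomputable def Q4 (ΛX : BX → ℝ≥0∞) (ΛY : BY → ℝ≥0∞) (hX : BX → ℕ) (hY : BY → ℕ) (A A' D i0 : ℕ)
    (F : List BX → List BX → List BY → List BY → ℝ≥0∞) : ℝ≥0∞ :=
  R ΛX hX A (fun L1 => I (HT hX L1 ≤ A + i0) * R ΛX hX D (fun L2 => R ΛY hY A' (fun L1' =>
      I (HT hY L1' ≤ A' + i0) * R ΛY hY D (fun L2' => F L1 L2 L1' L2'))))

variable {ΛX ΛY}

lemma Q4_swap (A A' D i0 : ℕ) (F : List BX → List BX → List BY → List BY → ℝ≥0∞) :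
    Q4 ΛX ΛY hX hY A A' D i0 F = R ΛY hY A' (fun L1' => I (HT hY L1' ≤ A' + i0) *
      R ΛY hY D (fun L2' => R ΛX hX A (fun L1 => I (HT hX L1 ≤ A + i0) *
        R ΛX hX D (fun L2 => F L1 L2 L1' L2')))) := by
  unfold Q4
  calc _ = R ΛX hX A (fun L1 => R ΛY hY A' (fun L1' => I (HT hX L1 ≤ A + i0) *
        (I (HT hY L1' ≤ A' + i0) * R ΛY hY D (fun L2' => R ΛX hX D (fun L2 => F L1 L2 L1' L2'))))) := by
        refine R_congr _ _ _ fun L1 _ => ?_
        rw [R_swap, ← R_mul]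
        refine R_congr _ _ _ fun L1' _ => ?_
        rw [R_mul, R_swap]
    _ = _ := by
        rw [R_swap]
        refine R_congr _ _ _ fun L1' _ => ?_
        rw [← R_mul]
        calc _ = R ΛX hX A (fun L1 => R ΛY hY D (fun L2' => I (HT hY L1' ≤ A' + i0) *
              (I (HT hX L1 ≤ A + i0) * R ΛX hX D (fun L2 => F L1 L2 L1' L2')))) := by
              refine R_congr _ _ _ fun L1 _ => ?_
              rw [R_mul, R_mul]; ring
          _ = _ := by
              rw [R_swap]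
              refine R_congr _ _ _ fun L2' _ => ?_
              rw [R_mul]

lemma Q4_add (A A' D i0 : ℕ) (F F' : List BX → List BX → List BY → List BY → ℝ≥0∞) :
    Q4 ΛX ΛY hX hY A A' D i0 (fun L1 L2 L1' L2' => F L1 L2 L1' L2' + F' L1 L2 L1' L2')
      = Q4 ΛX ΛY hX hY A A' D i0 F + Q4 ΛX ΛY hX hY A A' D i0 F' := by
  unfold Q4
  rw [← R_add]
  refine R_congr _ _ _ fun L1 _ => ?_
  rw [← mul_add, ← R_add]
  congr 1
  refine R_congr _ _ _ fun L2 _ => ?_
  rw [← R_add]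
  refine R_congr _ _ _ fun L1' _ => ?_
  rw [← mul_add, ← R_add]

lemma Q4_prod (hΛX : ∑' b, ΛX b = 1) (h1X : ∀ b, 1 ≤ hX b) (hΛY : ∑' b, ΛY b = 1)
    (h1Y : ∀ b, 1 ≤ hY b) (A A' D i0 : ℕ) (f : List BX → ℝ≥0∞) (f' : List BY → ℝ≥0∞) :
    Q4 ΛX ΛY hX hY A A' D i0 (fun _ L2 _ L2' => f L2 * f' L2') ≤ R ΛX hX D f * R ΛY hY D f' := by
  unfold Q4
  calc _ ≤ R ΛX hX A (fun _ => R ΛX hX D f * R ΛY hY D f') := by
        refine R_mono _ _ _ fun L1 _ => ?_
        calc _ ≤ 1 * R ΛX hX D (fun L2 => f L2 * R ΛY hY D f') := by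
              refine mul_le_mul' (I_le _) (R_mono _ _ _ fun L2 _ => ?_)
              calc _ ≤ R ΛY hY A' (fun _ => f L2 * R ΛY hY D f') := by
                    refine R_mono _ _ _ fun L1' _ => ?_
                    rw [R_mul]
                    calc _ ≤ 1 * (f L2 * R ΛY hY D f') := mul_le_mul_left (I_le _) _
                      _ = _ := one_mul _
                _ = _ := R_const ΛY hY hΛY h1Y _ _
          _ = _ := by rw [one_mul, R_mul']
    _ = _ := R_const ΛX hX hΛX h1X _ _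

end Crest.Agent.R154.Asm751
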