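import Crest.Agent.R154.AsmX_852
import Crest.Agent.R154.KU_823

/-! Row 154, ROAD 801 (helper852): the bound of one window (conclusion). -/

set_option autoImplicit false

namespace Crest.Agent.R154.Asm852

open scoped ENNReal
open Crest.Agent.R154.B5A Crest.Agent.R154.FP178

section pair
variable {BX BY G : Type*} [AddCommGroup G]
  (ΛX : BX → ℝ≥0∞) (ΛY : BY → ℝ≥0∞) (hX : BX → ℕ) (hY : BY → ℕ) (zX : BX → G) (zY : BY → G)
  (sX : BX → Set (G × ℕ)) (sY : BY → Set (G × ℕ))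

open Classical in
lemma Ph_sum (i0 S lo hi : ℕ) (Q : List BX → List BY → Prop)
    (Q2 : ℕ → ℕ → List BX → List BY → Prop)
    (hQ : ∀ P P', Q P P' → Q2 (HT hX P - S) (HT hY P' - S) P P') (a a' : ℕ)
    (μ : G → ℝ≥0∞) (β : ℝ≥0∞)
    (h : ∀ j ∈ Finset.range (i0 + 1), ∀ j' ∈ Finset.range (i0 + 1),
      ∑' x, μ x * ∑' P : List BX, ∑' P' : List BY,
        (if HT hX P = S + j ∧ HT hY P' = S + j' ∧ Q2 j j' P P' ∧
          (∃ g k, Co hX hY zX zY sX sY P P' x a a' g k) ∧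
          (∀ g k, Co hX hY zX zY sX sY P P' x a a' g k → lo + 1 ≤ k ∧ k ≤ hi)
        then LW ΛX P * LW ΛY P' else 0) ≤ β) :
    ∑' x, μ x * Ph ΛX ΛY hX hY zX zY sX sY i0 S lo hi Q a a' x
      ≤ (i0 + 1 : ℕ) * ((i0 + 1 : ℕ) * β) := by
  calc ∑' x, μ x * Ph ΛX ΛY hX hY zX zY sX sY i0 S lo hi Q a a' x
      ≤ ∑' x, μ x * ∑ j ∈ Finset.range (i0 + 1), ∑ j' ∈ Finset.range (i0 + 1),
        ∑' P : List BX, ∑' P' : List BY,
        (if HT hX P = S + j ∧ HT hY P' = S + j' ∧ Q2 j j' P P' ∧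
          (∃ g k, Co hX hY zX zY sX sY P P' x a a' g k) ∧
          (∀ g k, Co hX hY zX zY sX sY P P' x a a' g k → lo + 1 ≤ k ∧ k ≤ hi)
        then LW ΛX P * LW ΛY P' else 0) := by
        refine ENNReal.tsum_le_tsum fun x => mul_le_mul_right ?_ _
        exact Ph_heights ΛX ΛY hX hY zX zY sX sY i0 S lo hi Q Q2 hQ a a' x
    _ = ∑ j ∈ Finset.range (i0 + 1), ∑ j' ∈ Finset.range (i0 + 1), ∑' x, μ x *
        ∑' P : List BX, ∑' P' : List BY,
        (if HT hX P = S + j ∧ HT hY P' = S + j' ∧ Q2 j j' P P' ∧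
          (∃ g k, Co hX hY zX zY sX sY P P' x a a' g k) ∧
          (∀ g k, Co hX hY zX zY sX sY P P' x a a' g k → lo + 1 ≤ k ∧ k ≤ hi)
        then LW ΛX P * LW ΛY P' else 0) := by
        simp only [Finset.mul_sum]
        rw [Summable.tsum_finsetSum (fun _ _ => ENNReal.summable)]
        refine Finset.sum_congr rfl fun j _ => ?_
        rw [Summable.tsum_finsetSum (fun _ _ => ENNReal.summable)]
    _ ≤ ∑ j ∈ Finset.range (i0 + 1), ∑ j' ∈ Finset.range (i0 + 1), β :=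
        Finset.sum_le_sum fun j hj => Finset.sum_le_sum fun j' hj' => h j hj j' hj'
    _ = _ := by simp

lemma S1_dbl (i0 D D' : ℕ) (w : G) (Gf : ℕ → ℕ → G → ℝ≥0∞) :
    S1 ΛX hX i0 D (fun T => S1 ΛY hY i0 D' (fun T' =>
      Gf (HT hX T) (HT hY T') (w + Dp zY T' - Dp zX T)))
      = ∑ i ∈ Finset.range (i0 + 1), ∑' y, law ΛX hX zX D i y *
        ∑ i' ∈ Finset.range (i0 + 1), ∑' y', law ΛY hY zY D' i' y' *
          Gf (D + i) (D' + i') (w + y' - y) := by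
  rw [S1_law ΛX hX zX i0 D (fun a y => S1 ΛY hY i0 D' (fun T' =>
      Gf a (HT hY T') (w + Dp zY T' - y)))]
  refine Finset.sum_congr rfl fun i _ => tsum_congr fun y => ?_
  congr 1
  exact S1_law ΛY hY zY i0 D' (fun a' y' => Gf (D + i) a' (w + y' - y))

open Classical in
/-- **one window** -/
theorem window_bound (h1X : ∀ b, 1 ≤ hX b) (h1Y : ∀ b, 1 ≤ hY b) (hΛX : ∑' b, ΛX b = 1)
    (hΛY : ∑' b, ΛY b = 1) (hUX : ∀ n, U ΛX hX n ≤ 1) (hUY : ∀ n, U ΛY hY n ≤ 1)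
    (dX : ∀ b, ∀ p ∈ sX b, 1 ≤ p.2 ∧ p.2 ≤ hX b) (dY : ∀ b, ∀ p ∈ sY b, 1 ≤ p.2 ∧ p.2 ≤ hY b)
    (C : ℝ≥0∞) (us : ℕ → ℕ → ℝ≥0∞)
    (h2 : H2 ΛX ΛY hX hY zX zY sX sY C us) (h3 : H3 ΛX ΛY hX hY zX zY sX sY C us)
    (i0 t s lo n J : ℕ) (w : G) (u lam : ℝ≥0∞) (hu0 : u ≠ 0) (hu1 : u ≤ 1) (hl0 : lam ≠ 0)
    (hlt : lam ≠ ⊤) (ht : 3 * i0 + 1 + s ≤ t) (hlo : t ≤ lo) (hJ : J * (3 * t + i0) ≤ lo - t)
    (hn : lo + 2 * t + 3 * i0 + 1 ≤ n) :
    S0 ΛX hX n (fun L => S0 ΛY hY n (fun L' => Ind hX hY zX zY sX sY w lo (lo + t)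
      (lo + 2 * t - s) (lo + 2 * t + 2 * i0) L L'))
      ≤ u * u + 2 * (1 - u) ^ J + (J + 2) * (ov ΛX hX i0 + ov ΛY hY i0)
        + 2 * ((i0 + 1 : ℕ) * ((i0 + 1 : ℕ) * ((i0 + 1 : ℕ) * ((i0 + 1 : ℕ) *
          (C * (lam + (i0 + 1 : ℕ) / u * us (4 * i0 + 1) s / lam + us (4 * i0 + 1) s)))))) := by
  obtain ⟨thX, MX, EX, hEX, hnX, hcX, hsX⟩ := select ΛX hX zX h1X hΛX hUX (3 * t) i0 hu0 hu1
  obtain ⟨thY, MY, EY, hEY, hnY, hcY, hsY⟩ := select ΛY hY zY h1Y hΛY hUY (3 * t) i0 hu0 hu1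
  set D := lo - t with hD
  set D' := D + 2 * i0 + 1 with hD'
  set S := 3 * t with hS
  set hi := lo + 2 * t - s with hhi
  set β0 := C * (lam + (i0 + 1 : ℕ) / u * us (4 * i0 + 1) s / lam + us (4 * i0 + 1) s) with hβ0
  refine (window ΛX ΛY hX hY zX zY sX sY h1X h1Y hΛX hΛY hUX hUY dX dY i0 D D' S n lo (lo + t) hi
    (lo + 2 * t + 2 * i0) w (by omega) (by omega) (by omega) (by omega) (by omega) (by omega)
    (by omega)).trans ?_
  -- the three cases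
  let QX : List BX → List BY → Prop := fun P _ => Dp zX P ∈ EX (HT hX P - S)
  let QY : List BX → List BY → Prop := fun _ P' => Dp zY P' ∈ EY (HT hY P' - S)
  have hlowX : S1 ΛX hX i0 S (fun P => if Dp zX P ∈ EX (HT hX P - S) then 0 else 1) ≤ u := by
    refine le_trans (ENNReal.tsum_le_tsum fun P => ?_) hnX
    by_cases h : fp hX S P ∧ HT hX P ≤ S + i0
    · rw [if_pos h]
      beta_reduce
      by_cases h' : Dp zX P ∈ EX (HT hX P - S)
      · rw [if_pos h', mul_zero]; exact zero_le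
      · rw [if_neg h', mul_one, if_pos ⟨h.1, h'⟩]
    · rw [if_neg h]; exact zero_le
  have hlowY : S1 ΛY hY i0 S (fun P => if Dp zY P ∈ EY (HT hY P - S) then 0 else 1) ≤ u := by
    refine le_trans (ENNReal.tsum_le_tsum fun P => ?_) hnY
    by_cases h : fp hY S P ∧ HT hY P ≤ S + i0
    · rw [if_pos h]
      beta_reduce
      by_cases h' : Dp zY P ∈ EY (HT hY P - S)
      · rw [if_pos h', mul_zero]; exact zero_le
      · rw [if_neg h', mul_one, if_pos ⟨h.1, h'⟩]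
    · rw [if_neg h]; exact zero_le
  have hcase : ∀ (a a' : ℕ) (x : G), S1 ΛX hX i0 S (fun P => S1 ΛY hY i0 S (fun P' =>
      W0 hX hY zX zY sX sY lo hi a a' x P P'))
      ≤ u * u + (Ph ΛX ΛY hX hY zX zY sX sY i0 S lo hi QX a a' x
        + Ph ΛX ΛY hX hY zX zY sX sY i0 S lo hi QY a a' x) := by
    intro a a' x
    have h1 : S1 ΛX hX i0 S (fun P => S1 ΛY hY i0 S (fun P' =>
        (if Dp zX P ∈ EX (HT hX P - S) then (0 : ℝ≥0∞) else 1) *
        (if Dp zY P' ∈ EY (HT hY P' - S) then 0 else 1))) ≤ u * u := by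
      simp only [S1_const_mul]
      calc S1 ΛX hX i0 S (fun P => (if Dp zX P ∈ EX (HT hX P - S) then (0 : ℝ≥0∞) else 1) *
            S1 ΛY hY i0 S (fun P' => if Dp zY P' ∈ EY (HT hY P' - S) then 0 else 1))
          ≤ S1 ΛX hX i0 S (fun P => u * (if Dp zX P ∈ EX (HT hX P - S) then (0 : ℝ≥0∞) else 1)) :=
            S1_mono ΛX hX fun P _ _ => by rw [mul_comm]; exact mul_le_mul_left hlowY _
        _ = u * S1 ΛX hX i0 S (fun P => if Dp zX P ∈ EX (HT hX P - S) then 0 else 1) :=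
            S1_const_mul ΛX hX _ _ _ _
        _ ≤ u * u := mul_le_mul_right hlowX _
    refine le_trans ?_ (add_le_add h1 le_rfl)
    rw [Ph, Ph, ← S1_add, ← S1_add]
    refine S1_mono ΛX hX fun P _ _ => ?_
    rw [← S1_add, ← S1_add]
    refine S1_mono ΛY hY fun P' _ _ => ?_
    have hW := W0_le hX hY zX zY sX sY lo hi a a' x P P'
    by_cases c1 : Dp zX P ∈ EX (HT hX P - S)
    · refine le_trans ?_ (le_add_self (a := _))
      rw [if_pos (show QX P P' from c1)]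
      exact le_self_add
    · by_cases c2 : Dp zY P' ∈ EY (HT hY P' - S)
      · refine le_trans ?_ (le_add_self (a := _))
        rw [if_pos (show QY P P' from c2)]
        exact le_add_self
      · rw [if_neg c1, if_neg c2, mul_one]
        exact hW.trans le_self_add
  -- the local terms
  have hlX : ∑' i, ∑' z, law ΛX hX zX D i z ≤ 1 := (law_sum ΛX hX zX h1X hΛX D).le
  have hlY : ∑' i, ∑' z, law ΛY hY zY D' i z ≤ 1 := (law_sum ΛY hY zY h1Y hΛY D').le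
  have hTX : S1 ΛX hX i0 D (fun T => S1 ΛY hY i0 D' (fun T' =>
      Ph ΛX ΛY hX hY zX zY sX sY i0 S lo hi QX (HT hX T) (HT hY T')
        (w + Dp zY T' - Dp zX T)))
      ≤ ((1 - u) ^ J + J * ov ΛX hX i0) + (i0 + 1 : ℕ) * ((i0 + 1 : ℕ) *
        ((i0 + 1 : ℕ) * ((i0 + 1 : ℕ) * β0))) := by
    rw [S1_dbl ΛX ΛY hX hY zX zY i0 D D' w (fun a a' x =>
      Ph ΛX ΛY hX hY zX zY sX sY i0 S lo hi QX a a' x)]
    obtain ⟨b, hb, hsm⟩ := hsX J D hJ
    refine mix (law ΛX hX zX D) (law ΛY hY zY D') b (fun i i' x =>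
      Ph ΛX ΛY hX hY zX zY sX sY i0 S lo hi QX (D + i) (D' + i') x) MX _ _ (i0 + 1) w hlX hlY
      (fun _ _ _ => Ph_le ΛX ΛY hX hY zX zY sX sY h1X h1Y hΛX hΛY _ _ _ _ _ _ _ _) hb hsm ?_
    intro i hi1 i' hi1' μ hμ hμM
    refine Ph_sum ΛX ΛY hX hY zX zY sX sY i0 S lo hi QX (fun j _ P _ => Dp zX P ∈ EX j)
      (fun P P' h => h) (D + i) (D' + i') μ β0 ?_
    intro j hj j' hj'
    rw [Finset.mem_range] at hi1 hi1' hj hj'
    have key := h2 (4 * i0 + 1) s (S + j) (S + j') (D + i) (D' + i') (lo + 1) hi (EX j) μ MX lam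
      hμ hμM hl0 hlt (by omega) (by omega) (by omega) (by omega) (by omega) (by omega)
      (by omega) (by omega)
    refine le_trans (le_of_eq ?_) (key.trans ?_)
    · refine tsum_congr fun x => ?_
      congr 1
      refine tsum_congr fun P => tsum_congr fun P' => ?_
      split_ifs with c1 c2 c2
      · rfl
      · exact absurd ⟨c1.1, c1.2.2.1, c1.2.1, c1.2.2.2⟩ c2
      · exact absurd ⟨c2.1, c2.2.2.1, c2.2.1, c2.2.2.2⟩ c1
      · rfl
    · rw [hβ0]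
      gcongr
      exact hcX j
  have hTY : S1 ΛX hX i0 D (fun T => S1 ΛY hY i0 D' (fun T' =>
      Ph ΛX ΛY hX hY zX zY sX sY i0 S lo hi QY (HT hX T) (HT hY T')
        (w + Dp zY T' - Dp zX T)))
      ≤ ((1 - u) ^ J + J * ov ΛY hY i0) + (i0 + 1 : ℕ) * ((i0 + 1 : ℕ) *
        ((i0 + 1 : ℕ) * ((i0 + 1 : ℕ) * β0))) := by
    rw [S1_dbl ΛX ΛY hX hY zX zY i0 D D' w (fun a a' x =>
      Ph ΛX ΛY hX hY zX zY sX sY i0 S lo hi QY a a' x)]
    obtain ⟨b, hb, hsm⟩ := hsY J D' (hJ.trans (by omega))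
    refine mix' (law ΛX hX zX D) (law ΛY hY zY D') b (fun i i' x =>
      Ph ΛX ΛY hX hY zX zY sX sY i0 S lo hi QY (D + i) (D' + i') x) MY _ _ (i0 + 1) w hlX hlY
      (fun _ _ _ => Ph_le ΛX ΛY hX hY zX zY sX sY h1X h1Y hΛX hΛY _ _ _ _ _ _ _ _) hb hsm ?_
    intro i hi1 i' hi1' μ hμ hμM
    refine Ph_sum ΛX ΛY hX hY zX zY sX sY i0 S lo hi QY (fun _ j' _ P' => Dp zY P' ∈ EY j')
      (fun P P' h => h) (D + i) (D' + i') μ β0 ?_
    intro j hj j' hj'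
    rw [Finset.mem_range] at hi1 hi1' hj hj'
    have key := h3 (4 * i0 + 1) s (S + j) (S + j') (D + i) (D' + i') (lo + 1) hi (EY j') μ MY lam
      hμ hμM hl0 hlt (by omega) (by omega) (by omega) (by omega) (by omega) (by omega)
      (by omega) (by omega)
    refine le_trans (le_of_eq ?_) (key.trans ?_)
    · refine tsum_congr fun x => ?_
      congr 1
      refine tsum_congr fun P => tsum_congr fun P' => ?_
      split_ifs <;> rfl
    · rw [hβ0]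
      gcongr
      exact hcY j'
  -- sum up
  have hmain : S1 ΛX hX i0 D (fun T => S1 ΛX hX i0 S (fun P => S1 ΛY hY i0 D' (fun T' =>
          S1 ΛY hY i0 S (fun P' => W0 hX hY zX zY sX sY lo hi (HT hX T) (HT hY T')
            (w + Dp zY T' - Dp zX T) P P'))))
      ≤ u * u + ((((1 - u) ^ J + J * ov ΛX hX i0) + (i0 + 1 : ℕ) * ((i0 + 1 : ℕ) *
        ((i0 + 1 : ℕ) * ((i0 + 1 : ℕ) * β0)))) + (((1 - u) ^ J + J * ov ΛY hY i0) +
        (i0 + 1 : ℕ) * ((i0 + 1 : ℕ) * ((i0 + 1 : ℕ) * ((i0 + 1 : ℕ) * β0))))) := by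
    refine le_trans ?_ (add_le_add le_rfl (add_le_add hTX hTY))
    refine le_trans ?_ (add_le_add (S1_const ΛX hX h1X hΛX i0 D (u * u)) le_rfl)
    rw [← S1_add, ← S1_add]
    refine S1_mono ΛX hX fun T _ _ => ?_
    rw [S1_comm]
    refine le_trans ?_ (add_le_add (S1_const ΛY hY h1Y hΛY i0 D' (u * u)) le_rfl)
    rw [← S1_add, ← S1_add]
    refine S1_mono ΛY hY fun T' _ _ => ?_
    exact hcase _ _ _
  refine (add_le_add hmain le_rfl).trans (le_of_eq ?_)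
  ring

end pair

end Crest.Agent.R154.Asm852
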