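import Crest.Agent.R154.AsmX_95

/-! Row 154 (helper95), ROAD 801: one window of two whole lists. -/

set_option autoImplicit false

namespace Crest.Agent.R154.Asm95

open scoped ENNReal
open Crest.Agent.R154.B5A Crest.Agent.R154.FP178
open Classical

section Win

variable {BX BY G : Type*} [AddCommGroup G]
  (ΛX : BX → ℝ≥0∞) (hX : BX → ℕ) (zX : BX → G) (TX : List BX → G → ℕ → Set (G × ℕ))
  (ΛY : BY → ℝ≥0∞) (hY : BY → ℕ) (zY : BY → G) (TY : List BY → G → ℕ → Set (G × ℕ))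

/-- geometry of the trace of a list -/
structure Tr {B : Type*} (h : B → ℕ) (z : B → G) (T : List B → G → ℕ → Set (G × ℕ)) : Prop where
  app : ∀ L L' x a, T (L ++ L') x a = T L x a ∪ T L' (x + Dp z L) (a + HT h L)
  tr : ∀ L x c a y k, (y, k) ∈ T L (x + c) a ↔ (y - c, k) ∈ T L x a
  rg : ∀ L x a y k, (y, k) ∈ T L x a → a < k ∧ k ≤ a + HT h L

lemma ev_imp (hTX : Tr hX zX TX) (hTY : Tr hY zY TY) (w : G) (α T i0 lo md hi hi2 : ℕ)
    (hlo : α + 2 * i0 < lo) (hmd : md ≤ α + T) (hhi2 : α + T + 2 * i0 ≤ hi2)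
    (A P R : List BX) (A' P' R' : List BY)
    (a1 : α ≤ HT hX A) (a2 : HT hX A ≤ α + i0) (a3 : T ≤ HT hX P) (a4 : HT hX P ≤ T + i0)
    (b1 : α + i0 ≤ HT hY A') (b2 : HT hY A' ≤ α + i0 + i0) (b3 : T + i0 ≤ HT hY P')
    (he : Ev TX TY w lo md hi hi2 (A ++ (P ++ R)) (A' ++ (P' ++ R'))) :
    Q TX TY lo hi (HT hX A) (HT hY A') (w + Dp zY A' - Dp zX A) P P' := by
  obtain ⟨⟨y, k, hx, hy, hk⟩, hall⟩ := he
  have hlk := (hall y k hx hy).1
  have hX1 : (y, k) ∈ TX P (0 + Dp zX A) (0 + HT hX A) := by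
    rw [hTX.app, hTX.app] at hx
    rcases hx with hx | hx | hx
    · have := hTX.rg _ _ _ _ _ hx; omega
    · exact hx
    · have := hTX.rg _ _ _ _ _ hx; omega
  have hY1 : (y, k) ∈ TY P' (w + Dp zY A') (0 + HT hY A') := by
    rw [hTY.app, hTY.app] at hy
    rcases hy with hy | hy | hy
    · have := hTY.rg _ _ _ _ _ hy; omega
    · exact hy
    · have := hTY.rg _ _ _ _ _ hy; omega
  have eY : w + Dp zY A' = (w + Dp zY A' - Dp zX A) + Dp zX A := by abel
  constructor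
  · refine ⟨y - Dp zX A, k, ?_, ?_⟩
    · rw [hTX.tr, Nat.zero_add] at hX1; exact hX1
    · rw [eY, hTY.tr, Nat.zero_add] at hY1; exact hY1
  · intro y' k' h1 h2
    have hr := hTX.rg _ _ _ _ _ h1
    have g1 : (y' + Dp zX A, k') ∈ TX (A ++ (P ++ R)) 0 0 := by
      rw [hTX.app, hTX.app]
      refine Or.inr (Or.inl ?_)
      rw [hTX.tr, Nat.zero_add, add_sub_cancel_right]; exact h1
    have g2 : (y' + Dp zX A, k') ∈ TY (A' ++ (P' ++ R')) w 0 := by
      rw [hTY.app, hTY.app]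
      refine Or.inr (Or.inl ?_)
      rw [eY, hTY.tr, Nat.zero_add, add_sub_cancel_right]; exact h2
    have := hall _ _ g1 g2
    omega

/-- one window of two whole lists -/
theorem window (hTX : Tr hX zX TX) (hTY : Tr hY zY TY)
    (h1X : ∀ b, 1 ≤ hX b) (h1Y : ∀ b, 1 ≤ hY b) (hΛX : ∑' b, ΛX b ≤ 1)
    (hΛY : ∑' b, ΛY b ≤ 1) (hUX : ∀ n, U ΛX hX n ≤ 1) (hUY : ∀ n, U ΛY hY n ≤ 1)
    (w : G) (α T i0 lo md hi hi2 n : ℕ)
    (hlo : α + 2 * i0 < lo) (hmd : md ≤ α + T) (hhi2 : α + T + 2 * i0 ≤ hi2)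
    (hn : α + T + 3 * i0 ≤ n) (ep : ℝ≥0∞)
    (hεX : ∀ T, ∑' L, (if fp hX T L ∧ T + i0 < HT hX L then LW ΛX L else 0) ≤ ep)
    (hεY : ∀ T, ∑' L, (if fp hY T L ∧ T + i0 < HT hY L then LW ΛY L else 0) ≤ ep)
    (S : ℝ≥0∞)
    (hS : ∑' A, gg ΛX hX i0 α A * ∑' P, gg ΛX hX i0 T P * ∑' A', gg ΛY hY i0 (α + i0) A' *
      ∑' P', gg ΛY hY i0 (T + i0) P' *
        (if Q TX TY lo hi (HT hX A) (HT hY A') (w + Dp zY A' - Dp zX A) P P' then 1 else 0) ≤ S) :
    ∑' L, ∑' L', (if HT hX L = n ∧ HT hY L' = n ∧ Ev TX TY w lo md hi hi2 L L' then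
      LW ΛX L * LW ΛY L' else 0) ≤ 4 * ep + S := by
  set F : List BX → ℝ≥0∞ := fun L => ∑' L', LW ΛY L' * (if HT hY L' = n then
    (if Ev TX TY w lo md hi hi2 L L' then 1 else 0) else 0) with hF
  have hF1 : ∀ L, F L ≤ 1 := by
    intro L
    refine le_trans (ENNReal.tsum_le_tsum fun L' => mul_le_mul_right ?_ _)
      (fix_sum ΛY hY hUY 0 n)
    rw [Nat.zero_add]
    by_cases h : HT hY L' = n
    · rw [if_pos h, if_pos h]
      split_ifs <;> simp
    · rw [if_neg h]; exact zero_le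
  have e1 : ∑' L, ∑' L', (if HT hX L = n ∧ HT hY L' = n ∧ Ev TX TY w lo md hi hi2 L L' then
      LW ΛX L * LW ΛY L' else 0) = ∑' L, LW ΛX L * (if HT hX L = n then F L else 0) := by
    refine tsum_congr fun L => ?_
    by_cases h : HT hX L = n
    · rw [if_pos h, hF]
      simp only
      rw [← ENNReal.tsum_mul_left]
      refine tsum_congr fun L' => ?_
      by_cases h' : HT hY L' = n <;> by_cases h'' : Ev TX TY w lo md hi hi2 L L' <;>
        simp [h, h', h'']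
    · rw [if_neg h, mul_zero, ENNReal.tsum_eq_zero.2]
      intro L'
      rw [if_neg (fun hh => h hh.1)]
  rw [e1]
  refine (cut ΛX hX h1X hΛX hUX i0 ep hεX α T n (by omega) F hF1
    (fun A P => 2 * ep + ∑' A', gg ΛY hY i0 (α + i0) A' * ∑' P', gg ΛY hY i0 (T + i0) P' *
      (if Q TX TY lo hi (HT hX A) (HT hY A') (w + Dp zY A' - Dp zX A) P P' then 1 else 0)) ?_).trans
      ?_
  · intro A P R a1 a2 a3 a4
    refine cut ΛY hY h1Y hΛY hUY i0 ep hεY (α + i0) (T + i0) n (by omega)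
      (fun L' => if Ev TX TY w lo md hi hi2 (A ++ (P ++ R)) L' then 1 else 0)
      (fun L' => by split_ifs <;> simp)
      (fun A' P' => if Q TX TY lo hi (HT hX A) (HT hY A') (w + Dp zY A' - Dp zX A) P P'
        then 1 else 0) ?_
    intro A' P' R' b1 b2 b3 b4
    by_cases he : Ev TX TY w lo md hi hi2 (A ++ (P ++ R)) (A' ++ (P' ++ R'))
    · rw [if_pos he, if_pos (ev_imp hX zX TX hY zY TY hTX hTY w α T i0 lo md hi hi2 hlo hmd hhi2
        A P R A' P' R' a1 a2 a3 a4 b1 b2 b3 he)]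
    · rw [if_neg he]; exact zero_le
  · calc 2 * ep + ∑' A, gg ΛX hX i0 α A * ∑' P, gg ΛX hX i0 T P * (2 * ep +
          ∑' A', gg ΛY hY i0 (α + i0) A' * ∑' P', gg ΛY hY i0 (T + i0) P' *
          (if Q TX TY lo hi (HT hX A) (HT hY A') (w + Dp zY A' - Dp zX A) P P' then 1 else 0))
        = 2 * ep + ((∑' A, gg ΛX hX i0 α A * ∑' P, gg ΛX hX i0 T P * (2 * ep)) +
          ∑' A, gg ΛX hX i0 α A * ∑' P, gg ΛX hX i0 T P *
          ∑' A', gg ΛY hY i0 (α + i0) A' * ∑' P', gg ΛY hY i0 (T + i0) P' *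
          (if Q TX TY lo hi (HT hX A) (HT hY A') (w + Dp zY A' - Dp zX A) P P' then 1 else 0)) := by
          simp only [mul_add (gg ΛX hX i0 _ _), ENNReal.tsum_add]
      _ ≤ 2 * ep + (1 * (1 * (2 * ep)) + S) := by
          refine add_le_add le_rfl (add_le_add ?_ hS)
          calc ∑' A, gg ΛX hX i0 α A * ∑' P, gg ΛX hX i0 T P * (2 * ep)
              ≤ ∑' A, gg ΛX hX i0 α A * (1 * (2 * ep)) := by
                refine ENNReal.tsum_le_tsum fun A => mul_le_mul_right ?_ _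
                rw [ENNReal.tsum_mul_right]
                exact mul_le_mul_left (gg_sum ΛX hX h1X hΛX i0 T) _
            _ ≤ 1 * (1 * (2 * ep)) := by
                rw [ENNReal.tsum_mul_right]
                exact mul_le_mul_left (gg_sum ΛX hX h1X hΛX i0 α) _
      _ = 4 * ep + S := by ring

end Win

end Crest.Agent.R154.Asm95
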