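import Crest.Agent.R154.Ren_480
import Crest.Agent.R154.Ext_944
import Crest.Agent.R154.FP_178
import Crest.Agent.R154.Sel_300

/-! Row 154 (helper117), ROAD 801: abstract assembly `kapS` on the renewal package of helper480. -/

set_option autoImplicit false

namespace Crest.Agent.R154.Asm117

open scoped ENNReal Topology
open Crest.Agent.R154.B5A Crest.Agent.R154.Ren480 Filter

/-! ### traces -/

section traces

variable {B G : Type*} [AddCommGroup G] (s : B → Set (G × ℕ)) (h : B → ℕ) (z : B → G)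

/-- sites read by a list of blocks (helper540's `TX`, `TY`) -/
def TT : List B → G → ℕ → Set (G × ℕ)
  | [], _, _ => ∅
  | b :: L, x, a => {p | ∃ q ∈ s b, p = (x + q.1, a + q.2)} ∪ TT L (x + z b) (a + h b)

lemma TT_nil (x : G) (a : ℕ) : TT s h z [] x a = ∅ := rfl

lemma TT_cons (b : B) (L : List B) (x : G) (a : ℕ) :
    TT s h z (b :: L) x a
      = {p | ∃ q ∈ s b, p = (x + q.1, a + q.2)} ∪ TT s h z L (x + z b) (a + h b) := rfl

lemma TT_append (L L' : List B) (x : G) (a : ℕ) :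
    TT s h z (L ++ L') x a = TT s h z L x a ∪ TT s h z L' (x + DS z L) (a + HT h L) := by
  induction L generalizing x a with
  | nil => simp [TT_nil, DS_nil, HT_nil]
  | cons b L ih =>
    rw [List.cons_append, TT_cons, TT_cons, ih, Set.union_assoc]
    have e : DS z (b :: L) = z b + DS z L := by simp [DS]
    rw [e, HT_cons, add_assoc, add_assoc]

lemma TT_shift (L : List B) (x y : G) (a : ℕ) (p : G × ℕ) :
    p ∈ TT s h z L (x + y) a ↔ (p.1 - y, p.2) ∈ TT s h z L x a := by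
  induction L generalizing x a with
  | nil => simp [TT_nil]
  | cons b L ih =>
    rw [TT_cons, TT_cons, Set.mem_union, Set.mem_union, show x + y + z b = x + z b + y by abel, ih]
    refine or_congr ?_ Iff.rfl
    constructor
    · rintro ⟨q, hq, rfl⟩
      refine ⟨q, hq, ?_⟩
      simp only [Prod.mk.injEq, and_true]; abel
    · rintro ⟨q, hq, he⟩
      refine ⟨q, hq, ?_⟩
      have h1 := congrArg Prod.fst he
      have h2 := congrArg Prod.snd he
      simp only at h1 h2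
      ext
      · simp only; rw [add_right_comm, ← h1]; abel
      · simpa using h2

lemma TT_bd (hs : ∀ b, ∀ q ∈ s b, 1 ≤ q.2 ∧ q.2 ≤ h b) (L : List B) (x : G) (a : ℕ) (p : G × ℕ)
    (hp : p ∈ TT s h z L x a) : a < p.2 ∧ p.2 ≤ a + HT h L := by
  induction L generalizing x a with
  | nil => rw [TT_nil] at hp; exact absurd hp (Set.notMem_empty _)
  | cons b L ih =>
    rw [TT_cons] at hp
    rw [HT_cons]
    rcases hp with ⟨q, hq, rfl⟩ | hp
    · have := hs b q hq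
      simp only
      omega
    · have := ih _ _ hp
      omega

end traces

section AT

variable {B : Type*} (Λ : B → ℝ≥0∞) (ht : B → ℕ)

lemma fp_iff (T : ℕ) (L : List B) : FP178.fp ht T L ↔ Stp ht T L := by
  induction L generalizing T with
  | nil => exact Iff.rfl
  | cons b L ih => rw [FP178.fp_cons, Stp_cons, ih]

lemma Stp_self (h1 : ∀ b, 1 ≤ ht b) {L : List B} {n : ℕ} (h : HT ht L = n) : Stp ht n L := by
  refine Stp_of ht L n h.ge fun L1 L2 e h2 => ?_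
  rw [e, HT_append] at h
  have := length_le_HT ht h1 L2
  have : 0 < L2.length := List.length_pos_iff.2 h2
  omega

lemma U_le_one (h1 : ∀ b, 1 ≤ ht b) (hΛ : ∑' b, Λ b = 1) (n : ℕ) : U Λ ht n ≤ 1 := by
  classical
  rw [U, ← AT_one Λ ht hΛ h1 n, AT]
  refine ENNReal.tsum_le_tsum fun L => ?_
  by_cases h : HT ht L = n
  · rw [if_pos h, if_pos (Stp_self ht h1 h), mul_one]
  · rw [if_neg h]; exact zero_le

lemma toAT (h1 : ∀ b, 1 ≤ ht b) (hΛ : ∑' b, Λ b = 1) {n D : ℕ} (hD : D ≤ n)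
    (f g : List B → ℝ≥0∞) (hfg : ∀ L1 L2, Stp ht D L1 → f (L1 ++ L2) ≤ g L1) :
    ∑' L, (if HT ht L = n then LW Λ L * f L else 0) ≤ AT Λ ht D g := by
  classical
  have key := FP178.split Λ ht h1 D (fun L => if HT ht L = n then f L else 0)
  have e0 : ∑' L, (if HT ht L = n then LW Λ L * f L else 0)
      = ∑' L, (if D ≤ HT ht L then LW Λ L * (if HT ht L = n then f L else 0) else 0) := by
    refine tsum_congr fun L => ?_
    by_cases h : HT ht L = n
    · rw [if_pos h, if_pos (by omega), if_pos h]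
    · rw [if_neg h, if_neg h, mul_zero, ite_self]
  rw [e0, key, AT]
  refine ENNReal.tsum_le_tsum fun L1 => ?_
  by_cases h : Stp ht D L1
  · rw [if_pos ((fp_iff ht D L1).2 h), if_pos h]
    refine mul_le_mul' le_rfl ?_
    calc ∑' L2, LW Λ L2 * (if HT ht (L1 ++ L2) = n then f (L1 ++ L2) else 0)
        ≤ ∑' L2, (if HT ht L2 = n - HT ht L1 then LW Λ L2 else 0) * g L1 := by
          refine ENNReal.tsum_le_tsum fun L2 => ?_
          by_cases hh : HT ht (L1 ++ L2) = n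
          · rw [if_pos hh, if_pos (by rw [HT_append] at hh; omega)]
            exact mul_le_mul' le_rfl (hfg _ _ h)
          · rw [if_neg hh, mul_zero]; exact zero_le
      _ = U Λ ht (n - HT ht L1) * g L1 := by rw [ENNReal.tsum_mul_right, U]
      _ ≤ 1 * g L1 := mul_le_mul' (U_le_one Λ ht h1 hΛ _) le_rfl
      _ = g L1 := one_mul _
  · rw [if_neg (fun h' => h ((fp_iff ht D L1).1 h')), if_neg h]

open Classical in
lemma AT_eq (T : ℕ) (F : List B → ℝ≥0∞) :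
    AT Λ ht T F = ∑' L, (if Stp ht T L then LW Λ L else 0) * F L := by
  rw [AT]
  refine tsum_congr fun L => ?_
  by_cases h : Stp ht T L <;> simp [h]

lemma AT_comm {B' : Type*} (Λ' : B' → ℝ≥0∞) (ht' : B' → ℕ) (S T : ℕ)
    (F : List B → List B' → ℝ≥0∞) :
    AT Λ ht S (fun L => AT Λ' ht' T (fun L' => F L L'))
      = AT Λ' ht' T (fun L' => AT Λ ht S (fun L => F L L')) := by
  classical
  simp only [AT_eq]
  simp_rw [← ENNReal.tsum_mul_left]
  rw [ENNReal.tsum_comm]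
  refine tsum_congr fun L' => tsum_congr fun L => ?_
  ring

lemma AT_const (h1 : ∀ b, 1 ≤ ht b) (hΛ : ∑' b, Λ b = 1) (T : ℕ) (c : ℝ≥0∞) :
    AT Λ ht T (fun _ => c) = c := by
  have := AT_mul Λ ht T c (fun _ => 1)
  rw [AT_one Λ ht hΛ h1] at this
  simpa using this

lemma cutAT (h1 : ∀ b, 1 ≤ ht b) (hΛ : ∑' b, Λ b = 1) {S T D i0 : ℕ} (hD : S + i0 + T ≤ D)
    (F : List B → ℝ≥0∞) (hF : ∀ L, F L ≤ 1) (Ψ : List B → List B → ℝ≥0∞)
    (hΨ : ∀ P Q R, Stp ht S P → HT ht P ≤ S + i0 → Stp ht T Q → HT ht Q ≤ T + i0 →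
      F (P ++ (Q ++ R)) ≤ Ψ P Q) :
    AT Λ ht D F ≤ 2 * e1 Λ ht i0 + AT Λ ht S (fun P => AT Λ ht T (fun Q => Ψ P Q)) := by
  classical
  rw [AT_split Λ ht h1 S D (by omega) F]
  calc AT Λ ht S (fun P => AT Λ ht (D - HT ht P) (fun L2 => F (P ++ L2)))
      ≤ AT Λ ht S (fun P => ((if S + i0 < HT ht P then 1 else 0)
          + AT Λ ht T (fun Q => (if T + i0 < HT ht Q then 1 else 0))) +
            AT Λ ht T (fun Q => Ψ P Q)) := by
        refine AT_mono Λ ht S fun P hP => ?_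
        by_cases hPi : HT ht P ≤ S + i0
        · rw [if_neg (by omega), zero_add, AT_split Λ ht h1 T (D - HT ht P) (by omega),
            ← AT_add]
          refine AT_mono Λ ht T fun Q hQ => ?_
          by_cases hQi : HT ht Q ≤ T + i0
          · rw [if_neg (by omega), zero_add]
            calc AT Λ ht (D - HT ht P - HT ht Q) (fun R => F (P ++ (Q ++ R)))
                ≤ AT Λ ht (D - HT ht P - HT ht Q) (fun _ => Ψ P Q) :=
                  AT_mono Λ ht _ fun R _ => hΨ P Q R hP hPi hQ hQi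
              _ = Ψ P Q := AT_const Λ ht h1 hΛ _ _
          · rw [if_pos (by omega)]
            exact (AT_le_one Λ ht hΛ h1 _ fun L => hF _).trans le_self_add
        · rw [if_pos (by omega)]
          refine (AT_le_one Λ ht hΛ h1 _ fun L => hF _).trans ?_
          rw [add_assoc]; exact le_self_add
    _ = (AT Λ ht S (fun P => (if S + i0 < HT ht P then 1 else 0))
          + AT Λ ht S (fun _ => AT Λ ht T (fun Q => (if T + i0 < HT ht Q then 1 else 0))))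
          + AT Λ ht S (fun P => AT Λ ht T (fun Q => Ψ P Q)) := by
        rw [AT_add, AT_add]
    _ ≤ (e1 Λ ht i0 + e1 Λ ht i0) + AT Λ ht S (fun P => AT Λ ht T (fun Q => Ψ P Q)) := by
        refine add_le_add (add_le_add (overshoot_le Λ ht hΛ h1 i0 S) ?_) le_rfl
        rw [AT_const Λ ht h1 hΛ]
        exact overshoot_le Λ ht hΛ h1 i0 T
    _ = _ := by rw [two_mul]

end AT

section two

variable {BX BY : Type*} (ΛX : BX → ℝ≥0∞) (hX : BX → ℕ) (ΛY : BY → ℝ≥0∞) (hY : BY → ℕ)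

lemma cut2 (h1X : ∀ b, 1 ≤ hX b) (hΛX : ∑' b, ΛX b = 1) (h1Y : ∀ b, 1 ≤ hY b)
    (hΛY : ∑' b, ΛY b = 1) {S T S' T' D i0 : ℕ} (hD : S + i0 + T ≤ D) (hD' : S' + i0 + T' ≤ D)
    (F : List BX → List BY → ℝ≥0∞) (hF : ∀ L L', F L L' ≤ 1)
    (Ψ : List BX → List BY → List BX → List BY → ℝ≥0∞)
    (hΨ : ∀ P Q R P' Q' R', Stp hX S P → HT hX P ≤ S + i0 → Stp hX T Q → HT hX Q ≤ T + i0 →
      Stp hY S' P' → HT hY P' ≤ S' + i0 → Stp hY T' Q' → HT hY Q' ≤ T' + i0 →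
      F (P ++ (Q ++ R)) (P' ++ (Q' ++ R')) ≤ Ψ P P' Q Q') :
    AT ΛX hX D (fun L => AT ΛY hY D (fun L' => F L L'))
      ≤ 2 * e1 ΛX hX i0 + (2 * e1 ΛY hY i0 + AT ΛX hX S (fun P => AT ΛY hY S' (fun P' =>
        AT ΛX hX T (fun Q => AT ΛY hY T' (fun Q' => Ψ P P' Q Q'))))) := by
  have H1 := cutAT ΛX hX h1X hΛX hD (fun L => AT ΛY hY D (fun L' => F L L'))
    (fun L => AT_le_one ΛY hY hΛY h1Y _ fun L' => hF L L')
    (fun P Q => 2 * e1 ΛY hY i0 + AT ΛY hY S' (fun P' => AT ΛY hY T' (fun Q' => Ψ P P' Q Q')))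
    (fun P Q R hP hP' hQ hQ' => cutAT ΛY hY h1Y hΛY hD' (fun L' => F (P ++ (Q ++ R)) L')
      (fun L' => hF _ _) (fun P' Q' => Ψ P P' Q Q')
      (fun P' Q' R' a1 a2 a3 a4 => hΨ P Q R P' Q' R' hP hP' hQ hQ' a1 a2 a3 a4))
  refine H1.trans (add_le_add le_rfl ?_)
  refine le_of_eq ?_
  simp only [AT_add, AT_const ΛX hX h1X hΛX]
  congr 1
  congr 1
  funext P
  rw [AT_comm]

end two

section law

variable {G : Type*} [AddCommGroup G]

lemma mix (α β : ℕ × G → ℝ≥0∞) (hα : ∑' x, α x ≤ 1) (hβ : ∑' x, β x ≤ 1) (M R : ℝ≥0∞)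
    (hM : (∀ x, α x ≤ M) ∨ (∀ x, β x ≤ M)) (i0 : ℕ) (w : G) (Φ : ℕ → ℕ → G → ℝ≥0∞)
    (hΦ : ∀ i i', i ≤ i0 → i' ≤ i0 → ∀ μ : G → ℝ≥0∞, ∑' x, μ x ≤ 1 → (∀ x, μ x ≤ M) →
      ∑' x, μ x * Φ i i' x ≤ R) :
    ∑' x : ℕ × G, α x * ∑' y : ℕ × G, β y *
        (if x.1 ≤ i0 ∧ y.1 ≤ i0 then Φ x.1 y.1 (w + y.2 - x.2) else 0)
      ≤ ((i0 + 1 : ℕ) : ℝ≥0∞) ^ 2 * R := by
  set T : ℕ → ℕ → ℝ≥0∞ := fun i i' => ∑' z, α (i, z) * ∑' z', β (i', z') * Φ i i' (w + z' - z)
    with hT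
  have hαi : ∀ i, ∑' z, α (i, z) ≤ 1 := fun i =>
    (ENNReal.tsum_comp_le_tsum_of_injective (Prod.mk_right_injective i) α).trans hα
  have hβi : ∀ i, ∑' z, β (i, z) ≤ 1 := fun i =>
    (ENNReal.tsum_comp_le_tsum_of_injective (Prod.mk_right_injective i) β).trans hβ
  have hTR : ∀ i i', i ≤ i0 → i' ≤ i0 → T i i' ≤ R := by
    intro i i' hi hi'
    have e1 : T i i' = ∑' x, (∑' z, α (i, z) * β (i', x - w + z)) * Φ i i' x := by
      simp only [hT]
      have : ∀ z, ∑' z', β (i', z') * Φ i i' (w + z' - z)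
          = ∑' x, β (i', x - w + z) * Φ i i' x := by
        intro z
        rw [← (Equiv.addRight (z - w)).tsum_eq (fun z' => β (i', z') * Φ i i' (w + z' - z))]
        refine tsum_congr fun x => ?_
        simp only [Equiv.coe_addRight]
        rw [show w + (x + (z - w)) - z = x by abel, show x + (z - w) = x - w + z by abel]
      simp_rw [this, ← ENNReal.tsum_mul_left, ← ENNReal.tsum_mul_right]
      rw [ENNReal.tsum_comm]
      refine tsum_congr fun x => tsum_congr fun z => ?_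
      ring
    rw [e1]
    refine hΦ i i' hi hi' _ ?_ ?_
    · rw [ENNReal.tsum_comm]
      calc ∑' z, ∑' x, α (i, z) * β (i', x - w + z)
          ≤ ∑' z, α (i, z) * 1 := by
            refine ENNReal.tsum_le_tsum fun z => ?_
            rw [ENNReal.tsum_mul_left]
            refine mul_le_mul' le_rfl ?_
            have : ∑' x, β (i', x - w + z) = ∑' x, β (i', x) := by
              rw [← (Equiv.addRight (z - w)).tsum_eq (fun z' => β (i', z'))]
              refine tsum_congr fun x => ?_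
              simp only [Equiv.coe_addRight]
              rw [show x + (z - w) = x - w + z by abel]
            rw [this]; exact hβi i'
        _ ≤ 1 := by simpa using hαi i
    · intro x
      rcases hM with hM | hM
      · calc ∑' z, α (i, z) * β (i', x - w + z) ≤ ∑' z, M * β (i', x - w + z) :=
              ENNReal.tsum_le_tsum fun z => mul_le_mul' (hM _) le_rfl
          _ = M * ∑' z, β (i', z) := by
              rw [ENNReal.tsum_mul_left]
              congr 1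
              rw [← (Equiv.addLeft (x - w)).tsum_eq (fun z' => β (i', z'))]
              rfl
          _ ≤ M * 1 := mul_le_mul' le_rfl (hβi i')
          _ = M := mul_one M
      · calc ∑' z, α (i, z) * β (i', x - w + z) ≤ ∑' z, α (i, z) * M :=
              ENNReal.tsum_le_tsum fun z => mul_le_mul' le_rfl (hM _)
          _ ≤ 1 * M := by rw [ENNReal.tsum_mul_right]; exact mul_le_mul' (hαi i) le_rfl
          _ = M := one_mul M
  have e2 : ∑' x : ℕ × G, α x * ∑' y : ℕ × G, β y *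
        (if x.1 ≤ i0 ∧ y.1 ≤ i0 then Φ x.1 y.1 (w + y.2 - x.2) else 0)
      = ∑' i, ∑' i', (if i ≤ i0 ∧ i' ≤ i0 then T i i' else 0) := by
    rw [ENNReal.tsum_prod']
    refine tsum_congr fun i => ?_
    simp_rw [ENNReal.tsum_prod', ← ENNReal.tsum_mul_left]
    rw [ENNReal.tsum_comm]
    refine tsum_congr fun i' => ?_
    by_cases hc : i ≤ i0 ∧ i' ≤ i0
    · simp only [if_pos hc, hT]
      simp_rw [← ENNReal.tsum_mul_left]
    · simp only [if_neg hc]; simp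
  rw [e2]
  calc ∑' i, ∑' i', (if i ≤ i0 ∧ i' ≤ i0 then T i i' else 0)
      = ∑ i ∈ Finset.range (i0 + 1), ∑ i' ∈ Finset.range (i0 + 1), T i i' := by
        rw [tsum_eq_sum (s := Finset.range (i0 + 1))]
        · refine Finset.sum_congr rfl fun i hi => ?_
          rw [tsum_eq_sum (s := Finset.range (i0 + 1))]
          · refine Finset.sum_congr rfl fun i' hi' => ?_
            rw [Finset.mem_range] at hi hi'
            rw [if_pos ⟨by omega, by omega⟩]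
          · intro i' hi'
            rw [Finset.mem_range] at hi'
            rw [if_neg (by omega)]
        · intro i hi
          rw [Finset.mem_range] at hi
          rw [ENNReal.tsum_eq_zero]
          intro i'
          rw [if_neg (by omega)]
    _ ≤ ∑ _i ∈ Finset.range (i0 + 1), ∑ _i' ∈ Finset.range (i0 + 1), R := by
        refine Finset.sum_le_sum fun i hi => Finset.sum_le_sum fun i' hi' => ?_
        rw [Finset.mem_range] at hi hi'
        exact hTR i i' (by omega) (by omega)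
    _ = ((i0 + 1 : ℕ) : ℝ≥0∞) ^ 2 * R := by
        simp only [Finset.sum_const, Finset.card_range, nsmul_eq_mul]
        rw [sq, mul_assoc]

end law

section main

variable {BX BY G : Type*} [AddCommGroup G]
variable (ΛX : BX → ℝ≥0∞) (hX : BX → ℕ) (zX : BX → G) (sX : BX → Set (G × ℕ))
variable (ΛY : BY → ℝ≥0∞) (hY : BY → ℕ) (zY : BY → G) (sY : BY → Set (G × ℕ))

/-- some contact, all contacts at depths in `[lo, hi]` -/
def Ev (lo hi : ℕ) (L : List BX) (a : ℕ) (L' : List BY) (x : G) (a' : ℕ) : Prop :=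
  (∃ z k, (z, k) ∈ TT sX hX zX L 0 a ∧ (z, k) ∈ TT sY hY zY L' x a') ∧
    ∀ z k, (z, k) ∈ TT sX hX zX L 0 a → (z, k) ∈ TT sY hY zY L' x a' → lo ≤ k ∧ k ≤ hi

open Classical in
/-- window hypothesis (H2: `loc = X local`, H3: `loc = Y local`) -/
def Hyp (loc : List BX → List BY → Finset G → Prop) (C : ℝ≥0∞) (us : ℕ → ℕ → ℝ≥0∞) : Prop :=
  ∀ (D s h h' a a' lo hi : ℕ) (E : Finset G) (μ : G → ℝ≥0∞) (M lam : ℝ≥0∞),
    ∑' x, μ x ≤ 1 → (∀ x, μ x ≤ M) → lam ≠ 0 → lam ≠ ⊤ → a ≤ a' → a' ≤ a + D →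
    a + h ≤ a' + h' → a' + h' ≤ a + h + D → a' + s ≤ lo → hi + s ≤ a + h →
    ∑' x, μ x * ∑' L, ∑' L', (if HT hX L = h ∧ HT hY L' = h' ∧ loc L L' E ∧
        Ev hX zX sX hY zY sY lo hi L a L' x a' then LW ΛX L * LW ΛY L' else 0)
      ≤ C * (lam + M * E.card * us D s / lam + us D s)

open Classical in
lemma phi_le {loc : List BX → List BY → Finset G → Prop} {C : ℝ≥0∞} {us : ℕ → ℕ → ℝ≥0∞}
    (hyp : Hyp ΛX hX zX sX ΛY hY zY sY loc C us) (S T i0 s : ℕ) (hs : s ≤ T)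
    (q : List BX → List BY → Prop) (E : ℕ → ℕ → Finset G)
    (hq : ∀ L L', q L L' → loc L L' (E (HT hX L - T) (HT hY L' - (T + i0))))
    (M cd lam : ℝ≥0∞) (hE : ∀ j j', M * (E j j').card ≤ cd) (hlam : lam ≠ 0) (hlam' : lam ≠ ⊤)
    (i i' : ℕ) (hi : i ≤ i0) (hi' : i' ≤ i0) (μ : G → ℝ≥0∞) (hμ : ∑' x, μ x ≤ 1)
    (hμM : ∀ x, μ x ≤ M) :
    ∑' x, μ x * AT ΛX hX T (fun Q => AT ΛY hY (T + i0) (fun Q' =>
        if HT hX Q ≤ T + i0 ∧ HT hY Q' ≤ T + i0 + i0 ∧ q Q Q' ∧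
          Ev hX zX sX hY zY sY (S + 2 * i0 + s) (S + T - s) Q (S + i) Q' x (S + i0 + i')
        then 1 else 0))
      ≤ ((i0 + 1 : ℕ) : ℝ≥0∞) ^ 2 * (C * (lam + cd * us (4 * i0) s / lam + us (4 * i0) s)) := by
  set Tm : ℕ → ℕ → G → List BX → List BY → ℝ≥0∞ := fun j j' x L L' =>
    if HT hX L = T + j ∧ HT hY L' = T + i0 + j' ∧ loc L L' (E j j') ∧
      Ev hX zX sX hY zY sY (S + 2 * i0 + s) (S + T - s) L (S + i) L' x (S + i0 + i')
    then LW ΛX L * LW ΛY L' else 0 with hTm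
  have h1 : ∀ x, AT ΛX hX T (fun Q => AT ΛY hY (T + i0) (fun Q' =>
        if HT hX Q ≤ T + i0 ∧ HT hY Q' ≤ T + i0 + i0 ∧ q Q Q' ∧
          Ev hX zX sX hY zY sY (S + 2 * i0 + s) (S + T - s) Q (S + i) Q' x (S + i0 + i')
        then 1 else 0))
      ≤ ∑ j ∈ Finset.range (i0 + 1), ∑ j' ∈ Finset.range (i0 + 1), ∑' L, ∑' L', Tm j j' x L L' := by
    intro x
    have e : ∑ j ∈ Finset.range (i0 + 1), ∑ j' ∈ Finset.range (i0 + 1), ∑' L, ∑' L', Tm j j' x L L'
        = ∑' L, ∑' L', ∑ j ∈ Finset.range (i0 + 1), ∑ j' ∈ Finset.range (i0 + 1),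
          Tm j j' x L L' := by
      simp only [← Summable.tsum_finsetSum (fun _ _ => ENNReal.summable)]
    rw [e]
    simp only [AT_eq]
    refine ENNReal.tsum_le_tsum fun L => ?_
    rw [← ENNReal.tsum_mul_left]
    refine ENNReal.tsum_le_tsum fun L' => ?_
    by_cases hL : Stp hX T L
    · by_cases hL' : Stp hY (T + i0) L'
      · rw [if_pos hL, if_pos hL']
        by_cases hc : HT hX L ≤ T + i0 ∧ HT hY L' ≤ T + i0 + i0 ∧ q L L' ∧
          Ev hX zX sX hY zY sY (S + 2 * i0 + s) (S + T - s) L (S + i) L' x (S + i0 + i')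
        · rw [if_pos hc, mul_one]
          have b1 := Stp_le hX L T hL
          have b2 := Stp_le hY L' _ hL'
          have e3 : LW ΛX L * LW ΛY L'
              = Tm (HT hX L - T) (HT hY L' - (T + i0)) x L L' := by
            simp only [hTm]
            rw [if_pos ⟨by omega, by omega, hq L L' hc.2.2.1, hc.2.2.2⟩]
          rw [e3]
          refine le_trans ?_ (Finset.single_le_sum
            (f := fun j => ∑ j' ∈ Finset.range (i0 + 1), Tm j j' x L L')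
            (fun _ _ => zero_le) (Finset.mem_range.2 (show HT hX L - T < i0 + 1 by omega)))
          exact Finset.single_le_sum
            (f := fun j' => Tm (HT hX L - T) j' x L L')
            (fun _ _ => zero_le) (Finset.mem_range.2 (show HT hY L' - (T + i0) < i0 + 1 by omega))
        · rw [if_neg hc, mul_zero, mul_zero]; exact zero_le
      · rw [if_neg hL', zero_mul, mul_zero]; exact zero_le
    · rw [if_neg hL, zero_mul]; exact zero_le
  calc _ ≤ ∑' x, μ x * ∑ j ∈ Finset.range (i0 + 1), ∑ j' ∈ Finset.range (i0 + 1),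
        ∑' L, ∑' L', Tm j j' x L L' := ENNReal.tsum_le_tsum fun x => mul_le_mul' le_rfl (h1 x)
    _ = ∑ j ∈ Finset.range (i0 + 1), ∑ j' ∈ Finset.range (i0 + 1),
        ∑' x, μ x * ∑' L, ∑' L', Tm j j' x L L' := by
        simp only [Finset.mul_sum]
        rw [Summable.tsum_finsetSum (fun _ _ => ENNReal.summable)]
        refine Finset.sum_congr rfl fun j _ => ?_
        rw [Summable.tsum_finsetSum (fun _ _ => ENNReal.summable)]
    _ ≤ ∑ _j ∈ Finset.range (i0 + 1), ∑ _j' ∈ Finset.range (i0 + 1),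
        (C * (lam + cd * us (4 * i0) s / lam + us (4 * i0) s)) := by
        refine Finset.sum_le_sum fun j hj => Finset.sum_le_sum fun j' hj' => ?_
        rw [Finset.mem_range] at hj hj'
        refine (hyp (4 * i0) s (T + j) (T + i0 + j') (S + i) (S + i0 + i') (S + 2 * i0 + s)
          (S + T - s) (E j j') μ M lam hμ hμM hlam hlam' (by omega) (by omega) (by omega)
          (by omega) (by omega) (by omega)).trans ?_
        refine mul_le_mul' le_rfl (add_le_add (add_le_add le_rfl ?_) le_rfl)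
        exact ENNReal.div_le_div_right (mul_le_mul' (hE j j') le_rfl) _
    _ = _ := by
        simp only [Finset.sum_const, Finset.card_range, nsmul_eq_mul]
        rw [sq, mul_assoc]


lemma AT_finsum {B ι : Type*} (Λ : B → ℝ≥0∞) (ht : B → ℕ) (T : ℕ) (J : Finset ι)
    (F : ι → List B → ℝ≥0∞) :
    AT Λ ht T (fun L => ∑ i ∈ J, F i L) = ∑ i ∈ J, AT Λ ht T (F i) := by
  classical
  induction J using Finset.induction_on with
  | empty =>
    simp only [Finset.sum_empty, AT_eq, mul_zero, tsum_zero]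
  | insert i J hi ih =>
    simp only [Finset.sum_insert hi]
    rw [AT_add, ih]

lemma min_add_le {x g b : ℝ≥0∞} (h : x ≤ g + b) : x ≤ min x g + b := by
  rcases le_total x g with hx | hx
  · rw [min_eq_left hx]; exact le_self_add
  · rw [min_eq_right hx]; exact h

open Classical in
/-- quantile, few large atoms and smoothing for one walker -/
lemma pack {B : Type*} (Λ : B → ℝ≥0∞) (ht : B → ℕ) (z : B → G) (h1 : ∀ b, 1 ≤ ht b)
    (hΛ : ∑' b, Λ b = 1) (T i0 : ℕ) {u : ℝ≥0∞} (hu0 : u ≠ 0) (hu1 : u ≤ 1) :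
    ∃ (th : ℝ≥0∞) (E : ℕ → Finset G) (M : ℝ≥0∞),
      (∀ L, th ≤ a Λ ht z T (HT ht L - T, DS z L) → DS z L ∈ E (HT ht L - T)) ∧
      (∀ j, M * (E j).card ≤ 2 * ((i0 + 1 : ℕ) : ℝ≥0∞) * u⁻¹) ∧
      AT Λ ht T (fun L => if a Λ ht z T (HT ht L - T, DS z L) < th then 1 else 0) ≤ u ∧
      ∀ N S : ℕ, N * (T + i0) ≤ S → ∃ g b : ℕ × G → ℝ≥0∞,
        (∀ x, a Λ ht z S x ≤ g x + b x) ∧ (∀ x, g x ≤ M) ∧ (∀ x, g x ≤ a Λ ht z S x) ∧
        ∑' x, b x ≤ (1 - u) ^ N + e1 Λ ht i0 * u⁻¹ := by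
  have hsum := a_sum Λ ht z hΛ h1 T
  obtain ⟨th, hth0, -, hlow, hup⟩ := quantile (p := a Λ ht z T) hsum hu0 hu1
  obtain ⟨E, hE, hEc⟩ := card_large (p := a Λ ht z T) hsum.le hth0
  refine ⟨th, fun j => (E.filter (fun x => x.1 = j)).image Prod.snd,
    ((i0 + 1 : ℕ) : ℝ≥0∞) * (2 * th) * u⁻¹, ?_, ?_, ?_, ?_⟩
  · intro L hL
    exact Finset.mem_image.2 ⟨(HT ht L - T, DS z L), Finset.mem_filter.2 ⟨(hE _).2 hL, rfl⟩, rfl⟩
  · intro j
    have hc : ((E.filter (fun x => x.1 = j)).image Prod.snd).card ≤ E.card :=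
      Finset.card_image_le.trans (Finset.card_filter_le _ _)
    calc ((i0 + 1 : ℕ) : ℝ≥0∞) * (2 * th) * u⁻¹ *
          (((E.filter (fun x => x.1 = j)).image Prod.snd).card : ℝ≥0∞)
        ≤ ((i0 + 1 : ℕ) : ℝ≥0∞) * (2 * th) * u⁻¹ * (E.card : ℝ≥0∞) :=
          mul_le_mul' le_rfl (by exact_mod_cast hc)
      _ = 2 * ((i0 + 1 : ℕ) : ℝ≥0∞) * u⁻¹ * ((E.card : ℝ≥0∞) * th) := by ring
      _ ≤ 2 * ((i0 + 1 : ℕ) : ℝ≥0∞) * u⁻¹ * 1 := mul_le_mul' le_rfl hEc
      _ = _ := mul_one _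
  · rw [AT_fun Λ ht z T (fun x => if a Λ ht z T x < th then 1 else 0)]
    refine le_trans (le_of_eq ?_) hlow
    refine tsum_congr fun x => ?_
    by_cases hx : a Λ ht z T x < th <;> simp [hx]
  · intro N S hNS
    have hv : ∑' y : ℕ × G, (if y.1 ≤ i0 ∧ 2 * th < a Λ ht z T y then a Λ ht z T y else 0)
        ≤ 1 - u := by
      refine ENNReal.le_sub_of_add_le_right (ne_top_of_le_ne_top ENNReal.one_ne_top hu1) ?_
      refine (add_le_add le_rfl hup).trans ?_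
      rw [← ENNReal.tsum_add, ← hsum]
      refine ENNReal.tsum_le_tsum fun y => ?_
      by_cases hy : a Λ ht z T y < 2 * th
      · rw [if_pos hy, if_neg (fun h => absurd h.2 (not_lt.2 hy.le)), zero_add]
      · rw [if_neg hy, add_zero]
        split_ifs
        · exact le_rfl
        · exact zero_le
    obtain ⟨g, b, hgb, hg, hb⟩ := smooth Λ ht z hΛ h1 hv N S hNS
    have e : 1 - (1 - u) = u := ENNReal.sub_sub_cancel ENNReal.one_ne_top hu1
    rw [e] at hb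
    simp only [e] at hg
    exact ⟨fun x => min (a Λ ht z S x) (g x), b, fun x => min_add_le (hgb x),
      fun x => (min_le_right _ _).trans (hg x), fun x => min_le_left _ _, hb⟩

open Classical in
/-- one window, after the cut -/
lemma core (h1X : ∀ b, 1 ≤ hX b) (hΛX : ∑' b, ΛX b = 1) (h1Y : ∀ b, 1 ≤ hY b)
    (hΛY : ∑' b, ΛY b = 1) {C : ℝ≥0∞} {us : ℕ → ℕ → ℝ≥0∞}
    (H2 : Hyp ΛX hX zX sX ΛY hY zY sY (fun L _ E => DS zX L ∈ E) C us)
    (H3 : Hyp ΛX hX zX sX ΛY hY zY sY (fun _ L' E => DS zY L' ∈ E) C us)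
    (S T i0 s N : ℕ) {u lam : ℝ≥0∞} (hu0 : u ≠ 0) (hu1 : u ≤ 1) (hlam : lam ≠ 0)
    (hlam' : lam ≠ ⊤) (hs : s ≤ T) (hN : N * (T + i0 + i0) ≤ S) (w : G) :
    ∑' x : ℕ × G, a ΛX hX zX S x * ∑' y : ℕ × G, a ΛY hY zY (S + i0) y *
      (if x.1 ≤ i0 ∧ y.1 ≤ i0 then AT ΛX hX T (fun Q => AT ΛY hY (T + i0) (fun Q' =>
        if HT hX Q ≤ T + i0 ∧ HT hY Q' ≤ T + i0 + i0 ∧
          Ev hX zX sX hY zY sY (S + 2 * i0 + s) (S + T - s) Q (S + x.1) Q' (w + y.2 - x.2)
            (S + i0 + y.1)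
        then 1 else 0)) else 0)
      ≤ (((1 - u) ^ N + e1 ΛX hX i0 * u⁻¹) + ((i0 + 1 : ℕ) : ℝ≥0∞) ^ 2 *
          (((i0 + 1 : ℕ) : ℝ≥0∞) ^ 2 * (C * (lam + (2 * ((i0 + 1 : ℕ) : ℝ≥0∞) * u⁻¹) *
            us (4 * i0) s / lam + us (4 * i0) s))))
        + (((1 - u) ^ N + e1 ΛY hY i0 * u⁻¹) + ((i0 + 1 : ℕ) : ℝ≥0∞) ^ 2 *
          (((i0 + 1 : ℕ) : ℝ≥0∞) ^ 2 * (C * (lam + (2 * ((i0 + 1 : ℕ) : ℝ≥0∞) * u⁻¹) *
            us (4 * i0) s / lam + us (4 * i0) s))))
        + u * u := by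
  obtain ⟨tX, EX, MX, hEX, hMX, hqX, hsmX⟩ := pack (G := G) ΛX hX zX h1X hΛX T i0 hu0 hu1
  obtain ⟨tY, EY, MY, hEY, hMY, hqY, hsmY⟩ := pack (G := G) ΛY hY zY h1Y hΛY (T + i0) i0 hu0 hu1
  obtain ⟨gX, bX, hgbX, hgX, hgaX, hbX⟩ := hsmX N S (by
    refine le_trans (Nat.mul_le_mul_left _ ?_) hN; omega)
  obtain ⟨gY, bY, hgbY, hgY, hgaY, hbY⟩ := hsmY N (S + i0) (by omega)
  set cd : ℝ≥0∞ := 2 * ((i0 + 1 : ℕ) : ℝ≥0∞) * u⁻¹ with hcd
  set Bd : ℝ≥0∞ := C * (lam + cd * us (4 * i0) s / lam + us (4 * i0) s) with hBd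
  -- the three integrands
  set Φ2 : ℕ → ℕ → G → ℝ≥0∞ := fun i i' x =>
    AT ΛX hX T (fun Q => AT ΛY hY (T + i0) (fun Q' =>
        if HT hX Q ≤ T + i0 ∧ HT hY Q' ≤ T + i0 + i0 ∧
          tX ≤ a ΛX hX zX T (HT hX Q - T, DS zX Q) ∧
          Ev hX zX sX hY zY sY (S + 2 * i0 + s) (S + T - s) Q (S + i) Q' x (S + i0 + i')
        then 1 else 0)) with hΦ2
  set Φ3 : ℕ → ℕ → G → ℝ≥0∞ := fun i i' x =>
    AT ΛX hX T (fun Q => AT ΛY hY (T + i0) (fun Q' =>
        if HT hX Q ≤ T + i0 ∧ HT hY Q' ≤ T + i0 + i0 ∧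
          tY ≤ a ΛY hY zY (T + i0) (HT hY Q' - (T + i0), DS zY Q') ∧
          Ev hX zX sX hY zY sY (S + 2 * i0 + s) (S + T - s) Q (S + i) Q' x (S + i0 + i')
        then 1 else 0)) with hΦ3
  have hΦ2one : ∀ i i' x, Φ2 i i' x ≤ 1 := fun i i' x =>
    AT_le_one ΛX hX hΛX h1X _ fun Q => AT_le_one ΛY hY hΛY h1Y _ fun Q' => by
      split_ifs <;> simp
  have hΦ3one : ∀ i i' x, Φ3 i i' x ≤ 1 := fun i i' x =>
    AT_le_one ΛX hX hΛX h1X _ fun Q => AT_le_one ΛY hY hΛY h1Y _ fun Q' => by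
      split_ifs <;> simp
  have hpt : ∀ i i' x, AT ΛX hX T (fun Q => AT ΛY hY (T + i0) (fun Q' =>
        if HT hX Q ≤ T + i0 ∧ HT hY Q' ≤ T + i0 + i0 ∧
          Ev hX zX sX hY zY sY (S + 2 * i0 + s) (S + T - s) Q (S + i) Q' x (S + i0 + i')
        then 1 else 0)) ≤ Φ2 i i' x + Φ3 i i' x + u * u := by
    intro i i' x
    calc _ ≤ AT ΛX hX T (fun Q => AT ΛY hY (T + i0) (fun Q' =>
          ((if HT hX Q ≤ T + i0 ∧ HT hY Q' ≤ T + i0 + i0 ∧
            tX ≤ a ΛX hX zX T (HT hX Q - T, DS zX Q) ∧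
            Ev hX zX sX hY zY sY (S + 2 * i0 + s) (S + T - s) Q (S + i) Q' x (S + i0 + i')
          then 1 else 0) +
          (if HT hX Q ≤ T + i0 ∧ HT hY Q' ≤ T + i0 + i0 ∧
            tY ≤ a ΛY hY zY (T + i0) (HT hY Q' - (T + i0), DS zY Q') ∧
            Ev hX zX sX hY zY sY (S + 2 * i0 + s) (S + T - s) Q (S + i) Q' x (S + i0 + i')
          then 1 else 0)) +
          (if a ΛX hX zX T (HT hX Q - T, DS zX Q) < tX then 1 else 0) *
          (if a ΛY hY zY (T + i0) (HT hY Q' - (T + i0), DS zY Q') < tY then 1 else 0))) := by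
          refine AT_mono ΛX hX T fun Q _ => AT_mono ΛY hY _ fun Q' _ => ?_
          by_cases hc : HT hX Q ≤ T + i0 ∧ HT hY Q' ≤ T + i0 + i0 ∧
            Ev hX zX sX hY zY sY (S + 2 * i0 + s) (S + T - s) Q (S + i) Q' x (S + i0 + i')
          · rw [if_pos hc]
            by_cases h2 : tX ≤ a ΛX hX zX T (HT hX Q - T, DS zX Q)
            · rw [if_pos (⟨hc.1, hc.2.1, h2, hc.2.2⟩ : HT hX Q ≤ T + i0 ∧ _ ∧ _ ∧ _), add_assoc]
              exact le_self_add
            · by_cases h3 : tY ≤ a ΛY hY zY (T + i0) (HT hY Q' - (T + i0), DS zY Q')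
              · rw [if_pos (⟨hc.1, hc.2.1, h3, hc.2.2⟩ : HT hX Q ≤ T + i0 ∧ _ ∧ _ ∧ _),
                  add_assoc, add_left_comm]
                exact le_self_add
              · rw [if_pos (not_le.1 h2), if_pos (not_le.1 h3), mul_one]
                exact le_add_self
          · rw [if_neg hc]; exact zero_le
      _ = Φ2 i i' x + Φ3 i i' x + AT ΛX hX T (fun Q =>
          (if a ΛX hX zX T (HT hX Q - T, DS zX Q) < tX then 1 else 0) *
          AT ΛY hY (T + i0) (fun Q' =>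
          (if a ΛY hY zY (T + i0) (HT hY Q' - (T + i0), DS zY Q') < tY then 1 else 0))) := by
          simp only [AT_add, AT_mul, hΦ2, hΦ3]
      _ ≤ Φ2 i i' x + Φ3 i i' x + AT ΛX hX T (fun Q => u *
          (if a ΛX hX zX T (HT hX Q - T, DS zX Q) < tX then 1 else 0)) := by
          refine add_le_add le_rfl (AT_mono ΛX hX T fun Q _ => ?_)
          rw [mul_comm]
          exact mul_le_mul' hqY le_rfl
      _ ≤ Φ2 i i' x + Φ3 i i' x + u * u := by
          rw [AT_mul]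
          exact add_le_add le_rfl (mul_le_mul' le_rfl hqX)
  have haX := a_sum ΛX hX zX hΛX h1X S
  have haY := a_sum ΛY hY zY hΛY h1Y (S + i0)
  -- split
  have hsplit : ∑' x : ℕ × G, a ΛX hX zX S x * ∑' y : ℕ × G, a ΛY hY zY (S + i0) y *
      (if x.1 ≤ i0 ∧ y.1 ≤ i0 then AT ΛX hX T (fun Q => AT ΛY hY (T + i0) (fun Q' =>
        if HT hX Q ≤ T + i0 ∧ HT hY Q' ≤ T + i0 + i0 ∧
          Ev hX zX sX hY zY sY (S + 2 * i0 + s) (S + T - s) Q (S + x.1) Q' (w + y.2 - x.2)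
            (S + i0 + y.1)
        then 1 else 0)) else 0)
      ≤ (∑' x : ℕ × G, a ΛX hX zX S x * ∑' y : ℕ × G, a ΛY hY zY (S + i0) y *
          (if x.1 ≤ i0 ∧ y.1 ≤ i0 then Φ2 x.1 y.1 (w + y.2 - x.2) else 0))
        + (∑' x : ℕ × G, a ΛX hX zX S x * ∑' y : ℕ × G, a ΛY hY zY (S + i0) y *
          (if x.1 ≤ i0 ∧ y.1 ≤ i0 then Φ3 x.1 y.1 (w + y.2 - x.2) else 0)) + u * u := by
    have e : u * u = ∑' x : ℕ × G, a ΛX hX zX S x * ∑' y : ℕ × G, a ΛY hY zY (S + i0) y *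
        (u * u) := by
      have e0 : ∀ x : ℕ × G, a ΛX hX zX S x * ∑' y : ℕ × G, a ΛY hY zY (S + i0) y * (u * u)
          = a ΛX hX zX S x * (u * u) := fun x => by rw [ENNReal.tsum_mul_right, haY, one_mul]
      rw [tsum_congr e0, ENNReal.tsum_mul_right, haX, one_mul]
    rw [e, ← ENNReal.tsum_add, ← ENNReal.tsum_add]
    refine ENNReal.tsum_le_tsum fun x => ?_
    rw [← mul_add, ← mul_add, ← ENNReal.tsum_add, ← ENNReal.tsum_add]
    refine mul_le_mul' le_rfl (ENNReal.tsum_le_tsum fun y => ?_)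
    rw [← mul_add, ← mul_add]
    refine mul_le_mul' le_rfl ?_
    by_cases hc : x.1 ≤ i0 ∧ y.1 ≤ i0
    · simp only [if_pos hc]; exact hpt _ _ _
    · rw [if_neg hc]; exact zero_le
  refine hsplit.trans (add_le_add (add_le_add ?_ ?_) le_rfl)
  · -- X local
    have key := mix gX (a ΛY hY zY (S + i0)) ((ENNReal.tsum_le_tsum hgaX).trans haX.le) haY.le MX
      (((i0 + 1 : ℕ) : ℝ≥0∞) ^ 2 * Bd) (Or.inl hgX) i0 w Φ2
      (fun i i' hi hi' μ hμ hμM => by
        convert phi_le ΛX hX zX sX ΛY hY zY sY H2 S T i0 s hs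
          (fun Q _ => tX ≤ a ΛX hX zX T (HT hX Q - T, DS zX Q)) (fun j _ => EX j)
          (fun L _ hL => hEX L hL) MX cd lam (fun j _ => hMX j) hlam hlam' i i' hi hi' μ hμ hμM)
    calc _ ≤ ∑' x : ℕ × G, (gX x + bX x) * ∑' y : ℕ × G, a ΛY hY zY (S + i0) y *
          (if x.1 ≤ i0 ∧ y.1 ≤ i0 then Φ2 x.1 y.1 (w + y.2 - x.2) else 0) :=
          ENNReal.tsum_le_tsum fun x => mul_le_mul' (hgbX x) le_rfl
      _ ≤ ∑' x : ℕ × G, (bX x * 1 + gX x * ∑' y : ℕ × G, a ΛY hY zY (S + i0) y *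
          (if x.1 ≤ i0 ∧ y.1 ≤ i0 then Φ2 x.1 y.1 (w + y.2 - x.2) else 0)) := by
          refine ENNReal.tsum_le_tsum fun x => ?_
          rw [add_mul, add_comm]
          refine add_le_add (mul_le_mul' le_rfl ?_) le_rfl
          rw [← haY]
          refine ENNReal.tsum_le_tsum fun y => ?_
          calc a ΛY hY zY (S + i0) y *
              (if x.1 ≤ i0 ∧ y.1 ≤ i0 then Φ2 x.1 y.1 (w + y.2 - x.2) else 0)
              ≤ a ΛY hY zY (S + i0) y * 1 := by
                refine mul_le_mul' le_rfl ?_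
                split_ifs
                · exact hΦ2one _ _ _
                · exact zero_le
            _ = _ := mul_one _
      _ ≤ _ := by
          rw [ENNReal.tsum_add]
          refine add_le_add ?_ key
          simpa using hbX
  · -- Y local
    have key := mix (a ΛX hX zX S) gY haX.le ((ENNReal.tsum_le_tsum hgaY).trans haY.le) MY
      (((i0 + 1 : ℕ) : ℝ≥0∞) ^ 2 * Bd) (Or.inr hgY) i0 w Φ3
      (fun i i' hi hi' μ hμ hμM => by
        convert phi_le ΛX hX zX sX ΛY hY zY sY H3 S T i0 s hs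
          (fun _ Q' => tY ≤ a ΛY hY zY (T + i0) (HT hY Q' - (T + i0), DS zY Q'))
          (fun _ j' => EY j') (fun _ L' hL => hEY L' hL) MY cd lam (fun _ j' => hMY j') hlam hlam'
          i i' hi hi' μ hμ hμM)
    calc _ ≤ ∑' x : ℕ × G, a ΛX hX zX S x * (∑' y : ℕ × G, bY y + ∑' y : ℕ × G, gY y *
          (if x.1 ≤ i0 ∧ y.1 ≤ i0 then Φ3 x.1 y.1 (w + y.2 - x.2) else 0)) := by
          refine ENNReal.tsum_le_tsum fun x => mul_le_mul' le_rfl ?_
          rw [← ENNReal.tsum_add]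
          refine ENNReal.tsum_le_tsum fun y => ?_
          refine (mul_le_mul' (hgbY y) le_rfl).trans ?_
          rw [add_mul, add_comm]
          refine add_le_add ?_ le_rfl
          refine (mul_le_mul' le_rfl (?_ : _ ≤ (1 : ℝ≥0∞))).trans (mul_one _).le
          split_ifs
          · exact hΦ3one _ _ _
          · exact zero_le
      _ ≤ _ := by
          simp only [mul_add]
          rw [ENNReal.tsum_add, ENNReal.tsum_mul_right, haX, one_mul]
          exact add_le_add hbY key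


open Classical in
/-- **one window** -/
lemma window (h1X : ∀ b, 1 ≤ hX b) (hΛX : ∑' b, ΛX b = 1) (h1Y : ∀ b, 1 ≤ hY b)
    (hΛY : ∑' b, ΛY b = 1) (hsX : ∀ b, ∀ q ∈ sX b, 1 ≤ q.2 ∧ q.2 ≤ hX b)
    (hsY : ∀ b, ∀ q ∈ sY b, 1 ≤ q.2 ∧ q.2 ≤ hY b) {C : ℝ≥0∞} {us : ℕ → ℕ → ℝ≥0∞}
    (H2 : Hyp ΛX hX zX sX ΛY hY zY sY (fun L _ E => DS zX L ∈ E) C us)
    (H3 : Hyp ΛX hX zX sX ΛY hY zY sY (fun _ L' E => DS zY L' ∈ E) C us)
    (S T i0 s N D wlo whi : ℕ) {u lam pt : ℝ≥0∞} (hu0 : u ≠ 0) (hu1 : u ≤ 1) (hlam : lam ≠ 0)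
    (hlam' : lam ≠ ⊤) (hs : s ≤ T) (hN : N * (T + i0 + i0) ≤ S) (w : G)
    (hD : S + i0 + i0 + (T + i0) ≤ D) (hwlo : S + 2 * i0 ≤ wlo) (hwhi : whi ≤ S + T)
    (hpt : ∀ k, S < k → k ≤ S + T + 2 * i0 → AT ΛX hX D (fun A => AT ΛY hY D (fun A' =>
      if ∃ z, (z, k) ∈ TT sX hX zX A 0 0 ∧ (z, k) ∈ TT sY hY zY A' w 0 then 1 else 0)) ≤ pt) :
    AT ΛX hX D (fun A => AT ΛY hY D (fun A' => if ∃ z k, wlo < k ∧ k ≤ whi ∧
        (z, k) ∈ TT sX hX zX A 0 0 ∧ (z, k) ∈ TT sY hY zY A' w 0 then 1 else 0))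
      ≤ ((2 * (2 * i0 + s) : ℕ) : ℝ≥0∞) * pt + (2 * e1 ΛX hX i0 + (2 * e1 ΛY hY i0 +
        ((((1 - u) ^ N + e1 ΛX hX i0 * u⁻¹) + ((i0 + 1 : ℕ) : ℝ≥0∞) ^ 2 *
          (((i0 + 1 : ℕ) : ℝ≥0∞) ^ 2 * (C * (lam + (2 * ((i0 + 1 : ℕ) : ℝ≥0∞) * u⁻¹) *
            us (4 * i0) s / lam + us (4 * i0) s))))
        + (((1 - u) ^ N + e1 ΛY hY i0 * u⁻¹) + ((i0 + 1 : ℕ) : ℝ≥0∞) ^ 2 *
          (((i0 + 1 : ℕ) : ℝ≥0∞) ^ 2 * (C * (lam + (2 * ((i0 + 1 : ℕ) : ℝ≥0∞) * u⁻¹) *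
            us (4 * i0) s / lam + us (4 * i0) s))))
        + u * u))) := by
  set CT : ℕ → List BX → List BY → Prop := fun k A A' =>
    ∃ z, (z, k) ∈ TT sX hX zX A 0 0 ∧ (z, k) ∈ TT sY hY zY A' w 0 with hCT
  set W : List BX → List BY → Prop := fun A A' => ∃ z k, wlo < k ∧ k ≤ whi ∧
        (z, k) ∈ TT sX hX zX A 0 0 ∧ (z, k) ∈ TT sY hY zY A' w 0 with hW
  set Sl : Finset ℕ := Finset.Ioo S (S + 2 * i0 + s) ∪ Finset.Ioc (S + T - s) (S + T + 2 * i0)
    with hSl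
  have hcard : Sl.card ≤ 2 * (2 * i0 + s) := by
    refine (Finset.card_union_le _ _).trans ?_
    rw [Nat.card_Ioo, Nat.card_Ioc]
    omega
  have hSlk : ∀ k ∈ Sl, S < k ∧ k ≤ S + T + 2 * i0 := by
    intro k hk
    rw [hSl, Finset.mem_union, Finset.mem_Ioo, Finset.mem_Ioc] at hk
    omega
  set F1 : List BX → List BY → ℝ≥0∞ := fun A A' =>
    if W A A' ∧ ∀ k ∈ Sl, ¬ CT k A A' then 1 else 0 with hF1
  have hsplit : AT ΛX hX D (fun A => AT ΛY hY D (fun A' => if W A A' then 1 else 0))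
      ≤ (∑ k ∈ Sl, AT ΛX hX D (fun A => AT ΛY hY D (fun A' => if CT k A A' then 1 else 0)))
        + AT ΛX hX D (fun A => AT ΛY hY D (fun A' => F1 A A')) := by
    rw [← AT_finsum]
    simp only [← AT_finsum]
    rw [← AT_add]
    simp only [← AT_add]
    refine AT_mono ΛX hX D fun A _ => AT_mono ΛY hY D fun A' _ => ?_
    by_cases hWA : W A A'
    · rw [if_pos hWA]
      by_cases hc : ∀ k ∈ Sl, ¬ CT k A A'
      · simp only [hF1]
        rw [if_pos (⟨hWA, hc⟩ : W A A' ∧ _)]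
        exact le_add_self
      · push Not at hc
        obtain ⟨k, hk, hck⟩ := hc
        refine le_trans ?_ le_self_add
        refine le_trans ?_ (Finset.single_le_sum (f := fun k => if CT k A A' then (1 : ℝ≥0∞) else 0)
          (fun _ _ => zero_le) hk)
        rw [if_pos hck]
    · rw [if_neg hWA]; exact zero_le
  refine hsplit.trans (add_le_add ?_ ?_)
  · calc ∑ k ∈ Sl, AT ΛX hX D (fun A => AT ΛY hY D (fun A' => if CT k A A' then 1 else 0))
        ≤ ∑ _k ∈ Sl, pt := Finset.sum_le_sum fun k hk => hpt k (hSlk k hk).1 (hSlk k hk).2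
      _ = (Sl.card : ℝ≥0∞) * pt := by rw [Finset.sum_const, nsmul_eq_mul]
      _ ≤ _ := mul_le_mul' (by exact_mod_cast hcard) le_rfl
  · have key := cut2 ΛX hX ΛY hY h1X hΛX h1Y hΛY (S := S) (T := T) (S' := S + i0) (T' := T + i0)
      (D := D) (i0 := i0) (by omega) (by omega) F1 (fun L L' => by simp only [hF1]; split_ifs <;> simp)
      (fun P P' Q Q' => if (HT hX P - S ≤ i0 ∧ HT hY P' - (S + i0) ≤ i0) then
        (if HT hX Q ≤ T + i0 ∧ HT hY Q' ≤ T + i0 + i0 ∧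
          Ev hX zX sX hY zY sY (S + 2 * i0 + s) (S + T - s) Q (S + (HT hX P - S)) Q'
            (w + DS zY P' - DS zX P) (S + i0 + (HT hY P' - (S + i0)))
        then 1 else 0) else 0)
      (by
        intro P Q R P' Q' R' hP hPi hQ hQi hP' hPi' hQ' hQi'
        simp only [hF1]
        by_cases hF : W (P ++ (Q ++ R)) (P' ++ (Q' ++ R')) ∧
            ∀ k ∈ Sl, ¬ CT k (P ++ (Q ++ R)) (P' ++ (Q' ++ R'))
        · rw [if_pos hF, if_pos ⟨by omega, by omega⟩, if_pos]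
          have bP := Stp_le hX P S hP
          have bQ := Stp_le hX Q T hQ
          have bP' := Stp_le hY P' _ hP'
          have bQ' := Stp_le hY Q' _ hQ'
          refine ⟨hQi, hQi', ?_⟩
          rw [show S + (HT hX P - S) = HT hX P by omega,
            show S + i0 + (HT hY P' - (S + i0)) = HT hY P' by omega]
          have mX : ∀ z k, (z, k) ∈ TT sX hX zX Q 0 (HT hX P) →
              (z + DS zX P, k) ∈ TT sX hX zX (P ++ (Q ++ R)) 0 0 := by
            intro z k hz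
            rw [TT_append, TT_append]
            refine Or.inr (Or.inl ?_)
            rw [TT_shift]
            simpa using hz
          have mY : ∀ z k, (z, k) ∈ TT sY hY zY Q' (w + DS zY P' - DS zX P) (HT hY P') →
              (z + DS zX P, k) ∈ TT sY hY zY (P' ++ (Q' ++ R')) w 0 := by
            intro z k hz
            rw [TT_append, TT_append]
            refine Or.inr (Or.inl ?_)
            rw [show w + DS zY P' = w + DS zY P' - DS zX P + DS zX P by abel, TT_shift]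
            simpa using hz
          refine ⟨?_, ?_⟩
          · obtain ⟨z, k, hk1, hk2, hx, hy⟩ := hF.1
            refine ⟨z - DS zX P, k, ?_, ?_⟩
            · rw [TT_append, TT_append] at hx
              rcases hx with hx | hx | hx
              · have := TT_bd sX hX zX hsX _ _ _ _ hx
                simp only at this; omega
              · rw [TT_shift] at hx
                simpa using hx
              · have := TT_bd sX hX zX hsX _ _ _ _ hx
                simp only at this; omega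
            · rw [TT_append, TT_append] at hy
              rcases hy with hy | hy | hy
              · have := TT_bd sY hY zY hsY _ _ _ _ hy
                simp only at this; omega
              · rw [show w + DS zY P' = w + DS zY P' - DS zX P + DS zX P by abel, TT_shift] at hy
                simpa using hy
              · have := TT_bd sY hY zY hsY _ _ _ _ hy
                simp only at this; omega
          · intro z k hx hy
            have c1 := TT_bd sX hX zX hsX _ _ _ _ hx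
            have c2 := TT_bd sY hY zY hsY _ _ _ _ hy
            simp only at c1 c2
            by_contra hcon
            refine hF.2 k ?_ ⟨z + DS zX P, mX z k hx, mY z k hy⟩
            rw [hSl, Finset.mem_union, Finset.mem_Ioo, Finset.mem_Ioc]
            omega
        · rw [if_neg hF]; exact zero_le)
    refine key.trans (add_le_add le_rfl (add_le_add le_rfl ?_))
    refine le_trans (le_of_eq ?_) (core ΛX hX zX sX ΛY hY zY sY h1X hΛX h1Y hΛY H2 H3 S T i0 s N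
      hu0 hu1 hlam hlam' hs hN w)
    have eY : ∀ (i : ℕ) (zz : G), AT ΛY hY (S + i0) (fun P' =>
        AT ΛX hX T (fun Q => AT ΛY hY (T + i0) (fun Q' =>
          if (i ≤ i0 ∧ HT hY P' - (S + i0) ≤ i0) then
        (if HT hX Q ≤ T + i0 ∧ HT hY Q' ≤ T + i0 + i0 ∧
          Ev hX zX sX hY zY sY (S + 2 * i0 + s) (S + T - s) Q (S + i) Q'
            (w + DS zY P' - zz) (S + i0 + (HT hY P' - (S + i0)))
        then 1 else 0) else 0)))
        = ∑' y : ℕ × G, a ΛY hY zY (S + i0) y *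
          (if i ≤ i0 ∧ y.1 ≤ i0 then AT ΛX hX T (fun Q => AT ΛY hY (T + i0) (fun Q' =>
        if HT hX Q ≤ T + i0 ∧ HT hY Q' ≤ T + i0 + i0 ∧
          Ev hX zX sX hY zY sY (S + 2 * i0 + s) (S + T - s) Q (S + i) Q' (w + y.2 - zz)
            (S + i0 + y.1)
        then 1 else 0)) else 0) := by
      intro i zz
      rw [← AT_fun ΛY hY zY (S + i0) (fun y => if i ≤ i0 ∧ y.1 ≤ i0 then
        AT ΛX hX T (fun Q => AT ΛY hY (T + i0) (fun Q' =>
        if HT hX Q ≤ T + i0 ∧ HT hY Q' ≤ T + i0 + i0 ∧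
          Ev hX zX sX hY zY sY (S + 2 * i0 + s) (S + T - s) Q (S + i) Q' (w + y.2 - zz)
            (S + i0 + y.1)
        then 1 else 0)) else 0)]
      refine AT_congr ΛY hY _ fun P' _ => ?_
      by_cases hc : i ≤ i0 ∧ HT hY P' - (S + i0) ≤ i0
      · simp only [if_pos hc]
      · simp only [if_neg hc]
        rw [AT_const ΛY hY h1Y hΛY, AT_const ΛX hX h1X hΛX]
    simp only [eY]
    rw [← AT_fun ΛX hX zX S (fun x => ∑' y : ℕ × G, a ΛY hY zY (S + i0) y *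
          (if x.1 ≤ i0 ∧ y.1 ≤ i0 then AT ΛX hX T (fun Q => AT ΛY hY (T + i0) (fun Q' =>
        if HT hX Q ≤ T + i0 ∧ HT hY Q' ≤ T + i0 + i0 ∧
          Ev hX zX sX hY zY sY (S + 2 * i0 + s) (S + T - s) Q (S + x.1) Q' (w + y.2 - x.2)
            (S + i0 + y.1)
        then 1 else 0)) else 0))]


lemma fromAT {B : Type*} (Λ : B → ℝ≥0∞) (ht : B → ℕ) (h1 : ∀ b, 1 ≤ ht b) (hΛ : ∑' b, Λ b = 1)
    {c : ℝ≥0∞} (hc0 : c ≠ 0) (hct : c ≠ ⊤) (hU : ∀ n, c ≤ U Λ ht n) (D i1 : ℕ)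
    (F Gf : List B → ℝ≥0∞) (hF : ∀ L, F L ≤ 1) (hFG : ∀ L1 L2, F L1 ≤ Gf (L1 ++ L2)) :
    AT Λ ht D F ≤ e1 Λ ht i1
      + c⁻¹ * ∑' L, (if HT ht L = D + i1 then LW Λ L * Gf L else 0) := by
  classical
  have key := FP178.split Λ ht h1 D (fun L => if HT ht L = D + i1 then Gf L else 0)
  have e0 : ∑' L, (if HT ht L = D + i1 then LW Λ L * Gf L else 0)
      = ∑' L, (if D ≤ HT ht L then LW Λ L * (if HT ht L = D + i1 then Gf L else 0) else 0) := by
    refine tsum_congr fun L => ?_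
    by_cases h : HT ht L = D + i1
    · rw [if_pos h, if_pos (by omega), if_pos h]
    · rw [if_neg h, if_neg h, mul_zero, ite_self]
  have low : c * AT Λ ht D (fun L => if HT ht L ≤ D + i1 then F L else 0)
      ≤ ∑' L, (if HT ht L = D + i1 then LW Λ L * Gf L else 0) := by
    rw [e0, key, AT, ← ENNReal.tsum_mul_left]
    refine ENNReal.tsum_le_tsum fun L1 => ?_
    by_cases h : Stp ht D L1
    · rw [if_pos h, if_pos ((fp_iff ht D L1).2 h)]
      by_cases hh : HT ht L1 ≤ D + i1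
      · rw [if_pos hh, mul_left_comm]
        refine mul_le_mul' le_rfl ?_
        calc c * F L1 ≤ U Λ ht (D + i1 - HT ht L1) * F L1 := mul_le_mul' (hU _) le_rfl
          _ = ∑' L2, (if HT ht L2 = D + i1 - HT ht L1 then LW Λ L2 else 0) * F L1 := by
              rw [ENNReal.tsum_mul_right, U]
          _ ≤ ∑' L2, LW Λ L2 * (if HT ht (L1 ++ L2) = D + i1 then Gf (L1 ++ L2) else 0) := by
              refine ENNReal.tsum_le_tsum fun L2 => ?_
              by_cases h2 : HT ht L2 = D + i1 - HT ht L1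
              · rw [if_pos h2, if_pos (by rw [HT_append]; omega)]
                exact mul_le_mul' le_rfl (hFG _ _)
              · rw [if_neg h2, zero_mul]; exact zero_le
      · rw [if_neg hh, mul_zero, mul_zero]; exact zero_le
    · rw [if_neg h, mul_zero]; exact zero_le
  calc AT Λ ht D F ≤ AT Λ ht D (fun L => (if D + i1 < HT ht L then 1 else 0)
        + (if HT ht L ≤ D + i1 then F L else 0)) := by
        refine AT_mono Λ ht D fun L _ => ?_
        by_cases h : HT ht L ≤ D + i1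
        · rw [if_pos h]; exact le_add_self
        · rw [if_pos (by omega)]; exact (hF L).trans le_self_add
    _ = AT Λ ht D (fun L => if D + i1 < HT ht L then 1 else 0)
        + AT Λ ht D (fun L => if HT ht L ≤ D + i1 then F L else 0) := AT_add Λ ht D _ _
    _ ≤ _ := by
        refine add_le_add (overshoot_le Λ ht hΛ h1 i1 D) ?_
        rw [← one_mul (AT Λ ht D fun L => if HT ht L ≤ D + i1 then F L else 0),
          ← ENNReal.inv_mul_cancel hc0 hct, mul_assoc]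
        exact mul_le_mul' le_rfl low

open Classical in
/-- pairs of lists of height `n` with a contact at depth `k` -/
noncomputable def Pt (k n : ℕ) (w : G) : ℝ≥0∞ :=
  ∑' L : List BX, ∑' L' : List BY, (if HT hX L = n ∧ HT hY L' = n ∧
    (∃ z, (z, k) ∈ TT sX hX zX L 0 0 ∧ (z, k) ∈ TT sY hY zY L' w 0)
    then LW ΛX L * LW ΛY L' else 0)

open Classical in
lemma point (h1X : ∀ b, 1 ≤ hX b) (hΛX : ∑' b, ΛX b = 1) (h1Y : ∀ b, 1 ≤ hY b)
    (hΛY : ∑' b, ΛY b = 1) {c : ℝ≥0∞} (hc0 : c ≠ 0) (hct : c ≠ ⊤) (hUX : ∀ n, c ≤ U ΛX hX n)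
    (hUY : ∀ n, c ≤ U ΛY hY n) (D i1 k : ℕ) (w : G) :
    AT ΛX hX D (fun A => AT ΛY hY D (fun A' =>
      if ∃ z, (z, k) ∈ TT sX hX zX A 0 0 ∧ (z, k) ∈ TT sY hY zY A' w 0 then 1 else 0))
      ≤ e1 ΛX hX i1 + c⁻¹ * (e1 ΛY hY i1 + c⁻¹ * Pt ΛX hX zX sX ΛY hY zY sY k (D + i1) w) := by
  set CT : List BX → List BY → Prop := fun A A' =>
    ∃ z, (z, k) ∈ TT sX hX zX A 0 0 ∧ (z, k) ∈ TT sY hY zY A' w 0 with hCT
  have mX : ∀ A R A', CT A A' → CT (A ++ R) A' := by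
    rintro A R A' ⟨z, hx, hy⟩
    exact ⟨z, by rw [TT_append]; exact Or.inl hx, hy⟩
  have mY : ∀ A A' R', CT A A' → CT A (A' ++ R') := by
    rintro A A' R' ⟨z, hx, hy⟩
    exact ⟨z, hx, by rw [TT_append]; exact Or.inl hy⟩
  have H1 := fromAT ΛX hX h1X hΛX hc0 hct hUX D i1
    (fun A => AT ΛY hY D (fun A' => if CT A A' then 1 else 0))
    (fun A => AT ΛY hY D (fun A' => if CT A A' then 1 else 0))
    (fun A => AT_le_one ΛY hY hΛY h1Y _ fun A' => by split_ifs <;> simp)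
    (fun A R => AT_mono ΛY hY D fun A' _ => by
      by_cases h : CT A A'
      · rw [if_pos h, if_pos (mX _ _ _ h)]
      · rw [if_neg h]; exact zero_le)
  refine H1.trans (add_le_add le_rfl (mul_le_mul' le_rfl ?_))
  have H2 : ∀ A, AT ΛY hY D (fun A' => if CT A A' then 1 else 0) ≤ e1 ΛY hY i1
      + c⁻¹ * ∑' L', (if HT hY L' = D + i1 then LW ΛY L' * (if CT A L' then 1 else 0) else 0) :=
    fun A => fromAT ΛY hY h1Y hΛY hc0 hct hUY D i1 (fun A' => if CT A A' then 1 else 0)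
      (fun A' => if CT A A' then 1 else 0) (fun A' => by split_ifs <;> simp)
      (fun A' R' => by
        by_cases h : CT A A'
        · rw [if_pos h, if_pos (mY _ _ _ h)]
        · rw [if_neg h]; exact zero_le)
  calc ∑' L, (if HT hX L = D + i1 then LW ΛX L *
        AT ΛY hY D (fun A' => if CT L A' then 1 else 0) else 0)
      ≤ ∑' L, ((if HT hX L = D + i1 then LW ΛX L else 0) * e1 ΛY hY i1
          + c⁻¹ * ∑' L', (if HT hX L = D + i1 ∧ HT hY L' = D + i1 ∧ CT L L'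
            then LW ΛX L * LW ΛY L' else 0)) := by
        refine ENNReal.tsum_le_tsum fun L => ?_
        by_cases h : HT hX L = D + i1
        · rw [if_pos h, if_pos h]
          refine (mul_le_mul' le_rfl (H2 L)).trans (le_of_eq ?_)
          rw [mul_add, mul_left_comm, ← ENNReal.tsum_mul_left]
          congr 2
          refine tsum_congr fun L' => ?_
          by_cases h' : HT hY L' = D + i1
          · by_cases hc : CT L L'
            · rw [if_pos h', if_pos hc, mul_one, if_pos ⟨h, h', hc⟩]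
            · rw [if_pos h', if_neg hc, mul_zero, mul_zero, if_neg (fun hh => hc hh.2.2)]
          · rw [if_neg h', mul_zero, if_neg (fun hh => h' hh.2.1)]
        · rw [if_neg h]; exact zero_le
    _ = U ΛX hX (D + i1) * e1 ΛY hY i1 + c⁻¹ * Pt ΛX hX zX sX ΛY hY zY sY k (D + i1) w := by
        rw [ENNReal.tsum_add, ENNReal.tsum_mul_right, ENNReal.tsum_mul_left, U, Pt]
    _ ≤ _ := by
        refine add_le_add ?_ le_rfl
        exact (mul_le_mul' (U_le_one ΛX hX h1X hΛX _) le_rfl).trans (one_mul _).le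


open Classical in
/-- pairs of lists of height `n` with a contact at a depth in `(m, 2m]` -/
noncomputable def KS (n m : ℕ) (w : G) : ℝ≥0∞ :=
  ∑' L : List BX, ∑' L' : List BY, (if HT hX L = n ∧ HT hY L' = n ∧
    (∃ z k, m < k ∧ k ≤ 2 * m ∧ (z, k) ∈ TT sX hX zX L 0 0 ∧ (z, k) ∈ TT sY hY zY L' w 0)
    then LW ΛX L * LW ΛY L' else 0)

open Classical in
lemma KS_le_AT (h1X : ∀ b, 1 ≤ hX b) (hΛX : ∑' b, ΛX b = 1) (h1Y : ∀ b, 1 ≤ hY b)
    (hΛY : ∑' b, ΛY b = 1) (hsX : ∀ b, ∀ q ∈ sX b, 1 ≤ q.2 ∧ q.2 ≤ hX b)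
    (hsY : ∀ b, ∀ q ∈ sY b, 1 ≤ q.2 ∧ q.2 ≤ hY b)
    {c : ℝ≥0∞} (hc0 : c ≠ 0) (hct : c ≠ ⊤) (hUX : ∀ n, c ≤ U ΛX hX n)
    (hUY : ∀ n, c ≤ U ΛY hY n) (n m D : ℕ) (hD : 2 * m ≤ D) (w : G) :
    KS ΛX hX zX sX ΛY hY zY sY n m w ≤ c⁻¹ * c⁻¹ * AT ΛX hX D (fun A => AT ΛY hY D (fun A' =>
      if (∃ z k, m < k ∧ k ≤ 2 * m ∧ (z, k) ∈ TT sX hX zX A 0 0 ∧ (z, k) ∈ TT sY hY zY A' w 0)
      then 1 else 0)) := by
  set P : List BX → List BY → Prop := fun A A' => ∃ z k, m < k ∧ k ≤ 2 * m ∧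
    (z, k) ∈ TT sX hX zX A 0 0 ∧ (z, k) ∈ TT sY hY zY A' w 0 with hP
  have hPm : ∀ A A' R R', P A A' → P (A ++ R) (A' ++ R') := by
    rintro A A' R R' ⟨z, k, a1, a2, a3, a4⟩
    exact ⟨z, k, a1, a2, by rw [TT_append]; exact Or.inl a3, by rw [TT_append]; exact Or.inl a4⟩
  have hPX : ∀ A R A', Stp hX D A → P (A ++ R) A' → P A A' := by
    rintro A R A' hA ⟨z, k, a1, a2, a3, a4⟩
    refine ⟨z, k, a1, a2, ?_, a4⟩
    rw [TT_append] at a3
    rcases a3 with a3 | a3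
    · exact a3
    · have := TT_bd sX hX zX hsX _ _ _ _ a3
      have := Stp_le hX A D hA
      simp only at *; omega
  have hPY : ∀ A A' R', Stp hY D A' → P A (A' ++ R') → P A A' := by
    rintro A A' R' hA ⟨z, k, a1, a2, a3, a4⟩
    refine ⟨z, k, a1, a2, a3, ?_⟩
    rw [TT_append] at a4
    rcases a4 with a4 | a4
    · exact a4
    · have := TT_bd sY hY zY hsY _ _ _ _ a4
      have := Stp_le hY A' D hA
      simp only at *; omega
  have h1 := Ext944.ext2_le ΛX hX ΛY hY h1X h1Y c c hc0 hct hc0 hct n D (hUX D) (hUY D) P P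
    (fun LX LX' LY LY' _ _ _ _ h => hPm _ _ _ _ h)
  have e0 : KS ΛX hX zX sX ΛY hY zY sY n m w = ∑' LX, ∑' LY, (if HT hX LX = n ∧ HT hY LY = n ∧
      P LX LY then LW ΛX LX * LW ΛY LY else 0) := rfl
  rw [e0]
  refine h1.trans (mul_le_mul' le_rfl ?_)
  have e1' : ∑' LX, ∑' LY, (if HT hX LX = n + D ∧ HT hY LY = n + D ∧ P LX LY
          then LW ΛX LX * LW ΛY LY else 0)
      = ∑' LX, (if HT hX LX = n + D then LW ΛX LX *
          (∑' LY, (if HT hY LY = n + D then LW ΛY LY * (if P LX LY then 1 else 0) else 0))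
          else 0) := by
    refine tsum_congr fun L => ?_
    by_cases h : HT hX L = n + D
    · rw [if_pos h, ← ENNReal.tsum_mul_left]
      refine tsum_congr fun L' => ?_
      by_cases h' : HT hY L' = n + D
      · by_cases hc : P L L'
        · rw [if_pos ⟨h, h', hc⟩, if_pos h', if_pos hc, mul_one]
        · rw [if_neg (fun hh => hc hh.2.2), if_pos h', if_neg hc, mul_zero, mul_zero]
      · rw [if_neg (fun hh => h' hh.2.1), if_neg h', mul_zero]
    · rw [if_neg h]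
      refine ENNReal.tsum_eq_zero.2 fun L' => ?_
      rw [if_neg (fun hh => h hh.1)]
  rw [e1']
  refine toAT ΛX hX h1X hΛX (by omega) _ _ fun A R hA => ?_
  refine toAT ΛY hY h1Y hΛY (by omega) _ _ fun A' R' hA' => ?_
  by_cases h : P (A ++ R) (A' ++ R')
  · rw [if_pos h, if_pos (hPX A R A' hA (hPY _ A' R' hA' h))]
  · rw [if_neg h]; exact zero_le

/-- **ASSEMBLY** -/
theorem kapS (h1X : ∀ b, 1 ≤ hX b) (hΛX : ∑' b, ΛX b = 1) (h1Y : ∀ b, 1 ≤ hY b)
    (hΛY : ∑' b, ΛY b = 1) (hsX : ∀ b, ∀ q ∈ sX b, 1 ≤ q.2 ∧ q.2 ≤ hX b)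
    (hsY : ∀ b, ∀ q ∈ sY b, 1 ≤ q.2 ∧ q.2 ≤ hY b)
    (hmX : ∑' b, ΛX b * (hX b : ℝ≥0∞) ≠ ⊤) (hmY : ∑' b, ΛY b * (hY b : ℝ≥0∞) ≠ ⊤)
    {c : ℝ≥0∞} (hc0 : c ≠ 0) (hct : c ≠ ⊤) (hUX : ∀ n, c ≤ U ΛX hX n)
    (hUY : ∀ n, c ≤ U ΛY hY n) {C : ℝ≥0∞} (hC : C ≠ ⊤) {us : ℕ → ℕ → ℝ≥0∞}
    (hus : ∀ i, Tendsto (us i) atTop (𝓝 0))
    (H2 : Hyp ΛX hX zX sX ΛY hY zY sY (fun L _ E => DS zX L ∈ E) C us)
    (H3 : Hyp ΛX hX zX sX ΛY hY zY sY (fun _ L' E => DS zY L' ∈ E) C us)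
    (H5 : ∀ η : ℝ≥0∞, η ≠ 0 → ∃ k0, ∀ k, k0 ≤ k → ∀ n w, Pt ΛX hX zX sX ΛY hY zY sY k n w ≤ η) :
    ∀ ε : ℝ≥0∞, ε ≠ 0 → ∃ M, ∀ m, M ≤ m → ∀ n w, KS ΛX hX zX sX ΛY hY zY sY n m w ≤ ε := by
  classical
  intro ε hε
  have hci0 : c⁻¹ ≠ 0 := ENNReal.inv_ne_zero.2 hct
  have hcit : c⁻¹ ≠ ⊤ := ENNReal.inv_ne_top.2 hc0
  set ε' : ℝ≥0∞ := c * c * ε with hε'
  have hε'0 : ε' ≠ 0 := mul_ne_zero (mul_ne_zero hc0 hc0) hε
  have hε20 : ε' / 2 ≠ 0 := (ENNReal.div_pos hε'0 (by norm_num)).ne'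
  obtain ⟨u, K, hu0, hu1, hK, hsel⟩ := Sel300.sel 4 8 16 (by norm_num) hε20
  have huit : u⁻¹ ≠ ⊤ := ENNReal.inv_ne_top.2 hu0
  -- the point function
  set pf : ℕ → ℝ≥0∞ := fun t => ⨆ (k : ℕ) (_ : t ≤ k) (D : ℕ) (w : G),
    AT ΛX hX D (fun A => AT ΛY hY D (fun A' =>
      if ∃ z, (z, k) ∈ TT sX hX zX A 0 0 ∧ (z, k) ∈ TT sY hY zY A' w 0 then 1 else 0)) with hpf
  have hpft : Tendsto pf atTop (𝓝 0) := by
    rw [ENNReal.tendsto_atTop_zero]
    intro η hη
    have hη3 : η / 3 ≠ 0 := (ENNReal.div_pos hη.ne' (by norm_num)).ne'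
    obtain ⟨IX, hIX⟩ := e1_small ΛX hX hmX hη3
    obtain ⟨IY, hIY⟩ := e1_small ΛY hY hmY (ε := c * (η / 3)) (mul_ne_zero hc0 hη3)
    obtain ⟨k0, hk0⟩ := H5 (c * (c * (η / 3))) (mul_ne_zero hc0 (mul_ne_zero hc0 hη3))
    refine ⟨k0, fun t ht => ?_⟩
    simp only [hpf]
    refine iSup_le fun k => iSup_le fun hk => iSup_le fun D => iSup_le fun w => ?_
    refine (point ΛX hX zX sX ΛY hY zY sY h1X hΛX h1Y hΛY hc0 hct hUX hUY D (max IX IY) k w).trans ?_
    calc e1 ΛX hX (max IX IY) + c⁻¹ * (e1 ΛY hY (max IX IY)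
          + c⁻¹ * Pt ΛX hX zX sX ΛY hY zY sY k (D + max IX IY) w)
        ≤ η / 3 + c⁻¹ * (c * (η / 3) + c⁻¹ * (c * (c * (η / 3)))) :=
          add_le_add (hIX _ (le_max_left _ _)) (mul_le_mul' le_rfl
            (add_le_add (hIY _ (le_max_right _ _)) (mul_le_mul' le_rfl (hk0 k (by omega) _ _))))
      _ = η / 3 + η / 3 + η / 3 := by
          rw [← mul_assoc c⁻¹ c, ENNReal.inv_mul_cancel hc0 hct, one_mul, ← mul_add,
            ← mul_assoc, ENNReal.inv_mul_cancel hc0 hct, one_mul, add_assoc]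
      _ = η := ENNReal.add_thirds η
  have htl : Tendsto (fun i => e1 ΛX hX i + e1 ΛY hY i) atTop (𝓝 0) := by
    have hX0 : Tendsto (fun i => e1 ΛX hX i) atTop (𝓝 0) := by
      rw [ENNReal.tendsto_atTop_zero]
      intro η hη; exact e1_small ΛX hX hmX hη.ne'
    have hY0 : Tendsto (fun i => e1 ΛY hY i) atTop (𝓝 0) := by
      rw [ENNReal.tendsto_atTop_zero]
      intro η hη; exact e1_small ΛY hY hmY hη.ne'
    simpa using hX0.add hY0
  have hKt : ((2 * K : ℕ) : ℝ≥0∞) ≠ ⊤ := ENNReal.natCast_ne_top _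
  obtain ⟨i0, lam, s, t0, hlam, hlam', hfin⟩ := Sel300.sel2
    (c1 := ((2 * K : ℕ) : ℝ≥0∞) * (2 + u⁻¹)) (c2 := ((2 * K : ℕ) : ℝ≥0∞) * (2 * C))
    (c3 := ((2 * K : ℕ) : ℝ≥0∞) * (2 * C * (2 * u⁻¹ + 1)))
    (ENNReal.mul_ne_top hKt (ENNReal.add_ne_top.2 ⟨by norm_num, huit⟩))
    (ENNReal.mul_ne_top hKt (ENNReal.mul_ne_top (by norm_num) hC))
    (ENNReal.mul_ne_top hKt (ENNReal.mul_ne_top (ENNReal.mul_ne_top (by norm_num) hC)
      (ENNReal.add_ne_top.2 ⟨ENNReal.mul_ne_top (by norm_num) huit, by norm_num⟩)))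
    (fun i s => ((2 * K : ℕ) : ℝ≥0∞) * ((2 * (2 * i + s) : ℕ) : ℝ≥0∞))
    (fun i s => ENNReal.mul_ne_top hKt (ENNReal.natCast_ne_top _))
    (fun i => e1 ΛX hX i + e1 ΛY hY i) pf (fun i => us (4 * i)) htl hpft (fun i => hus _) 5 hε20
  refine ⟨K * (t0 + 2 * i0 + s + 2), fun m hm n w => ?_⟩
  -- the scale
  set t : ℕ := m / K with ht
  have hKpos : 0 < K := by omega
  have ht1 : t0 + 2 * i0 + s + 2 ≤ t := by
    rw [ht, Nat.le_div_iff_mul_le hKpos, mul_comm]; exact hm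
  have htm : K * t ≤ m := by rw [ht]; exact Nat.mul_div_le m K
  have htm2 : m < K * (t + 1) := by rw [ht]; exact Nat.lt_mul_div_succ m hKpos
  have htm3 : 2 * m < 3 * (K * t) := by
    have : K * (t + 1) = K * t + K := by ring
    have h2 : 2 * K ≤ K * t := by rw [mul_comm 2 K]; exact Nat.mul_le_mul_left _ (by omega)
    omega
  set D : ℕ := (3 * K + 4) * t with hD
  have hDe : D = 3 * (K * t) + 4 * t := by rw [hD]; ring
  refine (KS_le_AT ΛX hX zX sX ΛY hY zY sY h1X hΛX h1Y hΛY hsX hsY hc0 hct hUX hUY n m D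
    (by omega) w).trans ?_
  set Bd : ℝ≥0∞ := ((2 * (2 * i0 + s) : ℕ) : ℝ≥0∞) * pf t + (2 * e1 ΛX hX i0 + (2 * e1 ΛY hY i0 +
        ((((1 - u) ^ (K / 8) + e1 ΛX hX i0 * u⁻¹) + ((i0 + 1 : ℕ) : ℝ≥0∞) ^ 2 *
          (((i0 + 1 : ℕ) : ℝ≥0∞) ^ 2 * (C * (lam + (2 * ((i0 + 1 : ℕ) : ℝ≥0∞) * u⁻¹) *
            us (4 * i0) s / lam + us (4 * i0) s))))
        + (((1 - u) ^ (K / 8) + e1 ΛY hY i0 * u⁻¹) + ((i0 + 1 : ℕ) : ℝ≥0∞) ^ 2 *
          (((i0 + 1 : ℕ) : ℝ≥0∞) ^ 2 * (C * (lam + (2 * ((i0 + 1 : ℕ) : ℝ≥0∞) * u⁻¹) *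
            us (4 * i0) s / lam + us (4 * i0) s))))
        + u * u))) with hBd
  have hwin : ∀ j ∈ Finset.Ico K (3 * K), AT ΛX hX D (fun A => AT ΛY hY D (fun A' =>
      if ∃ z k, j * t < k ∧ k ≤ (j + 1) * t ∧
        (z, k) ∈ TT sX hX zX A 0 0 ∧ (z, k) ∈ TT sY hY zY A' w 0 then 1 else 0)) ≤ Bd := by
    intro j hj
    rw [Finset.mem_Ico] at hj
    have hj1 : (j - 1) * t + t = j * t := by
      obtain ⟨i, rfl⟩ : ∃ i, j = i + 1 := ⟨j - 1, by omega⟩
      simp only [Nat.add_sub_cancel]; ring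
    have hj2 : (j + 1) * t = j * t + t := by ring
    have hj3 : j * t ≤ 3 * (K * t) := by
      calc j * t ≤ (3 * K) * t := Nat.mul_le_mul_right _ (by omega)
        _ = _ := by ring
    have hj4 : K * t ≤ j * t := Nat.mul_le_mul_right _ hj.1
    have hK2 : 16 * t ≤ K * t := Nat.mul_le_mul_right _ hK
    refine window ΛX hX zX sX ΛY hY zY sY h1X hΛX h1Y hΛY hsX hsY H2 H3 ((j - 1) * t) (3 * t) i0 s
      (K / 8) D (j * t) ((j + 1) * t) hu0 hu1 hlam hlam' (by omega) ?_ w (by omega) (by omega)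
      (by omega) ?_
    · calc K / 8 * (3 * t + i0 + i0) ≤ K / 8 * (4 * t) := Nat.mul_le_mul_left _ (by omega)
        _ = (K / 8 * 4) * t := by ring
        _ ≤ (j - 1) * t := Nat.mul_le_mul_right _ (by omega)
    · intro k hk1 hk2
      simp only [hpf]
      exact le_iSup_of_le k (le_iSup_of_le (by omega) (le_iSup_of_le D (le_iSup_of_le w le_rfl)))
  have hsum : AT ΛX hX D (fun A => AT ΛY hY D (fun A' =>
      if (∃ z k, m < k ∧ k ≤ 2 * m ∧ (z, k) ∈ TT sX hX zX A 0 0 ∧ (z, k) ∈ TT sY hY zY A' w 0)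
      then 1 else 0)) ≤ ((2 * K : ℕ) : ℝ≥0∞) * Bd := by
    calc _ ≤ AT ΛX hX D (fun A => AT ΛY hY D (fun A' => ∑ j ∈ Finset.Ico K (3 * K),
          if ∃ z k, j * t < k ∧ k ≤ (j + 1) * t ∧
        (z, k) ∈ TT sX hX zX A 0 0 ∧ (z, k) ∈ TT sY hY zY A' w 0 then 1 else 0)) := by
          refine AT_mono ΛX hX D fun A _ => AT_mono ΛY hY D fun A' _ => ?_
          by_cases hP : ∃ z k, m < k ∧ k ≤ 2 * m ∧
            (z, k) ∈ TT sX hX zX A 0 0 ∧ (z, k) ∈ TT sY hY zY A' w 0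
          · rw [if_pos hP]
            obtain ⟨z, k, k1, k2, k3, k4⟩ := hP
            have htpos : 0 < t := by omega
            have d1 : t * ((k - 1) / t) ≤ k - 1 := Nat.mul_div_le _ _
            have d2 : k - 1 < t * ((k - 1) / t + 1) := Nat.lt_mul_div_succ _ htpos
            have hjm : (k - 1) / t ∈ Finset.Ico K (3 * K) := by
              rw [Finset.mem_Ico]
              constructor
              · rw [Nat.le_div_iff_mul_le htpos]; omega
              · rw [Nat.div_lt_iff_lt_mul htpos]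
                have : 3 * K * t = 3 * (K * t) := by ring
                omega
            refine le_trans ?_ (Finset.single_le_sum (f := fun j : ℕ =>
              if ∃ z k, j * t < k ∧ k ≤ (j + 1) * t ∧
                (z, k) ∈ TT sX hX zX A 0 0 ∧ (z, k) ∈ TT sY hY zY A' w 0 then (1 : ℝ≥0∞) else 0)
              (fun _ _ => zero_le) hjm)
            rw [if_pos ⟨z, k, by rw [mul_comm]; omega, by rw [mul_comm]; omega, k3, k4⟩]
          · rw [if_neg hP]; exact zero_le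
      _ = ∑ j ∈ Finset.Ico K (3 * K), AT ΛX hX D (fun A => AT ΛY hY D (fun A' =>
          if ∃ z k, j * t < k ∧ k ≤ (j + 1) * t ∧
        (z, k) ∈ TT sX hX zX A 0 0 ∧ (z, k) ∈ TT sY hY zY A' w 0 then 1 else 0)) := by
          simp only [AT_finsum]
      _ ≤ ∑ _j ∈ Finset.Ico K (3 * K), Bd := Finset.sum_le_sum hwin
      _ = _ := by
          rw [Finset.sum_const, Nat.card_Ico, nsmul_eq_mul, show 3 * K - K = 2 * K by omega]
  -- numbers
  have hnum : ((2 * K : ℕ) : ℝ≥0∞) * Bd ≤ ε' := by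
    have hf := hfin t (by omega)
    have hi : ((i0 + 1 : ℕ) : ℝ≥0∞) = (i0 : ℝ≥0∞) + 1 := by push_cast; rfl
    have hi1 : (1 : ℝ≥0∞) ≤ (i0 : ℝ≥0∞) + 1 := le_add_self
    set I : ℝ≥0∞ := (i0 : ℝ≥0∞) + 1 with hI
    set U4 : ℝ≥0∞ := us (4 * i0) s with hU4
    have p45 : I ^ 4 ≤ I ^ 5 := pow_le_pow_right₀ hi1 (by norm_num)
    have hB1 : I ^ 2 * (I ^ 2 * (C * (lam + (2 * I * u⁻¹) * U4 / lam + U4)))
        ≤ C * (I ^ 5 * lam) + C * (2 * u⁻¹ + 1) * (I ^ 5 * (U4 / lam + U4)) := by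
      calc I ^ 2 * (I ^ 2 * (C * (lam + (2 * I * u⁻¹) * U4 / lam + U4)))
          = C * (I ^ 4 * lam) + (C * (2 * u⁻¹) * (I ^ 5 * (U4 / lam)) + C * (I ^ 4 * U4)) := by
            rw [mul_div_assoc]; ring
        _ ≤ C * (I ^ 5 * lam) + (C * (2 * u⁻¹) * (I ^ 5 * (U4 / lam + U4))
              + C * (I ^ 5 * (U4 / lam + U4))) := by
            refine add_le_add (mul_le_mul' le_rfl (mul_le_mul' p45 le_rfl)) (add_le_add
              (mul_le_mul' le_rfl (mul_le_mul' le_rfl le_self_add))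
              (mul_le_mul' le_rfl (mul_le_mul' p45 le_add_self)))
        _ = _ := by ring
    have hmain : ((2 * K : ℕ) : ℝ≥0∞) * Bd ≤
        (4 : ℕ) * K * (u ^ 2 + (1 - u) ^ (K / 8)) +
        (((2 * K : ℕ) : ℝ≥0∞) * (2 + u⁻¹) * (e1 ΛX hX i0 + e1 ΛY hY i0)
          + ((2 * K : ℕ) : ℝ≥0∞) * (2 * C) * I ^ 5 * lam
          + ((2 * K : ℕ) : ℝ≥0∞) * (2 * C * (2 * u⁻¹ + 1)) * I ^ 5 * (U4 / lam + U4)
          + ((2 * K : ℕ) : ℝ≥0∞) * ((2 * (2 * i0 + s) : ℕ) : ℝ≥0∞) * pf t) := by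
      rw [hBd, hi]
      calc ((2 * K : ℕ) : ℝ≥0∞) * (((2 * (2 * i0 + s) : ℕ) : ℝ≥0∞) * pf t + (2 * e1 ΛX hX i0 +
            (2 * e1 ΛY hY i0 +
            ((((1 - u) ^ (K / 8) + e1 ΛX hX i0 * u⁻¹) + I ^ 2 *
              (I ^ 2 * (C * (lam + (2 * I * u⁻¹) * U4 / lam + U4))))
            + (((1 - u) ^ (K / 8) + e1 ΛY hY i0 * u⁻¹) + I ^ 2 *
              (I ^ 2 * (C * (lam + (2 * I * u⁻¹) * U4 / lam + U4))))
            + u * u))))
          ≤ ((2 * K : ℕ) : ℝ≥0∞) * (((2 * (2 * i0 + s) : ℕ) : ℝ≥0∞) * pf t + (2 * e1 ΛX hX i0 +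
            (2 * e1 ΛY hY i0 +
            ((((1 - u) ^ (K / 8) + e1 ΛX hX i0 * u⁻¹) +
              (C * (I ^ 5 * lam) + C * (2 * u⁻¹ + 1) * (I ^ 5 * (U4 / lam + U4))))
            + (((1 - u) ^ (K / 8) + e1 ΛY hY i0 * u⁻¹) +
              (C * (I ^ 5 * lam) + C * (2 * u⁻¹ + 1) * (I ^ 5 * (U4 / lam + U4))))
            + (u * u + u * u))))) := by
            refine mul_le_mul' le_rfl (add_le_add le_rfl (add_le_add le_rfl (add_le_add le_rfl
              (add_le_add (add_le_add (add_le_add le_rfl hB1) (add_le_add le_rfl hB1))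
                le_self_add))))
        _ = _ := by push_cast; ring
    refine hmain.trans ?_
    calc _ ≤ ε' / 2 + ε' / 2 := add_le_add hsel hf
      _ = ε' := ENNReal.add_halves ε'
  calc c⁻¹ * c⁻¹ * AT ΛX hX D (fun A => AT ΛY hY D (fun A' =>
      if (∃ z k, m < k ∧ k ≤ 2 * m ∧ (z, k) ∈ TT sX hX zX A 0 0 ∧ (z, k) ∈ TT sY hY zY A' w 0)
      then 1 else 0))
      ≤ c⁻¹ * c⁻¹ * ε' := mul_le_mul' le_rfl (hsum.trans hnum)
    _ = ε := by
        rw [hε']
        calc c⁻¹ * c⁻¹ * (c * c * ε) = (c⁻¹ * c) * (c⁻¹ * c) * ε := by ring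
          _ = ε := by rw [ENNReal.inv_mul_cancel hc0 hct, one_mul, one_mul]

end main

end Crest.Agent.R154.Asm117
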