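import Crest.Agent.R154.AsmY_34

/-! Row 154 (helper34), ROAD 801: one window of the abstract assembly, part 4: the window inequality. -/

set_option autoImplicit false

namespace Crest.Agent.R154.Asm34

open scoped ENNReal
open Crest.Agent.R154.B5A Crest.Agent.R154.FP178

variable {BX BY G : Type*} [AddCommGroup G] (ΛX : BX → ℝ≥0∞) (hX : BX → ℕ) (zX : BX → G)
  (ΛY : BY → ℝ≥0∞) (hY : BY → ℕ) (zY : BY → G)
variable (tX : List BX → G → ℕ → Set (G × ℕ)) (tY : List BY → G → ℕ → Set (G × ℕ))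

/-- the contact event of two pieces, X-piece hung at `0` and depth `a`, Y-piece at `x`, depth `a'` -/
def Pc (lo hi : ℕ) (L : List BX) (L' : List BY) (x : G) (a a' : ℕ) : Prop :=
  (∃ z k, (z, k) ∈ tX L 0 a ∧ (z, k) ∈ tY L' x a') ∧
    (∀ z k, (z, k) ∈ tX L 0 a → (z, k) ∈ tY L' x a' → lo ≤ k) ∧
    (∀ z k, (z, k) ∈ tX L 0 a → (z, k) ∈ tY L' x a' → k ≤ hi)

/-- the event on the whole lists -/
def Ev (lo hi H mid : ℕ) (w : G) (LX : List BX) (LY : List BY) : Prop :=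
  (∀ z k, (z, k) ∈ tX LX 0 0 → (z, k) ∈ tY LY w 0 → lo ≤ k ∧ ¬ (hi < k ∧ k ≤ H)) ∧
    (∃ z k, (z, k) ∈ tX LX 0 0 ∧ (z, k) ∈ tY LY w 0 ∧ k ≤ mid)

/-- trace axioms -/
structure Tr {B : Type*} (ht : B → ℕ) (z : B → G) (t : List B → G → ℕ → Set (G × ℕ)) : Prop where
  app : ∀ L L' x a, t (L ++ L') x a = t L x a ∪ t L' (x + Dp z L) (a + HT ht L)
  sh : ∀ L x g a y k, (y, k) ∈ t L (x + g) a ↔ (y - g, k) ∈ t L x a
  dep : ∀ L x a y k, (y, k) ∈ t L x a → a < k ∧ k ≤ a + HT ht L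

variable (hTX : Tr hX zX tX) (hTY : Tr hY zY tY)

include hTX hTY in
lemma pieces_of {T τ T' τ' i0 lo hi mid : ℕ} {w : G} (h1 : T + i0 < lo) (h2 : T' + i0 < lo)
    (h3 : mid ≤ T + τ) (h4 : mid ≤ T' + τ') {X1 X2 X3 : List BX} {Y1 Y2 Y3 : List BY}
    (a1 : T ≤ HT hX X1) (a2 : HT hX X1 ≤ T + i0) (a3 : τ ≤ HT hX X2) (a4 : HT hX X2 ≤ τ + i0)
    (b1 : T' ≤ HT hY Y1) (b2 : HT hY Y1 ≤ T' + i0) (b3 : τ' ≤ HT hY Y2)
    (hE : Ev tX tY lo hi (T + τ + 2 * i0) mid w (X1 ++ (X2 ++ X3)) (Y1 ++ (Y2 ++ Y3))) :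
    Pc tX tY lo hi X2 Y2 (w + Dp zY Y1 - Dp zX X1) (HT hX X1) (HT hY Y1) := by
  have eX : ∀ z k, (z, k) ∈ tX (X1 ++ (X2 ++ X3)) 0 0 ↔ (z, k) ∈ tX X1 0 0 ∨
      (z, k) ∈ tX X2 (0 + Dp zX X1) (HT hX X1) ∨
      (z, k) ∈ tX X3 (0 + Dp zX X1 + Dp zX X2) (HT hX X1 + HT hX X2) := by
    intro z k
    rw [hTX.app, hTX.app]
    simp only [Set.mem_union, zero_add]
  have eY : ∀ z k, (z, k) ∈ tY (Y1 ++ (Y2 ++ Y3)) w 0 ↔ (z, k) ∈ tY Y1 w 0 ∨
      (z, k) ∈ tY Y2 (w + Dp zY Y1) (HT hY Y1) ∨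
      (z, k) ∈ tY Y3 (w + Dp zY Y1 + Dp zY Y2) (HT hY Y1 + HT hY Y2) := by
    intro z k
    rw [hTY.app, hTY.app]
    simp only [Set.mem_union, zero_add]
  have sX : ∀ z k, (z, k) ∈ tX X2 (0 + Dp zX X1) (HT hX X1) ↔
      (z - Dp zX X1, k) ∈ tX X2 0 (HT hX X1) := fun z k => hTX.sh _ _ _ _ _ _
  have sY : ∀ z k, (z, k) ∈ tY Y2 (w + Dp zY Y1) (HT hY Y1) ↔
      (z - Dp zX X1, k) ∈ tY Y2 (w + Dp zY Y1 - Dp zX X1) (HT hY Y1) := by
    intro z k
    have := hTY.sh Y2 (w + Dp zY Y1 - Dp zX X1) (Dp zX X1) (HT hY Y1) z k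
    rwa [sub_add_cancel] at this
  obtain ⟨hall, z, k, hz1, hz2, hk⟩ := hE
  refine ⟨?_, ?_, ?_⟩
  · have hlo := (hall z k hz1 hz2).1
    have m1 : (z, k) ∈ tX X2 (0 + Dp zX X1) (HT hX X1) := by
      rcases (eX z k).1 hz1 with h | h | h
      · have := (hTX.dep _ _ _ _ _ h).2; omega
      · exact h
      · have := (hTX.dep _ _ _ _ _ h).1; omega
    have m2 : (z, k) ∈ tY Y2 (w + Dp zY Y1) (HT hY Y1) := by
      rcases (eY z k).1 hz2 with h | h | h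
      · have := (hTY.dep _ _ _ _ _ h).2; omega
      · exact h
      · have := (hTY.dep _ _ _ _ _ h).1; omega
    exact ⟨_, _, (sX z k).1 m1, (sY z k).1 m2⟩
  · intro z k g1 g2
    have e : z = z + Dp zX X1 - Dp zX X1 := by abel
    have m1 : (z + Dp zX X1, k) ∈ tX (X1 ++ (X2 ++ X3)) 0 0 :=
      (eX _ _).2 (Or.inr (Or.inl ((sX _ _).2 (by rwa [← e]))))
    have m2 : (z + Dp zX X1, k) ∈ tY (Y1 ++ (Y2 ++ Y3)) w 0 :=
      (eY _ _).2 (Or.inr (Or.inl ((sY _ _).2 (by rwa [← e]))))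
    exact (hall _ _ m1 m2).1
  · intro z k g1 g2
    have e : z = z + Dp zX X1 - Dp zX X1 := by abel
    have m1 : (z + Dp zX X1, k) ∈ tX (X1 ++ (X2 ++ X3)) 0 0 :=
      (eX _ _).2 (Or.inr (Or.inl ((sX _ _).2 (by rwa [← e]))))
    have m2 : (z + Dp zX X1, k) ∈ tY (Y1 ++ (Y2 ++ Y3)) w 0 :=
      (eY _ _).2 (Or.inr (Or.inl ((sY _ _).2 (by rwa [← e]))))
    have h5 := (hall _ _ m1 m2).2
    have h6 := (hTX.dep _ _ _ _ _ g1).2
    by_contra h7
    exact h5 ⟨by omega, by omega⟩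

section tail
variable {α β : Type*}

open Classical in
/-- push forward of a weighted sum -/
lemma push (c : α → β → ℝ≥0∞) (ψ : α → β → G) (Φ : G → ℝ≥0∞) :
    ∑' a, ∑' b, c a b * Φ (ψ a b)
      = ∑' x, (∑' a, ∑' b, if ψ a b = x then c a b else 0) * Φ x := by
  have e : ∀ a b, c a b * Φ (ψ a b) = ∑' x, (if ψ a b = x then c a b else 0) * Φ x := by
    intro a b
    rw [tsum_eq_single (ψ a b)]
    · rw [if_pos rfl]
    · intro x hx
      rw [if_neg (Ne.symm hx), zero_mul]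
  calc ∑' a, ∑' b, c a b * Φ (ψ a b)
      = ∑' a, ∑' b, ∑' x, (if ψ a b = x then c a b else 0) * Φ x :=
        tsum_congr fun a => tsum_congr fun b => e a b
    _ = ∑' a, ∑' x, ∑' b, (if ψ a b = x then c a b else 0) * Φ x :=
        tsum_congr fun a => ENNReal.tsum_comm
    _ = ∑' x, ∑' a, ∑' b, (if ψ a b = x then c a b else 0) * Φ x := ENNReal.tsum_comm
    _ = _ := by
        refine tsum_congr fun x => ?_
        rw [← ENNReal.tsum_mul_right]
        refine tsum_congr fun a => ?_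
        rw [ENNReal.tsum_mul_right]

end tail

lemma cs_le_fp {B : Type*} (Λ : B → ℝ≥0∞) (ht : B → ℕ) (T a : ℕ) (L : List B) :
    cs Λ ht T a L ≤ (open Classical in if fp ht T L then LW Λ L else 0) := by
  classical
  unfold cs
  by_cases h : fp ht T L
  · by_cases h' : HT ht L = a <;> simp [h, h']
  · simp [h]

open Classical in
/-- one slice, X local or Y local -/
theorem slice_le (T τ T' τ' a a' h h' lo hi : ℕ) (w : G) (GX : List BX → Prop)
    (GY : List BY → Prop) (LX : List BX → Prop) (LY : List BY → Prop) (M R : ℝ≥0∞)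
    (h1X : ∀ b, 1 ≤ hX b) (h1Y : ∀ b, 1 ≤ hY b) (hΛX : ∑' b, ΛX b ≤ 1) (hΛY : ∑' b, ΛY b ≤ 1)
    (hd : (∀ x, ∑' L, (if fp hX T L ∧ GX L ∧ Dp zX L = x then LW ΛX L else 0) ≤ M) ∨
      (∀ x, ∑' L, (if fp hY T' L ∧ GY L ∧ Dp zY L = x then LW ΛY L else 0) ≤ M))
    (hH : ∀ μ : G → ℝ≥0∞, (∑' x, μ x ≤ 1) → (∀ x, μ x ≤ M) →
      ∑' x, μ x * ∑' L, ∑' L', (if HT hX L = h ∧ HT hY L' = h' ∧ LX L ∧ LY L' ∧
        Pc tX tY lo hi L L' x a a' then LW ΛX L * LW ΛY L' else 0) ≤ R) :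
    ∑' X1, ∑' Y1, (cs ΛX hX T a X1 * cs ΛY hY T' a' Y1) *
        ∑' X2, ∑' Y2, cs ΛX hX τ h X2 * cs ΛY hY τ' h' Y2 *
          (if GX X1 ∧ GY Y1 ∧ LX X2 ∧ LY Y2 ∧
            Pc tX tY lo hi X2 Y2 (w + Dp zY Y1 - Dp zX X1) (HT hX X1) (HT hY Y1)
            then 1 else 0) ≤ R := by
  set Φ : G → ℝ≥0∞ := fun x => ∑' L, ∑' L', (if HT hX L = h ∧ HT hY L' = h' ∧ LX L ∧ LY L' ∧
        Pc tX tY lo hi L L' x a a' then LW ΛX L * LW ΛY L' else 0) with hΦ
  set c : List BX → List BY → ℝ≥0∞ := fun X1 Y1 =>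
    (cs ΛX hX T a X1 * (if GX X1 then 1 else 0)) * (cs ΛY hY T' a' Y1 * (if GY Y1 then 1 else 0))
    with hc
  have hpt : ∀ X1 Y1, (cs ΛX hX T a X1 * cs ΛY hY T' a' Y1) *
        ∑' X2, ∑' Y2, cs ΛX hX τ h X2 * cs ΛY hY τ' h' Y2 *
          (if GX X1 ∧ GY Y1 ∧ LX X2 ∧ LY Y2 ∧
            Pc tX tY lo hi X2 Y2 (w + Dp zY Y1 - Dp zX X1) (HT hX X1) (HT hY Y1)
            then 1 else 0)
      ≤ c X1 Y1 * Φ (w + Dp zY Y1 - Dp zX X1) := by
    intro X1 Y1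
    by_cases hX1 : HT hX X1 = a
    swap
    · have : cs ΛX hX T a X1 = 0 := by unfold cs; rw [if_neg (fun h => hX1 h.2)]
      rw [this, zero_mul, zero_mul]; exact zero_le
    by_cases hY1 : HT hY Y1 = a'
    swap
    · have : cs ΛY hY T' a' Y1 = 0 := by unfold cs; rw [if_neg (fun h => hY1 h.2)]
      rw [this, mul_zero, zero_mul]; exact zero_le
    by_cases hG1 : GX X1
    swap
    · simp [hG1]
    by_cases hG2 : GY Y1
    swap
    · simp [hG2]
    simp only [hc, hG1, hG2, if_true, mul_one, true_and]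
    refine mul_le_mul_right ?_ _
    simp only [hΦ]
    refine ENNReal.tsum_le_tsum fun X2 => ENNReal.tsum_le_tsum fun Y2 => ?_
    rw [hX1, hY1]
    by_cases e1 : HT hX X2 = h
    swap
    · have : cs ΛX hX τ h X2 = 0 := by unfold cs; rw [if_neg (fun h => e1 h.2)]
      rw [this, zero_mul, zero_mul]; exact zero_le
    by_cases e2 : HT hY Y2 = h'
    swap
    · have : cs ΛY hY τ' h' Y2 = 0 := by unfold cs; rw [if_neg (fun h => e2 h.2)]
      rw [this, mul_zero, zero_mul]; exact zero_le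
    by_cases e3 : LX X2 ∧ LY Y2 ∧ Pc tX tY lo hi X2 Y2 (w + Dp zY Y1 - Dp zX X1) a a'
    swap
    · rw [if_neg e3, mul_zero]; exact zero_le
    rw [if_pos e3, if_pos ⟨e1, e2, e3⟩, mul_one]
    refine mul_le_mul' ?_ ?_
    · unfold cs; split_ifs <;> simp
    · unfold cs; split_ifs <;> simp
  refine le_trans (ENNReal.tsum_le_tsum fun X1 => ENNReal.tsum_le_tsum fun Y1 => hpt X1 Y1) ?_
  rw [push c (fun X1 Y1 => w + Dp zY Y1 - Dp zX X1) Φ]
  have hcX : ∀ X1, cs ΛX hX T a X1 * (if GX X1 then (1 : ℝ≥0∞) else 0)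
      ≤ (if fp hX T X1 then LW ΛX X1 else 0) := fun X1 =>
    (mul_le_mul_right (ite1 _) _).trans ((mul_one _).le.trans (cs_le_fp ΛX hX T a X1))
  have hcY : ∀ Y1, cs ΛY hY T' a' Y1 * (if GY Y1 then (1 : ℝ≥0∞) else 0)
      ≤ (if fp hY T' Y1 then LW ΛY Y1 else 0) := fun Y1 =>
    (mul_le_mul_right (ite1 _) _).trans ((mul_one _).le.trans (cs_le_fp ΛY hY T' a' Y1))
  refine hH _ ?_ ?_
  · have e := push c (fun X1 Y1 => w + Dp zY Y1 - Dp zX X1) (fun _ => (1 : ℝ≥0∞))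
    simp only [mul_one] at e
    rw [← e]
    calc ∑' X1, ∑' Y1, c X1 Y1 ≤ ∑' X1, ∑' Y1, (if fp hX T X1 then LW ΛX X1 else 0) *
          (if fp hY T' Y1 then LW ΛY Y1 else 0) :=
          ENNReal.tsum_le_tsum fun X1 => ENNReal.tsum_le_tsum fun Y1 =>
            mul_le_mul' (hcX X1) (hcY Y1)
      _ = (∑' X1, (if fp hX T X1 then LW ΛX X1 else 0)) *
          ∑' Y1, (if fp hY T' Y1 then LW ΛY Y1 else 0) := by
          simp only [ENNReal.tsum_mul_left, ENNReal.tsum_mul_right]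
      _ ≤ 1 * 1 := mul_le_mul' (sum_FP ΛX hX h1X hΛX T) (sum_FP ΛY hY h1Y hΛY T')
      _ = 1 := one_mul 1
  · intro x
    rcases hd with hd | hd
    · rw [ENNReal.tsum_comm]
      calc ∑' Y1, ∑' X1, (if w + Dp zY Y1 - Dp zX X1 = x then c X1 Y1 else 0)
          ≤ ∑' Y1, ∑' X1, (if fp hY T' Y1 then LW ΛY Y1 else 0) *
            (if fp hX T X1 ∧ GX X1 ∧ Dp zX X1 = w + Dp zY Y1 - x then LW ΛX X1 else 0) := by
            refine ENNReal.tsum_le_tsum fun Y1 => ENNReal.tsum_le_tsum fun X1 => ?_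
            by_cases hx : w + Dp zY Y1 - Dp zX X1 = x
            · have hx' : Dp zX X1 = w + Dp zY Y1 - x := by rw [← hx]; abel
              rw [if_pos hx, mul_comm]
              refine mul_le_mul' ?_ (hcY Y1)
              by_cases hG : GX X1
              · rw [if_pos hG, mul_one]
                refine (cs_le_fp ΛX hX T a X1).trans (le_of_eq ?_)
                simp [hG, hx']
              · rw [if_neg hG, mul_zero]; exact zero_le
            · rw [if_neg hx]; exact zero_le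
        _ = ∑' Y1, (if fp hY T' Y1 then LW ΛY Y1 else 0) *
            ∑' X1, (if fp hX T X1 ∧ GX X1 ∧ Dp zX X1 = w + Dp zY Y1 - x then LW ΛX X1 else 0) := by
            simp only [ENNReal.tsum_mul_left]
        _ ≤ ∑' Y1, (if fp hY T' Y1 then LW ΛY Y1 else 0) * M :=
            ENNReal.tsum_le_tsum fun Y1 => mul_le_mul_right (hd _) _
        _ ≤ 1 * M := by rw [ENNReal.tsum_mul_right]; gcongr; exact sum_FP ΛY hY h1Y hΛY T'
        _ = M := one_mul M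
    · calc ∑' X1, ∑' Y1, (if w + Dp zY Y1 - Dp zX X1 = x then c X1 Y1 else 0)
          ≤ ∑' X1, ∑' Y1, (if fp hX T X1 then LW ΛX X1 else 0) *
            (if fp hY T' Y1 ∧ GY Y1 ∧ Dp zY Y1 = x - w + Dp zX X1 then LW ΛY Y1 else 0) := by
            refine ENNReal.tsum_le_tsum fun X1 => ENNReal.tsum_le_tsum fun Y1 => ?_
            by_cases hx : w + Dp zY Y1 - Dp zX X1 = x
            · have hx' : Dp zY Y1 = x - w + Dp zX X1 := by rw [← hx]; abel
              rw [if_pos hx]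
              refine mul_le_mul' (hcX X1) ?_
              by_cases hG : GY Y1
              · rw [if_pos hG, mul_one]
                refine (cs_le_fp ΛY hY T' a' Y1).trans (le_of_eq ?_)
                simp [hG, hx']
              · rw [if_neg hG, mul_zero]; exact zero_le
            · rw [if_neg hx]; exact zero_le
        _ = ∑' X1, (if fp hX T X1 then LW ΛX X1 else 0) *
            ∑' Y1, (if fp hY T' Y1 ∧ GY Y1 ∧ Dp zY Y1 = x - w + Dp zX X1 then LW ΛY Y1 else 0) := by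
            simp only [ENNReal.tsum_mul_left]
        _ ≤ ∑' X1, (if fp hX T X1 then LW ΛX X1 else 0) * M :=
            ENNReal.tsum_le_tsum fun X1 => mul_le_mul_right (hd _) _
        _ ≤ 1 * M := by rw [ENNReal.tsum_mul_right]; gcongr; exact sum_FP ΛX hX h1X hΛX T
        _ = M := one_mul M

end Crest.Agent.R154.Asm34
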