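import Crest.Agent.R154.AsmK_351

/-! Row 154, ROAD 801, KAPPA' for lists of blocks (helper351). -/

set_option autoImplicit false

namespace Crest.Agent.R154.AsmS351

open scoped ENNReal Topology
open Crest.Agent.R154.B5A Crest.Agent.R154.FP178

variable {BX BY G : Type*} [AddCommGroup G] (ΛX : BX → ℝ≥0∞) (hX : BX → ℕ) (zX : BX → G)
  (sX : BX → Set (G × ℕ)) (ΛY : BY → ℝ≥0∞) (hY : BY → ℕ) (zY : BY → G) (sY : BY → Set (G × ℕ))

open Classical in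
/-- sum over pairs of lists of height `n` with a property -/
noncomputable def PS (n : ℕ) (Q : List BX → List BY → Prop) : ℝ≥0∞ :=
  ∑' LX, ∑' LY, (if HT hX LX = n ∧ HT hY LY = n ∧ Q LX LY then LW ΛX LX * LW ΛY LY else 0)

open Classical in
lemma PS_or (n : ℕ) (Q Q1 Q2 : List BX → List BY → Prop)
    (hQ : ∀ LX LY, Q LX LY → Q1 LX LY ∨ Q2 LX LY) :
    PS ΛX hX ΛY hY n Q ≤ PS ΛX hX ΛY hY n Q1 + PS ΛX hX ΛY hY n Q2 := by
  rw [PS, PS, PS, ← ENNReal.tsum_add]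
  refine ENNReal.tsum_le_tsum fun LX => ?_
  rw [← ENNReal.tsum_add]
  refine ENNReal.tsum_le_tsum fun LY => ?_
  by_cases hc : HT hX LX = n ∧ HT hY LY = n ∧ Q LX LY
  · rw [if_pos hc]
    rcases hQ LX LY hc.2.2 with h | h
    · rw [if_pos ⟨hc.1, hc.2.1, h⟩]; exact le_self_add
    · rw [if_pos (⟨hc.1, hc.2.1, h⟩ : HT hX LX = n ∧ HT hY LY = n ∧ Q2 LX LY)]
      exact le_add_self
  · rw [if_neg hc]; exact zero_le

lemma PS_ex {ι : Type*} (n : ℕ) (I : Finset ι) (Q : ι → List BX → List BY → Prop) (c : ℝ≥0∞)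
    (hc : ∀ i ∈ I, PS ΛX hX ΛY hY n (Q i) ≤ c) :
    PS ΛX hX ΛY hY n (fun LX LY => ∃ i ∈ I, Q i LX LY) ≤ (I.card : ℝ≥0∞) * c := by
  classical
  induction I using Finset.induction_on with
  | empty => simp [PS]
  | insert i I hi ih =>
    refine (PS_or ΛX hX ΛY hY n _ (Q i) (fun LX LY => ∃ i ∈ I, Q i LX LY) ?_).trans ?_
    · rintro LX LY ⟨j, hj, hq⟩
      rcases Finset.mem_insert.1 hj with rfl | hj
      · exact Or.inl hq
      · exact Or.inr ⟨j, hj, hq⟩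
    · rw [Finset.card_insert_of_notMem hi]
      push_cast
      rw [add_mul, one_mul, add_comm]
      exact add_le_add (ih fun i hi' => hc i (Finset.mem_insert_of_mem hi'))
        (hc i (Finset.mem_insert_self _ _))

open Classical in
theorem kapS (h1X : ∀ b, 1 ≤ hX b) (h1Y : ∀ b, 1 ≤ hY b) (hΛX : ∑' b, ΛX b = 1)
    (hΛY : ∑' b, ΛY b = 1) (hmX : ∑' b, ΛX b * (hX b : ℝ≥0∞) ≠ ⊤)
    (hmY : ∑' b, ΛY b * (hY b : ℝ≥0∞) ≠ ⊤) (hsX : ∀ b q, q ∈ sX b → 1 ≤ q.2 ∧ q.2 ≤ hX b)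
    (hsY : ∀ b q, q ∈ sY b → 1 ≤ q.2 ∧ q.2 ≤ hY b)
    (hWX : WinX ΛX hX zX sX ΛY hY zY sY) (hWY : WinY ΛX hX zX sX ΛY hY zY sY)
    (hPt : Pt ΛX hX zX sX ΛY hY zY sY) :
    ∀ ε : ℝ≥0∞, ε ≠ 0 → ∃ M : ℕ, ∀ m, M ≤ m → ∀ n, 2 * m ≤ n → ∀ w : G,
      ∑' LX, ∑' LY, (if HT hX LX = n ∧ HT hY LY = n ∧
        (∃ k ∈ CT hX zX sX hY zY sY LX 0 0 LY w 0, m < k ∧ k ≤ 2 * m)
        then LW ΛX LX * LW ΛY LY else 0) ≤ ε := by
  intro ε hε
  have h2 : ε / 2 ≠ 0 := (ENNReal.half_pos hε).ne'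
  have h4 : ε / 2 / 2 ≠ 0 := (ENNReal.half_pos h2).ne'
  have h8 : ε / 2 / 2 / 2 ≠ 0 := (ENNReal.half_pos h4).ne'
  obtain ⟨q, hq2, hnum⟩ := AsmA789.num h2 4
  set u : ℝ≥0∞ := ((q : ℝ≥0∞) ^ 2)⁻¹ with hu
  set J : ℕ := q ^ 3 with hJ
  have hqR : (q : ℝ≥0∞) ^ 2 ≠ ⊤ := ENNReal.pow_ne_top (ENNReal.natCast_ne_top q)
  have hu0 : u ≠ 0 := ENNReal.inv_ne_zero.2 hqR
  have hq1 : (1 : ℝ≥0∞) < (q : ℝ≥0∞) ^ 2 := by
    have : 1 < q ^ 2 := by nlinarith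
    exact_mod_cast this
  have hu1 : u < 1 := ENNReal.inv_lt_one.2 hq1
  have hJ1 : 1 ≤ J := Nat.one_le_iff_ne_zero.2 (pow_ne_zero _ (by omega))
  -- i0
  obtain ⟨e1, he1, hke1⟩ := small ((2 * J) * (2 * J + 4)) h4
  have tX : Filter.Tendsto (fun i => ∑' k, tail ΛX hX (i + k)) Filter.atTop (𝓝 0) := by
    rw [sum_tail ΛX hX hΛX] at hmX
    have := ENNReal.tendsto_sum_nat_add (tail ΛX hX) hmX
    simpa only [add_comm] using this
  have tY : Filter.Tendsto (fun i => ∑' k, tail ΛY hY (i + k)) Filter.atTop (𝓝 0) := by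
    rw [sum_tail ΛY hY hΛY] at hmY
    have := ENNReal.tendsto_sum_nat_add (tail ΛY hY) hmY
    simpa only [add_comm] using this
  have hev := (tX.eventually (gt_mem_nhds (pos_iff_ne_zero.2 he1))).and
    (tY.eventually (gt_mem_nhds (pos_iff_ne_zero.2 he1)))
  obtain ⟨i0, hi0X, hi0Y⟩ := hev.exists
  -- η, s
  obtain ⟨η, hη, hkη⟩ := small ((2 * J) * (2 * (i0 + 1) ^ 4)) h8
  obtain ⟨s1, hs1⟩ := hWX (2 * i0) ((J * ((i0 + 1) * 2) : ℕ) : ℝ≥0∞) (ENNReal.natCast_ne_top _) η hη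
  obtain ⟨s2, hs2⟩ := hWY (2 * i0) ((J * ((i0 + 1) * 2) : ℕ) : ℝ≥0∞) (ENNReal.natCast_ne_top _) η hη
  set s := s1 + s2 with hs
  -- points
  obtain ⟨η', hη', hkη'⟩ := small ((2 * J) * (3 * i0 + 2 * s + 1) + (2 * i0 + 2 * J + 1)) h8
  obtain ⟨k0, hk0⟩ := hPt η' hη'
  refine ⟨k0 + 2 * J * i0 + 2 * J * (s + 1) + 2 * i0, fun m hm n hn w => ?_⟩
  set T := (m - 2 * i0) / (2 * J) with hT
  have hJpos : 0 < 2 * J := by omega
  have hT1 : 2 * J * T ≤ m - 2 * i0 := Nat.mul_div_le _ _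
  have hT2 : m - 2 * i0 < 2 * J * T + 2 * J := Nat.lt_mul_div_succ _ hJpos
  have hsT : s ≤ T := by
    rw [hT, Nat.le_div_iff_mul_le hJpos]
    have : s * (2 * J) = 2 * J * s := mul_comm _ _
    have : 2 * J * (s + 1) = 2 * J * s + 2 * J := by ring
    omega
  have haj : ∀ j, j < 2 * J → m + j * T + T ≤ m + 2 * J * T := by
    intro j hj
    have : (j + 1) * T ≤ 2 * J * T := Nat.mul_le_mul_right _ hj
    have : (j + 1) * T = j * T + T := by ring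
    omega
  -- windows
  set W : ℝ≥0∞ := u * u + (((1 - u) ^ J + J * e1) + ((i0 + 1 : ℕ) : ℝ≥0∞) ^ 4 * η)
        + (((1 - u) ^ J + J * e1) + ((i0 + 1 : ℕ) : ℝ≥0∞) ^ 4 * η) + 4 * e1 with hW
  have hwin : ∀ j ∈ Finset.range (2 * J), PS ΛX hX ΛY hY n (fun LX LY =>
      Ev hX zX sX hY zY sY w (m + j * T) T i0 (m + j * T + i0 + s + 1) (m + j * T + T - s) LX LY)
        ≤ W := by
    intro j hj
    have hj' := haj j (Finset.mem_range.1 hj)
    refine window1 ΛX hX zX sX ΛY hY zY sY h1X h1Y hΛX hΛY hsX hsY J i0 s u η e1 hu0 hu1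
      hi0X.le hi0Y.le ?_ ?_ w (m + j * T) T n hsT ?_ ?_
    · intro c c' a a' lo hi E μ M hμ hM hME b1 b2 b3 b4 b5 b6 b7 b8
      exact hs1 c c' a a' lo hi E μ M hμ hM hME b1 b2 b3 b4 (by omega) (by omega) (by omega)
        (by omega)
    · intro c c' a a' lo hi E μ M hμ hM hME b1 b2 b3 b4 b5 b6 b7 b8
      exact hs2 c c' a a' lo hi E μ M hμ hM hME b1 b2 b3 b4 (by omega) (by omega) (by omega)
        (by omega)
    · have e1 : J * (T + i0) = J * T + J * i0 := by ring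
      have e2 : 2 * J * T = J * T + J * T := by ring
      have e3 : 2 * J * i0 = J * i0 + J * i0 := by ring
      omega
    · omega
  have hpt : ∀ k, m < k → k ≤ 2 * m → PS ΛX hX ΛY hY n (fun LX LY =>
      k ∈ CT hX zX sX hY zY sY LX 0 0 LY w 0) ≤ η' := by
    intro k hk1 hk2
    exact hk0 k (by omega) n (by omega) w
  -- the bad depths
  have hbad1 : ∀ j ∈ Finset.range (2 * J), PS ΛX hX ΛY hY n (fun LX LY =>
      ∃ k ∈ Finset.Ioo (m + j * T) (m + j * T + i0 + s + 1),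
        k ≤ 2 * m ∧ k ∈ CT hX zX sX hY zY sY LX 0 0 LY w 0) ≤ ((i0 + s : ℕ) : ℝ≥0∞) * η' := by
    intro j hj
    refine (PS_ex ΛX hX ΛY hY n _ _ η' fun k hk => ?_).trans ?_
    · rw [Finset.mem_Ioo] at hk
      by_cases hk2 : k ≤ 2 * m
      · refine le_trans ?_ (hpt k (by omega) hk2)
        refine ENNReal.tsum_le_tsum fun LX => ENNReal.tsum_le_tsum fun LY => ?_
        by_cases hc : HT hX LX = n ∧ HT hY LY = n ∧ k ≤ 2 * m ∧
            k ∈ CT hX zX sX hY zY sY LX 0 0 LY w 0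
        · rw [if_pos hc, if_pos ⟨hc.1, hc.2.1, hc.2.2.2⟩]
        · rw [if_neg hc]; exact zero_le
      · rw [PS]
        refine le_trans (le_of_eq (ENNReal.tsum_eq_zero.2 fun LX => ENNReal.tsum_eq_zero.2
          fun LY => if_neg fun h' => hk2 h'.2.2.1)) (zero_le)
    · refine mul_le_mul_left ?_ _
      rw [Nat.card_Ioo]
      exact_mod_cast (by omega : m + j * T + i0 + s + 1 - (m + j * T) - 1 ≤ i0 + s)
  have hbad2 : ∀ j ∈ Finset.range (2 * J), PS ΛX hX ΛY hY n (fun LX LY =>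
      ∃ k ∈ Finset.Ioc (m + j * T + T - s) (m + j * T + T + 2 * i0),
        k ∈ CT hX zX sX hY zY sY LX 0 0 LY w 0) ≤ ((2 * i0 + s : ℕ) : ℝ≥0∞) * η' := by
    intro j hj
    have hj' := haj j (Finset.mem_range.1 hj)
    refine (PS_ex ΛX hX ΛY hY n _ _ η' fun k hk => ?_).trans ?_
    · rw [Finset.mem_Ioc] at hk
      exact hpt k (by omega) (by omega)
    · refine mul_le_mul_left ?_ _
      rw [Nat.card_Ioc]
      exact_mod_cast (by omega : m + j * T + T + 2 * i0 - (m + j * T + T - s) ≤ 2 * i0 + s)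
  have hbad3 : PS ΛX hX ΛY hY n (fun LX LY =>
      ∃ k ∈ Finset.Ioc (m + 2 * J * T) (2 * m), k ∈ CT hX zX sX hY zY sY LX 0 0 LY w 0)
        ≤ ((2 * i0 + 2 * J : ℕ) : ℝ≥0∞) * η' := by
    refine (PS_ex ΛX hX ΛY hY n _ _ η' fun k hk => ?_).trans ?_
    · rw [Finset.mem_Ioc] at hk
      exact hpt k (by omega) (by omega)
    · refine mul_le_mul_left ?_ _
      rw [Nat.card_Ioc]
      exact_mod_cast (by omega : 2 * m - (m + 2 * J * T) ≤ 2 * i0 + 2 * J)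
  have hmain : PS ΛX hX ΛY hY n (fun LX LY =>
      ∃ k ∈ CT hX zX sX hY zY sY LX 0 0 LY w 0, m < k ∧ k ≤ 2 * m)
      ≤ ((Finset.range (2 * J)).card : ℝ≥0∞) * W
        + (((Finset.range (2 * J)).card : ℝ≥0∞) * (((i0 + s : ℕ) : ℝ≥0∞) * η')
        + (((Finset.range (2 * J)).card : ℝ≥0∞) * (((2 * i0 + s : ℕ) : ℝ≥0∞) * η')
        + ((2 * i0 + 2 * J : ℕ) : ℝ≥0∞) * η')) := by
    refine (PS_or ΛX hX ΛY hY n _ _ _ ?_).trans (add_le_add
      (PS_ex ΛX hX ΛY hY n _ _ W hwin)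
      ((PS_or ΛX hX ΛY hY n _ _ _ (fun _ _ h' => h')).trans (add_le_add
        (PS_ex ΛX hX ΛY hY n _ _ _ hbad1)
        ((PS_or ΛX hX ΛY hY n _ _ _ (fun _ _ h' => h')).trans (add_le_add
          (PS_ex ΛX hX ΛY hY n _ _ _ hbad2) hbad3)))))
    rintro LX LY ⟨k, hk, hk1, hk2⟩
    by_cases hB : (∃ j ∈ Finset.range (2 * J), ∃ k ∈ Finset.Ioo (m + j * T)
          (m + j * T + i0 + s + 1), k ≤ 2 * m ∧ k ∈ CT hX zX sX hY zY sY LX 0 0 LY w 0) ∨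
        (∃ j ∈ Finset.range (2 * J), ∃ k ∈ Finset.Ioc (m + j * T + T - s)
          (m + j * T + T + 2 * i0), k ∈ CT hX zX sX hY zY sY LX 0 0 LY w 0) ∨
        (∃ k ∈ Finset.Ioc (m + 2 * J * T) (2 * m), k ∈ CT hX zX sX hY zY sY LX 0 0 LY w 0)
    · exact Or.inr hB
    · left
      have hB1 : ∀ j ∈ Finset.range (2 * J), ∀ k ∈ CT hX zX sX hY zY sY LX 0 0 LY w 0,
          k ≤ 2 * m → ¬ (m + j * T < k ∧ k < m + j * T + i0 + s + 1) := fun j hj k hk h3 h' =>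
        hB (Or.inl ⟨j, hj, k, Finset.mem_Ioo.2 h', h3, hk⟩)
      have hB2 : ∀ j ∈ Finset.range (2 * J), ∀ k ∈ CT hX zX sX hY zY sY LX 0 0 LY w 0,
          ¬ (m + j * T + T - s < k ∧ k ≤ m + j * T + T + 2 * i0) := fun j hj k hk h' =>
        hB (Or.inr (Or.inl ⟨j, hj, k, Finset.mem_Ioc.2 h', hk⟩))
      have hB3 : ∀ k ∈ CT hX zX sX hY zY sY LX 0 0 LY w 0,
          ¬ (m + 2 * J * T < k ∧ k ≤ 2 * m) := fun k hk h' =>
        hB (Or.inr (Or.inr ⟨k, Finset.mem_Ioc.2 h', hk⟩))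
      have hkT : k ≤ m + 2 * J * T := by
        by_contra hcon
        exact hB3 k hk ⟨not_le.1 hcon, hk2⟩
      have hTpos : 0 < T := by
        rcases Nat.eq_zero_or_pos T with h0 | h0
        · rw [h0, mul_zero] at hkT; omega
        · exact h0
      set j := (k - m - 1) / T with hjdef
      have hj1 : j * T ≤ k - m - 1 := Nat.div_mul_le_self _ _
      have hj2 : k - m - 1 < j * T + T := by
        have := Nat.lt_div_mul_add (a := k - m - 1) hTpos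
        simpa using this
      have hjlt : j < 2 * J := by
        rw [hjdef, Nat.div_lt_iff_lt_mul hTpos]
        omega
      have hj' := haj j hjlt
      have hjm := Finset.mem_range.2 hjlt
      refine ⟨j, hjm, ⟨k, hk, by omega, by omega⟩, fun k' hk' => ⟨?_, hB2 j hjm k' hk'⟩⟩
      rintro ⟨h5, h6⟩
      by_cases hk3 : k' ≤ 2 * m
      · exact hB1 j hjm k' hk' hk3 ⟨h5, h6⟩
      · -- `k' > 2 m`: then `lo > 2 m`
        have b1 := hB2 j hjm k hk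
        have b2 := hB1 j hjm k hk hk2
        omega
  refine hmain.trans ?_
  rw [Finset.card_range]
  -- numbers
  have n1 : ((2 * J : ℕ) : ℝ≥0∞) * (u * u + 2 * (1 - u) ^ J) ≤ ε / 2 := by
    refine le_trans ?_ hnum
    have hr : (1 - u) ≤ 1 - (2 * (q : ℝ≥0∞) ^ 2)⁻¹ := by
      refine tsub_le_tsub_left ?_ _
      rw [hu]
      refine ENNReal.inv_le_inv.2 ?_
      calc (q : ℝ≥0∞) ^ 2 = 1 * (q : ℝ≥0∞) ^ 2 := (one_mul _).symm
        _ ≤ 2 * (q : ℝ≥0∞) ^ 2 := mul_le_mul_left (by norm_num) _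
    calc ((2 * J : ℕ) : ℝ≥0∞) * (u * u + 2 * (1 - u) ^ J)
        ≤ ((2 * J : ℕ) : ℝ≥0∞) * (2 * (u ^ 2 + (1 - (2 * (q : ℝ≥0∞) ^ 2)⁻¹) ^ J)) := by
          refine mul_le_mul_right ?_ _
          rw [mul_add, sq]
          refine add_le_add ?_ (mul_le_mul_right (pow_le_pow_left' hr J) _)
          rw [two_mul]; exact le_self_add
      _ = 4 * (((q : ℝ≥0∞) ^ 3)) * (u ^ 2 + (1 - (2 * (q : ℝ≥0∞) ^ 2)⁻¹) ^ J) := by
          rw [hJ]; push_cast; ring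
      _ ≤ ((4 : ℕ) : ℝ≥0∞) * ((q : ℝ≥0∞) ^ 3 + (4 : ℕ)) *
            (u ^ 2 + (1 - (2 * (q : ℝ≥0∞) ^ 2)⁻¹) ^ J) := by
          refine mul_le_mul_left ?_ _
          push_cast
          exact mul_le_mul_right le_self_add _
      _ = _ := by rw [hu, hJ]
  calc ((2 * J : ℕ) : ℝ≥0∞) * W
        + (((2 * J : ℕ) : ℝ≥0∞) * (((i0 + s : ℕ) : ℝ≥0∞) * η')
        + (((2 * J : ℕ) : ℝ≥0∞) * (((2 * i0 + s : ℕ) : ℝ≥0∞) * η')
        + ((2 * i0 + 2 * J : ℕ) : ℝ≥0∞) * η'))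
      = ((2 * J : ℕ) : ℝ≥0∞) * (u * u + 2 * (1 - u) ^ J)
        + (((2 * J) * (2 * J + 4) : ℕ) : ℝ≥0∞) * e1
        + (((2 * J) * (2 * (i0 + 1) ^ 4) : ℕ) : ℝ≥0∞) * η
        + (((2 * J) * (3 * i0 + 2 * s) + (2 * i0 + 2 * J) : ℕ) : ℝ≥0∞) * η' := by
        rw [hW]; push_cast; ring
    _ ≤ ε / 2 + ε / 2 / 2 + ε / 2 / 2 / 2 + ε / 2 / 2 / 2 := by
        refine add_le_add (add_le_add (add_le_add n1 hke1) hkη) (le_trans ?_ hkη')
        refine mul_le_mul_left ?_ _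
        exact_mod_cast (by
          have : (2 * J) * (3 * i0 + 2 * s) ≤ (2 * J) * (3 * i0 + 2 * s + 1) :=
            Nat.mul_le_mul_left _ (by omega)
          omega :
          (2 * J) * (3 * i0 + 2 * s) + (2 * i0 + 2 * J)
            ≤ (2 * J) * (3 * i0 + 2 * s + 1) + (2 * i0 + 2 * J + 1))
    _ = ε := by
        rw [add_assoc, ENNReal.add_halves, add_assoc, ENNReal.add_halves, ENNReal.add_halves]

end Crest.Agent.R154.AsmS351
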