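import Crest.Agent.R154.AsmK_498

/-! Row 154, ROAD 801 (helper498): **KAPPA' for two independent single-walker renewal sequences**,
from the two window lemmas and the thin slab. -/

set_option autoImplicit false

namespace Crest.Agent.R154.Asm498

open Crest.Agent.R154.B5A
open Crest.Agent.R154.Asm508
open Crest.Agent.R154.H5N501 (TS TS_append TS_depth)
open scoped ENNReal Topology
open Filter

variable {BX BY G : Type*} [AddCommGroup G]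
variable (ΛX : BX → ℝ≥0∞) (hX : BX → ℕ) (zX : BX → G) (sX : BX → Set (G × ℕ))
variable (ΛY : BY → ℝ≥0∞) (hY : BY → ℕ) (zY : BY → G) (sY : BY → Set (G × ℕ))

open Classical in
/-- weight of the pairs of lists of height `n` with property `P` -/
noncomputable def SP (n : ℕ) (P : List BX → List BY → Prop) : ℝ≥0∞ :=
  ∑' LX : List BX, ∑' LY : List BY,
    (if HT hX LX = n ∧ HT hY LY = n ∧ P LX LY then LW ΛX LX * LW ΛY LY else 0)

lemma SP_union {ι : Type*} (n : ℕ) (P : List BX → List BY → Prop) (T T' : Finset ι)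
    (Q Q' : ι → List BX → List BY → Prop)
    (hP : ∀ LX LY, P LX LY → (∃ k ∈ T, Q k LX LY) ∨ ∃ k ∈ T', Q' k LX LY) :
    SP ΛX hX ΛY hY n P ≤ ∑ k ∈ T, SP ΛX hX ΛY hY n (Q k) + ∑ k ∈ T', SP ΛX hX ΛY hY n (Q' k) := by
  classical
  simp only [SP]
  rw [← tsum_fsum, ← tsum_fsum, ← ENNReal.tsum_add]
  refine ENNReal.tsum_le_tsum fun LX => ?_
  rw [← tsum_fsum, ← tsum_fsum, ← ENNReal.tsum_add]
  refine ENNReal.tsum_le_tsum fun LY => ?_
  by_cases hc : HT hX LX = n ∧ HT hY LY = n ∧ P LX LY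
  · rw [if_pos hc]
    rcases hP LX LY hc.2.2 with ⟨k, hk, hq⟩ | ⟨k, hk, hq⟩
    · refine le_trans ?_ le_self_add
      refine le_trans ?_ (Finset.single_le_sum (f := fun k =>
        if HT hX LX = n ∧ HT hY LY = n ∧ Q k LX LY then LW ΛX LX * LW ΛY LY else 0)
        (fun _ _ => zero_le) hk)
      simp only [hc.1, hc.2.1, hq, and_self, if_true, le_refl]
    · refine le_trans ?_ le_add_self
      refine le_trans ?_ (Finset.single_le_sum (f := fun k =>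
        if HT hX LX = n ∧ HT hY LY = n ∧ Q' k LX LY then LW ΛX LX * LW ΛY LY else 0)
        (fun _ _ => zero_le) hk)
      simp only [hc.1, hc.2.1, hq, and_self, if_true, le_refl]
  · rw [if_neg hc]; exact zero_le

/-- the thin slab input (540's `H5`) -/
def HS : Prop := ∀ (s : ℕ) (η : ℝ≥0∞), η ≠ 0 → ∃ T, ∀ a, T ≤ a → ∀ n, ∀ w : G,
  SP ΛX hX ΛY hY n (fun LX LY => ∃ z k, a ≤ k ∧ k < a + s ∧
        (z, k) ∈ TS hX zX sX LX 0 0 ∧ (z, k) ∈ TS hY zY sY LY w 0) ≤ η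

lemma WS_eq (n a e lo hi : ℕ) (w : G) :
    WS ΛX hX zX sX ΛY hY zY sY n a e lo hi w
      = SP ΛX hX ΛY hY n (fun LX LY => WE hX zX sX hY zY sY a e lo hi w LX LY) := by
  classical
  simp only [WS, SP]
  refine tsum_congr fun LX => ?_
  rw [← ENNReal.tsum_mul_left]
  refine tsum_congr fun LY => ?_
  split_ifs <;> simp

variable {hX zX sX hY zY sY}

lemma num_main (N J Q i0 : ℕ) (ε oX oY D η : ℝ≥0∞) (hN : N = 2 * Q ^ 3 + 2) (hJ : J = Q ^ 3)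
    (e1 : (4 : ℕ) * ((Q : ℝ≥0∞) ^ 3 + (4 : ℕ)) * (((Q : ℝ≥0∞) ^ 2)⁻¹ ^ 2 +
      (1 - (2 * (Q : ℝ≥0∞) ^ 2)⁻¹) ^ (Q ^ 3)) ≤ ε / 4)
    (e2 : (N : ℝ≥0∞) * (J + 2) * (oX + oY) ≤ ε / 4)
    (e3 : (N : ℝ≥0∞) * ((i0 + 1) ^ 4 * (2 * D)) ≤ ε / 4)
    (e4 : ((N : ℝ≥0∞) + 1) * η ≤ ε / 4) :
    (N : ℝ≥0∞) * (2 * (oX + oY) + (((1 - (2 * (Q : ℝ≥0∞) ^ 2)⁻¹) ^ J + J * oX) +
      ((1 - (2 * (Q : ℝ≥0∞) ^ 2)⁻¹) ^ J + J * oY)) +
      ((Q : ℝ≥0∞) ^ 2)⁻¹ * ((Q : ℝ≥0∞) ^ 2)⁻¹ + (i0 + 1) ^ 4 * (2 * D))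
      + ((N : ℝ≥0∞) + 1) * η ≤ ε := by
  set x := (1 - (2 * (Q : ℝ≥0∞) ^ 2)⁻¹) ^ (Q ^ 3) with hx
  set v := ((Q : ℝ≥0∞) ^ 2)⁻¹ with hv
  have e1' : (N : ℝ≥0∞) * (x + x + v * v) ≤ ε / 4 := by
    refine le_trans ?_ e1
    have : (N : ℝ≥0∞) * 2 ≤ (4 : ℕ) * ((Q : ℝ≥0∞) ^ 3 + (4 : ℕ)) := by
      rw [hN]
      norm_cast
      omega
    calc (N : ℝ≥0∞) * (x + x + v * v) ≤ (N : ℝ≥0∞) * (x + x + (v * v + v * v)) := by
          gcongr; exact le_self_add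
      _ = (N * 2) * (v ^ 2 + x) := by ring
      _ ≤ _ := by gcongr
  calc _ = (N : ℝ≥0∞) * (x + x + v * v) + (N : ℝ≥0∞) * (J + 2) * (oX + oY)
        + (N : ℝ≥0∞) * ((i0 + 1) ^ 4 * (2 * D)) + ((N : ℝ≥0∞) + 1) * η := by
        rw [hJ]; ring
    _ ≤ ε / 4 + ε / 4 + ε / 4 + ε / 4 := by gcongr
    _ = ε := by
        rw [ENNReal.div_eq_inv_mul]
        calc _ = (4 * 4⁻¹) * ε := by ring
          _ = ε := by rw [ENNReal.mul_inv_cancel (by norm_num) (by norm_num), one_mul]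

/-- **KAPPA' (weak form)** from the two window lemmas and the thin slab. -/
theorem kap (h1X : ∀ b, 1 ≤ hX b) (h1Y : ∀ b, 1 ≤ hY b) (hΛX : ∑' b, ΛX b = 1)
    (hΛY : ∑' b, ΛY b = 1) (mX : ∑' b, ΛX b * (hX b : ℝ≥0∞) ≠ ⊤)
    (mY : ∑' b, ΛY b * (hY b : ℝ≥0∞) ≠ ⊤)
    (hsX : ∀ b, ∀ q ∈ sX b, 1 ≤ q.2 ∧ q.2 ≤ hX b)
    (hsY : ∀ b, ∀ q ∈ sY b, 1 ≤ q.2 ∧ q.2 ≤ hY b)
    (C : ℝ≥0∞) (hC : C ≠ ⊤) (us : ℕ → ℕ → ℝ≥0∞) (hus : ∀ i, Tendsto (us i) atTop (𝓝 0))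
    (H2 : HW ΛX hX zX sX ΛY hY zY sY (locX zX) C us)
    (H3 : HW ΛX hX zX sX ΛY hY zY sY (locY zY) C us)
    (H5 : HS ΛX hX zX sX ΛY hY zY sY) (ε : ℝ≥0∞) (hε : ε ≠ 0) :
    ∃ M : ℕ, ∀ m, M ≤ m → ∀ n, 4 * m ≤ n → ∀ w : G,
      SP ΛX hX ΛY hY n (fun LX LY => ∃ z k, m < k ∧ k ≤ 2 * m ∧
        (z, k) ∈ TS hX zX sX LX 0 0 ∧ (z, k) ∈ TS hY zY sY LY w 0) ≤ ε := by
  have h4 : ε / 4 ≠ 0 := by
    refine (ENNReal.div_pos hε (by norm_num)).ne'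
  have h12 : ε / 4 / 2 ≠ 0 := (ENNReal.div_pos h4 (by norm_num)).ne'
  obtain ⟨Q, hQ, hnum⟩ := AsmA789.num h4 4
  set J := Q ^ 3 with hJ
  set K := 2 * J with hK
  set N := 2 * Q ^ 3 + 2 with hN
  have hJ8 : 8 ≤ J := by
    calc 8 = 2 ^ 3 := by norm_num
      _ ≤ Q ^ 3 := Nat.pow_le_pow_left hQ 3
  -- overshoot
  obtain ⟨i0, hi0⟩ := exists_tendsto_mul_le ((N : ℝ≥0∞) * (J + 2)) (ε / 4)
    (ENNReal.mul_ne_top (ENNReal.natCast_ne_top _) (by finiteness)) h4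
    (fun i => ov ΛX hX i + ov ΛY hY i) (by
      simpa using (ov_tendsto ΛX hX hΛX mX).add (ov_tendsto ΛY hY hΛY mY))
  -- lam
  set κ : ℝ≥0∞ := J * ((i0 + 1) * 2) with hκ
  have hκt : κ ≠ ⊤ := by rw [hκ]; finiteness
  set A : ℝ≥0∞ := (N : ℝ≥0∞) * ((i0 + 1) ^ 4 * (2 * C)) with hA
  have hAt : A ≠ ⊤ := by rw [hA]; finiteness
  obtain ⟨lam, hl0, hlt, hl⟩ := exists_mul_le A (ε / 4 / 2) hAt h12
  -- s
  have hAt' : A * (κ / lam + 1) ≠ ⊤ := by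
    refine ENNReal.mul_ne_top hAt (ENNReal.add_ne_top.2 ⟨ENNReal.div_ne_top hκt hl0, by simp⟩)
  obtain ⟨s, hs⟩ := exists_tendsto_mul_le (A * (κ / lam + 1)) (ε / 4 / 2) hAt' h12
    (us (4 * i0)) (hus (4 * i0))
  set D : ℝ≥0∞ := C * (lam + κ * us (4 * i0) s / lam + us (4 * i0) s) with hD
  have hDle : (N : ℝ≥0∞) * ((i0 + 1) ^ 4 * (2 * D)) ≤ ε / 4 := by
    calc _ = A * lam + A * (κ / lam + 1) * us (4 * i0) s := by
          rw [hA, hD, ENNReal.div_eq_inv_mul, ENNReal.div_eq_inv_mul]; ring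
      _ ≤ ε / 4 / 2 + ε / 4 / 2 := add_le_add hl hs
      _ = ε / 4 := ENNReal.add_halves _
  -- slab
  obtain ⟨η, hη0, -, hη⟩ := exists_mul_le ((N : ℝ≥0∞) + 1) (ε / 4) (by finiteness) h4
  obtain ⟨T, hT⟩ := H5 (2 * s + 4 * i0 + 1) η hη0
  set t0 := T + s + 4 * i0 + 1 + K with ht0
  refine ⟨K * t0, fun m hm n hn w => ?_⟩
  set t := m / K with ht
  have hKpos : 0 < K := by omega
  have htt : t0 ≤ t := by rw [ht, Nat.le_div_iff_mul_le hKpos, mul_comm]; exact hm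
  have hKm : K * t ≤ m := Nat.mul_div_le m K
  have hmK : m < K * t + K := by
    have := Nat.lt_mul_div_succ m hKpos
    rw [mul_add, mul_one] at this
    exact this
  have hKt : 16 * t ≤ K * t := Nat.mul_le_mul_right t (by omega)
  obtain ⟨θX, MX, EX, hnX, hEX, hκX, hdX⟩ := side ΛX hX zX h1X hΛX t i0 J Q hQ
  obtain ⟨θY, MY, EY, hnY, hEY, hκY, hdY⟩ := side ΛY hY zY h1Y hΛY (t + i0) i0 J Q hQ
  -- one window
  have hwin : ∀ k, K ≤ k → k < 2 * K + 2 →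
      SP ΛX hX ΛY hY n (fun LX LY => WE hX zX sX hY zY sY (k * t) (k * t + t + 4 * i0)
        (k * t + 2 * i0 + s + 1) (k * t + t - s) w LX LY) ≤
      2 * (ov ΛX hX i0 + ov ΛY hY i0) + (((1 - (2 * (Q : ℝ≥0∞) ^ 2)⁻¹) ^ J + J * ov ΛX hX i0) +
      ((1 - (2 * (Q : ℝ≥0∞) ^ 2)⁻¹) ^ J + J * ov ΛY hY i0)) +
      ((Q : ℝ≥0∞) ^ 2)⁻¹ * ((Q : ℝ≥0∞) ^ 2)⁻¹ + (i0 + 1) ^ 4 * (2 * D) := by
    intro k hk1 hk2
    have hkt : K * t ≤ k * t := Nat.mul_le_mul_right t hk1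
    have hkt2 : k * t ≤ (2 * K + 1) * t := Nat.mul_le_mul_right t (by omega)
    have hkt3 : (2 * K + 1) * t = 2 * (K * t) + t := by ring
    have hJt : K * t = J * t + J * t := by rw [hK]; ring
    have hJi : J * (t + i0 + i0) = J * t + J * (i0 + i0) := by ring
    have hJi' : J * (t + i0) = J * t + J * i0 := by ring
    have hJi2 : J * (i0 + i0) ≤ J * t := Nat.mul_le_mul_left J (by omega)
    have hJi3 : J * i0 ≤ J * t := Nat.mul_le_mul_left J (by omega)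
    obtain ⟨bX, hdX1, hdX2⟩ := hdX (k * t) (by omega)
    obtain ⟨bY, hdY1, hdY2⟩ := hdY (k * t + i0) (by omega)
    rw [← WS_eq]
    exact window ΛX ΛY h1X h1Y hΛX hΛY hsX hsY (k * t) t i0 s _ _ n (by omega) rfl (by omega) w C us
      H2 H3 θX θY _ MX MY _ _ κ lam hl0 hlt hnX hnY EX EY hEX hEY hκX hκY bX bY hdX1 hdX2 hdY1 hdY2
  have hslab : ∀ k, K ≤ k →
      SP ΛX hX ΛY hY n (fun LX LY => ∃ z k', k * t - s ≤ k' ∧ k' < k * t - s + (2 * s + 4 * i0 + 1) ∧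
        (z, k') ∈ TS hX zX sX LX 0 0 ∧ (z, k') ∈ TS hY zY sY LY w 0) ≤ η := by
    intro k hk1
    have hkt : K * t ≤ k * t := Nat.mul_le_mul_right t hk1
    exact hT _ (by omega) n w
  refine (SP_union ΛX hX ΛY hY n _ (Finset.Ico K (2 * K + 2)) (Finset.Ico K (2 * K + 3))
    (fun k LX LY => WE hX zX sX hY zY sY (k * t) (k * t + t + 4 * i0)
        (k * t + 2 * i0 + s + 1) (k * t + t - s) w LX LY)
    (fun k LX LY => ∃ z k', k * t - s ≤ k' ∧ k' < k * t - s + (2 * s + 4 * i0 + 1) ∧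
        (z, k') ∈ TS hX zX sX LX 0 0 ∧ (z, k') ∈ TS hY zY sY LY w 0) ?_).trans ?_
  · rintro LX LY ⟨g, k0, hk1, hk2, hgX, hgY⟩
    by_cases hsl : ∃ k ∈ Finset.Ico K (2 * K + 3), ∃ z k', k * t - s ≤ k' ∧
        k' < k * t - s + (2 * s + 4 * i0 + 1) ∧
        (z, k') ∈ TS hX zX sX LX 0 0 ∧ (z, k') ∈ TS hY zY sY LY w 0
    · exact Or.inr hsl
    · left
      have hns : ∀ k, K ≤ k → k < 2 * K + 3 → ∀ z k', (z, k') ∈ TS hX zX sX LX 0 0 →
          (z, k') ∈ TS hY zY sY LY w 0 → k * t - s ≤ k' → k * t + s + 4 * i0 < k' := by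
        intro k hk hk' z k' hz hz' hle
        by_contra hcon
        have hkt : K * t ≤ k * t := Nat.mul_le_mul_right t hk
        exact hsl ⟨k, Finset.mem_Ico.2 ⟨hk, hk'⟩, z, k', hle, by omega, hz, hz'⟩
      have htpos : 0 < t := by omega
      set k := k0 / t with hkdef
      have hka : k * t ≤ k0 := Nat.div_mul_le_self k0 t
      have hkb : k0 < k * t + t := by
        have := Nat.lt_mul_div_succ k0 htpos
        rw [mul_add, mul_one, mul_comm] at this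
        exact this
      have hk1' : K ≤ k := by
        rw [hkdef, Nat.le_div_iff_mul_le htpos]; omega
      have hk2' : k < 2 * K + 2 := by
        rw [hkdef, Nat.div_lt_iff_lt_mul htpos]
        have e : (2 * K + 2) * t = 2 * (K * t) + 2 * t := by ring
        omega
      refine ⟨k, Finset.mem_Ico.2 ⟨hk1', hk2'⟩, ⟨g, k0, ?_, ?_, hgX, hgY⟩, ?_⟩
      · have := hns k hk1' (by omega) g k0 hgX hgY (by omega)
        omega
      · by_contra hcon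
        have e : (k + 1) * t = k * t + t := by ring
        have := hns (k + 1) (by omega) (by omega) g k0 hgX hgY (by omega)
        omega
      · intro g' k' hg hg' ha he
        have e : (k + 1) * t = k * t + t := by ring
        have a1 := hns k hk1' (by omega) g' k' hg hg' (by omega)
        refine ⟨by omega, ?_⟩
        by_contra hcon
        have := hns (k + 1) (by omega) (by omega) g' k' hg hg' (by omega)
        omega
  · refine le_trans ?_ (num_main N J Q i0 ε (ov ΛX hX i0) (ov ΛY hY i0) D η hN hJ hnum hi0 hDle hη)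
    refine add_le_add ?_ ?_
    · refine (Finset.sum_le_sum fun k hk => hwin k (Finset.mem_Ico.1 hk).1
        (Finset.mem_Ico.1 hk).2).trans ?_
      rw [Finset.sum_const, Nat.card_Ico, nsmul_eq_mul]
      rw [show 2 * K + 2 - K = N by omega]
    · refine (Finset.sum_le_sum fun k hk => hslab k (Finset.mem_Ico.1 hk).1).trans ?_
      rw [Finset.sum_const, Nat.card_Ico, nsmul_eq_mul]
      rw [show 2 * K + 3 - K = N + 1 by omega]
      push_cast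
      exact le_rfl

end Crest.Agent.R154.Asm498
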