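import Crest.Agent.R154.AsmY_751

/-! Row 154, ROAD 801: one window, conclusion (helper751). -/

set_option autoImplicit false

namespace Crest.Agent.R154.Asm751

open scoped ENNReal
open Crest.Agent.R154.B5A (LW HT LW_nil LW_cons LW_append HT_nil HT_cons HT_append tsum_list U tail)

variable {BX BY G : Type*} [AddCommGroup G]
  {ΛX : BX → ℝ≥0∞} {ΛY : BY → ℝ≥0∞} {hX : BX → ℕ} {hY : BY → ℕ} {zX : BX → G} {zY : BY → G}
  {sX : BX → Set (G × ℕ)} {sY : BY → Set (G × ℕ)}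

/-- contact of the full lists restricts to pieces -/
lemma PE_of_full (hsX : ∀ b p, p ∈ sX b → 1 ≤ p.2 ∧ p.2 ≤ hX b)
    (hsY : ∀ b p, p ∈ sY b → 1 ≤ p.2 ∧ p.2 ≤ hY b)
    (w : G) (lo hi top cm : ℕ) (L1 L2 L3 : List BX) (L1' L2' L3' : List BY)
    (hlo : HT hX L1 < lo) (hlo' : HT hY L1' < lo)
    (hcm : cm ≤ HT hX L1 + HT hX L2) (hcm' : cm ≤ HT hY L1' + HT hY L2')
    (htop : HT hX L1 + HT hX L2 ≤ top)
    (h1 : ∀ z k, Bo hX hY zX zY sX sY 0 0 (L1 ++ (L2 ++ L3)) w 0 (L1' ++ (L2' ++ L3')) z k → lo ≤ k)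
    (h2 : ∃ z k, Bo hX hY zX zY sX sY 0 0 (L1 ++ (L2 ++ L3)) w 0 (L1' ++ (L2' ++ L3')) z k ∧ k ≤ cm)
    (h3 : ¬ ∃ z k, Bo hX hY zX zY sX sY 0 0 (L1 ++ (L2 ++ L3)) w 0 (L1' ++ (L2' ++ L3')) z k ∧
      hi < k ∧ k ≤ top) :
    PE hX hY zX zY sX sY lo hi (dp zX L1) (HT hX L1) L2 (w + dp zY L1') (HT hY L1') L2' := by
  have eX : TR hX zX sX (L1 ++ (L2 ++ L3)) 0 0 = TR hX zX sX L1 0 0 ∪
      (TR hX zX sX L2 (dp zX L1) (HT hX L1) ∪
        TR hX zX sX L3 (dp zX L1 + dp zX L2) (HT hX L1 + HT hX L2)) := by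
    rw [TR_append, TR_append, zero_add, zero_add]
  have eY : TR hY zY sY (L1' ++ (L2' ++ L3')) w 0 = TR hY zY sY L1' w 0 ∪
      (TR hY zY sY L2' (w + dp zY L1') (HT hY L1') ∪
        TR hY zY sY L3' (w + dp zY L1' + dp zY L2') (HT hY L1' + HT hY L2')) := by
    rw [TR_append, TR_append, zero_add]
  have hsub : ∀ z k, Bo hX hY zX zY sX sY (dp zX L1) (HT hX L1) L2 (w + dp zY L1') (HT hY L1') L2' z k
      → Bo hX hY zX zY sX sY 0 0 (L1 ++ (L2 ++ L3)) w 0 (L1' ++ (L2' ++ L3')) z k := by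
    intro z k h
    refine ⟨?_, ?_⟩
    · rw [eX]; exact Or.inr (Or.inl h.1)
    · rw [eY]; exact Or.inr (Or.inl h.2)
  refine ⟨?_, ?_⟩
  · obtain ⟨z, k, hb, hk⟩ := h2
    have hlok := h1 z k hb
    refine ⟨z, k, ?_, ?_⟩
    · have := hb.1
      rw [eX] at this
      rcases this with h | h | h
      · have := TR_depth hX zX sX hsX L1 0 0 _ h
        simp only at this; omega
      · exact h
      · have := TR_depth hX zX sX hsX L3 _ _ _ h
        simp only at this; omega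
    · have := hb.2
      rw [eY] at this
      rcases this with h | h | h
      · have := TR_depth hY zY sY hsY L1' w 0 _ h
        simp only at this; omega
      · exact h
      · have := TR_depth hY zY sY hsY L3' _ _ _ h
        simp only at this; omega
  · intro z k h
    have hb := hsub z k h
    refine ⟨h1 z k hb, ?_⟩
    by_contra hc
    refine h3 ⟨z, k, hb, not_le.1 hc, ?_⟩
    have := TR_depth hX zX sX hsX L2 _ _ _ h.1
    simp only at this; omega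

open Classical in
/-- the pair sum -/
noncomputable def KQ (ΛX : BX → ℝ≥0∞) (ΛY : BY → ℝ≥0∞) (hX : BX → ℕ) (hY : BY → ℕ) (n : ℕ)
    (Q : List BX → List BY → Prop) : ℝ≥0∞ :=
  ∑' L : List BX, ∑' L' : List BY,
    (if HT hX L = n ∧ HT hY L' = n ∧ Q L L' then LW ΛX L * LW ΛY L' else 0)

lemma KQ_mono (n : ℕ) {Q Q' : List BX → List BY → Prop}
    (h : ∀ L L', HT hX L = n → HT hY L' = n → Q L L' → Q' L L') :
    KQ ΛX ΛY hX hY n Q ≤ KQ ΛX ΛY hX hY n Q' := by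
  classical
  refine ENNReal.tsum_le_tsum fun L => ENNReal.tsum_le_tsum fun L' => ?_
  by_cases hq : HT hX L = n ∧ HT hY L' = n ∧ Q L L'
  · rw [if_pos hq, if_pos ⟨hq.1, hq.2.1, h L L' hq.1 hq.2.1 hq.2.2⟩]
  · rw [if_neg hq]; exact zero_le

lemma KQ_or (n : ℕ) {Q Q' Q'' : List BX → List BY → Prop}
    (h : ∀ L L', HT hX L = n → HT hY L' = n → Q L L' → Q' L L' ∨ Q'' L L') :
    KQ ΛX ΛY hX hY n Q ≤ KQ ΛX ΛY hX hY n Q' + KQ ΛX ΛY hX hY n Q'' := by
  classical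
  unfold KQ
  rw [← ENNReal.tsum_add]
  refine ENNReal.tsum_le_tsum fun L => ?_
  rw [← ENNReal.tsum_add]
  refine ENNReal.tsum_le_tsum fun L' => ?_
  by_cases hq : HT hX L = n ∧ HT hY L' = n ∧ Q L L'
  · rw [if_pos hq]
    rcases h L L' hq.1 hq.2.1 hq.2.2 with h' | h'
    · rw [if_pos (show HT hX L = n ∧ HT hY L' = n ∧ Q' L L' from ⟨hq.1, hq.2.1, h'⟩)]
      exact le_self_add
    · rw [if_pos (show HT hX L = n ∧ HT hY L' = n ∧ Q'' L L' from ⟨hq.1, hq.2.1, h'⟩)]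
      exact le_add_self
  · rw [if_neg hq]; exact zero_le

open Classical in
/-- reduction to four pieces -/
theorem to_Q4 (hΛX : ∑' b, ΛX b = 1) (h1X : ∀ b, 1 ≤ hX b) (hΛY : ∑' b, ΛY b = 1)
    (h1Y : ∀ b, 1 ≤ hY b) (n A A' D i0 : ℕ) (hn : A + i0 + D ≤ n) (hn' : A' + i0 + D ≤ n)
    (Q : List BX → List BY → Prop) (P : List BX → List BX → List BY → List BY → ℝ≥0∞)
    (hP : ∀ L1 L2 L3 L1' L2' L3', FP hX L1 A → FP hX L2 D → HT hX L1 ≤ A + i0 →
      FP hY L1' A' → FP hY L2' D → HT hY L1' ≤ A' + i0 →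
      Q (L1 ++ (L2 ++ L3)) (L1' ++ (L2' ++ L3')) → 1 ≤ P L1 L2 L1' L2') :
    KQ ΛX ΛY hX hY n Q ≤ ep ΛX hX i0 + ep ΛY hY i0 + Q4 ΛX ΛY hX hY A A' D i0 P := by
  have e1 : KQ ΛX ΛY hX hY n Q = ∑' L, LW ΛX L * (I (HT hX L = n) *
      ∑' L', LW ΛY L' * (I (HT hY L' = n) * I (Q L L'))) := by
    unfold KQ
    refine tsum_congr fun L => ?_
    rw [← ENNReal.tsum_mul_left, ← ENNReal.tsum_mul_left]
    refine tsum_congr fun L' => ?_
    by_cases h : HT hX L = n ∧ HT hY L' = n ∧ Q L L'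
    · rw [if_pos h, I_true h.1, I_true h.2.1, I_true h.2.2]; ring
    · rw [if_neg h]
      by_cases h1 : HT hX L = n
      · by_cases h2 : HT hY L' = n
        · rw [I_false (fun h3 => h ⟨h1, h2, h3⟩)]; simp
        · rw [I_false h2]; simp
      · rw [I_false h1]; simp
  rw [e1]
  have hF : ∀ L, ∑' L', LW ΛY L' * (I (HT hY L' = n) * I (Q L L')) ≤ 1 := by
    intro L
    refine le_trans (ENNReal.tsum_le_tsum fun L' => ?_) (U_le hΛY h1Y n)
    by_cases h : HT hY L' = n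
    · rw [if_pos h, I_true h, one_mul]
      exact (mul_le_mul_right (I_le _) _).trans (mul_one _).le
    · rw [I_false h]; simp
  refine (two_split hΛX h1X n A D i0 hn _ hF (fun L1 L2 => ep ΛY hY i0 +
    R ΛY hY A' (fun L1' => I (HT hY L1' ≤ A' + i0) * R ΛY hY D (fun L2' => P L1 L2 L1' L2')))
    ?_).trans ?_
  · intro L1 L2 L3 hL1 hL2 hL1a _
    refine two_split hΛY h1Y n A' D i0 hn' (fun L' => I (Q (L1 ++ (L2 ++ L3)) L'))
      (fun L' => I_le _) (fun L1' L2' => P L1 L2 L1' L2') ?_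
    intro L1' L2' L3' hL1' hL2' hL1a' _
    by_cases hq : Q (L1 ++ (L2 ++ L3)) (L1' ++ (L2' ++ L3'))
    · rw [I_true hq]; exact hP L1 L2 L3 L1' L2' L3' hL1 hL2 hL1a hL1' hL2' hL1a' hq
    · rw [I_false hq]; exact zero_le
  · rw [add_assoc]
    gcongr
    calc R ΛX hX A (fun L1 => I (HT hX L1 ≤ A + i0) * R ΛX hX D (fun L2 => ep ΛY hY i0 +
          R ΛY hY A' (fun L1' => I (HT hY L1' ≤ A' + i0) *
            R ΛY hY D (fun L2' => P L1 L2 L1' L2'))))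
        ≤ R ΛX hX A (fun L1 => ep ΛY hY i0 + I (HT hX L1 ≤ A + i0) * R ΛX hX D (fun L2 =>
          R ΛY hY A' (fun L1' => I (HT hY L1' ≤ A' + i0) *
            R ΛY hY D (fun L2' => P L1 L2 L1' L2')))) := by
          refine R_mono _ _ _ fun L1 _ => ?_
          rw [R_add, R_const ΛX hX hΛX h1X, mul_add]
          gcongr
          calc I (HT hX L1 ≤ A + i0) * ep ΛY hY i0 ≤ 1 * ep ΛY hY i0 := by gcongr; exact I_le _
            _ = _ := one_mul _
      _ = _ := by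
          rw [R_add, R_const ΛX hX hΛX h1X]
          rfl

end Crest.Agent.R154.Asm751
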