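import Crest.Agent.R154.AsmY_852

/-! Row 154, ROAD 801 (helper852): the assembly, KAPPA' from the window lemmas. -/

set_option autoImplicit false

namespace Crest.Agent.R154.Asm852

open scoped ENNReal Topology
open Filter
open Crest.Agent.R154.B5A Crest.Agent.R154.FP178

lemma S0_sum {B : Type*} (Λ : B → ℝ≥0∞) (ht : B → ℕ) (n : ℕ) (R : Finset ℕ)
    (F : ℕ → List B → ℝ≥0∞) : S0 Λ ht n (fun L => ∑ j ∈ R, F j L)
    = ∑ j ∈ R, S0 Λ ht n (fun L => F j L) := by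
  simp only [S0]
  rw [← Summable.tsum_finsetSum (fun _ _ => ENNReal.summable)]
  refine tsum_congr fun L => ?_
  by_cases h : HT ht L = n
  · simp only [if_pos h, Finset.mul_sum]
  · simp only [if_neg h, Finset.sum_const_zero]

section pair
variable {BX BY G : Type*} [AddCommGroup G]
  (ΛX : BX → ℝ≥0∞) (ΛY : BY → ℝ≥0∞) (hX : BX → ℕ) (hY : BY → ℕ) (zX : BX → G) (zY : BY → G)
  (sX : BX → Set (G × ℕ)) (sY : BY → Set (G × ℕ))

open Classical in
/-- thin slab -/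
def H5 : Prop := ∀ (s : ℕ) (η : ℝ≥0∞), η ≠ 0 → ∃ T, ∀ a, T ≤ a → ∀ n w,
  ∑' L : List BX, ∑' L' : List BY, (if HT hX L = n ∧ HT hY L' = n ∧
    (∃ g k, (a ≤ k ∧ k < a + s) ∧ Co hX hY zX zY sX sY L L' w 0 0 g k)
      then LW ΛX L * LW ΛY L' else 0) ≤ η

lemma S0S0 (n n' : ℕ) (Q : List BX → List BY → Prop) [∀ L L', Decidable (Q L L')] :
    S0 ΛX hX n (fun L => S0 ΛY hY n' (fun L' => if Q L L' then 1 else 0))
      = ∑' L : List BX, ∑' L' : List BY, (if HT hX L = n ∧ HT hY L' = n' ∧ Q L L'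
        then LW ΛX L * LW ΛY L' else 0) := by
  refine tsum_congr fun L => ?_
  by_cases hL : HT hX L = n
  · rw [if_pos hL]
    beta_reduce
    rw [S0, ← ENNReal.tsum_mul_left]
    refine tsum_congr fun L' => ?_
    beta_reduce
    by_cases hL' : HT hY L' = n'
    · rw [if_pos hL']
      by_cases hq : Q L L'
      · rw [if_pos hq, if_pos ⟨hL, hL', hq⟩, mul_one]
      · rw [if_neg hq, if_neg (fun h => hq h.2.2), mul_zero, mul_zero]
    · rw [if_neg hL', if_neg (fun h => hL' h.2.1), mul_zero]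
  · rw [if_neg hL]
    symm
    refine ENNReal.tsum_eq_zero.2 fun L' => ?_
    rw [if_neg (fun h => hL h.1)]

open Classical in
/-- **KAPPA', first contact form** -/
theorem kapS (h1X : ∀ b, 1 ≤ hX b) (h1Y : ∀ b, 1 ≤ hY b) (hΛX : ∑' b, ΛX b = 1)
    (hΛY : ∑' b, ΛY b = 1) (hUX : ∀ n, U ΛX hX n ≤ 1) (hUY : ∀ n, U ΛY hY n ≤ 1)
    (hEX : ∑' b, ΛX b * (hX b : ℝ≥0∞) ≠ ⊤) (hEY : ∑' b, ΛY b * (hY b : ℝ≥0∞) ≠ ⊤)
    (dX : ∀ b, ∀ p ∈ sX b, 1 ≤ p.2 ∧ p.2 ≤ hX b) (dY : ∀ b, ∀ p ∈ sY b, 1 ≤ p.2 ∧ p.2 ≤ hY b)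
    (C : ℝ≥0∞) (hC : C ≠ ⊤) (us : ℕ → ℕ → ℝ≥0∞) (hus : ∀ i, Tendsto (us i) atTop (𝓝 0))
    (h2 : H2 ΛX ΛY hX hY zX zY sX sY C us) (h3 : H3 ΛX ΛY hX hY zX zY sX sY C us)
    (h5 : H5 ΛX ΛY hX hY zX zY sX sY) (ε : ℝ≥0∞) (hε : ε ≠ 0) :
    ∃ M : ℕ, ∀ m, M ≤ m → ∃ n0 : ℕ, ∀ n, n0 ≤ n → ∀ w : G,
      ∑' L : List BX, ∑' L' : List BY, (if HT hX L = n ∧ HT hY L' = n ∧
        ((∃ g k, Co hX hY zX zY sX sY L L' w 0 0 g k ∧ k ≤ 2 * m) ∧
          (∀ g k, Co hX hY zX zY sX sY L L' w 0 0 g k → m < k))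
        then LW ΛX L * LW ΛY L' else 0) ≤ ε := by
  -- reduce to finite ε
  wlog hεt : ε ≠ ⊤ generalizing ε
  · obtain ⟨M, hM⟩ := this 1 one_ne_zero ENNReal.one_ne_top
    rw [not_not] at hεt
    exact ⟨M, fun m hm => (hM m hm).imp fun n0 h n hn w => by rw [hεt]; exact le_top⟩
  set e := ε / 8 with he
  have he0 : e ≠ 0 := (ENNReal.div_pos hε (by norm_num)).ne'
  have het : e ≠ ⊤ := (ENNReal.div_lt_top hεt (by norm_num)).ne
  obtain ⟨K, u, hK8, hK1, hKd, hu0, hu1, hKu, hKJ⟩ := KU823.exists_Ku 1 8 (by norm_num) e he0 8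
  have hut : u ≠ ⊤ := ne_top_of_le_ne_top ENNReal.one_ne_top hu1
  set J := K / 8 with hJdef
  have hovX : Tendsto (ov ΛX hX) atTop (𝓝 0) := by
    have := ENNReal.tendsto_sum_nat_add (tail ΛX hX) (by rw [← sum_tail ΛX hX hΛX]; exact hEX)
    refine this.congr fun i => ?_
    rw [ov]
    exact tsum_congr fun k => by rw [add_comm]
  have hovY : Tendsto (ov ΛY hY) atTop (𝓝 0) := by
    have := ENNReal.tendsto_sum_nat_add (tail ΛY hY) (by rw [← sum_tail ΛY hY hΛY]; exact hEY)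
    refine this.congr fun i => ?_
    rw [ov]
    exact tsum_congr fun k => by rw [add_comm]
  have hov : Tendsto (fun i => ov ΛX hX i + ov ΛY hY i) atTop (𝓝 0) := by
    simpa using hovX.add hovY
  have hKt : ((K : ℝ≥0∞) + 1) ≠ ⊤ := ENNReal.add_ne_top.2 ⟨ENNReal.natCast_ne_top _, by simp⟩
  -- i0
  obtain ⟨i0, -, hi0⟩ := KU823.exists_small (fun i => ov ΛX hX i + ov ΛY hY i) hov
    (((K : ℝ≥0∞) + 1) * (J + 2)) (ENNReal.mul_ne_top hKt (by finiteness)) e he0 0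
  have hi0' := hi0 i0 le_rfl
  set V : ℝ≥0∞ := ((i0 + 1 : ℕ) : ℝ≥0∞) with hV
  have hVt : V ≠ ⊤ := ENNReal.natCast_ne_top _
  set A : ℝ≥0∞ := ((K : ℝ≥0∞) + 1) * (2 * (V * (V * (V * (V * C))))) with hA
  have hAt : A ≠ ⊤ := by rw [hA]; finiteness
  -- lam
  set lam : ℝ≥0∞ := e / (A + 1) with hlam
  have hA1 : A + 1 ≠ 0 := by simp
  have hA1t : A + 1 ≠ ⊤ := by finiteness
  have hl0 : lam ≠ 0 := (ENNReal.div_pos he0 hA1t).ne'
  have hlt : lam ≠ ⊤ := (ENNReal.div_lt_top het hA1).ne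
  have hAl : A * lam ≤ e := by
    calc A * lam ≤ (A + 1) * lam := mul_le_mul_left le_self_add _
      _ = e := ENNReal.mul_div_cancel hA1 hA1t
  -- s
  obtain ⟨s, -, hs⟩ := KU823.exists_small (us (4 * i0 + 1)) (hus _)
    (A * (V / u / lam + 1)) (ENNReal.mul_ne_top hAt (ENNReal.add_ne_top.2
      ⟨(ENNReal.div_lt_top (ENNReal.div_lt_top hVt hu0).ne hl0).ne, by simp⟩)) e he0 0
  have hs' := hs s le_rfl
  -- the slab
  obtain ⟨T, hT⟩ := h5 (s + 2 * i0) (e / ((K : ℝ≥0∞) + 1)) (ENNReal.div_pos he0 hKt).ne'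
  have hsl : ((K : ℝ≥0∞) + 1) * (e / ((K : ℝ≥0∞) + 1)) = e :=
    ENNReal.mul_div_cancel (by simp) hKt
  -- the threshold
  refine ⟨K * (K + 3 * i0 + 1 + s + T + 1), fun m hm => ⟨4 * m + 3 * i0 + 1, fun n hn w => ?_⟩⟩
  set t := m / K with ht
  have hKpos : 0 < K := hK1
  have ht1 : K + 3 * i0 + 1 + s + T + 1 ≤ t := by
    rw [ht, Nat.le_div_iff_mul_le hKpos, mul_comm]; exact hm
  have ht2 : K * t ≤ m := by rw [ht]; exact Nat.mul_div_le m K
  have ht3 : m < K * t + K := by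
    have := Nat.lt_mul_div_succ m hKpos
    rw [← ht, mul_add, mul_one] at this
    exact this
  have ht8 : 8 * t ≤ m := le_trans (Nat.mul_le_mul_right t hK8) ht2
  have hJK : 8 * J ≤ K := by rw [hJdef]; exact Nat.mul_div_le K 8
  have hJ1 : J * (3 * t + i0) ≤ m - t := by
    have h1 : J * (3 * t + i0) ≤ J * (4 * t) := Nat.mul_le_mul_left _ (by omega)
    have h2 : 2 * (J * (4 * t)) ≤ K * t := by
      calc 2 * (J * (4 * t)) = (8 * J) * t := by ring
        _ ≤ K * t := Nat.mul_le_mul_right _ hJK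
    omega
  -- one window
  set Wb : ℝ≥0∞ := u * u + 2 * (1 - u) ^ J + (J + 2) * (ov ΛX hX i0 + ov ΛY hY i0)
        + 2 * (V * (V * (V * (V *
          (C * (lam + V / u * us (4 * i0 + 1) s / lam + us (4 * i0 + 1) s)))))) with hWb
  let lo : ℕ → ℕ := fun j => m + j * t
  have hwin : ∀ j ∈ Finset.range (K + 1),
      S0 ΛX hX n (fun L => S0 ΛY hY n (fun L' => Ind hX hY zX zY sX sY w (lo j) (lo j + t)
      (lo j + 2 * t - s) (lo j + 2 * t + 2 * i0) L L')) ≤ Wb := by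
    intro j hj
    rw [Finset.mem_range] at hj
    have hjt : j * t ≤ K * t := Nat.mul_le_mul_right _ (by omega)
    exact window_bound ΛX ΛY hX hY zX zY sX sY h1X h1Y hΛX hΛY hUX hUY dX dY C us h2 h3
      i0 t s (lo j) n J w u lam hu0 hu1 hl0 hlt (by omega) (by simp only [lo]; omega)
      (by simp only [lo]; omega) (by simp only [lo]; omega)
  have hslab : ∀ j ∈ Finset.range (K + 1),
      S0 ΛX hX n (fun L => S0 ΛY hY n (fun L' => if (∃ g k, (lo j + 2 * t - s + 1 ≤ k ∧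
        k < lo j + 2 * t - s + 1 + (s + 2 * i0)) ∧ Co hX hY zX zY sX sY L L' w 0 0 g k)
          then 1 else 0)) ≤ e / ((K : ℝ≥0∞) + 1) := by
    intro j hj
    rw [S0S0]
    exact hT (lo j + 2 * t - s + 1) (by simp only [lo]; omega) n w
  -- cover
  let Q : List BX → List BY → Prop := fun L L' =>
    (∃ g k, Co hX hY zX zY sX sY L L' w 0 0 g k ∧ k ≤ 2 * m) ∧
          (∀ g k, Co hX hY zX zY sX sY L L' w 0 0 g k → m < k)
  have hcov : ∀ L L', (if Q L L' then (1 : ℝ≥0∞) else 0)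
      ≤ ∑ j ∈ Finset.range (K + 1), (Ind hX hY zX zY sX sY w (lo j) (lo j + t)
        (lo j + 2 * t - s) (lo j + 2 * t + 2 * i0) L L' +
        (if (∃ g k, (lo j + 2 * t - s + 1 ≤ k ∧
        k < lo j + 2 * t - s + 1 + (s + 2 * i0)) ∧ Co hX hY zX zY sX sY L L' w 0 0 g k)
          then 1 else 0)) := by
    intro L L'
    split_ifs with h
    swap
    · exact zero_le
    obtain ⟨⟨g0, k0, hg0, hk0⟩, hall⟩ := h
    have hex : ∃ k, ∃ g, Co hX hY zX zY sX sY L L' w 0 0 g k := ⟨k0, g0, hg0⟩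
    set k1 := Nat.find hex with hk1
    obtain ⟨g1, hg1⟩ := Nat.find_spec hex
    have hmin : ∀ g k, Co hX hY zX zY sX sY L L' w 0 0 g k → k1 ≤ k := fun g k h =>
      Nat.find_min' hex ⟨g, h⟩
    have hk1m : m < k1 := hall g1 k1 hg1
    have hk12 : k1 ≤ 2 * m := (hmin g0 k0 hg0).trans hk0
    have htpos : 0 < t := by omega
    set j := (k1 - m - 1) / t with hj
    have hj1 : j * t ≤ k1 - m - 1 := Nat.div_mul_le_self _ _
    have hj2 : k1 - m - 1 < j * t + t := by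
      have := Nat.lt_div_mul_add (a := k1 - m - 1) htpos
      exact this
    have hjK : j < K + 1 := by
      rw [hj, Nat.div_lt_iff_lt_mul htpos]
      have : (K + 1) * t = K * t + t := by ring
      omega
    refine le_trans ?_ (Finset.single_le_sum (f := fun j => (Ind hX hY zX zY sX sY w (lo j)
        (lo j + t) (lo j + 2 * t - s) (lo j + 2 * t + 2 * i0) L L' +
        (if (∃ g k, (lo j + 2 * t - s + 1 ≤ k ∧
        k < lo j + 2 * t - s + 1 + (s + 2 * i0)) ∧ Co hX hY zX zY sX sY L L' w 0 0 g k)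
          then (1 : ℝ≥0∞) else 0))) (fun _ _ => zero_le) (Finset.mem_range.2 hjK))
    beta_reduce
    by_cases hS : ∃ g k, (lo j + 2 * t - s + 1 ≤ k ∧
        k < lo j + 2 * t - s + 1 + (s + 2 * i0)) ∧ Co hX hY zX zY sX sY L L' w 0 0 g k
    · rw [if_pos hS]
      exact le_add_self
    · refine le_trans ?_ le_self_add
      rw [Ind, if_pos]
      refine ⟨⟨g1, k1, hg1, by simp only [lo]; omega⟩, fun g k hgk => ?_⟩
      have hk := hmin g k hgk
      refine ⟨by simp only [lo]; omega, ?_⟩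
      by_contra hcon
      rw [not_or] at hcon
      exact hS ⟨g, k, ⟨by omega, by omega⟩, hgk⟩
  have e0 : (∑' L : List BX, ∑' L' : List BY, (if HT hX L = n ∧ HT hY L' = n ∧
        ((∃ g k, Co hX hY zX zY sX sY L L' w 0 0 g k ∧ k ≤ 2 * m) ∧
          (∀ g k, Co hX hY zX zY sX sY L L' w 0 0 g k → m < k))
        then LW ΛX L * LW ΛY L' else 0))
      = S0 ΛX hX n (fun L => S0 ΛY hY n (fun L' => if Q L L' then 1 else 0)) := by
    rw [S0S0 ΛX ΛY hX hY n n Q]
  rw [e0]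
  calc S0 ΛX hX n (fun L => S0 ΛY hY n (fun L' => if Q L L' then 1 else 0))
      ≤ S0 ΛX hX n (fun L => S0 ΛY hY n (fun L' =>
        ∑ j ∈ Finset.range (K + 1), (Ind hX hY zX zY sX sY w (lo j) (lo j + t)
        (lo j + 2 * t - s) (lo j + 2 * t + 2 * i0) L L' +
        (if (∃ g k, (lo j + 2 * t - s + 1 ≤ k ∧
        k < lo j + 2 * t - s + 1 + (s + 2 * i0)) ∧ Co hX hY zX zY sX sY L L' w 0 0 g k)
          then 1 else 0)))) :=
        S0_mono ΛX hX fun L _ => S0_mono ΛY hY fun L' _ => hcov L L'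
    _ = ∑ j ∈ Finset.range (K + 1), (S0 ΛX hX n (fun L => S0 ΛY hY n (fun L' =>
        Ind hX hY zX zY sX sY w (lo j) (lo j + t)
        (lo j + 2 * t - s) (lo j + 2 * t + 2 * i0) L L')) +
        S0 ΛX hX n (fun L => S0 ΛY hY n (fun L' =>
          if (∃ g k, (lo j + 2 * t - s + 1 ≤ k ∧
        k < lo j + 2 * t - s + 1 + (s + 2 * i0)) ∧ Co hX hY zX zY sX sY L L' w 0 0 g k)
          then 1 else 0))) := by
        simp only [S0_sum, S0_add]
    _ ≤ ∑ j ∈ Finset.range (K + 1), (Wb + e / ((K : ℝ≥0∞) + 1)) :=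
        Finset.sum_le_sum fun j hj => add_le_add (hwin j hj) (hslab j hj)
    _ = ((K : ℝ≥0∞) + 1) * Wb + e := by
        rw [Finset.sum_const, Finset.card_range, nsmul_eq_mul, Nat.cast_add, Nat.cast_one, mul_add,
          hsl]
    _ ≤ ε := by
        have b1 : ((K : ℝ≥0∞) + 1) * (u * u) ≤ e := by
          have := hKu
          simpa [pow_two] using this
        have b2 : ((K : ℝ≥0∞) + 1) * (2 * (1 - u) ^ J) ≤ 2 * e := by
          have h1 : (1 - u) ^ J ≤ (1 - u / 2) ^ J :=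
            pow_le_pow_left' (tsub_le_tsub_left ENNReal.half_le_self _) _
          calc ((K : ℝ≥0∞) + 1) * (2 * (1 - u) ^ J) ≤ 2 * (((K : ℝ≥0∞) + 1) * (1 - u / 2) ^ J) := by
                rw [mul_left_comm]; gcongr
            _ ≤ 2 * e := by
                gcongr
                simpa using hKJ
        have b3 : ((K : ℝ≥0∞) + 1) * ((J + 2) * (ov ΛX hX i0 + ov ΛY hY i0)) ≤ e := by
          rw [← mul_assoc]; exact hi0'
        have b4 : ((K : ℝ≥0∞) + 1) * (2 * (V * (V * (V * (V *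
          (C * (lam + V / u * us (4 * i0 + 1) s / lam + us (4 * i0 + 1) s))))))) ≤ 2 * e := by
          calc ((K : ℝ≥0∞) + 1) * (2 * (V * (V * (V * (V *
              (C * (lam + V / u * us (4 * i0 + 1) s / lam + us (4 * i0 + 1) s)))))))
              = A * lam + A * (V / u / lam + 1) * us (4 * i0 + 1) s := by
                rw [hA]
                simp only [ENNReal.div_eq_inv_mul]
                ring
            _ ≤ e + e := add_le_add hAl hs'
            _ = 2 * e := (two_mul e).symm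
        calc ((K : ℝ≥0∞) + 1) * Wb + e
            = ((K : ℝ≥0∞) + 1) * (u * u) + ((K : ℝ≥0∞) + 1) * (2 * (1 - u) ^ J)
              + ((K : ℝ≥0∞) + 1) * ((J + 2) * (ov ΛX hX i0 + ov ΛY hY i0))
              + ((K : ℝ≥0∞) + 1) * (2 * (V * (V * (V * (V *
          (C * (lam + V / u * us (4 * i0 + 1) s / lam + us (4 * i0 + 1) s))))))) + e := by
              rw [hWb, mul_add, mul_add, mul_add]
          _ ≤ e + 2 * e + e + 2 * e + e := by gcongr
          _ ≤ 8 * e := by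
              have : e + 2 * e + e + 2 * e + e = 7 * e := by ring
              rw [this]
              gcongr
              norm_num
          _ = ε := by
              rw [he]
              exact ENNReal.mul_div_cancel (by norm_num) (by norm_num)

end pair

end Crest.Agent.R154.Asm852
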