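import Crest.Agent.R154.AsmY_95
import Crest.Agent.R154.Num_869

/-! Row 154 (helper95), ROAD 801: constants, sum over windows. -/

set_option autoImplicit false

namespace Crest.Agent.R154.Asm95

open scoped ENNReal
open Crest.Agent.R154.B5A Crest.Agent.R154.FP178
open Classical

section One

variable {B G : Type*} [AddCommGroup G] (Λ : B → ℝ≥0∞) (ht : B → ℕ) (z : B → G)

lemma sum_FP_eq (h1 : ∀ b, 1 ≤ ht b) (hΛ : ∑' b, Λ b = 1) (a : ℕ) :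
    ∑' L, (if fp ht a L then LW Λ L else 0) = 1 := by
  induction a using Nat.strong_induction_on with
  | _ a ih =>
    rcases Nat.eq_zero_or_pos a with rfl | ha
    · have := sum_fp_zero Λ ht (fun _ => 1)
      simp only [mul_one] at this
      exact this
    · have := sum_fp_step Λ ht a ha (fun _ => 1)
      simp only [mul_one] at this
      rw [this]
      calc ∑' b, Λ b * ∑' L, (if fp ht (a - ht b) L then LW Λ L else 0)
          = ∑' b, Λ b * 1 := by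
            refine tsum_congr fun b => ?_
            rw [ih (a - ht b) (by have := h1 b; omega)]
        _ = 1 := by simpa using hΛ

/-- data of one walker -/
theorem walker (h1 : ∀ b, 1 ≤ ht b) (hΛ : ∑' b, Λ b = 1) (T i0 : ℕ) (u ep : ℝ≥0∞)
    (hu0 : u ≠ 0) (hu1 : u < 1)
    (hε : ∀ T, ∑' L, (if fp ht T L ∧ T + i0 < HT ht L then LW Λ L else 0) ≤ ep) :
    ∃ th : ℝ≥0∞, th ≠ 0 ∧ th ≤ 1 ∧
      (∑' k, (if pk Λ ht z T k < th then pk Λ ht z T k else 0)) ≤ u ∧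
      ∀ J r, J * (T + i0) ≤ r → ∃ b : ℕ → G → ℝ≥0∞, (∑' j, ∑' y, b j y ≤ (1 - u) ^ J + J * ep) ∧
        ∀ j y, pk Λ ht z r (r + j, y) ≤ ((i0 + 1 : ℕ) : ℝ≥0∞) * th / u + b j y := by
  have hsum : ∑' k, pk Λ ht z T k = 1 := by
    have := push_pk Λ ht z T (fun _ => 1)
    simp only [mul_one] at this
    rw [← this]
    exact sum_FP_eq Λ ht h1 hΛ T
  obtain ⟨th, t0, t1, t2, t3⟩ := Dens616.quantile (pk Λ ht z T) hsum hu0 hu1
  have hut : u ≠ ⊤ := ne_top_of_lt hu1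
  refine ⟨th, t0, t1, t2, ?_⟩
  refine dens Λ ht z h1 hΛ.le T i0 th (1 - u) ep _ hε ?_ tsub_le_self ?_
  · have hs : (∑' k, (if pk Λ ht z T k ≤ th then pk Λ ht z T k else 0))
        + ∑' k, (if th < pk Λ ht z T k then pk Λ ht z T k else 0) = 1 := by
      rw [← ENNReal.tsum_add, ← hsum]
      refine tsum_congr fun k => ?_
      by_cases h : pk Λ ht z T k ≤ th
      · rw [if_pos h, if_neg (not_lt.2 h), add_zero]
      · rw [if_neg h, if_pos (not_le.1 h), zero_add]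
    refine ENNReal.le_sub_of_add_le_left hut ?_
    calc u + ∑' k, (if th < pk Λ ht z T k then pk Λ ht z T k else 0)
        ≤ (∑' k, (if pk Λ ht z T k ≤ th then pk Λ ht z T k else 0))
          + ∑' k, (if th < pk Λ ht z T k then pk Λ ht z T k else 0) := add_le_add t3 le_rfl
      _ = 1 := hs
      _ ≤ 1 := le_rfl
  · set G0 := ((i0 + 1 : ℕ) : ℝ≥0∞) * th / u with hG0
    have e : ((i0 + 1 : ℕ) : ℝ≥0∞) * th = u * G0 := by
      rw [hG0, ENNReal.mul_div_cancel hu0 hut]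
    rw [e, ← add_mul, add_tsub_cancel_of_le hu1.le, one_mul]

lemma loc_card (h1 : ∀ b, 1 ≤ ht b) (hΛ : ∑' b, Λ b = 1) (T : ℕ) (th : ℝ≥0∞) (h0 : th ≠ 0)
    (h : ℕ) : ∃ E : Finset G, (∀ y, y ∈ E ↔ th ≤ pk Λ ht z T (h, y)) ∧ (E.card : ℝ≥0∞) * th ≤ 1 := by
  have hs := pk_sum_row Λ ht z h1 hΛ.le T h
  have hf := Dens616.finite_local (fun y => pk Λ ht z T (h, y))
    (ne_top_of_le_ne_top ENNReal.one_ne_top hs) h0
  refine ⟨hf.toFinset, fun y => by simp, ?_⟩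
  exact (Dens616.card_mul_le (fun y => pk Λ ht z T (h, y)) th hf.toFinset
    (fun y hy => by simpa using hy)).trans hs

end One

section Win

variable {BX BY G : Type*} [AddCommGroup G]
  (ΛX : BX → ℝ≥0∞) (hX : BX → ℕ) (zX : BX → G) (TX : List BX → G → ℕ → Set (G × ℕ))
  (ΛY : BY → ℝ≥0∞) (hY : BY → ℕ) (zY : BY → G) (TY : List BY → G → ℕ → Set (G × ℕ))

/-- window lemma, `X` local -/
def H2H (C : ℝ≥0∞) (us : ℕ → ℝ≥0∞) : Prop :=
  ∀ (s h h' a a' lo hi : ℕ) (E : Finset G) (μ : G → ℝ≥0∞) (M lam : ℝ≥0∞),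
    a ≤ a' → a + h ≤ a' + h' → ∑' x, μ x ≤ 1 → (∀ x, μ x ≤ M) → M ≠ ⊤ → lam ≠ 0 → lam ≠ ⊤ →
    a + s ≤ lo → a' + s ≤ lo → hi + s ≤ a + h → hi + s ≤ a' + h' →
    ∑' x, μ x * ∑' L, ∑' L', (if HT hX L = h ∧ Dp zX L ∈ E ∧ HT hY L' = h' ∧
      Q TX TY lo hi a a' x L L' then LW ΛX L * LW ΛY L' else 0)
      ≤ C * (lam + M * E.card * us s / lam + us s)

/-- window lemma, `Y` local -/
def H3H (C : ℝ≥0∞) (us : ℕ → ℝ≥0∞) : Prop :=
  ∀ (s h h' a a' lo hi : ℕ) (E : Finset G) (μ : G → ℝ≥0∞) (M lam : ℝ≥0∞),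
    a ≤ a' → a + h ≤ a' + h' → ∑' x, μ x ≤ 1 → (∀ x, μ x ≤ M) → M ≠ ⊤ → lam ≠ 0 → lam ≠ ⊤ →
    a + s ≤ lo → a' + s ≤ lo → hi + s ≤ a + h → hi + s ≤ a' + h' →
    ∑' x, μ x * ∑' L, ∑' L', (if HT hX L = h ∧ Dp zY L' ∈ E ∧ HT hY L' = h' ∧
      Q TX TY lo hi a a' x L L' then LW ΛX L * LW ΛY L' else 0)
      ≤ C * (lam + M * E.card * us s / lam + us s)

theorem winBound (hTX : Tr hX zX TX) (hTY : Tr hY zY TY)
    (h1X : ∀ b, 1 ≤ hX b) (h1Y : ∀ b, 1 ≤ hY b) (hΛX : ∑' b, ΛX b = 1)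
    (hΛY : ∑' b, ΛY b = 1) (hUX : ∀ n, U ΛX hX n ≤ 1) (hUY : ∀ n, U ΛY hY n ≤ 1)
    (C : ℝ≥0∞) (us : ℕ → ℝ≥0∞) (H2 : H2H ΛX hX zX TX ΛY hY TY C us)
    (H3 : H3H ΛX hX TX ΛY hY zY TY C us)
    (w : G) (α T i0 lo md hi hi2 n s J : ℕ)
    (hlo : α + 2 * i0 < lo) (hlo2 : α + 2 * i0 + s ≤ lo) (hmd : md ≤ α + T)
    (hhi : hi + s ≤ α + T) (hhi2 : α + T + 2 * i0 ≤ hi2)
    (hn : α + T + 3 * i0 ≤ n) (hJ : J * (T + 2 * i0) ≤ α) (ep u lam : ℝ≥0∞)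
    (hu0 : u ≠ 0) (hu1 : u < 1) (hl0 : lam ≠ 0) (hlt : lam ≠ ⊤)
    (hεX : ∀ T, ∑' L, (if fp hX T L ∧ T + i0 < HT hX L then LW ΛX L else 0) ≤ ep)
    (hεY : ∀ T, ∑' L, (if fp hY T L ∧ T + i0 < HT hY L then LW ΛY L else 0) ≤ ep) :
    ∑' L, ∑' L', (if HT hX L = n ∧ HT hY L' = n ∧ Ev TX TY w lo md hi hi2 L L' then
      LW ΛX L * LW ΛY L' else 0) ≤ 4 * ep + (u * u + 2 * ((1 - u) ^ J + J * ep +
        ((i0 : ℝ≥0∞) + 1) ^ 4 * (C * (lam + (((i0 : ℝ≥0∞) + 1) / u) * us s / lam + us s)))) := by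
  obtain ⟨thX, tX0, tX1, tX2, tX3⟩ := walker ΛX hX zX h1X hΛX T i0 u ep hu0 hu1 hεX
  obtain ⟨thY, tY0, tY1, tY2, tY3⟩ := walker ΛY hY zY h1Y hΛY (T + i0) i0 u ep hu0 hu1 hεY
  have hJ' : J * (T + i0) ≤ α := by
    refine le_trans (Nat.mul_le_mul_left J ?_) hJ
    omega
  have hJ'' : J * (T + i0 + i0) ≤ α + i0 := by
    have : T + i0 + i0 = T + 2 * i0 := by ring
    rw [this]; omega
  obtain ⟨bX, bX1, bX2⟩ := tX3 J α hJ'
  obtain ⟨bY, bY1, bY2⟩ := tY3 J (α + i0) hJ''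
  have hut : u ≠ ⊤ := ne_top_of_lt hu1
  have hMX : ((i0 + 1 : ℕ) : ℝ≥0∞) * thX / u ≠ ⊤ :=
    ENNReal.div_ne_top (ENNReal.mul_ne_top (ENNReal.natCast_ne_top _)
      (ne_top_of_le_ne_top ENNReal.one_ne_top tX1)) hu0
  have hMY : ((i0 + 1 : ℕ) : ℝ≥0∞) * thY / u ≠ ⊤ :=
    ENNReal.div_ne_top (ENNReal.mul_ne_top (ENNReal.natCast_ne_top _)
      (ne_top_of_le_ne_top ENNReal.one_ne_top tY1)) hu0
  have hcard : ∀ (E : Finset G) (th : ℝ≥0∞), (E.card : ℝ≥0∞) * th ≤ 1 →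
      C * (lam + ((i0 + 1 : ℕ) : ℝ≥0∞) * th / u * E.card * us s / lam + us s)
      ≤ C * (lam + (((i0 : ℝ≥0∞) + 1) / u) * us s / lam + us s) := by
    intro E th h
    have h2 : ((i0 + 1 : ℕ) : ℝ≥0∞) * th / u * E.card ≤ ((i0 : ℝ≥0∞) + 1) / u := by
      calc ((i0 + 1 : ℕ) : ℝ≥0∞) * th / u * E.card
          = (((i0 : ℝ≥0∞) + 1) / u) * (E.card * th) := by
            push_cast
            simp only [div_eq_mul_inv]
            ring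
        _ ≤ (((i0 : ℝ≥0∞) + 1) / u) * 1 := mul_le_mul_right h _
        _ = _ := mul_one _
    gcongr
  set Hb : ℝ≥0∞ := C * (lam + (((i0 : ℝ≥0∞) + 1) / u) * us s / lam + us s) with hHb
  refine (window ΛX hX zX TX ΛY hY zY TY hTX hTY h1X h1Y hΛX.le hΛY.le hUX hUY w α T i0 lo md hi
    hi2 n hlo hmd hhi2 hn ep hεX hεY _ (main_sum ΛX hX zX TX ΛY hY zY TY h1X h1Y hΛX.le hΛY.le w
    α T (α + i0) (T + i0) i0 lo hi u thX thY _ _ _ _ Hb tX2 tY2 bX bX2 bX1 bY bY2 bY1 ?_ ?_)).trans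
    (le_of_eq ?_)
  · intro j j' i i' hj hj' hi' hi'' μ hμ hμ'
    obtain ⟨E, hE, hEc⟩ := loc_card ΛX hX zX h1X hΛX T thX tX0 (T + i)
    refine le_trans ?_ (hcard E thX hEc)
    refine le_trans (le_of_eq ?_) (H2 s (T + i) (T + i0 + i') (α + j) (α + i0 + j') lo hi E μ _ lam
      (by omega) (by omega) hμ hμ' hMX hl0 hlt (by omega) (by omega) (by omega) (by omega))
    refine tsum_congr fun x => ?_
    congr 1
    refine tsum_congr fun P => tsum_congr fun P' => ?_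
    simp only [hE]
  · intro j j' i i' hj hj' hi' hi'' μ hμ hμ'
    obtain ⟨E, hE, hEc⟩ := loc_card ΛY hY zY h1Y hΛY (T + i0) thY tY0 (T + i0 + i')
    refine le_trans ?_ (hcard E thY hEc)
    refine le_trans (le_of_eq ?_) (H3 s (T + i) (T + i0 + i') (α + j) (α + i0 + j') lo hi E μ _ lam
      (by omega) (by omega) hμ hμ' hMY hl0 hlt (by omega) (by omega) (by omega) (by omega))
    refine tsum_congr fun x => ?_
    congr 1
    refine tsum_congr fun P => tsum_congr fun P' => ?_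
    simp only [hE]
  · push_cast
    ring

end Win

end Crest.Agent.R154.Asm95
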