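import Crest.Agent.R154.B5Abs_566

/-! Row 154, ROAD 801, abstract assembly (helper157, second of 540): first passage lists,
overshoot, density split, windows. -/

set_option autoImplicit false

namespace Crest.Agent.R154.Asm157

open scoped ENNReal
open Crest.Agent.R154.B5A

section One

variable {B G : Type*} [AddCommGroup G]

/-- displacement of a list -/
def Dp (z : B → G) (L : List B) : G := (L.map z).sum

/-- first passage lists -/
def FP (ht : B → ℕ) : List B → ℕ → Prop
  | [], A => A = 0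
  | b :: L, A => A ≠ 0 ∧ FP ht L (A - ht b)

lemma Dp_nil (z : B → G) : Dp z [] = 0 := by simp [Dp]
lemma Dp_cons (z : B → G) (b : B) (L : List B) : Dp z (b :: L) = z b + Dp z L := by simp [Dp]
lemma Dp_append (z : B → G) (L L' : List B) : Dp z (L ++ L') = Dp z L + Dp z L' := by simp [Dp]

open Classical in
/-- sum over first passage lists -/
noncomputable def SF (Λ : B → ℝ≥0∞) (ht : B → ℕ) (A : ℕ) (Φ : List B → ℝ≥0∞) : ℝ≥0∞ :=
  ∑' L, (if FP ht L A then LW Λ L * Φ L else 0)

variable (Λ : B → ℝ≥0∞) (ht : B → ℕ)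

lemma SF_zero (Φ : List B → ℝ≥0∞) : SF Λ ht 0 Φ = Φ [] := by
  classical
  rw [SF, tsum_list]
  simp [FP, LW_nil]

lemma SF_pos {A : ℕ} (hA : A ≠ 0) (Φ : List B → ℝ≥0∞) :
    SF Λ ht A Φ = ∑' b, Λ b * SF Λ ht (A - ht b) (fun L => Φ (b :: L)) := by
  classical
  rw [SF, tsum_list]
  simp only [FP, hA, if_false, zero_add, ne_eq, not_false_eq_true, true_and]
  refine tsum_congr fun b => ?_
  rw [SF, ← ENNReal.tsum_mul_left]
  refine tsum_congr fun L => ?_
  by_cases h : FP ht L (A - ht b)
  · simp [h, LW_cons, mul_assoc]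
  · simp [h]

lemma SF_mono' {A : ℕ} {Φ Ψ : List B → ℝ≥0∞} (h : ∀ L, FP ht L A → Φ L ≤ Ψ L) :
    SF Λ ht A Φ ≤ SF Λ ht A Ψ := by
  classical
  refine ENNReal.tsum_le_tsum fun L => ?_
  by_cases hL : FP ht L A
  · simp only [hL, if_true]; exact mul_le_mul_right (h L hL) _
  · simp [hL]

lemma SF_mono {A : ℕ} {Φ Ψ : List B → ℝ≥0∞} (h : ∀ L, Φ L ≤ Ψ L) :
    SF Λ ht A Φ ≤ SF Λ ht A Ψ := SF_mono' Λ ht fun L _ => h L

lemma SF_congr {A : ℕ} {Φ Ψ : List B → ℝ≥0∞} (h : ∀ L, FP ht L A → Φ L = Ψ L) :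
    SF Λ ht A Φ = SF Λ ht A Ψ :=
  le_antisymm (SF_mono' Λ ht fun L hL => (h L hL).le) (SF_mono' Λ ht fun L hL => (h L hL).ge)

lemma SF_add {A : ℕ} (Φ Ψ : List B → ℝ≥0∞) :
    SF Λ ht A (fun L => Φ L + Ψ L) = SF Λ ht A Φ + SF Λ ht A Ψ := by
  classical
  rw [SF, SF, SF, ← ENNReal.tsum_add]
  refine tsum_congr fun L => ?_
  by_cases hL : FP ht L A
  · simp [hL, mul_add]
  · simp [hL]

lemma SF_mul {A : ℕ} (c : ℝ≥0∞) (Φ : List B → ℝ≥0∞) :
    SF Λ ht A (fun L => c * Φ L) = c * SF Λ ht A Φ := by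
  classical
  rw [SF, SF, ← ENNReal.tsum_mul_left]
  refine tsum_congr fun L => ?_
  by_cases hL : FP ht L A
  · simp [hL, mul_left_comm]
  · simp [hL]

lemma SF_tsum {A : ℕ} {ι : Type*} (Φ : ι → List B → ℝ≥0∞) :
    SF Λ ht A (fun L => ∑' i, Φ i L) = ∑' i, SF Λ ht A (Φ i) := by
  classical
  simp only [SF]
  rw [ENNReal.tsum_comm]
  refine tsum_congr fun L => ?_
  by_cases hL : FP ht L A
  · simp [hL, ENNReal.tsum_mul_left]
  · simp [hL]

lemma SF_sum {A : ℕ} {ι : Type*} (s : Finset ι) (Φ : ι → List B → ℝ≥0∞) :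
    SF Λ ht A (fun L => ∑ i ∈ s, Φ i L) = ∑ i ∈ s, SF Λ ht A (Φ i) := by
  classical
  induction s using Finset.induction_on with
  | empty => simp [SF]
  | insert a s ha ih =>
    simp only [Finset.sum_insert ha]
    rw [SF_add, ih]

variable {Λ ht}
variable (h1 : ∀ b, 1 ≤ ht b) (hΛ : ∑' b, Λ b = 1)

include h1 hΛ in
lemma SF_one (A : ℕ) : SF Λ ht A (fun _ => 1) = 1 := by
  induction A using Nat.strong_induction_on with
  | _ A ih =>
    rcases Nat.eq_zero_or_pos A with rfl | hA
    · rw [SF_zero]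
    · rw [SF_pos Λ ht hA.ne']
      conv_rhs => rw [← hΛ]
      refine tsum_congr fun b => ?_
      have := h1 b
      rw [ih (A - ht b) (by omega), mul_one]

include h1 hΛ in
lemma SF_const (A : ℕ) (c : ℝ≥0∞) : SF Λ ht A (fun _ => c) = c := by
  have := SF_mul Λ ht (A := A) c (fun _ => 1)
  rw [SF_one h1 hΛ] at this
  simpa using this

include h1 in
lemma SF_comp {A R : ℕ} (hAR : A ≤ R) (Φ : List B → ℝ≥0∞) :
    SF Λ ht R Φ = SF Λ ht A (fun L0 => SF Λ ht (R - HT ht L0) (fun L1 => Φ (L0 ++ L1))) := by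
  induction A using Nat.strong_induction_on generalizing R Φ with
  | _ A ih =>
    rcases Nat.eq_zero_or_pos A with rfl | hA
    · rw [SF_zero]; simp [HT_nil]
    · rw [SF_pos Λ ht hA.ne', SF_pos Λ ht (by omega : R ≠ 0)]
      refine tsum_congr fun b => ?_
      have := h1 b
      rw [ih (A - ht b) (by omega) (R := R - ht b) (by omega)]
      congr 1
      refine SF_congr Λ ht fun L _ => ?_
      rw [HT_cons, Nat.sub_sub]
      rfl

include h1 hΛ in
/-- monotone functionals -/
lemma SF_le {A R : ℕ} (hAR : A ≤ R) {Φ : List B → ℝ≥0∞} (hΦ : ∀ L L', Φ L ≤ Φ (L ++ L')) :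
    SF Λ ht A Φ ≤ SF Λ ht R Φ := by
  rw [SF_comp h1 hAR]
  refine SF_mono Λ ht fun L => ?_
  calc Φ L = SF Λ ht (R - HT ht L) (fun _ => Φ L) := (SF_const h1 hΛ _ _).symm
    _ ≤ _ := SF_mono Λ ht fun L' => hΦ L L'

/-- lists of height `n` -/
noncomputable def SH (Λ : B → ℝ≥0∞) (ht : B → ℕ) (n : ℕ) (Φ : List B → ℝ≥0∞) : ℝ≥0∞ :=
  ∑' L, (if HT ht L = n then LW Λ L * Φ L else 0)

include h1 in
lemma SH_zero (Φ : List B → ℝ≥0∞) : SH Λ ht 0 Φ = Φ [] := by
  rw [SH, tsum_list]
  simp only [HT_nil, if_true, LW_nil, HT_cons]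
  have : ∀ b (L : List B), ¬ (ht b + HT ht L = 0) := fun b L => by have := h1 b; omega
  simp only [if_neg (this _ _), tsum_zero, add_zero, one_mul]

lemma SH_pos {n : ℕ} (hn : n ≠ 0) (Φ : List B → ℝ≥0∞) :
    SH Λ ht n Φ
      = ∑' b, if ht b ≤ n then Λ b * SH Λ ht (n - ht b) (fun L => Φ (b :: L)) else 0 := by
  rw [SH, tsum_list]
  simp only [HT_nil, HT_cons, if_neg (Ne.symm hn), zero_add]
  refine tsum_congr fun b => ?_
  by_cases hb : ht b ≤ n
  · rw [if_pos hb, SH, ← ENNReal.tsum_mul_left]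
    refine tsum_congr fun L => ?_
    by_cases h : ht b + HT ht L = n
    · rw [if_pos h, if_pos (by omega), LW_cons, mul_assoc]
    · rw [if_neg h, if_neg (by omega), mul_zero]
  · rw [if_neg hb]
    rw [ENNReal.tsum_eq_zero]
    intro L
    rw [if_neg (by omega)]

include h1 hΛ in
lemma SH_le_SF {n R : ℕ} (hnR : n ≤ R) {Φ : List B → ℝ≥0∞} (hΦ : ∀ L L', Φ L ≤ Φ (L ++ L')) :
    SH Λ ht n Φ ≤ SF Λ ht R Φ := by
  induction n using Nat.strong_induction_on generalizing R Φ with
  | _ n ih =>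
    rcases Nat.eq_zero_or_pos n with rfl | hn
    · rw [SH_zero h1]
      calc Φ [] = SF Λ ht R (fun _ => Φ []) := (SF_const h1 hΛ _ _).symm
        _ ≤ _ := SF_mono Λ ht fun L => by simpa using hΦ [] L
    · rw [SH_pos hn.ne', SF_pos Λ ht (by omega : R ≠ 0)]
      refine ENNReal.tsum_le_tsum fun b => ?_
      have := h1 b
      by_cases hb : ht b ≤ n
      · rw [if_pos hb]
        exact mul_le_mul_right (ih (n - ht b) (by omega) (by omega)
          (fun L L' => by simpa using hΦ (b :: L) L')) _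
      · rw [if_neg hb]; exact bot_le

include h1 hΛ in
/-- window decomposition -/
lemma SF_window {A T R : ℕ} (hAR : A ≤ R) {Φ : List B → ℝ≥0∞} {g : List B → List B → ℝ≥0∞}
    (hΦ : ∀ L L', Φ L ≤ Φ (L ++ L'))
    (hg : ∀ L0 L1 L2, FP ht L0 A → FP ht L1 T → Φ (L0 ++ (L1 ++ L2)) ≤ g L0 L1) :
    SF Λ ht R Φ ≤ SF Λ ht A (fun L0 => SF Λ ht T (fun L1 => g L0 L1)) := by
  rw [SF_comp h1 hAR]
  refine SF_mono' Λ ht fun L0 h0 => ?_
  rcases le_total T (R - HT ht L0) with h | h
  · rw [SF_comp h1 h]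
    refine SF_mono' Λ ht fun L1 hh1 => ?_
    calc _ ≤ SF Λ ht (R - HT ht L0 - HT ht L1) (fun _ => g L0 L1) :=
          SF_mono Λ ht fun L2 => hg L0 L1 L2 h0 hh1
      _ = _ := SF_const h1 hΛ _ _
  · refine (SF_le h1 hΛ h (Φ := fun L1 => Φ (L0 ++ L1)) fun L L' => ?_).trans ?_
    · simpa using hΦ (L0 ++ L) L'
    · exact SF_mono' Λ ht fun L1 hh1 => by simpa using hg L0 L1 [] h0 hh1

lemma FP_le {L : List B} {A : ℕ} (h : FP ht L A) : A ≤ HT ht L := by
  induction L generalizing A with
  | nil => simp only [FP] at h; omega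
  | cons b L ih =>
    have := ih h.2
    rw [HT_cons]; omega

/-- overshoot bound -/
noncomputable def ov (Λ : B → ℝ≥0∞) (ht : B → ℕ) (i0 : ℕ) : ℝ≥0∞ := ∑' k, tail Λ ht (i0 + 1 + k)

open Classical in
include h1 hΛ in
lemma SF_far (A i0 : ℕ) :
    SF Λ ht A (fun L => if A + i0 < HT ht L then 1 else 0) ≤ ov Λ ht i0 := by
  have key : ∀ A, SF Λ ht A (fun L => if A + i0 < HT ht L then 1 else 0)
      ≤ ∑ k ∈ Finset.range A, tail Λ ht (i0 + 1 + k) := by
    intro A
    induction A using Nat.strong_induction_on with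
    | _ A ih =>
      rcases Nat.eq_zero_or_pos A with rfl | hA
      · rw [SF_zero]; simp [HT_nil]
      · rw [SF_pos Λ ht hA.ne']
        obtain ⟨A', rfl⟩ : ∃ A', A = A' + 1 := ⟨A - 1, by omega⟩
        rw [Finset.sum_range_succ]
        have hb : ∀ b, Λ b * SF Λ ht (A' + 1 - ht b)
              (fun L => if A' + 1 + i0 < HT ht (b :: L) then 1 else 0)
            ≤ Λ b * (∑ k ∈ Finset.range A', tail Λ ht (i0 + 1 + k))
              + (if i0 + 1 + A' < ht b then Λ b else 0) := by
          intro b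
          have hb1 := h1 b
          by_cases h : ht b ≤ A' + 1
          · have := ih (A' + 1 - ht b) (by omega)
            have e : SF Λ ht (A' + 1 - ht b)
                (fun L => if A' + 1 + i0 < HT ht (b :: L) then 1 else 0)
                = SF Λ ht (A' + 1 - ht b)
                (fun L => if A' + 1 - ht b + i0 < HT ht L then 1 else 0) := by
              refine SF_congr Λ ht fun L _ => ?_
              rw [HT_cons]
              by_cases hh : A' + 1 + i0 < ht b + HT ht L
              · rw [if_pos hh, if_pos (by omega)]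
              · rw [if_neg hh, if_neg (by omega)]
            rw [e]
            refine le_add_right (mul_le_mul_right (this.trans ?_) _)
            exact Finset.sum_le_sum_of_subset (Finset.range_mono (by omega))
          · have e0 : A' + 1 - ht b = 0 := by omega
            rw [e0, SF_zero]
            rw [HT_cons, HT_nil]
            by_cases hh : i0 + 1 + A' < ht b
            · rw [if_pos hh, if_pos (by omega), mul_one]; exact le_add_left le_rfl
            · rw [if_neg (by omega)]; simp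
        refine (ENNReal.tsum_le_tsum hb).trans ?_
        rw [ENNReal.tsum_add, ENNReal.tsum_mul_right, hΛ, one_mul]
        rfl
  exact (key A).trans (ENNReal.sum_le_tsum _)

variable (Λ ht)

open Classical in
/-- law of the first passage piece -/
noncomputable def Fl (zz : B → G) (A h : ℕ) (z : G) : ℝ≥0∞ :=
  SF Λ ht A (fun L => if HT ht L = h ∧ Dp zz L = z then 1 else 0)

variable (zz : B → G)

lemma law_sum (A : ℕ) (φ : ℕ → G → ℝ≥0∞) :
    SF Λ ht A (fun L => φ (HT ht L) (Dp zz L)) = ∑' h, ∑' z, Fl Λ ht zz A h z * φ h z := by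
  classical
  have e : ∀ L, φ (HT ht L) (Dp zz L)
      = ∑' h, ∑' z, φ h z * (if HT ht L = h ∧ Dp zz L = z then 1 else 0) := by
    intro L
    rw [tsum_eq_single (HT ht L), tsum_eq_single (Dp zz L)]
    · simp
    · intro z hz; simp [hz.symm]
    · intro h hh
      rw [ENNReal.tsum_eq_zero]
      intro z; simp [hh.symm]
  rw [SF_congr Λ ht fun L _ => e L, SF_tsum]
  refine tsum_congr fun h => ?_
  rw [SF_tsum]
  refine tsum_congr fun z => ?_
  rw [SF_mul, Fl, mul_comm]

lemma Fl_zero_of_lt {A h : ℕ} (hh : h < A) (z : G) : Fl Λ ht zz A h z = 0 := by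
  classical
  have : SF Λ ht A (fun L => if HT ht L = h ∧ Dp zz L = z then (1 : ℝ≥0∞) else 0)
      = SF Λ ht A (fun _ => 0) := by
    refine SF_congr Λ ht fun L hL => ?_
    have := FP_le hL
    rw [if_neg (by omega)]
  rw [Fl, this]
  have := SF_mul Λ ht (A := A) 0 (fun _ => 1)
  simpa using this

variable {Λ ht}

include h1 hΛ in
lemma Fl_sum (A : ℕ) : ∑' h, ∑' z, Fl Λ ht zz A h z = 1 := by
  have := law_sum Λ ht zz A (fun _ _ => 1)
  simp only [mul_one] at this
  rw [← this, SF_one h1 hΛ]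

include h1 hΛ in
lemma Fl_sum_le (A h : ℕ) : ∑' z, Fl Λ ht zz A h z ≤ 1 := by
  rw [← Fl_sum h1 hΛ zz A]
  exact ENNReal.le_tsum h

include h1 hΛ in
lemma Fl_le_one (A h : ℕ) (z : G) : Fl Λ ht zz A h z ≤ 1 :=
  (ENNReal.le_tsum z).trans (Fl_sum_le h1 hΛ zz A h)

lemma LW_le_Fl {L : List B} {A : ℕ} (hL : FP ht L A) :
    LW Λ L ≤ Fl Λ ht zz A (HT ht L) (Dp zz L) := by
  classical
  rw [Fl, SF]
  refine le_trans ?_ (ENNReal.le_tsum L)
  simp [hL]

lemma tsum_shift (k : ℕ) (f : ℕ → ℝ≥0∞) :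
    ∑' h, (if k ≤ h then f (h - k) else 0) = ∑' h, f h := by
  have hinj : Function.Injective (fun h : ℕ => h + k) := fun a b h => by simpa using h
  have hs : Function.support (fun h => if k ≤ h then f (h - k) else 0)
      ⊆ Set.range (fun h : ℕ => h + k) := by
    intro h hh
    by_cases hk : k ≤ h
    · exact ⟨h - k, by simp only; omega⟩
    · simp [hk] at hh
  rw [← hinj.tsum_eq hs]
  refine tsum_congr fun h => ?_
  simp

lemma tsum_sub (z1 : G) (f : G → ℝ≥0∞) : ∑' z, f (z - z1) = ∑' z, f z :=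
  (Equiv.subRight z1).tsum_eq f

lemma tsum_sub' (z0 : G) (f : G → ℝ≥0∞) : ∑' z, f (z0 - z) = ∑' z, f z :=
  (Equiv.subLeft z0).tsum_eq f

include h1 in
lemma Fl_comp {T A : ℕ} (hTA : T ≤ A) (h : ℕ) (z : G) :
    Fl Λ ht zz A h z = SF Λ ht T (fun L => if HT ht L ≤ h then
      Fl Λ ht zz (A - HT ht L) (h - HT ht L) (z - Dp zz L) else 0) := by
  classical
  rw [Fl, SF_comp h1 hTA]
  refine SF_congr Λ ht fun L _ => ?_
  by_cases hL : HT ht L ≤ h
  · rw [if_pos hL, Fl]
    refine SF_congr Λ ht fun L' _ => ?_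
    rw [HT_append, Dp_append]
    have : (HT ht L + HT ht L' = h ∧ Dp zz L + Dp zz L' = z)
        ↔ (HT ht L' = h - HT ht L ∧ Dp zz L' = z - Dp zz L) := by
      rw [eq_sub_iff_add_eq, add_comm (Dp zz L')]
      constructor
      · rintro ⟨a, b⟩; exact ⟨by omega, b⟩
      · rintro ⟨a, b⟩; exact ⟨by omega, b⟩
    simp only [this]
  · rw [if_neg hL]
    have : SF Λ ht (A - HT ht L) (fun L' => if HT ht (L ++ L') = h ∧ Dp zz (L ++ L') = z
        then (1 : ℝ≥0∞) else 0) = SF Λ ht (A - HT ht L) (fun _ => 0) := by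
      refine SF_congr Λ ht fun L' _ => ?_
      rw [HT_append, if_neg (by omega)]
    rw [this]
    have := SF_mul Λ ht (A := A - HT ht L) 0 (fun _ => 1)
    simpa using this

open Classical in
include h1 hΛ in
/-- **density split** -/
lemma dens (T i0 : ℕ) (th q ε S : ℝ≥0∞) (hq1 : q ≤ 1) (hS : 1 + q * S ≤ S)
    (hq : SF Λ ht T (fun L => if Fl Λ ht zz T (HT ht L) (Dp zz L) < th then 0 else 1) ≤ q)
    (hε : SF Λ ht T (fun L => if T + i0 < HT ht L then 1 else 0) ≤ ε) :
    ∀ J A, J * (T + i0) ≤ A → ∃ Gd Bd : ℕ → G → ℝ≥0∞,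
      (∀ h z, Fl Λ ht zz A h z = Gd h z + Bd h z) ∧
      (∀ h z, Gd h z ≤ (i0 + 1 : ℕ) * th * S) ∧
      ∑' h, ∑' z, Bd h z ≤ q ^ J + J * ε := by
  intro J
  induction J with
  | zero =>
    intro A _
    refine ⟨fun _ _ => 0, fun h z => Fl Λ ht zz A h z, fun h z => by simp, fun h z => bot_le, ?_⟩
    rw [Fl_sum h1 hΛ]; simp
  | succ J ih =>
    intro A hA
    have hTA : T ≤ A := by nlinarith
    have ih' : ∀ A, ∃ Gd Bd : ℕ → G → ℝ≥0∞, J * (T + i0) ≤ A →
      (∀ h z, Fl Λ ht zz A h z = Gd h z + Bd h z) ∧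
      (∀ h z, Gd h z ≤ (i0 + 1 : ℕ) * th * S) ∧
      ∑' h, ∑' z, Bd h z ≤ q ^ J + J * ε := by
      intro A
      by_cases hh : J * (T + i0) ≤ A
      · obtain ⟨g, b, h⟩ := ih A hh; exact ⟨g, b, fun _ => h⟩
      · exact ⟨fun _ _ => 0, fun _ _ => 0, fun h => absurd h hh⟩
    choose Gi Bi hi using ih'
    -- kernels
    let K : (ℕ → G → ℝ≥0∞) → ℕ → G → ℕ → G → ℝ≥0∞ := fun f h z h' z' =>
      if h' ≤ h then f (h - h') (z - z') else 0
    have hKs : ∀ (f : ℕ → G → ℝ≥0∞) h' z', ∑' h, ∑' z, K f h z h' z' = ∑' h, ∑' z, f h z := by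
      intro f h' z'
      rw [← tsum_shift h' (fun h => ∑' z, f h z)]
      refine tsum_congr fun h => ?_
      by_cases hh : h' ≤ h
      · simp only [K, if_pos hh]; exact tsum_sub z' (f (h - h'))
      · simp [K, if_neg hh]
    let good : List B → Prop := fun L => ¬ (T + i0 < HT ht L) ∧
      Fl Λ ht zz T (HT ht L) (Dp zz L) < th
    let ng : List B → Prop := fun L => ¬ (T + i0 < HT ht L) ∧
      ¬ (Fl Λ ht zz T (HT ht L) (Dp zz L) < th)
    let g1 : ℕ → G → ℝ≥0∞ := fun h z => SF Λ ht T (fun L =>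
      if good L then K (Fl Λ ht zz (A - HT ht L)) h z (HT ht L) (Dp zz L) else 0)
    let g2 : ℕ → G → ℝ≥0∞ := fun h z => SF Λ ht T (fun L =>
      if ng L then K (Gi (A - HT ht L)) h z (HT ht L) (Dp zz L) else 0)
    let b1 : ℕ → G → ℝ≥0∞ := fun h z => SF Λ ht T (fun L =>
      if T + i0 < HT ht L then K (Fl Λ ht zz (A - HT ht L)) h z (HT ht L) (Dp zz L) else 0)
    let b2 : ℕ → G → ℝ≥0∞ := fun h z => SF Λ ht T (fun L =>
      if ng L then K (Bi (A - HT ht L)) h z (HT ht L) (Dp zz L) else 0)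
    refine ⟨fun h z => g1 h z + g2 h z, fun h z => b1 h z + b2 h z, ?_, ?_, ?_⟩
    · intro h z
      rw [Fl_comp h1 zz hTA]
      simp only [g1, g2, b1, b2]
      rw [← SF_add, ← SF_add, ← SF_add]
      refine SF_congr Λ ht fun L _ => ?_
      by_cases hf : T + i0 < HT ht L
      · have hg : ¬ good L := fun h => h.1 hf
        have hn : ¬ ng L := fun h => h.1 hf
        simp only [if_neg hg, if_neg hn, if_pos hf, K, zero_add, add_zero]
      · by_cases hd : Fl Λ ht zz T (HT ht L) (Dp zz L) < th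
        · have hg : good L := ⟨hf, hd⟩
          have hn : ¬ ng L := fun h => h.2 hd
          simp only [if_pos hg, if_neg hn, if_neg hf, K, add_zero]
        · have hg : ¬ good L := fun h => hd h.2
          have hn : ng L := ⟨hf, hd⟩
          simp only [if_neg hg, if_pos hn, if_neg hf, K, zero_add]
          have hA' : J * (T + i0) ≤ A - HT ht L := by
            have : HT ht L ≤ T + i0 := not_lt.1 hf
            have : (J + 1) * (T + i0) = J * (T + i0) + (T + i0) := by ring
            omega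
          by_cases hh : HT ht L ≤ h
          · simp only [if_pos hh]
            exact (hi _ hA').1 _ _
          · simp [if_neg hh]
    · intro h z
      have e1 : g1 h z ≤ (i0 + 1 : ℕ) * th := by
        have e := law_sum Λ ht zz T (fun (h' : ℕ) (z' : G) =>
            if ¬ (T + i0 < h') ∧ Fl Λ ht zz T h' z' < th then
              K (Fl Λ ht zz (A - h')) h z h' z' else 0)
        refine (show g1 h z = _ from e).trans_le ?_
        have hb : ∀ h', ∑' z', Fl Λ ht zz T h' z' *
            (if ¬ (T + i0 < h') ∧ Fl Λ ht zz T h' z' < th then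
              K (Fl Λ ht zz (A - h')) h z h' z' else 0)
            ≤ if h' ∈ Finset.Icc T (T + i0) then th else 0 := by
          intro h'
          by_cases hh' : h' ∈ Finset.Icc T (T + i0)
          · rw [if_pos hh']
            calc _ ≤ ∑' z', th * Fl Λ ht zz (A - h') (h - h') (z - z') := by
                  refine ENNReal.tsum_le_tsum fun z' => ?_
                  by_cases hc : ¬ (T + i0 < h') ∧ Fl Λ ht zz T h' z' < th
                  · rw [if_pos hc]
                    refine mul_le_mul' hc.2.le ?_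
                    simp only [K]
                    split_ifs
                    · exact le_rfl
                    · exact bot_le
                  · rw [if_neg hc, mul_zero]; exact bot_le
              _ = th * ∑' z', Fl Λ ht zz (A - h') (h - h') (z - z') := ENNReal.tsum_mul_left
              _ = th * ∑' z', Fl Λ ht zz (A - h') (h - h') z' := by rw [tsum_sub']
              _ ≤ th * 1 := mul_le_mul_right (Fl_sum_le h1 hΛ zz _ _) _
              _ = th := mul_one _
          · rw [if_neg hh']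
            simp only [Finset.mem_Icc, not_and, not_le] at hh'
            rw [nonpos_iff_eq_zero, ENNReal.tsum_eq_zero]
            intro z'
            by_cases hT : T ≤ h'
            · have := hh' hT
              rw [if_neg (fun h => h.1 this), mul_zero]
            · rw [Fl_zero_of_lt Λ ht zz (not_le.1 hT), zero_mul]
        refine (ENNReal.tsum_le_tsum hb).trans ?_
        rw [tsum_eq_sum (s := Finset.Icc T (T + i0)) (fun h' hh' => by rw [if_neg hh'])]
        rw [Finset.sum_congr rfl (fun h' hh' => if_pos hh'), Finset.sum_const, Nat.card_Icc,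
          nsmul_eq_mul]
        have : T + i0 + 1 - T = i0 + 1 := by omega
        rw [this]
      have e2 : g2 h z ≤ q * ((i0 + 1 : ℕ) * th * S) := by
        calc g2 h z ≤ SF Λ ht T (fun L => ((i0 + 1 : ℕ) * th * S) *
              (if Fl Λ ht zz T (HT ht L) (Dp zz L) < th then 0 else 1)) := by
              refine SF_mono' Λ ht fun L _ => ?_
              by_cases hn : ng L
              · rw [if_pos hn, if_neg hn.2, mul_one]
                have hA' : J * (T + i0) ≤ A - HT ht L := by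
                  have : HT ht L ≤ T + i0 := not_lt.1 hn.1
                  have : (J + 1) * (T + i0) = J * (T + i0) + (T + i0) := by ring
                  omega
                simp only [K]
                split_ifs
                · exact (hi _ hA').2.1 _ _
                · exact bot_le
              · rw [if_neg hn]; exact bot_le
          _ ≤ _ := by rw [SF_mul, mul_comm]; exact mul_le_mul_left hq _
      calc g1 h z + g2 h z ≤ (i0 + 1 : ℕ) * th + q * ((i0 + 1 : ℕ) * th * S) := add_le_add e1 e2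
        _ = (i0 + 1 : ℕ) * th * (1 + q * S) := by ring
        _ ≤ _ := mul_le_mul_right hS _
    · have e1 : ∑' h, ∑' z, b1 h z ≤ ε := by
        simp only [b1]
        simp_rw [← SF_tsum]
        refine le_trans ?_ hε
        refine SF_mono' Λ ht fun L _ => ?_
        by_cases hf : T + i0 < HT ht L
        · simp only [if_pos hf]
          rw [hKs]
          exact (Fl_sum h1 hΛ zz _).le
        · simp [if_neg hf]
      have e2 : ∑' h, ∑' z, b2 h z ≤ q * (q ^ J + J * ε) := by
        simp only [b2]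
        simp_rw [← SF_tsum]
        calc _ ≤ SF Λ ht T (fun L => (q ^ J + J * ε) *
              (if Fl Λ ht zz T (HT ht L) (Dp zz L) < th then 0 else 1)) := by
              refine SF_mono' Λ ht fun L _ => ?_
              by_cases hn : ng L
              · simp only [if_pos hn]
                rw [if_neg hn.2, mul_one, hKs]
                have hA' : J * (T + i0) ≤ A - HT ht L := by
                  have : HT ht L ≤ T + i0 := not_lt.1 hn.1
                  have : (J + 1) * (T + i0) = J * (T + i0) + (T + i0) := by ring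
                  omega
                exact (hi _ hA').2.2
              · simp [if_neg hn]
          _ ≤ _ := by rw [SF_mul, mul_comm]; exact mul_le_mul_left hq _
      have e3 : ∑' h, ∑' z, (b1 h z + b2 h z) = ∑' h, ∑' z, b1 h z + ∑' h, ∑' z, b2 h z := by
        rw [← ENNReal.tsum_add]
        exact tsum_congr fun h => ENNReal.tsum_add
      rw [e3]
      calc _ ≤ ε + q * (q ^ J + J * ε) := add_le_add e1 e2
        _ = q ^ (J + 1) + (q * (J * ε) + ε) := by ring
        _ ≤ q ^ (J + 1) + (1 * (J * ε) + ε) := by gcongr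
        _ = _ := by push_cast; ring

open Classical in
include h1 hΛ in
/-- **dyadic quantile** -/
lemma quant (T : ℕ) {u : ℝ≥0∞} (hu0 : u ≠ 0) (hu1 : u ≤ 1) : ∃ th : ℝ≥0∞, th ≠ 0 ∧ th ≠ ∞ ∧
    SF Λ ht T (fun L => if Fl Λ ht zz T (HT ht L) (Dp zz L) < th then 1 else 0) ≤ u ∧
    u ≤ SF Λ ht T (fun L => if Fl Λ ht zz T (HT ht L) (Dp zz L) < 2 * th then 1 else 0) := by
  have hex : ∃ a : ℕ, SF Λ ht T
      (fun L => if Fl Λ ht zz T (HT ht L) (Dp zz L) < (2⁻¹ : ℝ≥0∞) ^ a then 1 else 0) ≤ u := by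
    let f : List B → ℝ≥0∞ := fun L => if FP ht L T then LW Λ L * 1 else 0
    have hf : ∑' L, f L ≠ ∞ := by
      have : ∑' L, f L = 1 := SF_one h1 hΛ T
      rw [this]; exact ENNReal.one_ne_top
    have ht1 := ENNReal.tendsto_tsum_compl_atTop_zero hf
    rw [ENNReal.tendsto_atTop_zero] at ht1
    obtain ⟨s, hs⟩ := ht1 u (pos_iff_ne_zero.2 hu0)
    have hs1 := hs s le_rfl
    clear hs
    have hs := hs1
    have hfin : ∃ a : ℕ, ∀ L ∈ s, f L ≠ 0 → (2⁻¹ : ℝ≥0∞) ^ a ≤ f L := by
      clear hs hs1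
      induction s using Finset.induction_on with
      | empty => exact ⟨0, by simp⟩
      | insert L0 s _ ih =>
        obtain ⟨a, ha⟩ := ih
        obtain ⟨a', ha'⟩ : ∃ a' : ℕ, f L0 ≠ 0 → (2⁻¹ : ℝ≥0∞) ^ a' ≤ f L0 := by
          by_cases h0 : f L0 = 0
          · exact ⟨0, fun h => absurd h0 h⟩
          · obtain ⟨n, hn⟩ := ENNReal.exists_inv_two_pow_lt h0
            exact ⟨n, fun _ => hn.le⟩
        refine ⟨a + a', fun L hL h0 => ?_⟩
        have hle : (2⁻¹ : ℝ≥0∞) ≤ 1 := by norm_num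
        rcases Finset.mem_insert.1 hL with rfl | hL
        · refine (pow_le_pow_right_of_le_one' hle (by omega : a' ≤ a + a')).trans (ha' h0)
        · exact (pow_le_pow_right_of_le_one' hle (by omega : a ≤ a + a')).trans (ha L hL h0)
    obtain ⟨a, ha⟩ := hfin
    refine ⟨a, ?_⟩
    refine le_trans ?_ hs
    rw [SF]
    have : ∀ L, (if FP ht L T then LW Λ L *
        (if Fl Λ ht zz T (HT ht L) (Dp zz L) < (2⁻¹ : ℝ≥0∞) ^ a then 1 else 0) else 0)
        ≤ Set.indicator {L | L ∉ s} f L := by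
      intro L
      by_cases hL : FP ht L T
      · by_cases hl : Fl Λ ht zz T (HT ht L) (Dp zz L) < (2⁻¹ : ℝ≥0∞) ^ a
        · have hns : L ∉ s ∨ f L = 0 := by
            by_contra hc
            push Not at hc
            have h2 := ha L hc.1 hc.2
            have h3 : f L ≤ Fl Λ ht zz T (HT ht L) (Dp zz L) := by
              simp only [f, if_pos hL, mul_one]
              exact LW_le_Fl zz hL
            exact absurd (h2.trans h3) (not_le.2 hl)
          rcases hns with hns | h0
          · rw [Set.indicator_of_mem (show L ∈ {L | L ∉ s} from hns)]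
            simp only [f, if_pos hL, if_pos hl]; exact le_rfl
          · have : LW Λ L * 1 = 0 := by simpa [f, hL] using h0
            simp only [if_pos hL, if_pos hl, this]; exact bot_le
        · simp [hl]
      · simp [hL]
    refine (ENNReal.tsum_le_tsum this).trans ?_
    rw [← tsum_subtype]
    exact le_rfl
  have hm := Nat.find_spec hex
  set a := Nat.find hex with ha
  refine ⟨(2⁻¹ : ℝ≥0∞) ^ a, ?_, ?_, hm, ?_⟩
  · exact pow_ne_zero _ (by norm_num)
  · exact ENNReal.pow_ne_top (by norm_num)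
  · rcases Nat.eq_zero_or_pos a with h0 | h0
    · rw [h0, pow_zero, mul_one]
      have : SF Λ ht T (fun L => if Fl Λ ht zz T (HT ht L) (Dp zz L) < 2 then 1 else 0) = 1 := by
        refine (SF_congr Λ ht fun L _ => ?_).trans (SF_one h1 hΛ T)
        rw [if_pos ((Fl_le_one h1 hΛ zz _ _ _).trans_lt (by norm_num))]
      rw [this]; exact hu1
    · obtain ⟨b, hb⟩ : ∃ b, a = b + 1 := ⟨a - 1, by omega⟩
      have hlt := Nat.find_min hex (m := b) (by omega)
      have e : 2 * (2⁻¹ : ℝ≥0∞) ^ a = 2⁻¹ ^ b := by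
        rw [hb, pow_succ, mul_comm, mul_assoc, ENNReal.inv_mul_cancel (by norm_num) (by norm_num),
          mul_one]
      rw [e]
      exact (not_le.1 hlt).le

end One

end Crest.Agent.R154.Asm157
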