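import Crest.Agent.R154.B5Abs_566
import Crest.Agent.R154.Dens_903

/-! Row 154, ROAD 801 (helper195): abstract assembly, racer. First passage lists, density. -/

set_option autoImplicit false

namespace Crest.Agent.R154.Asm195

open Crest.Agent.R154.B5A
open scoped ENNReal Topology Classical
open Filter Finset

lemma tsum_fiber {α V : Type*} (key : α → V) (F : α → ℝ≥0∞) :
    ∑' v, ∑' a, (if key a = v then F a else 0) = ∑' a, F a := by
  rw [ENNReal.tsum_comm]
  refine tsum_congr fun a => ?_
  rw [tsum_eq_single (key a) (fun v hv => if_neg (Ne.symm hv)), if_pos rfl]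

/-! ### density with first passages -/

section dens

variable {G : Type*} [AddCommGroup G]

theorem dens_fp (s i0 : ℕ) (th q ε : ℝ≥0∞) (p : ℕ → G → ℝ≥0∞) (f far : ℕ → ℕ × G → ℝ≥0∞)
    (hf : ∀ A, s + i0 ≤ A → ∀ v : ℕ × G, f A v ≤
      (∑ i ∈ range (i0 + 1), ∑' z, p i z * f (A - s - i) (v.1, v.2 - z)) + far A v)
    (hfar : ∀ A, s + i0 ≤ A → ∑' v, far A v ≤ ε)
    (hf1 : ∀ A, ∑' v, f A v ≤ 1)
    (hq : ∑ i ∈ range (i0 + 1), ∑' z, (if th < p i z then p i z else 0) ≤ q) (J : ℕ) :
    ∀ A, J * (s + i0) ≤ A → ∃ g b : ℕ × G → ℝ≥0∞, (∀ v, f A v ≤ g v + b v) ∧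
      (∀ v, g v ≤ (i0 + 1) * th * ∑ j ∈ range J, q ^ j) ∧
      ∑' v, b v ≤ q ^ J + ε * ∑ j ∈ range J, q ^ j := by
  induction J with
  | zero =>
    intro A _
    refine ⟨fun _ => 0, f A, fun v => by simp, fun v => by simp, ?_⟩
    simpa using hf1 A
  | succ J ih =>
    intro A hA
    have hA1 : s + i0 ≤ A := by nlinarith
    have hex : ∀ i : ℕ, ∃ g b : ℕ × G → ℝ≥0∞, i ≤ i0 → (∀ v, f (A - s - i) v ≤ g v + b v) ∧
      (∀ v, g v ≤ (i0 + 1) * th * ∑ j ∈ range J, q ^ j) ∧
      ∑' v, b v ≤ q ^ J + ε * ∑ j ∈ range J, q ^ j := by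
      intro i
      by_cases hi : i ≤ i0
      · have h2 : J * (s + i0) ≤ A - s - i := by
          have : (J + 1) * (s + i0) = J * (s + i0) + s + i0 := by ring
          omega
        obtain ⟨g, b, h⟩ := ih (A - s - i) h2
        exact ⟨g, b, fun _ => h⟩
      · exact ⟨0, 0, fun h => absurd h hi⟩
    choose g' b' hgb using hex
    set P : ℕ → G → ℝ≥0∞ := fun i z => if th < p i z then p i z else 0 with hP
    refine ⟨fun v => (i0 + 1) * th + ∑ i ∈ range (i0 + 1), ∑' z, P i z * g' i (v.1, v.2 - z),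
      fun v => far A v + ∑ i ∈ range (i0 + 1), ∑' z, P i z * b' i (v.1, v.2 - z), ?_, ?_, ?_⟩
    · intro v
      have hinj : ∀ A', ∑' z, f A' (v.1, v.2 - z) ≤ 1 := by
        intro A'
        refine le_trans ?_ (hf1 A')
        exact ENNReal.tsum_comp_le_tsum_of_injective (f := fun z : G => (v.1, v.2 - z))
          (fun z z' h => by simpa using h) (f A')
      have h1 : ∀ i ∈ range (i0 + 1), ∑' z, p i z * f (A - s - i) (v.1, v.2 - z)
          ≤ th + (∑' z, P i z * g' i (v.1, v.2 - z) + ∑' z, P i z * b' i (v.1, v.2 - z)) := by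
        intro i hi
        have hi' : i ≤ i0 := by rw [mem_range] at hi; omega
        have hg := (hgb i hi').1
        calc ∑' z, p i z * f (A - s - i) (v.1, v.2 - z)
            ≤ ∑' z, (th * f (A - s - i) (v.1, v.2 - z) +
                (P i z * g' i (v.1, v.2 - z) + P i z * b' i (v.1, v.2 - z))) := by
              refine ENNReal.tsum_le_tsum fun z => ?_
              by_cases h : th < p i z
              · have e : P i z = p i z := if_pos h
                rw [e, ← mul_add]
                exact le_add_left (mul_le_mul_right (hg _) _)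
              · refine le_add_right (mul_le_mul_left (not_lt.1 h) _)
          _ ≤ _ := by
              rw [ENNReal.tsum_add, ENNReal.tsum_add, ENNReal.tsum_mul_left]
              refine add_le_add ?_ le_rfl
              calc th * _ ≤ th * 1 := mul_le_mul_right (hinj _) _
                _ = th := mul_one _
      refine (hf A hA1 v).trans ?_
      refine (add_le_add (Finset.sum_le_sum h1) le_rfl).trans ?_
      rw [Finset.sum_add_distrib, Finset.sum_add_distrib, Finset.sum_const, card_range,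
        nsmul_eq_mul]
      push_cast
      apply le_of_eq
      ring
    · intro v
      have h1 : ∑ i ∈ range (i0 + 1), ∑' z, P i z * g' i (v.1, v.2 - z)
          ≤ q * ((i0 + 1) * th * ∑ j ∈ range J, q ^ j) := by
        calc _ ≤ ∑ i ∈ range (i0 + 1), ∑' z, P i z * ((i0 + 1) * th * ∑ j ∈ range J, q ^ j) := by
              refine Finset.sum_le_sum fun i hi => ENNReal.tsum_le_tsum fun z => ?_
              have hi' : i ≤ i0 := by rw [mem_range] at hi; omega
              exact mul_le_mul_right ((hgb i hi').2.1 _) _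
          _ = (∑ i ∈ range (i0 + 1), ∑' z, P i z) * ((i0 + 1) * th * ∑ j ∈ range J, q ^ j) := by
              rw [Finset.sum_mul]
              exact Finset.sum_congr rfl fun i _ => ENNReal.tsum_mul_right
          _ ≤ _ := mul_le_mul_left hq _
      refine (add_le_add le_rfl h1).trans (le_of_eq ?_)
      rw [Finset.sum_range_succ' (fun j => q ^ j) J]
      simp only [pow_succ, pow_zero, mul_add, mul_one]
      rw [← Finset.sum_mul]
      ring
    · rw [ENNReal.tsum_add]
      have h1 : ∑' v : ℕ × G, ∑ i ∈ range (i0 + 1), ∑' z, P i z * b' i (v.1, v.2 - z)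
          ≤ q * (q ^ J + ε * ∑ j ∈ range J, q ^ j) := by
        rw [Summable.tsum_finsetSum (fun _ _ => ENNReal.summable)]
        calc _ ≤ ∑ i ∈ range (i0 + 1), ∑' z, P i z * (q ^ J + ε * ∑ j ∈ range J, q ^ j) := by
              refine Finset.sum_le_sum fun i hi => ?_
              have hi' : i ≤ i0 := by rw [mem_range] at hi; omega
              rw [ENNReal.tsum_comm]
              refine ENNReal.tsum_le_tsum fun z => ?_
              rw [ENNReal.tsum_mul_left]
              refine mul_le_mul_right (le_trans (le_of_eq ?_) (hgb i hi').2.2) _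
              exact ((Equiv.refl ℕ).prodCongr (Equiv.subRight z)).tsum_eq (b' i)
          _ = (∑ i ∈ range (i0 + 1), ∑' z, P i z) * (q ^ J + ε * ∑ j ∈ range J, q ^ j) := by
              rw [Finset.sum_mul]
              exact Finset.sum_congr rfl fun i _ => ENNReal.tsum_mul_right
          _ ≤ _ := mul_le_mul_left hq _
      refine (add_le_add (hfar A hA1) h1).trans (le_of_eq ?_)
      rw [Finset.sum_range_succ' (fun j => q ^ j) J]
      simp only [pow_succ, pow_zero, mul_add, mul_one]
      rw [← Finset.sum_mul]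
      ring

lemma geom_le {u : ℝ≥0∞} (hu0 : u ≠ 0) (hu1 : u ≤ 1) (J : ℕ) :
    ∑ j ∈ range J, (1 - u) ^ j ≤ u⁻¹ := by
  have hut : u ≠ ⊤ := ne_top_of_le_ne_top ENNReal.one_ne_top hu1
  induction J with
  | zero => simp
  | succ J ih =>
    rw [Finset.sum_range_succ' (fun j => (1 - u) ^ j) J]
    simp only [pow_succ, pow_zero]
    rw [← Finset.sum_mul]
    calc (∑ i ∈ range J, (1 - u) ^ i) * (1 - u) + 1 ≤ u⁻¹ * (1 - u) + u⁻¹ * u := by
          rw [ENNReal.inv_mul_cancel hu0 hut]
          exact add_le_add (mul_le_mul_left ih _) le_rfl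
      _ = u⁻¹ := by rw [← mul_add, tsub_add_cancel_of_le hu1, mul_one]

end dens

/-! ### first passage lists -/

section fp

variable {B : Type*} (ht : B → ℕ)

/-- `L` is the first passage list of the level `s` -/
def fp : List B → ℕ → Prop
  | [], s => s = 0
  | b :: L, s => 0 < s ∧ fp L (s - ht b)

lemma fp_le (L : List B) (s : ℕ) (h : fp ht L s) : s ≤ HT ht L := by
  induction L generalizing s with
  | nil => rw [HT_nil]; exact (le_of_eq h)
  | cons b L ih =>
    have := ih _ h.2
    rw [HT_cons]; omega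

lemma fp_zero (L : List B) : fp ht L 0 ↔ L = [] := by
  cases L with
  | nil => simp [fp]
  | cons b L => simp [fp]

lemma fp_of_HT (h1 : ∀ b, 1 ≤ ht b) (L : List B) (s : ℕ) (h : HT ht L = s) : fp ht L s := by
  induction L generalizing s with
  | nil => rw [HT_nil] at h; exact h.symm
  | cons b L ih =>
    rw [HT_cons] at h
    have := h1 b
    exact ⟨by omega, ih _ (by omega)⟩

lemma fp_append (L1 L2 : List B) (s A : ℕ) (hs : s ≤ A) (h : fp ht L1 s) :
    fp ht (L1 ++ L2) A ↔ fp ht L2 (A - HT ht L1) := by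
  induction L1 generalizing s A with
  | nil => rw [HT_nil, List.nil_append, Nat.sub_zero]
  | cons b L ih =>
    rw [List.cons_append, HT_cons]
    change (0 < A ∧ fp ht (L ++ L2) (A - ht b)) ↔ _
    rw [ih (s - ht b) (A - ht b) (by omega) h.2, Nat.sub_sub]
    have := h.1
    exact ⟨fun h => h.2, fun h => ⟨by omega, h⟩⟩

lemma tsum_split (h1 : ∀ b, 1 ≤ ht b) (s : ℕ) : ∀ F : List B → ℝ≥0∞,
    ∑' L, (if s ≤ HT ht L then F L else 0)
      = ∑' L1, (if fp ht L1 s then ∑' L2, F (L1 ++ L2) else 0) := by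
  induction s using Nat.strong_induction_on with
  | _ s ih =>
    intro F
    rcases Nat.eq_zero_or_pos s with h0 | h0
    · subst h0
      simp only [Nat.zero_le, if_true, fp_zero]
      rw [tsum_eq_single ([] : List B) (fun L hL => if_neg hL), if_pos rfl]
      rfl
    · rw [tsum_list, tsum_list (fun L1 => if fp ht L1 s then ∑' L2, F (L1 ++ L2) else 0)]
      rw [HT_nil, if_neg (by omega), if_neg (show ¬ fp ht ([] : List B) s from by
        change ¬ (s = 0); omega), zero_add, zero_add]
      refine tsum_congr fun b => ?_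
      have hb := h1 b
      have := ih (s - ht b) (by omega) (fun L => F (b :: L))
      calc ∑' L, (if s ≤ HT ht (b :: L) then F (b :: L) else 0)
          = ∑' L, (if s - ht b ≤ HT ht L then F (b :: L) else 0) := by
            refine tsum_congr fun L => ?_
            rw [HT_cons]
            by_cases h : s - ht b ≤ HT ht L
            · rw [if_pos h, if_pos (by omega)]
            · rw [if_neg h, if_neg (by omega)]
        _ = _ := this
        _ = _ := by
            refine tsum_congr fun L => ?_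
            by_cases h : fp ht L (s - ht b)
            · rw [if_pos h, if_pos (show fp ht (b :: L) s from ⟨h0, h⟩)]
              rfl
            · rw [if_neg h, if_neg (fun h' => h h'.2)]

variable (Λ : B → ℝ≥0∞)

lemma fp_mass (h1 : ∀ b, 1 ≤ ht b) (hΛ : ∑' b, Λ b = 1) (s : ℕ) :
    ∑' L, (if fp ht L s then LW Λ L else 0) = 1 := by
  induction s using Nat.strong_induction_on with
  | _ s ih =>
    rcases Nat.eq_zero_or_pos s with h0 | h0
    · subst h0
      simp only [fp_zero]
      rw [tsum_eq_single ([] : List B) (fun L hL => if_neg hL), if_pos rfl, LW_nil]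
    · rw [tsum_list, if_neg (show ¬ fp ht ([] : List B) s from by
        change ¬ (s = 0); omega), zero_add]
      calc _ = ∑' b, Λ b * 1 := by
            refine tsum_congr fun b => ?_
            have hb := h1 b
            rw [← ih (s - ht b) (by omega), ← ENNReal.tsum_mul_left]
            refine tsum_congr fun L => ?_
            by_cases h : fp ht L (s - ht b)
            · rw [if_pos h, if_pos (show fp ht (b :: L) s from ⟨h0, h⟩), LW_cons]
            · rw [if_neg h, if_neg (fun h' => h h'.2), mul_zero]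
        _ = 1 := by simpa using hΛ

lemma U_le_one (h1 : ∀ b, 1 ≤ ht b) (hΛ : ∑' b, Λ b = 1) (n : ℕ) : U Λ ht n ≤ 1 := by
  rw [← fp_mass ht Λ h1 hΛ n]
  refine ENNReal.tsum_le_tsum fun L => ?_
  by_cases h : HT ht L = n
  · rw [if_pos h, if_pos (fp_of_HT ht h1 L n h)]
  · rw [if_neg h]; exact zero_le

end fp

/-! ### one walker -/

section one

variable {B : Type*} {G : Type*} [AddCommGroup G] (Λ : B → ℝ≥0∞) (ht : B → ℕ) (dz : B → G)

/-- displacement -/
def Dp (z : B → G) (L : List B) : G := (L.map z).sum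

lemma Dp_append (z : B → G) (L L' : List B) : Dp z (L ++ L') = Dp z L + Dp z L' := by
  simp [Dp]

/-- law of overshoot and displacement at the first passage of `A` -/
noncomputable def fl (A : ℕ) (v : ℕ × G) : ℝ≥0∞ :=
  ∑' L, (if fp ht L A ∧ HT ht L = A + v.1 ∧ Dp dz L = v.2 then LW Λ L else 0)

/-- weight of the first passage lists with overshoot `≤ i0` -/
noncomputable def gw (i0 A : ℕ) (L : List B) : ℝ≥0∞ :=
  if fp ht L A ∧ HT ht L ≤ A + i0 then LW Λ L else 0

lemma gw_mass (h1 : ∀ b, 1 ≤ ht b) (hΛ : ∑' b, Λ b = 1) (i0 A : ℕ) :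
    ∑' L, gw Λ ht i0 A L ≤ 1 := by
  rw [← fp_mass ht Λ h1 hΛ A]
  refine ENNReal.tsum_le_tsum fun L => ?_
  unfold gw
  by_cases h : fp ht L A ∧ HT ht L ≤ A + i0
  · rw [if_pos h, if_pos h.1]
  · rw [if_neg h]; exact zero_le

lemma fl_mass (h1 : ∀ b, 1 ≤ ht b) (hΛ : ∑' b, Λ b = 1) (A : ℕ) :
    ∑' v, fl Λ ht dz A v = 1 := by
  rw [← fp_mass ht Λ h1 hΛ A,
    ← tsum_fiber (fun L : List B => ((HT ht L - A, Dp dz L) : ℕ × G))]
  refine tsum_congr fun v => tsum_congr fun L => ?_
  by_cases h : fp ht L A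
  · have hl := fp_le ht L A h
    by_cases h2 : (HT ht L - A, Dp dz L) = v
    · rw [if_pos h2, if_pos h, if_pos ⟨h, by rw [← h2]; simp only; omega, by rw [← h2]⟩]
    · rw [if_neg h2, if_neg]
      rintro ⟨-, h3, h4⟩
      apply h2
      ext
      · simp only; omega
      · exact h4
  · rw [if_neg (fun h' => h h'.1), if_neg h]
    simp

lemma gw_fiber (i0 A : ℕ) (φ : ℕ → G → ℝ≥0∞) :
    ∑' L, gw Λ ht i0 A L * φ (HT ht L - A) (Dp dz L)
      = ∑ i ∈ range (i0 + 1), ∑' z, fl Λ ht dz A (i, z) * φ i z := by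
  have e : ∀ L, gw Λ ht i0 A L * φ (HT ht L - A) (Dp dz L)
      = ∑ i ∈ range (i0 + 1), ∑' z,
        (if fp ht L A ∧ HT ht L = A + i ∧ Dp dz L = z then LW Λ L else 0) * φ i z := by
    intro L
    unfold gw
    by_cases h : fp ht L A ∧ HT ht L ≤ A + i0
    · have hl := fp_le ht L A h.1
      rw [if_pos h, Finset.sum_eq_single (HT ht L - A), tsum_eq_single (Dp dz L), if_pos]
      · exact ⟨h.1, by omega, rfl⟩
      · intro z hz
        rw [if_neg (fun h' => hz h'.2.2.symm), zero_mul]
      · intro i _ hi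
        rw [ENNReal.tsum_eq_zero]
        intro z
        rw [if_neg (fun h' => hi (by omega)), zero_mul]
      · intro hn
        exact absurd (mem_range.2 (by omega)) hn
    · rw [if_neg h, zero_mul]
      symm
      refine Finset.sum_eq_zero fun i hi => ?_
      rw [ENNReal.tsum_eq_zero]
      intro z
      rw [if_neg, zero_mul]
      rintro ⟨h1, h2, -⟩
      rw [mem_range] at hi
      exact h ⟨h1, by omega⟩
  simp_rw [e]
  rw [Summable.tsum_finsetSum (fun _ _ => ENNReal.summable)]
  refine Finset.sum_congr rfl fun i _ => ?_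
  rw [ENNReal.tsum_comm]
  refine tsum_congr fun z => ?_
  rw [ENNReal.tsum_mul_right]
  rfl

/-- the part of the law of the first passage of `A` with a large overshoot at `s` -/
noncomputable def fr (s i0 A : ℕ) (v : ℕ × G) : ℝ≥0∞ :=
  ∑' L1, (if fp ht L1 s ∧ s + i0 < HT ht L1 then ∑' L2,
    (if fp ht L2 (A - HT ht L1) ∧ HT ht L1 + HT ht L2 = A + v.1 ∧ Dp dz L1 + Dp dz L2 = v.2
      then LW Λ L1 * LW Λ L2 else 0) else 0)

lemma fr_mass (h1 : ∀ b, 1 ≤ ht b) (hΛ : ∑' b, Λ b = 1) (s i0 A : ℕ) :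
    ∑' v, fr Λ ht dz s i0 A v ≤ ∑' L, (if fp ht L s ∧ s + i0 < HT ht L then LW Λ L else 0) := by
  unfold fr
  rw [ENNReal.tsum_comm]
  refine ENNReal.tsum_le_tsum fun L1 => ?_
  by_cases h : fp ht L1 s ∧ s + i0 < HT ht L1
  · simp only [if_pos h]
    rw [ENNReal.tsum_comm]
    calc ∑' L2, ∑' v : ℕ × G, (if fp ht L2 (A - HT ht L1) ∧ HT ht L1 + HT ht L2 = A + v.1 ∧
          Dp dz L1 + Dp dz L2 = v.2 then LW Λ L1 * LW Λ L2 else 0)
        ≤ ∑' L2, LW Λ L1 * (if fp ht L2 (A - HT ht L1) then LW Λ L2 else 0) := by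
          refine ENNReal.tsum_le_tsum fun L2 => ?_
          rw [tsum_eq_single ((HT ht L1 + HT ht L2 - A, Dp dz L1 + Dp dz L2) : ℕ × G)]
          · by_cases h2 : fp ht L2 (A - HT ht L1)
            · rw [if_pos h2]
              split_ifs
              · exact le_rfl
              · exact zero_le
            · rw [if_neg (fun h' => h2 h'.1)]; exact zero_le
          · intro v hv
            rw [if_neg]
            rintro ⟨_, h3, h4⟩
            apply hv
            ext
            · simp only; omega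
            · exact h4.symm
      _ = LW Λ L1 := by
          rw [ENNReal.tsum_mul_left, fp_mass ht Λ h1 hΛ, mul_one]
      _ ≤ _ := le_rfl
  · simp only [if_neg h, tsum_zero, le_refl]

lemma fl_rec (h1 : ∀ b, 1 ≤ ht b) (s i0 A : ℕ) (hA : s + i0 ≤ A) (v : ℕ × G) :
    fl Λ ht dz A v ≤ (∑ i ∈ range (i0 + 1), ∑' z, fl Λ ht dz s (i, z)
      * fl Λ ht dz (A - s - i) (v.1, v.2 - z)) + fr Λ ht dz s i0 A v := by
  set F : List B → ℝ≥0∞ := fun L =>
    if fp ht L A ∧ HT ht L = A + v.1 ∧ Dp dz L = v.2 then LW Λ L else 0 with hF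
  have e1 : fl Λ ht dz A v = ∑' L, (if s ≤ HT ht L then F L else 0) := by
    refine tsum_congr fun L => ?_
    by_cases h : s ≤ HT ht L
    · rw [if_pos h]
    · rw [if_neg h, if_neg]
      rintro ⟨h2, -⟩
      have := fp_le ht L A h2
      omega
  rw [e1, tsum_split ht h1 s F,
    ← gw_fiber Λ ht dz i0 s (fun i z => fl Λ ht dz (A - s - i) (v.1, v.2 - z))]
  unfold fr
  rw [← ENNReal.tsum_add]
  refine ENNReal.tsum_le_tsum fun L1 => ?_
  by_cases h : fp ht L1 s
  · rw [if_pos h]
    have hl := fp_le ht L1 s h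
    have e2 : ∀ L2, F (L1 ++ L2) = if fp ht L2 (A - HT ht L1) ∧ HT ht L1 + HT ht L2 = A + v.1 ∧
        Dp dz L1 + Dp dz L2 = v.2 then LW Λ L1 * LW Λ L2 else 0 := by
      intro L2
      simp only [hF]
      rw [fp_append ht L1 L2 s A (by omega) h, HT_append, Dp_append, LW_append]
    by_cases h2 : HT ht L1 ≤ s + i0
    · refine le_add_right (le_of_eq ?_)
      rw [gw, if_pos ⟨h, h2⟩]
      unfold fl
      rw [← ENNReal.tsum_mul_left]
      refine tsum_congr fun L2 => ?_
      rw [e2]
      have e3 : A - s - (HT ht L1 - s) = A - HT ht L1 := by omega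
      rw [e3]
      by_cases h3 : fp ht L2 (A - HT ht L1) ∧ HT ht L1 + HT ht L2 = A + v.1 ∧
        Dp dz L1 + Dp dz L2 = v.2
      · rw [if_pos h3, if_pos ⟨h3.1, by simp only; omega, by
          simp only; rw [← h3.2.2]; abel⟩]
      · rw [if_neg h3, if_neg, mul_zero]
        rintro ⟨h4, h5, h6⟩
        simp only at h5 h6
        exact h3 ⟨h4, by omega, by rw [h6]; abel⟩
    · refine le_add_left (le_of_eq ?_)
      rw [if_pos ⟨h, by omega⟩]
      exact tsum_congr e2
  · rw [if_neg h]; exact zero_le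

/-- **smooth top** -/
theorem top_dens (h1 : ∀ b, 1 ≤ ht b) (hΛ : ∑' b, Λ b = 1) (s i0 : ℕ) (th u o : ℝ≥0∞)
    (hu0 : u ≠ 0) (hu1 : u ≤ 1)
    (hth : u ≤ ∑' v, (if fl Λ ht dz s v ≤ th then fl Λ ht dz s v else 0))
    (ho : ∑' L, (if fp ht L s ∧ s + i0 < HT ht L then LW Λ L else 0) ≤ o) (J A : ℕ)
    (hA : J * (s + i0) ≤ A) :
    ∃ g b : ℕ × G → ℝ≥0∞, (∀ v, fl Λ ht dz A v ≤ g v + b v) ∧
      (∀ v, g v ≤ (i0 + 1) * th * u⁻¹) ∧ ∑' v, b v ≤ (1 - u) ^ J + o * u⁻¹ := by
  have hq : ∑ i ∈ range (i0 + 1), ∑' z, (if th < fl Λ ht dz s (i, z) then fl Λ ht dz s (i, z)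
      else 0) ≤ 1 - u := by
    have hsplit : ∑' v, (if fl Λ ht dz s v ≤ th then fl Λ ht dz s v else 0)
        + ∑' v, (if th < fl Λ ht dz s v then fl Λ ht dz s v else 0) = 1 := by
      rw [← ENNReal.tsum_add, ← fl_mass Λ ht dz h1 hΛ s]
      refine tsum_congr fun v => ?_
      by_cases h : fl Λ ht dz s v ≤ th
      · rw [if_pos h, if_neg (not_lt.2 h), add_zero]
      · rw [if_neg h, if_pos (not_le.1 h), zero_add]
    have h2 : ∑' v : ℕ × G, (if th < fl Λ ht dz s v then fl Λ ht dz s v else 0) ≤ 1 - u := by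
      refine ENNReal.le_sub_of_add_le_left (ne_top_of_le_ne_top ENNReal.one_ne_top hu1) ?_
      rw [← hsplit]
      exact add_le_add hth le_rfl
    refine le_trans ?_ h2
    rw [ENNReal.tsum_prod']
    exact ENNReal.sum_le_tsum (f := fun i => ∑' z, (if th < fl Λ ht dz s (i, z)
      then fl Λ ht dz s (i, z) else 0)) _
  obtain ⟨g, b, h2, h3, h4⟩ := dens_fp s i0 th (1 - u) o (fun i z => fl Λ ht dz s (i, z))
    (fl Λ ht dz) (fr Λ ht dz s i0) (fun A hA v => fl_rec Λ ht dz h1 s i0 A hA v)
    (fun A _ => (fr_mass Λ ht dz h1 hΛ s i0 A).trans ho)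
    (fun A => (fl_mass Λ ht dz h1 hΛ A).le) hq J A hA
  refine ⟨g, b, h2, fun v => (h3 v).trans ?_, h4.trans ?_⟩
  · exact mul_le_mul_right (geom_le hu0 hu1 J) _
  · exact add_le_add le_rfl (mul_le_mul_right (geom_le hu0 hu1 J) _)

/-- sum over the tops -/
theorem top_sum (h1 : ∀ b, 1 ≤ ht b) (hΛ : ∑' b, Λ b = 1) (i0 A : ℕ) (M bb R : ℝ≥0∞)
    (g b : ℕ × G → ℝ≥0∞) (hgb : ∀ v, fl Λ ht dz A v ≤ g v + b v) (hg : ∀ v, g v ≤ M)
    (hb : ∑' v, b v ≤ bb) (K : ℕ → G → ℝ≥0∞) (hK1 : ∀ j z, K j z ≤ 1)
    (hK : ∀ j, j ≤ i0 → ∀ μ : G → ℝ≥0∞, ∑' z, μ z ≤ 1 → (∀ z, μ z ≤ M) →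
      ∑' z, μ z * K j z ≤ R) :
    ∑' L, gw Λ ht i0 A L * K (HT ht L - A) (Dp dz L) ≤ (i0 + 1) * R + bb := by
  rw [gw_fiber Λ ht dz i0 A K]
  have e : ∀ j ∈ range (i0 + 1), ∑' z, fl Λ ht dz A (j, z) * K j z ≤ R + ∑' z, b (j, z) := by
    intro j hj
    have hj' : j ≤ i0 := by rw [mem_range] at hj; omega
    calc ∑' z, fl Λ ht dz A (j, z) * K j z
        ≤ ∑' z, (min (fl Λ ht dz A (j, z)) (g (j, z)) * K j z + b (j, z)) := by
          refine ENNReal.tsum_le_tsum fun z => ?_
          have h2 : fl Λ ht dz A (j, z) ≤ min (fl Λ ht dz A (j, z)) (g (j, z)) + b (j, z) := by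
            rcases le_total (fl Λ ht dz A (j, z)) (g (j, z)) with h | h
            · rw [min_eq_left h]; exact le_self_add
            · rw [min_eq_right h]; exact hgb _
          calc _ ≤ (min (fl Λ ht dz A (j, z)) (g (j, z)) + b (j, z)) * K j z :=
                mul_le_mul_left h2 _
            _ ≤ _ := by
                rw [add_mul]
                refine add_le_add le_rfl ?_
                calc b (j, z) * K j z ≤ b (j, z) * 1 := mul_le_mul_right (hK1 _ _) _
                  _ = _ := mul_one _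
      _ ≤ _ := by
          rw [ENNReal.tsum_add]
          refine add_le_add (hK j hj' _ ?_ fun z => (min_le_right _ _).trans (hg _)) le_rfl
          calc _ ≤ ∑' z, fl Λ ht dz A (j, z) := ENNReal.tsum_le_tsum fun z => min_le_left _ _
            _ ≤ ∑' v, fl Λ ht dz A v :=
                ENNReal.tsum_comp_le_tsum_of_injective (f := fun z : G => (j, z))
                  (fun z z' h => by simpa using h) _
            _ = 1 := fl_mass Λ ht dz h1 hΛ A
  refine (Finset.sum_le_sum e).trans ?_
  rw [Finset.sum_add_distrib, Finset.sum_const, card_range, nsmul_eq_mul]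
  refine add_le_add (le_of_eq (by push_cast; ring)) (le_trans ?_ hb)
  rw [ENNReal.tsum_prod']
  exact ENNReal.sum_le_tsum (f := fun i => ∑' z, b (i, z)) _

/-- decomposition of a long list -/
theorem decomp (h1 : ∀ b, 1 ≤ ht b) (hΛ : ∑' b, Λ b = 1) (i0 : ℕ) (o : ℝ≥0∞)
    (ho : ∀ A, ∑' L, (if fp ht L A ∧ A + i0 < HT ht L then LW Λ L else 0) ≤ o)
    (n A S : ℕ) (hn : A + i0 + S ≤ n) (Φ : List B → ℝ≥0∞) (hΦ : ∀ L, Φ L ≤ 1)
    (Ψ : List B → List B → ℝ≥0∞)
    (hΨ : ∀ L1 L2 L3, fp ht L1 A → HT ht L1 ≤ A + i0 → fp ht L2 S → HT ht L2 ≤ S + i0 →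
      HT ht (L1 ++ (L2 ++ L3)) = n → Φ (L1 ++ (L2 ++ L3)) ≤ Ψ L1 L2) :
    ∑' L, (if HT ht L = n then LW Λ L * Φ L else 0)
      ≤ 2 * o + ∑' L1, gw Λ ht i0 A L1 * ∑' L2, gw Λ ht i0 S L2 * Ψ L1 L2 := by
  set F : List B → ℝ≥0∞ := fun L => if HT ht L = n then LW Λ L * Φ L else 0 with hF
  have hU := U_le_one ht Λ h1 hΛ
  -- crude bound after a first list
  have crude : ∀ L1, ∑' R, F (L1 ++ R) ≤ LW Λ L1 := by
    intro L1
    calc ∑' R, F (L1 ++ R) ≤ ∑' R, LW Λ L1 * (if HT ht R = n - HT ht L1 then LW Λ R else 0) := by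
          refine ENNReal.tsum_le_tsum fun R => ?_
          simp only [hF]
          rw [HT_append, LW_append]
          by_cases h : HT ht L1 + HT ht R = n
          · rw [if_pos h, if_pos (by omega)]
            calc _ ≤ LW Λ L1 * LW Λ R * 1 := mul_le_mul_right (hΦ _) _
              _ = _ := mul_one _
          · rw [if_neg h]; exact zero_le
      _ = LW Λ L1 * U Λ ht (n - HT ht L1) := by rw [ENNReal.tsum_mul_left]; rfl
      _ ≤ LW Λ L1 * 1 := mul_le_mul_right (hU _) _
      _ = _ := mul_one _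
  have e1 : ∑' L, F L = ∑' L, (if A ≤ HT ht L then F L else 0) := by
    refine tsum_congr fun L => ?_
    by_cases h : A ≤ HT ht L
    · rw [if_pos h]
    · rw [if_neg h]
      simp only [hF]
      rw [if_neg (by omega)]
  rw [e1, tsum_split ht h1 A F]
  have key : ∀ L1, (if fp ht L1 A then ∑' R, F (L1 ++ R) else 0)
      ≤ (if fp ht L1 A ∧ A + i0 < HT ht L1 then LW Λ L1 else 0)
        + gw Λ ht i0 A L1 * (o + ∑' L2, gw Λ ht i0 S L2 * Ψ L1 L2) := by
    intro L1
    by_cases h : fp ht L1 A
    · rw [if_pos h]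
      by_cases h2 : A + i0 < HT ht L1
      · rw [if_pos ⟨h, h2⟩]
        exact le_add_right (crude L1)
      · refine le_add_left ?_
        have h2' : HT ht L1 ≤ A + i0 := not_lt.1 h2
        rw [gw, if_pos ⟨h, h2'⟩]
        have e2 : ∑' R, F (L1 ++ R) = ∑' R, (if S ≤ HT ht R then F (L1 ++ R) else 0) := by
          refine tsum_congr fun R => ?_
          by_cases h3 : S ≤ HT ht R
          · rw [if_pos h3]
          · rw [if_neg h3]
            simp only [hF]
            rw [HT_append, if_neg (by omega)]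
        rw [e2, tsum_split ht h1 S (fun R => F (L1 ++ R))]
        calc ∑' L2, (if fp ht L2 S then ∑' L3, F (L1 ++ (L2 ++ L3)) else 0)
            ≤ ∑' L2, (LW Λ L1 * (if fp ht L2 S ∧ S + i0 < HT ht L2 then LW Λ L2 else 0)
                + LW Λ L1 * (gw Λ ht i0 S L2 * Ψ L1 L2)) := by
              refine ENNReal.tsum_le_tsum fun L2 => ?_
              by_cases h3 : fp ht L2 S
              · rw [if_pos h3]
                by_cases h4 : S + i0 < HT ht L2
                · rw [if_pos ⟨h3, h4⟩]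
                  refine le_add_right ?_
                  rw [← LW_append]
                  simp only [← List.append_assoc]
                  exact crude (L1 ++ L2)
                · refine le_add_left ?_
                  have h4' := not_lt.1 h4
                  rw [gw, if_pos ⟨h3, h4'⟩]
                  calc ∑' L3, F (L1 ++ (L2 ++ L3))
                      ≤ ∑' L3, LW Λ L1 * (LW Λ L2 * Ψ L1 L2) *
                        (if HT ht L3 = n - HT ht L1 - HT ht L2 then LW Λ L3 else 0) := by
                        refine ENNReal.tsum_le_tsum fun L3 => ?_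
                        by_cases h5 : HT ht (L1 ++ (L2 ++ L3)) = n
                        · have h6 := hΨ L1 L2 L3 h h2' h3 h4' h5
                          simp only [hF]
                          rw [if_pos h5]
                          rw [HT_append, HT_append] at h5
                          rw [if_pos (by omega), LW_append, LW_append]
                          calc _ ≤ LW Λ L1 * (LW Λ L2 * LW Λ L3) * Ψ L1 L2 :=
                                mul_le_mul_right h6 _
                            _ = _ := by ring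
                        · simp only [hF]
                          rw [if_neg h5]; exact zero_le
                    _ = LW Λ L1 * (LW Λ L2 * Ψ L1 L2) * U Λ ht (n - HT ht L1 - HT ht L2) := by
                        rw [ENNReal.tsum_mul_left]; rfl
                    _ ≤ LW Λ L1 * (LW Λ L2 * Ψ L1 L2) * 1 := mul_le_mul_right (hU _) _
                    _ = _ := mul_one _
              · rw [if_neg h3]; exact zero_le
          _ ≤ _ := by
              rw [ENNReal.tsum_add, ENNReal.tsum_mul_left, ENNReal.tsum_mul_left, mul_add]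
              exact add_le_add (mul_le_mul_right (ho S) _) le_rfl
    · rw [if_neg h]; exact zero_le
  refine (ENNReal.tsum_le_tsum key).trans ?_
  rw [ENNReal.tsum_add]
  have e3 : ∑' L1, gw Λ ht i0 A L1 * (o + ∑' L2, gw Λ ht i0 S L2 * Ψ L1 L2)
      ≤ o + ∑' L1, gw Λ ht i0 A L1 * ∑' L2, gw Λ ht i0 S L2 * Ψ L1 L2 := by
    simp_rw [mul_add]
    rw [ENNReal.tsum_add, ENNReal.tsum_mul_right]
    refine add_le_add ?_ le_rfl
    calc _ ≤ 1 * o := mul_le_mul_left (gw_mass Λ ht h1 hΛ i0 A) _
      _ = o := one_mul _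
  refine (add_le_add (ho A) e3).trans (le_of_eq ?_)
  ring

end one

end Crest.Agent.R154.Asm195
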