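import Crest.Agent.R154.Geo_225
import Crest.Agent.R154.NumK_658

/-! Row 154 (helper225), ROAD 801: the assembly. -/

set_option autoImplicit false

namespace Crest.Agent.R154.Cd225

open scoped ENNReal Topology
open Crest.Agent.R154.B5A
open Crest.Agent.R154.FP178 (fp)

variable {BX BY G : Type*} [AddCommGroup G] (X : Wk BX G) (Y : Wk BY G)

open Classical in
/-- contact sum of two crossings, `X` local -/
noncomputable def SX (lo hi a a' h h' : ℕ) (E : Finset G) (x : G) : ℝ≥0∞ :=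
  ∑' L, ∑' L', (if HT X.h L = h ∧ (L.map X.z).sum ∈ E ∧ HT Y.h L' = h' ∧
    Cc X Y lo hi a a' x L L' then LW X.Λ L * LW Y.Λ L' else 0)

open Classical in
/-- contact sum of two crossings, `Y` local -/
noncomputable def SY (lo hi a a' h h' : ℕ) (E : Finset G) (x : G) : ℝ≥0∞ :=
  ∑' L, ∑' L', (if HT X.h L = h ∧ (L'.map Y.z).sum ∈ E ∧ HT Y.h L' = h' ∧
    Cc X Y lo hi a a' x L L' then LW X.Λ L * LW Y.Λ L' else 0)

/-- the window lemma for the functional `S` (`g` = bound for the drifts) -/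
def HQ (S : ℕ → ℕ → ℕ → ℕ → ℕ → ℕ → Finset G → G → ℝ≥0∞) : Prop :=
  ∀ (g : ℕ) (κ : ℝ≥0∞), κ ≠ ⊤ → ∀ ε : ℝ≥0∞, ε ≠ 0 → ∃ s0 : ℕ, ∀ s, s0 ≤ s →
    ∀ (lo hi a a' h h' : ℕ) (E : Finset G) (μ : G → ℝ≥0∞) (M : ℝ≥0∞), ∑' x, μ x ≤ 1 →
      (∀ x, μ x ≤ M) → M ≠ ⊤ → M * E.card ≤ κ →
      a ≤ a' + g → a' ≤ a + g → a + h ≤ a' + h' + g → a' + h' ≤ a + h + g →
      a + s ≤ lo → a' + s ≤ lo → hi + s ≤ a + h → hi + s ≤ a' + h' →
      ∑' x, μ x * S lo hi a a' h h' E x ≤ ε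

open Classical in
/-- one level -/
def HPt : Prop := ∀ ε : ℝ≥0∞, ε ≠ 0 → ∃ k0 : ℕ, ∀ k, k0 ≤ k → ∀ n, k ≤ n → ∀ w : G,
  ∑' L, ∑' L', (if HT X.h L = n ∧ HT Y.h L' = n ∧
    (∃ z, (z, k) ∈ X.T L 0 0 ∧ (z, k) ∈ Y.T L' w 0) then LW X.Λ L * LW Y.Λ L' else 0) ≤ ε

open Classical in
lemma locX_bound (lo hi a a' T i0 : ℕ) (th D : ℝ≥0∞) (E : ℕ → Finset G)
    (hE : ∀ h z, th ≤ X.p0 T (h, z) → z ∈ E h) (μ : G → ℝ≥0∞)
    (hD : ∀ h ∈ Finset.Icc T (T + i0), ∀ h' ∈ Finset.Icc T (T + i0),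
      ∑' x, μ x * SX X Y lo hi a a' h h' (E h) x ≤ D) :
    ∑' x, μ x * (∑' A, ∑' A', (if th ≤ X.p0 T (X.f A) then X.l T i0 A * (Y.l T i0 A' *
      (if Cc X Y lo hi a a' x A A' then 1 else 0)) else 0)) ≤ (i0 + 1) * ((i0 + 1) * D) := by
  have key : ∀ x A A', (if th ≤ X.p0 T (X.f A) then X.l T i0 A * (Y.l T i0 A' *
      (if Cc X Y lo hi a a' x A A' then 1 else 0)) else 0)
      ≤ ∑ h ∈ Finset.Icc T (T + i0), ∑ h' ∈ Finset.Icc T (T + i0),
        (if HT X.h A = h ∧ (A.map X.z).sum ∈ E h ∧ HT Y.h A' = h' ∧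
          Cc X Y lo hi a a' x A A' then LW X.Λ A * LW Y.Λ A' else 0) := by
    intro x A A'
    by_cases h1 : th ≤ X.p0 T (X.f A)
    · rw [if_pos h1]
      by_cases h2 : Cc X Y lo hi a a' x A A'
      · rw [if_pos h2, mul_one]
        by_cases hA : X.l T i0 A = 0
        · rw [hA, zero_mul]; exact zero_le
        · by_cases hA' : Y.l T i0 A' = 0
          · rw [hA', mul_zero]; exact zero_le
          · have g1 := X.l_ne hA
            have g2 := Y.l_ne hA'
            refine le_trans ?_ (Finset.single_le_sum (f := fun h => ∑ h' ∈ Finset.Icc T (T + i0),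
              (if HT X.h A = h ∧ (A.map X.z).sum ∈ E h ∧ HT Y.h A' = h' ∧
                Cc X Y lo hi a a' x A A' then LW X.Λ A * LW Y.Λ A' else 0))
              (fun _ _ => zero_le) (Finset.mem_Icc.2 g1))
            refine le_trans ?_ (Finset.single_le_sum (f := fun h' =>
              (if HT X.h A = HT X.h A ∧ (A.map X.z).sum ∈ E (HT X.h A) ∧ HT Y.h A' = h' ∧
                Cc X Y lo hi a a' x A A' then LW X.Λ A * LW Y.Λ A' else 0))
              (fun _ _ => zero_le) (Finset.mem_Icc.2 g2))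
            have hm : (A.map X.z).sum ∈ E (HT X.h A) := hE _ _ h1
            rw [if_pos ⟨rfl, hm, rfl, h2⟩]
            exact mul_le_mul' (X.l_le_LW T i0 A) (Y.l_le_LW T i0 A')
      · rw [if_neg h2, mul_zero, mul_zero]; exact zero_le
    · rw [if_neg h1]; exact zero_le
  have e1 : ∀ x, ∑' A, ∑' A', (∑ h ∈ Finset.Icc T (T + i0), ∑ h' ∈ Finset.Icc T (T + i0),
        (if HT X.h A = h ∧ (A.map X.z).sum ∈ E h ∧ HT Y.h A' = h' ∧
          Cc X Y lo hi a a' x A A' then LW X.Λ A * LW Y.Λ A' else 0))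
      = ∑ h ∈ Finset.Icc T (T + i0), ∑ h' ∈ Finset.Icc T (T + i0),
        SX X Y lo hi a a' h h' (E h) x := by
    intro x
    simp_rw [Summable.tsum_finsetSum (fun _ _ => ENNReal.summable)]
    rfl
  calc ∑' x, μ x * (∑' A, ∑' A', (if th ≤ X.p0 T (X.f A) then X.l T i0 A * (Y.l T i0 A' *
      (if Cc X Y lo hi a a' x A A' then 1 else 0)) else 0))
      ≤ ∑' x, μ x * ∑ h ∈ Finset.Icc T (T + i0), ∑ h' ∈ Finset.Icc T (T + i0),
        SX X Y lo hi a a' h h' (E h) x := by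
        refine ENNReal.tsum_le_tsum fun x => mul_le_mul_right ?_ _
        rw [← e1]
        exact ENNReal.tsum_le_tsum fun A => ENNReal.tsum_le_tsum fun A' => key x A A'
    _ = ∑ h ∈ Finset.Icc T (T + i0), ∑ h' ∈ Finset.Icc T (T + i0),
        ∑' x, μ x * SX X Y lo hi a a' h h' (E h) x := by
        simp_rw [Finset.mul_sum]
        simp_rw [Summable.tsum_finsetSum (fun _ _ => ENNReal.summable)]
    _ ≤ ∑ h ∈ Finset.Icc T (T + i0), ∑ h' ∈ Finset.Icc T (T + i0), D :=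
        Finset.sum_le_sum fun h hh => Finset.sum_le_sum fun h' hh' => hD h hh h' hh'
    _ = (i0 + 1) * ((i0 + 1) * D) := by
        simp only [Finset.sum_const, nsmul_eq_mul, Nat.card_Icc]
        rw [show T + i0 + 1 - T = i0 + 1 by omega]
        push_cast
        ring

open Classical in
lemma locY_bound (lo hi a a' T i0 : ℕ) (th D : ℝ≥0∞) (E : ℕ → Finset G)
    (hE : ∀ h z, th ≤ Y.p0 T (h, z) → z ∈ E h) (μ : G → ℝ≥0∞)
    (hD : ∀ h ∈ Finset.Icc T (T + i0), ∀ h' ∈ Finset.Icc T (T + i0),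
      ∑' x, μ x * SY X Y lo hi a a' h h' (E h') x ≤ D) :
    ∑' x, μ x * (∑' A, ∑' A', (if th ≤ Y.p0 T (Y.f A') then X.l T i0 A * (Y.l T i0 A' *
      (if Cc X Y lo hi a a' x A A' then 1 else 0)) else 0)) ≤ (i0 + 1) * ((i0 + 1) * D) := by
  have key : ∀ x A A', (if th ≤ Y.p0 T (Y.f A') then X.l T i0 A * (Y.l T i0 A' *
      (if Cc X Y lo hi a a' x A A' then 1 else 0)) else 0)
      ≤ ∑ h ∈ Finset.Icc T (T + i0), ∑ h' ∈ Finset.Icc T (T + i0),
        (if HT X.h A = h ∧ (A'.map Y.z).sum ∈ E h' ∧ HT Y.h A' = h' ∧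
          Cc X Y lo hi a a' x A A' then LW X.Λ A * LW Y.Λ A' else 0) := by
    intro x A A'
    by_cases h1 : th ≤ Y.p0 T (Y.f A')
    · rw [if_pos h1]
      by_cases h2 : Cc X Y lo hi a a' x A A'
      · rw [if_pos h2, mul_one]
        by_cases hA : X.l T i0 A = 0
        · rw [hA, zero_mul]; exact zero_le
        · by_cases hA' : Y.l T i0 A' = 0
          · rw [hA', mul_zero]; exact zero_le
          · have g1 := X.l_ne hA
            have g2 := Y.l_ne hA'
            refine le_trans ?_ (Finset.single_le_sum (f := fun h => ∑ h' ∈ Finset.Icc T (T + i0),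
              (if HT X.h A = h ∧ (A'.map Y.z).sum ∈ E h' ∧ HT Y.h A' = h' ∧
                Cc X Y lo hi a a' x A A' then LW X.Λ A * LW Y.Λ A' else 0))
              (fun _ _ => zero_le) (Finset.mem_Icc.2 g1))
            refine le_trans ?_ (Finset.single_le_sum (f := fun h' =>
              (if HT X.h A = HT X.h A ∧ (A'.map Y.z).sum ∈ E h' ∧ HT Y.h A' = h' ∧
                Cc X Y lo hi a a' x A A' then LW X.Λ A * LW Y.Λ A' else 0))
              (fun _ _ => zero_le) (Finset.mem_Icc.2 g2))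
            have hm : (A'.map Y.z).sum ∈ E (HT Y.h A') := hE _ _ h1
            rw [if_pos ⟨rfl, hm, rfl, h2⟩]
            exact mul_le_mul' (X.l_le_LW T i0 A) (Y.l_le_LW T i0 A')
      · rw [if_neg h2, mul_zero, mul_zero]; exact zero_le
    · rw [if_neg h1]; exact zero_le
  have e1 : ∀ x, ∑' A, ∑' A', (∑ h ∈ Finset.Icc T (T + i0), ∑ h' ∈ Finset.Icc T (T + i0),
        (if HT X.h A = h ∧ (A'.map Y.z).sum ∈ E h' ∧ HT Y.h A' = h' ∧
          Cc X Y lo hi a a' x A A' then LW X.Λ A * LW Y.Λ A' else 0))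
      = ∑ h ∈ Finset.Icc T (T + i0), ∑ h' ∈ Finset.Icc T (T + i0),
        SY X Y lo hi a a' h h' (E h') x := by
    intro x
    simp_rw [Summable.tsum_finsetSum (fun _ _ => ENNReal.summable)]
    rfl
  calc ∑' x, μ x * (∑' A, ∑' A', (if th ≤ Y.p0 T (Y.f A') then X.l T i0 A * (Y.l T i0 A' *
      (if Cc X Y lo hi a a' x A A' then 1 else 0)) else 0))
      ≤ ∑' x, μ x * ∑ h ∈ Finset.Icc T (T + i0), ∑ h' ∈ Finset.Icc T (T + i0),
        SY X Y lo hi a a' h h' (E h') x := by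
        refine ENNReal.tsum_le_tsum fun x => mul_le_mul_right ?_ _
        rw [← e1]
        exact ENNReal.tsum_le_tsum fun A => ENNReal.tsum_le_tsum fun A' => key x A A'
    _ = ∑ h ∈ Finset.Icc T (T + i0), ∑ h' ∈ Finset.Icc T (T + i0),
        ∑' x, μ x * SY X Y lo hi a a' h h' (E h') x := by
        simp_rw [Finset.mul_sum]
        simp_rw [Summable.tsum_finsetSum (fun _ _ => ENNReal.summable)]
    _ ≤ ∑ h ∈ Finset.Icc T (T + i0), ∑ h' ∈ Finset.Icc T (T + i0), D :=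
        Finset.sum_le_sum fun h hh => Finset.sum_le_sum fun h' hh' => hD h hh h' hh'
    _ = (i0 + 1) * ((i0 + 1) * D) := by
        simp only [Finset.sum_const, nsmul_eq_mul, Nat.card_Icc]
        rw [show T + i0 + 1 - T = i0 + 1 by omega]
        push_cast
        ring

end Crest.Agent.R154.Cd225
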