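import Mathlib
import Crest.Prelude.Def_RWRE

/-! Row 154, B2d (helper419): reduction of a real direction to a coordinate direction. Pure logic over
any probability measure on paths; inputs: (H) on `A_l` the path escapes in every direction of an open
half space containing `l`; (K) Kalikow's zero-one law `P(A_l) > 0 → P(A_l ∪ A_{-l}) = 1`. -/

set_option autoImplicit false

namespace Crest.Agent.R154.B2d

open MeasureTheory ProbabilityTheory Filter Topology Crest.ProbabilityR.RandomEnvironment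

variable {d : ℕ}

/-- the real vector of a step. -/
def dirVec (e : Step d) : Fin d → ℝ := fun i => ((stepVec e i : ℤ) : ℝ)

lemma dirVec_apply (e : Step d) (i : Fin d) :
    dirVec e i = if i = e.1 then (if e.2 then 1 else -1) else 0 := by
  unfold dirVec stepVec
  by_cases h : i = e.1
  · subst h
    simp only [Pi.single_eq_same, if_true]
    split <;> simp
  · simp [h]

lemma sum_mul_dirVec (u : Fin d → ℝ) (e : Step d) :
    ∑ i, u i * dirVec e i = if e.2 then u e.1 else -u e.1 := by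
  simp only [dirVec_apply, mul_ite, mul_zero, Finset.sum_ite_eq', Finset.mem_univ, if_true]
  split <;> simp

lemma dirVec_ne_zero (e : Step d) : dirVec e ≠ 0 := by
  intro h
  have := congrFun h e.1
  rw [dirVec_apply] at this
  simp only [if_true, Pi.zero_apply] at this
  split at this <;> norm_num at this

theorem measurableSet_escapeEvent (l : Fin d → ℝ) :
    MeasurableSet (escapeEvent l : Set (ℕ → Site d)) := by
  unfold escapeEvent
  refine measurableSet_tendsto _ fun n => ?_
  refine Finset.measurable_sum _ fun i _ => ?_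
  refine Measurable.mul_const ?_ _
  have h1 : Measurable fun X : ℕ → Site d => X n i :=
    (measurable_pi_apply i).comp (measurable_pi_apply n)
  exact (measurable_of_countable (fun z : ℤ => (z : ℝ))).comp h1

lemma escape_disjoint_neg {l : Fin d → ℝ} {X : ℕ → Site d} (h : X ∈ escapeEvent l)
    (h' : X ∈ escapeEvent (-l)) : False := by
  have h1 : Tendsto (fun n => ∑ i, (X n i : ℝ) * l i) atTop atTop := h
  have h2 : Tendsto (fun n => ∑ i, (X n i : ℝ) * (-l) i) atTop atTop := h'
  have h3 : Tendsto (fun n => ∑ i, (X n i : ℝ) * l i) atTop atBot := by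
    have := tendsto_neg_atTop_atBot.comp h2
    refine this.congr fun n => ?_
    simp [Finset.sum_neg_distrib]
  exact h1.not_tendsto disjoint_atTop_atBot h3

lemma exists_mem_of_ae {Ω : Type*} [MeasurableSpace Ω] {μ : Measure Ω} {s : Set Ω} {p : Ω → Prop}
    (hs : μ s ≠ 0) (hp : ∀ᵐ x ∂μ, p x) : ∃ x ∈ s, p x := by
  by_contra hcon
  push Not at hcon
  exact hs (measure_mono_null (fun x hx => hcon x hx) hp)

lemma one_of_ae {P : Measure (ℕ → Site d)} [IsProbabilityMeasure P] {l : Fin d → ℝ}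
    (h : ∀ᵐ X ∂P, X ∈ escapeEvent l) : P (escapeEvent l) = 1 :=
  (prob_compl_eq_zero_iff (measurableSet_escapeEvent l)).1 (ae_iff.1 h)

lemma ae_of_one {P : Measure (ℕ → Site d)} [IsProbabilityMeasure P] {l : Fin d → ℝ}
    (h : P (escapeEvent l) = 1) : ∀ᵐ X ∂P, X ∈ escapeEvent l :=
  ae_iff.2 ((prob_compl_eq_zero_iff (measurableSet_escapeEvent l)).2 h)

/-- (H): on `A_l` the path escapes in all directions of the open half space of `u`, `u·l > 0`. -/
def HalfSpace (P : Measure (ℕ → Site d)) (l : Fin d → ℝ) : Prop :=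
  ∃ u : Fin d → ℝ, 0 < ∑ i, u i * l i ∧
    ∀ᵐ X ∂P, X ∈ escapeEvent l → ∀ l' : Fin d → ℝ, 0 < ∑ i, u i * l' i → X ∈ escapeEvent l'

/-- (K): Kalikow's zero-one law. -/
def Kalikow (P : Measure (ℕ → Site d)) (l : Fin d → ℝ) : Prop :=
  P (escapeEvent l) ≠ 0 → ∀ᵐ X ∂P, X ∈ escapeEvent l ∨ X ∈ escapeEvent (-l)

lemma exists_step {u : Fin d → ℝ} (hu : u ≠ 0) : ∃ e : Step d, 0 < ∑ i, u i * dirVec e i := by
  obtain ⟨i, hi⟩ : ∃ i, u i ≠ 0 := by
    by_contra hcon
    push Not at hcon
    exact hu (funext hcon)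
  rcases lt_or_gt_of_ne hi with h | h
  · refine ⟨(i, false), ?_⟩
    rw [sum_mul_dirVec]
    simpa using h
  · refine ⟨(i, true), ?_⟩
    rw [sum_mul_dirVec]
    simpa using h

lemma ne_zero_of_dot {u l : Fin d → ℝ} (h : 0 < ∑ i, u i * l i) : u ≠ 0 := by
  rintro rfl
  simp at h

/-- If `P(A_l) = 1` then the direction is deterministic. -/
theorem escape_all {P : Measure (ℕ → Site d)} [IsProbabilityMeasure P] {l : Fin d → ℝ}
    (hH : HalfSpace P l) (h1 : P (escapeEvent l) = 1) :
    ∃ u : Fin d → ℝ, 0 < ∑ i, u i * l i ∧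
      ∀ᵐ X ∂P, ∀ l' : Fin d → ℝ, 0 < ∑ i, u i * l' i → X ∈ escapeEvent l' := by
  obtain ⟨u, hu, hae⟩ := hH
  refine ⟨u, hu, ?_⟩
  have h2 : ∀ᵐ X ∂P, X ∈ escapeEvent l := ae_of_one h1
  filter_upwards [hae, h2] with X h3 h4
  exact h3 h4

/-- If `P(A_l) = 1` then `P(A_e) = 1` for a coordinate direction `e`. -/
theorem exists_step_one {P : Measure (ℕ → Site d)} [IsProbabilityMeasure P] {l : Fin d → ℝ}
    (hH : HalfSpace P l) (h1 : P (escapeEvent l) = 1) :
    ∃ e : Step d, P (escapeEvent (dirVec e)) = 1 := by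
  obtain ⟨u, hu, hae⟩ := escape_all hH h1
  obtain ⟨e, he⟩ := exists_step (ne_zero_of_dot hu)
  refine ⟨e, one_of_ae ?_⟩
  filter_upwards [hae] with X hX
  exact hX _ he

/-- Two half spaces on which the same path escapes are equal up to a positive factor, in the form
used: no `l'` with `u·l' > 0` and `w·l' < 0`. -/
lemma dot_nonneg_of_escape {w u : Fin d → ℝ} {X : ℕ → Site d}
    (hw : ∀ l' : Fin d → ℝ, 0 < ∑ i, w i * l' i → X ∈ escapeEvent l')
    (hu : ∀ l' : Fin d → ℝ, 0 < ∑ i, u i * l' i → X ∈ escapeEvent l') {l' : Fin d → ℝ}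
    (h1 : 0 < ∑ i, u i * l' i) : 0 ≤ ∑ i, w i * l' i := by
  by_contra hcon
  push Not at hcon
  have h2 : 0 < ∑ i, w i * (-l') i := by
    have : ∑ i, w i * (-l') i = -∑ i, w i * l' i := by
      simp [Finset.sum_neg_distrib]
    rw [this]
    linarith
  exact escape_disjoint_neg (hu l' h1) (hw (-l') h2)

/-- **B2d.** If `0 < P(A_l) < 1` then `0 < P(A_e) < 1` for a coordinate direction `e`. -/
theorem exists_step_nontrivial {P : Measure (ℕ → Site d)} [IsProbabilityMeasure P]
    {l : Fin d → ℝ} (hH : ∀ l : Fin d → ℝ, P (escapeEvent l) ≠ 0 → l ≠ 0 → HalfSpace P l)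
    (hK : Kalikow P l) (hl : l ≠ 0) (h0 : P (escapeEvent l) ≠ 0) (h1 : P (escapeEvent l) ≠ 1) :
    ∃ e : Step d, P (escapeEvent (dirVec e)) ≠ 0 ∧ P (escapeEvent (dirVec e)) ≠ 1 := by
  obtain ⟨u, hu, hae⟩ := hH l h0 hl
  obtain ⟨e, he⟩ := exists_step (ne_zero_of_dot hu)
  have hpos : P (escapeEvent (dirVec e)) ≠ 0 := by
    intro hz
    obtain ⟨X, hX, hX2⟩ := exists_mem_of_ae h0 (p := fun X => X ∉ escapeEvent (dirVec e) ∧
      (X ∈ escapeEvent l → ∀ l' : Fin d → ℝ, 0 < ∑ i, u i * l' i → X ∈ escapeEvent l')) (by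
        have : ∀ᵐ X ∂P, X ∉ escapeEvent (dirVec e) := by
          rw [ae_iff]
          simpa using hz
        filter_upwards [this, hae] with X a b
        exact ⟨a, b⟩)
    exact hX2.1 (hX2.2 hX _ he)
  refine ⟨e, hpos, fun hone => ?_⟩
  obtain ⟨w, hw, hwae⟩ := escape_all (hH _ hpos (dirVec_ne_zero e)) hone
  -- P(A_{-l}) > 0
  have hneg : P (escapeEvent (-l)) ≠ 0 := by
    intro hz
    refine h1 (one_of_ae ?_)
    have : ∀ᵐ X ∂P, X ∉ escapeEvent (-l) := by
      rw [ae_iff]
      simpa using hz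
    filter_upwards [this, hK h0] with X a b
    exact b.resolve_right a
  -- w·l = 0
  have hwl1 : 0 ≤ ∑ i, w i * l i := by
    by_contra hcon
    push Not at hcon
    obtain ⟨X, hX, hX2⟩ := exists_mem_of_ae h0 hwae
    refine escape_disjoint_neg hX (hX2 (-l) ?_)
    have : ∑ i, w i * (-l) i = -∑ i, w i * l i := by
      simp [Finset.sum_neg_distrib]
    rw [this]
    linarith
  have hwl2 : ∑ i, w i * l i ≤ 0 := by
    by_contra hcon
    push Not at hcon
    obtain ⟨X, hX, hX2⟩ := exists_mem_of_ae hneg hwae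
    exact escape_disjoint_neg (hX2 l hcon) hX
  have hwl : ∑ i, w i * l i = 0 := le_antisymm hwl2 hwl1
  -- a path of A_l which escapes in both half spaces
  obtain ⟨X, hX, hX2⟩ := exists_mem_of_ae h0 (hwae.and hae)
  have hXu := hX2.2 hX
  have hXw := hX2.1
  set a := ∑ i, u i * l i with ha
  set b := ∑ i, u i * w i with hb
  have hww : 0 < ∑ i, w i * w i := by
    have hw0 : w ≠ 0 := ne_zero_of_dot hw
    obtain ⟨i, hi⟩ : ∃ i, w i ≠ 0 := by
      by_contra hcon
      push Not at hcon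
      exact hw0 (funext hcon)
    exact Finset.sum_pos' (fun i _ => mul_self_nonneg _) ⟨i, Finset.mem_univ _,
      mul_self_pos.2 hi⟩
  set c : ℝ := a / (2 * (1 + |b|)) with hc
  have hbpos : 0 < 1 + |b| := by positivity
  have hcpos : 0 < c := by positivity
  have hcb : c * |b| ≤ a / 2 := by
    rw [hc, div_mul_eq_mul_div, div_le_div_iff₀ (by positivity) (by norm_num)]
    nlinarith [abs_nonneg b]
  set l' : Fin d → ℝ := fun i => l i - c * w i with hl'
  have h3 : ∑ i, u i * l' i = a - c * b := by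
    rw [ha, hb, Finset.mul_sum, ← Finset.sum_sub_distrib]
    exact Finset.sum_congr rfl fun i _ => by rw [hl']; ring
  have h4 : ∑ i, w i * l' i = -(c * ∑ i, w i * w i) := by
    have : ∑ i, w i * l' i = (∑ i, w i * l i) - c * ∑ i, w i * w i := by
      rw [Finset.mul_sum, ← Finset.sum_sub_distrib]
      exact Finset.sum_congr rfl fun i _ => by rw [hl']; ring
    rw [this, hwl, zero_sub]
  have h5 : 0 < ∑ i, u i * l' i := by
    rw [h3]
    have : c * b ≤ c * |b| := mul_le_mul_of_nonneg_left (le_abs_self b) hcpos.le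
    linarith
  have h6 := dot_nonneg_of_escape hXw hXu h5
  rw [h4] at h6
  have : 0 < c * ∑ i, w i * w i := mul_pos hcpos hww
  linarith

end Crest.Agent.R154.B2d
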