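import Crest.Agent.R154.Kal_132
import Crest.Agent.R154.B2d_419

/-! Row 154 (helper247): the literal end of S0219 and S0221. Inputs: for every real direction `ℓ` with
`P(A_ℓ) > 0` the path of `A_ℓ` escapes in an open half space (B2), and for every step `e` the events
`A_e`, `A_{-e}` cannot both have positive probability. The second input follows from
`P(reach level ≤ -h before level 1) → 0` (804's (D)). -/

set_option autoImplicit false

namespace Crest.Agent.R154.Asm247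

open MeasureTheory ProbabilityTheory Crest.ProbabilityR.RandomEnvironment Filter
open Crest.Agent.R154.Kal132 Crest.Agent.R154.B2d
open scoped ENNReal Topology

variable {d : ℕ}

/-- the walk reaches level `≤ -h` in direction `ℓ` before level `1`. -/
def Down (ℓ : Fin d → ℝ) (h : ℕ) : Set (Path d) :=
  {X | ∃ n, L ℓ (X n) ≤ -(h : ℝ) ∧ ∀ m, m ≤ n → L ℓ (X m) < 1}

lemma ae_zero (Q : Measure (Environment d)) [IsProbabilityMeasure Q] :
    ∀ᵐ X ∂annealed Q 0, X 0 = 0 := by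
  refine annealed_ae ?_ ?_
  · exact measurable_coordSet 0 {0}
  · exact Eventually.of_forall fun ω => quenched_zero_eq ω 0

/-- 804 (D): if the walk reaches level `-h` before level `1` with probability tending to `0` then it
never escapes downwards. -/
theorem not_both_of_down {Q : Measure (Environment d)} [IsProbabilityMeasure Q]
    (hstat : ∀ z : Site d, MeasurePreserving (shiftEnv z) Q Q) (hS : SlabProp Q)
    (ℓ : Fin d → ℝ) (hℓ : ℓ ≠ 0)
    (hB : Tendsto (fun h : ℕ => annealed Q 0 (Down ℓ h)) atTop (𝓝 0)) :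
    annealed Q 0 (escapeEvent (-ℓ)) = 0 := by
  by_contra h
  have hp := pD_pos hstat (-ℓ) h
  have hle : ∀ k : ℕ, annealed Q 0 (Stay (-ℓ)) ≤ annealed Q 0 (Down ℓ k) := by
    intro k
    refine measure_mono_ae ?_
    filter_upwards [ae_zero Q, updown hS (-ℓ) (neg_ne_zero.2 hℓ)] with X h0 h1 hX
    have hX' : ∀ n, L ℓ (X n) ≤ 0 := by
      intro n
      have h2 := hX n
      rw [h0, L_neg, L_neg] at h2
      have h3 : L ℓ (0 : Site d) = 0 := by simp [L]
      linarith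
    rcases h1 with h1 | h1
    · obtain ⟨n, hn⟩ := (h1 (k : ℝ)).exists
      rw [L_neg] at hn
      exact ⟨n, by linarith, fun m _ => lt_of_le_of_lt (hX' m) one_pos⟩
    · exfalso
      obtain ⟨n, hn⟩ := (h1.eventually (eventually_lt_atBot 0)).exists
      rw [L_neg] at hn
      have := hX' n
      linarith
  exact hp (le_antisymm (ge_of_tendsto' hB hle) bot_le)

/-- `0`-`1` law from the half space property and the one-sided statement for the steps. -/
theorem zero_one_of {Q : Measure (Environment d)} [IsProbabilityMeasure Q]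
    (hstat : ∀ z : Site d, MeasurePreserving (shiftEnv z) Q Q) (hS : SlabProp Q)
    (hR : ∀ ℓ : Fin d → ℝ, ℓ ≠ 0 → RetryProp Q ℓ)
    (hH : ∀ ℓ : Fin d → ℝ, annealed Q 0 (escapeEvent ℓ) ≠ 0 → ℓ ≠ 0 →
      HalfSpace (annealed Q 0) ℓ)
    (hNB : ∀ e : Step d, annealed Q 0 (escapeEvent (dirVec e)) ≠ 0 →
      annealed Q 0 (escapeEvent (-dirVec e)) = 0)
    (ℓ : Fin d → ℝ) (hℓ : ℓ ≠ 0) :
    annealedProb Q 0 (escapeEvent ℓ) = 0 ∨ annealedProb Q 0 (escapeEvent ℓ) = 1 := by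
  rw [← annealed_apply Q 0 (measurableSet_escape ℓ)]
  by_contra hcon
  push Not at hcon
  obtain ⟨h0, h1⟩ := hcon
  obtain ⟨e, he0, he1⟩ := exists_step_nontrivial (P := annealed Q 0) hH
    (fun h => kalikow_ae hstat hS ℓ hℓ (hR ℓ hℓ) h) hℓ h0 h1
  apply he1
  refine one_of_ae ?_
  have hneg : ∀ᵐ X ∂annealed Q 0, X ∉ escapeEvent (-dirVec e) :=
    measure_eq_zero_iff_ae_notMem.1 (hNB e he0)
  filter_upwards [hneg, kalikow_ae hstat hS (dirVec e) (dirVec_ne_zero e)
    (hR _ (dirVec_ne_zero e)) he0] with X a b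
  exact b.resolve_right a

/-- **end of S0221**: uniformly elliptic, stationary, finite range. -/
theorem zero_one_ue {Q : Measure (Environment d)} [IsProbabilityMeasure Q]
    (hstat : ∀ z : Site d, MeasurePreserving (shiftEnv z) Q Q) {κ : ℝ} (hκ : 0 < κ)
    (hell : ∀ᵐ ω ∂Q, ∀ (x : Site d) (e : Step d), κ ≤ (ω x).1 e) {R : ℕ}
    (hR : IsFiniteRangeDependent Q R)
    (hH : ∀ ℓ : Fin d → ℝ, annealed Q 0 (escapeEvent ℓ) ≠ 0 → ℓ ≠ 0 →
      HalfSpace (annealed Q 0) ℓ)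
    (hB : ∀ e : Step d, annealed Q 0 (escapeEvent (dirVec e)) ≠ 0 →
      Tendsto (fun h : ℕ => annealed Q 0 (Down (dirVec e) h)) atTop (𝓝 0))
    (ℓ : Fin d → ℝ) (hℓ : ℓ ≠ 0) :
    annealedProb Q 0 (escapeEvent ℓ) = 0 ∨ annealedProb Q 0 (escapeEvent ℓ) = 1 :=
  zero_one_of hstat (slabProp_ue hκ hell) (fun ℓ hℓ => retry_ue hstat hκ hell hR ℓ hℓ) hH
    (fun e he => not_both_of_down hstat (slabProp_ue hκ hell) _ (dirVec_ne_zero e) (hB e he)) ℓ hℓ

/-- **end of S0219**: iid, elliptic. -/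
theorem zero_one_iid (ν : Measure (Row d)) [IsProbabilityMeasure ν]
    (hν : ∀ᵐ p ∂ν, ∀ e : Step d, 0 < p.1 e)
    (hH : ∀ ℓ : Fin d → ℝ, annealed (iidEnvironmentLaw ν) 0 (escapeEvent ℓ) ≠ 0 → ℓ ≠ 0 →
      HalfSpace (annealed (iidEnvironmentLaw ν) 0) ℓ)
    (hNB : ∀ e : Step d, annealed (iidEnvironmentLaw ν) 0 (escapeEvent (dirVec e)) ≠ 0 →
      annealed (iidEnvironmentLaw ν) 0 (escapeEvent (-dirVec e)) = 0)
    (ℓ : Fin d → ℝ) (hℓ : ℓ ≠ 0) :
    annealedProb (iidEnvironmentLaw ν) 0 (escapeEvent ℓ) = 0 ∨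
      annealedProb (iidEnvironmentLaw ν) 0 (escapeEvent ℓ) = 1 :=
  zero_one_of (Q561.iid_shift ν) (slabProp_iid ν hν) (fun ℓ hℓ => retry_iid ν ℓ hℓ) hH hNB ℓ hℓ

end Crest.Agent.R154.Asm247
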