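import Crest.Agent.R154.Ren_396
import Crest.Agent.R154.Sel_300

/-! Row 154, ROAD 801 (helper284): the abstract assembly, independent version.
`dec_le` : decomposition of one walker; `half` : one of the two walkers is local. -/

set_option autoImplicit false

namespace Crest.Agent.R154.Asm284

open Crest.Agent.R154.B5A Crest.Agent.R154.Ren396
open scoped ENNReal

section One

variable {B : Type*} (Λ : B → ℝ≥0∞) (ht : B → ℕ)

open Classical in
lemma rest (hU1 : ∀ n, U Λ ht n ≤ 1) (k n : ℕ) (c : ℝ≥0∞) (f : List B → ℝ≥0∞)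
    (hf : ∀ R, k + HT ht R = n → f R ≤ c * LW Λ R) (hf0 : ∀ R, k + HT ht R ≠ n → f R = 0) :
    ∑' R, f R ≤ c := by
  calc ∑' R, f R ≤ ∑' R, c * (if HT ht R = n - k then LW Λ R else 0) := by
        refine ENNReal.tsum_le_tsum fun R => ?_
        by_cases h : k + HT ht R = n
        · rw [if_pos (by omega)]
          exact hf R h
        · rw [hf0 R h]; exact zero_le
    _ = c * U Λ ht (n - k) := by rw [ENNReal.tsum_mul_left, U]
    _ ≤ c * 1 := mul_le_mul_right (hU1 _) _
    _ = c := mul_one _

open Classical in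
theorem dec_le (hΛ : ∑' b, Λ b ≤ 1) (h1 : ∀ b, 1 ≤ ht b) (hU1 : ∀ n, U Λ ht n ≤ 1)
    (A τ i0 n : ℕ) (hn : A + i0 + τ ≤ n)
    (Φ : List B → ℝ≥0∞) (hV : ∀ L, Φ L ≤ 1) (Ψ : List B → List B → ℝ≥0∞)
    (hΨ : ∀ L1 P R, HT ht L1 + (HT ht P + HT ht R) = n → FR ht L1 A → HT ht L1 ≤ A + i0 →
      FR ht P τ → HT ht P ≤ τ + i0 → Φ (L1 ++ (P ++ R)) ≤ Ψ L1 P) :
    ∑' L, (if HT ht L = n then LW Λ L * Φ L else 0)
      ≤ 2 * TS Λ ht (i0 + 1) + ∑' L1, ∑' P, (if FR ht L1 A ∧ HT ht L1 ≤ A + i0 ∧ FR ht P τ ∧
          HT ht P ≤ τ + i0 then LW Λ L1 * LW Λ P * Ψ L1 P else 0) := by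
  have key : ∀ L1 : List B, FR ht L1 A → HT ht L1 ≤ A + i0 →
      ∑' R1 : List B, (if HT ht (L1 ++ R1) = n then LW Λ (L1 ++ R1) * Φ (L1 ++ R1) else 0)
      ≤ ∑' P : List B, ((if FR ht P τ ∧ τ + i0 < HT ht P then LW Λ L1 * LW Λ P else 0)
        + (if FR ht P τ ∧ HT ht P ≤ τ + i0 then LW Λ L1 * LW Λ P * Ψ L1 P else 0)) := by
    intro L1 hL1 hL2
    have e1 : ∑' R1 : List B, (if HT ht (L1 ++ R1) = n then LW Λ (L1 ++ R1) * Φ (L1 ++ R1) else 0)
        = ∑' R1 : List B, (if τ ≤ HT ht R1 then
          (if HT ht (L1 ++ R1) = n then LW Λ (L1 ++ R1) * Φ (L1 ++ R1) else 0) else 0) := by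
      refine tsum_congr fun R1 => ?_
      by_cases h : HT ht (L1 ++ R1) = n
      · have h' := h
        rw [HT_append] at h'
        rw [if_pos h, if_pos (by omega)]
      · simp [h]
    rw [e1, split_FR ht τ (fun R1 => if HT ht (L1 ++ R1) = n then
      LW Λ (L1 ++ R1) * Φ (L1 ++ R1) else 0)]
    refine ENNReal.tsum_le_tsum fun P => ?_
    by_cases hP : FR ht P τ
    · rw [if_pos hP]
      by_cases hP2 : HT ht P ≤ τ + i0
      · rw [if_neg (fun h => absurd h.2 (not_lt.2 hP2)), if_pos ⟨hP, hP2⟩, zero_add]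
        refine rest Λ ht hU1 (HT ht L1 + HT ht P) n _ _ (fun R hR => ?_) (fun R hR => ?_)
        · have hh : HT ht L1 + (HT ht P + HT ht R) = n := by omega
          rw [if_pos (by rw [HT_append, HT_append]; exact hh)]
          rw [LW_append, LW_append]
          calc LW Λ L1 * (LW Λ P * LW Λ R) * Φ (L1 ++ (P ++ R))
              ≤ LW Λ L1 * (LW Λ P * LW Λ R) * Ψ L1 P :=
                mul_le_mul_right (hΨ L1 P R hh hL1 hL2 hP hP2) _
            _ = LW Λ L1 * LW Λ P * Ψ L1 P * LW Λ R := by ring
        · rw [if_neg]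
          rw [HT_append, HT_append]; omega
      · rw [if_pos ⟨hP, not_le.1 hP2⟩, if_neg (fun h => hP2 h.2), add_zero]
        refine rest Λ ht hU1 (HT ht L1 + HT ht P) n _ _ (fun R hR => ?_) (fun R hR => ?_)
        · rw [if_pos (by rw [HT_append, HT_append]; omega)]
          rw [LW_append, LW_append]
          calc LW Λ L1 * (LW Λ P * LW Λ R) * Φ (L1 ++ (P ++ R))
              ≤ LW Λ L1 * (LW Λ P * LW Λ R) * 1 := mul_le_mul_right (hV _) _
            _ = LW Λ L1 * LW Λ P * LW Λ R := by ring
        · rw [if_neg]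
          rw [HT_append, HT_append]; omega
    · rw [if_neg hP]; exact zero_le
  have e0 : ∑' L, (if HT ht L = n then LW Λ L * Φ L else 0)
      = ∑' L : List B, (if A ≤ HT ht L then (if HT ht L = n then LW Λ L * Φ L else 0) else 0) := by
    refine tsum_congr fun L => ?_
    by_cases h : HT ht L = n
    · rw [if_pos h, if_pos (by omega)]
    · simp [h]
  rw [e0, split_FR ht A (fun L => if HT ht L = n then LW Λ L * Φ L else 0)]
  calc _ ≤ ∑' L1 : List B, ((if FR ht L1 A ∧ A + i0 < HT ht L1 then LW Λ L1 else 0)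
        + ((if FR ht L1 A then LW Λ L1 else 0) * TS Λ ht (i0 + 1)
        + ∑' P, (if FR ht L1 A ∧ HT ht L1 ≤ A + i0 ∧ FR ht P τ ∧
          HT ht P ≤ τ + i0 then LW Λ L1 * LW Λ P * Ψ L1 P else 0))) := by
        refine ENNReal.tsum_le_tsum fun L1 => ?_
        by_cases hL : FR ht L1 A
        · rw [if_pos hL]
          by_cases hL2 : HT ht L1 ≤ A + i0
          · refine (key L1 hL hL2).trans ?_
            rw [ENNReal.tsum_add]
            refine le_add_left (add_le_add ?_ ?_)
            · rw [if_pos hL]
              calc _ = LW Λ L1 * ∑' P : List B, (if FR ht P τ ∧ τ + i0 < HT ht P then LW Λ P else 0) := by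
                    rw [← ENNReal.tsum_mul_left]
                    refine tsum_congr fun P => ?_
                    split_ifs <;> simp
                _ ≤ _ := mul_le_mul_right (over_le Λ ht hU1 τ i0) _
            · refine ENNReal.tsum_le_tsum fun P => ?_
              by_cases hP : FR ht P τ ∧ HT ht P ≤ τ + i0
              · rw [if_pos hP, if_pos ⟨hL, hL2, hP⟩]
              · rw [if_neg hP]; exact zero_le
          · rw [if_pos ⟨hL, not_le.1 hL2⟩]
            refine le_add_right ?_
            refine rest Λ ht hU1 (HT ht L1) n _ _ (fun R hR => ?_) (fun R hR => ?_)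
            · rw [if_pos (by rw [HT_append]; exact hR), LW_append]
              calc LW Λ L1 * LW Λ R * Φ (L1 ++ R) ≤ LW Λ L1 * LW Λ R * 1 :=
                    mul_le_mul_right (hV _) _
                _ = _ := mul_one _
            · rw [if_neg]; rw [HT_append]; exact hR
        · rw [if_neg hL]; exact zero_le
    _ = (∑' L1 : List B, (if FR ht L1 A ∧ A + i0 < HT ht L1 then LW Λ L1 else 0))
        + ((∑' L1 : List B, (if FR ht L1 A then LW Λ L1 else 0)) * TS Λ ht (i0 + 1)
        + ∑' L1, ∑' P, (if FR ht L1 A ∧ HT ht L1 ≤ A + i0 ∧ FR ht P τ ∧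
          HT ht P ≤ τ + i0 then LW Λ L1 * LW Λ P * Ψ L1 P else 0)) := by
        rw [ENNReal.tsum_add, ENNReal.tsum_add, ENNReal.tsum_mul_right]
    _ ≤ TS Λ ht (i0 + 1) + (1 * TS Λ ht (i0 + 1)
        + ∑' L1, ∑' P, (if FR ht L1 A ∧ HT ht L1 ≤ A + i0 ∧ FR ht P τ ∧
          HT ht P ≤ τ + i0 then LW Λ L1 * LW Λ P * Ψ L1 P else 0)) := by
        refine add_le_add (over_le Λ ht hU1 A i0) (add_le_add ?_ le_rfl)
        exact mul_le_mul_left (mass_FR Λ ht hΛ h1 A) _
    _ = _ := by rw [one_mul, ← add_assoc, two_mul]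

end One

section Two

variable {B B' G : Type*} [AddCommGroup G] (Λ : B → ℝ≥0∞) (ht : B → ℕ) (z : B → G)
  (Λ' : B' → ℝ≥0∞) (ht' : B' → ℕ) (z' : B' → G)

open Classical in
/-- grouping by (height, displacement) at the first renewal -/
lemma group_FR (A N : ℕ) (F : ℕ → G → ℝ≥0∞) :
    ∑' L1 : List B, (if FR ht L1 A ∧ HT ht L1 ≤ N then LW Λ L1 * F (HT ht L1) (dp z L1) else 0)
      = ∑' c, ∑' δ, (if c ≤ N then W Λ ht z A c δ * F c δ else 0) := by
  symm
  calc _ = ∑' p : ℕ × G, ∑' L1 : List B, (if p.1 ≤ N then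
        (if FR ht L1 A then (if HT ht L1 = p.1 ∧ dp z L1 = p.2 then LW Λ L1 else 0) else 0)
          * F p.1 p.2 else 0) := by
        rw [← ENNReal.tsum_prod (f := fun c δ => if c ≤ N then W Λ ht z A c δ * F c δ else 0)]
        refine tsum_congr fun p => ?_
        by_cases h : p.1 ≤ N
        · simp only [if_pos h]
          rw [W, ENNReal.tsum_mul_right]
        · simp [h]
    _ = ∑' L1 : List B, ∑' p : ℕ × G, (if p.1 ≤ N then
        (if FR ht L1 A then (if HT ht L1 = p.1 ∧ dp z L1 = p.2 then LW Λ L1 else 0) else 0)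
          * F p.1 p.2 else 0) := ENNReal.tsum_comm
    _ = _ := by
        refine tsum_congr fun L1 => ?_
        rw [tsum_eq_single (HT ht L1, dp z L1)]
        · by_cases h : FR ht L1 A
          · by_cases h2 : HT ht L1 ≤ N <;> simp [h, h2]
          · simp [h]
        · rintro ⟨c, δ⟩ hne
          have : ¬ (HT ht L1 = c ∧ dp z L1 = δ) := fun hh => hne (by rw [hh.1, hh.2])
          simp [this]

open Classical in
/-- sum over the heights of a first passage list -/
lemma heights_le (τ i0 : ℕ) (F : List B → ℝ≥0∞) :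
    ∑' P : List B, (if FR ht P τ ∧ HT ht P ≤ τ + i0 then LW Λ P * F P else 0)
      ≤ ∑ i ∈ Finset.range (i0 + 1), ∑' L : List B, (if HT ht L = τ + i then LW Λ L * F L else 0) := by
  rw [← Summable.tsum_finsetSum (fun _ _ => ENNReal.summable)]
  refine ENNReal.tsum_le_tsum fun P => ?_
  by_cases h : FR ht P τ ∧ HT ht P ≤ τ + i0
  · have h5 := FR_le ht h.1
    rw [if_pos h]
    refine le_trans ?_ (Finset.single_le_sum (f := fun i => if HT ht P = τ + i then LW Λ P * F P else 0)
      (fun _ _ => zero_le) (Finset.mem_range.2 (show HT ht P - τ < i0 + 1 by have := h.2; omega)))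
    rw [if_pos (by omega)]
  · rw [if_neg h]; exact zero_le

open Classical in
theorem half (hΛ : ∑' b, Λ b ≤ 1) (h1 : ∀ b, 1 ≤ ht b) (hΛ' : ∑' b, Λ' b ≤ 1)
    (h1' : ∀ b, 1 ≤ ht' b) (A τ A' τ' i0 : ℕ) (w : G)
    (Gd : ℕ → ℕ → G → List B → List B' → Prop) (S : Set (ℕ × G)) (M β : ℝ≥0∞)
    (Wg Wb : ℕ → G → ℝ≥0∞) (hW : ∀ c δ, W Λ ht z A c δ ≤ Wg c δ + Wb c δ)
    (hg : ∀ c δ, Wg c δ ≤ M)
    (hH : ∀ a a' h h', A ≤ a → a ≤ A + i0 → A' ≤ a' → a' ≤ A' + i0 → τ ≤ h → h ≤ τ + i0 →
      τ' ≤ h' → h' ≤ τ' + i0 → ∀ (μ : G → ℝ≥0∞), ∑' x, μ x ≤ 1 → (∀ x, μ x ≤ M) →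
      ∑' x, μ x * ∑' L, ∑' L', (if HT ht L = h ∧ (h, dp z L) ∈ S ∧ HT ht' L' = h' ∧
        Gd a a' x L L' then LW Λ L * LW Λ' L' else 0) ≤ β) :
    ∑' L1, ∑' P, ∑' L1', ∑' P', (if (FR ht L1 A ∧ HT ht L1 ≤ A + i0) ∧
        (FR ht P τ ∧ HT ht P ≤ τ + i0) ∧ (HT ht P, dp z P) ∈ S ∧
        (FR ht' L1' A' ∧ HT ht' L1' ≤ A' + i0) ∧ (FR ht' P' τ' ∧ HT ht' P' ≤ τ' + i0) ∧
        Gd (HT ht L1) (HT ht' L1') (w + dp z' L1' - dp z L1) P P'
        then LW Λ L1 * (LW Λ P * (LW Λ' L1' * LW Λ' P')) else 0)
      ≤ (∑' c, ∑' δ, Wb c δ) + (i0 + 1) ^ 3 * β := by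
  set F : ℕ → G → ℝ≥0∞ := fun a δ => ∑' P, ∑' L1', ∑' P', (if
        (FR ht P τ ∧ HT ht P ≤ τ + i0) ∧ (HT ht P, dp z P) ∈ S ∧
        (FR ht' L1' A' ∧ HT ht' L1' ≤ A' + i0) ∧ (FR ht' P' τ' ∧ HT ht' P' ≤ τ' + i0) ∧
        Gd a (HT ht' L1') (w + dp z' L1' - δ) P P'
        then LW Λ P * (LW Λ' L1' * LW Λ' P') else 0) with hF
  -- `F ≤ 1`
  have hF1 : ∀ a δ, F a δ ≤ 1 := by
    intro a δ
    calc F a δ ≤ ∑' P, ∑' L1', ∑' P', ((if FR ht P τ then LW Λ P else 0) *
          ((if FR ht' L1' A' then LW Λ' L1' else 0) * (if FR ht' P' τ' then LW Λ' P' else 0))) := by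
          rw [hF]
          refine ENNReal.tsum_le_tsum fun P => ENNReal.tsum_le_tsum fun L1' =>
            ENNReal.tsum_le_tsum fun P' => ?_
          split_ifs with h <;> simp_all
      _ = (∑' P, (if FR ht P τ then LW Λ P else 0)) * ((∑' L1', (if FR ht' L1' A' then LW Λ' L1' else 0))
          * ∑' P', (if FR ht' P' τ' then LW Λ' P' else 0)) := by
          simp_rw [ENNReal.tsum_mul_left, ENNReal.tsum_mul_right]
      _ ≤ 1 * (1 * 1) := by
          gcongr
          · exact mass_FR Λ ht hΛ h1 τ
          · exact mass_FR Λ' ht' hΛ' h1' A'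
          · exact mass_FR Λ' ht' hΛ' h1' τ'
      _ = 1 := by simp
  -- the good part for one height `a`
  have hgood : ∀ a, A ≤ a → a ≤ A + i0 →
      ∑' δ, min (W Λ ht z A a δ) (Wg a δ) * F a δ ≤ (i0 + 1) ^ 2 * β := by
    intro a ha1 ha2
    set K : ℕ → ℕ → ℕ → G → ℝ≥0∞ := fun a' h h' x => ∑' L, ∑' L', (if HT ht L = h ∧
      (h, dp z L) ∈ S ∧ HT ht' L' = h' ∧ Gd a a' x L L' then LW Λ L * LW Λ' L' else 0) with hK
    have hFK : ∀ δ, F a δ ≤ ∑' L1' : List B', ∑ i ∈ Finset.range (i0 + 1),
        ∑ i' ∈ Finset.range (i0 + 1), (if FR ht' L1' A' ∧ HT ht' L1' ≤ A' + i0 then LW Λ' L1' *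
          K (HT ht' L1') (τ + i) (τ' + i') (w + dp z' L1' - δ) else 0) := by
      intro δ
      rw [hF]
      simp only
      rw [ENNReal.tsum_comm]
      refine ENNReal.tsum_le_tsum fun L1' => ?_
      by_cases hL : FR ht' L1' A' ∧ HT ht' L1' ≤ A' + i0
      · simp only [if_pos hL]
        calc _ = ∑' P, (if FR ht P τ ∧ HT ht P ≤ τ + i0 then LW Λ P *
              (∑' P', (if FR ht' P' τ' ∧ HT ht' P' ≤ τ' + i0 then LW Λ' P' *
                (if (HT ht P, dp z P) ∈ S ∧ Gd a (HT ht' L1') (w + dp z' L1' - δ) P P' then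
                  LW Λ' L1' else 0) else 0)) else 0) := by
              refine tsum_congr fun P => ?_
              by_cases hP : FR ht P τ ∧ HT ht P ≤ τ + i0
              · rw [if_pos hP, ← ENNReal.tsum_mul_left]
                refine tsum_congr fun P' => ?_
                by_cases hS : (HT ht P, dp z P) ∈ S
                · by_cases hP' : FR ht' P' τ' ∧ HT ht' P' ≤ τ' + i0
                  · by_cases hG : Gd a (HT ht' L1') (w + dp z' L1' - δ) P P'
                    · rw [if_pos ⟨hP, hS, hL, hP', hG⟩, if_pos hP', if_pos ⟨hS, hG⟩]; ring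
                    · rw [if_neg (fun hh => hG hh.2.2.2.2), if_pos hP', if_neg (fun hh => hG hh.2)]
                      simp
                  · rw [if_neg (fun hh => hP' hh.2.2.2.1), if_neg hP', mul_zero]
                · rw [if_neg (fun hh => hS hh.2.1)]
                  split_ifs with h3 h4
                  · exact absurd h4.1 hS
                  · simp
                  · simp
              · rw [if_neg hP]
                refine (ENNReal.tsum_eq_zero.2 fun P' => ?_)
                rw [if_neg (fun hh => hP hh.1)]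
          _ ≤ ∑ i ∈ Finset.range (i0 + 1), ∑' L : List B, (if HT ht L = τ + i then LW Λ L *
              (∑' P', (if FR ht' P' τ' ∧ HT ht' P' ≤ τ' + i0 then LW Λ' P' *
                (if (HT ht L, dp z L) ∈ S ∧ Gd a (HT ht' L1') (w + dp z' L1' - δ) L P' then
                  LW Λ' L1' else 0) else 0)) else 0) := heights_le Λ ht τ i0 _
          _ ≤ _ := by
              refine Finset.sum_le_sum fun i _ => ?_
              calc _ ≤ ∑' L : List B, ∑ i' ∈ Finset.range (i0 + 1), (if HT ht L = τ + i then LW Λ L *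
                    (∑' L' : List B', (if HT ht' L' = τ' + i' then LW Λ' L' *
                    (if (HT ht L, dp z L) ∈ S ∧ Gd a (HT ht' L1') (w + dp z' L1' - δ) L L' then
                    LW Λ' L1' else 0) else 0)) else 0) := by
                    refine ENNReal.tsum_le_tsum fun L => ?_
                    by_cases h : HT ht L = τ + i
                    · simp only [if_pos h]
                      rw [← Finset.mul_sum]
                      exact mul_le_mul_right (heights_le Λ' ht' τ' i0 _) _
                    · simp [h]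
                _ = ∑ i' ∈ Finset.range (i0 + 1), ∑' L : List B, (if HT ht L = τ + i then LW Λ L *
                    (∑' L' : List B', (if HT ht' L' = τ' + i' then LW Λ' L' *
                    (if (HT ht L, dp z L) ∈ S ∧ Gd a (HT ht' L1') (w + dp z' L1' - δ) L L' then
                    LW Λ' L1' else 0) else 0)) else 0) :=
                    Summable.tsum_finsetSum (fun _ _ => ENNReal.summable)
                _ ≤ _ := by
                    refine Finset.sum_le_sum fun i' _ => ?_
                    rw [hK]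
                    simp only
                    rw [← ENNReal.tsum_mul_left]
                    refine ENNReal.tsum_le_tsum fun L => ?_
                    by_cases h : HT ht L = τ + i
                    · simp only [if_pos h]
                      rw [← ENNReal.tsum_mul_left, ← ENNReal.tsum_mul_left]
                      refine ENNReal.tsum_le_tsum fun L' => ?_
                      by_cases h' : HT ht' L' = τ' + i'
                      · rw [if_pos h']
                        by_cases h3 : (HT ht L, dp z L) ∈ S ∧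
                          Gd a (HT ht' L1') (w + dp z' L1' - δ) L L'
                        · rw [if_pos h3, if_pos ⟨h, h ▸ h3.1, h', h3.2⟩]
                          refine le_of_eq ?_
                          ring
                        · rw [if_neg h3]; simp
                      · rw [if_neg h']; simp
                    · rw [if_neg h]; exact zero_le
      · simp only [if_neg hL]
        refine le_trans (le_of_eq ?_) zero_le
        refine ENNReal.tsum_eq_zero.2 fun P => ENNReal.tsum_eq_zero.2 fun P' => ?_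
        rw [if_neg (fun hh => hL hh.2.2.1)]
    calc _ ≤ ∑' δ, ∑' L1' : List B', ∑ i ∈ Finset.range (i0 + 1),
        ∑ i' ∈ Finset.range (i0 + 1), (if FR ht' L1' A' ∧ HT ht' L1' ≤ A' + i0 then LW Λ' L1' *
          (min (W Λ ht z A a δ) (Wg a δ) *
          K (HT ht' L1') (τ + i) (τ' + i') (w + dp z' L1' - δ)) else 0) := by
          refine ENNReal.tsum_le_tsum fun δ => ?_
          refine (mul_le_mul_right (hFK δ) _).trans (le_of_eq ?_)
          rw [← ENNReal.tsum_mul_left]
          refine tsum_congr fun L1' => ?_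
          rw [Finset.mul_sum]
          refine Finset.sum_congr rfl fun i _ => ?_
          rw [Finset.mul_sum]
          refine Finset.sum_congr rfl fun i' _ => ?_
          split_ifs
          · ring
          · simp
      _ = ∑' L1' : List B', ∑ i ∈ Finset.range (i0 + 1), ∑ i' ∈ Finset.range (i0 + 1), ∑' δ,
          (if FR ht' L1' A' ∧ HT ht' L1' ≤ A' + i0 then LW Λ' L1' *
          (min (W Λ ht z A a δ) (Wg a δ) *
          K (HT ht' L1') (τ + i) (τ' + i') (w + dp z' L1' - δ)) else 0) := by
          rw [ENNReal.tsum_comm]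
          refine tsum_congr fun L1' => ?_
          rw [Summable.tsum_finsetSum (fun _ _ => ENNReal.summable)]
          refine Finset.sum_congr rfl fun i _ => ?_
          rw [Summable.tsum_finsetSum (fun _ _ => ENNReal.summable)]
      _ ≤ ∑' L1' : List B', ∑ i ∈ Finset.range (i0 + 1), ∑ i' ∈ Finset.range (i0 + 1),
          (if FR ht' L1' A' then LW Λ' L1' else 0) * β := by
          refine ENNReal.tsum_le_tsum fun L1' => Finset.sum_le_sum fun i hi =>
            Finset.sum_le_sum fun i' hi' => ?_
          by_cases hL : FR ht' L1' A' ∧ HT ht' L1' ≤ A' + i0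
          · simp only [if_pos hL, if_pos hL.1]
            rw [ENNReal.tsum_mul_left]
            refine mul_le_mul_right ?_ _
            have hA' := FR_le ht' hL.1
            have hi2 := Finset.mem_range.1 hi
            have hi2' := Finset.mem_range.1 hi'
            have e1 : ∑' δ, min (W Λ ht z A a δ) (Wg a δ) *
                K (HT ht' L1') (τ + i) (τ' + i') (w + dp z' L1' - δ)
                = ∑' x, min (W Λ ht z A a (w + dp z' L1' - x)) (Wg a (w + dp z' L1' - x)) *
                K (HT ht' L1') (τ + i) (τ' + i') x := by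
              rw [← (Equiv.subLeft (w + dp z' L1')).tsum_eq]
              refine tsum_congr fun x => ?_
              simp
            rw [e1]
            refine hH a (HT ht' L1') (τ + i) (τ' + i') ha1 ha2 hA' hL.2 (by omega) (by omega)
              (by omega) (by omega) (fun x => min (W Λ ht z A a (w + dp z' L1' - x))
                (Wg a (w + dp z' L1' - x))) ?_ (fun x => (min_le_right _ _).trans (hg _ _))
            exact (ENNReal.tsum_le_tsum fun x => min_le_left _ _).trans
              (tsum_W_sub_le Λ ht z hΛ h1 A a _)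
          · rw [ENNReal.tsum_eq_zero.2 (fun δ => if_neg hL)]
            exact zero_le
      _ = (i0 + 1) ^ 2 * ((∑' L1' : List B', (if FR ht' L1' A' then LW Λ' L1' else 0)) * β) := by
          simp only [Finset.sum_const, Finset.card_range, nsmul_eq_mul]
          rw [ENNReal.tsum_mul_left, ENNReal.tsum_mul_left, ENNReal.tsum_mul_right]
          push_cast
          ring
      _ ≤ (i0 + 1) ^ 2 * (1 * β) := by
          gcongr
          exact mass_FR Λ' ht' hΛ' h1' A'
      _ = _ := by rw [one_mul]
  calc _ = ∑' L1 : List B, (if FR ht L1 A ∧ HT ht L1 ≤ A + i0 then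
        LW Λ L1 * F (HT ht L1) (dp z L1) else 0) := by
        refine tsum_congr fun L1 => ?_
        by_cases hL : FR ht L1 A ∧ HT ht L1 ≤ A + i0
        · rw [if_pos hL, hF]
          simp only
          rw [← ENNReal.tsum_mul_left]
          refine tsum_congr fun P => ?_
          rw [← ENNReal.tsum_mul_left]
          refine tsum_congr fun L1' => ?_
          rw [← ENNReal.tsum_mul_left]
          refine tsum_congr fun P' => ?_
          by_cases h2 : (FR ht P τ ∧ HT ht P ≤ τ + i0) ∧ (HT ht P, dp z P) ∈ S ∧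
            (FR ht' L1' A' ∧ HT ht' L1' ≤ A' + i0) ∧ (FR ht' P' τ' ∧ HT ht' P' ≤ τ' + i0) ∧
            Gd (HT ht L1) (HT ht' L1') (w + dp z' L1' - dp z L1) P P'
          · rw [if_pos ⟨hL, h2⟩, if_pos h2]
          · rw [if_neg (fun hh => h2 hh.2), if_neg h2, mul_zero]
        · rw [if_neg hL]
          refine ENNReal.tsum_eq_zero.2 fun P => ENNReal.tsum_eq_zero.2 fun L1' =>
            ENNReal.tsum_eq_zero.2 fun P' => ?_
          rw [if_neg (fun hh => hL hh.1)]
    _ = ∑' c, ∑' δ, (if c ≤ A + i0 then W Λ ht z A c δ * F c δ else 0) :=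
        group_FR Λ ht z A (A + i0) F
    _ ≤ ∑' c, ∑' δ, (Wb c δ + (if c ≤ A + i0 then
          min (W Λ ht z A c δ) (Wg c δ) * F c δ else 0)) := by
        refine ENNReal.tsum_le_tsum fun c => ENNReal.tsum_le_tsum fun δ => ?_
        by_cases hc : c ≤ A + i0
        · rw [if_pos hc, if_pos hc]
          have h3 : W Λ ht z A c δ ≤ min (W Λ ht z A c δ) (Wg c δ) + Wb c δ := by
            rcases le_total (W Λ ht z A c δ) (Wg c δ) with h | h
            · rw [min_eq_left h]; exact le_self_add
            · rw [min_eq_right h]; exact hW c δ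
          calc W Λ ht z A c δ * F c δ ≤ (min (W Λ ht z A c δ) (Wg c δ) + Wb c δ) * F c δ :=
                mul_le_mul_left h3 _
            _ = min (W Λ ht z A c δ) (Wg c δ) * F c δ + Wb c δ * F c δ := add_mul _ _ _
            _ ≤ min (W Λ ht z A c δ) (Wg c δ) * F c δ + Wb c δ * 1 := by
                gcongr
                exact hF1 c δ
            _ = _ := by rw [mul_one, add_comm]
        · rw [if_neg hc]; exact zero_le
    _ = (∑' c, ∑' δ, Wb c δ) + ∑' c, ∑' δ, (if c ≤ A + i0 then
          min (W Λ ht z A c δ) (Wg c δ) * F c δ else 0) := by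
        rw [← ENNReal.tsum_add]
        refine tsum_congr fun c => ?_
        rw [ENNReal.tsum_add]
    _ ≤ (∑' c, ∑' δ, Wb c δ) + ∑ i ∈ Finset.range (i0 + 1), (i0 + 1) ^ 2 * β := by
        refine add_le_add le_rfl ?_
        calc _ ≤ ∑' c, ∑ i ∈ Finset.range (i0 + 1), (if c = A + i then
              ∑' δ, min (W Λ ht z A c δ) (Wg c δ) * F c δ else 0) := by
              refine ENNReal.tsum_le_tsum fun c => ?_
              by_cases hc : c ≤ A + i0
              · simp only [if_pos hc]
                by_cases hc2 : A ≤ c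
                · refine le_trans ?_ (Finset.single_le_sum (f := fun i => if c = A + i then
                    ∑' δ, min (W Λ ht z A c δ) (Wg c δ) * F c δ else 0) (fun _ _ => zero_le)
                    (Finset.mem_range.2 (show c - A < i0 + 1 by omega)))
                  rw [if_pos (by omega)]
                · refine le_trans (le_of_eq ?_) zero_le
                  refine ENNReal.tsum_eq_zero.2 fun δ => ?_
                  have : W Λ ht z A c δ = 0 := by
                    rw [W]
                    refine ENNReal.tsum_eq_zero.2 fun P => ?_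
                    by_cases hP : FR ht P A
                    · have := FR_le ht hP
                      rw [if_pos hP, if_neg]
                      rintro ⟨h3, _⟩
                      omega
                    · rw [if_neg hP]
                  rw [this]
                  simp
              · simp [hc]
          _ = ∑ i ∈ Finset.range (i0 + 1), ∑' c, (if c = A + i then
              ∑' δ, min (W Λ ht z A c δ) (Wg c δ) * F c δ else 0) :=
              Summable.tsum_finsetSum (fun _ _ => ENNReal.summable)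
          _ ≤ _ := by
              refine Finset.sum_le_sum fun i hi => ?_
              have hi2 := Finset.mem_range.1 hi
              rw [tsum_eq_single (A + i) (fun c hc => if_neg hc), if_pos rfl]
              exact hgood (A + i) (by omega) (by omega)
    _ = _ := by
        rw [Finset.sum_const, Finset.card_range, nsmul_eq_mul]
        push_cast
        ring

end Two

end Crest.Agent.R154.Asm284
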