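import Crest.Agent.R154.FP_178
import Crest.Agent.R154.Dens_903
import Crest.Agent.R154.Bind801_12
import Crest.Agent.R154.Num_337

/-! Row 154, ROAD 801 (helper3): the abstract assembly of KAPPA' from the window lemmas,
pieces by index (iid first-passage pieces of height `≥ T`). -/

set_option autoImplicit false

namespace Crest.Agent.R154.Asm3

open Crest.Agent.R154.B5A
open Crest.Agent.R154.Bind12 (TT Dp)
open scoped ENNReal Classical

/-! ### general sums -/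

lemma tsum_exists_le {α β : Type*} (f : α → β) (Φ : α → Prop) (w : β → ℝ≥0∞) :
    ∑' b, (if ∃ a, f a = b ∧ Φ a then w b else 0) ≤ ∑' a, (if Φ a then w (f a) else 0) := by
  calc ∑' b, (if ∃ a, f a = b ∧ Φ a then w b else 0)
      ≤ ∑' b, ∑' a, (if f a = b ∧ Φ a then w b else 0) := by
        refine ENNReal.tsum_le_tsum fun b => ?_
        by_cases h : ∃ a, f a = b ∧ Φ a
        · obtain ⟨a, ha⟩ := h
          rw [if_pos ⟨a, ha⟩]
          refine le_trans ?_ (ENNReal.le_tsum a)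
          rw [if_pos ha]
        · rw [if_neg h]; exact zero_le
    _ = ∑' a, ∑' b, (if f a = b ∧ Φ a then w b else 0) := ENNReal.tsum_comm
    _ ≤ _ := by
        refine ENNReal.tsum_le_tsum fun a => ?_
        rw [tsum_eq_single (f a)]
        · by_cases h : Φ a
          · simp [h]
          · simp [h]
        · intro b hb
          rw [if_neg (fun h => hb h.1.symm)]

section dens

variable {A V : Type*} [AddCommGroup V] (p : A → ℝ≥0∞) (key : A → V)

noncomputable def Pk (v : V) : ℝ≥0∞ := ∑' Q, if key Q = v then p Q else 0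

lemma tsum_Pk : ∑' v, Pk p key v = ∑' Q, p Q := by
  simp only [Pk]
  rw [ENNReal.tsum_comm]
  refine tsum_congr fun Q => ?_
  rw [tsum_eq_single (key Q)]
  · simp
  · intro v hv; rw [if_neg hv.symm]

lemma Pk_split (F : V → Prop) :
    ∑' Q, (if F (key Q) then p Q else 0) = ∑' v, (if F v then Pk p key v else 0) := by
  calc _ = ∑' Q, ∑' v, (if key Q = v then (if F v then p Q else 0) else 0) := by
        refine tsum_congr fun Q => ?_
        rw [tsum_eq_single (key Q)]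
        · rw [if_pos rfl]
        · intro v hv; rw [if_neg hv.symm]
    _ = _ := by
        rw [ENNReal.tsum_comm]
        refine tsum_congr fun v => ?_
        by_cases h : F v
        · simp only [h, if_true]; rfl
        · simp [h]

lemma SL_tsum {C : Type*} (q : C → ℝ≥0∞) (i : ℕ) (F : C → List A → ℝ≥0∞) :
    ∑' Q, q Q * SL p i (F Q) = SL p i (fun L => ∑' Q, q Q * F Q L) := by
  simp only [SL, ← ENNReal.tsum_mul_left]
  rw [ENNReal.tsum_comm]
  refine tsum_congr fun L => ?_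
  by_cases h : L.length = i
  · simp only [h, if_true]
    refine tsum_congr fun Q => ?_
    ring
  · simp [h]

lemma SL_le_one (hp : ∑' Q, p Q ≤ 1) (i : ℕ) : SL p i (fun _ => 1) ≤ 1 := by
  rw [SL_pow]; exact pow_le_one₀ zero_le hp

lemma SL_le_const (hp : ∑' Q, p Q ≤ 1) (i : ℕ) (a : ℝ≥0∞) {F : List A → ℝ≥0∞}
    (hF : ∀ L, F L ≤ a) : SL p i F ≤ a := by
  calc SL p i F ≤ SL p i (fun _ => a * 1) := SL_mono p i fun L _ => by rw [mul_one]; exact hF L
    _ = a * SL p i (fun _ => 1) := SL_const_mul p i a _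
    _ ≤ a * 1 := by gcongr; exact SL_le_one p hp i
    _ = a := mul_one a

/-- density after `i` pieces one of which is light -/
lemma dens (hp : ∑' Q, p Q ≤ 1) (th : ℝ≥0∞) (i : ℕ) : ∀ v : V,
    SL p i (fun L => if (∃ Q ∈ L, Pk p key (key Q) ≤ th) ∧ (L.map key).sum = v then 1 else 0)
      ≤ i * th := by
  induction i with
  | zero => intro v; rw [SL_zero]; simp
  | succ i ih =>
    intro v
    rw [SL_succ]
    calc ∑' Q, p Q * SL p i (fun L => if (∃ Q' ∈ Q :: L, Pk p key (key Q') ≤ th) ∧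
            ((Q :: L).map key).sum = v then 1 else 0)
        ≤ ∑' Q, (p Q * SL p i (fun L => if Pk p key (key Q) ≤ th ∧
              key Q = v - (L.map key).sum then 1 else 0)
            + p Q * SL p i (fun L => if (∃ Q' ∈ L, Pk p key (key Q') ≤ th) ∧
              (L.map key).sum = v - key Q then 1 else 0)) := by
          refine ENNReal.tsum_le_tsum fun Q => ?_
          rw [← mul_add, ← SL_add_fun]
          refine mul_le_mul_right (SL_mono p i fun L _ => ?_) _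
          by_cases h : (∃ Q' ∈ Q :: L, Pk p key (key Q') ≤ th) ∧ ((Q :: L).map key).sum = v
          · rw [if_pos h]
            obtain ⟨⟨Q', hQ', hl⟩, hs⟩ := h
            rw [List.map_cons, List.sum_cons] at hs
            rcases List.mem_cons.1 hQ' with rfl | hm
            · rw [if_pos ⟨hl, by rw [← hs]; abel⟩]; exact le_self_add
            · rw [if_pos (c := (∃ Q' ∈ L, Pk p key (key Q') ≤ th) ∧
                (L.map key).sum = v - key Q) ⟨⟨Q', hm, hl⟩, by rw [← hs]; abel⟩]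
              exact le_add_self
          · rw [if_neg h]; exact zero_le
      _ = ∑' Q, p Q * SL p i (fun L => if Pk p key (key Q) ≤ th ∧
              key Q = v - (L.map key).sum then 1 else 0)
          + ∑' Q, p Q * SL p i (fun L => if (∃ Q' ∈ L, Pk p key (key Q') ≤ th) ∧
              (L.map key).sum = v - key Q then 1 else 0) := ENNReal.tsum_add
      _ ≤ th + i * th := by
          refine add_le_add ?_ ?_
          · rw [SL_tsum p p i (fun Q L => if Pk p key (key Q) ≤ th ∧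
              key Q = v - (L.map key).sum then (1 : ℝ≥0∞) else 0)]
            refine SL_le_const p hp i th fun L => ?_
            by_cases h : Pk p key (v - (L.map key).sum) ≤ th
            · refine le_trans ?_ h
              rw [Pk]
              refine ENNReal.tsum_le_tsum fun Q => ?_
              by_cases h2 : key Q = v - (L.map key).sum
              · rw [if_pos h2]
                split_ifs <;> simp
              · rw [if_neg (fun h3 => h2 h3.2), mul_zero]; exact zero_le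
            · refine le_trans (le_of_eq ?_) (zero_le (a := th))
              rw [ENNReal.tsum_eq_zero]
              intro Q
              rw [if_neg, mul_zero]
              rintro ⟨h1, h2⟩
              rw [h2] at h1
              exact h h1
          · calc _ ≤ ∑' Q, p Q * (i * th) := ENNReal.tsum_le_tsum fun Q => by gcongr; exact ih _
              _ = (∑' Q, p Q) * (i * th) := ENNReal.tsum_mul_right
              _ ≤ 1 * (i * th) := by gcongr
              _ = i * th := one_mul _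
      _ = _ := by push_cast; ring

lemma nolight (lt : A → Prop) (q : ℝ≥0∞) (hq : ∑' Q, (if lt Q then 0 else p Q) ≤ q) (i : ℕ) :
    SL p i (fun L => if ∃ Q ∈ L, lt Q then 0 else 1) ≤ q ^ i := by
  induction i with
  | zero => rw [SL_zero]; simp
  | succ i ih =>
    rw [SL_succ, pow_succ']
    calc _ ≤ ∑' Q, (if lt Q then 0 else p Q) * q ^ i := by
          refine ENNReal.tsum_le_tsum fun Q => ?_
          by_cases h : lt Q
          · rw [if_pos h, zero_mul]
            refine le_of_eq ?_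
            have : (fun L : List A => if ∃ Q' ∈ Q :: L, lt Q' then (0 : ℝ≥0∞) else 1)
                = fun L => 0 * 1 := by
              funext L
              rw [if_pos ⟨Q, List.mem_cons_self, h⟩, zero_mul]
            rw [this, SL_const_mul, zero_mul, mul_zero]
          · rw [if_neg h]
            refine mul_le_mul_right ?_ _
            refine le_trans (SL_mono p i fun L _ => ?_) ih
            by_cases h2 : ∃ Q' ∈ L, lt Q'
            · obtain ⟨Q', hm, hl⟩ := h2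
              rw [if_pos ⟨Q', List.mem_cons_of_mem _ hm, hl⟩]
              exact zero_le
            · rw [if_neg h2]
              split_ifs <;> simp
      _ = (∑' Q, if lt Q then 0 else p Q) * q ^ i := ENNReal.tsum_mul_right
      _ ≤ _ := by gcongr

/-- quantile for a density of mass `≤ 1` -/
lemma quant (P : V → ℝ≥0∞) (hP : ∑' v, P v ≤ 1) {u : ℝ≥0∞} (hu0 : u ≠ 0) (hu1 : u ≤ 1) :
    ∃ th : ℝ≥0∞, th ≠ 0 ∧ th ≤ 1 ∧ ∑' v, (if P v < th then P v else 0) ≤ u ∧
      ∑' v, (if P v ≤ th then 0 else P v) ≤ 1 - u := by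
  set S := ∑' v, P v with hS
  have hStop : S ≠ ⊤ := ne_top_of_le_ne_top ENNReal.one_ne_top hP
  by_cases hS0 : S = 0
  · have h0 : ∀ v, P v = 0 := ENNReal.tsum_eq_zero.1 (hS ▸ hS0)
    refine ⟨1, one_ne_zero, le_rfl, ?_, ?_⟩ <;> simp [h0]
  obtain ⟨th, h1, h2, h3, h4⟩ := Dens903.quantile (fun v => P v / S) (by
    simp only [div_eq_mul_inv]
    rw [ENNReal.tsum_mul_right, ← hS, ENNReal.mul_inv_cancel hS0 hStop]) hu0 hu1
  have key1 : ∀ v, P v < th * S ↔ P v / S < th := fun v =>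
    (ENNReal.div_lt_iff (Or.inl hS0) (Or.inl hStop)).symm
  have key2 : ∀ v, P v ≤ th * S ↔ P v / S ≤ th := fun v =>
    (ENNReal.div_le_iff hS0 hStop).symm
  refine ⟨th * S, mul_ne_zero h1 hS0, mul_le_one₀ h2 zero_le hP, ?_, ?_⟩
  · calc _ = ∑' v, S * (if P v / S < th then P v / S else 0) := by
          refine tsum_congr fun v => ?_
          by_cases h : P v / S < th
          · rw [if_pos h, if_pos ((key1 v).2 h), ENNReal.mul_div_cancel hS0 hStop]
          · rw [if_neg h, if_neg (fun h' => h ((key1 v).1 h')), mul_zero]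
      _ = S * ∑' v, (if P v / S < th then P v / S else 0) := ENNReal.tsum_mul_left
      _ ≤ 1 * u := by gcongr
      _ = u := one_mul u
  · have h5 : u * S ≤ ∑' v, (if P v ≤ th * S then P v else 0) := by
      calc u * S ≤ (∑' v, (if P v / S ≤ th then P v / S else 0)) * S := by gcongr
        _ = ∑' v, (if P v / S ≤ th then P v / S else 0) * S := ENNReal.tsum_mul_right.symm
        _ = _ := by
          refine tsum_congr fun v => ?_
          by_cases h : P v / S ≤ th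
          · rw [if_pos h, if_pos ((key2 v).2 h), ENNReal.div_mul_cancel hS0 hStop]
          · rw [if_neg h, if_neg (fun h' => h ((key2 v).1 h')), zero_mul]
    have h6 : ∑' v, (if P v ≤ th * S then P v else 0) + ∑' v, (if P v ≤ th * S then 0 else P v)
        = S := by
      rw [← ENNReal.tsum_add, hS]
      refine tsum_congr fun v => ?_
      split_ifs <;> simp
    have h7 : ∑' v, (if P v ≤ th * S then 0 else P v) ≤ S - u * S := by
      have h8 : ∑' v, (if P v ≤ th * S then 0 else P v) + u * S ≤ S :=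
        (add_le_add le_rfl h5).trans (by rw [add_comm]; exact h6.le)
      exact ENNReal.le_sub_of_add_le_right (ENNReal.mul_ne_top
        (ne_top_of_le_ne_top ENNReal.one_ne_top hu1) hStop) h8
    calc _ ≤ S - u * S := h7
      _ = (1 - u) * S := by
          rw [ENNReal.sub_mul (fun _ _ => hStop), one_mul]
      _ ≤ (1 - u) * 1 := by gcongr
      _ = 1 - u := mul_one _

end dens

/-! ### traces of lists -/

section TT

variable {B G : Type*} [AddCommGroup G] (s : B → Set (G × ℕ)) (z : B → G) (h : B → ℕ)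

lemma Dp_nil : Dp z ([] : List B) = 0 := by simp [Dp]

lemma Dp_cons (b : B) (L : List B) : Dp z (b :: L) = z b + Dp z L := by simp [Dp]

lemma Dp_append (L L' : List B) : Dp z (L ++ L') = Dp z L + Dp z L' := by simp [Dp]

lemma TT_append (L L' : List B) (x : G) (a : ℕ) :
    TT s z h (L ++ L') x a = TT s z h L x a ∪ TT s z h L' (x + Dp z L) (a + HT h L) := by
  induction L generalizing x a with
  | nil => simp [TT, Dp, HT]
  | cons b L ih =>
    rw [List.cons_append, TT, TT, ih, Set.union_assoc, Dp_cons, HT_cons, add_assoc, add_assoc]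

lemma TT_bound (hs : ∀ b, ∀ q ∈ s b, 1 ≤ q.2 ∧ q.2 ≤ h b) (L : List B) (x : G) (a : ℕ)
    (q : G × ℕ) (hq : q ∈ TT s z h L x a) : a < q.2 ∧ q.2 ≤ a + HT h L := by
  induction L generalizing x a with
  | nil => simp [TT] at hq
  | cons b L ih =>
    rw [TT] at hq
    rw [HT_cons]
    rcases hq with ⟨q', hq', rfl⟩ | hq
    · have := hs b q' hq'
      simp only
      omega
    · have := ih _ _ hq
      omega

lemma TT_shift (L : List B) (x c : G) (a : ℕ) (q : G × ℕ) :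
    q ∈ TT s z h L (x + c) a ↔ (q.1 - c, q.2) ∈ TT s z h L x a := by
  induction L generalizing x a with
  | nil => simp [TT]
  | cons b L ih =>
    rw [TT, TT, Set.mem_union, Set.mem_union, show x + c + z b = x + z b + c by abel, ih]
    refine or_congr ?_ Iff.rfl
    constructor
    · rintro ⟨q', hq', rfl⟩
      exact ⟨q', hq', by simp only [Prod.mk.injEq, and_true]; abel⟩
    · rintro ⟨q', hq', he⟩
      refine ⟨q', hq', ?_⟩
      simp only [Prod.mk.injEq] at he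
      ext
      · simp only; rw [add_right_comm, ← he.1]; abel
      · exact he.2

end TT

section main

variable {BX BY G : Type*} [AddCommGroup G]
  (ΛX : BX → ℝ≥0∞) (hX : BX → ℕ) (zX : BX → G) (sX : BX → Set (G × ℕ))
  (ΛY : BY → ℝ≥0∞) (hY : BY → ℕ) (zY : BY → G) (sY : BY → Set (G × ℕ))

/-- the two lists have a contact, and all contacts have depth in `[lo, hi]` -/
def Ct (L : List BX) (x : G) (a : ℕ) (L' : List BY) (y : G) (b : ℕ) (lo hi : ℕ) : Prop :=
  (∃ q, q ∈ TT sX zX hX L x a ∧ q ∈ TT sY zY hY L' y b) ∧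
    ∀ q, q ∈ TT sX zX hX L x a → q ∈ TT sY zY hY L' y b → lo ≤ q.2 ∧ q.2 ≤ hi

/-- piece weight -/
noncomputable def pw {B : Type*} (Λ : B → ℝ≥0∞) (ht : B → ℕ) (T i0 : ℕ) (Q : List B) : ℝ≥0∞ :=
  if FP178.fp ht T Q ∧ HT ht Q ≤ T + i0 then LW Λ Q else 0

lemma pw_sum {B : Type*} (Λ : B → ℝ≥0∞) (ht : B → ℕ) (h1 : ∀ b, 1 ≤ ht b) (hΛ : ∑' b, Λ b ≤ 1)
    (T i0 : ℕ) : ∑' Q, pw Λ ht T i0 Q ≤ 1 := by
  refine le_trans (ENNReal.tsum_le_tsum fun Q => ?_) (FP178.sum_FP Λ ht h1 hΛ T)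
  rw [pw]
  by_cases h : FP178.fp ht T Q ∧ HT ht Q ≤ T + i0
  · rw [if_pos h, if_pos h.1]
  · rw [if_neg h]; exact zero_le

variable {A1 A2 : Type*} (W1 : A1 → ℝ≥0∞) (a1 : A1 → ℕ) (c1 : A1 → G)
  (W2 : A2 → ℝ≥0∞) (a2 : A2 → ℕ) (c2 : A2 → G)

lemma Ct_shift (Q : List BX) (c c' : G) (a : ℕ) (Q' : List BY) (b lo hi : ℕ)
    (h : Ct hX zX sX hY zY sY Q c a Q' c' b lo hi) :
    Ct hX zX sX hY zY sY Q 0 a Q' (c' - c) b lo hi := by
  have e1 : ∀ q : G × ℕ, q ∈ TT sX zX hX Q 0 a ↔ (q.1 + c, q.2) ∈ TT sX zX hX Q c a := by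
    intro q
    have := TT_shift sX zX hX Q 0 c a (q.1 + c, q.2)
    rw [zero_add] at this
    rw [this]; simp
  have e2 : ∀ q : G × ℕ, q ∈ TT sY zY hY Q' (c' - c) b ↔ (q.1 + c, q.2) ∈ TT sY zY hY Q' c' b := by
    intro q
    have := TT_shift sY zY hY Q' (c' - c) c b (q.1 + c, q.2)
    rw [sub_add_cancel] at this
    rw [this]; simp
  obtain ⟨⟨q, hq1, hq2⟩, hall⟩ := h
  refine ⟨⟨(q.1 - c, q.2), ?_, ?_⟩, ?_⟩
  · rw [e1]; simpa using hq1
  · rw [e2]; simpa using hq2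
  · intro q h1 h2
    exact hall (q.1 + c, q.2) ((e1 q).1 h1) ((e2 q).1 h2)

lemma push {I : Type*} (ω : I → ℝ≥0∞) (f : I → G) (φ : G → ℝ≥0∞) :
    ∑' i, ω i * φ (f i) = ∑' x, (∑' i, if f i = x then ω i else 0) * φ x := by
  simp only [← ENNReal.tsum_mul_right]
  rw [ENNReal.tsum_comm]
  refine tsum_congr fun i => ?_
  rw [tsum_eq_single (f i)]
  · simp
  · intro x hx; rw [if_neg hx.symm, zero_mul]

lemma core (w : G) (T i0 α1 α2 D lo hi : ℕ) (hW1 : ∑' x, W1 x ≤ 1) (hW2 : ∑' x, W2 x ≤ 1)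
    (g : A1 → A2 → Prop) (Loc : List BX → List BY → Prop) (M R : ℝ≥0∞)
    (hM : ∀ α α' x, ∑' p : A1 × A2, (if g p.1 p.2 ∧ a1 p.1 = α ∧ a2 p.2 = α' ∧
      w + c2 p.2 - c1 p.1 = x then W1 p.1 * W2 p.2 else 0) ≤ M)
    (hR : ∀ α α' h h', α1 ≤ α → α ≤ α1 + D → α2 ≤ α' → α' ≤ α2 + D → T ≤ h → h ≤ T + i0 →
      T ≤ h' → h' ≤ T + i0 → ∀ μ : G → ℝ≥0∞, ∑' x, μ x ≤ 1 → (∀ x, μ x ≤ M) →
      ∑' x, μ x * ∑' L, ∑' L', (if HT hX L = h ∧ HT hY L' = h' ∧ Loc L L' ∧
        Ct hX zX sX hY zY sY L 0 α L' x α' lo hi then LW ΛX L * LW ΛY L' else 0) ≤ R) :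
    ∑' p : A1 × A2, W1 p.1 * W2 p.2 * ∑' Q, ∑' Q', (if g p.1 p.2 ∧
        (α1 ≤ a1 p.1 ∧ a1 p.1 ≤ α1 + D ∧ α2 ≤ a2 p.2 ∧ a2 p.2 ≤ α2 + D) ∧ Loc Q Q' ∧
        Ct hX zX sX hY zY sY Q (c1 p.1) (a1 p.1) Q' (w + c2 p.2) (a2 p.2) lo hi
        then pw ΛX hX T i0 Q * pw ΛY hY T i0 Q' else 0)
      ≤ ((D + 1) ^ 2 * (i0 + 1) ^ 2 : ℕ) * R := by
  set F : Finset ((ℕ × ℕ) × (ℕ × ℕ)) :=
    (Finset.Icc α1 (α1 + D) ×ˢ Finset.Icc α2 (α2 + D)) ×ˢ
      (Finset.Icc T (T + i0) ×ˢ Finset.Icc T (T + i0)) with hF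
  have hcard : F.card = (D + 1) ^ 2 * (i0 + 1) ^ 2 := by
    rw [hF, Finset.card_product, Finset.card_product, Finset.card_product, Nat.card_Icc,
      Nat.card_Icc, Nat.card_Icc]
    have e0 : α1 + D + 1 - α1 = D + 1 := by omega
    have e1 : α2 + D + 1 - α2 = D + 1 := by omega
    have e2 : T + i0 + 1 - T = i0 + 1 := by omega
    rw [e0, e1, e2]; ring
  set φ : (ℕ × ℕ) × (ℕ × ℕ) → G → ℝ≥0∞ := fun f x => ∑' L, ∑' L', (if HT hX L = f.2.1 ∧
    HT hY L' = f.2.2 ∧ Loc L L' ∧ Ct hX zX sX hY zY sY L 0 f.1.1 L' x f.1.2 lo hi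
    then LW ΛX L * LW ΛY L' else 0) with hφ
  have hpt : ∀ p : A1 × A2, W1 p.1 * W2 p.2 * ∑' Q, ∑' Q', (if g p.1 p.2 ∧
        (α1 ≤ a1 p.1 ∧ a1 p.1 ≤ α1 + D ∧ α2 ≤ a2 p.2 ∧ a2 p.2 ≤ α2 + D) ∧ Loc Q Q' ∧
        Ct hX zX sX hY zY sY Q (c1 p.1) (a1 p.1) Q' (w + c2 p.2) (a2 p.2) lo hi
        then pw ΛX hX T i0 Q * pw ΛY hY T i0 Q' else 0)
      ≤ ∑ f ∈ F, (if g p.1 p.2 ∧ a1 p.1 = f.1.1 ∧ a2 p.2 = f.1.2 then W1 p.1 * W2 p.2 else 0)
          * φ f (w + c2 p.2 - c1 p.1) := by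
    intro p
    by_cases hc : g p.1 p.2 ∧
        (α1 ≤ a1 p.1 ∧ a1 p.1 ≤ α1 + D ∧ α2 ≤ a2 p.2 ∧ a2 p.2 ≤ α2 + D)
    · have hterm : ∀ Q Q', (if g p.1 p.2 ∧
          (α1 ≤ a1 p.1 ∧ a1 p.1 ≤ α1 + D ∧ α2 ≤ a2 p.2 ∧ a2 p.2 ≤ α2 + D) ∧ Loc Q Q' ∧
          Ct hX zX sX hY zY sY Q (c1 p.1) (a1 p.1) Q' (w + c2 p.2) (a2 p.2) lo hi
          then pw ΛX hX T i0 Q * pw ΛY hY T i0 Q' else 0)
          ≤ ∑ e ∈ (Finset.Icc T (T + i0) ×ˢ Finset.Icc T (T + i0)),
            (if HT hX Q = e.1 ∧ HT hY Q' = e.2 ∧ Loc Q Q' ∧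
              Ct hX zX sX hY zY sY Q 0 (a1 p.1) Q' (w + c2 p.2 - c1 p.1) (a2 p.2) lo hi
              then LW ΛX Q * LW ΛY Q' else 0) := by
        intro Q Q'
        split_ifs with h
        · rw [pw, pw]
          by_cases h2 : FP178.fp hX T Q ∧ HT hX Q ≤ T + i0
          · by_cases h3 : FP178.fp hY T Q' ∧ HT hY Q' ≤ T + i0
            · rw [if_pos h2, if_pos h3]
              refine le_trans ?_ (Finset.single_le_sum (fun _ _ => zero_le)
                (Finset.mem_product.2 ⟨Finset.mem_Icc.2 ⟨FP178.le_HT_of_fp hX h2.1, h2.2⟩,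
                  Finset.mem_Icc.2 ⟨FP178.le_HT_of_fp hY h3.1, h3.2⟩⟩ :
                  (HT hX Q, HT hY Q') ∈ Finset.Icc T (T + i0) ×ˢ Finset.Icc T (T + i0)))
              rw [if_pos ⟨rfl, rfl, h.2.2.1, Ct_shift hX zX sX hY zY sY _ _ _ _ _ _ _ _ h.2.2.2⟩]
            · rw [if_neg h3, mul_zero]; exact zero_le
          · rw [if_neg h2, zero_mul]; exact zero_le
        · exact zero_le
      calc _ ≤ W1 p.1 * W2 p.2 * ∑' Q, ∑' Q',
            ∑ e ∈ (Finset.Icc T (T + i0) ×ˢ Finset.Icc T (T + i0)),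
            (if HT hX Q = e.1 ∧ HT hY Q' = e.2 ∧ Loc Q Q' ∧
              Ct hX zX sX hY zY sY Q 0 (a1 p.1) Q' (w + c2 p.2 - c1 p.1) (a2 p.2) lo hi
              then LW ΛX Q * LW ΛY Q' else 0) := by
            gcongr with Q Q'
            exact hterm Q Q'
        _ = W1 p.1 * W2 p.2 * ∑ e ∈ (Finset.Icc T (T + i0) ×ˢ Finset.Icc T (T + i0)),
              φ ((a1 p.1, a2 p.2), e) (w + c2 p.2 - c1 p.1) := by
            congr 1
            simp only [Summable.tsum_finsetSum (fun _ _ => ENNReal.summable), hφ]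
        _ ≤ _ := by
            conv_rhs => rw [hF, Finset.sum_product]
            rw [Finset.mul_sum]
            refine le_trans ?_ (Finset.single_le_sum (fun _ _ => zero_le)
              (Finset.mem_product.2 ⟨Finset.mem_Icc.2 ⟨hc.2.1, hc.2.2.1⟩,
                Finset.mem_Icc.2 ⟨hc.2.2.2.1, hc.2.2.2.2⟩⟩ :
                (a1 p.1, a2 p.2) ∈ Finset.Icc α1 (α1 + D) ×ˢ Finset.Icc α2 (α2 + D)))
            refine Finset.sum_le_sum fun e _ => ?_
            rw [if_pos ⟨hc.1, rfl, rfl⟩]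
    · refine le_trans (le_of_eq ?_) (zero_le)
      have : ∀ Q Q', (if g p.1 p.2 ∧
          (α1 ≤ a1 p.1 ∧ a1 p.1 ≤ α1 + D ∧ α2 ≤ a2 p.2 ∧ a2 p.2 ≤ α2 + D) ∧ Loc Q Q' ∧
          Ct hX zX sX hY zY sY Q (c1 p.1) (a1 p.1) Q' (w + c2 p.2) (a2 p.2) lo hi
          then pw ΛX hX T i0 Q * pw ΛY hY T i0 Q' else 0) = 0 :=
        fun Q Q' => if_neg (fun h => hc ⟨h.1, h.2.1⟩)
      simp only [this, tsum_zero, mul_zero]
  refine (ENNReal.tsum_le_tsum hpt).trans ?_
  rw [Summable.tsum_finsetSum (fun _ _ => ENNReal.summable), ← hcard, ← nsmul_eq_mul]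
  refine Finset.sum_le_card_nsmul F _ R fun f hf => ?_
  simp only [hF, Finset.mem_product, Finset.mem_Icc] at hf
  rw [push (fun p : A1 × A2 => if g p.1 p.2 ∧ a1 p.1 = f.1.1 ∧ a2 p.2 = f.1.2
    then W1 p.1 * W2 p.2 else 0) (fun p => w + c2 p.2 - c1 p.1) (φ f)]
  refine hR f.1.1 f.1.2 f.2.1 f.2.2 hf.1.1.1 hf.1.1.2 hf.1.2.1 hf.1.2.2 hf.2.1.1 hf.2.1.2
    hf.2.2.1 hf.2.2.2 _ ?_ ?_
  · rw [ENNReal.tsum_comm]
    calc _ ≤ ∑' p : A1 × A2, W1 p.1 * W2 p.2 := by
          refine ENNReal.tsum_le_tsum fun p => ?_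
          rw [tsum_eq_single (w + c2 p.2 - c1 p.1)]
          · rw [if_pos rfl]; split_ifs <;> simp
          · intro x hx; rw [if_neg hx.symm]
      _ = (∑' x, W1 x) * ∑' x, W2 x := by
          rw [ENNReal.tsum_prod (f := fun a b => W1 a * W2 b), ← ENNReal.tsum_mul_right]
          exact tsum_congr fun a => ENNReal.tsum_mul_left
      _ ≤ 1 := mul_le_one₀ hW1 zero_le hW2
  · intro x
    refine le_trans (le_of_eq ?_) (hM f.1.1 f.1.2 x)
    refine tsum_congr fun p => ?_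
    by_cases h : g p.1 p.2 ∧ a1 p.1 = f.1.1 ∧ a2 p.2 = f.1.2
    · by_cases h2 : w + c2 p.2 - c1 p.1 = x
      · rw [if_pos h2, if_pos h, if_pos ⟨h.1, h.2.1, h.2.2, h2⟩]
      · rw [if_neg h2, if_neg (c := g p.1 p.2 ∧ a1 p.1 = f.1.1 ∧ a2 p.2 = f.1.2 ∧
          w + c2 p.2 - c1 p.1 = x) (fun h3 => h2 h3.2.2.2)]
    · rw [if_neg h, if_neg (c := g p.1 p.2 ∧ a1 p.1 = f.1.1 ∧ a2 p.2 = f.1.2 ∧
          w + c2 p.2 - c1 p.1 = x) (fun h3 => h ⟨h3.1, h3.2.1, h3.2.2.1⟩)]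
      simp

end main

/-! ### one walker: pieces -/

section one

variable {B G : Type*} [AddCommGroup G] (Λ : B → ℝ≥0∞) (ht : B → ℕ) (z : B → G)

/-- good piece -/
def gd (T i0 : ℕ) (Q : List B) : Prop := FP178.fp ht T Q ∧ HT ht Q ≤ T + i0

noncomputable def ov (i0 : ℕ) : ℝ≥0∞ := ∑' k, tail Λ ht (i0 + k)

lemma step (h1 : ∀ b, 1 ≤ ht b) (hΛ : ∑' b, Λ b ≤ 1) (hU1 : ∀ n, U Λ ht n ≤ 1)
    (P P' : List B → Prop) (τ i0 n : ℕ) (hτ : τ ≤ n)
    (hP : ∀ Q R, gd ht τ i0 Q → P R → P' (Q ++ R)) (b : ℝ≥0∞)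
    (hb : ∀ n', n ≤ n' + (τ + i0) → ∑' L, (if HT ht L = n' ∧ ¬ P L then LW Λ L else 0) ≤ b) :
    ∑' L, (if HT ht L = n ∧ ¬ P' L then LW Λ L else 0) ≤ b + ov Λ ht i0 := by
  have e0 : ∑' L, (if HT ht L = n ∧ ¬ P' L then LW Λ L else 0)
      = ∑' L, (if τ ≤ HT ht L then LW Λ L * (if HT ht L = n ∧ ¬ P' L then 1 else 0) else 0) := by
    refine tsum_congr fun L => ?_
    by_cases h : HT ht L = n ∧ ¬ P' L
    · rw [if_pos h, if_pos (by omega), if_pos h, mul_one]
    · rw [if_neg h, if_neg h]; simp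
  rw [e0, FP178.split Λ ht h1 τ (fun L => if HT ht L = n ∧ ¬ P' L then 1 else 0)]
  calc _ ≤ ∑' Q, ((if FP178.fp ht τ Q then LW Λ Q else 0) * b
        + (if FP178.fp ht τ Q ∧ τ + i0 < HT ht Q then LW Λ Q else 0)) := by
        refine ENNReal.tsum_le_tsum fun Q => ?_
        by_cases hf : FP178.fp ht τ Q
        · rw [if_pos hf, if_pos hf]
          by_cases hh : HT ht Q ≤ τ + i0
          · refine le_trans ?_ le_self_add
            refine mul_le_mul_right ?_ _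
            by_cases hn : HT ht Q ≤ n
            · refine le_trans (ENNReal.tsum_le_tsum fun R => ?_) (hb (n - HT ht Q) (by omega))
              by_cases hc : HT ht (Q ++ R) = n ∧ ¬ P' (Q ++ R)
              · rw [if_pos hc, mul_one, if_pos]
                refine ⟨?_, fun hR => hc.2 (hP Q R ⟨hf, hh⟩ hR)⟩
                have := hc.1
                rw [HT_append] at this
                omega
              · rw [if_neg hc, mul_zero]; exact zero_le
            · refine le_trans (le_of_eq ?_) zero_le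
              rw [ENNReal.tsum_eq_zero]
              intro R
              rw [if_neg, mul_zero]
              rintro ⟨hc, -⟩
              rw [HT_append] at hc
              omega
          · refine le_trans ?_ le_add_self
            rw [if_pos ⟨hf, by omega⟩]
            refine le_trans (mul_le_mul_right ?_ _) (mul_one _).le
            by_cases hn : HT ht Q ≤ n
            · refine le_trans (ENNReal.tsum_le_tsum fun R => ?_) (hU1 (n - HT ht Q))
              by_cases hc : HT ht (Q ++ R) = n ∧ ¬ P' (Q ++ R)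
              · rw [if_pos hc, mul_one, if_pos]
                have := hc.1
                rw [HT_append] at this
                omega
              · rw [if_neg hc, mul_zero]; exact zero_le
            · refine le_trans (le_of_eq ?_) zero_le
              rw [ENNReal.tsum_eq_zero]
              intro R
              rw [if_neg, mul_zero]
              rintro ⟨hc, -⟩
              rw [HT_append] at hc
              omega
        · rw [if_neg hf]; exact zero_le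
    _ = (∑' Q, if FP178.fp ht τ Q then LW Λ Q else 0) * b
        + ∑' Q, (if FP178.fp ht τ Q ∧ τ + i0 < HT ht Q then LW Λ Q else 0) := by
        rw [ENNReal.tsum_add, ENNReal.tsum_mul_right]
    _ ≤ 1 * b + ov Λ ht i0 := by
        gcongr
        · exact FP178.sum_FP Λ ht h1 hΛ τ
        · exact FP178.overshoot Λ ht h1 hU1 i0 τ
    _ = _ := by rw [one_mul]

/-- `N` good pieces -/
def GN (T i0 N : ℕ) (L : List B) : Prop :=
  ∃ (q : List (List B)) (R : List B), q.length = N ∧ (∀ Q ∈ q, gd ht T i0 Q) ∧ L = q.flatten ++ R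

/-- an initial piece and `N` good pieces -/
def GI (τ T i0 N : ℕ) (L : List B) : Prop :=
  ∃ (Q0 : List B) (q : List (List B)) (R : List B), gd ht τ i0 Q0 ∧ q.length = N ∧
    (∀ Q ∈ q, gd ht T i0 Q) ∧ L = Q0 ++ (q.flatten ++ R)

lemma bad_GN (h1 : ∀ b, 1 ≤ ht b) (hΛ : ∑' b, Λ b ≤ 1) (hU1 : ∀ n, U Λ ht n ≤ 1)
    (T i0 N : ℕ) : ∀ n, N * (T + i0) ≤ n →
    ∑' L, (if HT ht L = n ∧ ¬ GN ht T i0 N L then LW Λ L else 0) ≤ N * ov Λ ht i0 := by
  induction N with
  | zero =>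
    intro n _
    refine le_trans (le_of_eq ?_) zero_le
    rw [ENNReal.tsum_eq_zero]
    intro L
    rw [if_neg]
    rintro ⟨-, h⟩
    exact h ⟨[], L, rfl, by simp, by simp⟩
  | succ N ih =>
    intro n hn
    have hn' : N * (T + i0) + (T + i0) ≤ n := by
      have : (N + 1) * (T + i0) = N * (T + i0) + (T + i0) := by ring
      omega
    refine (step Λ ht h1 hΛ hU1 (GN ht T i0 N) (GN ht T i0 (N + 1)) T i0 n (by omega) ?_
      (N * ov Λ ht i0) (fun n' hn2 => ih n' (by omega))).trans (le_of_eq ?_)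
    · rintro Q R hQ ⟨q, R', h2, h3, rfl⟩
      refine ⟨Q :: q, R', by simp [h2], ?_, by simp⟩
      intro Q' hQ'
      rcases List.mem_cons.1 hQ' with rfl | hm
      · exact hQ
      · exact h3 Q' hm
    · push_cast; ring

lemma bad_GI (h1 : ∀ b, 1 ≤ ht b) (hΛ : ∑' b, Λ b ≤ 1) (hU1 : ∀ n, U Λ ht n ≤ 1)
    (τ T i0 N n : ℕ) (hn : (τ + i0) + N * (T + i0) ≤ n) :
    ∑' L, (if HT ht L = n ∧ ¬ GI ht τ T i0 N L then LW Λ L else 0)
      ≤ N * ov Λ ht i0 + ov Λ ht i0 := by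
  refine step Λ ht h1 hΛ hU1 (GN ht T i0 N) (GI ht τ T i0 N) τ i0 n (by omega) ?_ _
    (fun n' hn2 => bad_GN Λ ht h1 hΛ hU1 T i0 N n' (by omega))
  rintro Q R hQ ⟨q, R', h2, h3, rfl⟩
  exact ⟨Q, q, R', hQ, h2, h3, rfl⟩

lemma HT_chain (T i0 : ℕ) (q : List (List B)) (hq : ∀ Q ∈ q, gd ht T i0 Q) :
    q.length * T ≤ HT ht q.flatten ∧ HT ht q.flatten ≤ q.length * (T + i0) := by
  induction q with
  | nil => simp [HT_nil]
  | cons Q q ih =>
    have h2 := ih fun Q' hm => hq Q' (List.mem_cons_of_mem _ hm)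
    have h3 := hq Q List.mem_cons_self
    have h4 := FP178.le_HT_of_fp ht h3.1
    have h5 := h3.2
    rw [List.flatten_cons, HT_append, List.length_cons]
    have e1 : (q.length + 1) * T = q.length * T + T := by ring
    have e2 : (q.length + 1) * (T + i0) = q.length * (T + i0) + (T + i0) := by ring
    omega

/-- key of a piece -/
def key (Q : List B) : ℤ × G := ((HT ht Q : ℤ), Dp z Q)

lemma sum_key (q : List (List B)) :
    (q.map (key ht z)).sum = ((HT ht q.flatten : ℤ), Dp z q.flatten) := by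
  induction q with
  | nil => simp [HT_nil, Dp]; rfl
  | cons Q q ih =>
    rw [List.map_cons, List.sum_cons, ih, List.flatten_cons, HT_append, Dp_append, key]
    simp

lemma LW_chain (T i0 : ℕ) (q : List (List B)) (hq : ∀ Q ∈ q, gd ht T i0 Q) :
    LW (pw Λ ht T i0) q = LW Λ q.flatten := by
  induction q with
  | nil => simp [LW_nil]
  | cons Q q ih =>
    rw [List.flatten_cons, LW_append, LW_cons, ih fun Q' hm => hq Q' (List.mem_cons_of_mem _ hm),
      pw, if_pos (show FP178.fp ht T Q ∧ HT ht Q ≤ T + i0 from hq Q List.mem_cons_self)]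

/-- weight of a prefix: initial piece and `i` good pieces -/
noncomputable def WP (τ T i0 i : ℕ) (p : List B × List (List B)) : ℝ≥0∞ :=
  pw Λ ht τ i0 p.1 * (if p.2.length = i then LW (pw Λ ht T i0) p.2 else 0)

/-- height of a prefix -/
def aP (p : List B × List (List B)) : ℕ := HT ht p.1 + HT ht p.2.flatten

/-- displacement of a prefix -/
def cP (p : List B × List (List B)) : G := Dp z p.1 + Dp z p.2.flatten

/-- a light piece -/
def lP (T i0 : ℕ) (th : ℝ≥0∞) (p : List B × List (List B)) : Prop :=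
  ∃ Q ∈ p.2, Pk (pw Λ ht T i0) (key ht z) (key ht z Q) ≤ th

lemma WP_sum (h1 : ∀ b, 1 ≤ ht b) (hΛ : ∑' b, Λ b ≤ 1) (τ T i0 i : ℕ)
    (F : List (List B) → ℝ≥0∞) :
    ∑' p, WP Λ ht τ T i0 i p * F p.2 ≤ SL (pw Λ ht T i0) i F := by
  rw [ENNReal.tsum_prod (f := fun a b => WP Λ ht τ T i0 i (a, b) * F b)]
  calc _ = ∑' Q0, pw Λ ht τ i0 Q0 * SL (pw Λ ht T i0) i F := by
        refine tsum_congr fun Q0 => ?_
        rw [SL, ← ENNReal.tsum_mul_left]
        refine tsum_congr fun q => ?_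
        rw [WP]
        by_cases h : q.length = i
        · simp only [h, if_true]; ring
        · simp [h]
    _ = (∑' Q0, pw Λ ht τ i0 Q0) * SL (pw Λ ht T i0) i F := ENNReal.tsum_mul_right
    _ ≤ 1 * SL (pw Λ ht T i0) i F := by gcongr; exact pw_sum Λ ht h1 hΛ τ i0
    _ = _ := one_mul _

lemma WP_le_one (h1 : ∀ b, 1 ≤ ht b) (hΛ : ∑' b, Λ b ≤ 1) (τ T i0 i : ℕ) :
    ∑' p, WP Λ ht τ T i0 i p ≤ 1 := by
  have := WP_sum Λ ht h1 hΛ τ T i0 i (fun _ => 1)
  simp only [mul_one] at this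
  exact this.trans (SL_le_one _ (pw_sum Λ ht h1 hΛ T i0) i)

lemma WP_dens (h1 : ∀ b, 1 ≤ ht b) (hΛ : ∑' b, Λ b ≤ 1) (τ T i0 i : ℕ) (th : ℝ≥0∞)
    (α : ℕ) (x : G) :
    ∑' p, (if lP Λ ht z T i0 th p ∧ aP ht p = α ∧ cP z p = x then WP Λ ht τ T i0 i p else 0)
      ≤ i * th := by
  rw [ENNReal.tsum_prod (f := fun a b => if lP Λ ht z T i0 th (a, b) ∧ aP ht (a, b) = α ∧
    cP z (a, b) = x then WP Λ ht τ T i0 i (a, b) else 0)]
  calc _ ≤ ∑' Q0, pw Λ ht τ i0 Q0 * (i * th) := by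
        refine ENNReal.tsum_le_tsum fun Q0 => ?_
        refine le_trans ?_ (mul_le_mul_right (dens (pw Λ ht T i0) (key ht z)
          (pw_sum Λ ht h1 hΛ T i0) th i ((α : ℤ) - HT ht Q0, x - Dp z Q0)) _)
        rw [SL, ← ENNReal.tsum_mul_left]
        refine ENNReal.tsum_le_tsum fun q => ?_
        by_cases h : lP Λ ht z T i0 th (Q0, q) ∧ aP ht (Q0, q) = α ∧ cP z (Q0, q) = x
        · rw [if_pos h, WP]
          by_cases hl : q.length = i
          · simp only [hl, if_true]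
            rw [if_pos, mul_one]
            refine ⟨h.1, ?_⟩
            rw [sum_key]
            have h2 := h.2.1
            have h3 := h.2.2
            simp only [aP, cP] at h2 h3
            ext
            · simp only; omega
            · simp only; rw [← h3]; abel
          · simp [hl]
        · rw [if_neg h]; exact zero_le
    _ = (∑' Q0, pw Λ ht τ i0 Q0) * (i * th) := ENNReal.tsum_mul_right
    _ ≤ 1 * (i * th) := by gcongr; exact pw_sum Λ ht h1 hΛ τ i0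
    _ = _ := one_mul _

/-- the displacement is in `E` -/
def mE (E : Finset G) (Q : List B) : Prop := Dp z Q ∈ E

/-- thresholds of a walker -/
lemma walker (h1 : ∀ b, 1 ≤ ht b) (hΛ : ∑' b, Λ b ≤ 1) (T i0 : ℕ) {u : ℝ≥0∞} (hu0 : u ≠ 0)
    (hu1 : u ≤ 1) : ∃ (th : ℝ≥0∞) (E : Finset G), th ≠ 0 ∧ th ≤ 1 ∧
      (E.card : ℝ≥0∞) * th ≤ 1 ∧
      ∑' Q, (if mE z E Q then 0 else pw Λ ht T i0 Q) ≤ u ∧
      ∀ τ i, ∑' p, (if lP Λ ht z T i0 th p then 0 else WP Λ ht τ T i0 i p) ≤ (1 - u) ^ i := by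
  set P := Pk (pw Λ ht T i0) (key ht z) with hP
  have hPs : ∑' v, P v ≤ 1 := by rw [hP, tsum_Pk]; exact pw_sum Λ ht h1 hΛ T i0
  obtain ⟨th, h2, h3, h4, h5⟩ := quant P hPs hu0 hu1
  have hfin : {v | th ≤ P v}.Finite := ENNReal.finite_const_le_of_tsum_ne_top
    (ne_top_of_le_ne_top ENNReal.one_ne_top hPs) h2
  refine ⟨th, hfin.toFinset.image Prod.snd, h2, h3, ?_, ?_, ?_⟩
  · calc _ ≤ (hfin.toFinset.card : ℝ≥0∞) * th := by
          gcongr; exact Finset.card_image_le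
      _ = ∑ _v ∈ hfin.toFinset, th := by simp
      _ ≤ ∑ v ∈ hfin.toFinset, P v := Finset.sum_le_sum fun v hv => by simpa using hv
      _ ≤ ∑' v, P v := ENNReal.sum_le_tsum _
      _ ≤ 1 := hPs
  · calc _ ≤ ∑' Q, (if P (key ht z Q) < th then pw Λ ht T i0 Q else 0) := by
          refine ENNReal.tsum_le_tsum fun Q => ?_
          by_cases h : mE z (hfin.toFinset.image Prod.snd) Q
          · rw [if_pos h]; exact zero_le
          · rw [if_neg h, if_pos]
            by_contra hc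
            exact h (Finset.mem_image.2 ⟨key ht z Q, by simpa using hc, rfl⟩)
      _ = ∑' v, (if P v < th then P v else 0) := by
          have := Pk_split (pw Λ ht T i0) (key ht z) (fun v => P v < th)
          convert this
      _ ≤ u := h4
  · intro τ i
    have h6 : ∑' Q, (if P (key ht z Q) ≤ th then 0 else pw Λ ht T i0 Q) ≤ 1 - u := by
      calc _ = ∑' v, (if P v ≤ th then 0 else P v) := by
            have := Pk_split (pw Λ ht T i0) (key ht z) (fun v => ¬ P v ≤ th)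
            calc _ = ∑' Q, (if ¬ P (key ht z Q) ≤ th then pw Λ ht T i0 Q else 0) :=
                  tsum_congr fun Q => by by_cases h : P (key ht z Q) ≤ th <;> simp [h]
              _ = ∑' v, (if ¬ P v ≤ th then P v else 0) := by convert this
              _ = _ := tsum_congr fun v => by by_cases h : P v ≤ th <;> simp [h]
        _ ≤ 1 - u := h5
    have h7 := nolight (pw Λ ht T i0) (fun Q => P (key ht z Q) ≤ th) (1 - u) (by convert h6) i
    refine le_trans (le_trans (le_of_eq ?_) (WP_sum Λ ht h1 hΛ τ T i0 i _)) h7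
    refine tsum_congr fun p => ?_
    by_cases h : lP Λ ht z T i0 th p
    · have h' : ∃ Q ∈ p.2, P (key ht z Q) ≤ th := h
      rw [if_pos h, if_pos h', mul_zero]
    · have h' : ¬ ∃ Q ∈ p.2, P (key ht z Q) ≤ th := h
      rw [if_neg h, if_neg h', mul_one]

end one

/-! ### the pair -/

section fin

variable {BX BY G : Type*} [AddCommGroup G]
  (ΛX : BX → ℝ≥0∞) (hX : BX → ℕ) (zX : BX → G) (sX : BX → Set (G × ℕ))
  (ΛY : BY → ℝ≥0∞) (hY : BY → ℕ) (zY : BY → G) (sY : BY → Set (G × ℕ))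

/-- window lemma, X local -/
def H2 (us : ℕ → ℝ≥0∞) (C : ℝ≥0∞) : Prop :=
  ∀ (s h h' a a' lo hi : ℕ) (E : Finset G) (μ : G → ℝ≥0∞) (M lam : ℝ≥0∞),
    ∑' x, μ x ≤ 1 → (∀ x, μ x ≤ M) → lam ≠ 0 → lam ≠ ⊤ → a + s ≤ lo → a' + s ≤ lo →
    hi + s ≤ a + h → hi + s ≤ a' + h' → a ≤ a' → a + h ≤ a' + h' →
    ∑' x, μ x * ∑' L, ∑' L', (if HT hX L = h ∧ HT hY L' = h' ∧ mE zX E L ∧
      Ct hX zX sX hY zY sY L 0 a L' x a' lo hi then LW ΛX L * LW ΛY L' else 0)
      ≤ C * (lam + M * E.card * us s / lam + us s)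

/-- window lemma, Y local -/
def H3 (us : ℕ → ℝ≥0∞) (C : ℝ≥0∞) : Prop :=
  ∀ (s h h' a a' lo hi : ℕ) (E : Finset G) (μ : G → ℝ≥0∞) (M lam : ℝ≥0∞),
    ∑' x, μ x ≤ 1 → (∀ x, μ x ≤ M) → lam ≠ 0 → lam ≠ ⊤ → a + s ≤ lo → a' + s ≤ lo →
    hi + s ≤ a + h → hi + s ≤ a' + h' → a ≤ a' → a + h ≤ a' + h' →
    ∑' x, μ x * ∑' L, ∑' L', (if HT hX L = h ∧ HT hY L' = h' ∧ mE zY E L' ∧
      Ct hX zX sX hY zY sY L 0 a L' x a' lo hi then LW ΛX L * LW ΛY L' else 0)
      ≤ C * (lam + M * E.card * us s / lam + us s)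

lemma prod_le {A1 A2 : Type*} (f1 : A1 → ℝ≥0∞) (f2 : A2 → ℝ≥0∞) (b1 b2 : ℝ≥0∞)
    (h1 : ∑' x, f1 x ≤ b1) (h2 : ∑' x, f2 x ≤ b2) :
    ∑' p : A1 × A2, f1 p.1 * f2 p.2 ≤ b1 * b2 := by
  rw [ENNReal.tsum_prod (f := fun a b => f1 a * f2 b)]
  simp only [ENNReal.tsum_mul_left, ENNReal.tsum_mul_right]
  exact mul_le_mul' h1 h2

lemma prod_le' {A1 A2 : Type*} (f1 : A1 → ℝ≥0∞) (f2 : A2 → ℝ≥0∞) (b1 b2 : ℝ≥0∞)
    (h1 : ∑' x, f1 x ≤ b1) (h2 : ∑' x, f2 x ≤ b2) :
    ∑' a, ∑' b, f1 a * f2 b ≤ b1 * b2 := by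
  simp only [ENNReal.tsum_mul_left, ENNReal.tsum_mul_right]
  exact mul_le_mul' h1 h2

lemma five (x y : ℝ≥0∞) (c l1 l2 e1 e2 r : Prop) [Decidable c] [Decidable l1] [Decidable l2]
    [Decidable e1] [Decidable e2] [Decidable r] :
    (if r ∧ c then x * y else 0) ≤ (if l1 then 0 else x * y) + (if l2 then 0 else x * y)
      + (if e1 then 0 else x) * (if e2 then 0 else y)
      + (if l1 ∧ r ∧ e1 ∧ c then x * y else 0) + (if l2 ∧ r ∧ e2 ∧ c then x * y else 0) := by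
  by_cases hr : r <;> by_cases hc : c <;> by_cases h1 : l1 <;> by_cases h2 : l2 <;>
    by_cases h3 : e1 <;> by_cases h4 : e2 <;> simp [hr, hc, h1, h2, h3, h4, add_assoc]

/-- the sum of one window -/
noncomputable def Sw (w : G) (T i0 τX τY i α1 α2 D lo hi : ℕ) : ℝ≥0∞ :=
  ∑' p : (List BX × List (List BX)) × (List BY × List (List BY)),
    WP ΛX hX τX T i0 i p.1 * WP ΛY hY τY T i0 i p.2 * ∑' Q, ∑' Q',
      (if (α1 ≤ aP hX p.1 ∧ aP hX p.1 ≤ α1 + D ∧ α2 ≤ aP hY p.2 ∧ aP hY p.2 ≤ α2 + D) ∧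
        Ct hX zX sX hY zY sY Q (cP zX p.1) (aP hX p.1) Q' (w + cP zY p.2) (aP hY p.2) lo hi
        then pw ΛX hX T i0 Q * pw ΛY hY T i0 Q' else 0)

set_option maxHeartbeats 1600000 in
lemma Sw_le (h1X : ∀ b, 1 ≤ hX b) (h1Y : ∀ b, 1 ≤ hY b) (hΛX : ∑' b, ΛX b ≤ 1)
    (hΛY : ∑' b, ΛY b ≤ 1) (us : ℕ → ℝ≥0∞) (C : ℝ≥0∞)
    (h2 : H2 ΛX hX zX sX ΛY hY zY sY us C) (h3 : H3 ΛX hX zX sX ΛY hY zY sY us C)
    (w : G) (T i0 τX τY i α1 α2 D lo hi s : ℕ) {u lam : ℝ≥0∞} (hu0 : u ≠ 0) (hu1 : u ≤ 1)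
    (hl0 : lam ≠ 0) (hl1 : lam ≠ ⊤) (c1 : α1 + D + s ≤ lo) (c2 : α2 + D + s ≤ lo)
    (c3 : hi + s ≤ α1 + T) (c4 : hi + s ≤ α2 + T) (c5 : α1 + D + i0 ≤ α2) :
    Sw ΛX hX zX sX ΛY hY zY sY w T i0 τX τY i α1 α2 D lo hi
      ≤ (1 - u) ^ i + (1 - u) ^ i + u * u
        + ((D + 1) ^ 2 * (i0 + 1) ^ 2 : ℕ) * (C * (lam + i * us s / lam + us s))
        + ((D + 1) ^ 2 * (i0 + 1) ^ 2 : ℕ) * (C * (lam + i * us s / lam + us s)) := by
  obtain ⟨tX, EX, -, -, kX, lX, nX⟩ := walker ΛX hX zX h1X hΛX T i0 hu0 hu1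
  obtain ⟨tY, EY, -, -, kY, lY, nY⟩ := walker ΛY hY zY h1Y hΛY T i0 hu0 hu1
  have sX1 := WP_le_one ΛX hX h1X hΛX τX T i0 i
  have sY1 := WP_le_one ΛY hY h1Y hΛY τY T i0 i
  have pX1 := pw_sum ΛX hX h1X hΛX T i0
  have pY1 := pw_sum ΛY hY h1Y hΛY T i0
  have hpt : ∀ (p : (List BX × List (List BX)) × (List BY × List (List BY))) (Q : List BX)
      (Q' : List BY),
      (if (α1 ≤ aP hX p.1 ∧ aP hX p.1 ≤ α1 + D ∧ α2 ≤ aP hY p.2 ∧ aP hY p.2 ≤ α2 + D) ∧
        Ct hX zX sX hY zY sY Q (cP zX p.1) (aP hX p.1) Q' (w + cP zY p.2) (aP hY p.2) lo hi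
        then pw ΛX hX T i0 Q * pw ΛY hY T i0 Q' else 0)
      ≤ (if lP ΛX hX zX T i0 tX p.1 then 0 else pw ΛX hX T i0 Q * pw ΛY hY T i0 Q')
        + (if lP ΛY hY zY T i0 tY p.2 then 0 else pw ΛX hX T i0 Q * pw ΛY hY T i0 Q')
        + (if mE zX EX Q then 0 else pw ΛX hX T i0 Q)
          * (if mE zY EY Q' then 0 else pw ΛY hY T i0 Q')
        + (if lP ΛX hX zX T i0 tX p.1 ∧
            (α1 ≤ aP hX p.1 ∧ aP hX p.1 ≤ α1 + D ∧ α2 ≤ aP hY p.2 ∧ aP hY p.2 ≤ α2 + D) ∧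
            mE zX EX Q ∧
            Ct hX zX sX hY zY sY Q (cP zX p.1) (aP hX p.1) Q' (w + cP zY p.2) (aP hY p.2) lo hi
            then pw ΛX hX T i0 Q * pw ΛY hY T i0 Q' else 0)
        + (if lP ΛY hY zY T i0 tY p.2 ∧
            (α1 ≤ aP hX p.1 ∧ aP hX p.1 ≤ α1 + D ∧ α2 ≤ aP hY p.2 ∧ aP hY p.2 ≤ α2 + D) ∧
            mE zY EY Q' ∧
            Ct hX zX sX hY zY sY Q (cP zX p.1) (aP hX p.1) Q' (w + cP zY p.2) (aP hY p.2) lo hi
            then pw ΛX hX T i0 Q * pw ΛY hY T i0 Q' else 0) := by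
    intro p Q Q'
    exact five _ _ _ _ _ _ _ _
  obtain ⟨RR, hRR⟩ : ∃ RR : ℝ≥0∞, RR = C * (lam + i * us s / lam + us s) := ⟨_, rfl⟩
  rw [← hRR]
  have main : Sw ΛX hX zX sX ΛY hY zY sY w T i0 τX τY i α1 α2 D lo hi
      ≤ (1 - u) ^ i * 1 * 1 + 1 * (1 - u) ^ i * 1 + 1 * 1 * (u * u)
        + ((D + 1) ^ 2 * (i0 + 1) ^ 2 : ℕ) * RR
        + ((D + 1) ^ 2 * (i0 + 1) ^ 2 : ℕ) * RR := by
    calc _ ≤ _ := ENNReal.tsum_le_tsum fun p => mul_le_mul_right
          (ENNReal.tsum_le_tsum fun Q => ENNReal.tsum_le_tsum fun Q' => hpt p Q Q') _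
      _ ≤ _ := by
        simp only [ENNReal.tsum_add, mul_add]
        refine add_le_add (add_le_add (add_le_add (add_le_add ?_ ?_) ?_) ?_) ?_
        · calc _ ≤ ∑' p : (List BX × List (List BX)) × (List BY × List (List BY)),
                ((if lP ΛX hX zX T i0 tX p.1 then 0 else WP ΛX hX τX T i0 i p.1)
                  * WP ΛY hY τY T i0 i p.2) * 1 := by
                refine ENNReal.tsum_le_tsum fun p => ?_
                by_cases h : lP ΛX hX zX T i0 tX p.1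
                · simp [h]
                · simp only [h, if_false]
                  gcongr
                  exact (prod_le' _ _ 1 1 pX1 pY1).trans (by simp)
            _ ≤ _ := by
                rw [ENNReal.tsum_mul_right]
                gcongr
                exact prod_le _ _ _ _ (nX τX i) sY1
        · calc _ ≤ ∑' p : (List BX × List (List BX)) × (List BY × List (List BY)),
                (WP ΛX hX τX T i0 i p.1
                  * (if lP ΛY hY zY T i0 tY p.2 then 0 else WP ΛY hY τY T i0 i p.2)) * 1 := by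
                refine ENNReal.tsum_le_tsum fun p => ?_
                by_cases h : lP ΛY hY zY T i0 tY p.2
                · simp [h]
                · simp only [h, if_false]
                  gcongr
                  exact (prod_le' _ _ 1 1 pX1 pY1).trans (by simp)
            _ ≤ _ := by
                rw [ENNReal.tsum_mul_right]
                gcongr
                exact prod_le _ _ _ _ sX1 (nY τY i)
        · rw [ENNReal.tsum_mul_right]
          gcongr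
          · exact prod_le _ _ _ _ sX1 sY1
          · exact prod_le' _ _ _ _ lX lY
        · refine core ΛX hX zX sX ΛY hY zY sY (WP ΛX hX τX T i0 i) (aP hX) (cP zX)
            (WP ΛY hY τY T i0 i) (aP hY) (cP zY) w T i0 α1 α2 D lo hi sX1 sY1
            (fun p1 _ => lP ΛX hX zX T i0 tX p1) (fun Q _ => mE zX EX Q) (i * tX) _ ?_ ?_
          · intro α α' x
            rw [ENNReal.tsum_prod (f := fun a b => if lP ΛX hX zX T i0 tX a ∧ aP hX a = α ∧
              aP hY b = α' ∧ w + cP zY b - cP zX a = x then WP ΛX hX τX T i0 i a *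
              WP ΛY hY τY T i0 i b else 0), ENNReal.tsum_comm]
            calc _ ≤ ∑' b, (i * tX) * WP ΛY hY τY T i0 i b := by
                  refine ENNReal.tsum_le_tsum fun b => ?_
                  refine le_trans ?_ (mul_le_mul_left (WP_dens ΛX hX zX h1X hΛX τX T i0 i tX α
                    (w + cP zY b - x)) _)
                  rw [← ENNReal.tsum_mul_right]
                  refine ENNReal.tsum_le_tsum fun a => ?_
                  split_ifs with g1 g2 g3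
                  · exact le_rfl
                  · exact absurd ⟨g1.1, g1.2.1, by rw [← g1.2.2.2]; abel⟩ g2
                  · exact zero_le
                  · exact zero_le
              _ = (i * tX) * ∑' b, WP ΛY hY τY T i0 i b := ENNReal.tsum_mul_left
              _ ≤ (i * tX) * 1 := by gcongr
              _ = _ := mul_one _
          · intro α α' h h' e1 e2 e3 e4 e5 e6 e7 e8 μ hμ1 hμ2
            refine (h2 s h h' α α' lo hi EX μ (i * tX) lam hμ1 hμ2 hl0 hl1 (by omega) (by omega)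
              (by omega) (by omega) (by omega) (by omega)).trans ?_
            rw [hRR]
            gcongr
            calc (i : ℝ≥0∞) * tX * EX.card = i * (EX.card * tX) := by ring
              _ ≤ i * 1 := by gcongr
              _ = i := mul_one _
        · refine core ΛX hX zX sX ΛY hY zY sY (WP ΛX hX τX T i0 i) (aP hX) (cP zX)
            (WP ΛY hY τY T i0 i) (aP hY) (cP zY) w T i0 α1 α2 D lo hi sX1 sY1
            (fun _ p2 => lP ΛY hY zY T i0 tY p2) (fun _ Q' => mE zY EY Q') (i * tY) _ ?_ ?_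
          · intro α α' x
            rw [ENNReal.tsum_prod (f := fun a b => if lP ΛY hY zY T i0 tY b ∧ aP hX a = α ∧
              aP hY b = α' ∧ w + cP zY b - cP zX a = x then WP ΛX hX τX T i0 i a *
              WP ΛY hY τY T i0 i b else 0)]
            calc _ ≤ ∑' a, WP ΛX hX τX T i0 i a * (i * tY) := by
                  refine ENNReal.tsum_le_tsum fun a => ?_
                  refine le_trans ?_ (mul_le_mul_right (WP_dens ΛY hY zY h1Y hΛY τY T i0 i tY α'
                    (x - w + cP zX a)) _)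
                  rw [← ENNReal.tsum_mul_left]
                  refine ENNReal.tsum_le_tsum fun b => ?_
                  split_ifs with g1 g2 g3
                  · exact le_rfl
                  · exact absurd ⟨g1.1, g1.2.2.1, by rw [← g1.2.2.2]; abel⟩ g2
                  · exact zero_le
                  · exact zero_le
              _ = (∑' a, WP ΛX hX τX T i0 i a) * (i * tY) := ENNReal.tsum_mul_right
              _ ≤ 1 * (i * tY) := by gcongr
              _ = _ := one_mul _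
          · intro α α' h h' e1 e2 e3 e4 e5 e6 e7 e8 μ hμ1 hμ2
            refine (h3 s h h' α α' lo hi EY μ (i * tY) lam hμ1 hμ2 hl0 hl1 (by omega) (by omega)
              (by omega) (by omega) (by omega) (by omega)).trans ?_
            rw [hRR]
            gcongr
            calc (i : ℝ≥0∞) * tY * EY.card = i * (EY.card * tY) := by ring
              _ ≤ i * 1 := by gcongr
              _ = i := mul_one _
  refine main.trans (le_of_eq ?_)
  ring

/-- index type of one window -/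
abbrev IX (BX BY : Type*) := ((List BX × List (List BX)) × (List BY × List (List BY))) ×
  ((List BX × List BY) × (List BX × List BY))

def fA (a : IX BX BY) : List BX × List BY :=
  (a.1.1.1 ++ (a.1.1.2.flatten ++ (a.2.1.1 ++ a.2.2.1)),
    a.1.2.1 ++ (a.1.2.2.flatten ++ (a.2.1.2 ++ a.2.2.2)))

/-- fixed part of the window event -/
def PhiF (w : G) (T i0 τX τY i lo hi : ℕ)
    (p : (List BX × List (List BX)) × (List BY × List (List BY))) (q : List BX × List BY) : Prop :=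
  (gd hX τX i0 p.1.1 ∧ p.1.2.length = i ∧ (∀ Q ∈ p.1.2, gd hX T i0 Q) ∧ gd hX T i0 q.1) ∧
  (gd hY τY i0 p.2.1 ∧ p.2.2.length = i ∧ (∀ Q ∈ p.2.2, gd hY T i0 Q) ∧ gd hY T i0 q.2) ∧
  Ct hX zX sX hY zY sY q.1 (cP zX p.1) (aP hX p.1) q.2 (w + cP zY p.2) (aP hY p.2) lo hi

def Phi (w : G) (n T i0 τX τY i lo hi : ℕ) (a : IX BX BY) : Prop :=
  PhiF hX zX sX hY zY sY w T i0 τX τY i lo hi a.1 a.2.1 ∧
  aP hX a.1.1 + HT hX a.2.1.1 + HT hX a.2.2.1 = n ∧ aP hY a.1.2 + HT hY a.2.1.2 + HT hY a.2.2.2 = n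

set_option maxHeartbeats 1600000 in
lemma Phi_sum (hUX : ∀ n, U ΛX hX n ≤ 1) (hUY : ∀ n, U ΛY hY n ≤ 1)
    (w : G) (n T i0 τX τY i α1 α2 D lo hi : ℕ)
    (hα1 : α1 = τX + i * T) (hα2 : α2 = τY + i * T) (hD : i0 + i * i0 ≤ D) :
    ∑' b : List BX × List BY, (if ∃ a, fA a = b ∧ Phi hX zX sX hY zY sY w n T i0 τX τY i lo hi a
      then LW ΛX b.1 * LW ΛY b.2 else 0)
      ≤ Sw ΛX hX zX sX ΛY hY zY sY w T i0 τX τY i α1 α2 D lo hi := by
  refine (tsum_exists_le fA (Phi hX zX sX hY zY sY w n T i0 τX τY i lo hi)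
    (fun b => LW ΛX b.1 * LW ΛY b.2)).trans ?_
  rw [ENNReal.tsum_prod', Sw]
  refine ENNReal.tsum_le_tsum fun p => ?_
  rw [ENNReal.tsum_prod', ← ENNReal.tsum_prod (f := fun Q Q' =>
    (if (α1 ≤ aP hX p.1 ∧ aP hX p.1 ≤ α1 + D ∧ α2 ≤ aP hY p.2 ∧ aP hY p.2 ≤ α2 + D) ∧
        Ct hX zX sX hY zY sY Q (cP zX p.1) (aP hX p.1) Q' (w + cP zY p.2) (aP hY p.2) lo hi
        then pw ΛX hX T i0 Q * pw ΛY hY T i0 Q' else 0)), ← ENNReal.tsum_mul_left]
  refine ENNReal.tsum_le_tsum fun q => ?_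
  by_cases hF : PhiF hX zX sX hY zY sY w T i0 τX τY i lo hi p q
  · obtain ⟨⟨x1, x2, x3, x4⟩, ⟨y1, y2, y3, y4⟩, hCt⟩ := hF
    have cx := HT_chain hX T i0 p.1.2 x3
    have cy := HT_chain hY T i0 p.2.2 y3
    have lx := FP178.le_HT_of_fp hX x1.1
    have ly := FP178.le_HT_of_fp hY y1.1
    have ux := x1.2
    have uy := y1.2
    rw [x2] at cx
    rw [y2] at cy
    have e1 : i * (T + i0) = i * T + i * i0 := by ring
    have rng : (α1 ≤ aP hX p.1 ∧ aP hX p.1 ≤ α1 + D ∧ α2 ≤ aP hY p.2 ∧ aP hY p.2 ≤ α2 + D) := by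
      rw [hα1, hα2, aP, aP]
      refine ⟨by omega, by omega, by omega, by omega⟩
    rw [if_pos ⟨rng, hCt⟩]
    have wX : WP ΛX hX τX T i0 i p.1 = LW ΛX p.1.1 * LW ΛX p.1.2.flatten := by
      rw [WP, if_pos x2, LW_chain ΛX hX T i0 _ x3, pw,
        if_pos (show FP178.fp hX τX p.1.1 ∧ HT hX p.1.1 ≤ τX + i0 from x1)]
    have wY : WP ΛY hY τY T i0 i p.2 = LW ΛY p.2.1 * LW ΛY p.2.2.flatten := by
      rw [WP, if_pos y2, LW_chain ΛY hY T i0 _ y3, pw,
        if_pos (show FP178.fp hY τY p.2.1 ∧ HT hY p.2.1 ≤ τY + i0 from y1)]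
    have vX : pw ΛX hX T i0 q.1 = LW ΛX q.1 := by
      rw [pw, if_pos (show FP178.fp hX T q.1 ∧ HT hX q.1 ≤ T + i0 from x4)]
    have vY : pw ΛY hY T i0 q.2 = LW ΛY q.2 := by
      rw [pw, if_pos (show FP178.fp hY T q.2 ∧ HT hY q.2 ≤ T + i0 from y4)]
    rw [wX, wY, vX, vY]
    set c : ℝ≥0∞ := LW ΛX p.1.1 * LW ΛX p.1.2.flatten * (LW ΛY p.2.1 * LW ΛY p.2.2.flatten) *
      (LW ΛX q.1 * LW ΛY q.2) with hc
    calc _ ≤ ∑' r : List BX × List BY, c * ((if HT hX r.1 = n - (aP hX p.1 + HT hX q.1)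
            then LW ΛX r.1 else 0) * (if HT hY r.2 = n - (aP hY p.2 + HT hY q.2)
            then LW ΛY r.2 else 0)) := by
          refine ENNReal.tsum_le_tsum fun r => ?_
          by_cases hP : Phi hX zX sX hY zY sY w n T i0 τX τY i lo hi (p, q, r)
          · have k1 := hP.2.1
            have k2 := hP.2.2
            simp only at k1 k2
            rw [if_pos hP, if_pos (by omega), if_pos (by omega)]
            simp only [fA, LW_append, hc]
            refine le_of_eq ?_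
            ring
          · rw [if_neg hP]; exact zero_le
      _ = c * ∑' r : List BX × List BY, ((if HT hX r.1 = n - (aP hX p.1 + HT hX q.1)
            then LW ΛX r.1 else 0) * (if HT hY r.2 = n - (aP hY p.2 + HT hY q.2)
            then LW ΛY r.2 else 0)) := ENNReal.tsum_mul_left
      _ ≤ c * (1 * 1) := by
          gcongr
          exact prod_le (fun R => if HT hX R = n - (aP hX p.1 + HT hX q.1) then LW ΛX R else 0)
            (fun R => if HT hY R = n - (aP hY p.2 + HT hY q.2) then LW ΛY R else 0) 1 1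
            (hUX _) (hUY _)
      _ = c := by rw [one_mul, mul_one]
  · refine le_trans (le_of_eq ?_) zero_le
    rw [ENNReal.tsum_eq_zero]
    intro r
    rw [if_neg]
    exact fun h => hF h.1

/-! ### contacts are inside the pieces -/

lemma TT_mid {B : Type*} (s : B → Set (G × ℕ)) (z : B → G) (h : B → ℕ)
    (hs : ∀ b, ∀ q ∈ s b, 1 ≤ q.2 ∧ q.2 ≤ h b) (A Q R : List B) (x : G) (q : G × ℕ)
    (h1 : HT h A < q.2) (h2 : q.2 ≤ HT h A + HT h Q)
    (hq : q ∈ TT s z h (A ++ (Q ++ R)) x 0) : q ∈ TT s z h Q (x + Dp z A) (HT h A) := by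
  rw [TT_append, TT_append] at hq
  rcases hq with hq | hq | hq
  · have := TT_bound s z h hs _ _ _ _ hq; omega
  · rwa [zero_add] at hq
  · have := TT_bound s z h hs _ _ _ _ hq; omega

lemma TT_mid' {B : Type*} (s : B → Set (G × ℕ)) (z : B → G) (h : B → ℕ)
    (A Q R : List B) (x : G) (q : G × ℕ)
    (hq : q ∈ TT s z h Q (x + Dp z A) (HT h A)) : q ∈ TT s z h (A ++ (Q ++ R)) x 0 := by
  rw [TT_append, TT_append]
  refine Or.inr (Or.inl ?_)
  rwa [zero_add]

lemma split_at {B : Type*} (q : List B) (i : ℕ) (hi : i < q.length) :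
    ∃ q1 x q2, q = q1 ++ x :: q2 ∧ q1.length = i := by
  refine ⟨q.take i, q[i], q.drop (i + 1), ?_, ?_⟩
  · rw [← List.drop_eq_getElem_cons hi, List.take_append_drop]
  · rw [List.length_take]; omega

set_option maxHeartbeats 1600000 in
lemma cover (hsX : ∀ b, ∀ q ∈ sX b, 1 ≤ q.2 ∧ q.2 ≤ hX b)
    (hsY : ∀ b, ∀ q ∈ sY b, 1 ≤ q.2 ∧ q.2 ≤ hY b)
    (w : G) (n m T i0 s K D τ : ℕ) (hK : 1 ≤ K) (hT : T = m / K) (hTK : 2 * K + 1 ≤ T)
    (hsT : s ≤ T) (hD : D = (2 * K + 2) * i0) (hτ : τ = D + i0) (LX : List BX) (LY : List BY)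
    (hLX : HT hX LX = n) (hLY : HT hY LY = n)
    (gX : GI hX 0 T i0 (2 * K + 1) LX) (gY : GI hY τ T i0 (2 * K + 1) LY)
    (hfirst : ∀ q, q ∈ TT sX zX hX LX 0 0 → q ∈ TT sY zY hY LY w 0 → m < q.2)
    (hex : ∃ q, q ∈ TT sX zX hX LX 0 0 ∧ q ∈ TT sY zY hY LY w 0 ∧ q.2 ≤ 2 * m)
    (hslab : ∀ j, 1 ≤ j → j ≤ 2 * K + 1 → ∀ q, q ∈ TT sX zX hX LX 0 0 →
      q ∈ TT sY zY hY LY w 0 → ¬ (j * T - s ≤ q.2 ∧ q.2 < j * T - s + (2 * s + τ + D + 1))) :
    ∃ i ∈ Finset.Ico K (2 * K + 1), ∃ a, fA a = (LX, LY) ∧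
      Phi hX zX sX hY zY sY w n T i0 0 τ i (i * T + τ + D + s) ((i + 1) * T - s) a := by
  obtain ⟨q0, hq1, hq2, hq3⟩ := hex
  have hm := hfirst q0 hq1 hq2
  have hT0 : 0 < T := by omega
  have hKT : K * T ≤ m := by rw [hT]; exact Nat.mul_div_le m K
  have hm2 : m < K * T + K := by
    have := Nat.lt_mul_div_succ m (show 0 < K by omega)
    rw [← hT] at this
    calc m < K * (T + 1) := this
      _ = K * T + K := by ring
  set i := q0.2 / T with hi
  have hiT : i * T ≤ q0.2 := Nat.div_mul_le_self _ _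
  have hiT2 : q0.2 < i * T + T := by
    have := Nat.lt_div_mul_add (a := q0.2) hT0
    exact this
  have hiK : K ≤ i := (Nat.le_div_iff_mul_le hT0).2 (by omega)
  have hiN : i < 2 * K + 1 := (Nat.div_lt_iff_lt_mul hT0).2 (by
    have : (2 * K + 1) * T = 2 * (K * T) + T := by ring
    omega)
  have e1 : (i + 1) * T = i * T + T := by ring
  have hTi : T ≤ i * T := Nat.le_mul_of_pos_left T (by omega)
  have hs1 := hslab i (by omega) (by omega) q0 hq1 hq2
  have hs2 := hslab (i + 1) (by omega) (by omega) q0 hq1 hq2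
  rw [e1] at hs2
  have hii : (i + 1) * i0 ≤ (2 * K + 1) * i0 := Nat.mul_le_mul_right _ (by omega)
  have e2 : (i + 1) * i0 = i * i0 + i0 := by ring
  have e3 : (2 * K + 2) * i0 = (2 * K + 1) * i0 + i0 := by ring
  have e4 : i * (T + i0) = i * T + i * i0 := by ring
  obtain ⟨Q0, q, R, x1, x2, x3, rfl⟩ := gX
  obtain ⟨Q0', q', R', y1, y2, y3, rfl⟩ := gY
  obtain ⟨q1, Q, q2, rfl, hl⟩ := split_at q i (by omega)
  obtain ⟨q1', Q', q2', rfl, hl'⟩ := split_at q' i (by omega)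
  have x4 : ∀ P ∈ q1, gd hX T i0 P := fun P hP => x3 P (List.mem_append_left _ hP)
  have y4 : ∀ P ∈ q1', gd hY T i0 P := fun P hP => y3 P (List.mem_append_left _ hP)
  have x5 : gd hX T i0 Q := x3 Q (by simp)
  have y5 : gd hY T i0 Q' := y3 Q' (by simp)
  have cx := HT_chain hX T i0 q1 x4
  have cy := HT_chain hY T i0 q1' y4
  rw [hl] at cx
  rw [hl'] at cy
  have lQ := FP178.le_HT_of_fp hX x5.1
  have lQ' := FP178.le_HT_of_fp hY y5.1
  have l0' := FP178.le_HT_of_fp hY y1.1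
  have uQ := x5.2
  have u0 := x1.2
  have u0' := y1.2
  have eX : Q0 ++ ((q1 ++ Q :: q2).flatten ++ R)
      = (Q0 ++ q1.flatten) ++ (Q ++ (q2.flatten ++ R)) := by
    simp
  have eY : Q0' ++ ((q1' ++ Q' :: q2').flatten ++ R')
      = (Q0' ++ q1'.flatten) ++ (Q' ++ (q2'.flatten ++ R')) := by
    simp
  rw [eX] at hLX hfirst hslab hq1 ⊢
  rw [eY] at hLY hfirst hslab hq2 ⊢
  have aX : HT hX (Q0 ++ q1.flatten) = HT hX Q0 + HT hX q1.flatten := HT_append _ _ _
  have aY : HT hY (Q0' ++ q1'.flatten) = HT hY Q0' + HT hY q1'.flatten := HT_append _ _ _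
  have dX : (0 : G) + Dp zX (Q0 ++ q1.flatten) = Dp zX Q0 + Dp zX q1.flatten := by
    rw [Dp_append, zero_add]
  have dY : w + Dp zY (Q0' ++ q1'.flatten) = w + (Dp zY Q0' + Dp zY q1'.flatten) := by
    rw [Dp_append]
  refine ⟨i, Finset.mem_Ico.2 ⟨hiK, hiN⟩,
    (((Q0, q1), (Q0', q1')), ((Q, Q'), (q2.flatten ++ R, q2'.flatten ++ R'))), ?_, ?_, ?_, ?_⟩
  · simp [fA]
  · refine ⟨⟨x1, hl, x4, x5⟩, ⟨y1, hl', y4, y5⟩, ?_, ?_⟩
    · refine ⟨q0, ?_, ?_⟩
      · have := TT_mid sX zX hX hsX (Q0 ++ q1.flatten) Q (q2.flatten ++ R) 0 q0 (by omega)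
          (by omega) hq1
        rwa [dX, aX] at this
      · have := TT_mid sY zY hY hsY (Q0' ++ q1'.flatten) Q' (q2'.flatten ++ R') w q0 (by omega)
          (by omega) hq2
        rwa [dY, aY] at this
    · intro r hr1 hr2
      have b1 := TT_bound sX zX hX hsX _ _ _ _ hr1
      have b2 := TT_bound sY zY hY hsY _ _ _ _ hr2
      simp only [aP] at b1 b2
      have r1 : r ∈ TT sX zX hX ((Q0 ++ q1.flatten) ++ (Q ++ (q2.flatten ++ R))) 0 0 := by
        refine TT_mid' sX zX hX _ Q _ 0 r ?_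
        rw [dX, aX]; exact hr1
      have r2 : r ∈ TT sY zY hY ((Q0' ++ q1'.flatten) ++ (Q' ++ (q2'.flatten ++ R'))) w 0 := by
        refine TT_mid' sY zY hY _ Q' _ w r ?_
        rw [dY, aY]; exact hr2
      have s1 := hslab i (by omega) (by omega) r r1 r2
      have s2 := hslab (i + 1) (by omega) (by omega) r r1 r2
      rw [e1] at s2
      rw [e1]
      constructor <;> omega
  · simp only [aP]
    rw [HT_append, aX, HT_append] at hLX
    omega
  · simp only [aP]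
    rw [HT_append, aY, HT_append] at hLY
    omega

set_option maxHeartbeats 1600000 in
/-- **KAPPA' on lists from the window lemmas.** -/
theorem kap (h1X : ∀ b, 1 ≤ hX b) (h1Y : ∀ b, 1 ≤ hY b) (hΛX : ∑' b, ΛX b ≤ 1)
    (hΛY : ∑' b, ΛY b ≤ 1) (hUX : ∀ n, U ΛX hX n ≤ 1) (hUY : ∀ n, U ΛY hY n ≤ 1)
    (hoX : Filter.Tendsto (ov ΛX hX) Filter.atTop (nhds 0))
    (hoY : Filter.Tendsto (ov ΛY hY) Filter.atTop (nhds 0))
    (hsX : ∀ b, ∀ q ∈ sX b, 1 ≤ q.2 ∧ q.2 ≤ hX b)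
    (hsY : ∀ b, ∀ q ∈ sY b, 1 ≤ q.2 ∧ q.2 ≤ hY b)
    (us : ℕ → ℝ≥0∞) (hus : Filter.Tendsto us Filter.atTop (nhds 0)) (C : ℝ≥0∞) (hC : C ≠ ⊤)
    (h2 : H2 ΛX hX zX sX ΛY hY zY sY us C) (h3 : H3 ΛX hX zX sX ΛY hY zY sY us C)
    (h5 : ∀ (s : ℕ) (η : ℝ≥0∞), η ≠ 0 → ∃ T, ∀ a, T ≤ a → ∀ n, ∀ w : G,
      ∑' b : List BX × List BY, (if HT hX b.1 = n ∧ HT hY b.2 = n ∧
        (∃ q, a ≤ q.2 ∧ q.2 < a + s ∧ q ∈ TT sX zX hX b.1 0 0 ∧ q ∈ TT sY zY hY b.2 w 0)
        then LW ΛX b.1 * LW ΛY b.2 else 0) ≤ η) :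
    ∀ ε : ℝ≥0∞, ε ≠ 0 → ∃ M : ℕ, ∀ m, M ≤ m → ∃ n0 : ℕ, ∀ n, n0 ≤ n → ∀ w : G,
      ∑' b : List BX × List BY, (if HT hX b.1 = n ∧ HT hY b.2 = n ∧
        (∀ q, q ∈ TT sX zX hX b.1 0 0 → q ∈ TT sY zY hY b.2 w 0 → m < q.2) ∧
        (∃ q, q ∈ TT sX zX hX b.1 0 0 ∧ q ∈ TT sY zY hY b.2 w 0 ∧ q.2 ≤ 2 * m)
        then LW ΛX b.1 * LW ΛY b.2 else 0) ≤ ε := by
  intro ε hε
  obtain ⟨δ, hδ0, hδ⟩ : ∃ δ : ℝ≥0∞, δ ≠ 0 ∧ 8 * δ ≤ ε := by
    refine ⟨ε / 8, ?_, ?_⟩
    · rw [Ne, ENNReal.div_eq_zero_iff, not_or]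
      exact ⟨hε, by norm_num⟩
    · exact ENNReal.mul_div_le
  obtain ⟨K, u, hK4, hu0, hu1, hKu, hKu2⟩ := Num337.exKu δ hδ0
  set N : ℕ := 2 * K + 1 with hN
  obtain ⟨i1, hi1⟩ := Num337.exSmall (ov ΛX hX) hoX ((N : ℝ≥0∞) + 1)
    (by simp) δ hδ0
  obtain ⟨i2, hi2⟩ := Num337.exSmall (ov ΛY hY) hoY ((N : ℝ≥0∞) + 1)
    (by simp) δ hδ0
  set i0 := max i1 i2 with hi0
  set D : ℕ := (2 * K + 2) * i0 with hD
  set τ : ℕ := D + i0 with hτ
  set cnt : ℕ := (D + 1) ^ 2 * (i0 + 1) ^ 2 with hcnt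
  obtain ⟨lam, hl0, hl1, -, s0, hs0⟩ := Num337.exLam (((K + 1 : ℕ) : ℝ≥0∞) * (cnt * C)) N
    (ENNReal.mul_ne_top (ENNReal.natCast_ne_top _)
      (ENNReal.mul_ne_top (ENNReal.natCast_ne_top _) hC)) (ENNReal.natCast_ne_top _) us hus δ hδ0
  have hs := hs0 s0 le_rfl
  set s := s0
  obtain ⟨T0, hT0⟩ := h5 (2 * s + τ + D + 1) (δ / N) (by
    rw [Ne, ENNReal.div_eq_zero_iff, not_or]
    exact ⟨hδ0, ENNReal.natCast_ne_top _⟩)
  refine ⟨K * (2 * K + T0 + s + 1), fun m hm => ?_⟩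
  set T := m / K with hT
  have hTb : 2 * K + T0 + s + 1 ≤ T :=
    (Nat.le_div_iff_mul_le (by omega)).2 (by rw [mul_comm]; exact hm)
  refine ⟨(τ + i0) + N * (T + i0), fun n hn w => ?_⟩
  have hn' : (0 + i0) + N * (T + i0) ≤ n := by omega
  set RR : ℝ≥0∞ := C * (lam + N * us s / lam + us s) with hRR
  -- pointwise union bound
  have hpt : ∀ b : List BX × List BY, (if HT hX b.1 = n ∧ HT hY b.2 = n ∧
        (∀ q, q ∈ TT sX zX hX b.1 0 0 → q ∈ TT sY zY hY b.2 w 0 → m < q.2) ∧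
        (∃ q, q ∈ TT sX zX hX b.1 0 0 ∧ q ∈ TT sY zY hY b.2 w 0 ∧ q.2 ≤ 2 * m)
        then LW ΛX b.1 * LW ΛY b.2 else 0)
      ≤ (if HT hX b.1 = n ∧ ¬ GI hX 0 T i0 N b.1 then LW ΛX b.1 else 0)
          * (if HT hY b.2 = n then LW ΛY b.2 else 0)
        + (if HT hX b.1 = n then LW ΛX b.1 else 0)
          * (if HT hY b.2 = n ∧ ¬ GI hY τ T i0 N b.2 then LW ΛY b.2 else 0)
        + ∑ j ∈ Finset.Icc 1 N, (if HT hX b.1 = n ∧ HT hY b.2 = n ∧
            (∃ q, j * T - s ≤ q.2 ∧ q.2 < j * T - s + (2 * s + τ + D + 1) ∧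
              q ∈ TT sX zX hX b.1 0 0 ∧ q ∈ TT sY zY hY b.2 w 0)
            then LW ΛX b.1 * LW ΛY b.2 else 0)
        + ∑ i ∈ Finset.Ico K N, (if ∃ a, fA a = b ∧
            Phi hX zX sX hY zY sY w n T i0 0 τ i (i * T + τ + D + s) ((i + 1) * T - s) a
            then LW ΛX b.1 * LW ΛY b.2 else 0) := by
    intro b
    by_cases hE : HT hX b.1 = n ∧ HT hY b.2 = n ∧
        (∀ q, q ∈ TT sX zX hX b.1 0 0 → q ∈ TT sY zY hY b.2 w 0 → m < q.2) ∧
        (∃ q, q ∈ TT sX zX hX b.1 0 0 ∧ q ∈ TT sY zY hY b.2 w 0 ∧ q.2 ≤ 2 * m)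
    swap
    · rw [if_neg hE]; exact zero_le
    rw [if_pos hE]
    obtain ⟨E1, E2, E3, E4⟩ := hE
    by_cases gX : GI hX 0 T i0 N b.1
    swap
    · refine le_trans ?_ le_self_add
      refine le_trans ?_ le_self_add
      refine le_trans ?_ le_self_add
      rw [if_pos ⟨E1, gX⟩, if_pos E2]
    by_cases gY : GI hY τ T i0 N b.2
    swap
    · refine le_trans ?_ le_self_add
      refine le_trans ?_ le_self_add
      refine le_trans ?_ le_add_self
      rw [if_pos E1, if_pos ⟨E2, gY⟩]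
    by_cases hsl : ∃ j, (1 ≤ j ∧ j ≤ N) ∧ ∃ q, j * T - s ≤ q.2 ∧
        q.2 < j * T - s + (2 * s + τ + D + 1) ∧
        q ∈ TT sX zX hX b.1 0 0 ∧ q ∈ TT sY zY hY b.2 w 0
    · obtain ⟨j, hj, hq⟩ := hsl
      refine le_trans ?_ le_self_add
      refine le_trans ?_ le_add_self
      refine le_trans ?_ (Finset.single_le_sum (f := fun j => (if HT hX b.1 = n ∧ HT hY b.2 = n ∧
            (∃ q, j * T - s ≤ q.2 ∧ q.2 < j * T - s + (2 * s + τ + D + 1) ∧
              q ∈ TT sX zX hX b.1 0 0 ∧ q ∈ TT sY zY hY b.2 w 0)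
            then LW ΛX b.1 * LW ΛY b.2 else 0)) (fun _ _ => zero_le)
            (Finset.mem_Icc.2 hj))
      rw [if_pos ⟨E1, E2, hq⟩]
    · refine le_trans ?_ le_add_self
      obtain ⟨i, hi, ha⟩ := cover hX zX sX hY zY sY hsX hsY w n m T i0 s K D τ (by omega) hT
        (by omega) (by omega) hD hτ b.1 b.2 E1 E2 gX gY E3 E4
        (fun j hj1 hj2 q hq1 hq2 hc => hsl ⟨j, ⟨hj1, hj2⟩, q, hc.1, hc.2, hq1, hq2⟩)
      refine le_trans ?_ (Finset.single_le_sum (f := fun i => (if ∃ a, fA a = b ∧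
            Phi hX zX sX hY zY sY w n T i0 0 τ i (i * T + τ + D + s) ((i + 1) * T - s) a
            then LW ΛX b.1 * LW ΛY b.2 else 0)) (fun _ _ => zero_le) hi)
      rw [if_pos ha]
  refine (ENNReal.tsum_le_tsum hpt).trans ?_
  rw [ENNReal.tsum_add, ENNReal.tsum_add, ENNReal.tsum_add,
    Summable.tsum_finsetSum (fun _ _ => ENNReal.summable),
    Summable.tsum_finsetSum (fun _ _ => ENNReal.summable)]
  have b1 := prod_le (fun L => if HT hX L = n ∧ ¬ GI hX 0 T i0 N L then LW ΛX L else 0)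
    (fun L => if HT hY L = n then LW ΛY L else 0) _ 1
    (bad_GI ΛX hX h1X hΛX hUX 0 T i0 N n hn') (hUY n)
  have b2 := prod_le (fun L => if HT hX L = n then LW ΛX L else 0)
    (fun L => if HT hY L = n ∧ ¬ GI hY τ T i0 N L then LW ΛY L else 0) 1 _ (hUX n)
    (bad_GI ΛY hY h1Y hΛY hUY τ T i0 N n hn)
  have c1 : (N * ov ΛX hX i0 + ov ΛX hX i0) * 1 ≤ δ := by
    refine le_trans (le_of_eq ?_) (hi1 i0 (le_max_left _ _))
    ring
  have c2 : 1 * (N * ov ΛY hY i0 + ov ΛY hY i0) ≤ δ := by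
    refine le_trans (le_of_eq ?_) (hi2 i0 (le_max_right _ _))
    ring
  have c3 : ∑ j ∈ Finset.Icc 1 N, ∑' b : List BX × List BY, (if HT hX b.1 = n ∧ HT hY b.2 = n ∧
            (∃ q, j * T - s ≤ q.2 ∧ q.2 < j * T - s + (2 * s + τ + D + 1) ∧
              q ∈ TT sX zX hX b.1 0 0 ∧ q ∈ TT sY zY hY b.2 w 0)
            then LW ΛX b.1 * LW ΛY b.2 else 0) ≤ δ := by
    calc _ ≤ ∑ _j ∈ Finset.Icc 1 N, δ / N := by
          refine Finset.sum_le_sum fun j hj => ?_
          refine hT0 (j * T - s) ?_ n w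
          have : T ≤ j * T := Nat.le_mul_of_pos_left T (by
            have := (Finset.mem_Icc.1 hj).1; omega)
          omega
      _ = N * (δ / N) := by simp
      _ ≤ δ := ENNReal.mul_div_le
  have c4 : ∑ i ∈ Finset.Ico K N, ∑' b : List BX × List BY, (if ∃ a, fA a = b ∧
            Phi hX zX sX hY zY sY w n T i0 0 τ i (i * T + τ + D + s) ((i + 1) * T - s) a
            then LW ΛX b.1 * LW ΛY b.2 else 0) ≤ 5 * δ := by
    have hone : ∀ i ∈ Finset.Ico K N, ∑' b : List BX × List BY, (if ∃ a, fA a = b ∧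
            Phi hX zX sX hY zY sY w n T i0 0 τ i (i * T + τ + D + s) ((i + 1) * T - s) a
            then LW ΛX b.1 * LW ΛY b.2 else 0)
        ≤ (1 - u) ^ (K / 4) + (1 - u) ^ (K / 4) + u * u + cnt * RR + cnt * RR := by
      intro i hi
      have hi' := Finset.mem_Ico.1 hi
      have hii : (i + 1) * i0 ≤ (2 * K + 1) * i0 := Nat.mul_le_mul_right _ (by omega)
      have e2 : (i + 1) * i0 = i * i0 + i0 := by ring
      have e3 : (2 * K + 2) * i0 = (2 * K + 1) * i0 + i0 := by ring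
      have e1 : (i + 1) * T = i * T + T := by ring
      refine (Phi_sum ΛX hX zX sX ΛY hY zY sY hUX hUY w n T i0 0 τ i (0 + i * T) (τ + i * T) D _ _
        rfl rfl (by omega)).trans ?_
      refine (Sw_le ΛX hX zX sX ΛY hY zY sY h1X h1Y hΛX hΛY us C h2 h3 w T i0 0 τ i (0 + i * T)
        (τ + i * T) D _ _ s hu0 hu1.le hl0 hl1 (by omega) (by omega) (by omega) (by omega)
        (by omega)).trans ?_
      have hp : (1 - u) ^ i ≤ (1 - u) ^ (K / 4) :=
        pow_le_pow_of_le_one zero_le tsub_le_self (by omega)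
      have hr : C * (lam + i * us s / lam + us s) ≤ RR := by
        rw [hRR]
        gcongr
        omega
      gcongr
    calc _ ≤ ∑ _i ∈ Finset.Ico K N,
          ((1 - u) ^ (K / 4) + (1 - u) ^ (K / 4) + u * u + cnt * RR + cnt * RR) :=
          Finset.sum_le_sum hone
      _ = ((K + 1 : ℕ) : ℝ≥0∞) * ((1 - u) ^ (K / 4) + (1 - u) ^ (K / 4) + u * u + cnt * RR
            + cnt * RR) := by
          rw [Finset.sum_const, Nat.card_Ico, nsmul_eq_mul]
          congr 2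
          omega
      _ = ((K + 1 : ℕ) : ℝ≥0∞) * (1 - u) ^ (K / 4) + ((K + 1 : ℕ) : ℝ≥0∞) * (1 - u) ^ (K / 4)
            + ((K + 1 : ℕ) : ℝ≥0∞) * (u * u)
            + (((K + 1 : ℕ) : ℝ≥0∞) * (cnt * C)) * (lam + N * us s / lam + us s)
            + (((K + 1 : ℕ) : ℝ≥0∞) * (cnt * C)) * (lam + N * us s / lam + us s) := by
          rw [hRR]; ring
      _ ≤ δ + δ + δ + δ + δ := by
          have hcast : ((K + 1 : ℕ) : ℝ≥0∞) ≤ ((4 * K + 8 : ℕ) : ℝ≥0∞) := by
            exact_mod_cast (by omega : K + 1 ≤ 4 * K + 8)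
          gcongr
          · exact (mul_le_mul_left hcast _).trans hKu2
          · exact (mul_le_mul_left hcast _).trans hKu2
          · exact (mul_le_mul_left hcast _).trans hKu
      _ = 5 * δ := by ring
  calc _ ≤ δ + δ + δ + 5 * δ :=
        add_le_add (add_le_add (add_le_add (b1.trans c1) (b2.trans c2)) c3) c4
    _ = 8 * δ := by ring
    _ ≤ ε := hδ

end fin

end Crest.Agent.R154.Asm3
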