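import Crest.Agent.R154.Ren_480
import Crest.Agent.R154.KU_823

/-! Row 154, ROAD 801 (helper433): abstract assembly of the window estimates. Part 1: the functional
`AT` for two walkers and the reduction of one window to two pieces. -/

set_option autoImplicit false

namespace Crest.Agent.R154.Asm433

open scoped ENNReal Topology
open Crest.Agent.R154.B5A
open Crest.Agent.R154.Ren480

section one

variable {B : Type*} (Λ : B → ℝ≥0∞) (ht : B → ℕ)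

lemma Stp_of_HT (h1 : ∀ b, 1 ≤ ht b) : ∀ (L : List B) (n : ℕ), HT ht L = n → Stp ht n L
  | [], n, h => by rw [HT_nil] at h; exact h.symm
  | b :: L, n, h => by
    rw [HT_cons] at h
    have := h1 b
    exact ⟨by omega, Stp_of_HT h1 L _ (by omega)⟩

open Classical in
lemma sum_HT_eq (h1 : ∀ b, 1 ≤ ht b) (n : ℕ) (f : List B → ℝ≥0∞) :
    ∑' L, (if HT ht L = n then LW Λ L * f L else 0)
      = AT Λ ht n (fun L => if HT ht L = n then f L else 0) := by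
  rw [AT]
  refine tsum_congr fun L => ?_
  by_cases h : HT ht L = n
  · rw [if_pos h, if_pos (Stp_of_HT ht h1 L n h), if_pos h]
  · rw [if_neg h, if_neg h]; simp

lemma AT_const (hΛ : ∑' b, Λ b = 1) (h1 : ∀ b, 1 ≤ ht b) (T : ℕ) (c : ℝ≥0∞) :
    AT Λ ht T (fun _ => c) = c := by
  have := AT_mul Λ ht T c (fun _ => 1)
  rw [AT_one Λ ht hΛ h1] at this
  simpa using this

lemma AT_le_const (hΛ : ∑' b, Λ b = 1) (h1 : ∀ b, 1 ≤ ht b) (T : ℕ) {F : List B → ℝ≥0∞}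
    {c : ℝ≥0∞} (hF : ∀ L, Stp ht T L → F L ≤ c) : AT Λ ht T F ≤ c :=
  (AT_mono Λ ht T hF).trans (AT_const Λ ht hΛ h1 T c).le

/-- one walker: first passage of `A`, piece of `S`, the rest is free -/
lemma step (hΛ : ∑' b, Λ b = 1) (h1 : ∀ b, 1 ≤ ht b) {A i0 S n : ℕ} (hn : A + i0 + S ≤ n)
    (f : List B → ℝ≥0∞) (hf1 : ∀ L, f L ≤ 1) (g : List B → List B → ℝ≥0∞)
    (hg : ∀ L1 L2 L3, HT ht L1 ≤ A + i0 → f (L1 ++ (L2 ++ L3)) ≤ g L1 L2)
    (hbig : ∀ L1 L2, A + i0 < HT ht L1 → 1 ≤ g L1 L2) :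
    ∑' L, (if HT ht L = n then LW Λ L * f L else 0)
      ≤ AT Λ ht A (fun L1 => AT Λ ht S (fun L2 => g L1 L2)) := by
  classical
  rw [sum_HT_eq Λ ht h1, AT_split Λ ht h1 A n (by omega)]
  refine AT_mono Λ ht A fun L1 hL1 => ?_
  have hle := Stp_le ht L1 A hL1
  by_cases h : HT ht L1 ≤ A + i0
  · rw [AT_split Λ ht h1 S (n - HT ht L1) (by omega)]
    refine AT_mono Λ ht S fun L2 hL2 => ?_
    refine AT_le_const Λ ht hΛ h1 _ fun L3 _ => ?_
    split_ifs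
    · exact hg L1 L2 L3 h
    · exact zero_le
  · rw [not_le] at h
    calc _ ≤ (1 : ℝ≥0∞) := by
          refine AT_le_const Λ ht hΛ h1 _ fun L3 _ => ?_
          split_ifs
          · exact hf1 _
          · exact zero_le
      _ = AT Λ ht S (fun _ => 1) := (AT_const Λ ht hΛ h1 S 1).symm
      _ ≤ _ := AT_mono Λ ht S fun L2 _ => hbig L1 L2 h

end one

section two

variable {B B' : Type*} (Λ : B → ℝ≥0∞) (ht : B → ℕ) (Λ' : B' → ℝ≥0∞) (ht' : B' → ℕ)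

lemma AT_comm (T T' : ℕ) (F : List B → List B' → ℝ≥0∞) :
    AT Λ ht T (fun L => AT Λ' ht' T' (fun M => F L M))
      = AT Λ' ht' T' (fun M => AT Λ ht T (fun L => F L M)) := by
  classical
  simp only [AT]
  have e1 : ∀ L : List B, (if Stp ht T L then LW Λ L * ∑' M, (if Stp ht' T' M then
      LW Λ' M * F L M else 0) else 0)
      = ∑' M, (if Stp ht T L then (if Stp ht' T' M then LW Λ L * (LW Λ' M * F L M) else 0) else 0) := by
    intro L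
    by_cases h : Stp ht T L
    · simp only [if_pos h]
      rw [← ENNReal.tsum_mul_left]
      refine tsum_congr fun M => ?_
      split_ifs <;> simp
    · simp [if_neg h]
  have e2 : ∀ M : List B', (if Stp ht' T' M then LW Λ' M * ∑' L, (if Stp ht T L then
      LW Λ L * F L M else 0) else 0)
      = ∑' L, (if Stp ht T L then (if Stp ht' T' M then LW Λ L * (LW Λ' M * F L M) else 0) else 0) := by
    intro M
    by_cases h : Stp ht' T' M
    · simp only [if_pos h]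
      rw [← ENNReal.tsum_mul_left]
      refine tsum_congr fun L => ?_
      split_ifs
      · ring
      · simp
    · simp [if_neg h]
  rw [tsum_congr e1, tsum_congr e2, ENNReal.tsum_comm]

open Classical in
/-- two walkers: reduction to first passage of `A`, piece of `S` -/
lemma red (hΛ : ∑' b, Λ b = 1) (h1 : ∀ b, 1 ≤ ht b) (hΛ' : ∑' b, Λ' b = 1) (h1' : ∀ b, 1 ≤ ht' b)
    {A A' i0 S S' n : ℕ} (hn : A + i0 + S ≤ n) (hn' : A' + i0 + S' ≤ n)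
    (Ev : List B → List B' → Prop) :
    ∑' L, ∑' M, (if HT ht L = n ∧ HT ht' M = n ∧ Ev L M then LW Λ L * LW Λ' M else 0)
      ≤ AT Λ ht A (fun L1 => AT Λ ht S (fun L2 => AT Λ' ht' A' (fun M1 => AT Λ' ht' S' (fun M2 =>
          if A + i0 < HT ht L1 ∨ A' + i0 < HT ht' M1 ∨
            ∃ L3 M3, Ev (L1 ++ (L2 ++ L3)) (M1 ++ (M2 ++ M3)) then 1 else 0)))) := by
  set F : List B → ℝ≥0∞ := fun L => AT Λ' ht' A' (fun M1 => AT Λ' ht' S' (fun M2 =>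
      if A' + i0 < HT ht' M1 ∨ ∃ M3, Ev L (M1 ++ (M2 ++ M3)) then 1 else 0)) with hF
  have hF1 : ∀ L, F L ≤ 1 := by
    intro L
    refine AT_le_const Λ' ht' hΛ' h1' _ fun M1 _ => AT_le_const Λ' ht' hΛ' h1' _ fun M2 _ => ?_
    split_ifs <;> simp
  have e0 : ∑' L, ∑' M, (if HT ht L = n ∧ HT ht' M = n ∧ Ev L M then LW Λ L * LW Λ' M else 0)
      = ∑' L, (if HT ht L = n then LW Λ L * ∑' M, (if HT ht' M = n then
          LW Λ' M * (if Ev L M then 1 else 0) else 0) else 0) := by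
    refine tsum_congr fun L => ?_
    by_cases h : HT ht L = n
    · rw [if_pos h, ← ENNReal.tsum_mul_left]
      refine tsum_congr fun M => ?_
      by_cases h2 : HT ht' M = n <;> by_cases h3 : Ev L M <;> simp [h, h2, h3]
    · simp [h]
  rw [e0]
  have hs : ∑' L, (if HT ht L = n then LW Λ L * ∑' M, (if HT ht' M = n then
          LW Λ' M * (if Ev L M then 1 else 0) else 0) else 0)
      ≤ ∑' L, (if HT ht L = n then LW Λ L * F L else 0) := by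
    refine ENNReal.tsum_le_tsum fun L => ?_
    by_cases h : HT ht L = n
    · rw [if_pos h, if_pos h]
      refine mul_le_mul_right ?_ _
      refine step Λ' ht' hΛ' h1' hn' (fun M => if Ev L M then 1 else 0) (fun M => ?_) _ ?_ ?_
      · show (if Ev L M then (1 : ℝ≥0∞) else 0) ≤ 1
        split_ifs <;> simp
      · intro M1 M2 M3 _
        show (if Ev L (M1 ++ (M2 ++ M3)) then (1 : ℝ≥0∞) else 0) ≤ _
        by_cases h3 : Ev L (M1 ++ (M2 ++ M3))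
        · rw [if_pos h3, if_pos (Or.inr ⟨M3, h3⟩)]
        · rw [if_neg h3]; exact zero_le
      · intro M1 M2 hM
        rw [if_pos (Or.inl hM)]
    · rw [if_neg h, if_neg h]
  refine hs.trans ?_
  refine step Λ ht hΛ h1 hn F hF1 _ ?_ ?_
  · intro L1 L2 L3 _
    refine AT_mono Λ' ht' _ fun M1 _ => AT_mono Λ' ht' _ fun M2 _ => ?_
    by_cases h3 : A' + i0 < HT ht' M1 ∨ ∃ M3, Ev (L1 ++ (L2 ++ L3)) (M1 ++ (M2 ++ M3))
    · rw [if_pos h3, if_pos]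
      rcases h3 with h3 | ⟨M3, h3⟩
      · exact Or.inr (Or.inl h3)
      · exact Or.inr (Or.inr ⟨L3, M3, h3⟩)
    · rw [if_neg h3]; exact zero_le
  · intro L1 L2 hL
    have : ∀ (M1 M2 : List B'), (if A + i0 < HT ht L1 ∨ A' + i0 < HT ht' M1 ∨
            ∃ L3 M3, Ev (L1 ++ (L2 ++ L3)) (M1 ++ (M2 ++ M3)) then (1 : ℝ≥0∞) else 0) = 1 :=
      fun M1 M2 => if_pos (Or.inl hL)
    simp only [this]
    rw [AT_const Λ' ht' hΛ' h1', AT_const Λ' ht' hΛ' h1']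

end two

/-! ### contact sets and hypotheses -/

section geo

variable {G : Type*} [AddCommGroup G]

/-- properties of the sets of used sites of a list placed at `(x, a)` -/
structure CS {B : Type*} (h : B → ℕ) (z : B → G) (C : List B → G → ℕ → Set (G × ℕ)) : Prop where
  app : ∀ L L' x a, C (L ++ L') x a = C L x a ∪ C L' (x + DS z L) (a + HT h L)
  rng : ∀ L x a y k, (y, k) ∈ C L x a → a < k ∧ k ≤ a + HT h L
  tr : ∀ L x y a v k, (v, k) ∈ C L (x + y) a ↔ (v - y, k) ∈ C L x a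

/-- window event of the whole lists -/
def Ev (P Q : Set (G × ℕ)) (l r b1 b2 : ℕ) : Prop :=
  (∃ z k, (z, k) ∈ P ∧ (z, k) ∈ Q ∧ k ≤ r) ∧ (∀ z k, (z, k) ∈ P → (z, k) ∈ Q → l < k) ∧
    ∀ z k, (z, k) ∈ P → (z, k) ∈ Q → ¬ (b1 < k ∧ k ≤ b2)

/-- event of the pieces -/
def De (P Q : Set (G × ℕ)) (lo hi : ℕ) : Prop :=
  (∃ z k, (z, k) ∈ P ∧ (z, k) ∈ Q) ∧ (∀ z k, (z, k) ∈ P → (z, k) ∈ Q → lo ≤ k) ∧
    ∀ z k, (z, k) ∈ P → (z, k) ∈ Q → k ≤ hi

variable {BX BY : Type*} {hX : BX → ℕ} {hY : BY → ℕ} {zX : BX → G} {zY : BY → G}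
  {CX : List BX → G → ℕ → Set (G × ℕ)} {CY : List BY → G → ℕ → Set (G × ℕ)}

lemma geo_De (hCX : CS hX zX CX) (hCY : CS hY zY CY) {A i0 t s : ℕ} (hs : s + 2 * i0 ≤ t)
    {w : G} {L1 L2 L3 : List BX} {M1 M2 M3 : List BY}
    (hL1 : A ≤ HT hX L1) (hL1' : HT hX L1 ≤ A + i0) (hL2 : 3 * t ≤ HT hX L2)
    (hL2' : HT hX L2 ≤ 3 * t + i0) (hM1 : A + i0 ≤ HT hY M1) (hM1' : HT hY M1 ≤ A + i0 + i0)
    (hM2 : 3 * t + 2 * i0 ≤ HT hY M2)
    (h : Ev (CX (L1 ++ (L2 ++ L3)) 0 0) (CY (M1 ++ (M2 ++ M3)) w 0) (A + t) (A + 2 * t)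
      (A + 3 * t - s) (A + 3 * t + 2 * i0)) :
    De (CX L2 (DS zX L1) (HT hX L1)) (CY M2 (w + DS zY M1) (HT hY M1)) (A + t + 1)
      (A + 3 * t - s) := by
  obtain ⟨⟨z, k, hzX, hzY, hk⟩, h2, h3⟩ := h
  have hk1 := h2 z k hzX hzY
  have incX : ∀ z k, (z, k) ∈ CX L2 (DS zX L1) (HT hX L1) → (z, k) ∈ CX (L1 ++ (L2 ++ L3)) 0 0 := by
    intro z k hz
    rw [hCX.app, hCX.app, zero_add, zero_add]
    exact Or.inr (Or.inl hz)
  have incY : ∀ z k, (z, k) ∈ CY M2 (w + DS zY M1) (HT hY M1) →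
      (z, k) ∈ CY (M1 ++ (M2 ++ M3)) w 0 := by
    intro z k hz
    rw [hCY.app, hCY.app, zero_add]
    exact Or.inr (Or.inl hz)
  refine ⟨⟨z, k, ?_, ?_⟩, fun z k hz hz' => h2 z k (incX z k hz) (incY z k hz'), fun z k hz hz' => ?_⟩
  · rw [hCX.app, hCX.app, zero_add, zero_add] at hzX
    rcases hzX with hz | hz | hz
    · have := hCX.rng _ _ _ _ _ hz; omega
    · exact hz
    · have := hCX.rng _ _ _ _ _ hz; omega
  · rw [hCY.app, hCY.app, zero_add] at hzY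
    rcases hzY with hz | hz | hz
    · have := hCY.rng _ _ _ _ _ hz; omega
    · exact hz
    · have := hCY.rng _ _ _ _ _ hz; omega
  · have h4 := h3 z k (incX z k hz) (incY z k hz')
    have h5 := hCX.rng _ _ _ _ _ hz
    omega

lemma De_shift (hCX : CS hX zX CX) (hCY : CS hY zY CY) (L2 : List BX) (M2 : List BY) (x y : G)
    (a b lo hi : ℕ) :
    De (CX L2 x a) (CY M2 y b) lo hi ↔ De (CX L2 0 a) (CY M2 (y - x) b) lo hi := by
  have hX' : ∀ z k, (z, k) ∈ CX L2 x a ↔ (z - x, k) ∈ CX L2 0 a := by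
    intro z k
    have := hCX.tr L2 0 x a z k
    rwa [zero_add] at this
  have hY' : ∀ z k, (z, k) ∈ CY M2 y b ↔ (z - x, k) ∈ CY M2 (y - x) b := by
    intro z k
    have := hCY.tr M2 (y - x) x b z k
    rwa [sub_add_cancel] at this
  constructor
  · rintro ⟨⟨z, k, h1, h2⟩, h3, h4⟩
    refine ⟨⟨z - x, k, (hX' z k).1 h1, (hY' z k).1 h2⟩, fun v k hv hv' => ?_, fun v k hv hv' => ?_⟩
    · refine h3 (v + x) k ((hX' _ _).2 ?_) ((hY' _ _).2 ?_) <;> simpa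
    · refine h4 (v + x) k ((hX' _ _).2 ?_) ((hY' _ _).2 ?_) <;> simpa
  · rintro ⟨⟨z, k, h1, h2⟩, h3, h4⟩
    refine ⟨⟨z + x, k, (hX' _ _).2 (by simpa), (hY' _ _).2 (by simpa)⟩, fun v k hv hv' => ?_,
      fun v k hv hv' => ?_⟩
    · exact h3 _ k ((hX' _ _).1 hv) ((hY' _ _).1 hv')
    · exact h4 _ k ((hX' _ _).1 hv) ((hY' _ _).1 hv')

end geo

/-! ### the local part -/

section loc

variable {B G : Type*} [AddCommGroup G] (Λ : B → ℝ≥0∞) (ht : B → ℕ) (dsp : B → G)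

open Classical in
lemma locpart (hΛ : ∑' b, Λ b = 1) (h1 : ∀ b, 1 ≤ ht b) (σ : G ≃ G) {A i0 : ℕ}
    {g b : ℕ × G → ℝ≥0∞} {Mx η R : ℝ≥0∞} (hgb : ∀ x, a Λ ht dsp A x ≤ g x + b x)
    (hg : ∀ x, g x ≤ Mx) (hb : ∑' x, b x ≤ η) (Φ : ℕ → G → ℝ≥0∞) (hΦ1 : ∀ i δ, Φ i δ ≤ 1)
    (hR : ∀ i, i ≤ i0 → ∀ μ : G → ℝ≥0∞, ∑' x, μ x ≤ 1 → (∀ x, μ x ≤ Mx) →
      ∑' δ, μ δ * Φ i δ ≤ R) :
    AT Λ ht A (fun L => if HT ht L ≤ A + i0 then Φ (HT ht L - A) (σ (DS dsp L)) else 0)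
      ≤ ((i0 + 1 : ℕ) : ℝ≥0∞) * R + η := by
  set H : ℕ × G → ℝ≥0∞ := fun x => if x.1 ≤ i0 then Φ x.1 (σ x.2) else 0 with hH
  have e1 : AT Λ ht A (fun L => if HT ht L ≤ A + i0 then Φ (HT ht L - A) (σ (DS dsp L)) else 0)
      = AT Λ ht A (fun L => H (HT ht L - A, DS dsp L)) := by
    refine AT_congr Λ ht A fun L hL => ?_
    simp only [hH]
    by_cases h : HT ht L ≤ A + i0
    · rw [if_pos h, if_pos (by omega)]
    · rw [if_neg h, if_neg (by omega)]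
  rw [e1, AT_fun]
  have hH1 : ∀ x, H x ≤ 1 := by
    intro x
    simp only [hH]
    split_ifs
    · exact hΦ1 _ _
    · exact zero_le
  have h2 : ∀ x, a Λ ht dsp A x * H x ≤ min (g x) (a Λ ht dsp A x) * H x + b x := by
    intro x
    have h3 : a Λ ht dsp A x ≤ min (g x) (a Λ ht dsp A x) + b x := by
      rcases le_total (g x) (a Λ ht dsp A x) with h | h
      · rw [min_eq_left h]; exact hgb x
      · rw [min_eq_right h]; exact le_self_add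
    calc _ ≤ (min (g x) (a Λ ht dsp A x) + b x) * H x := mul_le_mul_left h3 _
      _ = min (g x) (a Λ ht dsp A x) * H x + b x * H x := add_mul _ _ _
      _ ≤ _ := by
          refine add_le_add le_rfl ?_
          calc b x * H x ≤ b x * 1 := mul_le_mul_right (hH1 x) _
            _ = b x := mul_one _
  refine (ENNReal.tsum_le_tsum h2).trans ?_
  rw [ENNReal.tsum_add]
  refine add_le_add ?_ hb
  rw [ENNReal.tsum_prod']
  have h4 : ∀ i : ℕ, ∑' z : G, min (g (i, z)) (a Λ ht dsp A (i, z)) * H (i, z)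
      ≤ if i ∈ Finset.range (i0 + 1) then R else 0 := by
    intro i
    simp only [Finset.mem_range]
    by_cases hi : i ≤ i0
    · rw [if_pos (by omega)]
      simp only [hH, if_pos hi]
      have h5 := hR i hi (fun δ => min (g (i, σ.symm δ)) (a Λ ht dsp A (i, σ.symm δ))) ?_ ?_
      · rw [← σ.tsum_eq] at h5
        simpa using h5
      · rw [← σ.tsum_eq]
        simp only [Equiv.symm_apply_apply]
        calc ∑' z, min (g (i, z)) (a Λ ht dsp A (i, z)) ≤ ∑' z, a Λ ht dsp A (i, z) :=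
              ENNReal.tsum_le_tsum fun z => min_le_right _ _
          _ ≤ ∑' x, a Λ ht dsp A x := by
              have hinj : Function.Injective (fun z : G => ((i, z) : ℕ × G)) := by
                intro x y h; simpa using h
              exact ENNReal.tsum_comp_le_tsum_of_injective hinj _
          _ = 1 := a_sum Λ ht dsp hΛ h1 A
      · intro x
        exact (min_le_left _ _).trans (hg _)
    · rw [if_neg (by omega)]
      simp only [hH, if_neg hi]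
      simp
  refine (ENNReal.tsum_le_tsum h4).trans ?_
  rw [tsum_eq_sum (s := Finset.range (i0 + 1)) (fun i hi => if_neg hi),
    Finset.sum_congr rfl (fun i hi => if_pos hi), Finset.sum_const, Finset.card_range, nsmul_eq_mul]

/-- density and threshold of the attempt law -/
lemma dens_pack (hΛ : ∑' b, Λ b = 1) (h1 : ∀ b, 1 ≤ ht b) (S i0 : ℕ) {u : ℝ≥0∞} (hu : u ≠ 0)
    (hu1 : u ≤ 1) :
    ∃ (th Mx : ℝ≥0∞) (E : Finset (ℕ × G)), (∀ x, x ∈ E ↔ th ≤ a Λ ht dsp S x) ∧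
      Mx * (E.card : ℝ≥0∞) ≤ 2 * ((i0 + 1 : ℕ) : ℝ≥0∞) * u⁻¹ ∧
      AT Λ ht S (fun L => if a Λ ht dsp S (HT ht L - S, DS dsp L) < th then 1 else 0) ≤ u ∧
      ∀ N A : ℕ, N * (S + i0) ≤ A → ∃ g b : ℕ × G → ℝ≥0∞,
        (∀ x, a Λ ht dsp A x ≤ g x + b x) ∧ (∀ x, g x ≤ Mx) ∧
        ∑' x, b x ≤ (1 - u) ^ N + e1 Λ ht i0 * u⁻¹ := by
  classical
  have hp : ∑' x, a Λ ht dsp S x = 1 := a_sum Λ ht dsp hΛ h1 S
  obtain ⟨th, hth0, hth1, hq1, hq2⟩ := quantile hp hu hu1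
  obtain ⟨E, hE, hcard⟩ := card_large hp.le hth0
  have huu : (1 - (1 - u))⁻¹ = u⁻¹ := by rw [ENNReal.sub_sub_cancel ENNReal.one_ne_top hu1]
  have hv : ∑' y : ℕ × G, (if y.1 ≤ i0 ∧ 2 * th < a Λ ht dsp S y then a Λ ht dsp S y else 0)
      ≤ 1 - u := by
    have h3 : ∑' y : ℕ × G, (if y.1 ≤ i0 ∧ 2 * th < a Λ ht dsp S y then a Λ ht dsp S y else 0)
        + ∑' y : ℕ × G, (if a Λ ht dsp S y < 2 * th then a Λ ht dsp S y else 0) ≤ 1 := by
      rw [← ENNReal.tsum_add, ← hp]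
      refine ENNReal.tsum_le_tsum fun y => ?_
      by_cases h : a Λ ht dsp S y < 2 * th
      · rw [if_pos h, if_neg (fun h' => absurd h'.2 (not_lt.2 h.le)), zero_add]
      · rw [if_neg h, add_zero]
        split_ifs
        · exact le_rfl
        · exact zero_le
    refine ENNReal.le_sub_of_add_le_right (ne_top_of_le_ne_top ENNReal.one_ne_top hu1) ?_
    exact (add_le_add le_rfl hq2).trans h3
  refine ⟨th, ((i0 + 1 : ℕ) : ℝ≥0∞) * (2 * th) * u⁻¹, E, hE, ?_, ?_, ?_⟩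
  · calc ((i0 + 1 : ℕ) : ℝ≥0∞) * (2 * th) * u⁻¹ * (E.card : ℝ≥0∞)
        = 2 * ((i0 + 1 : ℕ) : ℝ≥0∞) * u⁻¹ * ((E.card : ℝ≥0∞) * th) := by ring
      _ ≤ 2 * ((i0 + 1 : ℕ) : ℝ≥0∞) * u⁻¹ * 1 := mul_le_mul_right hcard _
      _ = _ := mul_one _
  · have h := AT_fun Λ ht dsp S (fun y => if a Λ ht dsp S y < th then 1 else 0)
    rw [h]
    refine le_trans (le_of_eq (tsum_congr fun y => ?_)) hq1
    split_ifs <;> simp
  · intro N A hN
    obtain ⟨g, b, h3, h4, h5⟩ := smooth Λ ht dsp hΛ h1 hv N A hN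
    rw [huu] at h5
    refine ⟨g, b, h3, fun x => ?_, h5⟩
    have := h4 x
    rwa [huu] at this

end loc

section two'

variable {B B' : Type*} (Λ : B → ℝ≥0∞) (ht : B → ℕ) (Λ' : B' → ℝ≥0∞) (ht' : B' → ℕ)

open Classical in
lemma AT2_le {S S' i0 : ℕ} (Q : List B → List B' → Prop)
    (T : ℕ → ℕ → List B → List B' → Prop)
    (hT : ∀ L M, S ≤ HT ht L → S' ≤ HT ht' M → Q L M →
      HT ht L ≤ S + i0 ∧ HT ht' M ≤ S' + i0 ∧ T (HT ht L - S) (HT ht' M - S') L M) :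
    AT Λ ht S (fun L => AT Λ' ht' S' (fun M => if Q L M then 1 else 0))
      ≤ ∑ j ∈ Finset.range (i0 + 1), ∑ j' ∈ Finset.range (i0 + 1),
          ∑' L, ∑' M, (if T j j' L M then LW Λ L * LW Λ' M else 0) := by
  have e : ∑ j ∈ Finset.range (i0 + 1), ∑ j' ∈ Finset.range (i0 + 1),
          ∑' L, ∑' M, (if T j j' L M then LW Λ L * LW Λ' M else 0)
      = ∑' L, ∑' M, ∑ j ∈ Finset.range (i0 + 1), ∑ j' ∈ Finset.range (i0 + 1),
          (if T j j' L M then LW Λ L * LW Λ' M else 0) := by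
    symm
    calc _ = ∑' L, ∑ j ∈ Finset.range (i0 + 1), ∑' M, ∑ j' ∈ Finset.range (i0 + 1),
          (if T j j' L M then LW Λ L * LW Λ' M else 0) := by
            refine tsum_congr fun L => ?_
            rw [Summable.tsum_finsetSum (fun _ _ => ENNReal.summable)]
      _ = ∑ j ∈ Finset.range (i0 + 1), ∑' L, ∑' M, ∑ j' ∈ Finset.range (i0 + 1),
          (if T j j' L M then LW Λ L * LW Λ' M else 0) := by
            rw [Summable.tsum_finsetSum (fun _ _ => ENNReal.summable)]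
      _ = _ := by
            refine Finset.sum_congr rfl fun j _ => ?_
            calc _ = ∑' L, ∑ j' ∈ Finset.range (i0 + 1), ∑' M,
                  (if T j j' L M then LW Λ L * LW Λ' M else 0) := by
                    refine tsum_congr fun L => ?_
                    rw [Summable.tsum_finsetSum (fun _ _ => ENNReal.summable)]
              _ = _ := by
                    rw [Summable.tsum_finsetSum (fun _ _ => ENNReal.summable)]
  rw [e, AT]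
  refine ENNReal.tsum_le_tsum fun L => ?_
  by_cases hL : Stp ht S L
  · rw [if_pos hL, AT, ← ENNReal.tsum_mul_left]
    refine ENNReal.tsum_le_tsum fun M => ?_
    by_cases hM : Stp ht' S' M
    · rw [if_pos hM]
      by_cases hQ : Q L M
      · rw [if_pos hQ, mul_one]
        obtain ⟨h3, h4, h5⟩ := hT L M (Stp_le ht L S hL) (Stp_le ht' M S' hM) hQ
        have h6 : HT ht L - S ∈ Finset.range (i0 + 1) := Finset.mem_range.2 (by omega)
        have h7 : HT ht' M - S' ∈ Finset.range (i0 + 1) := Finset.mem_range.2 (by omega)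
        refine le_trans ?_ (Finset.single_le_sum (fun _ _ => zero_le) h6)
        refine le_trans ?_ (Finset.single_le_sum (fun _ _ => zero_le) h7)
        rw [if_pos h5]
      · rw [if_neg hQ, mul_zero, mul_zero]; exact zero_le
    · rw [if_neg hM, mul_zero]; exact zero_le
  · rw [if_neg hL]; exact zero_le

lemma mu_swap {G : Type*} (μ : G → ℝ≥0∞) (s : Finset ℕ) (X : ℕ → ℕ → G → ℝ≥0∞) :
    ∑' δ, μ δ * ∑ j ∈ s, ∑ j' ∈ s, X j j' δ = ∑ j ∈ s, ∑ j' ∈ s, ∑' δ, μ δ * X j j' δ := by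
  calc _ = ∑' δ, ∑ j ∈ s, ∑ j' ∈ s, μ δ * X j j' δ := by
        refine tsum_congr fun δ => ?_
        rw [Finset.mul_sum]
        refine Finset.sum_congr rfl fun j _ => ?_
        rw [Finset.mul_sum]
    _ = ∑ j ∈ s, ∑' δ, ∑ j' ∈ s, μ δ * X j j' δ := by
        rw [Summable.tsum_finsetSum (fun _ _ => ENNReal.summable)]
    _ = _ := by
        refine Finset.sum_congr rfl fun j _ => ?_
        rw [Summable.tsum_finsetSum (fun _ _ => ENNReal.summable)]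

end two'

/-! ### one window -/

section main

variable {BX BY G : Type*} [AddCommGroup G] (ΛX : BX → ℝ≥0∞) (ΛY : BY → ℝ≥0∞) (hX : BX → ℕ)
  (hY : BY → ℕ) (zX : BX → G) (zY : BY → G) (CX : List BX → G → ℕ → Set (G × ℕ))
  (CY : List BY → G → ℕ → Set (G × ℕ))

open Classical in
/-- the window lemma, X local -/
def WX (us : ℕ → ℕ → ℝ≥0∞) (C : ℝ≥0∞) : Prop :=
  ∀ (r s h h' a a' lo hi : ℕ) (E : Finset G) (μ : G → ℝ≥0∞) (M lam : ℝ≥0∞), ∑' x, μ x ≤ 1 →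
    (∀ x, μ x ≤ M) → lam ≠ 0 → lam ≠ ⊤ → a ≤ a' → a' ≤ a + r → a + h ≤ a' + h' →
    a' + h' ≤ a + h + r → a + s ≤ lo → a' + s ≤ lo → hi + s ≤ a + h → hi + s ≤ a' + h' →
    ∑' x, μ x * ∑' L, ∑' L', (if HT hX L = h ∧ DS zX L ∈ E ∧ HT hY L' = h' ∧
      De (CX L 0 a) (CY L' x a') lo hi then LW ΛX L * LW ΛY L' else 0)
      ≤ C * (lam + M * E.card * us r s / lam + us r s)

open Classical in
/-- the window lemma, Y local -/
def WY (us : ℕ → ℕ → ℝ≥0∞) (C : ℝ≥0∞) : Prop :=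
  ∀ (r s h h' a a' lo hi : ℕ) (E : Finset G) (μ : G → ℝ≥0∞) (M lam : ℝ≥0∞), ∑' x, μ x ≤ 1 →
    (∀ x, μ x ≤ M) → lam ≠ 0 → lam ≠ ⊤ → a ≤ a' → a' ≤ a + r → a + h ≤ a' + h' →
    a' + h' ≤ a + h + r → a + s ≤ lo → a' + s ≤ lo → hi + s ≤ a + h → hi + s ≤ a' + h' →
    ∑' x, μ x * ∑' L, ∑' L', (if HT hX L = h ∧ DS zY L' ∈ E ∧ HT hY L' = h' ∧
      De (CX L 0 a) (CY L' x a') lo hi then LW ΛX L * LW ΛY L' else 0)
      ≤ C * (lam + M * E.card * us r s / lam + us r s)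

/-- four-fold functional -/
noncomputable def ZZ (A S A' S' : ℕ) (F : List BX → List BX → List BY → List BY → ℝ≥0∞) :
    ℝ≥0∞ :=
  AT ΛX hX A (fun L1 => AT ΛX hX S (fun L2 => AT ΛY hY A' (fun M1 => AT ΛY hY S' (fun M2 =>
    F L1 L2 M1 M2))))

variable {ΛX ΛY hX hY zX zY CX CY}

lemma ZZ_mono {A S A' S' : ℕ} {F F' : List BX → List BX → List BY → List BY → ℝ≥0∞}
    (h : ∀ L1 L2 M1 M2, A ≤ HT hX L1 → S ≤ HT hX L2 → A' ≤ HT hY M1 → S' ≤ HT hY M2 →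
      F L1 L2 M1 M2 ≤ F' L1 L2 M1 M2) : ZZ ΛX ΛY hX hY A S A' S' F ≤ ZZ ΛX ΛY hX hY A S A' S' F' :=
  AT_mono ΛX hX A fun L1 h1 => AT_mono ΛX hX S fun L2 h2 => AT_mono ΛY hY A' fun M1 h3 =>
    AT_mono ΛY hY S' fun M2 h4 => h L1 L2 M1 M2 (Stp_le hX _ _ h1) (Stp_le hX _ _ h2)
      (Stp_le hY _ _ h3) (Stp_le hY _ _ h4)

lemma ZZ_add (A S A' S' : ℕ) (F F' : List BX → List BX → List BY → List BY → ℝ≥0∞) :
    ZZ ΛX ΛY hX hY A S A' S' (fun L1 L2 M1 M2 => F L1 L2 M1 M2 + F' L1 L2 M1 M2)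
      = ZZ ΛX ΛY hX hY A S A' S' F + ZZ ΛX ΛY hX hY A S A' S' F' := by
  simp only [ZZ, AT_add]

open Classical in
lemma XLbound (hΛX : ∑' b, ΛX b = 1) (h1X : ∀ b, 1 ≤ hX b) (hΛY : ∑' b, ΛY b = 1)
    (h1Y : ∀ b, 1 ≤ hY b) (hCX : CS hX zX CX) (hCY : CS hY zY CY) {us : ℕ → ℕ → ℝ≥0∞}
    {C : ℝ≥0∞} (hW : WX ΛX ΛY hX hY zX CX CY us C) {A i0 t s : ℕ} (hs : s + 2 * i0 ≤ t) (w : G)
    {lam : ℝ≥0∞} (hl : lam ≠ 0) (hl' : lam ≠ ⊤) {th Mx η D0 : ℝ≥0∞} {E : Finset (ℕ × G)}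
    (hE : ∀ x, x ∈ E ↔ th ≤ a ΛX hX zX (3 * t) x) (hcard : Mx * (E.card : ℝ≥0∞) ≤ D0)
    {g b : ℕ × G → ℝ≥0∞} (hgb : ∀ x, a ΛX hX zX A x ≤ g x + b x) (hg : ∀ x, g x ≤ Mx)
    (hb : ∑' x, b x ≤ η) :
    ZZ ΛX ΛY hX hY A (3 * t) (A + i0) (3 * t + 2 * i0) (fun L1 L2 M1 M2 =>
        if (HT hX L1 ≤ A + i0 ∧ HT hY M1 ≤ A + i0 + i0 ∧
        HT hX L2 ≤ 3 * t + i0 ∧ HT hY M2 ≤ 3 * t + 2 * i0 + i0 ∧
        th ≤ a ΛX hX zX (3 * t) (HT hX L2 - 3 * t, DS zX L2)) ∧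
        De (CX L2 (DS zX L1) (HT hX L1)) (CY M2 (w + DS zY M1) (HT hY M1)) (A + t + 1)
          (A + 3 * t - s) then 1 else 0)
      ≤ ((i0 + 1 : ℕ) : ℝ≥0∞) * (((i0 + 1 : ℕ) : ℝ≥0∞) * (((i0 + 1 : ℕ) : ℝ≥0∞) *
          (C * (lam + D0 * us (5 * i0) s / lam + us (5 * i0) s)))) + η := by
  set R0 : ℝ≥0∞ := C * (lam + D0 * us (5 * i0) s / lam + us (5 * i0) s) with hR0
  set PP : List BX → List BX → List BY → List BY → Prop := fun L1 L2 M1 M2 =>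
        (HT hX L1 ≤ A + i0 ∧ HT hY M1 ≤ A + i0 + i0 ∧
        HT hX L2 ≤ 3 * t + i0 ∧ HT hY M2 ≤ 3 * t + 2 * i0 + i0 ∧
        th ≤ a ΛX hX zX (3 * t) (HT hX L2 - 3 * t, DS zX L2)) ∧
        De (CX L2 (DS zX L1) (HT hX L1)) (CY M2 (w + DS zY M1) (HT hY M1)) (A + t + 1)
          (A + 3 * t - s) with hPP
  set FF : List BX → List BX → List BY → List BY → ℝ≥0∞ := fun L1 L2 M1 M2 =>
    if PP L1 L2 M1 M2 then 1 else 0 with hFF
  have e0 : ZZ ΛX ΛY hX hY A (3 * t) (A + i0) (3 * t + 2 * i0) (fun L1 L2 M1 M2 =>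
        if (HT hX L1 ≤ A + i0 ∧ HT hY M1 ≤ A + i0 + i0 ∧
        HT hX L2 ≤ 3 * t + i0 ∧ HT hY M2 ≤ 3 * t + 2 * i0 + i0 ∧
        th ≤ a ΛX hX zX (3 * t) (HT hX L2 - 3 * t, DS zX L2)) ∧
        De (CX L2 (DS zX L1) (HT hX L1)) (CY M2 (w + DS zY M1) (HT hY M1)) (A + t + 1)
          (A + 3 * t - s) then 1 else 0)
      = ZZ ΛX ΛY hX hY A (3 * t) (A + i0) (3 * t + 2 * i0) FF := by
    refine le_antisymm (ZZ_mono fun L1 L2 M1 M2 _ _ _ _ => le_of_eq ?_)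
      (ZZ_mono fun L1 L2 M1 M2 _ _ _ _ => le_of_eq ?_)
    · simp only [hFF, hPP]
    · simp only [hFF, hPP]
  rw [e0, ZZ]
  have e1 : ∀ L1 : List BX, AT ΛX hX (3 * t) (fun L2 => AT ΛY hY (A + i0) (fun M1 =>
      AT ΛY hY (3 * t + 2 * i0) (fun M2 => FF L1 L2 M1 M2)))
      = AT ΛY hY (A + i0) (fun M1 => AT ΛX hX (3 * t) (fun L2 => AT ΛY hY (3 * t + 2 * i0)
      (fun M2 => FF L1 L2 M1 M2))) := fun L1 => AT_comm ΛX hX ΛY hY _ _ _
  simp only [e1]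
  rw [AT_comm ΛX hX ΛY hY]
  refine AT_le_const ΛY hY hΛY h1Y _ fun M1 hM1 => ?_
  have hβ := Stp_le hY M1 _ hM1
  by_cases hβ' : HT hY M1 ≤ A + i0 + i0
  swap
  · have : ∀ (L1 L2 : List BX) (M2 : List BY), FF L1 L2 M1 M2 = 0 := fun L1 L2 M2 =>
      if_neg (fun h => hβ' h.1.2.1)
    simp only [this]
    rw [AT_const ΛY hY hΛY h1Y, AT_const ΛX hX hΛX h1X, AT_const ΛX hX hΛX h1X]
    exact zero_le
  set QQ : ℕ → G → List BX → List BY → Prop := fun i δ L2 M2 =>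
    (HT hX L2 ≤ 3 * t + i0 ∧ HT hY M2 ≤ 3 * t + 2 * i0 + i0 ∧
        th ≤ a ΛX hX zX (3 * t) (HT hX L2 - 3 * t, DS zX L2)) ∧
        De (CX L2 0 (A + i)) (CY M2 δ (HT hY M1)) (A + t + 1) (A + 3 * t - s) with hQQ
  set Φ : ℕ → G → ℝ≥0∞ := fun i δ => AT ΛX hX (3 * t) (fun L2 => AT ΛY hY (3 * t + 2 * i0)
    (fun M2 => if QQ i δ L2 M2 then 1 else 0)) with hΦ
  refine le_trans (AT_mono ΛX hX A (F' := fun L1 => if HT hX L1 ≤ A + i0 then
    Φ (HT hX L1 - A) ((Equiv.subLeft (w + DS zY M1)) (DS zX L1)) else 0) ?_) ?_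
  · intro L1 hL1
    have hα := Stp_le hX L1 A hL1
    by_cases hα' : HT hX L1 ≤ A + i0
    · simp only [if_pos hα', hΦ, Equiv.subLeft_apply]
      refine AT_mono ΛX hX _ fun L2 _ => AT_mono ΛY hY _ fun M2 _ => ?_
      by_cases h3 : PP L1 L2 M1 M2
      · have h4 : QQ (HT hX L1 - A) (w + DS zY M1 - DS zX L1) L2 M2 := by
          refine ⟨h3.1.2.2, ?_⟩
          have h5 := h3.2
          rw [De_shift hCX hCY] at h5
          rwa [show A + (HT hX L1 - A) = HT hX L1 by omega]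
        simp only [hFF]
        rw [if_pos h3, if_pos h4]
      · simp only [hFF]
        rw [if_neg h3]; exact zero_le
    · have : ∀ (L2 : List BX) (M2 : List BY), FF L1 L2 M1 M2 = 0 := fun L2 M2 =>
        if_neg (fun h => hα' h.1.1)
      simp only [this]
      rw [AT_const ΛY hY hΛY h1Y, AT_const ΛX hX hΛX h1X]
      exact zero_le
  · refine locpart ΛX hX zX hΛX h1X (Equiv.subLeft (w + DS zY M1)) hgb hg hb Φ ?_ ?_
    · intro i δ
      refine AT_le_const ΛX hX hΛX h1X _ fun L2 _ => AT_le_const ΛY hY hΛY h1Y _ fun M2 _ => ?_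
      split_ifs <;> simp
    · intro i hi μ hμ hμM
      set Ej : ℕ → Finset G := fun j => (E.filter (fun x => x.1 = j)).image Prod.snd with hEj
      have hmem : ∀ j z, z ∈ Ej j ↔ th ≤ a ΛX hX zX (3 * t) (j, z) := by
        intro j z
        simp only [hEj, Finset.mem_image, Finset.mem_filter]
        constructor
        · rintro ⟨⟨j', z'⟩, ⟨h3, h4⟩, h5⟩
          simp only at h4 h5
          subst h4 h5
          exact (hE _).1 h3
        · intro h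
          exact ⟨(j, z), ⟨(hE _).2 h, rfl⟩, rfl⟩
      have hcj : ∀ j, Mx * ((Ej j).card : ℝ≥0∞) ≤ D0 := by
        intro j
        refine le_trans (mul_le_mul_right ?_ _) hcard
        exact_mod_cast (Finset.card_image_le.trans (Finset.card_filter_le _ _))
      have h6 : ∀ δ, Φ i δ ≤ ∑ j ∈ Finset.range (i0 + 1), ∑ j' ∈ Finset.range (i0 + 1),
          ∑' L, ∑' M, (if HT hX L = 3 * t + j ∧ DS zX L ∈ Ej j ∧
            HT hY M = 3 * t + 2 * i0 + j' ∧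
            De (CX L 0 (A + i)) (CY M δ (HT hY M1)) (A + t + 1) (A + 3 * t - s)
            then LW ΛX L * LW ΛY M else 0) := by
        intro δ
        have h8 := AT2_le ΛX hX ΛY hY (S := 3 * t) (S' := 3 * t + 2 * i0) (i0 := i0) (QQ i δ)
          (fun j j' L M =>
          HT hX L = 3 * t + j ∧ DS zX L ∈ Ej j ∧ HT hY M = 3 * t + 2 * i0 + j' ∧
            De (CX L 0 (A + i)) (CY M δ (HT hY M1)) (A + t + 1) (A + 3 * t - s)) (by
            rintro L M hL hM ⟨⟨h3, h4, h5⟩, h7⟩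
            exact ⟨h3, h4, by omega, (hmem _ _).2 h5, by omega, h7⟩)
        convert h8
      calc ∑' δ, μ δ * Φ i δ ≤ ∑' δ, μ δ * _ :=
            ENNReal.tsum_le_tsum fun δ => mul_le_mul_right (h6 δ) _
        _ = _ := mu_swap μ (Finset.range (i0 + 1)) _
        _ ≤ ∑ j ∈ Finset.range (i0 + 1), ∑ j' ∈ Finset.range (i0 + 1), R0 := by
            refine Finset.sum_le_sum fun j hj => Finset.sum_le_sum fun j' hj' => ?_
            rw [Finset.mem_range] at hj hj'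
            refine (hW (5 * i0) s (3 * t + j) (3 * t + 2 * i0 + j') (A + i) (HT hY M1) (A + t + 1)
              (A + 3 * t - s) (Ej j) μ Mx lam hμ hμM hl hl' (by omega) (by omega) (by omega)
              (by omega) (by omega) (by omega) (by omega) (by omega)).trans ?_
            rw [hR0]
            refine mul_le_mul_right (add_le_add (add_le_add le_rfl ?_) le_rfl) _
            exact ENNReal.div_le_div_right (mul_le_mul_left (hcj j) _) _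
        _ = ((i0 + 1 : ℕ) : ℝ≥0∞) * (((i0 + 1 : ℕ) : ℝ≥0∞) * R0) := by
            rw [Finset.sum_const, Finset.sum_const, Finset.card_range, nsmul_eq_mul, nsmul_eq_mul]

open Classical in
lemma YLbound (hΛX : ∑' b, ΛX b = 1) (h1X : ∀ b, 1 ≤ hX b) (hΛY : ∑' b, ΛY b = 1)
    (h1Y : ∀ b, 1 ≤ hY b) (hCX : CS hX zX CX) (hCY : CS hY zY CY) {us : ℕ → ℕ → ℝ≥0∞}
    {C : ℝ≥0∞} (hW : WY ΛX ΛY hX hY zY CX CY us C) {A i0 t s : ℕ} (hs : s + 2 * i0 ≤ t) (w : G)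
    {lam : ℝ≥0∞} (hl : lam ≠ 0) (hl' : lam ≠ ⊤) {th Mx η D0 : ℝ≥0∞} {E : Finset (ℕ × G)}
    (hE : ∀ x, x ∈ E ↔ th ≤ a ΛY hY zY (3 * t + 2 * i0) x)
    (hcard : Mx * (E.card : ℝ≥0∞) ≤ D0)
    {g b : ℕ × G → ℝ≥0∞} (hgb : ∀ x, a ΛY hY zY (A + i0) x ≤ g x + b x) (hg : ∀ x, g x ≤ Mx)
    (hb : ∑' x, b x ≤ η) :
    ZZ ΛX ΛY hX hY A (3 * t) (A + i0) (3 * t + 2 * i0) (fun L1 L2 M1 M2 =>
        if (HT hX L1 ≤ A + i0 ∧ HT hY M1 ≤ A + i0 + i0 ∧
        HT hX L2 ≤ 3 * t + i0 ∧ HT hY M2 ≤ 3 * t + 2 * i0 + i0 ∧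
        th ≤ a ΛY hY zY (3 * t + 2 * i0) (HT hY M2 - (3 * t + 2 * i0), DS zY M2)) ∧
        De (CX L2 (DS zX L1) (HT hX L1)) (CY M2 (w + DS zY M1) (HT hY M1)) (A + t + 1)
          (A + 3 * t - s) then 1 else 0)
      ≤ ((i0 + 1 : ℕ) : ℝ≥0∞) * (((i0 + 1 : ℕ) : ℝ≥0∞) * (((i0 + 1 : ℕ) : ℝ≥0∞) *
          (C * (lam + D0 * us (5 * i0) s / lam + us (5 * i0) s)))) + η := by
  set R0 : ℝ≥0∞ := C * (lam + D0 * us (5 * i0) s / lam + us (5 * i0) s) with hR0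
  set PP : List BX → List BX → List BY → List BY → Prop := fun L1 L2 M1 M2 =>
        (HT hX L1 ≤ A + i0 ∧ HT hY M1 ≤ A + i0 + i0 ∧
        HT hX L2 ≤ 3 * t + i0 ∧ HT hY M2 ≤ 3 * t + 2 * i0 + i0 ∧
        th ≤ a ΛY hY zY (3 * t + 2 * i0) (HT hY M2 - (3 * t + 2 * i0), DS zY M2)) ∧
        De (CX L2 (DS zX L1) (HT hX L1)) (CY M2 (w + DS zY M1) (HT hY M1)) (A + t + 1)
          (A + 3 * t - s) with hPP
  set FF : List BX → List BX → List BY → List BY → ℝ≥0∞ := fun L1 L2 M1 M2 =>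
    if PP L1 L2 M1 M2 then 1 else 0 with hFF
  have e0 : ZZ ΛX ΛY hX hY A (3 * t) (A + i0) (3 * t + 2 * i0) (fun L1 L2 M1 M2 =>
        if (HT hX L1 ≤ A + i0 ∧ HT hY M1 ≤ A + i0 + i0 ∧
        HT hX L2 ≤ 3 * t + i0 ∧ HT hY M2 ≤ 3 * t + 2 * i0 + i0 ∧
        th ≤ a ΛY hY zY (3 * t + 2 * i0) (HT hY M2 - (3 * t + 2 * i0), DS zY M2)) ∧
        De (CX L2 (DS zX L1) (HT hX L1)) (CY M2 (w + DS zY M1) (HT hY M1)) (A + t + 1)
          (A + 3 * t - s) then 1 else 0)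
      = ZZ ΛX ΛY hX hY A (3 * t) (A + i0) (3 * t + 2 * i0) FF := by
    refine le_antisymm (ZZ_mono fun L1 L2 M1 M2 _ _ _ _ => le_of_eq ?_)
      (ZZ_mono fun L1 L2 M1 M2 _ _ _ _ => le_of_eq ?_)
    · simp only [hFF, hPP]
    · simp only [hFF, hPP]
  rw [e0, ZZ]
  refine AT_le_const ΛX hX hΛX h1X _ fun L1 hL1 => ?_
  have hα := Stp_le hX L1 _ hL1
  rw [AT_comm ΛX hX ΛY hY]
  by_cases hα' : HT hX L1 ≤ A + i0
  swap
  · have : ∀ (L2 : List BX) (M1 M2 : List BY), FF L1 L2 M1 M2 = 0 := fun L2 M1 M2 =>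
      if_neg (fun h => hα' h.1.1)
    simp only [this]
    rw [AT_const ΛY hY hΛY h1Y, AT_const ΛX hX hΛX h1X, AT_const ΛY hY hΛY h1Y]
    exact zero_le
  set QQ : ℕ → G → List BX → List BY → Prop := fun i δ L2 M2 =>
    (HT hX L2 ≤ 3 * t + i0 ∧ HT hY M2 ≤ 3 * t + 2 * i0 + i0 ∧
        th ≤ a ΛY hY zY (3 * t + 2 * i0) (HT hY M2 - (3 * t + 2 * i0), DS zY M2)) ∧
        De (CX L2 0 (HT hX L1)) (CY M2 δ (A + i0 + i)) (A + t + 1) (A + 3 * t - s) with hQQ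
  set Φ : ℕ → G → ℝ≥0∞ := fun i δ => AT ΛX hX (3 * t) (fun L2 => AT ΛY hY (3 * t + 2 * i0)
    (fun M2 => if QQ i δ L2 M2 then 1 else 0)) with hΦ
  refine le_trans (AT_mono ΛY hY (A + i0) (F' := fun M1 => if HT hY M1 ≤ A + i0 + i0 then
    Φ (HT hY M1 - (A + i0)) ((Equiv.addLeft (w - DS zX L1)) (DS zY M1)) else 0) ?_) ?_
  · intro M1 hM1
    have hβ := Stp_le hY M1 _ hM1
    by_cases hβ' : HT hY M1 ≤ A + i0 + i0
    · simp only [if_pos hβ', hΦ, Equiv.coe_addLeft]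
      refine AT_mono ΛX hX _ fun L2 _ => AT_mono ΛY hY _ fun M2 _ => ?_
      by_cases h3 : PP L1 L2 M1 M2
      · have h4 : QQ (HT hY M1 - (A + i0)) (w - DS zX L1 + DS zY M1) L2 M2 := by
          refine ⟨h3.1.2.2, ?_⟩
          have h5 := h3.2
          rw [De_shift hCX hCY] at h5
          rw [show A + i0 + (HT hY M1 - (A + i0)) = HT hY M1 by omega,
            show w - DS zX L1 + DS zY M1 = w + DS zY M1 - DS zX L1 by abel]
          exact h5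
        simp only [hFF]
        rw [if_pos h3, if_pos h4]
      · simp only [hFF]
        rw [if_neg h3]; exact zero_le
    · have : ∀ (L2 : List BX) (M2 : List BY), FF L1 L2 M1 M2 = 0 := fun L2 M2 =>
        if_neg (fun h => hβ' h.1.2.1)
      simp only [this]
      rw [AT_const ΛY hY hΛY h1Y, AT_const ΛX hX hΛX h1X]
      exact zero_le
  · refine locpart ΛY hY zY hΛY h1Y (Equiv.addLeft (w - DS zX L1)) hgb hg hb Φ ?_ ?_
    · intro i δ
      refine AT_le_const ΛX hX hΛX h1X _ fun L2 _ => AT_le_const ΛY hY hΛY h1Y _ fun M2 _ => ?_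
      split_ifs <;> simp
    · intro i hi μ hμ hμM
      set Ej : ℕ → Finset G := fun j => (E.filter (fun x => x.1 = j)).image Prod.snd with hEj
      have hmem : ∀ j z, z ∈ Ej j ↔ th ≤ a ΛY hY zY (3 * t + 2 * i0) (j, z) := by
        intro j z
        simp only [hEj, Finset.mem_image, Finset.mem_filter]
        constructor
        · rintro ⟨⟨j', z'⟩, ⟨h3, h4⟩, h5⟩
          simp only at h4 h5
          subst h4 h5
          exact (hE _).1 h3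
        · intro h
          exact ⟨(j, z), ⟨(hE _).2 h, rfl⟩, rfl⟩
      have hcj : ∀ j, Mx * ((Ej j).card : ℝ≥0∞) ≤ D0 := by
        intro j
        refine le_trans (mul_le_mul_right ?_ _) hcard
        exact_mod_cast (Finset.card_image_le.trans (Finset.card_filter_le _ _))
      have h6 : ∀ δ, Φ i δ ≤ ∑ j ∈ Finset.range (i0 + 1), ∑ j' ∈ Finset.range (i0 + 1),
          ∑' L, ∑' M, (if HT hX L = 3 * t + j ∧ DS zY M ∈ Ej j' ∧
            HT hY M = 3 * t + 2 * i0 + j' ∧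
            De (CX L 0 (HT hX L1)) (CY M δ (A + i0 + i)) (A + t + 1) (A + 3 * t - s)
            then LW ΛX L * LW ΛY M else 0) := by
        intro δ
        have h8 := AT2_le ΛX hX ΛY hY (S := 3 * t) (S' := 3 * t + 2 * i0) (i0 := i0) (QQ i δ)
          (fun j j' L M =>
          HT hX L = 3 * t + j ∧ DS zY M ∈ Ej j' ∧ HT hY M = 3 * t + 2 * i0 + j' ∧
            De (CX L 0 (HT hX L1)) (CY M δ (A + i0 + i)) (A + t + 1) (A + 3 * t - s)) (by
            rintro L M hL hM ⟨⟨h3, h4, h5⟩, h7⟩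
            exact ⟨h3, h4, by omega, (hmem _ _).2 h5, by omega, h7⟩)
        convert h8
      calc ∑' δ, μ δ * Φ i δ ≤ ∑' δ, μ δ * _ :=
            ENNReal.tsum_le_tsum fun δ => mul_le_mul_right (h6 δ) _
        _ = _ := mu_swap μ (Finset.range (i0 + 1)) _
        _ ≤ ∑ j ∈ Finset.range (i0 + 1), ∑ j' ∈ Finset.range (i0 + 1), R0 := by
            refine Finset.sum_le_sum fun j hj => Finset.sum_le_sum fun j' hj' => ?_
            rw [Finset.mem_range] at hj hj'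
            refine (hW (5 * i0) s (3 * t + j) (3 * t + 2 * i0 + j') (HT hX L1) (A + i0 + i)
              (A + t + 1) (A + 3 * t - s) (Ej j') μ Mx lam hμ hμM hl hl' (by omega) (by omega)
              (by omega) (by omega) (by omega) (by omega) (by omega) (by omega)).trans ?_
            rw [hR0]
            refine mul_le_mul_right (add_le_add (add_le_add le_rfl ?_) le_rfl) _
            exact ENNReal.div_le_div_right (mul_le_mul_left (hcj j') _) _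
        _ = ((i0 + 1 : ℕ) : ℝ≥0∞) * (((i0 + 1 : ℕ) : ℝ≥0∞) * R0) := by
            rw [Finset.sum_const, Finset.sum_const, Finset.card_range, nsmul_eq_mul, nsmul_eq_mul]

open Classical in
/-- **one window** -/
theorem window (hΛX : ∑' b, ΛX b = 1) (h1X : ∀ b, 1 ≤ hX b) (hΛY : ∑' b, ΛY b = 1)
    (h1Y : ∀ b, 1 ≤ hY b) (hCX : CS hX zX CX) (hCY : CS hY zY CY) {us : ℕ → ℕ → ℝ≥0∞}
    {C : ℝ≥0∞} (hWX : WX ΛX ΛY hX hY zX CX CY us C) (hWY : WY ΛX ΛY hX hY zY CX CY us C)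
    {A i0 t s n N : ℕ} (hs : s + 2 * i0 ≤ t) (hn : A + 3 * t + 4 * i0 ≤ n)
    (hN : N * (3 * t + 3 * i0) ≤ A) {u : ℝ≥0∞} (hu : u ≠ 0) (hu1 : u ≤ 1) {lam : ℝ≥0∞}
    (hl : lam ≠ 0) (hl' : lam ≠ ⊤) (w : G) :
    ∑' L, ∑' M, (if HT hX L = n ∧ HT hY M = n ∧ Ev (CX L 0 0) (CY M w 0) (A + t) (A + 2 * t)
        (A + 3 * t - s) (A + 3 * t + 2 * i0) then LW ΛX L * LW ΛY M else 0)
      ≤ (2 * e1 ΛX hX i0 + 2 * e1 ΛY hY i0 + u * u) +
        2 * (((i0 + 1 : ℕ) : ℝ≥0∞) * (((i0 + 1 : ℕ) : ℝ≥0∞) * (((i0 + 1 : ℕ) : ℝ≥0∞) *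
          (C * (lam + 2 * ((i0 + 1 : ℕ) : ℝ≥0∞) * u⁻¹ * us (5 * i0) s / lam
            + us (5 * i0) s))))) +
        (2 * (1 - u) ^ N + (e1 ΛX hX i0 + e1 ΛY hY i0) * u⁻¹) := by
  obtain ⟨thX, MX, EX, hEX, hcX, hqX, hsX⟩ := dens_pack ΛX hX zX hΛX h1X (3 * t) i0 hu hu1
  obtain ⟨thY, MY, EY, hEY, hcY, hqY, hsY⟩ := dens_pack ΛY hY zY hΛY h1Y (3 * t + 2 * i0) i0 hu hu1
  obtain ⟨gX, bX, hgbX, hgX, hbX⟩ := hsX N A ((Nat.mul_le_mul_left N (by omega)).trans hN)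
  obtain ⟨gY, bY, hgbY, hgY, hbY⟩ := hsY N (A + i0)
    (((Nat.mul_le_mul_left N (by omega)).trans hN).trans (by omega))
  have hXB := XLbound hΛX h1X hΛY h1Y hCX hCY hWX hs w hl hl' hEX hcX hgbX hgX hbX
  have hYB := YLbound hΛX h1X hΛY h1Y hCX hCY hWY hs w hl hl' hEY hcY hgbY hgY hbY
  set PX : List BX → List BX → List BY → List BY → Prop := fun L1 L2 M1 M2 =>
        (HT hX L1 ≤ A + i0 ∧ HT hY M1 ≤ A + i0 + i0 ∧
        HT hX L2 ≤ 3 * t + i0 ∧ HT hY M2 ≤ 3 * t + 2 * i0 + i0 ∧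
        thX ≤ a ΛX hX zX (3 * t) (HT hX L2 - 3 * t, DS zX L2)) ∧
        De (CX L2 (DS zX L1) (HT hX L1)) (CY M2 (w + DS zY M1) (HT hY M1)) (A + t + 1)
          (A + 3 * t - s) with hPX
  set PY : List BX → List BX → List BY → List BY → Prop := fun L1 L2 M1 M2 =>
        (HT hX L1 ≤ A + i0 ∧ HT hY M1 ≤ A + i0 + i0 ∧
        HT hX L2 ≤ 3 * t + i0 ∧ HT hY M2 ≤ 3 * t + 2 * i0 + i0 ∧
        thY ≤ a ΛY hY zY (3 * t + 2 * i0) (HT hY M2 - (3 * t + 2 * i0), DS zY M2)) ∧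
        De (CX L2 (DS zX L1) (HT hX L1)) (CY M2 (w + DS zY M1) (HT hY M1)) (A + t + 1)
          (A + 3 * t - s) with hPY
  set XF : List BX → List BX → List BY → List BY → ℝ≥0∞ := fun L1 L2 M1 M2 =>
    if PX L1 L2 M1 M2 then 1 else 0 with hXF
  set YF : List BX → List BX → List BY → List BY → ℝ≥0∞ := fun L1 L2 M1 M2 =>
    if PY L1 L2 M1 M2 then 1 else 0 with hYF
  set R1 : ℝ≥0∞ := ((i0 + 1 : ℕ) : ℝ≥0∞) * (((i0 + 1 : ℕ) : ℝ≥0∞) * (((i0 + 1 : ℕ) : ℝ≥0∞) *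
          (C * (lam + 2 * ((i0 + 1 : ℕ) : ℝ≥0∞) * u⁻¹ * us (5 * i0) s / lam
            + us (5 * i0) s)))) with hR1
  have hXB' : ZZ ΛX ΛY hX hY A (3 * t) (A + i0) (3 * t + 2 * i0) XF
      ≤ R1 + ((1 - u) ^ N + e1 ΛX hX i0 * u⁻¹) := by
    refine le_trans (ZZ_mono fun L1 L2 M1 M2 _ _ _ _ => le_of_eq ?_) hXB
    simp only [hXF, hPX]
  have hYB' : ZZ ΛX ΛY hX hY A (3 * t) (A + i0) (3 * t + 2 * i0) YF
      ≤ R1 + ((1 - u) ^ N + e1 ΛY hY i0 * u⁻¹) := by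
    refine le_trans (ZZ_mono fun L1 L2 M1 M2 _ _ _ _ => le_of_eq ?_) hYB
    simp only [hYF, hPY]
  set o1 : List BX → List BX → List BY → List BY → ℝ≥0∞ := fun L1 _ _ _ =>
    if A + i0 < HT hX L1 then 1 else 0 with ho1
  set o2 : List BX → List BX → List BY → List BY → ℝ≥0∞ := fun _ L2 _ _ =>
    if 3 * t + i0 < HT hX L2 then 1 else 0 with ho2
  set o3 : List BX → List BX → List BY → List BY → ℝ≥0∞ := fun _ _ M1 _ =>
    if A + i0 + i0 < HT hY M1 then 1 else 0 with ho3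
  set o4 : List BX → List BX → List BY → List BY → ℝ≥0∞ := fun _ _ _ M2 =>
    if 3 * t + 2 * i0 + i0 < HT hY M2 then 1 else 0 with ho4
  set nX : List BX → ℝ≥0∞ := fun L2 => if a ΛX hX zX (3 * t) (HT hX L2 - 3 * t, DS zX L2) < thX
    then 1 else 0 with hnX
  set nY : List BY → ℝ≥0∞ := fun M2 => if a ΛY hY zY (3 * t + 2 * i0)
    (HT hY M2 - (3 * t + 2 * i0), DS zY M2) < thY then 1 else 0 with hnY
  set nn : List BX → List BX → List BY → List BY → ℝ≥0∞ := fun _ L2 _ M2 => nX L2 * nY M2 with hnn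
  have z1 : ZZ ΛX ΛY hX hY A (3 * t) (A + i0) (3 * t + 2 * i0) o1 ≤ e1 ΛX hX i0 := by
    simp only [ZZ, ho1]
    refine le_trans (AT_mono ΛX hX A fun L1 _ => ?_) (overshoot_le ΛX hX hΛX h1X i0 A)
    rw [AT_const ΛY hY hΛY h1Y, AT_const ΛY hY hΛY h1Y, AT_const ΛX hX hΛX h1X]
  have z2 : ZZ ΛX ΛY hX hY A (3 * t) (A + i0) (3 * t + 2 * i0) o2 ≤ e1 ΛX hX i0 := by
    simp only [ZZ, ho2]
    refine AT_le_const ΛX hX hΛX h1X _ fun L1 _ => ?_
    refine le_trans (AT_mono ΛX hX _ fun L2 _ => ?_) (overshoot_le ΛX hX hΛX h1X i0 (3 * t))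
    rw [AT_const ΛY hY hΛY h1Y, AT_const ΛY hY hΛY h1Y]
  have z3 : ZZ ΛX ΛY hX hY A (3 * t) (A + i0) (3 * t + 2 * i0) o3 ≤ e1 ΛY hY i0 := by
    simp only [ZZ, ho3]
    refine AT_le_const ΛX hX hΛX h1X _ fun L1 _ => AT_le_const ΛX hX hΛX h1X _ fun L2 _ => ?_
    refine le_trans (AT_mono ΛY hY _ fun M1 _ => ?_) (overshoot_le ΛY hY hΛY h1Y i0 (A + i0))
    rw [AT_const ΛY hY hΛY h1Y]
  have z4 : ZZ ΛX ΛY hX hY A (3 * t) (A + i0) (3 * t + 2 * i0) o4 ≤ e1 ΛY hY i0 := by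
    simp only [ZZ, ho4]
    refine AT_le_const ΛX hX hΛX h1X _ fun L1 _ => AT_le_const ΛX hX hΛX h1X _ fun L2 _ =>
      AT_le_const ΛY hY hΛY h1Y _ fun M1 _ => ?_
    exact overshoot_le ΛY hY hΛY h1Y i0 (3 * t + 2 * i0)
  have z5 : ZZ ΛX ΛY hX hY A (3 * t) (A + i0) (3 * t + 2 * i0) nn ≤ u * u := by
    simp only [ZZ, hnn]
    refine AT_le_const ΛX hX hΛX h1X _ fun L1 _ => ?_
    calc AT ΛX hX (3 * t) (fun L2 => AT ΛY hY (A + i0) (fun _ => AT ΛY hY (3 * t + 2 * i0)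
            (fun M2 => nX L2 * nY M2)))
        = AT ΛX hX (3 * t) (fun L2 => AT ΛY hY (3 * t + 2 * i0) nY * nX L2) := by
          refine AT_congr ΛX hX _ fun L2 _ => ?_
          rw [AT_const ΛY hY hΛY h1Y, AT_mul ΛY hY, mul_comm]
      _ = AT ΛY hY (3 * t + 2 * i0) nY * AT ΛX hX (3 * t) nX := AT_mul ΛX hX _ _ _
      _ ≤ u * u := mul_le_mul' hqY hqX
  refine (red ΛX hX ΛY hY hΛX h1X hΛY h1Y (A := A) (A' := A + i0) (i0 := i0) (S := 3 * t)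
    (S' := 3 * t + 2 * i0) (by omega) (by omega)
    (fun L M => Ev (CX L 0 0) (CY M w 0) (A + t) (A + 2 * t)
        (A + 3 * t - s) (A + 3 * t + 2 * i0))).trans ?_
  have hpt : ZZ ΛX ΛY hX hY A (3 * t) (A + i0) (3 * t + 2 * i0) (fun L1 L2 M1 M2 =>
      if A + i0 < HT hX L1 ∨ A + i0 + i0 < HT hY M1 ∨ ∃ L3 M3,
        Ev (CX (L1 ++ (L2 ++ L3)) 0 0) (CY (M1 ++ (M2 ++ M3)) w 0) (A + t) (A + 2 * t)
        (A + 3 * t - s) (A + 3 * t + 2 * i0) then 1 else 0)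
      ≤ ZZ ΛX ΛY hX hY A (3 * t) (A + i0) (3 * t + 2 * i0) (fun L1 L2 M1 M2 =>
        o1 L1 L2 M1 M2 + (o2 L1 L2 M1 M2 + (o3 L1 L2 M1 M2 + (o4 L1 L2 M1 M2 +
          (nn L1 L2 M1 M2 + (XF L1 L2 M1 M2 + YF L1 L2 M1 M2)))))) := by
    refine ZZ_mono fun L1 L2 M1 M2 g1 g2 g3 g4 => ?_
    split_ifs with h
    swap
    · exact zero_le
    by_cases k1 : A + i0 < HT hX L1
    · have : o1 L1 L2 M1 M2 = 1 := if_pos k1
      rw [this]; exact le_self_add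
    by_cases k2 : 3 * t + i0 < HT hX L2
    · have : o2 L1 L2 M1 M2 = 1 := if_pos k2
      rw [this]; exact le_add_left le_self_add
    by_cases k3 : A + i0 + i0 < HT hY M1
    · have : o3 L1 L2 M1 M2 = 1 := if_pos k3
      rw [this]; exact le_add_left (le_add_left le_self_add)
    by_cases k4 : 3 * t + 2 * i0 + i0 < HT hY M2
    · have : o4 L1 L2 M1 M2 = 1 := if_pos k4
      rw [this]; exact le_add_left (le_add_left (le_add_left le_self_add))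
    have hev : ∃ L3 M3, Ev (CX (L1 ++ (L2 ++ L3)) 0 0) (CY (M1 ++ (M2 ++ M3)) w 0) (A + t)
        (A + 2 * t) (A + 3 * t - s) (A + 3 * t + 2 * i0) := by
      rcases h with h | h | h
      · exact absurd h k1
      · exact absurd h k3
      · exact h
    obtain ⟨L3, M3, hev⟩ := hev
    have hDe := geo_De hCX hCY hs g1 (by omega) g2 (by omega) g3 (by omega) g4 hev
    by_cases k5 : thX ≤ a ΛX hX zX (3 * t) (HT hX L2 - 3 * t, DS zX L2)
    · have : XF L1 L2 M1 M2 = 1 := if_pos ⟨⟨by omega, by omega, by omega, by omega, k5⟩, hDe⟩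
      rw [this]
      exact le_add_left (le_add_left (le_add_left (le_add_left (le_add_left le_self_add))))
    by_cases k6 : thY ≤ a ΛY hY zY (3 * t + 2 * i0) (HT hY M2 - (3 * t + 2 * i0), DS zY M2)
    · have : YF L1 L2 M1 M2 = 1 := if_pos ⟨⟨by omega, by omega, by omega, by omega, k6⟩, hDe⟩
      rw [this]
      exact le_add_left (le_add_left (le_add_left (le_add_left (le_add_left le_add_self))))
    · have : nn L1 L2 M1 M2 = 1 := by
        simp only [hnn, hnX, hnY]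
        rw [if_pos (not_le.1 k5), if_pos (not_le.1 k6), one_mul]
      rw [this]
      exact le_add_left (le_add_left (le_add_left (le_add_left le_self_add)))
  refine le_trans (le_of_eq ?_) (hpt.trans ?_)
  · rfl
  rw [ZZ_add A _ _ _ o1, ZZ_add A _ _ _ o2, ZZ_add A _ _ _ o3, ZZ_add A _ _ _ o4,
    ZZ_add A _ _ _ nn, ZZ_add A _ _ _ XF]
  refine (add_le_add z1 (add_le_add z2 (add_le_add z3 (add_le_add z4 (add_le_add z5
    (add_le_add hXB' hYB')))))).trans (le_of_eq ?_)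
  ring

open Classical in
/-- **ASSEMBLY**: the weight of the pairs of lists whose first contact depth lies in `(m, 2m]`. -/
theorem kapS (hΛX : ∑' b, ΛX b = 1) (h1X : ∀ b, 1 ≤ hX b) (hΛY : ∑' b, ΛY b = 1)
    (h1Y : ∀ b, 1 ≤ hY b) (hmX : ∑' b, ΛX b * (hX b : ℝ≥0∞) ≠ ⊤)
    (hmY : ∑' b, ΛY b * (hY b : ℝ≥0∞) ≠ ⊤) (hCX : CS hX zX CX) (hCY : CS hY zY CY)
    {us : ℕ → ℕ → ℝ≥0∞} {C : ℝ≥0∞} (hC : C ≠ ⊤)
    (hus : ∀ r, Filter.Tendsto (us r) Filter.atTop (𝓝 0))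
    (hWX : WX ΛX ΛY hX hY zX CX CY us C) (hWY : WY ΛX ΛY hX hY zY CX CY us C)
    (h5 : ∀ (s : ℕ) (η : ℝ≥0∞), η ≠ 0 → ∃ T : ℕ, ∀ a, T ≤ a → ∀ n w,
      ∑' L, ∑' M, (if HT hX L = n ∧ HT hY M = n ∧ ∃ z k, a ≤ k ∧ k < a + s ∧
        (z, k) ∈ CX L 0 0 ∧ (z, k) ∈ CY M w 0 then LW ΛX L * LW ΛY M else 0) ≤ η)
    (ε : ℝ≥0∞) (hε : ε ≠ 0) :
    ∃ M0 : ℕ, ∀ m, M0 ≤ m → ∃ n0, ∀ n, n0 ≤ n → ∀ w,
      ∑' L, ∑' M, (if HT hX L = n ∧ HT hY M = n ∧
        (∀ z k, (z, k) ∈ CX L 0 0 → (z, k) ∈ CY M w 0 → m < k) ∧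
        (∃ z k, (z, k) ∈ CX L 0 0 ∧ (z, k) ∈ CY M w 0 ∧ k ≤ 2 * m)
        then LW ΛX L * LW ΛY M else 0) ≤ ε := by
  set δ : ℝ≥0∞ := ε / 21 with hδ
  have hδ0 : δ ≠ 0 := (ENNReal.div_pos hε (by norm_num)).ne'
  have hδε : 21 * δ = ε := ENNReal.mul_div_cancel (by norm_num) (by norm_num)
  obtain ⟨K, u, hK8, hK1, -, hu, hu1, hKu, hKN⟩ := KU823.exists_Ku 0 8 (by norm_num) δ hδ0 8
  rw [Nat.cast_zero, add_zero] at hKu hKN
  have hKne : (K : ℝ≥0∞) ≠ 0 := by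
    have : K ≠ 0 := by omega
    exact_mod_cast this
  have hKtop : (K : ℝ≥0∞) ≠ ⊤ := ENNReal.natCast_ne_top K
  have hutop : u ≠ ⊤ := ne_top_of_le_ne_top ENNReal.one_ne_top hu1
  set ρ : ℝ≥0∞ := δ * u / K with hρ
  have hρ0 : ρ ≠ 0 := (ENNReal.div_pos (mul_ne_zero hδ0 hu) hKtop).ne'
  have hKρ : (K : ℝ≥0∞) * ρ = δ * u := ENNReal.mul_div_cancel hKne hKtop
  obtain ⟨IX, hIX⟩ := e1_small ΛX hX hmX hρ0
  obtain ⟨IY, hIY⟩ := e1_small ΛY hY hmY hρ0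
  set i0 : ℕ := max IX IY with hi0
  have heX := hIX i0 (le_max_left _ _)
  have heY := hIY i0 (le_max_right _ _)
  set r : ℝ≥0∞ := ((i0 + 1 : ℕ) : ℝ≥0∞) with hr
  have hrtop : r ≠ ⊤ := ENNReal.natCast_ne_top _
  set A0 : ℝ≥0∞ := 2 * K * (2 * (r * (r * (r * C)))) with hA0
  have hA0top : A0 ≠ ⊤ := by
    rw [hA0]
    refine ENNReal.mul_ne_top (ENNReal.mul_ne_top (by norm_num) hKtop) (ENNReal.mul_ne_top
      (by norm_num) (ENNReal.mul_ne_top hrtop (ENNReal.mul_ne_top hrtop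
      (ENNReal.mul_ne_top hrtop hC))))
  set lam : ℝ≥0∞ := min 1 (δ / A0) with hlam
  have hl : lam ≠ 0 := (lt_min one_pos (ENNReal.div_pos hδ0 hA0top)).ne'
  have hl' : lam ≠ ⊤ := ne_top_of_le_ne_top ENNReal.one_ne_top (min_le_left _ _)
  have hA0lam : A0 * lam ≤ δ :=
    (mul_le_mul_right (min_le_right _ _) _).trans ENNReal.mul_div_le
  set A1 : ℝ≥0∞ := A0 * (2 * r * u⁻¹ / lam + 1) with hA1
  have hA1top : A1 ≠ ⊤ := by
    rw [hA1]
    refine ENNReal.mul_ne_top hA0top (ENNReal.add_ne_top.2 ⟨?_, ENNReal.one_ne_top⟩)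
    exact ENNReal.div_ne_top (ENNReal.mul_ne_top (ENNReal.mul_ne_top (by norm_num) hrtop)
      (ENNReal.inv_ne_top.2 hu)) hl
  obtain ⟨s, -, hs⟩ := KU823.exists_small (us (5 * i0)) (hus _) A1 hA1top δ hδ0 0
  have hs' := hs s le_rfl
  set η : ℝ≥0∞ := δ / (2 * K) with hη
  have h2K0 : (2 * K : ℝ≥0∞) ≠ 0 := mul_ne_zero (by norm_num) hKne
  have h2Ktop : (2 * K : ℝ≥0∞) ≠ ⊤ := ENNReal.mul_ne_top (by norm_num) hKtop
  have hη0 : η ≠ 0 := (ENNReal.div_pos hδ0 h2Ktop).ne'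
  have hKη : 2 * (K : ℝ≥0∞) * η = δ := ENNReal.mul_div_cancel h2K0 h2Ktop
  obtain ⟨T, hT⟩ := h5 (s + 2 * i0) η hη0
  refine ⟨K * (T + s + 2 * i0 + 1), fun m hm => ⟨8 * m, fun n hn w => ?_⟩⟩
  set t : ℕ := m / K with ht
  have htT : T + s + 2 * i0 + 1 ≤ t := by
    rw [ht, Nat.le_div_iff_mul_le (by omega), mul_comm]
    exact hm
  have hKt : K * t ≤ m := Nat.mul_div_le m K
  have hmK : m < K * (t + 1) := Nat.lt_mul_div_succ m (by omega)
  have htm : t ≤ m := Nat.div_le_self m K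
  have h8t : 8 * t ≤ m := (Nat.mul_le_mul_right t hK8).trans hKt
  set N : ℕ := K / 8 with hNdef
  set A : ℕ → ℕ := fun j => m - t + j * t with hA
  set Wb : ℝ≥0∞ := (2 * e1 ΛX hX i0 + 2 * e1 ΛY hY i0 + u * u) +
        2 * (r * (r * (r * (C * (lam + 2 * r * u⁻¹ * us (5 * i0) s / lam + us (5 * i0) s))))) +
        (2 * (1 - u) ^ N + (e1 ΛX hX i0 + e1 ΛY hY i0) * u⁻¹) with hWb
  have hwin : ∀ j ∈ Finset.range (2 * K), ∑' L, ∑' M, (if HT hX L = n ∧ HT hY M = n ∧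
      Ev (CX L 0 0) (CY M w 0) (A j + t) (A j + 2 * t) (A j + 3 * t - s) (A j + 3 * t + 2 * i0)
      then LW ΛX L * LW ΛY M else 0) ≤ Wb := by
    intro j hj
    rw [Finset.mem_range] at hj
    have hjt : j * t ≤ 2 * m := by
      calc j * t ≤ (2 * K) * t := Nat.mul_le_mul_right t hj.le
        _ = 2 * (K * t) := by ring
        _ ≤ 2 * m := by omega
    refine window hΛX h1X hΛY h1Y hCX hCY hWX hWY (by omega) ?_ ?_ hu hu1 hl hl' w
    · simp only [hA]; omega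
    · calc N * (3 * t + 3 * i0) ≤ N * (5 * t) := Nat.mul_le_mul_left _ (by omega)
        _ = (5 * N) * t := by ring
        _ ≤ (K - 1) * t := Nat.mul_le_mul_right _ (by omega)
        _ = K * t - t := by rw [Nat.sub_mul, one_mul]
        _ ≤ A j := by simp only [hA]; omega
  have hslab : ∀ j ∈ Finset.range (2 * K), ∑' L, ∑' M, (if HT hX L = n ∧ HT hY M = n ∧
      ∃ z k, (A j + 3 * t - s + 1) ≤ k ∧ k < (A j + 3 * t - s + 1) + (s + 2 * i0) ∧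
        (z, k) ∈ CX L 0 0 ∧ (z, k) ∈ CY M w 0 then LW ΛX L * LW ΛY M else 0) ≤ η := by
    intro j _
    exact hT _ (by omega) n w
  have hpt : ∀ L M, (if HT hX L = n ∧ HT hY M = n ∧
        (∀ z k, (z, k) ∈ CX L 0 0 → (z, k) ∈ CY M w 0 → m < k) ∧
        (∃ z k, (z, k) ∈ CX L 0 0 ∧ (z, k) ∈ CY M w 0 ∧ k ≤ 2 * m)
        then LW ΛX L * LW ΛY M else 0)
      ≤ (∑ j ∈ Finset.range (2 * K), (if HT hX L = n ∧ HT hY M = n ∧
      Ev (CX L 0 0) (CY M w 0) (A j + t) (A j + 2 * t) (A j + 3 * t - s) (A j + 3 * t + 2 * i0)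
      then LW ΛX L * LW ΛY M else 0)) + ∑ j ∈ Finset.range (2 * K),
      (if HT hX L = n ∧ HT hY M = n ∧
      ∃ z k, (A j + 3 * t - s + 1) ≤ k ∧ k < (A j + 3 * t - s + 1) + (s + 2 * i0) ∧
        (z, k) ∈ CX L 0 0 ∧ (z, k) ∈ CY M w 0 then LW ΛX L * LW ΛY M else 0) := by
    intro L M
    split_ifs with h
    swap
    · exact zero_le
    obtain ⟨hL, hM, hall, z0, k0, hz0, hz0', hk0⟩ := h
    have hex : ∃ k, ∃ z, (z, k) ∈ CX L 0 0 ∧ (z, k) ∈ CY M w 0 := ⟨k0, z0, hz0, hz0'⟩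
    set ks := Nat.find hex with hks
    obtain ⟨zs, hzs, hzs'⟩ := Nat.find_spec hex
    rw [← hks] at hzs hzs'
    have hmin : ∀ z k, (z, k) ∈ CX L 0 0 → (z, k) ∈ CY M w 0 → ks ≤ k := fun z k hz hz' =>
      Nat.find_min' hex ⟨z, hz, hz'⟩
    have hksm := hall zs ks hzs hzs'
    have hks2 : ks ≤ 2 * m := (hmin z0 k0 hz0 hz0').trans hk0
    set j : ℕ := (ks - m - 1) / t with hj
    have ht0 : 0 < t := by omega
    have hj1 : j * t ≤ ks - m - 1 := Nat.div_mul_le_self _ _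
    have hj2 : ks - m - 1 < (j + 1) * t := by
      rw [mul_comm]
      exact Nat.lt_mul_div_succ _ ht0
    have hj2' : (j + 1) * t = j * t + t := by ring
    have hjK : j ∈ Finset.range (2 * K) := by
      rw [Finset.mem_range]
      by_contra hcon
      have h6 : (2 * K) * t ≤ j * t := Nat.mul_le_mul_right t (not_lt.1 hcon)
      have h7 : K * (t + 1) ≤ K * (2 * t) := Nat.mul_le_mul_left K (by omega)
      have h8 : K * (2 * t) = (2 * K) * t := by ring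
      omega
    by_cases hsl : ∃ z k, (z, k) ∈ CX L 0 0 ∧ (z, k) ∈ CY M w 0 ∧ A j + 3 * t - s < k ∧
        k ≤ A j + 3 * t + 2 * i0
    · obtain ⟨z, k, hz, hz', hk1, hk2⟩ := hsl
      refine le_add_left ?_
      refine le_trans ?_ (Finset.single_le_sum (fun _ _ => zero_le) hjK)
      rw [if_pos ⟨hL, hM, z, k, by omega, by omega, hz, hz'⟩]
    · refine le_add_right ?_
      refine le_trans ?_ (Finset.single_le_sum (fun _ _ => zero_le) hjK)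
      rw [if_pos]
      refine ⟨hL, hM, ⟨zs, ks, hzs, hzs', ?_⟩, fun z k hz hz' => ?_, fun z k hz hz' hcon => ?_⟩
      · simp only [hA]; omega
      · have := hmin z k hz hz'
        simp only [hA]; omega
      · exact hsl ⟨z, k, hz, hz', hcon.1, hcon.2⟩
  have hsw : ∀ X : ℕ → List BX → List BY → ℝ≥0∞, ∑' L, ∑' M, ∑ j ∈ Finset.range (2 * K), X j L M
      = ∑ j ∈ Finset.range (2 * K), ∑' L, ∑' M, X j L M := by
    intro X
    calc _ = ∑' L, ∑ j ∈ Finset.range (2 * K), ∑' M, X j L M := by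
          refine tsum_congr fun L => ?_
          rw [Summable.tsum_finsetSum (fun _ _ => ENNReal.summable)]
      _ = _ := by rw [Summable.tsum_finsetSum (fun _ _ => ENNReal.summable)]
  refine (ENNReal.tsum_le_tsum fun L => ENNReal.tsum_le_tsum fun M => hpt L M).trans ?_
  simp only [ENNReal.tsum_add]
  rw [hsw, hsw]
  have hcard : ∀ c : ℝ≥0∞, ∑ _j ∈ Finset.range (2 * K), c = 2 * K * c := by
    intro c
    rw [Finset.sum_const, Finset.card_range, nsmul_eq_mul]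
    push_cast
    ring
  refine (add_le_add (Finset.sum_le_sum hwin) (Finset.sum_le_sum hslab)).trans ?_
  rw [hcard, hcard, hKη]
  -- arithmetic
  have a1 : 2 * (K : ℝ≥0∞) * (2 * e1 ΛX hX i0 + 2 * e1 ΛY hY i0) ≤ 8 * δ := by
    calc 2 * (K : ℝ≥0∞) * (2 * e1 ΛX hX i0 + 2 * e1 ΛY hY i0)
        ≤ 2 * (K : ℝ≥0∞) * (2 * ρ + 2 * ρ) := by gcongr
      _ = 8 * (K * ρ) := by ring
      _ = 8 * (δ * u) := by rw [hKρ]
      _ ≤ 8 * (δ * 1) := by gcongr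
      _ = 8 * δ := by rw [mul_one]
  have a2 : 2 * (K : ℝ≥0∞) * (u * u) ≤ 2 * δ := by
    calc 2 * (K : ℝ≥0∞) * (u * u) = 2 * (K * u ^ 2) := by ring
      _ ≤ 2 * δ := by gcongr
  have a3 : 2 * (K : ℝ≥0∞) * (2 * (1 - u) ^ N) ≤ 4 * δ := by
    calc 2 * (K : ℝ≥0∞) * (2 * (1 - u) ^ N) = 4 * (K * (1 - u) ^ N) := by ring
      _ ≤ 4 * (K * (1 - u / 2) ^ N) := by
          gcongr
          exact ENNReal.half_le_self
      _ ≤ 4 * δ := by gcongr
  have a4 : 2 * (K : ℝ≥0∞) * ((e1 ΛX hX i0 + e1 ΛY hY i0) * u⁻¹) ≤ 4 * δ := by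
    calc 2 * (K : ℝ≥0∞) * ((e1 ΛX hX i0 + e1 ΛY hY i0) * u⁻¹)
        ≤ 2 * (K : ℝ≥0∞) * ((ρ + ρ) * u⁻¹) := by gcongr
      _ = 4 * ((K * ρ) * u⁻¹) := by ring
      _ = 4 * (δ * (u * u⁻¹)) := by rw [hKρ]; ring
      _ = 4 * δ := by rw [ENNReal.mul_inv_cancel hu hutop, mul_one]
  have a5 : 2 * (K : ℝ≥0∞) * (2 * (r * (r * (r * (C * (lam + 2 * r * u⁻¹ * us (5 * i0) s / lam
      + us (5 * i0) s)))))) ≤ 2 * δ := by
    calc 2 * (K : ℝ≥0∞) * (2 * (r * (r * (r * (C * (lam + 2 * r * u⁻¹ * us (5 * i0) s / lam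
      + us (5 * i0) s))))))
        = A0 * lam + A1 * us (5 * i0) s := by
          rw [hA1, hA0, div_eq_mul_inv, div_eq_mul_inv]; ring
      _ ≤ δ + δ := add_le_add hA0lam hs'
      _ = 2 * δ := by ring
  calc 2 * (K : ℝ≥0∞) * Wb + δ
      = 2 * (K : ℝ≥0∞) * (2 * e1 ΛX hX i0 + 2 * e1 ΛY hY i0) + 2 * (K : ℝ≥0∞) * (u * u)
        + 2 * (K : ℝ≥0∞) * (2 * (r * (r * (r * (C * (lam + 2 * r * u⁻¹ * us (5 * i0) s / lam
          + us (5 * i0) s))))))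
        + 2 * (K : ℝ≥0∞) * (2 * (1 - u) ^ N)
        + 2 * (K : ℝ≥0∞) * ((e1 ΛX hX i0 + e1 ΛY hY i0) * u⁻¹) + δ := by rw [hWb]; ring
    _ ≤ 8 * δ + 2 * δ + 2 * δ + 4 * δ + 4 * δ + δ := by gcongr
    _ = 21 * δ := by ring
    _ = ε := hδε

end main

end Crest.Agent.R154.Asm433
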