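import Crest.Agent.R154.FP_178
import Crest.Agent.R154.AsmA_789

/-! Row 154, ROAD 801 (helper469): abstract assembly of KAPPA' on single-walker block lists. -/

set_option autoImplicit false
set_option linter.unusedSectionVars false

namespace Crest.Agent.R154.Asm469

open scoped ENNReal
open Crest.Agent.R154.B5A Crest.Agent.R154.FP178

variable {B G : Type*} [AddCommGroup G]

/-! ### sites -/

/-- sites (position, depth) read by a list -/
def TT (s : B → Set (G × ℕ)) (z : B → G) (h : B → ℕ) : List B → G → ℕ → Set (G × ℕ)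
  | [], _, _ => ∅
  | b :: L, x, a => {p | ∃ q ∈ s b, p = (x + q.1, a + q.2)} ∪ TT s z h L (x + z b) (a + h b)

/-- displacement -/
def Dp (z : B → G) (L : List B) : G := (L.map z).sum

lemma Dp_append (z : B → G) (L R : List B) : Dp z (L ++ R) = Dp z L + Dp z R := by
  simp [Dp]

lemma TT_append (s : B → Set (G × ℕ)) (z : B → G) (h : B → ℕ) (L R : List B) (x : G) (a : ℕ) :
    TT s z h (L ++ R) x a = TT s z h L x a ∪ TT s z h R (x + Dp z L) (a + HT h L) := by
  induction L generalizing x a with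
  | nil => simp [TT, Dp, HT_nil]
  | cons b L ih =>
    rw [List.cons_append, TT, TT, ih, Set.union_assoc, HT_cons]
    simp only [Dp, List.map_cons, List.sum_cons, add_assoc]

lemma TT_depth {s : B → Set (G × ℕ)} {z : B → G} {h : B → ℕ}
    (hs : ∀ b, ∀ q ∈ s b, 1 ≤ q.2 ∧ q.2 ≤ h b) {L : List B} {x : G} {a : ℕ} {p : G × ℕ}
    (hp : p ∈ TT s z h L x a) : a < p.2 ∧ p.2 ≤ a + HT h L := by
  induction L generalizing x a with
  | nil => exact absurd hp (by simp [TT])
  | cons b L ih =>
    rw [TT] at hp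
    rw [HT_cons]
    rcases hp with ⟨q, hq, rfl⟩ | hp
    · have := hs b q hq; simp only; omega
    · have := ih hp; omega

lemma TT_shift (s : B → Set (G × ℕ)) (z : B → G) (h : B → ℕ) (L : List B) (x y : G) (a : ℕ)
    (v : G) (k : ℕ) : (v, k) ∈ TT s z h L (x + y) a ↔ (v - y, k) ∈ TT s z h L x a := by
  induction L generalizing x a with
  | nil => simp [TT]
  | cons b L ih =>
    rw [TT, TT, Set.mem_union, Set.mem_union,
      show x + y + z b = x + z b + y by abel, ih]
    refine or_congr ?_ Iff.rfl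
    constructor
    · rintro ⟨q, hq, he⟩
      refine ⟨q, hq, ?_⟩
      have h1 : v = x + y + q.1 := congrArg Prod.fst he
      have h2 : k = a + q.2 := congrArg Prod.snd he
      refine Prod.ext ?_ h2
      simp only [h1]; abel
    · rintro ⟨q, hq, he⟩
      refine ⟨q, hq, ?_⟩
      have h1 : v - y = x + q.1 := congrArg Prod.fst he
      have h2 : k = a + q.2 := congrArg Prod.snd he
      refine Prod.ext ?_ h2
      simp only
      have : v = (v - y) + y := by abel
      rw [this, h1]; abel

/-! ### pieces -/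

variable (Λ : B → ℝ≥0∞) (ht : B → ℕ)

/-- pieces: first passages of `T` with overshoot at most `i0` -/
def Pc (T i0 : ℕ) : Set (List B) := {P | fp ht T P ∧ HT ht P ≤ T + i0}

/-- weight of a piece -/
noncomputable def ΛP (T i0 : ℕ) (P : Pc ht T i0) : ℝ≥0∞ := LW Λ P.1

/-- the list of blocks of a list of pieces -/
def flat {T i0 : ℕ} (L : List (Pc ht T i0)) : List B := (L.map Subtype.val).flatten

lemma flat_nil {T i0 : ℕ} : flat ht ([] : List (Pc ht T i0)) = [] := rfl

lemma flat_cons {T i0 : ℕ} (P : Pc ht T i0) (L : List (Pc ht T i0)) :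
    flat ht (P :: L) = P.1 ++ flat ht L := by simp [flat]

lemma flat_append {T i0 : ℕ} (L R : List (Pc ht T i0)) :
    flat ht (L ++ R) = flat ht L ++ flat ht R := by simp [flat]

lemma HT_flat {T i0 : ℕ} (L : List (Pc ht T i0)) :
    L.length * T ≤ HT ht (flat ht L) ∧ HT ht (flat ht L) ≤ L.length * (T + i0) := by
  induction L with
  | nil => simp [flat_nil, HT_nil]
  | cons P L ih =>
    rw [flat_cons, HT_append, List.length_cons, add_mul, add_mul, one_mul, one_mul]
    have h1 := le_HT_of_fp ht P.2.1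
    have h2 := P.2.2
    omega

open Classical in
lemma tsum_Pc (T i0 : ℕ) (f : List B → ℝ≥0∞) : ∑' P : Pc ht T i0, f P.1
    = ∑' P : List B, (if fp ht T P ∧ HT ht P ≤ T + i0 then f P else 0) := by
  have := tsum_subtype (Pc ht T i0) f
  refine Eq.trans this (tsum_congr fun P => ?_)
  rw [Set.indicator_apply]
  by_cases h : P ∈ Pc ht T i0
  · rw [if_pos h, if_pos (show _ ∧ _ from h)]
  · rw [if_neg h, if_neg (show ¬ (_ ∧ _) from h)]

open Classical in
lemma sum_Pc_le (h1 : ∀ b, 1 ≤ ht b) (hΛ : ∑' b, Λ b ≤ 1) (T i0 : ℕ) :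
    ∑' P, ΛP Λ ht T i0 P ≤ 1 := by
  have e : ∑' P, ΛP Λ ht T i0 P
      = ∑' P : List B, (if fp ht T P ∧ HT ht P ≤ T + i0 then LW Λ P else 0) :=
    tsum_Pc ht T i0 (fun P => LW Λ P)
  rw [e]
  refine le_trans (ENNReal.tsum_le_tsum fun P => ?_) (sum_FP Λ ht h1 hΛ T)
  split_ifs with h h' h'
  · exact le_rfl
  · exact absurd h.1 h'
  · exact zero_le
  · exact le_rfl

open Classical in
/-- total mass one -/
theorem sum_FP_eq (h1 : ∀ b, 1 ≤ ht b) (hΛ : ∑' b, Λ b = 1) (a : ℕ) :
    ∑' L, (if fp ht a L then LW Λ L else 0) = 1 := by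
  induction a using Nat.strong_induction_on with
  | _ a ih =>
    rcases Nat.eq_zero_or_pos a with rfl | ha
    · have := sum_fp_zero Λ ht (fun _ => 1)
      simp only [mul_one] at this
      exact this
    · have := sum_fp_step Λ ht a ha (fun _ => 1)
      simp only [mul_one] at this
      rw [this]
      have e : ∀ b, Λ b * ∑' L, (if fp ht (a - ht b) L then LW Λ L else 0) = Λ b := by
        intro b
        rw [ih (a - ht b) (by have := h1 b; omega), mul_one]
      rw [tsum_congr e, hΛ]

open Classical in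
lemma sum_Pc_ge (h1 : ∀ b, 1 ≤ ht b) (hΛ : ∑' b, Λ b = 1) (T i0 : ℕ) (ε : ℝ≥0∞)
    (hε : ∑' L, (if fp ht T L ∧ T + i0 < HT ht L then LW Λ L else 0) ≤ ε) :
    1 ≤ ∑' P, ΛP Λ ht T i0 P + ε := by
  have e : ∑' P, ΛP Λ ht T i0 P
      = ∑' P : List B, (if fp ht T P ∧ HT ht P ≤ T + i0 then LW Λ P else 0) :=
    tsum_Pc ht T i0 (fun P => LW Λ P)
  rw [e]
  calc (1 : ℝ≥0∞) = ∑' L, (if fp ht T L then LW Λ L else 0) := (sum_FP_eq Λ ht h1 hΛ T).symm
    _ = ∑' P : List B, (if fp ht T P ∧ HT ht P ≤ T + i0 then LW Λ P else 0)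
        + ∑' L, (if fp ht T L ∧ T + i0 < HT ht L then LW Λ L else 0) := by
        rw [← ENNReal.tsum_add]
        refine tsum_congr fun L => ?_
        by_cases h : fp ht T L <;> by_cases h' : HT ht L ≤ T + i0
        · simp [h, h', not_lt.2 h']
        · simp [h, h', not_le.1 h']
        · simp [h]
        · simp [h]
    _ ≤ _ := by gcongr

open Classical in
/-- (L1) reduction to pieces -/
theorem pieces (h1 : ∀ b, 1 ≤ ht b) (hΛ : ∑' b, Λ b ≤ 1) (hU1 : ∀ n, U Λ ht n ≤ 1) (T i0 : ℕ)
    (ε : ℝ≥0∞)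
    (hε : ∑' L, (if fp ht T L ∧ T + i0 < HT ht L then LW Λ L else 0) ≤ ε) :
    ∀ (N n : ℕ) (F : List B → ℝ≥0∞), (∀ L, F L ≤ 1) → N * (T + i0) ≤ n →
    ∑' L, (if HT ht L = n then LW Λ L * F L else 0)
      ≤ SL (ΛP Λ ht T i0) N (fun L => ∑' R, if HT ht (flat ht L) + HT ht R = n then
          LW Λ R * F (flat ht L ++ R) else 0) + N * ε := by
  intro N
  induction N with
  | zero =>
    intro n F _ _
    rw [SL_zero]
    simp [flat_nil, HT_nil]
  | succ N ih =>
    intro n F hF hn
    have hTn : T ≤ n := by nlinarith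
    have hTn' : T + i0 ≤ n := by nlinarith
    have e0 : ∑' L, (if HT ht L = n then LW Λ L * F L else 0)
        = ∑' L, (if T ≤ HT ht L then LW Λ L * (if HT ht L = n then F L else 0) else 0) := by
      refine tsum_congr fun L => ?_
      by_cases h : HT ht L = n
      · rw [if_pos h, if_pos (by omega), if_pos h]
      · rw [if_neg h, if_neg h, mul_zero]; split_ifs <;> rfl
    rw [e0, split Λ ht h1 T]
    have key : ∀ P : List B, (if fp ht T P then LW Λ P *
          ∑' R, LW Λ R * (if HT ht (P ++ R) = n then F (P ++ R) else 0) else 0)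
        ≤ (if fp ht T P ∧ HT ht P ≤ T + i0 then LW Λ P *
            (SL (ΛP Λ ht T i0) N (fun L => ∑' R, if HT ht (P ++ flat ht L) + HT ht R = n then
              LW Λ R * F ((P ++ flat ht L) ++ R) else 0) + N * ε) else 0)
          + (if fp ht T P ∧ T + i0 < HT ht P then LW Λ P else 0) := by
      intro P
      by_cases hP : fp ht T P
      · by_cases hP' : HT ht P ≤ T + i0
        · rw [if_pos hP, if_pos ⟨hP, hP'⟩, if_neg (fun h => absurd h.2 (not_lt.2 hP')), add_zero]
          refine mul_le_mul_right ?_ _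
          have h3 := ih (n - HT ht P) (fun R => F (P ++ R)) (fun R => hF _) (by
            have : N * (T + i0) + (T + i0) ≤ n := by rw [add_mul, one_mul] at hn; exact hn
            omega)
          refine le_trans (le_of_eq (tsum_congr fun R => ?_)) (h3.trans (le_of_eq ?_))
          · rw [HT_append]
            by_cases h : HT ht P + HT ht R = n
            · rw [if_pos h, if_pos (by omega)]
            · rw [if_neg h, if_neg (by omega), mul_zero]
          · congr 1
            congr 1
            funext L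
            refine tsum_congr fun R => ?_
            rw [HT_append, List.append_assoc]
            by_cases h : HT ht (flat ht L) + HT ht R = n - HT ht P
            · rw [if_pos h, if_pos (by omega)]
            · rw [if_neg h, if_neg (by omega)]
        · rw [if_pos hP, if_neg (fun h => hP' h.2), if_pos ⟨hP, not_le.1 hP'⟩, zero_add]
          have h4 : ∑' R, LW Λ R * (if HT ht (P ++ R) = n then F (P ++ R) else 0) ≤ 1 := by
            refine le_trans (ENNReal.tsum_le_tsum fun R => ?_) (hU1 (n - HT ht P))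
            rw [HT_append]
            by_cases h : HT ht P + HT ht R = n
            · rw [if_pos h, if_pos (by omega)]
              calc LW Λ R * F (P ++ R) ≤ LW Λ R * 1 := mul_le_mul_right (hF _) _
                _ = _ := mul_one _
            · rw [if_neg h, mul_zero]; exact zero_le
          calc LW Λ P * _ ≤ LW Λ P * 1 := mul_le_mul_right h4 _
            _ = _ := mul_one _
      · rw [if_neg hP]; exact zero_le
    refine (ENNReal.tsum_le_tsum key).trans ?_
    rw [ENNReal.tsum_add]
    have e1 : ∑' P : List B, (if fp ht T P ∧ HT ht P ≤ T + i0 then LW Λ P *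
            (SL (ΛP Λ ht T i0) N (fun L => ∑' R, if HT ht (P ++ flat ht L) + HT ht R = n then
              LW Λ R * F ((P ++ flat ht L) ++ R) else 0) + N * ε) else 0)
        = ∑' P : Pc ht T i0, ΛP Λ ht T i0 P *
            (SL (ΛP Λ ht T i0) N (fun L => ∑' R, if HT ht (P.1 ++ flat ht L) + HT ht R = n then
              LW Λ R * F ((P.1 ++ flat ht L) ++ R) else 0) + N * ε) :=
      (tsum_Pc ht T i0 (fun P => LW Λ P *
            (SL (ΛP Λ ht T i0) N (fun L => ∑' R, if HT ht (P ++ flat ht L) + HT ht R = n then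
              LW Λ R * F ((P ++ flat ht L) ++ R) else 0) + N * ε))).symm
    rw [e1, SL_succ]
    have e2 : ∑' P : Pc ht T i0, ΛP Λ ht T i0 P *
            (SL (ΛP Λ ht T i0) N (fun L => ∑' R, if HT ht (P.1 ++ flat ht L) + HT ht R = n then
              LW Λ R * F ((P.1 ++ flat ht L) ++ R) else 0) + N * ε)
        ≤ ∑' P : Pc ht T i0, ΛP Λ ht T i0 P *
            SL (ΛP Λ ht T i0) N (fun L => ∑' R, if HT ht (flat ht (P :: L)) + HT ht R = n then
              LW Λ R * F (flat ht (P :: L) ++ R) else 0) + N * ε := by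
      simp only [mul_add, flat_cons]
      rw [ENNReal.tsum_add, ENNReal.tsum_mul_right]
      refine add_le_add le_rfl ?_
      calc (∑' P, ΛP Λ ht T i0 P) * (N * ε) ≤ 1 * (N * ε) :=
            mul_le_mul_left (sum_Pc_le Λ ht h1 hΛ T i0) _
        _ = _ := one_mul _
    calc _ ≤ (∑' P : Pc ht T i0, ΛP Λ ht T i0 P *
            SL (ΛP Λ ht T i0) N (fun L => ∑' R, if HT ht (flat ht (P :: L)) + HT ht R = n then
              LW Λ R * F (flat ht (P :: L) ++ R) else 0) + N * ε) + ε := add_le_add e2 hε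
      _ = _ := by push_cast; ring

/-! ### sums over lists of letters -/

section SL
variable {A : Type*} (L₀ : A → ℝ≥0∞)

lemma SL_one_le (h : ∑' a, L₀ a ≤ 1) (j : ℕ) : SL L₀ j (fun _ => 1) ≤ 1 := by
  rw [SL_pow]; exact pow_le_one' h j

lemma SL_prefix (h : ∑' a, L₀ a ≤ 1) (i N : ℕ) (hi : i < N) (F : List A → ℝ≥0∞)
    (F' : List A → A → ℝ≥0∞)
    (hF : ∀ X P Y, X.length = i → F (X ++ P :: Y) ≤ F' X P) :
    SL L₀ N F ≤ SL L₀ i (fun X => ∑' P, L₀ P * F' X P) := by
  obtain ⟨k, rfl⟩ : ∃ k, N = i + (k + 1) := ⟨N - i - 1, by omega⟩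
  rw [SL_add]
  refine SL_mono L₀ i fun X hX => ?_
  rw [SL_succ]
  refine ENNReal.tsum_le_tsum fun P => mul_le_mul_right ?_ _
  calc SL L₀ k (fun Y => F (X ++ P :: Y)) ≤ SL L₀ k (fun _ => F' X P * 1) :=
        SL_mono L₀ k fun Y _ => by rw [mul_one]; exact hF X P Y hX
    _ = F' X P * SL L₀ k (fun _ => 1) := SL_const_mul L₀ k _ _
    _ ≤ F' X P * 1 := mul_le_mul_right (SL_one_le L₀ h k) _
    _ = _ := mul_one _

end SL

end Crest.Agent.R154.Asm469
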