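import Crest.Agent.R154.AsmY_475
import Crest.Agent.R154.Num_869

/-! Row 154, ROAD 801 (helper475): **the assembly**: `kapS` from the window lemmas `H2`, `H3`, the
thin slab `H5`, `u_s → 0` and the single-walker renewal data. -/

set_option autoImplicit false

namespace Crest.Agent.R154.Asm475

open Crest.Agent.R154.B5A
open Crest.Agent.R154.Ren396
open Crest.Agent.R154.Bind12 (TT Dp)
open Filter
open scoped ENNReal Topology

variable {BX BY G : Type*} [AddCommGroup G]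
  (ΛX : BX → ℝ≥0∞) (ΛY : BY → ℝ≥0∞) (hX : BX → ℕ) (hY : BY → ℕ) (zX : BX → G) (zY : BY → G)
  (sX : BX → Set (G × ℕ)) (sY : BY → Set (G × ℕ))

open Classical in
/-- thin slab -/
def H5 : Prop :=
  ∀ (s : ℕ) (η : ℝ≥0∞), η ≠ 0 → ∃ T : ℕ, ∀ a, T ≤ a → ∀ n, ∀ w : G,
    ∑' LX, ∑' LY, (if HT hX LX = n ∧ HT hY LY = n ∧ (∃ y k, a ≤ k ∧ k < a + s ∧
      (y, k) ∈ TT sX zX hX LX 0 0 ∧ (y, k) ∈ TT sY zY hY LY w 0)
      then LW ΛX LX * LW ΛY LY else 0) ≤ η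

lemma arith (C e ep u q lam us1 Y : ℝ≥0∞) (K i0 : ℕ) (hK : 1 ≤ K) (hep : ep = 2 * e) :
    4 * e + (u * u + 2 * (((i0 : ℝ≥0∞) + 1) * (((i0 : ℝ≥0∞) + 1) ^ 2 *
      (C * (lam + 4 * q + us1))) + (Y + K * e)))
      ≤ 3 * ((u + ep) ^ 2 + (Y + K * ep) +
        ((i0 : ℝ≥0∞) + 1) ^ 3 * (4 * C * (lam + q + us1))) := by
  have hK' : (1 : ℝ≥0∞) ≤ K := by exact_mod_cast hK
  have h1 : u * u ≤ (u + ep) ^ 2 := by
    rw [sq]; exact mul_le_mul' le_self_add le_self_add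
  have h2 : 4 * e ≤ 2 * (K * ep) := by
    rw [hep]
    calc 4 * e = 2 * (1 * (2 * e)) := by ring
      _ ≤ 2 * (K * (2 * e)) := mul_le_mul_right (mul_le_mul_left hK' _) _
  have h3 : ((i0 : ℝ≥0∞) + 1) * (((i0 : ℝ≥0∞) + 1) ^ 2 * (C * (lam + 4 * q + us1)))
      ≤ ((i0 : ℝ≥0∞) + 1) ^ 3 * (4 * C * (lam + q + us1)) := by
    calc _ = ((i0 : ℝ≥0∞) + 1) ^ 3 * (C * (lam + 4 * q + us1)) := by ring
      _ ≤ ((i0 : ℝ≥0∞) + 1) ^ 3 * (C * (4 * lam + 4 * q + 4 * us1)) := by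
          have h4 : (1 : ℝ≥0∞) ≤ 4 := by norm_num
          have h5 : ∀ x : ℝ≥0∞, x ≤ 4 * x := fun x => by
            calc x = 1 * x := (one_mul x).symm
              _ ≤ 4 * x := mul_le_mul_left h4 _
          exact mul_le_mul_right (mul_le_mul_right (add_le_add (add_le_add (h5 _) le_rfl) (h5 _)) _) _
      _ = _ := by ring
  have h6 : 2 * (K * e) = K * ep := by rw [hep]; ring
  calc _ = 4 * e + (u * u + (2 * (((i0 : ℝ≥0∞) + 1) * (((i0 : ℝ≥0∞) + 1) ^ 2 *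
      (C * (lam + 4 * q + us1)))) + (2 * Y + 2 * (K * e)))) := by ring
    _ ≤ 2 * (K * ep) + ((u + ep) ^ 2 + (2 * (((i0 : ℝ≥0∞) + 1) ^ 3 * (4 * C * (lam + q + us1)))
        + (2 * Y + K * ep))) := by
        rw [h6]
        exact add_le_add h2 (add_le_add h1 (add_le_add (mul_le_mul_right h3 _) le_rfl))
    _ ≤ 3 * (K * ep) + (3 * (u + ep) ^ 2 + (3 * (((i0 : ℝ≥0∞) + 1) ^ 3 *
        (4 * C * (lam + q + us1))) + 3 * Y)) := by
        have h7 : ∀ x : ℝ≥0∞, 2 * x ≤ 3 * x := fun x => mul_le_mul_left (by norm_num) _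
        have h8 : ∀ x : ℝ≥0∞, x ≤ 3 * x := fun x => by
          calc x = 1 * x := (one_mul x).symm
            _ ≤ 3 * x := mul_le_mul_left (by norm_num) _
        calc _ = 3 * (K * ep) + ((u + ep) ^ 2 + (2 * (((i0 : ℝ≥0∞) + 1) ^ 3 *
              (4 * C * (lam + q + us1))) + 2 * Y)) := by ring
          _ ≤ _ := add_le_add le_rfl (add_le_add (h8 _) (add_le_add (h7 _) (h7 _)))
    _ = _ := by ring

open Classical in
/-- **the assembly** -/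
theorem kapS (hsX : ∀ b q, q ∈ sX b → 1 ≤ q.2 ∧ q.2 ≤ hX b)
    (hsY : ∀ b q, q ∈ sY b → 1 ≤ q.2 ∧ q.2 ≤ hY b)
    (hUX : ∀ n, U ΛX hX n ≤ 1) (hUY : ∀ n, U ΛY hY n ≤ 1)
    (hΛX : ∑' b, ΛX b = 1) (hΛY : ∑' b, ΛY b = 1) (h1X : ∀ b, 1 ≤ hX b) (h1Y : ∀ b, 1 ≤ hY b)
    (c : ℝ≥0∞) (hc0 : c ≠ 0) (hc1 : c ≤ 1) (hcX : ∀ n, c ≤ U ΛX hX n) (hcY : ∀ n, c ≤ U ΛY hY n)
    (us : ℕ → ℝ≥0∞) (hus : Tendsto us atTop (𝓝 0)) (C : ℝ≥0∞) (hC : C ≠ ⊤)
    (h2 : H2 ΛX ΛY hX hY zX zY sX sY (fun _ s => us s) C)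
    (h3 : H3 ΛX ΛY hX hY zX zY sX sY (fun _ s => us s) C)
    (h5 : H5 ΛX ΛY hX hY zX zY sX sY) :
    ∀ ε : ℝ≥0∞, ε ≠ 0 → ∃ M : ℕ, ∀ m, M ≤ m → ∃ n0 : ℕ, ∀ n, n0 ≤ n → ∀ w : G,
      ∑' LX, ∑' LY, (if HT hX LX = n ∧ HT hY LY = n ∧ (∃ k y, m < k ∧ k ≤ 2 * m ∧
        (y, k) ∈ TT sX zX hX LX 0 0 ∧ (y, k) ∈ TT sY zY hY LY w 0)
        then LW ΛX LX * LW ΛY LY else 0) ≤ ε := by
  intro ε hε
  have hct : c ≠ ⊤ := ne_top_of_le_ne_top ENNReal.one_ne_top hc1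
  -- overshoots
  set ep : ℕ → ℝ≥0∞ := fun i => 2 * (TS ΛX hX (i + 1) + TS ΛY hY (i + 1)) with hep
  have hep0 : Tendsto ep atTop (𝓝 0) := by
    have e1 := (tendsto_TS ΛX hX c hc0 hct h1X hΛX 0 (fun n _ => hcX n)).comp (tendsto_add_atTop_nat 1)
    have e2 := (tendsto_TS ΛY hY c hc0 hct h1Y hΛY 0 (fun n _ => hcY n)).comp (tendsto_add_atTop_nat 1)
    have e3 := ENNReal.Tendsto.const_mul (a := 2) (e1.add e2) (Or.inr (by norm_num))
    simpa using e3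
  -- constants
  have hε10 : ε / 10 ≠ 0 := by
    rw [Ne, ENNReal.div_eq_zero_iff, not_or]
    exact ⟨hε, by norm_num⟩
  obtain ⟨K, u, hK, hu0, hu1, i0, lam, s', hl0, hlt, hl1, hi1, hnum⟩ :=
    Num869.choose' (fun s => us (s + 1)) ep (hus.comp (tendsto_add_atTop_nat 1)) hep0 (4 * C)
      (ENNReal.mul_ne_top (by norm_num) hC) 3 (ε / 10) hε10
  set s := s' + 1 with hs
  set e : ℝ≥0∞ := TS ΛX hX (i0 + 1) + TS ΛY hY (i0 + 1) with he
  have hepe : ep i0 = 2 * e := rfl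
  have heu : e ≤ u / 2 := by
    rw [ENNReal.le_div_iff_mul_le (Or.inl (by norm_num)) (Or.inl (by norm_num)), mul_comm]
    exact hi1
  have heX : ∀ T, ∑' P : List BX, (if FR hX P T ∧ T + i0 < HT hX P then LW ΛX P else 0) ≤ e :=
    fun T => (over_le ΛX hX hUX T i0).trans le_self_add
  have heY : ∀ T, ∑' P : List BY, (if FR hY P T ∧ T + i0 < HT hY P then LW ΛY P else 0) ≤ e :=
    fun T => (over_le ΛY hY hUY T i0).trans le_add_self
  have hK0 : (K : ℝ≥0∞) ≠ 0 := by exact_mod_cast (by omega : K ≠ 0)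
  have hKt : (K : ℝ≥0∞) ≠ ⊤ := ENNReal.natCast_ne_top K
  set η : ℝ≥0∞ := ε / 10 / K with hη
  have hη0 : η ≠ 0 := by
    rw [hη, Ne, ENNReal.div_eq_zero_iff, not_or]
    exact ⟨hε10, hKt⟩
  obtain ⟨T5, hT5⟩ := h5 (2 * i0 + s) η hη0
  refine ⟨2 * (K * (1 + 6 * i0 + 2 * s)) + 2 * (2 * i0 + s) + T5 + 2 * i0 + s + 2, fun m hm => ?_⟩
  set N := 2 * K with hN
  obtain ⟨t, ht0, hNt, hNt2⟩ : ∃ t : ℕ, 0 < t ∧ m ≤ N * t ∧ N * t ≤ m + N := by
    refine ⟨m / N + 1, Nat.succ_pos _, ?_, ?_⟩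
    · have h8 := Nat.div_add_mod m N
      have h9 : m % N < N := Nat.mod_lt _ (by omega)
      rw [Nat.mul_add, Nat.mul_one]
      omega
    · rw [Nat.mul_add, Nat.mul_one]
      have := Nat.mul_div_le m N
      omega
  have hNt3 : 2 * (K * t) = N * t := by rw [hN, Nat.mul_assoc]
  set T := t + 2 * i0 + 2 * s with hT
  set b : ℕ → ℕ := fun i => m - (2 * i0 + s) + i * t with hb
  refine ⟨m + N * t + t + 10 * i0 + 10 * s + 10, fun n hn w => ?_⟩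
  set F : List BX → List BY → ℝ≥0∞ := fun LX LY => if HT hX LX = n ∧ HT hY LY = n ∧
    (∃ k y, m < k ∧ k ≤ 2 * m ∧ (y, k) ∈ TT sX zX hX LX 0 0 ∧ (y, k) ∈ TT sY zY hY LY w 0)
        then LW ΛX LX * LW ΛY LY else 0 with hF
  set S : ℕ → List BX → List BY → ℝ≥0∞ := fun a LX LY => if HT hX LX = n ∧ HT hY LY = n ∧
    (∃ y k, a ≤ k ∧ k < a + (2 * i0 + s) ∧ (y, k) ∈ TT sX zX hX LX 0 0 ∧
      (y, k) ∈ TT sY zY hY LY w 0) then LW ΛX LX * LW ΛY LY else 0 with hS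
  set V : ℕ → List BX → List BY → ℝ≥0∞ := fun i LX LY => if HT hX LX = n ∧ HT hY LY = n ∧
    EvF hX hY zX zY sX sY w (b i) (b i + 2 * i0 + s) (b i + T - s) (b i + T + 2 * i0) LX LY
    then LW ΛX LX * LW ΛY LY else 0 with hV
  have hpt : ∀ LX LY, F LX LY ≤ ∑ i ∈ Finset.range N,
      (S (b i) LX LY + (S (b i + T - s + 1) LX LY + V i LX LY)) := by
    intro LX LY
    simp only [hF]
    by_cases h : HT hX LX = n ∧ HT hY LY = n ∧ (∃ k y, m < k ∧ k ≤ 2 * m ∧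
        (y, k) ∈ TT sX zX hX LX 0 0 ∧ (y, k) ∈ TT sY zY hY LY w 0)
    swap
    · rw [if_neg h]; exact zero_le
    rw [if_pos h]
    obtain ⟨h6, h7, k, y, hk1, hk2, hx, hy⟩ := h
    obtain ⟨i, hi1, hi2⟩ : ∃ i : ℕ, i * t ≤ k - m - 1 ∧ k - m - 1 < i * t + t :=
      ⟨(k - m - 1) / t, Nat.div_mul_le_self _ _, Nat.lt_div_mul_add ht0⟩
    have hiN : i < N := by
      by_contra hcon
      have := Nat.mul_le_mul_right t (not_lt.1 hcon)
      omega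
    refine le_trans ?_ (Finset.single_le_sum (f := fun i =>
      (S (b i) LX LY + (S (b i + T - s + 1) LX LY + V i LX LY))) (fun _ _ => zero_le)
      (Finset.mem_range.2 hiN))
    have hbi : b i = m - (2 * i0 + s) + i * t := rfl
    by_cases hs1 : ∃ y k, b i ≤ k ∧ k < b i + (2 * i0 + s) ∧ (y, k) ∈ TT sX zX hX LX 0 0 ∧
        (y, k) ∈ TT sY zY hY LY w 0
    · refine le_trans (le_of_eq ?_) le_self_add
      simp only [hS]
      rw [if_pos ⟨h6, h7, hs1⟩]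
    by_cases hs2 : ∃ y k, b i + T - s + 1 ≤ k ∧ k < b i + T - s + 1 + (2 * i0 + s) ∧
        (y, k) ∈ TT sX zX hX LX 0 0 ∧ (y, k) ∈ TT sY zY hY LY w 0
    · refine le_trans (le_trans (le_of_eq ?_) le_self_add) le_add_self
      simp only [hS]
      rw [if_pos ⟨h6, h7, hs2⟩]
    refine le_trans (le_trans (le_of_eq ?_) le_add_self) le_add_self
    simp only [hV]
    rw [if_pos]
    refine ⟨h6, h7, ⟨y, k, hx, hy, by omega, by omega⟩, fun y' k' hx' hy' => ⟨fun hh => ?_,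
      fun hh => ?_⟩⟩
    · exact hs1 ⟨y', k', hh.1, by omega, hx', hy'⟩
    · exact hs2 ⟨y', k', by omega, by omega, hx', hy'⟩
  have hsum : ∑' LX, ∑' LY, F LX LY ≤ ∑ i ∈ Finset.range N,
      ((∑' LX, ∑' LY, S (b i) LX LY) + ((∑' LX, ∑' LY, S (b i + T - s + 1) LX LY) +
        ∑' LX, ∑' LY, V i LX LY)) := by
    refine (ENNReal.tsum_le_tsum fun LX => ENNReal.tsum_le_tsum fun LY => hpt LX LY).trans
      (le_of_eq ?_)
    have e1 : ∀ LX, ∑' LY, ∑ i ∈ Finset.range N,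
        (S (b i) LX LY + (S (b i + T - s + 1) LX LY + V i LX LY))
        = ∑ i ∈ Finset.range N, ((∑' LY, S (b i) LX LY) + ((∑' LY, S (b i + T - s + 1) LX LY)
          + ∑' LY, V i LX LY)) := by
      intro LX
      rw [Summable.tsum_finsetSum (fun _ _ => ENNReal.summable)]
      refine Finset.sum_congr rfl fun i _ => ?_
      rw [ENNReal.tsum_add, ENNReal.tsum_add]
    simp_rw [e1]
    rw [Summable.tsum_finsetSum (fun _ _ => ENNReal.summable)]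
    refine Finset.sum_congr rfl fun i _ => ?_
    rw [ENNReal.tsum_add, ENNReal.tsum_add]
  refine hsum.trans ?_
  set R : ℝ≥0∞ := (u + ep i0) ^ 2 + ((1 - u / 2) ^ K + K * ep i0) +
        ((i0 : ℝ≥0∞) + 1) ^ 3 * (4 * C * (lam + (((i0 : ℝ≥0∞) + 1) / u) * us s / lam + us s))
    with hR
  have hwin : ∀ i ∈ Finset.range N, ((∑' LX, ∑' LY, S (b i) LX LY) +
      ((∑' LX, ∑' LY, S (b i + T - s + 1) LX LY) + ∑' LX, ∑' LY, V i LX LY))
      ≤ η + (η + 3 * R) := by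
    intro i hi
    have hiN := Finset.mem_range.1 hi
    have hbi : b i = m - (2 * i0 + s) + i * t := rfl
    have hit : i * t + t ≤ N * t := by
      have : (i + 1) * t ≤ N * t := Nat.mul_le_mul_right _ (by omega)
      rw [Nat.succ_mul] at this
      exact this
    refine add_le_add (hT5 _ (by omega) n w) (add_le_add (hT5 _ (by omega) n w) ?_)
    have hJ : K * (T + 4 * i0) ≤ b i := by
      have e1 : K * (T + 4 * i0) = K * t + K * (6 * i0 + 2 * s) := by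
        rw [hT]; ring
      have e2 : K * (1 + 6 * i0 + 2 * s) = K + K * (6 * i0 + 2 * s) := by ring
      rw [e1]
      omega
    refine (window ΛX ΛY hX hY zX zY sX sY hsX hsY hUX hUY hΛX.le hΛY.le h1X h1Y
      (fun _ s => us s) C h2 h3 w (b i) T i0 s n K (by omega) (by omega) (by omega) hJ u e lam hu0
      hu1 heu heX heY hl0 hlt).trans ?_
    have har := arith C e (ep i0) u ((((i0 : ℝ≥0∞) + 1) / u) * us s / lam) lam (us s)
      ((1 - u / 2) ^ K) K i0 hK hepe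
    refine le_trans (le_of_eq ?_) har
    have e3 : 4 * (((i0 : ℝ≥0∞) + 1) / u) * us s / lam
        = 4 * ((((i0 : ℝ≥0∞) + 1) / u) * us s / lam) := by
      simp only [div_eq_mul_inv]; ring
    rw [e3]
  calc _ ≤ ∑ i ∈ Finset.range N, (η + (η + 3 * R)) := Finset.sum_le_sum hwin
    _ = 4 * (K * η) + 6 * (K * R) := by
        rw [Finset.sum_const, Finset.card_range, nsmul_eq_mul, hN]
        push_cast
        ring
    _ ≤ 4 * (ε / 10) + 6 * (ε / 10) := by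
        refine add_le_add (mul_le_mul_right ?_ _) (mul_le_mul_right hnum _)
        rw [hη, ENNReal.mul_div_cancel hK0 hKt]
    _ = 10 * (ε / 10) := by ring
    _ = ε := ENNReal.mul_div_cancel (by norm_num) (by norm_num)

end Crest.Agent.R154.Asm475
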