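import Crest.Agent.R154.Smooth_178

/-! Row 154, ROAD 801: the abstract assembly `kapS` (helper529, silent racer). -/

set_option autoImplicit false

namespace Crest.Agent.R154.Asm529

open scoped ENNReal Classical
open Crest.Agent.R154.B5A Crest.Agent.R154.FP178

section one

variable {B G : Type*} [AddCommGroup G] (Λ : B → ℝ≥0∞) (ht : B → ℕ) (dsp : B → G)

lemma sum_disp (A : ℕ) (F : G → ℝ≥0∞) :
    ∑' P, (if fp ht A P then LW Λ P * F (dL dsp P) else 0) = ∑' z, mL Λ ht dsp A z * F z := by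
  have : ∀ z, mL Λ ht dsp A z * F z
      = ∑' L, (if fp ht A L then LW Λ L * (if dL dsp L = z then F z else 0) else 0) := by
    intro z
    rw [mL, ← ENNReal.tsum_mul_right]
    refine tsum_congr fun L => ?_
    split_ifs <;> simp
  simp only [this]
  rw [ENNReal.tsum_comm]
  refine tsum_congr fun P => ?_
  by_cases h : fp ht A P
  · simp only [if_pos h]
    rw [ENNReal.tsum_mul_left, tsum_eq_single (dL dsp P), if_pos rfl]
    intro z hz
    rw [if_neg (fun hh => hz hh.symm)]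
  · simp only [if_neg h, tsum_zero]

/-- sum over first passages of depth `A` with overshoot `≤ i0`: the smooth part is paid level by
level, the rough part once. -/
theorem smooth_sum (h1 : ∀ b, 1 ≤ ht b) (hΛ : ∑' b, Λ b ≤ 1) (A i0 : ℕ) (g b : G → ℝ≥0∞)
    (hgb : ∀ z, mL Λ ht dsp A z = g z + b z) (M : ℝ≥0∞) (hg : ∀ z, g z ≤ M)
    (Φ : ℕ → G → ℝ≥0∞) (hΦ1 : ∀ h z, Φ h z ≤ 1) (Bd : ℝ≥0∞)
    (hΦ : ∀ h, A ≤ h → h ≤ A + i0 → ∀ μ : G → ℝ≥0∞, ∑' z, μ z ≤ 1 → (∀ z, μ z ≤ M) →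
      ∑' z, μ z * Φ h z ≤ Bd) :
    ∑' P, (if fp ht A P ∧ HT ht P ≤ A + i0 then LW Λ P * Φ (HT ht P) (dL dsp P) else 0)
      ≤ (i0 + 1) * Bd + ∑' z, b z := by
  set m := mL Λ ht dsp A with hm
  have hsum : ∑' z, m z ≤ 1 := sum_mL Λ ht dsp h1 hΛ A
  have hm1 : ∀ z, m z ≤ 1 := fun z => (ENNReal.le_tsum z).trans hsum
  have hmt : ∀ z, m z ≠ ⊤ := fun z => ne_top_of_le_ne_top ENNReal.one_ne_top (hm1 z)
  have hLW : ∀ P, fp ht A P → LW Λ P ≤ m (dL dsp P) := by
    intro P hP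
    rw [hm, mL]
    refine le_trans ?_ (ENNReal.le_tsum P)
    simp [hP]
  have step1 : ∀ P, (if fp ht A P ∧ HT ht P ≤ A + i0 then LW Λ P * Φ (HT ht P) (dL dsp P) else 0)
      ≤ (if fp ht A P ∧ HT ht P ≤ A + i0 then
          LW Λ P * (g (dL dsp P) / m (dL dsp P)) * Φ (HT ht P) (dL dsp P) else 0)
        + (if fp ht A P then LW Λ P * (b (dL dsp P) / m (dL dsp P)) else 0) := by
    intro P
    by_cases hP : fp ht A P ∧ HT ht P ≤ A + i0
    · rw [if_pos hP, if_pos hP, if_pos hP.1]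
      by_cases h0 : LW Λ P = 0
      · simp [h0]
      · have hm0 : m (dL dsp P) ≠ 0 := fun h => h0 (le_antisymm (h ▸ hLW P hP.1) zero_le)
        have hone : g (dL dsp P) / m (dL dsp P) + b (dL dsp P) / m (dL dsp P) = 1 := by
          rw [← ENNReal.add_div, ← hgb, ENNReal.div_self hm0 (hmt _)]
        calc LW Λ P * Φ (HT ht P) (dL dsp P)
            = LW Λ P * (g (dL dsp P) / m (dL dsp P) + b (dL dsp P) / m (dL dsp P))
                * Φ (HT ht P) (dL dsp P) := by rw [hone, mul_one]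
          _ = LW Λ P * (g (dL dsp P) / m (dL dsp P)) * Φ (HT ht P) (dL dsp P)
                + LW Λ P * (b (dL dsp P) / m (dL dsp P)) * Φ (HT ht P) (dL dsp P) := by ring
          _ ≤ LW Λ P * (g (dL dsp P) / m (dL dsp P)) * Φ (HT ht P) (dL dsp P)
                + LW Λ P * (b (dL dsp P) / m (dL dsp P)) * 1 := by
              gcongr
              exact hΦ1 _ _
          _ = _ := by rw [mul_one]
    · rw [if_neg hP]; exact zero_le
  have step2 : ∑' P, (if fp ht A P then LW Λ P * (b (dL dsp P) / m (dL dsp P)) else 0)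
      ≤ ∑' z, b z := by
    rw [sum_disp Λ ht dsp A (fun z => b z / m z)]
    exact ENNReal.tsum_le_tsum fun z => ENNReal.mul_div_le
  -- the weight of level `h`
  set ν : ℕ → G → ℝ≥0∞ := fun h z =>
    (∑' P, if fp ht A P ∧ HT ht P = h ∧ dL dsp P = z then LW Λ P else 0) * (g z / m z) with hν
  have hνg : ∀ h z, ν h z ≤ g z := by
    intro h z
    calc ν h z ≤ m z * (g z / m z) := by
          rw [hν]
          dsimp only
          gcongr
          rw [hm, mL]
          refine ENNReal.tsum_le_tsum fun P => ?_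
          by_cases hP : fp ht A P ∧ HT ht P = h ∧ dL dsp P = z
          · rw [if_pos hP, if_pos hP.1, if_pos hP.2.2, mul_one]
          · rw [if_neg hP]; exact zero_le
      _ ≤ g z := ENNReal.mul_div_le
  have step3 : ∑' P, (if fp ht A P ∧ HT ht P ≤ A + i0 then
          LW Λ P * (g (dL dsp P) / m (dL dsp P)) * Φ (HT ht P) (dL dsp P) else 0)
      ≤ ∑ h ∈ Finset.Icc A (A + i0), ∑' z, ν h z * Φ h z := by
    have e : ∀ h z, ν h z * Φ h z = ∑' P, (if fp ht A P ∧ HT ht P = h ∧ dL dsp P = z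
        then LW Λ P * (g z / m z) * Φ h z else 0) := by
      intro h z
      rw [hν]
      dsimp only
      rw [mul_assoc, ← ENNReal.tsum_mul_right]
      refine tsum_congr fun P => ?_
      split_ifs
      · rw [mul_assoc]
      · simp
    simp only [e]
    have e2 : ∑ h ∈ Finset.Icc A (A + i0), ∑' z, ∑' P, (if fp ht A P ∧ HT ht P = h ∧ dL dsp P = z
        then LW Λ P * (g z / m z) * Φ h z else 0)
        = ∑' P, ∑ h ∈ Finset.Icc A (A + i0), ∑' z, (if fp ht A P ∧ HT ht P = h ∧ dL dsp P = z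
        then LW Λ P * (g z / m z) * Φ h z else 0) := by
      rw [Summable.tsum_finsetSum (fun _ _ => ENNReal.summable)]
      exact Finset.sum_congr rfl fun h _ => ENNReal.tsum_comm
    rw [e2]
    refine ENNReal.tsum_le_tsum fun P => ?_
    by_cases hP : fp ht A P ∧ HT ht P ≤ A + i0
    · rw [if_pos hP]
      refine le_trans ?_ (Finset.single_le_sum (fun _ _ => zero_le)
        (Finset.mem_Icc.2 ⟨le_HT_of_fp ht hP.1, hP.2⟩))
      refine le_trans ?_ (ENNReal.le_tsum (dL dsp P))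
      rw [if_pos ⟨hP.1, rfl, rfl⟩]
    · rw [if_neg hP]; exact zero_le
  calc _ ≤ _ := ENNReal.tsum_le_tsum step1
    _ = _ := ENNReal.tsum_add
    _ ≤ (∑ h ∈ Finset.Icc A (A + i0), ∑' z, ν h z * Φ h z) + ∑' z, b z := add_le_add step3 step2
    _ ≤ (∑ _h ∈ Finset.Icc A (A + i0), Bd) + ∑' z, b z := by
        gcongr with h hh
        rw [Finset.mem_Icc] at hh
        refine hΦ h hh.1 hh.2 (ν h) ?_ (fun z => (hνg h z).trans (hg z))
        refine le_trans (ENNReal.tsum_le_tsum fun z => (hνg h z).trans ?_) hsum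
        rw [hgb]; exact le_self_add
    _ = _ := by
        rw [Finset.sum_const, Nat.card_Icc, nsmul_eq_mul]
        congr 2
        rw [show A + i0 + 1 - A = i0 + 1 by omega]
        push_cast
        rfl

/-- restricted first-passage weight -/
noncomputable def wF (A i0 : ℕ) (P : List B) : ℝ≥0∞ :=
  if fp ht A P ∧ HT ht P ≤ A + i0 then LW Λ P else 0

lemma sum_wF (h1 : ∀ b, 1 ≤ ht b) (hΛ : ∑' b, Λ b ≤ 1) (A i0 : ℕ) :
    ∑' P, wF Λ ht A i0 P ≤ 1 := by
  refine le_trans (ENNReal.tsum_le_tsum fun P => ?_) (sum_FP Λ ht h1 hΛ A)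
  rw [wF]
  split_ifs with h1 h2 h2
  · exact le_rfl
  · exact absurd h1.1 h2
  · exact zero_le
  · exact zero_le

/-- one first-passage decomposition with overshoot control -/
lemma dec1 (h1 : ∀ b, 1 ≤ ht b) (hU : ∀ n, U Λ ht n ≤ 1) (A i0 n : ℕ) (hn : A ≤ n) (ε : ℝ≥0∞)
    (hε : ∑' L, (if fp ht A L ∧ A + i0 < HT ht L then LW Λ L else 0) ≤ ε)
    (F : List B → ℝ≥0∞) (hF1 : ∀ L, F L ≤ 1) :
    ∑' L, (if HT ht L = n then LW Λ L * F L else 0)
      ≤ (∑' P, wF Λ ht A i0 P * ∑' R, (if HT ht R = n - HT ht P then LW Λ R * F (P ++ R) else 0))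
        + ε := by
  have e1 : ∑' L, (if HT ht L = n then LW Λ L * F L else 0)
      = ∑' L, (if A ≤ HT ht L then LW Λ L * (if HT ht L = n then F L else 0) else 0) := by
    refine tsum_congr fun L => ?_
    by_cases h : HT ht L = n
    · rw [if_pos h, if_pos (by omega), if_pos h]
    · rw [if_neg h]
      split_ifs <;> simp
  rw [e1, split Λ ht h1 A (fun L => if HT ht L = n then F L else 0)]
  have hin : ∀ P : List B, ∑' R, LW Λ R * (if HT ht (P ++ R) = n then F (P ++ R) else 0)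
      ≤ ∑' R, (if HT ht R = n - HT ht P then LW Λ R * F (P ++ R) else 0) := by
    intro P
    refine ENNReal.tsum_le_tsum fun R => ?_
    rw [HT_append]
    by_cases h : HT ht P + HT ht R = n
    · rw [if_pos h, if_pos (by omega)]
    · rw [if_neg h, mul_zero]; exact zero_le
  have hin1 : ∀ P : List B, ∑' R, (if HT ht R = n - HT ht P then LW Λ R * F (P ++ R) else 0) ≤ 1 := by
    intro P
    refine le_trans (ENNReal.tsum_le_tsum fun R => ?_) (hU (n - HT ht P))
    split_ifs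
    · exact mul_le_of_le_one_right zero_le (hF1 _)
    · exact le_rfl
  calc _ ≤ ∑' P, (wF Λ ht A i0 P * (∑' R, (if HT ht R = n - HT ht P
            then LW Λ R * F (P ++ R) else 0))
          + (if fp ht A P ∧ A + i0 < HT ht P then LW Λ P else 0)) := by
        refine ENNReal.tsum_le_tsum fun P => ?_
        by_cases hP : fp ht A P
        · rw [if_pos hP]
          by_cases ho : HT ht P ≤ A + i0
          · rw [wF, if_pos ⟨hP, ho⟩]
            exact le_trans (mul_le_mul_right (hin P) _) le_self_add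
          · rw [wF, if_neg (fun h => ho h.2), if_pos ⟨hP, by omega⟩, zero_mul, zero_add]
            exact mul_le_of_le_one_right zero_le ((hin P).trans (hin1 P))
        · rw [if_neg hP]; exact zero_le
    _ = _ := ENNReal.tsum_add
    _ ≤ _ := by gcongr

/-- two first-passage decompositions -/
theorem dec2 (h1 : ∀ b, 1 ≤ ht b) (hΛ : ∑' b, Λ b ≤ 1) (hU : ∀ n, U Λ ht n ≤ 1)
    (A H i0 n : ℕ) (hn : A + i0 + (H + i0) ≤ n) (ε : ℝ≥0∞)
    (hεA : ∑' L, (if fp ht A L ∧ A + i0 < HT ht L then LW Λ L else 0) ≤ ε)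
    (hεH : ∑' L, (if fp ht H L ∧ H + i0 < HT ht L then LW Λ L else 0) ≤ ε)
    (F : List B → ℝ≥0∞) (hF1 : ∀ L, F L ≤ 1) (F' : List B → List B → ℝ≥0∞)
    (hFF : ∀ P Q R, fp ht A P → HT ht P ≤ A + i0 → fp ht H Q → HT ht Q ≤ H + i0 →
      HT ht P + HT ht Q + HT ht R = n → F (P ++ (Q ++ R)) ≤ F' P Q) :
    ∑' L, (if HT ht L = n then LW Λ L * F L else 0)
      ≤ (∑' P, wF Λ ht A i0 P * ∑' Q, wF Λ ht H i0 Q * F' P Q) + 2 * ε := by
  refine (dec1 Λ ht h1 hU A i0 n (by omega) ε hεA F hF1).trans ?_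
  have key : ∀ P, wF Λ ht A i0 P * (∑' R, (if HT ht R = n - HT ht P
      then LW Λ R * F (P ++ R) else 0))
      ≤ wF Λ ht A i0 P * (∑' Q, wF Λ ht H i0 Q * F' P Q) + wF Λ ht A i0 P * ε := by
    intro P
    by_cases hP : fp ht A P ∧ HT ht P ≤ A + i0
    · rw [← mul_add]
      refine mul_le_mul_right ?_ _
      refine (dec1 Λ ht h1 hU H i0 (n - HT ht P) (by omega) ε hεH (fun R => F (P ++ R))
        (fun _ => hF1 _)).trans ?_
      refine add_le_add (ENNReal.tsum_le_tsum fun Q => ?_) le_rfl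
      by_cases hQ : fp ht H Q ∧ HT ht Q ≤ H + i0
      · refine mul_le_mul_right ?_ _
        have hA := le_HT_of_fp ht hP.1
        calc _ ≤ ∑' R, (if HT ht R = n - HT ht P - HT ht Q then LW Λ R * F' P Q else 0) := by
              refine ENNReal.tsum_le_tsum fun R => ?_
              by_cases hR : HT ht R = n - HT ht P - HT ht Q
              · rw [if_pos hR, if_pos hR]
                refine mul_le_mul_right ?_ _
                exact hFF P Q R hP.1 hP.2 hQ.1 hQ.2 (by omega)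
              · rw [if_neg hR, if_neg hR]
          _ = (∑' R, (if HT ht R = n - HT ht P - HT ht Q then LW Λ R else 0)) * F' P Q := by
              rw [← ENNReal.tsum_mul_right]
              refine tsum_congr fun R => ?_
              split_ifs <;> simp
          _ ≤ 1 * F' P Q := mul_le_mul_left (hU _) _
          _ = _ := one_mul _
      · simp only [wF, if_neg hQ, zero_mul, le_refl]
    · simp [wF, if_neg hP]
  calc _ ≤ (∑' P, (wF Λ ht A i0 P * (∑' Q, wF Λ ht H i0 Q * F' P Q) + wF Λ ht A i0 P * ε)) + ε := by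
        gcongr with P
        exact key P
    _ = (∑' P, wF Λ ht A i0 P * (∑' Q, wF Λ ht H i0 Q * F' P Q)) + (∑' P, wF Λ ht A i0 P) * ε + ε := by
        rw [ENNReal.tsum_add, ENNReal.tsum_mul_right]
    _ ≤ (∑' P, wF Λ ht A i0 P * (∑' Q, wF Λ ht H i0 Q * F' P Q)) + 1 * ε + ε := by
        gcongr
        exact sum_wF Λ ht h1 hΛ A i0
    _ = _ := by ring

end one

section two

variable {B G : Type*} [AddCommGroup G]

/-- sites (position, depth) read by a list of blocks with top at `x`, depth `a` -/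
def TX (h : B → ℕ) (z : B → G) (s : B → Set (G × ℕ)) : List B → G → ℕ → Set (G × ℕ)
  | [], _, _ => ∅
  | b :: L, x, a => {p | ∃ q ∈ s b, p = (x + q.1, a + q.2)} ∪ TX h z s L (x + z b) (a + h b)

variable (h : B → ℕ) (z : B → G) (s : B → Set (G × ℕ))

lemma TX_append (L L' : List B) (x : G) (a : ℕ) :
    TX h z s (L ++ L') x a = TX h z s L x a ∪ TX h z s L' (x + dL z L) (a + HT h L) := by
  induction L generalizing x a with
  | nil => simp [TX, dL_nil, HT_nil]
  | cons b L ih =>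
    rw [List.cons_append, TX, TX, ih, dL_cons, HT_cons, Set.union_assoc, add_assoc, add_assoc]

lemma TX_depth (hs : ∀ b q, q ∈ s b → 1 ≤ q.2 ∧ q.2 ≤ h b) (L : List B) (x : G) (a : ℕ)
    (p : G × ℕ) (hp : p ∈ TX h z s L x a) : a < p.2 ∧ p.2 ≤ a + HT h L := by
  induction L generalizing x a with
  | nil => exact absurd hp (by simp [TX])
  | cons b L ih =>
    rw [HT_cons]
    rcases hp with ⟨q, hq, rfl⟩ | hp
    · have := hs b q hq
      dsimp only
      omega
    · have := ih _ _ hp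
      omega

lemma TX_shift (L : List B) (x g : G) (a : ℕ) (y : G) (k : ℕ) :
    (y, k) ∈ TX h z s L (x + g) a ↔ (y - g, k) ∈ TX h z s L x a := by
  induction L generalizing x a with
  | nil => simp [TX]
  | cons b L ih =>
    rw [TX, TX, Set.mem_union, Set.mem_union, ← ih, show x + g + z b = x + z b + g by abel]
    refine or_congr ?_ Iff.rfl
    constructor
    · rintro ⟨q, hq, he⟩
      rw [Prod.mk.injEq] at he
      exact ⟨q, hq, by rw [Prod.mk.injEq]; exact ⟨by rw [he.1]; abel, he.2⟩⟩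
    · rintro ⟨q, hq, he⟩
      rw [Prod.mk.injEq] at he
      have h5 := he.1
      rw [sub_eq_iff_eq_add] at h5
      refine ⟨q, hq, ?_⟩
      rw [Prod.mk.injEq]
      exact ⟨by rw [h5]; abel, he.2⟩

/-- event for two site sets: contact at depth `≤ hi`, none above `lo`, none in `(hi, top]` -/
def EV (SX SY : Set (G × ℕ)) (lo hi top : ℕ) : Prop :=
  (∃ y k, (y, k) ∈ SX ∧ (y, k) ∈ SY ∧ k ≤ hi) ∧
  (∀ y k, (y, k) ∈ SX → (y, k) ∈ SY → lo ≤ k) ∧
  (∀ y k, (y, k) ∈ SX → (y, k) ∈ SY → k ≤ hi ∨ top < k)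

/-- contact, all in `[lo, hi]` -/
def CC (SX SY : Set (G × ℕ)) (lo hi : ℕ) : Prop :=
  (∃ y k, (y, k) ∈ SX ∧ (y, k) ∈ SY) ∧ ∀ y k, (y, k) ∈ SX → (y, k) ∈ SY → lo ≤ k ∧ k ≤ hi

lemma EV_comm {SX SY : Set (G × ℕ)} {lo hi top : ℕ} (hE : EV SX SY lo hi top) :
    EV SY SX lo hi top := by
  obtain ⟨⟨y, k, h1, h2, h3⟩, h4, h5⟩ := hE
  exact ⟨⟨y, k, h2, h1, h3⟩, fun y k a b => h4 y k b a, fun y k a b => h5 y k b a⟩

lemma EV_piece (hs : ∀ b q, q ∈ s b → 1 ≤ q.2 ∧ q.2 ≤ h b) (SY : Set (G × ℕ)) (x : G)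
    (P Q R : List B) (lo hi top : ℕ) (hP : HT h P < lo) (hQ : hi ≤ HT h P + HT h Q)
    (hE : EV (TX h z s (P ++ (Q ++ R)) x 0) SY lo hi top) :
    EV (TX h z s Q (x + dL z P) (HT h P)) SY lo hi top := by
  have hsub : TX h z s Q (x + dL z P) (HT h P) ⊆ TX h z s (P ++ (Q ++ R)) x 0 := by
    rw [TX_append, TX_append, zero_add]
    exact fun q hq => Or.inr (Or.inl hq)
  obtain ⟨⟨y, k, h1, h2, h3⟩, h4, h5⟩ := hE
  refine ⟨⟨y, k, ?_, h2, h3⟩, fun y k a b => h4 y k (hsub a) b, fun y k a b => h5 y k (hsub a) b⟩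
  have hlo := h4 y k h1 h2
  rw [TX_append, TX_append, zero_add] at h1
  rcases h1 with h1 | h1 | h1
  · have := TX_depth h z s hs _ _ _ _ h1
    dsimp only at this
    omega
  · exact h1
  · have := TX_depth h z s hs _ _ _ _ h1
    dsimp only at this
    omega

end two

section three

variable {BX BY G : Type*} [AddCommGroup G] (ΛX : BX → ℝ≥0∞) (hX : BX → ℕ) (zX : BX → G)
  (sX : BX → Set (G × ℕ)) (ΛY : BY → ℝ≥0∞) (hY : BY → ℕ) (zY : BY → G) (sY : BY → Set (G × ℕ))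

lemma EV_CC (hsX : ∀ b q, q ∈ sX b → 1 ≤ q.2 ∧ q.2 ≤ hX b) (Q : List BX) (Q' : List BY) (x x' : G)
    (a a' lo hi top : ℕ) (ht : a + HT hX Q ≤ top)
    (hE : EV (TX hX zX sX Q x a) (TX hY zY sY Q' x' a') lo hi top) :
    CC (TX hX zX sX Q 0 a) (TX hY zY sY Q' (x' - x) a') lo hi := by
  obtain ⟨⟨y, k, h1, h2, h3⟩, h4, h5⟩ := hE
  have e1 : ∀ y k, (y, k) ∈ TX hX zX sX Q 0 a ↔ (y + x, k) ∈ TX hX zX sX Q x a := by
    intro y k
    have := TX_shift hX zX sX Q 0 x a (y + x) k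
    rw [zero_add, add_sub_cancel_right] at this
    exact this.symm
  have e2 : ∀ y k, (y, k) ∈ TX hY zY sY Q' (x' - x) a' ↔ (y + x, k) ∈ TX hY zY sY Q' x' a' := by
    intro y k
    have := TX_shift hY zY sY Q' (x' - x) x a' (y + x) k
    rw [sub_add_cancel, add_sub_cancel_right] at this
    exact this.symm
  refine ⟨⟨y - x, k, (e1 _ _).2 (by rwa [sub_add_cancel]), (e2 _ _).2 (by rwa [sub_add_cancel])⟩,
    fun y k ha hb => ?_⟩
  rw [e1] at ha
  rw [e2] at hb
  refine ⟨h4 _ _ ha hb, ?_⟩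
  rcases h5 _ _ ha hb with h | h
  · exact h
  · have := TX_depth hX zX sX hsX _ _ _ _ ha
    dsimp only at this
    omega

/-- **window decomposition** -/
theorem win_dec (h1X : ∀ b, 1 ≤ hX b) (h1Y : ∀ b, 1 ≤ hY b)
    (hΛX : ∑' b, ΛX b ≤ 1) (hΛY : ∑' b, ΛY b ≤ 1)
    (hUX : ∀ n, U ΛX hX n ≤ 1) (hUY : ∀ n, U ΛY hY n ≤ 1)
    (hsX : ∀ b q, q ∈ sX b → 1 ≤ q.2 ∧ q.2 ≤ hX b) (hsY : ∀ b q, q ∈ sY b → 1 ≤ q.2 ∧ q.2 ≤ hY b)
    (A H B K i0 n lo hi top : ℕ) (hn : A + i0 + (H + i0) ≤ n) (hn' : B + i0 + (K + i0) ≤ n)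
    (hlo : A + i0 < lo) (hlo' : B + i0 < lo) (hhi : hi ≤ A + H) (hhi' : hi ≤ B + K)
    (ε : ℝ≥0∞)
    (hXA : ∑' L, (if fp hX A L ∧ A + i0 < HT hX L then LW ΛX L else 0) ≤ ε)
    (hXH : ∑' L, (if fp hX H L ∧ H + i0 < HT hX L then LW ΛX L else 0) ≤ ε)
    (hYA : ∑' L, (if fp hY B L ∧ B + i0 < HT hY L then LW ΛY L else 0) ≤ ε)
    (hYH : ∑' L, (if fp hY K L ∧ K + i0 < HT hY L then LW ΛY L else 0) ≤ ε) (w : G) :
    ∑' LX, (if HT hX LX = n then LW ΛX LX * ∑' LY, (if HT hY LY = n then LW ΛY LY *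
        (if EV (TX hX zX sX LX 0 0) (TX hY zY sY LY w 0) lo hi top then 1 else 0) else 0) else 0)
      ≤ (∑' P, wF ΛX hX A i0 P * ∑' Q, wF ΛX hX H i0 Q * ∑' P', wF ΛY hY B i0 P' *
          ∑' Q', wF ΛY hY K i0 Q' * (if EV (TX hX zX sX Q (0 + dL zX P) (HT hX P))
            (TX hY zY sY Q' (w + dL zY P') (HT hY P')) lo hi top then 1 else 0))
        + 4 * ε := by
  have hin : ∀ LX, ∑' LY, (if HT hY LY = n then LW ΛY LY *
        (if EV (TX hX zX sX LX 0 0) (TX hY zY sY LY w 0) lo hi top then (1:ℝ≥0∞) else 0) else 0)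
        ≤ 1 := by
    intro LX
    refine le_trans (ENNReal.tsum_le_tsum fun LY => ?_) (hUY n)
    split_ifs <;> simp
  refine (dec2 ΛX hX h1X hΛX hUX A H i0 n hn ε hXA hXH _ hin
    (fun P Q => (∑' P', wF ΛY hY B i0 P' *
          ∑' Q', wF ΛY hY K i0 Q' * (if EV (TX hX zX sX Q (0 + dL zX P) (HT hX P))
            (TX hY zY sY Q' (w + dL zY P') (HT hY P')) lo hi top then 1 else 0)) + 2 * ε) ?_).trans ?_
  · intro P Q R hP hP' hQ hQ' _
    refine dec2 ΛY hY h1Y hΛY hUY B K i0 n hn' ε hYA hYH _ (fun LY => by split_ifs <;> simp) _ ?_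
    intro P1 Q1 R1 hP1 hP1' hQ1 hQ1' _
    by_cases hE : EV (TX hX zX sX (P ++ (Q ++ R)) 0 0)
        (TX hY zY sY (P1 ++ (Q1 ++ R1)) w 0) lo hi top
    · have a1 := le_HT_of_fp hX hP
      have a2 := le_HT_of_fp hX hQ
      have a3 := le_HT_of_fp hY hP1
      have a4 := le_HT_of_fp hY hQ1
      have e1 := EV_piece hX zX sX hsX _ 0 P Q R lo hi top (by omega) (by omega) hE
      have e2 := EV_piece hY zY sY hsY _ w P1 Q1 R1 lo hi top (by omega) (by omega) (EV_comm e1)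
      rw [if_pos hE, if_pos (EV_comm e2)]
    · rw [if_neg hE]; exact zero_le
  · have : ∀ P, ∑' Q, wF ΛX hX H i0 Q * ((∑' P', wF ΛY hY B i0 P' *
          ∑' Q', wF ΛY hY K i0 Q' * (if EV (TX hX zX sX Q (0 + dL zX P) (HT hX P))
            (TX hY zY sY Q' (w + dL zY P') (HT hY P')) lo hi top then (1:ℝ≥0∞) else 0)) + 2 * ε)
        ≤ (∑' Q, wF ΛX hX H i0 Q * (∑' P', wF ΛY hY B i0 P' *
          ∑' Q', wF ΛY hY K i0 Q' * (if EV (TX hX zX sX Q (0 + dL zX P) (HT hX P))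
            (TX hY zY sY Q' (w + dL zY P') (HT hY P')) lo hi top then (1:ℝ≥0∞) else 0))) + 2 * ε := by
      intro P
      simp only [mul_add]
      rw [ENNReal.tsum_add]
      refine add_le_add le_rfl ?_
      rw [ENNReal.tsum_mul_right]
      exact mul_le_of_le_one_left zero_le (sum_wF ΛX hX h1X hΛX H i0)
    calc _ ≤ (∑' P, wF ΛX hX A i0 P * ((∑' Q, wF ΛX hX H i0 Q * (∑' P', wF ΛY hY B i0 P' *
          ∑' Q', wF ΛY hY K i0 Q' * (if EV (TX hX zX sX Q (0 + dL zX P) (HT hX P))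
            (TX hY zY sY Q' (w + dL zY P') (HT hY P')) lo hi top then (1:ℝ≥0∞) else 0))) + 2 * ε))
            + 2 * ε := by
          refine add_le_add (ENNReal.tsum_le_tsum fun P => ?_) le_rfl
          exact mul_le_mul_right (this P) _
      _ ≤ _ := by
          simp only [mul_add]
          rw [ENNReal.tsum_add]
          have : ∑' P, wF ΛX hX A i0 P * (2 * ε) ≤ 2 * ε := by
            rw [ENNReal.tsum_mul_right]
            exact mul_le_of_le_one_left zero_le (sum_wF ΛX hX h1X hΛX A i0)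
          calc _ ≤ _ := add_le_add (add_le_add le_rfl this) le_rfl
            _ = _ := by ring

/-- pieces by heights -/
lemma phi_le (hsX : ∀ b q, q ∈ sX b → 1 ≤ q.2 ∧ q.2 ≤ hX b) (SX : List BX → Prop)
    (SY : List BY → Prop) (x x' : G) (a a' H K i0 lo hi top : ℕ) (ht : a + (H + i0) ≤ top) :
    ∑' Q, wF ΛX hX H i0 Q * ((if SX Q then 1 else 0) * ∑' Q', wF ΛY hY K i0 Q' *
        ((if SY Q' then 1 else 0) * (if EV (TX hX zX sX Q x a)
            (TX hY zY sY Q' x' a') lo hi top then 1 else 0)))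
      ≤ ∑ hq ∈ Finset.Icc H (H + i0), ∑ hq' ∈ Finset.Icc K (K + i0), ∑' Q, ∑' Q',
        (if HT hX Q = hq ∧ SX Q ∧ HT hY Q' = hq' ∧ SY Q' ∧
          CC (TX hX zX sX Q 0 a) (TX hY zY sY Q' (x' - x) a') lo hi
          then LW ΛX Q * LW ΛY Q' else 0) := by
  have e2 : ∑ hq ∈ Finset.Icc H (H + i0), ∑ hq' ∈ Finset.Icc K (K + i0), ∑' Q, ∑' Q',
        (if HT hX Q = hq ∧ SX Q ∧ HT hY Q' = hq' ∧ SY Q' ∧
          CC (TX hX zX sX Q 0 a) (TX hY zY sY Q' (x' - x) a') lo hi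
          then LW ΛX Q * LW ΛY Q' else 0)
      = ∑' Q, ∑' Q', ∑ hq ∈ Finset.Icc H (H + i0), ∑ hq' ∈ Finset.Icc K (K + i0),
        (if HT hX Q = hq ∧ SX Q ∧ HT hY Q' = hq' ∧ SY Q' ∧
          CC (TX hX zX sX Q 0 a) (TX hY zY sY Q' (x' - x) a') lo hi
          then LW ΛX Q * LW ΛY Q' else 0) := by
    have e3 : ∀ Q, ∑' Q', ∑ hq ∈ Finset.Icc H (H + i0), ∑ hq' ∈ Finset.Icc K (K + i0),
        (if HT hX Q = hq ∧ SX Q ∧ HT hY Q' = hq' ∧ SY Q' ∧
          CC (TX hX zX sX Q 0 a) (TX hY zY sY Q' (x' - x) a') lo hi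
          then LW ΛX Q * LW ΛY Q' else 0)
        = ∑ hq ∈ Finset.Icc H (H + i0), ∑ hq' ∈ Finset.Icc K (K + i0), ∑' Q',
        (if HT hX Q = hq ∧ SX Q ∧ HT hY Q' = hq' ∧ SY Q' ∧
          CC (TX hX zX sX Q 0 a) (TX hY zY sY Q' (x' - x) a') lo hi
          then LW ΛX Q * LW ΛY Q' else 0) := by
      intro Q
      rw [Summable.tsum_finsetSum (fun _ _ => ENNReal.summable)]
      refine Finset.sum_congr rfl fun hq _ => ?_
      rw [Summable.tsum_finsetSum (fun _ _ => ENNReal.summable)]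
    simp only [e3]
    rw [Summable.tsum_finsetSum (fun _ _ => ENNReal.summable)]
    refine Finset.sum_congr rfl fun hq _ => ?_
    rw [Summable.tsum_finsetSum (fun _ _ => ENNReal.summable)]
  rw [e2]
  refine ENNReal.tsum_le_tsum fun Q => ?_
  rw [← mul_assoc, ← ENNReal.tsum_mul_left]
  refine ENNReal.tsum_le_tsum fun Q' => ?_
  by_cases hc : (fp hX H Q ∧ HT hX Q ≤ H + i0) ∧ SX Q ∧ (fp hY K Q' ∧ HT hY Q' ≤ K + i0) ∧ SY Q' ∧
      EV (TX hX zX sX Q x a) (TX hY zY sY Q' x' a') lo hi top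
  · obtain ⟨c1, c2, c3, c4, c5⟩ := hc
    have hcc := EV_CC hX zX sX hY zY sY hsX Q Q' x x' a a' lo hi top (by omega) c5
    rw [wF, if_pos c1, if_pos c2, wF, if_pos c3, if_pos c4, if_pos c5, mul_one, mul_one, mul_one]
    refine le_trans ?_ (Finset.single_le_sum (fun _ _ => zero_le)
      (Finset.mem_Icc.2 ⟨le_HT_of_fp hX c1.1, c1.2⟩))
    refine le_trans ?_ (Finset.single_le_sum (fun _ _ => zero_le)
      (Finset.mem_Icc.2 ⟨le_HT_of_fp hY c3.1, c3.2⟩))
    rw [if_pos ⟨rfl, c2, rfl, c4, hcc⟩]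
  · have : wF ΛX hX H i0 Q * (if SX Q then 1 else 0) * (wF ΛY hY K i0 Q' *
        ((if SY Q' then 1 else 0) * (if EV (TX hX zX sX Q x a)
            (TX hY zY sY Q' x' a') lo hi top then 1 else 0))) = 0 := by
      rw [wF, wF]
      by_contra h0
      apply hc
      refine ⟨?_, ?_, ?_, ?_, ?_⟩ <;> by_contra h9 <;> apply h0 <;> rw [if_neg h9] <;> simp
    rw [this]; exact zero_le

/-- the level set as a finset -/
lemma level_finset (p : G → ℝ≥0∞) (hp : ∑' z, p z ≤ 1) (th : ℝ≥0∞) (hth : th ≠ 0) :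
    ∃ E : Finset G, (∀ z, z ∈ E ↔ th ≤ p z) ∧ (E.card : ℝ≥0∞) * th ≤ 1 := by
  have hfin : {z | th ≤ p z}.Finite :=
    ENNReal.finite_const_le_of_tsum_ne_top (ne_top_of_le_ne_top ENNReal.one_ne_top hp) hth
  refine ⟨hfin.toFinset, fun z => by simp, ?_⟩
  calc ((hfin.toFinset.card : ℕ) : ℝ≥0∞) * th = ∑ _i ∈ hfin.toFinset, th := by
        rw [Finset.sum_const, nsmul_eq_mul]
    _ ≤ ∑ i ∈ hfin.toFinset, p i :=
        Finset.sum_le_sum fun i hi => by simpa using (hfin.mem_toFinset.1 hi)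
    _ ≤ ∑' i, p i := ENNReal.sum_le_tsum _
    _ ≤ 1 := hp

/-- the window hypothesis (weakest form), X local if `bX`, Y local otherwise -/
def KW (bX : Bool) (C : ℝ≥0∞) (us : ℕ → ℝ≥0∞) : Prop :=
  ∀ (s a a' hq hq' lo hi : ℕ) (E : Finset G) (μ : G → ℝ≥0∞) (M lam : ℝ≥0∞),
    ∑' x, μ x ≤ 1 → (∀ x, μ x ≤ M) → lam ≠ 0 → lam ≠ ⊤ → a + s ≤ lo → a' + s ≤ lo →
    hi + s ≤ a + hq → hi + s ≤ a' + hq' → a ≤ a' → a + hq ≤ a' + hq' →
    ∑' x, μ x * ∑' L, ∑' L', (if HT hX L = hq ∧ (bX = true → dL zX L ∈ E) ∧ HT hY L' = hq' ∧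
        (bX = false → dL zY L' ∈ E) ∧ CC (TX hX zX sX L 0 a) (TX hY zY sY L' x a') lo hi
        then LW ΛX L * LW ΛY L' else 0) ≤ C * (lam + M * E.card * us s / lam + us s)

/-- bound for one term of the window, X side local -/
theorem termX (h1X : ∀ b, 1 ≤ hX b) (hΛX : ∑' b, ΛX b ≤ 1)
    (h1Y : ∀ b, 1 ≤ hY b) (hΛY : ∑' b, ΛY b ≤ 1)
    (hsX : ∀ b q, q ∈ sX b → 1 ≤ q.2 ∧ q.2 ≤ hX b) {C : ℝ≥0∞} {us : ℕ → ℝ≥0∞}
    (hK : KW ΛX hX zX sX ΛY hY zY sY true C us)
    (A H i0 s lo hi top : ℕ) (hlo : A + 2 * i0 + s ≤ lo) (hhi : hi + s ≤ A + H)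
    (htop : A + i0 + (H + i0) ≤ top) (w : G) (th M lam : ℝ≥0∞) (hth : th ≠ 0)
    (hlam : lam ≠ 0) (hlam' : lam ≠ ⊤) (g b : G → ℝ≥0∞)
    (hgb : ∀ z, mL ΛX hX zX A z = g z + b z) (hg : ∀ z, g z ≤ M) :
    ∑' P', wF ΛY hY (A + i0) i0 P' * ∑' P, wF ΛX hX A i0 P * ∑' Q, wF ΛX hX H i0 Q *
        ((if th ≤ pL ΛX hX zX H (HT hX Q - H) (dL zX Q) then 1 else 0) *
        ∑' Q', wF ΛY hY (H + i0) i0 Q' * (if EV (TX hX zX sX Q (0 + dL zX P) (HT hX P))
            (TX hY zY sY Q' (w + dL zY P') (HT hY P')) lo hi top then 1 else 0))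
      ≤ (i0 + 1) * ((i0 + 1) * ((i0 + 1) * (C * (lam + M / th * us s / lam + us s))))
        + ∑' z, b z := by
  set Bd := C * (lam + M / th * us s / lam + us s) with hBd
  have key : ∀ P', wF ΛY hY (A + i0) i0 P' * (∑' P, wF ΛX hX A i0 P * ∑' Q, wF ΛX hX H i0 Q *
        ((if th ≤ pL ΛX hX zX H (HT hX Q - H) (dL zX Q) then 1 else 0) *
        ∑' Q', wF ΛY hY (H + i0) i0 Q' * (if EV (TX hX zX sX Q (0 + dL zX P) (HT hX P))
            (TX hY zY sY Q' (w + dL zY P') (HT hY P')) lo hi top then 1 else 0)))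
      ≤ wF ΛY hY (A + i0) i0 P' * ((i0 + 1) * ((i0 + 1) * ((i0 + 1) * Bd)) + ∑' z, b z) := by
    intro P'
    by_cases hP' : fp hY (A + i0) P' ∧ HT hY P' ≤ A + i0 + i0
    swap
    · simp [wF, if_neg hP']
    refine mul_le_mul_right ?_ _
    have hP1 := le_HT_of_fp hY hP'.1
    have hP2 := hP'.2
    set Φ : ℕ → G → ℝ≥0∞ := fun h z => ∑' Q, wF ΛX hX H i0 Q *
        ((if th ≤ pL ΛX hX zX H (HT hX Q - H) (dL zX Q) then 1 else 0) *
        ∑' Q', wF ΛY hY (H + i0) i0 Q' * (if EV (TX hX zX sX Q (0 + z) h)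
            (TX hY zY sY Q' (w + dL zY P') (HT hY P')) lo hi top then 1 else 0)) with hΦ
    have hΦ1 : ∀ h z, Φ h z ≤ 1 := by
      intro h z
      refine le_trans (ENNReal.tsum_le_tsum fun Q => ?_) (sum_wF ΛX hX h1X hΛX H i0)
      refine mul_le_of_le_one_right zero_le ?_
      refine mul_le_one' (by split_ifs <;> simp) ?_
      refine le_trans (ENNReal.tsum_le_tsum fun Q' => ?_) (sum_wF ΛY hY h1Y hΛY (H + i0) i0)
      exact mul_le_of_le_one_right zero_le (by split_ifs <;> simp)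
    have hmain := smooth_sum ΛX hX zX h1X hΛX A i0 g b hgb M hg Φ hΦ1
      ((i0 + 1) * ((i0 + 1) * Bd)) ?_
    · refine le_trans (le_of_eq (tsum_congr fun P => ?_)) hmain
      rw [wF]
      split_ifs
      · rfl
      · rw [zero_mul]
    · intro h hh1 hh2 μ hμ1 hμM
      -- the level sets
      have hpsum : ∀ i, ∑' z, pL ΛX hX zX H i z ≤ 1 := by
        intro i
        refine le_trans (ENNReal.tsum_le_tsum fun z => ?_) (sum_mL ΛX hX zX h1X hΛX H)
        rw [pL, mL]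
        refine ENNReal.tsum_le_tsum fun L => ?_
        by_cases hL : fp hX H L
        · rw [if_pos hL, if_pos hL]
          refine mul_le_mul_right ?_ _
          by_cases hz : dL zX L = z
          · rw [if_pos hz]; split_ifs <;> simp
          · rw [if_neg hz, if_neg (fun hh => hz hh.2)]
        · rw [if_neg hL]; exact zero_le
      choose Es hEs hEc using fun i => level_finset (fun z => pL ΛX hX zX H i z) (hpsum i) th hth
      calc ∑' z, μ z * Φ h z
          ≤ ∑' z, μ z * (∑ hq ∈ Finset.Icc H (H + i0), ∑ hq' ∈ Finset.Icc (H + i0) (H + i0 + i0),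
              ∑' Q, ∑' Q', (if HT hX Q = hq ∧ (true = true → dL zX Q ∈ Es (hq - H)) ∧
                HT hY Q' = hq' ∧ (true = false → dL zY Q' ∈ Es (hq - H)) ∧
                CC (TX hX zX sX Q 0 h) (TX hY zY sY Q' ((w + dL zY P') - z) (HT hY P')) lo hi
                then LW ΛX Q * LW ΛY Q' else 0)) := by
            refine ENNReal.tsum_le_tsum fun z => mul_le_mul_right ?_ _
            have := phi_le ΛX hX zX sX ΛY hY zY sY hsX
              (fun Q => th ≤ pL ΛX hX zX H (HT hX Q - H) (dL zX Q)) (fun _ => True) (0 + z)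
              (w + dL zY P') h (HT hY P') H (H + i0) i0 lo hi top (by omega)
            simp only [if_true, one_mul] at this
            refine le_trans (le_of_eq ?_) (le_trans this ?_)
            · rw [hΦ]
              dsimp only
              refine tsum_congr fun Q => ?_
              congr!
            refine Finset.sum_le_sum fun hq _ => Finset.sum_le_sum fun hq' _ => ?_
            refine ENNReal.tsum_le_tsum fun Q => ENNReal.tsum_le_tsum fun Q' => ?_
            by_cases hc : HT hX Q = hq ∧ th ≤ pL ΛX hX zX H (HT hX Q - H) (dL zX Q) ∧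
                HT hY Q' = hq' ∧ True ∧
                CC (TX hX zX sX Q 0 h) (TX hY zY sY Q' (w + dL zY P' - (0 + z)) (HT hY P')) lo hi
            · obtain ⟨c1, c2, c3, -, c5⟩ := hc
              rw [if_pos ⟨c1, c2, c3, trivial, c5⟩, if_pos ⟨c1, fun _ => (hEs _ _).2 (c1 ▸ c2), c3,
                fun hh => by simp at hh, by rwa [zero_add] at c5⟩]
            · rw [if_neg hc]; exact zero_le
        _ = ∑ hq ∈ Finset.Icc H (H + i0), ∑ hq' ∈ Finset.Icc (H + i0) (H + i0 + i0),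
              ∑' x, μ ((w + dL zY P') - x) *
              ∑' Q, ∑' Q', (if HT hX Q = hq ∧ (true = true → dL zX Q ∈ Es (hq - H)) ∧
                HT hY Q' = hq' ∧ (true = false → dL zY Q' ∈ Es (hq - H)) ∧
                CC (TX hX zX sX Q 0 h) (TX hY zY sY Q' x (HT hY P')) lo hi
                then LW ΛX Q * LW ΛY Q' else 0) := by
            simp only [Finset.mul_sum]
            rw [Summable.tsum_finsetSum (fun _ _ => ENNReal.summable)]
            refine Finset.sum_congr rfl fun hq _ => ?_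
            rw [Summable.tsum_finsetSum (fun _ _ => ENNReal.summable)]
            refine Finset.sum_congr rfl fun hq' _ => ?_
            rw [← (Equiv.subLeft (w + dL zY P')).tsum_eq]
            refine tsum_congr fun x => ?_
            simp only [Equiv.subLeft_apply, sub_sub_cancel]
        _ ≤ ∑ hq ∈ Finset.Icc H (H + i0), ∑ hq' ∈ Finset.Icc (H + i0) (H + i0 + i0), Bd := by
            refine Finset.sum_le_sum fun hq hhq => Finset.sum_le_sum fun hq' hhq' => ?_
            rw [Finset.mem_Icc] at hhq hhq'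
            refine (hK s h (HT hY P') hq hq' lo hi (Es (hq - H))
              (fun x => μ ((w + dL zY P') - x)) M lam ?_ (fun x => hμM _) hlam hlam' (by omega)
              (by omega) (by omega) (by omega) (by omega) (by omega)).trans ?_
            · exact ((Equiv.subLeft (w + dL zY P')).tsum_eq μ).le.trans hμ1
            · rw [hBd]
              have : M * (Es (hq - H)).card ≤ M / th := by
                rw [ENNReal.div_eq_inv_mul, mul_comm]
                refine mul_le_mul_left ?_ _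
                rw [ENNReal.le_inv_iff_mul_le]
                exact hEc _
              gcongr
        _ = _ := by
            simp only [Finset.sum_const, Nat.card_Icc, nsmul_eq_mul]
            rw [show H + i0 + 1 - H = i0 + 1 by omega,
              show H + i0 + i0 + 1 - (H + i0) = i0 + 1 by omega]
            push_cast
            rfl
  refine (ENNReal.tsum_le_tsum key).trans ?_
  rw [ENNReal.tsum_mul_right]
  exact mul_le_of_le_one_left zero_le (sum_wF ΛY hY h1Y hΛY (A + i0) i0)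

/-- bound for one term of the window, Y side local -/
theorem termY (h1X : ∀ b, 1 ≤ hX b) (hΛX : ∑' b, ΛX b ≤ 1)
    (h1Y : ∀ b, 1 ≤ hY b) (hΛY : ∑' b, ΛY b ≤ 1)
    (hsX : ∀ b q, q ∈ sX b → 1 ≤ q.2 ∧ q.2 ≤ hX b) {C : ℝ≥0∞} {us : ℕ → ℝ≥0∞}
    (hK : KW ΛX hX zX sX ΛY hY zY sY false C us)
    (A H i0 s lo hi top : ℕ) (hlo : A + 2 * i0 + s ≤ lo) (hhi : hi + s ≤ A + H)
    (htop : A + i0 + (H + i0) ≤ top) (w : G) (th M lam : ℝ≥0∞) (hth : th ≠ 0)
    (hlam : lam ≠ 0) (hlam' : lam ≠ ⊤) (g b : G → ℝ≥0∞)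
    (hgb : ∀ z, mL ΛY hY zY (A + i0) z = g z + b z) (hg : ∀ z, g z ≤ M) :
    ∑' P, wF ΛX hX A i0 P * ∑' P', wF ΛY hY (A + i0) i0 P' * ∑' Q, wF ΛX hX H i0 Q *
        ∑' Q', wF ΛY hY (H + i0) i0 Q' *
          ((if th ≤ pL ΛY hY zY (H + i0) (HT hY Q' - (H + i0)) (dL zY Q') then 1 else 0) *
            (if EV (TX hX zX sX Q (0 + dL zX P) (HT hX P))
            (TX hY zY sY Q' (w + dL zY P') (HT hY P')) lo hi top then 1 else 0))
      ≤ (i0 + 1) * ((i0 + 1) * ((i0 + 1) * (C * (lam + M / th * us s / lam + us s))))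
        + ∑' z, b z := by
  set Bd := C * (lam + M / th * us s / lam + us s) with hBd
  have key : ∀ P, wF ΛX hX A i0 P * (∑' P', wF ΛY hY (A + i0) i0 P' * ∑' Q, wF ΛX hX H i0 Q *
        ∑' Q', wF ΛY hY (H + i0) i0 Q' *
          ((if th ≤ pL ΛY hY zY (H + i0) (HT hY Q' - (H + i0)) (dL zY Q') then 1 else 0) *
            (if EV (TX hX zX sX Q (0 + dL zX P) (HT hX P))
            (TX hY zY sY Q' (w + dL zY P') (HT hY P')) lo hi top then 1 else 0)))
      ≤ wF ΛX hX A i0 P * ((i0 + 1) * ((i0 + 1) * ((i0 + 1) * Bd)) + ∑' z, b z) := by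
    intro P
    by_cases hP' : fp hX A P ∧ HT hX P ≤ A + i0
    swap
    · simp [wF, if_neg hP']
    refine mul_le_mul_right ?_ _
    have hP1 := le_HT_of_fp hX hP'.1
    have hP2 := hP'.2
    set Φ : ℕ → G → ℝ≥0∞ := fun h z => ∑' Q, wF ΛX hX H i0 Q *
        ∑' Q', wF ΛY hY (H + i0) i0 Q' *
          ((if th ≤ pL ΛY hY zY (H + i0) (HT hY Q' - (H + i0)) (dL zY Q') then 1 else 0) *
            (if EV (TX hX zX sX Q (0 + dL zX P) (HT hX P))
            (TX hY zY sY Q' (w + z) h) lo hi top then 1 else 0)) with hΦ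
    have hΦ1 : ∀ h z, Φ h z ≤ 1 := by
      intro h z
      refine le_trans (ENNReal.tsum_le_tsum fun Q => ?_) (sum_wF ΛX hX h1X hΛX H i0)
      refine mul_le_of_le_one_right zero_le ?_
      refine le_trans (ENNReal.tsum_le_tsum fun Q' => ?_) (sum_wF ΛY hY h1Y hΛY (H + i0) i0)
      refine mul_le_of_le_one_right zero_le ?_
      exact mul_le_one' (by split_ifs <;> simp) (by split_ifs <;> simp)
    have hmain := smooth_sum ΛY hY zY h1Y hΛY (A + i0) i0 g b hgb M hg Φ hΦ1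
      ((i0 + 1) * ((i0 + 1) * Bd)) ?_
    · refine le_trans (le_of_eq (tsum_congr fun P' => ?_)) hmain
      rw [wF]
      split_ifs
      · rfl
      · rw [zero_mul]
    · intro h hh1 hh2 μ hμ1 hμM
      -- the level sets
      have hpsum : ∀ i, ∑' z, pL ΛY hY zY (H + i0) i z ≤ 1 := by
        intro i
        refine le_trans (ENNReal.tsum_le_tsum fun z => ?_) (sum_mL ΛY hY zY h1Y hΛY (H + i0))
        rw [pL, mL]
        refine ENNReal.tsum_le_tsum fun L => ?_
        by_cases hL : fp hY (H + i0) L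
        · rw [if_pos hL, if_pos hL]
          refine mul_le_mul_right ?_ _
          by_cases hz : dL zY L = z
          · rw [if_pos hz]; split_ifs <;> simp
          · rw [if_neg hz, if_neg (fun hh => hz hh.2)]
        · rw [if_neg hL]; exact zero_le
      choose Es hEs hEc using fun i => level_finset (fun z => pL ΛY hY zY (H + i0) i z)
        (hpsum i) th hth
      calc ∑' z, μ z * Φ h z
          ≤ ∑' z, μ z * (∑ hq ∈ Finset.Icc H (H + i0), ∑ hq' ∈ Finset.Icc (H + i0) (H + i0 + i0),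
              ∑' Q, ∑' Q', (if HT hX Q = hq ∧ (false = true → dL zX Q ∈ Es (hq' - (H + i0))) ∧
                HT hY Q' = hq' ∧ (false = false → dL zY Q' ∈ Es (hq' - (H + i0))) ∧
                CC (TX hX zX sX Q 0 (HT hX P)) (TX hY zY sY Q' (z - (dL zX P - w)) h) lo hi
                then LW ΛX Q * LW ΛY Q' else 0)) := by
            refine ENNReal.tsum_le_tsum fun z => mul_le_mul_right ?_ _
            have := phi_le ΛX hX zX sX ΛY hY zY sY hsX (fun _ => True)
              (fun Q' => th ≤ pL ΛY hY zY (H + i0) (HT hY Q' - (H + i0)) (dL zY Q')) (0 + dL zX P)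
              (w + z) (HT hX P) h H (H + i0) i0 lo hi top (by omega)
            simp only [if_true, one_mul] at this
            refine le_trans (le_of_eq ?_) (le_trans this ?_)
            · rw [hΦ]
              dsimp only
              refine tsum_congr fun Q => ?_
              congr!
            refine Finset.sum_le_sum fun hq _ => Finset.sum_le_sum fun hq' _ => ?_
            refine ENNReal.tsum_le_tsum fun Q => ENNReal.tsum_le_tsum fun Q' => ?_
            by_cases hc : HT hX Q = hq ∧ True ∧ HT hY Q' = hq' ∧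
                th ≤ pL ΛY hY zY (H + i0) (HT hY Q' - (H + i0)) (dL zY Q') ∧
                CC (TX hX zX sX Q 0 (HT hX P)) (TX hY zY sY Q' (w + z - (0 + dL zX P)) h) lo hi
            · obtain ⟨c1, -, c3, c4, c5⟩ := hc
              have e5 : w + z - (0 + dL zX P) = z - (dL zX P - w) := by abel
              rw [if_pos ⟨c1, trivial, c3, c4, c5⟩, if_pos ⟨c1, fun hh => by simp at hh, c3,
                fun _ => (hEs _ _).2 (c3 ▸ c4), by rwa [e5] at c5⟩]
            · rw [if_neg hc]; exact zero_le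
        _ = ∑ hq ∈ Finset.Icc H (H + i0), ∑ hq' ∈ Finset.Icc (H + i0) (H + i0 + i0),
              ∑' x, μ (x + (dL zX P - w)) *
              ∑' Q, ∑' Q', (if HT hX Q = hq ∧ (false = true → dL zX Q ∈ Es (hq' - (H + i0))) ∧
                HT hY Q' = hq' ∧ (false = false → dL zY Q' ∈ Es (hq' - (H + i0))) ∧
                CC (TX hX zX sX Q 0 (HT hX P)) (TX hY zY sY Q' x h) lo hi
                then LW ΛX Q * LW ΛY Q' else 0) := by
            simp only [Finset.mul_sum]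
            rw [Summable.tsum_finsetSum (fun _ _ => ENNReal.summable)]
            refine Finset.sum_congr rfl fun hq _ => ?_
            rw [Summable.tsum_finsetSum (fun _ _ => ENNReal.summable)]
            refine Finset.sum_congr rfl fun hq' _ => ?_
            rw [← (Equiv.addRight (dL zX P - w)).tsum_eq]
            refine tsum_congr fun x => ?_
            simp only [Equiv.coe_addRight, add_sub_cancel_right]
        _ ≤ ∑ hq ∈ Finset.Icc H (H + i0), ∑ hq' ∈ Finset.Icc (H + i0) (H + i0 + i0), Bd := by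
            refine Finset.sum_le_sum fun hq hhq => Finset.sum_le_sum fun hq' hhq' => ?_
            rw [Finset.mem_Icc] at hhq hhq'
            refine (hK s (HT hX P) h hq hq' lo hi (Es (hq' - (H + i0)))
              (fun x => μ (x + (dL zX P - w))) M lam ?_ (fun x => hμM _) hlam hlam' (by omega)
              (by omega) (by omega) (by omega) (by omega) (by omega)).trans ?_
            · exact ((Equiv.addRight (dL zX P - w)).tsum_eq μ).le.trans hμ1
            · rw [hBd]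
              have : M * (Es (hq' - (H + i0))).card ≤ M / th := by
                rw [ENNReal.div_eq_inv_mul, mul_comm]
                refine mul_le_mul_left ?_ _
                rw [ENNReal.le_inv_iff_mul_le]
                exact hEc _
              gcongr
        _ = _ := by
            simp only [Finset.sum_const, Nat.card_Icc, nsmul_eq_mul]
            rw [show H + i0 + 1 - H = i0 + 1 by omega,
              show H + i0 + i0 + 1 - (H + i0) = i0 + 1 by omega]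
            push_cast
            rfl
  refine (ENNReal.tsum_le_tsum key).trans ?_
  rw [ENNReal.tsum_mul_right]
  exact mul_le_of_le_one_left zero_le (sum_wF ΛX hX h1X hΛX A i0)

end three

section four

variable {α β γ δ : Type*}

/-- fourfold weighted sum -/
noncomputable def F4 (w1 : α → ℝ≥0∞) (w2 : β → ℝ≥0∞) (w3 : γ → ℝ≥0∞) (w4 : δ → ℝ≥0∞)
    (e : α → β → γ → δ → ℝ≥0∞) : ℝ≥0∞ :=
  ∑' a, w1 a * ∑' b, w2 b * ∑' c, w3 c * ∑' d, w4 d * e a b c d

variable (w1 : α → ℝ≥0∞) (w2 : β → ℝ≥0∞) (w3 : γ → ℝ≥0∞) (w4 : δ → ℝ≥0∞)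

lemma F4_mono {e e' : α → β → γ → δ → ℝ≥0∞} (h : ∀ a b c d, e a b c d ≤ e' a b c d) :
    F4 w1 w2 w3 w4 e ≤ F4 w1 w2 w3 w4 e' := by
  refine ENNReal.tsum_le_tsum fun a => mul_le_mul_right ?_ _
  refine ENNReal.tsum_le_tsum fun b => mul_le_mul_right ?_ _
  refine ENNReal.tsum_le_tsum fun c => mul_le_mul_right ?_ _
  refine ENNReal.tsum_le_tsum fun d => mul_le_mul_right (h a b c d) _

lemma F4_add (e e' : α → β → γ → δ → ℝ≥0∞) :
    F4 w1 w2 w3 w4 (fun a b c d => e a b c d + e' a b c d)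
      = F4 w1 w2 w3 w4 e + F4 w1 w2 w3 w4 e' := by
  simp only [F4, mul_add, ENNReal.tsum_add]

lemma F4_prod (n : β → ℝ≥0∞) (m : δ → ℝ≥0∞) :
    F4 w1 w2 w3 w4 (fun _ b _ d => n b * m d)
      = (∑' a, w1 a) * ((∑' b, w2 b * n b) * ((∑' c, w3 c) * ∑' d, w4 d * m d)) := by
  simp only [F4]
  rw [← ENNReal.tsum_mul_right]
  refine tsum_congr fun a => ?_
  congr 1
  rw [← ENNReal.tsum_mul_right]
  refine tsum_congr fun b => ?_
  rw [mul_assoc]
  congr 1
  rw [← ENNReal.tsum_mul_right, ← ENNReal.tsum_mul_left]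
  refine tsum_congr fun c => ?_
  rw [mul_left_comm]
  congr 1
  rw [← ENNReal.tsum_mul_left]
  refine tsum_congr fun d => ?_
  ring

lemma F4_X (l : β → ℝ≥0∞) (e : α → β → γ → δ → ℝ≥0∞) :
    F4 w1 w2 w3 w4 (fun a b c d => l b * e a b c d)
      = ∑' c, w3 c * ∑' a, w1 a * ∑' b, w2 b * (l b * ∑' d, w4 d * e a b c d) := by
  simp only [F4, ← ENNReal.tsum_mul_left]
  calc ∑' a, ∑' b, ∑' c, ∑' d, w1 a * (w2 b * (w3 c * (w4 d * (l b * e a b c d))))
      = ∑' a, ∑' c, ∑' b, ∑' d, w1 a * (w2 b * (w3 c * (w4 d * (l b * e a b c d)))) :=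
        tsum_congr fun a => ENNReal.tsum_comm
    _ = ∑' c, ∑' a, ∑' b, ∑' d, w1 a * (w2 b * (w3 c * (w4 d * (l b * e a b c d)))) :=
        ENNReal.tsum_comm
    _ = _ := by
        refine tsum_congr fun c => tsum_congr fun a => tsum_congr fun b => tsum_congr fun d => ?_
        ring

lemma F4_Y (l : δ → ℝ≥0∞) (e : α → β → γ → δ → ℝ≥0∞) :
    F4 w1 w2 w3 w4 (fun a b c d => l d * e a b c d)
      = ∑' a, w1 a * ∑' c, w3 c * ∑' b, w2 b * ∑' d, w4 d * (l d * e a b c d) := by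
  simp only [F4, ← ENNReal.tsum_mul_left]
  calc ∑' a, ∑' b, ∑' c, ∑' d, w1 a * (w2 b * (w3 c * (w4 d * (l d * e a b c d))))
      = ∑' a, ∑' c, ∑' b, ∑' d, w1 a * (w2 b * (w3 c * (w4 d * (l d * e a b c d)))) :=
        tsum_congr fun a => ENNReal.tsum_comm
    _ = _ := by
        refine tsum_congr fun a => tsum_congr fun c => tsum_congr fun b => tsum_congr fun d => ?_
        ring

end four

section five

variable {BX BY G : Type*} [AddCommGroup G] (ΛX : BX → ℝ≥0∞) (hX : BX → ℕ) (zX : BX → G)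
  (sX : BX → Set (G × ℕ)) (ΛY : BY → ℝ≥0∞) (hY : BY → ℕ) (zY : BY → G) (sY : BY → Set (G × ℕ))

/-- weight of the pairs of crossings of height `n` with property `Pr` -/
noncomputable def PW (n : ℕ) (Pr : List BX → List BY → Prop) : ℝ≥0∞ :=
  ∑' LX, (if HT hX LX = n then LW ΛX LX * ∑' LY, (if HT hY LY = n then LW ΛY LY *
        (if Pr LX LY then 1 else 0) else 0) else 0)

/-- **one window** -/
theorem window (h1X : ∀ b, 1 ≤ hX b) (h1Y : ∀ b, 1 ≤ hY b)
    (hΛX : ∑' b, ΛX b ≤ 1) (hΛY : ∑' b, ΛY b ≤ 1)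
    (hUX : ∀ n, U ΛX hX n ≤ 1) (hUY : ∀ n, U ΛY hY n ≤ 1)
    (hsX : ∀ b q, q ∈ sX b → 1 ≤ q.2 ∧ q.2 ≤ hX b) (hsY : ∀ b q, q ∈ sY b → 1 ≤ q.2 ∧ q.2 ≤ hY b)
    {C : ℝ≥0∞} {us : ℕ → ℝ≥0∞}
    (hKX : KW ΛX hX zX sX ΛY hY zY sY true C us) (hKY : KW ΛX hX zX sX ΛY hY zY sY false C us)
    (A H i0 s n lo hi top : ℕ) (hn : A + i0 + i0 + (H + i0 + i0) ≤ n)
    (hlo : A + 2 * i0 + s ≤ lo) (hs : 1 ≤ s) (hhi : hi + s ≤ A + H)
    (htop : A + i0 + (H + i0) ≤ top) (w : G) (ε : ℝ≥0∞)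
    (hXo : ∀ a, ∑' L, (if fp hX a L ∧ a + i0 < HT hX L then LW ΛX L else 0) ≤ ε)
    (hYo : ∀ a, ∑' L, (if fp hY a L ∧ a + i0 < HT hY L then LW ΛY L else 0) ≤ ε)
    (thX thY MX MY lam u v : ℝ≥0∞) (hthX : thX ≠ 0) (hthY : thY ≠ 0)
    (hlam : lam ≠ 0) (hlam' : lam ≠ ⊤) (gX bX gY bY : G → ℝ≥0∞)
    (hgbX : ∀ z, mL ΛX hX zX A z = gX z + bX z) (hgX : ∀ z, gX z ≤ MX)
    (hgbY : ∀ z, mL ΛY hY zY (A + i0) z = gY z + bY z) (hgY : ∀ z, gY z ≤ MY)
    (hnX : ∑' Q, wF ΛX hX H i0 Q *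
      (if pL ΛX hX zX H (HT hX Q - H) (dL zX Q) < thX then 1 else 0) ≤ u)
    (hnY : ∑' Q, wF ΛY hY (H + i0) i0 Q *
      (if pL ΛY hY zY (H + i0) (HT hY Q - (H + i0)) (dL zY Q) < thY then 1 else 0) ≤ u)
    (hbX : ∑' z, bX z ≤ v) (hbY : ∑' z, bY z ≤ v) (R : ℝ≥0∞) (hRX : MX / thX ≤ R)
    (hRY : MY / thY ≤ R) :
    PW ΛX hX ΛY hY n (fun LX LY => EV (TX hX zX sX LX 0 0) (TX hY zY sY LY w 0) lo hi top)
      ≤ 4 * ε + u * u + 2 * ((i0 + 1) * ((i0 + 1) * ((i0 + 1) * (C * (lam + R * us s / lam + us s))))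
        + v) := by
  rw [PW]
  refine (win_dec ΛX hX zX sX ΛY hY zY sY h1X h1Y hΛX hΛY hUX hUY hsX hsY A H (A + i0) (H + i0) i0
    n lo hi top (by omega) (by omega) (by omega) (by omega) (by omega) (by omega) ε (hXo _) (hXo _)
    (hYo _) (hYo _) w).trans ?_
  set e : List BX → List BX → List BY → List BY → ℝ≥0∞ := fun P Q P' Q' =>
    (if EV (TX hX zX sX Q (0 + dL zX P) (HT hX P))
            (TX hY zY sY Q' (w + dL zY P') (HT hY P')) lo hi top then 1 else 0) with he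
  set lX : List BX → ℝ≥0∞ := fun Q =>
    (if thX ≤ pL ΛX hX zX H (HT hX Q - H) (dL zX Q) then 1 else 0) with hlX
  set lY : List BY → ℝ≥0∞ := fun Q' =>
    (if thY ≤ pL ΛY hY zY (H + i0) (HT hY Q' - (H + i0)) (dL zY Q') then 1 else 0) with hlY
  set nX : List BX → ℝ≥0∞ := fun Q =>
    (if pL ΛX hX zX H (HT hX Q - H) (dL zX Q) < thX then 1 else 0) with hnX'
  set nY : List BY → ℝ≥0∞ := fun Q' =>
    (if pL ΛY hY zY (H + i0) (HT hY Q' - (H + i0)) (dL zY Q') < thY then 1 else 0) with hnY'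
  have h1 : F4 (wF ΛX hX A i0) (wF ΛX hX H i0) (wF ΛY hY (A + i0) i0) (wF ΛY hY (H + i0) i0) e
      ≤ F4 (wF ΛX hX A i0) (wF ΛX hX H i0) (wF ΛY hY (A + i0) i0) (wF ΛY hY (H + i0) i0)
          (fun P Q P' Q' => nX Q * nY Q' + (lX Q * e P Q P' Q' + lY Q' * e P Q P' Q')) := by
    refine F4_mono _ _ _ _ fun P Q P' Q' => ?_
    by_cases c1 : thX ≤ pL ΛX hX zX H (HT hX Q - H) (dL zX Q)
    · refine le_trans ?_ le_add_self
      refine le_trans ?_ le_self_add
      rw [hlX]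
      dsimp only
      rw [if_pos c1, one_mul]
    · by_cases c2 : thY ≤ pL ΛY hY zY (H + i0) (HT hY Q' - (H + i0)) (dL zY Q')
      · refine le_trans ?_ le_add_self
        refine le_trans ?_ le_add_self
        rw [hlY]
        dsimp only
        rw [if_pos c2, one_mul]
      · refine le_trans ?_ le_self_add
        rw [hnX', hnY', he]
        dsimp only
        rw [if_pos (not_le.1 c1), if_pos (not_le.1 c2), one_mul]
        split_ifs <;> simp
  rw [F4_add (wF ΛX hX A i0) (wF ΛX hX H i0) (wF ΛY hY (A + i0) i0) (wF ΛY hY (H + i0) i0)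
      (fun _ Q _ Q' => nX Q * nY Q') (fun P Q P' Q' => lX Q * e P Q P' Q' + lY Q' * e P Q P' Q'),
    F4_add (wF ΛX hX A i0) (wF ΛX hX H i0) (wF ΛY hY (A + i0) i0) (wF ΛY hY (H + i0) i0)
      (fun P Q P' Q' => lX Q * e P Q P' Q') (fun P Q P' Q' => lY Q' * e P Q P' Q'),
    F4_prod, F4_X, F4_Y] at h1
  have tX := termX ΛX hX zX sX ΛY hY zY sY h1X hΛX h1Y hΛY hsX hKX A H i0 s lo hi top hlo hhi htop w
    thX MX lam hthX hlam hlam' gX bX hgbX hgX
  have tY := termY ΛX hX zX sX ΛY hY zY sY h1X hΛX h1Y hΛY hsX hKY A H i0 s lo hi top hlo hhi htop w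
    thY MY lam hthY hlam hlam' gY bY hgbY hgY
  have tN : (∑' a, wF ΛX hX A i0 a) * ((∑' b, wF ΛX hX H i0 b * nX b) *
      ((∑' c, wF ΛY hY (A + i0) i0 c) * ∑' d, wF ΛY hY (H + i0) i0 d * nY d)) ≤ u * u := by
    calc _ ≤ 1 * (u * (1 * u)) := by
          refine mul_le_mul' (sum_wF ΛX hX h1X hΛX A i0) (mul_le_mul' hnX
            (mul_le_mul' (sum_wF ΛY hY h1Y hΛY (A + i0) i0) hnY))
      _ = _ := by ring
  have hRR : ∀ M th, M / th ≤ R → (i0 + 1 : ℝ≥0∞) * ((i0 + 1) * ((i0 + 1) *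
      (C * (lam + M / th * us s / lam + us s))))
      ≤ (i0 + 1) * ((i0 + 1) * ((i0 + 1) * (C * (lam + R * us s / lam + us s)))) := by
    intro M th hM
    gcongr
  have h2 := h1.trans (add_le_add tN (add_le_add
    (tX.trans (add_le_add (hRR _ _ hRX) hbX)) (tY.trans (add_le_add (hRR _ _ hRY) hbY))))
  refine (add_le_add h2 le_rfl).trans (le_of_eq ?_)
  ring

end five

end Crest.Agent.R154.Asm529
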