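import Crest.Agent.R154.AsmE_580

/-! Row 154, ROAD 801, abstract assembly: `kapS` from H2, H3, POINT (helper580). -/

set_option autoImplicit false

namespace Crest.Agent.R154.Asm580

open Filter Topology
open scoped ENNReal
open Crest.Agent.R154.B5A
open Crest.Agent.R154.Ren396 (FR FR_le split_FR mass_FR over_le TS tendsto_TS FR_zero)

lemma exists_mul_le (A e : ℝ≥0∞) (hA : A ≠ ⊤) (he : e ≠ 0) :
    ∃ l : ℝ≥0∞, l ≠ 0 ∧ l ≠ ⊤ ∧ A * l ≤ e := by
  have h1 : Tendsto (fun n : ℕ => A * ((2 : ℝ≥0∞)⁻¹ ^ n)) atTop (𝓝 (A * 0)) :=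
    ENNReal.Tendsto.const_mul (ENNReal.tendsto_pow_atTop_nhds_zero_of_lt_one (by simp))
      (Or.inr hA)
  rw [mul_zero] at h1
  obtain ⟨n, hn⟩ := (h1.eventually (gt_mem_nhds (pos_iff_ne_zero.2 he))).exists
  exact ⟨(2 : ℝ≥0∞)⁻¹ ^ n, pow_ne_zero _ (by simp), ENNReal.pow_ne_top (by simp), hn.le⟩

section fin

variable {BX BY G : Type*} [AddCommGroup G]
  (ΛX : BX → ℝ≥0∞) (hX : BX → ℕ) (zX : BX → G) (sX : BX → Set (G × ℕ))
  (ΛY : BY → ℝ≥0∞) (hY : BY → ℕ) (zY : BY → G) (sY : BY → Set (G × ℕ))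

open Classical in
/-- **kapS**: ROAD 801, the abstract assembly -/
theorem kapS (hΛX : ∑' b, ΛX b = 1) (h1X : ∀ b, 1 ≤ hX b) (hΛY : ∑' b, ΛY b = 1)
    (h1Y : ∀ b, 1 ≤ hY b) (hUX : ∀ n, U ΛX hX n ≤ 1) (hUY : ∀ n, U ΛY hY n ≤ 1)
    (hTX : Tendsto (TS ΛX hX) atTop (𝓝 0)) (hTY : Tendsto (TS ΛY hY) atTop (𝓝 0))
    (hsX : ∀ b, ∀ q ∈ sX b, q.2 ≤ hX b) (hsY : ∀ b, ∀ q ∈ sY b, q.2 ≤ hY b)
    (Cst : ℝ≥0∞) (hCst : Cst ≠ ⊤) (us : ℕ → ℕ → ℝ≥0∞) (hus : ∀ r0, Tendsto (us r0) atTop (𝓝 0))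
    (H2 : Hwin ΛX hX zX sX ΛY hY zY sY (fun E L _ => Dp zX L ∈ E) Cst us)
    (H3 : Hwin ΛX hX zX sX ΛY hY zY sY (fun E _ L' => Dp zY L' ∈ E) Cst us)
    (hPt : ∀ ε : ℝ≥0∞, ε ≠ 0 → ∃ k0, ∀ k, k0 ≤ k → ∀ n, k ≤ n → ∀ w,
      PT ΛX hX zX sX ΛY hY zY sY n k w ≤ ε)
    (ε : ℝ≥0∞) (hε : ε ≠ 0) :
    ∃ M, ∀ m, M ≤ m → ∃ n0, ∀ n, n0 ≤ n → ∀ w, KS ΛX hX zX sX ΛY hY zY sY n m w ≤ ε := by
  set e : ℝ≥0∞ := ε / 8 with he
  have he0 : e ≠ 0 := by rw [he]; simp [hε]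
  -- K, u
  obtain ⟨K, u0, hK, hu00, hu01, hKu⟩ := Num869.choose_Ku (e / 8) (by simp [he0])
  set u : ℝ≥0∞ := u0 / 2 with hu
  have hu0 : u ≠ 0 := by rw [hu]; simp [hu00]
  have huhalf : u ≤ 1 / 2 := by rw [hu]; gcongr
  have huu0 : u ≤ 2 * u0 := by
    rw [hu]
    calc u0 / 2 ≤ u0 := ENNReal.half_le_self
      _ ≤ 2 * u0 := le_mul_of_one_le_left' (by norm_num)
  set J : ℕ := 2 * K + 3 with hJ
  have hJt : (J : ℝ≥0∞) ≠ ⊤ := ENNReal.natCast_ne_top J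
  -- i0
  have hT1 : ∀ (g : ℕ → ℝ≥0∞), Tendsto g atTop (𝓝 0) → ∀ᶠ i in atTop,
      g i ≤ 1 / 2 ∧ J * g i ≤ e := by
    intro g hg
    have h1 : Tendsto (fun i => (J : ℝ≥0∞) * g i) atTop (𝓝 (J * 0)) :=
      ENNReal.Tendsto.const_mul hg (Or.inr hJt)
    rw [mul_zero] at h1
    filter_upwards [hg.eventually (gt_mem_nhds (by simp : (0 : ℝ≥0∞) < 1 / 2)),
      h1.eventually (gt_mem_nhds (pos_iff_ne_zero.2 he0))] with i h2 h3
    exact ⟨h2.le, h3.le⟩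
  obtain ⟨i1, ⟨hi1, hi2⟩, ⟨hi3, hi4⟩, hi5⟩ :=
    ((hT1 _ hTX).and ((hT1 _ hTY).and (eventually_ge_atTop 1))).exists
  obtain ⟨i0, rfl⟩ : ∃ i0, i1 = i0 + 1 := ⟨i1 - 1, by omega⟩
  -- lam0
  set N4 : ℕ := (J * i0 + 1) ^ 4 with hN4
  set A : ℝ≥0∞ := ((K + 3 : ℕ) : ℝ≥0∞) * (2 * N4 * Cst) with hA
  have hAt : A ≠ ⊤ := by
    rw [hA]
    exact ENNReal.mul_ne_top (ENNReal.natCast_ne_top _)
      (ENNReal.mul_ne_top (ENNReal.mul_ne_top (by norm_num) (ENNReal.natCast_ne_top _)) hCst)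
  obtain ⟨lam0, hl0, hlt, hAl⟩ := exists_mul_le A e hAt he0
  -- s
  set r0 : ℕ := J * i0 with hr0
  have hs : ∃ s, A * (2 * J * us r0 s / lam0 + us r0 s) ≤ e := by
    have h1 : Tendsto (fun s => A * (2 * J * us r0 s / lam0 + us r0 s)) atTop
        (𝓝 (A * (2 * J * 0 / lam0 + 0))) := by
      refine ENNReal.Tendsto.const_mul (Tendsto.add ?_ (hus r0)) (Or.inr hAt)
      exact ENNReal.Tendsto.div_const (ENNReal.Tendsto.const_mul (hus r0)
        (Or.inr (ENNReal.mul_ne_top (by norm_num) hJt))) (Or.inr hl0)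
    rw [mul_zero, ENNReal.zero_div, add_zero, mul_zero] at h1
    obtain ⟨s, hs⟩ := (h1.eventually (gt_mem_nhds (pos_iff_ne_zero.2 he0))).exists
    exact ⟨s, hs.le⟩
  obtain ⟨s, hs⟩ := hs
  -- slabs
  set NS : ℕ := (J + 1) * (J * i0 + 2 * s + 1) with hNS
  obtain ⟨e', he'0, -, he'⟩ := exists_mul_le NS e (ENNReal.natCast_ne_top _) he0
  obtain ⟨k0, hk0⟩ := hPt e' he'0
  set T0 : ℕ := k0 + s + J * i0 + 1 + 2 * (K + 1) with hT0
  refine ⟨(K + 1) * T0, fun m hm => ?_⟩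
  set T : ℕ := m / (K + 1) with hT
  have hTT0 : T0 ≤ T := by
    rw [hT, Nat.le_div_iff_mul_le (by omega)]
    rw [mul_comm]; exact hm
  have hT1' : (K + 1) * T ≤ m := Nat.mul_div_le m (K + 1)
  have hT2' : m < (K + 1) * (T + 1) := Nat.lt_mul_div_succ m (by omega)
  have hT2 : 2 * m < J * T := by
    rw [mul_add, mul_one] at hT2'
    have : J * T = 2 * ((K + 1) * T) + T := by rw [hJ]; ring
    omega
  refine ⟨J * (T + i0) + s, fun n hn w => ?_⟩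
  set Sl : Finset ℕ := (Finset.Icc K J).biUnion (fun j =>
    Finset.Icc (j * T - s) (j * T + J * i0 + s)) with hSl
  have hgX := over_le ΛX hX hUX T i0
  have hgY := over_le ΛY hY hUY T i0
  have hlX := tsum_lam_le ΛX hX hΛX.le h1X T i0
  have hlY := tsum_lam_le ΛY hY hΛY.le h1Y T i0
  have huX : u ≤ ∑' P, lam ΛX hX T i0 P := by
    have h1 := tsum_lam_ge ΛX hX hΛX h1X T i0 _ hgX
    refine huhalf.trans ?_
    have h2 : 1 ≤ ∑' P, lam ΛX hX T i0 P + 1 / 2 := h1.trans (add_le_add le_rfl hi1)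
    have h3 : (1 : ℝ≥0∞) / 2 + 1 / 2 ≤ ∑' P, lam ΛX hX T i0 P + 1 / 2 := by
      rw [ENNReal.add_halves]; exact h2
    exact (ENNReal.add_le_add_iff_right (by simp)).1 h3
  have huY : u ≤ ∑' P, lam ΛY hY T i0 P := by
    have h1 := tsum_lam_ge ΛY hY hΛY h1Y T i0 _ hgY
    refine huhalf.trans ?_
    have h2 : 1 ≤ ∑' P, lam ΛY hY T i0 P + 1 / 2 := h1.trans (add_le_add le_rfl hi3)
    have h3 : (1 : ℝ≥0∞) / 2 + 1 / 2 ≤ ∑' P, lam ΛY hY T i0 P + 1 / 2 := by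
      rw [ENNReal.add_halves]; exact h2
    exact (ENNReal.add_le_add_iff_right (by simp)).1 h3
  -- slabs
  have hslab : ∑ k ∈ Sl, PT ΛX hX zX sX ΛY hY zY sY n k w ≤ e := by
    calc _ ≤ ∑ k ∈ Sl, e' := by
          refine Finset.sum_le_sum fun k hk => hk0 k ?_ n ?_ w
          · rw [hSl, Finset.mem_biUnion] at hk
            obtain ⟨j, hj, hk⟩ := hk
            rw [Finset.mem_Icc] at hj hk
            have : 1 * T ≤ j * T := Nat.mul_le_mul_right _ (by omega)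
            omega
          · rw [hSl, Finset.mem_biUnion] at hk
            obtain ⟨j, hj, hk⟩ := hk
            rw [Finset.mem_Icc] at hj hk
            have : j * T ≤ J * T := Nat.mul_le_mul_right _ (by omega)
            rw [mul_add] at hn
            omega
      _ = Sl.card * e' := by rw [Finset.sum_const, nsmul_eq_mul]
      _ ≤ NS * e' := by
          refine mul_le_mul_left ?_ _
          have : Sl.card ≤ NS := by
            rw [hSl, hNS]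
            refine (Finset.card_biUnion_le_card_mul _ _ (J * i0 + 2 * s + 1) fun j _ => ?_).trans ?_
            · rw [Nat.card_Icc]; omega
            · refine Nat.mul_le_mul_right _ ?_
              rw [Nat.card_Icc]; omega
          exact_mod_cast this
      _ ≤ e := he'
  -- windows
  have hwin : ∀ j ∈ Finset.Ico K J, Op (lam ΛX hX T i0) (lam ΛY hY T i0) j (fun A P C Q =>
      if CC hX zX sX hY zY sY (Dp zX A.flatten) (HT hX A.flatten) P
          (w + Dp zY C.flatten) (HT hY C.flatten) Q (j * T + J * i0 + s) ((j + 1) * T - s)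
          then 1 else 0) ≤ 2 * (u ^ 2 + (1 - u) ^ K)
            + 2 * N4 * Cst * (lam0 + (2 * J * us r0 s / lam0 + us r0 s)) := by
    intro j hj
    rw [Finset.mem_Ico] at hj
    have h1 : 1 * T ≤ (j + 1) * T := Nat.mul_le_mul_right _ (by omega)
    refine (window_bd ΛX hX zX sX ΛY hY zY sY hΛX.le h1X hΛY.le h1Y Cst us H2 H3 T i0 u hu0 huX huY
      w j J r0 s (j * T + J * i0 + s) ((j + 1) * T - s) lam0 hl0 hlt (by omega) le_rfl le_rfl
      (by omega)).trans ?_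
    have h2 : (1 - u) ^ j ≤ (1 - u) ^ K := pow_le_pow_right_of_le_one' tsub_le_self hj.1
    calc _ ≤ u * u + (1 - u) ^ K + (1 - u) ^ K
        + (((J * i0 + 1) ^ 4 : ℕ) : ℝ≥0∞) * (Cst * (lam0 + (2 * J) * us r0 s / lam0 + us r0 s))
        + (((J * i0 + 1) ^ 4 : ℕ) : ℝ≥0∞) * (Cst * (lam0 + (2 * J) * us r0 s / lam0 + us r0 s)) := by
          gcongr
      _ ≤ (u * u + u * u) + (1 - u) ^ K + (1 - u) ^ K
        + (((J * i0 + 1) ^ 4 : ℕ) : ℝ≥0∞) * (Cst * (lam0 + (2 * J) * us r0 s / lam0 + us r0 s))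
        + (((J * i0 + 1) ^ 4 : ℕ) : ℝ≥0∞) * (Cst * (lam0 + (2 * J) * us r0 s / lam0 + us r0 s)) := by
          gcongr
          exact le_add_right le_rfl
      _ = _ := by rw [← hN4]; ring
  -- decomposition
  refine (KS_split ΛX hX zX sX ΛY hY zY sY Sl n m w).trans ?_
  have hdec := two_dec ΛX hX ΛY hY hΛX.le h1X hΛY.le h1Y hUX hUY T i0 J _ _ hgX hgY
    (fun Ps Qs => ∃ j, K ≤ j ∧ j < J ∧ CC hX zX sX hY zY sY (Dp zX (Ps.take j).flatten)
      (HT hX (Ps.take j).flatten) (Ps.getD j []) (w + Dp zY (Qs.take j).flatten)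
      (HT hY (Qs.take j).flatten) (Qs.getD j []) (j * T + J * i0 + s) ((j + 1) * T - s))
    (EE hX zX sX hY zY sY w m Sl) (fun Ps Qs h1 h2 h3 h4 RX RY h5 =>
      geo hX zX sX hY zY sY hsX hsY K J T i0 s m hJ hT1' hT2 (by omega) (by omega) Ps Qs h1 h2 h3 h4
        RX RY w h5.1 (fun k t h6 h7 i hi hi' h8 => h5.2 k t h6 h7 (by
          rw [hSl, Finset.mem_biUnion]
          exact ⟨i, Finset.mem_Icc.2 ⟨hi, hi'⟩, Finset.mem_Icc.2 h8⟩))) n (by omega)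
  have hsum : ∑ j ∈ Finset.Ico K J, Op (lam ΛX hX T i0) (lam ΛY hY T i0) j (fun A P C Q =>
      if CC hX zX sX hY zY sY (Dp zX A.flatten) (HT hX A.flatten) P
          (w + Dp zY C.flatten) (HT hY C.flatten) Q (j * T + J * i0 + s) ((j + 1) * T - s)
          then 1 else 0) ≤ e + (e + e) := by
    calc _ ≤ ∑ j ∈ Finset.Ico K J, (2 * (u ^ 2 + (1 - u) ^ K)
            + 2 * N4 * Cst * (lam0 + (2 * J * us r0 s / lam0 + us r0 s))) :=
          Finset.sum_le_sum hwin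
      _ = ((K + 3 : ℕ) : ℝ≥0∞) * (2 * (u ^ 2 + (1 - u) ^ K))
            + (A * lam0 + A * (2 * J * us r0 s / lam0 + us r0 s)) := by
          rw [Finset.sum_const, Nat.card_Ico, nsmul_eq_mul, show J - K = K + 3 by omega, hA]
          ring
      _ ≤ e + (e + e) := by
          refine add_le_add ?_ (add_le_add hAl hs)
          have hK4 : ((K + 3 : ℕ) : ℝ≥0∞) ≤ 4 * K := by
            have : K + 3 ≤ 4 * K := by omega
            exact_mod_cast this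
          calc ((K + 3 : ℕ) : ℝ≥0∞) * (2 * (u ^ 2 + (1 - u) ^ K))
              ≤ (4 * K) * (2 * ((2 * u0) ^ 2 + (1 - u0 / 2) ^ K)) := by
                gcongr
            _ = 8 * (K * ((2 * u0) ^ 2 + (1 - u0 / 2) ^ K)) := by ring
            _ ≤ 8 * (e / 8) := by gcongr
            _ = e := ENNReal.mul_div_cancel (by norm_num) (by norm_num)
  calc _ ≤ e + ((e + (e + e)) + e + e) := by
        refine add_le_add hslab (hdec.trans (add_le_add (add_le_add ?_ hi4) hi2))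
        exact (win_sum ΛX hX zX sX ΛY hY zY sY T i0 K J s w hlX hlY).trans hsum
    _ ≤ 8 * e := by
        have : e + ((e + (e + e)) + e + e) = 6 * e := by ring
        rw [this]
        gcongr
        norm_num
    _ = ε := ENNReal.mul_div_cancel (by norm_num) (by norm_num)

end fin

end Crest.Agent.R154.Asm580
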