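import Crest.Agent.R154.FP_178
import Crest.Agent.R154.Bd_958
import Crest.Agent.R154.Dens_616

/-! Row 154 (S0219, ROAD 801), helper635: the assembly, one walker tools
(first passage pieces and the density of the relative position). -/

set_option autoImplicit false

namespace Crest.Agent.R154.Asm635

open Crest.Agent.R154.B5A
open Crest.Agent.R154.FP178
open scoped ENNReal
open Classical

/-- displacement of a list -/
def Dp {B G : Type*} [AddCommGroup G] (zd : B → G) (L : List B) : G := (L.map zd).sum

lemma Dp_nil {B G : Type*} [AddCommGroup G] (zd : B → G) : Dp zd [] = 0 := by simp [Dp]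

lemma Dp_cons {B G : Type*} [AddCommGroup G] (zd : B → G) (b : B) (L : List B) :
    Dp zd (b :: L) = zd b + Dp zd L := by simp [Dp]

lemma Dp_append {B G : Type*} [AddCommGroup G] (zd : B → G) (L L' : List B) :
    Dp zd (L ++ L') = Dp zd L + Dp zd L' := by simp [Dp]

variable {B G : Type*} [AddCommGroup G] (Λ : B → ℝ≥0∞) (ht : B → ℕ) (zd : B → G)

/-- total weight of the continuations of a given total height -/
lemma cont_le (hU1 : ∀ n, U Λ ht n ≤ 1) (a n : ℕ) :
    ∑' R : List B, (if a + HT ht R = n then LW Λ R else 0) ≤ 1 := by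
  by_cases h : a ≤ n
  · refine le_trans (ENNReal.tsum_le_tsum fun R => ?_) (hU1 (n - a))
    by_cases hR : a + HT ht R = n
    · rw [if_pos hR, if_pos (by omega)]
    · rw [if_neg hR]; exact zero_le
  · refine le_trans (le_of_eq ?_) zero_le
    rw [ENNReal.tsum_eq_zero]
    intro R
    rw [if_neg (by omega)]

/-- one walker: cutting a list at the first passage of `T` and then of `W` more levels -/
theorem one (h1 : ∀ b, 1 ≤ ht b) (hΛ : ∑' b, Λ b ≤ 1) (hU1 : ∀ n, U Λ ht n ≤ 1)
    (T W i0 n : ℕ) (hn : T + i0 + W ≤ n) (e1 : ℝ≥0∞)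
    (hov : ∀ a, ∑' L, (if fp ht a L ∧ a + i0 < HT ht L then LW Λ L else 0) ≤ e1)
    (f : List B → ℝ≥0∞) (hf : ∀ L, f L ≤ 1) (g : List B → List B → ℝ≥0∞)
    (hg : ∀ A P R, fp ht T A → HT ht A ≤ T + i0 → fp ht W P → HT ht P ≤ W + i0 →
      f (A ++ (P ++ R)) ≤ g A P) :
    ∑' L, (if HT ht L = n then LW Λ L * f L else 0)
      ≤ 2 * e1 + ∑' A, ∑' P, (if fp ht T A ∧ HT ht A ≤ T + i0 ∧ fp ht W P ∧ HT ht P ≤ W + i0
          then LW Λ A * LW Λ P * g A P else 0) := by
  set F : List B → ℝ≥0∞ := fun L => if HT ht L = n then f L else 0 with hF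
  have hF1 : ∀ (A R : List B), F (A ++ R) ≤ if HT ht A + HT ht R = n then 1 else 0 := by
    intro A R
    simp only [hF, HT_append]
    split_ifs
    · exact hf _
    · exact le_rfl
  have s1 : ∑' L, (if HT ht L = n then LW Λ L * f L else 0)
      = ∑' L, (if T ≤ HT ht L then LW Λ L * F L else 0) := by
    refine tsum_congr fun L => ?_
    by_cases h : HT ht L = n
    · rw [if_pos h, if_pos (by omega)]; simp [hF, h]
    · rw [if_neg h]; simp [hF, h]
  rw [s1, split Λ ht h1 T F]
  -- the inner sums
  have inner : ∀ A, fp ht T A → ∑' L2, LW Λ L2 * F (A ++ L2)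
      ≤ (if T + i0 < HT ht A then 1 else 0) + (e1 + ∑' P, (if HT ht A ≤ T + i0 ∧ fp ht W P ∧
        HT ht P ≤ W + i0 then LW Λ P * g A P else 0)) := by
    intro A hA
    by_cases hi : T + i0 < HT ht A
    · rw [if_pos hi]
      refine le_trans ?_ le_self_add
      refine le_trans (ENNReal.tsum_le_tsum fun L2 => ?_) (cont_le Λ ht hU1 (HT ht A) n)
      calc LW Λ L2 * F (A ++ L2) ≤ LW Λ L2 * (if HT ht A + HT ht L2 = n then 1 else 0) :=
            mul_le_mul_right (hF1 A L2) _
        _ = _ := by split_ifs <;> simp
    · rw [if_neg hi, zero_add]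
      have hi' : HT ht A ≤ T + i0 := by omega
      have s2 : ∑' L2, LW Λ L2 * F (A ++ L2)
          = ∑' L2, (if W ≤ HT ht L2 then LW Λ L2 * F (A ++ L2) else 0) := by
        refine tsum_congr fun L2 => ?_
        by_cases h : W ≤ HT ht L2
        · rw [if_pos h]
        · rw [if_neg h]
          have : F (A ++ L2) = 0 := by
            simp only [hF, HT_append]
            rw [if_neg (by omega)]
          rw [this, mul_zero]
      rw [s2, split Λ ht h1 W (fun L2 => F (A ++ L2))]
      calc ∑' P, (if fp ht W P then LW Λ P * ∑' R, LW Λ R * F (A ++ (P ++ R)) else 0)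
          ≤ ∑' P, ((if fp ht W P ∧ W + i0 < HT ht P then LW Λ P else 0)
            + (if HT ht A ≤ T + i0 ∧ fp ht W P ∧ HT ht P ≤ W + i0 then LW Λ P * g A P
              else 0)) := by
            refine ENNReal.tsum_le_tsum fun P => ?_
            by_cases hP : fp ht W P
            · rw [if_pos hP]
              by_cases hi2 : W + i0 < HT ht P
              · rw [if_pos ⟨hP, hi2⟩]
                refine le_trans ?_ le_self_add
                refine le_trans (mul_le_mul_right ?_ _) (mul_one _).le
                refine le_trans (ENNReal.tsum_le_tsum fun R => ?_)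
                  (cont_le Λ ht hU1 (HT ht A + HT ht P) n)
                calc LW Λ R * F (A ++ (P ++ R)) ≤
                      LW Λ R * (if HT ht A + HT ht (P ++ R) = n then 1 else 0) :=
                      mul_le_mul_right (hF1 A (P ++ R)) _
                  _ = _ := by
                      rw [HT_append, ← add_assoc]; split_ifs <;> simp
              · have hi2' : HT ht P ≤ W + i0 := by omega
                rw [if_neg (fun h => hi2 h.2), zero_add, if_pos ⟨hi', hP, hi2'⟩]
                refine mul_le_mul_right ?_ _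
                calc ∑' R, LW Λ R * F (A ++ (P ++ R))
                    ≤ ∑' R, (if HT ht A + HT ht P + HT ht R = n then LW Λ R else 0) * g A P := by
                      refine ENNReal.tsum_le_tsum fun R => ?_
                      simp only [hF, HT_append]
                      rw [← add_assoc]
                      split_ifs
                      · exact mul_le_mul_right (hg A P R hA hi' hP hi2') _
                      · simp
                  _ = (∑' R, (if HT ht A + HT ht P + HT ht R = n then LW Λ R else 0)) * g A P :=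
                      ENNReal.tsum_mul_right
                  _ ≤ 1 * g A P := mul_le_mul_left (cont_le Λ ht hU1 _ n) _
                  _ = g A P := one_mul _
            · rw [if_neg hP]; exact zero_le
        _ = (∑' P, (if fp ht W P ∧ W + i0 < HT ht P then LW Λ P else 0)) + _ := ENNReal.tsum_add
        _ ≤ _ := add_le_add_left (hov W) _
  calc ∑' A, (if fp ht T A then LW Λ A * ∑' L2, LW Λ L2 * F (A ++ L2) else 0)
      ≤ ∑' A, ((if fp ht T A ∧ T + i0 < HT ht A then LW Λ A else 0)
        + ((if fp ht T A then LW Λ A else 0) * e1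
        + ∑' P, (if fp ht T A ∧ HT ht A ≤ T + i0 ∧ fp ht W P ∧ HT ht P ≤ W + i0
          then LW Λ A * LW Λ P * g A P else 0))) := by
        refine ENNReal.tsum_le_tsum fun A => ?_
        by_cases hA : fp ht T A
        · rw [if_pos hA, if_pos hA]
          refine le_trans (mul_le_mul_right (inner A hA) _) ?_
          rw [mul_add, mul_add, ← ENNReal.tsum_mul_left]
          refine add_le_add ?_ (add_le_add le_rfl ?_)
          · by_cases hi : T + i0 < HT ht A
            · simp [hi, hA]
            · simp [hi]
          · refine ENNReal.tsum_le_tsum fun P => ?_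
            by_cases hc : HT ht A ≤ T + i0 ∧ fp ht W P ∧ HT ht P ≤ W + i0
            · rw [if_pos hc, if_pos ⟨hA, hc⟩, mul_assoc]
            · rw [if_neg hc, if_neg (fun h => hc h.2), mul_zero]
        · rw [if_neg hA]; exact zero_le
    _ = (∑' A, (if fp ht T A ∧ T + i0 < HT ht A then LW Λ A else 0))
        + ((∑' A, (if fp ht T A then LW Λ A else 0)) * e1
        + ∑' A, ∑' P, (if fp ht T A ∧ HT ht A ≤ T + i0 ∧ fp ht W P ∧ HT ht P ≤ W + i0
          then LW Λ A * LW Λ P * g A P else 0)) := by
        rw [ENNReal.tsum_add, ENNReal.tsum_add, ENNReal.tsum_mul_right]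
    _ ≤ e1 + (1 * e1 + ∑' A, ∑' P, (if fp ht T A ∧ HT ht A ≤ T + i0 ∧ fp ht W P ∧
          HT ht P ≤ W + i0 then LW Λ A * LW Λ P * g A P else 0)) := by
        refine add_le_add (hov T) (add_le_add (mul_le_mul_left ?_ _) le_rfl)
        exact sum_FP Λ ht h1 hΛ T
    _ = _ := by rw [one_mul, ← add_assoc, two_mul]

end Crest.Agent.R154.Asm635
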