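import Crest.Agent.R154.AsmW_642

/-! Row 154, ROAD 801: the abstract assembly (helper642): contact depths in `(m, 2m]` have small
weight, from the two window lemmas and the one-level (point) lemma. -/

set_option autoImplicit false

namespace Crest.Agent.R154.Asm642

open Crest.Agent.R154.B5A
open Filter
open scoped ENNReal Topology Classical

lemma exists_small (f : ℕ → ℝ≥0∞) (hf : Tendsto f atTop (𝓝 0)) (c : ℝ≥0∞) (hc : c ≠ ⊤)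
    (ε : ℝ≥0∞) (hε : ε ≠ 0) : ∃ i, c * f i ≤ ε := by
  have h1 : Tendsto (fun i => c * f i) atTop (𝓝 (c * 0)) :=
    ENNReal.Tendsto.const_mul hf (Or.inr hc)
  rw [mul_zero] at h1
  have h2 : ∀ᶠ i in atTop, c * f i ≤ ε :=
    (h1.eventually (gt_mem_nhds (pos_iff_ne_zero.2 hε))).mono fun i hi => le_of_lt hi
  exact h2.exists

lemma exists_lam (c : ℝ≥0∞) (hc : c ≠ ⊤) (ε : ℝ≥0∞) (hε : ε ≠ 0) :
    ∃ l : ℝ≥0∞, l ≠ 0 ∧ l ≠ ⊤ ∧ c * l ≤ ε := by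
  have hc1 : c + 1 ≠ ⊤ := by simp [hc]
  have hc0 : c + 1 ≠ 0 := by simp
  refine ⟨min 1 (ε / (c + 1)), ?_, ?_, ?_⟩
  · rw [← pos_iff_ne_zero, lt_min_iff]
    exact ⟨one_pos, ENNReal.div_pos hε hc1⟩
  · exact ne_top_of_le_ne_top ENNReal.one_ne_top (min_le_left _ _)
  · calc c * min 1 (ε / (c + 1)) ≤ (c + 1) * (ε / (c + 1)) :=
          mul_le_mul' le_self_add (min_le_right _ _)
      _ = ε := ENNReal.mul_div_cancel hc0 hc1

section fin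

variable {BX BY G : Type*} [AddCommGroup G]
variable (ΛX : BX → ℝ≥0∞) (hX : BX → ℕ) (ΛY : BY → ℝ≥0∞) (hY : BY → ℕ)
variable (zX : BX → G) (zY : BY → G) (sX : BX → Set (G × ℕ)) (sY : BY → Set (G × ℕ))

/-- **the assembly** -/
theorem kapS (h1X : ∀ b, 1 ≤ hX b) (h1Y : ∀ b, 1 ≤ hY b)
    (hΛX : ∑' b, ΛX b = 1) (hΛY : ∑' b, ΛY b = 1)
    (hUX : ∀ n, U ΛX hX n ≤ 1) (hUY : ∀ n, U ΛY hY n ≤ 1)
    (hgX : Tendsto (fun i0 : ℕ => ∑' b, ΛX b * ((hX b - i0 : ℕ) : ℝ≥0∞)) atTop (𝓝 0))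
    (hgY : Tendsto (fun i0 : ℕ => ∑' b, ΛY b * ((hY b - i0 : ℕ) : ℝ≥0∞)) atTop (𝓝 0))
    (hsX : ∀ b q, q ∈ sX b → 1 ≤ q.2 ∧ q.2 ≤ hX b)
    (hsY : ∀ b q, q ∈ sY b → 1 ≤ q.2 ∧ q.2 ≤ hY b)
    (us : ℕ → ℕ → ℝ≥0∞) (hus : ∀ ρ, Tendsto (us ρ) atTop (𝓝 0))
    (C : ℕ → ℝ≥0∞) (hC : ∀ ρ, C ρ ≠ ⊤)
    (hH2 : H2 ΛX hX ΛY hY zX zY sX sY us C) (hH3 : H3 ΛX hX ΛY hY zX zY sX sY us C)
    (hPt : ∀ ε : ℝ≥0∞, ε ≠ 0 → ∃ k0 : ℕ, ∀ k, k0 ≤ k → ∀ n, k ≤ n → ∀ w : G,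
      WW ΛX hX ΛY hY n (fun L L' => Con hX hY zX zY sX sY w L L' k) ≤ ε)
    (ε : ℝ≥0∞) (hε : ε ≠ 0) :
    ∃ M : ℕ, ∀ m, M ≤ m → ∃ n0 : ℕ, ∀ n, n0 ≤ n → ∀ w : G,
      WW ΛX hX ΛY hY n (fun L L' => ∃ k, m < k ∧ k ≤ 2 * m ∧
        Con hX hY zX zY sX sY w L L' k) ≤ ε := by
  have h8 : ε / 8 ≠ 0 := by
    rw [Ne, ENNReal.div_eq_zero_iff]
    push Not
    exact ⟨hε, by norm_num⟩
  have h24 : ε / 8 / 3 ≠ 0 := by
    rw [Ne, ENNReal.div_eq_zero_iff]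
    push Not
    exact ⟨h8, by norm_num⟩
  -- `J`, `u`
  obtain ⟨J, u', hJ1, hu0', hu1', hJu⟩ := Num869.choose_Ku (ε / 8 / 3) h24
  set u : ℝ≥0∞ := u' / 2 with hu
  have hu0 : u ≠ 0 := by
    rw [hu, Ne, ENNReal.div_eq_zero_iff]
    push Not
    exact ⟨hu0', by norm_num⟩
  have huu' : u ≤ u' := by
    rw [hu]
    calc u' / 2 ≤ u' / 1 := ENNReal.div_le_div_left (by norm_num) _
      _ = u' := by simp
  have hu1 : u ≤ 1 := huu'.trans hu1'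
  have hut : u ≠ ⊤ := ne_top_of_le_ne_top ENNReal.one_ne_top hu1
  have hN : ((2 * J + 1 : ℕ) : ℝ≥0∞) ≤ 3 * J := by
    have : 2 * J + 1 ≤ 3 * J := by omega
    calc ((2 * J + 1 : ℕ) : ℝ≥0∞) ≤ ((3 * J : ℕ) : ℝ≥0∞) := by exact_mod_cast this
      _ = 3 * J := by push_cast; rfl
  have hb1 : 2 * (1 - u) ^ J + ((2 * J + 1 : ℕ) : ℝ≥0∞) * (u * u) ≤ ε / 8 := by
    have hJ1' : (1 : ℝ≥0∞) ≤ J := by exact_mod_cast hJ1
    calc 2 * (1 - u) ^ J + ((2 * J + 1 : ℕ) : ℝ≥0∞) * (u * u)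
        ≤ 3 * (J * (1 - u' / 2) ^ J) + (3 * J) * ((2 * u') ^ 2) := by
          refine add_le_add ?_ ?_
          · rw [hu]
            calc 2 * (1 - u' / 2) ^ J = 2 * (1 * (1 - u' / 2) ^ J) := by rw [one_mul]
              _ ≤ 3 * (J * (1 - u' / 2) ^ J) := by gcongr; norm_num
          · refine mul_le_mul' hN ?_
            calc u * u ≤ u' * u' := mul_le_mul' huu' huu'
              _ = 1 * u' ^ 2 := by ring
              _ ≤ 4 * u' ^ 2 := by gcongr; norm_num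
              _ = (2 * u') ^ 2 := by ring
      _ = 3 * (J * ((2 * u') ^ 2 + (1 - u' / 2) ^ J)) := by ring
      _ ≤ 3 * (ε / 8 / 3) := mul_le_mul_right hJu _
      _ = ε / 8 := ENNReal.mul_div_cancel (by norm_num) (by norm_num)
  -- `i0`
  set N : ℝ≥0∞ := ((2 * J + 1 : ℕ) : ℝ≥0∞) with hNdef
  have hNt : N ≠ ⊤ := ENNReal.natCast_ne_top _
  have hgs : Tendsto (fun i0 : ℕ => (∑' b, ΛX b * ((hX b - i0 : ℕ) : ℝ≥0∞)) +
      ∑' b, ΛY b * ((hY b - i0 : ℕ) : ℝ≥0∞)) atTop (𝓝 0) := by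
    simpa using hgX.add hgY
  obtain ⟨i0, hi0⟩ := exists_small _ hgs (2 * J + 4 * N) (by finiteness) (ε / 8) h8
  set g : ℝ≥0∞ := (∑' b, ΛX b * ((hX b - i0 : ℕ) : ℝ≥0∞)) +
      ∑' b, ΛY b * ((hY b - i0 : ℕ) : ℝ≥0∞) with hg
  -- `lam`
  set c4 : ℝ≥0∞ := N * (2 * (((i0 : ℝ≥0∞) + 1) ^ 4 * C (4 * i0))) with hc4
  have hc4t : c4 ≠ ⊤ := by
    have := hC (4 * i0)
    rw [hc4]
    finiteness
  obtain ⟨lam, hl0, hlt, hlam⟩ := exists_lam c4 hc4t (ε / 8) h8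
  -- `s`
  have hk5 : c4 * (((i0 : ℝ≥0∞) + 1) / u / lam + 1) ≠ ⊤ := by
    have h1 : ((i0 : ℝ≥0∞) + 1) / u ≠ ⊤ := ENNReal.div_ne_top (by finiteness) hu0
    have h2 : ((i0 : ℝ≥0∞) + 1) / u / lam ≠ ⊤ := ENNReal.div_ne_top h1 hl0
    finiteness
  obtain ⟨s, hs⟩ := exists_small _ (hus (4 * i0)) _ hk5 (ε / 8) h8
  -- `e'`
  set c6 : ℝ≥0∞ := N * (((3 * i0 + s : ℕ) : ℝ≥0∞) + ((s + 4 * i0 : ℕ) : ℝ≥0∞)) with hc6
  have hc6t : c6 ≠ ⊤ := by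
    rw [hc6]
    finiteness
  obtain ⟨e', he0, het, he'⟩ := exists_lam c6 hc6t (ε / 8) h8
  obtain ⟨k0, hk0⟩ := hPt e' he0
  -- `M`
  refine ⟨2 * J * (k0 + 4 * J + i0 + s + 1) + 2 * J, ?_⟩
  intro m hm
  set T := m / (2 * J) with hT
  have hJpos : 0 < 2 * J := by omega
  have hTm : 2 * J * T ≤ m := Nat.mul_div_le m (2 * J)
  have hmT : m < 2 * J * T + 2 * J := by
    have := Nat.lt_mul_div_succ m hJpos
    rw [← hT] at this
    calc m < 2 * J * (T + 1) := this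
      _ = 2 * J * T + 2 * J := by ring
  have hTbig : k0 + 4 * J + i0 + s + 1 ≤ T := by
    rw [hT, Nat.le_div_iff_mul_le hJpos]
    have : (k0 + 4 * J + i0 + s + 1) * (2 * J) = 2 * J * (k0 + 4 * J + i0 + s + 1) := by ring
    omega
  refine ⟨(4 * J + 4) * T + 5 * i0 + T, ?_⟩
  intro n hn w
  have hplX := sum_pl ΛX hX zX h1X hΛX T
  have hplY := sum_pl ΛY hY zY h1Y hΛY T
  obtain ⟨thX, hthX0, hthX1, hqX1, hqX2⟩ := exists_th ΛX hX zX h1X hΛX T u hu0 hu1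
  obtain ⟨thY, hthY0, hthY1, hqY1, hqY2⟩ := exists_th ΛY hY zY h1Y hΛY T u hu0 hu1
  set SX : ℕ × G → Prop := fun q => pl ΛX hX zX T q ≤ thX with hSX
  set SY : ℕ × G → Prop := fun q => pl ΛY hY zY T q ≤ thY with hSY
  set ev : ℕ → List BX → List BY → Prop := fun j L L' =>
    (∃ k, j * T < k ∧ k ≤ j * T + T ∧ Con hX hY zX zY sX sY w L L' k) ∧
      Sm hX zX T i0 SX J L ∧ Sm hY zY T i0 SY J L' with hev
  have hinc : WW ΛX hX ΛY hY n (fun L L' => ∃ k, m < k ∧ k ≤ 2 * m ∧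
        Con hX hY zX zY sX sY w L L' k)
      ≤ WW ΛX hX ΛY hY n (fun L L' => ¬ Sm hX zX T i0 SX J L ∨ (¬ Sm hY zY T i0 SY J L' ∨
          ∃ j ∈ Finset.Icc (2 * J) (4 * J), ev j L L')) := by
    refine WW_mono ΛX hX ΛY hY n ?_
    rintro L L' hL hL' ⟨k, hk1, hk2, hcon⟩
    by_cases c1 : Sm hX zX T i0 SX J L
    swap
    · exact Or.inl c1
    by_cases c2 : Sm hY zY T i0 SY J L'
    swap
    · exact Or.inr (Or.inl c2)
    right; right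
    have hTpos : 0 < T := by omega
    -- window index
    refine ⟨(k - 1) / T, ?_, ⟨k, ?_, ?_, hcon⟩, c1, c2⟩
    · rw [Finset.mem_Icc]
      constructor
      · rw [Nat.le_div_iff_mul_le hTpos]
        omega
      · have : (k - 1) / T < 4 * J + 1 := by
          rw [Nat.div_lt_iff_lt_mul hTpos]
          have e1 : (4 * J + 1) * T = 2 * (2 * J * T) + T := by ring
          omega
        omega
    · have := Nat.div_mul_le_self (k - 1) T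
      omega
    · have := Nat.lt_div_mul_add (a := k - 1) hTpos
      omega
  have hwin : ∀ j ∈ Finset.Icc (2 * J) (4 * J), WW ΛX hX ΛY hY n (ev j)
      ≤ ((3 * i0 + s : ℕ) : ℝ≥0∞) * e' + ((s + 4 * i0 : ℕ) : ℝ≥0∞) * e' + 4 * g + u * u +
        2 * (((i0 : ℝ≥0∞) + 1) ^ 4 * (C (4 * i0) * (lam + ((i0 : ℝ≥0∞) + 1) / u * us (4 * i0) s / lam
          + us (4 * i0) s))) := by
    intro j hj
    rw [Finset.mem_Icc] at hj
    have hjT : 2 * J * T ≤ j * T := Nat.mul_le_mul_right T hj.1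
    have hjT2 : j * T ≤ 4 * J * T := Nat.mul_le_mul_right T hj.2
    have hJ2 : J * (T + i0) ≤ 2 * J * T := by
      calc J * (T + i0) ≤ J * (T + T) := Nat.mul_le_mul_left J (by omega)
        _ = 2 * J * T := by ring
    have hk00 : k0 ≤ j * T := by
      have : 1 * T ≤ j * T := Nat.mul_le_mul_right T (by omega)
      omega
    have hexp : (4 * J + 4) * T = 4 * J * T + 4 * T := by ring
    refine window_le ΛX hX ΛY hY zX zY sX sY h1X h1Y hΛX hΛY hUX hUY hsX hsY us C hH2 hH3 w n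
      (j * T) T i0 s J u lam thX thY g e' (by omega) (by omega) (by omega) hu0 hu1 hl0 hlt
      hthX0 hthX1 hthY0 hthY1 hqX1 hqX2 hqY1 hqY2 le_self_add le_add_self ?_
    intro k hk1 hk2
    exact hk0 k (by omega) n (by omega) w
  have hJn : J * (T + i0) ≤ n := by
    have e1 : J * (T + i0) ≤ J * (T + T) := Nat.mul_le_mul_left J (by omega)
    have e2 : J * (T + T) = 2 * J * T := by ring
    have hexp : (4 * J + 4) * T = 2 * (2 * J * T) + 4 * T := by ring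
    omega
  have hq1 : (1 - u : ℝ≥0∞) ≤ 1 := tsub_le_self
  have bX : WW ΛX hX ΛY hY n (fun L _ => ¬ Sm hX zX T i0 SX J L) ≤ (1 - u) ^ J + J * g :=
    (WW_left ΛX hX ΛY hY hUY n _).trans (sm_bad ΛX hX zX hUX T i0 SX (1 - u) g hq1
      ((le_of_eq (tsum_congr fun P => by congr)).trans hqX2)
      ((sum_over ΛX hX hUX T i0).trans le_self_add) J n hJn)
  have bY : WW ΛX hX ΛY hY n (fun _ L' => ¬ Sm hY zY T i0 SY J L') ≤ (1 - u) ^ J + J * g :=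
    (WW_right ΛX hX ΛY hY hUX n _).trans (sm_bad ΛY hY zY hUY T i0 SY (1 - u) g hq1
      ((le_of_eq (tsum_congr fun P => by congr)).trans hqY2)
      ((sum_over ΛY hY hUY T i0).trans le_add_self) J n hJn)
  have bW : WW ΛX hX ΛY hY n (fun L L' => ∃ j ∈ Finset.Icc (2 * J) (4 * J), ev j L L')
      ≤ N * (((3 * i0 + s : ℕ) : ℝ≥0∞) * e' + ((s + 4 * i0 : ℕ) : ℝ≥0∞) * e' + 4 * g + u * u +
        2 * (((i0 : ℝ≥0∞) + 1) ^ 4 * (C (4 * i0) * (lam + ((i0 : ℝ≥0∞) + 1) / u * us (4 * i0) s / lam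
          + us (4 * i0) s)))) := by
    refine (WW_bex ΛX hX ΛY hY n _ ev).trans ((Finset.sum_le_sum hwin).trans ?_)
    rw [Finset.sum_const, nsmul_eq_mul, Nat.card_Icc]
    refine mul_le_mul_left ?_ _
    rw [hNdef]
    have : 4 * J + 1 - 2 * J ≤ 2 * J + 1 := by omega
    exact_mod_cast this
  refine hinc.trans ((WW_or ΛX hX ΛY hY n (fun L _ => ¬ Sm hX zX T i0 SX J L) _).trans
    ((add_le_add bX ((WW_or ΛX hX ΛY hY n (fun _ L' => ¬ Sm hY zY T i0 SY J L') _).trans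
      (add_le_add bY bW))).trans ?_))
  calc (1 - u) ^ J + J * g + ((1 - u) ^ J + J * g + N * (((3 * i0 + s : ℕ) : ℝ≥0∞) * e' +
        ((s + 4 * i0 : ℕ) : ℝ≥0∞) * e' + 4 * g + u * u +
        2 * (((i0 : ℝ≥0∞) + 1) ^ 4 * (C (4 * i0) * (lam + ((i0 : ℝ≥0∞) + 1) / u * us (4 * i0) s / lam
          + us (4 * i0) s)))))
      = (2 * (1 - u) ^ J + N * (u * u)) + (2 * J + 4 * N) * g + c6 * e' + c4 * lam +
          c4 * (((i0 : ℝ≥0∞) + 1) / u / lam + 1) * us (4 * i0) s := by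
        rw [hc6, hc4]
        simp only [div_eq_mul_inv]
        ring
    _ ≤ ε / 8 + ε / 8 + ε / 8 + ε / 8 + ε / 8 := by
        gcongr
    _ = 5 * (ε / 8) := by ring
    _ ≤ 8 * (ε / 8) := by gcongr; norm_num
    _ = ε := ENNReal.mul_div_cancel (by norm_num) (by norm_num)

end fin

end Crest.Agent.R154.Asm642
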