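import Crest.Agent.R154.FP_178
import Crest.Agent.R154.B5Rec_566

/-! Row 154 (helper66), ROAD 801: assembly of one window on lists of blocks. -/

set_option autoImplicit false

namespace Crest.Agent.R154.Asm66

open scoped ENNReal
open Crest.Agent.R154.B5A Crest.Agent.R154.FP178

section one
variable {B : Type*} (Λ : B → ℝ≥0∞) (ht : B → ℕ)

open Classical in
lemma rest_le (hU1 : ∀ n, U Λ ht n ≤ 1) (n : ℕ) (L1 : List B) :
    ∑' R, (if HT ht (L1 ++ R) = n then LW Λ R else 0) ≤ 1 := by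
  by_cases h : HT ht L1 ≤ n
  · refine le_trans (le_of_eq ?_) (hU1 (n - HT ht L1))
    refine tsum_congr fun R => ?_
    rw [HT_append]
    by_cases h' : HT ht R = n - HT ht L1
    · rw [if_pos (by omega), if_pos h']
    · rw [if_neg (by omega), if_neg h']
  · have : ∀ R, (if HT ht (L1 ++ R) = n then LW Λ R else 0) = 0 := by
      intro R; rw [if_neg]; rw [HT_append]; omega
    simp [this]

open Classical in
/-- weight of a (top, piece) pair -/
noncomputable def w2 (a i0 b : ℕ) (L1 L2 : List B) : ℝ≥0∞ :=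
  if (fp ht a L1 ∧ HT ht L1 ≤ a + i0) ∧ fp ht b L2 then LW Λ L1 * LW Λ L2 else 0

open Classical in
/-- overshoot mass -/
noncomputable def ovm (a i0 : ℕ) : ℝ≥0∞ :=
  ∑' L1, (if fp ht a L1 ∧ a + i0 < HT ht L1 then LW Λ L1 else 0)

open Classical in
theorem split3 (h1 : ∀ b, 1 ≤ ht b) (hU1 : ∀ n, U Λ ht n ≤ 1) (n a i0 b : ℕ)
    (hn : a + i0 + b ≤ n) (g : List B → ℝ≥0∞) (hg : ∀ L, g L ≤ 1)
    (h : List B → List B → ℝ≥0∞)
    (hh : ∀ L1 L2 L3, fp ht a L1 → HT ht L1 ≤ a + i0 → fp ht b L2 →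
      HT ht (L1 ++ (L2 ++ L3)) = n → g (L1 ++ (L2 ++ L3)) ≤ h L1 L2) :
    ∑' L, (if HT ht L = n then LW Λ L * g L else 0)
      ≤ ovm Λ ht a i0 + ∑' L1, ∑' L2, w2 Λ ht a i0 b L1 L2 * h L1 L2 := by
  have e0 : ∑' L, (if HT ht L = n then LW Λ L * g L else 0)
      = ∑' L, (if a ≤ HT ht L then LW Λ L * (if HT ht L = n then g L else 0) else 0) := by
    refine tsum_congr fun L => ?_
    by_cases h' : HT ht L = n
    · rw [if_pos h', if_pos (by omega), if_pos h']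
    · rw [if_neg h', if_neg h']; simp
  rw [e0, split Λ ht h1 a, ovm, ← ENNReal.tsum_add]
  refine ENNReal.tsum_le_tsum fun L1 => ?_
  by_cases hf : fp ht a L1
  swap
  · rw [if_neg hf]; exact zero_le
  rw [if_pos hf]
  by_cases hb : HT ht L1 ≤ a + i0
  · rw [if_neg (by omega), zero_add]
    have e1 : ∑' L2, LW Λ L2 * (if HT ht (L1 ++ L2) = n then g (L1 ++ L2) else 0)
        = ∑' L2, (if b ≤ HT ht L2 then LW Λ L2 *
            (if HT ht (L1 ++ L2) = n then g (L1 ++ L2) else 0) else 0) := by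
      refine tsum_congr fun L2 => ?_
      by_cases h' : HT ht (L1 ++ L2) = n
      · have h'' := h'
        rw [HT_append] at h''
        rw [if_pos h', if_pos (by omega)]
      · rw [if_neg h']; simp
    rw [e1, split Λ ht h1 b (fun L2 => if HT ht (L1 ++ L2) = n then g (L1 ++ L2) else 0),
      ← ENNReal.tsum_mul_left]
    refine ENNReal.tsum_le_tsum fun L2 => ?_
    by_cases hf2 : fp ht b L2
    swap
    · rw [if_neg hf2]; simp
    rw [if_pos hf2, w2, if_pos ⟨⟨hf, hb⟩, hf2⟩]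
    have e2 : ∑' L3, LW Λ L3 * (if HT ht (L1 ++ (L2 ++ L3)) = n then g (L1 ++ (L2 ++ L3)) else 0)
        ≤ h L1 L2 := by
      calc _ ≤ ∑' L3, (if HT ht ((L1 ++ L2) ++ L3) = n then LW Λ L3 else 0) * h L1 L2 := by
            refine ENNReal.tsum_le_tsum fun L3 => ?_
            rw [List.append_assoc]
            by_cases h' : HT ht (L1 ++ (L2 ++ L3)) = n
            · rw [if_pos h', if_pos h']
              exact mul_le_mul_right (hh L1 L2 L3 hf hb hf2 h') _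
            · rw [if_neg h', if_neg h']; simp
        _ = (∑' L3, (if HT ht ((L1 ++ L2) ++ L3) = n then LW Λ L3 else 0)) * h L1 L2 :=
            ENNReal.tsum_mul_right
        _ ≤ 1 * h L1 L2 := mul_le_mul_left (rest_le Λ ht hU1 n (L1 ++ L2)) _
        _ = _ := one_mul _
    calc _ ≤ LW Λ L1 * (LW Λ L2 * h L1 L2) := mul_le_mul_right (mul_le_mul_right e2 _) _
      _ = _ := by rw [mul_assoc]
  · rw [if_pos ⟨hf, by omega⟩]
    refine le_add_right ?_
    calc _ ≤ LW Λ L1 * ∑' R, (if HT ht (L1 ++ R) = n then LW Λ R else 0) := by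
          refine mul_le_mul_right (ENNReal.tsum_le_tsum fun R => ?_) _
          by_cases h' : HT ht (L1 ++ R) = n
          · rw [if_pos h', if_pos h']
            calc _ ≤ LW Λ R * 1 := mul_le_mul_right (hg _) _
              _ = _ := mul_one _
          · rw [if_neg h', if_neg h']; simp
      _ ≤ LW Λ L1 * 1 := mul_le_mul_right (rest_le Λ ht hU1 n L1) _
      _ = _ := mul_one _

open Classical in
lemma sum_w2 (h1 : ∀ b, 1 ≤ ht b) (hΛ : ∑' b, Λ b ≤ 1) (a i0 b : ℕ)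
    (f g : List B → ℝ≥0∞) :
    ∑' L1, ∑' L2, w2 Λ ht a i0 b L1 L2 * (f L1 * g L2)
      ≤ (∑' L1, (if fp ht a L1 then LW Λ L1 * f L1 else 0))
        * ∑' L2, (if fp ht b L2 then LW Λ L2 * g L2 else 0) := by
  rw [← ENNReal.tsum_mul_right]
  refine ENNReal.tsum_le_tsum fun L1 => ?_
  rw [← ENNReal.tsum_mul_left]
  refine ENNReal.tsum_le_tsum fun L2 => ?_
  rw [w2]
  by_cases h : (fp ht a L1 ∧ HT ht L1 ≤ a + i0) ∧ fp ht b L2
  · rw [if_pos h, if_pos h.1.1, if_pos h.2]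
    exact (by ring : LW Λ L1 * LW Λ L2 * (f L1 * g L2)
      = LW Λ L1 * f L1 * (LW Λ L2 * g L2)).le
  · rw [if_neg h, zero_mul]; exact zero_le

lemma w2_total (h1 : ∀ b, 1 ≤ ht b) (hΛ : ∑' b, Λ b ≤ 1) (a i0 b : ℕ) :
    ∑' L1, ∑' L2, w2 Λ ht a i0 b L1 L2 ≤ 1 := by
  classical
  have := sum_w2 Λ ht h1 hΛ a i0 b (fun _ => 1) (fun _ => 1)
  simp only [mul_one] at this
  exact this.trans (by
    calc _ ≤ (1 : ℝ≥0∞) * 1 := mul_le_mul' (sum_FP Λ ht h1 hΛ a) (sum_FP Λ ht h1 hΛ b)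
      _ = 1 := mul_one _)

end one

section two
variable {BX BY : Type*} (ΛX : BX → ℝ≥0∞) (hX : BX → ℕ) (ΛY : BY → ℝ≥0∞) (hY : BY → ℕ)

open Classical in
theorem two_split (h1X : ∀ b, 1 ≤ hX b) (h1Y : ∀ b, 1 ≤ hY b)
    (hUX : ∀ n, U ΛX hX n ≤ 1) (hUY : ∀ n, U ΛY hY n ≤ 1)
    (hΛX : ∑' b, ΛX b ≤ 1)
    (n i0 a b a' b' : ℕ) (hn : a + i0 + b ≤ n) (hn' : a' + i0 + b' ≤ n)
    (Ev : List BX → List BY → Prop) (EvP : List BX → List BX → List BY → List BY → Prop)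
    (hE : ∀ L1 L2 L3 M1 M2 M3, fp hX a L1 → HT hX L1 ≤ a + i0 → fp hX b L2 →
      fp hY a' M1 → HT hY M1 ≤ a' + i0 → fp hY b' M2 →
      Ev (L1 ++ (L2 ++ L3)) (M1 ++ (M2 ++ M3)) → EvP L1 L2 M1 M2) :
    ∑' LX, ∑' LY, (if HT hX LX = n ∧ HT hY LY = n ∧ Ev LX LY then LW ΛX LX * LW ΛY LY else 0)
      ≤ ovm ΛX hX a i0 + (ovm ΛY hY a' i0
        + ∑' L1, ∑' L2, w2 ΛX hX a i0 b L1 L2 *
          ∑' M1, ∑' M2, w2 ΛY hY a' i0 b' M1 M2 * (if EvP L1 L2 M1 M2 then 1 else 0)) := by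
  have e0 : ∑' LX, ∑' LY, (if HT hX LX = n ∧ HT hY LY = n ∧ Ev LX LY then
        LW ΛX LX * LW ΛY LY else 0)
      = ∑' LY, (if HT hY LY = n then LW ΛY LY * ∑' LX, (if HT hX LX = n then
          LW ΛX LX * (if Ev LX LY then 1 else 0) else 0) else 0) := by
    rw [ENNReal.tsum_comm]
    refine tsum_congr fun LY => ?_
    by_cases hy : HT hY LY = n
    · rw [if_pos hy, ← ENNReal.tsum_mul_left]
      refine tsum_congr fun LX => ?_
      by_cases hx : HT hX LX = n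
      · by_cases he : Ev LX LY
        · simp [hx, hy, he, mul_comm]
        · simp [hx, hy, he]
      · simp [hx]
    · simp [hy]
  rw [e0]
  have e1 : ∀ LY, ∑' LX, (if HT hX LX = n then LW ΛX LX * (if Ev LX LY then 1 else 0) else 0)
      ≤ ovm ΛX hX a i0 + ∑' L1, ∑' L2, w2 ΛX hX a i0 b L1 L2 *
        (if (fp hX a L1 ∧ HT hX L1 ≤ a + i0) ∧ fp hX b L2 ∧ ∃ L3, Ev (L1 ++ (L2 ++ L3)) LY
          then 1 else 0) := by
    intro LY
    refine split3 ΛX hX h1X hUX n a i0 b hn _ (fun L => by split_ifs <;> simp) _ ?_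
    intro L1 L2 L3 h1 h2 h3 _
    by_cases he : Ev (L1 ++ (L2 ++ L3)) LY
    · rw [if_pos he, if_pos ⟨⟨h1, h2⟩, h3, L3, he⟩]
    · rw [if_neg he]; exact zero_le
  have e2 : ∀ L1 L2, ∑' LY, (if HT hY LY = n then LW ΛY LY *
      (if (fp hX a L1 ∧ HT hX L1 ≤ a + i0) ∧ fp hX b L2 ∧ ∃ L3, Ev (L1 ++ (L2 ++ L3)) LY
          then 1 else 0) else 0)
      ≤ ovm ΛY hY a' i0 + ∑' M1, ∑' M2, w2 ΛY hY a' i0 b' M1 M2 *
        (if EvP L1 L2 M1 M2 then 1 else 0) := by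
    intro L1 L2
    refine split3 ΛY hY h1Y hUY n a' i0 b' hn' _ (fun L => by split_ifs <;> simp) _ ?_
    intro M1 M2 M3 h1 h2 h3 _
    by_cases he : (fp hX a L1 ∧ HT hX L1 ≤ a + i0) ∧ fp hX b L2 ∧
        ∃ L3, Ev (L1 ++ (L2 ++ L3)) (M1 ++ (M2 ++ M3))
    · rw [if_pos he]
      obtain ⟨hf, hf2, L3, he⟩ := he
      rw [if_pos (hE L1 L2 L3 M1 M2 M3 hf.1 hf.2 hf2 h1 h2 h3 he)]
    · rw [if_neg he]; exact zero_le
  calc _ ≤ ∑' LY, (if HT hY LY = n then LW ΛY LY * (ovm ΛX hX a i0 + ∑' L1, ∑' L2,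
          w2 ΛX hX a i0 b L1 L2 *
        (if (fp hX a L1 ∧ HT hX L1 ≤ a + i0) ∧ fp hX b L2 ∧ ∃ L3, Ev (L1 ++ (L2 ++ L3)) LY
          then 1 else 0)) else 0) := by
        refine ENNReal.tsum_le_tsum fun LY => ?_
        split_ifs
        · exact mul_le_mul_right (e1 LY) _
        · exact le_rfl
    _ = (∑' LY, (if HT hY LY = n then LW ΛY LY else 0)) * ovm ΛX hX a i0
        + ∑' L1, ∑' L2, w2 ΛX hX a i0 b L1 L2 * ∑' LY, (if HT hY LY = n then LW ΛY LY *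
      (if (fp hX a L1 ∧ HT hX L1 ≤ a + i0) ∧ fp hX b L2 ∧ ∃ L3, Ev (L1 ++ (L2 ++ L3)) LY
          then 1 else 0) else 0) := by
        have : ∀ LY, (if HT hY LY = n then LW ΛY LY * (ovm ΛX hX a i0 + ∑' L1, ∑' L2,
          w2 ΛX hX a i0 b L1 L2 *
        (if (fp hX a L1 ∧ HT hX L1 ≤ a + i0) ∧ fp hX b L2 ∧ ∃ L3, Ev (L1 ++ (L2 ++ L3)) LY
          then 1 else 0)) else 0)
          = (if HT hY LY = n then LW ΛY LY else 0) * ovm ΛX hX a i0
            + ∑' L1, ∑' L2, w2 ΛX hX a i0 b L1 L2 * (if HT hY LY = n then LW ΛY LY *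
      (if (fp hX a L1 ∧ HT hX L1 ≤ a + i0) ∧ fp hX b L2 ∧ ∃ L3, Ev (L1 ++ (L2 ++ L3)) LY
          then 1 else 0) else 0) := by
          intro LY
          by_cases hy : HT hY LY = n
          · simp only [hy, if_true]
            rw [mul_add, ← ENNReal.tsum_mul_left]
            congr 1
            refine tsum_congr fun L1 => ?_
            rw [← ENNReal.tsum_mul_left]
            refine tsum_congr fun L2 => ?_
            rw [mul_left_comm]
          · simp [hy]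
        rw [tsum_congr this, ENNReal.tsum_add, ENNReal.tsum_mul_right]
        congr 1
        rw [ENNReal.tsum_comm]
        refine tsum_congr fun L1 => ?_
        rw [ENNReal.tsum_comm]
        refine tsum_congr fun L2 => ?_
        rw [ENNReal.tsum_mul_left]
    _ ≤ 1 * ovm ΛX hX a i0 + ∑' L1, ∑' L2, w2 ΛX hX a i0 b L1 L2 *
        (ovm ΛY hY a' i0 + ∑' M1, ∑' M2, w2 ΛY hY a' i0 b' M1 M2 *
        (if EvP L1 L2 M1 M2 then 1 else 0)) := by
        refine add_le_add (mul_le_mul_left (hUY n) _) ?_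
        exact ENNReal.tsum_le_tsum fun L1 => ENNReal.tsum_le_tsum fun L2 =>
          mul_le_mul_right (e2 L1 L2) _
    _ = ovm ΛX hX a i0 + ((∑' L1, ∑' L2, w2 ΛX hX a i0 b L1 L2) * ovm ΛY hY a' i0
        + ∑' L1, ∑' L2, w2 ΛX hX a i0 b L1 L2 * ∑' M1, ∑' M2, w2 ΛY hY a' i0 b' M1 M2 *
        (if EvP L1 L2 M1 M2 then 1 else 0)) := by
        rw [one_mul]
        congr 1
        rw [← ENNReal.tsum_mul_right, ← ENNReal.tsum_add]
        refine tsum_congr fun L1 => ?_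
        rw [← ENNReal.tsum_mul_right, ← ENNReal.tsum_add]
        refine tsum_congr fun L2 => ?_
        rw [mul_add]
    _ ≤ _ := by
        refine add_le_add le_rfl (add_le_add ?_ le_rfl)
        calc _ ≤ 1 * ovm ΛY hY a' i0 := mul_le_mul_left (w2_total ΛX hX h1X hΛX a i0 b) _
          _ = _ := one_mul _

end two

end Crest.Agent.R154.Asm66
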