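import Crest.Agent.R154.AsmL_707
import Crest.Agent.R154.Num_869
import Crest.Agent.R154.Bind801_12

/-! Row 154, ROAD 801 (helper707): the two-walker list assembly, one window. -/

set_option autoImplicit false

namespace Crest.Agent.R154.Asm707

open scoped ENNReal
open Crest.Agent.R154.B5A Crest.Agent.R154.Ren396
open Crest.Agent.R154.Bind12 (TT Dp)

section one

variable {B G : Type*} [AddCommGroup G] (s : B → Set (G × ℕ)) (z : B → G) (h : B → ℕ)

lemma TT_append (L L' : List B) (x : G) (a : ℕ) :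
    TT s z h (L ++ L') x a = TT s z h L x a ∪ TT s z h L' (x + dp z L) (a + HT h L) := by
  induction L generalizing x a with
  | nil => simp [TT, dp, HT_nil]
  | cons b L ih =>
    have e1 : x + z b + dp z L = x + dp z (b :: L) := by
      simp only [dp, List.map_cons, List.sum_cons]; abel
    have e2 : a + h b + HT h L = a + HT h (b :: L) := by rw [HT_cons]; omega
    simp only [List.cons_append, TT, ih, Set.union_assoc]
    rw [e1, e2]

lemma TT_depth (hs : ∀ b, ∀ p ∈ s b, 1 ≤ p.2 ∧ p.2 ≤ h b) (L : List B) (x : G) (a : ℕ)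
    (g : G) (k : ℕ) (hp : (g, k) ∈ TT s z h L x a) : a < k ∧ k ≤ a + HT h L := by
  induction L generalizing x a with
  | nil => simp [TT] at hp
  | cons b L ih =>
    rw [HT_cons]
    simp only [TT] at hp
    rcases hp with ⟨q, hq, hp⟩ | hp
    · obtain ⟨h3, h4⟩ := hs b q hq
      have := (Prod.mk.inj hp).2
      omega
    · have := ih _ _ hp
      omega

lemma TT_shift (L : List B) (x y : G) (a : ℕ) (g : G) (k : ℕ) :
    (g, k) ∈ TT s z h L (x + y) a ↔ (g - y, k) ∈ TT s z h L x a := by
  induction L generalizing x a with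
  | nil => simp [TT]
  | cons b L ih =>
    simp only [TT]
    rw [Set.mem_union, Set.mem_union, show x + y + z b = x + z b + y by abel, ih]
    constructor
    · rintro (⟨q, hq, hp⟩ | h1)
      · obtain ⟨h3, h4⟩ := Prod.mk.inj hp
        refine Or.inl ⟨q, hq, Prod.ext ?_ h4⟩
        simp only [h3]; abel
      · exact Or.inr h1
    · rintro (⟨q, hq, hp⟩ | h1)
      · obtain ⟨h3, h4⟩ := Prod.mk.inj hp
        refine Or.inl ⟨q, hq, Prod.ext ?_ h4⟩
        simp only
        have : g = (g - y) + y := by abel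
        rw [this, h3]; abel
      · exact Or.inr h1

end one

section two

variable {BX BY G : Type*} [AddCommGroup G]
  (ΛX : BX → ℝ≥0∞) (ΛY : BY → ℝ≥0∞) (hX : BX → ℕ) (hY : BY → ℕ) (zX : BX → G) (zY : BY → G)
  (sX : BX → Set (G × ℕ)) (sY : BY → Set (G × ℕ))

/-- common site of the `X`-list at `(0, a)` and the `Y`-list at `(x, a')`, at `g`, depth `k` -/
def Ct (L : List BX) (L' : List BY) (x : G) (a a' : ℕ) (g : G) (k : ℕ) : Prop :=
  (g, k) ∈ TT sX zX hX L 0 a ∧ (g, k) ∈ TT sY zY hY L' x a'

open Classical in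
/-- `X` local window lemma -/
def H2 (C : ℝ≥0∞) (us : ℕ → ℝ≥0∞) : Prop :=
  ∀ (s h h' a a' lo : ℕ) (E : Finset G) (μ : G → ℝ≥0∞) (M lam : ℝ≥0∞), ∑' x, μ x ≤ 1 →
    (∀ x, μ x ≤ M) → lam ≠ 0 → lam ≠ ⊤ → a ≤ a' → a + s ≤ lo → a' + s ≤ lo →
    ∑' x, μ x * ∑' L : List BX, ∑' L' : List BY,
      (if HT hX L = h ∧ dp zX L ∈ E ∧ HT hY L' = h' ∧
          (∃ g k, Ct hX hY zX zY sX sY L L' x a a' g k) ∧
          (∀ g k, Ct hX hY zX zY sX sY L L' x a a' g k → lo ≤ k) then LW ΛX L * LW ΛY L' else 0)
      ≤ C * (lam + M * E.card * us s / lam + us s)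

open Classical in
/-- `Y` local window lemma -/
def H3 (C : ℝ≥0∞) (us : ℕ → ℝ≥0∞) : Prop :=
  ∀ (s h h' a a' hi : ℕ) (E : Finset G) (μ : G → ℝ≥0∞) (M lam : ℝ≥0∞), ∑' x, μ x ≤ 1 →
    (∀ x, μ x ≤ M) → lam ≠ 0 → lam ≠ ⊤ → a + h ≤ a' + h' → hi + s ≤ a + h → hi + s ≤ a' + h' →
    ∑' x, μ x * ∑' L : List BX, ∑' L' : List BY,
      (if HT hX L = h ∧ HT hY L' = h' ∧ dp zY L' ∈ E ∧
          (∃ g k, Ct hX hY zX zY sX sY L L' x a a' g k) ∧
          (∀ g k, Ct hX hY zX zY sX sY L L' x a a' g k → k ≤ hi) then LW ΛX L * LW ΛY L' else 0)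
      ≤ C * (lam + M * E.card * us s / lam + us s)

open Classical in
/-- crossing pairs of height `n` having a common site with depth in `S` -/
noncomputable def KS (n : ℕ) (w : G) (S : Set ℕ) : ℝ≥0∞ :=
  ∑' L : List BX, ∑' L' : List BY,
    (if HT hX L = n ∧ HT hY L' = n ∧ ∃ g k, k ∈ S ∧ Ct hX hY zX zY sX sY L L' w 0 0 g k
      then LW ΛX L * LW ΛY L' else 0)

open Classical in
/-- crossing pairs of height `n` whose first contact depth lies in `[a, b)` -/
noncomputable def Win (n a b : ℕ) (w : G) : ℝ≥0∞ :=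
  ∑' L : List BX, ∑' L' : List BY,
    (if HT hX L = n ∧ HT hY L' = n ∧
      (∀ g k, Ct hX hY zX zY sX sY L L' w 0 0 g k → a ≤ k) ∧
      (∃ g k, Ct hX hY zX zY sX sY L L' w 0 0 g k ∧ k < b)
      then LW ΛX L * LW ΛY L' else 0)

/-- contact event of two pieces -/
def PE (lo hi a a' : ℕ) (x : G) (L : List BX) (L' : List BY) : Prop :=
  (∃ g k, Ct hX hY zX zY sX sY L L' x a a' g k) ∧
    (∀ g k, Ct hX hY zX zY sX sY L L' x a a' g k → lo ≤ k ∧ k ≤ hi)

lemma swapX {α β γ δ : Type*} (a : α → ℝ≥0∞) (b : β → ℝ≥0∞) (c : γ → ℝ≥0∞) (e : δ → ℝ≥0∞)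
    (f : α → β → γ → δ → ℝ≥0∞) :
    ∑' p, ∑' q, a p * b q * ∑' r, ∑' s, c r * e s * f p q r s
      = ∑' r, c r * ∑' p, ∑' q, a p * b q * ∑' s, e s * f p q r s := by
  simp only [← ENNReal.tsum_mul_left]
  have e1 : ∀ p, ∑' q, ∑' r, ∑' s, a p * b q * (c r * e s * f p q r s)
      = ∑' r, ∑' q, ∑' s, a p * b q * (c r * e s * f p q r s) := fun p => ENNReal.tsum_comm
  simp_rw [e1]
  rw [ENNReal.tsum_comm]
  refine tsum_congr fun r => tsum_congr fun p => tsum_congr fun q => tsum_congr fun s => ?_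
  ring

lemma swapY {α β γ δ : Type*} (a : α → ℝ≥0∞) (b : β → ℝ≥0∞) (c : γ → ℝ≥0∞) (e : δ → ℝ≥0∞)
    (f : α → β → γ → δ → ℝ≥0∞) :
    ∑' p, ∑' q, a p * b q * ∑' r, ∑' s, c r * e s * f p q r s
      = ∑' p, a p * ∑' r, ∑' s, c r * e s * ∑' q, b q * f p q r s := by
  simp only [← ENNReal.tsum_mul_left]
  refine tsum_congr fun p => ?_
  rw [ENNReal.tsum_comm]
  refine tsum_congr fun r => ?_
  rw [ENNReal.tsum_comm]
  refine tsum_congr fun s => tsum_congr fun q => ?_
  ring

/-- weight of one walker pushed to the heights `T + j` -/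
lemma wt_heights {B : Type*} (Λ : B → ℝ≥0∞) (ht : B → ℕ) (T i0 : ℕ) (f : List B → ℝ≥0∞) :
    open Classical in
    ∑' P, wt Λ ht T i0 P * f P ≤ ∑ j ∈ Finset.range (i0 + 1), ∑' P : List B,
      (if HT ht P = T + j then LW Λ P * f P else 0) := by
  classical
  rw [← Summable.tsum_finsetSum (fun _ _ => ENNReal.summable)]
  refine ENNReal.tsum_le_tsum fun P => ?_
  unfold wt
  by_cases h : FR ht P T ∧ HT ht P ≤ T + i0
  · rw [if_pos h]
    have h5 := FR_le ht h.1
    have e : T + (HT ht P - T) = HT ht P := by omega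
    refine le_trans ?_ (Finset.single_le_sum (f := fun j =>
      (if HT ht P = T + j then LW Λ P * f P else 0))
      (fun _ _ => zero_le)
      (Finset.mem_range.2 (show HT ht P - T < i0 + 1 by omega)))
    simp only [e, if_true]
    exact le_rfl
  · rw [if_neg h, zero_mul]; exact zero_le

open Classical in
/-- **one window** -/
theorem win_le (hΛX : ∑' b, ΛX b = 1) (hΛY : ∑' b, ΛY b = 1) (h1X : ∀ b, 1 ≤ hX b)
    (h1Y : ∀ b, 1 ≤ hY b) (hUX : ∀ n, U ΛX hX n ≤ 1) (hUY : ∀ n, U ΛY hY n ≤ 1)
    (hsX : ∀ b, ∀ p ∈ sX b, 1 ≤ p.2 ∧ p.2 ≤ hX b) (hsY : ∀ b, ∀ p ∈ sY b, 1 ≤ p.2 ∧ p.2 ≤ hY b)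
    (C : ℝ≥0∞) (us : ℕ → ℝ≥0∞) (hH2 : H2 ΛX ΛY hX hY zX zY sX sY C us)
    (hH3 : H3 ΛX ΛY hX hY zX zY sX sY C us)
    (u lam : ℝ≥0∞) (hu0 : u ≠ 0) (hu1 : u ≤ 1) (hl0 : lam ≠ 0) (hlt : lam ≠ ⊤)
    (i0 J s t k n : ℕ) (hiX : TS ΛX hX (i0 + 1) ≤ u / 2) (hiY : TS ΛY hY (i0 + 1) ≤ u / 2)
    (ht : 2 * i0 + s < t) (hJ : 4 * J + 1 ≤ k) (hn : (k + 4) * t ≤ n) (w : G) :
    Win ΛX ΛY hX hY zX zY sX sY n (k * t) ((k + 1) * t) w
      ≤ KS ΛX ΛY hX hY zX zY sX sY n w {κ | (k + 2) * t - s < κ ∧ κ ≤ (k + 2) * t + 2 * i0}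
        + 2 * (TS ΛX hX (i0 + 1) + TS ΛY hY (i0 + 1)) + u * u
        + 2 * ((i0 + 1) ^ 3 * (C * (lam + (i0 + 1) / (u / 2) * us s / lam + us s))
          + ((1 - u / 2) ^ J + J * (TS ΛX hX (i0 + 1) + TS ΛY hY (i0 + 1)))) := by
  set eX := TS ΛX hX (i0 + 1) with heX
  set eY := TS ΛY hY (i0 + 1) with heY
  obtain ⟨q, rfl⟩ : ∃ q, k = q + 1 := ⟨k - 1, by omega⟩
  set A := q * t with hA
  set T := 3 * t with hT
  set lo := (q + 1) * t with hlo
  set hi := (q + 1 + 2) * t - s with hhi
  have hlo' : lo = A + t := by rw [hlo, hA]; ring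
  have hk2 : (q + 1 + 2) * t = A + 3 * t := by rw [hA]; ring
  have hk1 : (q + 1 + 1) * t = A + 2 * t := by rw [hA]; ring
  have hk4 : (q + 1 + 4) * t = A + 5 * t := by rw [hA]; ring
  rw [hk4] at hn
  rw [hk2] at hhi
  rw [hk2, hk1, hhi]
  have hJA : 4 * J * t ≤ A := by rw [hA]; exact Nat.mul_le_mul_right t (by omega)
  -- pieces
  obtain ⟨θX, hθX0, hθX1, hnX, hlX, hEX⟩ := piece ΛX hX zX hΛX h1X hUX T i0 hu0 hu1 hiX
  obtain ⟨θY, hθY0, hθY1, hnY, hlY, hEY⟩ := piece ΛY hY zY hΛY h1Y hUY (T + i0) i0 hu0 hu1 hiY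
  have hu20 : u / 2 ≠ 0 := by simp [hu0]
  set MX := (i0 + 1) * θX / (u / 2) with hMX
  set MY := (i0 + 1) * θY / (u / 2) with hMY
  have hdX := dens ΛX hX zX hΛX.le h1X T i0 θX (u / 2) eX hu20 hlX (over_le ΛX hX hUX T i0) J A
    (by nlinarith)
  have hdY := dens ΛY hY zY hΛY.le h1Y (T + i0) i0 θY (u / 2) eY hu20 hlY
    (over_le ΛY hY hUY (T + i0) i0) J (A + i0) (by nlinarith)
  -- the pointwise split
  set ev : List BX → List BY → ℝ≥0∞ := fun L L' =>
    if ((∀ g κ, Ct hX hY zX zY sX sY L L' w 0 0 g κ → lo ≤ κ) ∧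
      (∃ g κ, Ct hX hY zX zY sX sY L L' w 0 0 g κ ∧ κ < A + 2 * t)) ∧
      ¬ (∃ g κ, κ ∈ {κ | A + 3 * t - s < κ ∧ κ ≤ A + 3 * t + 2 * i0} ∧
        Ct hX hY zX zY sX sY L L' w 0 0 g κ) then 1 else 0 with hev
  have hev1 : ∀ L L', ev L L' ≤ 1 := fun L L' => by
    rw [hev]; simp only; split_ifs <;> simp
  set f : List BX → List BX → List BY → List BY → ℝ≥0∞ := fun P1 P2 Q1 Q2 =>
    if PE hX hY zX zY sX sY lo hi (HT hX P1) (HT hY Q1) (w + dp zY Q1 - dp zX P1) P2 Q2
      then 1 else 0 with hf
  -- geometry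
  have hgeo : ∀ P1 P2 P3 Q1 Q2 Q3, FR hX P1 A → HT hX P1 ≤ A + i0 → FR hX P2 T →
      HT hX P2 ≤ T + i0 → FR hY Q1 (A + i0) → HT hY Q1 ≤ A + i0 + i0 → FR hY Q2 (T + i0) →
      HT hY Q2 ≤ T + i0 + i0 → ev (P1 ++ (P2 ++ P3)) (Q1 ++ (Q2 ++ Q3)) ≤ f P1 P2 Q1 Q2 := by
    intro P1 P2 P3 Q1 Q2 Q3 a1 a2 a3 a4 b1 b2 b3 b4
    have a5 := FR_le hX a1
    have a6 := FR_le hX a3
    have b5 := FR_le hY b1
    have b6 := FR_le hY b3
    rw [hev, hf]
    simp only
    by_cases hE : ((∀ g κ, Ct hX hY zX zY sX sY (P1 ++ (P2 ++ P3)) (Q1 ++ (Q2 ++ Q3)) w 0 0 g κ →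
      lo ≤ κ) ∧ (∃ g κ, Ct hX hY zX zY sX sY (P1 ++ (P2 ++ P3)) (Q1 ++ (Q2 ++ Q3)) w 0 0 g κ ∧
        κ < A + 2 * t)) ∧
      ¬ (∃ g κ, κ ∈ {κ | A + 3 * t - s < κ ∧ κ ≤ A + 3 * t + 2 * i0} ∧
        Ct hX hY zX zY sX sY (P1 ++ (P2 ++ P3)) (Q1 ++ (Q2 ++ Q3)) w 0 0 g κ)
    · rw [if_pos hE]
      obtain ⟨⟨hE1, g, κ, ⟨hc1, hc2⟩, hκ⟩, hE3⟩ := hE
      have key : ∀ g κ, Ct hX hY zX zY sX sY P2 Q2 (w + dp zY Q1 - dp zX P1) (HT hX P1)
          (HT hY Q1) g κ ↔ ((g + dp zX P1, κ) ∈ TT sX zX hX P2 (0 + dp zX P1) (0 + HT hX P1) ∧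
            (g + dp zX P1, κ) ∈ TT sY zY hY Q2 (w + dp zY Q1) (0 + HT hY Q1)) := by
        intro g κ
        have e1 := TT_shift sX zX hX P2 0 (dp zX P1) (HT hX P1) (g + dp zX P1) κ
        have e2 := TT_shift sY zY hY Q2 (w + dp zY Q1 - dp zX P1) (dp zX P1) (HT hY Q1)
          (g + dp zX P1) κ
        rw [add_sub_cancel_right] at e1 e2
        rw [sub_add_cancel] at e2
        rw [zero_add (HT hX P1), zero_add (HT hY Q1), e1, e2]
        exact Iff.rfl
      have full : ∀ g κ, Ct hX hY zX zY sX sY P2 Q2 (w + dp zY Q1 - dp zX P1) (HT hX P1)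
          (HT hY Q1) g κ → Ct hX hY zX zY sX sY (P1 ++ (P2 ++ P3)) (Q1 ++ (Q2 ++ Q3)) w 0 0
            (g + dp zX P1) κ := by
        intro g κ hg
        rw [key] at hg
        refine ⟨?_, ?_⟩
        · rw [TT_append, TT_append]
          exact Or.inr (Or.inl hg.1)
        · rw [TT_append, TT_append]
          exact Or.inr (Or.inl hg.2)
      have hloκ := hE1 g κ ⟨hc1, hc2⟩
      rw [if_pos]
      refine ⟨⟨g - dp zX P1, κ, ?_⟩, ?_⟩
      · rw [key, sub_add_cancel]
        rw [TT_append, TT_append] at hc1 hc2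
        constructor
        · rcases hc1 with h | h | h
          · have := TT_depth sX zX hX hsX _ _ _ _ _ h
            omega
          · exact h
          · have := TT_depth sX zX hX hsX _ _ _ _ _ h
            omega
        · rcases hc2 with h | h | h
          · have := TT_depth sY zY hY hsY _ _ _ _ _ h
            omega
          · exact h
          · have := TT_depth sY zY hY hsY _ _ _ _ _ h
            omega
      · intro g' κ' hg'
        have h1 := full g' κ' hg'
        have h2 := hE1 _ _ h1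
        refine ⟨h2, ?_⟩
        by_contra hcon
        refine hE3 ⟨_, κ', ⟨by omega, ?_⟩, h1⟩
        have h3 := TT_depth sX zX hX hsX _ _ _ _ _ hg'.1
        omega
    · rw [if_neg hE]; exact zero_le
  -- reduction to the four-fold sum
  set S4 := ∑' P1, ∑' P2, wt ΛX hX A i0 P1 * wt ΛX hX T i0 P2 *
    ∑' Q1, ∑' Q2, wt ΛY hY (A + i0) i0 Q1 * wt ΛY hY (T + i0) i0 Q2 * f P1 P2 Q1 Q2 with hS4
  have hgY : ∀ L : List BX, ∑' L' : List BY, (if HT hY L' = n then LW ΛY L' * ev L L' else 0)
      ≤ 1 := by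
    intro L
    have := rest_le ΛY hY hUY 0 n 1 (ev L) (hev1 L)
    simpa using this
  have step1 : Win ΛX ΛY hX hY zX zY sX sY n lo (A + 2 * t) w
      ≤ KS ΛX ΛY hX hY zX zY sX sY n w {κ | A + 3 * t - s < κ ∧ κ ≤ A + 3 * t + 2 * i0}
        + ∑' L : List BX, (if HT hX L = n then LW ΛX L *
          ∑' L' : List BY, (if HT hY L' = n then LW ΛY L' * ev L L' else 0) else 0) := by
    unfold Win KS
    rw [← ENNReal.tsum_add]
    refine ENNReal.tsum_le_tsum fun L => ?_
    by_cases hL : HT hX L = n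
    · rw [if_pos hL, ← ENNReal.tsum_mul_left, ← ENNReal.tsum_add]
      refine ENNReal.tsum_le_tsum fun L' => ?_
      by_cases hL' : HT hY L' = n
      · rw [if_pos hL', hev]
        simp only [hL, hL', true_and]
        by_cases c1 : (∀ g κ, Ct hX hY zX zY sX sY L L' w 0 0 g κ → lo ≤ κ) ∧
          (∃ g κ, Ct hX hY zX zY sX sY L L' w 0 0 g κ ∧ κ < A + 2 * t)
        · rw [if_pos c1]
          by_cases c2 : ∃ g κ, κ ∈ {κ | A + 3 * t - s < κ ∧ κ ≤ A + 3 * t + 2 * i0} ∧
            Ct hX hY zX zY sX sY L L' w 0 0 g κ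
          · rw [if_pos c2]; exact le_self_add
          · rw [if_neg c2, if_pos ⟨c1, c2⟩, mul_one, zero_add]
        · rw [if_neg c1]; exact zero_le
      · simp [hL']
    · simp [hL]
  have step2 : ∑' L : List BX, (if HT hX L = n then LW ΛX L *
          ∑' L' : List BY, (if HT hY L' = n then LW ΛY L' * ev L L' else 0) else 0)
      ≤ 2 * eX + (2 * eY + S4) := by
    refine (three ΛX hX hUX hΛX.le h1X n A T i0 (by omega) _ hgY
      (fun P1 P2 => 2 * eY + ∑' Q1, ∑' Q2, wt ΛY hY (A + i0) i0 Q1 * wt ΛY hY (T + i0) i0 Q2 *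
        f P1 P2 Q1 Q2) ?_).trans ?_
    · intro P1 P2 P3 a1 a2 a3 a4 _
      exact three ΛY hY hUY hΛY.le h1Y n (A + i0) (T + i0) i0 (by omega) _ (hev1 _) _
        (fun Q1 Q2 Q3 b1 b2 b3 b4 _ => hgeo P1 P2 P3 Q1 Q2 Q3 a1 a2 a3 a4 b1 b2 b3 b4)
    · refine add_le_add le_rfl ?_
      simp only [mul_add, ENNReal.tsum_add]
      refine add_le_add ?_ le_rfl
      calc _ = (∑' P1, wt ΛX hX A i0 P1) * (∑' P2, wt ΛX hX T i0 P2) * (2 * eY) := by
            simp only [ENNReal.tsum_mul_right, ENNReal.tsum_mul_left]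
        _ ≤ 1 * 1 * (2 * eY) := by
            gcongr
            · exact wt_mass ΛX hX hΛX.le h1X A i0
            · exact wt_mass ΛX hX hΛX.le h1X T i0
        _ = _ := by ring
  -- local / non local
  have hRX : ∀ E : Finset G, ((E.card : ℝ≥0∞) * θX ≤ 1) →
      MX * E.card ≤ (i0 + 1) / (u / 2) := by
    intro E hE
    calc MX * E.card = (i0 + 1) / (u / 2) * (E.card * θX) := by
          rw [hMX]; simp only [div_eq_mul_inv]; ring
      _ ≤ (i0 + 1) / (u / 2) * 1 := by gcongr
      _ = _ := mul_one _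
  have hRY : ∀ E : Finset G, ((E.card : ℝ≥0∞) * θY ≤ 1) →
      MY * E.card ≤ (i0 + 1) / (u / 2) := by
    intro E hE
    calc MY * E.card = (i0 + 1) / (u / 2) * (E.card * θY) := by
          rw [hMY]; simp only [div_eq_mul_inv]; ring
      _ ≤ (i0 + 1) / (u / 2) * 1 := by gcongr
      _ = _ := mul_one _
  set R := C * (lam + (i0 + 1) / (u / 2) * us s / lam + us s) with hR
  -- X local
  have stepX : ∑' P1, ∑' P2, wt ΛX hX A i0 P1 * wt ΛX hX T i0 P2 *
      ∑' Q1, ∑' Q2, wt ΛY hY (A + i0) i0 Q1 * wt ΛY hY (T + i0) i0 Q2 *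
        (if θX ≤ W ΛX hX zX T (HT hX P2) (dp zX P2) then f P1 P2 Q1 Q2 else 0)
      ≤ (i0 + 1) ^ 3 * R + ((1 - u / 2) ^ J + J * eX) := by
    rw [swapX]
    calc _ ≤ ∑' Q1, wt ΛY hY (A + i0) i0 Q1 * ((i0 + 1) ^ 3 * R + ((1 - u / 2) ^ J + J * eX)) := by
          refine ENNReal.tsum_le_tsum fun Q1 => ?_
          by_cases hw : FR hY Q1 (A + i0) ∧ HT hY Q1 ≤ A + i0 + i0
          · refine mul_le_mul_right ?_ _
            have b5 := FR_le hY hw.1
            set Ψ : ℕ → G → List BX → ℝ≥0∞ := fun a δ P => ∑' Q2, wt ΛY hY (T + i0) i0 Q2 *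
              (if PE hX hY zX zY sX sY lo hi a (HT hY Q1) (w + dp zY Q1 - δ) P Q2 then 1 else 0)
              with hΨ
            have hl := loc ΛX hX zX hΛX.le h1X A T i0 θX MX ((1 - u / 2) ^ J + J * eX)
              ((i0 + 1) * R) hdX Ψ ?_ ?_
            · refine le_trans (le_of_eq ?_) (hl.trans (le_of_eq (by ring)))
              refine tsum_congr fun P1 => tsum_congr fun P2 => ?_
              congr 1
              by_cases hc : θX ≤ W ΛX hX zX T (HT hX P2) (dp zX P2)
              · simp only [if_pos hc]; rfl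
              · simp [if_neg hc]
            · intro a δ P
              refine le_trans (ENNReal.tsum_le_tsum fun Q2 => ?_)
                (wt_mass ΛY hY hΛY.le h1Y (T + i0) i0)
              split_ifs <;> simp
            · intro a h μ ha1 ha2 hh1 hh2 hμ1 hμ2
              obtain ⟨E, hE1, hE2⟩ := hEX h
              calc _ ≤ ∑' δ, μ δ * ∑ j ∈ Finset.range (i0 + 1), ∑' P : List BX, ∑' Q2 : List BY,
                    (if HT hX P = h ∧ dp zX P ∈ E ∧ HT hY Q2 = T + i0 + j ∧
                      PE hX hY zX zY sX sY lo hi a (HT hY Q1) (w + dp zY Q1 - δ) P Q2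
                      then LW ΛX P * LW ΛY Q2 else 0) := by
                    refine ENNReal.tsum_le_tsum fun δ => mul_le_mul_right ?_ _
                    rw [← Summable.tsum_finsetSum (fun _ _ => ENNReal.summable)]
                    refine ENNReal.tsum_le_tsum fun P => ?_
                    by_cases hc : HT hX P = h ∧ θX ≤ W ΛX hX zX T h (dp zX P)
                    · rw [if_pos hc]
                      rw [hΨ]
                      simp only
                      refine (mul_le_mul_right (wt_heights ΛY hY (T + i0) i0 _) _).trans ?_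
                      rw [Finset.mul_sum]
                      refine Finset.sum_le_sum fun j _ => ?_
                      rw [← ENNReal.tsum_mul_left]
                      refine ENNReal.tsum_le_tsum fun Q2 => ?_
                      by_cases c1 : HT hY Q2 = T + i0 + j
                      · by_cases c2 : PE hX hY zX zY sX sY lo hi a (HT hY Q1)
                            (w + dp zY Q1 - δ) P Q2
                        · rw [if_pos c1, if_pos c2, mul_one,
                            if_pos ⟨hc.1, (hE1 _).1 hc.2, c1, c2⟩]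
                        · rw [if_pos c1, if_neg c2, mul_zero, mul_zero]; exact zero_le
                      · rw [if_neg c1, mul_zero]; exact zero_le
                    · rw [if_neg hc]; exact zero_le
                _ = ∑ j ∈ Finset.range (i0 + 1), ∑' δ, μ δ * ∑' P : List BX, ∑' Q2 : List BY,
                    (if HT hX P = h ∧ dp zX P ∈ E ∧ HT hY Q2 = T + i0 + j ∧
                      PE hX hY zX zY sX sY lo hi a (HT hY Q1) (w + dp zY Q1 - δ) P Q2
                      then LW ΛX P * LW ΛY Q2 else 0) := by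
                    rw [← Summable.tsum_finsetSum (fun _ _ => ENNReal.summable)]
                    refine tsum_congr fun δ => ?_
                    rw [Finset.mul_sum]
                _ ≤ ∑ j ∈ Finset.range (i0 + 1), R := by
                    refine Finset.sum_le_sum fun j hj => ?_
                    have hj' := Finset.mem_range.1 hj
                    set y := w + dp zY Q1 with hy
                    have hre : ∑' δ, μ δ * ∑' P : List BX, ∑' Q2 : List BY,
                        (if HT hX P = h ∧ dp zX P ∈ E ∧ HT hY Q2 = T + i0 + j ∧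
                          PE hX hY zX zY sX sY lo hi a (HT hY Q1) (y - δ) P Q2
                          then LW ΛX P * LW ΛY Q2 else 0)
                        = ∑' x, μ (y - x) * ∑' P : List BX, ∑' Q2 : List BY,
                        (if HT hX P = h ∧ dp zX P ∈ E ∧ HT hY Q2 = T + i0 + j ∧
                          PE hX hY zX zY sX sY lo hi a (HT hY Q1) x P Q2
                          then LW ΛX P * LW ΛY Q2 else 0) := by
                      rw [← (Equiv.subLeft y).tsum_eq]
                      refine tsum_congr fun δ => ?_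
                      simp only [Equiv.subLeft_apply, sub_sub_cancel]
                    rw [hre]
                    have := hH2 s h (T + i0 + j) a (HT hY Q1) lo E (fun x => μ (y - x)) MX lam
                      (by
                        have := (Equiv.subLeft y).tsum_eq μ
                        simp only [Equiv.subLeft_apply] at this
                        rw [this]; exact hμ1)
                      (fun x => hμ2 _) hl0 hlt (by omega) (by omega) (by omega)
                    refine le_trans (ENNReal.tsum_le_tsum fun x => mul_le_mul_right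
                      (ENNReal.tsum_le_tsum fun P => ENNReal.tsum_le_tsum fun Q2 => ?_) _)
                      (this.trans ?_)
                    · by_cases c : HT hX P = h ∧ dp zX P ∈ E ∧ HT hY Q2 = T + i0 + j ∧
                          PE hX hY zX zY sX sY lo hi a (HT hY Q1) x P Q2
                      · obtain ⟨c1, c2, c3, c4, c5⟩ := c
                        rw [if_pos ⟨c1, c2, c3, c4, c5⟩,
                          if_pos ⟨c1, c2, c3, c4, fun g κ hg => (c5 g κ hg).1⟩]
                      · rw [if_neg c]; exact zero_le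
                    · rw [hR]
                      gcongr
                      exact hRX E hE2
                _ = _ := by simp
          · rw [wt, if_neg hw, zero_mul, zero_mul]
      _ = (∑' Q1, wt ΛY hY (A + i0) i0 Q1) * ((i0 + 1) ^ 3 * R + ((1 - u / 2) ^ J + J * eX)) :=
          ENNReal.tsum_mul_right
      _ ≤ 1 * ((i0 + 1) ^ 3 * R + ((1 - u / 2) ^ J + J * eX)) :=
          mul_le_mul_left (wt_mass ΛY hY hΛY.le h1Y (A + i0) i0) _
      _ = _ := one_mul _
  -- Y local
  have stepY : ∑' P1, ∑' P2, wt ΛX hX A i0 P1 * wt ΛX hX T i0 P2 *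
      ∑' Q1, ∑' Q2, wt ΛY hY (A + i0) i0 Q1 * wt ΛY hY (T + i0) i0 Q2 *
        (if θY ≤ W ΛY hY zY (T + i0) (HT hY Q2) (dp zY Q2) then f P1 P2 Q1 Q2 else 0)
      ≤ (i0 + 1) ^ 3 * R + ((1 - u / 2) ^ J + J * eY) := by
    rw [swapY]
    calc _ ≤ ∑' P1, wt ΛX hX A i0 P1 * ((i0 + 1) ^ 3 * R + ((1 - u / 2) ^ J + J * eY)) := by
          refine ENNReal.tsum_le_tsum fun P1 => ?_
          by_cases hw : FR hX P1 A ∧ HT hX P1 ≤ A + i0
          · refine mul_le_mul_right ?_ _
            have b5 := FR_le hX hw.1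
            set Ψ : ℕ → G → List BY → ℝ≥0∞ := fun a' δ Q => ∑' P2, wt ΛX hX T i0 P2 *
              (if PE hX hY zX zY sX sY lo hi (HT hX P1) a' (w + δ - dp zX P1) P2 Q then 1 else 0)
              with hΨ
            have hl := loc ΛY hY zY hΛY.le h1Y (A + i0) (T + i0) i0 θY MY
              ((1 - u / 2) ^ J + J * eY) ((i0 + 1) * R) hdY Ψ ?_ ?_
            · refine le_trans (le_of_eq ?_) (hl.trans (le_of_eq (by ring)))
              refine tsum_congr fun Q1 => tsum_congr fun Q2 => ?_
              congr 1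
              by_cases hc : θY ≤ W ΛY hY zY (T + i0) (HT hY Q2) (dp zY Q2)
              · simp only [if_pos hc]; rfl
              · simp [if_neg hc]
            · intro a δ P
              refine le_trans (ENNReal.tsum_le_tsum fun P2 => ?_)
                (wt_mass ΛX hX hΛX.le h1X T i0)
              split_ifs <;> simp
            · intro a' h' μ ha1 ha2 hh1 hh2 hμ1 hμ2
              obtain ⟨E, hE1, hE2⟩ := hEY h'
              calc _ ≤ ∑' δ, μ δ * ∑ j ∈ Finset.range (i0 + 1), ∑' P2 : List BX, ∑' Q : List BY,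
                    (if HT hX P2 = T + j ∧ HT hY Q = h' ∧ dp zY Q ∈ E ∧
                      PE hX hY zX zY sX sY lo hi (HT hX P1) a' (w + δ - dp zX P1) P2 Q
                      then LW ΛX P2 * LW ΛY Q else 0) := by
                    refine ENNReal.tsum_le_tsum fun δ => mul_le_mul_right ?_ _
                    have hcm : ∀ j, ∑' P2 : List BX, ∑' Q : List BY,
                      (if HT hX P2 = T + j ∧ HT hY Q = h' ∧ dp zY Q ∈ E ∧
                      PE hX hY zX zY sX sY lo hi (HT hX P1) a' (w + δ - dp zX P1) P2 Q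
                      then LW ΛX P2 * LW ΛY Q else 0) = ∑' Q : List BY, ∑' P2 : List BX,
                      (if HT hX P2 = T + j ∧ HT hY Q = h' ∧ dp zY Q ∈ E ∧
                      PE hX hY zX zY sX sY lo hi (HT hX P1) a' (w + δ - dp zX P1) P2 Q
                      then LW ΛX P2 * LW ΛY Q else 0) := fun j => ENNReal.tsum_comm
                    simp_rw [hcm]
                    rw [← Summable.tsum_finsetSum (fun _ _ => ENNReal.summable)]
                    refine ENNReal.tsum_le_tsum fun Q => ?_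
                    by_cases hc : HT hY Q = h' ∧ θY ≤ W ΛY hY zY (T + i0) h' (dp zY Q)
                    · rw [if_pos hc]
                      rw [hΨ]
                      simp only
                      refine (mul_le_mul_right (wt_heights ΛX hX T i0 _) _).trans ?_
                      rw [Finset.mul_sum]
                      refine Finset.sum_le_sum fun j _ => ?_
                      rw [← ENNReal.tsum_mul_left]
                      refine ENNReal.tsum_le_tsum fun P2 => ?_
                      by_cases c1 : HT hX P2 = T + j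
                      · by_cases c2 : PE hX hY zX zY sX sY lo hi (HT hX P1) a'
                            (w + δ - dp zX P1) P2 Q
                        · rw [if_pos c1, if_pos c2, mul_one,
                            if_pos ⟨c1, hc.1, (hE1 _).1 hc.2, c2⟩, mul_comm]
                        · rw [if_pos c1, if_neg c2, mul_zero, mul_zero]; exact zero_le
                      · rw [if_neg c1, mul_zero]; exact zero_le
                    · rw [if_neg hc]; exact zero_le
                _ = ∑ j ∈ Finset.range (i0 + 1), ∑' δ, μ δ * ∑' P2 : List BX, ∑' Q : List BY,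
                    (if HT hX P2 = T + j ∧ HT hY Q = h' ∧ dp zY Q ∈ E ∧
                      PE hX hY zX zY sX sY lo hi (HT hX P1) a' (w + δ - dp zX P1) P2 Q
                      then LW ΛX P2 * LW ΛY Q else 0) := by
                    rw [← Summable.tsum_finsetSum (fun _ _ => ENNReal.summable)]
                    refine tsum_congr fun δ => ?_
                    rw [Finset.mul_sum]
                _ ≤ ∑ j ∈ Finset.range (i0 + 1), R := by
                    refine Finset.sum_le_sum fun j hj => ?_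
                    have hj' := Finset.mem_range.1 hj
                    set y := w - dp zX P1 with hy
                    have hre : ∑' δ, μ δ * ∑' P2 : List BX, ∑' Q : List BY,
                        (if HT hX P2 = T + j ∧ HT hY Q = h' ∧ dp zY Q ∈ E ∧
                          PE hX hY zX zY sX sY lo hi (HT hX P1) a' (w + δ - dp zX P1) P2 Q
                          then LW ΛX P2 * LW ΛY Q else 0)
                        = ∑' x, μ (x - y) * ∑' P2 : List BX, ∑' Q : List BY,
                        (if HT hX P2 = T + j ∧ HT hY Q = h' ∧ dp zY Q ∈ E ∧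
                          PE hX hY zX zY sX sY lo hi (HT hX P1) a' x P2 Q
                          then LW ΛX P2 * LW ΛY Q else 0) := by
                      symm
                      rw [← (Equiv.addLeft y).tsum_eq]
                      refine tsum_congr fun δ => ?_
                      have e9 : y + δ = w + δ - dp zX P1 := by rw [hy]; abel
                      have e10 : y + δ - y = δ := add_sub_cancel_left y δ
                      change μ (y + δ - y) * (∑' P2 : List BX, ∑' Q : List BY,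
                        (if HT hX P2 = T + j ∧ HT hY Q = h' ∧ dp zY Q ∈ E ∧
                          PE hX hY zX zY sX sY lo hi (HT hX P1) a' (y + δ) P2 Q
                          then LW ΛX P2 * LW ΛY Q else 0)) = _
                      rw [e10, e9]
                    rw [hre]
                    have := hH3 s (T + j) h' (HT hX P1) a' hi E (fun x => μ (x - y)) MY lam
                      (by
                        have := (Equiv.subRight y).tsum_eq μ
                        simp only [Equiv.subRight_apply] at this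
                        rw [this]; exact hμ1)
                      (fun x => hμ2 _) hl0 hlt (by omega) (by omega) (by omega)
                    refine le_trans (ENNReal.tsum_le_tsum fun x => mul_le_mul_right
                      (ENNReal.tsum_le_tsum fun P => ENNReal.tsum_le_tsum fun Q2 => ?_) _)
                      (this.trans ?_)
                    · by_cases c : HT hX P = T + j ∧ HT hY Q2 = h' ∧ dp zY Q2 ∈ E ∧
                          PE hX hY zX zY sX sY lo hi (HT hX P1) a' x P Q2
                      · obtain ⟨c1, c2, c3, c4, c5⟩ := c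
                        rw [if_pos ⟨c1, c2, c3, c4, c5⟩,
                          if_pos ⟨c1, c2, c3, c4, fun g κ hg => (c5 g κ hg).2⟩]
                      · rw [if_neg c]; exact zero_le
                    · rw [hR]
                      gcongr
                      exact hRY E hE2
                _ = _ := by simp
          · rw [wt, if_neg hw, zero_mul, zero_mul]
      _ = (∑' P1, wt ΛX hX A i0 P1) * ((i0 + 1) ^ 3 * R + ((1 - u / 2) ^ J + J * eY)) :=
          ENNReal.tsum_mul_right
      _ ≤ 1 * ((i0 + 1) ^ 3 * R + ((1 - u / 2) ^ J + J * eY)) :=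
          mul_le_mul_left (wt_mass ΛX hX hΛX.le h1X A i0) _
      _ = _ := one_mul _
  -- both non local
  have stepN : ∑' P1, ∑' P2, wt ΛX hX A i0 P1 * wt ΛX hX T i0 P2 *
      ∑' Q1, ∑' Q2, wt ΛY hY (A + i0) i0 Q1 * wt ΛY hY (T + i0) i0 Q2 *
        ((if W ΛX hX zX T (HT hX P2) (dp zX P2) < θX then 1 else 0) *
          (if W ΛY hY zY (T + i0) (HT hY Q2) (dp zY Q2) < θY then 1 else 0)) ≤ u * u := by
    calc _ = (∑' P1, wt ΛX hX A i0 P1) * (∑' P2, wt ΛX hX T i0 P2 *
            (if W ΛX hX zX T (HT hX P2) (dp zX P2) < θX then 1 else 0)) *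
          ((∑' Q1, wt ΛY hY (A + i0) i0 Q1) * (∑' Q2, wt ΛY hY (T + i0) i0 Q2 *
            (if W ΛY hY zY (T + i0) (HT hY Q2) (dp zY Q2) < θY then 1 else 0))) := by
          rw [← ENNReal.tsum_mul_right, ← ENNReal.tsum_mul_right]
          refine tsum_congr fun P1 => ?_
          rw [← ENNReal.tsum_mul_left, ← ENNReal.tsum_mul_right]
          refine tsum_congr fun P2 => ?_
          rw [← ENNReal.tsum_mul_right, ← ENNReal.tsum_mul_left, ← ENNReal.tsum_mul_left]
          refine tsum_congr fun Q1 => ?_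
          rw [← ENNReal.tsum_mul_left, ← ENNReal.tsum_mul_left, ← ENNReal.tsum_mul_left]
          refine tsum_congr fun Q2 => ?_
          ring
      _ ≤ 1 * u * (1 * u) := by
          gcongr
          · exact wt_mass ΛX hX hΛX.le h1X A i0
          · exact wt_mass ΛY hY hΛY.le h1Y (A + i0) i0
      _ = _ := by ring
  have step3 : S4 ≤ u * u + ((i0 + 1) ^ 3 * R + ((1 - u / 2) ^ J + J * eX))
      + ((i0 + 1) ^ 3 * R + ((1 - u / 2) ^ J + J * eY)) := by
    refine le_trans ?_ (add_le_add (add_le_add stepN stepX) stepY)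
    rw [hS4, ← ENNReal.tsum_add, ← ENNReal.tsum_add]
    refine ENNReal.tsum_le_tsum fun P1 => ?_
    rw [← ENNReal.tsum_add, ← ENNReal.tsum_add]
    refine ENNReal.tsum_le_tsum fun P2 => ?_
    rw [← mul_add, ← mul_add, ← ENNReal.tsum_add, ← ENNReal.tsum_add]
    refine mul_le_mul_right (ENNReal.tsum_le_tsum fun Q1 => ?_) _
    rw [← ENNReal.tsum_add, ← ENNReal.tsum_add]
    refine ENNReal.tsum_le_tsum fun Q2 => ?_
    rw [← mul_add, ← mul_add]
    refine mul_le_mul_right ?_ _
    have hf1 : f P1 P2 Q1 Q2 ≤ 1 := by rw [hf]; simp only; split_ifs <;> simp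
    by_cases c1 : θX ≤ W ΛX hX zX T (HT hX P2) (dp zX P2)
    · rw [if_pos c1]
      exact le_trans (le_add_self) le_self_add
    · by_cases c2 : θY ≤ W ΛY hY zY (T + i0) (HT hY Q2) (dp zY Q2)
      · rw [if_pos c2]; exact le_add_self
      · rw [if_pos (not_le.1 c1), if_pos (not_le.1 c2), mul_one]
        exact hf1.trans (le_trans le_self_add le_self_add)
  calc _ ≤ _ := step1
    _ ≤ KS ΛX ΛY hX hY zX zY sX sY n w {κ | A + 3 * t - s < κ ∧ κ ≤ A + 3 * t + 2 * i0}
        + (2 * eX + (2 * eY + (u * u + ((i0 + 1) ^ 3 * R + ((1 - u / 2) ^ J + J * eX))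
      + ((i0 + 1) ^ 3 * R + ((1 - u / 2) ^ J + J * eY))))) := by
        gcongr
        refine step2.trans ?_
        gcongr
    _ ≤ KS ΛX ΛY hX hY zX zY sX sY n w {κ | A + 3 * t - s < κ ∧ κ ≤ A + 3 * t + 2 * i0}
        + (2 * eX + (2 * eY + (u * u + ((i0 + 1) ^ 3 * R + ((1 - u / 2) ^ J + J * (eX + eY)))
      + ((i0 + 1) ^ 3 * R + ((1 - u / 2) ^ J + J * (eX + eY)))))) := by
        gcongr
        · exact le_self_add
        · exact le_add_self
    _ = _ := by ring

end two

end Crest.Agent.R154.Asm707
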