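import Crest.Agent.R154.B5Abs_566

/-! Row 154 (helper855): abstract assembly of ROAD 801 (single-walker lists): first passage
functional, overshoot, density. -/

set_option autoImplicit false
set_option linter.unusedVariables false
set_option linter.unusedSectionVars false

namespace Crest.Agent.R154.Asm855

open scoped ENNReal
open B5A

section One

variable {B : Type*}

/-- first passage lists of level `a` -/
def att (ht : B → ℕ) : List B → ℕ → Prop
  | [], a => a = 0
  | b :: L, a => 0 < a ∧ att ht L (a - ht b)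

variable (Λ : B → ℝ≥0∞) (ht : B → ℕ)

open Classical in
/-- indicator -/
noncomputable def ind (p : Prop) : ℝ≥0∞ := if p then 1 else 0

lemma ind_le_one (p : Prop) : ind p ≤ 1 := by unfold ind; split_ifs <;> simp
lemma ind_true {p : Prop} (h : p) : ind p = 1 := by simp [ind, h]
lemma ind_false {p : Prop} (h : ¬ p) : ind p = 0 := by simp [ind, h]
lemma ind_mono {p q : Prop} (h : p → q) : ind p ≤ ind q := by
  by_cases hp : p
  · rw [ind_true hp, ind_true (h hp)]
  · rw [ind_false hp]; exact zero_le

open Classical in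
noncomputable def E (a : ℕ) (F : List B → ℝ≥0∞) : ℝ≥0∞ :=
  ∑' L : List B, if att ht L a then LW Λ L * F L else 0

lemma E_zero (F : List B → ℝ≥0∞) : E Λ ht 0 F = F [] := by
  rw [E, tsum_list]
  simp [att, LW_nil]

lemma E_pos {a : ℕ} (ha : 0 < a) (F : List B → ℝ≥0∞) :
    E Λ ht a F = ∑' b, Λ b * E Λ ht (a - ht b) (fun L => F (b :: L)) := by
  rw [E, tsum_list]
  have h0 : ¬ att ht ([] : List B) a := by simp only [att]; omega
  rw [if_neg h0, zero_add]
  refine tsum_congr fun b => ?_
  rw [E, ← ENNReal.tsum_mul_left]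
  refine tsum_congr fun L => ?_
  have e : att ht (b :: L) a ↔ att ht L (a - ht b) := by simp [att, ha]
  by_cases h : att ht L (a - ht b)
  · rw [if_pos (e.2 h), if_pos h, LW_cons, mul_assoc]
  · rw [if_neg (fun h' => h (e.1 h')), if_neg h, mul_zero]

lemma att_le (L : List B) (a : ℕ) (h : att ht L a) : a ≤ HT ht L := by
  induction L generalizing a with
  | nil => simp only [att] at h; omega
  | cons b L ih =>
    simp only [att] at h
    have := ih _ h.2
    rw [HT_cons]; omega

lemma att_unique (P P' A A' : List B) (T : ℕ) (h : att ht P T) (h' : att ht P' T)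
    (e : P ++ A = P' ++ A') : P = P' ∧ A = A' := by
  induction P generalizing P' T with
  | nil =>
    simp only [att] at h
    subst h
    cases P' with
    | nil => simpa using e
    | cons b L => simp [att] at h'
  | cons b P ih =>
    simp only [att] at h
    cases P' with
    | nil => simp only [att] at h'; omega
    | cons b' P' =>
      simp only [att] at h'
      simp only [List.cons_append, List.cons.injEq] at e
      obtain ⟨e1, e2⟩ := e
      subst e1
      obtain ⟨r1, r2⟩ := ih P' _ h.2 h'.2 e2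
      exact ⟨by rw [r1], r2⟩

lemma E_mono (a : ℕ) {F G : List B → ℝ≥0∞} (h : ∀ L, att ht L a → F L ≤ G L) :
    E Λ ht a F ≤ E Λ ht a G := by
  refine ENNReal.tsum_le_tsum fun L => ?_
  by_cases hL : att ht L a
  · simp only [hL, if_true]; exact mul_le_mul_right (h L hL) _
  · simp [hL]

lemma E_congr (a : ℕ) {F G : List B → ℝ≥0∞} (h : ∀ L, att ht L a → F L = G L) :
    E Λ ht a F = E Λ ht a G :=
  le_antisymm (E_mono Λ ht a fun L hL => (h L hL).le) (E_mono Λ ht a fun L hL => (h L hL).ge)

lemma E_add (a : ℕ) (F G : List B → ℝ≥0∞) :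
    E Λ ht a (fun L => F L + G L) = E Λ ht a F + E Λ ht a G := by
  rw [E, E, E, ← ENNReal.tsum_add]
  refine tsum_congr fun L => ?_
  split_ifs <;> simp [mul_add]

lemma E_smul (a : ℕ) (c : ℝ≥0∞) (F : List B → ℝ≥0∞) :
    E Λ ht a (fun L => c * F L) = c * E Λ ht a F := by
  rw [E, E, ← ENNReal.tsum_mul_left]
  refine tsum_congr fun L => ?_
  split_ifs <;> simp [mul_left_comm]

lemma E_smul' (a : ℕ) (c : ℝ≥0∞) (F : List B → ℝ≥0∞) :
    E Λ ht a (fun L => F L * c) = E Λ ht a F * c := by
  simp_rw [mul_comm _ c]; exact E_smul Λ ht a c F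

lemma E_tsum {ι : Type*} (a : ℕ) (F : ι → List B → ℝ≥0∞) :
    E Λ ht a (fun L => ∑' i, F i L) = ∑' i, E Λ ht a (F i) := by
  simp only [E]
  rw [ENNReal.tsum_comm]
  refine tsum_congr fun L => ?_
  split_ifs
  · rw [ENNReal.tsum_mul_left]
  · simp

variable (h1 : ∀ b, 1 ≤ ht b) (hΛ : ∑' b, Λ b = 1)
include h1 hΛ

lemma E_one (a : ℕ) : E Λ ht a (fun _ => 1) = 1 := by
  induction a using Nat.strong_induction_on with
  | _ a ih =>
    rcases Nat.eq_zero_or_pos a with rfl | ha
    · rw [E_zero]
    · rw [E_pos Λ ht ha]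
      refine (tsum_congr fun b => ?_).trans hΛ
      have := h1 b
      rw [ih (a - ht b) (by omega), mul_one]

lemma E_const (a : ℕ) (c : ℝ≥0∞) : E Λ ht a (fun _ => c) = c := by
  have := E_smul' Λ ht a c (fun _ => 1)
  simpa [E_one Λ ht h1 hΛ a] using this

lemma E_le_const (a : ℕ) (c : ℝ≥0∞) (F : List B → ℝ≥0∞) (h : ∀ L, att ht L a → F L ≤ c) :
    E Λ ht a F ≤ c := (E_mono Λ ht a h).trans (E_const Λ ht h1 hΛ a c).le

omit hΛ in
lemma E_markov (a c : ℕ) (hac : a ≤ c) (F : List B → ℝ≥0∞) :
    E Λ ht c F = E Λ ht a (fun A => E Λ ht (c - HT ht A) (fun P => F (A ++ P))) := by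
  induction a using Nat.strong_induction_on generalizing c F with
  | _ a ih =>
    rcases Nat.eq_zero_or_pos a with rfl | ha
    · rw [E_zero]; simp [HT_nil]
    · rw [E_pos Λ ht ha, E_pos Λ ht (lt_of_lt_of_le ha hac)]
      refine tsum_congr fun b => ?_
      have := h1 b
      rw [ih (a - ht b) (by omega) (c - ht b) (by omega) (fun L => F (b :: L))]
      congr 1
      refine E_congr Λ ht _ fun A _ => ?_
      rw [HT_cons, Nat.sub_sub]
      rfl

omit hΛ in
open Classical in
/-- decomposition of the crossings of height `n` -/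
lemma HT_markov (a n : ℕ) (han : a ≤ n) (F : List B → ℝ≥0∞) :
    ∑' L : List B, (if HT ht L = n then LW Λ L * F L else 0)
      = E Λ ht a (fun A => ∑' R : List B,
          (if HT ht A + HT ht R = n then LW Λ R * F (A ++ R) else 0)) := by
  induction a using Nat.strong_induction_on generalizing n F with
  | _ a ih =>
    rcases Nat.eq_zero_or_pos a with rfl | ha
    · rw [E_zero]; simp [HT_nil]
    · rw [E_pos Λ ht ha, tsum_list]
      rw [if_neg (by rw [HT_nil]; omega), zero_add]
      refine tsum_congr fun b => ?_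
      have hb := h1 b
      by_cases hbn : ht b ≤ n
      · have e1 : ∑' L : List B, (if HT ht (b :: L) = n then LW Λ (b :: L) * F (b :: L) else 0)
            = Λ b * ∑' L : List B, (if HT ht L = n - ht b then LW Λ L * F (b :: L) else 0) := by
          rw [← ENNReal.tsum_mul_left]
          refine tsum_congr fun L => ?_
          rw [HT_cons, LW_cons]
          by_cases h : HT ht L = n - ht b
          · rw [if_pos h, if_pos (by omega), mul_assoc]
          · rw [if_neg h, if_neg (by omega), mul_zero]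
        rw [e1, ih (a - ht b) (by omega) (n - ht b) (by omega) (fun L => F (b :: L))]
        congr 1
        refine E_congr Λ ht _ fun A _ => ?_
        refine tsum_congr fun R => ?_
        rw [HT_cons]
        by_cases h : HT ht A + HT ht R = n - ht b
        · rw [if_pos h, if_pos (by omega)]; rfl
        · rw [if_neg h, if_neg (by omega)]
      · have e1 : ∀ L : List B, ¬ (HT ht (b :: L) = n) := fun L => by rw [HT_cons]; omega
        have e2 : ∀ A R : List B, ¬ (HT ht (b :: A) + HT ht R = n) := fun A R => by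
          rw [HT_cons]; omega
        simp only [if_neg (e1 _), if_neg (e2 _ _), tsum_zero]
        rw [E]
        simp

lemma U_le_one (n : ℕ) : U Λ ht n ≤ 1 := by
  classical
  have h := renewal_one Λ ht h1 hΛ n
  have h0 : tail Λ ht 0 = 1 := by
    rw [← hΛ, tail]
    exact tsum_congr fun b => by rw [if_pos (by have := h1 b; omega)]
  calc U Λ ht n = U Λ ht (n - 0) * tail Λ ht 0 := by rw [h0, mul_one]; simp
    _ ≤ ∑ k ∈ Finset.range (n + 1), U Λ ht (n - k) * tail Λ ht k :=
        Finset.single_le_sum (f := fun k => U Λ ht (n - k) * tail Λ ht k)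
          (fun _ _ => zero_le) (Finset.mem_range.2 (Nat.succ_pos n))
    _ = 1 := h

open Classical in
/-- crossings of height `n`: functionals dominated by a functional of the first passage list -/
lemma HT_le_E (a n : ℕ) (han : a ≤ n) (F : List B → ℝ≥0∞) (F' : List B → ℝ≥0∞)
    (hF : ∀ A R, att ht A a → F (A ++ R) ≤ F' A) :
    ∑' L : List B, (if HT ht L = n then LW Λ L * F L else 0) ≤ E Λ ht a F' := by
  rw [HT_markov Λ ht h1 a n han]
  refine E_mono Λ ht a fun A hA => ?_
  calc ∑' R : List B, (if HT ht A + HT ht R = n then LW Λ R * F (A ++ R) else 0)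
      ≤ ∑' R : List B, (if HT ht R = n - HT ht A then LW Λ R else 0) * F' A := by
        refine ENNReal.tsum_le_tsum fun R => ?_
        by_cases h : HT ht A + HT ht R = n
        · rw [if_pos h, if_pos (by omega)]; exact mul_le_mul_right (hF A R hA) _
        · rw [if_neg h]; exact zero_le
    _ = U Λ ht (n - HT ht A) * F' A := by rw [ENNReal.tsum_mul_right, U]
    _ ≤ 1 * F' A := mul_le_mul_left (U_le_one Λ ht h1 hΛ _) _
    _ = F' A := one_mul _

/-- overshoot -/
lemma oshoot (i0 a : ℕ) :
    E Λ ht a (fun A => ind (a + i0 < HT ht A)) ≤ ∑' j, tail Λ ht (j + i0) := by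
  have key : ∀ a, E Λ ht a (fun A => ind (a + i0 < HT ht A))
      ≤ ∑ j ∈ Finset.range a, tail Λ ht (j + 1 + i0) := by
    intro a
    induction a using Nat.strong_induction_on with
    | _ a ih =>
      rcases Nat.eq_zero_or_pos a with rfl | ha
      · rw [E_zero]; simp [ind, HT_nil]
      · rw [E_pos Λ ht ha]
        obtain ⟨a', rfl⟩ : ∃ a', a = a' + 1 := ⟨a - 1, by omega⟩
        have hstep : ∀ b, Λ b * E Λ ht (a' + 1 - ht b)
            (fun L => ind (a' + 1 + i0 < HT ht (b :: L)))
            ≤ (if a' + 1 + i0 < ht b then Λ b else 0)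
              + Λ b * ∑ j ∈ Finset.range a', tail Λ ht (j + 1 + i0) := by
          intro b
          have hb := h1 b
          by_cases hbig : a' + 1 ≤ ht b
          · have e0 : a' + 1 - ht b = 0 := by omega
            rw [e0, E_zero, HT_cons, HT_nil, add_zero]
            by_cases h : a' + 1 + i0 < ht b
            · rw [ind_true h, if_pos h, mul_one]; exact le_self_add
            · rw [ind_false h, mul_zero]; exact zero_le
          · have e1 : E Λ ht (a' + 1 - ht b) (fun L => ind (a' + 1 + i0 < HT ht (b :: L)))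
                = E Λ ht (a' + 1 - ht b) (fun L => ind (a' + 1 - ht b + i0 < HT ht L)) := by
              refine E_congr Λ ht _ fun L _ => ?_
              rw [HT_cons]
              unfold ind
              congr 1
              simp only [eq_iff_iff]
              omega
            rw [e1]
            refine le_add_left (mul_le_mul_right ?_ _)
            refine (ih (a' + 1 - ht b) (by omega)).trans ?_
            exact Finset.sum_le_sum_of_subset (Finset.range_mono (by omega))
        calc _ ≤ ∑' b, ((if a' + 1 + i0 < ht b then Λ b else 0)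
              + Λ b * ∑ j ∈ Finset.range a', tail Λ ht (j + 1 + i0)) :=
              ENNReal.tsum_le_tsum hstep
          _ = tail Λ ht (a' + 1 + i0) + ∑ j ∈ Finset.range a', tail Λ ht (j + 1 + i0) := by
              rw [ENNReal.tsum_add, ENNReal.tsum_mul_right, hΛ, one_mul]; rfl
          _ = _ := by rw [Finset.sum_range_succ, add_comm]
  refine (key a).trans ?_
  calc ∑ j ∈ Finset.range a, tail Λ ht (j + 1 + i0)
      ≤ ∑' j, tail Λ ht (j + 1 + i0) := ENNReal.sum_le_tsum _
    _ ≤ ∑' j, tail Λ ht (j + i0) :=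
        ENNReal.tsum_comp_le_tsum_of_injective (add_left_injective 1)
          (fun j => tail Λ ht (j + i0))

/-! ### attempts and density -/

section Dens

variable {G : Type*} [AddCommGroup G] (z : B → G) (T i0 : ℕ)

/-- lateral displacement of a list -/
def Dp (z : B → G) (L : List B) : G := (L.map z).sum

/-- law of an attempt -/
noncomputable def pp (i : ℕ) (x : G) : ℝ≥0∞ :=
  E Λ ht T (fun P => ind (HT ht P = T + i ∧ Dp z P = x))

/-- the attempt law seen on a list -/
noncomputable def pl (P : List B) : ℝ≥0∞ := pp Λ ht z T (HT ht P - T) (Dp z P)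

omit h1 hΛ in
lemma ind_tsum (P : List B) (hP : T ≤ HT ht P) (g : ℕ → G → ℝ≥0∞) :
    g (HT ht P - T) (Dp z P) = ∑' i, ∑' x, ind (HT ht P = T + i ∧ Dp z P = x) * g i x := by
  classical
  rw [tsum_eq_single (HT ht P - T), tsum_eq_single (Dp z P)]
  · rw [ind_true ⟨by omega, rfl⟩, one_mul]
  · intro x hx; rw [ind_false (fun h => hx h.2.symm), zero_mul]
  · intro i hi
    rw [ENNReal.tsum_eq_zero]
    intro x
    rw [ind_false (fun h => hi (by omega)), zero_mul]

omit h1 hΛ in
lemma E_pp (g : ℕ → G → ℝ≥0∞) :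
    E Λ ht T (fun P => g (HT ht P - T) (Dp z P)) = ∑' i, ∑' x, pp Λ ht z T i x * g i x := by
  rw [E_congr Λ ht T (fun P hP => ind_tsum ht z T P (att_le ht P T hP) g)]
  rw [E_tsum]
  refine tsum_congr fun i => ?_
  rw [E_tsum]
  refine tsum_congr fun x => ?_
  rw [E_smul', pp]

/-- smooth lists: among the first `N` attempts (overshoot at most `i0`) one is special -/
def sm (θ : ℝ≥0∞) : ℕ → List B → Prop
  | 0, _ => False
  | N + 1, A => ∃ P A', A = P ++ A' ∧ att ht P T ∧ HT ht P ≤ T + i0 ∧
      (pl Λ ht z T P < 2 * θ ∨ sm θ N A')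

variable (θ u : ℝ≥0∞)

/-- mass of the lists without special attempt -/
lemma rough (e1 : ℝ≥0∞) (he1 : ∑' j, tail Λ ht (j + i0) ≤ e1)
    (q : ℝ≥0∞) (hq1 : q ≤ 1)
    (hq : E Λ ht T (fun P => ind (¬ pl Λ ht z T P < 2 * θ)) ≤ q) (N : ℕ) :
    ∀ a, N * (T + i0) ≤ a →
      E Λ ht a (fun A => ind (¬ sm Λ ht z T i0 θ N A)) ≤ N * e1 + q ^ N := by
  induction N with
  | zero => intro a _; exact E_le_const Λ ht h1 hΛ a _ _ (fun L _ => by simpa using ind_le_one _)
  | succ N ih =>
    intro a ha
    have hTa : T ≤ a := by nlinarith [Nat.zero_le (N * (T + i0))]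
    rw [E_markov Λ ht h1 T a hTa]
    have hstep : ∀ P, att ht P T →
        E Λ ht (a - HT ht P) (fun A => ind (¬ sm Λ ht z T i0 θ (N + 1) (P ++ A)))
          ≤ ind (T + i0 < HT ht P)
            + ind (¬ pl Λ ht z T P < 2 * θ) * (N * e1 + q ^ N) := by
      intro P hP
      by_cases hh : T + i0 < HT ht P
      · rw [ind_true hh]
        exact (E_le_const Λ ht h1 hΛ _ 1 _ (fun L _ => ind_le_one _)).trans le_self_add
      · by_cases hs : pl Λ ht z T P < 2 * θ
        · have : ∀ A, ind (¬ sm Λ ht z T i0 θ (N + 1) (P ++ A)) = 0 := fun A =>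
            ind_false (fun h => h ⟨P, A, rfl, hP, by omega, Or.inl hs⟩)
          simp only [this]
          rw [E_const Λ ht h1 hΛ]
          exact zero_le
        · rw [ind_true hs, one_mul]
          refine le_add_left ?_
          refine (E_mono Λ ht _ fun A _ => ?_).trans (ih (a - HT ht P) ?_)
          · exact ind_mono fun h h' => h ⟨P, A, rfl, hP, by omega, Or.inr h'⟩
          · have : (N + 1) * (T + i0) = N * (T + i0) + (T + i0) := by ring
            omega
    refine (E_mono Λ ht T hstep).trans ?_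
    rw [E_add, E_smul']
    calc _ ≤ e1 + q * (N * e1 + q ^ N) :=
          add_le_add ((oshoot Λ ht h1 hΛ i0 T).trans he1) (mul_le_mul_left hq _)
      _ ≤ _ := by
        have hq2 : q * (N * e1) ≤ N * e1 := by
          calc q * (N * e1) ≤ 1 * (N * e1) := mul_le_mul_left hq1 _
            _ = _ := one_mul _
        calc e1 + q * (N * e1 + q ^ N) = e1 + (q * (N * e1) + q * q ^ N) := by rw [mul_add]
          _ ≤ e1 + (N * e1 + q * q ^ N) := by gcongr
          _ = _ := by push_cast; ring

/-- density of the smooth lists (dual form) -/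
lemma dens (κ q : ℝ≥0∞) (hq : E Λ ht T (fun P => ind (¬ pl Λ ht z T P < 2 * θ)) ≤ q)
    (hκ : (i0 + 1 : ℕ) * (2 * θ) + q * κ ≤ κ) (N : ℕ) :
    ∀ a, N * (T + i0) ≤ a → ∀ f : G → ℝ≥0∞,
      E Λ ht a (fun A => ind (sm Λ ht z T i0 θ N A) * f (Dp z A)) ≤ κ * ∑' x, f x := by
  induction N with
  | zero =>
    intro a _ f
    have : ∀ A : List B, ind (sm Λ ht z T i0 θ 0 A) * f (Dp z A) = 0 := fun A => by
      rw [ind_false (by simp [sm]), zero_mul]
    simp only [this]
    rw [E_const Λ ht h1 hΛ]; exact zero_le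
  | succ N ih =>
    intro a ha f
    have hTa : T ≤ a := by nlinarith [Nat.zero_le (N * (T + i0))]
    rw [E_markov Λ ht h1 T a hTa]
    have hDp : ∀ P A, Dp z (P ++ A) = Dp z P + Dp z A := fun P A => by simp [Dp]
    have hsh : ∀ y : G, ∑' x, f (y + x) = ∑' x, f x := fun y => (Equiv.addLeft y).tsum_eq f
    have hsh' : ∀ y : G, ∑' x, f (x + y) = ∑' x, f x := fun y => (Equiv.addRight y).tsum_eq f
    set g1 : ℕ → G → ℝ≥0∞ := fun i x => ind (i ≤ i0 ∧ pp Λ ht z T i x < 2 * θ) *
      E Λ ht (a - (T + i)) (fun A => f (x + Dp z A)) with hg1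
    have hstep : ∀ P, att ht P T →
        E Λ ht (a - HT ht P) (fun A => ind (sm Λ ht z T i0 θ (N + 1) (P ++ A)) * f (Dp z (P ++ A)))
          ≤ g1 (HT ht P - T) (Dp z P)
            + ind (¬ pl Λ ht z T P < 2 * θ) * (κ * ∑' x, f x) := by
      intro P hP
      have hTP := att_le ht P T hP
      have huniq : ∀ A, sm Λ ht z T i0 θ (N + 1) (P ++ A) →
          HT ht P ≤ T + i0 ∧ (pl Λ ht z T P < 2 * θ ∨ sm Λ ht z T i0 θ N A) := by
        rintro A ⟨P', A', he, hP', hh, hor⟩
        obtain ⟨r1, r2⟩ := att_unique ht P P' A A' T hP hP' he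
        subst r1; subst r2
        exact ⟨hh, hor⟩
      by_cases hh : HT ht P ≤ T + i0
      · by_cases hs : pl Λ ht z T P < 2 * θ
        · refine le_add_right ?_
          have : g1 (HT ht P - T) (Dp z P) = E Λ ht (a - HT ht P) (fun A => f (Dp z P + Dp z A)) := by
            simp only [hg1]
            rw [ind_true ⟨by omega, hs⟩, one_mul, show T + (HT ht P - T) = HT ht P by omega]
          rw [this]
          refine E_mono Λ ht _ fun A _ => ?_
          rw [hDp]
          calc _ ≤ 1 * f (Dp z P + Dp z A) := mul_le_mul_left (ind_le_one _) _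
            _ = _ := one_mul _
        · rw [ind_true hs, one_mul]
          refine le_add_left ?_
          refine (E_mono Λ ht _ fun A _ => ?_).trans
            ((ih (a - HT ht P) ?_ (fun x => f (Dp z P + x))).trans (by rw [hsh]))
          · rw [hDp]
            refine mul_le_mul_left (ind_mono fun h => ?_) _
            rcases (huniq A h).2 with h' | h'
            · exact absurd h' hs
            · exact h'
          · have : (N + 1) * (T + i0) = N * (T + i0) + (T + i0) := by ring
            omega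
      · have : ∀ A, ind (sm Λ ht z T i0 θ (N + 1) (P ++ A)) * f (Dp z (P ++ A)) = 0 := fun A => by
          rw [ind_false (fun h => hh (huniq A h).1), zero_mul]
        simp only [this]
        rw [E_const Λ ht h1 hΛ]; exact zero_le
    refine (E_mono Λ ht T hstep).trans ?_
    rw [E_add, E_smul', E_pp Λ ht z T g1]
    have hA : ∑' i, ∑' x, pp Λ ht z T i x * g1 i x ≤ (i0 + 1 : ℕ) * (2 * θ) * ∑' x, f x := by
      have hi : ∀ i, ∑' x, pp Λ ht z T i x * g1 i x ≤ if i ≤ i0 then 2 * θ * ∑' x, f x else 0 := by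
        intro i
        by_cases hi : i ≤ i0
        · rw [if_pos hi]
          calc ∑' x, pp Λ ht z T i x * g1 i x
              ≤ ∑' x, 2 * θ * E Λ ht (a - (T + i)) (fun A => f (x + Dp z A)) := by
                refine ENNReal.tsum_le_tsum fun x => ?_
                simp only [hg1]
                by_cases hx : pp Λ ht z T i x < 2 * θ
                · rw [ind_true ⟨hi, hx⟩, one_mul]; exact mul_le_mul_left hx.le _
                · rw [ind_false (fun h => hx h.2), zero_mul, mul_zero]; exact zero_le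
            _ = 2 * θ * E Λ ht (a - (T + i)) (fun A => ∑' x, f (x + Dp z A)) := by
                rw [ENNReal.tsum_mul_left, E_tsum]
            _ = 2 * θ * ∑' x, f x := by
                simp only [hsh']
                rw [E_const Λ ht h1 hΛ]
        · rw [if_neg hi]
          have : ∀ x, pp Λ ht z T i x * g1 i x = 0 := fun x => by
            simp only [hg1]; rw [ind_false (fun h => hi h.1), zero_mul, mul_zero]
          simp [this]
      calc _ ≤ ∑' i, (if i ≤ i0 then 2 * θ * ∑' x, f x else 0) := ENNReal.tsum_le_tsum hi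
        _ = ∑ i ∈ Finset.range (i0 + 1), 2 * θ * ∑' x, f x := by
            rw [tsum_eq_sum (s := Finset.range (i0 + 1))]
            · exact Finset.sum_congr rfl fun i hi => if_pos (by have := Finset.mem_range.1 hi; omega)
            · intro i hi; exact if_neg (fun h => hi (Finset.mem_range.2 (by omega)))
        _ = _ := by rw [Finset.sum_const, Finset.card_range, nsmul_eq_mul]; ring
    calc _ ≤ (i0 + 1 : ℕ) * (2 * θ) * (∑' x, f x) + q * (κ * ∑' x, f x) :=
          add_le_add hA (mul_le_mul_left hq _)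
      _ = ((i0 + 1 : ℕ) * (2 * θ) + q * κ) * ∑' x, f x := by ring
      _ ≤ _ := mul_le_mul_left hκ _

end Dens

end One

/-! ### quantile -/

section Quant

variable {B : Type*} (Λ : B → ℝ≥0∞) (ht : B → ℕ) {G : Type*} [AddCommGroup G] (z : B → G) (T : ℕ)

lemma pl_pos (P : List B) (hP : att ht P T) : LW Λ P ≤ pl Λ ht z T P := by
  classical
  have hT := att_le ht P T hP
  unfold pl pp E
  refine le_trans ?_ (ENNReal.le_tsum P)
  beta_reduce
  rw [if_pos hP, ind_true ⟨by omega, rfl⟩, mul_one]

lemma quantile (h1 : ∀ b, 1 ≤ ht b) (hΛ : ∑' b, Λ b = 1) (u : ℝ≥0∞) (hu : u ≠ 0) (hu1 : u ≤ 1) :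
    ∃ θ : ℝ≥0∞, θ ≠ 0 ∧ θ ≠ ⊤ ∧ E Λ ht T (fun P => ind (pl Λ ht z T P < θ)) ≤ u ∧
      u ≤ E Λ ht T (fun P => ind (pl Λ ht z T P < 2 * θ)) := by
  classical
  have hex : ∃ k : ℕ, E Λ ht T (fun P => ind (pl Λ ht z T P < (2⁻¹ : ℝ≥0∞) ^ k)) ≤ u := by
    set f : List B → ℝ≥0∞ := fun L => if att ht L T then LW Λ L else 0 with hf
    have hfs : ∑' L, f L = 1 := by
      have := E_one Λ ht h1 hΛ T
      unfold E at this
      simpa using this
    have ht0 := ENNReal.tendsto_tsum_compl_atTop_zero (f := f) (by rw [hfs]; simp)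
    have hev := ht0.eventually_le_const (pos_iff_ne_zero.2 hu)
    obtain ⟨s, hs⟩ := hev.exists
    -- on `s` a threshold
    have hthr : ∃ k : ℕ, ∀ L ∈ s, f L ≠ 0 → (2⁻¹ : ℝ≥0∞) ^ k ≤ f L := by
      have : ∀ L ∈ s, ∃ k : ℕ, f L ≠ 0 → (2⁻¹ : ℝ≥0∞) ^ k ≤ f L := by
        intro L _
        by_cases h0 : f L = 0
        · exact ⟨0, fun h => absurd h0 h⟩
        · have hlim : Filter.Tendsto (fun k : ℕ => (2⁻¹ : ℝ≥0∞) ^ k) Filter.atTop (nhds 0) :=
            ENNReal.tendsto_pow_atTop_nhds_zero_of_lt_one (by norm_num)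
          obtain ⟨k, hk⟩ := (hlim.eventually_le_const (pos_iff_ne_zero.2 h0)).exists
          exact ⟨k, fun _ => hk⟩
      choose! k hk using this
      refine ⟨s.sup k, fun L hL h0 => le_trans ?_ (hk L hL h0)⟩
      exact pow_le_pow_right_of_le_one' (by norm_num) (Finset.le_sup hL)
    obtain ⟨k, hk⟩ := hthr
    refine ⟨k, le_trans ?_ hs⟩
    unfold E
    have hzero : ∀ L ∈ s, (if att ht L T then LW Λ L * ind (pl Λ ht z T L < (2⁻¹ : ℝ≥0∞) ^ k) else 0)
        = 0 := by
      intro L hL
      by_cases ha : att ht L T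
      · rw [if_pos ha]
        by_cases h0 : LW Λ L = 0
        · rw [h0, zero_mul]
        · have h2 : f L = LW Λ L := if_pos ha
          have h3 := hk L hL (by rw [h2]; exact h0)
          rw [ind_false (fun h => ?_), mul_zero]
          exact absurd h (not_lt.2 ((h3.trans h2.le).trans (pl_pos Λ ht z T L ha)))
      · rw [if_neg ha]
    have e0 : ∀ g : List B → ℝ≥0∞, (∀ L ∈ s, g L = 0) →
        ∑' L, g L = ∑' L : {L // L ∉ s}, g L := by
      intro g hg
      exact (tsum_subtype_eq_of_support_subset (s := {L | L ∉ s}) (fun L hL h => hL (hg L h))).symm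
    rw [e0 _ hzero]
    refine ENNReal.tsum_le_tsum fun L => ?_
    simp only [hf]
    by_cases ha : att ht L.1 T
    · rw [if_pos ha, if_pos ha]
      calc _ ≤ LW Λ L.1 * 1 := mul_le_mul_right (ind_le_one _) _
        _ = _ := mul_one _
    · rw [if_neg ha]; exact zero_le
  obtain ⟨hk, hmin⟩ := (⟨Nat.find_spec hex, fun j hj => Nat.find_min hex hj⟩ :
    E Λ ht T (fun P => ind (pl Λ ht z T P < (2⁻¹ : ℝ≥0∞) ^ Nat.find hex)) ≤ u ∧
    ∀ j, j < Nat.find hex → ¬ E Λ ht T (fun P => ind (pl Λ ht z T P < (2⁻¹ : ℝ≥0∞) ^ j)) ≤ u)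
  refine ⟨(2⁻¹ : ℝ≥0∞) ^ Nat.find hex, pow_ne_zero _ (by simp), by finiteness, hk, ?_⟩
  rcases Nat.eq_zero_or_pos (Nat.find hex) with h0 | hpos
  · rw [h0, pow_zero, mul_one]
    refine hu1.trans ?_
    rw [← E_one Λ ht h1 hΛ T]
    refine E_mono Λ ht T fun P _ => ?_
    rw [ind_true]
    have : pl Λ ht z T P ≤ 1 := by
      unfold pl pp
      exact E_le_const Λ ht h1 hΛ T 1 _ (fun _ _ => ind_le_one _)
    exact lt_of_le_of_lt this (by norm_num)
  · have := hmin (Nat.find hex - 1) (by omega)
    rw [not_le] at this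
    refine this.le.trans (E_mono Λ ht T fun P _ => ind_mono fun h => ?_)
    have e : (2⁻¹ : ℝ≥0∞) ^ (Nat.find hex - 1) = 2 * (2⁻¹ : ℝ≥0∞) ^ Nat.find hex := by
      obtain ⟨j, hj⟩ : ∃ j, Nat.find hex = j + 1 := ⟨Nat.find hex - 1, by omega⟩
      rw [hj, Nat.add_sub_cancel, pow_succ, mul_comm _ (2⁻¹ : ℝ≥0∞), ← mul_assoc,
        ENNReal.mul_inv_cancel (by norm_num) (by norm_num), one_mul]
    rwa [← e]

end Quant

end Crest.Agent.R154.Asm855
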