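import Crest.Agent.R154.FP_178
import Crest.Agent.R154.Dens_280
import Crest.Agent.R154.AsmA_789

/-! Row 154, ROAD 801 (helper894): abstract assembly, single walkers as lists of blocks. -/

set_option autoImplicit false

namespace Crest.Agent.R154.Asm894

open scoped ENNReal
open Crest.Agent.R154.B5A
open Crest.Agent.R154.FP178 (fp)

section basics

variable {B G : Type*} [AddCommGroup G]

/-- sites read by a list of blocks, with depth -/
def TT (s : B → Set (G × ℕ)) (z : B → G) (h : B → ℕ) : List B → G → ℕ → Set (G × ℕ)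
  | [], _, _ => ∅
  | b :: L, x, a => {p | ∃ q ∈ s b, p = (x + q.1, a + q.2)} ∪ TT s z h L (x + z b) (a + h b)

/-- total displacement -/
def Dp (z : B → G) (L : List B) : G := (L.map z).sum

lemma Dp_nil (z : B → G) : Dp z [] = 0 := rfl

lemma Dp_cons (z : B → G) (b : B) (L : List B) : Dp z (b :: L) = z b + Dp z L := by simp [Dp]

lemma Dp_append (z : B → G) (L L' : List B) : Dp z (L ++ L') = Dp z L + Dp z L' := by simp [Dp]

lemma TT_append (s : B → Set (G × ℕ)) (z : B → G) (h : B → ℕ) (L L' : List B) (x : G) (a : ℕ) :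
    TT s z h (L ++ L') x a = TT s z h L x a ∪ TT s z h L' (x + Dp z L) (a + HT h L) := by
  induction L generalizing x a with
  | nil => simp [TT, Dp_nil, HT_nil]
  | cons b L ih =>
    simp only [List.cons_append, TT, ih, Set.union_assoc, Dp_cons, HT_cons, add_assoc]

lemma TT_depth {s : B → Set (G × ℕ)} {z : B → G} {h : B → ℕ}
    (hs : ∀ b, ∀ p ∈ s b, 1 ≤ p.2 ∧ p.2 ≤ h b) (L : List B) (x : G) (a : ℕ) (p : G × ℕ)
    (hp : p ∈ TT s z h L x a) : a < p.2 ∧ p.2 ≤ a + HT h L := by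
  induction L generalizing x a with
  | nil => exact absurd hp (Set.notMem_empty _)
  | cons b L ih =>
    rw [HT_cons]
    rcases hp with ⟨q, hq, rfl⟩ | hp
    · have := hs b q hq
      simp only
      omega
    · have := ih _ _ hp
      omega

lemma TT_shift (s : B → Set (G × ℕ)) (z : B → G) (h : B → ℕ) (L : List B) (x y : G) (a : ℕ)
    (v : G) (k : ℕ) : (v, k) ∈ TT s z h L x a ↔ (v - y, k) ∈ TT s z h L (x - y) a := by
  induction L generalizing x a with
  | nil => simp [TT]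
  | cons b L ih =>
    simp only [TT, Set.mem_union, Set.mem_setOf_eq, Prod.mk.injEq]
    rw [ih (x + z b) (a + h b), show x + z b - y = x - y + z b by abel]
    refine or_congr ?_ Iff.rfl
    constructor
    · rintro ⟨q, hq, h1, h2⟩
      exact ⟨q, hq, by rw [h1]; abel, h2⟩
    · rintro ⟨q, hq, h1, h2⟩
      refine ⟨q, hq, ?_, h2⟩
      have := congrArg (· + y) h1
      simp only [sub_add_cancel] at this
      rw [this]; abel

end basics

section single

variable {B : Type*} (Λ : B → ℝ≥0∞) (ht : B → ℕ)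

open Classical in
/-- weight of a first-passage list with overshoot at most `i0` -/
noncomputable def wf (a i0 : ℕ) (L : List B) : ℝ≥0∞ :=
  if fp ht a L ∧ HT ht L ≤ a + i0 then LW Λ L else 0

open Classical in
lemma sum_wf (h1 : ∀ b, 1 ≤ ht b) (hΛ : ∑' b, Λ b ≤ 1) (a i0 : ℕ) : ∑' L, wf Λ ht a i0 L ≤ 1 := by
  refine le_trans (ENNReal.tsum_le_tsum fun L => ?_) (FP178.sum_FP Λ ht h1 hΛ a)
  unfold wf
  by_cases h : fp ht a L
  · by_cases h' : HT ht L ≤ a + i0
    · simp [h, h']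
    · simp [h, h']
  · simp [h]

open Classical in
lemma sum_fp_eq (h1 : ∀ b, 1 ≤ ht b) (hΛ : ∑' b, Λ b = 1) (a : ℕ) :
    ∑' L, (if fp ht a L then LW Λ L else 0) = 1 := by
  induction a using Nat.strong_induction_on with
  | _ a ih =>
    rcases Nat.eq_zero_or_pos a with rfl | ha
    · have := FP178.sum_fp_zero Λ ht (fun _ => 1)
      simp only [mul_one] at this
      exact this
    · have := FP178.sum_fp_step Λ ht a ha (fun _ => 1)
      simp only [mul_one] at this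
      rw [this]
      calc ∑' b, Λ b * ∑' L, (if fp ht (a - ht b) L then LW Λ L else 0)
          = ∑' b, Λ b * 1 := by
            refine tsum_congr fun b => ?_
            rw [ih (a - ht b) (by have := h1 b; omega)]
        _ = 1 := by simpa using hΛ

open Classical in
/-- **cut**: first passage of `a`, then first passage of `T`. -/
lemma cut (h1 : ∀ b, 1 ≤ ht b) (hΛ : ∑' b, Λ b ≤ 1) (hU1 : ∀ n, U Λ ht n ≤ 1) (a T i0 n : ℕ)
    (hn : a + i0 + T ≤ n) (e1 : ℝ≥0∞)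
    (ho : ∀ a, ∑' L, (if fp ht a L ∧ a + i0 < HT ht L then LW Λ L else 0) ≤ e1)
    (f : List B → ℝ≥0∞) (hf : ∀ L, f L ≤ 1) (g : List B → List B → ℝ≥0∞)
    (hg : ∀ P Q R, a ≤ HT ht P → HT ht P ≤ a + i0 → T ≤ HT ht Q → HT ht Q ≤ T + i0 →
      HT ht P + HT ht Q + HT ht R = n → f (P ++ (Q ++ R)) ≤ g P Q) :
    ∑' L, (if HT ht L = n then LW Λ L * f L else 0) ≤
      2 * e1 + ∑' P, wf Λ ht a i0 P * ∑' Q, wf Λ ht T i0 Q * g P Q := by
  have hUf : ∀ (N : ℕ) (F : List B → ℝ≥0∞) (c : ℝ≥0∞), (∀ L, HT ht L = N → F L ≤ c) →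
      (∀ L, HT ht L ≠ N → F L = 0) → ∑' L, LW Λ L * F L ≤ c := by
    intro N F c hF hF0
    calc ∑' L, LW Λ L * F L ≤ ∑' L, (if HT ht L = N then LW Λ L else 0) * c := by
          refine ENNReal.tsum_le_tsum fun L => ?_
          by_cases h : HT ht L = N
          · rw [if_pos h]; exact mul_le_mul_right (hF L h) _
          · rw [if_neg h, hF0 L h, mul_zero]; exact zero_le
      _ = U Λ ht N * c := by rw [ENNReal.tsum_mul_right]; rfl
      _ ≤ 1 * c := mul_le_mul_left (hU1 N) _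
      _ = c := one_mul c
  -- step 1
  set F : List B → ℝ≥0∞ := fun L => if HT ht L = n then f L else 0 with hF
  have s1 : ∑' L, (if HT ht L = n then LW Λ L * f L else 0)
      = ∑' P, (if fp ht a P then LW Λ P * ∑' L, LW Λ L * F (P ++ L) else 0) := by
    rw [← FP178.split Λ ht h1 a F]
    refine tsum_congr fun L => ?_
    by_cases h : HT ht L = n
    · rw [if_pos h, if_pos (by omega)]
      simp only [hF]
      rw [if_pos h]
    · rw [if_neg h]
      simp only [hF]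
      rw [if_neg h, mul_zero, ite_self]
  rw [s1]
  -- inner bounds
  have in1 : ∀ P, HT ht P ≤ n → ∑' L, LW Λ L * F (P ++ L) ≤ 1 := by
    intro P hP
    refine hUf (n - HT ht P) _ 1 (fun L hL => ?_) (fun L hL => ?_)
    · simp only [hF]; split_ifs
      · exact hf _
      · exact zero_le
    · simp only [hF]; rw [if_neg (by rw [HT_append]; omega)]
  have in1' : ∀ P, ∑' L, LW Λ L * F (P ++ L) ≤ 1 := by
    intro P
    by_cases hP : HT ht P ≤ n
    · exact in1 P hP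
    · have : ∀ L, LW Λ L * F (P ++ L) = 0 := by
        intro L
        simp only [hF]; rw [if_neg (by rw [HT_append]; omega), mul_zero]
      simp only [this, tsum_zero]; exact zero_le
  have in2 : ∀ P, a ≤ HT ht P → HT ht P ≤ a + i0 → ∑' L, LW Λ L * F (P ++ L)
      ≤ e1 + ∑' Q, wf Λ ht T i0 Q * g P Q := by
    intro P haP hP
    have t1 : ∑' L, LW Λ L * F (P ++ L)
        = ∑' Q, (if fp ht T Q then LW Λ Q * ∑' R, LW Λ R * F (P ++ (Q ++ R)) else 0) := by
      rw [← FP178.split Λ ht h1 T (fun L => F (P ++ L))]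
      refine tsum_congr fun L => ?_
      by_cases h : T ≤ HT ht L
      · rw [if_pos h]
      · rw [if_neg h]
        simp only [hF]; rw [if_neg (by rw [HT_append]; omega), mul_zero]
    rw [t1]
    calc ∑' Q, (if fp ht T Q then LW Λ Q * ∑' R, LW Λ R * F (P ++ (Q ++ R)) else 0)
        ≤ ∑' Q, ((if fp ht T Q ∧ T + i0 < HT ht Q then LW Λ Q else 0)
            + wf Λ ht T i0 Q * g P Q) := by
          refine ENNReal.tsum_le_tsum fun Q => ?_
          by_cases hQ : fp ht T Q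
          · rw [if_pos hQ]
            by_cases hQ' : HT ht Q ≤ T + i0
            · refine le_add_left ?_
              unfold wf
              rw [if_pos ⟨hQ, hQ'⟩]
              refine mul_le_mul_right ?_ _
              refine hUf (n - HT ht P - HT ht Q) _ _ (fun R hR => ?_) (fun R hR => ?_)
              · simp only [hF]
                split_ifs with h
                · rw [HT_append, HT_append] at h
                  exact hg P Q R haP hP (FP178.le_HT_of_fp ht hQ) hQ' (by omega)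
                · exact zero_le
              · simp only [hF]
                rw [if_neg]
                rw [HT_append, HT_append]; omega
            · refine le_add_right ?_
              rw [if_pos ⟨hQ, by omega⟩]
              calc LW Λ Q * ∑' R, LW Λ R * F (P ++ (Q ++ R))
                  ≤ LW Λ Q * 1 := by
                    refine mul_le_mul_right ?_ _
                    have := in1' (P ++ Q)
                    simpa only [List.append_assoc] using this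
                _ = _ := mul_one _
          · rw [if_neg hQ]; exact zero_le
      _ ≤ e1 + ∑' Q, wf Λ ht T i0 Q * g P Q := by
          rw [ENNReal.tsum_add]
          exact add_le_add (ho T) le_rfl
  calc ∑' P, (if fp ht a P then LW Λ P * ∑' L, LW Λ L * F (P ++ L) else 0)
      ≤ ∑' P, ((if fp ht a P ∧ a + i0 < HT ht P then LW Λ P else 0)
          + (wf Λ ht a i0 P * e1 + wf Λ ht a i0 P * ∑' Q, wf Λ ht T i0 Q * g P Q)) := by
        refine ENNReal.tsum_le_tsum fun P => ?_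
        by_cases hP : fp ht a P
        · rw [if_pos hP]
          by_cases hP' : HT ht P ≤ a + i0
          · refine le_add_left ?_
            have e : wf Λ ht a i0 P = LW Λ P := by unfold wf; rw [if_pos ⟨hP, hP'⟩]
            rw [e, ← mul_add]
            exact mul_le_mul_right (in2 P (FP178.le_HT_of_fp ht hP) hP') _
          · refine le_add_right ?_
            rw [if_pos ⟨hP, by omega⟩]
            calc LW Λ P * ∑' L, LW Λ L * F (P ++ L) ≤ LW Λ P * 1 := mul_le_mul_right (in1' P) _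
              _ = _ := mul_one _
        · rw [if_neg hP]; exact zero_le
    _ ≤ e1 + (1 * e1 + ∑' P, wf Λ ht a i0 P * ∑' Q, wf Λ ht T i0 Q * g P Q) := by
        rw [ENNReal.tsum_add, ENNReal.tsum_add, ENNReal.tsum_mul_right]
        gcongr
        · exact ho a
        · exact sum_wf Λ ht h1 hΛ a i0
    _ = _ := by ring

end single

section window

variable {BX BY G : Type*} [AddCommGroup G]
variable (ΛX : BX → ℝ≥0∞) (hX : BX → ℕ) (zX : BX → G) (sX : BX → Set (G × ℕ))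
variable (ΛY : BY → ℝ≥0∞) (hY : BY → ℕ) (zY : BY → G) (sY : BY → Set (G × ℕ))

/-- contact event of two pieces -/
def EV (lo hi : ℕ) (α α' : ℕ) (x : G) (Q : List BX) (Q' : List BY) : Prop :=
  (∃ p, p ∈ TT sX zX hX Q 0 α ∧ p ∈ TT sY zY hY Q' x α') ∧
    ∀ p, p ∈ TT sX zX hX Q 0 α → p ∈ TT sY zY hY Q' x α' → lo ≤ p.2 ∧ p.2 ≤ hi

/-- contact in `[lo, hi]` and none in the slabs -/
def ev (lo hi a b : ℕ) (w : G) (L : List BX) (L' : List BY) : Prop :=
  (∃ p, p ∈ TT sX zX hX L 0 0 ∧ p ∈ TT sY zY hY L' w 0 ∧ lo ≤ p.2 ∧ p.2 ≤ hi) ∧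
    ∀ p, p ∈ TT sX zX hX L 0 0 → p ∈ TT sY zY hY L' w 0 → a < p.2 → p.2 ≤ b →
      lo ≤ p.2 ∧ p.2 ≤ hi

/-- intermediate event -/
def ev1 (lo hi a b : ℕ) (w : G) (P Q : List BX) (L' : List BY) : Prop :=
  (∃ p, p ∈ TT sX zX hX Q (Dp zX P) (HT hX P) ∧ p ∈ TT sY zY hY L' w 0 ∧ lo ≤ p.2 ∧ p.2 ≤ hi) ∧
    ∀ p, p ∈ TT sX zX hX Q (Dp zX P) (HT hX P) → p ∈ TT sY zY hY L' w 0 → a < p.2 → p.2 ≤ b →
      lo ≤ p.2 ∧ p.2 ≤ hi

lemma EV_shift (lo hi : ℕ) (P Q : List BX) (P' Q' : List BY) (w : G)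
    (h : (∃ p, p ∈ TT sX zX hX Q (Dp zX P) (HT hX P) ∧
        p ∈ TT sY zY hY Q' (w + Dp zY P') (HT hY P')) ∧
      ∀ p, p ∈ TT sX zX hX Q (Dp zX P) (HT hX P) →
        p ∈ TT sY zY hY Q' (w + Dp zY P') (HT hY P') → lo ≤ p.2 ∧ p.2 ≤ hi) :
    EV hX zX sX hY zY sY lo hi (HT hX P) (HT hY P') (w + Dp zY P' - Dp zX P) Q Q' := by
  obtain ⟨⟨⟨v, k⟩, h1, h2⟩, h3⟩ := h
  refine ⟨⟨(v - Dp zX P, k), ?_, ?_⟩, ?_⟩
  · have := (TT_shift sX zX hX Q (Dp zX P) (Dp zX P) (HT hX P) v k).1 h1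
    rwa [sub_self] at this
  · exact (TT_shift sY zY hY Q' (w + Dp zY P') (Dp zX P) (HT hY P') v k).1 h2
  · rintro ⟨v', k'⟩ g1 g2
    refine h3 (v' + Dp zX P, k') ?_ ?_
    · rw [TT_shift sX zX hX Q (Dp zX P) (Dp zX P) (HT hX P), sub_self, add_sub_cancel_right]
      exact g1
    · rw [TT_shift sY zY hY Q' (w + Dp zY P') (Dp zX P) (HT hY P'), add_sub_cancel_right]
      exact g2

open Classical in
/-- **one window, four pieces** -/
theorem window4 (h1X : ∀ b, 1 ≤ hX b) (h1Y : ∀ b, 1 ≤ hY b)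
    (hΛX : ∑' b, ΛX b ≤ 1) (hΛY : ∑' b, ΛY b ≤ 1)
    (hUX : ∀ n, U ΛX hX n ≤ 1) (hUY : ∀ n, U ΛY hY n ≤ 1)
    (hsX : ∀ b, ∀ p ∈ sX b, 1 ≤ p.2 ∧ p.2 ≤ hX b) (hsY : ∀ b, ∀ p ∈ sY b, 1 ≤ p.2 ∧ p.2 ≤ hY b)
    (a T i0 n s lo hi : ℕ) (hn : a + T + 3 * i0 ≤ n) (hs : 1 ≤ s) (hlo : a + 2 * i0 + s ≤ lo)
    (hhi : hi + s ≤ a + T) (w : G) (e1 : ℝ≥0∞)
    (hoX : ∀ a, ∑' L, (if fp hX a L ∧ a + i0 < HT hX L then LW ΛX L else 0) ≤ e1)
    (hoY : ∀ a, ∑' L, (if fp hY a L ∧ a + i0 < HT hY L then LW ΛY L else 0) ≤ e1) :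
    ∑' L, ∑' L', (if HT hX L = n ∧ HT hY L' = n ∧
        ev hX zX sX hY zY sY lo hi a (a + T + 4 * i0) w L L' then LW ΛX L * LW ΛY L' else 0)
      ≤ 4 * e1 + ∑' P, wf ΛX hX a i0 P * ∑' Q, wf ΛX hX T i0 Q *
        ∑' P', wf ΛY hY (a + i0) i0 P' * ∑' Q', wf ΛY hY (T + i0) i0 Q' *
          (if EV hX zX sX hY zY sY lo hi (HT hX P) (HT hY P') (w + Dp zY P' - Dp zX P) Q Q'
            then 1 else 0) := by
  set b := a + T + 4 * i0 with hb
  -- put the `Y` sum inside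
  have e0 : ∀ L, ∑' L', (if HT hX L = n ∧ HT hY L' = n ∧
        ev hX zX sX hY zY sY lo hi a b w L L' then LW ΛX L * LW ΛY L' else 0)
      = if HT hX L = n then LW ΛX L * ∑' L', (if HT hY L' = n then LW ΛY L' *
          (if ev hX zX sX hY zY sY lo hi a b w L L' then 1 else 0) else 0) else 0 := by
    intro L
    by_cases hL : HT hX L = n
    · rw [if_pos hL, ← ENNReal.tsum_mul_left]
      refine tsum_congr fun L' => ?_
      by_cases hL' : HT hY L' = n
      · by_cases hE : ev hX zX sX hY zY sY lo hi a b w L L' <;> simp [hL, hL', hE]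
      · simp [hL']
    · simp [hL]
  rw [tsum_congr e0]
  have hone : ∀ (E : List BY → Prop) [DecidablePred E],
      ∑' L', (if HT hY L' = n then LW ΛY L' * (if E L' then 1 else 0) else 0) ≤ 1 := by
    intro E _
    refine le_trans (ENNReal.tsum_le_tsum fun L' => ?_) (hUY n)
    by_cases h : HT hY L' = n
    · rw [if_pos h, if_pos h]
      split_ifs <;> simp
    · rw [if_neg h, if_neg h]
  refine (cut ΛX hX h1X hΛX hUX a T i0 n (by omega) e1 hoX _ (fun L => hone _)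
    (fun P Q => ∑' L', (if HT hY L' = n then LW ΛY L' *
      (if ev1 hX zX sX hY zY sY lo hi a b w P Q L' then 1 else 0) else 0)) ?_).trans ?_
  · intro P Q R p1 p2 q1 q2 hPQR
    refine ENNReal.tsum_le_tsum fun L' => ?_
    split_ifs with g1 g2 g3
    · exact le_rfl
    · exfalso
      apply g3
      obtain ⟨⟨p, t1, t2, t3, t4⟩, t5⟩ := g2
      rw [TT_append, TT_append] at t5 t1
      simp only [zero_add] at t5 t1
      refine ⟨⟨p, ?_, t2, t3, t4⟩, fun p r1 r2 => t5 p (Or.inr (Or.inl r1)) r2⟩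
      rcases t1 with t1 | t1 | t1
      · have := TT_depth hsX _ _ _ _ t1; omega
      · exact t1
      · have := TT_depth hsX _ _ _ _ t1; omega
    · simp
    · exact le_rfl
    · exact le_rfl
  · -- the `Y` walker
    have key : ∀ P Q, HT hX P ≤ a + i0 → a ≤ HT hX P → HT hX Q ≤ T + i0 →
        ∑' L', (if HT hY L' = n then LW ΛY L' *
          (if ev1 hX zX sX hY zY sY lo hi a b w P Q L' then 1 else 0) else 0)
        ≤ 2 * e1 + ∑' P', wf ΛY hY (a + i0) i0 P' * ∑' Q', wf ΛY hY (T + i0) i0 Q' *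
          (if EV hX zX sX hY zY sY lo hi (HT hX P) (HT hY P') (w + Dp zY P' - Dp zX P) Q Q'
            then 1 else 0) := by
      intro P Q hP hP' hQ
      refine cut ΛY hY h1Y hΛY hUY (a + i0) (T + i0) i0 n (by omega) e1 hoY _
        (fun L => by split_ifs <;> simp) _ ?_
      intro P' Q' R' p1 p2 q1 q2 hPQR
      split_ifs with g1 g2
      · exact le_rfl
      · exfalso
        apply g2
        apply EV_shift
        obtain ⟨⟨p, t1, t2, t3, t4⟩, t5⟩ := g1
        rw [TT_append, TT_append] at t5 t2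
        simp only [zero_add] at t5 t2
        refine ⟨⟨p, t1, ?_⟩, fun p r1 r2 => ?_⟩
        · rcases t2 with t2 | t2 | t2
          · have := TT_depth hsY _ _ _ _ t2; omega
          · exact t2
          · have := TT_depth hsY _ _ _ _ t2; omega
        · have := TT_depth hsX _ _ _ _ r1
          exact t5 p r1 (Or.inr (Or.inl r2)) (by omega) (by omega)
      · exact zero_le
      · exact le_rfl
    have key2 : ∀ P Q, wf ΛX hX a i0 P * (wf ΛX hX T i0 Q *
        ∑' L', (if HT hY L' = n then LW ΛY L' *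
          (if ev1 hX zX sX hY zY sY lo hi a b w P Q L' then 1 else 0) else 0))
        ≤ wf ΛX hX a i0 P * (wf ΛX hX T i0 Q * (2 * e1) + wf ΛX hX T i0 Q *
          ∑' P', wf ΛY hY (a + i0) i0 P' * ∑' Q', wf ΛY hY (T + i0) i0 Q' *
          (if EV hX zX sX hY zY sY lo hi (HT hX P) (HT hY P') (w + Dp zY P' - Dp zX P) Q Q'
            then 1 else 0)) := by
      intro P Q
      by_cases hP : fp hX a P ∧ HT hX P ≤ a + i0
      · by_cases hQ : fp hX T Q ∧ HT hX Q ≤ T + i0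
        · rw [← mul_add]
          exact mul_le_mul_right (mul_le_mul_right
            (key P Q hP.2 (FP178.le_HT_of_fp hX hP.1) hQ.2) _) _
        · have : wf ΛX hX T i0 Q = 0 := by unfold wf; rw [if_neg hQ]
          simp [this]
      · have : wf ΛX hX a i0 P = 0 := by unfold wf; rw [if_neg hP]
        simp [this]
    calc 2 * e1 + ∑' P, wf ΛX hX a i0 P * ∑' Q, wf ΛX hX T i0 Q *
          ∑' L', (if HT hY L' = n then LW ΛY L' *
          (if ev1 hX zX sX hY zY sY lo hi a b w P Q L' then 1 else 0) else 0)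
        ≤ 2 * e1 + ∑' P, wf ΛX hX a i0 P * (1 * (2 * e1) + ∑' Q, wf ΛX hX T i0 Q *
          ∑' P', wf ΛY hY (a + i0) i0 P' * ∑' Q', wf ΛY hY (T + i0) i0 Q' *
          (if EV hX zX sX hY zY sY lo hi (HT hX P) (HT hY P') (w + Dp zY P' - Dp zX P) Q Q'
            then 1 else 0)) := by
          refine add_le_add le_rfl (ENNReal.tsum_le_tsum fun P => ?_)
          rw [← ENNReal.tsum_mul_left]
          refine (ENNReal.tsum_le_tsum fun Q => key2 P Q).trans ?_
          rw [ENNReal.tsum_mul_left, ENNReal.tsum_add, ENNReal.tsum_mul_right]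
          gcongr
          exact sum_wf ΛX hX h1X hΛX T i0
      _ ≤ 2 * e1 + (1 * (1 * (2 * e1)) + ∑' P, wf ΛX hX a i0 P * ∑' Q, wf ΛX hX T i0 Q *
          ∑' P', wf ΛY hY (a + i0) i0 P' * ∑' Q', wf ΛY hY (T + i0) i0 Q' *
          (if EV hX zX sX hY zY sY lo hi (HT hX P) (HT hY P') (w + Dp zY P' - Dp zX P) Q Q'
            then 1 else 0)) := by
          simp_rw [mul_add]
          rw [ENNReal.tsum_add, ENNReal.tsum_mul_right]
          gcongr
          exact sum_wf ΛX hX h1X hΛX a i0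
      _ = _ := by ring

end window

section law

variable {B G : Type*} [AddCommGroup G] (Λ : B → ℝ≥0∞) (ht : B → ℕ) (z : B → G)

open Classical in
/-- law of the first passage of `r`: overshoot `j`, displacement `y` -/
noncomputable def pd (r j : ℕ) (y : G) : ℝ≥0∞ :=
  ∑' P, (if fp ht r P ∧ HT ht P = r + j ∧ Dp z P = y then LW Λ P else 0)

open Classical in
lemma fiber (r : ℕ) (F : ℕ → G → ℝ≥0∞) :
    ∑' P, (if fp ht r P then LW Λ P * F (HT ht P - r) (Dp z P) else 0)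
      = ∑' j, ∑' y, pd Λ ht z r j y * F j y := by
  symm
  calc ∑' j, ∑' y, pd Λ ht z r j y * F j y
      = ∑' j, ∑' y, ∑' P, (if fp ht r P ∧ HT ht P = r + j ∧ Dp z P = y
          then LW Λ P * F j y else 0) := by
        refine tsum_congr fun j => tsum_congr fun y => ?_
        rw [pd, ← ENNReal.tsum_mul_right]
        refine tsum_congr fun P => ?_
        rw [ite_mul, zero_mul]
    _ = ∑' j, ∑' P, ∑' y, (if fp ht r P ∧ HT ht P = r + j ∧ Dp z P = y
          then LW Λ P * F j y else 0) := tsum_congr fun j => ENNReal.tsum_comm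
    _ = ∑' P, ∑' j, ∑' y, (if fp ht r P ∧ HT ht P = r + j ∧ Dp z P = y
          then LW Λ P * F j y else 0) := ENNReal.tsum_comm
    _ = _ := by
        refine tsum_congr fun P => ?_
        by_cases hP : fp ht r P
        · have h1 := FP178.le_HT_of_fp ht hP
          rw [if_pos hP, tsum_eq_single (HT ht P - r), tsum_eq_single (Dp z P)]
          · rw [if_pos ⟨hP, by omega, rfl⟩]
          · intro y hy
            rw [if_neg (fun h => hy h.2.2.symm)]
          · intro j hj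
            have : ∀ y, (if fp ht r P ∧ HT ht P = r + j ∧ Dp z P = y
              then LW Λ P * F j y else 0) = 0 := fun y => if_neg (fun h => hj (by omega))
            simp only [this, tsum_zero]
        · simp [hP]

lemma sum_pd (h1 : ∀ b, 1 ≤ ht b) (hΛ : ∑' b, Λ b = 1) (r : ℕ) :
    ∑' j, ∑' y, pd Λ ht z r j y = 1 := by
  classical
  have := fiber Λ ht z r (fun _ _ => 1)
  simp only [mul_one] at this
  rw [← this, sum_fp_eq Λ ht h1 hΛ]

open Classical in
/-- mass of the attempts which jump over `r` -/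
noncomputable def er (T r j : ℕ) (y : G) : ℝ≥0∞ :=
  ∑' A, (if fp ht T A ∧ r < HT ht A ∧ HT ht A = r + j ∧ Dp z A = y then LW Λ A else 0)

open Classical in
lemma sum_er (T r : ℕ) : ∑' j, ∑' y, er Λ ht z T r j y
    ≤ ∑' A, (if fp ht T A ∧ r < HT ht A then LW Λ A else 0) := by
  unfold er
  rw [show (∑' j, ∑' y, ∑' A, (if fp ht T A ∧ r < HT ht A ∧ HT ht A = r + j ∧ Dp z A = y
      then LW Λ A else 0)) = ∑' A, ∑' j, ∑' y, (if fp ht T A ∧ r < HT ht A ∧
      HT ht A = r + j ∧ Dp z A = y then LW Λ A else 0) from by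
    rw [ENNReal.tsum_comm]
    rw [ENNReal.tsum_comm]
    rw [tsum_congr fun j => ENNReal.tsum_comm]
    rw [ENNReal.tsum_comm]]
  refine ENNReal.tsum_le_tsum fun A => ?_
  by_cases hA : fp ht T A ∧ r < HT ht A
  · rw [if_pos hA, tsum_eq_single (HT ht A - r), tsum_eq_single (Dp z A)]
    · rw [if_pos ⟨hA.1, hA.2, by omega, rfl⟩]
    · intro y hy
      rw [if_neg (fun h => hy h.2.2.2.symm)]
    · intro j hj
      have : ∀ y, (if fp ht T A ∧ r < HT ht A ∧ HT ht A = r + j ∧ Dp z A = y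
        then LW Λ A else 0) = 0 := fun y => if_neg (fun h => hj (by omega))
      simp only [this, tsum_zero]
  · have : ∀ j y, (if fp ht T A ∧ r < HT ht A ∧ HT ht A = r + j ∧ Dp z A = y
        then LW Λ A else 0) = 0 := fun j y => if_neg (fun h => hA ⟨h.1, h.2.1⟩)
    simp only [this, tsum_zero]; exact zero_le

open Classical in
lemma pd_rec (h1 : ∀ b, 1 ≤ ht b) (T r : ℕ) (hT : T ≤ r) (j : ℕ) (y : G) :
    pd Λ ht z r j y ≤ (∑' i, ∑' y', if T + i ≤ r then
      pd Λ ht z T i y' * pd Λ ht z (r - T - i) j (y - y') else 0) + er Λ ht z T r j y := by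
  have s1 : pd Λ ht z r j y = ∑' L, (if fp ht r L then LW Λ L *
      (if HT ht L = r + j ∧ Dp z L = y then 1 else 0) else 0) := by
    rw [pd]
    refine tsum_congr fun L => ?_
    by_cases h : fp ht r L <;> by_cases h' : HT ht L = r + j ∧ Dp z L = y <;> simp [h, h']
  rw [s1, FP178.fp_split Λ ht h1 T r hT]
  have s2 : ∀ A, (if fp ht T A then LW Λ A * ∑' L, (if fp ht (r - HT ht A) L then
      LW Λ L * (if HT ht (A ++ L) = r + j ∧ Dp z (A ++ L) = y then 1 else 0) else 0) else 0)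
      ≤ (if fp ht T A then LW Λ A * (if T + (HT ht A - T) ≤ r then
          pd Λ ht z (r - T - (HT ht A - T)) j (y - Dp z A) else 0) else 0)
        + (if fp ht T A ∧ r < HT ht A ∧ HT ht A = r + j ∧ Dp z A = y then LW Λ A else 0) := by
    intro A
    by_cases hA : fp ht T A
    · have hA' := FP178.le_HT_of_fp ht hA
      rw [if_pos hA, if_pos hA]
      by_cases hr : HT ht A ≤ r
      · refine le_add_right ?_
        rw [if_pos (by omega), show r - T - (HT ht A - T) = r - HT ht A by omega]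
        refine mul_le_mul_right ?_ _
        rw [pd]
        refine ENNReal.tsum_le_tsum fun L => ?_
        by_cases hL : fp ht (r - HT ht A) L
        · rw [if_pos hL]
          by_cases hc : HT ht (A ++ L) = r + j ∧ Dp z (A ++ L) = y
          · rw [if_pos hc, mul_one]
            rw [HT_append, Dp_append] at hc
            rw [if_pos]
            refine ⟨hL, by omega, ?_⟩
            rw [← hc.2]; abel
          · rw [if_neg hc, mul_zero]; exact zero_le
        · rw [if_neg hL]; exact zero_le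
      · refine le_add_left ?_
        rw [show r - HT ht A = 0 by omega,
          FP178.sum_fp_zero Λ ht (fun L =>
            if HT ht (A ++ L) = r + j ∧ Dp z (A ++ L) = y then 1 else 0)]
        rw [List.append_nil]
        by_cases hc : HT ht A = r + j ∧ Dp z A = y
        · rw [if_pos hc, if_pos ⟨hA, by omega, hc.1, hc.2⟩, mul_one]
        · rw [if_neg hc, mul_zero]; exact zero_le
    · rw [if_neg hA]; exact zero_le
  refine (ENNReal.tsum_le_tsum s2).trans ?_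
  rw [ENNReal.tsum_add]
  refine add_le_add (le_of_eq ?_) le_rfl
  rw [fiber Λ ht z T (fun i y' => if T + i ≤ r then
    pd Λ ht z (r - T - i) j (y - y') else 0)]
  refine tsum_congr fun i => tsum_congr fun y' => ?_
  rw [mul_ite, mul_zero]

open Classical in
lemma he (T r i0 : ℕ) (hr : T + i0 ≤ r) (e1 : ℝ≥0∞)
    (ho : ∀ a, ∑' L, (if fp ht a L ∧ a + i0 < HT ht L then LW Λ L else 0) ≤ e1) :
    (∑' i, ∑' y', (if i0 < i ∧ T + i ≤ r then pd Λ ht z T i y' else 0))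
      + ∑' j, ∑' y, er Λ ht z T r j y ≤ e1 := by
  have t1 : (∑' i, ∑' y', (if i0 < i ∧ T + i ≤ r then pd Λ ht z T i y' else 0))
      = ∑' A, (if fp ht T A then LW Λ A *
        (if i0 < HT ht A - T ∧ T + (HT ht A - T) ≤ r then 1 else 0) else 0) := by
    rw [fiber Λ ht z T (fun i _ => if i0 < i ∧ T + i ≤ r then 1 else 0)]
    refine tsum_congr fun i => tsum_congr fun y' => ?_
    rw [mul_ite, mul_zero, mul_one]
  rw [t1]
  refine (add_le_add le_rfl (sum_er Λ ht z T r)).trans ?_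
  rw [← ENNReal.tsum_add]
  refine (ENNReal.tsum_le_tsum fun A => ?_).trans (ho T)
  by_cases hA : fp ht T A
  · have hA' := FP178.le_HT_of_fp ht hA
    rw [if_pos hA]
    by_cases hr1 : r < HT ht A
    · rw [if_neg (by omega), mul_zero, zero_add, if_pos ⟨hA, hr1⟩, if_pos ⟨hA, by omega⟩]
    · rw [if_neg (fun h : fp ht T A ∧ r < HT ht A => hr1 h.2), add_zero]
      by_cases hi : T + i0 < HT ht A
      · rw [if_pos (by omega), mul_one, if_pos ⟨hA, hi⟩]
      · rw [if_neg (by omega), mul_zero]; exact zero_le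
  · rw [if_neg hA, if_neg (fun h : fp ht T A ∧ r < HT ht A => hA h.1), add_zero]
    exact zero_le

open Classical in
/-- **quantile and density of one walker** -/
theorem pack (h1 : ∀ b, 1 ≤ ht b) (hΛ : ∑' b, Λ b = 1) (T i0 : ℕ) (u : ℝ≥0∞) (hu : u ≠ 0)
    (hu1 : u < 1) (e1 : ℝ≥0∞)
    (ho : ∀ a, ∑' L, (if fp ht a L ∧ a + i0 < HT ht L then LW Λ L else 0) ≤ e1) :
    ∃ θ : ℝ≥0∞, θ ≠ 0 ∧ θ ≤ 1 ∧
      (∑' Q, wf Λ ht T i0 Q * (if θ ≤ pd Λ ht z T (HT ht Q - T) (Dp z Q) then 0 else 1)) ≤ u ∧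
      (∀ i, {y | θ ≤ pd Λ ht z T i y}.Finite ∧
        (({y | θ ≤ pd Λ ht z T i y}.ncard : ℕ) : ℝ≥0∞) * θ ≤ 1) ∧
      ∀ J r, J * (T + i0) ≤ r → ∃ b : ℕ → G → ℝ≥0∞,
        (∑' j, ∑' y, b j y ≤ (1 - u) ^ J + J * e1) ∧
        ∀ j y, pd Λ ht z r j y ≤ ((i0 + 1 : ℕ) : ℝ≥0∞) * (2 * θ) / u + b j y := by
  have hp1 : ∑' q : ℕ × G, pd Λ ht z T q.1 q.2 = 1 := by
    rw [ENNReal.tsum_prod (f := fun i y => pd Λ ht z T i y)]
    exact sum_pd Λ ht z h1 hΛ T
  obtain ⟨θ, hθ0, hθ1, hθ2, hθ3⟩ := AsmA789.quant (fun q : ℕ × G => pd Λ ht z T q.1 q.2) hp1 hu hu1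
  refine ⟨θ, hθ0, hθ1, ?_, ?_, ?_⟩
  · calc (∑' Q, wf Λ ht T i0 Q * (if θ ≤ pd Λ ht z T (HT ht Q - T) (Dp z Q) then 0 else 1))
        ≤ ∑' Q, (if fp ht T Q then LW Λ Q *
            (if θ ≤ pd Λ ht z T (HT ht Q - T) (Dp z Q) then 0 else 1) else 0) := by
          refine ENNReal.tsum_le_tsum fun Q => ?_
          unfold wf
          by_cases hQ : fp ht T Q
          · rw [if_pos hQ]
            refine mul_le_mul_left ?_ _
            split_ifs <;> simp
          · rw [if_neg (fun h => hQ h.1), zero_mul]; exact zero_le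
      _ = ∑' i, ∑' y, pd Λ ht z T i y * (if θ ≤ pd Λ ht z T i y then 0 else 1) :=
          fiber Λ ht z T (fun i y => if θ ≤ pd Λ ht z T i y then 0 else 1)
      _ = ∑' q : ℕ × G, (if pd Λ ht z T q.1 q.2 < θ then pd Λ ht z T q.1 q.2 else 0) := by
          rw [ENNReal.tsum_prod (f := fun i y => if pd Λ ht z T i y < θ then pd Λ ht z T i y else 0)]
          refine tsum_congr fun i => tsum_congr fun y => ?_
          by_cases h : θ ≤ pd Λ ht z T i y
          · rw [if_pos h, mul_zero, if_neg (not_lt.2 h)]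
          · rw [if_neg h, mul_one, if_pos (not_le.1 h)]
      _ ≤ u := hθ2
  · intro i
    refine AsmA789.card_le (fun y => pd Λ ht z T i y) ?_ hθ0
    exact (ENNReal.le_tsum i).trans (sum_pd Λ ht z h1 hΛ T).le
  · have hq : ∑' i, ∑' z', (if i ≤ i0 ∧ 2 * θ < pd Λ ht z T i z' then pd Λ ht z T i z' else 0)
        ≤ 1 - u := by
      have hut : u ≠ ⊤ := ne_top_of_lt hu1
      refine ENNReal.le_sub_of_add_le_right hut ?_
      refine (add_le_add le_rfl hθ3).trans ?_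
      rw [ENNReal.tsum_prod (f := fun i y => if pd Λ ht z T i y < 2 * θ
        then pd Λ ht z T i y else 0), ← ENNReal.tsum_add]
      refine le_trans (ENNReal.tsum_le_tsum fun i => ?_) (sum_pd Λ ht z h1 hΛ T).le
      rw [← ENNReal.tsum_add]
      refine ENNReal.tsum_le_tsum fun y => ?_
      by_cases h : 2 * θ < pd Λ ht z T i y
      · rw [if_neg (not_lt.2 h.le), add_zero]
        split_ifs <;> simp
      · rw [if_neg (fun h' : i ≤ i0 ∧ 2 * θ < pd Λ ht z T i y => h h'.2), zero_add]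
        split_ifs <;> simp
    refine Dens280.dens (pd Λ ht z T) (fun r => pd Λ ht z r) (fun r => er Λ ht z T r) T i0
      (2 * θ) (1 - u) e1 (((i0 + 1 : ℕ) : ℝ≥0∞) * (2 * θ) / u)
      (fun r hr j y => pd_rec Λ ht z h1 T r hr j y)
      (fun r => (sum_pd Λ ht z h1 hΛ r).le) (fun r hr => he Λ ht z T r i0 hr e1 ho) hq
      tsub_le_self ?_
    have hut : u ≠ ⊤ := ne_top_of_lt hu1
    set X := ((i0 + 1 : ℕ) : ℝ≥0∞) * (2 * θ) with hX
    calc X + (1 - u) * (X / u) = u * (X / u) + (1 - u) * (X / u) := by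
          rw [ENNReal.mul_div_cancel hu hut]
      _ = (u + (1 - u)) * (X / u) := by ring
      _ = 1 * (X / u) := by rw [add_tsub_cancel_of_le hu1.le]
      _ ≤ X / u := by rw [one_mul]

end law

section halves

lemma swap2 {β γ : Type*} (B : β → ℝ≥0∞) (C : γ → ℝ≥0∞) (K : β → γ → ℝ≥0∞) :
    ∑' b, B b * ∑' c, C c * K b c = ∑' c, C c * ∑' b, B b * K b c := by
  simp_rw [← ENNReal.tsum_mul_left]
  rw [ENNReal.tsum_comm]
  refine tsum_congr fun c => tsum_congr fun b => ?_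
  ring

lemma swap3 {α β γ : Type*} (A : α → ℝ≥0∞) (B : β → ℝ≥0∞) (C : γ → ℝ≥0∞)
    (K : α → β → γ → ℝ≥0∞) :
    ∑' a, A a * ∑' b, B b * ∑' c, C c * K a b c
      = ∑' c, C c * ∑' a, A a * ∑' b, B b * K a b c := by
  calc ∑' a, A a * ∑' b, B b * ∑' c, C c * K a b c
      = ∑' a, A a * ∑' c, C c * ∑' b, B b * K a b c :=
        tsum_congr fun a => by rw [swap2 B C (K a)]
    _ = _ := swap2 A C (fun a c => ∑' b, B b * K a b c)

variable {B G : Type*} [AddCommGroup G] (Λ : B → ℝ≥0∞) (ht : B → ℕ) (z : B → G)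

open Classical in
lemma half (h1 : ∀ b, 1 ≤ ht b) (hΛ : ∑' b, Λ b = 1) (a i0 : ℕ) (M R β : ℝ≥0∞)
    (b : ℕ → G → ℝ≥0∞) (hb : ∀ j y, pd Λ ht z a j y ≤ M + b j y)
    (hbs : ∑' j, ∑' y, b j y ≤ β) (Φ : ℕ → G → ℝ≥0∞) (hΦ1 : ∀ α y, Φ α y ≤ 1)
    (hΦ : ∀ α, a ≤ α → α ≤ a + i0 → ∀ μ : G → ℝ≥0∞, ∑' y, μ y ≤ 1 → (∀ y, μ y ≤ M) →
      ∑' y, μ y * Φ α y ≤ R) :
    ∑' P, wf Λ ht a i0 P * Φ (HT ht P) (Dp z P) ≤ ((i0 + 1 : ℕ) : ℝ≥0∞) * R + β := by
  have s1 : ∑' P, wf Λ ht a i0 P * Φ (HT ht P) (Dp z P)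
      = ∑' P, (if fp ht a P then LW Λ P *
        (if HT ht P - a ≤ i0 then Φ (a + (HT ht P - a)) (Dp z P) else 0) else 0) := by
    refine tsum_congr fun P => ?_
    unfold wf
    by_cases hP : fp ht a P
    · have hP' := FP178.le_HT_of_fp ht hP
      rw [if_pos hP]
      by_cases hi : HT ht P ≤ a + i0
      · rw [if_pos ⟨hP, hi⟩, if_pos (by omega), show a + (HT ht P - a) = HT ht P by omega]
      · rw [if_neg (fun h => hi h.2), if_neg (by omega)]; simp
    · rw [if_neg hP, if_neg (fun h => hP h.1), zero_mul]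
  rw [s1, fiber Λ ht z a (fun j y => if j ≤ i0 then Φ (a + j) y else 0)]
  calc ∑' j, ∑' y, pd Λ ht z a j y * (if j ≤ i0 then Φ (a + j) y else 0)
      ≤ ∑' j, ∑' y, ((if j ≤ i0 then min (pd Λ ht z a j y) M * Φ (a + j) y else 0) + b j y) := by
        refine ENNReal.tsum_le_tsum fun j => ENNReal.tsum_le_tsum fun y => ?_
        by_cases hj : j ≤ i0
        · rw [if_pos hj, if_pos hj]
          have : pd Λ ht z a j y ≤ min (pd Λ ht z a j y) M + b j y := by
            rcases le_total (pd Λ ht z a j y) M with h | h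
            · rw [min_eq_left h]; exact le_self_add
            · rw [min_eq_right h]; exact hb j y
          calc pd Λ ht z a j y * Φ (a + j) y
              ≤ (min (pd Λ ht z a j y) M + b j y) * Φ (a + j) y := mul_le_mul_left this _
            _ = min (pd Λ ht z a j y) M * Φ (a + j) y + b j y * Φ (a + j) y := add_mul _ _ _
            _ ≤ min (pd Λ ht z a j y) M * Φ (a + j) y + b j y * 1 := by
                gcongr
                exact hΦ1 _ _
            _ = _ := by rw [mul_one]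
        · rw [if_neg hj, mul_zero]; exact zero_le
    _ = (∑' j, ∑' y, (if j ≤ i0 then min (pd Λ ht z a j y) M * Φ (a + j) y else 0))
          + ∑' j, ∑' y, b j y := by
        simp_rw [ENNReal.tsum_add]
    _ ≤ ((i0 + 1 : ℕ) : ℝ≥0∞) * R + β := by
        refine add_le_add ?_ hbs
        rw [tsum_eq_sum (s := Finset.range (i0 + 1))]
        · calc ∑ j ∈ Finset.range (i0 + 1),
                ∑' y, (if j ≤ i0 then min (pd Λ ht z a j y) M * Φ (a + j) y else 0)
              ≤ ∑ _j ∈ Finset.range (i0 + 1), R := by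
                refine Finset.sum_le_sum fun j hj => ?_
                have hj' : j ≤ i0 := by have := Finset.mem_range.1 hj; omega
                simp only [if_pos hj']
                refine hΦ (a + j) (by omega) (by omega) (fun y => min (pd Λ ht z a j y) M)
                  ?_ (fun y => min_le_right _ _)
                refine (ENNReal.tsum_le_tsum fun y => min_le_left _ _).trans ?_
                exact (ENNReal.le_tsum j).trans (sum_pd Λ ht z h1 hΛ a).le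
            _ = _ := by simp
        · intro j hj
          have hj' : ¬ j ≤ i0 := by
            intro h; exact hj (Finset.mem_range.2 (by omega))
          simp only [if_neg hj', tsum_zero]

end halves

section cells

variable {BX BY G : Type*} [AddCommGroup G]
variable (ΛX : BX → ℝ≥0∞) (hX : BX → ℕ) (zX : BX → G) (sX : BX → Set (G × ℕ))
variable (ΛY : BY → ℝ≥0∞) (hY : BY → ℕ) (zY : BY → G) (sY : BY → Set (G × ℕ))

open Classical in
/-- the window lemma (input), `S` = which piece is local -/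
def HW (S : Finset G → List BX → List BY → Prop) (C us : ℝ≥0∞) (r0 s : ℕ) : Prop :=
  ∀ (h h' a a' lo hi : ℕ) (E : Finset G) (μ : G → ℝ≥0∞) (M lam : ℝ≥0∞),
    ∑' x, μ x ≤ 1 → (∀ x, μ x ≤ M) → lam ≠ 0 → lam ≠ ⊤ → a ≤ a' → a' ≤ a + r0 →
    a + h ≤ a' + h' → a' + h' ≤ a + h + r0 → a' + s ≤ lo → hi + s ≤ a + h →
    ∑' x, μ x * ∑' L, ∑' L', (if HT hX L = h ∧ HT hY L' = h' ∧ S E L L' ∧
      EV hX zX sX hY zY sY lo hi a a' x L L' then LW ΛX L * LW ΛY L' else 0)
      ≤ C * (lam + M * (E.card : ℝ≥0∞) * us / lam + us)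

open Classical in
lemma cell (S : Finset G → List BX → List BY → Prop) (C us : ℝ≥0∞) (r0 s : ℕ)
    (hH : HW ΛX hX zX sX ΛY hY zY sY S C us r0 s) (a T i0 lo hi : ℕ) (hr : 4 * i0 ≤ r0)
    (hlo : a + 2 * i0 + s ≤ lo) (hhi : hi + s ≤ a + T) (l : List BX → List BY → Prop)
    (E : ℕ → ℕ → Finset G) (M Kc lam : ℝ≥0∞) (hlam : lam ≠ 0) (hlam' : lam ≠ ⊤)
    (hE : ∀ i i', M * ((E i i').card : ℝ≥0∞) ≤ Kc)
    (hl : ∀ Q Q' i i', HT hX Q = T + i → HT hY Q' = T + i0 + i' → l Q Q' → S (E i i') Q Q')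
    (α α' : ℕ) (hα : a ≤ α) (hα1 : α ≤ a + i0) (hα' : a + i0 ≤ α') (hα1' : α' ≤ a + i0 + i0)
    (μ : G → ℝ≥0∞) (hμ : ∑' x, μ x ≤ 1) (hμM : ∀ x, μ x ≤ M) :
    ∑' x, μ x * ∑' Q, wf ΛX hX T i0 Q * ∑' Q', wf ΛY hY (T + i0) i0 Q' *
        (if EV hX zX sX hY zY sY lo hi α α' x Q Q' ∧ l Q Q' then 1 else 0)
      ≤ ((i0 + 1 : ℕ) : ℝ≥0∞) ^ 2 * (C * (lam + Kc * us / lam + us)) := by
  have pt : ∀ x Q Q', wf ΛX hX T i0 Q * (wf ΛY hY (T + i0) i0 Q' *
        (if EV hX zX sX hY zY sY lo hi α α' x Q Q' ∧ l Q Q' then 1 else 0))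
      ≤ ∑ i ∈ Finset.range (i0 + 1), ∑ i' ∈ Finset.range (i0 + 1),
        (if HT hX Q = T + i ∧ HT hY Q' = T + i0 + i' ∧ S (E i i') Q Q' ∧
          EV hX zX sX hY zY sY lo hi α α' x Q Q' then LW ΛX Q * LW ΛY Q' else 0) := by
    intro x Q Q'
    by_cases hQ : fp hX T Q ∧ HT hX Q ≤ T + i0
    · by_cases hQ' : fp hY (T + i0) Q' ∧ HT hY Q' ≤ T + i0 + i0
      · by_cases hE' : EV hX zX sX hY zY sY lo hi α α' x Q Q' ∧ l Q Q'
        · have e1 : wf ΛX hX T i0 Q = LW ΛX Q := by unfold wf; rw [if_pos hQ]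
          have e2 : wf ΛY hY (T + i0) i0 Q' = LW ΛY Q' := by unfold wf; rw [if_pos hQ']
          rw [e1, e2, if_pos hE', mul_one]
          have q1 := FP178.le_HT_of_fp hX hQ.1
          have q2 := FP178.le_HT_of_fp hY hQ'.1
          have i1 : HT hX Q - T ∈ Finset.range (i0 + 1) := Finset.mem_range.2 (by omega)
          have i2 : HT hY Q' - (T + i0) ∈ Finset.range (i0 + 1) := Finset.mem_range.2 (by omega)
          refine le_trans ?_ (Finset.single_le_sum (fun _ _ => zero_le) i1)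
          refine le_trans ?_ (Finset.single_le_sum (fun _ _ => zero_le) i2)
          have g1 : HT hX Q = T + (HT hX Q - T) := by omega
          have g2 : HT hY Q' = T + i0 + (HT hY Q' - (T + i0)) := by omega
          rw [if_pos ⟨g1, g2, hl Q Q' _ _ g1 g2 hE'.2, hE'.1⟩]
        · rw [if_neg hE', mul_zero, mul_zero]; exact zero_le
      · have : wf ΛY hY (T + i0) i0 Q' = 0 := by unfold wf; rw [if_neg hQ']
        rw [this, zero_mul, mul_zero]; exact zero_le
    · have : wf ΛX hX T i0 Q = 0 := by unfold wf; rw [if_neg hQ]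
      rw [this, zero_mul]; exact zero_le
  calc ∑' x, μ x * ∑' Q, wf ΛX hX T i0 Q * ∑' Q', wf ΛY hY (T + i0) i0 Q' *
        (if EV hX zX sX hY zY sY lo hi α α' x Q Q' ∧ l Q Q' then 1 else 0)
      ≤ ∑' x, μ x * ∑' Q, ∑' Q', ∑ i ∈ Finset.range (i0 + 1), ∑ i' ∈ Finset.range (i0 + 1),
        (if HT hX Q = T + i ∧ HT hY Q' = T + i0 + i' ∧ S (E i i') Q Q' ∧
          EV hX zX sX hY zY sY lo hi α α' x Q Q' then LW ΛX Q * LW ΛY Q' else 0) := by
        refine ENNReal.tsum_le_tsum fun x => mul_le_mul_right ?_ _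
        refine ENNReal.tsum_le_tsum fun Q => ?_
        rw [← ENNReal.tsum_mul_left]
        exact ENNReal.tsum_le_tsum fun Q' => pt x Q Q'
    _ = ∑ i ∈ Finset.range (i0 + 1), ∑ i' ∈ Finset.range (i0 + 1), ∑' x, μ x * ∑' Q, ∑' Q',
        (if HT hX Q = T + i ∧ HT hY Q' = T + i0 + i' ∧ S (E i i') Q Q' ∧
          EV hX zX sX hY zY sY lo hi α α' x Q Q' then LW ΛX Q * LW ΛY Q' else 0) := by
        simp_rw [Summable.tsum_finsetSum (fun _ _ => ENNReal.summable), Finset.mul_sum,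
          Summable.tsum_finsetSum (fun _ _ => ENNReal.summable)]
    _ ≤ ∑ _i ∈ Finset.range (i0 + 1), ∑ _i' ∈ Finset.range (i0 + 1),
          (C * (lam + Kc * us / lam + us)) := by
        refine Finset.sum_le_sum fun i hi' => Finset.sum_le_sum fun i' hi'' => ?_
        have r1 := Finset.mem_range.1 hi'
        have r2 := Finset.mem_range.1 hi''
        refine (hH (T + i) (T + i0 + i') α α' lo hi (E i i') μ M lam hμ hμM hlam hlam'
          (by omega) (by omega) (by omega) (by omega) (by omega) (by omega)).trans ?_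
        gcongr
        exact hE i i'
    _ = _ := by simp; ring

end cells

section total

variable {BX BY G : Type*} [AddCommGroup G]
variable (ΛX : BX → ℝ≥0∞) (hX : BX → ℕ) (zX : BX → G) (sX : BX → Set (G × ℕ))
variable (ΛY : BY → ℝ≥0∞) (hY : BY → ℕ) (zY : BY → G) (sY : BY → Set (G × ℕ))

open Classical in
/-- **the total of one window** -/
theorem windowT (h1X : ∀ b, 1 ≤ hX b) (h1Y : ∀ b, 1 ≤ hY b)
    (hΛX : ∑' b, ΛX b = 1) (hΛY : ∑' b, ΛY b = 1)
    (hUX : ∀ n, U ΛX hX n ≤ 1) (hUY : ∀ n, U ΛY hY n ≤ 1)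
    (hsX : ∀ b, ∀ p ∈ sX b, 1 ≤ p.2 ∧ p.2 ≤ hX b) (hsY : ∀ b, ∀ p ∈ sY b, 1 ≤ p.2 ∧ p.2 ≤ hY b)
    (a T i0 n s lo hi J r0 : ℕ) (hn : a + T + 3 * i0 ≤ n) (hs : 1 ≤ s)
    (hlo : a + 2 * i0 + s ≤ lo) (hhi : hi + s ≤ a + T) (hJ : J * (T + 2 * i0) ≤ a)
    (hr : 4 * i0 ≤ r0) (w : G) (e1 u : ℝ≥0∞) (hu : u ≠ 0) (hu1 : u < 1)
    (hoX : ∀ a, ∑' L, (if fp hX a L ∧ a + i0 < HT hX L then LW ΛX L else 0) ≤ e1)
    (hoY : ∀ a, ∑' L, (if fp hY a L ∧ a + i0 < HT hY L then LW ΛY L else 0) ≤ e1)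
    (C us lam : ℝ≥0∞) (hlam : lam ≠ 0) (hlam' : lam ≠ ⊤)
    (H2 : HW ΛX hX zX sX ΛY hY zY sY (fun E L _ => Dp zX L ∈ E) C us r0 s)
    (H3 : HW ΛX hX zX sX ΛY hY zY sY (fun E _ L' => Dp zY L' ∈ E) C us r0 s) :
    ∑' L, ∑' L', (if HT hX L = n ∧ HT hY L' = n ∧
        ev hX zX sX hY zY sY lo hi a (a + T + 4 * i0) w L L' then LW ΛX L * LW ΛY L' else 0)
      ≤ 4 * e1 + (u * u + 2 * (((i0 + 1 : ℕ) : ℝ≥0∞) * (((i0 + 1 : ℕ) : ℝ≥0∞) ^ 2 *
          (C * (lam + (((i0 + 1 : ℕ) : ℝ≥0∞) * 2 / u) * us / lam + us)))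
          + ((1 - u) ^ J + J * e1))) := by
  refine (window4 ΛX hX zX sX ΛY hY zY sY h1X h1Y hΛX.le hΛY.le hUX hUY hsX hsY a T i0 n s lo hi
    hn hs hlo hhi w e1 hoX hoY).trans (add_le_add le_rfl ?_)
  set Kc : ℝ≥0∞ := ((i0 + 1 : ℕ) : ℝ≥0∞) * 2 / u with hKc
  obtain ⟨θX, tX0, tX1, tX2, tX3, tX4⟩ := pack ΛX hX zX h1X hΛX T i0 u hu hu1 e1 hoX
  obtain ⟨θY, tY0, tY1, tY2, tY3, tY4⟩ := pack ΛY hY zY h1Y hΛY (T + i0) i0 u hu hu1 e1 hoY
  obtain ⟨bX, bX1, bX2⟩ := tX4 J a (by nlinarith)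
  obtain ⟨bY, bY1, bY2⟩ := tY4 J (a + i0) (by nlinarith)
  have hKcle : ∀ (θ : ℝ≥0∞) (c : ℕ), (c : ℝ≥0∞) * θ ≤ 1 →
      ((i0 + 1 : ℕ) : ℝ≥0∞) * (2 * θ) / u * (c : ℝ≥0∞) ≤ Kc := by
    intro θ c hc
    calc ((i0 + 1 : ℕ) : ℝ≥0∞) * (2 * θ) / u * (c : ℝ≥0∞)
        = ((i0 + 1 : ℕ) : ℝ≥0∞) * 2 / u * ((c : ℝ≥0∞) * θ) := by
          simp only [div_eq_mul_inv]; ring
      _ ≤ ((i0 + 1 : ℕ) : ℝ≥0∞) * 2 / u * 1 := mul_le_mul_right hc _
      _ = Kc := by rw [mul_one]
  obtain ⟨lX, hlX⟩ : ∃ l : List BX → List BY → Prop, ∀ Q Q', l Q Q' ↔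
      θX ≤ pd ΛX hX zX T (HT hX Q - T) (Dp zX Q) := ⟨fun Q _ => _, fun _ _ => Iff.rfl⟩
  obtain ⟨lY, hlY⟩ : ∃ l : List BX → List BY → Prop, ∀ Q Q', l Q Q' ↔
      θY ≤ pd ΛY hY zY (T + i0) (HT hY Q' - (T + i0)) (Dp zY Q') :=
    ⟨fun _ Q' => _, fun _ _ => Iff.rfl⟩
  set D : ℝ≥0∞ := C * (lam + Kc * us / lam + us) with hD
  set wP := wf ΛX hX a i0 with hwP
  set wQ := wf ΛX hX T i0 with hwQ
  set wP' := wf ΛY hY (a + i0) i0 with hwP'
  set wQ' := wf ΛY hY (T + i0) i0 with hwQ'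
  have sP : ∑' P, wP P ≤ 1 := sum_wf ΛX hX h1X hΛX.le a i0
  have sQ : ∑' P, wQ P ≤ 1 := sum_wf ΛX hX h1X hΛX.le T i0
  have sP' : ∑' P, wP' P ≤ 1 := sum_wf ΛY hY h1Y hΛY.le (a + i0) i0
  have sQ' : ∑' P, wQ' P ≤ 1 := sum_wf ΛY hY h1Y hΛY.le (T + i0) i0
  have one4 : ∀ (K : List BX → List BY → ℝ≥0∞), (∀ Q Q', K Q Q' ≤ 1) →
      ∑' Q, wQ Q * ∑' Q', wQ' Q' * K Q Q' ≤ 1 := by
    intro K hK
    calc ∑' Q, wQ Q * ∑' Q', wQ' Q' * K Q Q' ≤ ∑' Q, wQ Q * 1 := by
          refine ENNReal.tsum_le_tsum fun Q => mul_le_mul_right ?_ _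
          calc ∑' Q', wQ' Q' * K Q Q' ≤ ∑' Q', wQ' Q' * 1 :=
                ENNReal.tsum_le_tsum fun Q' => mul_le_mul_right (hK _ _) _
            _ ≤ 1 := by simpa using sQ'
      _ ≤ 1 := by simpa using sQ
  -- first part: X local
  have partX : ∑' P, wP P * ∑' Q, wQ Q * ∑' P', wP' P' * ∑' Q', wQ' Q' *
      (if EV hX zX sX hY zY sY lo hi (HT hX P) (HT hY P') (w + Dp zY P' - Dp zX P) Q Q' ∧ lX Q Q'
        then 1 else 0)
      ≤ ((i0 + 1 : ℕ) : ℝ≥0∞) * (((i0 + 1 : ℕ) : ℝ≥0∞) ^ 2 * D) + ((1 - u) ^ J + J * e1) := by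
    rw [swap3 wP wQ wP']
    set RR : ℝ≥0∞ := ((i0 + 1 : ℕ) : ℝ≥0∞) * (((i0 + 1 : ℕ) : ℝ≥0∞) ^ 2 * D)
      + ((1 - u) ^ J + J * e1) with hRR
    calc _ ≤ ∑' P', wP' P' * RR := by
          refine ENNReal.tsum_le_tsum fun P' => ?_
          by_cases hP' : fp hY (a + i0) P' ∧ HT hY P' ≤ a + i0 + i0
          · refine mul_le_mul_right ?_ _
            have p1 := FP178.le_HT_of_fp hY hP'.1
            refine half ΛX hX zX h1X hΛX a i0 _ _ _ bX bX2 bX1 (fun α y =>
              ∑' Q, wQ Q * ∑' Q', wQ' Q' *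
              (if EV hX zX sX hY zY sY lo hi α (HT hY P') (w + Dp zY P' - y) Q Q' ∧ lX Q Q'
                then 1 else 0)) (fun α y => one4 _ (fun Q Q' => by split_ifs <;> simp)) ?_
            intro α ha1 ha2 μ hμ1 hμ2
            rw [← (Equiv.subLeft (w + Dp zY P')).tsum_eq]
            simp only [Equiv.subLeft_apply, sub_sub_cancel]
            refine cell ΛX hX zX sX ΛY hY zY sY _ C us r0 s H2 a T i0 lo hi hr hlo hhi lX
              (fun i _ => (tX3 i).1.toFinset) _ Kc lam hlam hlam' (fun i i' => ?_)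
              (fun Q Q' i i' g1 g2 g3 => ?_) α (HT hY P') ha1 ha2 p1 hP'.2
              (fun x => μ (w + Dp zY P' - x)) ?_ (fun x => hμ2 _)
            · rw [← Set.ncard_eq_toFinset_card _ (tX3 i).1]
              exact hKcle θX _ (tX3 i).2
            · rw [Set.Finite.mem_toFinset]
              rw [hlX, g1, Nat.add_sub_cancel_left] at g3
              exact g3
            · have := (Equiv.subLeft (w + Dp zY P')).tsum_eq μ
              simp only [Equiv.subLeft_apply] at this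
              rw [this]; exact hμ1
          · have : wP' P' = 0 := by simp only [hwP']; unfold wf; rw [if_neg hP']
            rw [this, zero_mul, zero_mul]
      _ = (∑' P', wP' P') * RR := ENNReal.tsum_mul_right
      _ ≤ 1 * RR := mul_le_mul_left sP' _
      _ = RR := one_mul _
  have partY : ∑' P, wP P * ∑' Q, wQ Q * ∑' P', wP' P' * ∑' Q', wQ' Q' *
      (if EV hX zX sX hY zY sY lo hi (HT hX P) (HT hY P') (w + Dp zY P' - Dp zX P) Q Q' ∧ lY Q Q'
        then 1 else 0)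
      ≤ ((i0 + 1 : ℕ) : ℝ≥0∞) * (((i0 + 1 : ℕ) : ℝ≥0∞) ^ 2 * D) + ((1 - u) ^ J + J * e1) := by
    set RR : ℝ≥0∞ := ((i0 + 1 : ℕ) : ℝ≥0∞) * (((i0 + 1 : ℕ) : ℝ≥0∞) ^ 2 * D)
      + ((1 - u) ^ J + J * e1) with hRR
    calc _ ≤ ∑' P, wP P * RR := by
          refine ENNReal.tsum_le_tsum fun P => ?_
          by_cases hP : fp hX a P ∧ HT hX P ≤ a + i0
          · refine mul_le_mul_right ?_ _
            have p1 := FP178.le_HT_of_fp hX hP.1
            rw [swap2 wQ wP']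
            refine half ΛY hY zY h1Y hΛY (a + i0) i0 _ _ _ bY bY2 bY1 (fun α y =>
              ∑' Q, wQ Q * ∑' Q', wQ' Q' *
              (if EV hX zX sX hY zY sY lo hi (HT hX P) α (w + y - Dp zX P) Q Q' ∧ lY Q Q'
                then 1 else 0)) (fun α y => one4 _ (fun Q Q' => by split_ifs <;> simp)) ?_
            intro α ha1 ha2 μ hμ1 hμ2
            rw [← (Equiv.subRight (w - Dp zX P)).tsum_eq]
            simp only [Equiv.subRight_apply]
            have ex : ∀ x : G, w + (x - (w - Dp zX P)) - Dp zX P = x := fun x => by abel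
            simp only [ex]
            refine cell ΛX hX zX sX ΛY hY zY sY _ C us r0 s H3 a T i0 lo hi hr hlo hhi lY
              (fun _ i' => (tY3 i').1.toFinset) _ Kc lam hlam hlam' (fun i i' => ?_)
              (fun Q Q' i i' g1 g2 g3 => ?_) (HT hX P) α p1 hP.2 ha1 ha2
              (fun x => μ (x - (w - Dp zX P))) ?_ (fun x => hμ2 _)
            · rw [← Set.ncard_eq_toFinset_card _ (tY3 i').1]
              exact hKcle θY _ (tY3 i').2
            · rw [Set.Finite.mem_toFinset]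
              rw [hlY, g2, Nat.add_sub_cancel_left] at g3
              exact g3
            · have := (Equiv.subRight (w - Dp zX P)).tsum_eq μ
              simp only [Equiv.subRight_apply] at this
              rw [this]; exact hμ1
          · have : wP P = 0 := by simp only [hwP]; unfold wf; rw [if_neg hP]
            rw [this, zero_mul, zero_mul]
      _ = (∑' P, wP P) * RR := ENNReal.tsum_mul_right
      _ ≤ 1 * RR := mul_le_mul_left sP _
      _ = RR := one_mul _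
  -- both non local
  have partN : ∑' P, wP P * ∑' Q, wQ Q * ∑' P', wP' P' * ∑' Q', wQ' Q' *
      ((if θX ≤ pd ΛX hX zX T (HT hX Q - T) (Dp zX Q) then 0 else 1) *
        (if θY ≤ pd ΛY hY zY (T + i0) (HT hY Q' - (T + i0)) (Dp zY Q') then 0 else 1))
      ≤ u * u := by
    have i1 : ∀ Q, ∑' Q', wQ' Q' *
        ((if θX ≤ pd ΛX hX zX T (HT hX Q - T) (Dp zX Q) then 0 else 1) *
        (if θY ≤ pd ΛY hY zY (T + i0) (HT hY Q' - (T + i0)) (Dp zY Q') then 0 else 1))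
        ≤ (if θX ≤ pd ΛX hX zX T (HT hX Q - T) (Dp zX Q) then 0 else 1) * u := by
      intro Q
      calc _ = ∑' Q', (if θX ≤ pd ΛX hX zX T (HT hX Q - T) (Dp zX Q) then 0 else 1) *
            (wQ' Q' * (if θY ≤ pd ΛY hY zY (T + i0) (HT hY Q' - (T + i0)) (Dp zY Q')
              then 0 else 1)) := tsum_congr fun Q' => by ring
        _ = (if θX ≤ pd ΛX hX zX T (HT hX Q - T) (Dp zX Q) then 0 else 1) *
            ∑' Q', (wQ' Q' * (if θY ≤ pd ΛY hY zY (T + i0) (HT hY Q' - (T + i0)) (Dp zY Q')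
              then 0 else 1)) := ENNReal.tsum_mul_left
        _ ≤ _ := mul_le_mul_right tY2 _
    calc _ ≤ ∑' P, wP P * ∑' Q, wQ Q * ∑' P', wP' P' *
            ((if θX ≤ pd ΛX hX zX T (HT hX Q - T) (Dp zX Q) then 0 else 1) * u) := by
          refine ENNReal.tsum_le_tsum fun P => mul_le_mul_right ?_ _
          refine ENNReal.tsum_le_tsum fun Q => mul_le_mul_right ?_ _
          refine ENNReal.tsum_le_tsum fun P' => mul_le_mul_right ?_ _
          exact i1 Q
      _ ≤ ∑' P, wP P * ∑' Q, wQ Q *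
            (1 * ((if θX ≤ pd ΛX hX zX T (HT hX Q - T) (Dp zX Q) then 0 else 1) * u)) := by
          refine ENNReal.tsum_le_tsum fun P => mul_le_mul_right ?_ _
          refine ENNReal.tsum_le_tsum fun Q => mul_le_mul_right ?_ _
          rw [ENNReal.tsum_mul_right]
          exact mul_le_mul_left sP' _
      _ = ∑' P, wP P * ((∑' Q, wQ Q *
            (if θX ≤ pd ΛX hX zX T (HT hX Q - T) (Dp zX Q) then 0 else 1)) * u) := by
          refine tsum_congr fun P => ?_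
          rw [← ENNReal.tsum_mul_right]
          congr 1
          refine tsum_congr fun Q => ?_
          rw [one_mul, mul_assoc]
      _ ≤ ∑' P, wP P * (u * u) := by
          refine ENNReal.tsum_le_tsum fun P => mul_le_mul_right ?_ _
          exact mul_le_mul_left tX2 _
      _ = (∑' P, wP P) * (u * u) := ENNReal.tsum_mul_right
      _ ≤ 1 * (u * u) := mul_le_mul_left sP _
      _ = u * u := one_mul _
  -- pointwise splitting
  have split : ∀ P Q P' Q',
      (if EV hX zX sX hY zY sY lo hi (HT hX P) (HT hY P') (w + Dp zY P' - Dp zX P) Q Q'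
        then (1 : ℝ≥0∞) else 0)
      ≤ ((if EV hX zX sX hY zY sY lo hi (HT hX P) (HT hY P') (w + Dp zY P' - Dp zX P) Q Q' ∧
          lX Q Q' then 1 else 0)
        + (if EV hX zX sX hY zY sY lo hi (HT hX P) (HT hY P') (w + Dp zY P' - Dp zX P) Q Q' ∧
          lY Q Q' then 1 else 0))
        + ((if θX ≤ pd ΛX hX zX T (HT hX Q - T) (Dp zX Q) then 0 else 1) *
        (if θY ≤ pd ΛY hY zY (T + i0) (HT hY Q' - (T + i0)) (Dp zY Q') then 0 else 1)) := by
    intro P Q P' Q'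
    by_cases hE : EV hX zX sX hY zY sY lo hi (HT hX P) (HT hY P') (w + Dp zY P' - Dp zX P) Q Q'
    · rw [if_pos hE]
      by_cases hx : θX ≤ pd ΛX hX zX T (HT hX Q - T) (Dp zX Q)
      · rw [if_pos (show _ ∧ lX Q Q' from ⟨hE, (hlX Q Q').2 hx⟩)]
        exact le_add_right (le_add_right le_rfl)
      · by_cases hy : θY ≤ pd ΛY hY zY (T + i0) (HT hY Q' - (T + i0)) (Dp zY Q')
        · rw [if_pos (show _ ∧ lY Q Q' from ⟨hE, (hlY Q Q').2 hy⟩)]
          exact le_add_right (le_add_left le_rfl)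
        · rw [if_neg hx, if_neg hy, mul_one]
          exact le_add_left le_rfl
    · rw [if_neg hE]; exact zero_le
  calc _ ≤ ∑' P, wP P * ∑' Q, wQ Q * ∑' P', wP' P' * ∑' Q', wQ' Q' *
        (((if EV hX zX sX hY zY sY lo hi (HT hX P) (HT hY P') (w + Dp zY P' - Dp zX P) Q Q' ∧
          lX Q Q' then 1 else 0)
        + (if EV hX zX sX hY zY sY lo hi (HT hX P) (HT hY P') (w + Dp zY P' - Dp zX P) Q Q' ∧
          lY Q Q' then 1 else 0))
        + ((if θX ≤ pd ΛX hX zX T (HT hX Q - T) (Dp zX Q) then 0 else 1) *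
        (if θY ≤ pd ΛY hY zY (T + i0) (HT hY Q' - (T + i0)) (Dp zY Q') then 0 else 1))) := by
        refine ENNReal.tsum_le_tsum fun P => mul_le_mul_right ?_ _
        refine ENNReal.tsum_le_tsum fun Q => mul_le_mul_right ?_ _
        refine ENNReal.tsum_le_tsum fun P' => mul_le_mul_right ?_ _
        refine ENNReal.tsum_le_tsum fun Q' => mul_le_mul_right ?_ _
        exact split P Q P' Q'
    _ = _ := by
        simp_rw [mul_add, ENNReal.tsum_add, mul_add, ENNReal.tsum_add, mul_add,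
          ENNReal.tsum_add, mul_add, ENNReal.tsum_add]
    _ ≤ (((i0 + 1 : ℕ) : ℝ≥0∞) * (((i0 + 1 : ℕ) : ℝ≥0∞) ^ 2 * D) + ((1 - u) ^ J + J * e1)
          + (((i0 + 1 : ℕ) : ℝ≥0∞) * (((i0 + 1 : ℕ) : ℝ≥0∞) ^ 2 * D) + ((1 - u) ^ J + J * e1)))
          + u * u := add_le_add (add_le_add partX partY) partN
    _ = _ := by ring

end total

section final

variable {BX BY G : Type*} [AddCommGroup G]
variable (ΛX : BX → ℝ≥0∞) (hX : BX → ℕ) (zX : BX → G) (sX : BX → Set (G × ℕ))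
variable (ΛY : BY → ℝ≥0∞) (hY : BY → ℕ) (zY : BY → G) (sY : BY → Set (G × ℕ))

/-- contact at depth `k` -/
def CP (w : G) (k : ℕ) (L : List BX) (L' : List BY) : Prop :=
  ∃ v, (v, k) ∈ TT sX zX hX L 0 0 ∧ (v, k) ∈ TT sY zY hY L' w 0

open Classical in
/-- weight of the pairs with a contact at depth `k` -/
noncomputable def Pt (n k : ℕ) (w : G) : ℝ≥0∞ :=
  ∑' L, ∑' L', (if HT hX L = n ∧ HT hY L' = n ∧ CP hX zX sX hY zY sY w k L L'
    then LW ΛX L * LW ΛY L' else 0)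

/-- the slabs of a window -/
def slab (a T i0 s : ℕ) : Finset ℕ :=
  Finset.Icc a (a + 2 * i0 + s) ∪ Finset.Icc (a + T - s) (a + T + 4 * i0)

lemma slab_card (a T i0 s : ℕ) (hs : s ≤ T) : (slab a T i0 s).card ≤ 6 * i0 + 2 * s + 2 := by
  refine (Finset.card_union_le _ _).trans ?_
  rw [Nat.card_Icc, Nat.card_Icc]
  omega

open Classical in
lemma cover (K T m n s i0 : ℕ) (w : G) (hT : 0 < T) (hK1 : K * T ≤ m)
    (hK2 : 2 * m < 2 * (K * T) + T) :
    ∑' L, ∑' L', (if HT hX L = n ∧ HT hY L' = n ∧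
        (∃ k, m < k ∧ k ≤ 2 * m ∧ CP hX zX sX hY zY sY w k L L') then LW ΛX L * LW ΛY L' else 0)
      ≤ ∑ j ∈ Finset.Icc K (2 * K), ((∑' L, ∑' L', (if HT hX L = n ∧ HT hY L' = n ∧
        ev hX zX sX hY zY sY (j * T + 2 * i0 + s) (j * T + T - s) (j * T)
          (j * T + T + 4 * i0) w L L' then LW ΛX L * LW ΛY L' else 0))
        + ∑ k ∈ slab (j * T) T i0 s, Pt ΛX hX zX sX ΛY hY zY sY n k w) := by
  have pt : ∀ L L', (if HT hX L = n ∧ HT hY L' = n ∧
        (∃ k, m < k ∧ k ≤ 2 * m ∧ CP hX zX sX hY zY sY w k L L') then LW ΛX L * LW ΛY L' else 0)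
      ≤ ∑ j ∈ Finset.Icc K (2 * K), ((if HT hX L = n ∧ HT hY L' = n ∧
        ev hX zX sX hY zY sY (j * T + 2 * i0 + s) (j * T + T - s) (j * T)
          (j * T + T + 4 * i0) w L L' then LW ΛX L * LW ΛY L' else 0)
        + ∑ k ∈ slab (j * T) T i0 s, (if HT hX L = n ∧ HT hY L' = n ∧
          CP hX zX sX hY zY sY w k L L' then LW ΛX L * LW ΛY L' else 0)) := by
    intro L L'
    split_ifs with h
    · obtain ⟨h1, h2, k, hk1, hk2, v, hv1, hv2⟩ := h
      have hd := Nat.div_add_mod k T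
      have hm := Nat.mod_lt k hT
      set j := k / T with hj
      have hjT : T * j = j * T := mul_comm _ _
      have hj1 : K ≤ j := by
        by_contra hcon
        have : (j + 1) * T ≤ K * T := Nat.mul_le_mul_right T (by omega)
        rw [add_mul, one_mul] at this
        omega
      have hj2 : j ≤ 2 * K := by
        by_contra hcon
        have : (2 * K + 1) * T ≤ j * T := Nat.mul_le_mul_right T (by omega)
        rw [add_mul, one_mul, mul_assoc] at this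
        omega
      refine le_trans ?_ (Finset.single_le_sum (fun _ _ => zero_le) (Finset.mem_Icc.2 ⟨hj1, hj2⟩))
      by_cases hsl : ∃ k' ∈ slab (j * T) T i0 s, CP hX zX sX hY zY sY w k' L L'
      · obtain ⟨k', hk', hc⟩ := hsl
        refine le_add_left ?_
        refine le_trans ?_ (Finset.single_le_sum (fun _ _ => zero_le) hk')
        rw [if_pos ⟨h1, h2, hc⟩]
      · refine le_add_right ?_
        have hno : ∀ k', CP hX zX sX hY zY sY w k' L L' → k' ∉ slab (j * T) T i0 s :=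
          fun k' hc hk' => hsl ⟨k', hk', hc⟩
        have hrange : ∀ k', CP hX zX sX hY zY sY w k' L L' → j * T ≤ k' →
            k' ≤ j * T + T + 4 * i0 → j * T + 2 * i0 + s ≤ k' ∧ k' ≤ j * T + T - s := by
          intro k' hc g1 g2
          have := hno k' hc
          rw [slab, Finset.mem_union, Finset.mem_Icc, Finset.mem_Icc] at this
          omega
        rw [if_pos]
        refine ⟨h1, h2, ⟨(v, k), hv1, hv2, ?_⟩, ?_⟩
        · exact hrange k ⟨v, hv1, hv2⟩ (by omega) (by omega)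
        · rintro ⟨v', k'⟩ g1 g2 g3 g4
          exact hrange k' ⟨v', g1, g2⟩ (le_of_lt g3) g4
    · exact zero_le
  refine (ENNReal.tsum_le_tsum fun L => ENNReal.tsum_le_tsum fun L' => pt L L').trans (le_of_eq ?_)
  unfold Pt
  simp_rw [Summable.tsum_finsetSum (fun _ _ => ENNReal.summable), ENNReal.tsum_add,
    Summable.tsum_finsetSum (fun _ _ => ENNReal.summable)]

lemma exists_small_mul (A ε : ℝ≥0∞) (hA : A ≠ ⊤) (hε : ε ≠ 0) :
    ∃ x : ℝ≥0∞, x ≠ 0 ∧ x ≠ ⊤ ∧ A * x ≤ ε := by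
  refine ⟨min 1 (ε / (A + 1)), ?_, ?_, ?_⟩
  · have : ε / (A + 1) ≠ 0 := ENNReal.div_ne_zero.2 ⟨hε, by simp [hA]⟩
    exact (lt_min one_pos (pos_iff_ne_zero.2 this)).ne'
  · exact ne_top_of_le_ne_top ENNReal.one_ne_top (min_le_left _ _)
  · calc A * min 1 (ε / (A + 1)) ≤ (A + 1) * (ε / (A + 1)) := by
          gcongr
          · exact le_self_add
          · exact min_le_right _ _
      _ ≤ ε := ENNReal.mul_div_le

lemma eventually_mul_le (A ε : ℝ≥0∞) (hA : A ≠ ⊤) (hε : ε ≠ 0) (f : ℕ → ℝ≥0∞)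
    (hf : Filter.Tendsto f Filter.atTop (nhds 0)) : ∀ᶠ n in Filter.atTop, A * f n ≤ ε := by
  obtain ⟨x, hx0, -, hx⟩ := exists_small_mul A ε hA hε
  filter_upwards [hf.eventually (gt_mem_nhds (pos_iff_ne_zero.2 hx0))] with n hn
  exact (mul_le_mul_right hn.le A).trans hx

lemma tail_sum_tendsto {B : Type*} (Λ : B → ℝ≥0∞) (ht : B → ℕ)
    (hm : ∑' k, tail Λ ht k ≠ ⊤) :
    Filter.Tendsto (fun i => ∑' k, tail Λ ht (i + k)) Filter.atTop (nhds 0) := by
  have := ENNReal.tendsto_sum_nat_add (tail Λ ht) hm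
  refine this.congr fun i => ?_
  refine tsum_congr fun k => ?_
  rw [add_comm]

open Classical in
/-- **the abstract assembly of ROAD 801** -/
theorem kapS (h1X : ∀ b, 1 ≤ hX b) (h1Y : ∀ b, 1 ≤ hY b)
    (hΛX : ∑' b, ΛX b = 1) (hΛY : ∑' b, ΛY b = 1)
    (hUX : ∀ n, U ΛX hX n ≤ 1) (hUY : ∀ n, U ΛY hY n ≤ 1)
    (hmX : ∑' k, tail ΛX hX k ≠ ⊤) (hmY : ∑' k, tail ΛY hY k ≠ ⊤)
    (hsX : ∀ b, ∀ p ∈ sX b, 1 ≤ p.2 ∧ p.2 ≤ hX b) (hsY : ∀ b, ∀ p ∈ sY b, 1 ≤ p.2 ∧ p.2 ≤ hY b)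
    (hW : ∀ r0 : ℕ, ∃ (C : ℝ≥0∞) (us : ℕ → ℝ≥0∞), C ≠ ⊤ ∧
      Filter.Tendsto us Filter.atTop (nhds 0) ∧ ∀ s, 1 ≤ s →
      HW ΛX hX zX sX ΛY hY zY sY (fun E L _ => Dp zX L ∈ E) C (us s) r0 s ∧
      HW ΛX hX zX sX ΛY hY zY sY (fun E _ L' => Dp zY L' ∈ E) C (us s) r0 s)
    (hPt : ∀ ε : ℝ≥0∞, ε ≠ 0 → ∃ k0, ∀ k, k0 ≤ k → ∀ n, k ≤ n → ∀ w,
      Pt ΛX hX zX sX ΛY hY zY sY n k w ≤ ε) :
    ∀ ε : ℝ≥0∞, ε ≠ 0 → ∃ M, ∀ m, M ≤ m → ∀ n, 3 * m ≤ n → ∀ w,
      ∑' L, ∑' L', (if HT hX L = n ∧ HT hY L' = n ∧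
        (∃ k, m < k ∧ k ≤ 2 * m ∧ CP hX zX sX hY zY sY w k L L') then LW ΛX L * LW ΛY L' else 0)
      ≤ ε := by
  intro ε hε
  set δ : ℝ≥0∞ := ε / 5 with hδ
  have hδ0 : δ ≠ 0 := ENNReal.div_ne_zero.2 ⟨hε, by norm_num⟩
  obtain ⟨q, hq2, hq⟩ := AsmA789.num hδ0 4
  set u : ℝ≥0∞ := ((q : ℝ≥0∞) ^ 2)⁻¹ with hu
  set J := q ^ 3 with hJ
  set K := 2 * q ^ 3 with hK
  have hq3 : 8 ≤ q ^ 3 := by
    calc 8 = 2 ^ 3 := by norm_num
      _ ≤ q ^ 3 := Nat.pow_le_pow_left hq2 3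
  have hqT : (q : ℝ≥0∞) ≠ ⊤ := ENNReal.natCast_ne_top q
  have hq1 : (1 : ℝ≥0∞) < (q : ℝ≥0∞) := by exact_mod_cast (by omega : 1 < q)
  have hq0 : (q : ℝ≥0∞) ≠ 0 := (zero_lt_one.trans hq1).ne'
  have hu0 : u ≠ 0 := ENNReal.inv_ne_zero.2 (ENNReal.pow_ne_top hqT)
  have hu1 : u < 1 := by
    rw [hu, ENNReal.inv_lt_one]
    exact one_lt_pow₀ hq1 (by norm_num)
  have huT : u ≠ ⊤ := ne_top_of_lt hu1
  -- (1)
  have B1 : ((K + 1 : ℕ) : ℝ≥0∞) * (u * u + 2 * (1 - u) ^ J) ≤ δ := by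
    refine le_trans ?_ hq
    have e1 : (1 - u) ^ J ≤ (1 - (2 * (q : ℝ≥0∞) ^ 2)⁻¹) ^ (q ^ 3) := by
      refine pow_le_pow_left₀ zero_le ?_ _
      refine tsub_le_tsub_left ?_ _
      rw [hu]
      exact ENNReal.inv_le_inv.2 (by
        calc (q : ℝ≥0∞) ^ 2 = 1 * (q : ℝ≥0∞) ^ 2 := (one_mul _).symm
          _ ≤ 2 * (q : ℝ≥0∞) ^ 2 := by gcongr; norm_num)
    have e2 : ((K + 1 : ℕ) : ℝ≥0∞) * 2 ≤ (4 : ℕ) * ((q : ℝ≥0∞) ^ 3 + (4 : ℕ)) := by
      have : ((K + 1) * 2 : ℕ) ≤ 4 * (q ^ 3 + 4) := by rw [hK]; omega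
      calc ((K + 1 : ℕ) : ℝ≥0∞) * 2 = (((K + 1) * 2 : ℕ) : ℝ≥0∞) := by push_cast; ring
        _ ≤ ((4 * (q ^ 3 + 4) : ℕ) : ℝ≥0∞) := by exact_mod_cast this
        _ = _ := by push_cast; ring
    calc ((K + 1 : ℕ) : ℝ≥0∞) * (u * u + 2 * (1 - u) ^ J)
        ≤ ((K + 1 : ℕ) : ℝ≥0∞) * (2 * (u * u) + 2 * (1 - u) ^ J) := by
          refine mul_le_mul_right (add_le_add ?_ le_rfl) _
          calc u * u = 1 * (u * u) := (one_mul _).symm
            _ ≤ 2 * (u * u) := mul_le_mul_left (by norm_num) _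
      _ = ((K + 1 : ℕ) : ℝ≥0∞) * 2 * (u ^ 2 + (1 - u) ^ J) := by ring
      _ ≤ (4 : ℕ) * ((q : ℝ≥0∞) ^ 3 + (4 : ℕ)) *
          (u ^ 2 + (1 - (2 * (q : ℝ≥0∞) ^ 2)⁻¹) ^ (q ^ 3)) := by gcongr
  -- (2) overshoot
  have htX := tail_sum_tendsto ΛX hX hmX
  have htY := tail_sum_tendsto ΛY hY hmY
  have htXY := htX.add htY
  rw [add_zero] at htXY
  obtain ⟨i0, hi0⟩ := (eventually_mul_le (((K + 1 : ℕ) : ℝ≥0∞) * (4 + 2 * (J : ℝ≥0∞))) δ
    (ENNReal.mul_ne_top (ENNReal.natCast_ne_top _) (by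
      refine ENNReal.add_ne_top.2 ⟨by norm_num, ENNReal.mul_ne_top (by norm_num)
        (ENNReal.natCast_ne_top _)⟩)) hδ0 _ htXY).exists
  set e1 : ℝ≥0∞ := (∑' k, tail ΛX hX (i0 + k)) + ∑' k, tail ΛY hY (i0 + k) with he1
  have hoX : ∀ a, ∑' L, (if fp hX a L ∧ a + i0 < HT hX L then LW ΛX L else 0) ≤ e1 := fun a =>
    (FP178.overshoot ΛX hX h1X hUX i0 a).trans le_self_add
  have hoY : ∀ a, ∑' L, (if fp hY a L ∧ a + i0 < HT hY L then LW ΛY L else 0) ≤ e1 := fun a =>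
    (FP178.overshoot ΛY hY h1Y hUY i0 a).trans le_add_self
  obtain ⟨C, us, hC, hus, hWs⟩ := hW (4 * i0)
  set A : ℝ≥0∞ := ((K + 1 : ℕ) : ℝ≥0∞) * (2 * (((i0 + 1 : ℕ) : ℝ≥0∞) *
    (((i0 + 1 : ℕ) : ℝ≥0∞) ^ 2 * C))) with hA
  have hAT : A ≠ ⊤ := by
    refine ENNReal.mul_ne_top (ENNReal.natCast_ne_top _) (ENNReal.mul_ne_top (by norm_num)
      (ENNReal.mul_ne_top (ENNReal.natCast_ne_top _) (ENNReal.mul_ne_top
        (ENNReal.pow_ne_top (ENNReal.natCast_ne_top _)) hC)))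
  -- (3) lam
  obtain ⟨lam, hl0, hlT, hl⟩ := exists_small_mul A δ hAT hδ0
  set Kc : ℝ≥0∞ := ((i0 + 1 : ℕ) : ℝ≥0∞) * 2 / u with hKc
  have hKcT : Kc ≠ ⊤ := ENNReal.div_ne_top
    (ENNReal.mul_ne_top (ENNReal.natCast_ne_top _) (by norm_num)) hu0
  -- (4) s
  obtain ⟨s, hs1, hs⟩ := ((Filter.eventually_ge_atTop 1).and (eventually_mul_le
    (A * (Kc / lam + 1)) δ (ENNReal.mul_ne_top hAT (ENNReal.add_ne_top.2
      ⟨ENNReal.div_ne_top hKcT hl0, ENNReal.one_ne_top⟩)) hδ0 us hus)).exists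
  -- (5) slabs
  obtain ⟨η, hη0, -, hη⟩ := exists_small_mul
    (((K + 1 : ℕ) : ℝ≥0∞) * ((6 * i0 + 2 * s + 2 : ℕ) : ℝ≥0∞)) δ
    (ENNReal.mul_ne_top (ENNReal.natCast_ne_top _) (ENNReal.natCast_ne_top _)) hδ0
  obtain ⟨k0, hk0⟩ := hPt η hη0
  refine ⟨K * (k0 + 2 * i0 + s + 2 * K + 1), fun m hm n hn w => ?_⟩
  have hKpos : 0 < K := by omega
  set T := m / K with hT
  have hT1 : k0 + 2 * i0 + s + 2 * K + 1 ≤ T := by
    rw [hT, Nat.le_div_iff_mul_le hKpos, mul_comm]; exact hm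
  have hd := Nat.div_add_mod m K
  have hmod := Nat.mod_lt m hKpos
  rw [← hT] at hd
  have hK1 : K * T ≤ m := by omega
  have h3T : 3 * T ≤ K * T := Nat.mul_le_mul_right T (by omega)
  refine (cover ΛX hX zX sX ΛY hY zY sY K T m n s i0 w (by omega) hK1 (by omega)).trans ?_
  have hcard : (Finset.Icc K (2 * K)).card = K + 1 := by rw [Nat.card_Icc]; omega
  calc _ ≤ ∑ _j ∈ Finset.Icc K (2 * K), ((4 * e1 + (u * u + 2 * (((i0 + 1 : ℕ) : ℝ≥0∞) *
          (((i0 + 1 : ℕ) : ℝ≥0∞) ^ 2 * (C * (lam + Kc * us s / lam + us s)))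
          + ((1 - u) ^ J + J * e1)))) + ((6 * i0 + 2 * s + 2 : ℕ) : ℝ≥0∞) * η) := by
        refine Finset.sum_le_sum fun j hj => ?_
        obtain ⟨hj1, hj2⟩ := Finset.mem_Icc.1 hj
        have hjT1 : K * T ≤ j * T := Nat.mul_le_mul_right T hj1
        have hjT2 : j * T ≤ 2 * K * T := Nat.mul_le_mul_right T hj2
        rw [mul_assoc] at hjT2
        have hJT : J * (T + 2 * i0) ≤ j * T := by
          refine le_trans ?_ hjT1
          calc J * (T + 2 * i0) ≤ J * (2 * T) := Nat.mul_le_mul_left J (by omega)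
            _ = K * T := by rw [hK, hJ]; ring
        refine add_le_add ?_ ?_
        · exact windowT ΛX hX zX sX ΛY hY zY sY h1X h1Y hΛX hΛY hUX hUY hsX hsY (j * T) T i0 n s
            _ _ J (4 * i0) (by omega) hs1 le_rfl (by omega) hJT le_rfl w e1 u hu0 hu1 hoX hoY
            C (us s) lam hl0 hlT (hWs s hs1).1 (hWs s hs1).2
        · calc ∑ k ∈ slab (j * T) T i0 s, Pt ΛX hX zX sX ΛY hY zY sY n k w
              ≤ ∑ _k ∈ slab (j * T) T i0 s, η := by
                refine Finset.sum_le_sum fun k hk => ?_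
                rw [slab, Finset.mem_union, Finset.mem_Icc, Finset.mem_Icc] at hk
                exact hk0 k (by omega) n (by omega) w
            _ = ((slab (j * T) T i0 s).card : ℝ≥0∞) * η := by simp
            _ ≤ _ := by
                gcongr
                exact_mod_cast slab_card (j * T) T i0 s (by omega)
    _ = ((K + 1 : ℕ) : ℝ≥0∞) * ((4 * e1 + (u * u + 2 * (((i0 + 1 : ℕ) : ℝ≥0∞) *
          (((i0 + 1 : ℕ) : ℝ≥0∞) ^ 2 * (C * (lam + Kc * us s / lam + us s)))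
          + ((1 - u) ^ J + J * e1)))) + ((6 * i0 + 2 * s + 2 : ℕ) : ℝ≥0∞) * η) := by
        rw [Finset.sum_const, hcard, nsmul_eq_mul]
    _ = ((K + 1 : ℕ) : ℝ≥0∞) * (u * u + 2 * (1 - u) ^ J)
          + ((K + 1 : ℕ) : ℝ≥0∞) * (4 + 2 * (J : ℝ≥0∞)) * e1
          + A * lam + A * (Kc / lam + 1) * us s
          + ((K + 1 : ℕ) : ℝ≥0∞) * ((6 * i0 + 2 * s + 2 : ℕ) : ℝ≥0∞) * η := by
        rw [hA]
        simp only [div_eq_mul_inv]
        ring
    _ ≤ δ + δ + δ + δ + δ := by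
        gcongr
    _ = 5 * δ := by ring
    _ = ε := ENNReal.mul_div_cancel (by norm_num) (by norm_num)

end final

end Crest.Agent.R154.Asm894
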