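import Crest.Agent.R154.B5Rec_566
import Crest.Agent.R154.AsmA_789

/-! Row 154, ROAD 801: assembly of KAPPA' from single-walker lists (helper908). -/

set_option autoImplicit false

namespace Crest.Agent.R154.Asm908

open scoped ENNReal
open Crest.Agent.R154.B5A

section One

variable {B G : Type*} [AddCommGroup G]

/-- displacement of a list -/
def Dp (z : B → G) (L : List B) : G := (L.map z).sum

/-- sites (position, depth) of a list hung at position `x`, depth `a` -/
def TS (h : B → ℕ) (z : B → G) (s : B → Set (G × ℕ)) : List B → G → ℕ → Set (G × ℕ)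
  | [], _, _ => ∅
  | b :: L, x, a => {p | ∃ q ∈ s b, p = (x + q.1, a + q.2)} ∪ TS h z s L (x + z b) (a + h b)

lemma Dp_nil (z : B → G) : Dp z [] = 0 := by simp [Dp]
lemma Dp_cons (z : B → G) (b : B) (L : List B) : Dp z (b :: L) = z b + Dp z L := by simp [Dp]
lemma Dp_append (z : B → G) (L L' : List B) : Dp z (L ++ L') = Dp z L + Dp z L' := by simp [Dp]

lemma TS_append (h : B → ℕ) (z : B → G) (s : B → Set (G × ℕ)) (L L' : List B) (x : G) (a : ℕ) :
    TS h z s (L ++ L') x a = TS h z s L x a ∪ TS h z s L' (x + Dp z L) (a + HT h L) := by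
  induction L generalizing x a with
  | nil => simp [TS, Dp_nil, HT_nil]
  | cons b L ih =>
    simp only [List.cons_append, TS, ih, Dp_cons, HT_cons, Set.union_assoc, add_assoc]

lemma TS_depth (h : B → ℕ) (z : B → G) (s : B → Set (G × ℕ))
    (hs : ∀ b, ∀ q ∈ s b, 1 ≤ q.2 ∧ q.2 ≤ h b) (L : List B) (x : G) (a : ℕ) (p : G × ℕ)
    (hp : p ∈ TS h z s L x a) : a < p.2 ∧ p.2 ≤ a + HT h L := by
  induction L generalizing x a with
  | nil => simp [TS] at hp
  | cons b L ih =>
    rw [HT_cons]
    rcases hp with ⟨q, hq, rfl⟩ | hp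
    · have := hs b q hq; simp only; omega
    · have := ih _ _ hp; omega

lemma TS_shift (h : B → ℕ) (z : B → G) (s : B → Set (G × ℕ)) (L : List B) (x y : G) (a : ℕ)
    (v : G) (k : ℕ) : (v, k) ∈ TS h z s L x a ↔ (v + y, k) ∈ TS h z s L (x + y) a := by
  induction L generalizing x a with
  | nil => simp [TS]
  | cons b L ih =>
    simp only [TS, Set.mem_union, Set.mem_ofPred_eq]
    have h1 : (∃ q ∈ s b, (v, k) = (x + q.1, a + q.2))
        ↔ (∃ q ∈ s b, (v + y, k) = (x + y + q.1, a + q.2)) := by
      refine exists_congr fun q => and_congr_right fun _ => ?_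
      simp only [Prod.mk.injEq]
      refine and_congr_left fun _ => ?_
      constructor
      · rintro rfl; abel
      · intro h
        have : v + y = (x + q.1) + y := by rw [h]; abel
        exact add_right_cancel this
    rw [h1, ih (x + z b) (a + h b), show x + z b + y = x + y + z b by abel]

/-- first passage lists -/
def FP (h : B → ℕ) : ℕ → List B → Prop
  | T, [] => T = 0
  | T, b :: P => T ≠ 0 ∧ FP h (T - h b) P

/-- split at first passage -/
def spl (h : B → ℕ) : ℕ → List B → List B × List B
  | _, [] => ([], [])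
  | T, b :: L => if T = 0 then ([], b :: L) else (b :: (spl h (T - h b) L).1, (spl h (T - h b) L).2)

lemma spl_eq (h : B → ℕ) (T : ℕ) (L : List B) : (spl h T L).1 ++ (spl h T L).2 = L := by
  induction L generalizing T with
  | nil => simp [spl]
  | cons b L ih =>
    rw [spl]
    split_ifs with h0
    · rfl
    · simp [ih]

lemma spl_FP (h : B → ℕ) (T : ℕ) (L : List B) (hT : T ≤ HT h L) : FP h T (spl h T L).1 := by
  induction L generalizing T with
  | nil => simp only [HT_nil, nonpos_iff_eq_zero] at hT; simp [spl, FP, hT]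
  | cons b L ih =>
    rw [HT_cons] at hT
    rw [spl]
    split_ifs with h0
    · simp [FP, h0]
    · exact ⟨h0, ih _ (by omega)⟩

lemma FP_le (h : B → ℕ) (T : ℕ) (P : List B) (hP : FP h T P) : T ≤ HT h P := by
  induction P generalizing T with
  | nil => simp only [FP] at hP; omega
  | cons b P ih => have := ih _ hP.2; rw [HT_cons]; omega

lemma FP_app (h : B → ℕ) (h1 : ∀ b, 1 ≤ h b) (T : ℕ) (A R : List B) (hA : HT h A ≤ T) :
    FP h T (A ++ R) ↔ FP h (T - HT h A) R := by
  induction A generalizing T with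
  | nil => simp [HT_nil]
  | cons a A ih =>
    rw [HT_cons] at hA
    have ha := h1 a
    rw [List.cons_append, FP, ih (T - h a) (by omega), HT_cons,
      show T - h a - HT h A = T - (h a + HT h A) by omega]
    constructor
    · exact fun h => h.2
    · exact fun h => ⟨by omega, h⟩

lemma spl_app (h : B → ℕ) (T : ℕ) (A R : List B) (hA : FP h T A) : spl h T (A ++ R) = (A, R) := by
  induction A generalizing T with
  | nil =>
    simp only [FP] at hA
    subst hA
    cases R with
    | nil => simp [spl]
    | cons r R => simp [spl]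
  | cons a A ih =>
    obtain ⟨h0, h2⟩ := hA
    rw [List.cons_append, spl, if_neg h0, ih _ h2]

open Classical in
/-- decomposition inequality -/
lemma tsum_spl_le (h : B → ℕ) (T : ℕ) (g : List B → ℝ≥0∞) (hg : ∀ L, HT h L < T → g L = 0) :
    ∑' L, g L ≤ ∑' P, (if FP h T P then ∑' R, g (P ++ R) else 0) := by
  have hinj : Function.Injective (spl h T) := by
    intro L L' hL
    rw [← spl_eq h T L, ← spl_eq h T L', hL]
  calc ∑' L, g L ≤ ∑' L, (fun p : List B × List B => if FP h T p.1 then g (p.1 ++ p.2) else 0)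
        (spl h T L) := by
        refine ENNReal.tsum_le_tsum fun L => ?_
        by_cases hL : T ≤ HT h L
        · simp only [spl_FP h T L hL, if_true, spl_eq]; exact le_rfl
        · rw [hg L (by omega)]; exact zero_le
    _ ≤ ∑' p : List B × List B, (if FP h T p.1 then g (p.1 ++ p.2) else 0) :=
        ENNReal.tsum_comp_le_tsum_of_injective hinj _
    _ = ∑' P, ∑' R, (if FP h T P then g (P ++ R) else 0) := ENNReal.tsum_prod'
    _ = _ := by
        refine tsum_congr fun P => ?_
        by_cases hP : FP h T P <;> simp [hP]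

end One

section Mass

variable {B G : Type*} [AddCommGroup G] (Λ : B → ℝ≥0∞) (h : B → ℕ)

open Classical in
/-- weighted sum over the first passage lists -/
noncomputable def FS (T : ℕ) (F : List B → ℝ≥0∞) : ℝ≥0∞ :=
  ∑' P, if FP h T P then LW Λ P * F P else 0

open Classical in
/-- weighted sum over the lists of height `n` -/
noncomputable def HS (n : ℕ) (F : List B → ℝ≥0∞) : ℝ≥0∞ :=
  ∑' L, if HT h L = n then LW Λ L * F L else 0

variable {Λ h}

lemma FS_mono (T : ℕ) {F F' : List B → ℝ≥0∞} (hF : ∀ P, FP h T P → F P ≤ F' P) :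
    FS Λ h T F ≤ FS Λ h T F' := by
  classical
  refine ENNReal.tsum_le_tsum fun P => ?_
  by_cases hP : FP h T P
  · simp only [hP, if_true]; exact mul_le_mul_right (hF P hP) _
  · simp [hP]

lemma HS_mono (n : ℕ) {F F' : List B → ℝ≥0∞} (hF : ∀ P, HT h P = n → F P ≤ F' P) :
    HS Λ h n F ≤ HS Λ h n F' := by
  classical
  refine ENNReal.tsum_le_tsum fun P => ?_
  by_cases hP : HT h P = n
  · simp only [hP, if_true]; exact mul_le_mul_right (hF P hP) _
  · simp [hP]

lemma FS_add (T : ℕ) (F F' : List B → ℝ≥0∞) :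
    FS Λ h T (fun P => F P + F' P) = FS Λ h T F + FS Λ h T F' := by
  classical
  rw [FS, FS, FS, ← ENNReal.tsum_add]
  refine tsum_congr fun P => ?_
  split_ifs
  · rw [mul_add]
  · simp

lemma FS_mul (T : ℕ) (c : ℝ≥0∞) (F : List B → ℝ≥0∞) :
    FS Λ h T (fun P => c * F P) = c * FS Λ h T F := by
  classical
  rw [FS, FS, ← ENNReal.tsum_mul_left]
  refine tsum_congr fun P => ?_
  split_ifs
  · ring
  · simp

lemma FS_zero (F : List B → ℝ≥0∞) : FS Λ h 0 F = F [] := by
  classical
  rw [FS, tsum_list]
  simp [FP, LW_nil]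

lemma FS_pos (T : ℕ) (hT : T ≠ 0) (F : List B → ℝ≥0∞) :
    FS Λ h T F = ∑' b, Λ b * FS Λ h (T - h b) (fun P => F (b :: P)) := by
  classical
  rw [FS, tsum_list]
  simp only [FP, hT, if_false, zero_add, ne_eq, not_false_eq_true, true_and]
  refine tsum_congr fun b => ?_
  rw [FS, ← ENNReal.tsum_mul_left]
  refine tsum_congr fun P => ?_
  split_ifs
  · rw [LW_cons, mul_assoc]
  · simp

lemma FS_one (hΛ : ∑' b, Λ b = 1) (h1 : ∀ b, 1 ≤ h b) (T : ℕ) : FS Λ h T (fun _ => 1) = 1 := by
  induction T using Nat.strong_induction_on with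
  | _ T ih =>
    by_cases hT : T = 0
    · subst hT; rw [FS_zero]
    · rw [FS_pos T hT]
      have : ∀ b, FS Λ h (T - h b) (fun _ => 1) = 1 := fun b => ih _ (by have := h1 b; omega)
      simp only [this, mul_one, hΛ]

lemma FS_const (hΛ : ∑' b, Λ b = 1) (h1 : ∀ b, 1 ≤ h b) (T : ℕ) (c : ℝ≥0∞) :
    FS Λ h T (fun _ => c) = c := by
  have := FS_mul (Λ := Λ) (h := h) T c (fun _ => 1)
  rw [FS_one hΛ h1] at this
  simpa using this

/-- overshoot price -/
noncomputable def dlt (Λ : B → ℝ≥0∞) (h : B → ℕ) (r : ℕ) : ℝ≥0∞ := ∑' k, tail Λ h (k + r)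

open Classical in
lemma FS_over (hΛ : ∑' b, Λ b = 1) (h1 : ∀ b, 1 ≤ h b) (T r : ℕ) :
    FS Λ h T (fun P => if T + r < HT h P then 1 else 0)
      ≤ ∑ i ∈ Finset.range T, tail Λ h (i + r) := by
  induction T using Nat.strong_induction_on with
  | _ T ih =>
    rcases T with _ | T
    · rw [FS_zero]; simp [HT_nil]
    · rw [FS_pos (T + 1) (by omega), Finset.sum_range_succ]
      have step : ∀ b, FS Λ h (T + 1 - h b) (fun P => if T + 1 + r < HT h (b :: P) then 1 else 0)
          ≤ (if T + r < h b then 1 else 0) + ∑ i ∈ Finset.range T, tail Λ h (i + r) := by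
        intro b
        have hb := h1 b
        by_cases hbT : T + 1 ≤ h b
        · rw [Nat.sub_eq_zero_of_le hbT, FS_zero]
          simp only [HT_cons, HT_nil, add_zero]
          refine le_add_right ?_
          by_cases h2 : T + 1 + r < h b
          · rw [if_pos h2, if_pos (by omega)]
          · rw [if_neg h2]; exact zero_le
        · refine le_add_left ?_
          calc _ = FS Λ h (T + 1 - h b)
                (fun P => if (T + 1 - h b) + r < HT h P then 1 else 0) := by
                congr 1; funext P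
                rw [HT_cons]
                by_cases h2 : T + 1 + r < h b + HT h P
                · rw [if_pos h2, if_pos (by omega)]
                · rw [if_neg h2, if_neg (by omega)]
            _ ≤ ∑ i ∈ Finset.range (T + 1 - h b), tail Λ h (i + r) := ih _ (by omega)
            _ ≤ _ := Finset.sum_le_sum_of_subset (by
                intro i hi; simp only [Finset.mem_range] at hi ⊢; omega)
      calc _ ≤ ∑' b, Λ b * ((if T + r < h b then 1 else 0)
              + ∑ i ∈ Finset.range T, tail Λ h (i + r)) :=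
            ENNReal.tsum_le_tsum fun b => mul_le_mul_right (step b) _
        _ = _ := by
            simp only [mul_add]
            rw [ENNReal.tsum_add, ENNReal.tsum_mul_right, hΛ, one_mul, add_comm]
            congr 1
            rw [tail]
            refine tsum_congr fun b => ?_
            split_ifs <;> simp

open Classical in
lemma FS_over' (hΛ : ∑' b, Λ b = 1) (h1 : ∀ b, 1 ≤ h b) (T r : ℕ) :
    FS Λ h T (fun P => if T + r < HT h P then 1 else 0) ≤ dlt Λ h r :=
  (FS_over hΛ h1 T r).trans (ENNReal.sum_le_tsum _)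

open Classical in
/-- splitting at first passage -/
lemma HS_split_le (n T : ℕ) (hT : T ≤ n) (F : List B → ℝ≥0∞) :
    HS Λ h n F ≤ FS Λ h T (fun P => ∑' R, if HT h P + HT h R = n then LW Λ R * F (P ++ R) else 0) := by
  rw [HS]
  refine (tsum_spl_le h T _ ?_).trans (le_of_eq ?_)
  · intro L hL; rw [if_neg (by omega)]
  · rw [FS]
    refine tsum_congr fun P => ?_
    split_ifs with hP
    · rw [← ENNReal.tsum_mul_left]
      refine tsum_congr fun R => ?_
      rw [HT_append]
      split_ifs
      · rw [LW_append]; ring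
      · simp
    · rfl

open Classical in
lemma FS_split_le (h1 : ∀ b, 1 ≤ h b) (T b : ℕ) (hT : T ≤ b) (F : List B → ℝ≥0∞) :
    FS Λ h b F ≤ FS Λ h T (fun P => ∑' R, if FP h b (P ++ R) then LW Λ R * F (P ++ R) else 0) := by
  rw [FS]
  refine (tsum_spl_le h T _ ?_).trans (le_of_eq ?_)
  · intro L hL
    rw [if_neg]
    intro h2
    have := FP_le h b L h2
    omega
  · rw [FS]
    refine tsum_congr fun P => ?_
    split_ifs with hP
    · rw [← ENNReal.tsum_mul_left]
      refine tsum_congr fun R => ?_
      split_ifs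
      · rw [LW_append]; ring
      · simp
    · rfl

end Mass

section Law

variable {B G : Type*} [AddCommGroup G] (Λ : B → ℝ≥0∞) (h : B → ℕ) (z : B → G)

open Classical in
/-- law of (height, displacement) of an attempt with threshold `τ` -/
noncomputable def pp (τ : ℕ) (q : ℕ × G) : ℝ≥0∞ :=
  FS Λ h τ (fun P => if HT h P = q.1 ∧ Dp z P = q.2 then 1 else 0)

variable {Λ h z}

lemma FS_law (τ : ℕ) (φ : ℕ × G → ℝ≥0∞) :
    FS Λ h τ (fun P => φ (HT h P, Dp z P)) = ∑' q, pp Λ h z τ q * φ q := by
  classical
  have e : ∀ q : ℕ × G, pp Λ h z τ q * φ q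
      = ∑' P, (if FP h τ P then LW Λ P * (if HT h P = q.1 ∧ Dp z P = q.2 then φ q else 0) else 0) := by
    intro q
    rw [pp, FS, ← ENNReal.tsum_mul_right]
    refine tsum_congr fun P => ?_
    split_ifs <;> simp
  simp only [e]
  rw [ENNReal.tsum_comm, FS]
  refine tsum_congr fun P => ?_
  split_ifs with hP
  · rw [ENNReal.tsum_mul_left]
    congr 1
    rw [tsum_eq_single (HT h P, Dp z P)]
    · simp
    · intro q hq
      rw [if_neg]
      rintro ⟨h1, h2⟩
      exact hq (Prod.ext h1.symm h2.symm)
  · simp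

lemma pp_sum (hΛ : ∑' b, Λ b = 1) (h1 : ∀ b, 1 ≤ h b) (τ : ℕ) : ∑' q, pp Λ h z τ q = 1 := by
  have := FS_law (Λ := Λ) (h := h) (z := z) τ (fun _ => 1)
  rw [FS_one hΛ h1] at this
  simpa using this.symm

lemma HS_one_le (hΛ : ∑' b, Λ b = 1) (h1 : ∀ b, 1 ≤ h b) (n : ℕ) : HS Λ h n (fun _ => 1) ≤ 1 := by
  classical
  have hr := renewal_one Λ h h1 hΛ n
  have ht0 : tail Λ h 0 = 1 := by
    rw [← hΛ, tail]
    refine tsum_congr fun b => ?_
    rw [if_pos (by have := h1 b; omega)]
  have h2 := Finset.single_le_sum (f := fun k => U Λ h (n - k) * tail Λ h k)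
    (fun _ _ => zero_le) (Finset.mem_range.2 (Nat.succ_pos n))
  rw [hr] at h2
  simp only [Nat.sub_zero, ht0, mul_one] at h2
  refine le_trans (le_of_eq ?_) h2
  rw [HS, U]
  simp

/-- `T` contains a small attempt among its first `J` attempts -/
def Smo (h : B → ℕ) (S : List B → Prop) (τ : ℕ) : ℕ → List B → Prop
  | 0, _ => False
  | J + 1, L => τ ≤ HT h L ∧ (S (spl h τ L).1 ∨ Smo h S τ J (spl h τ L).2)

/-- small attempt -/
def Sm (Λ : B → ℝ≥0∞) (h : B → ℕ) (z : B → G) (τ i0 : ℕ) (θ : ℝ≥0∞) (A : List B) : Prop :=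
  HT h A ≤ τ + i0 ∧ pp Λ h z τ (HT h A, Dp z A) < θ

lemma Smo_app (S : List B → Prop) (τ J : ℕ) (A R : List B) (hA : FP h τ A) :
    Smo h S τ (J + 1) (A ++ R) ↔ (S A ∨ Smo h S τ J R) := by
  rw [Smo, spl_app h τ A R hA]
  have := FP_le h τ A hA
  simp only [HT_append]
  constructor
  · exact fun h => h.2
  · exact fun h => ⟨by omega, h⟩

open Classical in
/-- **density on lists** -/
lemma dens_le (hΛ : ∑' b, Λ b = 1) (h1 : ∀ b, 1 ≤ h b) (τ i0 : ℕ) (θ : ℝ≥0∞)
    (J α : ℕ) (x : G) :
    HS Λ h α (fun L => if Smo h (Sm Λ h z τ i0 θ) τ J L ∧ Dp z L = x then 1 else 0)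
      ≤ J * ((i0 + 1 : ℕ) * θ) := by
  induction J generalizing α x with
  | zero => simp [HS, Smo]
  | succ J ih =>
    by_cases hτ : τ ≤ α
    swap
    · refine le_trans (le_of_eq ?_) (zero_le)
      rw [HS]
      refine ENNReal.tsum_eq_zero.2 fun L => ?_
      split_ifs with h2 h3
      · exact absurd h3.1.1 (by omega)
      · simp
      · rfl
    refine (HS_split_le α τ hτ _).trans ?_
    have step : ∀ P, FP h τ P → (∑' R, if HT h P + HT h R = α then LW Λ R *
          (if Smo h (Sm Λ h z τ i0 θ) τ (J + 1) (P ++ R) ∧ Dp z (P ++ R) = x then 1 else 0) else 0)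
        ≤ (∑' R, LW Λ R * (if HT h P + HT h R = α ∧ Sm Λ h z τ i0 θ P ∧ Dp z P = x - Dp z R
            then 1 else 0)) + J * ((i0 + 1 : ℕ) * θ) := by
      intro P hP
      have hb : (∑' R, if HT h P + HT h R = α then LW Λ R *
          (if Smo h (Sm Λ h z τ i0 θ) τ J R ∧ Dp z R = x - Dp z P then (1 : ℝ≥0∞) else 0) else 0)
          ≤ J * ((i0 + 1 : ℕ) * θ) := by
        by_cases hPα : HT h P ≤ α
        · refine le_trans (le_of_eq ?_) (ih (α - HT h P) (x - Dp z P))
          rw [HS]
          refine tsum_congr fun R => ?_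
          by_cases h2 : HT h P + HT h R = α
          · rw [if_pos h2, if_pos (show HT h R = α - HT h P by omega)]
          · rw [if_neg h2, if_neg (show ¬ HT h R = α - HT h P by omega)]
        · refine le_trans (le_of_eq ?_) (zero_le)
          exact ENNReal.tsum_eq_zero.2 fun R => if_neg (by omega)
      refine le_trans ?_ (add_le_add le_rfl hb)
      rw [← ENNReal.tsum_add]
      refine ENNReal.tsum_le_tsum fun R => ?_
      by_cases h2 : HT h P + HT h R = α
      · simp only [h2, if_true, true_and]
        rw [← mul_add]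
        refine mul_le_mul_right ?_ _
        rw [Smo_app _ _ _ _ _ hP, Dp_append]
        by_cases h3 : Dp z P + Dp z R = x
        · have h4 : Dp z P = x - Dp z R := by rw [← h3]; abel
          have h5 : Dp z R = x - Dp z P := by rw [← h3]; abel
          by_cases h6 : Sm Λ h z τ i0 θ P
          · rw [if_pos (⟨h6, h4⟩ : Sm Λ h z τ i0 θ P ∧ Dp z P = x - Dp z R)]
            refine le_add_right ?_
            split_ifs <;> simp
          · by_cases h7 : Smo h (Sm Λ h z τ i0 θ) τ J R
            · rw [if_pos (⟨h7, h5⟩ : Smo h (Sm Λ h z τ i0 θ) τ J R ∧ Dp z R = x - Dp z P)]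
              refine le_add_left ?_
              split_ifs <;> simp
            · simp [h6, h7]
        · rw [if_neg (fun h => h3 h.2)]; exact zero_le
      · simp [h2]
    refine (FS_mono τ step).trans ?_
    rw [FS_add, FS_const hΛ h1]
    have hfirst : FS Λ h τ (fun P => ∑' R, LW Λ R * (if HT h P + HT h R = α ∧ Sm Λ h z τ i0 θ P
        ∧ Dp z P = x - Dp z R then 1 else 0)) ≤ (i0 + 1 : ℕ) * θ := by
      have e1 : FS Λ h τ (fun P => ∑' R, LW Λ R * (if HT h P + HT h R = α ∧ Sm Λ h z τ i0 θ P
          ∧ Dp z P = x - Dp z R then 1 else 0))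
          = ∑' R, LW Λ R * FS Λ h τ (fun P => if HT h P + HT h R = α ∧ Sm Λ h z τ i0 θ P
          ∧ Dp z P = x - Dp z R then 1 else 0) := by
        simp only [FS]
        have : ∀ P, (if FP h τ P then LW Λ P * ∑' R, LW Λ R * (if HT h P + HT h R = α ∧
            Sm Λ h z τ i0 θ P ∧ Dp z P = x - Dp z R then 1 else 0) else 0)
            = ∑' R, LW Λ R * (if FP h τ P then LW Λ P * (if HT h P + HT h R = α ∧
            Sm Λ h z τ i0 θ P ∧ Dp z P = x - Dp z R then 1 else 0) else 0) := by
          intro P
          split_ifs with hP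
          · rw [← ENNReal.tsum_mul_left]
            refine tsum_congr fun R => ?_
            ring
          · simp
        simp only [this]
        rw [ENNReal.tsum_comm]
        refine tsum_congr fun R => ?_
        rw [ENNReal.tsum_mul_left]
      rw [e1]
      have e2 : ∀ R, FS Λ h τ (fun P => if HT h P + HT h R = α ∧ Sm Λ h z τ i0 θ P
          ∧ Dp z P = x - Dp z R then 1 else 0)
          ≤ ∑ i ∈ Finset.range (i0 + 1), (if HT h R = α - (τ + i) then θ else 0) := by
        intro R
        by_cases hR : ∃ i, i ≤ i0 ∧ HT h R + (τ + i) = α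
        · obtain ⟨i, hi, hiR⟩ := hR
          refine le_trans ?_ (Finset.single_le_sum (f := fun i => if HT h R = α - (τ + i)
            then θ else 0) (fun _ _ => zero_le) (Finset.mem_range.2 (Nat.lt_succ_of_le hi)))
          rw [if_pos (by omega)]
          by_cases hp : pp Λ h z τ (τ + i, x - Dp z R) < θ
          · refine le_trans ?_ hp.le
            rw [pp]
            refine FS_mono τ fun P _ => ?_
            by_cases h3 : HT h P + HT h R = α ∧ Sm Λ h z τ i0 θ P ∧ Dp z P = x - Dp z R
            · rw [if_pos h3, if_pos ⟨by omega, h3.2.2⟩]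
            · rw [if_neg h3]; exact zero_le
          · refine le_trans (le_of_eq ?_) (zero_le)
            rw [FS]
            refine ENNReal.tsum_eq_zero.2 fun P => ?_
            split_ifs with h2 h3
            · exfalso
              apply hp
              have := h3.2.1.2
              rw [h3.2.2, show HT h P = τ + i by omega] at this
              exact this
            · simp
            · rfl
        · refine le_trans (le_of_eq ?_) (zero_le)
          rw [FS]
          refine ENNReal.tsum_eq_zero.2 fun P => ?_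
          split_ifs with h2 h3
          · exfalso
            apply hR
            have h4 := h3.2.1.1
            have h5 := FP_le h τ P h2
            exact ⟨HT h P - τ, by omega, by omega⟩
          · simp
          · rfl
      calc _ ≤ ∑' R, LW Λ R * ∑ i ∈ Finset.range (i0 + 1), (if HT h R = α - (τ + i) then θ else 0) :=
            ENNReal.tsum_le_tsum fun R => mul_le_mul_right (e2 R) _
        _ = ∑' R, ∑ i ∈ Finset.range (i0 + 1),
            (if HT h R = α - (τ + i) then LW Λ R * 1 else 0) * θ := by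
            refine tsum_congr fun R => ?_
            rw [Finset.mul_sum]
            refine Finset.sum_congr rfl fun i _ => ?_
            split_ifs <;> simp
        _ = ∑ i ∈ Finset.range (i0 + 1), ∑' R,
            (if HT h R = α - (τ + i) then LW Λ R * 1 else 0) * θ :=
            Summable.tsum_finsetSum fun _ _ => ENNReal.summable
        _ = ∑ i ∈ Finset.range (i0 + 1), HS Λ h (α - (τ + i)) (fun _ => 1) * θ := by
            refine Finset.sum_congr rfl fun i _ => ?_
            rw [ENNReal.tsum_mul_right, HS]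
        _ ≤ ∑ _i ∈ Finset.range (i0 + 1), 1 * θ :=
            Finset.sum_le_sum fun i _ => mul_le_mul_left (HS_one_le hΛ h1 _) _
        _ = _ := by simp
    calc _ ≤ (i0 + 1 : ℕ) * θ + J * ((i0 + 1 : ℕ) * θ) := add_le_add hfirst le_rfl
      _ = _ := by push_cast; ring

open Classical in
lemma tail_FP_le (hΛ : ∑' b, Λ b = 1) (h1 : ∀ b, 1 ≤ h b) (b : ℕ) (P : List B) :
    (∑' R, if FP h b (P ++ R) then LW Λ R else 0) ≤ 1 := by
  induction P generalizing b with
  | nil =>
    refine le_of_eq ?_
    rw [← FS_one hΛ h1 b, FS]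
    simp
  | cons p P ih =>
    refine le_trans (ENNReal.tsum_le_tsum fun R => ?_) (ih (b - h p))
    rw [List.cons_append, FP]
    by_cases h2 : FP h (b - h p) (P ++ R)
    · rw [if_pos h2]; split_ifs <;> simp
    · rw [if_neg (fun h => h2 h.2)]; exact zero_le

open Classical in
/-- few lists without small attempts -/
lemma nosm_le (hΛ : ∑' b, Λ b = 1) (h1 : ∀ b, 1 ≤ h b) (τ i0 : ℕ) (θ v : ℝ≥0∞) (hv1 : v ≤ 1)
    (hv : (∑' q, if pp Λ h z τ q < θ then 0 else pp Λ h z τ q) ≤ v)
    (J b : ℕ) (hb : J * (τ + i0) ≤ b) :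
    FS Λ h b (fun L => if Smo h (Sm Λ h z τ i0 θ) τ J L then 0 else 1)
      ≤ v ^ J + J * dlt Λ h i0 := by
  induction J generalizing b with
  | zero => simp [Smo, FS_one hΛ h1]
  | succ J ih =>
    have hb' : J * (τ + i0) + (τ + i0) ≤ b := by rw [← Nat.succ_mul]; exact hb
    refine (FS_split_le h1 τ b (by omega) _).trans ?_
    have step : ∀ P, FP h τ P → (∑' R, if FP h b (P ++ R) then LW Λ R *
          (if Smo h (Sm Λ h z τ i0 θ) τ (J + 1) (P ++ R) then 0 else 1) else 0)
        ≤ (if τ + i0 < HT h P then 1 else 0)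
          + (v ^ J + J * dlt Λ h i0) * (if pp Λ h z τ (HT h P, Dp z P) < θ then 0 else 1) := by
      intro P hP
      by_cases h2 : τ + i0 < HT h P
      · rw [if_pos h2]
        refine le_add_right (le_trans (ENNReal.tsum_le_tsum fun R => ?_) (tail_FP_le hΛ h1 b P))
        split_ifs <;> simp
      · rw [if_neg h2, zero_add]
        by_cases h3 : pp Λ h z τ (HT h P, Dp z P) < θ
        · refine le_trans (le_of_eq ?_) (zero_le)
          refine ENNReal.tsum_eq_zero.2 fun R => ?_
          rw [Smo_app _ _ _ _ _ hP, if_pos (Or.inl ⟨by omega, h3⟩)]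
          simp
        · rw [if_neg h3, mul_one]
          refine le_trans ?_ (ih (b - HT h P) (by omega))
          rw [FS]
          refine ENNReal.tsum_le_tsum fun R => ?_
          rw [FP_app h h1 b P R (by omega)]
          by_cases h4 : FP h (b - HT h P) R
          · rw [if_pos h4, if_pos h4, Smo_app _ _ _ _ _ hP]
            refine mul_le_mul_right ?_ _
            by_cases h5 : Smo h (Sm Λ h z τ i0 θ) τ J R
            · rw [if_pos (Or.inr h5)]; exact zero_le
            · rw [if_neg h5]; split_ifs <;> simp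
          · simp [h4]
    refine (FS_mono τ step).trans ?_
    rw [FS_add, FS_mul]
    have e1 : FS Λ h τ (fun P => if pp Λ h z τ (HT h P, Dp z P) < θ then 0 else 1) ≤ v := by
      refine le_trans (le_of_eq ?_) hv
      rw [FS_law (z := z) τ (fun q => if pp Λ h z τ q < θ then 0 else 1)]
      refine tsum_congr fun q => ?_
      split_ifs <;> simp
    calc _ ≤ dlt Λ h i0 + (v ^ J + J * dlt Λ h i0) * v :=
          add_le_add (FS_over' hΛ h1 _ _) (mul_le_mul_right e1 _)
      _ = v ^ (J + 1) + (dlt Λ h i0 + J * dlt Λ h i0 * v) := by rw [pow_succ]; ring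
      _ ≤ v ^ (J + 1) + (dlt Λ h i0 + J * dlt Λ h i0 * 1) := by gcongr
      _ = _ := by push_cast; ring

end Law

end Crest.Agent.R154.Asm908
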