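import Crest.Agent.R154.Ren_480
import Crest.Agent.R154.Sel_300

/-! Row 154 (S0219, ROAD 801), helper955: the assembly on lists of blocks, with abstract traces. -/

set_option autoImplicit false

namespace Crest.Agent.R154.Asm955

open scoped ENNReal Topology
open Crest.Agent.R154.B5A Crest.Agent.R154.Ren480 Filter

section one

variable {B : Type*} (Λ : B → ℝ≥0∞) (ht : B → ℕ)

open Classical in
/-- weighted sum over the lists of height `n` -/
noncomputable def FX (n : ℕ) (F : List B → ℝ≥0∞) : ℝ≥0∞ :=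
  ∑' L : List B, if HT ht L = n then LW Λ L * F L else 0

lemma FX_mono (n : ℕ) {F F' : List B → ℝ≥0∞} (h : ∀ L, HT ht L = n → F L ≤ F' L) :
    FX Λ ht n F ≤ FX Λ ht n F' := by
  classical
  refine ENNReal.tsum_le_tsum fun L => ?_
  by_cases hL : HT ht L = n
  · rw [if_pos hL, if_pos hL]; exact mul_le_mul_right (h L hL) _
  · rw [if_neg hL, if_neg hL]

lemma FX_add (n : ℕ) (F F' : List B → ℝ≥0∞) :
    FX Λ ht n (fun L => F L + F' L) = FX Λ ht n F + FX Λ ht n F' := by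
  classical
  simp only [FX]
  rw [← ENNReal.tsum_add]
  refine tsum_congr fun L => ?_
  by_cases hL : HT ht L = n
  · simp only [if_pos hL]; rw [mul_add]
  · simp only [if_neg hL]; simp

lemma FX_mul (n : ℕ) (c : ℝ≥0∞) (F : List B → ℝ≥0∞) :
    FX Λ ht n (fun L => c * F L) = c * FX Λ ht n F := by
  classical
  simp only [FX]
  rw [← ENNReal.tsum_mul_left]
  refine tsum_congr fun L => ?_
  by_cases hL : HT ht L = n
  · simp only [if_pos hL]; ring
  · simp only [if_neg hL]; simp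

lemma FX_sum {ι : Type*} (n : ℕ) (s : Finset ι) (F : ι → List B → ℝ≥0∞) :
    FX Λ ht n (fun L => ∑ i ∈ s, F i L) = ∑ i ∈ s, FX Λ ht n (F i) := by
  classical
  induction s using Finset.induction_on with
  | empty =>
    simp only [Finset.sum_empty, FX, mul_zero]
    simp
  | insert a s ha ih =>
    simp only [Finset.sum_insert ha]
    rw [FX_add, ih]

lemma FX_split (h1 : ∀ b, 1 ≤ ht b) : ∀ (T n : ℕ), T ≤ n → ∀ F : List B → ℝ≥0∞,
    FX Λ ht n F = AT Λ ht T (fun A => if HT ht A ≤ n then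
      FX Λ ht (n - HT ht A) (fun R => F (A ++ R)) else 0) := by
  classical
  intro T
  induction T using Nat.strong_induction_on with
  | _ T ih =>
    intro n hT F
    rcases Nat.eq_zero_or_pos T with h | h
    · subst h
      rw [AT_zero, HT_nil]
      simp
    · rw [AT_pos Λ ht h, FX, tsum_list]
      rw [if_neg (by rw [HT_nil]; omega), zero_add]
      refine tsum_congr fun b => ?_
      have h1b := h1 b
      by_cases hb : ht b ≤ n
      · have e1 : (∑' L : List B, if HT ht (b :: L) = n then LW Λ (b :: L) * F (b :: L) else 0)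
            = Λ b * FX Λ ht (n - ht b) (fun L => F (b :: L)) := by
          rw [FX, ← ENNReal.tsum_mul_left]
          refine tsum_congr fun L => ?_
          rw [HT_cons]
          by_cases hh : ht b + HT ht L = n
          · rw [if_pos hh, if_pos (by omega), LW_cons, mul_assoc]
          · rw [if_neg hh, if_neg (by omega), mul_zero]
        rw [e1, ih (T - ht b) (by omega) (n - ht b) (by omega)]
        congr 1
        refine AT_congr Λ ht _ fun A _ => ?_
        rw [HT_cons]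
        by_cases hh : ht b + HT ht A ≤ n
        · rw [if_pos hh, if_pos (by omega), Nat.sub_sub]
          rfl
        · rw [if_neg hh, if_neg (by omega)]
      · have h0 : T - ht b = 0 := by omega
        rw [h0, AT_zero, HT_cons, HT_nil, if_neg (by omega), mul_zero]
        refine ENNReal.tsum_eq_zero.2 fun L => ?_
        rw [HT_cons, if_neg (by omega)]

lemma FX_one_le (hΛ : ∑' b, Λ b = 1) (h1 : ∀ b, 1 ≤ ht b) (n : ℕ) :
    FX Λ ht n (fun _ => 1) ≤ 1 := by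
  rw [FX_split Λ ht h1 n n le_rfl]
  refine le_trans (AT_mono Λ ht n fun A hA => ?_) (AT_one Λ ht hΛ h1 n).le
  have := Stp_le ht A n hA
  by_cases hh : HT ht A ≤ n
  · rw [if_pos hh]
    have e : n - HT ht A = 0 := by omega
    rw [e]
    refine le_trans (le_of_eq ?_) (U_zero Λ ht h1).le
    unfold FX U
    refine tsum_congr fun L => ?_
    by_cases h : HT ht L = 0 <;> simp [h]
  · rw [if_neg hh]; exact zero_le

lemma FX_le_one (hΛ : ∑' b, Λ b = 1) (h1 : ∀ b, 1 ≤ ht b) (n : ℕ) {F : List B → ℝ≥0∞}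
    (hF : ∀ L, F L ≤ 1) : FX Λ ht n F ≤ 1 :=
  (FX_mono Λ ht n fun L _ => hF L).trans (FX_one_le Λ ht hΛ h1 n)

lemma FX_const_le (hΛ : ∑' b, Λ b = 1) (h1 : ∀ b, 1 ≤ ht b) (n : ℕ) (c : ℝ≥0∞)
    {F : List B → ℝ≥0∞} (hF : ∀ L, F L ≤ c) : FX Λ ht n F ≤ c := by
  calc FX Λ ht n F ≤ FX Λ ht n (fun _ => c * 1) := FX_mono Λ ht n fun L _ => by
        rw [mul_one]; exact hF L
    _ = c * FX Λ ht n (fun _ => 1) := FX_mul Λ ht n c _
    _ ≤ c * 1 := mul_le_mul_right (FX_one_le Λ ht hΛ h1 n) _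
    _ = c := mul_one c

lemma AT_const_le (hΛ : ∑' b, Λ b = 1) (h1 : ∀ b, 1 ≤ ht b) (T : ℕ) (c : ℝ≥0∞)
    {F : List B → ℝ≥0∞} (hF : ∀ L, F L ≤ c) : AT Λ ht T F ≤ c := by
  calc AT Λ ht T F ≤ AT Λ ht T (fun _ => c * 1) := AT_mono Λ ht T fun L _ => by
        rw [mul_one]; exact hF L
    _ = c * AT Λ ht T (fun _ => 1) := AT_mul Λ ht T c _
    _ = c := by rw [AT_one Λ ht hΛ h1, mul_one]

open Classical in
/-- expectation over a first passage at `T0` and a piece of height `T`, without overshoots -/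
noncomputable def EE (T0 T i0 : ℕ) (F : List B → List B → ℝ≥0∞) : ℝ≥0∞ :=
  AT Λ ht T0 (fun A => if HT ht A ≤ T0 + i0 then
    AT Λ ht T (fun P => if HT ht P ≤ T + i0 then F A P else 0) else 0)

lemma EE_mono (T0 T i0 : ℕ) {F F' : List B → List B → ℝ≥0∞}
    (h : ∀ A P, Stp ht T0 A → Stp ht T P → HT ht A ≤ T0 + i0 → HT ht P ≤ T + i0 →
      F A P ≤ F' A P) : EE Λ ht T0 T i0 F ≤ EE Λ ht T0 T i0 F' := by
  refine AT_mono Λ ht T0 fun A hA => ?_
  by_cases h1 : HT ht A ≤ T0 + i0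
  · rw [if_pos h1, if_pos h1]
    refine AT_mono Λ ht T fun P hP => ?_
    by_cases h2 : HT ht P ≤ T + i0
    · rw [if_pos h2, if_pos h2]; exact h A P hA hP h1 h2
    · rw [if_neg h2, if_neg h2]
  · rw [if_neg h1, if_neg h1]

lemma EE_le_one (hΛ : ∑' b, Λ b = 1) (h1 : ∀ b, 1 ≤ ht b) (T0 T i0 : ℕ)
    {F : List B → List B → ℝ≥0∞} (h : ∀ A P, F A P ≤ 1) : EE Λ ht T0 T i0 F ≤ 1 := by
  refine AT_const_le Λ ht hΛ h1 T0 1 fun A => ?_
  by_cases h2 : HT ht A ≤ T0 + i0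
  · rw [if_pos h2]
    refine AT_const_le Λ ht hΛ h1 T 1 fun P => ?_
    by_cases h3 : HT ht P ≤ T + i0
    · rw [if_pos h3]; exact h A P
    · rw [if_neg h3]; exact zero_le
  · rw [if_neg h2]; exact zero_le

/-- one walker: split a list of height `n` as (first passage at `T0`) ++ (piece) ++ rest -/
lemma one (hΛ : ∑' b, Λ b = 1) (h1 : ∀ b, 1 ≤ ht b) {T0 T i0 n : ℕ} (hn : T0 + i0 + T ≤ n)
    {F : List B → ℝ≥0∞} (hF1 : ∀ L, F L ≤ 1) {F' : List B → List B → ℝ≥0∞}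
    (hF : ∀ A P R, Stp ht T0 A → Stp ht T P → HT ht A ≤ T0 + i0 → HT ht P ≤ T + i0 →
      F (A ++ (P ++ R)) ≤ F' A P) :
    FX Λ ht n F ≤ 2 * e1 Λ ht i0 + EE Λ ht T0 T i0 F' := by
  classical
  rw [FX_split Λ ht h1 T0 n (by omega)]
  set e := e1 Λ ht i0 with he
  have step1 : ∀ A, Stp ht T0 A → (if HT ht A ≤ n then
      FX Λ ht (n - HT ht A) (fun R => F (A ++ R)) else 0) ≤
      (if T0 + i0 < HT ht A then 1 else 0) + (e + (if HT ht A ≤ T0 + i0 then
    AT Λ ht T (fun P => if HT ht P ≤ T + i0 then F' A P else 0) else 0)) := by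
    intro A hA
    by_cases hov : HT ht A ≤ T0 + i0
    · rw [if_pos (by omega : HT ht A ≤ n), if_neg (by omega), zero_add, if_pos hov,
        FX_split Λ ht h1 T (n - HT ht A) (by omega)]
      calc _ ≤ AT Λ ht T (fun P => (if T + i0 < HT ht P then 1 else 0) +
              (if HT ht P ≤ T + i0 then F' A P else 0)) := by
            refine AT_mono Λ ht T fun P hP => ?_
            by_cases hovP : HT ht P ≤ T + i0
            · rw [if_pos hovP]
              by_cases hh : HT ht P ≤ n - HT ht A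
              · rw [if_pos hh]
                refine le_trans ?_ le_add_self
                exact FX_const_le Λ ht hΛ h1 _ _ fun R => hF A P R hA hP hov hovP
              · rw [if_neg hh]; exact zero_le
            · rw [if_pos (by omega : T + i0 < HT ht P)]
              refine le_trans ?_ le_self_add
              by_cases hh : HT ht P ≤ n - HT ht A
              · rw [if_pos hh]
                exact FX_const_le Λ ht hΛ h1 _ _ fun R => hF1 _
              · rw [if_neg hh]; exact zero_le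
        _ = AT Λ ht T (fun P => if T + i0 < HT ht P then 1 else 0) +
              AT Λ ht T (fun P => if HT ht P ≤ T + i0 then F' A P else 0) := AT_add Λ ht T _ _
        _ ≤ _ := add_le_add (overshoot_le Λ ht hΛ h1 i0 T) le_rfl
    · rw [if_pos (by omega : T0 + i0 < HT ht A)]
      refine le_trans ?_ le_self_add
      by_cases hh : HT ht A ≤ n
      · rw [if_pos hh]
        exact FX_const_le Λ ht hΛ h1 _ _ fun R => hF1 _
      · rw [if_neg hh]; exact zero_le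
  refine (AT_mono Λ ht T0 step1).trans ?_
  rw [AT_add, AT_add]
  have h3 : AT Λ ht T0 (fun _ => e) ≤ e := AT_const_le Λ ht hΛ h1 T0 e fun _ => le_rfl
  calc _ ≤ e + (e + EE Λ ht T0 T i0 F') :=
        add_le_add (overshoot_le Λ ht hΛ h1 i0 T0) (add_le_add h3 le_rfl)
    _ = _ := by ring

end one

/-! ### the pair -/

section pair

variable {BX BY : Type*} (ΛX : BX → ℝ≥0∞) (ΛY : BY → ℝ≥0∞) (hX : BX → ℕ) (hY : BY → ℕ)

open Classical in
lemma bridge (n : ℕ) (E : List BX → List BY → Prop) :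
    ∑' L : List BX, ∑' L' : List BY, (if HT hX L = n ∧ HT hY L' = n ∧ E L L' then
      LW ΛX L * LW ΛY L' else 0) =
    FX ΛX hX n (fun L => FX ΛY hY n (fun L' => if E L L' then 1 else 0)) := by
  unfold FX
  refine tsum_congr fun L => ?_
  by_cases h : HT hX L = n
  · rw [if_pos h, ← ENNReal.tsum_mul_left]
    refine tsum_congr fun L' => ?_
    by_cases h' : HT hY L' = n <;> by_cases hE : E L L' <;> simp [h, h', hE]
  · rw [if_neg h]
    simp [h]

lemma AT_comm (T T' : ℕ) (F : List BX → List BY → ℝ≥0∞) :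
    AT ΛX hX T (fun P => AT ΛY hY T' (fun P' => F P P')) =
      AT ΛY hY T' (fun P' => AT ΛX hX T (fun P => F P P')) := by
  classical
  have e1 : AT ΛX hX T (fun P => AT ΛY hY T' (fun P' => F P P')) =
      ∑' P, ∑' P', (if Stp hX T P ∧ Stp hY T' P' then LW ΛX P * LW ΛY P' * F P P' else 0) := by
    simp only [AT]
    refine tsum_congr fun P => ?_
    by_cases h : Stp hX T P
    · rw [if_pos h, ← ENNReal.tsum_mul_left]
      refine tsum_congr fun P' => ?_
      by_cases h' : Stp hY T' P'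
      · rw [if_pos h', if_pos ⟨h, h'⟩, mul_assoc]
      · rw [if_neg h', if_neg (fun hh => h' hh.2), mul_zero]
    · rw [if_neg h]
      simp [h]
  have e2 : AT ΛY hY T' (fun P' => AT ΛX hX T (fun P => F P P')) =
      ∑' P', ∑' P, (if Stp hX T P ∧ Stp hY T' P' then LW ΛX P * LW ΛY P' * F P P' else 0) := by
    simp only [AT]
    refine tsum_congr fun P' => ?_
    by_cases h : Stp hY T' P'
    · rw [if_pos h, ← ENNReal.tsum_mul_left]
      refine tsum_congr fun P => ?_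
      by_cases h' : Stp hX T P
      · rw [if_pos h', if_pos ⟨h', h⟩]; ring
      · rw [if_neg h', if_neg (fun hh => h' hh.1), mul_zero]
    · rw [if_neg h]
      simp [h]
  rw [e1, e2, ENNReal.tsum_comm]

/-- both walkers -/
lemma two (hΛX : ∑' b, ΛX b = 1) (h1X : ∀ b, 1 ≤ hX b) (hΛY : ∑' b, ΛY b = 1)
    (h1Y : ∀ b, 1 ≤ hY b) {T0 T i0 n : ℕ} (hn : T0 + i0 + T ≤ n)
    {F : List BX → List BY → ℝ≥0∞} (hF1 : ∀ L L', F L L' ≤ 1)
    {F2 : List BX → List BX → List BY → List BY → ℝ≥0∞}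
    (hF : ∀ A P R A' P' R', Stp hX T0 A → Stp hX T P → HT hX A ≤ T0 + i0 → HT hX P ≤ T + i0 →
      Stp hY T0 A' → Stp hY T P' → HT hY A' ≤ T0 + i0 → HT hY P' ≤ T + i0 →
      F (A ++ (P ++ R)) (A' ++ (P' ++ R')) ≤ F2 A P A' P') :
    FX ΛX hX n (fun L => FX ΛY hY n (fun L' => F L L')) ≤ 2 * e1 ΛX hX i0 + 2 * e1 ΛY hY i0 +
      EE ΛX hX T0 T i0 (fun A P => EE ΛY hY T0 T i0 (fun A' P' => F2 A P A' P')) := by
  set F1 : List BX → List BY → List BY → ℝ≥0∞ := fun L A' P' => ⨆ R', F L (A' ++ (P' ++ R'))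
    with hF1d
  have hin : ∀ L, FX ΛY hY n (fun L' => F L L') ≤ 2 * e1 ΛY hY i0 +
      EE ΛY hY T0 T i0 (F1 L) := fun L =>
    one ΛY hY hΛY h1Y hn (hF1 L) fun A P R _ _ _ _ => le_iSup (fun R' => F L (A ++ (P ++ R'))) R
  have hF1le : ∀ L A' P', F1 L A' P' ≤ 1 := fun L A' P' => iSup_le fun R' => hF1 _ _
  calc _ ≤ FX ΛX hX n (fun L => 2 * e1 ΛY hY i0 + EE ΛY hY T0 T i0 (F1 L)) :=
        FX_mono ΛX hX n fun L _ => hin L
    _ = FX ΛX hX n (fun _ => 2 * e1 ΛY hY i0) + FX ΛX hX n (fun L => EE ΛY hY T0 T i0 (F1 L)) :=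
        FX_add ΛX hX n _ _
    _ ≤ 2 * e1 ΛY hY i0 + (2 * e1 ΛX hX i0 + EE ΛX hX T0 T i0
          (fun A P => EE ΛY hY T0 T i0 (fun A' P' => F2 A P A' P'))) := by
        refine add_le_add (FX_const_le ΛX hX hΛX h1X n _ fun _ => le_rfl) ?_
        -- restrict to the stopped lists
        classical
        have h2 : ∀ A P R, Stp hX T0 A → Stp hX T P → HT hX A ≤ T0 + i0 → HT hX P ≤ T + i0 →
            EE ΛY hY T0 T i0 (F1 (A ++ (P ++ R))) ≤
              EE ΛY hY T0 T i0 (fun A' P' => F2 A P A' P') := by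
          intro A P R hA hP hA' hP'
          refine EE_mono ΛY hY T0 T i0 fun A1 P1 a1 a2 a3 a4 => ?_
          exact iSup_le fun R' => hF A P R A1 P1 R' hA hP hA' hP' a1 a2 a3 a4
        exact one ΛX hX hΛX h1X hn
          (fun L => EE_le_one ΛY hY hΛY h1Y T0 T i0 fun A' P' => hF1le L A' P') h2
    _ = _ := by ring

end pair

/-! ### laws -/

section law

variable {B G : Type*} [AddCommGroup G] (Λ : B → ℝ≥0∞) (ht : B → ℕ) (dz : B → G)

open Classical in
/-- an expectation `EE` whose first argument enters through (overshoot, displacement) only -/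
lemma EE_law (T0 T i0 : ℕ) (H : ℕ × G → List B → ℝ≥0∞) :
    EE Λ ht T0 T i0 (fun A P => H (HT ht A - T0, DS dz A) P) =
      ∑' x : ℕ × G, (if x.1 ≤ i0 then a Λ ht dz T0 x else 0) *
        AT Λ ht T (fun P => if HT ht P ≤ T + i0 then H x P else 0) := by
  have h := AT_fun Λ ht dz T0 (fun x => if x.1 ≤ i0 then
    AT Λ ht T (fun P => if HT ht P ≤ T + i0 then H x P else 0) else 0)
  rw [EE]
  refine Eq.trans ?_ (h.trans ?_)
  · refine AT_congr Λ ht T0 fun A hA => ?_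
    have := Stp_le ht A T0 hA
    by_cases hh : HT ht A ≤ T0 + i0
    · rw [if_pos hh, if_pos (by simp only; omega)]
    · rw [if_neg hh, if_neg (by simp only; omega)]
  · refine tsum_congr fun x => ?_
    by_cases hx : x.1 ≤ i0
    · rw [if_pos hx, if_pos hx]
    · rw [if_neg hx, if_neg hx, zero_mul, mul_zero]

end law

/-! ### the window -/

section half

variable {G : Type*}

open Classical in
/-- one side smooth, the other arbitrary -/
lemma half {aX aY g b : ℕ × G → ℝ≥0∞} (hX : ∑' x, aX x ≤ 1) (hY : ∑' x, aY x ≤ 1)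
    (hab : ∀ x, aX x ≤ g x + b x) {β M Bd : ℝ≥0∞} (hb : ∑' x, b x ≤ β) (hg : ∀ x, g x ≤ M)
    {S : ℕ × G → ℕ × G → ℝ≥0∞} (hS1 : ∀ x x', S x x' ≤ 1) {i0 : ℕ}
    (hS : ∀ i, i ≤ i0 → ∀ x' : ℕ × G, x'.1 ≤ i0 → ∀ μ : G → ℝ≥0∞, ∑' z, μ z ≤ 1 →
      (∀ z, μ z ≤ M) → ∑' z, μ z * S (i, z) x' ≤ Bd) :
    ∑' x, ∑' x', (if x.1 ≤ i0 then aX x else 0) * ((if x'.1 ≤ i0 then aY x' else 0) * S x x')
      ≤ β + ((i0 + 1 : ℕ) : ℝ≥0∞) * Bd := by
  set m : ℕ × G → ℝ≥0∞ := fun x => min (g x) (aX x) with hm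
  have hle : ∀ x, aX x ≤ b x + m x := by
    intro x
    rcases le_total (g x) (aX x) with h | h
    · rw [hm]; simp only; rw [min_eq_left h, add_comm]; exact hab x
    · rw [hm]; simp only; rw [min_eq_right h]; exact le_add_self
  have hY' : ∑' x', (if x'.1 ≤ i0 then aY x' else 0) ≤ 1 :=
    (ENNReal.tsum_le_tsum fun x' => by split_ifs <;> simp).trans hY
  have h1 : ∑' x, ∑' x', (if x.1 ≤ i0 then aX x else 0) *
      ((if x'.1 ≤ i0 then aY x' else 0) * S x x') ≤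
      ∑' x, b x * 1 + ∑' x, ∑' x', (if x.1 ≤ i0 then m x else 0) *
        ((if x'.1 ≤ i0 then aY x' else 0) * S x x') := by
    rw [← ENNReal.tsum_add]
    refine ENNReal.tsum_le_tsum fun x => ?_
    rw [ENNReal.tsum_mul_left, ENNReal.tsum_mul_left]
    have h2 : ∑' x', (if x'.1 ≤ i0 then aY x' else 0) * S x x' ≤ 1 :=
      (ENNReal.tsum_le_tsum fun x' => mul_le_of_le_one_right zero_le (hS1 x x')).trans hY'
    by_cases hx : x.1 ≤ i0
    · rw [if_pos hx, if_pos hx]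
      refine (mul_le_mul_left (hle x) _).trans ?_
      rw [add_mul]
      exact add_le_add (mul_le_mul_right h2 _) le_rfl
    · rw [if_neg hx, zero_mul]; exact zero_le
  refine h1.trans (add_le_add ?_ ?_)
  · simpa using hb
  · rw [ENNReal.tsum_comm]
    have h3 : ∀ x' : ℕ × G, ∑' x, (if x.1 ≤ i0 then m x else 0) *
        ((if x'.1 ≤ i0 then aY x' else 0) * S x x') ≤
        (if x'.1 ≤ i0 then aY x' else 0) * (((i0 + 1 : ℕ) : ℝ≥0∞) * Bd) := by
      intro x'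
      by_cases hx' : x'.1 ≤ i0
      · rw [if_pos hx']
        have e : ∀ x : ℕ × G, (if x.1 ≤ i0 then m x else 0) * (aY x' * S x x') =
            aY x' * ((if x.1 ≤ i0 then m x else 0) * S x x') := fun x => by ring
        rw [tsum_congr e, ENNReal.tsum_mul_left]
        refine mul_le_mul_right ?_ _
        rw [ENNReal.tsum_prod']
        have h4 : ∀ i : ℕ, ∑' z : G, (if ((i, z) : ℕ × G).1 ≤ i0 then m (i, z) else 0) *
            S (i, z) x' ≤ if i ∈ Finset.range (i0 + 1) then Bd else 0 := by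
          intro i
          simp only [Finset.mem_range]
          by_cases hi : i ≤ i0
          · simp only [if_pos hi, if_pos (show i < i0 + 1 by omega)]
            refine hS i hi x' hx' (fun z => m (i, z)) ?_ (fun z => (min_le_left _ _).trans (hg _))
            have hinj : Function.Injective (fun z : G => ((i, z) : ℕ × G)) := by
              intro p q h; simpa using h
            calc ∑' z, m (i, z) ≤ ∑' z, aX (i, z) :=
                  ENNReal.tsum_le_tsum fun z => min_le_right _ _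
              _ ≤ ∑' x, aX x := ENNReal.tsum_comp_le_tsum_of_injective hinj _
              _ ≤ 1 := hX
          · simp only [if_neg hi]; simp
        refine (ENNReal.tsum_le_tsum h4).trans ?_
        rw [tsum_eq_sum (s := Finset.range (i0 + 1)) (fun i hi => if_neg hi),
          Finset.sum_congr rfl (fun i hi => if_pos hi), Finset.sum_const, Finset.card_range,
          nsmul_eq_mul]
      · rw [if_neg hx']; simp
    refine (ENNReal.tsum_le_tsum h3).trans ?_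
    rw [ENNReal.tsum_mul_right]
    calc _ ≤ 1 * (((i0 + 1 : ℕ) : ℝ≥0∞) * Bd) := mul_le_mul_left hY' _
      _ = _ := one_mul _

end half

section win

variable {BX BY G : Type*} [AddCommGroup G] (ΛX : BX → ℝ≥0∞) (ΛY : BY → ℝ≥0∞) (hX : BX → ℕ)
  (hY : BY → ℕ) (zX : BX → G) (zY : BY → G) (tX : List BX → G → ℕ → Set (G × ℕ))
  (tY : List BY → G → ℕ → Set (G × ℕ))

/-- the two pieces meet, and only at depths in `[lo, hi]` -/
def Ev (lo hi : ℕ) (P : List BX) (x : G) (a : ℕ) (P' : List BY) (x' : G) (a' : ℕ) : Prop :=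
  (∃ z k, (z, k) ∈ tX P x a ∧ (z, k) ∈ tY P' x' a') ∧
  ∀ z k, (z, k) ∈ tX P x a → (z, k) ∈ tY P' x' a' → lo ≤ k ∧ k ≤ hi

lemma Ev_shift (htX : ∀ L x a z k, (z, k) ∈ tX L x a ↔ (z - x, k) ∈ tX L 0 a)
    (htY : ∀ L x a z k, (z, k) ∈ tY L x a ↔ (z - x, k) ∈ tY L 0 a)
    (lo hi : ℕ) (P : List BX) (x : G) (a : ℕ) (P' : List BY) (x' : G) (a' : ℕ) :
    Ev tX tY lo hi P x a P' x' a' ↔ Ev tX tY lo hi P 0 a P' (x' - x) a' := by
  have key : ∀ z k, ((z, k) ∈ tX P x a ↔ (z - x, k) ∈ tX P 0 a) ∧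
      ((z, k) ∈ tY P' x' a' ↔ (z - x, k) ∈ tY P' (x' - x) a') := by
    intro z k
    refine ⟨htX _ _ _ _ _, ?_⟩
    rw [htY, htY P' (x' - x) a' (z - x) k]
    have : z - x - (x' - x) = z - x' := by abel
    rw [this]
  constructor
  · rintro ⟨⟨z, k, h1, h2⟩, h3⟩
    refine ⟨⟨z - x, k, (key z k).1.1 h1, (key z k).2.1 h2⟩, fun y k hy hy' => ?_⟩
    have e : y = (y + x) - x := by abel
    rw [e] at hy hy'
    exact h3 (y + x) k ((key _ k).1.2 hy) ((key _ k).2.2 hy')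
  · rintro ⟨⟨z, k, h1, h2⟩, h3⟩
    have e : z = (z + x) - x := by abel
    rw [e] at h1 h2
    exact ⟨⟨z + x, k, (key _ k).1.2 h1, (key _ k).2.2 h2⟩, fun y k hy hy' =>
      h3 (y - x) k ((key y k).1.1 hy) ((key y k).2.1 hy')⟩

open Classical in
/-- pair sum over pieces of exact heights -/
noncomputable def KK (lo hi h h' : ℕ) (Q : List BX → List BY → Prop) (a : ℕ) (x : G) (a' : ℕ)
    (x' : G) : ℝ≥0∞ :=
  ∑' L : List BX, ∑' L' : List BY, if HT hX L = h ∧ HT hY L' = h' ∧ Q L L' ∧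
    Ev tX tY lo hi L x a L' x' a' then LW ΛX L * LW ΛY L' else 0

/-- the window lemma; `Q E` = the local side is in `E` -/
def HH (Q : Finset G → List BX → List BY → Prop) (C : ℝ≥0∞) (us : ℕ → ℕ → ℝ≥0∞) : Prop :=
  ∀ (i s h h' a a' lo hi : ℕ) (E : Finset G) (μ : G → ℝ≥0∞) (M lam : ℝ≥0∞),
    ∑' x, μ x ≤ 1 → (∀ x, μ x ≤ M) → lam ≠ 0 → lam ≠ ⊤ →
    a ≤ a' + i → a' ≤ a + i → a + h ≤ a' + h' + i → a' + h' ≤ a + h + i →
    a + s ≤ lo → a' + s ≤ lo → hi + s ≤ a + h → hi + s ≤ a' + h' →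
    ∑' x, μ x * KK ΛX ΛY hX hY tX tY lo hi h h' (Q E) a 0 a' x ≤
      C * (lam + M * E.card * us i s / lam + us i s)

open Classical in
lemma KK_shift (htX : ∀ L x a z k, (z, k) ∈ tX L x a ↔ (z - x, k) ∈ tX L 0 a)
    (htY : ∀ L x a z k, (z, k) ∈ tY L x a ↔ (z - x, k) ∈ tY L 0 a)
    (lo hi h h' : ℕ) (Q : List BX → List BY → Prop) (a : ℕ) (x : G) (a' : ℕ) (x' : G) :
    KK ΛX ΛY hX hY tX tY lo hi h h' Q a x a' x' =
      KK ΛX ΛY hX hY tX tY lo hi h h' Q a 0 a' (x' - x) := by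
  unfold KK
  refine tsum_congr fun L => tsum_congr fun L' => ?_
  rw [Ev_shift tX tY htX htY]

open Classical in
/-- pieces of heights in `[T, T + i0]`, stopped -/
noncomputable def SS (T0 T i0 lo hi : ℕ) (w : G) (Q : List BX → List BY → Prop)
    (x x' : ℕ × G) : ℝ≥0∞ :=
  AT ΛX hX T (fun P => AT ΛY hY T (fun P' => if HT hX P ≤ T + i0 ∧ HT hY P' ≤ T + i0 ∧ Q P P' ∧
    Ev tX tY lo hi P x.2 (T0 + x.1) P' (w + x'.2) (T0 + x'.1) then 1 else 0))

lemma SS_le_one (hΛX : ∑' b, ΛX b = 1) (h1X : ∀ b, 1 ≤ hX b) (hΛY : ∑' b, ΛY b = 1)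
    (h1Y : ∀ b, 1 ≤ hY b) (T0 T i0 lo hi : ℕ) (w : G) (Q : List BX → List BY → Prop)
    (x x' : ℕ × G) : SS ΛX ΛY hX hY tX tY T0 T i0 lo hi w Q x x' ≤ 1 := by
  refine AT_const_le ΛX hX hΛX h1X T 1 fun P => AT_const_le ΛY hY hΛY h1Y T 1 fun P' => ?_
  split_ifs <;> simp

open Classical in
lemma SS_le (T0 T i0 lo hi : ℕ) (w : G) (Q' : List BX → List BY → Prop)
    (Q : ℕ → ℕ → List BX → List BY → Prop)
    (hQ : ∀ j j' P P', j ≤ i0 → j' ≤ i0 → HT hX P = T + j → HT hY P' = T + j' → Q' P P' →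
      Q j j' P P') (x x' : ℕ × G) :
    SS ΛX ΛY hX hY tX tY T0 T i0 lo hi w Q' x x' ≤
      ∑ j ∈ Finset.range (i0 + 1), ∑ j' ∈ Finset.range (i0 + 1),
        KK ΛX ΛY hX hY tX tY lo hi (T + j) (T + j') (Q j j') (T0 + x.1) x.2 (T0 + x'.1)
          (w + x'.2) := by
  have h1 : SS ΛX ΛY hX hY tX tY T0 T i0 lo hi w Q' x x' ≤
      ∑' P : List BX, ∑' P' : List BY, ∑ j ∈ Finset.range (i0 + 1),
        ∑ j' ∈ Finset.range (i0 + 1), (if HT hX P = T + j ∧ HT hY P' = T + j' ∧ Q j j' P P' ∧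
          Ev tX tY lo hi P x.2 (T0 + x.1) P' (w + x'.2) (T0 + x'.1) then
            LW ΛX P * LW ΛY P' else 0) := by
    unfold SS AT
    refine ENNReal.tsum_le_tsum fun P => ?_
    by_cases hP : Stp hX T P
    · rw [if_pos hP, ← ENNReal.tsum_mul_left]
      refine ENNReal.tsum_le_tsum fun P' => ?_
      by_cases hP' : Stp hY T P'
      · rw [if_pos hP']
        beta_reduce
        by_cases hc : HT hX P ≤ T + i0 ∧ HT hY P' ≤ T + i0 ∧ Q' P P' ∧
          Ev tX tY lo hi P x.2 (T0 + x.1) P' (w + x'.2) (T0 + x'.1)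
        · rw [if_pos hc, mul_one]
          have l1 := Stp_le hX P T hP
          have l2 := Stp_le hY P' T hP'
          obtain ⟨j, hj⟩ : ∃ j, HT hX P = T + j := ⟨HT hX P - T, by omega⟩
          obtain ⟨j', hj'⟩ : ∃ j, HT hY P' = T + j := ⟨HT hY P' - T, by omega⟩
          have hjm : j ∈ Finset.range (i0 + 1) := Finset.mem_range.2 (by have := hc.1; omega)
          have hjm' : j' ∈ Finset.range (i0 + 1) := Finset.mem_range.2 (by have := hc.2.1; omega)
          have hjl : j ≤ i0 := by have := hc.1; omega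
          have hjl' : j' ≤ i0 := by have := hc.2.1; omega
          refine le_trans ?_ (Finset.single_le_sum (f := fun j => ∑ j' ∈ Finset.range (i0 + 1),
            (if HT hX P = T + j ∧ HT hY P' = T + j' ∧ Q j j' P P' ∧
              Ev tX tY lo hi P x.2 (T0 + x.1) P' (w + x'.2) (T0 + x'.1) then
              LW ΛX P * LW ΛY P' else 0)) (fun _ _ => zero_le) hjm)
          refine le_trans ?_ (Finset.single_le_sum (f := fun j' =>
            (if HT hX P = T + j ∧ HT hY P' = T + j' ∧ Q j j' P P' ∧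
              Ev tX tY lo hi P x.2 (T0 + x.1) P' (w + x'.2) (T0 + x'.1) then
              LW ΛX P * LW ΛY P' else 0)) (fun _ _ => zero_le) hjm')
          rw [if_pos ⟨hj, hj', hQ j j' P P' hjl hjl' hj hj' hc.2.2.1, hc.2.2.2⟩]
        · rw [if_neg hc]; simp
      · rw [if_neg hP']; simp
    · rw [if_neg hP]; exact zero_le
  refine h1.trans (le_of_eq ?_)
  unfold KK
  have e1 : ∀ P : List BX, (∑' P' : List BY, ∑ j ∈ Finset.range (i0 + 1),
        ∑ j' ∈ Finset.range (i0 + 1), (if HT hX P = T + j ∧ HT hY P' = T + j' ∧ Q j j' P P' ∧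
          Ev tX tY lo hi P x.2 (T0 + x.1) P' (w + x'.2) (T0 + x'.1) then
            LW ΛX P * LW ΛY P' else 0)) = ∑ j ∈ Finset.range (i0 + 1),
        ∑ j' ∈ Finset.range (i0 + 1), ∑' P' : List BY, (if HT hX P = T + j ∧
          HT hY P' = T + j' ∧ Q j j' P P' ∧
          Ev tX tY lo hi P x.2 (T0 + x.1) P' (w + x'.2) (T0 + x'.1) then
            LW ΛX P * LW ΛY P' else 0) := by
    intro P
    rw [Summable.tsum_finsetSum (fun i _ => ENNReal.summable)]
    refine Finset.sum_congr rfl fun j _ => ?_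
    rw [Summable.tsum_finsetSum (fun i _ => ENNReal.summable)]
  rw [tsum_congr e1, Summable.tsum_finsetSum (fun i _ => ENNReal.summable)]
  refine Finset.sum_congr rfl fun j _ => ?_
  rw [Summable.tsum_finsetSum (fun i _ => ENNReal.summable)]

/-- local set at overshoot `j` -/
noncomputable def Ej [DecidableEq G] (E : Finset (ℕ × G)) (j : ℕ) : Finset G :=
  (E.filter (fun x => x.1 = j)).image Prod.snd

omit [AddCommGroup G] in
open Classical in
lemma Ej_card (E : Finset (ℕ × G)) (j : ℕ) : (Ej E j).card ≤ E.card :=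
  Finset.card_image_le.trans (Finset.card_filter_le _ _)

omit [AddCommGroup G] in
open Classical in
lemma mem_Ej (E : Finset (ℕ × G)) (j : ℕ) (z : G) (h : (j, z) ∈ E) : z ∈ Ej E j :=
  Finset.mem_image.2 ⟨(j, z), Finset.mem_filter.2 ⟨h, rfl⟩, rfl⟩

/-- final bound of one local term -/
noncomputable def Bd (C : ℝ≥0∞) (us : ℕ → ℕ → ℝ≥0∞) (i0 s : ℕ) (u lam : ℝ≥0∞) : ℝ≥0∞ :=
  C * (lam + (2 * ((i0 + 1 : ℕ) : ℝ≥0∞) * u⁻¹) * us (2 * i0) s / lam + us (2 * i0) s)

lemma M_card {i0 : ℕ} {th u : ℝ≥0∞} {c c' : ℕ} (hc : (c : ℝ≥0∞) * th ≤ 1) (hcc : c' ≤ c) :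
    (((i0 + 1 : ℕ) : ℝ≥0∞) * (2 * th) * u⁻¹) * (c' : ℝ≥0∞) ≤
      2 * ((i0 + 1 : ℕ) : ℝ≥0∞) * u⁻¹ := by
  calc _ ≤ (((i0 + 1 : ℕ) : ℝ≥0∞) * (2 * th) * u⁻¹) * (c : ℝ≥0∞) :=
        mul_le_mul_right (by exact_mod_cast hcc) _
    _ = 2 * ((i0 + 1 : ℕ) : ℝ≥0∞) * u⁻¹ * ((c : ℝ≥0∞) * th) := by ring
    _ ≤ 2 * ((i0 + 1 : ℕ) : ℝ≥0∞) * u⁻¹ * 1 := mul_le_mul_right hc _
    _ = _ := mul_one _

lemma Bd_ge {C : ℝ≥0∞} {us : ℕ → ℕ → ℝ≥0∞} {i0 s : ℕ} {u lam m : ℝ≥0∞}
    (hm : m ≤ 2 * ((i0 + 1 : ℕ) : ℝ≥0∞) * u⁻¹) :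
    C * (lam + m * us (2 * i0) s / lam + us (2 * i0) s) ≤ Bd C us i0 s u lam := by
  unfold Bd
  gcongr

/-- the dyadic quantile package of one walker at scale `T` -/
lemma pack {B : Type*} (Λ : B → ℝ≥0∞) (ht : B → ℕ) (dz : B → G) (hΛ : ∑' b, Λ b = 1)
    (h1 : ∀ b, 1 ≤ ht b) {T0 T i0 J : ℕ} {u : ℝ≥0∞} (hu : u ≠ 0) (hu1 : u ≤ 1)
    (hJ : J * (T + i0) ≤ T0) :
    ∃ (th : ℝ≥0∞) (E : Finset (ℕ × G)) (g b : ℕ × G → ℝ≥0∞),
      (E.card : ℝ≥0∞) * th ≤ 1 ∧
      (∀ x, a Λ ht dz T0 x ≤ g x + b x) ∧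
      (∀ x, g x ≤ ((i0 + 1 : ℕ) : ℝ≥0∞) * (2 * th) * u⁻¹) ∧
      ∑' x, b x ≤ (1 - u) ^ J + e1 Λ ht i0 * u⁻¹ ∧
      ∀ f : List B → ℝ≥0∞, (∀ P, f P ≤ 1) →
        (∀ P, (HT ht P - T, DS dz P) ∈ E → f P = 0) → AT Λ ht T f ≤ u := by
  classical
  obtain ⟨th, hth, hth1, hlow, hup⟩ := quantile (a_sum Λ ht dz hΛ h1 T) hu hu1
  obtain ⟨E, hE, hEc⟩ := card_large (p := a Λ ht dz T) (a_sum Λ ht dz hΛ h1 T).le hth
  have huu : 1 - (1 - u) = u := ENNReal.sub_sub_cancel ENNReal.one_ne_top hu1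
  have hv : ∑' y : ℕ × G, (if y.1 ≤ i0 ∧ 2 * th < a Λ ht dz T y then a Λ ht dz T y else 0) ≤
      1 - u := by
    have h3 : ∑' y : ℕ × G, (if y.1 ≤ i0 ∧ 2 * th < a Λ ht dz T y then a Λ ht dz T y else 0) +
        ∑' y : ℕ × G, (if a Λ ht dz T y < 2 * th then a Λ ht dz T y else 0) ≤ 1 := by
      rw [← ENNReal.tsum_add, ← a_sum Λ ht dz hΛ h1 T]
      refine ENNReal.tsum_le_tsum fun y => ?_
      by_cases h4 : a Λ ht dz T y < 2 * th
      · rw [if_neg (fun h5 => absurd h5.2 (not_lt.2 h4.le)), if_pos h4, zero_add]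
      · rw [if_neg h4, add_zero]
        split_ifs
        · exact le_rfl
        · exact zero_le
    have h5 : ∑' y : ℕ × G, (if y.1 ≤ i0 ∧ 2 * th < a Λ ht dz T y then a Λ ht dz T y else 0)
        + u ≤ 1 := (add_le_add le_rfl hup).trans h3
    exact ENNReal.le_sub_of_add_le_right (ne_top_of_le_ne_top ENNReal.one_ne_top hu1) h5
  obtain ⟨g, b, hab, hg, hb⟩ := smooth Λ ht dz hΛ h1 hv J T0 hJ
  rw [huu] at hb
  refine ⟨th, E, g, b, hEc, hab, fun x => ?_, hb, fun f hf1 hf0 => ?_⟩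
  · have := hg x
    rwa [huu] at this
  · have h6 := AT_fun Λ ht dz T (fun x => if a Λ ht dz T x < th then 1 else 0)
    calc AT Λ ht T f ≤ AT Λ ht T (fun L => if a Λ ht dz T (HT ht L - T, DS dz L) < th
            then 1 else 0) := by
          refine AT_mono Λ ht T fun L _ => ?_
          by_cases h7 : a Λ ht dz T (HT ht L - T, DS dz L) < th
          · rw [if_pos h7]; exact hf1 L
          · rw [if_neg h7, hf0 L ((hE _).2 (not_lt.1 h7))]
      _ = ∑' x, a Λ ht dz T x * (if a Λ ht dz T x < th then 1 else 0) := h6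
      _ = ∑' x, (if a Λ ht dz T x < th then a Λ ht dz T x else 0) :=
          tsum_congr fun x => by split_ifs <;> simp
      _ ≤ u := hlow

open Classical in
/-- **the window estimate** -/
theorem win (htX : ∀ L x a z k, (z, k) ∈ tX L x a ↔ (z - x, k) ∈ tX L 0 a)
    (htY : ∀ L x a z k, (z, k) ∈ tY L x a ↔ (z - x, k) ∈ tY L 0 a)
    (hΛX : ∑' b, ΛX b = 1) (h1X : ∀ b, 1 ≤ hX b) (hΛY : ∑' b, ΛY b = 1) (h1Y : ∀ b, 1 ≤ hY b)
    {C : ℝ≥0∞} {us : ℕ → ℕ → ℝ≥0∞}
    (H2 : HH ΛX ΛY hX hY tX tY (fun E L _ => DS zX L ∈ E) C us)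
    (H3 : HH ΛX ΛY hX hY tX tY (fun E _ L' => DS zY L' ∈ E) C us)
    {T0 T i0 s lo hi J : ℕ} {u lam : ℝ≥0∞} (hu : u ≠ 0) (hu1 : u ≤ 1) (hl : lam ≠ 0)
    (hl' : lam ≠ ⊤) (hJ : J * (T + i0) ≤ T0) (hlo : T0 + i0 + s ≤ lo) (hhi : hi + s ≤ T0 + T)
    (w : G) :
    EE ΛX hX T0 T i0 (fun A P => EE ΛY hY T0 T i0 (fun A' P' =>
      if Ev tX tY lo hi P (DS zX A) (HT hX A) P' (w + DS zY A') (HT hY A') then 1 else 0)) ≤
    u * u + (((1 - u) ^ J + e1 ΛX hX i0 * u⁻¹) + ((i0 + 1 : ℕ) : ℝ≥0∞) *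
        (((i0 + 1 : ℕ) : ℝ≥0∞) * (((i0 + 1 : ℕ) : ℝ≥0∞) * Bd C us i0 s u lam))) +
      (((1 - u) ^ J + e1 ΛY hY i0 * u⁻¹) + ((i0 + 1 : ℕ) : ℝ≥0∞) *
        (((i0 + 1 : ℕ) : ℝ≥0∞) * (((i0 + 1 : ℕ) : ℝ≥0∞) * Bd C us i0 s u lam))) := by
  obtain ⟨thX, EX, gX, bX, hEX, habX, hgX, hbX, hnX⟩ := pack ΛX hX zX hΛX h1X hu hu1 hJ
  obtain ⟨thY, EY, gY, bY, hEY, habY, hgY, hbY, hnY⟩ := pack ΛY hY zY hΛY h1Y hu hu1 hJ
  set QX : List BX → List BY → Prop := fun P _ => (HT hX P - T, DS zX P) ∈ EX with hQX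
  set QY : List BX → List BY → Prop := fun _ P' => (HT hY P' - T, DS zY P') ∈ EY with hQY
  set aX : ℕ × G → ℝ≥0∞ := fun x => if x.1 ≤ i0 then a ΛX hX zX T0 x else 0 with haX
  set aY : ℕ × G → ℝ≥0∞ := fun x => if x.1 ≤ i0 then a ΛY hY zY T0 x else 0 with haY
  set SX := SS ΛX ΛY hX hY tX tY T0 T i0 lo hi w QX with hSX
  set SY := SS ΛX ΛY hX hY tX tY T0 T i0 lo hi w QY with hSY
  have haX1 : ∑' x, aX x ≤ 1 := (ENNReal.tsum_le_tsum fun x => by
    rw [haX]; simp only; split_ifs <;> simp).trans (a_sum ΛX hX zX hΛX h1X T0).le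
  have haY1 : ∑' x, aY x ≤ 1 := (ENNReal.tsum_le_tsum fun x => by
    rw [haY]; simp only; split_ifs <;> simp).trans (a_sum ΛY hY zY hΛY h1Y T0).le
  -- step A
  set HX : ℕ × G → List BX → ℝ≥0∞ := fun x P => ∑' x' : ℕ × G, aY x' *
    AT ΛY hY T (fun P' => if HT hY P' ≤ T + i0 then
      (if Ev tX tY lo hi P x.2 (T0 + x.1) P' (w + x'.2) (T0 + x'.1) then 1 else 0) else 0) with hHX
  have hA : EE ΛX hX T0 T i0 (fun A P => EE ΛY hY T0 T i0 (fun A' P' =>
      if Ev tX tY lo hi P (DS zX A) (HT hX A) P' (w + DS zY A') (HT hY A') then 1 else 0)) ≤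
      EE ΛX hX T0 T i0 (fun A P => HX (HT hX A - T0, DS zX A) P) := by
    refine EE_mono ΛX hX T0 T i0 fun A P hA hP _ _ => ?_
    have l1 := Stp_le hX A T0 hA
    have e1 : T0 + (HT hX A - T0) = HT hX A := by omega
    rw [hHX]
    simp only
    rw [e1, ← EE_law ΛY hY zY T0 T i0 (fun x' P' =>
      if Ev tX tY lo hi P (DS zX A) (HT hX A) P' (w + x'.2) (T0 + x'.1) then 1 else 0)]
    refine EE_mono ΛY hY T0 T i0 fun A' P' hA' hP' _ _ => ?_
    have l2 := Stp_le hY A' T0 hA'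
    have e2 : T0 + (HT hY A' - T0) = HT hY A' := by omega
    simp only
    rw [e2]
  refine hA.trans ?_
  rw [EE_law]
  -- step B
  have hB : ∀ x : ℕ × G, AT ΛX hX T (fun P => if HT hX P ≤ T + i0 then HX x P else 0) ≤
      ∑' x' : ℕ × G, aY x' * (u * u + SX x x' + SY x x') := by
    intro x
    calc _ ≤ AT ΛX hX T (fun P => ∑' x' : ℕ × G, aY x' * AT ΛY hY T (fun P' =>
          if HT hX P ≤ T + i0 ∧ HT hY P' ≤ T + i0 ∧
            Ev tX tY lo hi P x.2 (T0 + x.1) P' (w + x'.2) (T0 + x'.1) then 1 else 0)) := by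
          refine AT_mono ΛX hX T fun P _ => ?_
          by_cases hP : HT hX P ≤ T + i0
          · rw [if_pos hP, hHX]
            simp only
            refine ENNReal.tsum_le_tsum fun x' => mul_le_mul_right (AT_mono ΛY hY T
              fun P' _ => ?_) _
            by_cases h1 : HT hY P' ≤ T + i0 <;>
              by_cases h2 : Ev tX tY lo hi P x.2 (T0 + x.1) P' (w + x'.2) (T0 + x'.1) <;>
              simp [hP, h1, h2]
          · rw [if_neg hP]; exact zero_le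
      _ = ∑' x' : ℕ × G, aY x' * AT ΛX hX T (fun P => AT ΛY hY T (fun P' =>
          if HT hX P ≤ T + i0 ∧ HT hY P' ≤ T + i0 ∧
            Ev tX tY lo hi P x.2 (T0 + x.1) P' (w + x'.2) (T0 + x'.1) then 1 else 0)) := by
          rw [AT_tsum]
          exact tsum_congr fun x' => AT_mul ΛX hX T _ _
      _ ≤ _ := by
          refine ENNReal.tsum_le_tsum fun x' => mul_le_mul_right ?_ _
          calc _ ≤ AT ΛX hX T (fun P => AT ΛY hY T (fun P' =>
                ((if (HT hX P - T, DS zX P) ∈ EX then 0 else 1) *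
                  (if (HT hY P' - T, DS zY P') ∈ EY then 0 else 1) +
                (if HT hX P ≤ T + i0 ∧ HT hY P' ≤ T + i0 ∧ QX P P' ∧
                  Ev tX tY lo hi P x.2 (T0 + x.1) P' (w + x'.2) (T0 + x'.1) then 1 else 0)) +
                (if HT hX P ≤ T + i0 ∧ HT hY P' ≤ T + i0 ∧ QY P P' ∧
                  Ev tX tY lo hi P x.2 (T0 + x.1) P' (w + x'.2) (T0 + x'.1) then 1 else 0))) := by
                refine AT_mono ΛX hX T fun P _ => AT_mono ΛY hY T fun P' _ => ?_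
                by_cases h1 : HT hX P ≤ T + i0 ∧ HT hY P' ≤ T + i0 ∧
                  Ev tX tY lo hi P x.2 (T0 + x.1) P' (w + x'.2) (T0 + x'.1)
                · rw [if_pos h1]
                  by_cases h2 : (HT hX P - T, DS zX P) ∈ EX
                  · have h4 : HT hX P ≤ T + i0 ∧ HT hY P' ≤ T + i0 ∧ QX P P' ∧
                      Ev tX tY lo hi P x.2 (T0 + x.1) P' (w + x'.2) (T0 + x'.1) :=
                      ⟨h1.1, h1.2.1, h2, h1.2.2⟩
                    rw [if_pos h4]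
                    exact le_trans le_add_self le_self_add
                  · by_cases h3 : (HT hY P' - T, DS zY P') ∈ EY
                    · have h4 : HT hX P ≤ T + i0 ∧ HT hY P' ≤ T + i0 ∧ QY P P' ∧
                        Ev tX tY lo hi P x.2 (T0 + x.1) P' (w + x'.2) (T0 + x'.1) :=
                        ⟨h1.1, h1.2.1, h3, h1.2.2⟩
                      rw [if_pos h4]
                      exact le_add_self
                    · rw [if_neg h2, if_neg h3, mul_one]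
                      exact le_trans le_self_add le_self_add
                · rw [if_neg h1]; exact zero_le
            _ = AT ΛX hX T (fun P => AT ΛY hY T (fun P' =>
                  (if (HT hX P - T, DS zX P) ∈ EX then 0 else 1) *
                  (if (HT hY P' - T, DS zY P') ∈ EY then 0 else 1))) + SX x x' + SY x x' := by
                rw [hSX, hSY]
                unfold SS
                rw [← AT_add, ← AT_add]
                refine AT_congr ΛX hX T fun P _ => ?_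
                rw [← AT_add, ← AT_add]
                refine AT_congr ΛY hY T fun L _ => ?_
                congr!
            _ ≤ _ := by
                refine add_le_add (add_le_add ?_ le_rfl) le_rfl
                have e1 : ∀ P : List BX, AT ΛY hY T (fun P' =>
                    (if (HT hX P - T, DS zX P) ∈ EX then (0 : ℝ≥0∞) else 1) *
                    (if (HT hY P' - T, DS zY P') ∈ EY then 0 else 1)) =
                    AT ΛY hY T (fun P' => if (HT hY P' - T, DS zY P') ∈ EY then 0 else 1) *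
                    (if (HT hX P - T, DS zX P) ∈ EX then (0 : ℝ≥0∞) else 1) := by
                  intro P; rw [AT_mul, mul_comm]
                rw [AT_congr ΛX hX T (fun P _ => e1 P), AT_mul, mul_comm]
                refine mul_le_mul' (hnX _ (fun P => ?_) fun P hP => if_pos hP)
                  (hnY _ (fun P => ?_) fun P hP => if_pos hP)
                · split_ifs <;> simp
                · split_ifs <;> simp
  -- step D
  have hD : ∑' x : ℕ × G, aX x * AT ΛX hX T (fun P => if HT hX P ≤ T + i0 then HX x P else 0) ≤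
      u * u + ∑' x : ℕ × G, ∑' x' : ℕ × G, aX x * (aY x' * SX x x') +
      ∑' x : ℕ × G, ∑' x' : ℕ × G, aX x * (aY x' * SY x x') := by
    calc _ ≤ ∑' x : ℕ × G, ∑' x' : ℕ × G, (aX x * (aY x' * (u * u)) + aX x * (aY x' * SX x x') +
          aX x * (aY x' * SY x x')) := by
          refine ENNReal.tsum_le_tsum fun x => ?_
          refine (mul_le_mul_right (hB x) _).trans (le_of_eq ?_)
          rw [← ENNReal.tsum_mul_left]
          exact tsum_congr fun x' => by ring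
      _ = ∑' x : ℕ × G, ∑' x' : ℕ × G, aX x * (aY x' * (u * u)) +
          ∑' x : ℕ × G, ∑' x' : ℕ × G, aX x * (aY x' * SX x x') +
          ∑' x : ℕ × G, ∑' x' : ℕ × G, aX x * (aY x' * SY x x') := by
          rw [← ENNReal.tsum_add, ← ENNReal.tsum_add]
          refine tsum_congr fun x => ?_
          rw [← ENNReal.tsum_add, ← ENNReal.tsum_add]
      _ ≤ _ := by
          refine add_le_add (add_le_add ?_ le_rfl) le_rfl
          simp_rw [ENNReal.tsum_mul_left, ENNReal.tsum_mul_right]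
          calc (∑' x, aX x) * ((∑' x, aY x) * (u * u)) ≤ 1 * (1 * (u * u)) := by gcongr
            _ = u * u := by simp
  refine hD.trans (add_le_add (add_le_add le_rfl ?_) ?_)
  · -- X local
    refine half (aX := a ΛX hX zX T0) (aY := a ΛY hY zY T0) (a_sum ΛX hX zX hΛX h1X T0).le
      (a_sum ΛY hY zY hΛY h1Y T0).le habX hbX hgX
      (fun x x' => SS_le_one ΛX ΛY hX hY tX tY hΛX h1X hΛY h1Y T0 T i0 lo hi w QX x x') ?_
    intro i hi1 x' hx' μ hμ hμM
    have h1 : ∀ z, μ z * SX (i, z) x' ≤ ∑ j ∈ Finset.range (i0 + 1),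
        ∑ j' ∈ Finset.range (i0 + 1), μ z * KK ΛX ΛY hX hY tX tY lo hi (T + j) (T + j')
          (fun P _ => DS zX P ∈ Ej EX j) (T0 + i) z (T0 + x'.1) (w + x'.2) := by
      intro z
      refine (mul_le_mul_right (SS_le ΛX ΛY hX hY tX tY T0 T i0 lo hi w QX
        (fun j _ P _ => DS zX P ∈ Ej EX j) ?_ (i, z) x') _).trans (le_of_eq ?_)
      · intro j j' P P' _ _ e1 _ hQ
        refine mem_Ej EX j _ ?_
        have : HT hX P - T = j := by omega
        rw [← this]; exact hQ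
      · rw [Finset.mul_sum]
        exact Finset.sum_congr rfl fun j _ => by rw [Finset.mul_sum]
    refine (ENNReal.tsum_le_tsum h1).trans ?_
    rw [Summable.tsum_finsetSum (fun i _ => ENNReal.summable)]
    rw [← nsmul_eq_mul, ← nsmul_eq_mul]
    nth_rewrite 3 [← Finset.card_range (i0 + 1)]
    refine Finset.sum_le_card_nsmul _ _ _ fun j hj => ?_
    rw [Summable.tsum_finsetSum (fun i _ => ENNReal.summable)]
    nth_rewrite 2 [← Finset.card_range (i0 + 1)]
    refine Finset.sum_le_card_nsmul _ _ _ fun j' hj' => ?_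
    rw [Finset.mem_range] at hj hj'
    have h2 : ∑' z, μ z * KK ΛX ΛY hX hY tX tY lo hi (T + j) (T + j')
          (fun P _ => DS zX P ∈ Ej EX j) (T0 + i) z (T0 + x'.1) (w + x'.2) =
        ∑' y, μ ((w + x'.2) - y) * KK ΛX ΛY hX hY tX tY lo hi (T + j) (T + j')
          (fun P _ => DS zX P ∈ Ej EX j) (T0 + i) 0 (T0 + x'.1) y := by
      rw [← (Equiv.subLeft (w + x'.2)).tsum_eq]
      refine tsum_congr fun y => ?_
      rw [Equiv.subLeft_apply, KK_shift ΛX ΛY hX hY tX tY htX htY]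
      congr 2
      abel
    rw [h2]
    refine (H2 (2 * i0) s (T + j) (T + j') (T0 + i) (T0 + x'.1) lo hi (Ej EX j)
      (fun y => μ ((w + x'.2) - y)) _ lam ?_ (fun y => hμM _) hl hl' (by omega) (by omega)
      (by omega) (by omega) (by omega) (by omega) (by omega) (by omega)).trans ?_
    · rw [← (Equiv.subLeft (w + x'.2)).tsum_eq] at hμ
      exact hμ
    · exact Bd_ge (M_card hEX (Ej_card EX j))
  · -- Y local
    rw [ENNReal.tsum_comm]
    have hsw : ∑' x' : ℕ × G, ∑' x : ℕ × G, aX x * (aY x' * SY x x') =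
        ∑' x' : ℕ × G, ∑' x : ℕ × G, aY x' * (aX x * SY x x') :=
      tsum_congr fun x' => tsum_congr fun x => by ring
    rw [hsw]
    refine half (aX := a ΛY hY zY T0) (aY := a ΛX hX zX T0) (a_sum ΛY hY zY hΛY h1Y T0).le
      (a_sum ΛX hX zX hΛX h1X T0).le habY hbY hgY (S := fun x' x => SY x x')
      (fun x' x => SS_le_one ΛX ΛY hX hY tX tY hΛX h1X hΛY h1Y T0 T i0 lo hi w QY x x') ?_
    intro i hi1 x hx μ hμ hμM
    have h1 : ∀ z, μ z * SY x (i, z) ≤ ∑ j ∈ Finset.range (i0 + 1),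
        ∑ j' ∈ Finset.range (i0 + 1), μ z * KK ΛX ΛY hX hY tX tY lo hi (T + j) (T + j')
          (fun _ P' => DS zY P' ∈ Ej EY j') (T0 + x.1) x.2 (T0 + i) (w + z) := by
      intro z
      refine (mul_le_mul_right (SS_le ΛX ΛY hX hY tX tY T0 T i0 lo hi w QY
        (fun _ j' _ P' => DS zY P' ∈ Ej EY j') ?_ x (i, z)) _).trans (le_of_eq ?_)
      · intro j j' P P' _ _ _ e1 hQ
        refine mem_Ej EY j' _ ?_
        have : HT hY P' - T = j' := by omega
        rw [← this]; exact hQ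
      · rw [Finset.mul_sum]
        exact Finset.sum_congr rfl fun j _ => by rw [Finset.mul_sum]
    refine (ENNReal.tsum_le_tsum h1).trans ?_
    rw [Summable.tsum_finsetSum (fun i _ => ENNReal.summable)]
    rw [← nsmul_eq_mul, ← nsmul_eq_mul]
    nth_rewrite 3 [← Finset.card_range (i0 + 1)]
    refine Finset.sum_le_card_nsmul _ _ _ fun j hj => ?_
    rw [Summable.tsum_finsetSum (fun i _ => ENNReal.summable)]
    nth_rewrite 2 [← Finset.card_range (i0 + 1)]
    refine Finset.sum_le_card_nsmul _ _ _ fun j' hj' => ?_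
    rw [Finset.mem_range] at hj hj'
    have h2 : ∑' z, μ z * KK ΛX ΛY hX hY tX tY lo hi (T + j) (T + j')
          (fun _ P' => DS zY P' ∈ Ej EY j') (T0 + x.1) x.2 (T0 + i) (w + z) =
        ∑' y, μ ((x.2 - w) + y) * KK ΛX ΛY hX hY tX tY lo hi (T + j) (T + j')
          (fun _ P' => DS zY P' ∈ Ej EY j') (T0 + x.1) 0 (T0 + i) y := by
      rw [← (Equiv.addLeft (x.2 - w)).tsum_eq]
      refine tsum_congr fun y => ?_
      simp only [Equiv.coe_addLeft]
      rw [KK_shift ΛX ΛY hX hY tX tY htX htY]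
      have e : w + (x.2 - w + y) - x.2 = y := by abel
      rw [e]
    rw [h2]
    refine (H3 (2 * i0) s (T + j) (T + j') (T0 + x.1) (T0 + i) lo hi (Ej EY j')
      (fun y => μ ((x.2 - w) + y)) _ lam ?_ (fun y => hμM _) hl hl' (by omega) (by omega)
      (by omega) (by omega) (by omega) (by omega) (by omega) (by omega)).trans ?_
    · rw [← (Equiv.addLeft (x.2 - w)).tsum_eq] at hμ
      exact hμ
    · exact Bd_ge (M_card hEY (Ej_card EY j'))

end win

section final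

variable {BX BY G : Type*} [AddCommGroup G] (ΛX : BX → ℝ≥0∞) (ΛY : BY → ℝ≥0∞) (hX : BX → ℕ)
  (hY : BY → ℕ) (zX : BX → G) (zY : BY → G) (tX : List BX → G → ℕ → Set (G × ℕ))
  (tY : List BY → G → ℕ → Set (G × ℕ))

/-- a common site -/
def Cn (w : G) (L : List BX) (L' : List BY) (z : G) (k : ℕ) : Prop :=
  (z, k) ∈ tX L 0 0 ∧ (z, k) ∈ tY L' w 0

open Classical in
/-- one window -/
lemma win1
    (happX : ∀ L L' x a, tX (L ++ L') x a = tX L x a ∪ tX L' (x + DS zX L) (a + HT hX L))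
    (happY : ∀ L L' x a, tY (L ++ L') x a = tY L x a ∪ tY L' (x + DS zY L) (a + HT hY L))
    (hdX : ∀ L x a z k, (z, k) ∈ tX L x a → a < k ∧ k ≤ a + HT hX L)
    (hdY : ∀ L x a z k, (z, k) ∈ tY L x a → a < k ∧ k ≤ a + HT hY L)
    (htX : ∀ L x a z k, (z, k) ∈ tX L x a ↔ (z - x, k) ∈ tX L 0 a)
    (htY : ∀ L x a z k, (z, k) ∈ tY L x a ↔ (z - x, k) ∈ tY L 0 a)
    (hΛX : ∑' b, ΛX b = 1) (h1X : ∀ b, 1 ≤ hX b) (hΛY : ∑' b, ΛY b = 1) (h1Y : ∀ b, 1 ≤ hY b)
    {C : ℝ≥0∞} {us : ℕ → ℕ → ℝ≥0∞}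
    (H2 : HH ΛX ΛY hX hY tX tY (fun E L _ => DS zX L ∈ E) C us)
    (H3 : HH ΛX ΛY hX hY tX tY (fun E _ L' => DS zY L' ∈ E) C us)
    {T0 t i0 s J : ℕ} {u lam ep : ℝ≥0∞} (hu : u ≠ 0) (hu1 : u ≤ 1) (hl : lam ≠ 0)
    (hl' : lam ≠ ⊤) (hJ : J * (3 * t + i0) ≤ T0) (hit : i0 ≤ t) (hst : s ≤ t)
    (w : G) {n : ℕ} (hn : T0 + 3 * t + 2 * i0 + s ≤ n)
    (hpt : ∀ k, T0 < k → k ≤ n → FX ΛX hX n (fun L => FX ΛY hY n (fun L' =>
      if ∃ z, Cn tX tY w L L' z k then 1 else 0)) ≤ ep) :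
    FX ΛX hX n (fun L => FX ΛY hY n (fun L' =>
      if ∃ k z, T0 + t < k ∧ k ≤ T0 + 2 * t ∧ Cn tX tY w L L' z k then 1 else 0)) ≤
    ((3 * i0 + 2 * s : ℕ) : ℝ≥0∞) * ep + ((2 * e1 ΛX hX i0 + 2 * e1 ΛY hY i0) +
    (u * u + (((1 - u) ^ J + e1 ΛX hX i0 * u⁻¹) + ((i0 + 1 : ℕ) : ℝ≥0∞) *
        (((i0 + 1 : ℕ) : ℝ≥0∞) * (((i0 + 1 : ℕ) : ℝ≥0∞) * Bd C us i0 s u lam))) +
      (((1 - u) ^ J + e1 ΛY hY i0 * u⁻¹) + ((i0 + 1 : ℕ) : ℝ≥0∞) *
        (((i0 + 1 : ℕ) : ℝ≥0∞) * (((i0 + 1 : ℕ) : ℝ≥0∞) * Bd C us i0 s u lam))))) := by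
  set sl : Finset ℕ := Finset.Ioc T0 (T0 + i0 + s) ∪
    Finset.Ioc (T0 + 3 * t - s) (T0 + 3 * t + 2 * i0) with hsl
  have hcard : sl.card ≤ 3 * i0 + 2 * s := by
    refine (Finset.card_union_le _ _).trans ?_
    rw [Nat.card_Ioc, Nat.card_Ioc]
    omega
  set Gd : List BX → List BY → Prop := fun L L' =>
    (∃ k z, T0 + t < k ∧ k ≤ T0 + 2 * t ∧ Cn tX tY w L L' z k) ∧
      ∀ k ∈ sl, ∀ z, ¬ Cn tX tY w L L' z k with hGd
  have hpw : ∀ L L', (if ∃ k z, T0 + t < k ∧ k ≤ T0 + 2 * t ∧ Cn tX tY w L L' z k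
      then (1 : ℝ≥0∞) else 0) ≤ ∑ k ∈ sl, (if ∃ z, Cn tX tY w L L' z k then 1 else 0) +
        (if Gd L L' then 1 else 0) := by
    intro L L'
    by_cases h : ∃ k z, T0 + t < k ∧ k ≤ T0 + 2 * t ∧ Cn tX tY w L L' z k
    · rw [if_pos h]
      by_cases h2 : ∀ k ∈ sl, ∀ z, ¬ Cn tX tY w L L' z k
      · rw [if_pos (show Gd L L' from ⟨h, h2⟩)]; exact le_add_self
      · push Not at h2
        obtain ⟨k, hk, z, hz⟩ := h2
        refine le_trans ?_ le_self_add
        refine le_trans ?_ (Finset.single_le_sum (f := fun k =>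
          (if ∃ z, Cn tX tY w L L' z k then (1 : ℝ≥0∞) else 0)) (fun _ _ => zero_le) hk)
        rw [if_pos ⟨z, hz⟩]
    · rw [if_neg h]; exact zero_le
  calc _ ≤ FX ΛX hX n (fun L => FX ΛY hY n (fun L' =>
        ∑ k ∈ sl, (if ∃ z, Cn tX tY w L L' z k then 1 else 0) +
        (if Gd L L' then 1 else 0))) :=
        FX_mono ΛX hX n fun L _ => FX_mono ΛY hY n fun L' _ => hpw L L'
    _ = ∑ k ∈ sl, FX ΛX hX n (fun L => FX ΛY hY n (fun L' =>
          if ∃ z, Cn tX tY w L L' z k then 1 else 0)) +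
        FX ΛX hX n (fun L => FX ΛY hY n (fun L' => if Gd L L' then 1 else 0)) := by
        rw [← FX_sum, ← FX_add]
        congr 1
        funext L
        rw [FX_add, FX_sum]
    _ ≤ _ := by
        refine add_le_add ?_ ?_
        · calc _ ≤ ∑ k ∈ sl, ep := by
                refine Finset.sum_le_sum fun k hk => hpt k ?_ ?_
                · rw [hsl, Finset.mem_union, Finset.mem_Ioc, Finset.mem_Ioc] at hk
                  omega
                · rw [hsl, Finset.mem_union, Finset.mem_Ioc, Finset.mem_Ioc] at hk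
                  omega
            _ = (sl.card : ℝ≥0∞) * ep := by rw [Finset.sum_const, nsmul_eq_mul]
            _ ≤ _ := mul_le_mul_left (by exact_mod_cast hcard) _
        · refine (two ΛX ΛY hX hY hΛX h1X hΛY h1Y (T0 := T0) (T := 3 * t) (i0 := i0) (n := n)
            (by omega) (F := fun L L' => if Gd L L' then 1 else 0)
            (fun L L' => by split_ifs <;> simp)
            (F2 := fun A P A' P' => if Ev tX tY (T0 + i0 + s) (T0 + 3 * t - s) P (DS zX A)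
              (HT hX A) P' (w + DS zY A') (HT hY A') then 1 else 0) ?_).trans ?_
          · intro A P R A' P' R' hA hP hoA hoP hA' hP' hoA' hoP'
            by_cases hG : Gd (A ++ (P ++ R)) (A' ++ (P' ++ R'))
            · rw [if_pos hG, if_pos]
              have lA := Stp_le hX A T0 hA
              have lP := Stp_le hX P _ hP
              have lA' := Stp_le hY A' T0 hA'
              have lP' := Stp_le hY P' _ hP'
              obtain ⟨⟨k, z, hk1, hk2, hz1, hz2⟩, hno⟩ := hG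
              have mX : ∀ z k, (z, k) ∈ tX P (DS zX A) (HT hX A) →
                  (z, k) ∈ tX (A ++ (P ++ R)) 0 0 := by
                intro z k h
                rw [happX, happX, zero_add, zero_add]
                exact Or.inr (Or.inl h)
              have mY : ∀ z k, (z, k) ∈ tY P' (w + DS zY A') (HT hY A') →
                  (z, k) ∈ tY (A' ++ (P' ++ R')) w 0 := by
                intro z k h
                rw [happY, happY, zero_add]
                exact Or.inr (Or.inl h)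
              refine ⟨⟨z, k, ?_, ?_⟩, fun y l hy hy' => ?_⟩
              · rw [happX, happX, zero_add, zero_add] at hz1
                rcases hz1 with h | h | h
                · have := hdX _ _ _ _ _ h; omega
                · exact h
                · have := hdX _ _ _ _ _ h; omega
              · rw [happY, happY, zero_add] at hz2
                rcases hz2 with h | h | h
                · have := hdY _ _ _ _ _ h; omega
                · exact h
                · have := hdY _ _ _ _ _ h; omega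
              · have d1 := hdX _ _ _ _ _ hy
                have d2 := hdY _ _ _ _ _ hy'
                have hns : l ∉ sl := fun hl => hno l hl y ⟨mX y l hy, mY y l hy'⟩
                rw [hsl, Finset.mem_union, Finset.mem_Ioc, Finset.mem_Ioc] at hns
                omega
            · rw [if_neg hG]; exact zero_le
          · refine add_le_add le_rfl ?_
            exact win ΛX ΛY hX hY zX zY tX tY htX htY hΛX h1X hΛY h1Y H2 H3 hu hu1 hl hl' hJ
              le_rfl (by omega) w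

lemma small_eta (c : ℝ≥0∞) (hc : c ≠ ⊤) (ε : ℝ≥0∞) (hε : ε ≠ 0) :
    ∃ η : ℝ≥0∞, η ≠ 0 ∧ c * η ≤ ε := by
  refine ⟨ε / (c + 1), ?_, ?_⟩
  · rw [Ne, ENNReal.div_eq_zero_iff, not_or]
    exact ⟨hε, ENNReal.add_ne_top.2 ⟨hc, ENNReal.one_ne_top⟩⟩
  · calc c * (ε / (c + 1)) ≤ (c + 1) * (ε / (c + 1)) := mul_le_mul_left le_self_add _
      _ ≤ ε := ENNReal.mul_div_le

open Classical in
/-- **the assembly (ROAD 801)**, any contact in `(m, 2m]` -/
theorem kapS
    (happX : ∀ L L' x a, tX (L ++ L') x a = tX L x a ∪ tX L' (x + DS zX L) (a + HT hX L))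
    (happY : ∀ L L' x a, tY (L ++ L') x a = tY L x a ∪ tY L' (x + DS zY L) (a + HT hY L))
    (hdX : ∀ L x a z k, (z, k) ∈ tX L x a → a < k ∧ k ≤ a + HT hX L)
    (hdY : ∀ L x a z k, (z, k) ∈ tY L x a → a < k ∧ k ≤ a + HT hY L)
    (htX : ∀ L x a z k, (z, k) ∈ tX L x a ↔ (z - x, k) ∈ tX L 0 a)
    (htY : ∀ L x a z k, (z, k) ∈ tY L x a ↔ (z - x, k) ∈ tY L 0 a)
    (hΛX : ∑' b, ΛX b = 1) (h1X : ∀ b, 1 ≤ hX b) (hΛY : ∑' b, ΛY b = 1) (h1Y : ∀ b, 1 ≤ hY b)
    (hmX : ∑' b, ΛX b * (hX b : ℝ≥0∞) ≠ ⊤) (hmY : ∑' b, ΛY b * (hY b : ℝ≥0∞) ≠ ⊤)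
    {C : ℝ≥0∞} (hC : C ≠ ⊤) {us : ℕ → ℕ → ℝ≥0∞} (hus : ∀ i, Tendsto (us i) atTop (𝓝 0))
    (H2 : HH ΛX ΛY hX hY tX tY (fun E L _ => DS zX L ∈ E) C us)
    (H3 : HH ΛX ΛY hX hY tX tY (fun E _ L' => DS zY L' ∈ E) C us)
    (hPt : ∀ ε : ℝ≥0∞, ε ≠ 0 → ∃ k0 : ℕ, ∀ k, k0 ≤ k → ∀ n, k ≤ n → ∀ w : G,
      ∑' L : List BX, ∑' L' : List BY, (if HT hX L = n ∧ HT hY L' = n ∧
        (∃ z, (z, k) ∈ tX L 0 0 ∧ (z, k) ∈ tY L' w 0) then LW ΛX L * LW ΛY L' else 0) ≤ ε) :
    ∀ ε : ℝ≥0∞, ε ≠ 0 → ∃ M : ℕ, ∀ m, M ≤ m → ∃ n0 : ℕ, ∀ n, n0 ≤ n → ∀ w : G,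
      ∑' L : List BX, ∑' L' : List BY, (if HT hX L = n ∧ HT hY L' = n ∧
        (∃ k z, m < k ∧ k ≤ 2 * m ∧ (z, k) ∈ tX L 0 0 ∧ (z, k) ∈ tY L' w 0)
        then LW ΛX L * LW ΛY L' else 0) ≤ ε := by
  intro ε hε
  have hε4 : ε / 4 ≠ 0 := (ENNReal.div_pos hε (by norm_num)).ne'
  obtain ⟨u, K, hu, hu1, hK5, hK⟩ := Sel300.sel 4 5 5 (by norm_num) hε4
  obtain ⟨K', rfl⟩ : ∃ K', K = K' + 1 := ⟨K - 1, by omega⟩
  set J : ℕ := (K' + 1) / 5 with hJd
  have hJ1 : 1 ≤ J := by rw [hJd]; omega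
  have hJ5 : 5 * J ≤ K' + 1 := by rw [hJd]; omega
  set W : ℝ≥0∞ := ((K' + 2 : ℕ) : ℝ≥0∞) with hW
  have hWt : W ≠ ⊤ := ENNReal.natCast_ne_top _
  have hui : u⁻¹ ≠ ⊤ := ENNReal.inv_ne_top.2 hu
  have htl : Tendsto (fun i => e1 ΛX hX i + e1 ΛY hY i) atTop (𝓝 0) := by
    rw [ENNReal.tendsto_nhds_zero]
    intro δ hδ
    have hδ2 : δ / 2 ≠ 0 := (ENNReal.div_pos hδ.ne' (by norm_num)).ne'
    obtain ⟨I, hI⟩ := e1_small ΛX hX hmX hδ2
    obtain ⟨I', hI'⟩ := e1_small ΛY hY hmY hδ2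
    filter_upwards [eventually_ge_atTop (max I I')] with i hi
    calc _ ≤ δ / 2 + δ / 2 := add_le_add (hI i ((le_max_left _ _).trans hi))
          (hI' i ((le_max_right _ _).trans hi))
      _ = δ := ENNReal.add_halves δ
  obtain ⟨i0, lam, s, t0, hl, hl', hsel⟩ := Sel300.sel2 (c1 := W * (2 + u⁻¹))
    (c2 := W * (2 * C)) (c3 := W * (2 * C * (2 * u⁻¹ + 1)))
    (ENNReal.mul_ne_top hWt (ENNReal.add_ne_top.2 ⟨by norm_num, hui⟩))
    (ENNReal.mul_ne_top hWt (ENNReal.mul_ne_top (by norm_num) hC))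
    (ENNReal.mul_ne_top hWt (ENNReal.mul_ne_top (ENNReal.mul_ne_top (by norm_num) hC)
      (ENNReal.add_ne_top.2 ⟨ENNReal.mul_ne_top (by norm_num) hui, ENNReal.one_ne_top⟩)))
    (fun _ _ => 0) (fun _ _ => ENNReal.zero_ne_top) (fun i => e1 ΛX hX i + e1 ΛY hY i)
    (fun _ => 0) (fun i s => us (2 * i) s) htl tendsto_const_nhds (fun i => hus (2 * i)) 4 hε4
  have hsel' := hsel t0 le_rfl
  obtain ⟨ep, hep, hepc⟩ := small_eta (W * ((3 * i0 + 2 * s : ℕ) : ℝ≥0∞))
    (ENNReal.mul_ne_top hWt (ENNReal.natCast_ne_top _)) _ hε4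
  obtain ⟨k0, hk0⟩ := hPt ep hep
  set t1 : ℕ := max (max i0 s) (max k0 (2 * (K' + 1))) with ht1
  refine ⟨(K' + 1) * t1, fun m hm => ?_⟩
  set t : ℕ := m / (K' + 1) with ht
  have htt : t1 ≤ t := by
    rw [ht, Nat.le_div_iff_mul_le (by omega)]
    rw [mul_comm]; exact hm
  have hi0t : i0 ≤ t := le_trans (by rw [ht1]; simp) htt
  have hst : s ≤ t := le_trans (by rw [ht1]; simp) htt
  have hk0t : k0 ≤ t := le_trans (by rw [ht1]; simp) htt
  have hKt : 2 * (K' + 1) ≤ t := le_trans (by rw [ht1]; simp) htt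
  have hm1 : (K' + 1) * t ≤ m := by rw [ht]; exact Nat.mul_div_le m (K' + 1)
  have hm2 : m < (K' + 1) * (t + 1) := by
    rw [ht]; exact Nat.lt_mul_div_succ m (by omega)
  refine ⟨(2 * K' + 4) * t + 2 * i0 + s, fun n hn w => ?_⟩
  rw [bridge]
  set W1 : ℝ≥0∞ := ((3 * i0 + 2 * s : ℕ) : ℝ≥0∞) * ep + ((2 * e1 ΛX hX i0 + 2 * e1 ΛY hY i0) +
    (u * u + (((1 - u) ^ J + e1 ΛX hX i0 * u⁻¹) + ((i0 + 1 : ℕ) : ℝ≥0∞) *
        (((i0 + 1 : ℕ) : ℝ≥0∞) * (((i0 + 1 : ℕ) : ℝ≥0∞) * Bd C us i0 s u lam))) +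
      (((1 - u) ^ J + e1 ΛY hY i0 * u⁻¹) + ((i0 + 1 : ℕ) : ℝ≥0∞) *
        (((i0 + 1 : ℕ) : ℝ≥0∞) * (((i0 + 1 : ℕ) : ℝ≥0∞) * Bd C us i0 s u lam))))) with hW1
  have hone : ∀ q ∈ Finset.range (K' + 2), FX ΛX hX n (fun L => FX ΛY hY n (fun L' =>
      if ∃ k z, (K' + q) * t + t < k ∧ k ≤ (K' + q) * t + 2 * t ∧ Cn tX tY w L L' z k
        then 1 else 0)) ≤ W1 := by
    intro q hq
    rw [Finset.mem_range] at hq
    have hT0 : (K' + q) * t ≤ (2 * K' + 1) * t := Nat.mul_le_mul_right t (by omega)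
    have hnn : (2 * K' + 4) * t = (2 * K' + 1) * t + 3 * t := by ring
    refine win1 ΛX ΛY hX hY zX zY tX tY happX happY hdX hdY htX htY hΛX h1X hΛY h1Y H2 H3 hu hu1
      hl hl' ?_ hi0t hst w (by omega) ?_
    · calc J * (3 * t + i0) ≤ J * (4 * t) := Nat.mul_le_mul_left J (by omega)
        _ = (4 * J) * t := by ring
        _ ≤ (K' + q) * t := Nat.mul_le_mul_right t (by omega)
    · intro k hk1 hk2
      have htk : t ≤ (K' + q) * t := Nat.le_mul_of_pos_left t (by omega)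
      have h5 := hk0 k (by omega) n hk2 w
      rw [bridge] at h5
      exact h5
  have hcov : ∀ L L', (if ∃ k z, m < k ∧ k ≤ 2 * m ∧ (z, k) ∈ tX L 0 0 ∧ (z, k) ∈ tY L' w 0
      then (1 : ℝ≥0∞) else 0) ≤ ∑ q ∈ Finset.range (K' + 2),
        (if ∃ k z, (K' + q) * t + t < k ∧ k ≤ (K' + q) * t + 2 * t ∧ Cn tX tY w L L' z k
        then 1 else 0) := by
    intro L L'
    by_cases h : ∃ k z, m < k ∧ k ≤ 2 * m ∧ (z, k) ∈ tX L 0 0 ∧ (z, k) ∈ tY L' w 0
    · rw [if_pos h]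
      obtain ⟨k, z, hk1, hk2, hz1, hz2⟩ := h
      have htpos : 0 < t := by omega
      have h1 : K' + 1 ≤ (k - 1) / t := by
        rw [Nat.le_div_iff_mul_le htpos]; omega
      have h2 : (k - 1) / t < 2 * K' + 3 := by
        rw [Nat.div_lt_iff_lt_mul htpos]
        have e1 : (2 * K' + 3) * t = 2 * ((K' + 1) * t) + t := by ring
        have e2 : (K' + 1) * (t + 1) = (K' + 1) * t + (K' + 1) := by ring
        omega
      obtain ⟨q, hq⟩ : ∃ q, (k - 1) / t = K' + 1 + q := ⟨(k - 1) / t - (K' + 1), by omega⟩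
      have hqm : q ∈ Finset.range (K' + 2) := Finset.mem_range.2 (by omega)
      refine le_trans ?_ (Finset.single_le_sum (f := fun q =>
        (if ∃ k z, (K' + q) * t + t < k ∧ k ≤ (K' + q) * t + 2 * t ∧ Cn tX tY w L L' z k
        then (1 : ℝ≥0∞) else 0)) (fun _ _ => zero_le) hqm)
      have h3 : (K' + 1 + q) * t ≤ k - 1 := by rw [← hq]; exact Nat.div_mul_le_self _ _
      have h4 : k - 1 < (K' + 1 + q + 1) * t := by
        rw [← hq]
        exact Nat.lt_of_div_lt_div (by rw [Nat.mul_div_cancel _ htpos]; omega) |>.trans_le le_rfl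
      have e3 : (K' + 1 + q) * t = (K' + q) * t + t := by ring
      have e4 : (K' + 1 + q + 1) * t = (K' + q) * t + 2 * t := by ring
      rw [if_pos ⟨k, z, by omega, by omega, hz1, hz2⟩]
    · rw [if_neg h]; exact zero_le
  have htot : FX ΛX hX n (fun L => FX ΛY hY n (fun L' =>
      if ∃ k z, m < k ∧ k ≤ 2 * m ∧ (z, k) ∈ tX L 0 0 ∧ (z, k) ∈ tY L' w 0
      then 1 else 0)) ≤ W * W1 := by
    calc _ ≤ FX ΛX hX n (fun L => FX ΛY hY n (fun L' => ∑ q ∈ Finset.range (K' + 2),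
        (if ∃ k z, (K' + q) * t + t < k ∧ k ≤ (K' + q) * t + 2 * t ∧ Cn tX tY w L L' z k
        then 1 else 0))) := FX_mono ΛX hX n fun L _ => FX_mono ΛY hY n fun L' _ => hcov L L'
      _ = ∑ q ∈ Finset.range (K' + 2), FX ΛX hX n (fun L => FX ΛY hY n (fun L' =>
        if ∃ k z, (K' + q) * t + t < k ∧ k ≤ (K' + q) * t + 2 * t ∧ Cn tX tY w L L' z k
        then 1 else 0)) := by
          rw [← FX_sum]
          congr 1
          funext L
          rw [FX_sum]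
      _ ≤ ∑ q ∈ Finset.range (K' + 2), W1 := Finset.sum_le_sum hone
      _ = W * W1 := by rw [Finset.sum_const, Finset.card_range, nsmul_eq_mul]
  refine le_trans htot ?_
  -- numbers
  set a1 : ℝ≥0∞ := e1 ΛX hX i0 with ha1
  set a2 : ℝ≥0∞ := e1 ΛY hY i0 with ha2
  set v : ℝ≥0∞ := (1 - u) ^ J with hv
  set I : ℝ≥0∞ := ((i0 + 1 : ℕ) : ℝ≥0∞) with hI
  have hI1 : (1 : ℝ≥0∞) ≤ I := by rw [hI]; exact_mod_cast (by omega : 1 ≤ i0 + 1)
  have hIe : I = (i0 : ℝ≥0∞) + 1 := by rw [hI]; push_cast; rfl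
  rw [← hIe] at hsel'
  set U1 : ℝ≥0∞ := us (2 * i0) s with hU1
  have hsplit : W * W1 = W * ((3 * i0 + 2 * s : ℕ) : ℝ≥0∞) * ep + W * (u * u + 2 * v) +
      (W * (2 + u⁻¹) * (a1 + a2) + W * (2 * C) * (I ^ 3 * lam) +
        W * (2 * C) * (I ^ 3 * ((2 * I * u⁻¹) * U1 / lam + U1))) := by
    rw [hW1]
    unfold Bd
    rw [← hI, ← hU1]
    ring
  rw [hsplit]
  have n1 : W * ((3 * i0 + 2 * s : ℕ) : ℝ≥0∞) * ep ≤ ε / 4 := hepc
  have n2 : W * (u * u + 2 * v) ≤ ε / 4 := by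
    refine le_trans ?_ hK
    have hW2 : W ≤ 2 * ((K' + 1 : ℕ) : ℝ≥0∞) := by
      rw [hW]; exact_mod_cast (by omega : K' + 2 ≤ 2 * (K' + 1))
    calc W * (u * u + 2 * v) ≤ (2 * ((K' + 1 : ℕ) : ℝ≥0∞)) * (2 * (u * u) + 2 * v) := by
          refine mul_le_mul' hW2 (add_le_add ?_ le_rfl)
          rw [two_mul]; exact le_self_add
      _ = ((4 : ℕ) : ℝ≥0∞) * ((K' + 1 : ℕ) : ℝ≥0∞) * (u ^ 2 + v) := by push_cast; ring
  have n3 : (W * (2 + u⁻¹) * (a1 + a2) + W * (2 * C) * (I ^ 3 * lam) +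
        W * (2 * C) * (I ^ 3 * ((2 * I * u⁻¹) * U1 / lam + U1))) ≤ ε / 4 := by
    refine le_trans ?_ hsel'
    simp only [mul_zero, add_zero]
    have hI34 : I ^ 3 ≤ I ^ 4 := pow_le_pow_right₀ hI1 (by norm_num)
    refine add_le_add (add_le_add le_rfl ?_) ?_
    · calc W * (2 * C) * (I ^ 3 * lam) ≤ W * (2 * C) * (I ^ 4 * lam) := by gcongr
        _ = _ := by ring
    · calc W * (2 * C) * (I ^ 3 * ((2 * I * u⁻¹) * U1 / lam + U1))
          = W * (2 * C) * (I ^ 4 * ((2 * u⁻¹) * (U1 / lam)) + I ^ 3 * U1) := by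
            rw [div_eq_mul_inv, div_eq_mul_inv]; ring
        _ ≤ W * (2 * C) * (I ^ 4 * ((2 * u⁻¹ + 1) * (U1 / lam)) +
              I ^ 4 * ((2 * u⁻¹ + 1) * U1)) := by
            gcongr
            · exact le_self_add
            · calc U1 = 1 * U1 := (one_mul _).symm
                _ ≤ (2 * u⁻¹ + 1) * U1 := by gcongr; exact le_add_self
        _ = _ := by ring
  calc _ ≤ ε / 4 + ε / 4 + ε / 4 := add_le_add (add_le_add n1 n2) n3
    _ ≤ ε / 4 + ε / 4 + ε / 4 + ε / 4 := le_self_add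
    _ = ε := by
        have : ε / 4 + ε / 4 + ε / 4 + ε / 4 = 4 * (ε / 4) := by ring
        rw [this, ENNReal.mul_div_cancel (by norm_num) (by norm_num)]

end final

end Crest.Agent.R154.Asm955
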