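import Crest.Agent.R154.FP_178

/-! Row 154 (helper379), ROAD 801: **the smooth density lemma in first-passage form** (the bad mass is
a TOTAL mass over all heights, so no factor `i0 + 1` in front of `q ^ J`).

`FF a0 a z` = weight of the first passages of depth `a0`, of height `a` and displacement `z`;
`pp T i z = FF T (T + i) z` = law of one attempt (overshoot `i`, displacement `z`). -/

set_option autoImplicit false

namespace Crest.Agent.R154.Att379

open scoped ENNReal
open Finset
open Crest.Agent.R154.B5A Crest.Agent.R154.FP178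

variable {B G : Type*} [AddCommGroup G] (Λ : B → ℝ≥0∞) (ht : B → ℕ) (zz : B → G)

/-- displacement of a list -/
def Dp (L : List B) : G := (L.map zz).sum

lemma Dp_append (L L' : List B) : Dp zz (L ++ L') = Dp zz L + Dp zz L' := by simp [Dp]

open Classical in
/-- weight of the first passages of depth `a0`, of height `a` and displacement `z` -/
noncomputable def FF (a0 a : ℕ) (z : G) : ℝ≥0∞ :=
  ∑' A : List B, if fp ht a0 A ∧ HT ht A = a ∧ Dp zz A = z then LW Λ A else 0

/-- law of one attempt -/
noncomputable def pp (T i : ℕ) (z : G) : ℝ≥0∞ := FF Λ ht zz T (T + i) z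

open Classical in
/-- grouping of the first passages of depth `T` by overshoot and displacement -/
lemma group (T : ℕ) (φ : ℕ → G → ℝ≥0∞) :
    ∑' A : List B, (if fp ht T A then LW Λ A * φ (HT ht A - T) (Dp zz A) else 0)
      = ∑' i, ∑' z, pp Λ ht zz T i z * φ i z := by
  have h1 : ∀ A : List B, (if fp ht T A then LW Λ A * φ (HT ht A - T) (Dp zz A) else 0)
      = ∑' i, ∑' z, (if fp ht T A ∧ HT ht A = T + i ∧ Dp zz A = z then LW Λ A else 0) * φ i z := by
    intro A
    by_cases h : fp ht T A
    · have hT := le_HT_of_fp ht h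
      rw [if_pos h, tsum_eq_single (HT ht A - T), tsum_eq_single (Dp zz A)]
      · rw [if_pos ⟨h, by omega, rfl⟩]
      · intro z hz
        rw [if_neg (fun h' => hz h'.2.2.symm), zero_mul]
      · intro i hi
        rw [ENNReal.tsum_eq_zero]
        intro z
        rw [if_neg (fun h' => hi (by have := h'.2.1; omega)), zero_mul]
    · rw [if_neg h]
      symm
      rw [ENNReal.tsum_eq_zero]
      intro i
      rw [ENNReal.tsum_eq_zero]
      intro z
      rw [if_neg (fun h' => h h'.1), zero_mul]
  rw [tsum_congr h1, ENNReal.tsum_comm]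
  refine tsum_congr fun i => ?_
  rw [ENNReal.tsum_comm]
  refine tsum_congr fun z => ?_
  rw [ENNReal.tsum_mul_right]
  rfl

open Classical in
/-- recursion: the first attempt -/
lemma FF_rec (h1 : ∀ b, 1 ≤ ht b) (T a0 : ℕ) (hT : T ≤ a0) (a : ℕ) (z : G) :
    FF Λ ht zz a0 a z = ∑' i, ∑' z', pp Λ ht zz T i z' *
      (if T + i ≤ a then FF Λ ht zz (a0 - (T + i)) (a - (T + i)) (z - z') else 0) := by
  have h2 : FF Λ ht zz a0 a z = ∑' A : List B, (if fp ht a0 A then LW Λ A *
      (if HT ht A = a ∧ Dp zz A = z then 1 else 0) else 0) := by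
    refine tsum_congr fun A => ?_
    by_cases h : fp ht a0 A <;> by_cases h' : HT ht A = a ∧ Dp zz A = z <;> simp [h, h']
  rw [h2, fp_split Λ ht h1 T a0 hT, ← group Λ ht zz T]
  refine tsum_congr fun A => ?_
  by_cases h : fp ht T A
  · have hTA := le_HT_of_fp ht h
    rw [if_pos h, if_pos h, show T + (HT ht A - T) = HT ht A by omega]
    congr 1
    by_cases h3 : HT ht A ≤ a
    · rw [if_pos h3]
      refine tsum_congr fun L => ?_
      rw [HT_append, Dp_append]
      by_cases h4 : fp ht (a0 - HT ht A) L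
      · rw [if_pos h4]
        by_cases h5 : HT ht L = a - HT ht A ∧ Dp zz L = z - Dp zz A
        · have h6 : HT ht A + HT ht L = a ∧ Dp zz A + Dp zz L = z :=
            ⟨by omega, by rw [h5.2]; abel⟩
          have h7 : fp ht (a0 - HT ht A) L ∧ HT ht L = a - HT ht A ∧ Dp zz L = z - Dp zz A :=
            ⟨h4, h5.1, h5.2⟩
          simp only [if_pos h6, if_pos h7, mul_one]
        · have h6 : ¬ (HT ht A + HT ht L = a ∧ Dp zz A + Dp zz L = z) := by
            rintro ⟨h6, h7⟩
            exact h5 ⟨by omega, by rw [← h7]; abel⟩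
          have h7 : ¬ (fp ht (a0 - HT ht A) L ∧ HT ht L = a - HT ht A ∧ Dp zz L = z - Dp zz A) :=
            fun h' => h5 h'.2
          simp only [if_neg h6, if_neg h7, mul_zero]
      · rw [if_neg h4, if_neg (fun h' => h4 h'.1)]
    · rw [if_neg h3, ENNReal.tsum_eq_zero]
      intro L
      rw [HT_append]
      by_cases h4 : fp ht (a0 - HT ht A) L
      · rw [if_pos h4, if_neg (by omega), mul_zero]
      · rw [if_neg h4]
  · rw [if_neg h, if_neg h]

open Classical in
lemma FF_tot (h1 : ∀ b, 1 ≤ ht b) (hΛ : ∑' b, Λ b ≤ 1) (a0 : ℕ) :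
    ∑' a, ∑' z, FF Λ ht zz a0 a z ≤ 1 := by
  refine le_trans (le_of_eq ?_) (sum_FP Λ ht h1 hΛ a0)
  have h2 : ∀ a : ℕ, ∑' z, FF Λ ht zz a0 a z
      = ∑' A : List B, (if fp ht a0 A ∧ HT ht A = a then LW Λ A else 0) := by
    intro a
    simp only [FF]
    rw [ENNReal.tsum_comm]
    refine tsum_congr fun A => ?_
    rw [tsum_eq_single (Dp zz A)]
    · by_cases h : fp ht a0 A ∧ HT ht A = a
      · rw [if_pos ⟨h.1, h.2, rfl⟩, if_pos h]
      · rw [if_neg (fun h' => h ⟨h'.1, h'.2.1⟩), if_neg h]
    · intro z hz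
      rw [if_neg (fun h' => hz h'.2.2.symm)]
  rw [tsum_congr h2, ENNReal.tsum_comm]
  refine tsum_congr fun A => ?_
  rw [tsum_eq_single (HT ht A)]
  · by_cases h : fp ht a0 A
    · rw [if_pos ⟨h, rfl⟩, if_pos h]
    · rw [if_neg (fun h' => h h'.1), if_neg h]
  · intro a ha
    rw [if_neg (fun h' => ha h'.2.symm)]

lemma FF_one (h1 : ∀ b, 1 ≤ ht b) (hΛ : ∑' b, Λ b ≤ 1) (a0 a : ℕ) :
    ∑' z, FF Λ ht zz a0 a z ≤ 1 :=
  (ENNReal.le_tsum a).trans (FF_tot Λ ht zz h1 hΛ a0)

lemma tsum_sub' (f : G → ℝ≥0∞) (z : G) : ∑' z', f (z - z') = ∑' z', f z' :=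
  (Equiv.subLeft z).tsum_eq f

lemma tsum_sub'' (f : G → ℝ≥0∞) (z' : G) : ∑' z, f (z - z') = ∑' z, f z :=
  (Equiv.subRight z').tsum_eq f

lemma tsum_shift (g : ℕ → ℝ≥0∞) (c : ℕ) : ∑' a, (if c ≤ a then g (a - c) else 0) = ∑' a, g a := by
  have hinj : Function.Injective (fun a : ℕ => a + c) := add_left_injective c
  have hs : Function.support (fun a : ℕ => if c ≤ a then g (a - c) else 0)
      ⊆ Set.range (fun a : ℕ => a + c) := by
    intro a ha
    by_cases h : c ≤ a
    · exact ⟨a - c, by simp only; omega⟩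
    · exact absurd (if_neg h) ha
  rw [← hinj.tsum_eq hs]
  refine tsum_congr fun a => ?_
  rw [if_pos (by omega), Nat.add_sub_cancel]

/-- total mass of a shifted function of (height, displacement) -/
lemma tot_shift (f : ℕ → G → ℝ≥0∞) (c : ℕ) (z' : G) :
    ∑' a, ∑' z, (if c ≤ a then f (a - c) (z - z') else 0) = ∑' a, ∑' z, f a z := by
  have h : ∀ a : ℕ, ∑' z, (if c ≤ a then f (a - c) (z - z') else 0)
      = if c ≤ a then (fun a => ∑' z, f a z) (a - c) else 0 := by
    intro a
    by_cases h : c ≤ a
    · simp only [if_pos h]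
      exact tsum_sub'' (f (a - c)) z'
    · simp [if_neg h]
  rw [tsum_congr h]
  exact tsum_shift (fun a => ∑' z, f a z) c

omit [AddCommGroup G] in
/-- exchange of the summation over `(a, z)` with a weighted sum over `(i, z')` -/
lemma tot_le (p : ℕ → G → ℝ≥0∞) (F : ℕ → G → ℕ → G → ℝ≥0∞) (C M : ℝ≥0∞)
    (hF : ∀ i z', p i z' ≠ 0 → ∑' a, ∑' z, F i z' a z ≤ C) (hp : ∑' i, ∑' z', p i z' ≤ M) :
    ∑' a, ∑' z, ∑' i, ∑' z', p i z' * F i z' a z ≤ M * C := by
  have e : ∑' a, ∑' z, ∑' i, ∑' z', p i z' * F i z' a z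
      = ∑' i, ∑' z', p i z' * ∑' a, ∑' z, F i z' a z := by
    have e1 : ∀ a, ∑' z, ∑' i, ∑' z', p i z' * F i z' a z
        = ∑' i, ∑' z', p i z' * ∑' z, F i z' a z := by
      intro a
      rw [ENNReal.tsum_comm]
      refine tsum_congr fun i => ?_
      rw [ENNReal.tsum_comm]
      exact tsum_congr fun z' => ENNReal.tsum_mul_left
    rw [tsum_congr e1, ENNReal.tsum_comm]
    refine tsum_congr fun i => ?_
    rw [ENNReal.tsum_comm]
    exact tsum_congr fun z' => ENNReal.tsum_mul_left
  rw [e]
  calc ∑' i, ∑' z', p i z' * ∑' a, ∑' z, F i z' a z ≤ ∑' i, ∑' z', p i z' * C := by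
        refine ENNReal.tsum_le_tsum fun i => ENNReal.tsum_le_tsum fun z' => ?_
        by_cases h : p i z' = 0
        · rw [h, zero_mul, zero_mul]
        · exact mul_le_mul_right (hF i z' h) _
    _ = (∑' i, ∑' z', p i z') * C := by
        rw [← ENNReal.tsum_mul_right]
        exact tsum_congr fun i => ENNReal.tsum_mul_right
    _ ≤ M * C := mul_le_mul_left hp _

open Classical in
/-- **smooth density, first-passage form**: after `J` attempts of `T` levels, off a TOTAL mass
`≤ q^J + ε Σ q^j`, some attempt had overshoot `≤ i0` and `pp ≤ th`, so for every height `a` the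
density is `≤ (i0+1) th Σ q^j`. -/
theorem dens_fp (h1 : ∀ b, 1 ≤ ht b) (hΛ : ∑' b, Λ b ≤ 1) (T i0 : ℕ) (th q ε : ℝ≥0∞)
    (hNG : ∑' i, ∑' z, (if i ≤ i0 ∧ th < pp Λ ht zz T i z then pp Λ ht zz T i z else 0) ≤ q)
    (hFar : ∑' i, ∑' z, (if i0 < i then pp Λ ht zz T i z else 0) ≤ ε) (J : ℕ) :
    ∀ a0, J * (T + i0) ≤ a0 → ∃ Gd Bd : ℕ → G → ℝ≥0∞,
      (∀ a z, FF Λ ht zz a0 a z ≤ Gd a z + Bd a z) ∧
      (∀ a z, Gd a z ≤ (i0 + 1) * th * ∑ j ∈ range J, q ^ j) ∧
      ∑' a, ∑' z, Bd a z ≤ q ^ J + ε * ∑ j ∈ range J, q ^ j := by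
  induction J with
  | zero =>
    intro a0 _
    exact ⟨0, FF Λ ht zz a0, fun a z => by simp, fun a z => by simp,
      by simpa using FF_tot Λ ht zz h1 hΛ a0⟩
  | succ J ih =>
    intro a0 ha
    have hexp : (J + 1) * (T + i0) = J * (T + i0) + (T + i0) := by ring
    have hT : T ≤ a0 := by omega
    have hch : ∀ i, ∃ Gd Bd : ℕ → G → ℝ≥0∞, i ≤ i0 →
        (∀ a z, FF Λ ht zz (a0 - (T + i)) a z ≤ Gd a z + Bd a z) ∧
        (∀ a z, Gd a z ≤ (i0 + 1) * th * ∑ j ∈ range J, q ^ j) ∧
        ∑' a, ∑' z, Bd a z ≤ q ^ J + ε * ∑ j ∈ range J, q ^ j := by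
      intro i
      by_cases hi : i ≤ i0
      · obtain ⟨g, b, h⟩ := ih (a0 - (T + i)) (by omega)
        exact ⟨g, b, fun _ => h⟩
      · exact ⟨0, 0, fun h => absurd h hi⟩
    choose A D hAD using hch
    set p : ℕ → G → ℝ≥0∞ := pp Λ ht zz T with hp
    set H : ℕ → G → ℕ → G → ℝ≥0∞ := fun i z' a z =>
      if T + i ≤ a then FF Λ ht zz (a0 - (T + i)) (a - (T + i)) (z - z') else 0 with hH
    set HA : ℕ → G → ℕ → G → ℝ≥0∞ := fun i z' a z =>
      if T + i ≤ a then A i (a - (T + i)) (z - z') else 0 with hHA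
    set HD : ℕ → G → ℕ → G → ℝ≥0∞ := fun i z' a z =>
      if T + i ≤ a then D i (a - (T + i)) (z - z') else 0 with hHD
    set pS : ℕ → G → ℝ≥0∞ := fun i z => if i ≤ i0 ∧ ¬ th < p i z then p i z else 0 with hpS
    set pN : ℕ → G → ℝ≥0∞ := fun i z => if i ≤ i0 ∧ th < p i z then p i z else 0 with hpN
    set pF : ℕ → G → ℝ≥0∞ := fun i z => if i0 < i then p i z else 0 with hpF
    refine ⟨fun a z => (∑' i, ∑' z', pS i z' * H i z' a z) + ∑' i, ∑' z', pN i z' * HA i z' a z,
      fun a z => (∑' i, ∑' z', pF i z' * H i z' a z) + ∑' i, ∑' z', pN i z' * HD i z' a z,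
      ?_, ?_, ?_⟩
    · intro a z
      rw [FF_rec Λ ht zz h1 T a0 hT a z]
      have e : (∑' i, ∑' z', pS i z' * H i z' a z) + (∑' i, ∑' z', pN i z' * HA i z' a z)
          + ((∑' i, ∑' z', pF i z' * H i z' a z) + ∑' i, ∑' z', pN i z' * HD i z' a z)
          = ∑' i, ∑' z', (pS i z' * H i z' a z + pN i z' * HA i z' a z
            + (pF i z' * H i z' a z + pN i z' * HD i z' a z)) := by
        rw [← ENNReal.tsum_add, ← ENNReal.tsum_add, ← ENNReal.tsum_add]
        refine tsum_congr fun i => ?_
        rw [← ENNReal.tsum_add, ← ENNReal.tsum_add, ← ENNReal.tsum_add]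
      rw [e]
      refine ENNReal.tsum_le_tsum fun i => ENNReal.tsum_le_tsum fun z' => ?_
      change p i z' * H i z' a z ≤ _
      by_cases hi : i ≤ i0
      · have hF : ¬ i0 < i := by omega
        by_cases hth : th < p i z'
        · have h3 : pS i z' = 0 := if_neg (fun h => h.2 hth)
          have h4 : pN i z' = p i z' := if_pos ⟨hi, hth⟩
          have h5 : pF i z' = 0 := if_neg hF
          rw [h3, h4, h5]
          simp only [zero_mul, zero_add]
          rw [← mul_add]
          refine mul_le_mul_right ?_ _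
          by_cases h6 : T + i ≤ a
          · simp only [hH, hHA, hHD, if_pos h6]
            exact (hAD i hi).1 _ _
          · simp only [hH, if_neg h6]
            exact zero_le
        · have h3 : pS i z' = p i z' := if_pos ⟨hi, hth⟩
          rw [h3]
          exact le_add_right (le_add_right le_rfl)
      · have h3 : pF i z' = p i z' := if_pos (by omega)
        rw [h3]
        exact le_add_left (le_add_right le_rfl)
    · intro a z
      rw [Finset.sum_range_succ']
      have hS : ∑' i, ∑' z', pS i z' * H i z' a z ≤ (i0 + 1) * th := by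
        calc ∑' i, ∑' z', pS i z' * H i z' a z
            ≤ ∑' i, (if i ≤ i0 then th else 0) := by
              refine ENNReal.tsum_le_tsum fun i => ?_
              by_cases hi : i ≤ i0
              · rw [if_pos hi]
                calc ∑' z', pS i z' * H i z' a z ≤ ∑' z', th * H i z' a z := by
                      refine ENNReal.tsum_le_tsum fun z' => mul_le_mul_left ?_ _
                      by_cases hth : th < p i z'
                      · have h3 : pS i z' = 0 := if_neg (fun h => h.2 hth)
                        rw [h3]; exact zero_le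
                      · have h3 : pS i z' = p i z' := if_pos ⟨hi, hth⟩
                        rw [h3]; exact not_lt.1 hth
                  _ = th * ∑' z', H i z' a z := ENNReal.tsum_mul_left
                  _ ≤ th * 1 := by
                      refine mul_le_mul_right ?_ _
                      by_cases h6 : T + i ≤ a
                      · simp only [hH, if_pos h6]
                        rw [tsum_sub' (FF Λ ht zz (a0 - (T + i)) (a - (T + i))) z]
                        exact FF_one Λ ht zz h1 hΛ _ _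
                      · simp [hH, if_neg h6]
                  _ = th := mul_one _
              · rw [if_neg hi]
                refine le_of_eq (ENNReal.tsum_eq_zero.2 fun z' => ?_)
                have h3 : pS i z' = 0 := if_neg (fun h => hi h.1)
                rw [h3, zero_mul]
          _ = (i0 + 1) * th := by
              rw [tsum_eq_sum (s := range (i0 + 1))]
              · rw [Finset.sum_congr rfl (fun i hi => if_pos (by
                  have := Finset.mem_range.1 hi; omega))]
                rw [Finset.sum_const, Finset.card_range, nsmul_eq_mul]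
                push_cast
                ring
              · intro i hi
                have h7 : ¬ i < i0 + 1 := fun h => hi (Finset.mem_range.2 h)
                exact if_neg (by omega)
      have hN : ∑' i, ∑' z', pN i z' * HA i z' a z ≤ q * ((i0 + 1) * th * ∑ j ∈ range J, q ^ j) := by
        calc ∑' i, ∑' z', pN i z' * HA i z' a z
            ≤ ∑' i, ∑' z', pN i z' * ((i0 + 1) * th * ∑ j ∈ range J, q ^ j) := by
              refine ENNReal.tsum_le_tsum fun i => ENNReal.tsum_le_tsum fun z' => ?_
              by_cases hi : i ≤ i0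
              · refine mul_le_mul_right ?_ _
                by_cases h6 : T + i ≤ a
                · simp only [hHA, if_pos h6]
                  exact (hAD i hi).2.1 _ _
                · simp only [hHA, if_neg h6]; exact zero_le
              · have h3 : pN i z' = 0 := if_neg (fun h => hi h.1)
                rw [h3, zero_mul, zero_mul]
          _ = (∑' i, ∑' z', pN i z') * ((i0 + 1) * th * ∑ j ∈ range J, q ^ j) := by
              rw [← ENNReal.tsum_mul_right]
              exact tsum_congr fun i => ENNReal.tsum_mul_right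
          _ ≤ _ := mul_le_mul_left hNG _
      calc _ ≤ (i0 + 1) * th + q * ((i0 + 1) * th * ∑ j ∈ range J, q ^ j) := add_le_add hS hN
        _ = (i0 + 1) * th * (∑ j ∈ range J, q ^ (j + 1) + q ^ 0) := by
            rw [pow_zero, mul_add, mul_one, add_comm]
            congr 1
            rw [Finset.sum_congr rfl (fun j _ => pow_succ' q j), ← Finset.mul_sum]
            ring
    · have e : ∑' a, ∑' z, ((∑' i, ∑' z', pF i z' * H i z' a z) + ∑' i, ∑' z', pN i z' * HD i z' a z)
          = (∑' a, ∑' z, ∑' i, ∑' z', pF i z' * H i z' a z)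
            + ∑' a, ∑' z, ∑' i, ∑' z', pN i z' * HD i z' a z := by
        rw [← ENNReal.tsum_add]
        exact tsum_congr fun a => ENNReal.tsum_add
      rw [e]
      have hB1 : ∑' a, ∑' z, ∑' i, ∑' z', pF i z' * H i z' a z ≤ ε * 1 := by
        refine tot_le pF H 1 ε (fun i z' _ => ?_) hFar
        exact (tot_shift (FF Λ ht zz (a0 - (T + i))) (T + i) z').le.trans (FF_tot Λ ht zz h1 hΛ _)
      have hB2 : ∑' a, ∑' z, ∑' i, ∑' z', pN i z' * HD i z' a z
          ≤ q * (q ^ J + ε * ∑ j ∈ range J, q ^ j) := by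
        refine tot_le pN HD _ q (fun i z' hne => ?_) hNG
        have hi : i ≤ i0 := by
          by_contra h
          exact hne (if_neg (fun h' => h h'.1))
        exact (tot_shift (D i) (T + i) z').le.trans (hAD i hi).2.2
      calc _ ≤ ε * 1 + q * (q ^ J + ε * ∑ j ∈ range J, q ^ j) := add_le_add hB1 hB2
        _ = q ^ (J + 1) + ε * ∑ j ∈ range (J + 1), q ^ j := by
            rw [Finset.sum_range_succ', Finset.sum_congr rfl (fun j _ => pow_succ' q j),
              ← Finset.mul_sum, pow_succ']
            ring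

end Crest.Agent.R154.Att379
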