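import Crest.Agent.R154.Contour_748

set_option autoImplicit false
set_option linter.unusedSectionVars false
set_option linter.unusedVariables false

/-!
Row 154, block B8 (W): attempts recursion on top of `Contour748.dies_le` (helper748).
-/

namespace Crest.Agent.R154.Contour748

open MeasureTheory
open scoped ENNReal

variable {Ω : Type*} [m0 : MeasurableSpace Ω]

/-- All attempts started in layers `[k, k+n)` are dead before layer `k+n`;
`D k j` = attempt `k` is dead exactly after having used the layers `k, …, k+j`. -/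
def Dead (D : ℕ → ℕ → Set Ω) (k n : ℕ) : Set Ω :=
  {ω | ∀ k', k ≤ k' → k' < k + n → ∃ j, k' + j < k + n ∧ ω ∈ D k' j}

lemma dead_sub (D : ℕ → ℕ → Set Ω) (k n : ℕ) (hn : 0 < n) :
    Dead D k n ⊆ ⋃ j ∈ Finset.range n, D k j ∩ Dead D (k + j + 1) (n - j - 1) := by
  intro ω hω
  obtain ⟨j, hj, hD⟩ := hω k le_rfl (by omega)
  have hjn : j < n := by omega
  simp only [Set.mem_iUnion]
  refine ⟨j, Finset.mem_range.2 hjn, hD, ?_⟩
  intro k' h1 h2
  obtain ⟨i, hi, hi'⟩ := hω k' (by omega) (by omega)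
  exact ⟨i, by omega, hi'⟩

/-- **ATTEMPTS, abstract form.** -/
theorem attempts_abs (P : Measure Ω) (G : ℕ → MeasurableSpace Ω) (hGm : ∀ k, G k ≤ m0)
    (hGmono : Monotone G) (D : ℕ → ℕ → Set Ω) (s : ℝ≥0∞)
    (hDm : ∀ k j, MeasurableSet[G (k + j + 1)] (D k j))
    (hD : ∀ k j B, MeasurableSet[G k] B → P (B ∩ D k j) ≤ s ^ (j + 1) * P B) :
    ∀ n k B, MeasurableSet[G k] B → P (B ∩ Dead D k n) ≤ (2 * s) ^ n * P B := by
  intro n
  induction n using Nat.strong_induction_on with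
  | _ n ih =>
    intro k B hB
    rcases Nat.eq_zero_or_pos n with rfl | hn
    · simp only [pow_zero, one_mul]
      exact measure_mono Set.inter_subset_left
    · have h1 : P (B ∩ Dead D k n) ≤
          ∑ j ∈ Finset.range n, P ((B ∩ D k j) ∩ Dead D (k + j + 1) (n - j - 1)) := by
        refine (measure_mono (?_ : _ ⊆ ⋃ j ∈ Finset.range n,
          (B ∩ D k j) ∩ Dead D (k + j + 1) (n - j - 1))).trans (measure_biUnion_finset_le _ _)
        rintro ω ⟨hωB, hω⟩
        have := dead_sub D k n hn hω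
        simp only [Set.mem_iUnion] at this ⊢
        obtain ⟨j, hj, h⟩ := this
        exact ⟨j, hj, ⟨hωB, h.1⟩, h.2⟩
      have h2 : ∀ j ∈ Finset.range n,
          P ((B ∩ D k j) ∩ Dead D (k + j + 1) (n - j - 1)) ≤
            2 ^ (n - j - 1) * (s ^ n * P B) := by
        intro j hj
        have hjn : j < n := Finset.mem_range.1 hj
        have hBm : MeasurableSet[G (k + j + 1)] (B ∩ D k j) :=
          MeasurableSet.inter (hGmono (by omega : k ≤ k + j + 1) _ hB) (hDm k j)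
        refine (ih (n - j - 1) (by omega) (k + j + 1) _ hBm).trans ?_
        calc (2 * s) ^ (n - j - 1) * P (B ∩ D k j)
            ≤ (2 * s) ^ (n - j - 1) * (s ^ (j + 1) * P B) := by gcongr; exact hD k j B hB
          _ = 2 ^ (n - j - 1) * ((s ^ (n - j - 1) * s ^ (j + 1)) * P B) := by
              rw [mul_pow]; ring
          _ = 2 ^ (n - j - 1) * (s ^ n * P B) := by
              rw [← pow_add]; congr 3; omega
      refine h1.trans ((Finset.sum_le_sum h2).trans ?_)
      rw [← Finset.sum_mul]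
      have h3 : ∑ j ∈ Finset.range n, (2:ℝ≥0∞) ^ (n - j - 1) ≤ 2 ^ n := by
        have e : ∑ j ∈ Finset.range n, (2:ℝ≥0∞) ^ (n - j - 1) =
            ∑ j ∈ Finset.range n, (2:ℝ≥0∞) ^ j := by
          rw [← Finset.sum_range_reflect]
          refine Finset.sum_congr rfl fun j hj => ?_
          congr 1
          have := Finset.mem_range.1 hj
          omega
        rw [e]
        have h4 : (∑ j ∈ Finset.range n, (2:ℕ) ^ j : ℕ) ≤ 2 ^ n := by
          rw [Nat.geomSum_eq (by norm_num)]; simp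
        exact_mod_cast h4
      calc (∑ j ∈ Finset.range n, (2:ℝ≥0∞) ^ (n - j - 1)) * (s ^ n * P B)
          ≤ 2 ^ n * (s ^ n * P B) := by gcongr
        _ = (2 * s) ^ n * P B := by rw [mul_pow]; ring

/-- One-layer conditional K-set bounds give the space-time K-set bound. -/
theorem kset_layers (P : Measure Ω) (G : ℕ → MeasurableSpace Ω) (hGm : ∀ k, G k ≤ m0)
    (hGmono : Monotone G) (bad : ℕ → ℤ → Set Ω) (q : ℝ≥0∞)
    (hbm : ∀ k x, MeasurableSet[G (k + 1)] (bad k x))
    (hb : ∀ k (K : Finset ℤ) B, MeasurableSet[G k] B →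
      P (B ∩ {ω | ∀ x ∈ K, ω ∈ bad k x}) ≤ q ^ K.card * P B) :
    ∀ (n k : ℕ) (K : Finset (ℕ × ℤ)) (B : Set Ω), MeasurableSet[G k] B →
      (∀ p ∈ K, k ≤ p.1 ∧ p.1 < k + n) →
      P (B ∩ {ω | ∀ p ∈ K, ω ∈ bad p.1 p.2}) ≤ q ^ K.card * P B := by
  classical
  intro n
  induction n with
  | zero =>
    intro k K B hB hK
    have : K = ∅ := by
      apply Finset.eq_empty_of_forall_notMem
      intro p hp
      have := hK p hp
      omega
    subst this
    simp
  | succ n ih =>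
    intro k K B hB hK
    set K0 : Finset ℤ := (K.filter (fun p => p.1 = k)).image Prod.snd with hK0
    set K1 : Finset (ℕ × ℤ) := K.filter (fun p => p.1 ≠ k) with hK1
    have hcard : K.card = K1.card + K0.card := by
      have h1 : K0.card = (K.filter (fun p => p.1 = k)).card := by
        rw [hK0]
        refine Finset.card_image_of_injOn ?_
        intro p hp p' hp' e
        simp only [Finset.coe_filter, Set.mem_ofPred_eq] at hp hp'
        exact Prod.ext (hp.2.trans hp'.2.symm) e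
      rw [h1, hK1, add_comm]
      exact (Finset.card_filter_add_card_filter_not _).symm
    set B' : Set Ω := B ∩ {ω | ∀ x ∈ K0, ω ∈ bad k x} with hB'
    have hB'm : MeasurableSet[G (k + 1)] B' := by
      refine MeasurableSet.inter (hGmono (Nat.le_succ k) _ hB) ?_
      have : {ω | ∀ x ∈ K0, ω ∈ bad k x} = ⋂ x ∈ K0, bad k x := by
        ext ω; simp
      rw [this]
      exact Finset.measurableSet_biInter _ fun x _ => hbm k x
    have h1 : B ∩ {ω | ∀ p ∈ K, ω ∈ bad p.1 p.2} ⊆ B' ∩ {ω | ∀ p ∈ K1, ω ∈ bad p.1 p.2} := by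
      rintro ω ⟨hωB, hω⟩
      refine ⟨⟨hωB, ?_⟩, ?_⟩
      · intro x hx
        rw [hK0, Finset.mem_image] at hx
        obtain ⟨p, hp, rfl⟩ := hx
        rw [Finset.mem_filter] at hp
        have := hω p hp.1
        rwa [hp.2] at this
      · intro p hp
        exact hω p (Finset.mem_filter.1 hp).1
    calc P (B ∩ {ω | ∀ p ∈ K, ω ∈ bad p.1 p.2})
        ≤ P (B' ∩ {ω | ∀ p ∈ K1, ω ∈ bad p.1 p.2}) := measure_mono h1
      _ ≤ q ^ K1.card * P B' := by
          refine ih (k + 1) K1 B' hB'm ?_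
          intro p hp
          rw [hK1, Finset.mem_filter] at hp
          have := hK p hp.1
          omega
      _ ≤ q ^ K1.card * (q ^ K0.card * P B) := by gcongr; exact hb k K0 B hB
      _ = q ^ K.card * P B := by rw [hcard, pow_add]; ring

/-- Attempt `k` is dead after exactly the layers `k..k+j`: `Fail k` (j = 0), or the cluster of good
tiles from the cell `σ k` of layer `k+1` dies exactly after its layer `j-1`. -/
def Datt (bad : ℕ → ℤ → Set Ω) (Fail : ℕ → Set Ω) (σ : ℕ → Ω → ℤ) (k : ℕ) : ℕ → Set Ω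
  | 0 => Fail k
  | (j+1) => (Fail k)ᶜ ∩
      {ω | diesAt 1 (fun i x => ω ∈ bad (k + 1 + i) (σ k ω + x)) j}

/-- the cluster of attempt `k` is alive at layer `n > k` (absolute). -/
def Alive (bad : ℕ → ℤ → Set Ω) (Fail : ℕ → Set Ω) (σ : ℕ → Ω → ℤ) (k n : ℕ) : Set Ω :=
  {ω | ω ∉ Fail k ∧ k + 1 ≤ n ∧
    ∃ x, chg 1 (fun i x => ω ∈ bad (k + 1 + i) (σ k ω + x)) (n - k - 1) x}

lemma exists_diesAt (b : ℕ → ℤ → Prop) : ∀ n, (¬ ∃ x, chg 1 b n x) → ∃ j, j < n ∧ diesAt 1 b j := by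
  intro n
  induction n with
  | zero => intro h; exact absurd ⟨0, by simp [chg]⟩ h
  | succ n ih =>
    intro h
    by_cases h' : ∃ x, chg 1 b n x
    · exact ⟨n, Nat.lt_succ_self n, h', fun x hx => h ⟨x, hx⟩⟩
    · obtain ⟨j, hj, hd⟩ := ih h'
      exact ⟨j, by omega, hd⟩

lemma not_alive_sub_dead (bad : ℕ → ℤ → Set Ω) (Fail : ℕ → Set Ω) (σ : ℕ → Ω → ℤ) (k n : ℕ) :
    {ω | ∀ k', k ≤ k' → k' < k + n → ω ∉ Alive bad Fail σ k' (k + n)} ⊆
      Dead (Datt bad Fail σ) k n := by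
  intro ω hω k' h1 h2
  have h := hω k' h1 h2
  by_cases hF : ω ∈ Fail k'
  · exact ⟨0, by omega, hF⟩
  · have hne : ¬ ∃ x, chg 1 (fun i x => ω ∈ bad (k' + 1 + i) (σ k' ω + x)) (k + n - k' - 1) x := by
      intro hx
      exact h ⟨hF, by omega, hx⟩
    obtain ⟨j, hj, hd⟩ := exists_diesAt _ _ hne
    exact ⟨j + 1, by omega, hF, hd⟩


lemma measurable_chg (G : ℕ → MeasurableSpace Ω) (hGmono : Monotone G) (bad : ℕ → ℤ → Set Ω)
    (hbm : ∀ k x, MeasurableSet[G (k + 1)] (bad k x)) (σ : Ω → ℤ) (k : ℕ)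
    (hσ : ∀ z, MeasurableSet[G (k + 1)] {ω | σ ω = z}) :
    ∀ (i : ℕ) (x : ℤ), MeasurableSet[G (k + 1 + i)]
      {ω | chg 1 (fun i x => ω ∈ bad (k + 1 + i) (σ ω + x)) i x} := by
  intro i
  induction i with
  | zero =>
    intro x
    simp only [chg]
    exact MeasurableSet.const _
  | succ i ih =>
    have hbad : ∀ x, MeasurableSet[G (k + 1 + (i + 1))] {ω | ω ∈ bad (k + 1 + i) (σ ω + x)} := by
      intro x
      have e : {ω | ω ∈ bad (k + 1 + i) (σ ω + x)} =
          ⋃ z : ℤ, {ω | σ ω = z} ∩ bad (k + 1 + i) (z + x) := by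
        ext ω
        simp
      rw [e]
      refine MeasurableSet.iUnion fun z => MeasurableSet.inter ?_ ?_
      · exact hGmono (by omega : k + 1 ≤ k + 1 + (i + 1)) _ (hσ z)
      · exact hbm (k + 1 + i) (z + x)
    have hi : ∀ x, MeasurableSet[G (k + 1 + (i + 1))]
        {ω | chg 1 (fun i x => ω ∈ bad (k + 1 + i) (σ ω + x)) i x} := fun x =>
      hGmono (by omega : k + 1 + i ≤ k + 1 + (i + 1)) _ (ih x)
    intro x
    have e : {ω | chg 1 (fun i x => ω ∈ bad (k + 1 + i) (σ ω + x)) (i + 1) x} =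
        ({ω | chg 1 (fun i x => ω ∈ bad (k + 1 + i) (σ ω + x)) i x} \
            {ω | ω ∈ bad (k + 1 + i) (σ ω + x)}) ∪
        ({ω | chg 1 (fun i x => ω ∈ bad (k + 1 + i) (σ ω + x)) i (x - 1)} \
            {ω | ω ∈ bad (k + 1 + i) (σ ω + (x - 1))}) := by
      ext ω
      simp only [chg, Set.mem_ofPred_eq, Set.mem_union, Set.mem_sdiff]
    rw [e]
    exact ((hi x).diff (hbad x)).union ((hi (x-1)).diff (hbad (x-1)))

lemma measurable_Datt (G : ℕ → MeasurableSpace Ω) (hGmono : Monotone G) (bad : ℕ → ℤ → Set Ω)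
    (hbm : ∀ k x, MeasurableSet[G (k + 1)] (bad k x)) (Fail : ℕ → Set Ω)
    (hFm : ∀ k, MeasurableSet[G (k + 1)] (Fail k)) (σ : ℕ → Ω → ℤ)
    (hσ : ∀ k z, MeasurableSet[G (k + 1)] {ω | σ k ω = z}) (k j : ℕ) :
    MeasurableSet[G (k + j + 1)] (Datt bad Fail σ k j) := by
  cases j with
  | zero => exact hFm k
  | succ j =>
    have hc := measurable_chg G hGmono bad hbm (σ k) k (hσ k)
    simp only [Datt]
    refine MeasurableSet.inter (hGmono (by omega : k + 1 ≤ k + (j + 1) + 1) _ (hFm k).compl) ?_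
    have e : {ω | diesAt 1 (fun i x => ω ∈ bad (k + 1 + i) (σ k ω + x)) j} =
        (⋃ x, {ω | chg 1 (fun i x => ω ∈ bad (k + 1 + i) (σ k ω + x)) j x}) ∩
        (⋂ x, {ω | chg 1 (fun i x => ω ∈ bad (k + 1 + i) (σ k ω + x)) (j + 1) x}ᶜ) := by
      ext ω
      simp only [diesAt, Set.mem_ofPred_eq, Set.mem_inter_iff, Set.mem_iUnion, Set.mem_iInter,
        Set.mem_compl_iff]
    rw [e]
    refine MeasurableSet.inter (MeasurableSet.iUnion fun x => ?_)
      (MeasurableSet.iInter fun x => ?_)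
    · exact hGmono (by omega : k + 1 + j ≤ k + (j + 1) + 1) _ (hc j x)
    · exact (hGmono (by omega : k + 1 + (j + 1) ≤ k + (j + 1) + 1) _ (hc (j + 1) x)).compl

lemma Datt_le (P : Measure Ω) (G : ℕ → MeasurableSpace Ω) (hGm : ∀ k, G k ≤ m0)
    (hGmono : Monotone G) (bad : ℕ → ℤ → Set Ω) (Fail : ℕ → Set Ω) (σ : ℕ → Ω → ℤ)
    (q : ℝ≥0∞) (hq : 54 * q ≤ 1)
    (hbm : ∀ k x, MeasurableSet[G (k + 1)] (bad k x))
    (hFm : ∀ k, MeasurableSet[G (k + 1)] (Fail k))
    (hσ : ∀ k z, MeasurableSet[G (k + 1)] {ω | σ k ω = z})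
    (hb : ∀ k (K : Finset ℤ) B, MeasurableSet[G k] B →
      P (B ∩ {ω | ∀ x ∈ K, ω ∈ bad k x}) ≤ q ^ K.card * P B)
    (k j : ℕ) (B : Set Ω) (hB : MeasurableSet[G k] B) :
    P (B ∩ Datt bad Fail σ k (j + 1)) ≤ (27 * q) ^ (1 + j) * P B := by
  classical
  set Bz : ℤ → Set Ω := fun z => (B ∩ (Fail k)ᶜ) ∩ {ω | σ k ω = z} with hBz
  have hBzm : ∀ z, MeasurableSet[G (k + 1)] (Bz z) := fun z =>
    MeasurableSet.inter (MeasurableSet.inter (hGmono (Nat.le_succ k) _ hB) (hFm k).compl) (hσ k z)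
  have hz : ∀ z, P (Bz z ∩ {ω | diesAt 1 (fun i x => ω ∈ bad (k + 1 + i) (z + x)) j}) ≤
      (27 * q) ^ (1 + j) * P (Bz z) := by
    intro z
    have hBz0 : MeasurableSet (Bz z) := hGm _ _ (hBzm z)
    have key := dies_le (P.restrict (Bz z)) (P (Bz z)) q hq
      (fun i x ω => ω ∈ bad (k + 1 + i) (z + x)) 1 j (by
        intro K hK
        let φ : ℕ × ℤ → ℕ × ℤ := fun p => (k + 1 + p.1, z + p.2)
        have hφ : Function.Injective φ := by
          rintro ⟨a, b⟩ ⟨c, d⟩ h
          simp only [φ, Prod.mk.injEq] at h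
          ext <;> simp <;> omega
        have h := kset_layers P G hGm hGmono bad q hbm hb (j + 1) (k + 1) (K.image φ) (Bz z)
          (hBzm z) (by
            intro p hp
            rw [Finset.mem_image] at hp
            obtain ⟨p', hp', rfl⟩ := hp
            have := hK p' hp'
            simp only [φ]
            omega)
        rw [Finset.card_image_of_injective _ hφ] at h
        have hset : {ω | ∀ p ∈ K, ω ∈ bad (k + 1 + p.1) (z + p.2)} =
            {ω | ∀ p ∈ K.image φ, ω ∈ bad p.1 p.2} := by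
          ext ω
          simp only [Set.mem_ofPred_eq, Finset.mem_image]
          constructor
          · rintro h p ⟨p', hp', rfl⟩
            exact h p' hp'
          · intro h p hp
            exact h (φ p) ⟨p, hp, rfl⟩
        have hmeas : MeasurableSet {ω | ∀ p ∈ K, ω ∈ bad (k + 1 + p.1) (z + p.2)} := by
          have e : {ω | ∀ p ∈ K, ω ∈ bad (k + 1 + p.1) (z + p.2)} =
              ⋂ p ∈ K, bad (k + 1 + p.1) (z + p.2) := by
            ext ω; simp
          rw [e]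
          exact Finset.measurableSet_biInter _ fun p _ => hGm _ _ (hbm _ _)
        rw [Measure.restrict_apply hmeas, Set.inter_comm, hset]
        rw [mul_comm]
        exact h)
    have hmd : MeasurableSet {ω | diesAt 1 (fun i x => ω ∈ bad (k + 1 + i) (z + x)) j} := by
      have h0 := measurable_Datt G hGmono bad hbm (fun _ => ∅)
        (fun k => @MeasurableSet.empty _ (G (k+1)))
        (fun _ _ => z) (fun k _ => @MeasurableSet.const _ (G (k+1)) _) k (j + 1)
      have h1 := hGm _ _ h0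
      simpa [Datt] using h1
    rw [Measure.restrict_apply hmd, Set.inter_comm] at key
    rw [mul_comm]
    exact key
  have hsub : B ∩ Datt bad Fail σ k (j + 1) ⊆
      ⋃ z, (Bz z ∩ {ω | diesAt 1 (fun i x => ω ∈ bad (k + 1 + i) (z + x)) j}) := by
    rintro ω ⟨hωB, hωF, hω⟩
    refine Set.mem_iUnion.2 ⟨σ k ω, ⟨⟨hωB, hωF⟩, rfl⟩, hω⟩
  calc P (B ∩ Datt bad Fail σ k (j + 1))
      ≤ ∑' z, P (Bz z ∩ {ω | diesAt 1 (fun i x => ω ∈ bad (k + 1 + i) (z + x)) j}) :=
        (measure_mono hsub).trans (measure_iUnion_le _)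
    _ ≤ ∑' z, (27 * q) ^ (1 + j) * P (Bz z) := ENNReal.tsum_le_tsum hz
    _ = (27 * q) ^ (1 + j) * P (⋃ z, Bz z) := by
        rw [ENNReal.tsum_mul_left, measure_iUnion]
        · intro z z' hzz'
          rw [Function.onFun, Set.disjoint_left]
          rintro ω ⟨_, h1⟩ ⟨_, h2⟩
          exact hzz' (h1.symm.trans h2)
        · intro z; exact hGm _ _ (hBzm z)
    _ ≤ (27 * q) ^ (1 + j) * P B := by
        gcongr
        exact Set.iUnion_subset fun z ω hω => hω.1.1

/-- **ATTEMPTS, cluster form** (112's (W)): if from every layer a fresh attempt is started, the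
probability that no attempt started in the layers `[k, k+n)` has its cluster alive at layer `k+n`
is at most `(2 s)^n`, `s^2 ≥ 27 q`. -/
theorem attempts_cluster (P : Measure Ω) (G : ℕ → MeasurableSpace Ω) (hGm : ∀ k, G k ≤ m0)
    (hGmono : Monotone G) (bad : ℕ → ℤ → Set Ω) (Fail : ℕ → Set Ω) (σ : ℕ → Ω → ℤ)
    (q s : ℝ≥0∞) (hq : 54 * q ≤ 1) (hs1 : s ≤ 1) (hs : 27 * q ≤ s ^ 2)
    (hbm : ∀ k x, MeasurableSet[G (k + 1)] (bad k x))
    (hFm : ∀ k, MeasurableSet[G (k + 1)] (Fail k))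
    (hσ : ∀ k z, MeasurableSet[G (k + 1)] {ω | σ k ω = z})
    (hb : ∀ k (K : Finset ℤ) B, MeasurableSet[G k] B →
      P (B ∩ {ω | ∀ x ∈ K, ω ∈ bad k x}) ≤ q ^ K.card * P B)
    (hF : ∀ k B, MeasurableSet[G k] B → P (B ∩ Fail k) ≤ q * P B)
    (n k : ℕ) (B : Set Ω) (hB : MeasurableSet[G k] B) :
    P (B ∩ {ω | ∀ k', k ≤ k' → k' < k + n → ω ∉ Alive bad Fail σ k' (k + n)}) ≤
      (2 * s) ^ n * P B := by
  refine le_trans (measure_mono (Set.inter_subset_inter_right _
    (not_alive_sub_dead bad Fail σ k n))) ?_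
  refine attempts_abs P G hGm hGmono (Datt bad Fail σ) s
    (measurable_Datt G hGmono bad hbm Fail hFm σ hσ) ?_ n k B hB
  intro k j B hB
  cases j with
  | zero =>
    refine (hF k B hB).trans ?_
    gcongr
    calc q ≤ 27 * q := by
          nth_rewrite 1 [← one_mul q]; gcongr; norm_num
      _ ≤ s ^ 2 := hs
      _ ≤ s ^ (0 + 1) := pow_le_pow_right_of_le_one' hs1 (by norm_num)
  | succ j =>
    refine (Datt_le P G hGm hGmono bad Fail σ q hq hbm hFm hσ hb k j B hB).trans ?_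
    have h : (27 * q) ^ (1 + j) ≤ s ^ (j + 1 + 1) := by
      calc (27 * q) ^ (1 + j) ≤ (s ^ 2) ^ (1 + j) := by gcongr
        _ = s ^ (2 * (1 + j)) := by rw [pow_mul]
        _ ≤ s ^ (j + 1 + 1) := pow_le_pow_right_of_le_one' hs1 (by omega)
    exact mul_le_mul_left h _

end Crest.Agent.R154.Contour748
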