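import Crest.Agent.R154.Win_596

/-! Row 154 (helper596), ROAD 801: average over the upper parts. -/

set_option autoImplicit false
set_option linter.unusedVariables false
set_option linter.unusedSectionVars false

namespace Crest.Agent.R154.FR596

open scoped ENNReal Classical
open Crest.Agent.R154.B5A

variable {BX BY G : Type*} [AddCommGroup G]
variable (ΛX : BX → ℝ≥0∞) (hX : BX → ℕ) (ΛY : BY → ℝ≥0∞) (hY : BY → ℕ)
variable (zX : BX → G) (zY : BY → G)

lemma avg (hX1 : ∀ b, 1 ≤ hX b) (hΛX : ∑' b, ΛX b = 1) (hY1 : ∀ b, 1 ≤ hY b)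
    (hΛY : ∑' b, ΛY b = 1) (a0 i0 : ℕ) (w : G) (A bA C bC : ℕ → G → ℝ≥0∞)
    (hA1 : ∀ i y, A i y ≤ pp ΛX hX zX a0 i y) (hC1 : ∀ i y, C i y ≤ pp ΛY hY zY a0 i y)
    (hA : ∀ i y, pp ΛX hX zX a0 i y ≤ A i y + bA i y)
    (hC : ∀ i y, pp ΛY hY zY a0 i y ≤ C i y + bC i y)
    (Θ : ℕ → ℕ → G → ℝ≥0∞) (hΘ : ∀ a a' x, Θ a a' x ≤ 1) :
    FR ΛX hX a0 (fun L1 => if HT hX L1 ≤ a0 + i0 then
      FR ΛY hY a0 (fun M1 => if HT hY M1 ≤ a0 + i0 then
        Θ (HT hX L1) (HT hY M1) (w + Dp zY M1 - Dp zX L1) else 0) else 0) ≤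
    ∑ i ∈ Finset.range (i0 + 1), ∑ j ∈ Finset.range (i0 + 1),
      ∑' x, (∑' y, A i y * C j (x - w + y)) * Θ (a0 + i) (a0 + j) x +
      (∑' i, ∑' y, bA i y + ∑' i, ∑' y, bC i y) := by
  set SA := ∑' i, ∑' y, bA i y with hSA
  set SC := ∑' i, ∑' y, bC i y with hSC
  set gX : ℕ → G → ℝ≥0∞ := fun i y => if i ≤ i0 then ∑' j, ∑' y', C j y' *
    (if j ≤ i0 then Θ (a0 + i) (a0 + j) (w + y' - y) else 0) else 0 with hgX
  -- inner
  have h1 : ∀ L1, isFR hX a0 L1 → (if HT hX L1 ≤ a0 + i0 then
      FR ΛY hY a0 (fun M1 => if HT hY M1 ≤ a0 + i0 then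
        Θ (HT hX L1) (HT hY M1) (w + Dp zY M1 - Dp zX L1) else 0) else 0) ≤
      gX (HT hX L1 - a0) (Dp zX L1) + SC := by
    intro L1 hL1
    have g1 := isFR_ge hX L1 a0 hL1
    by_cases hh : HT hX L1 ≤ a0 + i0
    swap
    · rw [if_neg hh]; exact zero_le
    rw [if_pos hh, hgX]
    beta_reduce
    rw [if_pos (show HT hX L1 - a0 ≤ i0 by omega)]
    have e1 : FR ΛY hY a0 (fun M1 => if HT hY M1 ≤ a0 + i0 then
        Θ (HT hX L1) (HT hY M1) (w + Dp zY M1 - Dp zX L1) else 0) =
        FR ΛY hY a0 (fun M1 => (fun (j : ℕ) (y' : G) => if j ≤ i0 then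
          Θ (a0 + (HT hX L1 - a0)) (a0 + j) (w + y' - Dp zX L1) else 0) (HT hY M1 - a0) (Dp zY M1)) := by
      refine FR_congr ΛY hY _ fun M1 hM1 => ?_
      have g2 := isFR_ge hY M1 a0 hM1
      beta_reduce
      rw [show a0 + (HT hX L1 - a0) = HT hX L1 by omega, show a0 + (HT hY M1 - a0) = HT hY M1 by omega]
      by_cases h3 : HT hY M1 ≤ a0 + i0
      · rw [if_pos h3, if_pos (by omega)]
      · rw [if_neg h3, if_neg (by omega)]
    rw [e1, pp_push ΛY hY zY a0 (fun (j : ℕ) (y' : G) => if j ≤ i0 then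
          Θ (a0 + (HT hX L1 - a0)) (a0 + j) (w + y' - Dp zX L1) else 0), hSC, ← ENNReal.tsum_add]
    refine ENNReal.tsum_le_tsum fun j => ?_
    rw [← ENNReal.tsum_add]
    refine ENNReal.tsum_le_tsum fun y' => ?_
    refine (mul_le_mul_left (hC j y') _).trans ?_
    rw [add_mul]
    refine add_le_add le_rfl (mul_le_of_le_one_right' ?_)
    split_ifs
    · exact hΘ _ _ _
    · exact zero_le
  have hg1 : ∀ i y, gX i y ≤ 1 := by
    intro i y
    rw [hgX]
    beta_reduce
    split_ifs
    · calc ∑' j, ∑' y', C j y' * (if j ≤ i0 then Θ (a0 + i) (a0 + j) (w + y' - y) else 0)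
          ≤ ∑' j, ∑' y', pp ΛY hY zY a0 j y' := by
            refine ENNReal.tsum_le_tsum fun j => ENNReal.tsum_le_tsum fun y' => ?_
            refine (mul_le_of_le_one_right' ?_).trans (hC1 j y')
            split_ifs
            · exact hΘ _ _ _
            · exact zero_le
        _ = 1 := pp_total ΛY hY zY hY1 hΛY a0
    · exact zero_le
  calc FR ΛX hX a0 (fun L1 => if HT hX L1 ≤ a0 + i0 then
      FR ΛY hY a0 (fun M1 => if HT hY M1 ≤ a0 + i0 then
        Θ (HT hX L1) (HT hY M1) (w + Dp zY M1 - Dp zX L1) else 0) else 0)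
      ≤ FR ΛX hX a0 (fun L1 => gX (HT hX L1 - a0) (Dp zX L1) + SC) := FR_mono ΛX hX _ h1
    _ = ∑' i, ∑' y, pp ΛX hX zX a0 i y * gX i y + SC := by
        rw [FR_add, FR_const ΛX hX hX1 hΛX, pp_push ΛX hX zX a0 gX]
    _ ≤ (∑' i, ∑' y, A i y * gX i y + SA) + SC := by
        refine add_le_add ?_ le_rfl
        rw [hSA, ← ENNReal.tsum_add]
        refine ENNReal.tsum_le_tsum fun i => ?_
        rw [← ENNReal.tsum_add]
        refine ENNReal.tsum_le_tsum fun y => ?_
        refine (mul_le_mul_left (hA i y) _).trans ?_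
        rw [add_mul]
        exact add_le_add le_rfl (mul_le_of_le_one_right' (hg1 i y))
    _ = ∑' i, ∑' y, A i y * gX i y + (SA + SC) := by rw [add_assoc]
    _ ≤ _ := by
        refine add_le_add (le_of_eq ?_) le_rfl
        rw [tsum_eq_sum (s := Finset.range (i0 + 1))]
        swap
        · intro i hi
          refine ENNReal.tsum_eq_zero.2 fun y => ?_
          rw [hgX]
          beta_reduce
          rw [if_neg (by simpa using hi), mul_zero]
        refine Finset.sum_congr rfl fun i hi => ?_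
        have hi' : i ≤ i0 := by have := Finset.mem_range.1 hi; omega
        have e3 : ∀ y, A i y * gX i y = ∑ j ∈ Finset.range (i0 + 1), ∑' x,
            A i y * C j (x - w + y) * Θ (a0 + i) (a0 + j) x := by
          intro y
          rw [hgX]
          beta_reduce
          rw [if_pos hi', tsum_eq_sum (s := Finset.range (i0 + 1)), Finset.mul_sum]
          · refine Finset.sum_congr rfl fun j hj => ?_
            have hj' : j ≤ i0 := by have := Finset.mem_range.1 hj; omega
            simp only [if_pos hj']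
            rw [← ENNReal.tsum_mul_left]
            rw [← (Equiv.subRight (w - y)).tsum_eq (fun y' => A i y * (C j y' *
              Θ (a0 + i) (a0 + j) (w + y' - y)))]
            refine tsum_congr fun x => ?_
            simp only [Equiv.subRight_apply]
            rw [show x - (w - y) = x - w + y by abel, show w + (x - w + y) - y = x by abel]
            ring
          · intro j hj
            refine ENNReal.tsum_eq_zero.2 fun y' => ?_
            rw [if_neg (by simpa using hj), mul_zero]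
        simp_rw [e3]
        rw [Summable.tsum_finsetSum (fun _ _ => ENNReal.summable)]
        refine Finset.sum_congr rfl fun j _ => ?_
        rw [ENNReal.tsum_comm]
        exact tsum_congr fun x => ENNReal.tsum_mul_right

end Crest.Agent.R154.FR596
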