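import Crest.Agent.R154.B2CF_263

/-!
Row 154, block B1: in a coordinate direction the heights are integers; regeneration words have a
natural height `≥ 1`.
-/

set_option autoImplicit false
set_option linter.unusedSectionVars false
set_option linter.deprecated false

namespace Crest.Agent.R154.Bind263

open MeasureTheory ProbabilityTheory Filter Set Crest.ProbabilityR.RandomEnvironment
open Crest.Agent.R154.Ren263 Crest.Agent.R154.RenG263 Crest.Agent.R154.Mk561
open scoped ENNReal Topology

variable {d : ℕ}

/-- integer height of a letter in the direction of the step `u` -/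
def zht (u : Step d) (m : Mark d) : ℤ :=
  if m.1.1 = u.1 then (if m.1.2 = u.2 then 1 else -1) else 0

lemma mht_dirVec (u : Step d) (m : Mark d) : mht (B2d.dirVec u) m = (zht u m : ℝ) := by
  obtain ⟨⟨i, s⟩, b⟩ := m
  obtain ⟨j, t⟩ := u
  have h1 : mht (B2d.dirVec (j, t)) ((i, s), b) =
      ∑ k, ((stepVec (i, s) k : ℤ) : ℝ) * B2d.dirVec (j, t) k := rfl
  rw [h1, B2d.sum_mul_dirVec (fun k => ((stepVec (i, s) k : ℤ) : ℝ)) (j, t)]
  unfold zht stepVec
  by_cases hij : i = j
  · subst hij
    simp only [Pi.single_eq_same, if_true]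
    cases s <;> cases t <;> simp
  · have hji : j ≠ i := fun h => hij h.symm
    simp only [Pi.single_eq_of_ne hji, hij, if_false]
    cases t <;> simp

lemma abs_zht_le (u : Step d) (m : Mark d) : |zht u m| ≤ 1 := by
  unfold zht
  split_ifs <;> simp

/-- integer height of a word -/
def wzht (u : Step d) (w : Word (Mark d)) : ℤ := (List.map (zht u) w).sum

lemma word_ht_eq (u : Step d) (w : Word (Mark d)) :
    Word.ht (mht (B2d.dirVec u)) w = (wzht u w : ℝ) := by
  have key : ∀ l : List (Mark d), (List.map (mht (B2d.dirVec u)) l).sum =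
      (((List.map (zht u) l).sum : ℤ) : ℝ) := by
    intro l
    induction l with
    | nil => simp
    | cons a l ih =>
      simp only [List.map_cons, List.sum_cons]
      rw [ih, mht_dirVec]
      push_cast
      ring
  exact key w

lemma hgt_dirVec (u : Step d) (s : MPath d) (n : ℕ) :
    hgt (mht (B2d.dirVec u)) s n = ((∑ i ∈ Finset.range n, zht u (s i) : ℤ) : ℝ) := by
  unfold hgt
  push_cast
  exact Finset.sum_congr rfl fun i _ => mht_dirVec u (s i)

/-- **natural heights of the regeneration words** in a coordinate direction -/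
theorem ae_ht_nat (u : Step d) {ρ : RecSys (mht (B2d.dirVec u))} (P : Measure (MPath d)) :
    ∀ᵐ w ∂(RenG263.wordLaw ρ P), ∃ n : ℕ, 1 ≤ n ∧
      Word.ht (mht (B2d.dirVec u)) w = (n : ℝ) := by
  filter_upwards [RenG263.ae_goodWord ρ P] with w hw
  have h1 := hw.1.2.1
  rw [word_ht_eq] at h1 ⊢
  have h2 : 0 < wzht u w := by exact_mod_cast h1
  refine ⟨(wzht u w).toNat, by omega, ?_⟩
  have : ((wzht u w).toNat : ℤ) = wzht u w := Int.toNat_of_nonneg h2.le
  exact_mod_cast this.symm

/-- the same for the words of 263's unrestricted structure -/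
theorem ae_ht_nat' (u : Step d) (P : Measure (MPath d)) :
    ∀ᵐ w ∂(Ren263.wordLaw (mht (B2d.dirVec u)) P), ∃ n : ℕ, 1 ≤ n ∧
      Word.ht (mht (B2d.dirVec u)) w = (n : ℝ) := by
  filter_upwards [Ren263.ae_goodWord (mht (B2d.dirVec u)) P] with w hw
  have h1 := hw.2.1
  rw [word_ht_eq] at h1 ⊢
  have h2 : 0 < wzht u w := by exact_mod_cast h1
  refine ⟨(wzht u w).toNat, by omega, ?_⟩
  have : ((wzht u w).toNat : ℤ) = wzht u w := Int.toNat_of_nonneg h2.le
  exact_mod_cast this.symm

end Crest.Agent.R154.Bind263
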