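import Crest.Agent.R154.B2Suc_719

/-!
Row 154, block B2, assembly: `sup_J x_J < ∞` from (MAIN), (SUC), the fresh cone property and the
first moment of the block height.
-/

set_option autoImplicit false
set_option linter.unusedSectionVars false
set_option linter.unusedVariables false

namespace Crest.Agent.R154.B2

open MeasureTheory Set Filter Crest.Agent.R154.Ren263
open scoped ENNReal Topology

variable {S : Type*} {V : Type*} [AddCommGroup V]
variable [Countable S] [MeasurableSpace S] [MeasurableSingletonClass S]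
variable {L : V →+ ℝ} {val : S → V} {P : Measure (ℕ → S)} [IsProbabilityMeasure P]

lemma measurable_pos_lat (u : V →+ ℤ) (n : ℕ) :
    Measurable fun s : ℕ → S => ((u (pos val s n) : ℤ) : ℝ) := by
  have : (fun s : ℕ → S => ((u (pos val s n) : ℤ) : ℝ)) =
      fun s => ∑ i ∈ Finset.range n, ((u (val (s i)) : ℤ) : ℝ) := by
    funext s
    simp [pos, map_sum]
  rw [this]
  refine Finset.measurable_sum _ fun i _ => ?_
  exact (measurable_of_countable fun a : S => ((u (val a) : ℤ) : ℝ)).comp (measurable_pi_apply i)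

lemma measurableSet_Slope (u : V →+ ℤ) (lam C H : ℝ) :
    MeasurableSet (Slope L u val lam C H : Set (ℕ → S)) := by
  have : (Slope L u val lam C H : Set (ℕ → S)) = Stay (hL L val) ∩
      ⋂ t, ({s | |((u (pos val s t) : ℤ) : ℝ)| ≤ lam * (L (pos val s t) + C)} ∪
        {s | H < L (pos val s t)}) := by
    ext s
    simp only [Slope, mem_ofPred_eq, mem_inter_iff, mem_iInter, mem_union]
  rw [this]
  refine (measurableSet_Stay _).inter (MeasurableSet.iInter fun t => MeasurableSet.union ?_ ?_)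
  · exact measurableSet_le (measurable_pos_lat u t).abs
      (measurable_const.mul ((measurable_pos_height t).add measurable_const))
  · exact measurableSet_lt measurable_const (measurable_pos_height t)

lemma abs_nsmul_u (u : V →+ ℤ) (k : ℕ) (e : V) : |((u (k • e) : ℤ) : ℝ)| = k * |((u e : ℤ) : ℝ)| := by
  rw [map_nsmul]
  push_cast
  rw [nsmul_eq_mul]
  push_cast
  rw [abs_mul, Nat.abs_cast]

lemma L_nsmul (k : ℕ) (e : V) : L (k • e) = k * L e := by
  rw [map_nsmul, nsmul_eq_mul]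

/-- a success event: climb straight, then stay in `B`; `c = P(word h) P(B)` -/
noncomputable def mkFresh {e : V} {D : Set V} (cf : CF L val P e D) (hLe : 0 < L e)
    (u : V →+ ℤ) {R1 R2 : ℝ} (hD : ∀ δ ∈ D, |L δ| ≤ R1 ∧ |((u δ : ℤ) : ℝ)| ≤ R2)
    {lam H : ℝ} (hlam : 0 ≤ lam) (hue : |((u e : ℤ) : ℝ)| ≤ lam * L e)
    {h : ℕ} (h1 : 1 ≤ h) (B : Set (ℕ → S)) (hB : MeasurableSet B) (hBs : B ⊆ Stay (hL L val))
    (hBne : P B ≠ 0) (hR : R1 < h * L e)
    (hBU : ∀ s ∈ B, ∀ m, ∀ δ : V, |L δ| ≤ R1 → |((u δ : ℤ) : ℝ)| ≤ R2 →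
      h • e + pos val s m + δ ∈ UU L u lam H) (hR1 : 0 ≤ R1) (hR2 : 0 ≤ R2) :
    FreshC L u val P lam H where
  c := P (cf.word h) * P B
  Sc := cf.word h ∩ shift h ⁻¹' B
  c_ne := mul_ne_zero (cf.word_ne h) hBne
  Sc_meas := (cf.word_det h).measurableSet.inter (measurable_shift h hB)
  Sc_U := by
    rintro s ⟨hs1, hs2⟩ k hk
    rcases le_or_gt k h with hkh | hkh
    · rw [cf.word_pos h s hs1 k hkh]
      have hk0 : (0 : ℝ) < k := by exact_mod_cast hk
      refine ⟨by rw [L_nsmul]; positivity, Or.inl ?_⟩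
      rw [abs_nsmul_u, L_nsmul]
      have := mul_le_mul_of_nonneg_left hue hk0.le
      linarith
    · have hx : pos val s k = h • e + pos val (shift h s) (k - h) + 0 := by
        rw [pos_shift, Nat.add_sub_cancel' hkh.le, cf.word_pos h s hs1 h le_rfl]
        abel
      rw [hx]
      exact hBU _ hs2 _ 0 (by simpa using hR1) (by simpa using hR2)
  Sc_ge := by
    intro n A hA hAU
    refine cf.fresh n h A B hA hB hBs ?_ ?_
    · intro s hs k hk j hj heq
      obtain ⟨h2, h3⟩ := hAU s hs k hk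
      rcases Nat.eq_zero_or_pos j with rfl | hj0
      · rw [zero_smul, sub_eq_zero] at heq
        exact h2 heq
      · apply h3
        rw [heq]
        have hk0 : (0 : ℝ) < j := by exact_mod_cast hj0
        refine ⟨by rw [L_nsmul]; positivity, Or.inl ?_⟩
        rw [abs_nsmul_u, L_nsmul]
        have := mul_le_mul_of_nonneg_left hue hk0.le
        linarith
    · intro s hs k hk s' hs' m hmem
      obtain ⟨h2, h3⟩ := hAU s hs k hk
      apply h3
      obtain ⟨e1, e2⟩ := hD _ hmem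
      have := hBU s' hs' m _ e1 e2
      convert this using 1
      abel

/-- crude success event: climb straight above height `H`, then never come back -/
lemma exists_fresh_crude {e : V} {D : Set V} (cf : CF L val P e D) (hLe : 0 < L e)
    (u : V →+ ℤ) {R1 R2 : ℝ} (hR1 : 0 ≤ R1) (hR2 : 0 ≤ R2)
    (hD : ∀ δ ∈ D, |L δ| ≤ R1 ∧ |((u δ : ℤ) : ℝ)| ≤ R2)
    {lam : ℝ} (hlam : 0 ≤ lam) (hue : |((u e : ℤ) : ℝ)| ≤ lam * L e) (H : ℝ)
    (hp : P (Stay (hL L val)) ≠ 0) : Nonempty (FreshC L u val P lam H) := by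
  obtain ⟨h, hh⟩ := exists_nat_gt ((|H| + R1 + 1) / L e)
  rw [div_lt_iff₀ hLe] at hh
  have hH := le_abs_self H
  have habs := abs_nonneg H
  have hh0 : (0 : ℝ) < h := by
    by_contra hcon
    have h0 : (h : ℝ) = 0 := le_antisymm (not_lt.1 hcon) (Nat.cast_nonneg h)
    rw [h0] at hh
    linarith
  have h1 : 1 ≤ h := by exact_mod_cast hh0
  refine ⟨mkFresh cf hLe u hD hlam hue h1 (Stay (hL L val)) (measurableSet_Stay _) subset_rfl hp
    (by linarith) ?_ hR1 hR2⟩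
  intro s hs m δ e1 e2
  have hs0 := (stay_iff L val s).1 hs m
  have e3 := neg_abs_le (L δ)
  have : H < L (h • e + pos val s m + δ) := by
    rw [map_add, map_add, L_nsmul]; linarith
  refine ⟨?_, Or.inr this⟩
  rw [map_add, map_add, L_nsmul]; linarith

/-- success event from the slope event, with a height `h` of the initial climb that does not depend
on the slope -/
lemma exists_fresh_slope {e : V} {D : Set V} (cf : CF L val P e D) (hLe : 0 < L e)
    (u : V →+ ℤ) {R1 R2 : ℝ} (hR1 : 0 ≤ R1) (hR2 : 0 ≤ R2)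
    (hD : ∀ δ ∈ D, |L δ| ≤ R1 ∧ |((u δ : ℤ) : ℝ)| ≤ R2) {C : ℝ} (hC : 0 ≤ C)
    {h : ℕ} (hh : 2 * R1 + C + R2 + 1 ≤ h * L e)
    {lam H : ℝ} (hlam : 1 ≤ lam) (hue : |((u e : ℤ) : ℝ)| ≤ lam * L e)
    (hp : P (Slope L u val lam C H) ≠ 0) :
    ∃ F : FreshC L u val P (2 * lam) H, F.c = P (cf.word h) * P (Slope L u val lam C H) := by
  have hh0 : (0 : ℝ) < h := by
    by_contra hcon
    have h0 : (h : ℝ) = 0 := le_antisymm (not_lt.1 hcon) (Nat.cast_nonneg h)
    rw [h0] at hh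
    linarith
  have h1 : 1 ≤ h := by exact_mod_cast hh0
  have hue2 : |((u e : ℤ) : ℝ)| ≤ 2 * lam * L e := by
    have : 0 ≤ lam * L e := by positivity
    linarith
  refine ⟨mkFresh cf hLe u hD (by positivity) hue2 h1 (Slope L u val lam C H)
    (measurableSet_Slope u lam C H) (fun s hs => hs.1) hp (by linarith) ?_ hR1 hR2, rfl⟩
  intro s hs m δ e1 e2
  have hs0 := (stay_iff L val s).1 hs.1 m
  have e3 := neg_abs_le (L δ)
  have hpos : 0 < L (h • e + pos val s m + δ) := by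
    rw [map_add, map_add, L_nsmul]; linarith
  refine ⟨hpos, ?_⟩
  rcases hs.2 m with hm | hm
  · left
    have e4 : |((u (h • e + pos val s m + δ) : ℤ) : ℝ)| ≤
        h * |((u e : ℤ) : ℝ)| + |((u (pos val s m) : ℤ) : ℝ)| + |((u δ : ℤ) : ℝ)| := by
      rw [map_add, map_add]
      push_cast
      refine (abs_add_le _ _).trans (add_le_add ((abs_add_le _ _).trans (add_le_add ?_ le_rfl)) le_rfl)
      exact (abs_nsmul_u u h e).le
    have eL : L (h • e + pos val s m + δ) = h * L e + L (pos val s m) + L δ := by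
      rw [map_add, map_add, L_nsmul]
    rw [eL]
    have e5 : (h : ℝ) * |((u e : ℤ) : ℝ)| ≤ h * (lam * L e) :=
      mul_le_mul_of_nonneg_left hue hh0.le
    have hy : |((u (pos val s m) : ℤ) : ℝ)| ≤ lam * (L (pos val s m) + C) := hm
    have hLy : 0 ≤ L (pos val s m) := hs0
    -- key: lam * (h L e) ≥ lam * (2 R1 + C + R2 + 1) ≥ lam (2 R1 + C) + R2
    have e6 : lam * (2 * R1 + C + R2 + 1) ≤ lam * (h * L e) :=
      mul_le_mul_of_nonneg_left hh (by linarith)
    have e7 : R2 ≤ lam * R2 := by nlinarith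
    have e8 : lam * L δ ≥ - (lam * R1) := by
      have : -R1 ≤ L δ := by linarith
      nlinarith
    have e9 : 0 ≤ lam * L (pos val s m) := by positivity
    nlinarith
  · right
    rw [map_add, map_add, L_nsmul]; linarith

lemma pa_le_pb (j : ℕ) : pa j ≤ pb j := by
  unfold pa pb
  rw [pow_succ]
  have : (0 : ℝ) < 2 ^ j := by positivity
  linarith

lemma pb_le (j : ℕ) : pb j ≤ 2 ^ (j + 1) := by unfold pb; linarith

lemma pb_pos (j : ℕ) : 0 < pb j := by
  unfold pb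
  have : (1 : ℝ) < 2 ^ (j + 1) := one_lt_pow₀ (by norm_num) (by omega)
  linarith

lemma slope_neg (u : V →+ ℤ) (lam C H : ℝ) :
    (Slope L (-u) val lam C H : Set (ℕ → S)) = Slope L u val lam C H := by
  ext s
  simp only [Slope, mem_ofPred_eq, AddMonoidHom.neg_apply, Int.cast_neg, abs_neg]

lemma RegSys.x_neg (R : RegSys L val P) (u : V →+ ℤ) (J : ℕ) : R.x (-u) J = R.x u J := by
  unfold RegSys.x
  refine Finset.sum_congr rfl fun j _ => ?_
  rw [neg_neg, add_comm]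

lemma RegSys.x_mono (R : RegSys L val P) (u : V →+ ℤ) {J J' : ℕ} (h : J ≤ J') :
    R.x u J ≤ R.x u J' :=
  Finset.sum_le_sum_of_subset (Finset.range_mono h)

lemma RegSys.f_ne_top (R : RegSys L val P) {e : V} {D : Set V} (cf : CF L val P e D)
    (hLe : 0 < L e) (u : V →+ ℤ) {R1 R2 : ℝ} (hR1 : 0 ≤ R1) (hR2 : 0 ≤ R2)
    (hD : ∀ δ ∈ D, |L δ| ≤ R1 ∧ |((u δ : ℤ) : ℝ)| ≤ R2) (j : ℕ) : R.f u j ≠ ∞ := by
  set lam : ℝ := |((u e : ℤ) : ℝ)| / L e with hlam
  have hlam0 : 0 ≤ lam := by positivity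
  obtain ⟨F⟩ := exists_fresh_crude cf hLe u hR1 hR2 hD hlam0
    (by rw [hlam, div_mul_cancel₀ _ hLe.ne']) (pb j) R.p_ne
  obtain ⟨l, hl⟩ := exists_nat_gt (2 * lam * pb j)
  have := R.main hlam0 le_rfl F hl (a := pa j)
  refine ne_top_of_le_ne_top ?_ this
  refine ENNReal.mul_ne_top (ENNReal.natCast_ne_top _) (ENNReal.mul_ne_top ?_
      (ENNReal.mul_ne_top (ENNReal.inv_ne_top.2 R.pG_ne)
        (ENNReal.mul_ne_top (ENNReal.natCast_ne_top _) (measure_ne_top _ _))))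
  exact ENNReal.add_ne_top.2 ⟨ENNReal.one_ne_top, ENNReal.inv_ne_top.2 F.c_ne⟩

lemma RegSys.x_ne_top (R : RegSys L val P) {e : V} {D : Set V} (cf : CF L val P e D)
    (hLe : 0 < L e) (u : V →+ ℤ) {R1 R2 : ℝ} (hR1 : 0 ≤ R1) (hR2 : 0 ≤ R2)
    (hD : ∀ δ ∈ D, |L δ| ≤ R1 ∧ |((u δ : ℤ) : ℝ)| ≤ R2) (J : ℕ) : R.x u J ≠ ∞ := by
  unfold RegSys.x
  refine ENNReal.sum_ne_top.2 fun j _ => ENNReal.add_ne_top.2 ⟨?_, ?_⟩
  · exact R.f_ne_top cf hLe u hR1 hR2 hD j
  · refine R.f_ne_top cf hLe (-u) hR1 hR2 (fun δ hδ => ⟨(hD δ hδ).1, ?_⟩) j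
    simpa using (hD δ hδ).2

/-- one-step bound for `f_j`, `j` large -/
lemma RegSys.f_bound (R : RegSys L val P) {e : V} {D : Set V} (cf : CF L val P e D)
    (hLe : 0 < L e) (u : V →+ ℤ) {R1 R2 : ℝ} (hR1 : 0 ≤ R1) (hR2 : 0 ≤ R2)
    (hD : ∀ δ ∈ D, |L δ| ≤ R1 ∧ |((u δ : ℤ) : ℝ)| ≤ R2)
    {A C : ℝ} (hA : 1 ≤ A) (hue : |((u e : ℤ) : ℝ)| ≤ A * L e) (hC : 0 ≤ C)
    {h : ℕ} (hh : 2 * R1 + C + R2 + 1 ≤ h * L e) {j : ℕ} {x : ℝ} (hx : 0 ≤ x)
    (hS : P (Stay (hL L val)) ≤ 2 * P (Slope L u val (A * (1 + x)) C (2 ^ (j + 1)))) :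
    R.f u j ≤ ENNReal.ofReal (2 ^ j * (10 * A) * (1 + x)) *
      ((1 + (P (cf.word h) * (P (Stay (hL L val)) / 2))⁻¹) *
        (R.pG⁻¹ * ((R.G + 1 : ℕ) * P (R.Big (pa j))))) := by
  have hlam1 : 1 ≤ A * (1 + x) := by nlinarith
  have hue' : |((u e : ℤ) : ℝ)| ≤ A * (1 + x) * L e := by
    have : 0 ≤ A * L e * x := by positivity
    nlinarith
  have hSne : P (Slope L u val (A * (1 + x)) C (2 ^ (j + 1))) ≠ 0 := by
    intro h0
    rw [h0, mul_zero] at hS
    exact R.p_ne (nonpos_iff_eq_zero.1 hS)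
  obtain ⟨F, hF⟩ := exists_fresh_slope cf hLe u hR1 hR2 hD hC hh hlam1 hue' hSne
  have hpb := pb_pos j
  -- the integer l
  set y : ℝ := 2 * (2 * (A * (1 + x))) * pb j with hy
  have hy0 : 0 ≤ y := by positivity
  obtain ⟨l, hl1, hl2⟩ : ∃ l : ℕ, y < l ∧ (l : ℝ) ≤ y + 1 :=
    ⟨⌊y⌋₊ + 1, by exact_mod_cast Nat.lt_floor_add_one y, by
      push_cast
      have := Nat.floor_le hy0
      linarith⟩
  have hmain := R.main (by positivity) (pb_le j) F hl1 (a := pa j)
  have h2 : (l : ℝ) ≤ 2 ^ j * (10 * A) * (1 + x) := by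
    have e1 : pb j = 2 * 2 ^ j - 1 := by unfold pb; rw [pow_succ]; ring
    have e2 : (1 : ℝ) ≤ 2 ^ j := one_le_pow₀ (by norm_num)
    have e3 : 1 ≤ 2 ^ j * (A * (1 + x)) := by nlinarith
    rw [hy, e1] at hl2
    nlinarith
  have h3 : (l : ℝ≥0∞) ≤ ENNReal.ofReal (2 ^ j * (10 * A) * (1 + x)) := by
    rw [← ENNReal.ofReal_natCast]
    exact ENNReal.ofReal_le_ofReal h2
  have h4 : F.c⁻¹ ≤ (P (cf.word h) * (P (Stay (hL L val)) / 2))⁻¹ := by
    rw [ENNReal.inv_le_inv, hF]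
    gcongr
    exact ENNReal.div_le_of_le_mul' hS
  calc R.f u j ≤ _ := hmain
    _ ≤ _ := by gcongr

/-- **assembly** -/
theorem RegSys.x_bounded (R : RegSys L val P) {e : V} {D : Set V} (cf : CF L val P e D)
    (hLe : 0 < L e) (u : V →+ ℤ) {R1 R2 : ℝ} (hR1 : 0 ≤ R1) (hR2 : 0 ≤ R2)
    (hD : ∀ δ ∈ D, |L δ| ≤ R1 ∧ |((u δ : ℤ) : ℝ)| ≤ R2)
    (hS : R.SUC u) (hBig : ∑' j : ℕ, 2 ^ j * P (R.Big (pa j)) ≠ ∞) :
    ∃ M : ℝ≥0∞, M ≠ ∞ ∧ ∀ J, R.x u J ≤ M := by
  obtain ⟨A0, C, hA0, hC, J0, hS⟩ := hS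
  -- enlarge A such that |u e| ≤ A L e
  set A : ℝ := max A0 (|((u e : ℤ) : ℝ)| / L e) with hAdef
  have hA : 1 ≤ A := hA0.trans (le_max_left _ _)
  have hue : |((u e : ℤ) : ℝ)| ≤ A * L e := by
    have := le_max_right A0 (|((u e : ℤ) : ℝ)| / L e)
    rw [div_le_iff₀ hLe] at this
    exact this
  have hfin := R.x_ne_top cf hLe u hR1 hR2 hD
  obtain ⟨h, hh'⟩ := exists_nat_gt ((2 * R1 + C + R2 + 1) / L e)
  rw [div_lt_iff₀ hLe] at hh'
  have hh : 2 * R1 + C + R2 + 1 ≤ h * L e := hh'.le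
  set K : ℝ≥0∞ := (1 + (P (cf.word h) * (P (Stay (hL L val)) / 2))⁻¹) *
        (R.pG⁻¹ * (R.G + 1 : ℕ)) with hK
  have hKtop : K ≠ ∞ := by
    refine ENNReal.mul_ne_top (ENNReal.add_ne_top.2 ⟨ENNReal.one_ne_top, ENNReal.inv_ne_top.2 ?_⟩)
      (ENNReal.mul_ne_top (ENNReal.inv_ne_top.2 R.pG_ne) (ENNReal.natCast_ne_top _))
    refine mul_ne_zero (cf.word_ne h) ?_
    rw [Ne, ENNReal.div_eq_zero_iff]
    push Not
    exact ⟨R.p_ne, by norm_num⟩
  set K' : ℝ≥0∞ := ENNReal.ofReal (20 * A) * K with hK'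
  have hK'top : K' ≠ ∞ := ENNReal.mul_ne_top ENNReal.ofReal_ne_top hKtop
  -- bound of one term
  have hterm : ∀ j, J0 ≤ j + 1 → R.f u j + R.f (-u) j ≤
      K' * (2 ^ j * P (R.Big (pa j))) * (1 + R.x u (j + 1)) := by
    intro j hj
    set x : ℝ := (R.x u (j + 1)).toReal with hx
    have hx0 : 0 ≤ x := ENNReal.toReal_nonneg
    have hxle : R.x u (j + 1) ≤ ENNReal.ofReal x := by
      rw [hx, ENNReal.ofReal_toReal (hfin _)]
    have h1 := hS (j + 1) hj x hx0 hxle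
    have h1' : P (Stay (hL L val)) ≤ 2 * P (Slope L u val (A * (1 + x)) C (2 ^ (j + 1))) := by
      refine h1.trans (mul_le_mul' le_rfl (measure_mono ?_))
      rintro s ⟨hs1, hs2⟩
      refine ⟨hs1, fun t => ?_⟩
      rcases hs2 t with h | h
      · left
        have hnn : 0 ≤ L (pos val s t) + C := by
          have := (stay_iff L val s).1 hs1 t
          linarith
        refine h.trans (mul_le_mul_of_nonneg_right ?_ hnn)
        exact mul_le_mul_of_nonneg_right (le_max_left _ _) (by linarith)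
      · right; exact h
    have h2 := R.f_bound cf hLe u hR1 hR2 hD hA hue hC hh hx0 h1'
    have hueN : |(((-u) e : ℤ) : ℝ)| ≤ A * L e := by simpa using hue
    have h3 := R.f_bound cf hLe (-u) hR1 hR2
      (fun δ hδ => ⟨(hD δ hδ).1, by simpa using (hD δ hδ).2⟩) hA hueN hC hh hx0
      (by rw [slope_neg]; exact h1')
    have e0 : ENNReal.ofReal (2 ^ j * (10 * A) * (1 + x)) =
        ENNReal.ofReal (10 * A) * (2 ^ j * (1 + R.x u (j + 1))) := by
      have hA0' : 0 ≤ 10 * A := by linarith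
      rw [show (2 : ℝ) ^ j * (10 * A) * (1 + x) = (10 * A) * (2 ^ j * (1 + x)) by ring,
        ENNReal.ofReal_mul hA0', ENNReal.ofReal_mul (p := (2 : ℝ) ^ j) (by positivity),
        ENNReal.ofReal_add zero_le_one hx0, ENNReal.ofReal_one, hx,
        ENNReal.ofReal_toReal (hfin _), ENNReal.ofReal_pow (by norm_num)]
      norm_num
    have e1 : ENNReal.ofReal (20 * A) = ENNReal.ofReal (10 * A) + ENNReal.ofReal (10 * A) := by
      rw [← ENNReal.ofReal_add (by linarith) (by linarith)]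
      congr 1; ring
    calc R.f u j + R.f (-u) j ≤ _ := add_le_add h2 h3
      _ = K' * (2 ^ j * P (R.Big (pa j))) * (1 + R.x u (j + 1)) := by
          rw [e0, hK', hK, e1]; ring
  -- choose J1
  have htail : Tendsto (fun n => ∑' j, 2 ^ (j + n) * P (R.Big (pa (j + n)))) atTop (𝓝 0) :=
    ENNReal.tendsto_sum_nat_add _ hBig
  have hpos : (0 : ℝ≥0∞) < (2 * (K' + 1))⁻¹ := by
    rw [ENNReal.inv_pos]
    exact ENNReal.mul_ne_top (by norm_num) (ENNReal.add_ne_top.2 ⟨hK'top, ENNReal.one_ne_top⟩)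
  obtain ⟨N, hN⟩ := (eventually_atTop.1 (htail.eventually (gt_mem_nhds hpos)))
  set J1 := max N J0 with hJ1
  have hsmall : K' * ∑' j, 2 ^ (j + J1) * P (R.Big (pa (j + J1))) ≤ 2⁻¹ := by
    have h1 := (hN J1 (le_max_left _ _)).le
    calc K' * ∑' j, 2 ^ (j + J1) * P (R.Big (pa (j + J1)))
        ≤ (K' + 1) * (2 * (K' + 1))⁻¹ := by
          gcongr
          exact le_self_add
      _ = 2⁻¹ := by
          rw [ENNReal.mul_inv (Or.inl (by norm_num)) (Or.inl (by norm_num)), mul_comm (2⁻¹),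
            ← mul_assoc, ENNReal.mul_inv_cancel (by simp)
              (ENNReal.add_ne_top.2 ⟨hK'top, ENNReal.one_ne_top⟩), one_mul]
  refine ⟨2 * R.x u J1 + 1, ENNReal.add_ne_top.2
    ⟨ENNReal.mul_ne_top (by norm_num) (hfin _), ENNReal.one_ne_top⟩, fun J => ?_⟩
  rcases le_or_gt J J1 with hJ | hJ
  · calc R.x u J ≤ R.x u J1 := R.x_mono u hJ
      _ ≤ 2 * R.x u J1 := by
          rw [two_mul]; exact le_self_add
      _ ≤ _ := le_self_add
  · -- x_J = x_{J1} + sum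
    obtain ⟨m, rfl⟩ := Nat.exists_eq_add_of_le hJ.le
    have hsp : R.x u (J1 + m) =
        R.x u J1 + ∑ i ∈ Finset.range m, (R.f u (J1 + i) + R.f (-u) (J1 + i)) := by
      unfold RegSys.x
      rw [Finset.sum_range_add]
    have hsplit : R.x u (J1 + m) ≤ R.x u J1 + 2⁻¹ * (1 + R.x u (J1 + m)) := by
      refine hsp.le.trans (add_le_add le_rfl ?_)
      calc ∑ i ∈ Finset.range m, (R.f u (J1 + i) + R.f (-u) (J1 + i))
          ≤ ∑ i ∈ Finset.range m, K' * (2 ^ (J1 + i) * P (R.Big (pa (J1 + i)))) *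
              (1 + R.x u (J1 + m)) := by
            refine Finset.sum_le_sum fun i hi => ?_
            have hi' := Finset.mem_range.1 hi
            refine (hterm (J1 + i) ?_).trans ?_
            · have := le_max_right N J0; omega
            · gcongr
              exact R.x_mono u (by omega)
        _ = (K' * ∑ i ∈ Finset.range m, 2 ^ (J1 + i) * P (R.Big (pa (J1 + i)))) *
              (1 + R.x u (J1 + m)) := by
            rw [Finset.mul_sum, Finset.sum_mul]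
        _ ≤ 2⁻¹ * (1 + R.x u (J1 + m)) := by
            gcongr
            refine le_trans ?_ hsmall
            gcongr
            calc ∑ i ∈ Finset.range m, 2 ^ (J1 + i) * P (R.Big (pa (J1 + i)))
                = ∑ i ∈ Finset.range m, 2 ^ (i + J1) * P (R.Big (pa (i + J1))) := by
                  refine Finset.sum_congr rfl fun i _ => by rw [add_comm J1 i]
              _ ≤ _ := ENNReal.sum_le_tsum _
    -- solve
    have hxf := hfin (J1 + m)
    set X := R.x u (J1 + m) with hX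
    have h5 : X ≤ R.x u J1 + 2⁻¹ + 2⁻¹ * X := by
      calc X ≤ _ := hsplit
        _ = _ := by ring
    have hhalf : (2 : ℝ≥0∞)⁻¹ * X ≠ ∞ := ENNReal.mul_ne_top (by norm_num) hxf
    have h6 : 2⁻¹ * X ≤ R.x u J1 + 2⁻¹ := by
      have e : X = 2⁻¹ * X + 2⁻¹ * X := by
        rw [← add_mul, ENNReal.inv_two_add_inv_two, one_mul]
      have h7 : 2⁻¹ * X + 2⁻¹ * X ≤ (R.x u J1 + 2⁻¹) + 2⁻¹ * X := by rw [← e]; exact h5
      exact (ENNReal.add_le_add_iff_right hhalf).1 h7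
    calc X = 2 * (2⁻¹ * X) := by
          rw [← mul_assoc, ENNReal.mul_inv_cancel (by norm_num) (by norm_num), one_mul]
      _ ≤ 2 * (R.x u J1 + 2⁻¹) := by gcongr
      _ = 2 * R.x u J1 + 1 := by
          rw [mul_add, ENNReal.mul_inv_cancel (by norm_num) (by norm_num)]

end Crest.Agent.R154.B2
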