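import Crest.Agent.R154.B2Inst_263

/-!
Row 154, block B2: the fresh cone property `CF` of the model, all frames.
-/

set_option autoImplicit false
set_option linter.unusedSectionVars false
set_option linter.deprecated false

namespace Crest.Agent.R154.Bind263

open MeasureTheory ProbabilityTheory Filter Set Crest.ProbabilityR.RandomEnvironment
open Crest.Agent.R154.Ren263 Crest.Agent.R154.RenG263 Crest.Agent.R154.Mk561
open scoped ENNReal Topology

variable {d : ℕ} {Q : Measure (Environment d)} [IsProbabilityMeasure Q] {κ : ℝ} {R : ℕ}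

/-- the straight sequence of marks `(e,b)` -/
def strt (e : Step d) (b : Bool) : MPath d := fun _ => (e, b)

lemma pos_strt (e : Step d) (b : Bool) (x : Site d) {s : MPath d} {h : ℕ}
    (hs : s ∈ Cy (strt e b) h) {k : ℕ} (hk : k ≤ h) : Mk561.pos x s k = x + k • stepVec e := by
  rw [Mk561.pos_congr x (M' := strt e b) hs hk]
  simp [Mk561.pos, strt, stp]

/-- the box of radius `R` -/
def box (d R : ℕ) : Set (Site d) := {z | ∀ i, |z i| ≤ (R : ℤ)}

lemma sep_of_notMem {R : ℕ} {S T : Set (Site d)} (h : ∀ a ∈ S, ∀ b ∈ T, a - b ∉ box d R) :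
    SepR R S T := by
  intro a ha b hb
  have := h a ha b hb
  simp only [box, mem_setOf_eq, not_forall, not_le] at this
  obtain ⟨i, hi⟩ := this
  exact ⟨i, hi⟩

/-- the mark bit of the straight words -/
noncomputable def bitOf (d : ℕ) (κ : ℝ) : Bool := open Classical in if 0 < kf d κ then true else false

lemma word_pos' (F : Frame Q κ R) (e : Step d) (h : ℕ) :
    mkAnn κ Q 0 (Cy (strt e (bitOf d κ)) h) ≠ 0 := by
  rw [mkAnn_apply κ Q 0 (measurableSet_Cy _ _)]
  intro h0
  rw [lintegral_eq_zero_iff (measurable_mk_apply κ 0 (measurableSet_Cy _ _))] at h0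
  obtain ⟨ω, h1, h2⟩ := (h0.and F.elp).exists
  simp only [Pi.zero_apply, mk_cyl, wgt] at h1
  rw [Finset.prod_eq_zero_iff] at h1
  obtain ⟨i, _, hi⟩ := h1
  unfold bitOf strt at hi
  by_cases hk : 0 < kf d κ
  · rw [if_pos hk, mw_forced, ENNReal.ofReal_eq_zero] at hi
    linarith
  · rw [if_neg hk] at hi
    have hk0 : kf d κ = 0 := le_antisymm (not_lt.1 hk) (kf_nonneg κ)
    have h3 : reg κ (ω (Mk561.pos 0 (strt e false) i)) = ω (Mk561.pos 0 (strt e false) i) :=
      reg_eq fun e => by rw [hk0]; exact (h2 _ e).le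
    unfold mw at hi
    simp only [Bool.false_eq_true, if_false, ENNReal.ofReal_eq_zero] at hi
    have h4 := h2 (Mk561.pos 0 (strt e false) i) e
    have h5 : (reg κ (ω (Mk561.pos 0 (strt e false) i))).1 e - kf d κ ≤ 0 := hi
    rw [h3, hk0] at h5
    linarith

/-- stationarity for the probability of straight words -/
lemma word_stat (F : Frame Q κ R) (e : Step d) (b : Bool) (h : ℕ) (x : Site d) :
    ∫⁻ ω, wgt κ ω x (strt e b) h ∂Q = mkAnn κ Q 0 (Cy (strt e b) h) := by
  rw [← mkAnn_stat F.stat κ x, mkAnn_apply κ Q x (measurableSet_Cy _ _)]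
  simp only [mk_cyl]

/-- the cylinder identity behind `CF` -/
theorem cf_cyl (F : Frame Q κ R) (ℓ : Fin d → ℝ) (e : Step d) (he : 0 < LH ℓ (stepVec e))
    (W : MPath d) (n h : ℕ) {B : Set (MPath d)} (hB : MeasurableSet B)
    (hBS : B ⊆ Ren263.Stay (mht ℓ))
    (h1 : ∀ k < n, ∀ j < h, Mk561.pos 0 W k - Mk561.pos 0 W n ≠ j • stepVec e)
    (h2 : ∀ k < n, ∀ s' ∈ B, ∀ m, Mk561.pos 0 W k - Mk561.pos 0 W n -
      (h • stepVec e + Mk561.pos 0 s' m) ∉ box d R) :
    mkAnn κ Q 0 (Cy W n ∩ Ren263.shift n ⁻¹'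
        (Cy (strt e (bitOf d κ)) h ∩ Ren263.shift h ⁻¹' B)) =
      mkAnn κ Q 0 (Cy (strt e (bitOf d κ)) h) * mkAnn κ Q 0 B * mkAnn κ Q 0 (Cy W n) := by
  set b := bitOf d κ with hb
  set V : MPath d := strt e b with hV
  set x := Mk561.pos 0 W n with hx
  have hposV : ∀ y : Site d, ∀ k, k ≤ h → Mk561.pos y V k = y + k • stepVec e := fun y k hk =>
    pos_strt e b y (s := V) (h := h) (fun _ _ => rfl) hk
  set y := x + h • stepVec e with hy
  have hyV : Mk561.pos x V h = y := hposV x h le_rfl
  have hm1 : MeasurableSet (Cy V h ∩ Ren263.shift h ⁻¹' B) :=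
    (measurableSet_Cy V h).inter (Ren263.measurable_shift h hB)
  have hint : mkAnn κ Q 0 (Cy W n ∩ Ren263.shift n ⁻¹' (Cy V h ∩ Ren263.shift h ⁻¹' B)) =
      ∫⁻ ω, wgt κ ω 0 W n * (wgt κ ω x V h * mkLaw κ ω y B) ∂Q := by
    rw [mkAnn_apply κ Q 0 ((measurableSet_Cy W n).inter (Ren263.measurable_shift n hm1))]
    refine lintegral_congr fun ω => ?_
    rw [markov_Cy κ ω 0 W n hm1, markov_Cy κ ω _ V h hB, ← hx, hyV]
  -- the read sets
  set S1 : Set (Site d) := {z | ∃ k < n, z = Mk561.pos 0 W k} with hS1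
  set T2 : Set (Site d) := {z | ∃ s' ∈ B, ∃ m, z = y + Mk561.pos 0 s' m} with hT2
  have hWS : W ∈ RdB S1 0 n := fun i hi _ => ⟨i, hi, rfl⟩
  have hBT : B ⊆ Rd T2 y := by
    intro s' hs' m _
    refine ⟨s', hs', m, ?_⟩
    have := Mk561.pos_add 0 y s' m
    rw [zero_add] at this
    rw [this, add_comm]
  have hf : Measurable fun ω : Environment d => wgt κ ω 0 W n := measurable_wgt κ 0 W n
  have hg : Measurable fun ω : Environment d => mkLaw κ ω y B := measurable_mk_apply κ y hB
  have hgint : ∫⁻ ω, mkLaw κ ω y B ∂Q = mkAnn κ Q 0 B := by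
    rw [← mkAnn_stat F.stat κ y, mkAnn_apply κ Q y hB]
  have hfint : ∫⁻ ω, wgt κ ω 0 W n ∂Q = mkAnn κ Q 0 (Cy W n) := by
    rw [mkAnn_apply κ Q 0 (measurableSet_Cy W n)]
    simp only [mk_cyl]
  have hsep12 : SepR R S1 T2 := by
    refine sep_of_notMem ?_
    rintro _ ⟨k, hk, rfl⟩ _ ⟨s', hs', m, rfl⟩
    have := h2 k hk s' hs' m
    intro hcon
    apply this
    have e1 : Mk561.pos 0 W k - x - (h • stepVec e + Mk561.pos 0 s' m) =
        Mk561.pos 0 W k - (y + Mk561.pos 0 s' m) := by rw [hy]; abel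
    rw [e1]; exact hcon
  rw [hint]
  by_cases hk : 0 < kf d κ
  · -- forced letters
    have hb1 : b = true := by rw [hb]; unfold bitOf; rw [if_pos hk]
    have hw : ∀ (ω : Environment d) (z : Site d),
        wgt κ ω z V h = ENNReal.ofReal (kf d κ) ^ h := by
      intro ω z
      unfold wgt
      simp only [hV, hb1, strt, mw_forced]
      rw [Finset.prod_const, Finset.card_range]
    have hw2 : mkAnn κ Q 0 (Cy V h) = ENNReal.ofReal (kf d κ) ^ h := by
      rw [mkAnn_apply κ Q 0 (measurableSet_Cy V h)]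
      simp only [mk_cyl, hw]
      simp
    have e1 : ∀ ω : Environment d, wgt κ ω 0 W n * (wgt κ ω x V h * mkLaw κ ω y B) =
        ENNReal.ofReal (kf d κ) ^ h * (wgt κ ω 0 W n * mkLaw κ ω y B) := by
      intro ω; rw [hw]; ring
    simp only [e1]
    have hfg : Measurable fun ω : Environment d => wgt κ ω 0 W n * mkLaw κ ω y B := hf.mul hg
    rw [lintegral_const_mul _ hfg, lintegral_mul_sep F.fin hsep12 hf hg
      (fun _ _ hω => wgt_local κ hω hWS) (fun _ _ hω => mk_local κ hω _ hB hBT), hw2, hfint, hgint]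
    ring
  · -- range 0, letters read
    have hR0 : R = 0 := F.frc.resolve_right hk
    subst hR0
    set T1 : Set (Site d) := {z | ∃ j < h, z = x + j • stepVec e} with hT1
    have hVT : V ∈ RdB T1 x h := fun i hi _ => ⟨i, hi, hposV x i hi.le⟩
    have hgV : Measurable fun ω : Environment d => wgt κ ω x V h := measurable_wgt κ x V h
    have hsepV : SepR 0 T1 T2 := by
      refine sep_of_notMem ?_
      rintro _ ⟨j, hj, rfl⟩ _ ⟨s', hs', m, rfl⟩ hcon
      have hz : x + j • stepVec e - (y + Mk561.pos 0 s' m) = 0 := by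
        funext i
        have := hcon i
        simpa using this
      have hz2 : LH ℓ (x + j • stepVec e - (y + Mk561.pos 0 s' m)) = 0 := by rw [hz, map_zero]
      rw [hy, map_sub, map_add, map_add, map_add, map_nsmul, map_nsmul] at hz2
      have h5 : 0 ≤ LH ℓ (Mk561.pos 0 s' m) := by
        have := hBS hs' m
        have e2 := sht_pos ℓ 0 s' m
        rw [sht_zero, zero_add] at e2
        rw [← e2] at this
        exact this
      have hj' : (j : ℝ) < h := by exact_mod_cast hj
      simp only [nsmul_eq_mul] at hz2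
      nlinarith
    have hsepA : SepR 0 S1 (T1 ∪ T2) := by
      intro a ha c hc
      rcases hc with hc | hc
      · refine sep_of_notMem (R := 0) (S := S1) (T := T1) ?_ a ha c hc
        rintro _ ⟨k, hk1, rfl⟩ _ ⟨j, hj, rfl⟩ hcon
        apply h1 k hk1 j hj
        have hz : Mk561.pos 0 W k - (x + j • stepVec e) = 0 := by
          funext i
          have := hcon i
          simpa using this
        rw [← sub_sub] at hz
        exact sub_eq_zero.1 hz
      · exact hsep12 a ha c hc
    have hVg : Measurable fun ω : Environment d => wgt κ ω x V h * mkLaw κ ω y B := hgV.mul hg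
    rw [lintegral_mul_sep F.fin hsepA hf hVg (fun _ _ hω => wgt_local κ hω hWS)
      (fun _ _ hω => by
        have e1 := wgt_local κ (fun z hz => hω z (Or.inl hz)) hVT
        have e2 := mk_local κ (fun z hz => hω z (Or.inr hz)) _ hB hBT
        simp only [e1, e2]), lintegral_mul_sep F.fin hsepV hgV hg
        (fun _ _ hω => wgt_local κ hω hVT) (fun _ _ hω => mk_local κ hω _ hB hBT), hfint, hgint,
      word_stat F e b h x]
    ring

/-- **the fresh cone property of the model**, all frames -/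
noncomputable def Frame.cf (F : Frame Q κ R) (ℓ : Fin d → ℝ) (e : Step d)
    (he : 0 < LH ℓ (stepVec e)) :
    B2.CF (LH ℓ) (stp : Mark d → Site d) (mkAnn κ Q 0) (stepVec e) (box d R) where
  word h := Cy (strt e (bitOf d κ)) h
  word_det h := det_Cy _ h
  word_pos h s hs k hk := by
    rw [pos_eq, pos_strt e (bitOf d κ) 0 hs hk, zero_add]
  word_ne h := word_pos' F e h
  fresh n h A B hA hB hBS h1 h2 := by
    refine le_of_eq ?_
    set T := Ren263.shift n ⁻¹' (Cy (strt e (bitOf d κ)) h ∩ Ren263.shift h ⁻¹' B) with hT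
    have hTm : MeasurableSet T := Ren263.measurable_shift n
      ((measurableSet_Cy _ h).inter (Ren263.measurable_shift h hB))
    have key := det_eq (Φ := (mkAnn κ Q 0).restrict T)
      (Ψ := (mkAnn κ Q 0 (Cy (strt e (bitOf d κ)) h) * mkAnn κ Q 0 B) • mkAnn κ Q 0) hA ?_
    · rw [Measure.restrict_apply hA.measurableSet, Measure.smul_apply, smul_eq_mul] at key
      exact key.symm
    · intro W hW
      rw [Measure.restrict_apply (measurableSet_Cy W n), Measure.smul_apply, smul_eq_mul, hT]
      refine cf_cyl F ℓ e he W n h hB hBS (fun k hk j hj => ?_) (fun k hk s' hs' m => ?_)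
      · have := h1 W hW k hk j hj
        rwa [pos_eq, pos_eq] at this
      · have := h2 W hW k hk s' hs' m
        rwa [pos_eq, pos_eq, pos_eq] at this

end Crest.Agent.R154.Bind263
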