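import Mathlib

/-!
Row 154, block B2 (E[B] < ∞), deterministic part (D): exposed times, trials and the counting lemma.
`X : ℕ → V` is the position path, `L` the height, `u` one lateral coordinate with a sign.
-/

set_option autoImplicit false

namespace Crest.Agent.R154.B2

open Finset

variable {V : Type*} [AddCommGroup V] (L : V →+ ℝ) (u : V →+ ℤ)

/-- the open cone of aperture `lam` around the height direction -/
def Cone (lam : ℝ) : Set V := {z | 0 < L z ∧ |(u z : ℝ)| ≤ lam * L z}

/-- the cone truncated at height `H` (everything above `H` is allowed) -/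
def UU (lam H : ℝ) : Set V := {z | 0 < L z ∧ (|(u z : ℝ)| ≤ lam * L z ∨ H < L z)}

/-- strict record time -/
def Rec (X : ℕ → V) (n : ℕ) : Prop := ∀ k < n, L (X k) < L (X n)

/-- `t` is in the phase `[a,b)` of the record interval started at `σ` -/
def Ph (a b : ℝ) (X : ℕ → V) (σ t : ℕ) : Prop :=
  Rec L X σ ∧ σ ≤ t ∧ (∀ m, σ < m → m ≤ t → ¬ Rec L X m) ∧
    (∃ m, σ ≤ m ∧ m ≤ t ∧ a ≤ L (X σ) - L (X m)) ∧
    ∀ m, σ ≤ m → m ≤ t → L (X σ) - L (X m) < b

/-- exposed time -/
def Expo (lam : ℝ) (X : ℕ → V) (t : ℕ) : Prop :=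
  ∀ k < t, X k ≠ X t ∧ X k - X t ∉ Cone L u lam

/-- lateral record relative to the start `r` -/
def LRec (X : ℕ → V) (r t : ℕ) : Prop := ∀ k, r ≤ k → k < t → u (X k) < u (X t)

/-- trial time of the phase -/
def Tr (a b lam : ℝ) (X : ℕ → V) (σ t : ℕ) : Prop :=
  Ph L a b X σ t ∧ Expo L u lam X t ∧ ∀ t', t' < t → Ph L a b X σ t' → Expo L u lam X t' →
    ∃ m, t' < m ∧ m ≤ t ∧ X m - X t' ∉ Cone L u lam

variable {L u}

lemma cone_add {lam : ℝ} {z w : V} (hz : z ∈ Cone L u lam) (hw : w ∈ Cone L u lam) :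
    z + w ∈ Cone L u lam := by
  refine ⟨?_, ?_⟩
  · rw [map_add]; exact add_pos hz.1 hw.1
  · rw [map_add, map_add, Int.cast_add, mul_add]
    exact (abs_add_le _ _).trans (add_le_add hz.2 hw.2)

lemma Rec.mono_le {X : ℕ → V} {σ : ℕ} (h : Rec L X σ) {k : ℕ} (hk : k ≤ σ) :
    L (X k) ≤ L (X σ) := by
  rcases hk.lt_or_eq with h1 | h1
  · exact (h k h1).le
  · rw [h1]

/-- no record in `(σ,t]`: all heights up to `t` are at most the height at `σ` -/
lemma height_le_of_noRec {X : ℕ → V} {σ t : ℕ} (h : Rec L X σ)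
    (hn : ∀ m, σ < m → m ≤ t → ¬ Rec L X m) : ∀ k, k ≤ t → L (X k) ≤ L (X σ) := by
  intro k
  induction k using Nat.strong_induction_on with
  | _ k ih =>
    intro hk
    rcases le_or_gt k σ with h1 | h1
    · exact h.mono_le h1
    · by_contra hcon
      push Not at hcon
      refine hn k h1 hk fun m hm => ?_
      exact lt_of_le_of_lt (ih m hm (hm.le.trans hk)) hcon

lemma Ph.height_le {a b : ℝ} {X : ℕ → V} {σ t : ℕ} (h : Ph L a b X σ t) {k : ℕ} (hk : k ≤ t) :
    L (X k) ≤ L (X σ) := height_le_of_noRec h.1 h.2.2.1 k hk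

lemma Ph.height_gt {a b : ℝ} {X : ℕ → V} {σ t : ℕ} (h : Ph L a b X σ t) :
    L (X σ) - L (X t) < b := h.2.2.2.2 t h.2.1 le_rfl

/-- phases are time intervals -/
lemma Ph.between {a b : ℝ} {X : ℕ → V} {σ t1 s t2 : ℕ} (h1 : Ph L a b X σ t1)
    (h2 : Ph L a b X σ t2) (hs1 : t1 ≤ s) (hs2 : s ≤ t2) : Ph L a b X σ s := by
  obtain ⟨m, hm1, hm2, hm3⟩ := h1.2.2.2.1
  exact ⟨h1.1, h1.2.1.trans hs1, fun m hm hm' => h2.2.2.1 m hm (hm'.trans hs2),
    ⟨m, hm1, hm2.trans hs1, hm3⟩, fun m hm hm' => h2.2.2.2.2 m hm (hm'.trans hs2)⟩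

/-- every exposed time is covered by a running trial -/
lemma cover {a b lam : ℝ} {X : ℕ → V} {σ : ℕ} : ∀ t, Ph L a b X σ t → Expo L u lam X t →
    ∃ t₀ ≤ t, Tr L u a b lam X σ t₀ ∧ ∀ m, t₀ < m → m ≤ t → X m - X t₀ ∈ Cone L u lam := by
  intro t
  induction t using Nat.strong_induction_on with
  | _ t ih =>
    intro h1 h2
    by_cases hT : Tr L u a b lam X σ t
    · exact ⟨t, le_rfl, hT, fun m hm hm' => absurd hm (not_lt.2 hm')⟩
    · have : ∃ t', t' < t ∧ Ph L a b X σ t' ∧ Expo L u lam X t' ∧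
          ∀ m, t' < m → m ≤ t → X m - X t' ∈ Cone L u lam := by
        by_contra hcon
        push Not at hcon
        exact hT ⟨h1, h2, fun t' ht' hp he => hcon t' ht' hp he⟩
      obtain ⟨t', ht', hp, he, hrun⟩ := this
      obtain ⟨t₀, ht₀, hTr, hrun₀⟩ := ih t' ht' hp he
      refine ⟨t₀, ht₀.trans ht'.le, hTr, fun m hm hm' => ?_⟩
      rcases le_or_gt m t' with hmt | hmt
      · exact hrun₀ m hm hmt
      · rcases ht₀.lt_or_eq with h3 | h3
        · have := cone_add (hrun m hmt hm') (hrun₀ t' h3 le_rfl)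
          simpa using this
        · rw [h3]; exact hrun m hmt hm'

/-- window lemma -/
lemma window {a b lam : ℝ} (hlam : 0 ≤ lam) {X : ℕ → V} {σ r t1 t2 : ℕ}
    (hr : Rec L X r) (hrσ : r ≤ σ) (hstay : ∀ k, r ≤ k → L (X r) ≤ L (X k))
    (hp1 : Ph L a b X σ t1) (hp2 : Ph L a b X σ t2) (h12 : t1 < t2)
    (hl1 : LRec u X r t1) (hd : 2 * lam * b < (u (X t2) : ℝ) - u (X t1)) :
    ∃ t₀, t1 < t₀ ∧ t₀ ≤ t2 ∧ Tr L u a b lam X σ t₀ := by
  classical
  -- highest visited site in the cone above `X t2`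
  let A : Finset ℕ := (Finset.range (t2 + 1)).filter
    (fun k => X k = X t2 ∨ X k - X t2 ∈ Cone L u lam)
  have hA : t2 ∈ A := by simp [A]
  obtain ⟨k0, hk0A, hk0⟩ := A.exists_max_image (fun k => L (X k)) ⟨t2, hA⟩
  have hk0' : k0 ≤ t2 ∧ (X k0 = X t2 ∨ X k0 - X t2 ∈ Cone L u lam) := by
    simpa [A, Nat.lt_succ_iff] using hk0A
  -- first visit of that site
  have hex : ∃ k, X k = X k0 := ⟨k0, rfl⟩
  set s := Nat.find hex with hs
  have hs0 : X s = X k0 := Nat.find_spec hex
  have hsmin : ∀ k < s, X k ≠ X k0 := fun k hk => Nat.find_min hex hk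
  have hsk0 : s ≤ k0 := Nat.find_min' hex rfl
  have hst2 : s ≤ t2 := hsk0.trans hk0'.1
  have hxw : X s = X t2 ∨ X s - X t2 ∈ Cone L u lam := by rw [hs0]; exact hk0'.2
  have hLge : L (X t2) ≤ L (X s) := by
    rcases hxw with h | h
    · rw [h]
    · have := h.1; rw [map_sub] at this; linarith
  have htop : L (X s) ≤ L (X σ) := hp2.height_le hst2
  have hb2 : L (X σ) - L (X t2) < b := hp2.height_gt
  have hb0 : 0 < b := by
    have := hp2.height_le (le_refl t2); linarith
  have hdiff : L (X s) - L (X t2) < b := by linarith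
  -- lateral position of the site
  have hus : (u (X t2) : ℝ) - u (X s) ≤ lam * b := by
    rcases hxw with h | h
    · rw [h]; simp; positivity
    · have h1 := h.2
      rw [map_sub, map_sub, Int.cast_sub] at h1
      have h2 := neg_abs_le ((u (X s) : ℝ) - u (X t2))
      have h3 : lam * (L (X s) - L (X t2)) ≤ lam * b := by
        exact mul_le_mul_of_nonneg_left hdiff.le hlam
      linarith
  have hus1 : (u (X t1) : ℝ) + lam * b < u (X s) := by nlinarith
  have hlb : 0 ≤ lam * b := by positivity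
  have hσt1 := hp1.2.1
  -- first visit after `t1`
  have hst1 : t1 < s := by
    by_contra hcon
    push Not at hcon
    rcases lt_or_ge s r with h | h
    · have h1 := hr s h
      have h2 := hstay t2 (hrσ.trans (hσt1.trans h12.le))
      linarith
    · rcases hcon.lt_or_eq with h' | h'
      · have h1 : (u (X s) : ℝ) < u (X t1) := by exact_mod_cast hl1 s h h'
        linarith
      · rw [h'] at hus1; linarith
  have hps : Ph L a b X σ s := hp1.between hp2 hst1.le hst2
  -- exposed
  have hexp : Expo L u lam X s := by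
    intro k hk
    refine ⟨fun h => hsmin k hk (h.trans hs0), fun hc => ?_⟩
    have hkA : k ∈ A := by
      simp only [A, Finset.mem_filter, Finset.mem_range]
      refine ⟨by omega, ?_⟩
      rcases hxw with h | h
      · right; rw [← h]; exact hc
      · right
        have := cone_add hc h
        simpa using this
    have h1 := hk0 k hkA
    have h2 := hc.1
    rw [map_sub] at h2
    rw [hs0] at h2
    linarith
  obtain ⟨t₀, ht₀, hTr, hrun⟩ := cover s hps hexp
  refine ⟨t₀, ?_, ht₀.trans hst2, hTr⟩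
  rcases ht₀.lt_or_eq with h | h
  · have hc := hrun s h le_rfl
    have h1 := hc.2
    rw [map_sub, map_sub, Int.cast_sub] at h1
    have h2 := le_abs_self ((u (X s) : ℝ) - u (X t₀))
    have h3 : L (X s) - L (X t₀) < b := by
      have := hTr.1.height_gt; linarith
    have h4 : lam * (L (X s) - L (X t₀)) ≤ lam * b := mul_le_mul_of_nonneg_left h3.le hlam
    have h5 : (u (X t1) : ℝ) < u (X t₀) := by linarith
    by_contra hcon
    push Not at hcon
    rcases hcon.lt_or_eq with h' | h'
    · have h6 : (u (X t₀) : ℝ) < u (X t1) := by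
        exact_mod_cast hl1 t₀ (hrσ.trans hTr.1.2.1) h'
      linarith
    · rw [h'] at h5; exact lt_irrefl _ h5
  · rw [h]; exact hst1

open Classical in
/-- **counting lemma (D)** -/
lemma count {a b lam : ℝ} (hlam : 0 ≤ lam) {X : ℕ → V} {σ r : ℕ}
    (hr : Rec L X r) (hrσ : r ≤ σ) (hstay : ∀ k, r ≤ k → L (X r) ≤ L (X k))
    {l : ℕ} (hl : 2 * lam * b < l) (M : ℕ) :
    ((Finset.range M).filter (fun t => Ph L a b X σ t ∧ LRec u X r t)).card ≤
      l * (((Finset.range M).filter (fun t => Tr L u a b lam X σ t)).card + 1) := by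
  set R := (Finset.range M).filter (fun t => Ph L a b X σ t ∧ LRec u X r t) with hR
  set T := (Finset.range M).filter (fun t => Tr L u a b lam X σ t) with hT
  let f : ℕ → ℕ := fun t => (T.filter (fun t₀ => t₀ ≤ t)).card
  have hmaps : ∀ t ∈ R, f t ∈ Finset.range (T.card + 1) := by
    intro t _
    simp only [f, Finset.mem_range, Nat.lt_succ_iff]
    exact Finset.card_le_card (Finset.filter_subset _ _)
  have hfib : ∀ y ∈ Finset.range (T.card + 1), (R.filter (fun t => f t = y)).card ≤ l := by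
    intro y _
    by_contra hcon
    push Not at hcon
    set Fb := R.filter (fun t => f t = y) with hFb
    have hne : Fb.Nonempty := Finset.card_pos.1 (by omega)
    set t1 := Fb.min' hne
    set t2 := Fb.max' hne
    have ht1 : t1 ∈ Fb := Finset.min'_mem _ _
    have ht2 : t2 ∈ Fb := Finset.max'_mem _ _
    have h1 := (Finset.mem_filter.1 ht1)
    have h2 := (Finset.mem_filter.1 ht2)
    have h1R := (Finset.mem_filter.1 h1.1).2
    have h2R := (Finset.mem_filter.1 h2.1).2
    have h2M := Finset.mem_range.1 (Finset.mem_filter.1 h2.1).1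
    have hinj : (Fb.card : ℤ) ≤ u (X t2) - u (X t1) + 1 := by
      have him : (Fb.image fun t => u (X t)) ⊆ Finset.Icc (u (X t1)) (u (X t2)) := by
        intro z hz
        obtain ⟨t, ht, rfl⟩ := Finset.mem_image.1 hz
        have htR := (Finset.mem_filter.1 (Finset.mem_filter.1 ht).1).2
        have hge : t1 ≤ t := Finset.min'_le _ _ ht
        have hle : t ≤ t2 := Finset.le_max' _ _ ht
        have hrt1 : r ≤ t1 := hrσ.trans h1R.1.2.1
        rw [Finset.mem_Icc]
        constructor
        · rcases hge.lt_or_eq with h | h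
          · exact (htR.2 t1 hrt1 h).le
          · rw [h]
        · rcases hle.lt_or_eq with h | h
          · exact (h2R.2 t (hrt1.trans hge) h).le
          · rw [h]
      have hinj' : Set.InjOn (fun t => u (X t)) (Fb : Set ℕ) := by
        intro x hx y' hy' hxy
        have hxR := (Finset.mem_filter.1 (Finset.mem_filter.1 (Finset.mem_coe.1 hx)).1).2
        have hyR := (Finset.mem_filter.1 (Finset.mem_filter.1 (Finset.mem_coe.1 hy')).1).2
        simp only at hxy
        rcases lt_trichotomy x y' with h | h | h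
        · exact absurd hxy (ne_of_lt (hyR.2 x (hrσ.trans hxR.1.2.1) h))
        · exact h
        · exact absurd hxy.symm (ne_of_lt (hxR.2 y' (hrσ.trans hyR.1.2.1) h))
      have h3 := Finset.card_le_card him
      rw [Finset.card_image_of_injOn hinj', Int.card_Icc] at h3
      have h4 : u (X t1) ≤ u (X t2) := by
        have hle : t1 ≤ t2 := Finset.min'_le _ _ ht2
        rcases hle.lt_or_eq with h | h
        · exact (h2R.2 t1 (hrσ.trans h1R.1.2.1) h).le
        · rw [h]
      omega
    have hcast : (l : ℝ) ≤ (u (X t2) : ℝ) - u (X t1) := by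
      have h5 : (l : ℤ) ≤ u (X t2) - u (X t1) := by omega
      exact_mod_cast h5
    have hb0 : 0 < b := by
      have e1 := h1R.1.height_gt
      have e2 := h1R.1.height_le (le_refl t1)
      linarith
    have h12 : t1 < t2 := by
      by_contra h
      push Not at h
      have h6 : t1 = t2 := le_antisymm (Finset.min'_le _ _ ht2) h
      rw [h6] at hcast
      have : (0:ℝ) ≤ 2 * lam * b := by positivity
      simp at hcast
      have h7 : (l : ℝ) = 0 := by rw [hcast]; simp
      linarith
    obtain ⟨t₀, ht₀1, ht₀2, hTr⟩ := window hlam hr hrσ hstay h1R.1 h2R.1 h12 h1R.2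
      (lt_of_lt_of_le hl hcast)
    have hT0 : t₀ ∈ T := Finset.mem_filter.2 ⟨Finset.mem_range.2 (by omega), hTr⟩
    have hlt : f t1 < f t2 := by
      refine Finset.card_lt_card ?_
      rw [Finset.ssubset_iff_of_subset]
      · exact ⟨t₀, Finset.mem_filter.2 ⟨hT0, ht₀2⟩, fun h => by
          have := (Finset.mem_filter.1 h).2; omega⟩
      · intro x hx
        rw [Finset.mem_filter] at hx ⊢
        exact ⟨hx.1, hx.2.trans h12.le⟩
    rw [h1.2, h2.2] at hlt
    exact lt_irrefl _ hlt
  have := Finset.card_le_mul_card_image_of_maps_to hmaps l hfib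
  simpa [Finset.card_range] using this

end Crest.Agent.R154.B2
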