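import Crest.Agent.R154.B2MainIneq_719

/-!
Row 154, block B2: literal statements of the remaining inputs of the assembly: (SUC) and the fresh
cone property of the model.
-/

set_option autoImplicit false
set_option linter.unusedSectionVars false
set_option linter.unusedVariables false

namespace Crest.Agent.R154.B2

open MeasureTheory Set Filter Crest.Agent.R154.Ren263
open scoped ENNReal Topology

variable {S : Type*} {V : Type*} [AddCommGroup V]
variable [Countable S] [MeasurableSpace S] [MeasurableSingletonClass S]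
variable {L : V →+ ℝ} {val : S → V} {P : Measure (ℕ → S)} [IsProbabilityMeasure P]

/-- lower edge of the `j`-th depth phase -/
noncomputable def pa (j : ℕ) : ℝ := 2 ^ j - 1

/-- upper edge of the `j`-th depth phase -/
noncomputable def pb (j : ℕ) : ℝ := 2 ^ (j + 1) - 1

/-- `f_j(u) = E[1_Stay * number of lateral records (for u) of the first block in the j-th phase]` -/
noncomputable def RegSys.f (R : RegSys L val P) (u : V →+ ℤ) (j : ℕ) : ℝ≥0∞ :=
  ∑' σ, ∑' t, P (R.F u (pa j) (pb j) σ t)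

/-- `x_J` -/
noncomputable def RegSys.x (R : RegSys L val P) (u : V →+ ℤ) (J : ℕ) : ℝ≥0∞ :=
  ∑ j ∈ Finset.range J, (R.f u j + R.f (-u) j)

/-- the slope event: the path stays in the cone of slope `lam` (with vertex `C` below the start)
until its height exceeds `H` -/
def Slope (L : V →+ ℝ) (u : V →+ ℤ) (val : S → V) (lam C H : ℝ) : Set (ℕ → S) :=
  {s | s ∈ Stay (hL L val) ∧ ∀ t, |(u (pos val s t) : ℝ)| ≤ lam * (L (pos val s t) + C) ∨
    H < L (pos val s t)}

/-- **(SUC)** -/
def RegSys.SUC (R : RegSys L val P) (u : V →+ ℤ) : Prop :=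
  ∃ A C : ℝ, 1 ≤ A ∧ 0 ≤ C ∧ ∃ J0 : ℕ, ∀ J, J0 ≤ J → ∀ x : ℝ, 0 ≤ x →
    R.x u J ≤ ENNReal.ofReal x →
    P (Stay (hL L val)) ≤ 2 * P (Slope L u val (A * (1 + x)) C (2 ^ J))

/-- the fresh cone property of the model: straight words (direction `e`), then an event `B ⊆ Stay`
whose sites are `D`-separated from the past. `R = 0` : `D = {0}`. -/
structure CF (L : V →+ ℝ) (val : S → V) (P : Measure (ℕ → S)) (e : V) (D : Set V) where
  word : ℕ → Set (ℕ → S)
  word_det : ∀ h, Det h (word h)
  word_pos : ∀ h, ∀ s ∈ word h, ∀ k ≤ h, pos val s k = k • e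
  word_ne : ∀ h, P (word h) ≠ 0
  fresh : ∀ (n h : ℕ) (A B : Set (ℕ → S)), Det n A → MeasurableSet B → B ⊆ Stay (hL L val) →
    (∀ s ∈ A, ∀ k < n, ∀ j < h, pos val s k - pos val s n ≠ j • e) →
    (∀ s ∈ A, ∀ k < n, ∀ s' ∈ B, ∀ m, pos val s k - pos val s n - (h • e + pos val s' m) ∉ D) →
    P (word h) * P B * P A ≤ P (A ∩ shift n ⁻¹' (word h ∩ shift h ⁻¹' B))

end Crest.Agent.R154.B2
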