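import Crest.Agent.R154.B2Asm_719
import Crest.Agent.R154.B2Inst_263

/-!
Row 154, block B2: the lateral extent of the first block has finite mean.
-/

set_option autoImplicit false
set_option linter.unusedSectionVars false
set_option linter.unusedVariables false

namespace Crest.Agent.R154.B2

open MeasureTheory Set Filter Crest.Agent.R154.Ren263
open scoped ENNReal Topology

/-! ### deterministic part: extent ≤ number of lateral records -/

section det
variable {V : Type*} [AddCommGroup V] {L : V →+ ℝ} {u : V →+ ℤ}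

lemma exists_phase {X : ℕ → V} (σ t : ℕ) (hσ : Rec L X σ) (hσt : σ ≤ t)
    (hno : ∀ m, σ < m → m ≤ t → ¬ Rec L X m) : ∃ j, Ph L (pa j) (pb j) X σ t := by
  -- the maximal depth
  obtain ⟨m0, hm0, hmax⟩ := (Finset.Icc σ t).exists_max_image (fun m => L (X σ) - L (X m))
    ⟨t, Finset.mem_Icc.2 ⟨hσt, le_rfl⟩⟩
  rw [Finset.mem_Icc] at hm0
  set y : ℝ := L (X σ) - L (X m0) with hy
  have hy0 : 0 ≤ y := by
    have := hmax σ (Finset.mem_Icc.2 ⟨le_rfl, hσt⟩)
    simpa using this
  obtain ⟨j, hj1, hj2⟩ : ∃ j : ℕ, (2 : ℝ) ^ j ≤ y + 1 ∧ y + 1 < 2 ^ (j + 1) :=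
    exists_nat_pow_near (by linarith) (by norm_num)
  refine ⟨j, hσ, hσt, hno, ⟨m0, hm0.1, hm0.2, ?_⟩, fun m h1 h2 => ?_⟩
  · unfold pa; linarith
  · have := hmax m (Finset.mem_Icc.2 ⟨h1, h2⟩)
    unfold pb
    linarith

lemma exists_last_rec {X : ℕ → V} (t : ℕ) :
    ∃ σ ≤ t, Rec L X σ ∧ ∀ m, σ < m → m ≤ t → ¬ Rec L X m := by
  have h0 : Rec L X 0 := fun k hk => absurd hk (Nat.not_lt_zero k)
  exact exists_last (fun m => Rec L X m) h0 t

open Classical in
/-- the running maximum is at most the number of lateral records -/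
lemma le_card_lrec {X : ℕ → V} (h0 : u (X 0) = 0) (hstep : ∀ n, u (X (n + 1)) ≤ u (X n) + 1)
    (t : ℕ) : ∀ k ≤ t, ((u (X k) : ℤ) : ℝ) ≤
      ((Finset.range (t + 1)).filter (fun t' => LRec u X 0 t')).card - 1 := by
  classical
  induction t with
  | zero =>
    intro k hk
    have : k = 0 := by omega
    subst this
    have hc : ((Finset.range (0 + 1)).filter (fun t' => LRec u X 0 t')).card = 1 := by
      rw [Finset.card_eq_one]
      refine ⟨0, ?_⟩
      ext x
      simp only [Finset.mem_filter, Finset.mem_range, Finset.mem_singleton]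
      constructor
      · rintro ⟨h, _⟩; omega
      · rintro rfl; exact ⟨by omega, fun k _ hk => absurd hk (Nat.not_lt_zero k)⟩
    rw [hc, h0]; simp
  | succ t ih =>
    intro k hk
    have hmono : ((Finset.range (t + 1)).filter (fun t' => LRec u X 0 t')).card ≤
        ((Finset.range (t + 1 + 1)).filter (fun t' => LRec u X 0 t')).card :=
      Finset.card_le_card (Finset.filter_subset_filter _ (Finset.range_mono (by omega)))
    have hmono' : (((Finset.range (t + 1)).filter (fun t' => LRec u X 0 t')).card : ℝ) ≤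
        ((Finset.range (t + 1 + 1)).filter (fun t' => LRec u X 0 t')).card := by
      exact_mod_cast hmono
    rcases Nat.lt_or_ge k (t + 1) with h | h
    · exact (ih k (by omega)).trans (by linarith)
    · have hk' : k = t + 1 := by omega
      subst hk'
      by_cases hl : LRec u X 0 (t + 1)
      · have hc : ((Finset.range (t + 1 + 1)).filter (fun t' => LRec u X 0 t')).card =
            ((Finset.range (t + 1)).filter (fun t' => LRec u X 0 t')).card + 1 := by
          rw [Finset.range_add_one, Finset.filter_insert, if_pos hl,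
            Finset.card_insert_of_notMem]
          simp
        rw [hc]
        push_cast
        have h1 := ih t le_rfl
        have h2 : ((u (X (t + 1)) : ℤ) : ℝ) ≤ u (X t) + 1 := by exact_mod_cast hstep t
        linarith
      · unfold LRec at hl
        push Not at hl
        obtain ⟨k, _, hk1, hk2⟩ := hl
        have h1 := ih k (by omega)
        have h2 : ((u (X (t + 1)) : ℤ) : ℝ) ≤ u (X k) := by exact_mod_cast hk2
        linarith

end det

variable {S : Type*} {V : Type*} [AddCommGroup V]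
variable [Countable S] [MeasurableSpace S] [MeasurableSingletonClass S]
variable {L : V →+ ℝ} {val : S → V} {P : Measure (ℕ → S)} [IsProbabilityMeasure P]

/-- number of lateral records of the first block (all phases) -/
noncomputable def RegSys.W (R : RegSys L val P) (u : V →+ ℤ) (s : ℕ → S) : ℝ≥0∞ :=
  ∑' j, ∑' σ, ∑' t, ind (s ∈ R.F u (pa j) (pb j) σ t)

lemma RegSys.measurable_W (R : RegSys L val P) (u : V →+ ℤ) : Measurable (R.W u) := by
  unfold RegSys.W
  exact Measurable.tsum fun j => Measurable.tsum fun σ =>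
    Measurable.tsum fun t => measurable_ind (R.measurableSet_F _ _ _ _)

lemma RegSys.lintegral_W (R : RegSys L val P) (u : V →+ ℤ) :
    ∫⁻ s, R.W u s ∂P = ∑' j, R.f u j := by
  unfold RegSys.W RegSys.f
  rw [lintegral_tsum]
  · refine tsum_congr fun j => ?_
    rw [lintegral_tsum]
    · refine tsum_congr fun σ => ?_
      rw [lintegral_tsum]
      · exact tsum_congr fun t => lintegral_ind (R.measurableSet_F _ _ _ _)
      · exact fun t => (measurable_ind (R.measurableSet_F _ _ _ _)).aemeasurable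
    · exact fun σ => (Measurable.tsum fun t =>
        measurable_ind (R.measurableSet_F _ _ _ _)).aemeasurable
  · exact fun j => (Measurable.tsum fun σ => Measurable.tsum fun t =>
        measurable_ind (R.measurableSet_F _ _ _ _)).aemeasurable

lemma RegSys.le_W (R : RegSys L val P) (u : V →+ ℤ) (hu : ∀ a, u (val a) ≤ 1)
    {s : ℕ → S} (hs : s ∈ Stay (hL L val)) {t : ℕ} (ht : ∀ r', 1 ≤ r' → r' ≤ t → ¬ R.R s r') :
    ENNReal.ofReal (u (pos val s t) : ℤ) ≤ R.W u s := by
  classical
  have h1 := le_card_lrec (u := u) (X := pos val s) (by simp [pos])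
    (fun n => by
      have : pos val s (n + 1) = pos val s n + val (s n) := by
        unfold pos; rw [Finset.sum_range_succ]
      rw [this, map_add]
      linarith [hu (s n)]) t t le_rfl
  have h2 : ENNReal.ofReal (u (pos val s t) : ℤ) ≤
      (((Finset.range (t + 1)).filter (fun t' => LRec u (pos val s) 0 t')).card : ℝ≥0∞) := by
    rw [← ENNReal.ofReal_natCast]
    exact ENNReal.ofReal_le_ofReal (by linarith)
  refine h2.trans ?_
  rw [← sum_ind_eq_card]
  have h3 : ∀ t' ∈ Finset.range (t + 1), ind (LRec u (pos val s) 0 t') ≤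
      ∑' j, ∑' σ, ind (s ∈ R.F u (pa j) (pb j) σ t') := by
    intro t' ht'
    have ht'' : t' ≤ t := Nat.lt_succ_iff.1 (Finset.mem_range.1 ht')
    by_cases hl : LRec u (pos val s) 0 t'
    · obtain ⟨σ, hσ1, hσ2, hσ3⟩ := exists_last_rec (L := L) (X := pos val s) t'
      obtain ⟨j, hj⟩ := exists_phase σ t' hσ2 hσ1 hσ3
      have hmem : s ∈ R.F u (pa j) (pb j) σ t' :=
        ⟨hs, fun r' h4 h5 => ht r' h4 (h5.trans (hσ1.trans ht'')), hj, hl⟩
      rw [ind_of hl, ← ind_of hmem]
      refine le_trans ?_ (ENNReal.le_tsum j)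
      exact ENNReal.le_tsum (f := fun σ => ind (s ∈ R.F u (pa j) (pb j) σ t')) σ
    · rw [ind_not hl]; exact bot_le
  calc ∑ t' ∈ Finset.range (t + 1), ind (LRec u (pos val s) 0 t')
      ≤ ∑ t' ∈ Finset.range (t + 1), ∑' j, ∑' σ, ind (s ∈ R.F u (pa j) (pb j) σ t') :=
        Finset.sum_le_sum h3
    _ ≤ ∑' t', ∑' j, ∑' σ, ind (s ∈ R.F u (pa j) (pb j) σ t') := ENNReal.sum_le_tsum _
    _ = R.W u s := by
        unfold RegSys.W
        rw [ENNReal.tsum_comm]
        exact tsum_congr fun j => ENNReal.tsum_comm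

/-- **E[B] < ∞, abstract form** -/
theorem RegSys.extent (R : RegSys L val P) (u : V →+ ℤ) (hu : ∀ a, |u (val a)| ≤ 1)
    {M : ℝ≥0∞} (hM : M ≠ ∞) (hx : ∀ J, R.x u J ≤ M) :
    ∃ W : (ℕ → S) → ℝ≥0∞, Measurable W ∧ ∫⁻ s, W s ∂P ≠ ∞ ∧
      ∀ s ∈ Stay (hL L val), ∀ t, (∀ r', 1 ≤ r' → r' ≤ t → ¬ R.R s r') →
        ENNReal.ofReal |((u (pos val s t) : ℤ) : ℝ)| ≤ W s := by
  refine ⟨fun s => R.W u s + R.W (-u) s, (R.measurable_W u).add (R.measurable_W (-u)), ?_, ?_⟩
  · rw [lintegral_add_left (R.measurable_W u), R.lintegral_W, R.lintegral_W,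
      ← ENNReal.tsum_add]
    refine ne_top_of_le_ne_top hM ?_
    refine ENNReal.tsum_le_of_sum_range_le fun J => ?_
    exact hx J
  · intro s hs t ht
    have e1 : ∀ a, u (val a) ≤ 1 := fun a => (abs_le.1 (hu a)).2
    have e2 : ∀ a, (-u) (val a) ≤ 1 := fun a => by
      have := (abs_le.1 (hu a)).1
      simp only [AddMonoidHom.neg_apply]; linarith
    rcases le_total 0 ((u (pos val s t) : ℤ) : ℝ) with h | h
    · rw [abs_of_nonneg h]
      exact (R.le_W u e1 hs ht).trans le_self_add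
    · rw [abs_of_nonpos h]
      have := R.le_W (-u) e2 hs ht
      simp only [AddMonoidHom.neg_apply, Int.cast_neg] at this
      exact this.trans le_add_self

/-! ### first moment of the block height -/

lemma tsum_pow_le (y : ℝ) (hy : 0 ≤ y) :
    ∑' j : ℕ, (2 : ℝ≥0∞) ^ j * ind (pa j ≤ y) ≤ 2 * (ENNReal.ofReal y + 1) := by
  obtain ⟨J, hJ1, hJ2⟩ : ∃ j : ℕ, (2 : ℝ) ^ j ≤ y + 1 ∧ y + 1 < 2 ^ (j + 1) :=
    exists_nat_pow_near (by linarith) (by norm_num)
  have h0 : ∀ j ∉ Finset.range (J + 1), (2 : ℝ≥0∞) ^ j * ind (pa j ≤ y) = 0 := by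
    intro j hj
    rw [ind_not, mul_zero]
    intro h
    unfold pa at h
    have hj' : J + 1 ≤ j := by
      by_contra hcon; exact hj (Finset.mem_range.2 (by omega))
    have : (2 : ℝ) ^ (J + 1) ≤ 2 ^ j := pow_le_pow_right₀ (by norm_num) hj'
    linarith
  rw [tsum_eq_sum h0]
  calc ∑ j ∈ Finset.range (J + 1), (2 : ℝ≥0∞) ^ j * ind (pa j ≤ y)
      ≤ ∑ j ∈ Finset.range (J + 1), (2 : ℝ≥0∞) ^ j := by
        refine Finset.sum_le_sum fun j _ => ?_
        calc (2 : ℝ≥0∞) ^ j * ind (pa j ≤ y) ≤ 2 ^ j * 1 := by gcongr; exact ind_le_one _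
          _ = 2 ^ j := mul_one _
    _ = ENNReal.ofReal (∑ j ∈ Finset.range (J + 1), (2 : ℝ) ^ j) := by
        rw [ENNReal.ofReal_sum_of_nonneg fun j _ => by positivity]
        refine Finset.sum_congr rfl fun j _ => ?_
        rw [ENNReal.ofReal_pow (by norm_num)]; norm_num
    _ ≤ ENNReal.ofReal (2 * (y + 1)) := by
        refine ENNReal.ofReal_le_ofReal ?_
        rw [geom_sum_eq (by norm_num)]
        rw [pow_succ]
        norm_num
        linarith
    _ = 2 * (ENNReal.ofReal y + 1) := by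
        rw [ENNReal.ofReal_mul (by norm_num), ENNReal.ofReal_add hy zero_le_one]
        norm_num

open Crest.Agent.R154.RenG263 in
theorem regSys_moment (ρ : RecSys (hL L val)) (R : RenewalG ρ P) (hz : ∀ s, ρ.Rec s 0)
    (hp : P (Stay (hL L val)) ≠ 0)
    (hT : ∀ᵐ s ∂P, s ∈ Stay (hL L val) → ∀ M : ℝ, ∃ n, M ≤ hgt (hL L val) s n)
    {c : ℝ} (hc : ∀ a, hL L val a ≤ c) (hc0 : 0 < c) :
    ∑' j : ℕ, 2 ^ j * P ((Bind263.regSys ρ R hz hp hT).Big (pa j)) ≠ ∞ := by
  set RS := Bind263.regSys ρ R hz hp hT with hRS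
  have hsub : ∀ k, RS.Big k ⊆ RenG263.Big ρ k := by
    rintro k s ⟨h0, r, h1, h2, h3, h4⟩
    refine ⟨h0, fun n hn hreg => ?_⟩
    have hrn : r ≤ n := by
      by_contra hcon
      exact h3 n hn (not_le.1 hcon) hreg
    have h2' : Reg ρ s r := h2
    have := mem_shift_Stay.1 h2'.2 n hrn
    rw [hgt_hL] at this
    exact h4.trans this
  have hmean := R.mean_le hp hT hc hc0 (le_refl ((ρ.K + 1) * c))
  have hgood := R.tsum_good hp hT
  have h1 : ∑' j : ℕ, (2 : ℝ≥0∞) ^ j * P (RS.Big (pa j)) ≤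
      ∑' n, ∫⁻ s in Good ρ n, (2 * (ENNReal.ofReal (hgt (hL L val) s n) + 1)) ∂P := by
    calc ∑' j : ℕ, (2 : ℝ≥0∞) ^ j * P (RS.Big (pa j))
        ≤ ∑' j : ℕ, (2 : ℝ≥0∞) ^ j * ∑' n, P (Good ρ n ∩ {s | pa j ≤ hgt (hL L val) s n}) := by
          refine ENNReal.tsum_le_tsum fun j => mul_le_mul' le_rfl ?_
          refine (measure_mono (hsub _)).trans ?_
          rw [R.big_eq hp hT]
          calc _ ≤ (∑' n, P (Good ρ n ∩ {s | pa j ≤ hgt (hL L val) s n})) * 1 := by
                gcongr; exact prob_le_one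
            _ = _ := mul_one _
      _ = ∑' n, ∑' j : ℕ, (2 : ℝ≥0∞) ^ j * P (Good ρ n ∩ {s | pa j ≤ hgt (hL L val) s n}) := by
          rw [ENNReal.tsum_comm]
          exact tsum_congr fun j => ENNReal.tsum_mul_left.symm
      _ ≤ _ := by
          refine ENNReal.tsum_le_tsum fun n => ?_
          have hm : ∀ j, MeasurableSet {s : ℕ → S | pa j ≤ hgt (hL L val) s n} := fun j =>
            measurableSet_le measurable_const (measurable_hgt _ n)
          have e : ∀ j, (2 : ℝ≥0∞) ^ j * P (Good ρ n ∩ {s | pa j ≤ hgt (hL L val) s n}) =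
              ∫⁻ s in Good ρ n, (2 : ℝ≥0∞) ^ j * ind (s ∈ {s : ℕ → S | pa j ≤ hgt (hL L val) s n}) ∂P := by
            intro j
            rw [lintegral_const_mul _ (measurable_ind (hm j))]
            congr 1
            have : (fun s => ind (s ∈ {s : ℕ → S | pa j ≤ hgt (hL L val) s n})) =
                ({s : ℕ → S | pa j ≤ hgt (hL L val) s n}).indicator 1 := by
              funext s
              by_cases h : s ∈ {s : ℕ → S | pa j ≤ hgt (hL L val) s n} <;> simp [ind, h]
            rw [this, lintegral_indicator_one (hm j), Measure.restrict_apply (hm j), inter_comm]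
          simp_rw [e]
          rw [← lintegral_tsum fun j => ((measurable_ind (hm j)).const_mul _).aemeasurable]
          refine setLIntegral_mono' (det_Good ρ n).measurableSet fun s hs => ?_
          exact tsum_pow_le _ (by
            have := (good_iff (s := s) (n := n) (ρ := ρ))
            exact hs.2.2.1 n le_rfl)
  refine ne_top_of_le_ne_top ?_ h1
  have h2 : ∑' n, ∫⁻ s in Good ρ n, (2 * (ENNReal.ofReal (hgt (hL L val) s n) + 1)) ∂P =
      2 * (∑' n, ∫⁻ s in Good ρ n, ENNReal.ofReal (hgt (hL L val) s n) ∂P + 1) := by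
    have hme : ∀ n, Measurable fun s : ℕ → S => ENNReal.ofReal (hgt (hL L val) s n) := fun n =>
      ENNReal.measurable_ofReal.comp (measurable_hgt _ n)
    have : ∀ n, ∫⁻ s in Good ρ n, (2 * (ENNReal.ofReal (hgt (hL L val) s n) + 1)) ∂P =
        2 * (∫⁻ s in Good ρ n, ENNReal.ofReal (hgt (hL L val) s n) ∂P + P (Good ρ n)) := by
      intro n
      rw [lintegral_const_mul _ ((hme n).add_const 1), lintegral_add_left (hme n)]
      simp
    simp_rw [this]
    rw [ENNReal.tsum_mul_left, ENNReal.tsum_add, hgood]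
  rw [h2]
  refine ENNReal.mul_ne_top (by norm_num) (ENNReal.add_ne_top.2 ⟨?_, ENNReal.one_ne_top⟩)
  refine ne_top_of_le_ne_top ?_ hmean
  refine ENNReal.mul_ne_top ENNReal.ofReal_ne_top (ENNReal.add_ne_top.2 ⟨ENNReal.one_ne_top, ?_⟩)
  exact ENNReal.mul_ne_top (ENNReal.inv_ne_top.2 R.δ_ne) (ENNReal.inv_ne_top.2 hp)

end Crest.Agent.R154.B2
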