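import Mathlib

/-! Row 154, B2c (helper419): from iid regeneration blocks with integrable displacement and extent to
the law of large numbers along the path and to escape in every direction of the open half space.
Mathlib only. -/

set_option autoImplicit false

namespace Crest.Agent.R154.B2c

open MeasureTheory ProbabilityTheory Filter Topology

variable {d : ℕ}

/-! ### Deterministic part -/

/-- position of `n` among the times `τ`. -/
lemma exists_block {τ : ℕ → ℕ} (hτ : StrictMono τ) (K n : ℕ) (hn : τ K ≤ n) :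
    ∃ k, K ≤ k ∧ τ k ≤ n ∧ n < τ (k + 1) := by
  have hlt : n < τ (n + 1) := lt_of_lt_of_le (Nat.lt_succ_self n) (hτ.id_le (n + 1))
  classical
  have hex : ∃ j, n < τ j := ⟨n + 1, hlt⟩
  set j := Nat.find hex with hj
  have hj1 : n < τ j := Nat.find_spec hex
  have hKj : K < j := by
    by_contra hcon
    push Not at hcon
    exact absurd (lt_of_lt_of_le hj1 (hτ.monotone hcon)) (not_lt.2 hn)
  obtain ⟨k, hk⟩ : ∃ k, j = k + 1 := ⟨j - 1, by omega⟩
  refine ⟨k, by omega, ?_, by rw [← hk]; exact hj1⟩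
  by_contra hcon
  push Not at hcon
  have := Nat.find_min' hex hcon
  omega

/-- If `X (τ k) / k → u`, `B k / k → 0` and `B k` bounds the excursion of the `k`-th block, then
`(X n - k(n) u) / k(n) → 0` in the form: for every `ε`, eventually there is a block index `k ≥ K`
with all coordinates of `X n` within `ε k` of `k u`. -/
lemma close_of_blocks {X : ℕ → (Fin d → ℤ)} {τ : ℕ → ℕ} (hτ : StrictMono τ) {B : ℕ → ℝ}
    {u : Fin d → ℝ}
    (hX : ∀ i, Tendsto (fun k : ℕ => (X (τ k) i : ℝ) / k) atTop (𝓝 (u i)))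
    (hB : Tendsto (fun k : ℕ => B k / k) atTop (𝓝 0))
    (hblk : ∀ k n, τ k ≤ n → n ≤ τ (k + 1) → ∀ i, |(X n i : ℝ) - X (τ k) i| ≤ B k)
    {ε : ℝ} (hε : 0 < ε) (K0 : ℕ) :
    ∃ N, ∀ n, N ≤ n → ∃ k : ℕ, K0 ≤ k ∧ 0 < k ∧ ∀ i, |(X n i : ℝ) - k * u i| ≤ ε * k := by
  have h1 : ∀ᶠ k : ℕ in atTop, ∀ i, |(X (τ k) i : ℝ) / k - u i| < ε / 2 := by
    rw [eventually_all]
    intro i
    have := (Metric.tendsto_atTop.1 (hX i)) (ε / 2) (by positivity)
    obtain ⟨N, hN⟩ := this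
    filter_upwards [eventually_ge_atTop N] with k hk
    have := hN k hk
    rwa [Real.dist_eq] at this
  have h2 : ∀ᶠ k : ℕ in atTop, |B k / k| < ε / 2 := by
    obtain ⟨N, hN⟩ := (Metric.tendsto_atTop.1 hB) (ε / 2) (by positivity)
    filter_upwards [eventually_ge_atTop N] with k hk
    have := hN k hk
    rwa [Real.dist_eq, sub_zero] at this
  obtain ⟨K, hK⟩ := eventually_atTop.1 ((h1.and h2).and (eventually_gt_atTop 0))
  refine ⟨τ (max K K0), fun n hn => ?_⟩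
  obtain ⟨k, hk, hk1, hk2⟩ := exists_block hτ (max K K0) n hn
  have hkK : K ≤ k := le_trans (le_max_left _ _) hk
  obtain ⟨⟨ha, hb⟩, hpos⟩ := hK k hkK
  refine ⟨k, le_trans (le_max_right _ _) hk, hpos, fun i => ?_⟩
  have hkpos : (0 : ℝ) < k := by exact_mod_cast hpos
  have e1 := hblk k n hk1 hk2.le i
  have e2 : |(X (τ k) i : ℝ) - k * u i| ≤ ε / 2 * k := by
    have := (ha i).le
    have h3 : (X (τ k) i : ℝ) - k * u i = ((X (τ k) i : ℝ) / k - u i) * k := by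
      field_simp
    rw [h3, abs_mul, abs_of_pos hkpos]
    exact mul_le_mul_of_nonneg_right this hkpos.le
  have e3 : B k ≤ ε / 2 * k := by
    have := le_of_lt (lt_of_le_of_lt (le_abs_self _) hb)
    rwa [div_le_iff₀ hkpos] at this
  calc |(X n i : ℝ) - k * u i| = |((X n i : ℝ) - X (τ k) i) + ((X (τ k) i : ℝ) - k * u i)| := by
        congr 1; ring
    _ ≤ |(X n i : ℝ) - X (τ k) i| + |(X (τ k) i : ℝ) - k * u i| := abs_add_le _ _
    _ ≤ ε / 2 * k + ε / 2 * k := by linarith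
    _ = ε * k := by ring

/-- Escape in every direction of the open half space of `u`. -/
theorem escape_of_blocks {X : ℕ → (Fin d → ℤ)} {τ : ℕ → ℕ} (hτ : StrictMono τ) {B : ℕ → ℝ}
    {u : Fin d → ℝ}
    (hX : ∀ i, Tendsto (fun k : ℕ => (X (τ k) i : ℝ) / k) atTop (𝓝 (u i)))
    (hB : Tendsto (fun k : ℕ => B k / k) atTop (𝓝 0))
    (hblk : ∀ k n, τ k ≤ n → n ≤ τ (k + 1) → ∀ i, |(X n i : ℝ) - X (τ k) i| ≤ B k)
    {l : Fin d → ℝ} (hl : 0 < ∑ i, u i * l i) :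
    Tendsto (fun n => ∑ i, (X n i : ℝ) * l i) atTop atTop := by
  set a := ∑ i, u i * l i with ha
  set L := 1 + ∑ i, |l i| with hL
  have hLpos : 0 < L := by
    have : 0 ≤ ∑ i, |l i| := Finset.sum_nonneg fun i _ => abs_nonneg _
    linarith
  rw [tendsto_atTop]
  intro M
  obtain ⟨K0, hK0⟩ := exists_nat_gt (2 * |M| / a)
  obtain ⟨N, hN⟩ := close_of_blocks hτ hX hB hblk (ε := a / (2 * L)) (by positivity) K0
  filter_upwards [eventually_ge_atTop N] with n hn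
  obtain ⟨k, hkK, hkpos, hk⟩ := hN n hn
  have hk0 : (0 : ℝ) < k := by exact_mod_cast hkpos
  have h1 : (k : ℝ) * a - ∑ i, (X n i : ℝ) * l i ≤ ∑ i, |(X n i : ℝ) - k * u i| * |l i| := by
    have : (k : ℝ) * a - ∑ i, (X n i : ℝ) * l i = ∑ i, -(((X n i : ℝ) - k * u i) * l i) := by
      rw [ha, Finset.mul_sum, ← Finset.sum_sub_distrib]
      refine Finset.sum_congr rfl fun i _ => by ring
    rw [this]
    refine Finset.sum_le_sum fun i _ => ?_
    rw [← abs_mul]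
    exact neg_le_abs _
  have h2 : ∑ i, |(X n i : ℝ) - k * u i| * |l i| ≤ a / (2 * L) * k * L := by
    calc ∑ i, |(X n i : ℝ) - k * u i| * |l i| ≤ ∑ i, a / (2 * L) * k * |l i| :=
          Finset.sum_le_sum fun i _ => mul_le_mul_of_nonneg_right (hk i) (abs_nonneg _)
      _ = a / (2 * L) * k * ∑ i, |l i| := by rw [Finset.mul_sum]
      _ ≤ a / (2 * L) * k * L := by
          refine mul_le_mul_of_nonneg_left (by linarith) (by positivity)
  have h3 : a / (2 * L) * k * L = a * k / 2 := by field_simp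
  have h4 : |M| ≤ a * k / 2 := by
    have h5 : (K0 : ℝ) ≤ k := by exact_mod_cast hkK
    have h6 : 2 * |M| / a < k := lt_of_lt_of_le hK0 h5
    rw [div_lt_iff₀ hl] at h6
    linarith
  have := le_abs_self M
  nlinarith

/-- Direction of the path: `X n / ‖X n‖ → u / ‖u‖` (sup norm). -/
theorem direction_of_blocks {X : ℕ → (Fin d → ℤ)} {τ : ℕ → ℕ} (hτ : StrictMono τ) {B : ℕ → ℝ}
    {u : Fin d → ℝ}
    (hX : ∀ i, Tendsto (fun k : ℕ => (X (τ k) i : ℝ) / k) atTop (𝓝 (u i)))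
    (hB : Tendsto (fun k : ℕ => B k / k) atTop (𝓝 0))
    (hblk : ∀ k n, τ k ≤ n → n ≤ τ (k + 1) → ∀ i, |(X n i : ℝ) - X (τ k) i| ≤ B k) :
    ∀ ε : ℝ, 0 < ε → ∀ K0 : ℕ, ∀ᶠ n in atTop, ∃ k : ℕ, K0 ≤ k ∧ 0 < k ∧
      ∀ i, |(X n i : ℝ) / k - u i| ≤ ε := by
  intro ε hε K0
  obtain ⟨N, hN⟩ := close_of_blocks hτ hX hB hblk hε K0
  filter_upwards [eventually_ge_atTop N] with n hn
  obtain ⟨k, h1, h2, h3⟩ := hN n hn
  have hk0 : (0 : ℝ) < k := by exact_mod_cast h2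
  refine ⟨k, h1, h2, fun i => ?_⟩
  have h4 : (X n i : ℝ) / k - u i = ((X n i : ℝ) - k * u i) / k := by field_simp
  rw [h4, abs_div, abs_of_pos hk0, div_le_iff₀ hk0]
  exact h3 i

/-! ### Probabilistic part -/

section Prob

variable {Ω : Type*} [MeasurableSpace Ω] {P : Measure Ω} [IsProbabilityMeasure P]

omit [IsProbabilityMeasure P] in
/-- `B k / k → 0` a.s. for pairwise independent identically distributed integrable `B`. -/
lemma div_tendsto_zero (B : ℕ → Ω → ℝ) (hint : Integrable (B 0) P)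
    (hind : Pairwise (Function.onFun (fun f g => IndepFun f g P) B))
    (hid : ∀ k, IdentDistrib (B k) (B 0) P P) :
    ∀ᵐ ω ∂P, Tendsto (fun k : ℕ => B k ω / k) atTop (𝓝 0) := by
  have h := strong_law_ae_real B hint hind hid
  filter_upwards [h] with ω hω
  have h1 : Tendsto (fun n : ℕ => (∑ i ∈ Finset.range (n + 1), B i ω) / ((n + 1 : ℕ) : ℝ)) atTop
      (𝓝 (∫ a, B 0 a ∂P)) := (tendsto_add_atTop_iff_nat 1).2 hω
  have h2 : Tendsto (fun n : ℕ => (((n + 1 : ℕ) : ℝ) / n)) atTop (𝓝 1) := by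
    have : Tendsto (fun n : ℕ => (1 : ℝ) + 1 / (n : ℝ)) atTop (𝓝 (1 + 0)) :=
      tendsto_const_nhds.add tendsto_one_div_atTop_nhds_zero_nat
    rw [add_zero] at this
    refine this.congr' ?_
    filter_upwards [eventually_gt_atTop 0] with n hn
    have : (n : ℝ) ≠ 0 := by exact_mod_cast hn.ne'
    push_cast
    field_simp
  have h3 := (h1.mul h2).sub hω
  rw [mul_one, sub_self] at h3
  refine h3.congr' ?_
  filter_upwards [eventually_gt_atTop 0] with n hn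
  have hn0 : (n : ℝ) ≠ 0 := by exact_mod_cast hn.ne'
  have hn1 : ((n + 1 : ℕ) : ℝ) ≠ 0 := by positivity
  rw [Finset.sum_range_succ]
  field_simp
  ring

omit [IsProbabilityMeasure P] in
/-- **B2c.** iid blocks with integrable displacement `ξ` and integrable extent `B`: a.s. the path
escapes in every direction `l` with `u·l > 0`, `u = E ξ`. Block `k` runs from time `τ k` to
`τ (k+1)`. -/
theorem escape_ae (X : ℕ → Ω → (Fin d → ℤ)) (τ : ℕ → Ω → ℕ)
    (hτ : ∀ᵐ ω ∂P, StrictMono fun k => τ k ω)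
    (ξ : ℕ → Ω → (Fin d → ℝ)) (B : ℕ → Ω → ℝ)
    (hξ : ∀ᵐ ω ∂P, ∀ k i, ξ k ω i = (X (τ (k + 1) ω) ω i : ℝ) - X (τ k ω) ω i)
    (hblk : ∀ᵐ ω ∂P, ∀ k n, τ k ω ≤ n → n ≤ τ (k + 1) ω → ∀ i,
      |(X n ω i : ℝ) - X (τ k ω) ω i| ≤ B k ω)
    (hξint : Integrable (ξ 0) P) (hξind : Pairwise (Function.onFun (fun f g => IndepFun f g P) ξ))
    (hξid : ∀ k, IdentDistrib (ξ k) (ξ 0) P P)
    (hBint : Integrable (B 0) P) (hBind : Pairwise (Function.onFun (fun f g => IndepFun f g P) B))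
    (hBid : ∀ k, IdentDistrib (B k) (B 0) P P) :
    ∀ᵐ ω ∂P, (∀ i, Tendsto (fun k : ℕ => (X (τ k ω) ω i : ℝ) / k) atTop
        (𝓝 (∫ a, ξ 0 a i ∂P))) ∧
      (∀ l : Fin d → ℝ, 0 < ∑ i, (∫ a, ξ 0 a i ∂P) * l i →
        Tendsto (fun n => ∑ i, (X n ω i : ℝ) * l i) atTop atTop) ∧
      (∀ ε : ℝ, 0 < ε → ∀ K0 : ℕ, ∀ᶠ n in atTop, ∃ k : ℕ, K0 ≤ k ∧ 0 < k ∧
        ∀ i, |(X n ω i : ℝ) / k - ∫ a, ξ 0 a i ∂P| ≤ ε) := by
  have hB := div_tendsto_zero B hBint hBind hBid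
  have hS := strong_law_ae ξ hξint hξind hξid
  filter_upwards [hB, hS, hτ, hξ, hblk] with ω h1 h2 h3 h4 h5
  have hX : ∀ i, Tendsto (fun k : ℕ => (X (τ k ω) ω i : ℝ) / k) atTop (𝓝 (∫ a, ξ 0 a i ∂P)) := by
    intro i
    have h6 : Tendsto (fun n : ℕ => ((n : ℝ)⁻¹ • ∑ j ∈ Finset.range n, ξ j ω) i) atTop
        (𝓝 ((∫ a, ξ 0 a ∂P) i)) := (tendsto_pi_nhds.1 h2) i
    have h7 : (∫ a, ξ 0 a ∂P) i = ∫ a, ξ 0 a i ∂P := by
      have := (ContinuousLinearMap.proj (R := ℝ) (φ := fun _ : Fin d => ℝ) i).integral_comp_comm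
        hξint
      simpa using this.symm
    rw [h7] at h6
    have h8 : ∀ n : ℕ, ((n : ℝ)⁻¹ • ∑ j ∈ Finset.range n, ξ j ω) i
        = (X (τ n ω) ω i : ℝ) / n - (X (τ 0 ω) ω i : ℝ) / n := by
      intro n
      have h9 : ∑ j ∈ Finset.range n, ξ j ω i = (X (τ n ω) ω i : ℝ) - X (τ 0 ω) ω i := by
        have := Finset.sum_range_sub (fun j => (X (τ j ω) ω i : ℝ)) n
        rw [← this]
        exact Finset.sum_congr rfl fun j _ => h4 j i
      rw [Pi.smul_apply, Finset.sum_apply, smul_eq_mul, h9]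
      ring
    have h10 : Tendsto (fun n : ℕ => (X (τ 0 ω) ω i : ℝ) / n) atTop (𝓝 0) :=
      tendsto_const_div_atTop_nhds_zero_nat _
    have h11 := h6.add h10
    rw [add_zero] at h11
    refine h11.congr fun n => ?_
    rw [h8 n]
    ring
  exact ⟨hX, fun l hl => escape_of_blocks h3 hX h1 h5 hl, direction_of_blocks h3 hX h1 h5⟩

end Prob

end Crest.Agent.R154.B2c
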