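import Crest.Agent.R154.RenG2_263

/-!
Row 154, block B1 for range `R > 0`, part 3: representation of the conditioned law as the law of
the concatenation of iid words.
-/

set_option autoImplicit false
set_option linter.unusedSectionVars false
set_option linter.deprecated false
open MeasureTheory Filter Set ProbabilityTheory
open scoped ENNReal Topology

namespace Crest.Agent.R154.RenG263

open Crest.Agent.R154.Ren263

variable {S : Type*} {h : S → ℝ}

/-- first regeneration time `≥ 1` -/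
noncomputable def tau (ρ : RecSys h) (s : ℕ → S) : ℕ := sInf {n | 1 ≤ n ∧ Reg ρ s n}

/-- first block -/
noncomputable def blk0 (ρ : RecSys h) (s : ℕ → S) : Word S := pre (tau ρ s) s

/-- the path after the first block -/
noncomputable def rest (ρ : RecSys h) (s : ℕ → S) : ℕ → S := shift (tau ρ s) s

/-- all blocks -/
noncomputable def blks (ρ : RecSys h) (s : ℕ → S) (k : ℕ) : Word S := blk0 ρ ((rest ρ)^[k] s)

lemma blks_zero (ρ : RecSys h) (s : ℕ → S) : blks ρ s 0 = blk0 ρ s := rfl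

lemma blks_succ (ρ : RecSys h) (s : ℕ → S) (k : ℕ) :
    blks ρ s (k + 1) = blks ρ (rest ρ s) k := rfl

/-- paths which stay above the start and have infinitely many regeneration times -/
def RegInf (ρ : RecSys h) : Set (ℕ → S) := {s | s ∈ Stay h ∧ ∀ j, ∃ n, j ≤ n ∧ Reg ρ s n}

lemma tau_spec {ρ : RecSys h} {s : ℕ → S} (hs : s ∈ RegInf ρ) :
    1 ≤ tau ρ s ∧ Reg ρ s (tau ρ s) := by
  obtain ⟨n, hn⟩ := hs.2 1
  exact Nat.sInf_mem (s := {n | 1 ≤ n ∧ Reg ρ s n}) ⟨n, hn⟩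

lemma tau_min {ρ : RecSys h} {s : ℕ → S} {m : ℕ} (h1 : 1 ≤ m) (hm : m < tau ρ s) :
    ¬ Reg ρ s m :=
  fun hr => Nat.notMem_of_lt_sInf hm ⟨h1, hr⟩

lemma good_tau {ρ : RecSys h} {s : ℕ → S} (hs : s ∈ RegInf ρ) :
    s ∈ Good ρ (tau ρ s) ∧ shift (tau ρ s) s ∈ Stay h :=
  good_iff.2 ⟨hs.1, (tau_spec hs).1, (tau_spec hs).2, fun _ h1 h2 => tau_min h1 h2⟩

lemma tau_eq {ρ : RecSys h} {s : ℕ → S} {n : ℕ} (hs : s ∈ Good ρ n ∧ shift n s ∈ Stay h) :
    tau ρ s = n := by
  have h1 := good_iff.1 hs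
  refine le_antisymm (Nat.sInf_le ⟨h1.2.1, h1.2.2.1⟩) ?_
  have h2 : tau ρ s ∈ {n | 1 ≤ n ∧ Reg ρ s n} :=
    Nat.sInf_mem (s := {n | 1 ≤ n ∧ Reg ρ s n}) ⟨n, h1.2.1, h1.2.2.1⟩
  by_contra hcon
  exact h1.2.2.2 _ h2.1 (not_le.1 hcon) h2.2

lemma rest_mem {ρ : RecSys h} {s : ℕ → S} (hs : s ∈ RegInf ρ) : rest ρ s ∈ RegInf ρ := by
  refine ⟨(tau_spec hs).2.2, fun j => ?_⟩
  obtain ⟨n, hn, hr⟩ := hs.2 (tau ρ s + j)
  exact ⟨n - tau ρ s, by omega, reg_shift (by omega) hr⟩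

lemma catF_blks [Inhabited S] {ρ : RecSys h} : ∀ (f k : ℕ) (s : ℕ → S), k < f → s ∈ RegInf ρ →
    catF f k (blks ρ s) = s k := by
  intro f
  induction f with
  | zero => intro k s hk; exact absurd hk (Nat.not_lt_zero _)
  | succ f ih =>
    intro k s hk hs
    have h1 := tau_spec hs
    have hl : (blks ρ s 0).len = tau ρ s := by rw [blks_zero, blk0, len_pre]
    simp only [catF]
    split_ifs with hlt
    · rw [hl] at hlt
      rw [blks_zero, blk0, letter_pre hlt]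
    · rw [hl] at hlt ⊢
      have : (fun i => blks ρ s (i + 1)) = blks ρ (rest ρ s) := rfl
      rw [this, ih _ _ (by omega) (rest_mem hs)]
      simp only [rest, shift]
      congr 1
      omega

lemma cat_blks [Inhabited S] {ρ : RecSys h} {s : ℕ → S} (hs : s ∈ RegInf ρ) :
    cat (blks ρ s) = s := by
  funext k
  exact catF_blks (k + 1) k s (Nat.lt_succ_self k) hs

section measurable

variable [Countable S] [MeasurableSpace S] [MeasurableSingletonClass S]

lemma measurable_tau (ρ : RecSys h) : Measurable (tau ρ) := by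
  classical
  have hle : ∀ n, 1 ≤ n → MeasurableSet {s : ℕ → S | 1 ≤ tau ρ s ∧ tau ρ s ≤ n} := by
    intro n hn
    have : {s : ℕ → S | 1 ≤ tau ρ s ∧ tau ρ s ≤ n} = ⋃ m ∈ Finset.Icc 1 n, {s | Reg ρ s m} := by
      ext s
      simp only [mem_setOf_eq, mem_iUnion, Finset.mem_Icc, exists_prop]
      constructor
      · rintro ⟨h1, h2⟩
        have h3 : tau ρ s ∈ {n | 1 ≤ n ∧ Reg ρ s n} :=
          Nat.sInf_mem (Nat.nonempty_of_pos_sInf h1)
        exact ⟨tau ρ s, ⟨h1, h2⟩, h3.2⟩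
      · rintro ⟨m, ⟨h1, h2⟩, h3⟩
        have h4 : tau ρ s ∈ {n | 1 ≤ n ∧ Reg ρ s n} := Nat.sInf_mem ⟨m, h1, h3⟩
        exact ⟨h4.1, (Nat.sInf_le (s := {n | 1 ≤ n ∧ Reg ρ s n}) ⟨h1, h3⟩).trans h2⟩
    rw [this]
    exact MeasurableSet.biUnion (Finset.countable_toSet _) fun m _ => measurableSet_Reg ρ m
  have hpos : MeasurableSet {s : ℕ → S | 1 ≤ tau ρ s} := by
    have : {s : ℕ → S | 1 ≤ tau ρ s} = ⋃ n : ℕ, {s | 1 ≤ tau ρ s ∧ tau ρ s ≤ n + 1} := by
      ext s
      simp only [mem_setOf_eq, mem_iUnion]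
      exact ⟨fun H => ⟨tau ρ s, H, Nat.le_succ _⟩, fun ⟨_, H, _⟩ => H⟩
    rw [this]
    exact MeasurableSet.iUnion fun n => hle (n + 1) (Nat.succ_le_succ (Nat.zero_le _))
  refine measurable_to_countable' fun n => ?_
  rcases Nat.eq_zero_or_pos n with rfl | hn
  · have : tau ρ ⁻¹' {0} = {s : ℕ → S | 1 ≤ tau ρ s}ᶜ := by
      ext s
      simp only [mem_preimage, mem_singleton_iff, mem_compl_iff, mem_setOf_eq]
      omega
    rw [this]; exact hpos.compl
  · have : tau ρ ⁻¹' {n} = {s : ℕ → S | 1 ≤ tau ρ s ∧ tau ρ s ≤ n} \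
        {s : ℕ → S | 2 ≤ n ∧ 1 ≤ tau ρ s ∧ tau ρ s ≤ n - 1} := by
      ext s
      simp only [mem_preimage, mem_singleton_iff, mem_diff, mem_setOf_eq]
      omega
    rw [this]
    refine (hle n hn).diff ?_
    by_cases h2 : 2 ≤ n
    · have := hle (n - 1) (by omega)
      simpa [h2] using this
    · simp [h2]

lemma measurable_rest (ρ : RecSys h) : Measurable (rest ρ) := by
  have h1 : Measurable fun p : ℕ × (ℕ → S) => shift p.1 p.2 :=
    measurable_from_prod_countable_right fun n => measurable_shift n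
  exact h1.comp ((measurable_tau ρ).prodMk measurable_id)

lemma measurable_blk0 (ρ : RecSys h) : Measurable (blk0 ρ) := by
  have h1 : Measurable fun p : ℕ × (ℕ → S) => pre p.1 p.2 :=
    measurable_from_prod_countable_right fun n => measurable_pre n
  exact h1.comp ((measurable_tau ρ).prodMk measurable_id)

lemma measurable_blks (ρ : RecSys h) : Measurable (blks ρ) :=
  measurable_pi_lambda _ fun k => (measurable_blk0 ρ).comp ((measurable_rest ρ).iterate k)

/-- law of one regeneration block -/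
noncomputable def wordLaw (ρ : RecSys h) (P : Measure (ℕ → S)) : Measure (Word S) :=
  Measure.sum fun n => (P.restrict (Good ρ n)).map (pre n)

lemma wordLaw_apply (ρ : RecSys h) (P : Measure (ℕ → S)) (T : Set (Word S)) :
    wordLaw ρ P T = ∑' n, P (Good ρ n ∩ {s | pre n s ∈ T}) := by
  unfold wordLaw
  rw [Measure.sum_apply _ (MeasurableSet.of_discrete)]
  congr 1
  funext n
  rw [Measure.map_apply (measurable_pre n) MeasurableSet.of_discrete,
    Measure.restrict_apply (measurable_pre n MeasurableSet.of_discrete), inter_comm]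
  rfl

variable {ρ : RecSys h} {P : Measure (ℕ → S)} [IsProbabilityMeasure P]

theorem RenewalG.isProb (R : RenewalG ρ P) (hp : P (Stay h) ≠ 0)
    (hT : ∀ᵐ s ∂P, s ∈ Stay h → ∀ M : ℝ, ∃ n, M ≤ hgt h s n) :
    IsProbabilityMeasure (wordLaw ρ P) := by
  refine ⟨?_⟩
  rw [wordLaw_apply]
  simp only [mem_univ, setOf_true, inter_univ]
  exact R.tsum_good hp hT

theorem RenewalG.ae_regInf (R : RenewalG ρ P) (hp : P (Stay h) ≠ 0)
    (hT : ∀ᵐ s ∂P, s ∈ Stay h → ∀ M : ℝ, ∃ n, M ≤ hgt h s n) :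
    ∀ᵐ s ∂P, s ∈ Stay h → s ∈ RegInf ρ := by
  filter_upwards [R.ae_tendsto hp, hT] with s h1 h2 h3
  exact ⟨h3, (h1 (h2 h3)).1⟩

/-- one step: first block and the rest -/
theorem RenewalG.one_step (R : RenewalG ρ P) (hp : P (Stay h) ≠ 0)
    (hT : ∀ᵐ s ∂P, s ∈ Stay h → ∀ M : ℝ, ∃ n, M ≤ hgt h s n)
    (T : Set (Word S)) {B : Set (ℕ → S)} (hB : MeasurableSet B) :
    P (Stay h ∩ {s | blk0 ρ s ∈ T ∧ rest ρ s ∈ B}) = wordLaw ρ P T * P (Stay h ∩ B) := by
  have h1 : P (Stay h ∩ {s | blk0 ρ s ∈ T ∧ rest ρ s ∈ B}) =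
      P (⋃ n, ((Good ρ n ∩ {s | pre n s ∈ T}) ∩ shift n ⁻¹' (Stay h ∩ B))) := by
    refine measure_congr ?_
    filter_upwards [R.ae_regInf hp hT] with s hs
    refine propext ⟨fun H => ?_, fun H => ?_⟩
    · have hg := good_tau (hs H.1)
      exact mem_iUnion.2 ⟨tau ρ s, ⟨hg.1, H.2.1⟩, hg.2, H.2.2⟩
    · obtain ⟨n, ⟨hn1, hn2⟩, hn3, hn4⟩ := mem_iUnion.1 H
      have he := tau_eq ⟨hn1, hn3⟩
      refine ⟨(good_iff.1 ⟨hn1, hn3⟩).1, ?_, ?_⟩
      · show pre (tau ρ s) s ∈ T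
        rw [he]; exact hn2
      · show shift (tau ρ s) s ∈ B
        rw [he]; exact hn4
  rw [h1, measure_iUnion, wordLaw_apply, ← ENNReal.tsum_mul_right]
  · congr 1
    funext n
    exact R.block ((det_Good ρ n).inter (det_pre n T)) inter_subset_left
      ((measurableSet_Stay h).inter hB) inter_subset_left
  · intro n m hnm
    rw [Function.onFun, Set.disjoint_left]
    rintro s ⟨⟨hs1, _⟩, hs2, _⟩ ⟨⟨hs1', _⟩, hs2', _⟩
    exact hnm (good_unique ⟨hs1, hs2⟩ ⟨hs1', hs2'⟩)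
  · exact fun n => ((det_Good ρ n).inter (det_pre n T)).measurableSet.inter
      (measurable_shift n ((measurableSet_Stay h).inter hB))

/-- the first `n` blocks and the rest -/
theorem RenewalG.n_step (R : RenewalG ρ P) (hp : P (Stay h) ≠ 0)
    (hT : ∀ᵐ s ∂P, s ∈ Stay h → ∀ M : ℝ, ∃ n, M ≤ hgt h s n) (n : ℕ) :
    ∀ (t : ℕ → Set (Word S)) (B : Set (ℕ → S)), MeasurableSet B →
    P (Stay h ∩ {s | (∀ i < n, blks ρ s i ∈ t i) ∧ (rest ρ)^[n] s ∈ B}) =
      (∏ i ∈ Finset.range n, wordLaw ρ P (t i)) * P (Stay h ∩ B) := by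
  induction n with
  | zero =>
    intro t B _
    simp
  | succ n ih =>
    intro t B hB
    have hB' : MeasurableSet {s : ℕ → S | (∀ i < n, blks ρ s i ∈ t (i + 1)) ∧ (rest ρ)^[n] s ∈ B} := by
      have e1 : MeasurableSet {s : ℕ → S | ∀ i < n, blks ρ s i ∈ t (i + 1)} := by
        have : {s : ℕ → S | ∀ i < n, blks ρ s i ∈ t (i + 1)} =
            ⋂ i : ℕ, ⋂ _ : i < n, {s | blks ρ s i ∈ t (i + 1)} := by ext s; simp
        rw [this]
        exact MeasurableSet.iInter fun i => MeasurableSet.iInter fun _ =>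
          ((measurable_pi_apply i).comp (measurable_blks ρ)) MeasurableSet.of_discrete
      exact e1.inter ((measurable_rest ρ).iterate n hB)
    have h1 : {s : ℕ → S | (∀ i < n + 1, blks ρ s i ∈ t i) ∧ (rest ρ)^[n + 1] s ∈ B} =
        {s | blk0 ρ s ∈ t 0 ∧ rest ρ s ∈
          {s : ℕ → S | (∀ i < n, blks ρ s i ∈ t (i + 1)) ∧ (rest ρ)^[n] s ∈ B}} := by
      ext s
      simp only [mem_setOf_eq, Function.iterate_succ, Function.comp]
      constructor
      · rintro ⟨H1, H2⟩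
        exact ⟨H1 0 (Nat.succ_pos _), fun i hi => H1 (i + 1) (Nat.succ_lt_succ hi), H2⟩
      · rintro ⟨H0, H1, H2⟩
        refine ⟨fun i hi => ?_, H2⟩
        rcases i with _ | i
        · exact H0
        · exact H1 i (Nat.lt_of_succ_lt_succ hi)
    rw [h1, R.one_step hp hT (t 0) hB', ih (fun i => t (i + 1)) B hB, Finset.prod_range_succ', ← mul_assoc,
      mul_comm (wordLaw ρ P (t 0))]

/-- under `P( . | Stay)` the blocks are iid with law `wordLaw` -/
theorem RenewalG.map_blks (R : RenewalG ρ P) (hp : P (Stay h) ≠ 0)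
    (hT : ∀ᵐ s ∂P, s ∈ Stay h → ∀ M : ℝ, ∃ n, M ≤ hgt h s n) :
    (cond P (Stay h)).map (blks ρ) = Measure.infinitePi fun _ : ℕ => wordLaw ρ P := by
  classical
  have := R.isProb hp hT
  refine Measure.eq_infinitePi _ fun s t _ => ?_
  obtain ⟨N, hN⟩ : ∃ N, s ⊆ Finset.range N := ⟨s.sup id + 1, fun i hi =>
    Finset.mem_range.2 (Nat.lt_succ_of_le (Finset.le_sup (f := id) hi))⟩
  set t' : ℕ → Set (Word S) := fun i => if i ∈ s then t i else univ with ht'
  have hset : blks ρ ⁻¹' (Set.pi s t) = {σ : ℕ → S | (∀ i < N, blks ρ σ i ∈ t' i) ∧ (rest ρ)^[N] σ ∈ (univ : Set (ℕ → S))} := by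
    ext σ
    simp only [mem_preimage, Set.mem_pi, mem_setOf_eq, mem_univ, and_true, Finset.mem_coe, ht']
    constructor
    · intro H i _
      split_ifs with his
      · exact H i his
      · exact mem_univ _
    · intro H i hi
      have := H i (Finset.mem_range.1 (hN hi))
      rwa [if_pos hi] at this
  have hms : MeasurableSet (Set.pi (s : Set ℕ) t) :=
    MeasurableSet.pi s.countable_toSet fun i _ => MeasurableSet.of_discrete
  rw [Measure.map_apply (measurable_blks ρ) hms, cond_apply (measurableSet_Stay h), hset,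
    R.n_step hp hT N t' univ MeasurableSet.univ, inter_univ]
  have hprod : ∏ i ∈ Finset.range N, wordLaw ρ P (t' i) = ∏ i ∈ s, wordLaw ρ P (t i) := by
    rw [← Finset.prod_subset hN]
    · refine Finset.prod_congr rfl fun i hi => ?_
      simp only [ht', if_pos hi]
    · intro i _ hi
      simp only [ht', if_neg hi]
      exact measure_univ
  rw [hprod, mul_comm, mul_assoc, ENNReal.mul_inv_cancel hp (measure_ne_top _ _), mul_one]

/-- REPRESENTATION: the law conditioned to stay is the law of the concatenation of iid words -/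
theorem RenewalG.law_eq [Inhabited S] (R : RenewalG ρ P) (hp : P (Stay h) ≠ 0)
    (hT : ∀ᵐ s ∂P, s ∈ Stay h → ∀ M : ℝ, ∃ n, M ≤ hgt h s n) :
    cond P (Stay h) = (Measure.infinitePi fun _ : ℕ => wordLaw ρ P).map cat := by
  rw [← R.map_blks hp hT, Measure.map_map measurable_cat (measurable_blks ρ)]
  have hae : (cat ∘ blks ρ) =ᵐ[cond P (Stay h)] id := by
    have h1 : ∀ᵐ s ∂(P.restrict (Stay h)), s ∈ RegInf ρ := by
      rw [ae_restrict_iff' (measurableSet_Stay h)]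
      exact R.ae_regInf hp hT
    have h2 : ∀ᵐ s ∂(cond P (Stay h)), s ∈ RegInf ρ := by
      unfold ProbabilityTheory.cond
      exact Measure.ae_smul_measure h1 _
    filter_upwards [h2] with s hs
    exact cat_blks hs
  rw [Measure.map_congr hae, Measure.map_id]

/-- mean height of a block -/
theorem RenewalG.lintegral_ht_le (R : RenewalG ρ P) (hp : P (Stay h) ≠ 0)
    (hT : ∀ᵐ s ∂P, s ∈ Stay h → ∀ M : ℝ, ∃ n, M ≤ hgt h s n)
    {c b : ℝ} (hc : ∀ a, h a ≤ c) (hc0 : 0 < c) (hb : (ρ.K + 1) * c ≤ b) :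
    ∫⁻ u, ENNReal.ofReal (Word.ht h u) ∂(wordLaw ρ P) ≤
      ENNReal.ofReal b * (1 + ρ.δ⁻¹ * (P (Stay h))⁻¹) := by
  unfold wordLaw
  rw [lintegral_sum_measure]
  refine le_trans (le_of_eq ?_) (R.mean_le hp hT hc hc0 hb)
  congr 1
  funext n
  rw [lintegral_map (measurable_of_countable _) (measurable_pre n)]
  simp only [ht_pre]

theorem RenewalG.lintegral_ht_lt_top [Finite S] (R : RenewalG ρ P) (hp : P (Stay h) ≠ 0)
    (hT : ∀ᵐ s ∂P, s ∈ Stay h → ∀ M : ℝ, ∃ n, M ≤ hgt h s n) :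
    ∫⁻ u, ENNReal.ofReal (Word.ht h u) ∂(wordLaw ρ P) < ⊤ := by
  obtain ⟨c, hc⟩ : ∃ c : ℝ, ∀ a, h a ≤ c := by
    obtain ⟨c, hc⟩ := (Set.finite_range h).bddAbove
    exact ⟨c, fun a => hc ⟨a, rfl⟩⟩
  have hc' : ∀ a, h a ≤ max c 1 := fun a => (hc a).trans (le_max_left _ _)
  have hc0 : 0 < max c 1 := lt_of_lt_of_le one_pos (le_max_right _ _)
  refine lt_of_le_of_lt (R.lintegral_ht_le hp hT hc' hc0 le_rfl) ?_
  refine ENNReal.mul_lt_top ENNReal.ofReal_lt_top (ENNReal.add_lt_top.2 ⟨ENNReal.one_lt_top, ?_⟩)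
  exact ENNReal.mul_lt_top (ENNReal.inv_lt_top.2 (pos_iff_ne_zero.2 R.δ_ne))
    (ENNReal.inv_lt_top.2 (pos_iff_ne_zero.2 hp))

/-- structure of the words: every word is the first block of some path -/
lemma ae_goodWord (ρ : RecSys h) (P : Measure (ℕ → S)) :
    ∀ᵐ u ∂(wordLaw ρ P), Ren263.GoodWord h u ∧ ∃ s, s ∈ Good ρ u.len ∧ pre u.len s = u := by
  rw [ae_iff, wordLaw_apply, ENNReal.tsum_eq_zero]
  intro n
  have : Good ρ n ∩ {s | pre n s ∈ {a | ¬ (Ren263.GoodWord h a ∧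
      ∃ s, s ∈ Good ρ a.len ∧ pre a.len s = a)}} = ∅ := by
    rw [eq_empty_iff_forall_notMem]
    rintro s ⟨⟨h1, h2, h3, h4⟩, hs⟩
    have h2' := ρ.record h2
    refine hs ⟨⟨by rw [len_pre]; exact h1, ?_, fun k hk => ?_⟩, s, ?_, ?_⟩
    · rw [ht_pre]
      have := h2' 0 h1
      rwa [hgt_zero] at this
    · rw [len_pre] at hk
      have hpre : (List.take k (pre n s) : List S) = pre k s := by
        unfold pre
        rw [← List.map_take, List.take_range, Nat.min_eq_left hk.le]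
      rw [hpre]
      have e1 := ht_pre h k s
      have e2 := ht_pre h n s
      rw [e1, e2]
      exact ⟨h3 k hk.le, h2' k hk⟩
    · rw [len_pre]
      exact ⟨h1, h2, h3, h4⟩
    · rw [len_pre]
  rw [this, measure_empty]

end measurable

end Crest.Agent.R154.RenG263
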