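import Mathlib

/-! Row 154, B2 (helper419): Hopf's maximal inequality (Garsia's proof) for a measure preserving map,
and its form for iid (product) sequences. Mathlib only. -/

set_option autoImplicit false

namespace Crest.Agent.R154.B2Hopf

open MeasureTheory ProbabilityTheory Filter Topology Set

section Garsia

variable {Ω : Type*} [MeasurableSpace Ω] {μ : Measure Ω} {T : Ω → Ω} {f : Ω → ℝ}

/-- maximum of the Birkhoff sums `S_0 = 0, S_1, …, S_N`. -/
noncomputable def bmax (T : Ω → Ω) (f : Ω → ℝ) (N : ℕ) (ω : Ω) : ℝ :=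
  (Finset.range (N + 1)).sup' (Finset.nonempty_range_add_one) fun n => birkhoffSum T f n ω

omit [MeasurableSpace Ω] in
lemma le_bmax (T : Ω → Ω) (f : Ω → ℝ) {N n : ℕ} (hn : n ≤ N) (ω : Ω) :
    birkhoffSum T f n ω ≤ bmax T f N ω :=
  Finset.le_sup' (fun n => birkhoffSum T f n ω) (Finset.mem_range.2 (Nat.lt_succ_of_le hn))

omit [MeasurableSpace Ω] in
lemma bmax_nonneg (T : Ω → Ω) (f : Ω → ℝ) (N : ℕ) (ω : Ω) : 0 ≤ bmax T f N ω := by
  have := le_bmax T f (Nat.zero_le N) ω
  simpa using this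

omit [MeasurableSpace Ω] in
lemma bmax_le {T : Ω → Ω} {f : Ω → ℝ} {N : ℕ} {ω : Ω} {a : ℝ}
    (h : ∀ n ≤ N, birkhoffSum T f n ω ≤ a) : bmax T f N ω ≤ a :=
  Finset.sup'_le _ _ fun n hn => h n (Nat.lt_succ_iff.1 (Finset.mem_range.1 hn))

omit [MeasurableSpace Ω] in
lemma bmax_pos_iff {T : Ω → Ω} {f : Ω → ℝ} {N : ℕ} {ω : Ω} :
    0 < bmax T f N ω ↔ ∃ n, 1 ≤ n ∧ n ≤ N ∧ 0 < birkhoffSum T f n ω := by
  constructor
  · intro h
    by_contra hcon
    push Not at hcon
    refine absurd h (not_lt.2 (bmax_le fun n hn => ?_))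
    rcases Nat.eq_zero_or_pos n with h0 | h0
    · subst h0; simp
    · exact hcon n h0 hn
  · rintro ⟨n, -, h2, h3⟩
    exact h3.trans_le (le_bmax T f h2 ω)

lemma measurable_birkhoffSum' (hT : Measurable T) (hf : Measurable f) (n : ℕ) :
    Measurable fun ω => birkhoffSum T f n ω := by
  unfold birkhoffSum
  exact Finset.measurable_sum _ fun k _ => hf.comp (hT.iterate k)

lemma measurable_bmax (hT : Measurable T) (hf : Measurable f) (N : ℕ) :
    Measurable (bmax T f N) := by
  have : bmax T f N = (Finset.range (N + 1)).sup' (Finset.nonempty_range_add_one)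
      (fun n ω => birkhoffSum T f n ω) := by
    funext ω
    rw [Finset.sup'_apply]
    rfl
  rw [this]
  exact Finset.measurable_sup' _ fun n _ => measurable_birkhoffSum' hT hf n

lemma integrable_birkhoffSum' (hT : MeasurePreserving T μ μ) (hf : Integrable f μ) (n : ℕ) :
    Integrable (fun ω => birkhoffSum T f n ω) μ := by
  unfold birkhoffSum
  refine integrable_finsetSum _ fun k _ => ?_
  exact ((hT.iterate k).integrable_comp_of_integrable hf)

lemma integrable_bmax (hT : MeasurePreserving T μ μ) (hf : Integrable f μ) (hfm : Measurable f)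
    (N : ℕ) : Integrable (bmax T f N) μ := by
  have h1 : Integrable (fun ω => ∑ n ∈ Finset.range (N + 1), |birkhoffSum T f n ω|) μ :=
    integrable_finsetSum _ fun n _ => (integrable_birkhoffSum' hT hf n).abs
  refine Integrable.mono' h1 (measurable_bmax hT.measurable hfm N).aestronglyMeasurable ?_
  refine Eventually.of_forall fun ω => ?_
  rw [Real.norm_eq_abs, abs_of_nonneg (bmax_nonneg T f N ω)]
  refine bmax_le fun n hn => ?_
  exact (le_abs_self _).trans (Finset.single_le_sum (f := fun n => |birkhoffSum T f n ω|)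
    (fun _ _ => abs_nonneg _) (Finset.mem_range.2 (Nat.lt_succ_of_le hn)))

/-- Garsia: maximal ergodic lemma. -/
theorem garsia (hT : MeasurePreserving T μ μ) (hf : Integrable f μ) (hfm : Measurable f) (N : ℕ) :
    0 ≤ ∫ ω in {ω | ∃ n, 1 ≤ n ∧ n ≤ N ∧ 0 < birkhoffSum T f n ω}, f ω ∂μ := by
  set E : Set Ω := {ω | 0 < bmax T f N ω} with hE
  have hEeq : {ω | ∃ n, 1 ≤ n ∧ n ≤ N ∧ 0 < birkhoffSum T f n ω} = E := by
    ext ω
    exact bmax_pos_iff.symm
  rw [hEeq]
  have hEm : MeasurableSet E := measurableSet_lt measurable_const (measurable_bmax hT.measurable hfm N)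
  have hM := integrable_bmax hT hf hfm N
  have hMT : Integrable (fun ω => bmax T f N (T ω)) μ := hT.integrable_comp_of_integrable hM
  have h1 : ∫ ω, (bmax T f N ω - bmax T f N (T ω)) ∂μ = 0 := by
    rw [integral_sub hM hMT]
    have : ∫ ω, bmax T f N (T ω) ∂μ = ∫ ω, bmax T f N ω ∂μ := by
      have h2 := integral_map (μ := μ) hT.measurable.aemeasurable (f := bmax T f N)
        (by rw [hT.map_eq]; exact hM.aestronglyMeasurable)
      rw [hT.map_eq] at h2
      exact h2.symm
    rw [this, sub_self]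
  have h2 : ∫ ω, (bmax T f N ω - bmax T f N (T ω)) ∂μ ≤
      ∫ ω in E, (bmax T f N ω - bmax T f N (T ω)) ∂μ := by
    have hadd := integral_add_compl hEm (hM.sub hMT)
    simp only [Pi.sub_apply] at hadd
    have h3 : ∫ ω in Eᶜ, (bmax T f N ω - bmax T f N (T ω)) ∂μ ≤ 0 := by
      refine setIntegral_nonpos hEm.compl fun ω hω => ?_
      have h4 : bmax T f N ω ≤ 0 := not_lt.1 hω
      have := bmax_nonneg T f N (T ω)
      linarith
    linarith
  have h5 : ∫ ω in E, (bmax T f N ω - bmax T f N (T ω)) ∂μ ≤ ∫ ω in E, f ω ∂μ := by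
    refine setIntegral_mono_on (hM.sub hMT).integrableOn hf.integrableOn hEm fun ω hω => ?_
    have h6 : bmax T f N ω ≤ f ω + bmax T f N (T ω) := by
      have hpos : 0 < bmax T f N ω := hω
      obtain ⟨n, hn1, hn2⟩ : ∃ n ∈ Finset.range (N + 1), bmax T f N ω = birkhoffSum T f n ω := by
        exact Finset.exists_mem_eq_sup' _ _
      rw [hn2]
      rcases Nat.eq_zero_or_pos n with h0 | h0
      · subst h0
        rw [hn2] at hpos
        simp at hpos
      · obtain ⟨m, rfl⟩ : ∃ m, n = m + 1 := ⟨n - 1, by omega⟩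
        rw [birkhoffSum_succ']
        have : m ≤ N := by
          have := Finset.mem_range.1 hn1
          omega
        have := le_bmax T f this (T ω)
        linarith
    linarith
  linarith

end Garsia

section Hopf

variable {Ω : Type*} [MeasurableSpace Ω] {μ : Measure Ω} [IsProbabilityMeasure μ] {T : Ω → Ω}
  {V : Ω → ℝ}

/-- finite horizon -/
theorem hopf_finite (hT : MeasurePreserving T μ μ) (hV : Integrable V μ) (hVm : Measurable V)
    (hV0 : ∀ ω, 0 ≤ V ω) {lam : ℝ} (N : ℕ) :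
    lam * μ.real {ω | ∃ n, 1 ≤ n ∧ n ≤ N ∧ lam * n < birkhoffSum T V n ω} ≤ ∫ ω, V ω ∂μ := by
  have hset : {ω | ∃ n, 1 ≤ n ∧ n ≤ N ∧ lam * n < birkhoffSum T V n ω} =
      {ω | ∃ n, 1 ≤ n ∧ n ≤ N ∧ 0 < birkhoffSum T (fun ω => V ω - lam) n ω} := by
    ext ω
    simp only [Set.mem_ofPred_eq]
    refine exists_congr fun n => and_congr Iff.rfl (and_congr Iff.rfl ?_)
    have : birkhoffSum T (fun ω => V ω - lam) n ω = birkhoffSum T V n ω - lam * n := by
      unfold birkhoffSum
      rw [Finset.sum_sub_distrib, Finset.sum_const, Finset.card_range, nsmul_eq_mul, mul_comm]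
    rw [this, sub_pos]
  have hint : Integrable (fun ω => V ω - lam) μ := hV.sub (integrable_const _)
  have h := garsia hT hint (hVm.sub_const lam) N
  rw [← hset] at h
  set E := {ω | ∃ n, 1 ≤ n ∧ n ≤ N ∧ lam * n < birkhoffSum T V n ω} with hE
  have hEm : MeasurableSet E := by
    have : E = ⋃ n : ℕ, ⋃ _ : 1 ≤ n ∧ n ≤ N, {ω | lam * n < birkhoffSum T V n ω} := by
      ext ω
      simp [hE, and_assoc]
    rw [this]
    exact MeasurableSet.iUnion fun n => MeasurableSet.iUnion fun _ =>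
      measurableSet_lt measurable_const (measurable_birkhoffSum' hT.measurable hVm n)
  rw [integral_sub hV.integrableOn (integrable_const _), setIntegral_const, smul_eq_mul] at h
  have h2 : ∫ ω in E, V ω ∂μ ≤ ∫ ω, V ω ∂μ :=
    setIntegral_le_integral hV (Eventually.of_forall hV0)
  rw [mul_comm]
  linarith

/-- **Hopf's maximal inequality.** -/
theorem hopf (hT : MeasurePreserving T μ μ) (hV : Integrable V μ) (hVm : Measurable V)
    (hV0 : ∀ ω, 0 ≤ V ω) {lam : ℝ} :
    lam * μ.real {ω | ∃ n : ℕ, 1 ≤ n ∧ lam * n < birkhoffSum T V n ω} ≤ ∫ ω, V ω ∂μ := by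
  set E : ℕ → Set Ω := fun N => {ω | ∃ n, 1 ≤ n ∧ n ≤ N ∧ lam * n < birkhoffSum T V n ω} with hE
  have hmono : Monotone E := by
    rintro a b hab ω ⟨n, h1, h2, h3⟩
    exact ⟨n, h1, h2.trans hab, h3⟩
  have hU : {ω | ∃ n : ℕ, 1 ≤ n ∧ lam * n < birkhoffSum T V n ω} = ⋃ N, E N := by
    ext ω
    simp only [Set.mem_ofPred_eq, mem_iUnion, hE]
    constructor
    · rintro ⟨n, h1, h2⟩
      exact ⟨n, n, h1, le_rfl, h2⟩
    · rintro ⟨N, n, h1, -, h3⟩
      exact ⟨n, h1, h3⟩
  rw [hU]
  have ht : Tendsto (fun N => μ.real (E N)) atTop (𝓝 (μ.real (⋃ N, E N))) := by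
    have := tendsto_measure_iUnion_atTop (μ := μ) hmono
    exact (ENNReal.tendsto_toReal (measure_ne_top _ _)).comp this
  refine le_of_tendsto (ht.const_mul lam) (Eventually.of_forall fun N => ?_)
  exact hopf_finite hT hV hVm hV0 N

/-- the same with a non-strict inequality -/
theorem hopf_le (hT : MeasurePreserving T μ μ) (hV : Integrable V μ) (hVm : Measurable V)
    (hV0 : ∀ ω, 0 ≤ V ω) {lam : ℝ} (hlam : 0 < lam) :
    lam * μ.real {ω | ∃ n : ℕ, 1 ≤ n ∧ lam * n ≤ birkhoffSum T V n ω} ≤ ∫ ω, V ω ∂μ := by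
  have h : ∀ r : ℝ, 0 < r → r < 1 →
      r * (lam * μ.real {ω | ∃ n : ℕ, 1 ≤ n ∧ lam * n ≤ birkhoffSum T V n ω}) ≤ ∫ ω, V ω ∂μ := by
    intro r hr0 hr1
    have h1 := hopf hT hV hVm hV0 (lam := r * lam)
    refine le_trans ?_ h1
    rw [mul_assoc]
    refine mul_le_mul_of_nonneg_left (mul_le_mul_of_nonneg_left ?_ hlam.le) hr0.le
    refine measureReal_mono ?_ (measure_ne_top _ _)
    rintro ω ⟨n, hn, h2⟩
    refine ⟨n, hn, lt_of_lt_of_le ?_ h2⟩
    have : (0 : ℝ) < n := by exact_mod_cast hn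
    have h3 : 0 < lam * n := by positivity
    nlinarith
  set A := lam * μ.real {ω | ∃ n : ℕ, 1 ≤ n ∧ lam * n ≤ birkhoffSum T V n ω} with hA
  by_contra hcon
  push Not at hcon
  have hI : 0 ≤ ∫ ω, V ω ∂μ := integral_nonneg hV0
  have hA0 : 0 < A := lt_of_le_of_lt hI hcon
  have h4 := h ((1 + (∫ ω, V ω ∂μ) / A) / 2) (by positivity) (by
    have : (∫ ω, V ω ∂μ) / A < 1 := (div_lt_one hA0).2 hcon
    linarith)
  have h5 : (1 + (∫ ω, V ω ∂μ) / A) / 2 * A = (A + ∫ ω, V ω ∂μ) / 2 := by
    field_simp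
  rw [h5] at h4
  linarith

end Hopf

section Product

variable {α : Type*} [MeasurableSpace α]

/-- the shift on sequences -/
def sshift (w : ℕ → α) : ℕ → α := fun k => w (k + 1)

lemma measurable_sshift : Measurable (sshift : (ℕ → α) → ℕ → α) :=
  measurable_pi_lambda _ fun k => measurable_pi_apply (k + 1)

omit [MeasurableSpace α] in
lemma iterate_sshift (n : ℕ) (w : ℕ → α) : sshift^[n] w = fun k => w (k + n) := by
  induction n generalizing w with
  | zero => rfl
  | succ n ih =>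
    rw [Function.iterate_succ_apply, ih]
    funext k
    simp [sshift, add_assoc]

/-- the shift preserves a product measure -/
theorem measurePreserving_sshift (ν : Measure α) [IsProbabilityMeasure ν] :
    MeasurePreserving sshift (Measure.infinitePi fun _ : ℕ => ν)
      (Measure.infinitePi fun _ : ℕ => ν) := by
  refine ⟨measurable_sshift, ?_⟩
  refine Measure.eq_infinitePi _ fun s t ht => ?_
  rw [Measure.map_apply measurable_sshift (by
    exact MeasurableSet.pi s.countable_toSet fun i _ => ht i)]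
  classical
  have hpre : sshift ⁻¹' (Set.pi (s : Set ℕ) t) =
      Set.pi ((s.map (addRightEmbedding 1) : Finset ℕ) : Set ℕ) (fun i => t (i - 1)) := by
    ext w
    simp only [mem_preimage, Set.mem_pi, Finset.coe_map, Set.mem_image, Finset.mem_coe, sshift,
      addRightEmbedding_apply]
    constructor
    · rintro h i ⟨j, hj, rfl⟩
      simpa using h j hj
    · intro h i hi
      simpa using h (i + 1) ⟨i, hi, rfl⟩
  rw [hpre, Measure.infinitePi_pi _ fun i _ => ht (i - 1)]
  rw [Finset.prod_map]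
  simp

/-- **Hopf for iid sequences**: `P(∃ n ≥ 1, Σ_{k<n} g(w_k) ≥ λ n) ≤ E g / λ`. -/
theorem hopf_iid (ν : Measure α) [IsProbabilityMeasure ν] {g : α → ℝ} (hg : Integrable g ν)
    (hgm : Measurable g) (hg0 : ∀ a, 0 ≤ g a) {lam : ℝ} (hlam : 0 < lam) :
    (Measure.infinitePi fun _ : ℕ => ν).real
      {w | ∃ n : ℕ, 1 ≤ n ∧ lam * n ≤ ∑ k ∈ Finset.range n, g (w k)} ≤ (∫ a, g a ∂ν) / lam := by
  have hmp : MeasurePreserving (fun w : ℕ → α => w 0) (Measure.infinitePi fun _ : ℕ => ν) ν :=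
    measurePreserving_eval_infinitePi (fun _ : ℕ => ν) 0
  have h1 := hopf_le (measurePreserving_sshift ν) (V := fun w : ℕ → α => g (w 0))
    (hmp.integrable_comp_of_integrable hg) (hgm.comp (measurable_pi_apply 0))
    (fun w => hg0 _) hlam
  have h2 : ∫ w, g (w 0) ∂(Measure.infinitePi fun _ : ℕ => ν) = ∫ a, g a ∂ν := by
    have := integral_map (μ := Measure.infinitePi fun _ : ℕ => ν) hmp.measurable.aemeasurable
      (f := g) (by rw [hmp.map_eq]; exact hg.aestronglyMeasurable)
    rw [hmp.map_eq] at this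
    exact this.symm
  rw [h2] at h1
  rw [le_div_iff₀ hlam, mul_comm]
  have h3 : ∀ (n : ℕ) (w : ℕ → α), birkhoffSum sshift (fun w : ℕ → α => g (w 0)) n w =
      ∑ k ∈ Finset.range n, g (w k) := by
    intro n w
    unfold birkhoffSum
    refine Finset.sum_congr rfl fun k _ => ?_
    rw [iterate_sshift]
    simp
  simp only [h3] at h1
  exact h1

end Product

end Crest.Agent.R154.B2Hopf
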