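import Mathlib
import Crest.Agent.R154.B2Hopf_419

/-! Row 154, B2 (helper419): the probabilistic part of (SUC): for iid blocks with positive integrable
height, with probability at least `1/2` the heights grow linearly, the lateral sums are linear and there
is no giant block at low height. Mathlib only. -/

set_option autoImplicit false

namespace Crest.Agent.R154.Suc419

open MeasureTheory ProbabilityTheory Filter Topology Set

section iid

variable {E : Type*} [MeasurableSpace E] {μ : Measure E} [IsProbabilityMeasure μ]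

lemma measurable_psum {Y : E → ℝ} (hYm : Measurable Y) (k : ℕ) :
    Measurable fun w : ℕ → E => ∑ q ∈ Finset.range k, Y (w q) :=
  Finset.measurable_sum _ fun q _ => hYm.comp (measurable_pi_apply q)

/-- linear growth from below of the sums of iid positive integrable variables -/
lemma exists_linear {Y : E → ℝ} (hYm : Measurable Y) (hYi : Integrable Y μ)
    (hY0 : ∀ᵐ e ∂μ, 0 < Y e) {ε : ℝ} (hε : 0 < ε) :
    ∃ c : ℝ, 0 < c ∧ ∃ C : ℝ, 0 ≤ C ∧ (Measure.infinitePi fun _ : ℕ => μ).real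
      {w : ℕ → E | ∀ k : ℕ, c * k - C ≤ ∑ q ∈ Finset.range k, Y (w q)}ᶜ ≤ ε := by
  set P : Measure (ℕ → E) := Measure.infinitePi fun _ : ℕ => μ with hP
  have hmp : ∀ k : ℕ, MeasurePreserving (fun w : ℕ → E => w k) P μ := fun k =>
    measurePreserving_eval_infinitePi (μ := fun _ : ℕ => μ) k
  have hm : 0 < ∫ e, Y e ∂μ := by
    rw [integral_pos_iff_support_of_nonneg_ae (hY0.mono fun e he => he.le) hYi]
    have h1 : μ {e | 0 < Y e} = 1 := by
      rw [prob_compl_eq_zero_iff (measurableSet_lt measurable_const hYm) |>.symm]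
      exact hY0
    refine lt_of_lt_of_le (by rw [h1]; exact one_pos) (measure_mono fun e he => ?_)
    exact (ne_of_gt he : Y e ≠ 0)
  set m := ∫ e, Y e ∂μ with hmdef
  have hint : Integrable (fun w : ℕ → E => Y (w 0)) P := (hmp 0).integrable_comp_of_integrable hYi
  have hind : Pairwise (Function.onFun (fun f g => IndepFun f g P) fun (k : ℕ) (w : ℕ → E) => Y (w k)) := by
    have h := iIndepFun_infinitePi (P := fun _ : ℕ => μ) (X := fun _ : ℕ => Y) (fun _ => hYm)
    intro i j hij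
    exact h.indepFun hij
  have hid : ∀ k : ℕ, IdentDistrib (fun w : ℕ → E => Y (w k)) (fun w : ℕ → E => Y (w 0)) P P := by
    intro k
    refine ⟨(hYm.comp (measurable_pi_apply k)).aemeasurable,
      (hYm.comp (measurable_pi_apply 0)).aemeasurable, ?_⟩
    have h1 : P.map (fun w : ℕ → E => Y (w k)) = μ.map Y := by
      rw [← (hmp k).map_eq, Measure.map_map hYm (measurable_pi_apply k)]; rfl
    have h2 : P.map (fun w : ℕ → E => Y (w 0)) = μ.map Y := by
      rw [← (hmp 0).map_eq, Measure.map_map hYm (measurable_pi_apply 0)]; rfl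
    rw [h1, h2]
  have hS := strong_law_ae_real (fun (k : ℕ) (w : ℕ → E) => Y (w k)) hint hind hid
  have h0 : ∫ w, Y (w 0) ∂P = m := by
    have := integral_map (μ := P) (hmp 0).measurable.aemeasurable (f := Y)
      (by rw [(hmp 0).map_eq]; exact hYi.aestronglyMeasurable)
    rw [(hmp 0).map_eq] at this
    exact this.symm
  simp only [h0] at hS
  set A : ℕ → Set (ℕ → E) := fun N =>
    {w : ℕ → E | ∀ k : ℕ, m / 2 * k - N ≤ ∑ q ∈ Finset.range k, Y (w q)}ᶜ with hA
  have hAm : ∀ N, MeasurableSet (A N) := by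
    intro N
    refine MeasurableSet.compl ?_
    have : {w : ℕ → E | ∀ k : ℕ, m / 2 * k - N ≤ ∑ q ∈ Finset.range k, Y (w q)} =
        ⋂ k : ℕ, {w : ℕ → E | m / 2 * k - N ≤ ∑ q ∈ Finset.range k, Y (w q)} := by
      ext w; simp
    rw [this]
    exact MeasurableSet.iInter fun k => measurableSet_le measurable_const (measurable_psum hYm k)
  have hanti : Antitone A := by
    intro a b hab
    refine compl_subset_compl.2 fun w hw k => ?_
    have h1 := hw k
    have : (a : ℝ) ≤ b := by exact_mod_cast hab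
    linarith
  have hzero : P (⋂ N, A N) = 0 := by
    rw [← nonpos_iff_eq_zero]
    have hsub : (⋂ N, A N) ⊆ {w | ¬ Tendsto (fun n : ℕ => (∑ i ∈ Finset.range n, Y (w i)) / n)
        atTop (𝓝 m)} := by
      intro w hw htend
      have h1 : ∀ᶠ n : ℕ in atTop, m / 2 < (∑ i ∈ Finset.range n, Y (w i)) / n :=
        htend.eventually (lt_mem_nhds (by linarith))
      obtain ⟨K, hK⟩ := eventually_atTop.1 h1
      set B : ℝ := ∑ k ∈ Finset.range (K + 1), |∑ q ∈ Finset.range k, Y (w q)| with hB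
      obtain ⟨N, hN⟩ := exists_nat_ge (m / 2 * (K + 1) + B)
      have hB0 : 0 ≤ B := Finset.sum_nonneg fun _ _ => abs_nonneg _
      refine (mem_iInter.1 hw N) fun k => ?_
      rcases lt_or_ge k (K + 1) with hk | hk
      · have h2 : |∑ q ∈ Finset.range k, Y (w q)| ≤ B :=
          Finset.single_le_sum (f := fun k => |∑ q ∈ Finset.range k, Y (w q)|)
            (fun _ _ => abs_nonneg _) (Finset.mem_range.2 hk)
        have h3 := neg_abs_le (∑ q ∈ Finset.range k, Y (w q))
        have h4 : (k : ℝ) ≤ K + 1 := by exact_mod_cast hk.le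
        nlinarith
      · have h2 := hK k (by omega)
        have hk0 : (0 : ℝ) < k := by
          have : 0 < k := by omega
          exact_mod_cast this
        rw [lt_div_iff₀ hk0] at h2
        have : (0 : ℝ) ≤ N := Nat.cast_nonneg N
        linarith
    exact (measure_mono hsub).trans (le_of_eq hS)
  have ht : Tendsto (fun N => P.real (A N)) atTop (𝓝 0) := by
    have h1 := tendsto_measure_iInter_atTop (μ := P) (fun N => (hAm N).nullMeasurableSet) hanti
      ⟨0, measure_ne_top _ _⟩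
    rw [hzero] at h1
    exact (ENNReal.tendsto_toReal ENNReal.zero_ne_top).comp h1
  obtain ⟨N, hN⟩ := (ht.eventually (gt_mem_nhds hε)).exists
  exact ⟨m / 2, by positivity, N, Nat.cast_nonneg N, hN.le⟩

/-- tails of an integrable variable along `2^J` -/
lemma tail_tendsto {Y : E → ℝ} (hYm : Measurable Y) (hYi : Integrable Y μ) :
    Tendsto (fun J : ℕ => (2 : ℝ) ^ J * μ.real {e | (2 : ℝ) ^ J - 1 ≤ Y e}) atTop (𝓝 0) := by
  set s : ℕ → Set E := fun J => {e | (2 : ℝ) ^ J - 1 ≤ Y e} with hs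
  have hsm : ∀ J, MeasurableSet (s J) := fun J => measurableSet_le measurable_const hYm
  have hanti : Antitone s := by
    intro a b hab e he
    have h1 : (2 : ℝ) ^ a ≤ 2 ^ b := pow_le_pow_right₀ (by norm_num) hab
    have h2 : (2 : ℝ) ^ b - 1 ≤ Y e := he
    have h3 : (2 : ℝ) ^ a - 1 ≤ Y e := by linarith
    exact h3
  have hempty : (⋂ J, s J) = ∅ := by
    rw [eq_empty_iff_forall_notMem]
    intro e he
    obtain ⟨J, hJ⟩ := pow_unbounded_of_one_lt (Y e + 1) (one_lt_two (α := ℝ))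
    have h1 : (2 : ℝ) ^ J - 1 ≤ Y e := mem_iInter.1 he J
    linarith
  have h1 := tendsto_setIntegral_of_antitone (μ := μ) (f := Y) hsm hanti ⟨0, hYi.integrableOn⟩
  rw [hempty, setIntegral_empty] at h1
  have h2 : Tendsto (fun J => 2 * ∫ e in s J, Y e ∂μ) atTop (𝓝 0) := by
    simpa using h1.const_mul 2
  refine squeeze_zero' (Eventually.of_forall fun J => by positivity) ?_ h2
  filter_upwards [eventually_ge_atTop 1] with J hJ
  have h3 : (2 : ℝ) ≤ 2 ^ J := by
    calc (2 : ℝ) = 2 ^ 1 := by norm_num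
      _ ≤ 2 ^ J := pow_le_pow_right₀ (by norm_num) hJ
  have h4 : ((2 : ℝ) ^ J - 1) * μ.real (s J) ≤ ∫ e in s J, Y e ∂μ := by
    have h5 : ∫ e in s J, ((2 : ℝ) ^ J - 1) ∂μ ≤ ∫ e in s J, Y e ∂μ :=
      setIntegral_mono_on (integrable_const _).integrableOn hYi.integrableOn (hsm J)
        fun e he => he
    rw [setIntegral_const, smul_eq_mul] at h5
    linarith
  have h6 : 0 ≤ μ.real (s J) := measureReal_nonneg
  nlinarith

/-- **(SUC), probabilistic part** -/
theorem suc_iid {Y : E → ℝ} (hYm : Measurable Y) (hYi : Integrable Y μ)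
    (hY0 : ∀ᵐ e ∂μ, 0 < Y e) :
    ∃ c : ℝ, 0 < c ∧ ∃ C : ℝ, 0 ≤ C ∧ ∃ J₀ : ℕ, ∀ J ≥ J₀, ∀ V : E → ℝ, Measurable V →
      (∀ e, 0 ≤ V e) → Integrable V μ →
      (1 / 2 : ℝ) ≤ (Measure.infinitePi fun _ : ℕ => μ).real
        {w : ℕ → E | (∀ k : ℕ, c * k - C ≤ ∑ q ∈ Finset.range k, Y (w q)) ∧
          (∀ k : ℕ, 1 ≤ k → ∑ q ∈ Finset.range k, (V (w q) + 1) < 8 * (1 + ∫ e, V e ∂μ) * k) ∧
          ∀ q : ℕ, ∑ i ∈ Finset.range q, Y (w i) ≤ (2 : ℝ) ^ J → Y (w q) < (2 : ℝ) ^ J - 1} := by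
  obtain ⟨c, hc, C, hC, hlin⟩ := exists_linear (μ := μ) hYm hYi hY0 (ε := 1 / 8) (by norm_num)
  refine ⟨c, hc, C, hC, ?_⟩
  have ht := tail_tendsto (μ := μ) hYm hYi
  set K : ℝ := (1 + C) / c + 1 with hK
  have hK0 : 0 < K := by positivity
  have hev := (ht.eventually (gt_mem_nhds (show (0 : ℝ) < 1 / (8 * K) by positivity)))
  obtain ⟨J₀, hJ₀⟩ := eventually_atTop.1 hev
  refine ⟨J₀, fun J hJ V hVm hV0 hVi => ?_⟩
  have htail := hJ₀ J hJ
  set P : Measure (ℕ → E) := Measure.infinitePi fun _ : ℕ => μ with hP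
  set x := ∫ e, V e ∂μ with hx
  have hx0 : 0 ≤ x := integral_nonneg hV0
  set A : Set (ℕ → E) := {w : ℕ → E | ∀ k : ℕ, c * k - C ≤ ∑ q ∈ Finset.range k, Y (w q)} with hA
  set B : Set (ℕ → E) := {w : ℕ → E | ∃ n : ℕ, 1 ≤ n ∧
    8 * (1 + x) * n ≤ ∑ k ∈ Finset.range n, (V (w k) + 1)} with hB
  have hBle : P.real B ≤ 1 / 8 := by
    have h1 := B2Hopf.hopf_iid μ (g := fun e => V e + 1) (hVi.add (integrable_const 1))
      (hVm.add_const 1) (fun e => by have := hV0 e; linarith) (lam := 8 * (1 + x)) (by positivity)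
    have h2 : ∫ e, (V e + 1) ∂μ = x + 1 := by
      rw [integral_add hVi (integrable_const 1)]
      simp [hx]
    rw [h2] at h1
    refine h1.trans (le_of_eq ?_)
    field_simp
    ring
  -- giants among the first `N` blocks
  set N : ℕ := ⌊((2 : ℝ) ^ J + C) / c⌋₊ + 1 with hN
  set G : Set (ℕ → E) := ⋃ q ∈ Finset.range N, {w : ℕ → E | (2 : ℝ) ^ J - 1 ≤ Y (w q)} with hG
  have hGle : P.real G ≤ 1 / 8 := by
    have h1 : P.real G ≤ ∑ q ∈ Finset.range N, P.real {w : ℕ → E | (2 : ℝ) ^ J - 1 ≤ Y (w q)} :=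
      measureReal_biUnion_finset_le _ _
    have h2 : ∀ q : ℕ, P.real {w : ℕ → E | (2 : ℝ) ^ J - 1 ≤ Y (w q)} =
        μ.real {e | (2 : ℝ) ^ J - 1 ≤ Y e} := by
      intro q
      have hmp : MeasurePreserving (fun w : ℕ → E => w q) P μ :=
        measurePreserving_eval_infinitePi (fun _ : ℕ => μ) q
      have h3 := hmp.measure_preimage
        (measurableSet_le (measurable_const (a := (2 : ℝ) ^ J - 1)) hYm).nullMeasurableSet
      simp only [Measure.real]
      rw [← h3]
      rfl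
    rw [Finset.sum_congr rfl fun q _ => h2 q, Finset.sum_const, Finset.card_range,
      nsmul_eq_mul] at h1
    have h2J : (1 : ℝ) ≤ 2 ^ J := one_le_pow₀ (by norm_num)
    have hNle : (N : ℝ) ≤ K * 2 ^ J := by
      have h4 : (⌊((2 : ℝ) ^ J + C) / c⌋₊ : ℝ) ≤ ((2 : ℝ) ^ J + C) / c :=
        Nat.floor_le (by positivity)
      have h5 : ((2 : ℝ) ^ J + C) / c ≤ (1 + C) / c * 2 ^ J := by
        rw [div_mul_eq_mul_div]
        refine div_le_div_of_nonneg_right ?_ hc.le
        nlinarith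
      rw [hN, hK]
      push_cast
      nlinarith
    have h6 : 0 ≤ μ.real {e | (2 : ℝ) ^ J - 1 ≤ Y e} := measureReal_nonneg
    calc P.real G ≤ N * μ.real {e | (2 : ℝ) ^ J - 1 ≤ Y e} := h1
      _ ≤ K * 2 ^ J * μ.real {e | (2 : ℝ) ^ J - 1 ≤ Y e} :=
          mul_le_mul_of_nonneg_right hNle h6
      _ = K * (2 ^ J * μ.real {e | (2 : ℝ) ^ J - 1 ≤ Y e}) := by ring
      _ ≤ K * (1 / (8 * K)) := mul_le_mul_of_nonneg_left htail.le hK0.le
      _ = 1 / 8 := by field_simp
  -- the good event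
  set T : Set (ℕ → E) := {w : ℕ → E | (∀ k : ℕ, c * k - C ≤ ∑ q ∈ Finset.range k, Y (w q)) ∧
          (∀ k : ℕ, 1 ≤ k → ∑ q ∈ Finset.range k, (V (w q) + 1) < 8 * (1 + x) * k) ∧
          ∀ q : ℕ, ∑ i ∈ Finset.range q, Y (w i) ≤ (2 : ℝ) ^ J → Y (w q) < (2 : ℝ) ^ J - 1}
    with hT
  have hcover : Tᶜ ⊆ Aᶜ ∪ B ∪ G := by
    intro w hw
    by_contra hcon
    simp only [mem_union, not_or, mem_compl_iff, not_not] at hcon
    obtain ⟨⟨hwA, hwB⟩, hwG⟩ := hcon
    refine hw ⟨hwA, fun k hk => ?_, fun q hq => ?_⟩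
    · by_contra hh
      exact hwB ⟨k, hk, not_lt.1 hh⟩
    · by_contra hh
      refine hwG ?_
      simp only [hG, mem_iUnion]
      refine ⟨q, ?_, not_lt.1 hh⟩
      rw [Finset.mem_range, hN, Nat.lt_succ_iff]
      refine Nat.le_floor ?_
      rw [le_div_iff₀ hc]
      have := hwA q
      linarith
  have h1 : P.real Tᶜ ≤ 3 / 8 := by
    calc P.real Tᶜ ≤ P.real (Aᶜ ∪ B ∪ G) := measureReal_mono hcover (measure_ne_top _ _)
      _ ≤ P.real (Aᶜ ∪ B) + P.real G := measureReal_union_le _ _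
      _ ≤ P.real Aᶜ + P.real B + P.real G := by gcongr; exact measureReal_union_le _ _
      _ ≤ 1 / 8 + 1 / 8 + 1 / 8 := by gcongr
      _ = 3 / 8 := by norm_num
  have h2 : 1 ≤ P.real T + P.real Tᶜ := by
    have h3 : P.real (T ∪ Tᶜ) ≤ P.real T + P.real Tᶜ := measureReal_union_le _ _
    rwa [union_compl_self, probReal_univ] at h3
  linarith

end iid

end Crest.Agent.R154.Suc419
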