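import Crest.Agent.R154.B2Suc_719
import Crest.Agent.R154.Suc_419
import Crest.Agent.R154.B2c_419
import Crest.Agent.R154.RenG3_263

/-! Row 154, B2 (helper419): (SUC), deterministic part (concatenations of words) and the binding to
719's `RegSys.SUC`. -/

set_option autoImplicit false
set_option linter.unusedSectionVars false

namespace Crest.Agent.R154.SucDet

open MeasureTheory ProbabilityTheory Filter Set Crest.Agent.R154.Ren263 Crest.Agent.R154.B2
open scoped ENNReal Topology

variable {S : Type*} {V : Type*} [AddCommGroup V] {L : V →+ ℝ} {u : V →+ ℤ} {val : S → V}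

/-! ### words as paths -/

section words
variable [Inhabited S]

/-- position path of a word -/
def wp (val : S → V) (w : Word S) (n : ℕ) : V := pos val w.letter n

lemma wp_zero (w : Word S) : wp val w 0 = 0 := by simp [wp, pos]

lemma list_take_eq (l : List S) {k : ℕ} (hk : k ≤ l.length) :
    (List.range k).map (fun i => l.getD i default) = l.take k := by
  refine List.ext_getElem ?_ fun i h1 h2 => ?_
  · rw [List.length_take, Nat.min_eq_left hk, List.length_map, List.length_range]
  · have hik : i < k := by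
      rw [List.length_take, Nat.min_eq_left hk] at h2
      exact h2
    have hil : i < l.length := hik.trans_le hk
    rw [List.getElem_take, List.getElem_map, List.getElem_range]
    exact List.getD_eq_getElem l default hil

lemma pre_letter (w : Word S) {k : ℕ} (hk : k ≤ w.len) :
    pre k w.letter = (List.take k w : Word S) := list_take_eq (S := S) w hk

lemma hgt_letter (h : S → ℝ) (w : Word S) {k : ℕ} (hk : k ≤ w.len) :
    hgt h w.letter k = Word.ht h (List.take k w) := by
  rw [← ht_pre, pre_letter w hk]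

lemma hgt_letter_len (h : S → ℝ) (w : Word S) : hgt h w.letter w.len = Word.ht h w := by
  rw [hgt_letter h w le_rfl]
  have : (List.take w.len w : Word S) = w := List.take_length (l := w)
  rw [this]

lemma L_wp (w : Word S) {k : ℕ} (hk : k ≤ w.len) :
    L (wp val w k) = Word.ht (hL L val) (List.take k w) := by
  rw [wp, ← hgt_hL, hgt_letter _ w hk]

lemma L_wp_len (w : Word S) : L (wp val w w.len) = Word.ht (hL L val) w := by
  rw [wp, ← hgt_hL, hgt_letter_len]

/-- concatenations start like their first word -/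
lemma pos_cat_lt {w : ℕ → Word S} {k : ℕ} (hk : k ≤ (w 0).len) :
    pos val (cat w) k = wp val (w 0) k :=
  pos_congr val (n := (w 0).len) (fun _ hi => cat_lt hi) hk

/-- start time of block `k` -/
def T (w : ℕ → Word S) (k : ℕ) : ℕ := ∑ i ∈ Finset.range k, (w i).len

lemma T_zero (w : ℕ → Word S) : T w 0 = 0 := by simp [T]

lemma T_succ (w : ℕ → Word S) (k : ℕ) : T w (k + 1) = T w k + (w k).len := by
  simp [T, Finset.sum_range_succ]

lemma T_strictMono {w : ℕ → Word S} (hw : ∀ i, 1 ≤ (w i).len) : StrictMono (T w) :=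
  strictMono_nat_of_lt_succ fun k => by rw [T_succ]; have := hw k; omega

lemma shift_cat_T {w : ℕ → Word S} (hw : ∀ i, 1 ≤ (w i).len) (k : ℕ) :
    shift (T w k) (cat w) = cat (fun i => w (k + i)) := by
  induction k with
  | zero => rw [T_zero]; funext n; simp [shift]
  | succ k ih =>
    rw [T_succ, ← shift_shift, ih]
    have h1 := shift_cat (w := fun i => w (k + i)) (fun i => hw (k + i))
    simp only [Nat.add_zero] at h1
    rw [h1]
    congr 1
    funext i
    congr 1
    omega

/-- position inside block `k` -/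
lemma pos_block {w : ℕ → Word S} (hw : ∀ i, 1 ≤ (w i).len) (k : ℕ) {i : ℕ} (hi : i ≤ (w k).len) :
    pos val (cat w) (T w k + i) = pos val (cat w) (T w k) + wp val (w k) i := by
  have h1 := pos_shift val (cat w) (T w k) i
  rw [shift_cat_T hw k, pos_cat_lt (w := fun i => w (k + i)) (by simpa using hi)] at h1
  simp only [Nat.add_zero] at h1
  rw [h1]
  abel

lemma pos_T {w : ℕ → Word S} (hw : ∀ i, 1 ≤ (w i).len) (k : ℕ) :
    pos val (cat w) (T w k) = ∑ i ∈ Finset.range k, wp val (w i) (w i).len := by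
  induction k with
  | zero => simp [T_zero, pos]
  | succ k ih => rw [T_succ, pos_block hw k le_rfl, ih, Finset.sum_range_succ]

lemma exists_block' {w : ℕ → Word S} (hw : ∀ i, 1 ≤ (w i).len) (n : ℕ) :
    ∃ k i, i < (w k).len ∧ n = T w k + i := by
  obtain ⟨k, -, h1, h2⟩ := B2c.exists_block (T_strictMono hw) 0 n (by rw [T_zero]; exact Nat.zero_le _)
  refine ⟨k, n - T w k, ?_, by omega⟩
  rw [T_succ] at h2
  omega

end words

/-! ### counting lateral records -/

open Classical in
/-- a path with lateral steps at most one makes at least `max - start + 1` lateral records -/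
lemma rec_count {X : ℕ → V} (hstep : ∀ n, u (X (n + 1)) - u (X n) ≤ 1) (N : ℕ) :
    ∀ k < N, u (X k) - u (X 0) + 1 ≤ (((Finset.range N).filter (fun t => LRec u X 0 t)).card : ℤ) := by
  induction N with
  | zero => intro k hk; exact absurd hk (Nat.not_lt_zero k)
  | succ N ih =>
    have hmono : (((Finset.range N).filter (fun t => LRec u X 0 t)).card : ℤ) ≤
        (((Finset.range (N + 1)).filter (fun t => LRec u X 0 t)).card : ℤ) := by
      have : ((Finset.range N).filter (fun t => LRec u X 0 t)) ⊆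
          ((Finset.range (N + 1)).filter (fun t => LRec u X 0 t)) :=
        Finset.filter_subset_filter _ (Finset.range_mono (Nat.le_succ N))
      exact_mod_cast Finset.card_le_card this
    have hold : ∀ k < N, u (X k) - u (X 0) + 1 ≤
        (((Finset.range (N + 1)).filter (fun t => LRec u X 0 t)).card : ℤ) :=
      fun k hk => (ih k hk).trans hmono
    intro k hk
    rcases Nat.lt_or_ge k N with h | h
    · exact hold k h
    · have hkN : k = N := by omega
      subst hkN
      by_cases hrec : LRec u X 0 k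
      · have hcard : ((Finset.range (k + 1)).filter (fun t => LRec u X 0 t)).card =
            ((Finset.range k).filter (fun t => LRec u X 0 t)).card + 1 := by
          rw [Finset.range_add_one, Finset.filter_insert, if_pos hrec, Finset.card_insert_of_notMem]
          simp
        rw [hcard]
        rcases Nat.eq_zero_or_pos k with h0 | h0
        · subst h0; simp
        · obtain ⟨m, rfl⟩ : ∃ m, k = m + 1 := ⟨k - 1, by omega⟩
          have h1 := ih m (Nat.lt_succ_self m)
          have h2 := hstep m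
          push_cast
          linarith
      · unfold LRec at hrec
        push Not at hrec
        obtain ⟨m, _, h2, h3⟩ := hrec
        have := hold m h2
        linarith

section words2
variable [Inhabited S]

lemma wp_step (hu : ∀ a, |u (val a)| ≤ 1) (w : Word S) (n : ℕ) :
    u (wp val w (n + 1)) - u (wp val w n) ≤ 1 := by
  unfold wp pos
  rw [Finset.sum_range_succ, map_add]
  have := (abs_le.1 (hu (w.letter n))).2
  linarith

/-- heights inside a good word -/
lemma good_height {w : Word S} (hg : GoodWord (hL L val) w) {k : ℕ} (hk : k < w.len) :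
    0 ≤ L (wp val w k) ∧ L (wp val w k) < Word.ht (hL L val) w := by
  rw [L_wp w hk.le]
  exact hg.2.2 k hk

/-- every time of a good word which is not a giant lies in a depth phase `j < J` -/
lemma exists_phase {w : Word S} (hg : GoodWord (hL L val) w) {J : ℕ}
    (hJ : Word.ht (hL L val) w < 2 ^ J - 1) {t : ℕ} (ht : t < w.len) :
    ∃ j < J, ∃ σ, Ph L (pa j) (pb j) (wp val w) σ t := by
  obtain ⟨r, hr1, hr2, hr3⟩ := exists_last (fun n => Rec L (wp val w) n)
    (fun k hk => absurd hk (Nat.not_lt_zero k)) t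
  obtain ⟨m0, hm0, hmax⟩ := (Finset.Icc r t).exists_max_image
    (fun m => L (wp val w r) - L (wp val w m)) ⟨r, Finset.mem_Icc.2 ⟨le_rfl, hr1⟩⟩
  rw [Finset.mem_Icc] at hm0
  set D := L (wp val w r) - L (wp val w m0) with hD
  have hD0 : 0 ≤ D := by
    have := hmax r (Finset.mem_Icc.2 ⟨le_rfl, hr1⟩)
    simpa using this
  have hDlt : D < 2 ^ J - 1 := by
    have h1 := (good_height hg (lt_of_le_of_lt hr1 ht)).2
    have h2 := (good_height hg (lt_of_le_of_lt hm0.2 ht)).1
    linarith
  obtain ⟨j, hj1, hj2⟩ := exists_nat_pow_near (show (1 : ℝ) ≤ D + 1 by linarith) one_lt_two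
  refine ⟨j, ?_, r, hr2, hr1, hr3, ⟨m0, hm0.1, hm0.2, ?_⟩, fun m hm1 hm2 => ?_⟩
  · have h3 : (2 : ℝ) ^ j < 2 ^ J := by linarith
    exact (pow_lt_pow_iff_right₀ one_lt_two).1 h3
  · unfold pa; linarith
  · have := hmax m (Finset.mem_Icc.2 ⟨hm1, hm2⟩)
    unfold pb
    linarith

open Classical in
/-- number of lateral records of a word in the depth phase `[a,b)` -/
noncomputable def cnt (L : V →+ ℝ) (u : V →+ ℤ) (val : S → V) (a b : ℝ) (w : Word S) : ℕ :=
  ((Finset.range w.len).filter
    (fun t => (∃ σ, Ph L a b (wp val w) σ t) ∧ LRec u (wp val w) 0 t)).card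

/-- `V_J` -/
noncomputable def VJ (L : V →+ ℝ) (u : V →+ ℤ) (val : S → V) (J : ℕ) (w : Word S) : ℕ :=
  ∑ j ∈ Finset.range J, (cnt L u val (pa j) (pb j) w + cnt L (-u) val (pa j) (pb j) w)

lemma extent_one (hu : ∀ a, |u (val a)| ≤ 1) {w : Word S} (hg : GoodWord (hL L val) w) {J : ℕ}
    (hJ : Word.ht (hL L val) w < 2 ^ J - 1) {t : ℕ} (ht : t ≤ w.len) :
    u (wp val w t) ≤ ((∑ j ∈ Finset.range J, cnt L u val (pa j) (pb j) w : ℕ) : ℤ) := by
  classical
  have hall : ((Finset.range w.len).filter (fun t => LRec u (wp val w) 0 t)).card ≤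
      ∑ j ∈ Finset.range J, cnt L u val (pa j) (pb j) w := by
    have hsub : ((Finset.range w.len).filter (fun t => LRec u (wp val w) 0 t)) ⊆
        (Finset.range J).biUnion (fun j => (Finset.range w.len).filter
          (fun t => (∃ σ, Ph L (pa j) (pb j) (wp val w) σ t) ∧ LRec u (wp val w) 0 t)) := by
      intro t ht
      rw [Finset.mem_filter, Finset.mem_range] at ht
      obtain ⟨j, hj, hσ⟩ := exists_phase hg hJ ht.1
      rw [Finset.mem_biUnion]
      exact ⟨j, Finset.mem_range.2 hj, Finset.mem_filter.2 ⟨Finset.mem_range.2 ht.1, hσ, ht.2⟩⟩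
    exact (Finset.card_le_card hsub).trans Finset.card_biUnion_le
  have hcount := rec_count (u := u) (X := wp val w) (wp_step hu w) w.len
  have h0 : u (wp val w 0) = 0 := by rw [wp_zero, map_zero]
  have hall' : (((Finset.range w.len).filter (fun t => LRec u (wp val w) 0 t)).card : ℤ) ≤
      ((∑ j ∈ Finset.range J, cnt L u val (pa j) (pb j) w : ℕ) : ℤ) := by exact_mod_cast hall
  rcases Nat.eq_zero_or_pos t with h | h
  · subst h; rw [h0]; positivity
  · obtain ⟨m, rfl⟩ : ∃ m, t = m + 1 := ⟨t - 1, by omega⟩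
    have h1 := hcount m (by omega)
    have h2 := wp_step hu w m
    linarith

lemma extent (hu : ∀ a, |u (val a)| ≤ 1) {w : Word S} (hg : GoodWord (hL L val) w) {J : ℕ}
    (hJ : Word.ht (hL L val) w < 2 ^ J - 1) {t : ℕ} (ht : t ≤ w.len) :
    |(u (wp val w t) : ℝ)| ≤ (VJ L u val J w : ℝ) := by
  have h1 := extent_one hu hg hJ ht
  have h2 := extent_one (u := -u) (fun a => by simpa using hu a) hg hJ ht
  have e1 : ∑ j ∈ Finset.range J, cnt L u val (pa j) (pb j) w ≤ VJ L u val J w :=
    Finset.sum_le_sum fun j _ => Nat.le_add_right _ _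
  have e2 : ∑ j ∈ Finset.range J, cnt L (-u) val (pa j) (pb j) w ≤ VJ L u val J w :=
    Finset.sum_le_sum fun j _ => Nat.le_add_left _ _
  have e1' : ((∑ j ∈ Finset.range J, cnt L u val (pa j) (pb j) w : ℕ) : ℤ) ≤ (VJ L u val J w : ℤ) := by
    exact_mod_cast e1
  have e2' : ((∑ j ∈ Finset.range J, cnt L (-u) val (pa j) (pb j) w : ℕ) : ℤ) ≤
      (VJ L u val J w : ℤ) := by exact_mod_cast e2
  simp only [AddMonoidHom.neg_apply] at h2
  have h3 : |u (wp val w t)| ≤ (VJ L u val J w : ℤ) := abs_le.2 ⟨by linarith, by linarith⟩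
  exact_mod_cast h3

/-- lateral position of a concatenation of good words, none of them a giant -/
lemma lateral_bound (hu : ∀ a, |u (val a)| ≤ 1) {w : ℕ → Word S}
    (hg : ∀ k, GoodWord (hL L val) (w k)) {J k : ℕ}
    (hJ : ∀ q ≤ k, Word.ht (hL L val) (w q) < 2 ^ J - 1) {i : ℕ} (hi : i ≤ (w k).len) :
    |(u (pos val (cat w) (T w k + i)) : ℝ)| ≤
      ∑ q ∈ Finset.range (k + 1), (VJ L u val J (w q) : ℝ) := by
  have hw : ∀ i, 1 ≤ (w i).len := fun i => (hg i).1
  have hT : |(u (pos val (cat w) (T w k)) : ℝ)| ≤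
      ∑ q ∈ Finset.range k, (VJ L u val J (w q) : ℝ) := by
    rw [pos_T hw, map_sum, Int.cast_sum]
    refine (Finset.abs_sum_le_sum_abs _ _).trans (Finset.sum_le_sum fun q hq => ?_)
    exact extent hu (hg q) (hJ q (Finset.mem_range.1 hq).le) le_rfl
  rw [pos_block hw k hi, map_add, Int.cast_add, Finset.sum_range_succ]
  exact (abs_add_le _ _).trans (add_le_add hT (extent hu (hg k) (hJ k le_rfl) hi))

/-- height at a block start -/
lemma L_pos_T {w : ℕ → Word S} (hw : ∀ i, 1 ≤ (w i).len) (k : ℕ) :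
    L (pos val (cat w) (T w k)) = ∑ i ∈ Finset.range k, Word.ht (hL L val) (w i) := by
  rw [pos_T hw, map_sum]
  exact Finset.sum_congr rfl fun i _ => L_wp_len (w i)

lemma L_pos_ge {w : ℕ → Word S} (hg : ∀ k, GoodWord (hL L val) (w k)) {k i : ℕ}
    (hi : i < (w k).len) :
    ∑ i ∈ Finset.range k, Word.ht (hL L val) (w i) ≤ L (pos val (cat w) (T w k + i)) := by
  have hw : ∀ i, 1 ≤ (w i).len := fun i => (hg i).1
  rw [pos_block hw k hi.le, map_add, L_pos_T hw]
  have := (good_height (hg k) hi).1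
  linarith

/-- **(SUC), deterministic part** -/
theorem slope_of {w : ℕ → Word S} (hu : ∀ a, |u (val a)| ≤ 1)
    (hg : ∀ k, GoodWord (hL L val) (w k)) {J : ℕ} {c C Λ : ℝ} (hc : 0 < c) (hΛ : 0 ≤ Λ)
    (h1 : ∀ k : ℕ, c * k - C ≤ ∑ q ∈ Finset.range k, Word.ht (hL L val) (w q))
    (h2 : ∀ k : ℕ, 1 ≤ k → ∑ q ∈ Finset.range k, ((VJ L u val J (w q) : ℝ) + 1) < Λ * k)
    (h3 : ∀ q : ℕ, ∑ i ∈ Finset.range q, Word.ht (hL L val) (w i) ≤ (2 : ℝ) ^ J →
      Word.ht (hL L val) (w q) < (2 : ℝ) ^ J - 1) (n : ℕ) :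
    |(u (pos val (cat w) n) : ℝ)| ≤ Λ / c * (L (pos val (cat w) n) + (C + c)) ∨
      (2 : ℝ) ^ J < L (pos val (cat w) n) := by
  have hw : ∀ i, 1 ≤ (w i).len := fun i => (hg i).1
  obtain ⟨k, i, hi, rfl⟩ := exists_block' hw n
  by_cases hbig : (2 : ℝ) ^ J < L (pos val (cat w) (T w k + i))
  · exact Or.inr hbig
  · left
    have hHk := L_pos_ge hg hi
    have hmono : ∀ q ≤ k, ∑ i ∈ Finset.range q, Word.ht (hL L val) (w i) ≤
        ∑ i ∈ Finset.range k, Word.ht (hL L val) (w i) := fun q hq =>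
      Finset.sum_le_sum_of_subset_of_nonneg (Finset.range_mono hq) fun i _ _ => (hg i).2.1.le
    have hJ : ∀ q ≤ k, Word.ht (hL L val) (w q) < 2 ^ J - 1 := fun q hq =>
      h3 q ((hmono q hq).trans (hHk.trans (not_lt.1 hbig)))
    have hlat := lateral_bound hu hg hJ hi.le
    have h4 := h2 (k + 1) (by omega)
    have h5 : ∑ q ∈ Finset.range (k + 1), (VJ L u val J (w q) : ℝ) ≤
        ∑ q ∈ Finset.range (k + 1), ((VJ L u val J (w q) : ℝ) + 1) :=
      Finset.sum_le_sum fun q _ => by linarith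
    have h6 := h1 k
    push_cast at h4
    have h7 : (k : ℝ) + 1 ≤ (L (pos val (cat w) (T w k + i)) + (C + c)) / c := by
      rw [le_div_iff₀ hc]
      linarith
    calc |(u (pos val (cat w) (T w k + i)) : ℝ)|
        ≤ Λ * ((k : ℝ) + 1) := by linarith
      _ ≤ Λ * ((L (pos val (cat w) (T w k + i)) + (C + c)) / c) :=
          mul_le_mul_of_nonneg_left h7 hΛ
      _ = _ := by ring

end words2

/-! ### the binding to `RegSys.SUC` -/

section suc
variable [Countable S] [MeasurableSpace S] [MeasurableSingletonClass S] [Inhabited S]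
variable {P : Measure (ℕ → S)} [IsProbabilityMeasure P]

lemma measurableSet_Slope (lam C H : ℝ) : MeasurableSet (Slope L u val lam C H) := by
  have : Slope L u val lam C H = Stay (hL L val) ∩ ⋂ t : ℕ,
      {s : ℕ → S | |(u (pos val s t) : ℝ)| ≤ lam * (L (pos val s t) + C) ∨ H < L (pos val s t)} := by
    ext s
    simp only [Slope, mem_ofPred_eq, mem_inter_iff, mem_iInter]
  rw [this]
  refine (measurableSet_Stay _).inter (MeasurableSet.iInter fun t => ?_)
  exact (det_of_pos (n := t) (p := fun X : ℕ → V => |(u (X t) : ℝ)| ≤ lam * (L (X t) + C) ∨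
    H < L (X t)) fun X Y h => by rw [h t le_rfl]).measurableSet

/-- the number of lateral records of the first block is at most the number of `F`-events -/
lemma cnt_le_tsum (R : RegSys L val P) (u : V →+ ℤ) (a b : ℝ) {w : ℕ → Word S}
    (hst : cat w ∈ Stay (hL L val))
    (hno : ∀ r, 1 ≤ r → r < (w 0).len → ¬ R.R (cat w) r) :
    (cnt L u val a b (w 0) : ℝ≥0∞) ≤ ∑' σ, ∑' t, ind (cat w ∈ R.F u a b σ t) := by
  classical
  rw [ENNReal.tsum_comm]
  have h1 : (cnt L u val a b (w 0) : ℝ≥0∞) = ∑ t ∈ Finset.range (w 0).len,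
      ind ((∃ σ, Ph L a b (wp val (w 0)) σ t) ∧ LRec u (wp val (w 0)) 0 t) := by
    rw [sum_ind_eq_card]
    rfl
  rw [h1]
  refine le_trans (Finset.sum_le_sum fun t ht => ?_) (ENNReal.sum_le_tsum (Finset.range (w 0).len))
  have htl := Finset.mem_range.1 ht
  by_cases hp : (∃ σ, Ph L a b (wp val (w 0)) σ t) ∧ LRec u (wp val (w 0)) 0 t
  · obtain ⟨⟨σ, hσ⟩, hl⟩ := hp
    have hpos : ∀ k ≤ t, wp val (w 0) k = pos val (cat w) k := fun k hk =>
      (pos_cat_lt (hk.trans htl.le)).symm
    have hF : cat w ∈ R.F u a b σ t := by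
      refine ⟨hst, fun r' hr1 hr2 => hno r' hr1 ?_, (ph_congr hpos le_rfl).1 hσ,
        (lrec_congr hpos le_rfl).1 hl⟩
      have := hσ.2.1
      omega
    calc ind ((∃ σ, Ph L a b (wp val (w 0)) σ t) ∧ LRec u (wp val (w 0)) 0 t) ≤ 1 := ind_le_one _
      _ = ind (cat w ∈ R.F u a b σ t) := (ind_of hF).symm
      _ ≤ _ := ENNReal.le_tsum σ
  · rw [ind_not hp]; exact bot_le

/-- **(SUC)** for an iid block decomposition -/
theorem suc_of_blocks (R : RegSys L val P) (μ : Measure (Word S)) [IsProbabilityMeasure μ]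
    (bl : (ℕ → S) → ℕ → Word S) (hblm : Measurable bl)
    (hmap : (cond P (Stay (hL L val))).map bl = Measure.infinitePi fun _ : ℕ => μ)
    (hgood : ∀ᵐ w ∂μ, GoodWord (hL L val) w)
    (hblk : ∀ᵐ s ∂(cond P (Stay (hL L val))), cat (bl s) = s ∧
      ∀ r, 1 ≤ r → r < (bl s 0).len → ¬ R.R s r)
    (hYi : ∫⁻ w, ENNReal.ofReal (Word.ht (hL L val) w) ∂μ ≠ ⊤)
    (hu : ∀ a, |u (val a)| ≤ 1) : R.SUC u := by
  set h : S → ℝ := hL L val with hh
  set PD : Measure (ℕ → S) := cond P (Stay h) with hPD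
  have hp0 : P (Stay h) ≠ 0 := R.p_ne
  have hpt : P (Stay h) ≠ ⊤ := measure_ne_top _ _
  have hPDprob : IsProbabilityMeasure PD := cond_isProbabilityMeasure hp0
  -- height
  set Y : Word S → ℝ := fun w => Word.ht h w with hY
  have hYm : Measurable Y := measurable_of_countable _
  have hYpos : ∀ᵐ w ∂μ, 0 < Y w := hgood.mono fun w hw => hw.2.1
  have hYint : Integrable Y μ := by
    refine ⟨hYm.aestronglyMeasurable, ?_⟩
    rw [hasFiniteIntegral_iff_ofReal (hYpos.mono fun w hw => hw.le)]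
    exact lt_top_iff_ne_top.2 hYi
  obtain ⟨c, hc, C, hC, J₀, hJ₀⟩ := Suc419.suc_iid (μ := μ) hYm hYint hYpos
  -- almost sure facts along the blocks
  have hgoodall : ∀ᵐ s ∂PD, ∀ k, GoodWord h (bl s k) := by
    rw [ae_all_iff]
    intro k
    have hmp : MeasurePreserving (fun w : ℕ → Word S => w k)
        (Measure.infinitePi fun _ : ℕ => μ) μ :=
      measurePreserving_eval_infinitePi (fun _ : ℕ => μ) k
    have h1 : ∀ᵐ w ∂(Measure.infinitePi fun _ : ℕ => μ), GoodWord h (w k) :=
      hmp.quasiMeasurePreserving.ae hgood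
    rw [← hmap] at h1
    exact ae_of_ae_map hblm.aemeasurable h1
  have hstay : ∀ᵐ s ∂PD, s ∈ Stay h := by
    rw [hPD]
    exact ae_cond_mem (measurableSet_Stay h)
  set p : ℝ := (P (Stay h)).toReal with hpdef
  have hpp : 0 < p := ENNReal.toReal_pos hp0 hpt
  have hp1 : p ≤ 1 := by
    rw [hpdef]
    exact ENNReal.toReal_le_of_le_ofReal zero_le_one (by rw [ENNReal.ofReal_one]; exact prob_le_one)
  refine ⟨max 1 (8 / (c * p)), C + c, le_max_left _ _, by positivity, J₀, fun J hJ x hx hxJ => ?_⟩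
  -- the mean of `V_J`
  set VV : Word S → ℝ := fun w => (VJ L u val J w : ℝ) with hVV
  have hVVm : Measurable VV := measurable_of_countable _
  have hlint : ∫⁻ w, (VJ L u val J w : ℝ≥0∞) ∂μ ≤ ENNReal.ofReal (x / p) := by
    have e1 : ∫⁻ w, (VJ L u val J w : ℝ≥0∞) ∂μ = ∫⁻ s, (VJ L u val J (bl s 0) : ℝ≥0∞) ∂PD := by
      have hmp : MeasurePreserving (fun w : ℕ → Word S => w 0)
          (Measure.infinitePi fun _ : ℕ => μ) μ :=
        measurePreserving_eval_infinitePi (fun _ : ℕ => μ) 0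
      have hm1 : Measurable fun w : Word S => (VJ L u val J w : ℝ≥0∞) := measurable_of_countable _
      have hm2 : Measurable fun w : ℕ → Word S => (VJ L u val J (w 0) : ℝ≥0∞) :=
        hm1.comp (measurable_pi_apply 0)
      rw [← hmp.lintegral_comp hm1, ← hmap, lintegral_map hm2 hblm]
    rw [e1]
    have e2 : ∫⁻ s, (VJ L u val J (bl s 0) : ℝ≥0∞) ∂PD ≤
        ∫⁻ s, ∑ j ∈ Finset.range J, ((∑' σ, ∑' t, ind (s ∈ R.F u (pa j) (pb j) σ t)) +
          ∑' σ, ∑' t, ind (s ∈ R.F (-u) (pa j) (pb j) σ t)) ∂PD := by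
      refine lintegral_mono_ae ?_
      filter_upwards [hblk, hstay] with s hs1 hs2
      obtain ⟨hcat, hno⟩ := hs1
      have hst' : cat (bl s) ∈ Stay (hL L val) := by rw [hcat]; exact hs2
      have hno' : ∀ r, 1 ≤ r → r < (bl s 0).len → ¬ R.R (cat (bl s)) r := by
        rw [hcat]; exact hno
      unfold VJ
      push_cast
      refine Finset.sum_le_sum fun j _ => ?_
      have f1 := cnt_le_tsum R u (pa j) (pb j) hst' hno'
      have f2 := cnt_le_tsum R (-u) (pa j) (pb j) hst' hno'
      rw [hcat] at f1 f2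
      exact add_le_add f1 f2
    refine e2.trans ?_
    have e3 : ∀ (u' : V →+ ℤ) (a b : ℝ), ∫⁻ s, ∑' σ, ∑' t, ind (s ∈ R.F u' a b σ t) ∂PD =
        (P (Stay h))⁻¹ * ∑' σ, ∑' t, P (R.F u' a b σ t) := by
      intro u' a b
      rw [lintegral_tsum fun σ => (Measurable.tsum fun t =>
        measurable_ind (R.measurableSet_F a b σ t)).aemeasurable, ← ENNReal.tsum_mul_left]
      refine tsum_congr fun σ => ?_
      rw [lintegral_tsum fun t => (measurable_ind (R.measurableSet_F a b σ t)).aemeasurable,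
        ← ENNReal.tsum_mul_left]
      refine tsum_congr fun t => ?_
      rw [lintegral_ind (R.measurableSet_F a b σ t), hPD, cond_apply (measurableSet_Stay h)]
      congr 2
      ext s
      exact ⟨fun hs => hs.2, fun hs => ⟨hs.1, hs⟩⟩
    have hmeasF : ∀ (u' : V →+ ℤ) (a b : ℝ), Measurable fun s : ℕ → S =>
        ∑' σ, ∑' t, ind (s ∈ R.F u' a b σ t) := fun u' a b =>
      Measurable.tsum fun σ => Measurable.tsum fun t =>
        measurable_ind (R.measurableSet_F a b σ t)
    have hmj : ∀ j ∈ Finset.range J, Measurable fun s : ℕ → S =>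
        (∑' σ, ∑' t, ind (s ∈ R.F u (pa j) (pb j) σ t)) +
          ∑' σ, ∑' t, ind (s ∈ R.F (-u) (pa j) (pb j) σ t) := fun j _ =>
      (hmeasF u (pa j) (pb j)).add (hmeasF (-u) (pa j) (pb j))
    rw [lintegral_finsetSum _ hmj]
    have e4 : ∀ j ∈ Finset.range J, ∫⁻ s, ((∑' σ, ∑' t, ind (s ∈ R.F u (pa j) (pb j) σ t)) +
          ∑' σ, ∑' t, ind (s ∈ R.F (-u) (pa j) (pb j) σ t)) ∂PD =
        (P (Stay h))⁻¹ * (R.f u j + R.f (-u) j) := by
      intro j _
      rw [lintegral_add_left (hmeasF u _ _), e3, e3, mul_add]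
      rfl
    rw [Finset.sum_congr rfl e4, ← Finset.mul_sum]
    calc (P (Stay h))⁻¹ * R.x u J ≤ (P (Stay h))⁻¹ * ENNReal.ofReal x := by gcongr
      _ = ENNReal.ofReal (x / p) := by
          rw [div_eq_inv_mul, ENNReal.ofReal_mul (by positivity), ENNReal.ofReal_inv_of_pos hpp,
            hpdef, ENNReal.ofReal_toReal hpt]
  have hVVint : Integrable VV μ := by
    refine ⟨hVVm.aestronglyMeasurable, ?_⟩
    rw [hasFiniteIntegral_iff_ofReal (Eventually.of_forall fun w => Nat.cast_nonneg _)]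
    refine lt_of_le_of_lt ?_ (lt_of_le_of_lt hlint ENNReal.ofReal_lt_top)
    refine le_of_eq (lintegral_congr fun w => ?_)
    exact ENNReal.ofReal_natCast _
  have hVVle : ∫ w, VV w ∂μ ≤ x / p := by
    rw [integral_eq_lintegral_of_nonneg_ae (Eventually.of_forall fun w => Nat.cast_nonneg _)
      hVVm.aestronglyMeasurable]
    refine ENNReal.toReal_le_of_le_ofReal (by positivity) ?_
    refine le_trans (le_of_eq (lintegral_congr fun w => ?_)) hlint
    exact ENNReal.ofReal_natCast _
  have hVV0 : 0 ≤ ∫ w, VV w ∂μ := integral_nonneg fun w => Nat.cast_nonneg _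
  -- the success event
  have hmain := hJ₀ J hJ VV hVVm (fun w => Nat.cast_nonneg _) hVVint
  set Λ : ℝ := 8 * (1 + ∫ w, VV w ∂μ) with hΛ
  set E : Set (ℕ → Word S) := {w : ℕ → Word S |
          (∀ k : ℕ, c * k - C ≤ ∑ q ∈ Finset.range k, Y (w q)) ∧
          (∀ k : ℕ, 1 ≤ k → ∑ q ∈ Finset.range k, (VV (w q) + 1) < Λ * k) ∧
          ∀ q : ℕ, ∑ i ∈ Finset.range q, Y (w i) ≤ (2 : ℝ) ^ J → Y (w q) < (2 : ℝ) ^ J - 1} with hE
  have hEm : MeasurableSet E := by
    have : E = (⋂ k : ℕ, {w : ℕ → Word S | c * k - C ≤ ∑ q ∈ Finset.range k, Y (w q)}) ∩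
        ((⋂ k : ℕ, ⋂ _ : 1 ≤ k, {w : ℕ → Word S |
          ∑ q ∈ Finset.range k, (VV (w q) + 1) < Λ * k}) ∩
        ⋂ q : ℕ, ({w : ℕ → Word S | ∑ i ∈ Finset.range q, Y (w i) ≤ (2 : ℝ) ^ J}ᶜ ∪
          {w : ℕ → Word S | Y (w q) < (2 : ℝ) ^ J - 1})) := by
      ext w
      simp only [hE, mem_ofPred_eq, mem_inter_iff, mem_iInter, mem_union, mem_compl_iff,
        ← imp_iff_not_or]
    rw [this]
    refine (MeasurableSet.iInter fun k => measurableSet_le measurable_const
      (Suc419.measurable_psum hYm k)).inter ((MeasurableSet.iInter fun k =>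
      MeasurableSet.iInter fun _ => measurableSet_lt
        (Suc419.measurable_psum (hVVm.add_const 1) k) measurable_const).inter
      (MeasurableSet.iInter fun q => (measurableSet_le (Suc419.measurable_psum hYm q)
        measurable_const).compl.union (measurableSet_lt (hYm.comp (measurable_pi_apply q))
          measurable_const)))
  have hEle : (2 : ℝ≥0∞)⁻¹ ≤ (Measure.infinitePi fun _ : ℕ => μ) E := by
    have h1 : ENNReal.ofReal (1 / 2) ≤ ENNReal.ofReal
        ((Measure.infinitePi fun _ : ℕ => μ).real E) := ENNReal.ofReal_le_ofReal hmain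
    rw [ofReal_measureReal (measure_ne_top _ _)] at h1
    refine le_trans (le_of_eq ?_) h1
    rw [one_div, ENNReal.ofReal_inv_of_pos (by norm_num)]
    norm_num
  have hsub : (bl ⁻¹' E : Set (ℕ → S)) ≤ᵐ[PD]
      Slope L u val (max 1 (8 / (c * p)) * (1 + x)) (C + c) (2 ^ J) := by
    filter_upwards [hblk, hstay, hgoodall] with s hs1 hs2 hs3 hs4
    obtain ⟨hcat, -⟩ := hs1
    obtain ⟨k1, k2, k3⟩ := hs4
    refine ⟨hs2, fun t => ?_⟩
    have h1 := slope_of (u := u) hu hs3 hc (by positivity : (0 : ℝ) ≤ Λ) k1 k2 k3 t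
    rw [hcat] at h1
    rcases h1 with h1 | h1
    · left
      refine h1.trans (mul_le_mul_of_nonneg_right ?_ ?_)
      · have h2 : Λ ≤ 8 / p * (1 + x) := by
          rw [hΛ]
          have h3 : x / p + 1 ≤ (1 + x) / p := by
            rw [add_div]
            have : 1 ≤ 1 / p := by rw [le_div_iff₀ hpp]; linarith
            linarith
          calc 8 * (1 + ∫ w, VV w ∂μ) ≤ 8 * ((1 + x) / p) := by linarith
            _ = 8 / p * (1 + x) := by ring
        calc Λ / c ≤ 8 / p * (1 + x) / c := div_le_div_of_nonneg_right h2 hc.le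
          _ = 8 / (c * p) * (1 + x) := by field_simp
          _ ≤ max 1 (8 / (c * p)) * (1 + x) :=
              mul_le_mul_of_nonneg_right (le_max_right _ _) (by positivity)
      · have := (stay_iff L val s).1 hs2 t
        positivity
    · exact Or.inr h1
  have hfin : (2 : ℝ≥0∞)⁻¹ ≤ PD (Slope L u val (max 1 (8 / (c * p)) * (1 + x)) (C + c) (2 ^ J)) := by
    calc (2 : ℝ≥0∞)⁻¹ ≤ (Measure.infinitePi fun _ : ℕ => μ) E := hEle
      _ = PD (bl ⁻¹' E) := by rw [← hmap, Measure.map_apply hblm hEm]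
      _ ≤ _ := measure_mono_ae hsub
  rw [hPD, cond_apply (measurableSet_Stay h)] at hfin
  have hsl : Stay h ∩ Slope L u val (max 1 (8 / (c * p)) * (1 + x)) (C + c) (2 ^ J) =
      Slope L u val (max 1 (8 / (c * p)) * (1 + x)) (C + c) (2 ^ J) :=
    inter_eq_right.2 fun s hs => hs.1
  rw [hsl] at hfin
  calc P (Stay h) = 2 * (P (Stay h) * 2⁻¹) := by
        rw [mul_comm (P (Stay h)), ← mul_assoc, ENNReal.mul_inv_cancel (by norm_num) (by norm_num),
          one_mul]
    _ ≤ 2 * (P (Stay h) * ((P (Stay h))⁻¹ *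
        P (Slope L u val (max 1 (8 / (c * p)) * (1 + x)) (C + c) (2 ^ J)))) := by gcongr
    _ = _ := by rw [← mul_assoc (P (Stay h)), ENNReal.mul_inv_cancel hp0 hpt, one_mul]

/-- **(SUC)** from 263's renewal structure -/
theorem suc_renG (R : RegSys L val P) {ρ : RenG263.RecSys (hL L val)}
    (RG : RenG263.RenewalG ρ P) (hR : ∀ s ∈ Stay (hL L val), ∀ n, R.R s n → RenG263.Reg ρ s n)
    (hYi : ∫⁻ w, ENNReal.ofReal (Word.ht (hL L val) w) ∂(RenG263.wordLaw ρ P) ≠ ⊤)
    (hu : ∀ a, |u (val a)| ≤ 1) : R.SUC u := by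
  have hp := R.p_ne
  have hT := R.top
  have := RG.isProb hp hT
  refine suc_of_blocks R (RenG263.wordLaw ρ P) (RenG263.blks ρ) (RenG263.measurable_blks ρ)
    (RG.map_blks hp hT) ((RenG263.ae_goodWord ρ P).mono fun w hw => hw.1) ?_ hYi hu
  have h1 : ∀ᵐ s ∂(P.restrict (Stay (hL L val))), s ∈ RenG263.RegInf ρ := by
    rw [ae_restrict_iff' (measurableSet_Stay _)]
    exact RG.ae_regInf hp hT
  have h2 : ∀ᵐ s ∂(cond P (Stay (hL L val))), s ∈ RenG263.RegInf ρ := by
    unfold ProbabilityTheory.cond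
    exact Measure.ae_smul_measure h1 _
  filter_upwards [h2] with s hs
  refine ⟨RenG263.cat_blks hs, fun r hr1 hr2 hr3 => ?_⟩
  rw [RenG263.blks_zero, RenG263.blk0, len_pre] at hr2
  exact RenG263.tau_min hr1 hr2 (hR s hs.1 r hr3)

end suc

end Crest.Agent.R154.SucDet
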