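import Crest.Agent.R154.B2Ext_719
import Crest.Agent.R154.B2CF_263
import Crest.Agent.R154.SucDet_419

/-!
Row 154, block B2, final form for the walk, all frames (S0219, S0220, S0221): `sup_J x_J < ∞` and the
lateral extent of the first block is integrable.
-/

set_option autoImplicit false
set_option linter.unusedSectionVars false
set_option linter.unusedVariables false

namespace Crest.Agent.R154.Bind263

open MeasureTheory ProbabilityTheory Filter Set Crest.ProbabilityR.RandomEnvironment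
open Crest.Agent.R154.Ren263 Crest.Agent.R154.RenG263 Crest.Agent.R154.Mk561
open scoped ENNReal Topology

variable {d : ℕ} {Q : Measure (Environment d)} [IsProbabilityMeasure Q] {κ : ℝ} {R : ℕ}

/-- coordinate `i` as an additive map -/
def crd (i : Fin d) : Site d →+ ℤ := Pi.evalAddMonoidHom (fun _ => ℤ) i

lemma crd_apply (i : Fin d) (z : Site d) : crd i z = z i := rfl

lemma abs_crd_stp (i : Fin d) (a : Mark d) : |crd i (stp a)| ≤ 1 := by
  rw [crd_apply]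
  unfold stp stepVec
  by_cases h : i = a.1.1
  · subst h
    rw [Pi.single_eq_same]
    split_ifs <;> simp
  · rw [Pi.single_eq_of_ne h]; simp

/-- a bound for an additive map on the box -/
lemma exists_bound_box (f : Site d →+ ℝ) (R : ℕ) : ∃ M : ℝ, 0 ≤ M ∧ ∀ z ∈ box d R, |f z| ≤ M := by
  have hfin : (box d R).Finite := by
    have : box d R ⊆ Set.pi univ (fun _ : Fin d => Set.Icc (-(R : ℤ)) R) := by
      intro z hz i _
      exact abs_le.1 (hz i)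
    exact (Set.Finite.pi fun _ => Set.finite_Icc _ _).subset this
  obtain ⟨M, hM⟩ := (hfin.image fun z => |f z|).bddAbove
  exact ⟨max M 0, le_max_right _ _, fun z hz => (hM ⟨z, hz, rfl⟩).trans (le_max_left _ _)⟩

/-- **B2, all frames: `sup_J x_J < ∞`.** -/
theorem Frame.x_bounded (F : Frame Q κ R) (ℓ : Fin d → ℝ) (hℓ : ℓ ≠ 0)
    (h : annealedProb Q 0 (escapeEvent ℓ) ≠ 0) (u : Site d →+ ℤ)
    (hu : ∀ a : Mark d, |u (stp a)| ≤ 1) :
    ∃ M : ℝ≥0∞, M ≠ ∞ ∧ ∀ J, (F.regSys ℓ hℓ h).x u J ≤ M := by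
  set RS := F.regSys ℓ hℓ h with hRS
  have he : 0 < LH ℓ (stepVec (F.stepE ℓ hℓ)) := (F.climb_spec ℓ hℓ).1
  haveI : Inhabited (Mark d) := ⟨(F.stepE ℓ hℓ, true)⟩
  obtain ⟨R1, hR1, hb1⟩ := exists_bound_box (LH ℓ) R
  obtain ⟨R2, hR2, hb2⟩ := exists_bound_box ((Int.castAddHom ℝ).comp u) R
  have hYi : ∫⁻ w, ENNReal.ofReal (Word.ht (B2.hL (LH ℓ) (stp : Mark d → Site d)) w)
      ∂(RenG263.wordLaw (F.rho ℓ hℓ) (mkAnn κ Q 0)) ≠ ⊤ :=
    ((F.rho_renewal ℓ hℓ).lintegral_ht_lt_top (F.hp ℓ h) (F.hT ℓ hℓ)).ne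
  have hsuc : RS.SUC u := Crest.Agent.R154.SucDet.suc_renG RS (F.rho_renewal ℓ hℓ) (fun s _ n hn => hn) hYi hu
  obtain ⟨c, hc⟩ : ∃ c : ℝ, ∀ a : Mark d, B2.hL (LH ℓ) (stp : Mark d → Site d) a ≤ c := by
    obtain ⟨c, hc⟩ := (Set.finite_range (B2.hL (LH ℓ) (stp : Mark d → Site d))).bddAbove
    exact ⟨c, fun a => hc ⟨a, rfl⟩⟩
  have hc' : ∀ a : Mark d, B2.hL (LH ℓ) (stp : Mark d → Site d) a ≤ max c 1 :=
    fun a => (hc a).trans (le_max_left _ _)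
  have hc0 : 0 < max c 1 := lt_of_lt_of_le one_pos (le_max_right _ _)
  have hbig : ∑' j : ℕ, 2 ^ j * mkAnn κ Q 0 (RS.Big (B2.pa j)) ≠ ∞ :=
    B2.regSys_moment (L := LH ℓ) (val := (stp : Mark d → Site d)) (F.rho ℓ hℓ) (F.rho_renewal ℓ hℓ)
      (fun _ i hi => absurd hi (Nat.not_lt_zero i)) (F.hp ℓ h) (F.hT ℓ hℓ) hc' hc0
  exact RS.x_bounded (F.cf ℓ (F.stepE ℓ hℓ) he) he u hR1 hR2
    (fun z hz => ⟨hb1 z hz, by simpa using hb2 z hz⟩) hsuc hbig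

/-- **B2, all frames: the lateral extent of the first block is integrable.** -/
theorem Frame.extent (F : Frame Q κ R) (ℓ : Fin d → ℝ) (hℓ : ℓ ≠ 0)
    (h : annealedProb Q 0 (escapeEvent ℓ) ≠ 0) (i : Fin d) :
    ∃ W : MPath d → ℝ≥0∞, Measurable W ∧ ∫⁻ s, W s ∂(mkAnn κ Q 0) ≠ ∞ ∧
      ∀ s ∈ Ren263.Stay (mht ℓ), ∀ t, (∀ r', 1 ≤ r' → r' ≤ t → ¬ RenG263.Reg (F.rho ℓ hℓ) s r') →
        ENNReal.ofReal |((Mk561.pos 0 s t i : ℤ) : ℝ)| ≤ W s := by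
  obtain ⟨M, hM, hx⟩ := F.x_bounded ℓ hℓ h (crd i) (abs_crd_stp i)
  obtain ⟨W, hW1, hW2, hW3⟩ := (F.regSys ℓ hℓ h).extent (crd i) (abs_crd_stp i) hM hx
  refine ⟨W, hW1, hW2, fun s hs t ht => ?_⟩
  have := hW3 s hs t ht
  rw [pos_eq, crd_apply] at this
  exact this

end Crest.Agent.R154.Bind263
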