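import Crest.Agent.R154.B2Prob_719

/-!
Row 154, block B2: factorisation over block starts and the main inequality (MAIN).
-/

set_option autoImplicit false
set_option linter.unusedSectionVars false
set_option linter.unusedVariables false

namespace Crest.Agent.R154.B2

open MeasureTheory Set Filter Crest.Agent.R154.Ren263
open scoped ENNReal Topology

variable {S : Type*} {V : Type*} [AddCommGroup V]
variable [Countable S] [MeasurableSpace S] [MeasurableSingletonClass S]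
variable {L : V →+ ℝ} {u : V →+ ℤ} {val : S → V} {P : Measure (ℕ → S)} [IsProbabilityMeasure P]

/-- `t` belongs to the phase `[a,b)` of the record interval of `σ`, `σ` in the first block, and `t`
is a lateral record relative to the start of the block -/
def RegSys.F (R : RegSys L val P) (u : V →+ ℤ) (a b : ℝ) (σ t : ℕ) : Set (ℕ → S) :=
  {s | s ∈ Stay (hL L val) ∧ (∀ r', 1 ≤ r' → r' ≤ σ → ¬ R.R s r') ∧
    Ph L a b (pos val s) σ t ∧ LRec u (pos val s) 0 t}

lemma RegSys.measurableSet_F (R : RegSys L val P) (a b : ℝ) (σ t : ℕ) :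
    MeasurableSet (R.F u a b σ t) := by
  have : R.F u a b σ t = Stay (hL L val) ∩ (⋂ r' : ℕ, ⋂ _ : 1 ≤ r' ∧ r' ≤ σ, (R.RS r')ᶜ) ∩
      ({s | Ph L a b (pos val s) σ t} ∩ {s | LRec u (pos val s) 0 t}) := by
    ext s
    simp only [F, RS, mem_ofPred_eq, mem_inter_iff, mem_iInter, mem_compl_iff, not_and]
    constructor
    · rintro ⟨h0, h1, h2, h3⟩
      exact ⟨⟨h0, fun r' hr' _ => h1 r' hr'.1 hr'.2⟩, h2, h3⟩
    · rintro ⟨⟨h0, h1⟩, h2, h3⟩
      exact ⟨h0, fun r' h4 h5 => h1 r' ⟨h4, h5⟩ h0, h2, h3⟩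
  rw [this]
  refine ((measurableSet_Stay _).inter ?_).inter
    (det_Ph.measurableSet.inter det_LRec.measurableSet)
  exact MeasurableSet.iInter fun r' => MeasurableSet.iInter fun _ => (R.measurableSet_RS r').compl

/-- pathwise form of the decomposition -/
lemma RegSys.path_bound (R : RegSys L val P) {a b lam : ℝ} (hlam : 0 ≤ lam) {l : ℕ}
    (hl : 2 * lam * b < l) (n a0 : ℕ) {s : ℕ → S} (hs : s ∈ Stay (hL L val)) :
    ∑' x : ℕ × (ℕ × ℕ), ind ((x.1 < n ∧ x.2.1 < a0) ∧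
        s ∈ R.RS x.1 ∩ shift x.1 ⁻¹' R.F u a b x.2.1 x.2.2) ≤
      ∑ σ ∈ Finset.range (n + a0), (l : ℝ≥0∞) * (ind (∃ t, Ph L a b (pos val s) σ t) +
        ∑' t, ind (Tr L u a b lam (pos val s) σ t)) := by
  have hst := (stay_iff L val s).1 hs
  have h1 : ∑' x : ℕ × (ℕ × ℕ), ind ((x.1 < n ∧ x.2.1 < a0) ∧
        s ∈ R.RS x.1 ∩ shift x.1 ⁻¹' R.F u a b x.2.1 x.2.2) ≤
      ∑' y : ℕ × ℕ, ind (y.1 < n + a0 ∧ ∃ r ≤ y.1, R.R s r ∧
        (∀ r', r < r' → r' ≤ y.1 → ¬ R.R s r') ∧ Ph L a b (pos val s) y.1 y.2 ∧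
        LRec u (pos val s) r y.2) := by
    refine tsum_ind_le_of_rel _ _ (fun x y => x.1 + x.2.1 = y.1 ∧ x.1 + x.2.2 = y.2 ∧
      R.R s x.1 ∧ ∀ r', x.1 < r' → r' ≤ y.1 → ¬ R.R s r') ?_ ?_
    · rintro ⟨r, σ, t⟩ ⟨⟨h1, h2⟩, ⟨_, h3⟩, h4⟩
      simp only at h1 h2 h3 h4
      have hreg := R.R_reg s hs r h3
      have hrec : Rec L (pos val s) r := (record_iff L val s r).1 hreg.1
      have hup : ∀ k, r ≤ k → L (pos val s r) ≤ L (pos val s k) := by
        intro k hk
        have := mem_shift_Stay.1 hreg.2 k hk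
        rwa [hgt_hL, hgt_hL] at this
      obtain ⟨_, h5, h6, h7⟩ := h4
      have h5' : ∀ r', r < r' → r' ≤ r + σ → ¬ R.R s r' := by
        intro r' hr1 hr2 hr3
        have := h5 (r' - r) (by omega) (by omega)
        rw [← R.R_shift s hs r h3, Nat.add_sub_cancel' hr1.le] at this
        exact this hr3
      refine ⟨(r + σ, r + t), ⟨by simp only; omega, r, by simp only; omega, h3, h5', ?_, ?_⟩,
        rfl, rfl, h3, h5'⟩
      · exact (ph_shift hrec hup).1 h6
      · exact lrec_shift.1 h7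
    · rintro ⟨r, σ, t⟩ ⟨r2, σ2, t2⟩ ⟨y1, y2⟩ ⟨h1, h2, h3, h4⟩ ⟨h5, h6, h7, h8⟩
      simp only at h1 h2 h3 h4 h5 h6 h7 h8
      have : r = r2 := by
        rcases lt_trichotomy r r2 with h | h | h
        · exact absurd h7 (h4 r2 h (by omega))
        · exact h
        · exact absurd h3 (h8 r h (by omega))
      subst this
      have e1 : σ = σ2 := by omega
      have e2 : t = t2 := by omega
      rw [e1, e2]
  refine h1.trans ?_
  rw [ENNReal.tsum_prod', tsum_eq_sum (s := Finset.range (n + a0))]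
  · refine Finset.sum_le_sum fun σ hσ => ?_
    obtain ⟨r, hr1, hr2, hr3⟩ := exists_last (fun r => R.R s r) (R.R_zero s hs) σ
    have hreg := R.R_reg s hs r hr2
    have hrec : Rec L (pos val s) r := (record_iff L val s r).1 hreg.1
    have hup : ∀ k, r ≤ k → L (pos val s r) ≤ L (pos val s k) := by
      intro k hk
      have := mem_shift_Stay.1 hreg.2 k hk
      rwa [hgt_hL, hgt_hL] at this
    refine le_trans (ENNReal.tsum_le_tsum fun t => ind_mono ?_)
      (count_tsum (u := u) (a := a) hlam hrec hr1 hup hl)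
    rintro ⟨_, r2, h2, h3, h4, h5, h6⟩
    have : r2 = r := by
      rcases lt_trichotomy r2 r with h | h | h
      · exact absurd hr2 (h4 r h hr1)
      · exact h
      · exact absurd h3 (hr3 r2 h h2)
    rw [this] at h6
    exact ⟨h5, h6⟩
  · intro σ hσ
    rw [ENNReal.tsum_eq_zero]
    intro t
    exact ind_not fun h => hσ (Finset.mem_range.2 h.1)

lemma measurable_ind' {p : (ℕ → S) → Prop} (hp : MeasurableSet {s | p s}) :
    Measurable fun s : ℕ → S => ind (p s) := measurable_ind hp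

/-- the combined inequality before dividing by `rho` -/
theorem RegSys.pre_main (R : RegSys L val P) {a b lam H : ℝ} (hlam : 0 ≤ lam) (hbH : b ≤ H)
    (F : FreshC L u val P lam H) {l : ℕ} (hl : 2 * lam * b < l) (n a0 : ℕ) :
    R.rho n * ∑ σ ∈ Finset.range a0, ∑' t, P (R.F u a b σ t) ≤
      l * ((1 + F.c⁻¹) * (R.pG⁻¹ * ((R.G + 1 : ℕ) * (R.rho (n + a0) * P (R.Big a))))) := by
  -- left-hand side as a sum of probabilities over block starts
  have hL : R.rho n * ∑ σ ∈ Finset.range a0, ∑' t, P (R.F u a b σ t) =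
      ∑' x : ℕ × (ℕ × ℕ), P {s : ℕ → S | s ∈ Stay (hL L val) ∧ ((x.1 < n ∧ x.2.1 < a0) ∧
        s ∈ R.RS x.1 ∩ shift x.1 ⁻¹' R.F u a b x.2.1 x.2.2)} := by
    rw [ENNReal.tsum_prod', tsum_eq_sum (s := Finset.range n)]
    · rw [RegSys.rho, Finset.sum_mul]
      refine Finset.sum_congr rfl fun r hr => ?_
      rw [ENNReal.tsum_prod', tsum_eq_sum (s := Finset.range a0), Finset.mul_sum]
      · refine Finset.sum_congr rfl fun σ hσ => ?_
        rw [← ENNReal.tsum_mul_left]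
        refine tsum_congr fun t => ?_
        rw [← R.measure_RS_shift r (R.measurableSet_F a b σ t) fun s hs => hs.1]
        congr 1
        ext s
        simp only [mem_ofPred_eq, mem_inter_iff, mem_preimage]
        constructor
        · rintro ⟨h1, h2⟩
          exact ⟨h1.1, ⟨Finset.mem_range.1 hr, Finset.mem_range.1 hσ⟩, h1, h2⟩
        · rintro ⟨_, _, h1, h2⟩
          exact ⟨h1, h2⟩
      · intro σ hσ
        rw [ENNReal.tsum_eq_zero]
        intro t
        have : {s : ℕ → S | s ∈ Stay (B2.hL L val) ∧ ((r < n ∧ σ < a0) ∧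
            s ∈ R.RS r ∩ shift r ⁻¹' R.F u a b σ t)} = ∅ := by
          ext s
          simp only [mem_ofPred_eq, mem_empty_iff_false, iff_false]
          intro h
          exact hσ (Finset.mem_range.2 h.2.1.2)
        simp only
        rw [this, measure_empty]
    · intro r hr
      rw [ENNReal.tsum_eq_zero]
      rintro ⟨σ, t⟩
      have : {s : ℕ → S | s ∈ Stay (B2.hL L val) ∧ ((r < n ∧ σ < a0) ∧
          s ∈ R.RS r ∩ shift r ⁻¹' R.F u a b σ t)} = ∅ := by
        ext s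
        simp only [mem_ofPred_eq, mem_empty_iff_false, iff_false]
        intro h
        exact hr (Finset.mem_range.2 h.2.1.1)
      simp only
      rw [this, measure_empty]
  have hmeas : ∀ x : ℕ × (ℕ × ℕ), MeasurableSet {s : ℕ → S | s ∈ Stay (B2.hL L val) ∧
      ((x.1 < n ∧ x.2.1 < a0) ∧ s ∈ R.RS x.1 ∩ shift x.1 ⁻¹' R.F u a b x.2.1 x.2.2)} := by
    intro x
    have : {s : ℕ → S | s ∈ Stay (B2.hL L val) ∧
        ((x.1 < n ∧ x.2.1 < a0) ∧ s ∈ R.RS x.1 ∩ shift x.1 ⁻¹' R.F u a b x.2.1 x.2.2)} =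
        Stay (B2.hL L val) ∩ ({_s : ℕ → S | x.1 < n ∧ x.2.1 < a0} ∩
          (R.RS x.1 ∩ shift x.1 ⁻¹' R.F u a b x.2.1 x.2.2)) := rfl
    rw [this]
    exact (measurableSet_Stay _).inter ((MeasurableSet.const _).inter
      ((R.measurableSet_RS _).inter (measurable_shift _ (R.measurableSet_F _ _ _ _))))
  have hmPh : ∀ σ, MeasurableSet {s : ℕ → S | s ∈ Stay (B2.hL L val) ∧
      ∃ t, Ph L a b (pos val s) σ t} := by
    intro σ
    have : {s : ℕ → S | s ∈ Stay (B2.hL L val) ∧ ∃ t, Ph L a b (pos val s) σ t} =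
        Stay (B2.hL L val) ∩ ⋃ t, {s | Ph L a b (pos val s) σ t} := by
      ext s; simp
    rw [this]
    exact (measurableSet_Stay _).inter (MeasurableSet.iUnion fun t => det_Ph.measurableSet)
  have hmTr : ∀ σ t, MeasurableSet {s : ℕ → S | s ∈ Stay (B2.hL L val) ∧
      Tr L u a b lam (pos val s) σ t} := fun σ t =>
    (measurableSet_Stay _).inter det_Tr.measurableSet
  rw [hL, tsum_measure_eq hmeas]
  calc ∫⁻ s, ∑' x : ℕ × (ℕ × ℕ), ind (s ∈ {s : ℕ → S | s ∈ Stay (B2.hL L val) ∧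
        ((x.1 < n ∧ x.2.1 < a0) ∧ s ∈ R.RS x.1 ∩ shift x.1 ⁻¹' R.F u a b x.2.1 x.2.2)}) ∂P
      ≤ ∫⁻ s, ∑ σ ∈ Finset.range (n + a0), (l : ℝ≥0∞) *
          (ind (s ∈ Stay (B2.hL L val) ∧ ∃ t, Ph L a b (pos val s) σ t) +
            ∑' t, ind (s ∈ Stay (B2.hL L val) ∧ Tr L u a b lam (pos val s) σ t)) ∂P := by
        refine lintegral_mono fun s => ?_
        by_cases hs : s ∈ Stay (B2.hL L val)
        · simpa only [mem_ofPred_eq, hs, true_and] using
            R.path_bound (u := u) hlam hl n a0 hs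
        · have : ∀ x : ℕ × (ℕ × ℕ), ind (s ∈ {s : ℕ → S | s ∈ Stay (B2.hL L val) ∧
              ((x.1 < n ∧ x.2.1 < a0) ∧
                s ∈ R.RS x.1 ∩ shift x.1 ⁻¹' R.F u a b x.2.1 x.2.2)}) = 0 :=
            fun x => ind_not fun h => hs h.1
          rw [ENNReal.tsum_eq_zero.2 this]
          exact bot_le
    _ = ∑ σ ∈ Finset.range (n + a0), (l : ℝ≥0∞) *
          (P {s | s ∈ Stay (B2.hL L val) ∧ ∃ t, Ph L a b (pos val s) σ t} +
            ∑' t, P {s | s ∈ Stay (B2.hL L val) ∧ Tr L u a b lam (pos val s) σ t}) := by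
        have hmT : ∀ σ, Measurable fun s : ℕ → S =>
            ∑' t, ind (s ∈ Stay (B2.hL L val) ∧ Tr L u a b lam (pos val s) σ t) := fun σ =>
          Measurable.ennreal_tsum fun t => measurable_ind' (hmTr σ t)
        rw [lintegral_finsetSum]
        · refine Finset.sum_congr rfl fun σ _ => ?_
          rw [lintegral_const_mul, lintegral_add_left, lintegral_tsum]
          · congr 2
            · exact lintegral_ind (hmPh σ)
            · exact tsum_congr fun t => lintegral_ind (hmTr σ t)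
          · exact fun t => (measurable_ind' (hmTr σ t)).aemeasurable
          · exact measurable_ind' (hmPh σ)
          · exact (measurable_ind' (hmPh σ)).add (hmT σ)
        · intro σ _
          exact ((measurable_ind' (hmPh σ)).add (hmT σ)).const_mul _
    _ ≤ ∑ σ ∈ Finset.range (n + a0), (l : ℝ≥0∞) * ((1 + F.c⁻¹) *
          P (Stay (B2.hL L val) ∩ Dp L val a σ)) := by
        refine Finset.sum_le_sum fun σ _ => ?_
        have e1 : {s : ℕ → S | s ∈ Stay (B2.hL L val) ∧ ∃ t, Ph L a b (pos val s) σ t} ⊆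
            Stay (B2.hL L val) ∩ Dp L val a σ := by
          rintro s ⟨h1, t, h2⟩
          obtain ⟨m, hm1, hm2, hm3⟩ := h2.2.2.2.1
          exact ⟨h1, h2.1, m, hm1, fun j hj hj' => h2.2.2.1 j hj (hj'.trans hm2), hm3⟩
        have e2 := trial_sum (a := a) (L := L) (val := val) hbH F σ
        have e3 : P (Stay (B2.hL L val) ∩ {s | ∃ t, Ph L a b (pos val s) σ t}) ≤
            P (Stay (B2.hL L val) ∩ Dp L val a σ) := measure_mono e1
        calc (l : ℝ≥0∞) * (P {s | s ∈ Stay (B2.hL L val) ∧ ∃ t, Ph L a b (pos val s) σ t} +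
            ∑' t, P {s | s ∈ Stay (B2.hL L val) ∧ Tr L u a b lam (pos val s) σ t})
            ≤ l * (P (Stay (B2.hL L val) ∩ Dp L val a σ) +
                F.c⁻¹ * P (Stay (B2.hL L val) ∩ Dp L val a σ)) := by
              refine mul_le_mul' le_rfl (add_le_add (measure_mono e1) ?_)
              exact e2.trans (mul_le_mul' le_rfl e3)
          _ = l * ((1 + F.c⁻¹) * P (Stay (B2.hL L val) ∩ Dp L val a σ)) := by ring
    _ = l * ((1 + F.c⁻¹) * ∑ σ ∈ Finset.range (n + a0), P (Stay (B2.hL L val) ∩ Dp L val a σ)) := by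
        rw [Finset.mul_sum, Finset.mul_sum]
    _ ≤ _ := by
        refine mul_le_mul' le_rfl (mul_le_mul' le_rfl (R.freq a (n + a0)))

lemma RegSys.rho_add_le (R : RegSys L val P) (n a0 : ℕ) : R.rho (n + a0) ≤ R.rho n + a0 := by
  unfold RegSys.rho
  rw [Finset.sum_range_add]
  gcongr
  calc ∑ x ∈ Finset.range a0, P (R.GC (n + x)) ≤ ∑ x ∈ Finset.range a0, (1 : ℝ≥0∞) :=
        Finset.sum_le_sum fun x _ => prob_le_one
    _ = a0 := by simp

lemma RegSys.rho_ne_top (R : RegSys L val P) (n : ℕ) : R.rho n ≠ ∞ := by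
  unfold RegSys.rho
  exact (ENNReal.sum_ne_top).2 fun r _ => measure_ne_top _ _

lemma RegSys.tsum_GC (R : RegSys L val P) : ∑' r, P (R.GC r) = ∞ := by
  by_contra hcon
  have h1 : P (limsup (fun r => R.GC r) atTop) = 0 := measure_limsup_atTop_eq_zero hcon
  have h2 := measure_eq_zero_iff_ae_notMem.1 h1
  refine R.p_ne (measure_eq_zero_iff_ae_notMem.2 ?_)
  filter_upwards [h2, R.inf] with s h3 hs hs0
  refine h3 ?_
  rw [mem_limsup_iff_frequently_mem, frequently_atTop]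
  intro N
  obtain ⟨r, hr1, hr2⟩ := hs hs0 N
  exact ⟨r, hr1, ((R.GC_iff s r).2 ⟨hs0, hr2⟩).1⟩

lemma RegSys.rho_tendsto (R : RegSys L val P) : Tendsto (fun n => R.rho n) atTop (𝓝 ∞) := by
  have := ENNReal.tendsto_nat_tsum (fun r => P (R.GC r))
  rwa [R.tsum_GC] at this

/-- **(MAIN)** -/
theorem RegSys.main (R : RegSys L val P) {a b lam H : ℝ} (hlam : 0 ≤ lam) (hbH : b ≤ H)
    (F : FreshC L u val P lam H) {l : ℕ} (hl : 2 * lam * b < l) :
    ∑' σ, ∑' t, P (R.F u a b σ t) ≤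
      l * ((1 + F.c⁻¹) * (R.pG⁻¹ * ((R.G + 1 : ℕ) * P (R.Big a)))) := by
  refine ENNReal.tsum_le_of_sum_range_le fun a0 => ?_
  set x := ∑ σ ∈ Finset.range a0, ∑' t, P (R.F u a b σ t) with hx
  set K := (l : ℝ≥0∞) * ((1 + F.c⁻¹) * (R.pG⁻¹ * ((R.G + 1 : ℕ) * P (R.Big a)))) with hK
  have hKtop : K ≠ ∞ := by
    refine ENNReal.mul_ne_top (ENNReal.natCast_ne_top _) (ENNReal.mul_ne_top ?_
      (ENNReal.mul_ne_top (ENNReal.inv_ne_top.2 R.pG_ne)
        (ENNReal.mul_ne_top (ENNReal.natCast_ne_top _) (measure_ne_top _ _))))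
    exact ENNReal.add_ne_top.2 ⟨ENNReal.one_ne_top, ENNReal.inv_ne_top.2 F.c_ne⟩
  have h1 : ∀ n, R.rho n * x ≤ K * R.rho n + K * a0 := by
    intro n
    have := R.pre_main hlam hbH F hl n a0 (a := a)
    refine this.trans ?_
    calc (l : ℝ≥0∞) * ((1 + F.c⁻¹) * (R.pG⁻¹ * ((R.G + 1 : ℕ) * (R.rho (n + a0) * P (R.Big a)))))
        = K * R.rho (n + a0) := by rw [hK]; ring
      _ ≤ K * (R.rho n + a0) := by gcongr; exact R.rho_add_le n a0
      _ = _ := by rw [mul_add]
  have h2 : ∀ᶠ n in atTop, x ≤ K + K * a0 * (R.rho n)⁻¹ := by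
    have hev : ∀ᶠ n in atTop, (1 : ℝ≥0∞) < R.rho n :=
      R.rho_tendsto.eventually (lt_mem_nhds ENNReal.one_lt_top)
    filter_upwards [hev] with n hn
    have hne : R.rho n ≠ 0 := (zero_lt_one.trans hn).ne'
    calc x = (R.rho n)⁻¹ * (R.rho n * x) := by
          rw [← mul_assoc, ENNReal.inv_mul_cancel hne (R.rho_ne_top n), one_mul]
      _ ≤ (R.rho n)⁻¹ * (K * R.rho n + K * a0) := by gcongr; exact h1 n
      _ = K * ((R.rho n)⁻¹ * R.rho n) + K * a0 * (R.rho n)⁻¹ := by ring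
      _ = K + K * a0 * (R.rho n)⁻¹ := by
          rw [ENNReal.inv_mul_cancel hne (R.rho_ne_top n), mul_one]
  have h3 : Tendsto (fun n => K + K * a0 * (R.rho n)⁻¹) atTop (𝓝 (K + K * a0 * 0)) := by
    refine Tendsto.add tendsto_const_nhds ?_
    refine ENNReal.Tendsto.const_mul ?_ (Or.inr (ENNReal.mul_ne_top hKtop
      (ENNReal.natCast_ne_top _)))
    have := tendsto_inv_iff.2 R.rho_tendsto
    simpa using this
  rw [mul_zero, add_zero] at h3
  exact ge_of_tendsto h3 h2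

end Crest.Agent.R154.B2
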