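import Crest.Agent.R154.Ren_263
import Crest.Agent.R154.B2Det_719

/-!
Row 154, block B2 (E[B] < ∞), the main inequality (MAIN): the mean number of lateral records made in
a depth phase during one block is bounded by (trial constant) * P(the block is tall).
-/

set_option autoImplicit false
set_option linter.unusedSectionVars false

namespace Crest.Agent.R154.B2

open MeasureTheory Set Filter Crest.Agent.R154.Ren263
open scoped ENNReal Topology

/-! ### indicators of propositions -/

open Classical in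
/-- indicator of a proposition with values in `ℝ≥0∞` -/
noncomputable def ind (p : Prop) : ℝ≥0∞ := if p then 1 else 0

lemma ind_of {p : Prop} (h : p) : ind p = 1 := by simp [ind, h]
lemma ind_not {p : Prop} (h : ¬ p) : ind p = 0 := by simp [ind, h]
lemma ind_le_one (p : Prop) : ind p ≤ 1 := by by_cases h : p <;> simp [ind, h]
lemma ind_mono {p q : Prop} (h : p → q) : ind p ≤ ind q := by
  by_cases hp : p
  · rw [ind_of hp, ind_of (h hp)]
  · rw [ind_not hp]; exact bot_le
lemma ind_congr {p q : Prop} (h : p ↔ q) : ind p = ind q := by rw [propext h]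

lemma ind_and {p q : Prop} : ind (p ∧ q) = ind p * ind q := by
  by_cases hp : p <;> by_cases hq : q <;> simp [ind, hp, hq]

lemma tsum_ind_le_one {α : Type*} (p : α → Prop) (h : ∀ x y, p x → p y → x = y) :
    ∑' x, ind (p x) ≤ 1 := by
  by_cases hx : ∃ x, p x
  · obtain ⟨x, hx⟩ := hx
    rw [tsum_eq_single x fun y hy => ind_not fun hp => hy (h y x hp hx)]
    exact ind_le_one _
  · have : ∀ x, ind (p x) = 0 := fun x => ind_not fun hp => hx ⟨x, hp⟩
    simp [this]

lemma tsum_ind_le_of_rel {α β : Type*} (p : α → Prop) (q : β → Prop) (W : α → β → Prop)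
    (h1 : ∀ x, p x → ∃ y, q y ∧ W x y) (h2 : ∀ x x' y, W x y → W x' y → x = x') :
    ∑' x, ind (p x) ≤ ∑' y, ind (q y) := by
  calc ∑' x, ind (p x) ≤ ∑' x, ∑' y, ind (q y ∧ W x y) := by
        refine ENNReal.tsum_le_tsum fun x => ?_
        by_cases hp : p x
        · obtain ⟨y, hy⟩ := h1 x hp
          exact (ind_mono fun _ => hy).trans (ENNReal.le_tsum y)
        · rw [ind_not hp]; exact bot_le
    _ = ∑' y, ∑' x, ind (q y ∧ W x y) := ENNReal.tsum_comm
    _ = ∑' y, ind (q y) * ∑' x, ind (W x y) := by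
        refine tsum_congr fun y => ?_
        rw [← ENNReal.tsum_mul_left]
        exact tsum_congr fun x => ind_and
    _ ≤ ∑' y, ind (q y) := by
        refine ENNReal.tsum_le_tsum fun y => ?_
        calc ind (q y) * ∑' x, ind (W x y) ≤ ind (q y) * 1 := by
              gcongr
              exact tsum_ind_le_one _ fun x x' hx hx' => h2 x x' y hx hx'
          _ = ind (q y) := mul_one _

lemma sum_ind_eq_card {α : Type*} (A : Finset α) (p : α → Prop) [DecidablePred p] :
    ∑ x ∈ A, ind (p x) = ((A.filter p).card : ℝ≥0∞) := by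
  rw [Finset.card_filter]
  push_cast
  refine Finset.sum_congr rfl fun x _ => ?_
  by_cases h : p x <;> simp [ind, h]

lemma tsum_ind_lt (N : ℕ) (p : ℕ → Prop) :
    ∑' n, ind (n < N ∧ p n) = ∑ n ∈ Finset.range N, ind (p n) := by
  rw [tsum_eq_sum (s := Finset.range N)]
  · refine Finset.sum_congr rfl fun n hn => ?_
    exact ind_congr ⟨fun h => h.2, fun h => ⟨Finset.mem_range.1 hn, h⟩⟩
  · intro n hn
    exact ind_not fun h => hn (Finset.mem_range.2 h.1)

/-! ### the counting lemma as a sum -/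

section det
variable {V : Type*} [AddCommGroup V] {L : V →+ ℝ} {u : V →+ ℤ}

open Classical in
lemma count_tsum {a b lam : ℝ} (hlam : 0 ≤ lam) {X : ℕ → V} {σ r : ℕ}
    (hr : Rec L X r) (hrσ : r ≤ σ) (hstay : ∀ k, r ≤ k → L (X r) ≤ L (X k))
    {l : ℕ} (hl : 2 * lam * b < l) :
    ∑' t, ind (Ph L a b X σ t ∧ LRec u X r t) ≤
      l * (ind (∃ t, Ph L a b X σ t) + ∑' t, ind (Tr L u a b lam X σ t)) := by
  by_cases hex : ∃ t, Ph L a b X σ t
  · rw [ind_of hex]
    refine ENNReal.tsum_le_of_sum_range_le fun M => ?_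
    have h1 := count (u := u) hlam hr hrσ hstay (a := a) hl M
    rw [sum_ind_eq_card]
    calc (((Finset.range M).filter (fun t => Ph L a b X σ t ∧ LRec u X r t)).card : ℝ≥0∞)
        ≤ ((l * (((Finset.range M).filter (fun t => Tr L u a b lam X σ t)).card + 1) : ℕ) : ℝ≥0∞) := by
          exact_mod_cast h1
      _ = l * (1 + ∑ t ∈ Finset.range M, ind (Tr L u a b lam X σ t)) := by
          rw [sum_ind_eq_card]; push_cast; ring
      _ ≤ _ := by
          gcongr
          exact ENNReal.sum_le_tsum _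
  · have : ∀ t, ind (Ph L a b X σ t ∧ LRec u X r t) = 0 :=
      fun t => ind_not fun h => hex ⟨t, h.1⟩
    simp [this]

end det

/-! ### letters and positions -/

variable {S : Type*} {V : Type*} [AddCommGroup V]

/-- position after `n` letters -/
def pos (val : S → V) (s : ℕ → S) (n : ℕ) : V := ∑ i ∈ Finset.range n, val (s i)

/-- height of a letter -/
def hL (L : V →+ ℝ) (val : S → V) (a : S) : ℝ := L (val a)

lemma hgt_hL (L : V →+ ℝ) (val : S → V) (s : ℕ → S) (n : ℕ) :
    hgt (hL L val) s n = L (pos val s n) := by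
  simp [hgt, hL, pos, map_sum]

lemma pos_shift (val : S → V) (s : ℕ → S) (n k : ℕ) :
    pos val (shift n s) k = pos val s (n + k) - pos val s n := by
  unfold pos shift
  rw [Finset.sum_range_add]
  abel

lemma pos_congr (val : S → V) {s s' : ℕ → S} {n : ℕ} (H : ∀ i < n, s i = s' i) {k : ℕ}
    (hk : k ≤ n) : pos val s k = pos val s' k := by
  unfold pos
  refine Finset.sum_congr rfl fun i hi => ?_
  rw [H i (lt_of_lt_of_le (Finset.mem_range.1 hi) hk)]

lemma record_iff (L : V →+ ℝ) (val : S → V) (s : ℕ → S) (n : ℕ) :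
    Record (hL L val) s n ↔ Rec L (pos val s) n := by
  unfold Record Rec
  simp_rw [hgt_hL]

lemma stay_iff (L : V →+ ℝ) (val : S → V) (s : ℕ → S) :
    s ∈ Stay (hL L val) ↔ ∀ n, 0 ≤ L (pos val s n) := by
  simp only [Stay, mem_ofPred_eq, hgt_hL]

section shiftlemmas
variable {L : V →+ ℝ} {u : V →+ ℤ} {val : S → V}

lemma rec_shift {s : ℕ → S} {r m : ℕ} (hr : Rec L (pos val s) r)
    (hst : ∀ k, r ≤ k → L (pos val s r) ≤ L (pos val s k)) (hm : 0 < m) :
    Rec L (pos val (shift r s)) m ↔ Rec L (pos val s) (r + m) := by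
  constructor
  · intro h k hk
    rcases lt_or_ge k r with hkr | hkr
    · have h0 := h 0 hm
      rw [pos_shift, pos_shift, map_sub, map_sub, add_zero] at h0
      have h1 := hr k hkr
      linarith
    · obtain ⟨j, rfl⟩ := Nat.exists_eq_add_of_le hkr
      have h0 := h j (by omega)
      rw [pos_shift, pos_shift, map_sub, map_sub] at h0
      linarith
  · intro h k hk
    rw [pos_shift, pos_shift, map_sub, map_sub]
    have := h (r + k) (by omega)
    linarith

lemma rec_shift' {s : ℕ → S} {r m : ℕ} (hr : Rec L (pos val s) r)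
    (hst : ∀ k, r ≤ k → L (pos val s r) ≤ L (pos val s k)) :
    Rec L (pos val (shift r s)) m ↔ Rec L (pos val s) (r + m) := by
  rcases Nat.eq_zero_or_pos m with rfl | hm
  · simp only [add_zero]
    exact ⟨fun _ => hr, fun _ k hk => absurd hk (Nat.not_lt_zero k)⟩
  · exact rec_shift hr hst hm

lemma ph_shift {a b : ℝ} {s : ℕ → S} {r σ t : ℕ} (hr : Rec L (pos val s) r)
    (hst : ∀ k, r ≤ k → L (pos val s r) ≤ L (pos val s k)) :
    Ph L a b (pos val (shift r s)) σ t ↔ Ph L a b (pos val s) (r + σ) (r + t) := by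
  unfold Ph
  have e1 : Rec L (pos val (shift r s)) σ ↔ Rec L (pos val s) (r + σ) := rec_shift' hr hst
  have e2 : σ ≤ t ↔ r + σ ≤ r + t := by omega
  have e3 : (∀ m, σ < m → m ≤ t → ¬ Rec L (pos val (shift r s)) m) ↔
      (∀ m, r + σ < m → m ≤ r + t → ¬ Rec L (pos val s) m) := by
    constructor
    · intro h m hm1 hm2
      obtain ⟨j, rfl⟩ := Nat.exists_eq_add_of_le (show r ≤ m by omega)
      rw [← rec_shift' hr hst]
      exact h j (by omega) (by omega)
    · intro h m hm1 hm2
      rw [rec_shift' hr hst]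
      exact h (r + m) (by omega) (by omega)
  have e4 : (∃ m, σ ≤ m ∧ m ≤ t ∧
        a ≤ L (pos val (shift r s) σ) - L (pos val (shift r s) m)) ↔
      (∃ m, r + σ ≤ m ∧ m ≤ r + t ∧ a ≤ L (pos val s (r + σ)) - L (pos val s m)) := by
    constructor
    · rintro ⟨m, h1, h2, h3⟩
      refine ⟨r + m, by omega, by omega, ?_⟩
      rw [pos_shift, pos_shift, map_sub, map_sub] at h3
      linarith
    · rintro ⟨m, h1, h2, h3⟩
      obtain ⟨j, rfl⟩ := Nat.exists_eq_add_of_le (show r ≤ m by omega)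
      refine ⟨j, by omega, by omega, ?_⟩
      rw [pos_shift, pos_shift, map_sub, map_sub]
      linarith
  have e5 : (∀ m, σ ≤ m → m ≤ t →
        L (pos val (shift r s) σ) - L (pos val (shift r s) m) < b) ↔
      (∀ m, r + σ ≤ m → m ≤ r + t → L (pos val s (r + σ)) - L (pos val s m) < b) := by
    constructor
    · intro h m h1 h2
      obtain ⟨j, rfl⟩ := Nat.exists_eq_add_of_le (show r ≤ m by omega)
      have := h j (by omega) (by omega)
      rw [pos_shift, pos_shift, map_sub, map_sub] at this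
      linarith
    · intro h m h1 h2
      rw [pos_shift, pos_shift, map_sub, map_sub]
      have := h (r + m) (by omega) (by omega)
      linarith
  rw [e1, e2, e3, e4, e5]

lemma lrec_shift {s : ℕ → S} {r t : ℕ} :
    LRec u (pos val (shift r s)) 0 t ↔ LRec u (pos val s) r (r + t) := by
  unfold LRec
  constructor
  · intro h k h1 h2
    obtain ⟨j, rfl⟩ := Nat.exists_eq_add_of_le h1
    have := h j (Nat.zero_le _) (by omega)
    rw [pos_shift, pos_shift, map_sub, map_sub] at this
    linarith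
  · intro h k _ h2
    rw [pos_shift, pos_shift, map_sub, map_sub]
    have := h (r + k) (by omega) (by omega)
    linarith

end shiftlemmas

/-! ### determination by finitely many letters -/

section det2
variable {L : V →+ ℝ} {u : V →+ ℤ} {val : S → V}

lemma rec_congr {X Y : ℕ → V} {n : ℕ} (h : ∀ k ≤ n, X k = Y k) {m : ℕ} (hm : m ≤ n) :
    Rec L X m ↔ Rec L Y m := by
  unfold Rec
  rw [h m hm]
  exact forall_congr' fun k => forall_congr' fun hk => by rw [h k (hk.le.trans hm)]

lemma ph_congr {a b : ℝ} {X Y : ℕ → V} {n : ℕ} (h : ∀ k ≤ n, X k = Y k) {σ t : ℕ} (ht : t ≤ n) :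
    Ph L a b X σ t ↔ Ph L a b Y σ t := by
  have key : ∀ X Y : ℕ → V, (∀ k ≤ n, X k = Y k) → Ph L a b X σ t → Ph L a b Y σ t := by
    rintro X Y h ⟨h1, h2, h3, ⟨m, hm1, hm2, hm3⟩, h5⟩
    refine ⟨(rec_congr h (h2.trans ht)).1 h1, h2, fun m hm hm' => ?_, ⟨m, hm1, hm2, ?_⟩,
      fun m hm hm' => ?_⟩
    · rw [← rec_congr h (hm'.trans ht)]; exact h3 m hm hm'
    · rw [← h σ (h2.trans ht), ← h m (hm2.trans ht)]; exact hm3
    · rw [← h σ (h2.trans ht), ← h m (hm'.trans ht)]; exact h5 m hm hm'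
  exact ⟨key X Y h, key Y X fun k hk => (h k hk).symm⟩

lemma expo_congr {lam : ℝ} {X Y : ℕ → V} {n : ℕ} (h : ∀ k ≤ n, X k = Y k) {t : ℕ} (ht : t ≤ n) :
    Expo L u lam X t ↔ Expo L u lam Y t := by
  unfold Expo
  refine forall_congr' fun k => forall_congr' fun hk => ?_
  rw [h t ht, h k (hk.le.trans ht)]

lemma lrec_congr {X Y : ℕ → V} {n : ℕ} (h : ∀ k ≤ n, X k = Y k) {r t : ℕ} (ht : t ≤ n) :
    LRec u X r t ↔ LRec u Y r t := by
  unfold LRec
  refine forall_congr' fun k => forall_congr' fun _ => forall_congr' fun hk => ?_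
  rw [h t ht, h k (hk.le.trans ht)]

lemma tr_congr {a b lam : ℝ} {X Y : ℕ → V} {n : ℕ} (h : ∀ k ≤ n, X k = Y k) {σ t : ℕ}
    (ht : t ≤ n) : Tr L u a b lam X σ t ↔ Tr L u a b lam Y σ t := by
  have key : ∀ X Y : ℕ → V, (∀ k ≤ n, X k = Y k) → Tr L u a b lam X σ t →
      Tr L u a b lam Y σ t := by
    rintro X Y h ⟨h1, h2, h3⟩
    refine ⟨(ph_congr h ht).1 h1, (expo_congr h ht).1 h2, fun t' ht' hp he => ?_⟩
    obtain ⟨m, hm1, hm2, hm3⟩ := h3 t' ht' ((ph_congr h (ht'.le.trans ht)).2 hp)
      ((expo_congr h (ht'.le.trans ht)).2 he)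
    refine ⟨m, hm1, hm2, ?_⟩
    rw [← h m (hm2.trans ht), ← h t' (ht'.le.trans ht)]
    exact hm3
  exact ⟨key X Y h, key Y X fun k hk => (h k hk).symm⟩

lemma det_of_pos {n : ℕ} {p : (ℕ → V) → Prop}
    (hp : ∀ X Y : ℕ → V, (∀ k ≤ n, X k = Y k) → (p X ↔ p Y)) :
    Det n {s : ℕ → S | p (pos val s)} := by
  intro s s' H
  exact hp _ _ fun k hk => pos_congr val H hk

end det2

end Crest.Agent.R154.B2
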