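import Crest.Agent.R154.B2Main_719

/-!
Row 154, block B2, probability part: trials (M1), frequency lemma (M2), factorisation over block
starts (M3, M4) and the main inequality (MAIN).
-/

set_option autoImplicit false
set_option linter.unusedSectionVars false
set_option linter.unusedVariables false

namespace Crest.Agent.R154.B2

open MeasureTheory Set Filter Crest.Agent.R154.Ren263
open scoped ENNReal Topology

variable {S : Type*} {V : Type*} [AddCommGroup V]
variable [Countable S] [MeasurableSpace S] [MeasurableSingletonClass S]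

/-- An abstract regeneration structure (`G = 0`: all regeneration times; `G > 0`: regenerations with
`G` forced steps). -/
structure RegSys (L : V →+ ℝ) (val : S → V) (P : Measure (ℕ → S)) where
  G : ℕ
  pG : ℝ≥0∞
  R : (ℕ → S) → ℕ → Prop
  GC : ℕ → Set (ℕ → S)
  Fo : Set (ℕ → S)
  R_zero : ∀ s ∈ Stay (hL L val), R s 0
  R_reg : ∀ s ∈ Stay (hL L val), ∀ r, R s r → Reg (hL L val) s r
  GC_det : ∀ r, Det r (GC r)
  GC_iff : ∀ s r, (s ∈ GC r ∧ shift r s ∈ Stay (hL L val)) ↔ (s ∈ Stay (hL L val) ∧ R s r)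
  ren : ∀ (r : ℕ) (A B : Set (ℕ → S)), Det r A → A ⊆ GC r → MeasurableSet B →
    B ⊆ Stay (hL L val) → P (A ∩ shift r ⁻¹' B) = P A * P B
  R_shift : ∀ s ∈ Stay (hL L val), ∀ r, R s r → ∀ r', (R s (r + r') ↔ R (shift r s) r')
  Fo_meas : MeasurableSet Fo
  Fo_ge : ∀ (n : ℕ) (A : Set (ℕ → S)), Det n A → (∀ s ∈ A, Record (hL L val) s n) →
    pG * P A ≤ P (A ∩ shift n ⁻¹' Fo)
  pG_ne : pG ≠ 0
  Fo_stay : Fo ⊆ Stay (hL L val)
  Fo_reg : ∀ s ∈ Stay (hL L val), ∀ n, Record (hL L val) s n → shift n s ∈ Fo →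
    ∃ r, n ≤ r ∧ r ≤ n + G ∧ R s r
  top : ∀ᵐ s ∂P, s ∈ Stay (hL L val) → ∀ M : ℝ, ∃ n, M ≤ hgt (hL L val) s n
  inf : ∀ᵐ s ∂P, s ∈ Stay (hL L val) → ∀ N, ∃ r, N ≤ r ∧ R s r
  p_ne : P (Stay (hL L val)) ≠ 0

/-- Fresh cone property with a success event. -/
structure FreshC (L : V →+ ℝ) (u : V →+ ℤ) (val : S → V) (P : Measure (ℕ → S)) (lam H : ℝ) where
  c : ℝ≥0∞
  Sc : Set (ℕ → S)
  c_ne : c ≠ 0
  Sc_meas : MeasurableSet Sc
  Sc_U : ∀ s ∈ Sc, ∀ k, 1 ≤ k → pos val s k ∈ UU L u lam H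
  Sc_ge : ∀ (n : ℕ) (A : Set (ℕ → S)), Det n A →
    (∀ s ∈ A, ∀ k < n, pos val s k ≠ pos val s n ∧ pos val s k - pos val s n ∉ UU L u lam H) →
    c * P A ≤ P (A ∩ shift n ⁻¹' Sc)

variable {L : V →+ ℝ} {u : V →+ ℤ} {val : S → V} {P : Measure (ℕ → S)} [IsProbabilityMeasure P]

lemma le_inv_mul {c x y : ℝ≥0∞} (hc : c ≠ 0) (hc1 : c ≤ 1) (h : c * x ≤ y) : x ≤ c⁻¹ * y := by
  have hct : c ≠ ∞ := ne_top_of_le_ne_top ENNReal.one_ne_top hc1
  calc x = c⁻¹ * (c * x) := by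
        rw [← mul_assoc, ENNReal.inv_mul_cancel hc hct, one_mul]
    _ ≤ c⁻¹ * y := by gcongr

lemma FreshC.c_le {lam H : ℝ} (F : FreshC L u val P lam H) : F.c ≤ 1 := by
  have := F.Sc_ge 0 Set.univ (Det.univ 0) (fun s _ k hk => absurd hk (Nat.not_lt_zero k))
  rw [measure_univ, mul_one] at this
  exact this.trans prob_le_one

lemma RegSys.pG_le (R : RegSys L val P) : R.pG ≤ 1 := by
  have := R.Fo_ge 0 Set.univ (Det.univ 0) (fun s _ k hk => absurd hk (Nat.not_lt_zero k))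
  rw [measure_univ, mul_one] at this
  exact this.trans prob_le_one

/-- nonnegative heights up to `n` -/
def St (L : V →+ ℝ) (val : S → V) (n : ℕ) : Set (ℕ → S) := {s | ∀ k ≤ n, 0 ≤ L (pos val s k)}

lemma det_St (n : ℕ) : Det n (St L val n) := by
  refine det_of_pos (p := fun X => ∀ k ≤ n, 0 ≤ L (X k)) fun X Y h => ?_
  exact forall_congr' fun k => forall_congr' fun hk => by rw [h k hk]

lemma stay_sub_St (n : ℕ) : Stay (hL L val) ⊆ St L val n := fun s hs k _ =>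
  (stay_iff L val s).1 hs k

lemma measurableSet_Stay' : MeasurableSet (Stay (hL L val)) := measurableSet_Stay _

/-! ### (M1) trials -/

lemma det_Tr {a b lam : ℝ} {σ t : ℕ} :
    Det t {s : ℕ → S | Tr L u a b lam (pos val s) σ t} :=
  det_of_pos (p := fun X => Tr L u a b lam X σ t) fun _ _ h => tr_congr h le_rfl

lemma det_Ph {a b : ℝ} {σ t : ℕ} : Det t {s : ℕ → S | Ph L a b (pos val s) σ t} :=
  det_of_pos (p := fun X => Ph L a b X σ t) fun _ _ h => ph_congr h le_rfl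

lemma det_LRec {r t : ℕ} : Det t {s : ℕ → S | LRec u (pos val s) r t} :=
  det_of_pos (p := fun X => LRec u X r t) fun _ _ h => lrec_congr h le_rfl

theorem trial_sum {a b lam H : ℝ} (hbH : b ≤ H) (F : FreshC L u val P lam H) (σ : ℕ) :
    ∑' t, P (Stay (hL L val) ∩ {s | Tr L u a b lam (pos val s) σ t}) ≤
      F.c⁻¹ * P (Stay (hL L val) ∩ {s | ∃ t, Ph L a b (pos val s) σ t}) := by
  set A : ℕ → Set (ℕ → S) := fun t => St L val t ∩ {s | Tr L u a b lam (pos val s) σ t} with hA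
  have hAdet : ∀ t, Det t (A t) := fun t => (det_St t).inter det_Tr
  have h1 : ∀ t, P (Stay (hL L val) ∩ {s | Tr L u a b lam (pos val s) σ t}) ≤
      F.c⁻¹ * P (A t ∩ shift t ⁻¹' F.Sc) := by
    intro t
    refine (measure_mono (inter_subset_inter_left _ (stay_sub_St t))).trans ?_
    refine le_inv_mul F.c_ne F.c_le (F.Sc_ge t (A t) (hAdet t) ?_)
    rintro s ⟨_, hs⟩ k hk
    have hp := hs.1
    have he := hs.2.1 k hk
    refine ⟨he.1, fun hU => he.2 ?_⟩
    rcases hU.2 with h | h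
    · exact ⟨hU.1, h⟩
    · exfalso
      rw [map_sub] at h
      have e1 := hp.height_le hk.le
      have e2 := hp.height_gt
      linarith
  have hdisj : Pairwise (Function.onFun Disjoint fun t => A t ∩ shift t ⁻¹' F.Sc) := by
    have key : ∀ t t', t < t' → Disjoint (A t ∩ shift t ⁻¹' F.Sc) (A t' ∩ shift t' ⁻¹' F.Sc) := by
      intro t t' htt
      rw [Set.disjoint_left]
      rintro s ⟨⟨_, h1⟩, h2⟩ ⟨⟨_, h3⟩, _⟩
      obtain ⟨m, hm1, hm2, hm3⟩ := h3.2.2 t htt h1.1 h1.2.1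
      apply hm3
      have hU := F.Sc_U _ h2 (m - t) (by omega)
      rw [pos_shift, Nat.add_sub_cancel' hm1.le] at hU
      refine ⟨hU.1, ?_⟩
      rcases hU.2 with h | h
      · exact h
      · exfalso
        rw [map_sub] at h
        have e1 := h3.1.height_le hm2
        have e2 := h1.1.height_gt
        linarith
    intro t t' hne
    rcases lt_or_gt_of_ne hne with h | h
    · exact key t t' h
    · exact (key t' t h).symm
  have hmeas : ∀ t, MeasurableSet (A t ∩ shift t ⁻¹' F.Sc) := fun t =>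
    (hAdet t).measurableSet.inter (measurable_shift t F.Sc_meas)
  calc ∑' t, P (Stay (hL L val) ∩ {s | Tr L u a b lam (pos val s) σ t})
      ≤ ∑' t, F.c⁻¹ * P (A t ∩ shift t ⁻¹' F.Sc) := ENNReal.tsum_le_tsum h1
    _ = F.c⁻¹ * P (⋃ t, (A t ∩ shift t ⁻¹' F.Sc)) := by
        rw [ENNReal.tsum_mul_left, measure_iUnion hdisj hmeas]
    _ ≤ _ := by
        gcongr
        refine iUnion_subset fun t => ?_
        rintro s ⟨⟨h1, h2⟩, h3⟩
        refine ⟨(stay_iff L val s).2 fun n => ?_, ⟨t, h2.1⟩⟩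
        rcases le_or_gt n t with hn | hn
        · exact h1 n hn
        · have hU := (F.Sc_U _ h3 (n - t) (by omega)).1
          rw [pos_shift, Nat.add_sub_cancel' hn.le, map_sub] at hU
          have := h1 t le_rfl
          linarith

/-! ### (M2) frequency lemma -/

/-- depth at least `k` during the record interval started at `σ` -/
def Dp (L : V →+ ℝ) (val : S → V) (k : ℝ) (σ : ℕ) : Set (ℕ → S) :=
  {s | Rec L (pos val s) σ ∧ ∃ t, σ ≤ t ∧ (∀ m, σ < m → m ≤ t → ¬ Rec L (pos val s) m) ∧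
    k ≤ L (pos val s σ) - L (pos val s t)}

/-- the same with the next record `σ'` -/
def Ev (L : V →+ ℝ) (val : S → V) (k : ℝ) (σ σ' : ℕ) : Set (ℕ → S) :=
  {s | Rec L (pos val s) σ ∧ σ < σ' ∧ Rec L (pos val s) σ' ∧
    (∀ m, σ < m → m < σ' → ¬ Rec L (pos val s) m) ∧
    ∃ m, σ ≤ m ∧ m < σ' ∧ k ≤ L (pos val s σ) - L (pos val s m)}

lemma det_Ev (k : ℝ) (σ σ' : ℕ) : Det σ' (Ev L val k σ σ') := by
  have key : ∀ X Y : ℕ → V, (∀ j ≤ σ', X j = Y j) →
      (Rec L X σ ∧ σ < σ' ∧ Rec L X σ' ∧ (∀ m, σ < m → m < σ' → ¬ Rec L X m) ∧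
        ∃ m, σ ≤ m ∧ m < σ' ∧ k ≤ L (X σ) - L (X m)) →
      (Rec L Y σ ∧ σ < σ' ∧ Rec L Y σ' ∧ (∀ m, σ < m → m < σ' → ¬ Rec L Y m) ∧
        ∃ m, σ ≤ m ∧ m < σ' ∧ k ≤ L (Y σ) - L (Y m)) := by
    rintro X Y h ⟨h1, h2, h3, h4, m, h5, h6, h7⟩
    refine ⟨(rec_congr h h2.le).1 h1, h2, (rec_congr h le_rfl).1 h3, fun m hm hm' => ?_,
      m, h5, h6, ?_⟩
    · rw [← rec_congr h hm'.le]; exact h4 m hm hm'
    · rw [← h σ h2.le, ← h m h6.le]; exact h7
  exact det_of_pos (p := fun X => Rec L X σ ∧ σ < σ' ∧ Rec L X σ' ∧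
    (∀ m, σ < m → m < σ' → ¬ Rec L X m) ∧ ∃ m, σ ≤ m ∧ m < σ' ∧ k ≤ L (X σ) - L (X m))
    fun X Y h => ⟨key X Y h, key Y X fun j hj => (h j hj).symm⟩

/-- the block started at `0` has height at least `k` -/
def RegSys.Big (R : RegSys L val P) (k : ℝ) : Set (ℕ → S) :=
  {s | s ∈ Stay (hL L val) ∧ ∃ r, 1 ≤ r ∧ R.R s r ∧ (∀ r', 1 ≤ r' → r' < r → ¬ R.R s r') ∧
    k ≤ L (pos val s r)}

/-- `Stay ∩ {R s r}` -/
def RegSys.RS (R : RegSys L val P) (r : ℕ) : Set (ℕ → S) := {s | s ∈ Stay (hL L val) ∧ R.R s r}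

lemma RegSys.RS_eq (R : RegSys L val P) (r : ℕ) :
    R.RS r = R.GC r ∩ shift r ⁻¹' Stay (hL L val) := by
  ext s; exact (R.GC_iff s r).symm

lemma RegSys.measurableSet_RS (R : RegSys L val P) (r : ℕ) : MeasurableSet (R.RS r) := by
  rw [R.RS_eq]
  exact (R.GC_det r).measurableSet.inter (measurable_shift r (measurableSet_Stay _))

lemma measurable_pos_height (n : ℕ) : Measurable fun s : ℕ → S => L (pos val s n) := by
  simp_rw [← hgt_hL]
  exact measurable_hgt _ n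

lemma RegSys.measurableSet_Big (R : RegSys L val P) (k : ℝ) : MeasurableSet (R.Big k) := by
  have : R.Big k = ⋃ r : ℕ, ⋃ _ : 1 ≤ r, (R.RS r ∩ {s | k ≤ L (pos val s r)} ∩
      ⋂ r' : ℕ, ⋂ _ : 1 ≤ r' ∧ r' < r, (R.RS r')ᶜ) := by
    ext s
    simp only [Big, RS, mem_ofPred_eq, mem_iUnion, mem_inter_iff, mem_iInter, mem_compl_iff,
      not_and, exists_prop]
    constructor
    · rintro ⟨h0, r, h1, h2, h3, h4⟩
      exact ⟨r, h1, ⟨⟨h0, h2⟩, h4⟩, fun r' hr' _ => h3 r' hr'.1 hr'.2⟩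
    · rintro ⟨r, h1, ⟨⟨h0, h2⟩, h4⟩, h3⟩
      exact ⟨h0, r, h1, h2, fun r' h5 h6 => h3 r' ⟨h5, h6⟩ h0, h4⟩
  rw [this]
  refine MeasurableSet.iUnion fun r => MeasurableSet.iUnion fun _ => ?_
  refine ((R.measurableSet_RS r).inter
    (measurableSet_le measurable_const (measurable_pos_height r))).inter ?_
  exact MeasurableSet.iInter fun r' => MeasurableSet.iInter fun _ => (R.measurableSet_RS r').compl

lemma RegSys.measure_RS_shift (R : RegSys L val P) (r : ℕ) {B : Set (ℕ → S)}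
    (hB : MeasurableSet B) (hBs : B ⊆ Stay (hL L val)) :
    P (R.RS r ∩ shift r ⁻¹' B) = P (R.GC r) * P B := by
  rw [← R.ren r (R.GC r) B (R.GC_det r) subset_rfl hB hBs]
  congr 1
  rw [R.RS_eq]
  ext s
  constructor
  · rintro ⟨⟨h1, _⟩, h3⟩; exact ⟨h1, h3⟩
  · rintro ⟨h1, h3⟩; exact ⟨⟨h1, hBs h3⟩, h3⟩

lemma shift_stay_of_record {s : ℕ → S} {n : ℕ} (hs : s ∈ St L val n)
    (h : shift n s ∈ Stay (hL L val)) : s ∈ Stay (hL L val) := by
  refine (stay_iff L val s).2 fun k => ?_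
  rcases le_or_gt k n with hk | hk
  · exact hs k hk
  · have h1 := (stay_iff L val _).1 h (k - n)
    rw [pos_shift, Nat.add_sub_cancel' hk.le, map_sub] at h1
    have := hs n le_rfl
    linarith

/-- last regeneration before or at `σ` -/
lemma exists_last (Q : ℕ → Prop) (h0 : Q 0) (σ : ℕ) :
    ∃ r ≤ σ, Q r ∧ ∀ r', r < r' → r' ≤ σ → ¬ Q r' := by
  induction σ with
  | zero => exact ⟨0, le_rfl, h0, fun r' h1 h2 => by omega⟩
  | succ σ ih =>
    by_cases h : Q (σ + 1)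
    · exact ⟨σ + 1, le_rfl, h, fun r' h1 h2 => by omega⟩
    · obtain ⟨r, hr1, hr2, hr3⟩ := ih
      refine ⟨r, by omega, hr2, fun r' h1 h2 => ?_⟩
      rcases Nat.lt_or_ge r' (σ + 1) with h3 | h3
      · exact hr3 r' h1 (by omega)
      · have : r' = σ + 1 := by omega
        rw [this]; exact h

lemma exists_next (Q : ℕ → Prop) (r : ℕ) (h : ∃ m, r < m ∧ Q m) :
    ∃ m, r < m ∧ Q m ∧ ∀ r', r < r' → r' < m → ¬ Q r' := by
  classical
  refine ⟨Nat.find h, (Nat.find_spec h).1, (Nat.find_spec h).2, fun r' h1 h2 h3 => ?_⟩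
  exact Nat.find_min h h2 ⟨h1, h3⟩

/-- pathwise counting for the frequency lemma -/
lemma RegSys.freq_path (R : RegSys L val P) (k : ℝ) (N : ℕ) {s : ℕ → S}
    (hs : s ∈ Stay (hL L val)) :
    ∑' x : ℕ × ℕ, ind (x.1 < N ∧ s ∈ Ev L val k x.1 x.2 ∧ shift x.2 s ∈ R.Fo) ≤
      ∑' y : ℕ × ℕ, ind ((y.1 < N ∧ s ∈ R.RS y.1 ∩ shift y.1 ⁻¹' R.Big k) ∧ y.2 < R.G + 1) := by
  have hst := (stay_iff L val s).1 hs
  refine tsum_ind_le_of_rel _ _ (fun x y => s ∈ Ev L val k x.1 x.2 ∧ y.1 < x.2 + y.2 ∧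
    R.R s (x.2 + y.2) ∧ ∀ r', y.1 < r' → r' < x.2 + y.2 → ¬ R.R s r') ?_ ?_
  · rintro ⟨σ, σ'⟩ ⟨h1, h2, h3⟩
    simp only at h1 h2 h3
    obtain ⟨hσ, hlt, hσ', hno, m, hm1, hm2, hm3⟩ := h2
    obtain ⟨r, hr1, hr2, hr3⟩ := exists_last (fun r => R.R s r) (R.R_zero s hs) σ
    obtain ⟨r'', hr''1, hr''2, hr''3⟩ := R.Fo_reg s hs σ' ((record_iff L val s σ').2 hσ') h3
    obtain ⟨r2, hr21, hr22, hr23⟩ := exists_next (fun r => R.R s r) r ⟨r'', by omega, hr''3⟩
    have hr2le : r2 ≤ r'' := by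
      by_contra hcon
      exact hr23 r'' (by omega) (by omega) hr''3
    have hreg2 := R.R_reg s hs r2 hr22
    have hreg := R.R_reg s hs r hr2
    have hσr2 : σ < r2 := by
      by_contra hcon
      exact hr3 r2 hr21 (by omega) hr22
    have hrec2 : Rec L (pos val s) r2 := (record_iff L val s r2).1 hreg2.1
    have hσ'r2 : σ' ≤ r2 := by
      by_contra hcon
      exact hno r2 hσr2 (by omega) hrec2
    refine ⟨(r, r2 - σ'), ⟨⟨by omega, ⟨hs, hr2⟩, ?_⟩, by simp only; omega⟩,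
      ⟨hσ, hlt, hσ', hno, m, hm1, hm2, hm3⟩, by simp only; omega, ?_, ?_⟩
    · refine ⟨hreg.2, r2 - r, by omega, ?_, ?_, ?_⟩
      · rw [← R.R_shift s hs r hr2, Nat.add_sub_cancel' hr21.le]
        exact hr22
      · intro r' h4 h5
        rw [← R.R_shift s hs r hr2]
        exact hr23 _ (by omega) (by omega)
      · rw [pos_shift, Nat.add_sub_cancel' hr21.le, map_sub]
        have e1 := hrec2 σ hσr2
        have e2 : L (pos val s r) ≤ L (pos val s m) := by
          have := mem_shift_Stay.1 hreg.2 m (by omega)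
          rwa [hgt_hL, hgt_hL] at this
        linarith
    · simp only
      rw [Nat.add_sub_cancel' hσ'r2]; exact hr22
    · simp only
      rw [Nat.add_sub_cancel' hσ'r2]
      exact hr23
  · rintro ⟨σ, σ'⟩ ⟨τ, τ'⟩ ⟨r, g⟩ ⟨h1, h2, h3, h4⟩ ⟨h5, h6, h7, h8⟩
    simp only at h1 h2 h3 h4 h5 h6 h7 h8
    have e : σ' + g = τ' + g := by
      rcases lt_trichotomy (σ' + g) (τ' + g) with h | h | h
      · exact absurd h3 (h8 _ h2 h)
      · exact h
      · exact absurd h7 (h4 _ h6 h)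
    have e' : σ' = τ' := by omega
    subst e'
    obtain ⟨a1, a2, a3, a4, _⟩ := h1
    obtain ⟨b1, b2, b3, b4, _⟩ := h5
    have : σ = τ := by
      rcases lt_trichotomy σ τ with h | h | h
      · exact absurd b1 (a4 τ h b2)
      · exact h
      · exact absurd a1 (b4 σ h a2)
    rw [this]

lemma lintegral_ind {A : Set (ℕ → S)} (hA : MeasurableSet A) :
    ∫⁻ s, ind (s ∈ A) ∂P = P A := by
  have : (fun s => ind (s ∈ A)) = A.indicator 1 := by
    funext s
    by_cases h : s ∈ A <;> simp [ind, h]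
  rw [this, lintegral_indicator_one hA]

lemma measurable_ind {A : Set (ℕ → S)} (hA : MeasurableSet A) :
    Measurable fun s : ℕ → S => ind (s ∈ A) := by
  have : (fun s => ind (s ∈ A)) = A.indicator 1 := by
    funext s
    by_cases h : s ∈ A <;> simp [ind, h]
  rw [this]
  exact measurable_one.indicator hA

lemma tsum_measure_eq {α : Type*} [Countable α] {A : α → Set (ℕ → S)}
    (hA : ∀ x, MeasurableSet (A x)) : ∑' x, P (A x) = ∫⁻ s, ∑' x, ind (s ∈ A x) ∂P := by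
  rw [lintegral_tsum fun x => (measurable_ind (hA x)).aemeasurable]
  exact tsum_congr fun x => (lintegral_ind (hA x)).symm

/-- mean number of regenerations before `n`, divided by `P(Stay)` -/
noncomputable def RegSys.rho (R : RegSys L val P) (n : ℕ) : ℝ≥0∞ :=
  ∑ r ∈ Finset.range n, P (R.GC r)

theorem RegSys.freq (R : RegSys L val P) (k : ℝ) (N : ℕ) :
    ∑ σ ∈ Finset.range N, P (Stay (hL L val) ∩ Dp L val k σ) ≤
      R.pG⁻¹ * ((R.G + 1 : ℕ) * (R.rho N * P (R.Big k))) := by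
  -- step 1: insert the next record and the forced trial
  have h1 : ∀ σ, P (Stay (hL L val) ∩ Dp L val k σ) ≤
      R.pG⁻¹ * ∑' σ', P (Stay (hL L val) ∩ Ev L val k σ σ' ∩ shift σ' ⁻¹' R.Fo) := by
    intro σ
    have hsub : (Stay (hL L val) ∩ Dp L val k σ : Set (ℕ → S)) ≤ᵐ[P]
        (⋃ σ', Stay (hL L val) ∩ Ev L val k σ σ' : Set (ℕ → S)) := by
      filter_upwards [R.top] with s htop hs
      obtain ⟨hs0, hσ, t, ht1, ht2, ht3⟩ := hs
      obtain ⟨n, hn⟩ := htop hs0 (L (pos val s σ) + 1)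
      rw [hgt_hL] at hn
      classical
      have hex : ∃ n, L (pos val s σ) < L (pos val s n) := ⟨n, by linarith⟩
      set n0 := Nat.find hex with hn0
      have hspec : L (pos val s σ) < L (pos val s n0) := Nat.find_spec hex
      have hmin : ∀ m < n0, L (pos val s m) ≤ L (pos val s σ) := fun m hm =>
        not_lt.1 (Nat.find_min hex hm)
      have hrec : Rec L (pos val s) n0 := fun m hm => lt_of_le_of_lt (hmin m hm) hspec
      have hσn : σ < n0 := by
        by_contra hcon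
        have := hσ.mono_le (not_lt.1 hcon)
        linarith
      have htn : t < n0 := by
        by_contra hcon
        exact ht2 n0 hσn (not_lt.1 hcon) hrec
      refine mem_iUnion.2 ⟨n0, hs0, hσ, hσn, hrec, fun m hm1 hm2 hm3 => ?_, t, ht1, htn, ht3⟩
      have e1 := hm3 σ hm1
      have e2 := hmin m hm2
      linarith
    calc P (Stay (hL L val) ∩ Dp L val k σ)
        ≤ P (⋃ σ', Stay (hL L val) ∩ Ev L val k σ σ') := measure_mono_ae hsub
      _ ≤ ∑' σ', P (Stay (hL L val) ∩ Ev L val k σ σ') := measure_iUnion_le _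
      _ ≤ ∑' σ', R.pG⁻¹ * P (Stay (hL L val) ∩ Ev L val k σ σ' ∩ shift σ' ⁻¹' R.Fo) := by
          refine ENNReal.tsum_le_tsum fun σ' => ?_
          calc P (Stay (hL L val) ∩ Ev L val k σ σ')
              ≤ P (St L val σ' ∩ Ev L val k σ σ') :=
                measure_mono (inter_subset_inter_left _ (stay_sub_St σ'))
            _ ≤ R.pG⁻¹ * P (St L val σ' ∩ Ev L val k σ σ' ∩ shift σ' ⁻¹' R.Fo) := by
                refine le_inv_mul R.pG_ne R.pG_le (R.Fo_ge σ' _ ((det_St σ').inter (det_Ev k σ σ')) ?_)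
                rintro s ⟨_, hs⟩
                exact (record_iff L val s σ').2 hs.2.2.1
            _ ≤ _ := by
                refine mul_le_mul' le_rfl (measure_mono ?_)
                rintro s ⟨⟨h1, h2⟩, h3⟩
                exact ⟨⟨shift_stay_of_record h1 (R.Fo_stay h3), h2⟩, h3⟩
      _ = _ := ENNReal.tsum_mul_left
  -- step 2: sum over σ < N
  have hmeasE : ∀ x : ℕ × ℕ, MeasurableSet {s : ℕ → S | s ∈ Stay (hL L val) ∧
      (x.1 < N ∧ s ∈ Ev L val k x.1 x.2 ∧ shift x.2 s ∈ R.Fo)} := by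
    rintro ⟨σ, σ'⟩
    have : {s : ℕ → S | s ∈ Stay (hL L val) ∧ (σ < N ∧ s ∈ Ev L val k σ σ' ∧ shift σ' s ∈ R.Fo)}
        = Stay (hL L val) ∩ ({_s : ℕ → S | σ < N} ∩ (Ev L val k σ σ' ∩ shift σ' ⁻¹' R.Fo)) := rfl
    rw [this]
    exact (measurableSet_Stay _).inter ((MeasurableSet.const _).inter
      ((det_Ev k σ σ').measurableSet.inter (measurable_shift σ' R.Fo_meas)))
  have hmeasB : ∀ y : ℕ × ℕ, MeasurableSet {s : ℕ → S | s ∈ Stay (hL L val) ∧
      ((y.1 < N ∧ s ∈ R.RS y.1 ∩ shift y.1 ⁻¹' R.Big k) ∧ y.2 < R.G + 1)} := by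
    rintro ⟨r, g⟩
    have : {s : ℕ → S | s ∈ Stay (hL L val) ∧
        ((r < N ∧ s ∈ R.RS r ∩ shift r ⁻¹' R.Big k) ∧ g < R.G + 1)}
        = Stay (hL L val) ∩ (({_s : ℕ → S | r < N} ∩ (R.RS r ∩ shift r ⁻¹' R.Big k)) ∩
          {_s : ℕ → S | g < R.G + 1}) := rfl
    rw [this]
    exact (measurableSet_Stay _).inter (((MeasurableSet.const _).inter
      ((R.measurableSet_RS r).inter (measurable_shift r (R.measurableSet_Big k)))).inter
        (MeasurableSet.const _))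
  have h2 : ∑ σ ∈ Finset.range N, ∑' σ', P (Stay (hL L val) ∩ Ev L val k σ σ' ∩ shift σ' ⁻¹' R.Fo)
      ≤ ∑' y : ℕ × ℕ, P {s : ℕ → S | s ∈ Stay (hL L val) ∧
        ((y.1 < N ∧ s ∈ R.RS y.1 ∩ shift y.1 ⁻¹' R.Big k) ∧ y.2 < R.G + 1)} := by
    have e1 : ∑ σ ∈ Finset.range N,
        ∑' σ', P (Stay (hL L val) ∩ Ev L val k σ σ' ∩ shift σ' ⁻¹' R.Fo)
        = ∑' x : ℕ × ℕ, P {s : ℕ → S | s ∈ Stay (hL L val) ∧
          (x.1 < N ∧ s ∈ Ev L val k x.1 x.2 ∧ shift x.2 s ∈ R.Fo)} := by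
      rw [ENNReal.tsum_prod', tsum_eq_sum (s := Finset.range N)]
      · refine Finset.sum_congr rfl fun σ hσ => tsum_congr fun σ' => ?_
        congr 1
        ext s
        simp only [mem_inter_iff, mem_preimage, mem_ofPred_eq]
        have := Finset.mem_range.1 hσ
        tauto
      · intro σ hσ
        rw [ENNReal.tsum_eq_zero]
        intro σ'
        have : {s : ℕ → S | s ∈ Stay (hL L val) ∧
            (σ < N ∧ s ∈ Ev L val k σ σ' ∧ shift σ' s ∈ R.Fo)} = ∅ := by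
          ext s
          simp only [mem_ofPred_eq, mem_empty_iff_false, iff_false]
          intro h
          exact hσ (Finset.mem_range.2 h.2.1)
        simp only
        rw [this, measure_empty]
    rw [e1, tsum_measure_eq hmeasE, tsum_measure_eq hmeasB]
    refine lintegral_mono fun s => ?_
    by_cases hs : s ∈ Stay (hL L val)
    · simpa only [mem_ofPred_eq, hs, true_and] using R.freq_path k N hs
    · have : ∀ x : ℕ × ℕ, ind (s ∈ {s : ℕ → S | s ∈ Stay (hL L val) ∧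
          (x.1 < N ∧ s ∈ Ev L val k x.1 x.2 ∧ shift x.2 s ∈ R.Fo)}) = 0 :=
        fun x => ind_not fun h => hs h.1
      rw [ENNReal.tsum_eq_zero.2 this]
      exact bot_le
  -- step 3: evaluate
  have h3 : ∑' y : ℕ × ℕ, P {s : ℕ → S | s ∈ Stay (hL L val) ∧
        ((y.1 < N ∧ s ∈ R.RS y.1 ∩ shift y.1 ⁻¹' R.Big k) ∧ y.2 < R.G + 1)}
      ≤ (R.G + 1 : ℕ) * (R.rho N * P (R.Big k)) := by
    rw [ENNReal.tsum_prod']
    have e : ∀ r, ∑' g, P {s : ℕ → S | s ∈ Stay (hL L val) ∧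
        ((r < N ∧ s ∈ R.RS r ∩ shift r ⁻¹' R.Big k) ∧ g < R.G + 1)} ≤
        ind (r < N) * ((R.G + 1 : ℕ) * (P (R.GC r) * P (R.Big k))) := by
      intro r
      rw [← R.measure_RS_shift r (R.measurableSet_Big k) fun s hs => hs.1]
      by_cases hr : r < N
      · rw [ind_of hr, one_mul, tsum_eq_sum (s := Finset.range (R.G + 1))]
        · calc ∑ g ∈ Finset.range (R.G + 1), P {s : ℕ → S | s ∈ Stay (hL L val) ∧
                ((r < N ∧ s ∈ R.RS r ∩ shift r ⁻¹' R.Big k) ∧ g < R.G + 1)}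
              ≤ ∑ g ∈ Finset.range (R.G + 1), P (R.RS r ∩ shift r ⁻¹' R.Big k) := by
                refine Finset.sum_le_sum fun g _ => measure_mono fun s hs => hs.2.1.2
            _ = _ := by
                rw [Finset.sum_const, Finset.card_range, nsmul_eq_mul]
        · intro g hg
          have : {s : ℕ → S | s ∈ Stay (hL L val) ∧
              ((r < N ∧ s ∈ R.RS r ∩ shift r ⁻¹' R.Big k) ∧ g < R.G + 1)} = ∅ := by
            ext s
            simp only [mem_ofPred_eq, mem_empty_iff_false, iff_false]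
            intro h
            exact hg (Finset.mem_range.2 h.2.2)
          rw [this, measure_empty]
      · rw [ind_not hr, zero_mul, nonpos_iff_eq_zero, ENNReal.tsum_eq_zero]
        intro g
        have : {s : ℕ → S | s ∈ Stay (hL L val) ∧
            ((r < N ∧ s ∈ R.RS r ∩ shift r ⁻¹' R.Big k) ∧ g < R.G + 1)} = ∅ := by
          ext s
          simp only [mem_ofPred_eq, mem_empty_iff_false, iff_false]
          intro h
          exact hr h.2.1.1
        rw [this, measure_empty]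
    refine (ENNReal.tsum_le_tsum e).trans ?_
    rw [tsum_eq_sum (s := Finset.range N)]
    · rw [RegSys.rho, Finset.sum_mul, Finset.mul_sum]
      refine Finset.sum_le_sum fun r hr => ?_
      rw [ind_of (Finset.mem_range.1 hr), one_mul]
    · intro r hr
      rw [ind_not fun h => hr (Finset.mem_range.2 h), zero_mul]
  calc ∑ σ ∈ Finset.range N, P (Stay (hL L val) ∩ Dp L val k σ)
      ≤ ∑ σ ∈ Finset.range N,
          R.pG⁻¹ * ∑' σ', P (Stay (hL L val) ∩ Ev L val k σ σ' ∩ shift σ' ⁻¹' R.Fo) :=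
        Finset.sum_le_sum fun σ _ => h1 σ
    _ = R.pG⁻¹ * ∑ σ ∈ Finset.range N,
          ∑' σ', P (Stay (hL L val) ∩ Ev L val k σ σ' ∩ shift σ' ⁻¹' R.Fo) := by
        rw [Finset.mul_sum]
    _ ≤ _ := by
        gcongr
        exact h2.trans h3

end Crest.Agent.R154.B2
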