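import Mathlib

/-!
Row 154, block B1 (abstract part).  Renewal structure of a law `P` on sequences of letters with
real heights: regeneration times, first block, finite mean of the block height.
No random environment in this file.
-/

set_option autoImplicit false
set_option linter.unusedSectionVars false
set_option linter.deprecated false
open MeasureTheory Filter Set
open scoped ENNReal Topology symmDiff

namespace Crest.Agent.R154.Ren263

variable {S : Type*}

/-- height after `n` steps -/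
def hgt (h : S → ℝ) (s : ℕ → S) (n : ℕ) : ℝ := ∑ i ∈ Finset.range n, h (s i)

/-- shift of the sequence by `n` -/
def shift (n : ℕ) (s : ℕ → S) : ℕ → S := fun k => s (n + k)

/-- the set of step sequences that never go below the start (`D = ∞`) -/
def Stay (h : S → ℝ) : Set (ℕ → S) := {s | ∀ n, 0 ≤ hgt h s n}

/-- `A` is determined by the first `n` letters -/
def Det (n : ℕ) (A : Set (ℕ → S)) : Prop :=
  ∀ s s' : ℕ → S, (∀ i < n, s i = s' i) → (s ∈ A ↔ s' ∈ A)

/-- `n` is a strict record time -/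
def Record (h : S → ℝ) (s : ℕ → S) (n : ℕ) : Prop := ∀ k < n, hgt h s k < hgt h s n

/-- `n` is a regeneration time: strict record, never below afterwards -/
def Reg (h : S → ℝ) (s : ℕ → S) (n : ℕ) : Prop := Record h s n ∧ shift n s ∈ Stay h

/-- `n` is the first passage time to the level `t` -/
def FP (h : S → ℝ) (t : ℝ) (n : ℕ) : Set (ℕ → S) :=
  {s | t ≤ hgt h s n ∧ ∀ k < n, hgt h s k < t}

@[simp] lemma hgt_zero (h : S → ℝ) (s : ℕ → S) : hgt h s 0 = 0 := by simp [hgt]

lemma hgt_succ (h : S → ℝ) (s : ℕ → S) (n : ℕ) : hgt h s (n + 1) = hgt h s n + h (s n) := by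
  simp [hgt, Finset.sum_range_succ]

lemma hgt_congr (h : S → ℝ) {s s' : ℕ → S} {n : ℕ} (H : ∀ i < n, s i = s' i) {k : ℕ}
    (hk : k ≤ n) : hgt h s k = hgt h s' k := by
  unfold hgt
  refine Finset.sum_congr rfl fun i hi => ?_
  rw [H i (lt_of_lt_of_le (Finset.mem_range.1 hi) hk)]

lemma hgt_shift (h : S → ℝ) (s : ℕ → S) (n k : ℕ) :
    hgt h (shift n s) k = hgt h s (n + k) - hgt h s n := by
  unfold hgt shift
  rw [Finset.sum_range_add]
  ring

lemma shift_shift (m n : ℕ) (s : ℕ → S) : shift m (shift n s) = shift (n + m) s := by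
  funext k
  simp [shift, add_assoc]

@[simp] lemma shift_zero (s : ℕ → S) : shift 0 s = s := by
  funext k
  simp [shift]

lemma mem_shift_Stay {h : S → ℝ} {s : ℕ → S} {n : ℕ} :
    shift n s ∈ Stay h ↔ ∀ k, n ≤ k → hgt h s n ≤ hgt h s k := by
  constructor
  · intro H k hk
    obtain ⟨j, rfl⟩ := Nat.exists_eq_add_of_le hk
    have := H j
    rw [hgt_shift] at this
    linarith
  · intro H j
    rw [hgt_shift]
    have := H (n + j) (Nat.le_add_right _ _)
    linarith

lemma Det.mono {n m : ℕ} {A : Set (ℕ → S)} (hA : Det n A) (hnm : n ≤ m) : Det m A :=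
  fun s s' H => hA s s' fun i hi => H i (lt_of_lt_of_le hi hnm)

lemma Det.compl {n : ℕ} {A : Set (ℕ → S)} (hA : Det n A) : Det n Aᶜ :=
  fun s s' H => not_congr (hA s s' H)

lemma Det.inter {n : ℕ} {A B : Set (ℕ → S)} (hA : Det n A) (hB : Det n B) : Det n (A ∩ B) :=
  fun s s' H => and_congr (hA s s' H) (hB s s' H)

lemma Det.union {n : ℕ} {A B : Set (ℕ → S)} (hA : Det n A) (hB : Det n B) : Det n (A ∪ B) :=
  fun s s' H => or_congr (hA s s' H) (hB s s' H)

lemma Det.univ (n : ℕ) : Det n (Set.univ : Set (ℕ → S)) := fun _ _ _ => Iff.rfl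

lemma det_FP (h : S → ℝ) (t : ℝ) (n : ℕ) : Det n (FP h t n) := by
  intro s s' H
  simp only [FP, mem_setOf_eq]
  rw [hgt_congr h H le_rfl]
  refine and_congr Iff.rfl (forall_congr' fun k => ?_)
  constructor
  · intro H1 hk; rw [← hgt_congr h H hk.le]; exact H1 hk
  · intro H1 hk; rw [hgt_congr h H hk.le]; exact H1 hk

lemma det_Record (h : S → ℝ) (n : ℕ) : Det n {s | Record h s n} := by
  intro s s' H
  simp only [Record, mem_setOf_eq]
  rw [hgt_congr h H le_rfl]
  refine forall_congr' fun k => ?_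
  constructor
  · intro H1 hk; rw [← hgt_congr h H hk.le]; exact H1 hk
  · intro H1 hk; rw [hgt_congr h H hk.le]; exact H1 hk

lemma record_of_FP {h : S → ℝ} {t : ℝ} {n : ℕ} {s : ℕ → S} (hs : s ∈ FP h t n) :
    Record h s n := fun k hk => (hs.2 k hk).trans_le hs.1

lemma FP_unique {h : S → ℝ} {t : ℝ} {n m : ℕ} {s : ℕ → S} (hn : s ∈ FP h t n)
    (hm : s ∈ FP h t m) : n = m := by
  rcases lt_trichotomy n m with H | H | H
  · exact absurd hn.1 (not_le.2 (hm.2 n H))
  · exact H
  · exact absurd hm.1 (not_le.2 (hn.2 m H))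

lemma exists_FP {h : S → ℝ} {t : ℝ} {s : ℕ → S} (H : ∃ n, t ≤ hgt h s n) :
    ∃ n, s ∈ FP h t n := by
  classical
  refine ⟨Nat.find H, Nat.find_spec H, fun k hk => not_le.1 (Nat.find_min H hk)⟩

section measurable

variable [Countable S] [MeasurableSpace S] [MeasurableSingletonClass S]

lemma Det.measurableSet {n : ℕ} {A : Set (ℕ → S)} (hA : Det n A) : MeasurableSet A := by
  classical
  have hr : Measurable (fun (s : ℕ → S) (i : Fin n) => s i) := by
    fun_prop
  have : A = (fun (s : ℕ → S) (i : Fin n) => s i) ⁻¹' ((fun (s : ℕ → S) (i : Fin n) => s i) '' A) := by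
    ext s
    constructor
    · intro hs; exact ⟨s, hs, rfl⟩
    · rintro ⟨s', hs', he⟩
      refine (hA s' s fun i hi => ?_).1 hs'
      exact congrFun he ⟨i, hi⟩
  rw [this]
  exact hr (Set.to_countable _).measurableSet

lemma measurable_hgt (h : S → ℝ) (n : ℕ) : Measurable fun s : ℕ → S => hgt h s n := by
  unfold hgt
  refine Finset.measurable_sum _ fun i _ => ?_
  exact (measurable_of_countable h).comp (measurable_pi_apply i)

lemma measurable_shift (n : ℕ) : Measurable (shift n : (ℕ → S) → ℕ → S) :=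
  measurable_pi_lambda _ fun k => measurable_pi_apply (n + k)

lemma measurableSet_Stay (h : S → ℝ) : MeasurableSet (Stay h) := by
  unfold Stay
  rw [setOf_forall]
  exact MeasurableSet.iInter fun n => measurableSet_le measurable_const (measurable_hgt h n)

lemma measurableSet_Record (h : S → ℝ) (n : ℕ) : MeasurableSet {s : ℕ → S | Record h s n} :=
  (det_Record h n).measurableSet

lemma measurableSet_Reg (h : S → ℝ) (n : ℕ) : MeasurableSet {s : ℕ → S | Reg h s n} :=
  (measurableSet_Record h n).inter (measurable_shift n (measurableSet_Stay h))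

/-- the algebra of sets determined by finitely many letters -/
def Alg (S : Type*) : Set (Set (ℕ → S)) := {A | ∃ n, Det n A}

lemma isSetAlgebra_Alg : IsSetAlgebra (Alg S) where
  empty_mem := ⟨0, fun _ _ _ => Iff.rfl⟩
  compl_mem := by
    rintro A ⟨n, hA⟩
    exact ⟨n, hA.compl⟩
  union_mem := by
    rintro A B ⟨n, hA⟩ ⟨m, hB⟩
    exact ⟨max n m, (hA.mono (le_max_left _ _)).union (hB.mono (le_max_right _ _))⟩

lemma generateFrom_Alg :
    (MeasurableSpace.pi : MeasurableSpace (ℕ → S)) = MeasurableSpace.generateFrom (Alg S) := by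
  refine le_antisymm ?_ ?_
  · refine iSup_le fun i => ?_
    rintro A ⟨T, _, rfl⟩
    refine MeasurableSpace.measurableSet_generateFrom ⟨i + 1, fun s s' H => ?_⟩
    simp only [mem_preimage]
    rw [H i (Nat.lt_succ_self i)]
  · refine MeasurableSpace.generateFrom_le ?_
    rintro A ⟨n, hA⟩
    exact hA.measurableSet

/-- successive trials: an event which has conditional probability at most `r < 1` given any finite
past has probability zero -/
theorem trial (P : Measure (ℕ → S)) [IsProbabilityMeasure P] {O : Set (ℕ → S)}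
    (hO : MeasurableSet O) {r : ℝ≥0∞} (hr : r < 1)
    (H : ∀ n A, Det n A → P (A ∩ O) ≤ r * P A) : P O = 0 := by
  have hd : P.MeasureDense (Alg S) :=
    Measure.MeasureDense.of_generateFrom_isSetAlgebra_finite P isSetAlgebra_Alg generateFrom_Alg
  have key : P O ≤ r * P O := by
    refine ENNReal.le_of_forall_pos_le_add fun ε hε _ => ?_
    obtain ⟨A, ⟨n, hA⟩, hAO⟩ := hd.approx O hO (measure_ne_top _ _) (ε / 2) (by positivity)
    have h1 : P (O \ A) ≤ ENNReal.ofReal (ε / 2) :=
      (measure_mono (fun x hx => Or.inl hx)).trans hAO.le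
    have h2 : P (A \ O) ≤ ENNReal.ofReal (ε / 2) :=
      (measure_mono (fun x hx => Or.inr hx)).trans hAO.le
    have hε2 : ENNReal.ofReal (ε / 2) + ENNReal.ofReal (ε / 2) = (ε : ℝ≥0∞) := by
      rw [← ENNReal.ofReal_add (by positivity) (by positivity), add_halves,
        ENNReal.ofReal_coe_nnreal]
    have hPA : P A ≤ P O + ENNReal.ofReal (ε / 2) := by
      calc P A ≤ P (O ∪ (A \ O)) := measure_mono (by intro x hx; by_cases hxo : x ∈ O; exacts [Or.inl hxo, Or.inr ⟨hx, hxo⟩])
        _ ≤ P O + P (A \ O) := measure_union_le _ _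
        _ ≤ _ := by gcongr
    calc P O ≤ P ((A ∩ O) ∪ (O \ A)) := measure_mono (by intro x hx; by_cases hxo : x ∈ A; exacts [Or.inl ⟨hxo, hx⟩, Or.inr ⟨hx, hxo⟩])
      _ ≤ P (A ∩ O) + P (O \ A) := measure_union_le _ _
      _ ≤ r * P A + ENNReal.ofReal (ε / 2) := by gcongr; exact H n A hA
      _ ≤ r * (P O + ENNReal.ofReal (ε / 2)) + ENNReal.ofReal (ε / 2) := by gcongr
      _ = r * P O + r * ENNReal.ofReal (ε / 2) + ENNReal.ofReal (ε / 2) := by rw [mul_add]
      _ ≤ r * P O + 1 * ENNReal.ofReal (ε / 2) + ENNReal.ofReal (ε / 2) := by gcongr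
      _ = r * P O + ε := by rw [one_mul, add_assoc, hε2]
  by_contra h0
  have : r * P O < 1 * P O := (ENNReal.mul_lt_mul_iff_left h0 (measure_ne_top _ _)).2 hr
  rw [one_mul] at this
  exact absurd key (not_le.2 this)

/-- The renewal property: after a strict record time the future that never goes below that level
is a fresh copy, independent of the past. -/
structure Renewal (h : S → ℝ) (P : Measure (ℕ → S)) : Prop where
  ren : ∀ (n : ℕ) (A B : Set (ℕ → S)), Det n A → (∀ s ∈ A, Record h s n) → MeasurableSet B →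
    B ⊆ Stay h → P (A ∩ shift n ⁻¹' B) = P A * P B

lemma Renewal.fail {h : S → ℝ} {P : Measure (ℕ → S)} [IsProbabilityMeasure P]
    (R : Renewal h P) {n : ℕ} {A : Set (ℕ → S)} (hA : Det n A) (hrec : ∀ s ∈ A, Record h s n) :
    P (A ∩ (shift n ⁻¹' Stay h)ᶜ) = (1 - P (Stay h)) * P A := by
  have h1 := R.ren n A (Stay h) hA hrec (measurableSet_Stay h) subset_rfl
  have h2 : P (A ∩ shift n ⁻¹' Stay h) + P (A \ (shift n ⁻¹' Stay h)) = P A :=
    measure_inter_add_diff A (measurable_shift n (measurableSet_Stay h))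
  rw [← diff_eq]
  have hle : P (Stay h) ≤ 1 := prob_le_one
  rw [h1] at h2
  have h3 : (1 - P (Stay h)) * P A = P A - P (Stay h) * P A := by
    rw [ENNReal.sub_mul (fun _ _ => measure_ne_top _ _), one_mul]
  rw [h3, mul_comm (P (Stay h))]
  refine ENNReal.eq_sub_of_add_eq (ENNReal.mul_ne_top (measure_ne_top _ _) (measure_ne_top _ _)) ?_
  rw [add_comm]; exact h2

/-- a level which is higher than everything up to time `N` -/
noncomputable def lev (h : S → ℝ) (N : ℕ) (s : ℕ → S) : ℝ :=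
  1 + ∑ k ∈ Finset.range (N + 1), |hgt h s k|

omit [Countable S] [MeasurableSpace S] [MeasurableSingletonClass S] in
lemma hgt_lt_lev (h : S → ℝ) {N k : ℕ} (hk : k ≤ N) (s : ℕ → S) : hgt h s k < lev h N s := by
  have h1 : |hgt h s k| ≤ ∑ k ∈ Finset.range (N + 1), |hgt h s k| :=
    Finset.single_le_sum (f := fun k => |hgt h s k|) (fun _ _ => abs_nonneg _)
      (Finset.mem_range.2 (Nat.lt_succ_of_le hk))
  have h2 := le_abs_self (hgt h s k)
  unfold lev
  linarith

omit [Countable S] [MeasurableSpace S] [MeasurableSingletonClass S] in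
lemma lev_congr (h : S → ℝ) {s s' : ℕ → S} {N : ℕ} (H : ∀ i < N, s i = s' i) :
    lev h N s = lev h N s' := by
  unfold lev
  congr 1
  refine Finset.sum_congr rfl fun k hk => ?_
  rw [hgt_congr h H (Nat.lt_succ_iff.1 (Finset.mem_range.1 hk))]

/-- infinitely many regeneration times as soon as the height is unbounded above -/
theorem Renewal.reg_io {h : S → ℝ} {P : Measure (ℕ → S)} [IsProbabilityMeasure P]
    (R : Renewal h P) (hp : P (Stay h) ≠ 0) (j : ℕ) :
    P {s | (∀ M : ℝ, ∃ n, M ≤ hgt h s n) ∧ ∀ n, j ≤ n → ¬ Reg h s n} = 0 := by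
  have hlt : 1 - P (Stay h) < 1 :=
    ENNReal.sub_lt_self ENNReal.one_ne_top one_ne_zero hp
  refine trial P ?_ hlt fun n0 A hA => ?_
  · have e1 : MeasurableSet {s : ℕ → S | ∀ M : ℝ, ∃ n, M ≤ hgt h s n} := by
      have : {s : ℕ → S | ∀ M : ℝ, ∃ n, M ≤ hgt h s n} =
          ⋂ m : ℕ, ⋃ n : ℕ, {s | (m : ℝ) ≤ hgt h s n} := by
        ext s
        simp only [mem_setOf_eq, mem_iInter, mem_iUnion]
        constructor
        · intro H m; exact H m
        · intro H M
          obtain ⟨m, hm⟩ := exists_nat_ge M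
          obtain ⟨n, hn⟩ := H m
          exact ⟨n, hm.trans hn⟩
      rw [this]
      exact MeasurableSet.iInter fun m => MeasurableSet.iUnion fun n =>
        measurableSet_le measurable_const (measurable_hgt h n)
    have e2 : MeasurableSet {s : ℕ → S | ∀ n, j ≤ n → ¬ Reg h s n} := by
      have : {s : ℕ → S | ∀ n, j ≤ n → ¬ Reg h s n} = ⋂ n : ℕ, ⋂ _ : j ≤ n, {s | Reg h s n}ᶜ := by
        ext s; simp
      rw [this]
      exact MeasurableSet.iInter fun n => MeasurableSet.iInter fun _ => (measurableSet_Reg h n).compl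
    exact e1.inter e2
  · set N := max n0 j with hN
    set C : ℕ → Set (ℕ → S) := fun n => {s | s ∈ A ∧ N < n ∧ s ∈ FP h (lev h N s) n} with hC
    have hCdet : ∀ n, Det n (C n) := by
      intro n s s' H
      by_cases hn : N < n
      · have e1 := (hA.mono ((le_max_left n0 j).trans hn.le)) s s' H
        have e2 : lev h N s = lev h N s' := lev_congr h fun i hi => H i (hi.trans hn)
        have e3 := det_FP h (lev h N s) n s s' H
        simp only [hC, mem_setOf_eq]
        rw [← e2]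
        exact and_congr e1 (and_congr Iff.rfl e3)
      · simp only [hC, mem_setOf_eq]
        constructor
        · rintro ⟨_, h2, _⟩; exact absurd h2 hn
        · rintro ⟨_, h2, _⟩; exact absurd h2 hn
    have hCrec : ∀ n, ∀ s ∈ C n, Record h s n := fun n s hs => record_of_FP hs.2.2
    have hCdisj : Pairwise (Function.onFun Disjoint C) := by
      intro n m hnm
      rw [Function.onFun, Set.disjoint_left]
      intro s hs hs'
      exact hnm (FP_unique hs.2.2 hs'.2.2)
    have hsub : (A ∩ {s | (∀ M : ℝ, ∃ n, M ≤ hgt h s n) ∧ ∀ n, j ≤ n → ¬ Reg h s n}) ⊆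
        ⋃ n, (C n ∩ (shift n ⁻¹' Stay h)ᶜ) := by
      rintro s ⟨hsA, hs1, hs2⟩
      obtain ⟨n, hn⟩ := exists_FP (hs1 (lev h N s))
      have hNn : N < n := by
        by_contra hcon
        exact absurd hn.1 (not_le.2 (hgt_lt_lev h (not_lt.1 hcon) s))
      refine mem_iUnion.2 ⟨n, ⟨hsA, hNn, hn⟩, fun hst => ?_⟩
      exact hs2 n ((le_max_right n0 j).trans hNn.le) ⟨record_of_FP hn, hst⟩
    calc P (A ∩ {s | (∀ M : ℝ, ∃ n, M ≤ hgt h s n) ∧ ∀ n, j ≤ n → ¬ Reg h s n})
        ≤ P (⋃ n, (C n ∩ (shift n ⁻¹' Stay h)ᶜ)) := measure_mono hsub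
      _ ≤ ∑' n, P (C n ∩ (shift n ⁻¹' Stay h)ᶜ) := measure_iUnion_le _
      _ = ∑' n, (1 - P (Stay h)) * P (C n) := by
          congr 1; funext n; exact R.fail (hCdet n) (hCrec n)
      _ = (1 - P (Stay h)) * ∑' n, P (C n) := ENNReal.tsum_mul_left
      _ = (1 - P (Stay h)) * P (⋃ n, C n) := by
          rw [measure_iUnion hCdisj fun n => (hCdet n).measurableSet]
      _ ≤ (1 - P (Stay h)) * P A := by
          gcongr
          exact iUnion_subset fun n s hs => hs.1

/-- Kalikow: if `P(Stay) ≠ 0` then almost surely: height unbounded above implies that there are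
infinitely many regeneration times, and the height tends to `+∞` -/
theorem Renewal.ae_tendsto {h : S → ℝ} {P : Measure (ℕ → S)} [IsProbabilityMeasure P]
    (R : Renewal h P) (hp : P (Stay h) ≠ 0) :
    ∀ᵐ s ∂P, (∀ M : ℝ, ∃ n, M ≤ hgt h s n) →
      (∀ j, ∃ n, j ≤ n ∧ Reg h s n) ∧ Tendsto (fun n => hgt h s n) atTop atTop := by
  have H : ∀ᵐ s ∂P, ∀ j, ¬ ((∀ M : ℝ, ∃ n, M ≤ hgt h s n) ∧ ∀ n, j ≤ n → ¬ Reg h s n) := by
    rw [ae_all_iff]
    intro j
    exact measure_eq_zero_iff_ae_notMem.1 (R.reg_io hp j)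
  filter_upwards [H] with s hs hM
  have h1 : ∀ j, ∃ n, j ≤ n ∧ Reg h s n := by
    intro j
    by_contra hcon
    push Not at hcon
    exact hs j ⟨hM, hcon⟩
  refine ⟨h1, tendsto_atTop.2 fun M => ?_⟩
  obtain ⟨n, hn⟩ := hM M
  obtain ⟨m, hm, hr⟩ := h1 (n + 1)
  refine eventually_atTop.2 ⟨m, fun k hk => ?_⟩
  have e1 := hr.1 n (Nat.lt_of_succ_le hm)
  have e2 := mem_shift_Stay.1 hr.2 k hk
  linarith

/-- `n` is the first regeneration time `≥ 1` of a path in `Stay`, as an event of the first `n`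
letters -/
def Good (h : S → ℝ) (n : ℕ) : Set (ℕ → S) :=
  {s | 1 ≤ n ∧ Record h s n ∧ (∀ k ≤ n, 0 ≤ hgt h s k) ∧
    ∀ m, 1 ≤ m → m < n → ¬ (Record h s m ∧ ∀ k, m ≤ k → k ≤ n → hgt h s m ≤ hgt h s k)}

omit [Countable S] [MeasurableSpace S] [MeasurableSingletonClass S] in
lemma record_congr (h : S → ℝ) {s s' : ℕ → S} {n : ℕ} (H : ∀ i < n, s i = s' i) {m : ℕ}
    (hm : m ≤ n) : Record h s m ↔ Record h s' m :=
  (det_Record h m) s s' fun i hi => H i (lt_of_lt_of_le hi hm)

omit [Countable S] [MeasurableSpace S] [MeasurableSingletonClass S] in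
lemma det_Good (h : S → ℝ) (n : ℕ) : Det n (Good h n) := by
  have key : ∀ s s' : ℕ → S, (∀ i < n, s i = s' i) → s ∈ Good h n → s' ∈ Good h n := by
    rintro s s' H ⟨h1, h2, h3, h4⟩
    refine ⟨h1, (record_congr h H le_rfl).1 h2, fun k hk => ?_, fun m hm1 hm2 hm3 => ?_⟩
    · rw [← hgt_congr h H hk]; exact h3 k hk
    · refine h4 m hm1 hm2 ⟨(record_congr h H hm2.le).2 hm3.1, fun k hk1 hk2 => ?_⟩
      rw [hgt_congr h H hk2, hgt_congr h H hm2.le]
      exact hm3.2 k hk1 hk2
  exact fun s s' H => ⟨key s s' H, key s' s fun i hi => (H i hi).symm⟩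

omit [Countable S] [MeasurableSpace S] [MeasurableSingletonClass S] in
lemma good_record {h : S → ℝ} {n : ℕ} {s : ℕ → S} (hs : s ∈ Good h n) : Record h s n := hs.2.1

omit [Countable S] [MeasurableSpace S] [MeasurableSingletonClass S] in
/-- the first regeneration time is `n` -/
lemma good_iff {h : S → ℝ} {n : ℕ} {s : ℕ → S} :
    (s ∈ Good h n ∧ shift n s ∈ Stay h) ↔
      (s ∈ Stay h ∧ 1 ≤ n ∧ Reg h s n ∧ ∀ m, 1 ≤ m → m < n → ¬ Reg h s m) := by
  constructor
  · rintro ⟨⟨h1, h2, h3, h4⟩, h5⟩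
    have h6 := mem_shift_Stay.1 h5
    refine ⟨fun k => ?_, h1, ⟨h2, h5⟩, fun m hm1 hm2 hm3 => ?_⟩
    · rcases le_total k n with hk | hk
      · exact h3 k hk
      · exact (h3 n le_rfl).trans (h6 k hk)
    · exact h4 m hm1 hm2 ⟨hm3.1, fun k hk1 _ => mem_shift_Stay.1 hm3.2 k hk1⟩
  · rintro ⟨h1, h2, h3, h4⟩
    refine ⟨⟨h2, h3.1, fun k _ => h1 k, fun m hm1 hm2 hm3 => ?_⟩, h3.2⟩
    refine h4 m hm1 hm2 ⟨hm3.1, mem_shift_Stay.2 fun k hk => ?_⟩
    rcases le_total k n with hkn | hkn
    · exact hm3.2 k hk hkn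
    · exact (hm3.2 n hm2.le le_rfl).trans (mem_shift_Stay.1 h3.2 k hkn)

omit [Countable S] [MeasurableSpace S] [MeasurableSingletonClass S] in
lemma good_unique {h : S → ℝ} {n m : ℕ} {s : ℕ → S} (hn : s ∈ Good h n ∧ shift n s ∈ Stay h)
    (hm : s ∈ Good h m ∧ shift m s ∈ Stay h) : n = m := by
  have h1 := good_iff.1 hn
  have h2 := good_iff.1 hm
  rcases lt_trichotomy n m with H | H | H
  · exact absurd h1.2.2.1 (h2.2.2.2 n h1.2.1 H)
  · exact H
  · exact absurd h2.2.2.1 (h1.2.2.2 m h2.2.1 H)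

/-- first block and fresh future -/
theorem Renewal.block {h : S → ℝ} {P : Measure (ℕ → S)} [IsProbabilityMeasure P]
    (R : Renewal h P) {n : ℕ} {A B : Set (ℕ → S)} (hA : Det n A) (hAG : A ⊆ Good h n)
    (hB : MeasurableSet B) (hBs : B ⊆ Stay h) :
    P (A ∩ shift n ⁻¹' B) = P A * P B :=
  R.ren n A B hA (fun _ hs => good_record (hAG hs)) hB hBs

/-- the total mass of the good words is one -/
theorem Renewal.tsum_good {h : S → ℝ} {P : Measure (ℕ → S)} [IsProbabilityMeasure P]
    (R : Renewal h P) (hp : P (Stay h) ≠ 0)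
    (hT : ∀ᵐ s ∂P, s ∈ Stay h → ∀ M : ℝ, ∃ n, M ≤ hgt h s n) :
    ∑' n, P (Good h n) = 1 := by
  have hdisj : Pairwise (Function.onFun Disjoint fun n => Good h n ∩ shift n ⁻¹' Stay h) := by
    intro n m hnm
    rw [Function.onFun, Set.disjoint_left]
    intro s hs hs'
    exact hnm (good_unique hs hs')
  have hmeas : ∀ n, MeasurableSet (Good h n ∩ shift n ⁻¹' Stay h) := fun n =>
    (det_Good h n).measurableSet.inter (measurable_shift n (measurableSet_Stay h))
  have h1 : P (⋃ n, (Good h n ∩ shift n ⁻¹' Stay h)) = P (Stay h) := by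
    refine measure_congr ?_
    filter_upwards [R.ae_tendsto hp, hT] with s hs1 hs2
    refine propext ⟨fun hs => ?_, fun hs => ?_⟩
    · obtain ⟨n, hn⟩ := mem_iUnion.1 hs
      exact (good_iff.1 hn).1
    · classical
      obtain ⟨n, hn1, hn2⟩ := (hs1 (hs2 hs)).1 1
      have hex : ∃ n, 1 ≤ n ∧ Reg h s n := ⟨n, hn1, hn2⟩
      refine mem_iUnion.2 ⟨Nat.find hex, good_iff.2 ⟨hs, (Nat.find_spec hex).1,
        (Nat.find_spec hex).2, fun m hm1 hm2 hm3 => Nat.find_min hex hm2 ⟨hm1, hm3⟩⟩⟩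
  rw [measure_iUnion hdisj hmeas] at h1
  have h2 : ∀ n, P (Good h n ∩ shift n ⁻¹' Stay h) = P (Good h n) * P (Stay h) := fun n =>
    R.block (det_Good h n) subset_rfl (measurableSet_Stay h) subset_rfl
  simp_rw [h2] at h1
  rw [ENNReal.tsum_mul_right] at h1
  have h3 : (∑' n, P (Good h n)) * P (Stay h) = 1 * P (Stay h) := by rw [h1, one_mul]
  exact (ENNReal.mul_left_inj hp (measure_ne_top _ _)).1 h3

end measurable

end Crest.Agent.R154.Ren263
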