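import Mathlib
import Crest.Agent.R154.Ren_263

/-! Row 154, B2e (helper419): a shift-invariant property which holds almost surely on `Stay` holds
almost surely on the event that the height is unbounded above. -/

set_option autoImplicit false

namespace Crest.Agent.R154.B2e

open MeasureTheory Filter Set Crest.Agent.R154.Ren263
open scoped ENNReal Topology

variable {S : Type*} [Countable S] [MeasurableSpace S] [MeasurableSingletonClass S]

/-- **transfer.** `p` is inherited from any shift of the sequence and holds a.s. on `Stay`; then it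
holds a.s. whenever the height is unbounded above. -/
theorem transfer {h : S → ℝ} {P : Measure (ℕ → S)} [IsProbabilityMeasure P]
    (R : Renewal h P) (hp : P (Stay h) ≠ 0) {p : (ℕ → S) → Prop}
    (hshift : ∀ n s, p (shift n s) → p s) (hae : ∀ᵐ s ∂P, s ∈ Stay h → p s) :
    ∀ᵐ s ∂P, (∀ M : ℝ, ∃ n, M ≤ hgt h s n) → p s := by
  set Bad : Set (ℕ → S) := {s | ¬ (s ∈ Stay h → p s)} with hBad
  have hBad0 : P Bad = 0 := hae
  set N : Set (ℕ → S) := toMeasurable P Bad ∩ Stay h with hN
  have hNm : MeasurableSet N := (measurableSet_toMeasurable _ _).inter (measurableSet_Stay h)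
  have hN0 : P N = 0 := measure_mono_null inter_subset_left (by rw [measure_toMeasurable]; exact hBad0)
  have hNS : N ⊆ Stay h := inter_subset_right
  have h1 : ∀ n, P ({s | Record h s n} ∩ shift n ⁻¹' N) = 0 := by
    intro n
    rw [R.ren n _ N (det_Record h n) (fun s hs => hs) hNm hNS, hN0, mul_zero]
  have h2 : ∀ᵐ s ∂P, ∀ n, ¬ (Record h s n ∧ shift n s ∈ N) := by
    rw [ae_all_iff]
    intro n
    exact measure_eq_zero_iff_ae_notMem.1 (h1 n)
  filter_upwards [h2, R.ae_tendsto hp] with s hs1 hs2 hM
  obtain ⟨n, -, hn⟩ := (hs2 hM).1 0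
  refine hshift n s ?_
  by_contra hcon
  refine hs1 n ⟨hn.1, ?_, hn.2⟩
  exact subset_toMeasurable _ _ (fun hh => hcon (hh hn.2))

end Crest.Agent.R154.B2e
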