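import Crest.Agent.R154.B4Soft2_23

/-! Row 154, B4 route II, (S), third part: `LP.ann`. -/

set_option autoImplicit false

namespace Crest.Agent.R154.B4

open MeasureTheory ProbabilityTheory Filter
open scoped ENNReal Topology

variable {Ω : Type*} [mΩ : MeasurableSpace Ω] {P : Measure Ω}

/-- two point masses -/
theorem two_point (α β φ c : ℝ) (hc : 0 ≤ c) (hα : c ≤ α) (hβ : c ≤ β) (hφ : |φ| ≤ Real.pi) :
    ‖(α : ℂ) + β * Complex.exp ((φ : ℝ) * Complex.I)‖ ≤ α + β - c * φ ^ 2 / Real.pi ^ 2 := by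
  have hpi := Real.pi_pos
  set x : ℝ := φ ^ 2 / Real.pi ^ 2 with hx
  have hx1 : x ≤ 1 := by
    rw [hx, div_le_one (by positivity)]
    rw [← sq_abs φ]
    exact pow_le_pow_left₀ (abs_nonneg _) hφ 2
  have hx0 : 0 ≤ x := by positivity
  have h1 : ‖(1 : ℂ) + Complex.exp ((φ : ℝ) * Complex.I)‖ ≤ 2 - x := by
    have hsq : ‖(1 : ℂ) + Complex.exp ((φ : ℝ) * Complex.I)‖ ^ 2 = 2 + 2 * Real.cos φ := by
      rw [← Complex.normSq_eq_norm_sq, Complex.exp_mul_I, Complex.normSq_apply]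
      simp only [Complex.add_re, Complex.one_re, Complex.add_im, Complex.one_im, Complex.mul_re,
        Complex.mul_im, Complex.I_re, Complex.I_im, Complex.cos_ofReal_re, Complex.cos_ofReal_im,
        Complex.sin_ofReal_re, Complex.sin_ofReal_im]
      ring_nf
      have := Real.sin_sq_add_cos_sq φ
      nlinarith [this]
    have hcos := Real.cos_le_one_sub_mul_cos_sq hφ
    have hle : ‖(1 : ℂ) + Complex.exp ((φ : ℝ) * Complex.I)‖ ^ 2 ≤ (2 - x) ^ 2 := by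
      rw [hsq]
      have : 2 / Real.pi ^ 2 * φ ^ 2 = 2 * x := by rw [hx]; ring
      rw [this] at hcos
      nlinarith
    exact le_of_sq_le_sq hle (by linarith)
  have e : (α : ℂ) + β * Complex.exp ((φ : ℝ) * Complex.I) =
      c * (1 + Complex.exp ((φ : ℝ) * Complex.I)) + ((α - c : ℝ) : ℂ) +
        ((β - c : ℝ) : ℂ) * Complex.exp ((φ : ℝ) * Complex.I) := by
    push_cast; ring
  rw [e]
  have hn1 : ‖(c : ℂ) * (1 + Complex.exp ((φ : ℝ) * Complex.I))‖ ≤ c * (2 - x) := by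
    rw [norm_mul, Complex.norm_real, Real.norm_of_nonneg hc]
    exact mul_le_mul_of_nonneg_left h1 hc
  have hn2 : ‖((α - c : ℝ) : ℂ)‖ = α - c := by
    rw [Complex.norm_real, Real.norm_of_nonneg (by linarith)]
  have hn3 : ‖((β - c : ℝ) : ℂ) * Complex.exp ((φ : ℝ) * Complex.I)‖ = β - c := by
    rw [norm_mul, Complex.norm_exp_ofReal_mul_I, mul_one, Complex.norm_real,
      Real.norm_of_nonneg (by linarith)]
  calc _ ≤ ‖(c : ℂ) * (1 + Complex.exp ((φ : ℝ) * Complex.I)) + ((α - c : ℝ) : ℂ)‖ +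
        ‖((β - c : ℝ) : ℂ) * Complex.exp ((φ : ℝ) * Complex.I)‖ := norm_add_le _ _
    _ ≤ (‖(c : ℂ) * (1 + Complex.exp ((φ : ℝ) * Complex.I))‖ + ‖((α - c : ℝ) : ℂ)‖) +
        ‖((β - c : ℝ) : ℂ) * Complex.exp ((φ : ℝ) * Complex.I)‖ := by
        gcongr; exact norm_add_le _ _
    _ ≤ (c * (2 - x) + (α - c)) + (β - c) := by rw [hn2, hn3]; linarith
    _ = _ := by rw [hx]; ring

namespace LP

/-- the first step: at level `m0` -/
theorem first_step [IsProbabilityMeasure P] (L : LP P) (c : ℝ) (hc : 0 ≤ c)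
    (hB : ∀ i, c ≤ P.real (L.B i ∩ L.C L.m0)) (θ : V) (j : Fin 3) (hj : j ≠ 0)
    (hθ : |dt θ (vv j)| ≤ Real.pi) :
    ‖∫ ω in L.C L.m0, ex θ (L.U L.m0 ω) ∂P‖ ≤
      P.real (L.C L.m0) - c * (dt θ (vv j)) ^ 2 / Real.pi ^ 2 := by
  set S : Set Ω := (L.B 0 ∪ L.B j) with hS
  have hB0m : MeasurableSet (L.B 0) := L.meas_top (L.B_meas 0)
  have hBjm : MeasurableSet (L.B j) := L.meas_top (L.B_meas j)
  have hSm : MeasurableSet S := hB0m.union hBjm
  have hCm := L.C_meas L.m0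
  have hdis : Disjoint (L.B 0 ∩ L.C L.m0) (L.B j ∩ L.C L.m0) :=
    (L.B_disj 0 j hj.symm).mono Set.inter_subset_left Set.inter_subset_left
  have hI : Integrable (fun ω => ex θ (L.U L.m0 ω)) P :=
    integrable_of_norm_le_one ((measurable_ex θ).comp (L.U_measurable _)) fun ω => (norm_ex _ _).le
  have hsplit : ∫ ω in L.C L.m0, ex θ (L.U L.m0 ω) ∂P =
      (∫ ω in L.B 0 ∩ L.C L.m0, ex θ (L.U L.m0 ω) ∂P) +
      (∫ ω in L.B j ∩ L.C L.m0, ex θ (L.U L.m0 ω) ∂P) +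
      ∫ ω in L.C L.m0 \ S, ex θ (L.U L.m0 ω) ∂P := by
    rw [← setIntegral_union hdis (hBjm.inter hCm) hI.integrableOn hI.integrableOn]
    have e : L.B 0 ∩ L.C L.m0 ∪ L.B j ∩ L.C L.m0 = L.C L.m0 ∩ S := by
      rw [hS]; ext ω; simp only [Set.mem_union, Set.mem_inter_iff]; tauto
    rw [e, integral_inter_add_sdiff hSm hI.integrableOn]
  have hval : ∀ i : Fin 3, ∫ ω in L.B i ∩ L.C L.m0, ex θ (L.U L.m0 ω) ∂P =
      (P.real (L.B i ∩ L.C L.m0) : ℂ) * ex θ (vv i) := by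
    intro i
    have : ∫ ω in L.B i ∩ L.C L.m0, ex θ (L.U L.m0 ω) ∂P =
        ∫ _ω in L.B i ∩ L.C L.m0, ex θ (vv i) ∂P := by
      apply setIntegral_congr_fun ((L.meas_top (L.B_meas i)).inter hCm)
      intro ω hω
      simp only [L.B_val i ω hω.1]
    rw [this, setIntegral_const]
    simp
  have hrest : ‖∫ ω in L.C L.m0 \ S, ex θ (L.U L.m0 ω) ∂P‖ ≤ P.real (L.C L.m0 \ S) := by
    have := norm_setIntegral_le_of_norm_le_const (μ := P) (s := L.C L.m0 \ S) (C := 1)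
      (f := fun ω => ex θ (L.U L.m0 ω)) (measure_lt_top _ _) (fun ω _ => (norm_ex _ _).le)
    simpa using this
  have hmeasure : P.real (L.C L.m0) = P.real (L.B 0 ∩ L.C L.m0) + P.real (L.B j ∩ L.C L.m0) +
      P.real (L.C L.m0 \ S) := by
    rw [← measureReal_union hdis (hBjm.inter hCm) (measure_ne_top _ _) (measure_ne_top _ _)]
    have e : L.B 0 ∩ L.C L.m0 ∪ L.B j ∩ L.C L.m0 = L.C L.m0 ∩ S := by
      rw [hS]; ext ω; simp only [Set.mem_union, Set.mem_inter_iff]; tauto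
    rw [e]
    exact (measureReal_inter_add_sdiff hSm (measure_ne_top _ _)).symm
  have hv0 : ex θ (vv 0) = 1 := by
    have : vv 0 = 0 := by
      ext i; fin_cases i <;> simp [vv]
    rw [this, ex_zero]
  rw [hsplit, hval 0, hval j, hv0, mul_one]
  have h2 := two_point (P.real (L.B 0 ∩ L.C L.m0)) (P.real (L.B j ∩ L.C L.m0))
    (dt θ (vv j)) c hc (hB 0) (hB j) hθ
  calc _ ≤ ‖(P.real (L.B 0 ∩ L.C L.m0) : ℂ) + (P.real (L.B j ∩ L.C L.m0) : ℂ) * ex θ (vv j)‖ +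
        ‖∫ ω in L.C L.m0 \ S, ex θ (L.U L.m0 ω) ∂P‖ := norm_add_le _ _
    _ ≤ (P.real (L.B 0 ∩ L.C L.m0) + P.real (L.B j ∩ L.C L.m0) -
          c * (dt θ (vv j)) ^ 2 / Real.pi ^ 2) + P.real (L.C L.m0 \ S) := add_le_add h2 hrest
    _ = _ := by rw [hmeasure]; ring

theorem chi_step [IsProbabilityMeasure P] (L : LP P) (c : ℝ) (hc : 0 ≤ c)
    (hB : ∀ i, c ≤ P.real (L.B i ∩ L.C L.m0)) (θ : V) (j : Fin 3) (hj : j ≠ 0)
    (hθ : |dt θ (vv j)| ≤ Real.pi) (N t : ℕ) (hN : 0 < N) (b : ℝ) (hb : 0 ≤ b)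
    (ht : N * L.m0 ≤ t) (hprev : ∀ k, k ≤ N → ‖L.chi (t - k * L.m0) θ‖ ≤ b) :
    ‖L.chi t θ‖ ≤ (1 - c * (dt θ (vv j)) ^ 2 / Real.pi ^ 2) * b +
      P.real (L.NoC L.m0 L.m0 N) := by
  have hI : Integrable (fun ω => ex θ (L.U t ω)) P :=
    integrable_of_norm_le_one ((measurable_ex θ).comp (L.U_measurable _)) fun ω => (norm_ex _ _).le
  have hterm : ∀ i, i < N → ∫ ω in L.J L.m0 L.m0 i, ex θ (L.U t ω) ∂P =
      (∫ ω in L.J L.m0 L.m0 i, ex θ (L.U (L.m0 + i * L.m0) ω) ∂P) *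
        L.chi (t - (i + 1) * L.m0) θ := by
    intro i hi
    have hle : (i + 1) * L.m0 ≤ t := (Nat.mul_le_mul_right _ hi).trans ht
    have h1 := L.renJ L.m0 L.m0 i (fun ω => ex θ (L.U (L.m0 + i * L.m0) ω))
      (fun ω => ex θ (L.U (t - (i + 1) * L.m0) ω))
      ((measurable_ex θ).comp (L.U_meas _)) ((measurable_ex θ).comp (L.U_measurable _))
    rw [L.chi_eq, ← h1]
    congr 1
    ext ω
    rw [← ex_add, ← L.U_add]
    congr 2
    rw [add_mul, one_mul]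
    rw [add_mul, one_mul] at hle
    omega
  have hJ : ∀ i, ‖∫ ω in L.J L.m0 L.m0 i, ex θ (L.U (L.m0 + i * L.m0) ω) ∂P‖ ≤
      P.real (L.J L.m0 L.m0 i) := by
    intro i
    have := norm_setIntegral_le_of_norm_le_const (μ := P) (s := L.J L.m0 L.m0 i) (C := 1)
      (f := fun ω => ex θ (L.U (L.m0 + i * L.m0) ω)) (measure_lt_top _ _)
      (fun ω _ => (norm_ex _ _).le)
    simpa using this
  have hJ0 : ‖∫ ω in L.J L.m0 L.m0 0, ex θ (L.U (L.m0 + 0 * L.m0) ω) ∂P‖ ≤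
      P.real (L.J L.m0 L.m0 0) - c * (dt θ (vv j)) ^ 2 / Real.pi ^ 2 := by
    have e : L.J L.m0 L.m0 0 = L.C L.m0 := by
      ext ω; rw [mem_J_iff]; simp
    rw [e]
    simp only [zero_mul, add_zero]
    exact L.first_step c hc hB θ j hj hθ
  have hsum : ∑ i ∈ Finset.range N, P.real (L.J L.m0 L.m0 i) ≤ 1 := by
    rw [← measureReal_biUnion_finset (fun i _ k _ h => L.J_disj _ _ h)
      (fun i _ => L.meas_J _ _ i) (fun i _ => measure_ne_top _ _)]
    exact measureReal_le_one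
  have hno : ‖∫ ω in L.NoC L.m0 L.m0 N, ex θ (L.U t ω) ∂P‖ ≤ P.real (L.NoC L.m0 L.m0 N) := by
    have := norm_setIntegral_le_of_norm_le_const (μ := P) (s := L.NoC L.m0 L.m0 N) (C := 1)
      (f := fun ω => ex θ (L.U t ω)) (measure_lt_top _ _) (fun ω _ => (norm_ex _ _).le)
    simpa using this
  rw [L.chi_eq, L.integral_decomp L.m0 L.m0 N _ hI]
  have hb1 : ‖∑ i ∈ Finset.range N, ∫ ω in L.J L.m0 L.m0 i, ex θ (L.U t ω) ∂P‖ ≤
      ∑ i ∈ Finset.range N, (P.real (L.J L.m0 L.m0 i) -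
        if i = 0 then c * (dt θ (vv j)) ^ 2 / Real.pi ^ 2 else 0) * b := by
    refine (norm_sum_le _ _).trans (Finset.sum_le_sum fun i hi => ?_)
    have hi' := Finset.mem_range.1 hi
    rw [hterm i hi', norm_mul]
    refine mul_le_mul ?_ (hprev (i + 1) hi') (norm_nonneg _) ?_
    · by_cases h0 : i = 0
      · subst h0; simpa using hJ0
      · simp only [h0, if_false, sub_zero]; exact hJ i
    · by_cases h0 : i = 0
      · subst h0
        simp only [if_true]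
        exact (norm_nonneg _).trans hJ0
      · simp only [h0, if_false, sub_zero]; exact measureReal_nonneg
  have hb2 : ∑ i ∈ Finset.range N, (P.real (L.J L.m0 L.m0 i) -
        if i = 0 then c * (dt θ (vv j)) ^ 2 / Real.pi ^ 2 else 0) * b ≤
      (1 - c * (dt θ (vv j)) ^ 2 / Real.pi ^ 2) * b := by
    rw [← Finset.sum_mul, Finset.sum_sub_distrib]
    apply mul_le_mul_of_nonneg_right _ hb
    rw [Finset.sum_ite_eq' (Finset.range N) 0]
    simp only [Finset.mem_range, hN, if_true]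
    linarith
  calc _ ≤ ‖∑ i ∈ Finset.range N, ∫ ω in L.J L.m0 L.m0 i, ex θ (L.U t ω) ∂P‖ +
        ‖∫ ω in L.NoC L.m0 L.m0 N, ex θ (L.U t ω) ∂P‖ := norm_add_le _ _
    _ ≤ _ := add_le_add (hb1.trans hb2) hno

/-- there is a coordinate in which `θ` is large -/
theorem exists_coord (θ : V) (δ : ℝ) (h1 : δ / 2 ≤ ‖θ‖) (h2 : ‖θ‖ ≤ δ) :
    ∃ j : Fin 3, j ≠ 0 ∧ δ / 2 ≤ |dt θ (vv j)| ∧ |dt θ (vv j)| ≤ δ := by
  have e1 : dt θ (vv 1) = θ 0 := by simp [dt, vv]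
  have e2 : dt θ (vv 2) = θ 1 := by simp [dt, vv]
  have hn0 : |θ 0| ≤ ‖θ‖ := norm_le_pi_norm θ 0
  have hn1 : |θ 1| ≤ ‖θ‖ := norm_le_pi_norm θ 1
  by_cases h : δ / 2 ≤ |θ 0|
  · exact ⟨1, by decide, by rw [e1]; exact h, by rw [e1]; exact hn0.trans h2⟩
  · refine ⟨2, by decide, ?_, by rw [e2]; exact hn1.trans h2⟩
    rw [e2]
    by_contra hc
    push Not at h hc
    have : ‖θ‖ < δ / 2 := by
      rw [pi_norm_lt_iff (lt_of_le_of_lt (abs_nonneg _) h)]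
      intro i
      fin_cases i
      · exact h
      · exact hc
    linarith

theorem ann [IsProbabilityMeasure P] (L : LP P) : L.ANN := by
  intro δ hδ hδ1 η hη
  have hpi := Real.pi_pos
  have hpi3 := Real.pi_gt_three
  -- uniform lower bound for the masses
  obtain ⟨c, hc, hc1, hB⟩ : ∃ c : ℝ, 0 < c ∧ c ≤ 1 ∧ ∀ i, c ≤ P.real (L.B i ∩ L.C L.m0) := by
    have hpos : ∀ i, 0 < P.real (L.B i ∩ L.C L.m0) := fun i =>
      ENNReal.toReal_pos (L.B_pos i).ne' (measure_ne_top _ _)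
    refine ⟨min (P.real (L.B 0 ∩ L.C L.m0)) (min (P.real (L.B 1 ∩ L.C L.m0))
      (P.real (L.B 2 ∩ L.C L.m0))), ?_, ?_, ?_⟩
    · exact lt_min (hpos 0) (lt_min (hpos 1) (hpos 2))
    · exact (min_le_left _ _).trans measureReal_le_one
    · intro i
      fin_cases i
      · exact min_le_left _ _
      · exact (min_le_right _ _).trans (min_le_left _ _)
      · exact (min_le_right _ _).trans (min_le_right _ _)
  set c0 : ℝ := c * (δ / 2) ^ 2 / Real.pi ^ 2 with hc0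
  have hc0pos : 0 < c0 := by positivity
  have hc0le : c0 ≤ 1 := by
    rw [hc0, div_le_one (by positivity)]
    have h1 : (δ / 2) ^ 2 ≤ 1 := by nlinarith
    have h2 : (1 : ℝ) ≤ Real.pi ^ 2 := by nlinarith
    nlinarith [mul_le_mul hc1 h1 (by positivity) (by norm_num : (0:ℝ) ≤ 1)]
  have hind : ∀ n : ℕ, ∃ t₀ : ℕ, ∀ t, t₀ ≤ t → ∀ θ : V, δ / 2 ≤ ‖θ‖ → ‖θ‖ ≤ δ →
      ‖L.chi t θ‖ ≤ (1 - c0 / 2) ^ n := by
    intro n
    induction n with
    | zero =>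
      refine ⟨0, fun t _ θ _ _ => ?_⟩
      rw [pow_zero]; exact L.norm_chi_le t θ
    | succ n ih =>
      obtain ⟨t₀, h0⟩ := ih
      have hbn : 0 < (1 - c0 / 2) ^ n := pow_pos (by linarith) n
      obtain ⟨N, hN, hcut⟩ := L.gridTight L.m0 L.m0_pos (c0 / 2 * (1 - c0 / 2) ^ n)
        (by positivity)
      refine ⟨t₀ + N * L.m0, fun t ht θ hθ1 hθ2 => ?_⟩
      obtain ⟨j, hj, hj1, hj2⟩ := exists_coord θ δ hθ1 hθ2
      have hstep := L.chi_step c hc.le hB θ j hj (by linarith) N t hN ((1 - c0 / 2) ^ n) hbn.le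
        (by omega) (fun k hk => h0 _ (by
          have : k * L.m0 ≤ N * L.m0 := Nat.mul_le_mul_right _ hk
          omega) θ hθ1 hθ2)
      have hx : c0 ≤ c * (dt θ (vv j)) ^ 2 / Real.pi ^ 2 := by
        rw [hc0]
        apply div_le_div_of_nonneg_right _ (by positivity)
        apply mul_le_mul_of_nonneg_left _ hc.le
        rw [← sq_abs (dt θ (vv j))]
        exact pow_le_pow_left₀ (by positivity) hj1 2
      have hno : P.real (L.NoC L.m0 L.m0 N) ≤ c0 / 2 * (1 - c0 / 2) ^ n := hcut L.m0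
      calc ‖L.chi t θ‖ ≤ (1 - c * (dt θ (vv j)) ^ 2 / Real.pi ^ 2) * (1 - c0 / 2) ^ n +
            P.real (L.NoC L.m0 L.m0 N) := hstep
        _ ≤ (1 - c0) * (1 - c0 / 2) ^ n + c0 / 2 * (1 - c0 / 2) ^ n :=
            add_le_add (mul_le_mul_of_nonneg_right (by linarith) hbn.le) hno
        _ = _ := by ring
  obtain ⟨n, hn⟩ := exists_pow_lt_of_lt_one hη (show 1 - c0 / 2 < 1 by linarith)
  obtain ⟨t₀, ht₀⟩ := hind n
  exact ⟨t₀, fun t ht θ h1 h2 => (ht₀ t ht θ h1 h2).trans hn.le⟩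

end LP

end Crest.Agent.R154.B4
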