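import Crest.Agent.R154.B4LP_573

/-! Row 154, B4 route II: characteristic functions of a level process (helper573). -/

set_option autoImplicit false

namespace Crest.Agent.R154.B4

open MeasureTheory ProbabilityTheory Filter
open scoped ENNReal Topology ComplexConjugate

lemma dt_add (θ x y : V) : dt θ (x + y) = dt θ x + dt θ y := by simp [dt]; ring
lemma dt_sub (θ x y : V) : dt θ (x - y) = dt θ x - dt θ y := by simp [dt]; ring
lemma dt_neg (θ x : V) : dt θ (-x) = - dt θ x := by simp [dt]; ring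
lemma dt_zero (θ : V) : dt θ 0 = 0 := by simp [dt]
lemma dt_add_left (θ η x : V) : dt (θ + η) x = dt θ x + dt η x := by simp [dt]; ring
lemma dt_neg_left (θ x : V) : dt (-θ) x = - dt θ x := by simp [dt]; ring
lemma dt_zero_left (x : V) : dt 0 x = 0 := by simp [dt]

lemma continuous_dt : Continuous fun q : V × V => dt q.1 q.2 := by
  unfold dt; fun_prop

lemma measurable_dt : Measurable fun q : V × V => dt q.1 q.2 := continuous_dt.measurable

section general

variable {Ω : Type*} [MeasurableSpace Ω] {P : Measure Ω} [IsProbabilityMeasure P]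

/-- characteristic function of a random vector -/
noncomputable def cfr (P : Measure Ω) (Δ : Ω → V) (θ : V) : ℂ :=
  ∫ ω, Complex.exp ((dt θ (Δ ω) : ℝ) * Complex.I) ∂P

lemma integrable_exp {Δ : Ω → V} (hΔ : Measurable Δ) (θ : V) :
    Integrable (fun ω => Complex.exp ((dt θ (Δ ω) : ℝ) * Complex.I)) P := by
  have hm : Measurable fun ω => Complex.exp ((dt θ (Δ ω) : ℝ) * Complex.I) := by
    have : Measurable fun ω => dt θ (Δ ω) := measurable_dt.comp (measurable_const.prodMk hΔ)
    fun_prop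
  refine (integrable_const (1 : ℝ)).mono' hm.aestronglyMeasurable (Eventually.of_forall fun ω => ?_)
  rw [Complex.norm_exp_ofReal_mul_I]

lemma norm_cfr_le (Δ : Ω → V) (θ : V) : ‖cfr P Δ θ‖ ≤ 1 := by
  unfold cfr
  refine (norm_integral_le_integral_norm _).trans ?_
  simp [Complex.norm_exp_ofReal_mul_I]

lemma cfr_zero (Δ : Ω → V) : cfr P Δ 0 = 1 := by
  simp [cfr, dt_zero_left]

lemma cfr_neg (Δ : Ω → V) (θ : V) : cfr P Δ (-θ) = conj (cfr P Δ θ) := by
  unfold cfr
  rw [← integral_conj]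
  refine integral_congr_ae (Eventually.of_forall fun ω => ?_)
  simp only [dt_neg_left]
  rw [← Complex.exp_conj]
  congr 1
  simp

/-- expectation of a cosine of a difference of independent vectors -/
lemma integral_cos_prod {Ω' : Type*} [MeasurableSpace Ω'] {P' : Measure Ω'}
    [IsProbabilityMeasure P'] {Δ : Ω → V} {Δ' : Ω' → V}
    (hΔ : Measurable Δ) (hΔ' : Measurable Δ') (θ y : V) :
    ∫ q, Real.cos (dt θ (y + Δ q.1 - Δ' q.2)) ∂(P.prod P')
      = (Complex.exp ((dt θ y : ℝ) * Complex.I) * cfr P Δ θ * conj (cfr P' Δ' θ)).re := by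
  have h1 : ∀ q : Ω × Ω', Real.cos (dt θ (y + Δ q.1 - Δ' q.2))
      = (Complex.exp ((dt θ y : ℝ) * Complex.I) * (Complex.exp ((dt θ (Δ q.1) : ℝ) * Complex.I) *
        conj (Complex.exp ((dt θ (Δ' q.2) : ℝ) * Complex.I)))).re := by
    intro q
    rw [← Complex.exp_conj, ← Complex.exp_add, ← Complex.exp_add]
    have : ((dt θ y : ℝ) * Complex.I + ((dt θ (Δ q.1) : ℝ) * Complex.I
        + conj ((dt θ (Δ' q.2) : ℝ) * Complex.I)))
        = ((dt θ (y + Δ q.1 - Δ' q.2) : ℝ) : ℂ) * Complex.I := by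
      rw [dt_sub, dt_add]
      simp only [map_mul, Complex.conj_ofReal, Complex.conj_I]
      push_cast
      ring
    rw [this, Complex.exp_ofReal_mul_I_re]
  simp_rw [h1]
  have hi1 := integrable_exp (P := P) hΔ θ
  have hi2 : Integrable (fun ω => conj (Complex.exp ((dt θ (Δ' ω) : ℝ) * Complex.I))) P' := by
    have := integrable_exp (P := P') hΔ' θ
    exact (LinearIsometryEquiv.integrable_comp_iff Complex.conjLIE).2 this
  have hi := (hi1.mul_prod hi2).const_mul (Complex.exp ((dt θ y : ℝ) * Complex.I))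
  have hre := Complex.reCLM.integral_comp_comm hi
  simp only [Complex.reCLM_apply] at hre
  rw [hre, integral_const_mul, integral_prod_mul (fun ω => Complex.exp ((dt θ (Δ ω) : ℝ) * Complex.I))
    (fun ω => conj (Complex.exp ((dt θ (Δ' ω) : ℝ) * Complex.I))), integral_conj, mul_assoc]
  rfl

/-- same law: the square of the modulus -/
lemma integral_cos_prod_same {Δ : Ω → V} (hΔ : Measurable Δ) (θ y : V) :
    ∫ q, Real.cos (dt θ (y + Δ q.1 - Δ q.2)) ∂(P.prod P)
      = Real.cos (dt θ y) * ‖cfr P Δ θ‖ ^ 2 := by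
  rw [integral_cos_prod hΔ hΔ, mul_assoc, Complex.mul_conj, Complex.normSq_eq_norm_sq]
  rw [Complex.re_mul_ofReal, Complex.exp_ofReal_mul_I_re]

lemma integral_cos_prod_le {Ω' : Type*} [MeasurableSpace Ω'] {P' : Measure Ω'}
    [IsProbabilityMeasure P'] {Δ : Ω → V} {Δ' : Ω' → V}
    (hΔ : Measurable Δ) (hΔ' : Measurable Δ') (θ y : V) :
    ∫ q, Real.cos (dt θ (y + Δ q.1 - Δ' q.2)) ∂(P.prod P') ≤ ‖cfr P Δ θ‖ * ‖cfr P' Δ' θ‖ := by
  rw [integral_cos_prod hΔ hΔ']
  refine (Complex.re_le_norm _).trans ?_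
  rw [norm_mul, norm_mul, Complex.norm_exp_ofReal_mul_I, one_mul, RCLike.norm_conj]

end general

end Crest.Agent.R154.B4
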