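import Mathlib

/-! Row 154, block B4, route II: abstract level process (law `P` = law of the natural walk, `U j` =
lateral position at the first hit of level `j`, projected to two coordinates, `C l` = level `l` is a
cut level, `θ l` = path after the first hit of level `l`).  Mathlib only.  The intended instances are
the natural walk for `R = 0` and the marked natural walk at range `R`. -/

set_option autoImplicit false

namespace Crest.Agent.R154.B4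

open MeasureTheory ProbabilityTheory Filter
open scoped ENNReal Topology

/-- the plane -/
abbrev V : Type := Fin 2 → ℝ

/-- pairing -/
def dt (θ z : V) : ℝ := θ 0 * z 0 + θ 1 * z 1

/-- the three displacements used for aperiodicity -/
def vv : Fin 3 → V := ![![0, 0], ![1, 0], ![0, 1]]

/-- **Level process.** -/
structure LP {Ω : Type*} [mΩ : MeasurableSpace Ω] (P : Measure Ω) where
  /-- information up to the first hit of level `l` -/
  F : ℕ → MeasurableSpace Ω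
  F_le : ∀ l, F l ≤ mΩ
  F_mono : ∀ {l m : ℕ}, l ≤ m → F l ≤ F m
  /-- path after the first hit of level `l` -/
  θ : ℕ → Ω → Ω
  θ_meas : ∀ l, Measurable (θ l)
  θ_add : ∀ l m ω, θ (l + m) ω = θ m (θ l ω)
  /-- lateral position at the first hit of level `l` -/
  U : ℕ → Ω → V
  U_meas : ∀ l, Measurable[F l] (U l)
  U_add : ∀ l m ω, U (l + m) ω = U l ω + U m (θ l ω)
  U_zero : ∀ ω, U 0 ω = 0
  /-- `l` is a cut level -/
  C : ℕ → Set Ω
  C_meas : ∀ l, MeasurableSet (C l)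
  C_add : ∀ l m ω, ω ∈ C (l + m) ↔ θ l ω ∈ C m
  C_zero : ∀ᵐ ω ∂P, ω ∈ C 0
  /-- `l` is a cut level as far as one can see at level `l + m` -/
  D : ℕ → ℕ → Set Ω
  D_meas : ∀ l m, MeasurableSet[F (l + m)] (D l m)
  C_sub_D : ∀ l m, C l ⊆ D l m
  D_inter : ∀ l m, D l m ∩ C (l + m) ⊆ C l
  /-- renewal at a cut level -/
  ren : ∀ (l : ℕ) (A B : Set Ω), MeasurableSet[F l] A → MeasurableSet B →
    P (A ∩ C l ∩ θ l ⁻¹' B) = P (A ∩ C l) * P B
  /-- every level is a cut level with conditional probability at least `p` -/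
  p : ℝ
  p_pos : 0 < p
  cut : ∀ (l : ℕ) (A : Set Ω), MeasurableSet[F l] A → ENNReal.ofReal p * P A ≤ P (A ∩ C l)
  /-- failure of a cut level is seen soon -/
  e : ℕ → ℝ
  e_nonneg : ∀ m, 0 ≤ e m
  e_tendsto : Tendsto e atTop (𝓝 0)
  det : ∀ (l m : ℕ) (A : Set Ω), MeasurableSet[F l] A →
    P (A ∩ (D l m \ C l)) ≤ ENNReal.ofReal (e m) * P A
  /-- aperiodicity: from a cut level, displacements `0`, `e₁`, `e₂` after `m0` levels -/
  m0 : ℕ
  m0_pos : 0 < m0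
  B : Fin 3 → Set Ω
  B_meas : ∀ i, MeasurableSet[F m0] (B i)
  B_disj : ∀ i j, i ≠ j → Disjoint (B i) (B j)
  B_val : ∀ i, ∀ ω ∈ B i, U m0 ω = vv i
  B_pos : ∀ i, 0 < P (B i ∩ C m0)

variable {Ω : Type*} [mΩ : MeasurableSpace Ω] {P : Measure Ω}

/-- characteristic function of the displacement at level `j` -/
noncomputable def LP.chi (L : LP P) (j : ℕ) (θ : V) : ℂ :=
  ∫ ω, Complex.exp ((dt θ (L.U j ω) : ℝ) * Complex.I) ∂P

/-- characteristic function of the displacement between levels `a` and `a + b` -/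
noncomputable def LP.chiInc (L : LP P) (a b : ℕ) (θ : V) : ℂ :=
  ∫ ω, Complex.exp ((dt θ (L.U (a + b) ω - L.U a ω) : ℝ) * Complex.I) ∂P

/-- **(S1)**: cut levels are tight. -/
def LP.CutTight (L : LP P) : Prop :=
  ∀ ε : ℝ, 0 < ε → ∃ r : ℕ, ∀ l : ℕ, P.real {ω | ∀ j, l ≤ j → j < l + r → ω ∉ L.C j} ≤ ε

/-- **(T0)**: increments are tight. -/
def LP.T0 (L : LP P) : Prop :=
  ∀ (i : ℕ) (ε : ℝ), 0 < ε → ∃ M : ℝ, ∀ b : ℕ,
    P.real {ω | M < ‖L.U (b + i) ω - L.U b ω‖} ≤ ε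

/-- **(T1)**: almost multiplicativity near `0`, uniformly in the levels. -/
def LP.T1 (L : LP P) : Prop :=
  ∀ η : ℝ, 0 < η → ∃ δ : ℝ, 0 < δ ∧ ∀ (a b : ℕ) (θ : V), ‖θ‖ ≤ δ →
    ‖L.chi (a + b) θ - L.chi a θ * L.chi b θ‖ ≤ η ∧ ‖L.chiInc a b θ - L.chi b θ‖ ≤ η

/-- **(ANN)**: decay on annuli. -/
def LP.ANN (L : LP P) : Prop :=
  ∀ δ : ℝ, 0 < δ → δ ≤ 1 → ∀ η : ℝ, 0 < η → ∃ t₀ : ℕ, ∀ t, t₀ ≤ t → ∀ θ : V,
    δ / 2 ≤ ‖θ‖ → ‖θ‖ ≤ δ → ‖L.chi t θ‖ ≤ η

/-- **Output of Part B** (inputs `u`, `π` of the contact inequality, under the law of the natural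
walk): windows `[k t, (k + w) t]`, `k ≤ ρ K`, one region `E`, shifts `c k`. -/
def LP.PartB (L : LP P) : Prop :=
  ∀ (w ρ : ℕ) (ε : ℝ), 0 < ε → ∃ K : ℕ, 0 < K ∧ ∃ t₀ : ℕ, ∀ t, t₀ ≤ t →
    ∃ (E : Set V) (c : ℕ → V) (u : ℝ), MeasurableSet E ∧ (∀ v, v ∈ E ↔ -v ∈ E) ∧ 0 ≤ u ∧
      K * u ^ 2 ≤ ε ∧
      (∀ k, k ≤ ρ * K → P.real {ω | L.U ((k + w) * t) ω - L.U (k * t) ω - c k ∉ E} ≤ u) ∧
      ∀ y : V, (P.prod P).real {q : Ω × Ω | ∃ k, K ≤ 2 * k ∧ k ≤ ρ * K ∧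
        y + L.U ((k + w) * t) q.1 - L.U (k * t) q.2 - c k ∈ E} ≤ ε

end Crest.Agent.R154.B4
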