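import Crest.Agent.R154.B4Chi_573

/-! Row 154, B4 route II: the function `psi = 1 - |chi|^2` and spectral averages (helper573). -/

set_option autoImplicit false
set_option linter.unusedSectionVars false

namespace Crest.Agent.R154.B4

open MeasureTheory ProbabilityTheory Filter
open scoped ENNReal Topology ComplexConjugate

section psi

variable {Ω : Type*} [MeasurableSpace Ω] {P : Measure Ω} [IsProbabilityMeasure P]

/-- `psi = 1 - |cfr|^2` -/
noncomputable def psi (P : Measure Ω) (Δ : Ω → V) (θ : V) : ℝ := 1 - ‖cfr P Δ θ‖ ^ 2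

lemma psi_nonneg (Δ : Ω → V) (θ : V) : 0 ≤ psi P Δ θ := by
  have h := norm_cfr_le (P := P) Δ θ
  have h0 := norm_nonneg (cfr P Δ θ)
  unfold psi; nlinarith

lemma psi_le_one (Δ : Ω → V) (θ : V) : psi P Δ θ ≤ 1 := by
  unfold psi; have := sq_nonneg ‖cfr P Δ θ‖; linarith

lemma psi_zero (Δ : Ω → V) : psi P Δ 0 = 0 := by
  unfold psi; rw [cfr_zero]; simp

lemma psi_neg (Δ : Ω → V) (θ : V) : psi P Δ (-θ) = psi P Δ θ := by
  unfold psi; rw [cfr_neg, RCLike.norm_conj]

lemma continuous_cfr {Δ : Ω → V} (hΔ : Measurable Δ) : Continuous (cfr P Δ) := by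
  unfold cfr
  refine continuous_of_dominated (bound := fun _ => (1 : ℝ)) ?_ ?_ (integrable_const _) ?_
  · intro θ
    exact (integrable_exp (P := P) hΔ θ).aestronglyMeasurable
  · intro θ
    refine Eventually.of_forall fun ω => ?_
    rw [Complex.norm_exp_ofReal_mul_I]
  · refine Eventually.of_forall fun ω => ?_
    have : Continuous fun θ : V => dt θ (Δ ω) := continuous_dt.comp (continuous_id.prodMk continuous_const)
    fun_prop

lemma continuous_psi {Δ : Ω → V} (hΔ : Measurable Δ) : Continuous (psi P Δ) := by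
  unfold psi
  have := continuous_cfr (P := P) hΔ
  fun_prop

/-- `psi` as an expectation -/
lemma psi_eq {Δ : Ω → V} (hΔ : Measurable Δ) (θ : V) :
    psi P Δ θ = ∫ q, (1 - Real.cos (dt θ (Δ q.1 - Δ q.2))) ∂(P.prod P) := by
  have h := integral_cos_prod_same (P := P) hΔ θ 0
  simp only [dt_zero, Real.cos_zero, one_mul, zero_add] at h
  have hm : Measurable fun q : Ω × Ω => Real.cos (dt θ (Δ q.1 - Δ q.2)) := by
    have : Measurable fun q : Ω × Ω => dt θ (Δ q.1 - Δ q.2) :=
      measurable_dt.comp (measurable_const.prodMk ((hΔ.comp measurable_fst).sub (hΔ.comp measurable_snd)))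
    fun_prop
  have hi : Integrable (fun q : Ω × Ω => Real.cos (dt θ (Δ q.1 - Δ q.2))) (P.prod P) :=
    (integrable_const (1 : ℝ)).mono' hm.aestronglyMeasurable
      (Eventually.of_forall fun q => by rw [Real.norm_eq_abs]; exact Real.abs_cos_le_one _)
  rw [integral_sub (integrable_const _) hi, h, psi]
  simp

lemma one_sub_cos (x : ℝ) : 1 - Real.cos x = 2 * Real.sin (x / 2) ^ 2 := by
  have h := Real.cos_sq (x / 2)
  have h2 := Real.sin_sq_add_cos_sq (x / 2)
  have h3 : 2 * (x / 2) = x := by ring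
  rw [h3] at h
  nlinarith

/-- subadditivity of the square root -/
lemma sqrt_psi_add {Δ : Ω → V} (hΔ : Measurable Δ) (a b : V) :
    Real.sqrt (psi P Δ (a + b)) ≤ Real.sqrt (psi P Δ a) + Real.sqrt (psi P Δ b) := by
  set X : V → Ω × Ω → ℝ := fun θ q => |Real.sin (dt θ (Δ q.1 - Δ q.2) / 2)| with hX
  have hXm : ∀ θ, Measurable (X θ) := by
    intro θ
    have : Measurable fun q : Ω × Ω => dt θ (Δ q.1 - Δ q.2) :=
      measurable_dt.comp (measurable_const.prodMk ((hΔ.comp measurable_fst).sub (hΔ.comp measurable_snd)))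
    simp only [hX]
    fun_prop
  have hX0 : ∀ θ q, 0 ≤ X θ q := fun θ q => abs_nonneg _
  have hX1 : ∀ θ q, X θ q ≤ 1 := fun θ q => Real.abs_sin_le_one _
  have hb : ∀ (f : Ω × Ω → ℝ), Measurable f → (∀ q, |f q| ≤ 4) → Integrable f (P.prod P) :=
    fun f hf hf1 => (integrable_const (4 : ℝ)).mono' hf.aestronglyMeasurable
      (Eventually.of_forall fun q => by rw [Real.norm_eq_abs]; exact hf1 q)
  have hpsi : ∀ θ, psi P Δ θ = 2 * ∫ q, X θ q ^ 2 ∂(P.prod P) := by
    intro θ
    rw [psi_eq hΔ, ← integral_const_mul]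
    refine integral_congr_ae (Eventually.of_forall fun q => ?_)
    simp only [hX, sq_abs]
    exact one_sub_cos _
  have hadd : ∀ q, X (a + b) q ≤ X a q + X b q := by
    intro q
    simp only [hX]
    rw [dt_add_left, add_div, Real.sin_add]
    refine (abs_add_le _ _).trans ?_
    rw [abs_mul, abs_mul]
    have h1 := abs_nonneg (Real.sin (dt a (Δ q.1 - Δ q.2) / 2))
    have h2 := abs_nonneg (Real.sin (dt b (Δ q.1 - Δ q.2) / 2))
    have h3 := Real.abs_cos_le_one (dt a (Δ q.1 - Δ q.2) / 2)
    have h4 := Real.abs_cos_le_one (dt b (Δ q.1 - Δ q.2) / 2)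
    nlinarith [abs_nonneg (Real.cos (dt a (Δ q.1 - Δ q.2) / 2)),
      abs_nonneg (Real.cos (dt b (Δ q.1 - Δ q.2) / 2))]
  have hia : Integrable (fun q => X a q ^ 2) (P.prod P) :=
    hb _ ((hXm a).pow_const 2) fun q => by
      rw [abs_of_nonneg (sq_nonneg _)]; nlinarith [hX0 a q, hX1 a q]
  have hib : Integrable (fun q => X b q ^ 2) (P.prod P) :=
    hb _ ((hXm b).pow_const 2) fun q => by
      rw [abs_of_nonneg (sq_nonneg _)]; nlinarith [hX0 b q, hX1 b q]
  have hiab : Integrable (fun q => X (a + b) q ^ 2) (P.prod P) :=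
    hb _ ((hXm (a + b)).pow_const 2) fun q => by
      rw [abs_of_nonneg (sq_nonneg _)]; nlinarith [hX0 (a + b) q, hX1 (a + b) q]
  have him : Integrable (fun q => X a q * X b q) (P.prod P) :=
    hb _ ((hXm a).mul (hXm b)) fun q => by
      rw [abs_of_nonneg (mul_nonneg (hX0 a q) (hX0 b q))]
      nlinarith [hX0 a q, hX1 a q, hX0 b q, hX1 b q]
  set A := ∫ q, X a q ^ 2 ∂(P.prod P) with hA
  set B := ∫ q, X b q ^ 2 ∂(P.prod P) with hB
  set M := ∫ q, X a q * X b q ∂(P.prod P) with hM
  have hA0 : 0 ≤ A := integral_nonneg fun q => sq_nonneg _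
  have hB0 : 0 ≤ B := integral_nonneg fun q => sq_nonneg _
  -- Cauchy-Schwarz
  have hCS : M ≤ Real.sqrt A * Real.sqrt B := by
    have hquad : ∀ s : ℝ, 0 ≤ A - 2 * s * M + s ^ 2 * B := by
      intro s
      have h1 : ∫ q, (X a q - s * X b q) ^ 2 ∂(P.prod P) = A - 2 * s * M + s ^ 2 * B := by
        have : ∀ q, (X a q - s * X b q) ^ 2 = X a q ^ 2 - (2 * s) * (X a q * X b q)
            + s ^ 2 * X b q ^ 2 := fun q => by ring
        simp_rw [this]
        have e1 := integral_add (μ := P.prod P) (f := fun q => X a q ^ 2 - 2 * s * (X a q * X b q))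
          (g := fun q => s ^ 2 * X b q ^ 2) (hia.sub (him.const_mul _)) (hib.const_mul _)
        have e2 := integral_sub (μ := P.prod P) (f := fun q => X a q ^ 2)
          (g := fun q => 2 * s * (X a q * X b q)) hia (him.const_mul _)
        rw [e1, e2, integral_const_mul, integral_const_mul]
      rw [← h1]
      exact integral_nonneg fun q => sq_nonneg _
    rcases eq_or_lt_of_le hB0 with hB' | hB'
    · have hM0 : M ≤ 0 := by
        by_contra hcon
        push Not at hcon
        have := hquad ((A + 1) / M)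
        rw [← hB'] at this
        have h2 : 2 * ((A + 1) / M) * M = 2 * (A + 1) := by field_simp
        rw [h2] at this
        linarith
      exact hM0.trans (mul_nonneg (Real.sqrt_nonneg _) (Real.sqrt_nonneg _))
    · have := hquad (M / B)
      have h2 : A - 2 * (M / B) * M + (M / B) ^ 2 * B = A - M ^ 2 / B := by
        field_simp; ring
      rw [h2] at this
      have h3 : M ^ 2 ≤ A * B := by
        have : M ^ 2 / B ≤ A := by linarith
        rwa [div_le_iff₀ hB'] at this
      rw [← Real.sqrt_mul hA0]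
      exact Real.le_sqrt_of_sq_le h3
  have hmain : psi P Δ (a + b) ≤ (Real.sqrt (psi P Δ a) + Real.sqrt (psi P Δ b)) ^ 2 := by
    have h1 : ∫ q, X (a + b) q ^ 2 ∂(P.prod P) ≤ A + 2 * M + B := by
      have h2 : ∫ q, X (a + b) q ^ 2 ∂(P.prod P)
          ≤ ∫ q, (X a q ^ 2 + 2 * (X a q * X b q) + X b q ^ 2) ∂(P.prod P) := by
        refine integral_mono hiab ((hia.add (him.const_mul _)).add hib) fun q => ?_
        have := hadd q
        have h0 := hX0 (a + b) q
        simp only []
        nlinarith [hX0 a q, hX0 b q]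
      have e1 := integral_add (μ := P.prod P) (f := fun q => X a q ^ 2 + 2 * (X a q * X b q))
          (g := fun q => X b q ^ 2) (hia.add (him.const_mul _)) hib
      have e2 := integral_add (μ := P.prod P) (f := fun q => X a q ^ 2)
          (g := fun q => 2 * (X a q * X b q)) hia (him.const_mul _)
      rwa [e1, e2, integral_const_mul] at h2
    rw [add_sq, Real.sq_sqrt (psi_nonneg Δ a), Real.sq_sqrt (psi_nonneg Δ b), hpsi a, hpsi b,
      hpsi (a + b)]
    rw [Real.sqrt_mul (by norm_num), Real.sqrt_mul (by norm_num)]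
    have h4 : 2 * (Real.sqrt 2 * Real.sqrt A) * (Real.sqrt 2 * Real.sqrt B)
        = 4 * (Real.sqrt A * Real.sqrt B) := by
      have : Real.sqrt 2 * Real.sqrt 2 = 2 := Real.mul_self_sqrt (by norm_num)
      calc 2 * (Real.sqrt 2 * Real.sqrt A) * (Real.sqrt 2 * Real.sqrt B)
          = 2 * (Real.sqrt 2 * Real.sqrt 2) * (Real.sqrt A * Real.sqrt B) := by ring
        _ = _ := by rw [this]; ring
    rw [h4]
    linarith
  calc Real.sqrt (psi P Δ (a + b)) ≤ Real.sqrt ((Real.sqrt (psi P Δ a) + Real.sqrt (psi P Δ b)) ^ 2) :=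
        Real.sqrt_le_sqrt hmain
    _ = _ := Real.sqrt_sq (add_nonneg (Real.sqrt_nonneg _) (Real.sqrt_nonneg _))

end psi

/-! ### spectral averages -/

section spectral

/-- spectral average -/
noncomputable def Phi (ν : Measure V) (z : V) : ℝ := ∫ θ, Real.cos (dt θ z) ∂ν

variable {ν : Measure V}

lemma measurable_cos_left (z : V) : Measurable fun θ : V => Real.cos (dt θ z) := by
  have : Measurable fun θ : V => dt θ z := measurable_dt.comp (measurable_id.prodMk measurable_const)
  fun_prop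

lemma integrable_cos [IsFiniteMeasure ν] (z : V) : Integrable (fun θ => Real.cos (dt θ z)) ν :=
  (integrable_const (1 : ℝ)).mono' (measurable_cos_left z).aestronglyMeasurable
    (Eventually.of_forall fun q => by rw [Real.norm_eq_abs]; exact Real.abs_cos_le_one _)

lemma Phi_zero [IsProbabilityMeasure ν] : Phi ν 0 = 1 := by simp [Phi, dt_zero]

lemma Phi_neg (z : V) : Phi ν (-z) = Phi ν z := by simp [Phi, dt_neg]

lemma Phi_le_one [IsProbabilityMeasure ν] (z : V) : Phi ν z ≤ 1 := by
  have := integral_mono (integrable_cos (ν := ν) z) (integrable_const (1 : ℝ))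
    (fun θ => Real.cos_le_one _)
  simpa [Phi] using this

lemma continuous_Phi [IsFiniteMeasure ν] : Continuous (Phi ν) := by
  unfold Phi
  refine continuous_of_dominated (bound := fun _ => (1 : ℝ)) ?_ ?_ (integrable_const _) ?_
  · intro z
    exact (integrable_cos z).aestronglyMeasurable
  · intro z
    exact Eventually.of_forall fun θ => by rw [Real.norm_eq_abs]; exact Real.abs_cos_le_one _
  · refine Eventually.of_forall fun θ => ?_
    have : Continuous fun z : V => dt θ z := continuous_dt.comp (continuous_const.prodMk continuous_id)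
    fun_prop

lemma one_sub_cos_add_le (x y : ℝ) :
    1 - Real.cos (x + y) ≤ 2 * (1 - Real.cos x) + 2 * (1 - Real.cos y) := by
  rw [one_sub_cos, one_sub_cos, one_sub_cos, add_div, Real.sin_add]
  have h1 := Real.sin_sq_add_cos_sq (x / 2)
  have h2 := Real.sin_sq_add_cos_sq (y / 2)
  nlinarith [sq_nonneg (Real.sin (x / 2) * Real.cos (y / 2) - Real.cos (x / 2) * Real.sin (y / 2)),
    mul_nonneg (sq_nonneg (Real.sin (x / 2))) (sq_nonneg (Real.sin (y / 2)))]

lemma Phi_add [IsProbabilityMeasure ν] (x y : V) :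
    1 - Phi ν (x + y) ≤ 2 * (1 - Phi ν x) + 2 * (1 - Phi ν y) := by
  have h : ∀ z, 1 - Phi ν z = ∫ θ, (1 - Real.cos (dt θ z)) ∂ν := by
    intro z
    rw [integral_sub (integrable_const _) (integrable_cos z)]
    simp [Phi]
  have hi : ∀ z, Integrable (fun θ => 1 - Real.cos (dt θ z)) ν :=
    fun z => (integrable_const _).sub (integrable_cos z)
  rw [h, h, h, ← integral_const_mul, ← integral_const_mul,
    ← integral_add ((hi x).const_mul _) ((hi y).const_mul _)]
  refine integral_mono (hi _) (((hi x).const_mul _).add ((hi y).const_mul _)) fun θ => ?_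
  simp only [dt_add]
  exact one_sub_cos_add_le _ _

/-- region where the spectral average is large -/
def Reg (ν : Measure V) : Set V := {z | 7 / 8 ≤ Phi ν z}

lemma measurableSet_Reg [IsFiniteMeasure ν] : MeasurableSet (Reg ν) :=
  measurableSet_le measurable_const continuous_Phi.measurable

lemma mem_Reg_neg (z : V) : z ∈ Reg ν ↔ -z ∈ Reg ν := by
  simp [Reg, Phi_neg]

lemma half_le_of_Reg [IsProbabilityMeasure ν] {x y : V} (hx : x ∈ Reg ν) (hy : y ∈ Reg ν) :
    1 / 2 ≤ Phi ν (x - y) := by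
  have h := Phi_add (ν := ν) x (-y)
  rw [Phi_neg, ← sub_eq_add_neg] at h
  have h1 : 7 / 8 ≤ Phi ν x := hx
  have h2 : 7 / 8 ≤ Phi ν y := hy
  linarith

variable {Ω : Type*} [MeasurableSpace Ω] {P : Measure Ω} [IsProbabilityMeasure P]

/-- Fubini for the spectral average of a difference -/
lemma integral_Phi_prod [IsProbabilityMeasure ν] {Ω' : Type*} [MeasurableSpace Ω']
    {P' : Measure Ω'} [IsProbabilityMeasure P'] {Δ : Ω → V} {Δ' : Ω' → V}
    (hΔ : Measurable Δ) (hΔ' : Measurable Δ') (y : V) :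
    ∫ q, Phi ν (y + Δ q.1 - Δ' q.2) ∂(P.prod P')
      = ∫ θ, (∫ q, Real.cos (dt θ (y + Δ q.1 - Δ' q.2)) ∂(P.prod P')) ∂ν := by
  unfold Phi
  rw [integral_integral_swap]
  have hm : Measurable fun p : (Ω × Ω') × V => Real.cos (dt p.2 (y + Δ p.1.1 - Δ' p.1.2)) := by
    have h1 : Measurable fun p : (Ω × Ω') × V => y + Δ p.1.1 - Δ' p.1.2 :=
      (measurable_const.add (hΔ.comp (measurable_fst.comp measurable_fst))).sub
        (hΔ'.comp (measurable_snd.comp measurable_fst))
    have h2 : Measurable fun p : (Ω × Ω') × V => dt p.2 (y + Δ p.1.1 - Δ' p.1.2) :=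
      measurable_dt.comp (measurable_snd.prodMk h1)
    fun_prop
  exact (integrable_const (1 : ℝ)).mono' hm.aestronglyMeasurable
    (Eventually.of_forall fun q => by
      simp only [Function.uncurry, Real.norm_eq_abs]; exact Real.abs_cos_le_one _)

/-- a good centre exists -/
theorem exists_shift [IsProbabilityMeasure ν] {Δ : Ω → V} (hΔ : Measurable Δ) :
    ∃ c : V, P.real {ω | Δ ω - c ∉ Reg ν} ≤ 8 * ∫ θ, psi P Δ θ ∂ν := by
  have hPm : Measurable (Phi ν) := continuous_Phi.measurable
  have hΦi : ∀ (Ψ : Ω × Ω → V), Measurable Ψ → Integrable (fun q => 1 - Phi ν (Ψ q)) (P.prod P) := by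
    intro Ψ hΨ
    refine (integrable_const (2 : ℝ)).mono' ?_ (Eventually.of_forall fun q => ?_)
    · exact (measurable_const.sub (hPm.comp hΨ)).aestronglyMeasurable
    · have h1 := Phi_le_one (ν := ν) (Ψ q)
      have h2 : -1 ≤ Phi ν (Ψ q) := by
        have := integral_mono (integrable_const (-1 : ℝ)) (integrable_cos (ν := ν) (Ψ q))
          (fun θ => Real.neg_one_le_cos _)
        simpa [Phi] using this
      rw [Real.norm_eq_abs, abs_le]; constructor <;> linarith
  have hdm : Measurable fun q : Ω × Ω => Δ q.1 - Δ q.2 :=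
    (hΔ.comp measurable_fst).sub (hΔ.comp measurable_snd)
  have hint := hΦi _ hdm
  have htot : ∫ q, (1 - Phi ν (Δ q.1 - Δ q.2)) ∂(P.prod P) = ∫ θ, psi P Δ θ ∂ν := by
    have h1 := integral_Phi_prod (P := P) (P' := P) (ν := ν) hΔ hΔ 0
    simp only [zero_add] at h1
    have h2 : Integrable (fun q : Ω × Ω => Phi ν (Δ q.1 - Δ q.2)) (P.prod P) := by
      have := (integrable_const (1 : ℝ)).sub hint
      refine this.congr (Eventually.of_forall fun q => ?_)
      simp
    rw [integral_sub (integrable_const _) h2, h1]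
    have h3 : ∀ θ, (∫ q, Real.cos (dt θ (Δ q.1 - Δ q.2)) ∂(P.prod P)) = ‖cfr P Δ θ‖ ^ 2 := by
      intro θ
      have := integral_cos_prod_same (P := P) hΔ θ 0
      simpa [dt_zero] using this
    simp_rw [h3]
    have h4 : Integrable (fun θ => ‖cfr P Δ θ‖ ^ 2) ν := by
      have hc := continuous_cfr (P := P) hΔ
      refine (integrable_const (1 : ℝ)).mono' (by fun_prop) (Eventually.of_forall fun θ => ?_)
      have := norm_cfr_le (P := P) Δ θ
      have h0 := norm_nonneg (cfr P Δ θ)
      rw [Real.norm_eq_abs, abs_of_nonneg (sq_nonneg _)]; nlinarith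
    unfold psi
    rw [integral_sub (integrable_const _) h4]
    simp
  -- exists a good ω'
  have hsec : ∃ ω' : Ω, ∫ ω, (1 - Phi ν (Δ ω - Δ ω')) ∂P ≤ ∫ θ, psi P Δ θ ∂ν := by
    rw [← htot, ← integral_prod_swap, integral_prod _ (by
      exact (hint.swap))]
    have := exists_le_integral (μ := P) (f := fun ω' => ∫ ω, (1 - Phi ν (Δ ω - Δ ω')) ∂P)
      (by simpa using hint.swap.integral_prod_left)
    simpa using this
  obtain ⟨ω', hω'⟩ := hsec
  refine ⟨Δ ω', ?_⟩
  have hi1 : Integrable (fun ω => 1 - Phi ν (Δ ω - Δ ω')) P := by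
    refine (integrable_const (2 : ℝ)).mono' ?_ (Eventually.of_forall fun q => ?_)
    · exact (measurable_const.sub (hPm.comp (hΔ.sub measurable_const))).aestronglyMeasurable
    · have h1 := Phi_le_one (ν := ν) (Δ q - Δ ω')
      have h2 : -1 ≤ Phi ν (Δ q - Δ ω') := by
        have := integral_mono (integrable_const (-1 : ℝ)) (integrable_cos (ν := ν) (Δ q - Δ ω'))
          (fun θ => Real.neg_one_le_cos _)
        simpa [Phi] using this
      rw [Real.norm_eq_abs, abs_le]; constructor <;> linarith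
  have hmk := mul_meas_ge_le_integral_of_nonneg (μ := P)
    (f := fun ω => 1 - Phi ν (Δ ω - Δ ω'))
    (Eventually.of_forall fun ω => sub_nonneg.2 (Phi_le_one _)) hi1 (1 / 8)
  have hsub : P.real {ω | Δ ω - Δ ω' ∉ Reg ν} ≤ P.real {ω | 1 / 8 ≤ 1 - Phi ν (Δ ω - Δ ω')} := by
    refine measureReal_mono (fun ω hω => ?_)
    simp only [Reg, Set.mem_ofPred_eq, not_le] at hω ⊢
    linarith
  have : (1 / 8 : ℝ) * P.real {ω | 1 / 8 ≤ 1 - Phi ν (Δ ω - Δ ω')}
      ≤ ∫ θ, psi P Δ θ ∂ν := hmk.trans hω'
  linarith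

end spectral

end Crest.Agent.R154.B4
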