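import Crest.Agent.R154.B4Psi_573

/-! Row 154, B4 route II: renewal of one and of two level processes in functional form (helper573). -/

set_option autoImplicit false
set_option linter.unusedSectionVars false

namespace Crest.Agent.R154.B4

open MeasureTheory ProbabilityTheory Filter
open scoped ENNReal Topology

variable {Ω : Type*} [mΩ : MeasurableSpace Ω] {P : Measure Ω} [IsProbabilityMeasure P]

section one

variable {β : Type*} [MeasurableSpace β]

/-- past and future are independent at a cut level -/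
theorem LP.ren_map (L : LP P) (l : ℕ) {Y : Ω → β} (hY : Measurable[L.F l] Y) :
    (P.restrict (L.C l)).map (fun ω => (Y ω, L.θ l ω))
      = ((P.restrict (L.C l)).map Y).prod P := by
  have hY' : Measurable Y := hY.mono (L.F_le l) le_rfl
  symm
  refine Measure.prod_eq fun s t hs ht => ?_
  rw [Measure.map_apply (hY'.prodMk (L.θ_meas l)) (hs.prod ht), Measure.map_apply hY' hs,
    Measure.restrict_apply (hY' hs),
    Measure.restrict_apply ((hY'.prodMk (L.θ_meas l)) (hs.prod ht))]
  have e : (fun ω => (Y ω, L.θ l ω)) ⁻¹' s ×ˢ t ∩ L.C l = Y ⁻¹' s ∩ L.C l ∩ L.θ l ⁻¹' t := by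
    ext ω
    simp only [Set.mem_inter_iff, Set.mem_preimage, Set.mem_prod]
    tauto
  rw [e]
  exact L.ren l (Y ⁻¹' s) t (hY hs) ht

lemma LP.p_le_one (L : LP P) : L.p ≤ 1 := by
  have h := L.cut 0 Set.univ MeasurableSet.univ
  rw [measure_univ, mul_one] at h
  have h2 := h.trans (prob_le_one (μ := P))
  exact ENNReal.ofReal_le_one.1 h2

/-- domination of the law of the past at a cut level -/
theorem LP.cut_map (L : LP P) (l : ℕ) {Y : Ω → β} (hY : Measurable[L.F l] Y) :
    ENNReal.ofReal L.p • (P.map Y) ≤ (P.restrict (L.C l)).map Y := by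
  have hY' : Measurable Y := hY.mono (L.F_le l) le_rfl
  refine Measure.le_iff.2 fun s hs => ?_
  rw [Measure.smul_apply, Measure.map_apply hY' hs, Measure.map_apply hY' hs,
    Measure.restrict_apply (hY' hs), smul_eq_mul]
  exact L.cut l (Y ⁻¹' s) (hY hs)

end one

section two

variable {β β' : Type*} [MeasurableSpace β] [MeasurableSpace β']

/-- **Restart of a pair** (levels `b` for the first walker and `a` for the second one). -/
theorem LP.pair_restart (L : LP P) (a b : ℕ) {Y : Ω → β} {Y' : Ω → β'}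
    (hY : Measurable[L.F b] Y) (hY' : Measurable[L.F a] Y')
    {A : Set (β × β')} (hA : MeasurableSet A)
    {H : (β × β') → (Ω × Ω) → ℝ≥0∞} (hH : Measurable (Function.uncurry H)) {κ : ℝ≥0∞}
    (hκ : ∀ y ∈ A, κ ≤ ∫⁻ ξ, H y ξ ∂(P.prod P)) :
    κ * (ENNReal.ofReal L.p ^ 2 * (P.prod P) {q | (Y q.1, Y' q.2) ∈ A})
      ≤ ∫⁻ q in {q : Ω × Ω | (Y q.1, Y' q.2) ∈ A ∧ q.1 ∈ L.C b ∧ q.2 ∈ L.C a},
          H (Y q.1, Y' q.2) (L.θ b q.1, L.θ a q.2) ∂(P.prod P) := by
  have hYm : Measurable Y := hY.mono (L.F_le b) le_rfl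
  have hYm' : Measurable Y' := hY'.mono (L.F_le a) le_rfl
  have hCb := L.C_meas b
  have hCa := L.C_meas a
  set m := (P.restrict (L.C b)).map Y with hm
  set m' := (P.restrict (L.C a)).map Y' with hm'
  have hAq : MeasurableSet {q : Ω × Ω | (Y q.1, Y' q.2) ∈ A} :=
    ((hYm.comp measurable_fst).prodMk (hYm'.comp measurable_snd)) hA
  -- rewrite the right side
  have hset : {q : Ω × Ω | (Y q.1, Y' q.2) ∈ A ∧ q.1 ∈ L.C b ∧ q.2 ∈ L.C a}
      = {q | (Y q.1, Y' q.2) ∈ A} ∩ (L.C b ×ˢ L.C a) := by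
    ext q
    simp only [Set.mem_ofPred_eq, Set.mem_inter_iff, Set.mem_prod]
  have h1 : ∫⁻ q in {q : Ω × Ω | (Y q.1, Y' q.2) ∈ A ∧ q.1 ∈ L.C b ∧ q.2 ∈ L.C a},
          H (Y q.1, Y' q.2) (L.θ b q.1, L.θ a q.2) ∂(P.prod P)
      = ∫⁻ q, A.indicator (fun y => H y (L.θ b q.1, L.θ a q.2)) (Y q.1, Y' q.2)
          ∂((P.restrict (L.C b)).prod (P.restrict (L.C a))) := by
    rw [hset, Measure.prod_restrict, ← Measure.restrict_restrict hAq, ← lintegral_indicator hAq]
    refine lintegral_congr fun q => ?_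
    by_cases h : (Y q.1, Y' q.2) ∈ A
    · rw [Set.indicator_of_mem h, Set.indicator_of_mem (show q ∈ {q | (Y q.1, Y' q.2) ∈ A} from h)]
    · rw [Set.indicator_of_notMem h,
        Set.indicator_of_notMem (show q ∉ {q | (Y q.1, Y' q.2) ∈ A} from h)]
  -- as an integral over the joint law
  let G : (β × Ω) × (β' × Ω) → ℝ≥0∞ :=
    fun r => A.indicator (fun y => H y (r.1.2, r.2.2)) (r.1.1, r.2.1)
  have hG : Measurable G := by
    have e : G = fun r : (β × Ω) × (β' × Ω) =>
        ({r : (β × Ω) × (β' × Ω) | (r.1.1, r.2.1) ∈ A}).indicator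
          (fun r => Function.uncurry H ((r.1.1, r.2.1), (r.1.2, r.2.2))) r := by
      funext r
      by_cases h : (r.1.1, r.2.1) ∈ A
      · simp only [G]
        rw [Set.indicator_of_mem h, Set.indicator_of_mem (show r ∈ {r : (β × Ω) × (β' × Ω) |
          (r.1.1, r.2.1) ∈ A} from h)]
        rfl
      · simp only [G]
        rw [Set.indicator_of_notMem h, Set.indicator_of_notMem (show r ∉ {r : (β × Ω) × (β' × Ω) |
          (r.1.1, r.2.1) ∈ A} from h)]
    rw [e]
    refine (hH.comp ?_).indicator ?_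
    · exact (((measurable_fst.comp measurable_fst).prodMk (measurable_fst.comp measurable_snd)).prodMk
        ((measurable_snd.comp measurable_fst).prodMk (measurable_snd.comp measurable_snd)))
    · exact ((measurable_fst.comp measurable_fst).prodMk (measurable_fst.comp measurable_snd)) hA
  have hθb : Measurable fun ω => (Y ω, L.θ b ω) := hYm.prodMk (L.θ_meas b)
  have hθa : Measurable fun ω => (Y' ω, L.θ a ω) := hYm'.prodMk (L.θ_meas a)
  have h2 : ∫⁻ q, A.indicator (fun y => H y (L.θ b q.1, L.θ a q.2)) (Y q.1, Y' q.2)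
          ∂((P.restrict (L.C b)).prod (P.restrict (L.C a)))
      = ∫⁻ r, G r ∂((m.prod P).prod (m'.prod P)) := by
    rw [hm, hm', ← L.ren_map b hY, ← L.ren_map a hY', Measure.map_prod_map _ _ hθb hθa,
      lintegral_map hG (hθb.prodMap hθa)]
    rfl
  have h3 : ∫⁻ r, G r ∂((m.prod P).prod (m'.prod P))
      = ∫⁻ y, ∫⁻ y', (∫⁻ ξ, A.indicator (fun y => H y ξ) (y, y') ∂(P.prod P)) ∂m' ∂m := by
    rw [lintegral_prod _ hG.aemeasurable]
    have hG1 : Measurable fun r : β × Ω => ∫⁻ r', G (r, r') ∂(m'.prod P) :=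
      hG.lintegral_prod_right'
    rw [lintegral_prod _ hG1.aemeasurable]
    refine lintegral_congr fun y => ?_
    have e1 : ∀ ξ : Ω, ∫⁻ r', G ((y, ξ), r') ∂(m'.prod P)
        = ∫⁻ y', ∫⁻ ξ', G ((y, ξ), (y', ξ')) ∂P ∂m' := by
      intro ξ
      exact lintegral_prod _ (hG.comp (measurable_const.prodMk measurable_id)).aemeasurable
    simp_rw [e1]
    have hm3 : Measurable fun s : Ω × β' => ∫⁻ ξ', G ((y, s.1), (s.2, ξ')) ∂P := by
      have : Measurable fun s : (Ω × β') × Ω => G ((y, s.1.1), (s.1.2, s.2)) :=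
        hG.comp ((measurable_const.prodMk (measurable_fst.comp measurable_fst)).prodMk
          ((measurable_snd.comp measurable_fst).prodMk measurable_snd))
      exact this.lintegral_prod_right'
    rw [lintegral_lintegral_swap hm3.aemeasurable]
    refine lintegral_congr fun y' => ?_
    have hm4 : Measurable fun ξ : Ω × Ω => A.indicator (fun y => H y ξ) (y, y') := by
      have : Measurable fun ξ : Ω × Ω => G ((y, ξ.1), (y', ξ.2)) :=
        hG.comp ((measurable_const.prodMk measurable_fst).prodMk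
          (measurable_const.prodMk measurable_snd))
      exact this
    rw [lintegral_prod _ hm4.aemeasurable]
  have h4 : κ * ∫⁻ y, ∫⁻ y', A.indicator 1 (y, y') ∂m' ∂m
      ≤ ∫⁻ y, ∫⁻ y', (∫⁻ ξ, A.indicator (fun y => H y ξ) (y, y') ∂(P.prod P)) ∂m' ∂m := by
    have hAi : Measurable fun q : β × β' => A.indicator (1 : β × β' → ℝ≥0∞) q :=
      measurable_one.indicator hA
    rw [← lintegral_const_mul _ hAi.lintegral_prod_right']
    refine lintegral_mono fun y => ?_
    have hAy : Measurable fun y' : β' => A.indicator (1 : β × β' → ℝ≥0∞) (y, y') :=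
      hAi.comp (measurable_const.prodMk measurable_id)
    rw [← lintegral_const_mul _ hAy]
    refine lintegral_mono fun y' => ?_
    by_cases h : (y, y') ∈ A
    · simp only [Set.indicator_of_mem h, Pi.one_apply, mul_one]
      exact hκ _ h
    · simp only [Set.indicator_of_notMem h, mul_zero, zero_le]
  have h5 : ENNReal.ofReal L.p ^ 2 * (P.prod P) {q | (Y q.1, Y' q.2) ∈ A}
      ≤ ∫⁻ y, ∫⁻ y', A.indicator 1 (y, y') ∂m' ∂m := by
    have hAi : Measurable fun q : β × β' => A.indicator (1 : β × β' → ℝ≥0∞) q :=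
      measurable_one.indicator hA
    have e2 : ∫⁻ y, ∫⁻ y', A.indicator 1 (y, y') ∂m' ∂m = (m.prod m') A := by
      rw [← lintegral_indicator_one hA, lintegral_prod _ hAi.aemeasurable]
    rw [e2]
    have e3 : (P.prod P) {q | (Y q.1, Y' q.2) ∈ A} = ((P.map Y).prod (P.map Y')) A := by
      rw [Measure.map_prod_map _ _ hYm hYm', Measure.map_apply (hYm.prodMap hYm') hA]
      rfl
    rw [e3]
    have e4 : (ENNReal.ofReal L.p • P.map Y).prod (ENNReal.ofReal L.p • P.map Y') ≤ m.prod m' :=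
      Measure.prod_mono (L.cut_map b hY) (L.cut_map a hY')
    have e5 := Measure.le_iff.1 e4 A hA
    refine le_trans (le_of_eq ?_) e5
    rw [Measure.prod_smul_left, Measure.prod_smul_right, Measure.smul_apply, Measure.smul_apply,
      smul_eq_mul, smul_eq_mul, sq, mul_assoc]
  calc κ * (ENNReal.ofReal L.p ^ 2 * (P.prod P) {q | (Y q.1, Y' q.2) ∈ A})
      ≤ κ * ∫⁻ y, ∫⁻ y', A.indicator 1 (y, y') ∂m' ∂m := by gcongr
    _ ≤ _ := h4
    _ = _ := by rw [h1, h2, h3]

end two

end Crest.Agent.R154.B4
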