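import Crest.Agent.R154.B4Soft_23

/-! Row 154, B4 route II, (S), second part: `LP.t1` and `LP.ann`. -/

set_option autoImplicit false

namespace Crest.Agent.R154.B4

open MeasureTheory ProbabilityTheory Filter
open scoped ENNReal Topology

variable {Ω : Type*} [mΩ : MeasurableSpace Ω] {P : Measure Ω}

/-- the unit complex number `exp (i dt θ z)` -/
noncomputable def ex (θ z : V) : ℂ := Complex.exp ((dt θ z : ℝ) * Complex.I)

theorem dt_add (θ y z : V) : dt θ (y + z) = dt θ y + dt θ z := by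
  simp only [dt, Pi.add_apply]; ring

theorem dt_sub (θ y z : V) : dt θ (y - z) = dt θ y - dt θ z := by
  simp only [dt, Pi.sub_apply]; ring

theorem dt_zero (θ : V) : dt θ 0 = 0 := by simp [dt]

theorem abs_dt_le (θ z : V) : |dt θ z| ≤ 2 * ‖θ‖ * ‖z‖ := by
  have h0 : |θ 0 * z 0| ≤ ‖θ‖ * ‖z‖ := by
    rw [abs_mul]
    exact mul_le_mul (norm_le_pi_norm θ 0) (norm_le_pi_norm z 0) (abs_nonneg _) (norm_nonneg _)
  have h1 : |θ 1 * z 1| ≤ ‖θ‖ * ‖z‖ := by
    rw [abs_mul]
    exact mul_le_mul (norm_le_pi_norm θ 1) (norm_le_pi_norm z 1) (abs_nonneg _) (norm_nonneg _)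
  calc |dt θ z| ≤ |θ 0 * z 0| + |θ 1 * z 1| := abs_add_le _ _
    _ ≤ _ := by linarith

theorem ex_add (θ y z : V) : ex θ (y + z) = ex θ y * ex θ z := by
  rw [ex, ex, ex, ← Complex.exp_add, dt_add]
  congr 1; push_cast; ring

theorem ex_zero (θ : V) : ex θ 0 = 1 := by simp [ex, dt_zero]

theorem norm_ex (θ z : V) : ‖ex θ z‖ = 1 := by
  rw [ex]; exact Complex.norm_exp_ofReal_mul_I _

theorem measurable_ex (θ : V) : Measurable (ex θ) := by
  unfold ex dt
  fun_prop

theorem norm_ex_sub_one_le (θ z : V) : ‖ex θ z - 1‖ ≤ 2 * ‖θ‖ * ‖z‖ := by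
  rw [ex]
  have := Real.norm_exp_I_mul_ofReal_sub_one_le (x := dt θ z)
  rw [mul_comm Complex.I] at this
  exact this.trans (abs_dt_le θ z)

theorem norm_ex_sub_one_le_two (θ z : V) : ‖ex θ z - 1‖ ≤ 2 := by
  calc ‖ex θ z - 1‖ ≤ ‖ex θ z‖ + ‖(1 : ℂ)‖ := norm_sub_le _ _
    _ = 2 := by rw [norm_ex]; norm_num

namespace LP

theorem chi_eq (L : LP P) (j : ℕ) (θ : V) : L.chi j θ = ∫ ω, ex θ (L.U j ω) ∂P := rfl

theorem chiInc_eq (L : LP P) (a b : ℕ) (θ : V) :
    L.chiInc a b θ = ∫ ω, ex θ (L.U (a + b) ω - L.U a ω) ∂P := rfl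

theorem integrable_of_norm_le_one [IsProbabilityMeasure P] {f : Ω → ℂ} (hf : Measurable f)
    (h : ∀ ω, ‖f ω‖ ≤ 1) : Integrable f P :=
  Integrable.of_bound hf.aestronglyMeasurable 1 (Filter.Eventually.of_forall h)

theorem norm_chi_le [IsProbabilityMeasure P] (L : LP P) (j : ℕ) (θ : V) : ‖L.chi j θ‖ ≤ 1 := by
  rw [chi_eq]
  calc ‖∫ ω, ex θ (L.U j ω) ∂P‖ ≤ 1 * P.real Set.univ :=
        norm_integral_le_of_norm_le_const (Filter.Eventually.of_forall fun ω => (norm_ex _ _).le)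
    _ = 1 := by simp

theorem PC_pos [IsProbabilityMeasure P] (L : LP P) (l : ℕ) : 0 < P.real (L.C l) := by
  have := L.cut_real l (A := Set.univ) MeasurableSet.univ
  simp only [probReal_univ, mul_one, Set.univ_inter] at this
  exact L.p_pos.trans_le this

theorem PC_ne [IsProbabilityMeasure P] (L : LP P) (l : ℕ) : P (L.C l) ≠ 0 := by
  intro h
  have := L.PC_pos l
  rw [measureReal_def, h] at this
  simp at this

/-- renewal for functions -/
theorem renF [IsProbabilityMeasure P] (L : LP P) (l : ℕ) (f g : Ω → ℂ)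
    (hf : Measurable[L.F l] f) (hg : Measurable g) :
    ∫ ω in L.C l, f ω * g (L.θ l ω) ∂P = (∫ ω in L.C l, f ω ∂P) * ∫ ω, g ω ∂P := by
  set ν : Measure Ω := ProbabilityTheory.cond P (L.C l) with hν
  have hC := L.PC_ne l
  have hCm := L.C_meas l
  haveI : IsProbabilityMeasure ν := ProbabilityTheory.cond_isProbabilityMeasure hC
  have hind : Indep (L.F l) (mΩ.comap (L.θ l)) ν := by
    rw [ProbabilityTheory.Indep_iff]
    rintro A B' hA ⟨B, hB, rfl⟩
    have hA' := L.meas_top hA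
    have hBm : MeasurableSet (L.θ l ⁻¹' B) := L.θ_meas l hB
    rw [hν, ProbabilityTheory.cond_apply hCm, ProbabilityTheory.cond_apply hCm,
      ProbabilityTheory.cond_apply hCm]
    have h1 := L.ren l A B hA hB
    have h2 := L.ren l Set.univ B MeasurableSet.univ hB
    simp only [Set.univ_inter] at h2
    have e1 : L.C l ∩ (A ∩ L.θ l ⁻¹' B) = A ∩ L.C l ∩ L.θ l ⁻¹' B := by
      ext ω; simp only [Set.mem_inter_iff]; tauto
    have e2 : L.C l ∩ A = A ∩ L.C l := Set.inter_comm _ _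
    rw [e1, h1, h2, e2]
    have hc : (P (L.C l))⁻¹ * P (L.C l) = 1 := ENNReal.inv_mul_cancel hC (measure_ne_top _ _)
    calc (P (L.C l))⁻¹ * (P (A ∩ L.C l) * P B)
        = (P (L.C l))⁻¹ * P (A ∩ L.C l) * (1 * P B) := by ring
      _ = (P (L.C l))⁻¹ * P (A ∩ L.C l) * ((P (L.C l))⁻¹ * P (L.C l) * P B) := by rw [hc]
      _ = _ := by ring
  have hindf : IndepFun f (fun ω => g (L.θ l ω)) ν := by
    rw [ProbabilityTheory.IndepFun_iff_Indep]
    refine ProbabilityTheory.indep_of_indep_of_le hind hf.comap_le ?_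
    rw [show (fun ω => g (L.θ l ω)) = g ∘ L.θ l from rfl, ← MeasurableSpace.comap_comp]
    exact MeasurableSpace.comap_mono hg.comap_le
  have hfm : Measurable f := hf.mono (L.F_le l) le_rfl
  have hgm : Measurable (fun ω => g (L.θ l ω)) := hg.comp (L.θ_meas l)
  have key := hindf.integral_fun_mul_eq_mul_integral hfm.aestronglyMeasurable
    hgm.aestronglyMeasurable
  have hcond : ∀ F : Ω → ℂ, ∫ ω, F ω ∂ν = ((P (L.C l))⁻¹).toReal • ∫ ω in L.C l, F ω ∂P := by
    intro F
    rw [hν, ProbabilityTheory.cond, integral_smul_measure]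
  -- law of `θ l` under `ν`
  have hmap : ν.map (L.θ l) = P := by
    ext B hB
    rw [Measure.map_apply (L.θ_meas l) hB, hν, ProbabilityTheory.cond_apply hCm]
    have h2 := L.ren l Set.univ B MeasurableSet.univ hB
    simp only [Set.univ_inter] at h2
    rw [h2, ← mul_assoc, ENNReal.inv_mul_cancel hC (measure_ne_top _ _), one_mul]
  have hgint : ∫ ω, g (L.θ l ω) ∂ν = ∫ ω, g ω ∂P := by
    conv_rhs => rw [← hmap]
    rw [integral_map (L.θ_meas l).aemeasurable hg.aestronglyMeasurable]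
  rw [hgint, hcond, hcond] at key
  have hne : ((P (L.C l))⁻¹).toReal ≠ 0 := by
    rw [ENNReal.toReal_ne_zero]
    exact ⟨ENNReal.inv_ne_zero.2 (measure_ne_top _ _), ENNReal.inv_ne_top.2 hC⟩
  have key2 : ((P (L.C l))⁻¹).toReal • (∫ ω in L.C l, f ω * g (L.θ l ω) ∂P) =
      ((P (L.C l))⁻¹).toReal • ((∫ ω in L.C l, f ω ∂P) * ∫ ω, g ω ∂P) := by
    rw [key, smul_mul_assoc]
  exact smul_right_injective ℂ hne key2

/-! ### first cut level after `a` on a grid of mesh `g` -/

/-- levels `a, a + g, …, a + (i-1) g` are seen not to be cut levels at level `a + i g` -/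
def Fst (L : LP P) (a g i : ℕ) : Set Ω := {ω | ∀ k, k < i → ω ∉ L.D (a + k * g) ((i - k) * g)}

/-- the first cut level on the grid is `a + i g` -/
def J (L : LP P) (a g i : ℕ) : Set Ω := L.Fst a g i ∩ L.C (a + i * g)

theorem meas_Fst (L : LP P) (a g i : ℕ) : MeasurableSet[L.F (a + i * g)] (L.Fst a g i) := by
  have : L.Fst a g i = ⋂ k ∈ Finset.range i, (L.D (a + k * g) ((i - k) * g))ᶜ := by
    ext ω; simp [Fst]
  rw [this]
  refine Finset.measurableSet_biInter _ (m := L.F (a + i * g)) fun k hk => ?_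
  have hk' : k < i := Finset.mem_range.1 hk
  have h := L.D_meas (a + k * g) ((i - k) * g)
  have e : a + k * g + (i - k) * g = a + i * g := by
    have : k * g + (i - k) * g = i * g := by rw [← add_mul]; congr 1; omega
    omega
  rw [e] at h
  exact h.compl

theorem mem_J_iff (L : LP P) (a g i : ℕ) (ω : Ω) :
    ω ∈ L.J a g i ↔ ω ∈ L.C (a + i * g) ∧ ∀ k, k < i → ω ∉ L.C (a + k * g) := by
  constructor
  · rintro ⟨h1, h2⟩
    exact ⟨h2, fun k hk hC => h1 k hk (L.C_sub_D _ _ hC)⟩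
  · rintro ⟨h1, h2⟩
    refine ⟨fun k hk hD => h2 k hk ?_, h1⟩
    have e : a + k * g + (i - k) * g = a + i * g := by
      have : k * g + (i - k) * g = i * g := by rw [← add_mul]; congr 1; omega
      omega
    apply L.D_inter (a + k * g) ((i - k) * g)
    refine ⟨hD, ?_⟩
    rw [e]; exact h1

theorem meas_J (L : LP P) (a g i : ℕ) : MeasurableSet (L.J a g i) :=
  (L.meas_top (L.meas_Fst a g i)).inter (L.C_meas _)

theorem J_disj (L : LP P) (a g : ℕ) {i j : ℕ} (h : i ≠ j) : Disjoint (L.J a g i) (L.J a g j) := by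
  rw [Set.disjoint_left]
  intro ω hi hj
  rw [mem_J_iff] at hi hj
  rcases Nat.lt_or_gt_of_ne h with h | h
  · exact hj.2 i h hi.1
  · exact hi.2 j h hj.1

/-- the first `r` grid levels contain no cut level -/
def NoC (L : LP P) (a g r : ℕ) : Set Ω := {ω | ∀ i, i < r → ω ∉ L.C (a + i * g)}

theorem meas_NoC (L : LP P) (a g r : ℕ) : MeasurableSet (L.NoC a g r) := by
  have : L.NoC a g r = ⋂ k ∈ Finset.range r, (L.C (a + k * g))ᶜ := by
    ext ω; simp [NoC]
  rw [this]
  exact Finset.measurableSet_biInter _ fun k _ => (L.C_meas _).compl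

theorem compl_NoC (L : LP P) (a g r : ℕ) : (L.NoC a g r)ᶜ = ⋃ i ∈ Finset.range r, L.J a g i := by
  classical
  ext ω
  simp only [NoC, Set.mem_compl_iff, Set.mem_iUnion, Finset.mem_range]
  constructor
  · intro h
    have h' : ∃ i, i < r ∧ ω ∈ L.C (a + i * g) := by
      by_contra hc
      apply h
      intro i hi hC
      exact hc ⟨i, hi, hC⟩
    have hex : ∃ i, ω ∈ L.C (a + i * g) := ⟨h'.choose, h'.choose_spec.2⟩
    refine ⟨Nat.find hex, ?_, ?_⟩
    · exact lt_of_le_of_lt (Nat.find_min' hex h'.choose_spec.2) h'.choose_spec.1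
    · rw [mem_J_iff]
      exact ⟨Nat.find_spec hex, fun k hk => Nat.find_min hex hk⟩
  · rintro ⟨i, hi, hJ⟩ h
    rw [mem_J_iff] at hJ
    exact h i hi hJ.1

/-- decomposition of an integral along the first cut level -/
theorem integral_decomp [IsProbabilityMeasure P] (L : LP P) (a g r : ℕ) (f : Ω → ℂ)
    (hf : Integrable f P) :
    ∫ ω, f ω ∂P = (∑ i ∈ Finset.range r, ∫ ω in L.J a g i, f ω ∂P) +
      ∫ ω in L.NoC a g r, f ω ∂P := by
  have h1 := integral_add_compl (L.meas_NoC a g r) hf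
  rw [L.compl_NoC a g r] at h1
  have h2 : ∫ ω in ⋃ i ∈ Finset.range r, L.J a g i, f ω ∂P =
      ∑ i ∈ Finset.range r, ∫ ω in L.J a g i, f ω ∂P := by
    apply integral_biUnion_finset (μ := P) (Finset.range r) (fun i _ => L.meas_J a g i)
    · intro i _ j _ hij
      exact L.J_disj a g hij
    · intro i _
      exact hf.integrableOn
  rw [h2] at h1
  rw [← h1, add_comm]

/-- renewal at the first cut level -/
theorem renJ [IsProbabilityMeasure P] (L : LP P) (a g i : ℕ) (f h : Ω → ℂ)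
    (hf : Measurable[L.F (a + i * g)] f) (hh : Measurable h) :
    ∫ ω in L.J a g i, f ω * h (L.θ (a + i * g) ω) ∂P =
      (∫ ω in L.J a g i, f ω ∂P) * ∫ ω, h ω ∂P := by
  have hA := L.meas_Fst a g i
  have hA' := L.meas_top hA
  have key := L.renF (a + i * g) ((L.Fst a g i).indicator f) h (hf.indicator hA) hh
  have e1 : ∀ F : Ω → ℂ, ∫ ω in L.J a g i, F ω ∂P =
      ∫ ω in L.C (a + i * g), (L.Fst a g i).indicator F ω ∂P := by
    intro F
    rw [integral_indicator hA', Measure.restrict_restrict hA']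
    rfl
  rw [e1, e1, ← key]
  congr 1
  ext ω
  by_cases hω : ω ∈ L.Fst a g i
  · simp [Set.indicator_of_mem hω]
  · simp [Set.indicator_of_notMem hω]

/-! ### (T1) -/

/-- mean distance of the phase of an increment to one -/
noncomputable def kap (L : LP P) (c i : ℕ) (θ : V) : ℝ :=
  ∫ ω, ‖ex θ (L.U (c + i) ω - L.U c ω) - 1‖ ∂P

theorem meas_inc (L : LP P) (a b : ℕ) : Measurable fun ω => L.U a ω - L.U b ω :=
  (L.U_measurable _).sub (L.U_measurable _)

theorem meas_ex_inc (L : LP P) (a b : ℕ) (θ : V) : Measurable fun ω => ex θ (L.U a ω - L.U b ω) :=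
  (measurable_ex θ).comp (L.meas_inc a b)

theorem int_kap [IsProbabilityMeasure P] (L : LP P) (c i : ℕ) (θ : V) :
    Integrable (fun ω => ‖ex θ (L.U (c + i) ω - L.U c ω) - 1‖) P :=
  Integrable.of_bound ((L.meas_ex_inc _ _ θ).sub measurable_const).norm.aestronglyMeasurable 2
    (Filter.Eventually.of_forall fun ω => by
      rw [norm_norm]; exact norm_ex_sub_one_le_two _ _)

theorem kap_le [IsProbabilityMeasure P] (L : LP P) (c i : ℕ) (θ : V) (M : ℝ) (hM : 0 ≤ M) :
    L.kap c i θ ≤ 2 * ‖θ‖ * M + 2 * P.real {ω | M < ‖L.U (c + i) ω - L.U c ω‖} := by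
  have hS : MeasurableSet {ω | M < ‖L.U (c + i) ω - L.U c ω‖} :=
    measurableSet_lt measurable_const (L.meas_inc _ _).norm
  have h1 : ∀ ω, ‖ex θ (L.U (c + i) ω - L.U c ω) - 1‖ ≤
      2 * ‖θ‖ * M + {ω | M < ‖L.U (c + i) ω - L.U c ω‖}.indicator (fun _ => (2 : ℝ)) ω := by
    intro ω
    by_cases h : M < ‖L.U (c + i) ω - L.U c ω‖
    · rw [Set.indicator_of_mem (show ω ∈ {ω | M < ‖L.U (c + i) ω - L.U c ω‖} from h)]
      have := norm_ex_sub_one_le_two θ (L.U (c + i) ω - L.U c ω)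
      have h0 : 0 ≤ 2 * ‖θ‖ * M := by positivity
      linarith
    · rw [Set.indicator_of_notMem (show ω ∉ {ω | M < ‖L.U (c + i) ω - L.U c ω‖} from h), add_zero]
      refine (norm_ex_sub_one_le _ _).trans ?_
      exact mul_le_mul_of_nonneg_left (not_lt.1 h) (by positivity)
  have hint : Integrable (fun ω => 2 * ‖θ‖ * M +
      {ω | M < ‖L.U (c + i) ω - L.U c ω‖}.indicator (fun _ => (2 : ℝ)) ω) P :=
    (integrable_const _).add ((integrable_const _).indicator hS)
  calc L.kap c i θ ≤ ∫ ω, (2 * ‖θ‖ * M +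
      {ω | M < ‖L.U (c + i) ω - L.U c ω‖}.indicator (fun _ => (2 : ℝ)) ω) ∂P :=
        integral_mono (L.int_kap c i θ) hint h1
    _ = _ := by
      rw [integral_add (integrable_const _) ((integrable_const _).indicator hS),
        integral_const, integral_indicator_const _ hS]
      simp only [probReal_univ, smul_eq_mul, one_mul]
      ring

theorem decor [IsProbabilityMeasure P] (L : LP P) (a b r : ℕ) (θ : V) (G : Ω → ℂ)
    (hG : Measurable[L.F a] G) (hG1 : ∀ ω, ‖G ω‖ ≤ 1) :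
    ‖(∫ ω, G ω * ex θ (L.U (a + b) ω - L.U a ω) ∂P) - (∫ ω, G ω ∂P) * L.chi b θ‖ ≤
      2 * P.real (L.NoC a 1 r) +
        ∑ i ∈ Finset.range r, (L.kap a i θ + L.kap (a + b) i θ) := by
  have hGm : Measurable G := hG.mono (L.F_le a) le_rfl
  have hI1 : Integrable (fun ω => G ω * ex θ (L.U (a + b) ω - L.U a ω)) P :=
    integrable_of_norm_le_one (hGm.mul (L.meas_ex_inc _ _ θ)) fun ω => by
      rw [norm_mul, norm_ex, mul_one]; exact hG1 ω
  have hI2 : Integrable G P := integrable_of_norm_le_one hGm hG1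
  rw [L.integral_decomp a 1 r _ hI1, L.integral_decomp a 1 r _ hI2, add_mul, Finset.sum_mul]
  have hterm : ∀ i, ‖(∫ ω in L.J a 1 i, G ω * ex θ (L.U (a + b) ω - L.U a ω) ∂P) -
      (∫ ω in L.J a 1 i, G ω ∂P) * L.chi b θ‖ ≤ L.kap a i θ + L.kap (a + b) i θ := by
    intro i
    have h1 := L.renJ a 1 i G (fun ω => ex θ (L.U b ω))
      (hG.mono (L.F_mono (by omega)) le_rfl) ((measurable_ex θ).comp (L.U_measurable b))
    rw [L.chi_eq b θ, ← h1]
    have e1 : ∀ ω, L.U b (L.θ (a + i * 1) ω) = L.U (a + b + i) ω - L.U (a + i) ω := by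
      intro ω
      have := L.U_add (a + i * 1) b ω
      rw [mul_one] at this ⊢
      rw [show a + b + i = a + i + b by omega, this]
      abel
    simp only [e1]
    have hI3 : Integrable (fun ω => G ω * ex θ (L.U (a + b + i) ω - L.U (a + i) ω)) P :=
      integrable_of_norm_le_one (hGm.mul (L.meas_ex_inc _ _ θ)) fun ω => by
        rw [norm_mul, norm_ex, mul_one]; exact hG1 ω
    rw [← integral_sub hI1.integrableOn hI3.integrableOn]
    have hpt : ∀ ω, ‖G ω * ex θ (L.U (a + b) ω - L.U a ω) -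
        G ω * ex θ (L.U (a + b + i) ω - L.U (a + i) ω)‖ ≤
        ‖ex θ (L.U (a + i) ω - L.U a ω) - 1‖ + ‖ex θ (L.U (a + b + i) ω - L.U (a + b) ω) - 1‖ := by
      intro ω
      rw [← mul_sub, norm_mul]
      refine (mul_le_of_le_one_left (norm_nonneg _) (hG1 ω)).trans ?_
      set x := L.U (a + b) ω - L.U a ω with hx
      set y := L.U (a + b + i) ω - L.U (a + i) ω with hy
      set d1 := L.U (a + b + i) ω - L.U (a + b) ω with hd1
      set d2 := L.U (a + i) ω - L.U a ω with hd2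
      have hxy : y + d2 = x + d1 := by rw [hx, hy, hd1, hd2]; abel
      have h2 : ex θ x - ex θ y = ex θ y * (ex θ d2 - 1) - ex θ x * (ex θ d1 - 1) := by
        have := ex_add θ y d2
        have h' := ex_add θ x d1
        rw [hxy] at this
        rw [mul_sub, mul_sub, ← this, ← h']; ring
      rw [h2]
      refine (norm_sub_le _ _).trans ?_
      rw [norm_mul, norm_mul, norm_ex, norm_ex, one_mul, one_mul]
    calc ‖∫ ω in L.J a 1 i, (G ω * ex θ (L.U (a + b) ω - L.U a ω) -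
        G ω * ex θ (L.U (a + b + i) ω - L.U (a + i) ω)) ∂P‖
        ≤ ∫ ω in L.J a 1 i, ‖G ω * ex θ (L.U (a + b) ω - L.U a ω) -
        G ω * ex θ (L.U (a + b + i) ω - L.U (a + i) ω)‖ ∂P := norm_integral_le_integral_norm _
      _ ≤ ∫ ω, ‖G ω * ex θ (L.U (a + b) ω - L.U a ω) -
        G ω * ex θ (L.U (a + b + i) ω - L.U (a + i) ω)‖ ∂P :=
          setIntegral_le_integral (hI1.sub hI3).norm
            (Filter.Eventually.of_forall fun ω => norm_nonneg _)
      _ ≤ ∫ ω, (‖ex θ (L.U (a + i) ω - L.U a ω) - 1‖ +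
          ‖ex θ (L.U (a + b + i) ω - L.U (a + b) ω) - 1‖) ∂P :=
          integral_mono (hI1.sub hI3).norm ((L.int_kap a i θ).add (L.int_kap (a + b) i θ)) hpt
      _ = _ := integral_add (L.int_kap a i θ) (L.int_kap (a + b) i θ)
  have hno1 : ‖∫ ω in L.NoC a 1 r, G ω * ex θ (L.U (a + b) ω - L.U a ω) ∂P‖ ≤
      P.real (L.NoC a 1 r) := by
    have := norm_setIntegral_le_of_norm_le_const (μ := P) (s := L.NoC a 1 r) (C := 1)
      (f := fun ω => G ω * ex θ (L.U (a + b) ω - L.U a ω)) (measure_lt_top _ _)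
      (fun ω _ => by rw [norm_mul, norm_ex, mul_one]; exact hG1 ω)
    simpa using this
  have hno2 : ‖(∫ ω in L.NoC a 1 r, G ω ∂P) * L.chi b θ‖ ≤ P.real (L.NoC a 1 r) := by
    have := norm_setIntegral_le_of_norm_le_const (μ := P) (s := L.NoC a 1 r) (C := 1)
      (f := G) (measure_lt_top _ _) (fun ω _ => hG1 ω)
    rw [norm_mul]
    calc ‖∫ ω in L.NoC a 1 r, G ω ∂P‖ * ‖L.chi b θ‖ ≤ (1 * P.real (L.NoC a 1 r)) * 1 :=
          mul_le_mul this (L.norm_chi_le b θ) (norm_nonneg _) (by positivity)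
      _ = _ := by ring
  calc _ = ‖(∑ i ∈ Finset.range r, ((∫ ω in L.J a 1 i, G ω * ex θ (L.U (a + b) ω - L.U a ω) ∂P) -
      (∫ ω in L.J a 1 i, G ω ∂P) * L.chi b θ)) +
      ((∫ ω in L.NoC a 1 r, G ω * ex θ (L.U (a + b) ω - L.U a ω) ∂P) -
        (∫ ω in L.NoC a 1 r, G ω ∂P) * L.chi b θ)‖ := by
        congr 1; rw [Finset.sum_sub_distrib]; ring
    _ ≤ (∑ i ∈ Finset.range r, (L.kap a i θ + L.kap (a + b) i θ)) +
        (P.real (L.NoC a 1 r) + P.real (L.NoC a 1 r)) := by
        refine (norm_add_le _ _).trans (add_le_add ?_ ?_)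
        · exact (norm_sum_le _ _).trans (Finset.sum_le_sum fun i _ => hterm i)
        · exact (norm_sub_le _ _).trans (add_le_add hno1 hno2)
    _ = _ := by ring

theorem t1 [IsProbabilityMeasure P] (L : LP P) : L.T1 := by
  intro η hη
  obtain ⟨r, hr, hcut⟩ := L.gridTight 1 one_pos (η / 8) (by positivity)
  have hr' : (0 : ℝ) < r := by exact_mod_cast hr
  choose M hM using fun i => L.t0 i (η / (16 * r)) (by positivity)
  -- a common bound
  obtain ⟨M', hM'0, hM'⟩ : ∃ M' : ℝ, 0 ≤ M' ∧ ∀ i, i < r → M i ≤ M' := by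
    refine ⟨∑ i ∈ Finset.range r, |M i|, by positivity, fun i hi => ?_⟩
    exact (le_abs_self _).trans
      (Finset.single_le_sum (f := fun i => |M i|) (fun _ _ => abs_nonneg _) (Finset.mem_range.2 hi))
  have htail : ∀ i, i < r → ∀ b, P.real {ω | M' < ‖L.U (b + i) ω - L.U b ω‖} ≤ η / (16 * r) := by
    intro i hi b
    refine (measureReal_mono ?_ (measure_ne_top _ _)).trans (hM i b)
    intro ω hω
    exact (hM' i hi).trans_lt hω
  refine ⟨η / (16 * r * (M' + 1)), by positivity, fun a b θ hθ => ?_⟩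
  have hkap : ∀ i, i < r → ∀ c, L.kap c i θ ≤ η / (4 * r) := by
    intro i hi c
    refine (L.kap_le c i θ M' hM'0).trans ?_
    have h1 := htail i hi c
    have h2 : 2 * ‖θ‖ * M' ≤ 2 * (η / (16 * r * (M' + 1))) * (M' + 1) :=
      mul_le_mul (by linarith) (by linarith) hM'0 (by positivity)
    have h3 : 2 * (η / (16 * r * (M' + 1))) * (M' + 1) = η / (8 * r) := by
      field_simp; ring
    have h4 : 2 * (η / (16 * r)) = η / (8 * r) := by field_simp; ring
    have h5 : η / (8 * r) + η / (8 * r) = η / (4 * r) := by field_simp; ring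
    linarith
  have hbound : 2 * P.real (L.NoC a 1 r) +
      ∑ i ∈ Finset.range r, (L.kap a i θ + L.kap (a + b) i θ) ≤ η := by
    have h1 : P.real (L.NoC a 1 r) ≤ η / 8 := hcut a
    have h2 : ∑ i ∈ Finset.range r, (L.kap a i θ + L.kap (a + b) i θ) ≤
        ∑ _i ∈ Finset.range r, (η / (4 * r) + η / (4 * r)) := by
      gcongr with i hi
      · exact hkap i (Finset.mem_range.1 hi) a
      · exact hkap i (Finset.mem_range.1 hi) (a + b)
    have h3 : ∑ _i ∈ Finset.range r, (η / (4 * r) + η / (4 * r)) = η / 2 := by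
      rw [Finset.sum_const, Finset.card_range, nsmul_eq_mul]; field_simp; ring
    linarith
  constructor
  · have h := L.decor a b r θ (fun ω => ex θ (L.U a ω))
      ((measurable_ex θ).comp (L.U_meas a)) (fun ω => (norm_ex _ _).le)
    have e : (fun ω => ex θ (L.U a ω) * ex θ (L.U (a + b) ω - L.U a ω)) =
        fun ω => ex θ (L.U (a + b) ω) := by
      ext ω; rw [← ex_add]; congr 1; abel
    rw [e] at h
    exact h.trans hbound
  · have h := L.decor a b r θ (fun _ => 1) measurable_const (fun ω => by simp)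
    have e : (fun ω => (1 : ℂ) * ex θ (L.U (a + b) ω - L.U a ω)) =
        fun ω => ex θ (L.U (a + b) ω - L.U a ω) := by
      ext ω; rw [one_mul]
    rw [e] at h
    have e2 : (∫ _ω, (1 : ℂ) ∂P) = 1 := by simp
    rw [e2, one_mul] at h
    exact h.trans hbound

end LP

end Crest.Agent.R154.B4
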