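import Mathlib

/-!
Row 154, block B4, part (V) of helper573's text: the deterministic volume lemma.
Author: helper8. Mathlib only.
-/

set_option autoImplicit false
set_option linter.unusedVariables false

open MeasureTheory Set
open scoped Pointwise

namespace Crest.Agent.R154.B4Vol

abbrev V := Fin 2 → ℝ

def Kset (ψ : V → ℝ) (δ v : ℝ) : Set V := {θ | ‖θ‖ ≤ δ ∧ ψ θ ≤ v}

structure Hyp (ψ : V → ℝ) (δ : ℝ) : Prop where
  pos : 0 < δ
  cont : Continuous ψ
  nonneg : ∀ θ, 0 ≤ ψ θ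
  zero : ψ 0 = 0
  even : ∀ θ, ψ (-θ) = ψ θ
  sub : ∀ a b, Real.sqrt (ψ (a + b)) ≤ Real.sqrt (ψ a) + Real.sqrt (ψ b)
  ann : ∀ θ, δ / 2 ≤ ‖θ‖ → ‖θ‖ ≤ δ → 1 / 4 < ψ θ

variable {ψ : V → ℝ} {δ : ℝ}

theorem isClosed_Kset (hc : Continuous ψ) (v : ℝ) : IsClosed (Kset ψ δ v) :=
  (isClosed_le continuous_norm continuous_const).inter (isClosed_le hc continuous_const)

theorem measurableSet_Kset (hc : Continuous ψ) (v : ℝ) : MeasurableSet (Kset ψ δ v) :=
  (isClosed_Kset hc v).measurableSet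

theorem Kset_subset_ball (v : ℝ) : Kset ψ δ v ⊆ Metric.closedBall 0 δ := by
  intro θ h
  simpa [Metric.mem_closedBall, dist_zero_right] using h.1

theorem volume_Kset_lt_top (v : ℝ) : volume (Kset ψ δ v) < ⊤ :=
  lt_of_le_of_lt (measure_mono (Kset_subset_ball v)) measure_closedBall_lt_top

theorem volume_Kset_pos (H : Hyp ψ δ) {v : ℝ} (hv : 0 < v) : 0 < volume (Kset ψ δ v) := by
  have ho : IsOpen ({θ : V | ‖θ‖ < δ} ∩ {θ | ψ θ < v}) :=
    (isOpen_lt continuous_norm continuous_const).inter (isOpen_lt H.cont continuous_const)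
  have hne : ({θ : V | ‖θ‖ < δ} ∩ {θ | ψ θ < v}).Nonempty := by
    refine ⟨0, ?_, ?_⟩
    · simpa using H.pos
    · simpa [H.zero] using hv
  refine lt_of_lt_of_le (ho.measure_pos volume hne) (measure_mono ?_)
  rintro θ ⟨h1, h2⟩
  exact ⟨le_of_lt h1, le_of_lt h2⟩

noncomputable def F (ψ : V → ℝ) (δ v : ℝ) : ℝ := volume.real (Kset ψ δ v)

theorem F_nonneg (v : ℝ) : 0 ≤ F ψ δ v := measureReal_nonneg

theorem F_pos (H : Hyp ψ δ) {v : ℝ} (hv : 0 < v) : 0 < F ψ δ v :=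
  ENNReal.toReal_pos (volume_Kset_pos H hv).ne' (volume_Kset_lt_top v).ne

theorem F_mono {v w : ℝ} (h : v ≤ w) : F ψ δ v ≤ F ψ δ w := by
  refine measureReal_mono ?_ (volume_Kset_lt_top w).ne
  intro θ hθ
  exact ⟨hθ.1, hθ.2.trans h⟩

theorem norm_lt_half (H : Hyp ψ δ) {v : ℝ} (hv : v ≤ 1 / 4) {θ : V} (h : θ ∈ Kset ψ δ v) :
    ‖θ‖ < δ / 2 := by
  by_contra hcon
  have := H.ann θ (not_lt.mp hcon) h.1
  linarith [h.2]

/-- (G2) -/
theorem add_mem (H : Hyp ψ δ) {a b : ℝ} (ha : 0 ≤ a) (hb : 0 ≤ b) (hab : (a + b) ^ 2 ≤ 1 / 4)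
    {x y : V} (hx : x ∈ Kset ψ δ (a ^ 2)) (hy : y ∈ Kset ψ δ (b ^ 2)) :
    x + y ∈ Kset ψ δ ((a + b) ^ 2) := by
  have ha2 : a ^ 2 ≤ 1 / 4 := by nlinarith
  have hb2 : b ^ 2 ≤ 1 / 4 := by nlinarith
  have h1 := norm_lt_half H ha2 hx
  have h2 := norm_lt_half H hb2 hy
  refine ⟨?_, ?_⟩
  · calc ‖x + y‖ ≤ ‖x‖ + ‖y‖ := norm_add_le _ _
      _ ≤ δ := by linarith
  · have hx' : Real.sqrt (ψ x) ≤ a := by
      rw [Real.sqrt_le_left ha]; exact hx.2
    have hy' : Real.sqrt (ψ y) ≤ b := by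
      rw [Real.sqrt_le_left hb]; exact hy.2
    have h3 : Real.sqrt (ψ (x + y)) ≤ a + b := (H.sub x y).trans (add_le_add hx' hy')
    rwa [Real.sqrt_le_left (by positivity)] at h3

theorem neg_mem (H : Hyp ψ δ) {v : ℝ} {x : V} (hx : x ∈ Kset ψ δ v) : -x ∈ Kset ψ δ v :=
  ⟨by simpa using hx.1, by simpa [H.even] using hx.2⟩

/-- (G1) -/
theorem G1 (H : Hyp ψ δ) {v : ℝ} (hv0 : 0 ≤ v) (hv : 4 * v ≤ 1 / 4) :
    4 * F ψ δ v ≤ F ψ δ (4 * v) := by
  have hsub : (2 : ℝ) • Kset ψ δ v ⊆ Kset ψ δ (4 * v) := by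
    rintro _ ⟨x, hx, rfl⟩
    have hs : (Real.sqrt v) ^ 2 = v := Real.sq_sqrt hv0
    have h4 : (Real.sqrt v + Real.sqrt v) ^ 2 = 4 * v := by ring_nf; rw [hs]
    have hx' : x ∈ Kset ψ δ ((Real.sqrt v) ^ 2) := by rwa [hs]
    have := add_mem H (Real.sqrt_nonneg v) (Real.sqrt_nonneg v) (by rw [h4]; exact hv) hx' hx'
    rw [h4] at this
    simpa [two_smul] using this
  have hvol : volume ((2 : ℝ) • Kset ψ δ v) = 4 * volume (Kset ψ δ v) := by
    rw [Measure.addHaar_smul]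
    have : Module.finrank ℝ V = 2 := by simp [V]
    rw [this]
    have h : ENNReal.ofReal |(2 : ℝ) ^ 2| = 4 := by
      norm_num [abs_of_pos]
    rw [h]
  have h := measureReal_mono hsub (volume_Kset_lt_top (4 * v)).ne
  rw [F, F]
  calc 4 * volume.real (Kset ψ δ v) = volume.real ((2 : ℝ) • Kset ψ δ v) := by
        rw [measureReal_def, measureReal_def, hvol, ENNReal.toReal_mul]; norm_num
    _ ≤ _ := h

/-- the uniform law on `K_s` -/
noncomputable def nu (ψ : V → ℝ) (δ s : ℝ) : Measure V :=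
  (volume (Kset ψ δ s))⁻¹ • volume.restrict (Kset ψ δ s)

noncomputable def mus (ψ : V → ℝ) (δ s : ℝ) : Measure V :=
  ((nu ψ δ s).prod (nu ψ δ s)).map (fun p => p.1 + p.2)

theorem nu_prob (H : Hyp ψ δ) {s : ℝ} (hs : 0 < s) : IsProbabilityMeasure (nu ψ δ s) := by
  constructor
  simp only [nu, Measure.smul_apply, Measure.restrict_apply_univ, smul_eq_mul]
  exact ENNReal.inv_mul_cancel (volume_Kset_pos H hs).ne' (volume_Kset_lt_top s).ne

theorem mus_prob (H : Hyp ψ δ) {s : ℝ} (hs : 0 < s) : IsProbabilityMeasure (mus ψ δ s) := by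
  have := nu_prob H hs
  exact Measure.isProbabilityMeasure_map (by fun_prop)

theorem mus_apply (H : Hyp ψ δ) {s : ℝ} (hs : 0 < s) {A : Set V} (hA : MeasurableSet A) :
    mus ψ δ s A = (volume (Kset ψ δ s))⁻¹ * ∫⁻ x in Kset ψ δ s,
      (volume (Kset ψ δ s))⁻¹ * volume ((fun y => x + y) ⁻¹' A ∩ Kset ψ δ s) := by
  have := nu_prob H hs
  rw [mus, Measure.map_apply (by fun_prop) hA, Measure.prod_apply (by
    exact (show Measurable (fun p : V × V => p.1 + p.2) by fun_prop) hA)]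
  rw [nu, lintegral_smul_measure, smul_eq_mul]
  congr 1
  refine lintegral_congr fun x => ?_
  rw [Measure.smul_apply, smul_eq_mul, Measure.restrict_apply]
  · rfl
  · exact (show Measurable (fun y : V => x + y) by fun_prop) hA

theorem mus_le (H : Hyp ψ δ) {s : ℝ} (hs : 0 < s) {A : Set V} (hA : MeasurableSet A) :
    mus ψ δ s A ≤ (volume (Kset ψ δ s))⁻¹ * volume A := by
  rw [mus_apply H hs hA]
  have h0 := (volume_Kset_pos H hs).ne'
  have h1 := (volume_Kset_lt_top (ψ := ψ) (δ := δ) s).ne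
  calc (volume (Kset ψ δ s))⁻¹ * ∫⁻ x in Kset ψ δ s,
      (volume (Kset ψ δ s))⁻¹ * volume ((fun y => x + y) ⁻¹' A ∩ Kset ψ δ s)
      ≤ (volume (Kset ψ δ s))⁻¹ * ∫⁻ x in Kset ψ δ s, (volume (Kset ψ δ s))⁻¹ * volume A := by
        refine mul_le_mul_right (lintegral_mono fun x => mul_le_mul_right ?_ _) _
        calc volume ((fun y => x + y) ⁻¹' A ∩ Kset ψ δ s) ≤ volume ((fun y => x + y) ⁻¹' A) :=
              measure_mono inter_subset_left
          _ = volume A := measure_preimage_add volume x A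
    _ = (volume (Kset ψ δ s))⁻¹ * volume A := by
        rw [lintegral_const, Measure.restrict_apply_univ]
        rw [mul_comm ((volume (Kset ψ δ s))⁻¹ * volume A), ← mul_assoc (volume (Kset ψ δ s)),
          ENNReal.mul_inv_cancel h0 h1, one_mul]

theorem le_mus (H : Hyp ψ δ) {s : ℝ} (hs : 0 < s) (hs1 : s ≤ 1 / 4) {A : Set V}
    (hA : MeasurableSet A) (hAs : A ⊆ Kset ψ δ (s / 16)) :
    (volume (Kset ψ δ s))⁻¹ * ((volume (Kset ψ δ s))⁻¹ * volume A) *
      volume (Kset ψ δ (9 * s / 16)) ≤ mus ψ δ s A := by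
  rw [mus_apply H hs hA]
  have hsq : (Real.sqrt s) ^ 2 = s := Real.sq_sqrt hs.le
  have e1 : (Real.sqrt s / 4) ^ 2 = s / 16 := by rw [div_pow, hsq]; norm_num
  have e2 : (3 * Real.sqrt s / 4) ^ 2 = 9 * s / 16 := by
    rw [div_pow, mul_pow, hsq]; norm_num
  have e3 : (Real.sqrt s / 4 + 3 * Real.sqrt s / 4) ^ 2 = s := by
    rw [show Real.sqrt s / 4 + 3 * Real.sqrt s / 4 = Real.sqrt s by ring, hsq]
  have hsub : Kset ψ δ (9 * s / 16) ⊆ Kset ψ δ s := fun x hx => ⟨hx.1, hx.2.trans (by linarith)⟩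
  calc (volume (Kset ψ δ s))⁻¹ * ((volume (Kset ψ δ s))⁻¹ * volume A) *
      volume (Kset ψ δ (9 * s / 16))
      = (volume (Kset ψ δ s))⁻¹ * ∫⁻ x in Kset ψ δ (9 * s / 16),
        (volume (Kset ψ δ s))⁻¹ * volume A := by
        rw [lintegral_const, Measure.restrict_apply_univ]; ring
    _ ≤ (volume (Kset ψ δ s))⁻¹ * ∫⁻ x in Kset ψ δ (9 * s / 16),
        (volume (Kset ψ δ s))⁻¹ * volume ((fun y => x + y) ⁻¹' A ∩ Kset ψ δ s) := by
        refine mul_le_mul_right (setLIntegral_mono_ae' (measurableSet_Kset H.cont _)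
          (ae_of_all _ fun x hx => mul_le_mul_right ?_ _)) _
        rw [← measure_preimage_add volume x A]
        refine measure_mono fun y hy => ⟨hy, ?_⟩
        have hxy : x + y ∈ Kset ψ δ (s / 16) := hAs hy
        have hnx : -x ∈ Kset ψ δ (9 * s / 16) := neg_mem H hx
        rw [← e1] at hxy
        rw [← e2] at hnx
        have := add_mem H (by positivity) (by positivity) (by rw [e3]; exact hs1) hxy hnx
        rw [e3] at this
        simpa using this
    _ ≤ _ := mul_le_mul_right (lintegral_mono_set hsub) _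

theorem mus_real_le (H : Hyp ψ δ) {s : ℝ} (hs : 0 < s) (v : ℝ) :
    (mus ψ δ s).real (Kset ψ δ v) ≤ F ψ δ v / F ψ δ s := by
  have h := mus_le H hs (measurableSet_Kset (δ := δ) H.cont v)
  have h0 := (volume_Kset_pos H hs).ne'
  have hfin : (volume (Kset ψ δ s))⁻¹ * volume (Kset ψ δ v) ≠ ⊤ :=
    ENNReal.mul_ne_top (ENNReal.inv_ne_top.mpr h0) (volume_Kset_lt_top v).ne
  have h2 := ENNReal.toReal_mono hfin h
  rw [ENNReal.toReal_mul, ENNReal.toReal_inv] at h2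
  rw [div_eq_inv_mul]
  exact h2

theorem le_mus_real (H : Hyp ψ δ) {s : ℝ} (hs : 0 < s) (hs1 : s ≤ 1 / 4) {v : ℝ}
    (hv : v ≤ s / 16) :
    F ψ δ v * F ψ δ (9 * s / 16) / (F ψ δ s) ^ 2 ≤ (mus ψ δ s).real (Kset ψ δ v) := by
  have := mus_prob H hs
  have h := le_mus H hs hs1 (measurableSet_Kset (δ := δ) H.cont v)
    (fun x hx => ⟨hx.1, hx.2.trans hv⟩)
  have h2 := ENNReal.toReal_mono (measure_ne_top _ _) h
  rw [ENNReal.toReal_mul, ENNReal.toReal_mul, ENNReal.toReal_mul, ENNReal.toReal_inv] at h2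
  refine le_trans (le_of_eq ?_) h2
  change F ψ δ v * F ψ δ (9 * s / 16) / (F ψ δ s) ^ 2 =
    (F ψ δ s)⁻¹ * ((F ψ δ s)⁻¹ * F ψ δ v) * F ψ δ (9 * s / 16)
  have hF := (F_pos H hs).ne'
  field_simp

theorem mus_ae (H : Hyp ψ δ) {s : ℝ} (hs : 0 < s) (hs1 : s ≤ 1 / 16) :
    ∀ᵐ θ ∂(mus ψ δ s), ‖θ‖ ≤ δ ∧ ψ θ ≤ 4 * s := by
  have := nu_prob H hs
  have hm : MeasurableSet (Kset ψ δ (4 * s)) := measurableSet_Kset H.cont _
  have h1 : ∀ᵐ p ∂((nu ψ δ s).prod (nu ψ δ s)), p.1 + p.2 ∈ Kset ψ δ (4 * s) := by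
    have hn : ∀ᵐ x ∂(nu ψ δ s), x ∈ Kset ψ δ s := by
      have : ∀ᵐ x ∂(volume.restrict (Kset ψ δ s)), x ∈ Kset ψ δ s :=
        ae_restrict_mem (measurableSet_Kset H.cont s)
      exact Measure.ae_smul_measure this _
    have hsq : (Real.sqrt s) ^ 2 = s := Real.sq_sqrt hs.le
    have h4 : (Real.sqrt s + Real.sqrt s) ^ 2 = 4 * s := by ring_nf; rw [hsq]
    have hp : ∀ᵐ x ∂(nu ψ δ s), ∀ᵐ y ∂(nu ψ δ s), x + y ∈ Kset ψ δ (4 * s) := by
      filter_upwards [hn] with x hx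
      filter_upwards [hn] with y hy
      rw [← hsq] at hx hy
      have := add_mem H (Real.sqrt_nonneg s) (Real.sqrt_nonneg s) (by rw [h4]; linarith) hx hy
      rwa [h4] at this
    have hmm : MeasurableSet {p : V × V | p.1 + p.2 ∈ Kset ψ δ (4 * s)} :=
      (show Measurable (fun p : V × V => p.1 + p.2) by fun_prop) hm
    exact (Measure.ae_prod_iff_ae_ae hmm).mpr hp
  have h2 := (ae_map_iff (μ := (nu ψ δ s).prod (nu ψ δ s)) (f := fun p : V × V => p.1 + p.2)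
    (by fun_prop) hm).mpr h1
  exact h2

/-! ### positivity of the cosine transform -/

def dt (θ z : V) : ℝ := θ 0 * z 0 + θ 1 * z 1

theorem continuous_dt (z : V) : Continuous (fun θ : V => dt θ z) := by
  unfold dt; fun_prop

theorem nu_sin (H : Hyp ψ δ) (s : ℝ) (z : V) : ∫ θ, Real.sin (dt θ z) ∂(nu ψ δ s) = 0 := by
  have hm := measurableSet_Kset (δ := δ) H.cont s
  rw [nu, integral_smul_measure]
  have : ∫ θ in Kset ψ δ s, Real.sin (dt θ z) = 0 := by
    rw [← integral_indicator hm]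
    set f : V → ℝ := (Kset ψ δ s).indicator (fun θ => Real.sin (dt θ z)) with hf
    have h1 : ∀ θ, f (-θ) = - f θ := by
      intro θ
      have hd : dt (-θ) z = - dt θ z := by simp [dt]; ring
      by_cases h : θ ∈ Kset ψ δ s
      · have h' := neg_mem H h
        rw [hf, indicator_of_mem h, indicator_of_mem h', hd, Real.sin_neg]
      · have h' : -θ ∉ Kset ψ δ s := fun h2 => h (by simpa using neg_mem H h2)
        rw [hf, indicator_of_notMem h, indicator_of_notMem h', neg_zero]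
    have h2 := integral_neg_eq_self f (volume : Measure V)
    simp only [h1, integral_neg] at h2
    linarith
  rw [this, smul_zero]

theorem mus_cos (H : Hyp ψ δ) {s : ℝ} (hs : 0 < s) (z : V) :
    0 ≤ ∫ θ, Real.cos (dt θ z) ∂(mus ψ δ s) := by
  have := nu_prob H hs
  have hcd := continuous_dt z
  have hcc : Continuous (fun θ : V => Real.cos (dt θ z)) := Real.continuous_cos.comp hcd
  have hsc : Continuous (fun θ : V => Real.sin (dt θ z)) := Real.continuous_sin.comp hcd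
  have hci : Integrable (fun θ : V => Real.cos (dt θ z)) (nu ψ δ s) :=
    (integrable_const (1 : ℝ)).mono' hcc.aestronglyMeasurable
      (ae_of_all _ fun θ => by simpa using Real.abs_cos_le_one _)
  have hsi : Integrable (fun θ : V => Real.sin (dt θ z)) (nu ψ δ s) :=
    (integrable_const (1 : ℝ)).mono' hsc.aestronglyMeasurable
      (ae_of_all _ fun θ => by simpa using Real.abs_sin_le_one _)
  rw [mus, integral_map (by fun_prop) hcc.aestronglyMeasurable]
  have e : ∀ p : V × V, Real.cos (dt (p.1 + p.2) z) =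
      Real.cos (dt p.1 z) * Real.cos (dt p.2 z) - Real.sin (dt p.1 z) * Real.sin (dt p.2 z) := by
    intro p
    rw [← Real.cos_add]
    congr 1
    simp [dt]; ring
  simp_rw [e]
  rw [integral_sub (hci.mul_prod hci) (hsi.mul_prod hsi),
    integral_prod_mul (fun θ : V => Real.cos (dt θ z)) (fun θ : V => Real.cos (dt θ z)),
    integral_prod_mul (fun θ : V => Real.sin (dt θ z)) (fun θ : V => Real.sin (dt θ z)),
    nu_sin H s z, mul_zero, sub_zero]
  exact mul_self_nonneg _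

/-! ### pointwise inequalities -/

noncomputable def ind (x y : ℝ) : ℝ := if x ≤ y then 1 else 0

theorem ind_nonneg (x y : ℝ) : 0 ≤ ind x y := by unfold ind; split_ifs <;> norm_num

theorem ind_le_one (x y : ℝ) : ind x y ≤ 1 := by unfold ind; split_ifs <;> norm_num

theorem ind_of_le {x y : ℝ} (h : x ≤ y) : ind x y = 1 := if_pos h

theorem ind_of_lt {x y : ℝ} (h : y < x) : ind x y = 0 := if_neg (not_le.mpr h)

noncomputable def cc : ℕ → ℝ
  | 0 => 1
  | (i + 1) => Real.exp (-(4 : ℝ) ^ i)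

theorem cc_nonneg (i : ℕ) : 0 ≤ cc i := by
  cases i with
  | zero => simp [cc]
  | succ i => simp only [cc]; positivity

theorem exp_le_sum {x : ℝ} (hx : 0 ≤ x) (h : ℕ) :
    Real.exp (-x) ≤ ∑ i ∈ Finset.range (h + 1), cc i * ind x (4 ^ i) +
      Real.exp (-(4 : ℝ) ^ h) := by
  induction h with
  | zero =>
    have h1 : Real.exp (-x) ≤ 1 := Real.exp_le_one_iff.mpr (by linarith)
    rcases le_or_gt x 1 with h | h
    · simp only [zero_add, Finset.range_one, Finset.sum_singleton, pow_zero, cc, one_mul]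
      rw [ind_of_le h]
      have := Real.exp_pos (-(1 : ℝ))
      linarith
    · simp only [zero_add, Finset.range_one, Finset.sum_singleton, pow_zero, cc, one_mul]
      rw [ind_of_lt h]
      have : Real.exp (-x) ≤ Real.exp (-1) := Real.exp_le_exp.mpr (by linarith)
      linarith
  | succ h ih =>
    rcases le_or_gt x (4 ^ (h + 1)) with h1 | h1
    · rw [Finset.sum_range_succ, ind_of_le h1]
      have : cc (h + 1) = Real.exp (-(4 : ℝ) ^ h) := rfl
      rw [this]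
      have := Real.exp_pos (-(4 : ℝ) ^ (h + 1))
      linarith
    · have h2 : Real.exp (-x) ≤ Real.exp (-(4 : ℝ) ^ (h + 1)) := Real.exp_le_exp.mpr (by linarith)
      have h3 : 0 ≤ ∑ i ∈ Finset.range (h + 1 + 1), cc i * ind x (4 ^ i) :=
        Finset.sum_nonneg fun i _ => mul_nonneg (cc_nonneg i) (ind_nonneg _ _)
      linarith

theorem cc_sum_le (h : ℕ) :
    ∑ i ∈ Finset.range (h + 1), cc i * 4 ^ i ≤ 12 - 32 / 3 * (1 / 4 ^ h) := by
  induction h with
  | zero => simp [cc]; norm_num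
  | succ h ih =>
    rw [Finset.sum_range_succ]
    have hy : (0 : ℝ) < 4 ^ h := by positivity
    have h1 : cc (h + 1) = Real.exp (-(4 : ℝ) ^ h) := rfl
    have h2 : ((4 : ℝ) ^ h) ^ 2 / 2 ≤ Real.exp ((4 : ℝ) ^ h) := by
      have := Real.pow_div_factorial_le_exp ((4 : ℝ) ^ h) hy.le 2
      simpa using this
    have h3 : cc (h + 1) * 4 ^ (h + 1) ≤ 8 * (1 / 4 ^ h) := by
      rw [h1, Real.exp_neg, pow_succ]
      rw [inv_mul_eq_div, mul_one_div, div_le_div_iff₀ (Real.exp_pos _) hy]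
      nlinarith
    have h4 : (1 : ℝ) / 4 ^ (h + 1) = 1 / 4 * (1 / 4 ^ h) := by
      rw [pow_succ]; field_simp
    rw [h4]
    linarith

noncomputable def gm (x : ℝ) : ℝ := 1 / max 1 x

theorem gm_nonneg (x : ℝ) : 0 ≤ gm x := by
  unfold gm; positivity

theorem gm_le_one (x : ℝ) : gm x ≤ 1 := by
  unfold gm
  rw [div_le_one (by positivity)]
  exact le_max_left _ _

theorem sum_le_gm (x : ℝ) (I : ℕ) :
    ∑ i ∈ Finset.range I, ind x (4 ^ (i + 1)) / 4 ^ (i + 1) + 1 / 3 * (ind x (4 ^ I) / 4 ^ I)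
      ≤ 4 / 3 * gm x := by
  induction I with
  | zero =>
    simp only [Finset.range_zero, Finset.sum_empty, zero_add, pow_zero, div_one]
    rcases le_or_gt x 1 with h | h
    · rw [ind_of_le h, gm, max_eq_left h]; norm_num
    · rw [ind_of_lt h]; have := gm_nonneg x; linarith
  | succ I ih =>
    have hy : (0 : ℝ) < 4 ^ I := by positivity
    have h1 : (1 : ℝ) ≤ 4 ^ I := one_le_pow₀ (by norm_num)
    rcases le_or_gt x (4 ^ I) with h | h
    · have h' : x ≤ 4 ^ (I + 1) := h.trans (by rw [pow_succ]; linarith)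
      rw [Finset.sum_range_succ, ind_of_le h']
      rw [ind_of_le h] at ih
      have e : (1 : ℝ) / 4 ^ (I + 1) = 1 / 4 * (1 / 4 ^ I) := by
        rw [pow_succ]; field_simp
      rw [e]
      linarith
    · have hz : ∑ i ∈ Finset.range I, ind x (4 ^ (i + 1)) / 4 ^ (i + 1) = 0 := by
        refine Finset.sum_eq_zero fun i hi => ?_
        have hi' : i + 1 ≤ I := Finset.mem_range.mp hi
        have : (4 : ℝ) ^ (i + 1) ≤ 4 ^ I := pow_le_pow_right₀ (by norm_num) hi'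
        rw [ind_of_lt (lt_of_le_of_lt this h), zero_div]
      rw [Finset.sum_range_succ, hz, zero_add]
      rcases le_or_gt x (4 ^ (I + 1)) with h2 | h2
      · rw [ind_of_le h2, gm, max_eq_right (by linarith)]
        have hx : 0 < x := by linarith
        have : (1 : ℝ) / 4 ^ (I + 1) ≤ 1 / x := one_div_le_one_div_of_le hx h2
        linarith
      · rw [ind_of_lt h2]; have := gm_nonneg x; simp; exact this

/-! ### expectations under `mus` -/

theorem measurable_ind (hc : Continuous ψ) (K y : ℝ) : Measurable (fun θ => ind (K * ψ θ) y) := by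
  unfold ind
  refine Measurable.ite ?_ measurable_const measurable_const
  exact measurableSet_le (by fun_prop) measurable_const

theorem integrable_ind (H : Hyp ψ δ) {s : ℝ} (hs : 0 < s) (K y : ℝ) :
    Integrable (fun θ => ind (K * ψ θ) y) (mus ψ δ s) := by
  have := mus_prob H hs
  refine (integrable_const (1 : ℝ)).mono' (measurable_ind H.cont K y).aestronglyMeasurable
    (ae_of_all _ fun θ => ?_)
  rw [Real.norm_eq_abs, abs_of_nonneg (ind_nonneg _ _)]
  exact ind_le_one _ _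

theorem int_ind (H : Hyp ψ δ) {s : ℝ} (hs : 0 < s) (hs1 : s ≤ 1 / 16) {K : ℝ} (hK : 0 < K)
    (y : ℝ) :
    ∫ θ, ind (K * ψ θ) y ∂(mus ψ δ s) = (mus ψ δ s).real (Kset ψ δ (y / K)) := by
  have hm := measurableSet_Kset (δ := δ) H.cont (y / K)
  rw [← integral_indicator_one hm]
  refine integral_congr_ae ?_
  filter_upwards [mus_ae H hs hs1] with θ hθ
  by_cases h : K * ψ θ ≤ y
  · have : θ ∈ Kset ψ δ (y / K) := ⟨hθ.1, by rw [le_div_iff₀ hK]; linarith⟩
    rw [indicator_of_mem this, ind, if_pos h]; rfl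
  · have : θ ∉ Kset ψ δ (y / K) := fun hh => h (by
      have := hh.2; rw [le_div_iff₀ hK] at this; linarith)
    rw [indicator_of_notMem this, ind, if_neg h]

theorem integrable_exp (H : Hyp ψ δ) {s : ℝ} (hs : 0 < s) {K : ℝ} (hK : 0 < K) :
    Integrable (fun θ => Real.exp (-(K * ψ θ))) (mus ψ δ s) := by
  have := mus_prob H hs
  have hc := H.cont
  refine (integrable_const (1 : ℝ)).mono' (by fun_prop) (ae_of_all _ fun θ => ?_)
  rw [Real.norm_eq_abs, abs_of_nonneg (Real.exp_pos _).le]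
  exact Real.exp_le_one_iff.mpr (by have := mul_nonneg hK.le (H.nonneg θ); linarith)

theorem integrable_gm (H : Hyp ψ δ) {s : ℝ} (hs : 0 < s) (K : ℝ) :
    Integrable (fun θ => gm (K * ψ θ)) (mus ψ δ s) := by
  have := mus_prob H hs
  have hc := H.cont
  refine (integrable_const (1 : ℝ)).mono' ?_ (ae_of_all _ fun θ => ?_)
  · have : Measurable (fun θ => gm (K * ψ θ)) := by unfold gm; fun_prop
    exact this.aestronglyMeasurable
  · rw [Real.norm_eq_abs, abs_of_nonneg (gm_nonneg _)]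
    exact gm_le_one _

theorem G_mono (H : Hyp ψ δ) {K : ℝ} (hK : 0 < K) {i j : ℕ} (hij : i ≤ j)
    (hj : (4 : ℝ) ^ j / K ≤ 1 / 4) :
    F ψ δ (4 ^ i / K) / 4 ^ i ≤ F ψ δ (4 ^ j / K) / 4 ^ j := by
  induction j, hij using Nat.le_induction with
  | base => exact le_rfl
  | succ j hij ih =>
    have h0 : (0 : ℝ) < 4 ^ j / K := by positivity
    have e : (4 : ℝ) ^ (j + 1) / K = 4 * (4 ^ j / K) := by rw [pow_succ]; ring
    rw [e] at hj ⊢
    refine (ih (by linarith)).trans ?_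
    have := G1 H h0.le hj
    rw [div_le_div_iff₀ (by positivity) (by positivity), pow_succ]
    nlinarith [pow_pos (show (0 : ℝ) < 4 by norm_num) j]

theorem num_le (H : Hyp ψ δ) {s : ℝ} (hs : 0 < s) (hs1 : s ≤ 1 / 16) {K : ℝ} (hK : 0 < K) (h : ℕ)
    (hh : (4 : ℝ) ^ h / K ≤ 1 / 4) :
    ∫ θ, Real.exp (-(K * ψ θ)) ∂(mus ψ δ s) ≤
      12 * (F ψ δ (4 ^ h / K) / 4 ^ h / F ψ δ s) + Real.exp (-(4 : ℝ) ^ h) := by
  have := mus_prob H hs
  have hFs := F_pos H hs
  have hint : ∀ i ∈ Finset.range (h + 1),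
      Integrable (fun θ => cc i * ind (K * ψ θ) (4 ^ i)) (mus ψ δ s) :=
    fun i _ => (integrable_ind H hs K _).const_mul _
  calc ∫ θ, Real.exp (-(K * ψ θ)) ∂(mus ψ δ s)
      ≤ ∫ θ, (∑ i ∈ Finset.range (h + 1), cc i * ind (K * ψ θ) (4 ^ i) +
          Real.exp (-(4 : ℝ) ^ h)) ∂(mus ψ δ s) := by
        refine integral_mono (integrable_exp H hs hK)
          ((integrable_finsetSum _ hint).add (integrable_const _)) fun θ => ?_
        exact exp_le_sum (mul_nonneg hK.le (H.nonneg θ)) h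
    _ = ∑ i ∈ Finset.range (h + 1), cc i * (mus ψ δ s).real (Kset ψ δ (4 ^ i / K)) +
          Real.exp (-(4 : ℝ) ^ h) := by
        rw [integral_add (integrable_finsetSum _ hint) (integrable_const _),
          integral_finsetSum _ hint]
        simp only [integral_const_mul, int_ind H hs hs1 hK, integral_const, probReal_univ,
          one_smul]
    _ ≤ ∑ i ∈ Finset.range (h + 1), cc i * 4 ^ i * (F ψ δ (4 ^ h / K) / 4 ^ h / F ψ δ s) +
          Real.exp (-(4 : ℝ) ^ h) := by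
        refine add_le_add (Finset.sum_le_sum fun i hi => ?_) le_rfl
        rw [mul_assoc]
        refine mul_le_mul_of_nonneg_left ?_ (cc_nonneg i)
        refine (mus_real_le H hs _).trans ?_
        have hG := G_mono H hK (Nat.lt_succ_iff.mp (Finset.mem_range.mp hi)) hh
        rw [← mul_div_assoc]
        refine div_le_div_of_nonneg_right ?_ hFs.le
        rw [div_le_iff₀ (by positivity)] at hG
        linarith
    _ ≤ _ := by
        rw [← Finset.sum_mul]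
        have h1 := cc_sum_le h
        have h2 : (0 : ℝ) ≤ 1 / 4 ^ h := by positivity
        have h3 : 0 ≤ F ψ δ (4 ^ h / K) / 4 ^ h / F ψ δ s :=
          div_nonneg (div_nonneg (F_nonneg _) (by positivity)) hFs.le
        have := mul_le_mul_of_nonneg_right (h1.trans (by linarith : _ ≤ (12 : ℝ))) h3
        linarith

theorem le_den (H : Hyp ψ δ) {s : ℝ} (hs : 0 < s) (hs1 : s ≤ 1 / 16) {K : ℝ} (hK : 0 < K)
    {h I : ℕ} (hhI : h ≤ I) (hI : (4 : ℝ) ^ I / K ≤ s / 16)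
    (hF : F ψ δ s / 32 ≤ F ψ δ (9 * s / 16)) :
    3 / 128 * ((I : ℝ) - h) * (F ψ δ (4 ^ h / K) / 4 ^ h / F ψ δ s) ≤
      ∫ θ, gm (K * ψ θ) ∂(mus ψ δ s) := by
  have := mus_prob H hs
  have hFs := F_pos H hs
  have hint : ∀ i ∈ Finset.range I,
      Integrable (fun θ => ind (K * ψ θ) (4 ^ (i + 1)) / 4 ^ (i + 1)) (mus ψ δ s) :=
    fun i _ => (integrable_ind H hs K _).div_const _
  have h1 : ∑ i ∈ Finset.range I, (mus ψ δ s).real (Kset ψ δ (4 ^ (i + 1) / K)) / 4 ^ (i + 1) ≤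
      4 / 3 * ∫ θ, gm (K * ψ θ) ∂(mus ψ δ s) := by
    rw [← integral_const_mul]
    calc _ = ∫ θ, ∑ i ∈ Finset.range I, ind (K * ψ θ) (4 ^ (i + 1)) / 4 ^ (i + 1)
          ∂(mus ψ δ s) := by
          rw [integral_finsetSum _ hint]
          simp only [integral_div, int_ind H hs hs1 hK]
      _ ≤ _ := by
          refine integral_mono (integrable_finsetSum _ hint)
            ((integrable_gm H hs K).const_mul _) fun θ => ?_
          have h2 := sum_le_gm (K * ψ θ) I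
          have h3 : 0 ≤ 1 / 3 * (ind (K * ψ θ) (4 ^ I) / 4 ^ I) :=
            mul_nonneg (by norm_num) (div_nonneg (ind_nonneg _ _) (by positivity))
          simp only
          linarith
  have h2 : ∑ i ∈ Finset.Ico h I, (1 / 32 * (F ψ δ (4 ^ h / K) / 4 ^ h / F ψ δ s)) ≤
      ∑ i ∈ Finset.range I, (mus ψ δ s).real (Kset ψ δ (4 ^ (i + 1) / K)) / 4 ^ (i + 1) := by
    calc _ ≤ ∑ i ∈ Finset.Ico h I,
          (mus ψ δ s).real (Kset ψ δ (4 ^ (i + 1) / K)) / 4 ^ (i + 1) := by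
          refine Finset.sum_le_sum fun i hi => ?_
          rw [Finset.mem_Ico] at hi
          have hi2 : (4 : ℝ) ^ (i + 1) / K ≤ s / 16 := by
            refine le_trans ?_ hI
            exact div_le_div_of_nonneg_right (pow_le_pow_right₀ (by norm_num) hi.2) hK.le
          have hG := G_mono H hK (show h ≤ i + 1 by omega) (by linarith)
          have hl := le_mus_real H hs (by linarith) hi2
          have hp : (0 : ℝ) < 4 ^ (i + 1) := by positivity
          calc 1 / 32 * (F ψ δ (4 ^ h / K) / 4 ^ h / F ψ δ s)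
              ≤ 1 / 32 * (F ψ δ (4 ^ (i + 1) / K) / 4 ^ (i + 1) / F ψ δ s) := by
                refine mul_le_mul_of_nonneg_left ?_ (by norm_num)
                exact div_le_div_of_nonneg_right hG hFs.le
            _ = F ψ δ (4 ^ (i + 1) / K) * (F ψ δ s / 32) / (F ψ δ s) ^ 2 / 4 ^ (i + 1) := by
                field_simp
            _ ≤ F ψ δ (4 ^ (i + 1) / K) * F ψ δ (9 * s / 16) / (F ψ δ s) ^ 2 / 4 ^ (i + 1) := by
                refine div_le_div_of_nonneg_right (div_le_div_of_nonneg_right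
                  (mul_le_mul_of_nonneg_left hF (F_nonneg _)) (by positivity)) hp.le
            _ ≤ _ := div_le_div_of_nonneg_right hl hp.le
      _ ≤ _ := by
          refine Finset.sum_le_sum_of_subset_of_nonneg ?_ fun i _ _ => ?_
          · intro i hi
            rw [Finset.mem_Ico] at hi
            exact Finset.mem_range.mpr hi.2
          · exact div_nonneg measureReal_nonneg (by positivity)
  rw [Finset.sum_const, Nat.card_Ico, nsmul_eq_mul, Nat.cast_sub hhI] at h2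
  linarith

theorem inv_le_den (H : Hyp ψ δ) {s : ℝ} (hs : 0 < s) (hs1 : s ≤ 1 / 16) {K : ℝ} (hK : 0 < K)
    (h4 : 1 ≤ 4 * s * K) : 1 / (4 * s * K) ≤ ∫ θ, gm (K * ψ θ) ∂(mus ψ δ s) := by
  have := mus_prob H hs
  have e : 1 / (4 * s * K) = ∫ θ, (1 / (4 * s * K)) ∂(mus ψ δ s) := by
    rw [integral_const, probReal_univ, one_smul]
  rw [e]
  refine integral_mono_ae (integrable_const _) (integrable_gm H hs K) ?_
  filter_upwards [mus_ae H hs hs1] with θ hθ
  have h5 : K * ψ θ ≤ 4 * s * K := by nlinarith [hθ.2]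
  exact one_div_le_one_div_of_le (by positivity) (max_le h4 h5)

theorem caseI (H : Hyp ψ δ) {s : ℝ} (hs : 0 < s) (hs1 : s ≤ 1 / 16) {K : ℝ} (hK : 0 < K)
    {h I : ℕ} (hhI : h < I) (hI : (4 : ℝ) ^ I / K ≤ s / 16)
    (hF : F ψ δ s / 32 ≤ F ψ δ (9 * s / 16)) (h4 : 1 ≤ 4 * s * K) {ε : ℝ}
    (hsum : 512 / ((I : ℝ) - h) ≤ ε / 2)
    (hexp : 4 * s * K * Real.exp (-(4 : ℝ) ^ h) ≤ ε / 2) :
    ∫ θ, Real.exp (-(K * ψ θ)) ∂(mus ψ δ s) ≤ ε * ∫ θ, gm (K * ψ θ) ∂(mus ψ δ s) := by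
  have hd1 := le_den H hs hs1 hK hhI.le hI hF
  have hd2 := inv_le_den H hs hs1 hK h4
  have hh : (4 : ℝ) ^ h / K ≤ 1 / 4 := by
    have : (4 : ℝ) ^ h / K ≤ 4 ^ I / K :=
      div_le_div_of_nonneg_right (pow_le_pow_right₀ (by norm_num) hhI.le) hK.le
    linarith
  have hn := num_le H hs hs1 hK h hh
  set D := ∫ θ, gm (K * ψ θ) ∂(mus ψ δ s)
  set N := ∫ θ, Real.exp (-(K * ψ θ)) ∂(mus ψ δ s)
  set g := F ψ δ (4 ^ h / K) / 4 ^ h / F ψ δ s
  set e := Real.exp (-(4 : ℝ) ^ h)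
  have hIh : (0 : ℝ) < (I : ℝ) - h := by
    have : (h : ℝ) < I := by exact_mod_cast hhI
    linarith
  have hD : 0 < D := lt_of_lt_of_le (by positivity) hd2
  have h1 : 12 * g ≤ ε / 2 * D := by
    have : 12 * g ≤ 512 / ((I : ℝ) - h) * D := by
      rw [div_mul_eq_mul_div, le_div_iff₀ hIh]
      nlinarith
    exact this.trans (mul_le_mul_of_nonneg_right hsum hD.le)
  have h2 : e ≤ ε / 2 * D := by
    have h3 : 0 < 4 * s * K := by positivity
    have : e = (4 * s * K * e) * (1 / (4 * s * K)) := by field_simp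
    rw [this]
    have he : 0 < e := Real.exp_pos _
    calc (4 * s * K * e) * (1 / (4 * s * K)) ≤ (4 * s * K * e) * D :=
          mul_le_mul_of_nonneg_left hd2 (by positivity)
      _ ≤ ε / 2 * D := mul_le_mul_of_nonneg_right hexp hD.le
  linarith

theorem iter_F (H : Hyp ψ δ) (c : ℝ) (J : ℕ)
    (hF : ∀ j < J, F ψ δ (9 * ((9 / 16) ^ j * c) / 16) < F ψ δ ((9 / 16) ^ j * c) / 32) :
    F ψ δ ((9 / 16) ^ J * c) ≤ (1 / 32) ^ J * F ψ δ c := by
  induction J with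
  | zero => simp
  | succ J ih =>
    have h1 := ih fun j hj => hF j (by omega)
    have h2 := hF J (by omega)
    have e : (9 / 16 : ℝ) ^ (J + 1) * c = 9 * ((9 / 16) ^ J * c) / 16 := by
      rw [pow_succ]; ring
    rw [e, pow_succ]
    nlinarith

theorem caseII (H : Hyp ψ δ) {c : ℝ} (hc : 0 < c) (hc1 : c ≤ 1 / 16) {K : ℝ} (hK : 0 < K) (J : ℕ)
    {a : ℝ} (ha : a / K = (9 / 16) ^ J * c)
    (hF : ∀ j < J, F ψ δ (9 * ((9 / 16) ^ j * c) / 16) < F ψ δ ((9 / 16) ^ j * c) / 32) :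
    ∫ θ, Real.exp (-(K * ψ θ) / 2) ∂(mus ψ δ c) ≤ (1 / 32) ^ J + Real.exp (-a / 2) := by
  have := mus_prob H hc
  have hcont := H.cont
  have hi : Integrable (fun θ => Real.exp (-(K * ψ θ) / 2)) (mus ψ δ c) := by
    refine (integrable_const (1 : ℝ)).mono' (by fun_prop) (ae_of_all _ fun θ => ?_)
    rw [Real.norm_eq_abs, abs_of_nonneg (Real.exp_pos _).le]
    exact Real.exp_le_one_iff.mpr (by have := mul_nonneg hK.le (H.nonneg θ); linarith)
  calc ∫ θ, Real.exp (-(K * ψ θ) / 2) ∂(mus ψ δ c)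
      ≤ ∫ θ, (ind (K * ψ θ) a + Real.exp (-a / 2)) ∂(mus ψ δ c) := by
        refine integral_mono hi ((integrable_ind H hc K a).add (integrable_const _)) fun θ => ?_
        have h0 := mul_nonneg hK.le (H.nonneg θ)
        have h3 := Real.exp_pos (-a / 2)
        simp only
        rcases le_or_gt (K * ψ θ) a with h | h
        · rw [ind_of_le h]
          have : Real.exp (-(K * ψ θ) / 2) ≤ 1 := Real.exp_le_one_iff.mpr (by linarith)
          linarith
        · rw [ind_of_lt h, zero_add]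
          exact Real.exp_le_exp.mpr (by linarith)
    _ = (mus ψ δ c).real (Kset ψ δ (a / K)) + Real.exp (-a / 2) := by
        rw [integral_add (integrable_ind H hc K a) (integrable_const _), int_ind H hc hc1 hK,
          integral_const, probReal_univ, one_smul]
    _ ≤ _ := by
        refine add_le_add ?_ le_rfl
        refine (mus_real_le H hc _).trans ?_
        rw [ha, div_le_iff₀ (F_pos H hc)]
        exact iter_F H c J hF

/-! ### parameters and the final statement -/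

theorem params_I {ε : ℝ} (hε : 0 < ε) : ∃ T : ℝ, 0 < T ∧ ∀ t : ℝ, T ≤ t → ∃ h I : ℕ, h < I ∧
    (4 : ℝ) ^ I ≤ t / 16 ∧ 512 / ((I : ℝ) - h) ≤ ε / 2 ∧
    4 * t * Real.exp (-(4 : ℝ) ^ h) ≤ ε / 2 := by
  obtain ⟨M, hM⟩ : ∃ M : ℕ, 12288 / ε ≤ M := ⟨⌈12288 / ε⌉₊, Nat.le_ceil _⟩
  have hM0 : M ≠ 0 := by
    rintro rfl
    have : 0 < 12288 / ε := by positivity
    simp at hM
    linarith
  have hMε : 12288 ≤ (M : ℝ) * ε := by rwa [div_le_iff₀ hε] at hM
  refine ⟨16 * 4 ^ (2 * M), by positivity, fun t ht => ?_⟩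
  have hx : (4 : ℝ) ^ (2 * M) ≤ t / 16 := by rw [le_div_iff₀ (by norm_num)]; linarith
  have hx1 : 1 ≤ t / 16 := le_trans (one_le_pow₀ (by norm_num)) hx
  obtain ⟨I, hI1, hI2⟩ := exists_nat_pow_near hx1 (show (1 : ℝ) < 4 by norm_num)
  have hIM : 2 * M < I + 1 := by
    have := lt_of_le_of_lt hx hI2
    exact (pow_lt_pow_iff_right₀ (by norm_num : (1 : ℝ) < 4)).mp this
  have hMh : M ≤ I / 2 := by omega
  have hlt : I / 2 < I := by omega
  refine ⟨I / 2, I, hlt, hI1, ?_, ?_⟩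
  · have h1 : (M : ℝ) ≤ (I : ℝ) - ((I / 2 : ℕ) : ℝ) := by
      have : M + I / 2 ≤ I := by omega
      have : (M : ℝ) + ((I / 2 : ℕ) : ℝ) ≤ I := by exact_mod_cast this
      linarith
    have h2 : (0 : ℝ) < M := by positivity
    rw [div_le_iff₀ (by linarith)]
    nlinarith
  · set h := I / 2 with hh
    set y : ℝ := 4 ^ h with hy
    have hy0 : 0 < y := by positivity
    have h1 : t ≤ 16 * (4 * 4 ^ I) := by
      rw [pow_succ, div_lt_iff₀ (by norm_num)] at hI2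
      linarith
    have h2 : (4 : ℝ) ^ I ≤ 4 * y ^ 2 := by
      have e : 4 * y ^ 2 = 4 ^ (2 * h + 1) := by rw [hy]; ring
      rw [e]
      exact pow_le_pow_right₀ (by norm_num) (by omega)
    have h3 : y ^ 3 / 6 ≤ Real.exp y := by
      have := Real.pow_div_factorial_le_exp y hy0.le 3
      simpa [Nat.factorial] using this
    have h4 : (M : ℝ) ≤ y := by
      have a1 : (h : ℝ) ≤ y := by
        have : h ≤ 4 ^ h := (Nat.lt_pow_self (by norm_num)).le
        have := (Nat.cast_le (α := ℝ)).mpr this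
        simpa [hy] using this
      have a2 : (M : ℝ) ≤ h := by exact_mod_cast hMh
      linarith
    have h5 : t ≤ 256 * y ^ 2 := by linarith
    rw [Real.exp_neg, ← div_eq_mul_inv, div_le_iff₀ (Real.exp_pos _)]
    have h6 : 12288 ≤ y * ε := hMε.trans (mul_le_mul_of_nonneg_right h4 hε.le)
    calc 4 * t ≤ 1024 * y ^ 2 := by linarith
      _ ≤ ε / 2 * (y ^ 3 / 6) := by nlinarith [sq_nonneg y]
      _ ≤ ε / 2 * Real.exp y := mul_le_mul_of_nonneg_left h3 (by positivity)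

theorem exp_neg_two_le : Real.exp (-2) ≤ 1 / 7 := by
  have h := Real.exp_one_gt_d9
  have h2 : Real.exp 2 = Real.exp 1 * Real.exp 1 := by rw [← Real.exp_add]; norm_num
  rw [Real.exp_neg, ← one_div]
  refine one_div_le_one_div_of_le (by norm_num) ?_
  rw [h2]
  nlinarith

theorem params_II {ε : ℝ} (hε : 0 < ε) (T : ℝ) : ∃ J : ℕ, T ≤ J ∧
    (16 * (4 * (J : ℝ) * (16 / 9) ^ J) ^ 2 / ε + 2) * ((1 / 32) ^ J + Real.exp (-(4 * (J : ℝ)) / 2))
      ≤ ε := by
  have h1 : Filter.Tendsto (fun J : ℕ => (J : ℝ) ^ 2 * (256 / 567 : ℝ) ^ J) Filter.atTop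
      (nhds 0) :=
    tendsto_pow_const_mul_const_pow_of_abs_lt_one 2 (by rw [abs_of_pos] <;> norm_num)
  have h2 : Filter.Tendsto (fun J : ℕ => (1 / 7 : ℝ) ^ J) Filter.atTop (nhds 0) :=
    tendsto_pow_atTop_nhds_zero_of_lt_one (by norm_num) (by norm_num)
  have h3 : Filter.Tendsto (fun J : ℕ => 512 / ε * ((J : ℝ) ^ 2 * (256 / 567 : ℝ) ^ J) +
      4 * (1 / 7 : ℝ) ^ J) Filter.atTop (nhds 0) := by
    have := (h1.const_mul (512 / ε)).add (h2.const_mul 4)
    simpa using this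
  have h4 := h3.eventually (gt_mem_nhds hε)
  have h5 : ∀ᶠ J : ℕ in Filter.atTop, T ≤ J :=
    (tendsto_natCast_atTop_atTop (R := ℝ)).eventually (Filter.eventually_ge_atTop T)
  obtain ⟨J, hJ1, hJ2⟩ := (h4.and h5).exists
  refine ⟨J, hJ2, le_trans ?_ hJ1.le⟩
  have e1 : (1 / 32 : ℝ) ^ J ≤ (1 / 7) ^ J := pow_le_pow_left₀ (by norm_num) (by norm_num) J
  have e2 : Real.exp (-(4 * (J : ℝ)) / 2) ≤ (1 / 7) ^ J := by
    have : Real.exp (-(4 * (J : ℝ)) / 2) = Real.exp (-2) ^ J := by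
      rw [← Real.exp_nat_mul]; congr 1; ring
    rw [this]
    exact pow_le_pow_left₀ (Real.exp_pos _).le exp_neg_two_le J
  have e3 : 16 * (4 * (J : ℝ) * (16 / 9) ^ J) ^ 2 / ε + 2 =
      256 / ε * ((J : ℝ) ^ 2 * (256 / 81) ^ J) + 2 := by
    have : ((16 / 9 : ℝ) ^ J) ^ 2 = (256 / 81) ^ J := by
      rw [← pow_mul, mul_comm J 2, pow_mul]; norm_num
    rw [mul_pow, mul_pow, this]; ring
  have e4 : (256 / 81 : ℝ) ^ J * (1 / 7) ^ J = (256 / 567) ^ J := by
    rw [← mul_pow]; norm_num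
  calc (16 * (4 * (J : ℝ) * (16 / 9) ^ J) ^ 2 / ε + 2) *
        ((1 / 32) ^ J + Real.exp (-(4 * (J : ℝ)) / 2))
      ≤ (16 * (4 * (J : ℝ) * (16 / 9) ^ J) ^ 2 / ε + 2) * ((1 / 7) ^ J + (1 / 7) ^ J) :=
        mul_le_mul_of_nonneg_left (add_le_add e1 e2) (by positivity)
    _ = 512 / ε * ((J : ℝ) ^ 2 * ((256 / 81) ^ J * (1 / 7) ^ J)) + 4 * (1 / 7) ^ J := by
        rw [e3]; ring
    _ = _ := by rw [e4]

/-- (V): the deterministic volume lemma. `K` is as large as we want. -/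
theorem volume_lemma {ε : ℝ} (hε : 0 < ε) (K₀ : ℕ) : ∃ K : ℕ, 1 ≤ K ∧ K₀ ≤ K ∧ ∃ A : ℝ,
    ∀ (ψ : V → ℝ) (δ : ℝ), 0 < δ → Continuous ψ → (∀ θ, 0 ≤ ψ θ) → ψ 0 = 0 →
      (∀ θ, ψ (-θ) = ψ θ) →
      (∀ a b, Real.sqrt (ψ (a + b)) ≤ Real.sqrt (ψ a) + Real.sqrt (ψ b)) →
      (∀ θ, δ / 2 ≤ ‖θ‖ → ‖θ‖ ≤ δ → 1 / 4 < ψ θ) →
      ∃ (μ : Measure V) (sg : ℝ), IsProbabilityMeasure μ ∧ 0 < sg ∧ 1 ≤ K * sg ∧ sg ≤ A / K ∧
        K * sg ^ 2 ≤ ε ∧ (∀ᵐ θ ∂μ, ‖θ‖ ≤ δ ∧ ψ θ ≤ sg) ∧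
        (∀ z, 0 ≤ ∫ θ, Real.cos (dt θ z) ∂μ) ∧
        ((∫ θ, Real.exp (-(K * ψ θ)) ∂μ ≤ ε * ∫ θ, 1 / max 1 (K * ψ θ) ∂μ) ∨
          K * ∫ θ, Real.exp (-(K * ψ θ) / 2) ∂μ ≤ ε) := by
  obtain ⟨T, hT0, hT⟩ := params_I hε
  obtain ⟨J, hJT, hJ⟩ := params_II hε (T + ε + K₀ + 1)
  set b : ℝ := 4 * (J : ℝ) * (16 / 9) ^ J with hb
  have hK0 : (0 : ℝ) ≤ K₀ := by positivity
  have hJ1 : (1 : ℝ) ≤ J := by linarith
  have hp1 : (1 : ℝ) ≤ (16 / 9 : ℝ) ^ J := one_le_pow₀ (by norm_num)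
  have hbJ : 4 * (J : ℝ) ≤ b := by
    rw [hb]; nlinarith
  have hb0 : 0 < b := by linarith
  set K : ℕ := ⌈16 * b ^ 2 / ε⌉₊ + 1 with hK
  have hKR : (K : ℝ) = (⌈16 * b ^ 2 / ε⌉₊ : ℝ) + 1 := by rw [hK]; push_cast; ring
  have hK1 : 16 * b ^ 2 / ε ≤ K := by
    rw [hKR]; have := Nat.le_ceil (16 * b ^ 2 / ε); linarith
  have hK2 : (K : ℝ) ≤ 16 * b ^ 2 / ε + 2 := by
    rw [hKR]
    have := Nat.ceil_lt_add_one (show 0 ≤ 16 * b ^ 2 / ε by positivity)
    linarith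
  have hKpos : (0 : ℝ) < K := lt_of_lt_of_le (by positivity) hK1
  have hK3 : 16 * b ≤ K := by
    refine le_trans ?_ hK1
    rw [le_div_iff₀ hε]
    have : ε ≤ b := by linarith
    nlinarith
  have hbK : b / K ≤ 1 / 16 := by
    rw [div_le_iff₀ hKpos]; linarith
  have hbK0 : 0 < b / K := by positivity
  have hKb2 : 16 * b ^ 2 ≤ K * ε := by rwa [div_le_iff₀ hε] at hK1
  refine ⟨K, by omega, ?_, 4 * b, ?_⟩
  · have : (K₀ : ℝ) ≤ K := by linarith
    exact_mod_cast this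
  intro ψ δ h1 h2 h3 h4 h5 h6 h7
  have H : Hyp ψ δ := ⟨h1, h2, h3, h4, h5, h6, h7⟩
  have hKsg : ∀ s : ℝ, 0 < s → s ≤ b / K → (K : ℝ) * (4 * s) ^ 2 ≤ ε := by
    intro s hs hsb
    have e1 : K * s ≤ b := by rw [le_div_iff₀ hKpos] at hsb; linarith
    have e2 : (K * s) ^ 2 ≤ b ^ 2 := pow_le_pow_left₀ (by positivity) e1 2
    have e3 : K * (K * (4 * s) ^ 2) ≤ K * ε := by nlinarith
    exact le_of_mul_le_mul_left e3 hKpos
  by_cases hex : ∃ j < J, F ψ δ ((9 / 16) ^ j * (b / K)) / 32 ≤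
      F ψ δ (9 * ((9 / 16) ^ j * (b / K)) / 16)
  · obtain ⟨j, hj, hF⟩ := hex
    set s : ℝ := (9 / 16) ^ j * (b / K) with hs
    have hs0 : 0 < s := by positivity
    have hle : (9 / 16 : ℝ) ^ j ≤ 1 := pow_le_one₀ (by norm_num) (by norm_num)
    have hsb : s ≤ b / K := by rw [hs]; nlinarith
    have hs1 : s ≤ 1 / 16 := hsb.trans hbK
    have hsK : s * K = (9 / 16) ^ j * b := by rw [hs]; field_simp
    have hsK2 : 4 * (J : ℝ) ≤ s * K := by
      rw [hsK, hb]
      have e1 : (9 / 16 : ℝ) ^ J ≤ (9 / 16) ^ j :=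
        pow_le_pow_of_le_one (by norm_num) (by norm_num) hj.le
      have e2 : (9 / 16 : ℝ) ^ J * (16 / 9) ^ J = 1 := by rw [← mul_pow]; norm_num
      have e3 : (1 : ℝ) ≤ (9 / 16 : ℝ) ^ j * (16 / 9) ^ J := by
        rw [← e2]; exact mul_le_mul_of_nonneg_right e1 (by positivity)
      nlinarith
    obtain ⟨h, I, hhI, hI, hsum, hexp⟩ := hT (s * K) (by linarith)
    refine ⟨mus ψ δ s, 4 * s, mus_prob H hs0, by positivity, ?_, ?_, hKsg s hs0 hsb,
      mus_ae H hs0 hs1, mus_cos H hs0, Or.inl ?_⟩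
    · nlinarith
    · rw [le_div_iff₀ hKpos] at hsb ⊢; linarith
    · refine caseI H hs0 hs1 hKpos hhI ?_ hF ?_ hsum ?_
      · rw [div_le_iff₀ hKpos]; linarith
      · linarith
      · rw [mul_assoc 4 s]; exact hexp
  · push Not at hex
    have hc := caseII H hbK0 hbK hKpos J (a := 4 * (J : ℝ)) (by
      rw [hb]
      have e2 : (9 / 16 : ℝ) ^ J * (16 / 9) ^ J = 1 := by rw [← mul_pow]; norm_num
      calc 4 * (J : ℝ) / K = 4 * (J : ℝ) * ((9 / 16 : ℝ) ^ J * (16 / 9) ^ J) / K := by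
            rw [e2, mul_one]
        _ = _ := by ring) hex
    refine ⟨mus ψ δ (b / K), 4 * (b / K), mus_prob H hbK0, by positivity, ?_, ?_,
      hKsg _ hbK0 le_rfl, mus_ae H hbK0 hbK, mus_cos H hbK0, Or.inr ?_⟩
    · have : (K : ℝ) * (4 * (b / K)) = 4 * b := by field_simp
      rw [this]; linarith
    · exact le_of_eq (by ring)
    · calc (K : ℝ) * ∫ θ, Real.exp (-(K * ψ θ) / 2) ∂(mus ψ δ (b / K))
          ≤ K * ((1 / 32) ^ J + Real.exp (-(4 * (J : ℝ)) / 2)) :=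
            mul_le_mul_of_nonneg_left hc hKpos.le
        _ ≤ (16 * b ^ 2 / ε + 2) * ((1 / 32) ^ J + Real.exp (-(4 * (J : ℝ)) / 2)) :=
            mul_le_mul_of_nonneg_right hK2 (by positivity)
        _ ≤ ε := hJ

end Crest.Agent.R154.B4Vol
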