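import Crest.Agent.R154.B5Rec_566

/-! Row 154, block B5 (helper181): `abs_main` of 566 with the FIRST-contact form of the hypothesis `hK`
(no contact at depth `≤ m`, some contact at depth in `(m, 2m]`). -/

set_option autoImplicit false

namespace Crest.Agent.R154.B5A

open scoped ENNReal

variable {B W : Type*} (Λ : B → ℝ≥0∞) (ht : B → ℕ) (dl : B → W → W) (cd : W → B → Set ℕ)

open Classical in
/-- weight of the crossings of height `n` whose first contact has depth in `(m, 2m]` -/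
noncomputable def Kap1 (n m : ℕ) (w : W) : ℝ≥0∞ :=
  ∑' L : List B, if HT ht L = n ∧ (∀ k ∈ CD ht dl cd L w, m < k) ∧ ∃ k ∈ CD ht dl cd L w, k ≤ 2 * m
    then LW Λ L else 0

open Classical in
/-- first contact in a block with index in `(j, 3j]` -/
noncomputable def Kb1 (j : ℕ) (w : W) : ℝ≥0∞ :=
  SL Λ j (fun L1 => SL Λ (2 * j) (fun L2 =>
    if CD ht dl cd L1 w = ∅ ∧ CD ht dl cd L2 (act dl L1 w) ≠ ∅ then 1 else 0))

open Classical in
lemma win_le1 (hcd : ∀ w b k, k ∈ cd w b → 1 ≤ k ∧ k ≤ ht b)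
    (c : ℝ≥0∞) (hc : c ≠ 0) (hc' : c ≠ ⊤) (R : ℕ)
    (hU : ∀ n, R ≤ n → c ≤ U Λ ht n) (J n m : ℕ) (w : W) :
    SL Λ J (fun L => if HT ht L ≤ n ∧ (∀ k ∈ CD ht dl cd L w, m < k) ∧
        ∃ k ∈ CD ht dl cd L w, k ≤ 2 * m then 1 else 0)
      ≤ c⁻¹ * Kap1 Λ ht dl cd (n + R) m w := by
  set g : List B → ℝ≥0∞ := fun L =>
    if HT ht L = n + R ∧ (∀ k ∈ CD ht dl cd L w, m < k) ∧ ∃ k ∈ CD ht dl cd L w, k ≤ 2 * m
      then LW Λ L else 0 with hg
  have h1 : ∀ L : List B, (if L.length = J then LW Λ L *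
      (if HT ht L ≤ n ∧ (∀ k ∈ CD ht dl cd L w, m < k) ∧ ∃ k ∈ CD ht dl cd L w, k ≤ 2 * m
        then 1 else 0) else 0)
      ≤ c⁻¹ * (if L.length = J then ∑' L', g (L ++ L') else 0) := by
    intro L
    by_cases hL : L.length = J
    · rw [if_pos hL, if_pos hL]
      by_cases hcond : HT ht L ≤ n ∧ (∀ k ∈ CD ht dl cd L w, m < k) ∧
          ∃ k ∈ CD ht dl cd L w, k ≤ 2 * m
      · rw [if_pos hcond, mul_one]
        have h2 : ∑' L', g (L ++ L') = LW Λ L * U Λ ht (n + R - HT ht L) := by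
          rw [U, ← ENNReal.tsum_mul_left]
          refine tsum_congr fun L' => ?_
          obtain ⟨hn, hall, k, hk, hk2⟩ := hcond
          have hkL := CD_pos ht dl cd hcd L _ _ hk
          have hk' : ∃ k ∈ CD ht dl cd (L ++ L') w, k ≤ 2 * m :=
            ⟨k, by rw [CD_append]; exact Or.inl hk, hk2⟩
          have hall' : ∀ k ∈ CD ht dl cd (L ++ L') w, m < k := by
            intro k1 hk1
            rw [CD_append] at hk1
            rcases hk1 with hk1 | ⟨k2, _, hk2'⟩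
            · exact hall k1 hk1
            · have := hall k hk
              simp only at hk2'
              omega
          simp only [hg, HT_append, LW_append]
          by_cases hh : HT ht L' = n + R - HT ht L
          · rw [if_pos ⟨by omega, hall', hk'⟩, if_pos hh]
          · rw [if_neg (fun h => hh (by omega)), if_neg hh, mul_zero]
        rw [h2]
        have h3 : c ≤ U Λ ht (n + R - HT ht L) := hU _ (by have := hcond.1; omega)
        calc LW Λ L = c⁻¹ * (LW Λ L * c) := by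
              rw [mul_comm (LW Λ L), ← mul_assoc, ENNReal.inv_mul_cancel hc hc', one_mul]
          _ ≤ _ := mul_le_mul_right (mul_le_mul_right h3 _) _
      · rw [if_neg hcond, mul_zero]; exact zero_le
    · rw [if_neg hL, if_neg hL]; simp
  calc _ ≤ ∑' L : List B, c⁻¹ * (if L.length = J then ∑' L', g (L ++ L') else 0) :=
        ENNReal.tsum_le_tsum h1
    _ = c⁻¹ * ∑' L : List B, (if L.length = J then ∑' L', g (L ++ L') else 0) :=
        ENNReal.tsum_mul_left
    _ ≤ c⁻¹ * ∑' L, g L := mul_le_mul_right (tsum_append_le J g) _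

open Classical in
lemma Kb_le1 (h1 : ∀ b, 1 ≤ ht b) (hcd : ∀ w b k, k ∈ cd w b → 1 ≤ k ∧ k ≤ ht b)
    (c : ℝ≥0∞) (hc : c ≠ 0) (hc' : c ≠ ⊤) (R : ℕ)
    (hU : ∀ n, R ≤ n → c ≤ U Λ ht n) (j r : ℕ) (w : W) :
    Kb1 Λ ht dl cd j w ≤ SL Λ (3 * j) (fun L => if 2 ^ r * j < HT ht L then 1 else 0)
      + ∑ s ∈ Finset.range r, c⁻¹ * Kap1 Λ ht dl cd (2 ^ r * j + R) (2 ^ s * j) w := by
  set n := 2 ^ r * j with hn
  set ψ : List B → ℝ≥0∞ := fun L => (if n < HT ht L then 1 else 0)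
    + ∑ s ∈ Finset.range r,
      (if HT ht L ≤ n ∧ (∀ k ∈ CD ht dl cd L w, 2 ^ s * j < k) ∧
        ∃ k ∈ CD ht dl cd L w, k ≤ 2 * (2 ^ s * j) then 1 else 0)
    with hψ
  have step1 : Kb1 Λ ht dl cd j w ≤ SL Λ (3 * j) ψ := by
    rw [show 3 * j = j + 2 * j by ring, SL_add, Kb1]
    refine SL_mono Λ j fun L1 hL1 => SL_mono Λ (2 * j) fun L2 _ => ?_
    by_cases he : CD ht dl cd L1 w = ∅ ∧ CD ht dl cd L2 (act dl L1 w) ≠ ∅
    · rw [if_pos he]
      by_cases hh : n < HT ht (L1 ++ L2)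
      · simp only [hψ, hh, if_true]; exact le_self_add
      · obtain ⟨he1, he2⟩ := he
        obtain ⟨k', hk'⟩ := Set.nonempty_iff_ne_empty.2 he2
        have hk : HT ht L1 + k' ∈ CD ht dl cd (L1 ++ L2) w := by
          rw [CD_append]; exact Or.inr ⟨k', hk', rfl⟩
        have hne : (CD ht dl cd (L1 ++ L2) w).Nonempty := ⟨_, hk⟩
        set k0 := sInf (CD ht dl cd (L1 ++ L2) w) with hk0
        have hk0m : k0 ∈ CD ht dl cd (L1 ++ L2) w := Nat.sInf_mem hne
        have hmin : ∀ k ∈ CD ht dl cd (L1 ++ L2) w, k0 ≤ k := fun k hk => Nat.sInf_le hk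
        have hbig : j < k0 := by
          have h3 := hk0m
          rw [CD_append, he1, Set.empty_union] at h3
          obtain ⟨k2, hk2, hk2'⟩ := h3
          have := CD_pos ht dl cd hcd L2 _ _ hk2
          have hl := length_le_HT ht h1 L1
          simp only at hk2'
          omega
        have hk2 := CD_pos ht dl cd hcd _ _ _ hk0m
        obtain ⟨s, hs, hs1, hs2⟩ := exists_dyadic j k0 r hbig (by omega)
        change (1 : ℝ≥0∞) ≤ (if n < HT ht (L1 ++ L2) then 1 else 0) + _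
        rw [if_neg hh, zero_add]
        refine le_trans ?_ (Finset.single_le_sum (f := fun s => (if HT ht (L1 ++ L2) ≤ n ∧
          (∀ k ∈ CD ht dl cd (L1 ++ L2) w, 2 ^ s * j < k) ∧
          ∃ k ∈ CD ht dl cd (L1 ++ L2) w, k ≤ 2 * (2 ^ s * j)
          then (1 : ℝ≥0∞) else 0)) (fun _ _ => zero_le) hs)
        rw [if_pos ⟨by omega, fun k hk => lt_of_lt_of_le hs1 (hmin k hk), _, hk0m, hs2⟩]
    · rw [if_neg he]; exact zero_le
  refine step1.trans ?_
  rw [hψ, SL_add_fun Λ (3 * j) (fun L => if n < HT ht L then 1 else 0)]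
  refine add_le_add le_rfl ?_
  have step2 : SL Λ (3 * j) (fun L => ∑ s ∈ Finset.range r,
      (if HT ht L ≤ n ∧ (∀ k ∈ CD ht dl cd L w, 2 ^ s * j < k) ∧
        ∃ k ∈ CD ht dl cd L w, k ≤ 2 * (2 ^ s * j)
        then (1 : ℝ≥0∞) else 0))
      = ∑ s ∈ Finset.range r, SL Λ (3 * j) (fun L =>
      (if HT ht L ≤ n ∧ (∀ k ∈ CD ht dl cd L w, 2 ^ s * j < k) ∧
        ∃ k ∈ CD ht dl cd L w, k ≤ 2 * (2 ^ s * j)
        then (1 : ℝ≥0∞) else 0)) := by
    induction (Finset.range r) using Finset.induction_on with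
    | empty =>
      simp only [Finset.sum_empty]
      simpa using SL_const_mul Λ (3 * j) 0 (fun _ => 0)
    | insert a s ha ih =>
      simp only [Finset.sum_insert ha]
      rw [SL_add_fun, ih]
  rw [step2]
  exact Finset.sum_le_sum fun s _ => win_le1 Λ ht dl cd hcd c hc hc' R hU _ _ _ _

/-- the exact recursion, first-contact form -/
lemma G_rec1 (hΛ : ∑' b, Λ b = 1) (j : ℕ) (κ : ℝ≥0∞)
    (hκ : ∀ w, Kb1 Λ ht dl cd j w ≤ κ) (w : W) :
    G Λ ht dl cd (2 * j) w ≤ G Λ ht dl cd (4 * j) w + κ * G Λ ht dl cd j w := by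
  classical
  set nc : List B → W → Prop := fun L w => CD ht dl cd L w = ∅ with hnc
  have e1 : G Λ ht dl cd (2 * j) w
      = SL Λ (2 * j) (fun L => SL Λ (2 * j) (fun _ => if nc L w then (1 : ℝ≥0∞) else 0)) := by
    rw [G]
    exact SL_congr Λ _ fun L _ => (SL_const Λ hΛ _ _).symm
  have e2 : G Λ ht dl cd (4 * j) w
      = SL Λ (2 * j) (fun L => SL Λ (2 * j) (fun L' =>
        if nc (L ++ L') w then (1 : ℝ≥0∞) else 0)) := by
    rw [G, show 4 * j = 2 * j + 2 * j by ring, SL_add]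
  have e3 : SL Λ (2 * j) (fun L => SL Λ (2 * j) (fun L' =>
      (if nc L w then (1 : ℝ≥0∞) else 0) * (if nc L' (act dl L w) then 0 else 1)))
      ≤ κ * G Λ ht dl cd j w := by
    rw [show SL Λ (2 * j) (fun L => SL Λ (2 * j) (fun L' =>
      (if nc L w then (1 : ℝ≥0∞) else 0) * (if nc L' (act dl L w) then 0 else 1)))
      = SL Λ (j + j) (fun L => SL Λ (2 * j) (fun L' =>
      (if nc L w then (1 : ℝ≥0∞) else 0) * (if nc L' (act dl L w) then 0 else 1))) by
        rw [two_mul], SL_add, G, ← SL_const_mul]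
    refine SL_mono Λ j fun L1 _ => ?_
    calc SL Λ j (fun L => SL Λ (2 * j) (fun L' =>
          (if nc (L1 ++ L) w then (1 : ℝ≥0∞) else 0)
            * (if nc L' (act dl (L1 ++ L) w) then 0 else 1)))
        ≤ SL Λ j (fun L => (if nc L1 w then (1 : ℝ≥0∞) else 0) * SL Λ (2 * j) (fun L' =>
            (if nc L (act dl L1 w) ∧ ¬ nc L' (act dl L (act dl L1 w)) then 1 else 0))) := by
          refine SL_mono Λ j fun L _ => ?_
          rw [← SL_const_mul]
          refine SL_mono Λ (2 * j) fun L' _ => ?_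
          rw [act_append]
          by_cases h : nc (L1 ++ L) w
          · have h' := h
            simp only [hnc] at h'
            rw [CD_append, Set.union_empty_iff, Set.image_eq_empty] at h'
            have ha : nc L1 w := h'.1
            have hb : nc L (act dl L1 w) := h'.2
            by_cases h2 : nc L' (act dl L (act dl L1 w))
            · simp [h2]
            · simp [h, ha, hb, h2]
          · simp [h]
      _ = (if nc L1 w then (1 : ℝ≥0∞) else 0) * Kb1 Λ ht dl cd j (act dl L1 w) := by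
          rw [SL_const_mul, Kb1]
      _ ≤ κ * (if nc L1 w then (1 : ℝ≥0∞) else 0) := by
          rw [mul_comm]
          exact mul_le_mul_left (hκ _) _
  calc G Λ ht dl cd (2 * j) w
      ≤ SL Λ (2 * j) (fun L => SL Λ (2 * j) (fun L' =>
        if nc (L ++ L') w then (1 : ℝ≥0∞) else 0) + SL Λ (2 * j) (fun L' =>
      (if nc L w then (1 : ℝ≥0∞) else 0) * (if nc L' (act dl L w) then 0 else 1))) := by
        rw [e1]
        refine SL_mono Λ _ fun L _ => ?_
        rw [← SL_add_fun]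
        refine SL_mono Λ _ fun L' _ => ?_
        by_cases h : nc L w
        · by_cases h' : nc L' (act dl L w)
          · have h3 : nc (L ++ L') w := by
              simp only [hnc] at h h' ⊢
              rw [CD_append, h, h']; simp
            simp [h, h', h3]
          · simp [h, h']
        · simp [h]
    _ = G Λ ht dl cd (4 * j) w + SL Λ (2 * j) (fun L => SL Λ (2 * j) (fun L' =>
      (if nc L w then (1 : ℝ≥0∞) else 0) * (if nc L' (act dl L w) then 0 else 1))) := by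
        rw [SL_add_fun, e2]
    _ ≤ _ := add_le_add le_rfl e3

/-- divergence of `Σ_j G_j` from the recursion with a small constant. -/
lemma G_diverges1 (hΛ : ∑' b, Λ b = 1) (M : ℕ)
    (hκ : ∀ j, M ≤ j → ∀ w, Kb1 Λ ht dl cd j w ≤ 1 / 8) (w : W) (J : ℕ) (hJ : M ≤ 2 ^ J)
    (hw : 1 / 2 ≤ G Λ ht dl cd (2 ^ (J + 2)) w) : ∑' j, G Λ ht dl cd j w = ⊤ := by
  have hfin : ∀ j, G Λ ht dl cd j w ≠ ⊤ := fun j =>
    ne_top_of_le_ne_top ENNReal.one_ne_top (G_le_one Λ ht dl cd hΛ j w)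
  set g : ℕ → ℝ := fun i => (G Λ ht dl cd (2 ^ i) w).toReal with hg
  have hg0 : ∀ i, 0 ≤ g i := fun i => ENNReal.toReal_nonneg
  have hg1 : ∀ i, g i ≤ 1 := fun i => by
    have := ENNReal.toReal_mono ENNReal.one_ne_top (G_le_one Λ ht dl cd hΛ (2 ^ i) w)
    simpa using this
  have hrec : ∀ i, J ≤ i → g (i + 1) ≤ g (i + 2) + 1 / 8 * g i := by
    intro i hi
    have h := G_rec1 Λ ht dl cd hΛ (2 ^ i) (1 / 8)
      (hκ _ (hJ.trans (Nat.pow_le_pow_right (by norm_num) hi))) w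
    have h2 := ENNReal.toReal_mono (ENNReal.add_ne_top.2 ⟨hfin _, ENNReal.mul_ne_top
      (by norm_num) (hfin _)⟩) h
    rw [ENNReal.toReal_add (hfin _) (ENNReal.mul_ne_top (by norm_num) (hfin _)),
      ENNReal.toReal_mul] at h2
    rw [show 2 * 2 ^ i = 2 ^ (i + 1) by ring, show 4 * 2 ^ i = 2 ^ (i + 2) by ring] at h2
    have h3 : ((1 : ℝ≥0∞) / 8).toReal = 1 / 8 := by simp
    rw [h3] at h2
    exact h2
  have hstart : 1 / 2 ≤ g (J + 2) := by
    have := ENNReal.toReal_mono (hfin _) hw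
    simpa using this
  have hratio : ∀ k, g (J + 1 + k) ≤ 2 * g (J + 2 + k) ∧ 1 / 2 * (3 / 4 : ℝ) ^ k ≤ g (J + 2 + k) := by
    intro k
    induction k with
    | zero => exact ⟨by have := hg1 (J + 1); simp only [add_zero]; linarith, by simpa using hstart⟩
    | succ k ih =>
      have h := hrec (J + 1 + k) (by omega)
      rw [show J + 1 + k + 1 = J + 2 + k by ring, show J + 1 + k + 2 = J + 3 + k by ring] at h
      have h3 : 3 / 4 * g (J + 2 + k) ≤ g (J + 3 + k) := by linarith [ih.1]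
      rw [show J + 1 + (k + 1) = J + 2 + k by ring, show J + 2 + (k + 1) = J + 3 + k by ring]
      refine ⟨by linarith [hg0 (J + 2 + k)], ?_⟩
      rw [pow_succ]
      linarith [ih.2]
  by_contra hne
  set T := (∑' j, G Λ ht dl cd j w).toReal with hT
  have hle : ∀ i, (2 : ℝ) ^ i * g i ≤ T := by
    intro i
    have h1 : ((2 ^ i : ℕ) : ℝ≥0∞) * G Λ ht dl cd (2 ^ i) w ≤ ∑' j, G Λ ht dl cd j w := by
      calc ((2 ^ i : ℕ) : ℝ≥0∞) * G Λ ht dl cd (2 ^ i) w
          = ∑ _ ∈ Finset.range (2 ^ i), G Λ ht dl cd (2 ^ i) w := by simp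
        _ ≤ ∑ j ∈ Finset.range (2 ^ i), G Λ ht dl cd j w :=
            Finset.sum_le_sum fun j hj =>
              G_anti Λ ht dl cd hΛ w (Finset.mem_range.1 hj).le
        _ ≤ _ := ENNReal.sum_le_tsum _
    have h2 := ENNReal.toReal_mono hne h1
    rw [ENNReal.toReal_mul] at h2
    simpa using h2
  have hgrow : Filter.Tendsto (fun k : ℕ => (3 / 2 : ℝ) ^ k) Filter.atTop Filter.atTop :=
    tendsto_pow_atTop_atTop_of_one_lt (by norm_num)
  obtain ⟨k, hk⟩ := (hgrow.eventually_gt_atTop T).exists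
  have h1 := hle (J + 2 + k)
  have h2 := (hratio k).2
  have h3 : (3 / 2 : ℝ) ^ k ≤ 2 ^ (J + 2 + k) * g (J + 2 + k) := by
    calc (3 / 2 : ℝ) ^ k = 2 ^ k * (3 / 4) ^ k := by rw [← mul_pow]; norm_num
      _ ≤ 2 ^ (J + 2 + k) * (1 / 2 * (3 / 4) ^ k) := by
        rw [pow_add 2 (J + 2) k, pow_add 2 J 2]
        have : (1 : ℝ) ≤ 2 ^ J := one_le_pow₀ (by norm_num)
        have h4 : (0 : ℝ) < 2 ^ k * (3 / 4) ^ k := by positivity
        nlinarith
      _ ≤ _ := mul_le_mul_of_nonneg_left h2 (by positivity)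
  linarith

open Classical in
/-- **Abstract form of block B5, first-contact form.** -/
theorem abs_main1 [Infinite W] (h1 : ∀ b, 1 ≤ ht b)
    (hcd : ∀ w b k, k ∈ cd w b → 1 ≤ k ∧ k ≤ ht b)
    (hinj : ∀ b, Function.Injective (dl b)) (hfar : ∀ b, {w | cd w b ≠ ∅}.Finite)
    (c : ℝ≥0∞) (hc : c ≠ 0) (R : ℕ)
    (hU : ∀ n, R ≤ n → c ≤ U Λ ht n) (hU1 : ∀ n, U Λ ht n ≤ 1)
    (hK : ∀ ε : ℝ≥0∞, ε ≠ 0 → ∃ M : ℕ, ∀ m, M ≤ m → ∀ n, 2 * m ≤ n → ∀ w,
      Kap1 Λ ht dl cd n m w ≤ ε) (F : Set W) (hF : F.Finite) :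
    ∃ w, w ∉ F ∧
      ∑' L : List B, (if CD ht dl cd L w = ∅ then LW Λ L else 0) = ⊤ := by
  have hcle : c ≤ 1 := (hU R le_rfl).trans (hU1 R)
  have hc' : c ≠ ⊤ := ne_top_of_le_ne_top ENNReal.one_ne_top hcle
  have hΛ : ∑' b, Λ b = 1 :=
    le_antisymm (mass_le_one Λ ht h1 hU1) (mass_ge_one Λ ht c hc R hU)
  set E := ∑' b, Λ b * (ht b : ℝ≥0∞) with hE
  have hEle : E ≤ c⁻¹ := mean_le Λ ht h1 hΛ c hc hc' R hU
  have hEtop : E ≠ ⊤ := ne_top_of_le_ne_top (ENNReal.inv_ne_top.2 hc) hEle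
  -- choose `r` with `3 E / 2^r ≤ 1/16`
  obtain ⟨r, hr⟩ : ∃ r : ℕ, 48 * E ≤ (2 ^ r : ℕ) := by
    obtain ⟨N, hN⟩ := ENNReal.exists_nat_gt (ENNReal.mul_ne_top (by norm_num) hEtop : 48 * E ≠ ⊤)
    exact ⟨N, hN.le.trans (by exact_mod_cast (Nat.lt_two_pow_self).le)⟩
  obtain ⟨M, hM⟩ := hK (c / (16 * (r + 1))) (by
    rw [Ne, ENNReal.div_eq_zero_iff, not_or]
    exact ⟨hc, by
      refine ENNReal.mul_ne_top (by norm_num) ?_
      exact_mod_cast ENNReal.natCast_ne_top (r + 1)⟩)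
  have hKb : ∀ j, max M 1 ≤ j → ∀ w, Kb1 Λ ht dl cd j w ≤ 1 / 8 := by
    intro j hj w
    have hj1 : 1 ≤ j := le_trans (le_max_right _ _) hj
    have hjM : M ≤ j := le_trans (le_max_left _ _) hj
    refine (Kb_le1 Λ ht dl cd h1 hcd c hc hc' R hU j r w).trans ?_
    have hA : SL Λ (3 * j) (fun L => if 2 ^ r * j < HT ht L then 1 else 0) ≤ 1 / 16 := by
      have hm := SL_markov Λ ht hΛ (3 * j) (2 ^ r * j)
      rw [← hE] at hm
      set X := SL Λ (3 * j) (fun L => if 2 ^ r * j < HT ht L then (1 : ℝ≥0∞) else 0)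
      have h2 : (16 : ℝ≥0∞) * ((2 ^ r * j : ℕ) * X) ≤ (2 ^ r * j : ℕ) := by
        calc (16 : ℝ≥0∞) * ((2 ^ r * j : ℕ) * X) ≤ 16 * ((3 * j : ℕ) * E) :=
              mul_le_mul_right hm _
          _ = (48 * E) * j := by push_cast; ring
          _ ≤ (2 ^ r : ℕ) * j := mul_le_mul_left hr _
          _ = _ := by push_cast; ring
      have hpos : ((2 ^ r * j : ℕ) : ℝ≥0∞) ≠ 0 := by
        have : 0 < 2 ^ r * j := by positivity
        exact_mod_cast this.ne'
      have htop : ((2 ^ r * j : ℕ) : ℝ≥0∞) ≠ ⊤ := ENNReal.natCast_ne_top _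
      rw [ENNReal.le_div_iff_mul_le (Or.inl (by norm_num)) (Or.inl (by norm_num)), mul_comm]
      have h3 : ((2 ^ r * j : ℕ) : ℝ≥0∞) * (16 * X) ≤ ((2 ^ r * j : ℕ) : ℝ≥0∞) * 1 := by
        rw [mul_one]; calc _ = (16 : ℝ≥0∞) * ((2 ^ r * j : ℕ) * X) := by ring
          _ ≤ _ := h2
      exact (ENNReal.mul_le_mul_iff_right hpos htop).1 h3
    have hB : ∑ s ∈ Finset.range r, c⁻¹ * Kap1 Λ ht dl cd (2 ^ r * j + R) (2 ^ s * j) w
        ≤ 1 / 16 := by
      calc ∑ s ∈ Finset.range r, c⁻¹ * Kap1 Λ ht dl cd (2 ^ r * j + R) (2 ^ s * j) w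
          ≤ ∑ s ∈ Finset.range r, c⁻¹ * (c / (16 * (r + 1))) := by
            refine Finset.sum_le_sum fun s hs => mul_le_mul_right ?_ _
            refine hM _ ?_ _ ?_ w
            · have : 1 ≤ 2 ^ s := Nat.one_le_two_pow
              nlinarith
            · have h5 : 2 ^ (s + 1) ≤ 2 ^ r :=
                Nat.pow_le_pow_right (by norm_num) (Finset.mem_range.1 hs)
              rw [pow_succ] at h5
              nlinarith
        _ = r * (c⁻¹ * (c / (16 * (r + 1)))) := by simp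
        _ = r * (1 / (16 * (r + 1))) := by
            rw [div_eq_mul_inv, ← mul_assoc c⁻¹, ENNReal.inv_mul_cancel hc hc', one_mul, one_div]
        _ ≤ (r + 1) * (1 / (16 * (r + 1))) := mul_le_mul_left le_self_add _
        _ = 1 / 16 := by
            have hr0 : ((r : ℝ≥0∞) + 1) ≠ 0 := by simp
            have hrt : ((r : ℝ≥0∞) + 1) ≠ ⊤ := by
              exact_mod_cast ENNReal.natCast_ne_top (r + 1)
            rw [one_div, one_div, ENNReal.mul_inv (Or.inr hrt) (Or.inr hr0), mul_comm (16 : ℝ≥0∞)⁻¹,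
              ← mul_assoc, ENNReal.mul_inv_cancel hr0 hrt, one_mul]
    calc _ ≤ (1 / 16 : ℝ≥0∞) + 1 / 16 := add_le_add hA hB
      _ = 1 / 8 := by
        rw [← two_mul, one_div, one_div, show (16 : ℝ≥0∞) = 2 * 8 by norm_num,
          ENNReal.mul_inv (by norm_num) (by norm_num), ← mul_assoc,
          ENNReal.mul_inv_cancel (by norm_num) (by norm_num), one_mul]
  obtain ⟨J, hJ⟩ : ∃ J : ℕ, max M 1 ≤ 2 ^ J := ⟨max M 1, Nat.lt_two_pow_self.le⟩
  have hev := G_far Λ ht dl cd hΛ hinj hfar (2 ^ (J + 2)) (1 / 2) (by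
    rw [one_div]; exact ENNReal.inv_lt_one.2 (by norm_num))
  have hev2 : ∀ᶠ w in Filter.cofinite, w ∉ F := by
    rw [Filter.eventually_cofinite]; simpa using hF
  obtain ⟨w, hw, hwF⟩ := (hev.and hev2).exists
  refine ⟨w, hwF, ?_⟩
  have := G_diverges1 Λ ht dl cd hΛ (max M 1) hKb w J hJ hw
  rw [← this]
  simp only [G]
  rw [← tsum_eq_tsum_SL]
  refine tsum_congr fun L => ?_
  split_ifs <;> simp

end Crest.Agent.R154.B5A
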