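import Crest.Agent.R154.B5First_181

/-! Row 154, block B5 (helper865): `abs_main1` with the weaker hypothesis `hK`: for every large `m` the
bound is only needed for crossings of height `n ≥ n0(m)`. -/

set_option autoImplicit false

namespace Crest.Agent.R154.B5A

open scoped ENNReal

variable {B W : Type*} (Λ : B → ℝ≥0∞) (ht : B → ℕ) (dl : B → W → W) (cd : W → B → Set ℕ)

open Classical in
lemma Kb_le2 (h1 : ∀ b, 1 ≤ ht b) (hcd : ∀ w b k, k ∈ cd w b → 1 ≤ k ∧ k ≤ ht b)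
    (c : ℝ≥0∞) (hc : c ≠ 0) (hc' : c ≠ ⊤) (R : ℕ)
    (hU : ∀ n, R ≤ n → c ≤ U Λ ht n) (j r n' : ℕ) (hn' : 2 ^ r * j ≤ n') (w : W) :
    Kb1 Λ ht dl cd j w ≤ SL Λ (3 * j) (fun L => if 2 ^ r * j < HT ht L then 1 else 0)
      + ∑ s ∈ Finset.range r, c⁻¹ * Kap1 Λ ht dl cd (n' + R) (2 ^ s * j) w := by
  set n := 2 ^ r * j with hn
  set ψ : List B → ℝ≥0∞ := fun L => (if n < HT ht L then 1 else 0)
    + ∑ s ∈ Finset.range r,
      (if HT ht L ≤ n ∧ (∀ k ∈ CD ht dl cd L w, 2 ^ s * j < k) ∧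
        ∃ k ∈ CD ht dl cd L w, k ≤ 2 * (2 ^ s * j) then 1 else 0)
    with hψ
  have step1 : Kb1 Λ ht dl cd j w ≤ SL Λ (3 * j) ψ := by
    rw [show 3 * j = j + 2 * j by ring, SL_add, Kb1]
    refine SL_mono Λ j fun L1 hL1 => SL_mono Λ (2 * j) fun L2 _ => ?_
    by_cases he : CD ht dl cd L1 w = ∅ ∧ CD ht dl cd L2 (act dl L1 w) ≠ ∅
    · rw [if_pos he]
      by_cases hh : n < HT ht (L1 ++ L2)
      · simp only [hψ, hh, if_true]; exact le_self_add
      · obtain ⟨he1, he2⟩ := he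
        obtain ⟨k', hk'⟩ := Set.nonempty_iff_ne_empty.2 he2
        have hk : HT ht L1 + k' ∈ CD ht dl cd (L1 ++ L2) w := by
          rw [CD_append]; exact Or.inr ⟨k', hk', rfl⟩
        have hne : (CD ht dl cd (L1 ++ L2) w).Nonempty := ⟨_, hk⟩
        set k0 := sInf (CD ht dl cd (L1 ++ L2) w) with hk0
        have hk0m : k0 ∈ CD ht dl cd (L1 ++ L2) w := Nat.sInf_mem hne
        have hmin : ∀ k ∈ CD ht dl cd (L1 ++ L2) w, k0 ≤ k := fun k hk => Nat.sInf_le hk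
        have hbig : j < k0 := by
          have h3 := hk0m
          rw [CD_append, he1, Set.empty_union] at h3
          obtain ⟨k2, hk2, hk2'⟩ := h3
          have := CD_pos ht dl cd hcd L2 _ _ hk2
          have hl := length_le_HT ht h1 L1
          simp only at hk2'
          omega
        have hk2 := CD_pos ht dl cd hcd _ _ _ hk0m
        obtain ⟨s, hs, hs1, hs2⟩ := exists_dyadic j k0 r hbig (by omega)
        change (1 : ℝ≥0∞) ≤ (if n < HT ht (L1 ++ L2) then 1 else 0) + _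
        rw [if_neg hh, zero_add]
        refine le_trans ?_ (Finset.single_le_sum (f := fun s => (if HT ht (L1 ++ L2) ≤ n ∧
          (∀ k ∈ CD ht dl cd (L1 ++ L2) w, 2 ^ s * j < k) ∧
          ∃ k ∈ CD ht dl cd (L1 ++ L2) w, k ≤ 2 * (2 ^ s * j)
          then (1 : ℝ≥0∞) else 0)) (fun _ _ => zero_le) hs)
        rw [if_pos ⟨by omega, fun k hk => lt_of_lt_of_le hs1 (hmin k hk), _, hk0m, hs2⟩]
    · rw [if_neg he]; exact zero_le
  refine step1.trans ?_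
  rw [hψ, SL_add_fun Λ (3 * j) (fun L => if n < HT ht L then 1 else 0)]
  refine add_le_add le_rfl ?_
  have step2 : SL Λ (3 * j) (fun L => ∑ s ∈ Finset.range r,
      (if HT ht L ≤ n ∧ (∀ k ∈ CD ht dl cd L w, 2 ^ s * j < k) ∧
        ∃ k ∈ CD ht dl cd L w, k ≤ 2 * (2 ^ s * j)
        then (1 : ℝ≥0∞) else 0))
      = ∑ s ∈ Finset.range r, SL Λ (3 * j) (fun L =>
      (if HT ht L ≤ n ∧ (∀ k ∈ CD ht dl cd L w, 2 ^ s * j < k) ∧
        ∃ k ∈ CD ht dl cd L w, k ≤ 2 * (2 ^ s * j)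
        then (1 : ℝ≥0∞) else 0)) := by
    induction (Finset.range r) using Finset.induction_on with
    | empty =>
      simp only [Finset.sum_empty]
      simpa using SL_const_mul Λ (3 * j) 0 (fun _ => 0)
    | insert a s ha ih =>
      simp only [Finset.sum_insert ha]
      rw [SL_add_fun, ih]
  rw [step2]
  refine Finset.sum_le_sum fun s _ => ?_
  refine le_trans ?_ (win_le1 Λ ht dl cd hcd c hc hc' R hU (3 * j) n' (2 ^ s * j) w)
  refine SL_mono Λ (3 * j) fun L _ => ?_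
  by_cases h : HT ht L ≤ n ∧ (∀ k ∈ CD ht dl cd L w, 2 ^ s * j < k) ∧
      ∃ k ∈ CD ht dl cd L w, k ≤ 2 * (2 ^ s * j)
  · rw [if_pos h, if_pos ⟨h.1.trans hn', h.2⟩]
  · rw [if_neg h]; exact zero_le

open Classical in
/-- **Abstract form of block B5, first-contact form, tall crossings only.** -/
theorem abs_main2 [Infinite W] (h1 : ∀ b, 1 ≤ ht b)
    (hcd : ∀ w b k, k ∈ cd w b → 1 ≤ k ∧ k ≤ ht b)
    (hinj : ∀ b, Function.Injective (dl b)) (hfar : ∀ b, {w | cd w b ≠ ∅}.Finite)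
    (c : ℝ≥0∞) (hc : c ≠ 0) (R : ℕ)
    (hU : ∀ n, R ≤ n → c ≤ U Λ ht n) (hU1 : ∀ n, U Λ ht n ≤ 1)
    (hK : ∀ ε : ℝ≥0∞, ε ≠ 0 → ∃ M : ℕ, ∀ m, M ≤ m → ∃ n0 : ℕ, ∀ n, n0 ≤ n → ∀ w,
      Kap1 Λ ht dl cd n m w ≤ ε) (F : Set W) (hF : F.Finite) :
    ∃ w, w ∉ F ∧
      ∑' L : List B, (if CD ht dl cd L w = ∅ then LW Λ L else 0) = ⊤ := by
  have hcle : c ≤ 1 := (hU R le_rfl).trans (hU1 R)
  have hc' : c ≠ ⊤ := ne_top_of_le_ne_top ENNReal.one_ne_top hcle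
  have hΛ : ∑' b, Λ b = 1 :=
    le_antisymm (mass_le_one Λ ht h1 hU1) (mass_ge_one Λ ht c hc R hU)
  set E := ∑' b, Λ b * (ht b : ℝ≥0∞) with hE
  have hEle : E ≤ c⁻¹ := mean_le Λ ht h1 hΛ c hc hc' R hU
  have hEtop : E ≠ ⊤ := ne_top_of_le_ne_top (ENNReal.inv_ne_top.2 hc) hEle
  -- choose `r` with `3 E / 2^r ≤ 1/16`
  obtain ⟨r, hr⟩ : ∃ r : ℕ, 48 * E ≤ (2 ^ r : ℕ) := by
    obtain ⟨N, hN⟩ := ENNReal.exists_nat_gt (ENNReal.mul_ne_top (by norm_num) hEtop : 48 * E ≠ ⊤)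
    exact ⟨N, hN.le.trans (by exact_mod_cast (Nat.lt_two_pow_self).le)⟩
  obtain ⟨M, hM⟩ := hK (c / (16 * (r + 1))) (by
    rw [Ne, ENNReal.div_eq_zero_iff, not_or]
    exact ⟨hc, by
      refine ENNReal.mul_ne_top (by norm_num) ?_
      exact_mod_cast ENNReal.natCast_ne_top (r + 1)⟩)
  have hKb : ∀ j, max M 1 ≤ j → ∀ w, Kb1 Λ ht dl cd j w ≤ 1 / 8 := by
    intro j hj w
    have hj1 : 1 ≤ j := le_trans (le_max_right _ _) hj
    have hjM : M ≤ j := le_trans (le_max_left _ _) hj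
    have hex : ∃ n' : ℕ, 2 ^ r * j ≤ n' ∧ ∀ s ∈ Finset.range r, ∀ n, n' ≤ n → ∀ w,
        Kap1 Λ ht dl cd n (2 ^ s * j) w ≤ c / (16 * (r + 1)) := by
      have hs : ∀ s : ℕ, ∃ n0 : ℕ, ∀ n, n0 ≤ n → ∀ w,
          Kap1 Λ ht dl cd n (2 ^ s * j) w ≤ c / (16 * (r + 1)) := by
        intro s
        refine hM _ ?_
        have : 1 ≤ 2 ^ s := Nat.one_le_two_pow
        nlinarith
      choose f hf using hs
      refine ⟨2 ^ r * j + ∑ s ∈ Finset.range r, f s, Nat.le_add_right _ _, ?_⟩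
      intro s hsr n hn w'
      refine hf s n (le_trans ?_ hn) w'
      exact (Finset.single_le_sum (f := f) (fun _ _ => Nat.zero_le _) hsr).trans
        (Nat.le_add_left _ _)
    obtain ⟨n', hn'1, hn'2⟩ := hex
    refine (Kb_le2 Λ ht dl cd h1 hcd c hc hc' R hU j r n' hn'1 w).trans ?_
    have hA : SL Λ (3 * j) (fun L => if 2 ^ r * j < HT ht L then 1 else 0) ≤ 1 / 16 := by
      have hm := SL_markov Λ ht hΛ (3 * j) (2 ^ r * j)
      rw [← hE] at hm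
      set X := SL Λ (3 * j) (fun L => if 2 ^ r * j < HT ht L then (1 : ℝ≥0∞) else 0)
      have h2 : (16 : ℝ≥0∞) * ((2 ^ r * j : ℕ) * X) ≤ (2 ^ r * j : ℕ) := by
        calc (16 : ℝ≥0∞) * ((2 ^ r * j : ℕ) * X) ≤ 16 * ((3 * j : ℕ) * E) :=
              mul_le_mul_right hm _
          _ = (48 * E) * j := by push_cast; ring
          _ ≤ (2 ^ r : ℕ) * j := mul_le_mul_left hr _
          _ = _ := by push_cast; ring
      have hpos : ((2 ^ r * j : ℕ) : ℝ≥0∞) ≠ 0 := by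
        have : 0 < 2 ^ r * j := by positivity
        exact_mod_cast this.ne'
      have htop : ((2 ^ r * j : ℕ) : ℝ≥0∞) ≠ ⊤ := ENNReal.natCast_ne_top _
      rw [ENNReal.le_div_iff_mul_le (Or.inl (by norm_num)) (Or.inl (by norm_num)), mul_comm]
      have h3 : ((2 ^ r * j : ℕ) : ℝ≥0∞) * (16 * X) ≤ ((2 ^ r * j : ℕ) : ℝ≥0∞) * 1 := by
        rw [mul_one]; calc _ = (16 : ℝ≥0∞) * ((2 ^ r * j : ℕ) * X) := by ring
          _ ≤ _ := h2
      exact (ENNReal.mul_le_mul_iff_right hpos htop).1 h3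
    have hB : ∑ s ∈ Finset.range r, c⁻¹ * Kap1 Λ ht dl cd (n' + R) (2 ^ s * j) w
        ≤ 1 / 16 := by
      calc ∑ s ∈ Finset.range r, c⁻¹ * Kap1 Λ ht dl cd (n' + R) (2 ^ s * j) w
          ≤ ∑ s ∈ Finset.range r, c⁻¹ * (c / (16 * (r + 1))) := by
            refine Finset.sum_le_sum fun s hs => mul_le_mul_right ?_ _
            exact hn'2 s hs _ (Nat.le_add_right _ _) w
        _ = r * (c⁻¹ * (c / (16 * (r + 1)))) := by simp
        _ = r * (1 / (16 * (r + 1))) := by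
            rw [div_eq_mul_inv, ← mul_assoc c⁻¹, ENNReal.inv_mul_cancel hc hc', one_mul, one_div]
        _ ≤ (r + 1) * (1 / (16 * (r + 1))) := mul_le_mul_left le_self_add _
        _ = 1 / 16 := by
            have hr0 : ((r : ℝ≥0∞) + 1) ≠ 0 := by simp
            have hrt : ((r : ℝ≥0∞) + 1) ≠ ⊤ := by
              exact_mod_cast ENNReal.natCast_ne_top (r + 1)
            rw [one_div, one_div, ENNReal.mul_inv (Or.inr hrt) (Or.inr hr0), mul_comm (16 : ℝ≥0∞)⁻¹,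
              ← mul_assoc, ENNReal.mul_inv_cancel hr0 hrt, one_mul]
    calc _ ≤ (1 / 16 : ℝ≥0∞) + 1 / 16 := add_le_add hA hB
      _ = 1 / 8 := by
        rw [← two_mul, one_div, one_div, show (16 : ℝ≥0∞) = 2 * 8 by norm_num,
          ENNReal.mul_inv (by norm_num) (by norm_num), ← mul_assoc,
          ENNReal.mul_inv_cancel (by norm_num) (by norm_num), one_mul]
  obtain ⟨J, hJ⟩ : ∃ J : ℕ, max M 1 ≤ 2 ^ J := ⟨max M 1, Nat.lt_two_pow_self.le⟩
  have hev := G_far Λ ht dl cd hΛ hinj hfar (2 ^ (J + 2)) (1 / 2) (by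
    rw [one_div]; exact ENNReal.inv_lt_one.2 (by norm_num))
  have hev2 : ∀ᶠ w in Filter.cofinite, w ∉ F := by
    rw [Filter.eventually_cofinite]; simpa using hF
  obtain ⟨w, hw, hwF⟩ := (hev.and hev2).exists
  refine ⟨w, hwF, ?_⟩
  have := G_diverges1 Λ ht dl cd hΛ (max M 1) hKb w J hJ hw
  rw [← this]
  simp only [G]
  rw [← tsum_eq_tsum_SL]
  refine tsum_congr fun L => ?_
  split_ifs <;> simp

end Crest.Agent.R154.B5A
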