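import Crest.Agent.R154.Doob_804
import Crest.Agent.R154.Quenched_850

/-!
Row 154, block B0d: the maximal inequalities of `Doob_804` for the quenched law.  (helper804)

`quenched_markov_one`: Markov property at time one.
`q_hitEver_le`, `q_doob_event`, `q_low_event`, `q_lintegral_sup_event_le`: quenched.
`ann_low_event`, `ann_lintegral_sup_event_le`: annealed.
-/

set_option autoImplicit false

open MeasureTheory ProbabilityTheory Crest.ProbabilityR.RandomEnvironment
open scoped ENNReal

namespace Crest.Agent.R154.Doob804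

variable {d : ℕ}

theorem quenched_start (ω : Environment d) (x : Site d) :
    ∀ᵐ X ∂(quenchedLaw ω x), X 0 = x := by
  have h := quenched_cyl ω x (fun _ => x) 0
  rw [if_pos rfl] at h
  have h1 : wt ω (fun _ => x) 0 = 1 := by simp [wt]
  rw [h1] at h
  have h2 : cyl (fun _ => x) 0 = {X : Path d | X 0 = x} := by
    ext X
    simp [cyl, Agree]
  rw [h2] at h
  rw [ae_iff]
  have h3 : {X : Path d | ¬ X 0 = x} = {X : Path d | X 0 = x}ᶜ := rfl
  rw [h3, prob_compl_eq_one_sub (by
    have : {X : Path d | X 0 = x} = (fun X : Path d => X 0) ⁻¹' {x} := rfl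
    rw [this]
    exact measurable_pi_apply 0 (measurableSet_singleton x)), h]
  simp

theorem quenched_one_apply (ω : Environment d) (x y : Site d) :
    quenchedLaw ω x {X | X 1 = y} = stepP ω x y := by
  have h := quenched_cyl ω x (fun n => if n = 0 then x else y) 1
  rw [if_pos (by simp)] at h
  have h1 : wt ω (fun n => if n = 0 then x else y) 1 = stepP ω x y := by simp [wt]
  rw [h1] at h
  rw [← h]
  refine measure_congr ?_
  filter_upwards [quenched_start ω x] with X hX
  refine propext ?_
  show X 1 = y ↔ Agree 1 X _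
  constructor
  · intro h1 i hi
    interval_cases i
    · simpa using hX
    · simpa using h1
  · intro h1
    simpa using h1 1 le_rfl

theorem quenched_lintegral_one (ω : Environment d) (x : Site d) (f : Site d → ℝ≥0∞) :
    ∫⁻ X, f (X 1) ∂(quenchedLaw ω x) = ∑ e : Step d, ENNReal.ofReal ((ω x).1 e) *
      f (x + stepVec e) := by
  classical
  have hm : Measurable fun X : Path d => X 1 := measurable_pi_apply 1
  have h0 : ∫⁻ X, f (X 1) ∂(quenchedLaw ω x)
      = ∫⁻ y, f y ∂((quenchedLaw ω x).map (fun X => X 1)) :=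
    (lintegral_map (Measurable.of_discrete) hm).symm
  rw [h0, lintegral_countable']
  have h1 : ∀ y : Site d, (quenchedLaw ω x).map (fun X => X 1) {y}
      = ∑ e : Step d, if x + stepVec e = y then ENNReal.ofReal ((ω x).1 e) else 0 := by
    intro y
    rw [Measure.map_apply hm (measurableSet_singleton y), ← stepP_eq, ← quenched_one_apply]
    rfl
  simp_rw [h1, Finset.mul_sum]
  rw [Summable.tsum_finsetSum fun _ _ => ENNReal.summable]
  refine Finset.sum_congr rfl fun e _ => ?_
  rw [tsum_eq_single (x + stepVec e)]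
  · rw [if_pos rfl, mul_comm]
  · intro y hy
    rw [if_neg (Ne.symm hy), mul_zero]

/-- **Markov property at time one** for the quenched law. -/
theorem quenched_markov_one (ω : Environment d) (x : Site d) (B : Set (Path d))
    (hB : MeasurableSet B) :
    quenchedLaw ω x B = ∑ e : Step d, ENNReal.ofReal ((ω x).1 e) *
      quenchedLaw ω (x + stepVec e) {X | consP x X ∈ B} := by
  have hB' : MeasurableSet {X : Path d | consP x X ∈ B} := measurable_consP x hB
  have h1 : quenchedLaw ω x B
      = ∫⁻ X, 1 * (Set.indicator {X : Path d | consP x X ∈ B} (fun _ => (1 : ℝ≥0∞)) (shift 1 X))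
        ∂(quenchedLaw ω x) := by
    rw [← lintegral_indicator_one hB]
    refine lintegral_congr_ae ?_
    filter_upwards [quenched_start ω x] with X hX
    have hc : consP x (shift 1 X) = X := by
      funext i
      cases i with
      | zero => exact hX.symm
      | succ i => show X (1 + i) = X (i + 1); rw [Nat.add_comm]
    rw [one_mul]
    by_cases hXB : X ∈ B
    · rw [Set.indicator_of_mem hXB, Set.indicator_of_mem (by
        show consP x (shift 1 X) ∈ B
        rw [hc]; exact hXB)]
      rfl
    · rw [Set.indicator_of_notMem hXB, Set.indicator_of_notMem (by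
        show ¬ consP x (shift 1 X) ∈ B
        rw [hc]; exact hXB)]
  rw [h1, markov_time ω x 1 (fun _ => 1) (fun _ _ _ => rfl) _
    (measurable_const.indicator hB')]
  simp_rw [one_mul]
  rw [quenched_lintegral_one ω x (fun y => ∫⁻ Y, Set.indicator {X : Path d | consP x X ∈ B}
    (fun _ => (1 : ℝ≥0∞)) Y ∂(quenchedLaw ω y))]
  refine Finset.sum_congr rfl fun e _ => ?_
  congr 1
  have := lintegral_indicator_one (μ := quenchedLaw ω (x + stepVec e)) hB'
  exact this

/-- Quenched maximal inequality for a function superharmonic on `U`. -/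
theorem q_hitEver_le (ω : Environment d) (h : Site d → ℝ≥0∞) (U : Set (Site d))
    (hsup : ∀ z ∈ U, ∑ e : Step d, ENNReal.ofReal ((ω z).1 e) * h (z + stepVec e) ≤ h z)
    {lam : ℝ≥0∞} (h0 : lam ≠ 0) (ht : lam ≠ ⊤) (x : Site d) :
    quenchedLaw ω x (hitEver h U lam) ≤ h x / lam :=
  hitEver_le (fun z (e : Step d) => z + stepVec e) (fun z e => ENNReal.ofReal ((ω z).1 e))
    (fun z => quenchedLaw ω z) (fun x B hB => quenched_markov_one ω x B hB) h U hsup h0 ht x

/-- `P_ω^z(B)` is harmonic on `U` when `B` is invariant under prepending points of `U`. -/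
theorem q_harmonic_event (ω : Environment d) (B : Set (Path d)) (hB : MeasurableSet B)
    (U : Set (Site d)) (hinv : ∀ z ∈ U, ∀ X : Path d, consP z X ∈ B ↔ X ∈ B) :
    ∀ z ∈ U, ∑ e : Step d, ENNReal.ofReal ((ω z).1 e) * quenchedLaw ω (z + stepVec e) B
      = quenchedLaw ω z B :=
  harmonic_event (fun z (e : Step d) => z + stepVec e) (fun z e => ENNReal.ofReal ((ω z).1 e))
    (fun z => quenchedLaw ω z) (fun x B hB => quenched_markov_one ω x B hB) B hB U hinv

/-- Quenched Doob inequality for an event. -/
theorem q_doob_event (ω : Environment d) (B : Set (Path d)) (hB : MeasurableSet B)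
    (U : Set (Site d)) (hinv : ∀ z ∈ U, ∀ X : Path d, consP z X ∈ B ↔ X ∈ B)
    {lam : ℝ≥0∞} (h0 : lam ≠ 0) (ht : lam ≠ ⊤) (x : Site d) :
    quenchedLaw ω x (hitEver (fun z => quenchedLaw ω z B) U lam) ≤ quenchedLaw ω x B / lam :=
  doob_event (fun z (e : Step d) => z + stepVec e) (fun z e => ENNReal.ofReal ((ω z).1 e))
    (fun z => quenchedLaw ω z) (fun x B hB => quenched_markov_one ω x B hB) B hB U hinv h0 ht x

/-- Quenched `E sup ≤ a (1 + log (1/a))`. -/
theorem q_lintegral_sup_event_le (ω : Environment d) (B : Set (Path d)) (hB : MeasurableSet B)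
    (U : Set (Site d)) (hinv : ∀ z ∈ U, ∀ X : Path d, consP z X ∈ B ↔ X ∈ B)
    {a : ℝ} (ha0 : 0 < a) (ha1 : a ≤ 1) (x : Site d)
    (hx : quenchedLaw ω x B ≤ ENNReal.ofReal a) :
    ∫⁻ X, supAlong (fun z => quenchedLaw ω z B) U X ∂(quenchedLaw ω x)
      ≤ ENNReal.ofReal (a * (1 + Real.log (1 / a))) :=
  lintegral_sup_event_le (fun z (e : Step d) => z + stepVec e)
    (fun z e => ENNReal.ofReal ((ω z).1 e))
    (fun z => quenchedLaw ω z) (fun x B hB => quenched_markov_one ω x B hB) B hB U hinv
    ha0 ha1 x hx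

/-! ### The lower inequality: `P(B, the quenched probability of B gets below lam) ≤ lam` -/

/-- `h` gets below `lam` (while in `U`, the exit site included) by time `N`. -/
def lowBy {S : Type*} (h : S → ℝ≥0∞) (U : Set S) (lam : ℝ≥0∞) (N : ℕ) : Set (ℕ → S) :=
  {X | ∃ n ≤ N, (∀ k < n, X k ∈ U) ∧ h (X n) ≤ lam}

/-- `h` gets below `lam` while in `U` (the exit site included). -/
def lowEver {S : Type*} (h : S → ℝ≥0∞) (U : Set S) (lam : ℝ≥0∞) : Set (ℕ → S) :=
  {X | ∃ n, (∀ k < n, X k ∈ U) ∧ h (X n) ≤ lam}

section low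
set_option linter.unusedSectionVars false
set_option linter.deprecated false
variable {S : Type*} [MeasurableSpace S] [DiscreteMeasurableSpace S]

theorem measurableSet_lowBy (h : S → ℝ≥0∞) (U : Set S) (lam : ℝ≥0∞) (N : ℕ) :
    MeasurableSet (lowBy h U lam N) := by
  have : lowBy h U lam N = ⋃ n ∈ Finset.range (N + 1),
      ((⋂ k ∈ Finset.range n, (fun X : ℕ → S => X k) ⁻¹' U) ∩
        (fun X : ℕ → S => X n) ⁻¹' {z | h z ≤ lam}) := by
    ext X
    simp only [lowBy, Set.mem_setOf_eq, Finset.mem_range, Set.mem_iUnion, Set.mem_inter_iff,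
      Set.mem_iInter, Set.mem_preimage, exists_prop, Nat.lt_succ_iff]
  rw [this]
  refine Finset.measurableSet_biUnion _ fun n _ => MeasurableSet.inter ?_ ?_
  · exact Finset.measurableSet_biInter _ fun k _ =>
      (measurable_pi_apply k) (MeasurableSet.of_discrete)
  · exact (measurable_pi_apply n) (MeasurableSet.of_discrete)

theorem lowEver_eq (h : S → ℝ≥0∞) (U : Set S) (lam : ℝ≥0∞) :
    lowEver h U lam = ⋃ N, lowBy h U lam N := by
  ext X
  simp only [lowEver, lowBy, Set.mem_setOf_eq, Set.mem_iUnion]
  constructor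
  · rintro ⟨n, hn⟩
    exact ⟨n, n, le_rfl, hn⟩
  · rintro ⟨N, n, _, hn⟩
    exact ⟨n, hn⟩

theorem measurableSet_lowEver (h : S → ℝ≥0∞) (U : Set S) (lam : ℝ≥0∞) :
    MeasurableSet (lowEver h U lam) := by
  rw [lowEver_eq]
  exact MeasurableSet.iUnion fun N => measurableSet_lowBy h U lam N

variable {E : Type*} [Fintype E] (nb : S → E → S) (p : S → E → ℝ≥0∞)
  (hp : ∀ x, ∑ e, p x e ≤ 1)
  (κ : S → Measure (ℕ → S)) [∀ x, IsProbabilityMeasure (κ x)]
  (hM : ∀ (x : S) (B : Set (ℕ → S)), MeasurableSet B →
    κ x B = ∑ e, p x e * κ (nb x e) {X | consP x X ∈ B})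

include hp hM

theorem lowBy_le (B : Set (ℕ → S)) (hB : MeasurableSet B) (U : Set S)
    (hinv : ∀ z ∈ U, ∀ X : ℕ → S, consP z X ∈ B ↔ X ∈ B) (lam : ℝ≥0∞) (N : ℕ) :
    ∀ x, κ x (B ∩ lowBy (fun z => κ z B) U lam N) ≤ lam := by
  induction N with
  | zero =>
    intro x
    by_cases hx : κ x B ≤ lam
    · exact (measure_mono Set.inter_subset_left).trans hx
    · rw [hM x _ (hB.inter (measurableSet_lowBy _ U lam 0))]
      have he : {X : ℕ → S | consP x X ∈ B ∩ lowBy (fun z => κ z B) U lam 0} = ∅ := by
        ext X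
        simp only [lowBy, Set.mem_inter_iff, Set.mem_setOf_eq, Nat.le_zero, exists_eq_left,
          consP_zero, Set.mem_empty_iff_false, iff_false, not_and]
        intro _ _
        exact hx
      refine le_of_eq_of_le (Finset.sum_eq_zero fun e _ => ?_) (zero_le (a := lam))
      rw [he, measure_empty, mul_zero]
  | succ N ih =>
    intro x
    by_cases hx : κ x B ≤ lam
    · exact (measure_mono Set.inter_subset_left).trans hx
    · rw [hM x _ (hB.inter (measurableSet_lowBy _ U lam (N + 1)))]
      by_cases hU : x ∈ U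
      · have hsub : {X : ℕ → S | consP x X ∈ B ∩ lowBy (fun z => κ z B) U lam (N + 1)} ⊆
            B ∩ lowBy (fun z => κ z B) U lam N := by
          rintro X ⟨hXB, n, hn, h1, h2⟩
          refine ⟨(hinv x hU X).1 hXB, ?_⟩
          cases n with
          | zero => exact absurd h2 hx
          | succ n =>
            refine ⟨n, by omega, ?_, h2⟩
            intro k hk
            exact h1 (k + 1) (by omega)
        calc ∑ e, p x e * κ (nb x e) {X | consP x X ∈ B ∩ lowBy (fun z => κ z B) U lam (N + 1)}
            ≤ ∑ e, p x e * lam := by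
              refine Finset.sum_le_sum fun e _ => ?_
              gcongr
              exact (measure_mono hsub).trans (ih _)
          _ = (∑ e, p x e) * lam := by rw [Finset.sum_mul]
          _ ≤ 1 * lam := by gcongr; exact hp x
          _ = lam := one_mul _
      · have he : {X : ℕ → S | consP x X ∈ B ∩ lowBy (fun z => κ z B) U lam (N + 1)} = ∅ := by
          ext X
          simp only [Set.mem_setOf_eq, Set.mem_empty_iff_false, iff_false]
          rintro ⟨_, n, hn, h1, h2⟩
          cases n with
          | zero => exact hx h2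
          | succ n => exact hU (h1 0 (by omega))
        refine le_of_eq_of_le (Finset.sum_eq_zero fun e _ => ?_) (zero_le (a := lam))
        rw [he, measure_empty, mul_zero]

/-- **Lower inequality**: `P^x(B and P^{X_n}(B) ≤ lam for some n before the exit of U) ≤ lam`. -/
theorem low_event (B : Set (ℕ → S)) (hB : MeasurableSet B) (U : Set S)
    (hinv : ∀ z ∈ U, ∀ X : ℕ → S, consP z X ∈ B ↔ X ∈ B) (lam : ℝ≥0∞) (x : S) :
    κ x (B ∩ lowEver (fun z => κ z B) U lam) ≤ lam := by
  rw [lowEver_eq, Set.inter_iUnion]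
  have hmono : Monotone fun N => B ∩ lowBy (fun z => κ z B) U lam N := by
    intro M N hMN X
    rintro ⟨hXB, n, hn, h1⟩
    exact ⟨hXB, n, hn.trans hMN, h1⟩
  rw [hmono.measure_iUnion]
  exact iSup_le fun N => lowBy_le nb p hp κ hM B hB U hinv lam N x

end low

/-- rows have total mass at most one. -/
theorem sum_row_le_one (ω : Environment d) (x : Site d) :
    ∑ e : Step d, ENNReal.ofReal ((ω x).1 e) ≤ 1 := by
  have h := quenched_markov_one ω x Set.univ MeasurableSet.univ
  simp only [Set.mem_univ, Set.ofPred_true, measure_univ, mul_one] at h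
  exact h.symm.le

/-- Quenched lower inequality. -/
theorem q_low_event (ω : Environment d) (B : Set (Path d)) (hB : MeasurableSet B)
    (U : Set (Site d)) (hinv : ∀ z ∈ U, ∀ X : Path d, consP z X ∈ B ↔ X ∈ B)
    (lam : ℝ≥0∞) (x : Site d) :
    quenchedLaw ω x (B ∩ lowEver (fun z => quenchedLaw ω z B) U lam) ≤ lam :=
  low_event (fun z (e : Step d) => z + stepVec e) (fun z e => ENNReal.ofReal ((ω z).1 e))
    (fun z => sum_row_le_one ω z)
    (fun z => quenchedLaw ω z) (fun x B hB => quenched_markov_one ω x B hB) B hB U hinv lam x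

/-! ### annealed versions -/

/-- Annealed lower inequality. -/
theorem ann_low_event (Q : Measure (Environment d)) [IsProbabilityMeasure Q]
    (B : Set (Path d)) (hB : MeasurableSet B)
    (U : Set (Site d)) (hinv : ∀ z ∈ U, ∀ X : Path d, consP z X ∈ B ↔ X ∈ B)
    (lam : ℝ≥0∞) (x : Site d) :
    ∫⁻ ω, quenchedLaw ω x (B ∩ lowEver (fun z => quenchedLaw ω z B) U lam) ∂Q ≤ lam := by
  refine (lintegral_mono (fun ω => q_low_event ω B hB U hinv lam x)).trans ?_
  simp

theorem measurable_supAlong_gen {E : Type*} [MeasurableSpace E] (f : E → Site d → ℝ≥0∞)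
    (hf : ∀ z, Measurable fun ω => f ω z) (U : Set (Site d)) :
    Measurable fun q : E × Path d => supAlong (f q.1) U q.2 := by
  unfold supAlong
  refine Measurable.iSup fun n => ?_
  have hm : Measurable fun q : E × Path d => f q.1 (q.2 n) := by
    have h1 : Measurable fun r : E × Site d => f r.1 r.2 :=
      measurable_from_prod_countable_left hf
    have h3 : Measurable fun q : E × Path d => q.2 n :=
      (measurable_pi_apply n).comp measurable_snd
    have h2 : Measurable fun q : E × Path d => ((q.1, q.2 n) : E × Site d) :=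
      Measurable.prodMk measurable_fst h3
    exact h1.comp h2
  have hs : MeasurableSet {q : E × Path d | ∀ k < n, q.2 k ∈ U} := by
    have : {q : E × Path d | ∀ k < n, q.2 k ∈ U}
        = ⋂ k ∈ Finset.range n, (fun q : E × Path d => q.2 k) ⁻¹' U := by
      ext q
      simp
    rw [this]
    exact Finset.measurableSet_biInter _ fun k _ =>
      ((measurable_pi_apply k).comp measurable_snd) (MeasurableSet.of_discrete)
  have he : (fun q : E × Path d => ⨆ _ : ∀ k < n, q.2 k ∈ U, f q.1 (q.2 n))
      = {q : E × Path d | ∀ k < n, q.2 k ∈ U}.indicator (fun q => f q.1 (q.2 n)) := by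
    funext q
    by_cases hq : ∀ k < n, q.2 k ∈ U
    · rw [Set.indicator_of_mem (by exact hq)]
      exact iSup_pos hq
    · rw [Set.indicator_of_notMem (by exact hq)]
      exact iSup_neg hq
  rw [he]
  exact hm.indicator hs

theorem measurable_supAlong_joint (B : Set (Path d)) (hB : MeasurableSet B) (U : Set (Site d)) :
    Measurable fun q : Environment d × Path d =>
      supAlong (fun z => quenchedLaw q.1 z B) U q.2 :=
  measurable_supAlong_gen (fun ω z => quenchedLaw ω z B)
    (fun z => measurable_quenched_apply z hB) U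

/-- **Annealed `E sup ≤ a (1 + log (1/a))`** (no Jensen needed: the tail bound is linear). -/
theorem ann_lintegral_sup_event_le (Q : Measure (Environment d)) [IsProbabilityMeasure Q]
    (B : Set (Path d)) (hB : MeasurableSet B)
    (U : Set (Site d)) (hinv : ∀ z ∈ U, ∀ X : Path d, consP z X ∈ B ↔ X ∈ B)
    {a : ℝ} (ha0 : 0 < a) (ha1 : a ≤ 1) (x : Site d)
    (hx : ∫⁻ ω, quenchedLaw ω x B ∂Q ≤ ENNReal.ofReal a) :
    ∫⁻ ω, ∫⁻ X, supAlong (fun z => quenchedLaw ω z B) U X ∂(quenchedLaw ω x) ∂Q
      ≤ ENNReal.ofReal (a * (1 + Real.log (1 / a))) := by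
  have hmj := measurable_supAlong_joint B hB U
  have hle1 : ∀ (ω : Environment d) (X : Path d),
      supAlong (fun z => quenchedLaw ω z B) U X ≤ 1 :=
    fun ω X => supAlong_le_iff.2 fun n _ => prob_le_one
  have hnt : ∀ (ω : Environment d) (X : Path d),
      supAlong (fun z => quenchedLaw ω z B) U X ≠ ⊤ :=
    fun ω X => ne_top_of_le_ne_top ENNReal.one_ne_top (hle1 ω X)
  have hrw : ∫⁻ ω, ∫⁻ X, supAlong (fun z => quenchedLaw ω z B) U X ∂(quenchedLaw ω x) ∂Q
      = ∫⁻ q, ENNReal.ofReal ((supAlong (fun z => quenchedLaw q.1 z B) U q.2).toReal)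
        ∂(Q ⊗ₘ qK x) := by
    rw [Measure.lintegral_compProd hmj.ennreal_toReal.ennreal_ofReal]
    refine lintegral_congr fun ω => lintegral_congr fun X => ?_
    exact (ENNReal.ofReal_toReal (hnt ω X)).symm
  rw [hrw]
  refine lintegral_le_of_tail (Q ⊗ₘ qK x) hmj.ennreal_toReal.aemeasurable
    (fun q => ENNReal.toReal_nonneg) ?_ ha0 ha1 ?_
  · intro q
    have := ENNReal.toReal_mono ENNReal.one_ne_top (hle1 q.1 q.2)
    simpa using this
  · intro t ht
    have hms : ∀ s : ℝ≥0∞, MeasurableSet {q : Environment d × Path d |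
        s < supAlong (fun z => quenchedLaw q.1 z B) U q.2} := fun s =>
      measurableSet_lt measurable_const hmj
    have hbound : ∀ s : ℝ, 0 < s → s < t →
        (Q ⊗ₘ qK x) {q | t ≤ (supAlong (fun z => quenchedLaw q.1 z B) U q.2).toReal}
          ≤ ENNReal.ofReal (a / s) := by
      intro s hs hst
      have hsub : {q : Environment d × Path d |
            t ≤ (supAlong (fun z => quenchedLaw q.1 z B) U q.2).toReal}
          ⊆ {q | ENNReal.ofReal s < supAlong (fun z => quenchedLaw q.1 z B) U q.2} := by
        intro q hq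
        have hq' : t ≤ (supAlong (fun z => quenchedLaw q.1 z B) U q.2).toReal := hq
        show ENNReal.ofReal s < supAlong (fun z => quenchedLaw q.1 z B) U q.2
        rw [ENNReal.ofReal_lt_iff_lt_toReal hs.le (hnt q.1 q.2)]
        exact lt_of_lt_of_le hst hq'
      refine (measure_mono hsub).trans ?_
      rw [Measure.compProd_apply (hms _)]
      have hq : ∀ ω : Environment d, (qK x ω) (Prod.mk ω ⁻¹' {q | ENNReal.ofReal s <
          supAlong (fun z => quenchedLaw q.1 z B) U q.2}) ≤ quenchedLaw ω x B / ENNReal.ofReal s := by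
        intro ω
        exact supAlong_tail (fun z (e : Step d) => z + stepVec e)
          (fun z e => ENNReal.ofReal ((ω z).1 e)) (fun z => quenchedLaw ω z)
          (fun x B hB => quenched_markov_one ω x B hB) (fun z => quenchedLaw ω z B) U
          (fun z hz => (q_harmonic_event ω B hB U hinv z hz).le)
          (by simpa using hs) ENNReal.ofReal_ne_top x
      refine (lintegral_mono hq).trans ?_
      simp only [ENNReal.div_eq_inv_mul]
      rw [lintegral_const_mul _ (measurable_quenched_apply x hB), ENNReal.ofReal_div_of_pos hs,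
        ENNReal.div_eq_inv_mul]
      gcongr
    have hlim : Filter.Tendsto (fun s : ℝ => ENNReal.ofReal (a / s)) (nhdsWithin t (Set.Iio t))
        (nhds (ENNReal.ofReal (a / t))) := by
      refine Filter.Tendsto.mono_left ?_ nhdsWithin_le_nhds
      refine (ENNReal.continuous_ofReal.tendsto _).comp ?_
      exact tendsto_const_nhds.div Filter.tendsto_id ht.ne'
    refine ge_of_tendsto hlim ?_
    have hIoo : Set.Ioo 0 t ∈ nhdsWithin t (Set.Iio t) := Ioo_mem_nhdsLT ht
    filter_upwards [hIoo] with s hs
    exact hbound s hs.1 hs.2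

end Crest.Agent.R154.Doob804
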