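import Crest.Agent.R154.FinB_804
import Crest.Agent.R154.Flux2_566
import Crest.Agent.R154.Asm_247

/-!
Row 154 (helper804), block (E): the merely elliptic iid case.  `FLe` (the finite-level statement
with a maximum over a lateral ball of radius `η i`, `h = 10^i`) implies that the walk does not go
down `10^i` levels before level `1` inside a polynomial box.
-/

set_option autoImplicit false

namespace Crest.Agent.R154.FinE804

open MeasureTheory ProbabilityTheory Crest.ProbabilityR.RandomEnvironment Crest.Agent.R154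
open Crest.Agent.R154.Flux132 (lev opp Dn)
open Crest.Agent.R154.B2d (dirVec HalfSpace)
open Crest.Agent.R154.Kal132 (Stay SlabProp RetryProp L)
open Crest.Agent.R154.Fin804
open Crest.Agent.R154.Flux566 (lw endp sitesL Fol n1)
open Filter
open scoped ENNReal Topology

variable {d : ℕ}

/-! ### lateral targets and words -/

/-- the lateral ball of radius `ρ` -/
noncomputable def Lat (u : Step d) (ρ : ℕ) : Finset (Site d) :=
  (boxF d ρ).filter fun v => lev u v = 0

theorem mem_Lat {u : Step d} {ρ : ℕ} {v : Site d} : v ∈ Lat u ρ ↔ nrm v ≤ ρ ∧ lev u v = 0 := by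
  rw [Lat, Finset.mem_filter, mem_boxF]

theorem lev_zero (u : Step d) : lev u (0 : Site d) = 0 := by simp [lev]

theorem zero_mem_Lat (u : Step d) (ρ : ℕ) : (0 : Site d) ∈ Lat u ρ :=
  mem_Lat.2 ⟨by rw [nrm_zero]; positivity, lev_zero u⟩

theorem card_Lat_le (u : Step d) (ρ : ℕ) : (Lat u ρ).card ≤ (2 * ρ + 1) ^ d :=
  (Finset.card_filter_le _ _).trans (card_boxF d ρ).le

theorem n1_le {ρ : ℕ} {v : Site d} (hv : nrm v ≤ ρ) : n1 v ≤ d * ρ := by
  unfold n1
  calc ∑ i, (v i).natAbs ≤ ∑ _i : Fin d, ρ := by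
        refine Finset.sum_le_sum fun i _ => ?_
        have h := (nrm_le_iff (by positivity)).1 hv i
        rw [Int.abs_eq_natAbs] at h
        exact_mod_cast h
    _ = d * ρ := by simp

theorem exists_wd (u : Step d) (v : Site d) (hv : lev u v = 0) :
    ∃ l : List (Step d), (∀ e ∈ l, lev u (stepVec e) = 0) ∧ l.length = n1 v ∧ ∀ x : Site d,
      endp x (l ++ [u]) = x + v + stepVec u ∧ (sitesL x (l ++ [u])).Nodup := by
  obtain ⟨l, h1, h2, h3⟩ := Flux566.exists_word u u (n1 v) v hv rfl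
  refine ⟨l, h1, h2, fun x => ⟨?_, (h3 x).2.1⟩⟩
  rw [Flux566.endp_append, (h3 x).1]
  rfl

open Classical in
/-- the lateral part of the word -/
noncomputable def wd (u : Step d) (v : Site d) : List (Step d) :=
  if h : lev u v = 0 then (exists_wd u v h).choose else []

theorem wd_spec (u : Step d) (v : Site d) (hv : lev u v = 0) :
    (∀ e ∈ wd u v, lev u (stepVec e) = 0) ∧ (wd u v).length = n1 v ∧ ∀ x : Site d,
      endp x (wd u v ++ [u]) = x + v + stepVec u ∧ (sitesL x (wd u v ++ [u])).Nodup := by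
  unfold wd
  rw [dif_pos hv]
  exact (exists_wd u v hv).choose_spec

/-- following a lateral word, then `u`, then climbing -/
theorem fol_up (u : Step d) (h : ℕ) (l : List (Step d)) (hl : ∀ e ∈ l, lev u (stepVec e) = 0)
    (X : Path d) (hX : X ∈ Fol (l ++ [u]) (Climb u h)) :
    ∃ n, lev u (X 0) + 1 + h ≤ lev u (X n) ∧ ∀ k ≤ n, lev u (X 0) ≤ lev u (X k) := by
  induction l generalizing X with
  | nil =>
    obtain ⟨h1, n, h2, h3⟩ := hX
    have h4 : lev u (X 1) = lev u (X 0) + 1 := by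
      rw [h1, Fin804.lev_add, show lev u (stepVec u) = 1 from Flux566.lev_self u]
    have h5 : shift 1 X 0 = X 1 := rfl
    rw [h5] at h2 h3
    refine ⟨1 + n, ?_, ?_⟩
    · have : shift 1 X n = X (1 + n) := rfl
      rw [this] at h2
      omega
    · intro k hk
      rcases Nat.eq_zero_or_pos k with rfl | hk0
      · exact le_rfl
      · obtain ⟨k', rfl⟩ := Nat.exists_eq_add_of_le hk0
        have := h3 k' (by omega)
        have h6 : shift 1 X k' = X (1 + k') := rfl
        rw [h6] at this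
        have h7 : Nat.succ 0 + k' = 1 + k' := rfl
        rw [h7]
        omega
  | cons e l ih =>
    obtain ⟨h1, h2⟩ := hX
    have h4 : lev u (X 1) = lev u (X 0) := by
      rw [h1, Fin804.lev_add, hl e List.mem_cons_self, add_zero]
    obtain ⟨n, h5, h6⟩ := ih (fun e' he' => hl e' (List.mem_cons_of_mem _ he')) (shift 1 X) h2
    have h8 : shift 1 X 0 = X 1 := rfl
    rw [h8] at h5 h6
    refine ⟨1 + n, ?_, ?_⟩
    · have : shift 1 X n = X (1 + n) := rfl
      rw [this] at h5
      omega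
    · intro k hk
      rcases Nat.eq_zero_or_pos k with rfl | hk0
      · exact le_rfl
      · obtain ⟨k', rfl⟩ := Nat.exists_eq_add_of_le hk0
        have := h6 k' (by omega)
        have h6 : shift 1 X k' = X (1 + k') := rfl
        rw [h6] at this
        have h7 : Nat.succ 0 + k' = 1 + k' := rfl
        rw [h7]
        omega

/-- average success weight from `y` -/
noncomputable def S (u : Step d) (h ρ : ℕ) (ω : Environment d) (y : Site d) : ℝ≥0∞ :=
  ((Lat u ρ).card : ℝ≥0∞)⁻¹ * ∑ v ∈ Lat u ρ,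
    lw ω y (wd u v ++ [u]) * quenchedLaw ω (y + v + stepVec u) (Climb u h)

theorem card_ne_zero (u : Step d) (ρ : ℕ) : ((Lat u ρ).card : ℝ≥0∞) ≠ 0 := by
  have : (Lat u ρ).card ≠ 0 := Finset.card_ne_zero_of_mem (zero_mem_Lat u ρ)
  exact_mod_cast this

/-- going down and the success events are disjoint. -/
theorem down_add_S_le (u : Step d) (h ρ j : ℕ) (hj : j ≤ h) (ω : Environment d) (y : Site d)
    (hy : lev u y = -(j : ℤ)) :
    quenchedLaw ω y (Down u (j + 1)) + S u h ρ ω y ≤ 1 := by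
  have hone : ∀ v ∈ Lat u ρ, quenchedLaw ω y (Down u (j + 1))
      + lw ω y (wd u v ++ [u]) * quenchedLaw ω (y + v + stepVec u) (Climb u h) ≤ 1 := by
    intro v hv
    obtain ⟨hw1, hw2, hw3⟩ := wd_spec u v (mem_Lat.1 hv).2
    have hfol := Flux566.fol_ge ω (wd u v ++ [u]) y (measurableSet_climb u h)
    rw [(hw3 y).1] at hfol
    have hFm : MeasurableSet (Fol (wd u v ++ [u]) (Climb u h)) :=
      Flux566.measurableSet_Fol _ (measurableSet_climb u h)
    have hsub : quenchedLaw ω y (Down u (j + 1))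
        ≤ quenchedLaw ω y (Fol (wd u v ++ [u]) (Climb u h))ᶜ := by
      refine measure_mono_ae ?_
      filter_upwards [quenched_zero_eq ω y] with X h0 hD hF
      obtain ⟨n, hn1, hn2⟩ := fol_up u h (wd u v) hw1 X hF
      obtain ⟨m, hm1, hm2⟩ := hD
      rw [h0, hy] at hn1 hn2
      rcases le_or_gt m n with hle | hlt
      · have := hn2 m hle
        push_cast at hm2
        omega
      · have := hm1 n hlt
        omega
    calc quenchedLaw ω y (Down u (j + 1))
          + lw ω y (wd u v ++ [u]) * quenchedLaw ω (y + v + stepVec u) (Climb u h)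
        ≤ quenchedLaw ω y (Fol (wd u v ++ [u]) (Climb u h))ᶜ
          + quenchedLaw ω y (Fol (wd u v ++ [u]) (Climb u h)) := add_le_add hsub hfol
      _ = 1 := by rw [add_comm]; exact prob_add_prob_compl hFm
  have hN0 := card_ne_zero u ρ
  have hNt : ((Lat u ρ).card : ℝ≥0∞) ≠ ⊤ := ENNReal.natCast_ne_top _
  unfold S
  set x : Site d → ℝ≥0∞ := fun v =>
    lw ω y (wd u v ++ [u]) * quenchedLaw ω (y + v + stepVec u) (Climb u h) with hx
  have h1 : ((Lat u ρ).card : ℝ≥0∞) * quenchedLaw ω y (Down u (j + 1)) + ∑ v ∈ Lat u ρ, x v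
      ≤ (Lat u ρ).card := by
    calc ((Lat u ρ).card : ℝ≥0∞) * quenchedLaw ω y (Down u (j + 1)) + ∑ v ∈ Lat u ρ, x v
        = ∑ v ∈ Lat u ρ, (quenchedLaw ω y (Down u (j + 1)) + x v) := by
          rw [Finset.sum_add_distrib, Finset.sum_const, nsmul_eq_mul]
      _ ≤ ∑ _v ∈ Lat u ρ, 1 := Finset.sum_le_sum hone
      _ = (Lat u ρ).card := by simp
  calc quenchedLaw ω y (Down u (j + 1)) + ((Lat u ρ).card : ℝ≥0∞)⁻¹ * ∑ v ∈ Lat u ρ, x v
      = ((Lat u ρ).card : ℝ≥0∞)⁻¹ * (((Lat u ρ).card : ℝ≥0∞) * quenchedLaw ω y (Down u (j + 1))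
          + ∑ v ∈ Lat u ρ, x v) := by
        rw [mul_add, ← mul_assoc, ENNReal.inv_mul_cancel hN0 hNt, one_mul]
    _ ≤ ((Lat u ρ).card : ℝ≥0∞)⁻¹ * (Lat u ρ).card := mul_le_mul' le_rfl h1
    _ = 1 := ENNReal.inv_mul_cancel hN0 hNt

/-! ### locality -/

theorem locOn_climb (u : Step d) (h : ℕ) (z : Site d) (m : ℤ) (hz : m ≤ lev u z) :
    Q561.LocOn {x : Site d | m ≤ lev u x} fun ω : Environment d => quenchedLaw ω z (Climb u h) := by
  have h0 : ∀ ω : Environment d, quenchedLaw ω z (Climb u h)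
      = quenchedLaw ω z (Climb u h ∩ {X : Path d | X 0 = z}) := by
    intro ω
    refine measure_congr ?_
    filter_upwards [quenched_zero_eq ω z] with X hX
    apply propext
    exact ⟨fun h => ⟨h, hX⟩, fun h => h.1⟩
  simp only [h0]
  refine Q561.locOn_quenched z
    ((measurableSet_climb u h).inter (Kal132.measurable_coordSet 0 {z})) ?_
  rw [Q561.dec_iff]
  rintro X Y hXY ⟨⟨n, h1, h2⟩, hX0⟩
  have hX0' : X 0 = z := hX0
  rw [hX0'] at h1 h2
  have hXm : ∀ j, j ≤ n → X j ∈ {x : Site d | m ≤ lev u x} := fun j hj => hz.trans (h2 j hj)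
  have hX' : ∀ i, i ≤ n → Q561.stopAt {x : Site d | m ≤ lev u x} X i = X i :=
    fun i hi => Q561.stopAt_eq_of_mem fun j hj => hXm j (by omega)
  have hY : ∀ j, j ≤ n → Y j ∈ {x : Site d | m ≤ lev u x} := by
    intro j hj
    refine Q561.mem_of_stopAt_mem (k := j) ?_ j le_rfl
    rw [← hXY, hX' j hj]
    exact hXm j hj
  have hYX : ∀ j, j ≤ n → Y j = X j := by
    intro j hj
    have : Q561.stopAt {x : Site d | m ≤ lev u x} Y j = Y j :=
      Q561.stopAt_eq_of_mem fun i hi => hY i (by omega)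
    rw [← this, ← hXY, hX' j hj]
  refine ⟨⟨n, ?_, ?_⟩, ?_⟩
  · rw [hYX 0 (Nat.zero_le n), hYX n le_rfl, hX0']
    exact h1
  · intro k hk
    rw [hYX 0 (Nat.zero_le n), hYX k hk, hX0']
    exact h2 k hk
  · show Y 0 = z
    rw [hYX 0 (Nat.zero_le n), hX0']

/-- first exit through the bottom of the slab at `y`, at time `k`. -/
def FA (u : Step d) (R j : ℕ) (y : Site d) (k : ℕ) : Set (Path d) :=
  {X | X k = y ∧ ∀ i < k, -(j : ℤ) < lev u (X i) ∧ lev u (X i) ≤ 0 ∧ nrm (X i) ≤ R}

theorem agree_FA (u : Step d) (R j : ℕ) (y : Site d) (k : ℕ) (X Y : Path d) (h : Agree k X Y) :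
    X ∈ FA u R j y k ↔ Y ∈ FA u R j y k := by
  have h2 : ∀ X Y : Path d, Agree k X Y → X ∈ FA u R j y k → Y ∈ FA u R j y k := by
    rintro X Y h ⟨h1, h2⟩
    exact ⟨by rw [← h k le_rfl, h1], fun i hi => by rw [← h i hi.le]; exact h2 i hi⟩
  exact ⟨h2 X Y h, h2 Y X h.symm⟩

theorem measurableSet_FA (u : Step d) (R j : ℕ) (y : Site d) (k : ℕ) :
    MeasurableSet (FA u R j y k) :=
  measurableSet_of_agree k _ fun X Y h => agree_FA u R j y k X Y h

/-- first exit through the bottom of the slab at `y`. -/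
def FE (u : Step d) (R j : ℕ) (y : Site d) : Set (Path d) := ⋃ k, FA u R j y k

theorem measurableSet_FE (u : Step d) (R j : ℕ) (y : Site d) : MeasurableSet (FE u R j y) :=
  MeasurableSet.iUnion fun k => measurableSet_FA u R j y k

theorem dec_FE (u : Step d) (R j : ℕ) (y : Site d) :
    Q561.Dec {x : Site d | -(j : ℤ) < lev u x} (FE u R j y) := by
  rw [Q561.dec_iff]
  intro X Y hXY hX
  simp only [FE, Set.mem_iUnion] at hX ⊢
  obtain ⟨m, h2, h1⟩ := hX
  set T : Set (Site d) := {x : Site d | -(j : ℤ) < lev u x} with hT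
  have hX' : ∀ i, i ≤ m → Q561.stopAt T X i = X i :=
    fun i hi => Q561.stopAt_eq_of_mem fun k hk => (h1 k (lt_of_lt_of_le hk hi)).1
  have hY : ∀ k, k < m → Y k ∈ T := by
    intro k hk
    refine Q561.mem_of_stopAt_mem (k := k) ?_ k le_rfl
    rw [← hXY, hX' k hk.le]
    exact (h1 k hk).1
  have hYX : ∀ k, k ≤ m → Y k = X k := by
    intro k hk
    have : Q561.stopAt T Y k = Y k := Q561.stopAt_eq_of_mem fun i hi => hY i (by omega)
    rw [← this, ← hXY, hX' k hk]
  refine ⟨m, by rw [hYX m le_rfl, h2], fun i hi => ?_⟩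
  rw [hYX i hi.le]
  exact h1 i hi

theorem locOn_FE (u : Step d) (R j : ℕ) (y x : Site d) :
    Q561.LocOn {x : Site d | -(j : ℤ) < lev u x} fun ω : Environment d =>
      quenchedLaw ω x (FE u R j y) :=
  Q561.locOn_quenched x (measurableSet_FE u R j y) (dec_FE u R j y)

theorem FA_unique (u : Step d) (R j : ℕ) {y y' : Site d} (hy : lev u y = -(j : ℤ))
    (hy' : lev u y' = -(j : ℤ)) {k k' : ℕ} {X : Path d} (h : X ∈ FA u R j y k)
    (h' : X ∈ FA u R j y' k') : k = k' ∧ y = y' := by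
  have hk : k = k' := by
    rcases lt_trichotomy k k' with hlt | heq | hlt
    · have := (h'.2 k hlt).1
      rw [h.1, hy] at this; exact absurd this (lt_irrefl _)
    · exact heq
    · have := (h.2 k' hlt).1
      rw [h'.1, hy'] at this; exact absurd this (lt_irrefl _)
  subst hk
  exact ⟨rfl, by rw [← h.1, h'.1]⟩

/-- sites of level `-j` in the box. -/
noncomputable def Lj (u : Step d) (R j : ℕ) : Finset (Site d) :=
  (boxF d R).filter fun y => lev u y = -(j : ℤ)

theorem mem_Lj {u : Step d} {R j : ℕ} {y : Site d} :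
    y ∈ Lj u R j ↔ nrm y ≤ R ∧ lev u y = -(j : ℤ) := by
  rw [Lj, Finset.mem_filter, mem_boxF]

/-- the exits at the sites of the level sum to at most the probability of going down. -/
theorem sum_FE_le (u : Step d) (R j : ℕ) (ω : Environment d) :
    ∑ y ∈ Lj u R j, quenchedLaw ω 0 (FE u R j y) ≤ quenchedLaw ω 0 (DownIn u j R) := by
  rw [← measure_biUnion_finset]
  · refine measure_mono ?_
    intro X hX
    simp only [Set.mem_iUnion, FE] at hX
    obtain ⟨y, hy, k, h1, h2⟩ := hX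
    refine ⟨k, fun i hi => (h2 i hi).2, ?_⟩
    rw [h1, (mem_Lj.1 hy).2]
  · intro y hy y' hy' hne
    rw [Function.onFun, Set.disjoint_left]
    intro X hX hX'
    simp only [FE, Set.mem_iUnion] at hX hX'
    obtain ⟨k, hk⟩ := hX
    obtain ⟨k', hk'⟩ := hX'
    exact hne (FA_unique u R j (mem_Lj.1 (Finset.mem_coe.1 hy)).2
      (mem_Lj.1 (Finset.mem_coe.1 hy')).2 hk hk').2
  · exact fun y _ => measurableSet_FE u R j y

/-- Markov property at the first exit. -/
theorem FE_inter (u : Step d) (R j : ℕ) (ω : Environment d) (y : Site d)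
    (hy : lev u y = -(j : ℤ)) {B : Set (Path d)} (hB : MeasurableSet B) :
    quenchedLaw ω 0 (⋃ k, FA u R j y k ∩ shift k ⁻¹' B)
      = quenchedLaw ω 0 (FE u R j y) * quenchedLaw ω y B := by
  rw [FE, measure_iUnion, measure_iUnion, ← ENNReal.tsum_mul_right]
  · refine tsum_congr fun k => ?_
    rw [markov_event ω 0 k (fun X Y h => agree_FA u R j y k X Y h) hB]
    rw [setLIntegral_congr_fun (g := fun _ => quenchedLaw ω y B) (measurableSet_FA u R j y k)
      (fun X hX => by rw [hX.1])]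
    rw [setLIntegral_const, mul_comm]
  · intro k k' hkk'
    rw [Function.onFun, Set.disjoint_left]
    intro X hX hX'
    exact hkk' (FA_unique u R j hy hy hX hX').1
  · exact fun k => measurableSet_FA u R j y k
  · intro k k' hkk'
    rw [Function.onFun, Set.disjoint_left]
    intro X hX hX'
    exact hkk' (FA_unique u R j hy hy hX.1 hX'.1).1
  · exact fun k => (measurableSet_FA u R j y k).inter (measurable_shift k hB)

/-- **quenched step**. -/
theorem downIn_succ_le (u : Step d) (R j : ℕ) (ω : Environment d) :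
    quenchedLaw ω 0 (DownIn u (j + 1) R)
      ≤ ∑ y ∈ Lj u R j, quenchedLaw ω 0 (FE u R j y) * quenchedLaw ω y (Down u (j + 1)) := by
  classical
  have h1 : quenchedLaw ω 0 (DownIn u (j + 1) R) ≤ quenchedLaw ω 0
      (⋃ y ∈ Lj u R j, ⋃ k, FA u R j y k ∩ shift k ⁻¹' Down u (j + 1)) := by
    refine measure_mono_ae ?_
    filter_upwards [quenched_nn ω 0, quenched_zero_eq ω 0] with X hnn h0 hX
    obtain ⟨n, h1, h2⟩ := hX
    have hex : ∃ n, lev u (X n) ≤ -(j : ℤ) := ⟨n, by push_cast at h2; omega⟩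
    set k := Nat.find hex with hk
    have hkn : k ≤ n := Nat.find_min' hex (by push_cast at h2; omega)
    have hk1 : lev u (X k) ≤ -(j : ℤ) := Nat.find_spec hex
    have hk2 : ∀ i < k, -(j : ℤ) < lev u (X i) := fun i hi => by
      have := Nat.find_min hex hi
      omega
    have hk3 : lev u (X k) = -(j : ℤ) := by
      refine le_antisymm hk1 ?_
      rcases Nat.eq_zero_or_pos k with h | h
      · rw [h, h0, lev_zero]
        omega
      · obtain ⟨i, hi⟩ := Nat.exists_eq_succ_of_ne_zero h.ne'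
        obtain ⟨e, he⟩ := hnn i
        have h4 := hk2 i (by omega)
        have h5 : X k = X i + stepVec e := by rw [hi]; exact he
        rw [h5, Fin804.lev_add]
        have := abs_le.1 (lev_step_le u e)
        omega
    have hkn' : k < n := by
      rcases hkn.lt_or_eq with h | h
      · exact h
      · exfalso
        rw [← h, hk3] at h2
        push_cast at h2
        omega
    refine Set.mem_iUnion₂.2 ⟨X k, mem_Lj.2 ⟨(h1 k hkn').2, hk3⟩, Set.mem_iUnion.2 ⟨k,
      ⟨rfl, fun i hi => ⟨hk2 i hi, (h1 i (by omega)).1, (h1 i (by omega)).2⟩⟩, ?_⟩⟩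
    refine ⟨n - k, fun i hi => (h1 (k + i) (by omega)).1, ?_⟩
    show lev u (X (k + (n - k))) ≤ _
    rw [Nat.add_sub_cancel' hkn]
    exact h2
  refine h1.trans ((measure_biUnion_finset_le _ _).trans (Finset.sum_le_sum fun y hy => ?_))
  rw [FE_inter u R j ω y (mem_Lj.1 hy).2 (measurableSet_down u (j + 1))]

/-! ### averaging over the rows of one level -/

theorem measurable_S (u : Step d) (h ρ : ℕ) (y : Site d) :
    Measurable fun ω : Environment d => S u h ρ ω y := by
  unfold S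
  refine Measurable.const_mul ?_ _
  exact Finset.measurable_sum _ fun v _ => (Flux566.measurable_lw y _).mul
    (measurable_quenched_apply _ (measurableSet_climb u h))

/-- **averaging**: for a weight `F` which reads only rows above the level of `y`, and which lives on
environments where some target of `y` climbs well, the average success is at least
`c ^ L / N * s`. -/
theorem avg_ge (ν : Measure (Row d)) [IsProbabilityMeasure ν] {c : ℝ≥0∞} (hc1 : c ≤ 1)
    (hc : ∀ (x : Site d) (e : Step d),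
      c ≤ ∫⁻ ω : Environment d, ENNReal.ofReal ((ω x).1 e) ∂(iidEnvironmentLaw ν))
    (u : Step d) (h ρ : ℕ) (y : Site d) (s : ℝ≥0∞) {F : Environment d → ℝ≥0∞}
    (hF : Measurable F) (hFl : Q561.LocOn {x : Site d | lev u y < lev u x} F)
    (hFs : ∀ ω, F ω ≠ 0 → s ≤ ∑ v ∈ Lat u ρ, quenchedLaw ω (y + v + stepVec u) (Climb u h)) :
    ((Lat u ρ).card : ℝ≥0∞)⁻¹ * c ^ (d * ρ + 1) * s * ∫⁻ ω, F ω ∂(iidEnvironmentLaw ν)
      ≤ ∫⁻ ω, F ω * S u h ρ ω y ∂(iidEnvironmentLaw ν) := by
  set Q := iidEnvironmentLaw ν with hQ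
  have hmc : ∀ v, Measurable fun ω : Environment d =>
      quenchedLaw ω (y + v + stepVec u) (Climb u h) := fun v =>
    measurable_quenched_apply _ (measurableSet_climb u h)
  have hFC : ∀ v, Measurable fun ω : Environment d =>
      F ω * quenchedLaw ω (y + v + stepVec u) (Climb u h) := fun v => hF.mul (hmc v)
  -- expand the right-hand side
  have e1 : ∫⁻ ω, F ω * S u h ρ ω y ∂Q = ((Lat u ρ).card : ℝ≥0∞)⁻¹ * ∑ v ∈ Lat u ρ,
      ∫⁻ ω, (F ω * quenchedLaw ω (y + v + stepVec u) (Climb u h)) * lw ω y (wd u v ++ [u]) ∂Q := by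
    rw [← lintegral_finsetSum, ← lintegral_const_mul]
    · refine lintegral_congr fun ω => ?_
      unfold S
      rw [mul_left_comm, Finset.mul_sum]
      congr 1
      refine Finset.sum_congr rfl fun v _ => ?_
      ring
    · exact Finset.measurable_sum _ fun v _ => (hF.mul (hmc v)).mul (Flux566.measurable_lw y _)
    · exact fun v _ => (hF.mul (hmc v)).mul (Flux566.measurable_lw y _)
  have e2 : ∀ v ∈ Lat u ρ,
      c ^ (d * ρ + 1) * ∫⁻ ω, F ω * quenchedLaw ω (y + v + stepVec u) (Climb u h) ∂Q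
        ≤ ∫⁻ ω, (F ω * quenchedLaw ω (y + v + stepVec u) (Climb u h))
            * lw ω y (wd u v ++ [u]) ∂Q := by
    intro v hv
    obtain ⟨hw1, hw2, hw3⟩ := wd_spec u v (mem_Lat.1 hv).2
    have hlev : lev u (y + v + stepVec u) = lev u y + 1 := by
      rw [Fin804.lev_add, Fin804.lev_add, (mem_Lat.1 hv).2,
        show lev u (stepVec u) = 1 from Flux566.lev_self u, add_zero]
    rw [Q561.iid_lintegral_mul ν (S := {x : Site d | lev u y < lev u x})
      (T := {x : Site d | x ∈ sitesL y (wd u v ++ [u])})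
      (f := fun ω : Environment d => F ω * quenchedLaw ω (y + v + stepVec u) (Climb u h))
      (g := fun ω : Environment d => lw ω y (wd u v ++ [u])) ?_ (hFC v)
      (Flux566.measurable_lw y _) ?_ (Flux566.locOn_lw y _)]
    · rw [mul_comm]
      refine mul_le_mul' le_rfl ?_
      refine le_trans ?_ (Flux566.ann_lw_ge ν c hc (wd u v ++ [u]) y (hw3 y).2)
      refine pow_le_pow_right_of_le_one' hc1 ?_
      rw [List.length_append, hw2]
      have := n1_le (mem_Lat.1 hv).1
      simpa using this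
    · rw [Set.disjoint_left]
      intro x hx hx'
      have := Flux566.lev_sites u u (wd u v) hw1 y x hx'
      have hx2 : lev u y < lev u x := hx
      have h3 : lev u x = lev u y := this
      omega
    · intro ω ω' hωω'
      have a1 : F ω = F ω' := hFl ω ω' hωω'
      have a2 : quenchedLaw ω (y + v + stepVec u) (Climb u h)
          = quenchedLaw ω' (y + v + stepVec u) (Climb u h) :=
        (locOn_climb u h (y + v + stepVec u) (lev u y + 1) hlev.ge) ω ω' fun z hz => hωω' z
          (Int.lt_of_add_one_le hz)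
      show F ω * quenchedLaw ω (y + v + stepVec u) (Climb u h)
        = F ω' * quenchedLaw ω' (y + v + stepVec u) (Climb u h)
      rw [a1, a2]
  have e3 : s * ∫⁻ ω, F ω ∂Q
      ≤ ∑ v ∈ Lat u ρ, ∫⁻ ω, F ω * quenchedLaw ω (y + v + stepVec u) (Climb u h) ∂Q := by
    rw [← lintegral_finsetSum (Lat u ρ) (f := fun v (ω : Environment d) =>
      F ω * quenchedLaw ω (y + v + stepVec u) (Climb u h)) (fun v _ => hFC v),
      ← lintegral_const_mul _ hF]
    refine lintegral_mono fun ω => ?_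
    simp only
    rw [← Finset.mul_sum, mul_comm]
    by_cases h0 : F ω = 0
    · rw [h0]; simp
    · exact mul_le_mul' le_rfl (hFs ω h0)
  rw [e1]
  calc ((Lat u ρ).card : ℝ≥0∞)⁻¹ * c ^ (d * ρ + 1) * s * ∫⁻ ω, F ω ∂Q
      = ((Lat u ρ).card : ℝ≥0∞)⁻¹ * (c ^ (d * ρ + 1) * (s * ∫⁻ ω, F ω ∂Q)) := by ring
    _ ≤ ((Lat u ρ).card : ℝ≥0∞)⁻¹ * (c ^ (d * ρ + 1) * ∑ v ∈ Lat u ρ,
          ∫⁻ ω, F ω * quenchedLaw ω (y + v + stepVec u) (Climb u h) ∂Q) := by gcongr
    _ ≤ _ := by
        gcongr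
        rw [Finset.mul_sum]
        exact Finset.sum_le_sum e2

/-- one step at one site. -/
theorem site_step (ν : Measure (Row d)) [IsProbabilityMeasure ν] {c : ℝ≥0∞} (hc1 : c ≤ 1)
    (hc : ∀ (x : Site d) (e : Step d),
      c ≤ ∫⁻ ω : Environment d, ENNReal.ofReal ((ω x).1 e) ∂(iidEnvironmentLaw ν))
    (u : Step d) (h ρ j : ℕ) (hj : j ≤ h) (y : Site d) (hy : lev u y = -(j : ℤ)) (s : ℝ≥0∞)
    {F : Environment d → ℝ≥0∞} (hF1 : ∀ ω, F ω ≤ 1)
    (hF : Measurable F) (hFl : Q561.LocOn {x : Site d | -(j : ℤ) < lev u x} F)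
    (hFs : ∀ ω, F ω ≠ 0 → s ≤ ∑ v ∈ Lat u ρ, quenchedLaw ω (y + v + stepVec u) (Climb u h)) :
    ∫⁻ ω, F ω * quenchedLaw ω y (Down u (j + 1)) ∂(iidEnvironmentLaw ν)
      ≤ (1 - ((Lat u ρ).card : ℝ≥0∞)⁻¹ * c ^ (d * ρ + 1) * s)
          * ∫⁻ ω, F ω ∂(iidEnvironmentLaw ν) := by
  set Q := iidEnvironmentLaw ν with hQ
  have h1 := avg_ge ν hc1 hc u h ρ y s hF (by rw [hy]; exact hFl) hFs
  rw [← hQ] at h1
  have hI : ∫⁻ ω, F ω ∂Q ≠ ⊤ := by
    refine ne_top_of_le_ne_top ENNReal.one_ne_top ?_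
    calc ∫⁻ ω, F ω ∂Q ≤ ∫⁻ _, 1 ∂Q := lintegral_mono hF1
      _ = 1 := by simp
  have h2 : ∫⁻ ω, F ω * quenchedLaw ω y (Down u (j + 1)) ∂Q + ∫⁻ ω, F ω * S u h ρ ω y ∂Q
      ≤ ∫⁻ ω, F ω ∂Q := by
    have hFD : Measurable fun ω : Environment d => F ω * quenchedLaw ω y (Down u (j + 1)) :=
      hF.mul (measurable_quenched_apply _ (measurableSet_down u (j + 1)))
    rw [← lintegral_add_left hFD]
    refine lintegral_mono fun ω => ?_
    simp only
    rw [← mul_add]
    calc F ω * (quenchedLaw ω y (Down u (j + 1)) + S u h ρ ω y) ≤ F ω * 1 :=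
          mul_le_mul' le_rfl (down_add_S_le u h ρ j hj ω y hy)
      _ = F ω := mul_one _
  rw [ENNReal.sub_mul (fun _ _ => hI), one_mul]
  refine ENNReal.le_sub_of_add_le_right ?_ ((add_le_add le_rfl h1).trans h2)
  exact ne_top_of_le_ne_top hI (h1.trans ((le_add_self).trans h2))

/-! ### the good environments -/

/-- every site of the box and of levels in `(-j, 0]` has a target which climbs well. -/
def G (u : Step d) (h ρ R j : ℕ) (s : ℝ≥0∞) : Set (Environment d) :=
  {ω | ∀ y ∈ boxF d R, -(j : ℤ) < lev u y → lev u y ≤ 0 →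
    s ≤ ∑ v ∈ Lat u ρ, quenchedLaw ω (y + v + stepVec u) (Climb u h)}

theorem G_zero (u : Step d) (h ρ R : ℕ) (s : ℝ≥0∞) : G u h ρ R 0 s = Set.univ := by
  ext ω
  simp only [G, Set.mem_ofPred_eq, Set.mem_univ, iff_true]
  intro y _ h1 h2
  push_cast at h1
  omega

theorem G_anti (u : Step d) (h ρ R j : ℕ) (s : ℝ≥0∞) : G u h ρ R (j + 1) s ⊆ G u h ρ R j s := by
  intro ω hω y hy h1 h2
  exact hω y hy (by push_cast; omega) h2

theorem measurableSet_G (u : Step d) (h ρ R j : ℕ) (s : ℝ≥0∞) :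
    MeasurableSet (G u h ρ R j s) := by
  have : G u h ρ R j s = ⋂ y ∈ boxF d R, ⋂ (_ : -(j : ℤ) < lev u y), ⋂ (_ : lev u y ≤ 0),
      {ω : Environment d |
        s ≤ ∑ v ∈ Lat u ρ, quenchedLaw ω (y + v + stepVec u) (Climb u h)} := by
    ext ω
    simp only [G, Set.mem_ofPred_eq, Set.mem_iInter]
  rw [this]
  refine Finset.measurableSet_biInter _ fun y _ => MeasurableSet.iInter fun _ =>
    MeasurableSet.iInter fun _ => ?_
  exact measurableSet_le measurable_const (Finset.measurable_sum _ fun v _ =>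
    measurable_quenched_apply _ (measurableSet_climb u h))

theorem locOn_G (u : Step d) (h ρ R j : ℕ) (s : ℝ≥0∞) :
    Q561.LocOn {x : Site d | -(j : ℤ) < lev u x}
      fun ω : Environment d => (G u h ρ R (j + 1) s).indicator (1 : Environment d → ℝ≥0∞) ω := by
  classical
  intro ω ω' hωω'
  have key : ω ∈ G u h ρ R (j + 1) s ↔ ω' ∈ G u h ρ R (j + 1) s := by
    simp only [G, Set.mem_ofPred_eq]
    refine forall_congr' fun y => forall_congr' fun _ => forall_congr' fun h1 =>
      forall_congr' fun _ => ?_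
    have : ∑ v ∈ Lat u ρ, quenchedLaw ω (y + v + stepVec u) (Climb u h)
        = ∑ v ∈ Lat u ρ, quenchedLaw ω' (y + v + stepVec u) (Climb u h) := by
      refine Finset.sum_congr rfl fun v hv => ?_
      have hlev : lev u (y + v + stepVec u) = lev u y + 1 := by
        rw [Fin804.lev_add, Fin804.lev_add, (mem_Lat.1 hv).2,
          show lev u (stepVec u) = 1 from Flux566.lev_self u, add_zero]
      refine (locOn_climb u h (y + v + stepVec u) (-(j : ℤ) + 1) ?_) ω ω' fun z hz => hωω' z ?_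
      · rw [hlev]; push_cast at h1; omega
      · have hz' : -(j : ℤ) + 1 ≤ lev u z := hz
        show -(j : ℤ) < lev u z
        omega
    rw [this]
  simp only [Set.indicator_apply, key, Pi.one_apply]

/-- **one step of the recursion**. -/
theorem step_le (ν : Measure (Row d)) [IsProbabilityMeasure ν] {c : ℝ≥0∞} (hc1 : c ≤ 1)
    (hc : ∀ (x : Site d) (e : Step d),
      c ≤ ∫⁻ ω : Environment d, ENNReal.ofReal ((ω x).1 e) ∂(iidEnvironmentLaw ν))
    (u : Step d) (h ρ R j : ℕ) (hj : j ≤ h) (s : ℝ≥0∞) :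
    ∫⁻ ω, (G u h ρ R (j + 1) s).indicator (1 : Environment d → ℝ≥0∞) ω
        * quenchedLaw ω 0 (DownIn u (j + 1) R) ∂(iidEnvironmentLaw ν)
      ≤ (1 - ((Lat u ρ).card : ℝ≥0∞)⁻¹ * c ^ (d * ρ + 1) * s)
          * ∫⁻ ω, (G u h ρ R j s).indicator (1 : Environment d → ℝ≥0∞) ω
              * quenchedLaw ω 0 (DownIn u j R) ∂(iidEnvironmentLaw ν) := by
  set Q := iidEnvironmentLaw ν with hQ
  have hI : Measurable ((G u h ρ R (j + 1) s).indicator (1 : Environment d → ℝ≥0∞)) :=
    measurable_one.indicator (measurableSet_G u h ρ R (j + 1) s)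
  have hA : ∀ y, Measurable fun ω : Environment d => quenchedLaw ω 0 (FE u R j y) := fun y =>
    measurable_quenched_apply _ (measurableSet_FE u R j y)
  have hD : ∀ y, Measurable fun ω : Environment d => quenchedLaw ω y (Down u (j + 1)) := fun y =>
    measurable_quenched_apply _ (measurableSet_down u (j + 1))
  calc ∫⁻ ω, (G u h ρ R (j + 1) s).indicator (1 : Environment d → ℝ≥0∞) ω
        * quenchedLaw ω 0 (DownIn u (j + 1) R) ∂Q
      ≤ ∫⁻ ω, ∑ y ∈ Lj u R j, ((G u h ρ R (j + 1) s).indicator (1 : Environment d → ℝ≥0∞) ω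
          * quenchedLaw ω 0 (FE u R j y)) * quenchedLaw ω y (Down u (j + 1)) ∂Q := by
        refine lintegral_mono fun ω => ?_
        refine (mul_le_mul' le_rfl (downIn_succ_le u R j ω)).trans (le_of_eq ?_)
        rw [Finset.mul_sum]
        exact Finset.sum_congr rfl fun y _ => by rw [mul_assoc]
    _ = ∑ y ∈ Lj u R j, ∫⁻ ω, ((G u h ρ R (j + 1) s).indicator (1 : Environment d → ℝ≥0∞) ω
          * quenchedLaw ω 0 (FE u R j y)) * quenchedLaw ω y (Down u (j + 1)) ∂Q :=
        lintegral_finsetSum _ fun y _ => (hI.mul (hA y)).mul (hD y)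
    _ ≤ ∑ y ∈ Lj u R j, (1 - ((Lat u ρ).card : ℝ≥0∞)⁻¹ * c ^ (d * ρ + 1) * s)
          * ∫⁻ ω, (G u h ρ R (j + 1) s).indicator (1 : Environment d → ℝ≥0∞) ω
            * quenchedLaw ω 0 (FE u R j y) ∂Q := by
        refine Finset.sum_le_sum fun y hy => ?_
        refine site_step ν hc1 hc u h ρ j hj y (mem_Lj.1 hy).2 s ?_ (hI.mul (hA y)) ?_ ?_
        · intro ω
          calc (G u h ρ R (j + 1) s).indicator (1 : Environment d → ℝ≥0∞) ω
                * quenchedLaw ω 0 (FE u R j y) ≤ 1 * 1 :=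
                mul_le_mul' (Set.indicator_le_self' (fun _ _ => zero_le) ω) prob_le_one
            _ = 1 := one_mul 1
        · intro ω ω' hωω'
          simp only
          have e1 := locOn_G u h ρ R j s ω ω' hωω'
          have e2 := locOn_FE u R j y 0 ω ω' hωω'
          simp only at e1 e2
          rw [e1, e2]
        · intro ω hω
          have hmem : ω ∈ G u h ρ R (j + 1) s := by
            by_contra hcon
            apply hω
            rw [Set.indicator_of_notMem hcon, zero_mul]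
          refine hmem y (mem_boxF.2 (mem_Lj.1 hy).1) ?_ ?_
          · rw [(mem_Lj.1 hy).2]; push_cast; omega
          · rw [(mem_Lj.1 hy).2]; omega
    _ = (1 - ((Lat u ρ).card : ℝ≥0∞)⁻¹ * c ^ (d * ρ + 1) * s)
          * ∫⁻ ω, ∑ y ∈ Lj u R j, (G u h ρ R (j + 1) s).indicator (1 : Environment d → ℝ≥0∞) ω
            * quenchedLaw ω 0 (FE u R j y) ∂Q := by
        rw [← Finset.mul_sum, lintegral_finsetSum (Lj u R j) (f := fun y (ω : Environment d) =>
          (G u h ρ R (j + 1) s).indicator (1 : Environment d → ℝ≥0∞) ω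
            * quenchedLaw ω 0 (FE u R j y)) (fun y _ => hI.mul (hA y))]
    _ ≤ _ := by
        refine mul_le_mul' le_rfl (lintegral_mono fun ω => ?_)
        simp only
        rw [← Finset.mul_sum]
        exact mul_le_mul' (Set.indicator_le_indicator_of_subset (G_anti u h ρ R j s)
          (fun _ => zero_le) ω) (sum_FE_le u R j ω)

/-- **the recursion**. -/
theorem rec_le (ν : Measure (Row d)) [IsProbabilityMeasure ν] {c : ℝ≥0∞} (hc1 : c ≤ 1)
    (hc : ∀ (x : Site d) (e : Step d),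
      c ≤ ∫⁻ ω : Environment d, ENNReal.ofReal ((ω x).1 e) ∂(iidEnvironmentLaw ν))
    (u : Step d) (h ρ R : ℕ) (s : ℝ≥0∞) (j : ℕ) (hj : j ≤ h) :
    ∫⁻ ω, (G u h ρ R j s).indicator (1 : Environment d → ℝ≥0∞) ω
        * quenchedLaw ω 0 (DownIn u j R) ∂(iidEnvironmentLaw ν)
      ≤ (1 - ((Lat u ρ).card : ℝ≥0∞)⁻¹ * c ^ (d * ρ + 1) * s) ^ j := by
  induction j with
  | zero =>
    rw [pow_zero]
    calc ∫⁻ ω, (G u h ρ R 0 s).indicator (1 : Environment d → ℝ≥0∞) ω
          * quenchedLaw ω 0 (DownIn u 0 R) ∂(iidEnvironmentLaw ν)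
        ≤ ∫⁻ _, 1 * 1 ∂(iidEnvironmentLaw ν) := by
          refine lintegral_mono fun ω => ?_
          exact mul_le_mul' (Set.indicator_le_self' (fun _ _ => zero_le) ω) prob_le_one
      _ = 1 := by simp
  | succ j ih =>
    refine (step_le ν hc1 hc u h ρ R j (by omega) s).trans ?_
    rw [pow_succ _ j, mul_comm]
    exact mul_le_mul' (ih (by omega)) le_rfl

/-- **annealed bound**. -/
theorem annealed_downIn_le (ν : Measure (Row d)) [IsProbabilityMeasure ν] {c : ℝ≥0∞} (hc1 : c ≤ 1)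
    (hc : ∀ (x : Site d) (e : Step d),
      c ≤ ∫⁻ ω : Environment d, ENNReal.ofReal ((ω x).1 e) ∂(iidEnvironmentLaw ν))
    (u : Step d) (h ρ R : ℕ) (s : ℝ≥0∞) :
    annealed (iidEnvironmentLaw ν) 0 (DownIn u h R)
      ≤ (1 - ((Lat u ρ).card : ℝ≥0∞)⁻¹ * c ^ (d * ρ + 1) * s) ^ h
        + ((2 * R + 1) ^ d : ℕ) * iidEnvironmentLaw ν
          {ω | ∀ z, lev u z = 0 → nrm z ≤ ρ → quenchedLaw ω z (Climb u h) < s} := by
  set Q := iidEnvironmentLaw ν with hQ
  have hGm := measurableSet_G (d := d) u h ρ R h s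
  have hI : Measurable ((G u h ρ R h s).indicator (1 : Environment d → ℝ≥0∞)) :=
    measurable_one.indicator hGm
  have hDm : Measurable fun ω : Environment d => quenchedLaw ω 0 (DownIn u h R) :=
    measurable_quenched_apply _ (measurableSet_downIn u h R)
  rw [annealed_apply Q 0 (measurableSet_downIn u h R)]
  unfold annealedProb
  have h1 : ∫⁻ ω, quenchedLaw ω 0 (DownIn u h R) ∂Q
      ≤ ∫⁻ ω, ((G u h ρ R h s).indicator (1 : Environment d → ℝ≥0∞) ω
          * quenchedLaw ω 0 (DownIn u h R)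
          + (G u h ρ R h s)ᶜ.indicator (1 : Environment d → ℝ≥0∞) ω) ∂Q := by
    refine lintegral_mono fun ω => ?_
    by_cases hω : ω ∈ G u h ρ R h s
    · rw [Set.indicator_of_mem hω, Pi.one_apply, one_mul]
      exact le_self_add
    · rw [Set.indicator_of_mem (show ω ∈ (G u h ρ R h s)ᶜ from hω), Pi.one_apply]
      exact prob_le_one.trans le_add_self
  refine h1.trans ?_
  have hID : Measurable fun ω : Environment d =>
      (G u h ρ R h s).indicator (1 : Environment d → ℝ≥0∞) ω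
        * quenchedLaw ω 0 (DownIn u h R) := hI.mul hDm
  rw [lintegral_add_left hID, lintegral_indicator_one hGm.compl]
  refine add_le_add (rec_le ν hc1 hc u h ρ R s h le_rfl) ?_
  have hsub : (G u h ρ R h s)ᶜ ⊆ ⋃ y ∈ boxF d R, shiftEnv (y + stepVec u) ⁻¹'
      {ω : Environment d | ∑ v ∈ Lat u ρ, quenchedLaw ω v (Climb u h) < s} := by
    intro ω hω
    simp only [G, Set.mem_compl_iff, Set.mem_ofPred_eq, not_forall, not_le] at hω
    obtain ⟨y, hy, _, _, hlt⟩ := hω
    refine Set.mem_iUnion₂.2 ⟨y, hy, ?_⟩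
    show ∑ v ∈ Lat u ρ, quenchedLaw (shiftEnv (y + stepVec u) ω) v (Climb u h) < s
    have : ∀ v ∈ Lat u ρ, quenchedLaw (shiftEnv (y + stepVec u) ω) v (Climb u h)
        = quenchedLaw ω (y + v + stepVec u) (Climb u h) := by
      intro v _
      have h3 := Q561.quenched_shift_apply (y + stepVec u) ω v (measurableSet_climb u h)
      rw [tr_preimage_climb] at h3
      rw [← h3]
      congr 2
      abel
    rw [Finset.sum_congr rfl this]
    exact hlt
  have hBm : MeasurableSet {ω : Environment d | ∑ v ∈ Lat u ρ, quenchedLaw ω v (Climb u h) < s} :=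
    measurableSet_lt (Finset.measurable_sum _ fun v _ =>
      measurable_quenched_apply _ (measurableSet_climb u h)) measurable_const
  refine (measure_mono hsub).trans ((measure_biUnion_finset_le _ _).trans ?_)
  have hall : ∀ y ∈ boxF d R, Q (shiftEnv (y + stepVec u) ⁻¹'
      {ω : Environment d | ∑ v ∈ Lat u ρ, quenchedLaw ω v (Climb u h) < s})
      = Q {ω : Environment d | ∑ v ∈ Lat u ρ, quenchedLaw ω v (Climb u h) < s} := fun y _ =>
    (Q561.iid_shift ν (y + stepVec u)).measure_preimage hBm.nullMeasurableSet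
  rw [Finset.sum_congr rfl hall, Finset.sum_const, card_boxF, nsmul_eq_mul]
  refine mul_le_mul' le_rfl (measure_mono ?_)
  intro ω hω z hz1 hz2
  exact lt_of_le_of_lt (Finset.single_le_sum (f := fun v => quenchedLaw ω v (Climb u h))
    (fun _ _ => zero_le) (mem_Lat.2 ⟨hz2, hz1⟩)) hω

/-! ### the finite-level statement, merely elliptic form -/

/-- **(FLe)**: polynomially small probability that every site of the lateral ball of radius `η i`
climbs `10^i` levels with quenched probability below `e^{-δ i}`. -/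
def FLe (Q : Measure (Environment d)) (u : Step d) : Prop :=
  ∀ δ M η : ℝ, 0 < δ → 0 < M → 0 < η → ∃ C : ℝ, ∀ i : ℕ,
    Q {ω | ∀ z : Site d, lev u z = 0 → (nrm z : ℝ) ≤ η * i →
        quenchedLaw ω z (Climb u (10 ^ i)) < ENNReal.ofReal (Real.exp (-(δ * i)))}
      ≤ ENNReal.ofReal (C * Real.exp (-(M * i)))

/-- a uniform positive lower bound for the annealed one-step probabilities. -/
theorem exists_c (ν : Measure (Row d)) [IsProbabilityMeasure ν]
    (hν : ∀ᵐ p ∂ν, ∀ e : Step d, 0 < p.1 e) :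
    ∃ c : ℝ, 0 < c ∧ c ≤ 1 ∧ ∀ (x : Site d) (e : Step d),
      ENNReal.ofReal c ≤ ∫⁻ ω : Environment d, ENNReal.ofReal ((ω x).1 e)
        ∂(iidEnvironmentLaw ν) := by
  classical
  have hm : ∀ e : Step d, Measurable fun r : Row d => ENNReal.ofReal (r.1 e) := fun e =>
    ENNReal.measurable_ofReal.comp ((measurable_pi_apply e).comp measurable_subtype_coe)
  set I : Step d → ℝ≥0∞ := fun e => ∫⁻ r : Row d, ENNReal.ofReal (r.1 e) ∂ν with hI
  have hIpos : ∀ e, 0 < I e := by
    intro e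
    rw [hI, pos_iff_ne_zero]
    simp only
    rw [Ne, lintegral_eq_zero_iff (hm e)]
    intro h0
    have h1 : ∀ᵐ _r : Row d ∂ν, False := by
      filter_upwards [h0, hν] with r hr1 hr2
      have h3 := hr2 e
      simp only [Pi.zero_apply, ENNReal.ofReal_eq_zero] at hr1
      linarith
    rw [Filter.eventually_false_iff_eq_bot, ae_eq_bot] at h1
    exact IsProbabilityMeasure.ne_zero ν h1
  set w : Step d → ℝ := fun e => (min 1 (I e)).toReal with hw
  have hfin : ∀ e, min 1 (I e) ≠ ⊤ := fun e => ne_top_of_le_ne_top ENNReal.one_ne_top (min_le_left _ _)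
  have hw0 : ∀ e, 0 < w e := fun e =>
    ENNReal.toReal_pos (lt_min one_pos (hIpos e)).ne' (hfin e)
  have hw1 : ∀ e, w e ≤ 1 := fun e => by
    have := ENNReal.toReal_mono ENNReal.one_ne_top (min_le_left 1 (I e))
    simpa using this
  refine ⟨∏ e, w e, Finset.prod_pos fun e _ => hw0 e,
    Finset.prod_le_one (fun e _ => (hw0 e).le) fun e _ => hw1 e, fun x e => ?_⟩
  have h1 : ∏ e', w e' ≤ w e := by
    rw [← Finset.mul_prod_erase Finset.univ w (Finset.mem_univ e)]
    exact mul_le_of_le_one_right (hw0 e).le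
      (Finset.prod_le_one (fun e' _ => (hw0 e').le) fun e' _ => hw1 e')
  have h2 : ∫⁻ ω : Environment d, ENNReal.ofReal ((ω x).1 e) ∂(iidEnvironmentLaw ν) = I e := by
    have hmp : MeasurePreserving (fun ω : Environment d => ω x) (iidEnvironmentLaw ν) ν :=
      measurePreserving_eval_infinitePi (fun _ : Site d => ν) x
    exact hmp.lintegral_comp (hm e)
  rw [h2]
  calc ENNReal.ofReal (∏ e', w e') ≤ ENNReal.ofReal (w e) := ENNReal.ofReal_le_ofReal h1
    _ = min 1 (I e) := ENNReal.ofReal_toReal (hfin e)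
    _ ≤ I e := min_le_right _ _

/-- lower bound of the success constant. -/
theorem const_ge (u : Step d) {c : ℝ} (hc0 : 0 < c) (hc1 : c ≤ 1) (i ρ : ℕ)
    (hρ : (2 * d + d * |Real.log c|) * ρ ≤ 1 / 2 * (i : ℝ)) :
    ENNReal.ofReal (c * Real.exp (-(1 * (i : ℝ))))
      ≤ ((Lat u ρ).card : ℝ≥0∞)⁻¹ * (ENNReal.ofReal c) ^ (d * ρ + 1)
        * ENNReal.ofReal (Real.exp (-(1 / 2 * (i : ℝ)))) := by
  have h1 : ENNReal.ofReal (Real.exp (-(2 * d * ρ))) ≤ ((Lat u ρ).card : ℝ≥0∞)⁻¹ := by
    rw [Real.exp_neg, ENNReal.ofReal_inv_of_pos (Real.exp_pos _), ENNReal.inv_le_inv]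
    calc ((Lat u ρ).card : ℝ≥0∞) ≤ (((2 * ρ + 1) ^ d : ℕ) : ℝ≥0∞) := by
          exact_mod_cast card_Lat_le u ρ
      _ = ENNReal.ofReal ((((2 * ρ + 1) ^ d : ℕ) : ℝ)) := (ENNReal.ofReal_natCast _).symm
      _ ≤ ENNReal.ofReal (Real.exp (2 * d * ρ)) := by
          refine ENNReal.ofReal_le_ofReal ?_
          push_cast
          calc (2 * (ρ : ℝ) + 1) ^ d ≤ (Real.exp (2 * ρ)) ^ d :=
                pow_le_pow_left₀ (by positivity) (Real.add_one_le_exp _) d
            _ = Real.exp (2 * d * ρ) := by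
                rw [← Real.exp_nat_mul]; congr 1; ring
  have h2 : ENNReal.ofReal (c * Real.exp (-(d * |Real.log c| * ρ)))
      ≤ (ENNReal.ofReal c) ^ (d * ρ + 1) := by
    rw [← ENNReal.ofReal_pow hc0.le]
    refine ENNReal.ofReal_le_ofReal (le_of_eq ?_)
    rw [pow_succ, mul_comm]
    congr 1
    have h3 : |Real.log c| = - Real.log c := abs_of_nonpos (Real.log_nonpos hc0.le hc1)
    rw [h3]
    have h4 : (c ^ (d * ρ) : ℝ) = Real.exp (((d * ρ : ℕ) : ℝ) * Real.log c) := by
      rw [← Real.log_pow, Real.exp_log (by positivity)]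
    rw [h4]
    congr 1
    push_cast
    ring
  calc ENNReal.ofReal (c * Real.exp (-(1 * (i : ℝ))))
      ≤ ENNReal.ofReal (Real.exp (-(2 * d * ρ)) * (c * Real.exp (-(d * |Real.log c| * ρ)))
          * Real.exp (-(1 / 2 * (i : ℝ)))) := by
        refine ENNReal.ofReal_le_ofReal ?_
        have h5 : Real.exp (-(2 * d * ρ)) * (c * Real.exp (-(d * |Real.log c| * ρ)))
            * Real.exp (-(1 / 2 * (i : ℝ)))
            = c * Real.exp (-((2 * d + d * |Real.log c|) * ρ) - 1 / 2 * (i : ℝ)) := by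
          have : Real.exp (-((2 * d + d * |Real.log c|) * ρ) - 1 / 2 * (i : ℝ))
              = Real.exp (-(2 * d * ρ)) * Real.exp (-(d * |Real.log c| * ρ))
                * Real.exp (-(1 / 2 * (i : ℝ))) := by
            rw [← Real.exp_add, ← Real.exp_add]
            congr 1
            ring
          rw [this]
          ring
        rw [h5]
        refine mul_le_mul_of_nonneg_left (Real.exp_le_exp.2 ?_) hc0.le
        linarith
    _ = ENNReal.ofReal (Real.exp (-(2 * d * ρ)))
          * ENNReal.ofReal (c * Real.exp (-(d * |Real.log c| * ρ)))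
          * ENNReal.ofReal (Real.exp (-(1 / 2 * (i : ℝ)))) := by
        rw [← ENNReal.ofReal_mul (Real.exp_pos _).le, ← ENNReal.ofReal_mul (by positivity)]
    _ ≤ _ := by gcongr

/-- **(FLe) implies that the walk does not go down inside a polynomial box** (iid, elliptic). -/
theorem tendsto_downIn (ν : Measure (Row d)) [IsProbabilityMeasure ν]
    (hν : ∀ᵐ p ∂ν, ∀ e : Step d, 0 < p.1 e) (u : Step d) (hFL : FLe (iidEnvironmentLaw ν) u) :
    Tendsto (fun i : ℕ => annealed (iidEnvironmentLaw ν) 0 (DownIn u (10 ^ i) (100 ^ i)))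
      atTop (𝓝 0) := by
  obtain ⟨c, hc0, hc1, hc⟩ := exists_c ν hν
  set K : ℝ := 2 * d + d * |Real.log c| with hK
  have hK0 : 0 ≤ K := by positivity
  set η : ℝ := 1 / (2 * (K + 1)) with hη
  have hη0 : 0 < η := by positivity
  obtain ⟨C, hC⟩ := hFL (1 / 2) (d * Real.log 100 + 1) η (by norm_num) (by
    have : 0 ≤ Real.log 100 := Real.log_nonneg (by norm_num)
    positivity) hη0
  have hb : Tendsto (fun i : ℕ =>
      ENNReal.ofReal (Real.exp (-(c * Real.exp (-(1 * (i : ℝ))) * ((10 ^ i : ℕ) : ℝ))))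
        + ENNReal.ofReal (3 ^ d * |C| * Real.exp (-(i : ℝ)))) atTop (𝓝 0) := by
    have h1 : Tendsto (fun i : ℕ => ENNReal.ofReal
        (Real.exp (-(c * Real.exp (-(1 * (i : ℝ))) * ((10 ^ i : ℕ) : ℝ))))) atTop (𝓝 0) := by
      rw [← ENNReal.ofReal_zero]
      refine (ENNReal.continuous_ofReal.tendsto 0).comp ?_
      have h3 : Tendsto (fun i : ℕ => c * (Real.exp (-(1 * (i : ℝ))) * ((10 ^ i : ℕ) : ℝ)))
          atTop atTop := tendsto_ten.const_mul_atTop hc0
      refine (Real.tendsto_exp_neg_atTop_nhds_zero.comp h3).congr fun i => ?_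
      simp only [Function.comp_apply, mul_assoc]
    have h2 : Tendsto (fun i : ℕ => ENNReal.ofReal (3 ^ d * |C| * Real.exp (-(i : ℝ)))) atTop
        (𝓝 0) := by
      rw [← ENNReal.ofReal_zero]
      refine (ENNReal.continuous_ofReal.tendsto 0).comp ?_
      have : Tendsto (fun i : ℕ => 3 ^ d * |C| * Real.exp (-(i : ℝ))) atTop
          (𝓝 (3 ^ d * |C| * 0)) :=
        (Real.tendsto_exp_neg_atTop_nhds_zero.comp tendsto_natCast_atTop_atTop).const_mul _
      simpa using this
    simpa using h1.add h2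
  refine tendsto_of_tendsto_of_tendsto_of_le_of_le tendsto_const_nhds hb (fun _ => zero_le)
    fun i => (annealed_downIn_le ν (c := ENNReal.ofReal c) (by
      rw [← ENNReal.ofReal_one]; exact ENNReal.ofReal_le_ofReal hc1) hc u (10 ^ i) ⌊η * i⌋₊ (100 ^ i)
      (ENNReal.ofReal (Real.exp (-(1 / 2 * (i : ℝ)))))).trans ?_
  have hρ : (2 * d + d * |Real.log c|) * (⌊η * i⌋₊ : ℝ) ≤ 1 / 2 * (i : ℝ) := by
    rw [← hK]
    have h1 : (⌊η * i⌋₊ : ℝ) ≤ η * i := Nat.floor_le (by positivity)
    have h2 : K * η ≤ 1 / 2 := by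
      rw [hη, mul_one_div, div_le_iff₀ (by positivity)]
      linarith
    have h3 : (0 : ℝ) ≤ i := Nat.cast_nonneg i
    calc K * (⌊η * i⌋₊ : ℝ) ≤ K * (η * i) := mul_le_mul_of_nonneg_left h1 hK0
      _ = (K * η) * i := by ring
      _ ≤ 1 / 2 * i := mul_le_mul_of_nonneg_right h2 h3
  refine add_le_add ?_ ?_
  · refine le_trans (pow_le_pow_left' (tsub_le_tsub_left (const_ge u hc0 hc1 i _ hρ) 1) _) ?_
    refine one_sub_pow_le _ (by positivity) ?_ _
    have h1 : Real.exp (-(1 * (i : ℝ))) ≤ 1 := Real.exp_le_one_iff.2 (by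
      have : (0 : ℝ) ≤ i := Nat.cast_nonneg i
      linarith)
    calc c * Real.exp (-(1 * (i : ℝ))) ≤ 1 * 1 :=
          mul_le_mul hc1 h1 (Real.exp_pos _).le zero_le_one
      _ = 1 := one_mul 1
  · have h3 : (((2 * 100 ^ i + 1) ^ d : ℕ) : ℝ≥0∞) ≤ ENNReal.ofReal ((3 * 100 ^ i) ^ d) := by
      rw [← ENNReal.ofReal_natCast]
      refine ENNReal.ofReal_le_ofReal ?_
      push_cast
      refine pow_le_pow_left₀ (by positivity) ?_ d
      have : (1 : ℝ) ≤ 100 ^ i := one_le_pow₀ (by norm_num)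
      linarith
    have h0 : (iidEnvironmentLaw ν) {ω | ∀ z, lev u z = 0 → nrm z ≤ (⌊η * i⌋₊ : ℤ) →
          quenchedLaw ω z (Climb u (10 ^ i)) < ENNReal.ofReal (Real.exp (-(1 / 2 * (i : ℝ))))}
        ≤ ENNReal.ofReal (C * Real.exp (-((d * Real.log 100 + 1) * i))) := by
      refine (measure_mono ?_).trans (hC i)
      intro ω hω z hz1 hz2
      refine hω z hz1 ?_
      have h4 : ((nrm z).toNat : ℤ) = nrm z := Int.toNat_of_nonneg (nrm_nonneg z)
      rw [← h4]
      have h5 : (nrm z).toNat ≤ ⌊η * i⌋₊ := by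
        refine Nat.le_floor ?_
        have h6 : (((nrm z).toNat : ℕ) : ℝ) = (((nrm z).toNat : ℤ) : ℝ) := (Int.cast_natCast _).symm
        rw [h6, h4]
        exact hz2
      exact_mod_cast h5
    calc (((2 * 100 ^ i + 1) ^ d : ℕ) : ℝ≥0∞)
          * (iidEnvironmentLaw ν) {ω | ∀ z, lev u z = 0 → nrm z ≤ (⌊η * i⌋₊ : ℤ) →
          quenchedLaw ω z (Climb u (10 ^ i)) < ENNReal.ofReal (Real.exp (-(1 / 2 * (i : ℝ))))}
        ≤ ENNReal.ofReal ((3 * 100 ^ i) ^ d)
            * ENNReal.ofReal (C * Real.exp (-((d * Real.log 100 + 1) * i))) :=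
          mul_le_mul' h3 h0
      _ ≤ ENNReal.ofReal ((3 * 100 ^ i) ^ d)
            * ENNReal.ofReal (|C| * Real.exp (-((d * Real.log 100 + 1) * i))) := by
          gcongr
          exact le_abs_self C
      _ = ENNReal.ofReal ((3 * 100 ^ i) ^ d * (|C| * Real.exp (-((d * Real.log 100 + 1) * i)))) := by
          rw [← ENNReal.ofReal_mul (by positivity)]
      _ = ENNReal.ofReal (3 ^ d * |C| * Real.exp (-(i : ℝ))) := by
          congr 1
          have h4 : ((100 : ℝ) ^ i) ^ d = Real.exp (i * d * Real.log 100) := by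
            rw [← pow_mul, ← Real.exp_log (show (0 : ℝ) < 100 ^ (i * d) by positivity),
              Real.log_pow]
            push_cast
            rfl
          rw [mul_pow, h4]
          have h5 : Real.exp (-((d * Real.log 100 + 1) * i))
              = Real.exp (-(i * d * Real.log 100)) * Real.exp (-(i : ℝ)) := by
            rw [← Real.exp_add]
            congr 1
            ring
          rw [h5]
          have h6 : Real.exp (i * d * Real.log 100) * Real.exp (-(i * d * Real.log 100)) = 1 := by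
            rw [← Real.exp_add]
            simp
          linear_combination (3 ^ d * |C| * Real.exp (-(i : ℝ))) * h6

/-! ### the end -/

/-- as `Fin804.ae_not_dn`, from the limit. -/
theorem ae_not_dn {Q : Measure (Environment d)} [IsProbabilityMeasure Q] (u : Step d)
    (hlim : Tendsto (fun i : ℕ => annealed Q 0 (DownIn u (10 ^ i) (100 ^ i))) atTop (𝓝 0))
    (hH : HalfSpace (annealed Q 0) (dirVec (opp u))) :
    ∀ᵐ X ∂annealed Q 0, X ∈ escapeEvent (dirVec (opp u)) → X ∉ Dn u := by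
  obtain ⟨v, hv, hae⟩ := hH
  have hT : annealed Q 0 {X : Path d | ∀ᶠ i : ℕ in atTop, X ∈ DownIn u (10 ^ i) (100 ^ i)} = 0 := by
    have hU : {X : Path d | ∀ᶠ i : ℕ in atTop, X ∈ DownIn u (10 ^ i) (100 ^ i)}
        = ⋃ j : ℕ, ⋂ i : {i : ℕ // j ≤ i}, DownIn u (10 ^ (i : ℕ)) (100 ^ (i : ℕ)) := by
      ext X
      simp only [Set.mem_ofPred_eq, eventually_atTop, Set.mem_iUnion, Set.mem_iInter,
        Subtype.forall]
    rw [hU, measure_iUnion_null_iff]
    intro j
    have hle : ∀ i : ℕ, j ≤ i →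
        annealed Q 0 (⋂ i : {i : ℕ // j ≤ i}, DownIn u (10 ^ (i : ℕ)) (100 ^ (i : ℕ)))
          ≤ annealed Q 0 (DownIn u (10 ^ i) (100 ^ i)) := fun i hi =>
      measure_mono (Set.iInter_subset_of_subset ⟨i, hi⟩ (Set.Subset.refl _))
    refine le_antisymm (ge_of_tendsto hlim ?_) zero_le
    filter_upwards [eventually_ge_atTop j] with i hi
    exact hle i hi
  have hT' : ∀ᵐ X ∂annealed Q 0, ¬ ∀ᶠ i : ℕ in atTop, X ∈ DownIn u (10 ^ i) (100 ^ i) := by
    rw [ae_iff]
    simpa using hT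
  filter_upwards [hae, Asm247.ae_zero Q, hT'] with X h1 h2 h3 hesc hDn
  exact h3 (eventually_downIn u hv (h1 hesc) h2 hDn)

/-- **no escape in direction `-u`**, from the limit. -/
theorem opp_zero_of_lim {Q : Measure (Environment d)} [IsProbabilityMeasure Q]
    (hstat : ∀ z : Site d, MeasurePreserving (shiftEnv z) Q Q) (hS : SlabProp Q) (u : Step d)
    (hR : RetryProp Q (dirVec (opp u)))
    (hH : annealed Q 0 (escapeEvent (dirVec (opp u))) ≠ 0 →
      HalfSpace (annealed Q 0) (dirVec (opp u)))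
    (hlim : Tendsto (fun i : ℕ => annealed Q 0 (DownIn u (10 ^ i) (100 ^ i))) atTop (𝓝 0)) :
    annealed Q 0 (escapeEvent (dirVec (opp u))) = 0 := by
  by_contra hne
  have hp := Kal132.pD_pos hstat (dirVec (opp u)) hne
  have hnot := ae_not_dn u hlim (hH hne)
  apply hp
  rw [stay_eq_dn]
  have hud := Kal132.updown hS (dirVec (opp u)) (B2d.dirVec_ne_zero (opp u))
  have hesc := Kal132.escape_of_unbounded (dirVec (opp u)) hR hp
  have : ∀ᵐ X ∂annealed Q 0, X ∉ Dn u := by
    filter_upwards [hnot, hud, hesc] with X h1 h2 h3 hDn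
    rcases h2 with h2 | h2
    · exact h1 (h3 h2) hDn
    · have h4 : X ∈ Stay (dirVec (opp u)) := by rw [stay_eq_dn]; exact hDn
      have h5 := (h2.eventually_lt_atBot (L (dirVec (opp u)) (X 0))).exists
      obtain ⟨n, hn⟩ := h5
      exact absurd (h4 n) (not_le.2 hn)
  rw [ae_iff] at this
  simpa using this

theorem dirVec_opp (u : Step d) : dirVec (opp u) = -dirVec u := by
  obtain ⟨j, b⟩ := u
  funext i
  rw [Pi.neg_apply, B2d.dirVec_apply, B2d.dirVec_apply]
  unfold opp
  by_cases h : i = j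
  · cases b <;> simp [h]
  · simp [h]

/-- **(FLe) in direction `u` excludes escape in direction `-u`** (iid, merely elliptic). -/
theorem opp_zero (ν : Measure (Row d)) [IsProbabilityMeasure ν]
    (hν : ∀ᵐ p ∂ν, ∀ e : Step d, 0 < p.1 e) (u : Step d)
    (hH : annealed (iidEnvironmentLaw ν) 0 (escapeEvent (dirVec (opp u))) ≠ 0 →
      HalfSpace (annealed (iidEnvironmentLaw ν) 0) (dirVec (opp u)))
    (hFL : FLe (iidEnvironmentLaw ν) u) :
    annealed (iidEnvironmentLaw ν) 0 (escapeEvent (dirVec (opp u))) = 0 :=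
  opp_zero_of_lim (Q561.iid_shift ν) (Kal132.slabProp_iid ν hν) u
    (Kal132.retry_iid ν _ (B2d.dirVec_ne_zero (opp u))) hH (tendsto_downIn ν hν u hFL)

/-- **literal end of S0219** (any dimension): half-space property (B2) + (FLe) (B8). -/
theorem S0219_end (ν : Measure (Row d)) [IsProbabilityMeasure ν]
    (hν : ∀ᵐ p ∂ν, ∀ e : Step d, 0 < p.1 e)
    (hH : ∀ ℓ : Fin d → ℝ, annealed (iidEnvironmentLaw ν) 0 (escapeEvent ℓ) ≠ 0 → ℓ ≠ 0 →
      HalfSpace (annealed (iidEnvironmentLaw ν) 0) ℓ)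
    (hFLe : ∀ u : Step d, annealed (iidEnvironmentLaw ν) 0 (escapeEvent (dirVec u)) ≠ 0 →
      FLe (iidEnvironmentLaw ν) u)
    (ℓ : Fin d → ℝ) (hℓ : ℓ ≠ 0) :
    annealedProb (iidEnvironmentLaw ν) 0 (escapeEvent ℓ) = 0 ∨
      annealedProb (iidEnvironmentLaw ν) 0 (escapeEvent ℓ) = 1 :=
  Asm247.zero_one_iid ν hν hH (fun e he => by
    rw [← dirVec_opp]
    exact opp_zero ν hν e (fun h => hH _ h (B2d.dirVec_ne_zero _)) (hFLe e he)) ℓ hℓ

end Crest.Agent.R154.FinE804
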