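import Crest.Agent.R154.NBDefs_28
import Crest.Agent.R154.FinE_804
import Crest.Agent.R154.Flux1_132

/-! Row 154, NBProp (helper28): prefix-free sums of word weights and the surgery bound. -/

set_option autoImplicit false

namespace Crest.Agent.R154.NB28

open MeasureTheory ProbabilityTheory Crest.ProbabilityR.RandomEnvironment Crest.Agent.R154
open Crest.Agent.R154.Flux132 (lev opp lev_add lev_neg lev_zero)
open Crest.Agent.R154.Flux566 (lw endp sitesL Fol measurable_lw locOn_lw endp_append)
open scoped ENNReal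

variable {d : ℕ}

/-! ### words -/

lemma lw_append (ω : Environment d) (l l' : List (Step d)) (x : Site d) :
    lw ω x (l ++ l') = lw ω x l * lw ω (endp x l) l' := by
  induction l generalizing x with
  | nil => simp [lw, endp]
  | cons e l ih => simp only [List.cons_append, lw, endp]; rw [ih, mul_assoc]

lemma sitesL_append (l l' : List (Step d)) (x : Site d) :
    sitesL x (l ++ l') = sitesL x l ++ sitesL (endp x l) l' := by
  induction l generalizing x with
  | nil => simp [sitesL, endp]
  | cons e l ih => simp only [List.cons_append, sitesL, endp]; rw [ih]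

lemma mem_sitesL_add (l : List (Step d)) (x z y : Site d) :
    y + z ∈ sitesL (x + z) l ↔ y ∈ sitesL x l := by
  induction l generalizing x with
  | nil => simp [sitesL]
  | cons e l ih =>
    simp only [sitesL, List.mem_cons]
    rw [show x + z + stepVec e = (x + stepVec e) + z by abel, ih]
    simp

lemma mem_sitesL_iff (l : List (Step d)) (x y : Site d) :
    y ∈ sitesL x l ↔ y - x ∈ sitesL 0 l := by
  have := mem_sitesL_add l 0 x (y - x)
  rw [zero_add, sub_add_cancel] at this
  exact this

lemma endp_add (l : List (Step d)) (x z : Site d) : endp (x + z) l = endp x l + z := by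
  rw [Flux566.endp_eq_add l (x + z), Flux566.endp_eq_add l x]; abel

lemma lw_shiftEnv (ω : Environment d) (z x : Site d) (l : List (Step d)) :
    lw (shiftEnv z ω) x l = lw ω (x + z) l := by
  induction l generalizing x with
  | nil => rfl
  | cons e l ih =>
    simp only [lw]
    rw [ih, show x + z + stepVec e = x + stepVec e + z by abel]
    rfl

lemma aw_shift (ν : Measure (Row d)) [IsProbabilityMeasure ν] (x : Site d) (l : List (Step d)) :
    ∫⁻ ω, lw ω x l ∂(iidEnvironmentLaw ν) = aw ν l := by
  unfold aw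
  rw [← (Q561.iid_shift ν x).lintegral_comp (measurable_lw 0 l)]
  refine lintegral_congr fun ω => ?_
  rw [lw_shiftEnv, zero_add]

/-- independence: words reading disjoint sites -/
lemma lint_mul (ν : Measure (Row d)) [IsProbabilityMeasure ν] (x x' : Site d)
    (l l' : List (Step d)) (h : ∀ y ∈ sitesL x l, y ∉ sitesL x' l') :
    ∫⁻ ω, lw ω x l * lw ω x' l' ∂(iidEnvironmentLaw ν) = aw ν l * aw ν l' := by
  rw [Q561.iid_lintegral_mul ν (S := {y | y ∈ sitesL x l}) (T := {y | y ∈ sitesL x' l'}) ?_
    (measurable_lw _ _) (measurable_lw _ _) (locOn_lw _ _) (locOn_lw _ _), aw_shift, aw_shift]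
  rw [Set.disjoint_left]
  exact fun y hy hy' => h y hy hy'

lemma lint_append (ν : Measure (Row d)) [IsProbabilityMeasure ν] (x : Site d)
    (l l' : List (Step d)) (h : ∀ y ∈ sitesL x l, y ∉ sitesL (endp x l) l') :
    ∫⁻ ω, lw ω x (l ++ l') ∂(iidEnvironmentLaw ν) = aw ν l * aw ν l' := by
  simp_rw [lw_append]
  exact lint_mul ν x _ l l' h

/-! ### prefix-free sums -/

lemma fol_prefix (l l' : List (Step d)) (X : Path d) (h : X ∈ Fol l Set.univ)
    (h' : X ∈ Fol l' Set.univ) : l <+: l' ∨ l' <+: l := by
  induction l generalizing l' X with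
  | nil => exact Or.inl List.nil_prefix
  | cons e l ih =>
    cases l' with
    | nil => exact Or.inr List.nil_prefix
    | cons e' l' =>
      have he : e = e' := by
        have h1 := h.1
        rw [h'.1] at h1
        exact (Q561.stepVec_injective (add_left_cancel h1)).symm
      subst he
      rcases ih l' (shift 1 X) h.2 h'.2 with h2 | h2
      · exact Or.inl ((List.prefix_cons_inj e).2 h2)
      · exact Or.inr ((List.prefix_cons_inj e).2 h2)

theorem pf_le_one (ω : Environment d) (x : Site d) {ι : Type*} [Countable ι]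
    (f : ι → List (Step d)) (hf : ∀ i j, f i <+: f j → i = j) :
    ∑' i, lw ω x (f i) ≤ 1 := by
  have h1 : ∀ i, lw ω x (f i) ≤ quenchedLaw ω x (Fol (f i) Set.univ) := fun i => by
    have := Flux566.fol_ge ω (f i) x MeasurableSet.univ
    rwa [measure_univ, mul_one] at this
  calc ∑' i, lw ω x (f i) ≤ ∑' i, quenchedLaw ω x (Fol (f i) Set.univ) :=
        ENNReal.tsum_le_tsum h1
    _ = quenchedLaw ω x (⋃ i, Fol (f i) Set.univ) := by
        refine (measure_iUnion ?_ fun i => Flux566.measurableSet_Fol _ MeasurableSet.univ).symm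
        intro i j hij
        rw [Function.onFun, Set.disjoint_left]
        intro X hX hX'
        rcases fol_prefix _ _ X hX hX' with h | h
        · exact hij (hf i j h)
        · exact hij (hf j i h).symm
    _ ≤ 1 := prob_le_one

theorem pf_aw_le_one (ν : Measure (Row d)) [IsProbabilityMeasure ν] {ι : Type*} [Countable ι]
    (f : ι → List (Step d)) (hf : ∀ i j, f i <+: f j → i = j) :
    ∑' i, aw ν (f i) ≤ 1 := by
  unfold aw
  rw [← lintegral_tsum fun i => (measurable_lw 0 (f i)).aemeasurable]
  calc ∫⁻ ω, ∑' i, lw ω 0 (f i) ∂(iidEnvironmentLaw ν)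
      ≤ ∫⁻ _, 1 ∂(iidEnvironmentLaw ν) := lintegral_mono fun ω => pf_le_one ω 0 f hf
    _ = 1 := by simp

/-! ### crossings -/

/-- a word whose sites avoid the level of its end is not a proper prefix of such a word -/
lemma prefix_eq {l l' : List (Step d)} (x : Site d) (P : Site d → Prop)
    (h1 : ∀ y ∈ sitesL x l', ¬ P y) (h2 : P (endp x l)) (h : l <+: l') : l = l' := by
  obtain ⟨t, rfl⟩ := h
  cases t with
  | nil => simp
  | cons e t =>
    exfalso
    refine h1 (endp x l) ?_ h2
    rw [sitesL_append, List.mem_append]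
    exact Or.inr (by simp [sitesL])

lemma isUp_prefix {u : Step d} {n : ℕ} {l l' : List (Step d)} (h : IsUp u n l)
    (h' : IsUp u n l') (hp : l <+: l') : l = l' :=
  prefix_eq 0 (fun y => lev u y = n) (fun y hy he => by
    have := (h'.1 y hy).2; omega) h.2 hp

lemma isDn_prefix {u : Step d} {n : ℕ} {l l' : List (Step d)} (h : IsDn u n l)
    (h' : IsDn u n l') (hp : l <+: l') : l = l' :=
  prefix_eq 0 (fun y => lev u y = -(n : ℤ)) (fun y hy he => by
    have := (h'.1 y hy).1; omega) h.2 hp

/-- two prefixes of one word which are crossings of the same height -/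
lemma isUp_eq {u : Step d} {n : ℕ} {l l' t t' : List (Step d)} (h : IsUp u n l)
    (h' : IsUp u n l') (he : l ++ t = l' ++ t') : l = l' := by
  rcases List.prefix_or_prefix_of_prefix (List.prefix_append l t)
    (he ▸ List.prefix_append l' t') with h1 | h1
  · exact isUp_prefix h h' h1
  · exact (isUp_prefix h' h h1).symm

lemma lev_opp (u : Step d) : lev u (stepVec (opp u)) = -1 := by
  have h : stepVec (opp u) = - stepVec u := Flux566.stepVec_opp u
  rw [h, lev_neg, Flux132.lev_step_self]

/-- the bridge at the top -/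
theorem exists_bridge (ν : Measure (Row d)) [IsProbabilityMeasure ν]
    (hν : ∀ᵐ p ∂ν, ∀ e : Step d, 0 < p.1 e) (u : Step d) (w : Site d) (hw : lev u w = 0) :
    ∃ br : List (Step d), aw ν br ≠ 0 ∧ br ≠ [] ∧
      (∀ x, endp x br = x + w + stepVec (opp u)) ∧
      ∀ x, ∀ y ∈ sitesL x br, lev u y = lev u x := by
  obtain ⟨l, hl1, hl2, hl3⟩ := Flux566.exists_word u (opp u) (Flux566.n1 w) w hw rfl
  refine ⟨l ++ [opp u], ?_, by simp, fun x => ?_, fun x y hy => ?_⟩
  · obtain ⟨c, hc0, hc1, hc⟩ := FinE804.exists_c ν hν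
    have := Flux566.ann_lw_ge ν (ENNReal.ofReal c) hc (l ++ [opp u]) 0 (hl3 0).2.1
    intro h0
    unfold aw at h0
    rw [h0, nonpos_iff_eq_zero] at this
    exact (pow_ne_zero _ (by simpa using hc0)) this
  · rw [endp_append, (hl3 x).1]; rfl
  · exact Flux566.lev_sites u (opp u) l hl1 x y hy

/-- the spliced word -/
def spl (br π γ : List (Step d)) : List (Step d) := π ++ (br ++ γ)

/-- no contact -/
def NC (u : Step d) (w : Site d) (π γ : List (Step d)) : Prop :=
  ∀ y ∈ sitesL (-endp 0 π) π, y ∉ sitesL (w + stepVec (opp u)) γ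

lemma lev_spl {u : Step d} {n : ℕ} {w : Site d} (hw : lev u w = 0) {br π γ : List (Step d)}
    (hb1 : ∀ x, endp x br = x + w + stepVec (opp u))
    (hb2 : ∀ x, ∀ y ∈ sitesL x br, lev u y = lev u x)
    (hπ : IsUp u n π) (hγ : IsDn u n γ) :
    (∀ y ∈ sitesL 0 (spl br π γ), 0 ≤ lev u y ∧ lev u y ≤ n) ∧ lev u (endp 0 (spl br π γ)) = -1 := by
  have he : lev u (endp (endp 0 π) br) = n - 1 := by
    rw [hb1, lev_add, lev_add, hπ.2, hw, lev_opp]; ring
  refine ⟨fun y hy => ?_, ?_⟩
  · rw [spl, sitesL_append, List.mem_append, sitesL_append, List.mem_append] at hy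
    rcases hy with hy | hy | hy
    · have := hπ.1 y hy; omega
    · rw [hb2 _ y hy, hπ.2]; omega
    · rw [mem_sitesL_iff] at hy
      have h1 := hγ.1 _ hy
      rw [sub_eq_add_neg, lev_add, lev_neg, he] at h1
      omega
  · rw [spl, endp_append, endp_append, Flux566.endp_eq_add γ, lev_add, he, hγ.2]
    ring

/-- **surgery**: the disjoint pairs have bounded total weight -/
theorem surgery (ν : Measure (Row d)) [IsProbabilityMeasure ν]
    (hν : ∀ᵐ p ∂ν, ∀ e : Step d, 0 < p.1 e) (u : Step d) (w : Site d) (hw : lev u w = 0)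
    {ι : Type*} [Countable ι] (n : ι → ℕ) (π γ : ι → List (Step d))
    (hπ : ∀ i, IsUp u (n i) (π i)) (hγ : ∀ i, IsDn u (n i) (γ i))
    (hnc : ∀ i, NC u w (π i) (γ i)) (hinj : ∀ i j, π i = π j → γ i = γ j → i = j) :
    ∑' i, aw ν (π i) * aw ν (γ i) ≠ ⊤ := by
  obtain ⟨br, hb0, hbn, hb1, hb2⟩ := exists_bridge ν hν u w hw
  have hbt : aw ν br ≠ ⊤ := by
    refine ne_top_of_le_ne_top ENNReal.one_ne_top ?_
    have := pf_aw_le_one ν (fun _ : Unit => br) (fun _ _ _ => rfl)
    simpa using this
  have hpf : ∀ i j, spl br (π i) (γ i) <+: spl br (π j) (γ j) → i = j := by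
    intro i j hp
    have hi := lev_spl hw hb1 hb2 (hπ i) (hγ i)
    have hj := lev_spl hw hb1 hb2 (hπ j) (hγ j)
    have heq := prefix_eq 0 (fun y => lev u y = -1) (fun y hy he => by
      have := (hj.1 y hy).1; omega) hi.2 hp
    have htop : ∀ k, ∃ y ∈ sitesL 0 (spl br (π k) (γ k)), lev u y = n k := by
      intro k
      refine ⟨endp 0 (π k), ?_, (hπ k).2⟩
      rw [spl, sitesL_append, List.mem_append, sitesL_append, List.mem_append]
      refine Or.inr (Or.inl ?_)
      cases br with
      | nil => exact absurd rfl hbn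
      | cons e l => simp [sitesL]
    have hn : n i = n j := by
      obtain ⟨y, hy, hy'⟩ := htop i
      obtain ⟨z, hz, hz'⟩ := htop j
      rw [heq] at hy
      rw [← heq] at hz
      have h1 := (hj.1 y hy).2
      have h2 := (hi.1 z hz).2
      omega
    have hπe : π i = π j := isUp_eq (hπ i) (hn ▸ hπ j) heq
    refine hinj i j hπe ?_
    have h3 := heq
    rw [spl, spl, hπe] at h3
    exact List.append_cancel_left (List.append_cancel_left h3)
  have hw1 : ∀ i, aw ν (spl br (π i) (γ i)) = aw ν (π i) * (aw ν br * aw ν (γ i)) := by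
    intro i
    have hbr : ∫⁻ ω, lw ω (endp 0 (π i)) (br ++ γ i) ∂(iidEnvironmentLaw ν)
        = aw ν br * aw ν (γ i) := by
      refine lint_append ν _ br (γ i) fun y hy hy' => ?_
      have h1 := hb2 _ y hy
      rw [(hπ i).2] at h1
      rw [mem_sitesL_iff] at hy'
      have h2 := ((hγ i).1 _ hy').2
      rw [sub_eq_add_neg, lev_add, lev_neg, hb1, lev_add, lev_add, (hπ i).2, hw, lev_opp] at h2
      omega
    have h := lint_append ν 0 (π i) (br ++ γ i) fun y hy hy' => ?_
    · rw [spl]
      unfold aw at h ⊢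
      rw [h]
      congr 1
      have h5 := aw_shift ν (endp 0 (π i)) (br ++ γ i)
      rw [hbr] at h5
      exact h5.symm
    · rw [sitesL_append, List.mem_append] at hy'
      rcases hy' with hy' | hy'
      · have h1 := hb2 _ y hy'
        rw [(hπ i).2] at h1
        have h2 := ((hπ i).1 y hy).2
        omega
      · refine hnc i (y - endp 0 (π i)) ?_ ?_
        · rw [mem_sitesL_iff, sub_neg_eq_add, sub_add_cancel]
          exact hy
        · rw [mem_sitesL_iff] at hy' ⊢
          rw [hb1] at hy'
          rw [show y - endp 0 (π i) - (w + stepVec (opp u))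
            = y - (endp 0 (π i) + w + stepVec (opp u)) by abel]
          exact hy'
  have hsum := pf_aw_le_one ν (fun i => spl br (π i) (γ i)) hpf
  simp only [hw1] at hsum
  have h2 : aw ν br * ∑' i, aw ν (π i) * aw ν (γ i) ≤ 1 := by
    rw [← ENNReal.tsum_mul_left]
    refine le_trans (le_of_eq ?_) hsum
    refine tsum_congr fun i => ?_
    ring
  intro htop
  rw [htop, ENNReal.mul_top hb0] at h2
  simp at h2

end Crest.Agent.R154.NB28
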