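import Crest.Agent.R154.B5Inst_657
import Crest.Agent.R154.B5First_181
import Crest.Agent.R154.B5Weak_865
import Crest.Agent.R154.NBSurg_28

/-! Row 154, block B5 (helper657): the word instance in helper28's letters (`IsUp`, `IsDn`, `Cm`,
`KW`, `surgery`), and the dichotomy: `KappaW` and crossing masses bounded below are incompatible. -/

set_option autoImplicit false

open MeasureTheory ProbabilityTheory Crest.ProbabilityR.RandomEnvironment
open scoped ENNReal

namespace Crest.Agent.R154.B5W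

open Crest.Agent.R154.B5A
open Crest.Agent.R154.Flux566 (lw endp sitesL lev_add lev_neg lev_zero lev_self endp_append
  endp_eq_add measurable_lw locOn_lw)
open Crest.Agent.R154.NB28 (IsUp IsDn Cm KW KappaW)

variable {d : ℕ}

lemma lev_eq (u : Step d) (x : Site d) : Flux132.lev u x = Flux566.lev u x := rfl

/-- every strict prefix ends in a site read by the word -/
lemma prefix_mem {x : Site d} {p l : List (Step d)} (hp : p <+: l) (hne : p ≠ l) :
    endp x p ∈ sitesL x l := by
  obtain ⟨q, rfl⟩ := hp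
  rw [sitesL_append, List.mem_append]
  cases q with
  | nil => simp at hne
  | cons e q => exact Or.inr (by simp [sitesL])

lemma up_iff (u : Step d) (n : ℕ) (l : List (Step d)) : l ∈ UpW (hu u) n ↔ IsUp u n l := by
  constructor
  · intro h
    refine ⟨fun y hy => ?_, ?_⟩
    · have := lev_mem_up h hy
      rw [lev_zero] at this
      change 0 ≤ Flux566.lev u y ∧ Flux566.lev u y < n
      exact ⟨this.1, by linarith [this.2]⟩
    · have := lev_endp_up h 0
      rw [lev_zero] at this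
      change Flux566.lev u (endp 0 l) = n
      linarith
  · rintro ⟨h1, h2⟩
    change Flux566.lev u (endp 0 l) = n at h2
    rw [lev_endp, lev_zero, zero_add] at h2
    refine ⟨h2, fun p hp hne => ?_⟩
    have := h1 _ (prefix_mem (x := 0) hp hne)
    change 0 ≤ Flux566.lev u (endp 0 p) ∧ Flux566.lev u (endp 0 p) < n at this
    rw [lev_endp, lev_zero, zero_add] at this
    exact this

lemma dn_iff (u : Step d) (n : ℕ) (l : List (Step d)) : l ∈ UpW (hdn u) n ↔ IsDn u n l := by
  constructor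
  · intro h
    refine ⟨fun y hy => ?_, ?_⟩
    · have := lev_mem_dn h hy
      rw [lev_zero] at this
      change -(n : ℤ) < Flux566.lev u y ∧ Flux566.lev u y ≤ 0
      exact ⟨by linarith [this.2], this.1⟩
    · have := lev_endp_dn h 0
      rw [lev_zero] at this
      change Flux566.lev u (endp 0 l) = -(n : ℤ)
      linarith
  · rintro ⟨h1, h2⟩
    change Flux566.lev u (endp 0 l) = -(n : ℤ) at h2
    rw [lev_endp, lev_zero, zero_add] at h2
    refine ⟨by rw [lv_hdn]; omega, fun p hp hne => ?_⟩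
    have := h1 _ (prefix_mem (x := 0) hp hne)
    change -(n : ℤ) < Flux566.lev u (endp 0 p) ∧ Flux566.lev u (endp 0 p) ≤ 0 at this
    rw [lev_endp, lev_zero, zero_add] at this
    rw [lv_hdn]
    constructor <;> omega

lemma stepVec_opp' (u : Step d) : stepVec (Flux132.opp u) = - stepVec u := by
  have : Flux132.opp u = Flux566.opp u := rfl
  rw [this, Flux566.stepVec_opp]

lemma cds_eq (u : Step d) (π γ : List (Step d)) (w : Site d) : cds u (π, γ) w = Cm u w π γ := by
  ext k
  simp only [cds, Cm, Set.mem_ofPred_eq]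
  constructor
  · rintro ⟨s, h1, h2, hk⟩
    refine ⟨-endp 0 π + s, ?_, ?_, ?_⟩
    · have := (mem_sitesL_add (-endp 0 π) 0 s π).2 h1
      simpa using this
    · have := (mem_sitesL_add (-endp 0 π) (endp 0 π + w - stepVec u) s γ).2 h2
      rwa [show -endp 0 π + (endp 0 π + w - stepVec u) = w + stepVec (Flux132.opp u) by
        rw [stepVec_opp']; abel] at this
    · rw [lev_eq, lev_add, lev_neg]; linarith
  · rintro ⟨y, h1, h2, hk⟩
    rw [lev_eq] at hk
    refine ⟨endp 0 π + y, ?_, ?_, ?_⟩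
    · have := (mem_sitesL_add (endp 0 π) (-endp 0 π) y π).2 h1
      simpa using this
    · have := (mem_sitesL_add (endp 0 π) (w + stepVec (Flux132.opp u)) y γ).2 h2
      rwa [show endp 0 π + (w + stepVec (Flux132.opp u)) = endp 0 π + w - stepVec u by
        rw [stepVec_opp']; abel] at this
    · rw [lev_add]; linarith

variable (ν : Measure (Row d)) [IsProbabilityMeasure ν] (u : Step d)

lemma aw_eq (l : List (Step d)) : aw (iidEnvironmentLaw ν) l = NB28.aw ν l := rfl

open Classical in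
/-- sums over pair crossings, in words -/
lemma tsum_PC (n : ℕ) (F : List (Step d) × List (Step d) → ℝ≥0∞) :
    ∑' x : PC (hu u) (hdn u) n, aw (iidEnvironmentLaw ν) x.1.1 * aw (iidEnvironmentLaw ν) x.1.2 * F x.1
      = ∑' π : List (Step d), ∑' γ : List (Step d),
        if IsUp u n π ∧ IsDn u n γ then NB28.aw ν π * NB28.aw ν γ * F (π, γ) else 0 := by
  have h1 := tsum_subtype (PC (hu u) (hdn u) n)
    (fun x => aw (iidEnvironmentLaw ν) x.1 * aw (iidEnvironmentLaw ν) x.2 * F x)
  rw [h1, ← ENNReal.tsum_prod]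
  refine tsum_congr fun x => ?_
  rw [Set.indicator_apply]
  have : x ∈ PC (hu u) (hdn u) n ↔ IsUp u n x.1 ∧ IsDn u n x.2 :=
    and_congr (up_iff u n x.1) (dn_iff u n x.2)
  by_cases h : IsUp u n x.1 ∧ IsDn u n x.2
  · rw [if_pos (this.2 h), if_pos h]; rfl
  · rw [if_neg (fun h' => h (this.1 h')), if_neg h]

open Classical in
/-- sums over lists of height `n` -/
theorem tsum_L (n : ℕ) (F : List (Step d) × List (Step d) → ℝ≥0∞) :
    ∑' L : List (PB u), (if HT (ht u) L = n then LW (Lam ν u) L * F (cat L) else 0)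
      = ∑' π : List (Step d), ∑' γ : List (Step d),
        if IsUp u n π ∧ IsDn u n γ then NB28.aw ν π * NB28.aw ν γ * F (π, γ) else 0 := by
  rw [← tsum_PC ν u n F]
  exact tsum_lists (aw_nil _) (aw_nil _) (aw_up ν u) (aw_dn ν u) n F

open Classical in
theorem Kap1_eq (n m : ℕ) (w : Lat u) :
    Kap1 (Lam ν u) (ht u) (dl u) (cd u) n m w = KW ν u n m w.1 := by
  have h := tsum_L ν u n (fun x => if (∀ k ∈ cds u x w.1, m < k) ∧ (∃ k ∈ cds u x w.1, k ≤ 2 * m)
    then 1 else 0)
  unfold Kap1 KW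
  refine Eq.trans ?_ (h.trans ?_)
  · refine tsum_congr fun L => ?_
    rw [CD_cat]
    by_cases h1 : HT (ht u) L = n
    · by_cases h2 : (∀ k ∈ cds u (cat L) w.1, m < k) ∧ (∃ k ∈ cds u (cat L) w.1, k ≤ 2 * m)
      · rw [if_pos ⟨h1, h2⟩, if_pos h1, if_pos h2, mul_one]
      · rw [if_neg (fun h' => h2 h'.2), if_pos h1, if_neg h2, mul_zero]
    · rw [if_neg (fun h' => h1 h'.1), if_neg h1]
  · refine tsum_congr fun π => tsum_congr fun γ => ?_
    rw [cds_eq]
    by_cases h1 : IsUp u n π ∧ IsDn u n γ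
    · by_cases h2 : (∀ k ∈ Cm u w.1 π γ, m < k) ∧ (∃ k ∈ Cm u w.1 π γ, k ≤ 2 * m)
      · rw [if_pos h1, if_pos h2, if_pos ⟨h1.1, h1.2, h2.1, h2.2⟩, mul_one]
      · rw [if_pos h1, if_neg h2, if_neg (fun h' => h2 ⟨h'.2.2.1, h'.2.2.2⟩), mul_zero]
    · rw [if_neg h1, if_neg (fun h' => h1 ⟨h'.1, h'.2.1⟩)]

open Classical in
theorem U_eq28 (n : ℕ) :
    U (Lam ν u) (ht u) n = (∑' π : List (Step d), if IsUp u n π then NB28.aw ν π else 0)
      * ∑' γ : List (Step d), if IsDn u n γ then NB28.aw ν γ else 0 := by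
  have h := tsum_L ν u n (fun _ => 1)
  simp only [mul_one] at h
  rw [U, h, ← ENNReal.tsum_mul_right]
  refine tsum_congr fun π => ?_
  rw [← ENNReal.tsum_mul_left]
  refine tsum_congr fun γ => ?_
  by_cases h1 : IsUp u n π <;> by_cases h2 : IsDn u n γ <;> simp [h1, h2]

instance : Countable (PB u) :=
  inferInstanceAs (Countable {b : List (Step d) × List (Step d) // Irr (hu u) (hdn u) b})

open Classical in
/-- the lists without contact have finite total weight (surgery) -/
theorem nc_ne_top (hν : ∀ᵐ p ∂ν, ∀ e : Step d, 0 < p.1 e) (w : Lat u) :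
    ∑' L : List (PB u), (if CD (ht u) (dl u) (cd u) L w = ∅ then LW (Lam ν u) L else 0) ≠ ⊤ := by
  have h1 := tsum_subtype {L : List (PB u) | CD (ht u) (dl u) (cd u) L w = ∅}
    (fun L => LW (Lam ν u) L)
  have h2 : ∑' L : List (PB u), (if CD (ht u) (dl u) (cd u) L w = ∅ then LW (Lam ν u) L else 0)
      = ∑' L : {L : List (PB u) | CD (ht u) (dl u) (cd u) L w = ∅}, LW (Lam ν u) L.1 := by
    rw [h1]
    refine tsum_congr fun L => ?_
    simp [Set.indicator_apply]
  rw [h2]
  have h3 := NB28.surgery ν hν u w.1 w.2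
    (ι := {L : List (PB u) | CD (ht u) (dl u) (cd u) L w = ∅})
    (fun L => HT (ht u) L.1) (fun L => (cat L.1).1) (fun L => (cat L.1).2)
    (fun L => (up_iff u _ _).1 (cat_mem L.1).1) (fun L => (dn_iff u _ _).1 (cat_mem L.1).2)
    ?_ (fun i j hp hg => Subtype.ext (cat_inj (Prod.ext hp hg)))
  · refine ne_of_eq_of_ne (tsum_congr fun L => ?_) h3
    exact LW_wt (aw_nil _) (aw_nil _) (aw_up ν u) (aw_dn ν u) L.1
  · rintro ⟨L, hL⟩ y hy hy'
    have hL' : CD (ht u) (dl u) (cd u) L w = ∅ := hL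
    rw [CD_cat, cds_eq] at hL'
    have hlev : 0 ≤ - Flux566.lev u y := by
      have h5 := lev_mem_dn (cat_mem L).2 hy'
      have h6 : Flux566.lev u (w.1 + stepVec (Flux132.opp u)) = -1 := by
        rw [stepVec_opp', lev_add, lev_neg, lev_self, w.2]; ring
      rw [h6] at h5
      linarith [h5.1]
    have : (- Flux566.lev u y).toNat ∈ Cm u w.1 (cat L).1 (cat L).2 := by
      refine ⟨y, hy, hy', ?_⟩
      rw [lev_eq, Int.toNat_of_nonneg hlev, neg_neg]
    rw [hL'] at this
    exact this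


open Classical in
lemma sum_if_le_one {P : List (Step d) → Prop} (hP : ∀ l l', P l → P l' → l <+: l' → l = l') :
    ∑' l : List (Step d), (if P l then NB28.aw ν l else 0) ≤ 1 := by
  have h1 := tsum_subtype {l : List (Step d) | P l} (fun l => NB28.aw ν l)
  have h2 : ∑' l : List (Step d), (if P l then NB28.aw ν l else 0)
      = ∑' l : {l : List (Step d) | P l}, NB28.aw ν l.1 := by
    rw [h1]
    refine tsum_congr fun l => ?_
    simp [Set.indicator_apply]
  rw [h2]
  exact NB28.pf_aw_le_one ν (fun l : {l : List (Step d) | P l} => l.1)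
    fun i j hp => Subtype.ext (hP i.1 j.1 i.2 j.2 hp)

lemma infinite_Lat (hd : 2 ≤ d) : Infinite (Lat u) := by
  obtain ⟨i, hi⟩ : ∃ i : Fin d, i ≠ u.1 := by
    by_cases h0 : u.1 = ⟨0, by omega⟩
    · exact ⟨⟨1, by omega⟩, by rw [h0]; simp [Fin.ext_iff]⟩
    · exact ⟨⟨0, by omega⟩, fun h => h0 h.symm⟩
  refine Infinite.of_injective (fun n : ℕ => (⟨Pi.single i (n : ℤ), ?_⟩ : Lat u)) ?_
  · unfold Flux566.lev
    simp [Pi.single_apply, hi.symm]
  · intro m n h
    have := congrFun (congrArg Subtype.val h) i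
    simpa using this

open Classical in
/-- **dichotomy**: crossing masses bounded below in both directions exclude `KappaW`
(weak form: `n` large depending on `m`). -/
theorem no_both' (hd : 2 ≤ d) (hν : ∀ᵐ p ∂ν, ∀ e : Step d, 0 < p.1 e) (c : ℝ≥0∞) (hc : c ≠ 0)
    (R : ℕ)
    (hup : ∀ n, R ≤ n → c ≤ ∑' π : List (Step d), if IsUp u n π then NB28.aw ν π else 0)
    (hdn : ∀ n, R ≤ n → c ≤ ∑' γ : List (Step d), if IsDn u n γ then NB28.aw ν γ else 0)
    (hK : ∀ ε : ℝ≥0∞, ε ≠ 0 → ∃ M : ℕ, ∀ m, M ≤ m → ∃ n0 : ℕ, ∀ n, n0 ≤ n →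
      ∀ w : Site d, Flux566.lev u w = 0 → KW ν u n m w ≤ ε) : False := by
  haveI := infinite_Lat u hd
  obtain ⟨w, -, hw⟩ := abs_main2 (Lam ν u) (ht u) (dl u) (cd u) one_le_hb
    (fun w b k hk => hcd u w b k hk) (hinj u) (hfar u) (c * c) (mul_ne_zero hc hc) R
    (fun n hn => by rw [U_eq28]; exact mul_le_mul' (hup n hn) (hdn n hn))
    (fun n => by
      rw [U_eq28]
      exact mul_le_one' (sum_if_le_one ν fun l l' h h' hp => NB28.isUp_prefix h h' hp)
        (sum_if_le_one ν fun l l' h h' hp => NB28.isDn_prefix h h' hp))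
    (fun ε hε => by
      obtain ⟨M, hM⟩ := hK ε hε
      refine ⟨M, fun m hm => ?_⟩
      obtain ⟨n0, hn0⟩ := hM m hm
      exact ⟨n0, fun n hn w => by rw [Kap1_eq]; exact hn0 n hn w.1 w.2⟩)
    ∅ Set.finite_empty
  exact nc_ne_top ν u hν w hw

open Classical in
theorem no_both (hd : 2 ≤ d) (hν : ∀ᵐ p ∂ν, ∀ e : Step d, 0 < p.1 e) (c : ℝ≥0∞) (hc : c ≠ 0)
    (R : ℕ)
    (hup : ∀ n, R ≤ n → c ≤ ∑' π : List (Step d), if IsUp u n π then NB28.aw ν π else 0)
    (hdn : ∀ n, R ≤ n → c ≤ ∑' γ : List (Step d), if IsDn u n γ then NB28.aw ν γ else 0)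
    (hK : KappaW ν u) : False :=
  no_both' ν u hd hν c hc R hup hdn fun ε hε => by
    obtain ⟨M, hM⟩ := hK ε hε
    exact ⟨M, fun m hm => ⟨2 * m, fun n hn w hw => hM m hm n hn w hw⟩⟩

end Crest.Agent.R154.B5W
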