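import Crest.Agent.R154.B5First_181

/-! Row 154, block B5 (helper917): `abs_main1` of 181 with the hypothesis `hK` only for heights
`n ≥ D * m` (any constant `D`): the pieces of a crossing below depth `2 m` are then complete. -/

set_option autoImplicit false

namespace Crest.Agent.R154.B5A

open scoped ENNReal

variable {B W : Type*} (Λ : B → ℝ≥0∞) (ht : B → ℕ) (dl : B → W → W) (cd : W → B → Set ℕ)

open Classical in
/-- **Abstract form of block B5**, first contact, heights `n ≥ D * m` only. -/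
theorem abs_main2 [Infinite W] (h1 : ∀ b, 1 ≤ ht b)
    (hcd : ∀ w b k, k ∈ cd w b → 1 ≤ k ∧ k ≤ ht b)
    (hinj : ∀ b, Function.Injective (dl b)) (hfar : ∀ b, {w | cd w b ≠ ∅}.Finite)
    (c : ℝ≥0∞) (hc : c ≠ 0) (R : ℕ)
    (hU : ∀ n, R ≤ n → c ≤ U Λ ht n) (hU1 : ∀ n, U Λ ht n ≤ 1)
    (D : ℕ) (hK : ∀ ε : ℝ≥0∞, ε ≠ 0 → ∃ M : ℕ, ∀ m, M ≤ m → ∀ n, D * m ≤ n → ∀ w,
      Kap1 Λ ht dl cd n m w ≤ ε) (F : Set W) (hF : F.Finite) :
    ∃ w, w ∉ F ∧
      ∑' L : List B, (if CD ht dl cd L w = ∅ then LW Λ L else 0) = ⊤ := by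
  have hcle : c ≤ 1 := (hU R le_rfl).trans (hU1 R)
  have hc' : c ≠ ⊤ := ne_top_of_le_ne_top ENNReal.one_ne_top hcle
  have hΛ : ∑' b, Λ b = 1 :=
    le_antisymm (mass_le_one Λ ht h1 hU1) (mass_ge_one Λ ht c hc R hU)
  set E := ∑' b, Λ b * (ht b : ℝ≥0∞) with hE
  have hEle : E ≤ c⁻¹ := mean_le Λ ht h1 hΛ c hc hc' R hU
  have hEtop : E ≠ ⊤ := ne_top_of_le_ne_top (ENNReal.inv_ne_top.2 hc) hEle
  -- choose `r` with `3 E / 2^r ≤ 1/16`
  obtain ⟨r, hr⟩ : ∃ r : ℕ, 48 * E ≤ (2 ^ r : ℕ) := by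
    obtain ⟨N, hN⟩ := ENNReal.exists_nat_gt (ENNReal.mul_ne_top (by norm_num) hEtop : 48 * E ≠ ⊤)
    exact ⟨N, hN.le.trans (by exact_mod_cast (Nat.lt_two_pow_self).le)⟩
  obtain ⟨M, hM⟩ := hK (c / (16 * (r + 1))) (by
    rw [Ne, ENNReal.div_eq_zero_iff, not_or]
    exact ⟨hc, by
      refine ENNReal.mul_ne_top (by norm_num) ?_
      exact_mod_cast ENNReal.natCast_ne_top (r + 1)⟩)
  have hKb : ∀ j, max M 1 ≤ j → ∀ w, Kb1 Λ ht dl cd j w ≤ 1 / 8 := by
    intro j hj w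
    have hj1 : 1 ≤ j := le_trans (le_max_right _ _) hj
    have hjM : M ≤ j := le_trans (le_max_left _ _) hj
    refine (Kb_le1 Λ ht dl cd h1 hcd c hc hc' (R + D * (2 ^ r * j))
      (fun n hn => hU n (le_trans (Nat.le_add_right _ _) hn)) j r w).trans ?_
    have hA : SL Λ (3 * j) (fun L => if 2 ^ r * j < HT ht L then 1 else 0) ≤ 1 / 16 := by
      have hm := SL_markov Λ ht hΛ (3 * j) (2 ^ r * j)
      rw [← hE] at hm
      set X := SL Λ (3 * j) (fun L => if 2 ^ r * j < HT ht L then (1 : ℝ≥0∞) else 0)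
      have h2 : (16 : ℝ≥0∞) * ((2 ^ r * j : ℕ) * X) ≤ (2 ^ r * j : ℕ) := by
        calc (16 : ℝ≥0∞) * ((2 ^ r * j : ℕ) * X) ≤ 16 * ((3 * j : ℕ) * E) :=
              mul_le_mul_right hm _
          _ = (48 * E) * j := by push_cast; ring
          _ ≤ (2 ^ r : ℕ) * j := mul_le_mul_left hr _
          _ = _ := by push_cast; ring
      have hpos : ((2 ^ r * j : ℕ) : ℝ≥0∞) ≠ 0 := by
        have : 0 < 2 ^ r * j := by positivity
        exact_mod_cast this.ne'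
      have htop : ((2 ^ r * j : ℕ) : ℝ≥0∞) ≠ ⊤ := ENNReal.natCast_ne_top _
      rw [ENNReal.le_div_iff_mul_le (Or.inl (by norm_num)) (Or.inl (by norm_num)), mul_comm]
      have h3 : ((2 ^ r * j : ℕ) : ℝ≥0∞) * (16 * X) ≤ ((2 ^ r * j : ℕ) : ℝ≥0∞) * 1 := by
        rw [mul_one]; calc _ = (16 : ℝ≥0∞) * ((2 ^ r * j : ℕ) * X) := by ring
          _ ≤ _ := h2
      exact (ENNReal.mul_le_mul_iff_right hpos htop).1 h3
    have hB : ∑ s ∈ Finset.range r, c⁻¹ * Kap1 Λ ht dl cd (2 ^ r * j + (R + D * (2 ^ r * j))) (2 ^ s * j) w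
        ≤ 1 / 16 := by
      calc ∑ s ∈ Finset.range r, c⁻¹ * Kap1 Λ ht dl cd (2 ^ r * j + (R + D * (2 ^ r * j))) (2 ^ s * j) w
          ≤ ∑ s ∈ Finset.range r, c⁻¹ * (c / (16 * (r + 1))) := by
            refine Finset.sum_le_sum fun s hs => mul_le_mul_right ?_ _
            refine hM _ ?_ _ ?_ w
            · have : 1 ≤ 2 ^ s := Nat.one_le_two_pow
              nlinarith
            · have h5 : 2 ^ s ≤ 2 ^ r :=
                Nat.pow_le_pow_right (by norm_num) (Finset.mem_range.1 hs).le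
              have h6 : D * (2 ^ s * j) ≤ D * (2 ^ r * j) :=
                Nat.mul_le_mul_left _ (Nat.mul_le_mul_right _ h5)
              omega
        _ = r * (c⁻¹ * (c / (16 * (r + 1)))) := by simp
        _ = r * (1 / (16 * (r + 1))) := by
            rw [div_eq_mul_inv, ← mul_assoc c⁻¹, ENNReal.inv_mul_cancel hc hc', one_mul, one_div]
        _ ≤ (r + 1) * (1 / (16 * (r + 1))) := mul_le_mul_left le_self_add _
        _ = 1 / 16 := by
            have hr0 : ((r : ℝ≥0∞) + 1) ≠ 0 := by simp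
            have hrt : ((r : ℝ≥0∞) + 1) ≠ ⊤ := by
              exact_mod_cast ENNReal.natCast_ne_top (r + 1)
            rw [one_div, one_div, ENNReal.mul_inv (Or.inr hrt) (Or.inr hr0), mul_comm (16 : ℝ≥0∞)⁻¹,
              ← mul_assoc, ENNReal.mul_inv_cancel hr0 hrt, one_mul]
    calc _ ≤ (1 / 16 : ℝ≥0∞) + 1 / 16 := add_le_add hA hB
      _ = 1 / 8 := by
        rw [← two_mul, one_div, one_div, show (16 : ℝ≥0∞) = 2 * 8 by norm_num,
          ENNReal.mul_inv (by norm_num) (by norm_num), ← mul_assoc,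
          ENNReal.mul_inv_cancel (by norm_num) (by norm_num), one_mul]
  obtain ⟨J, hJ⟩ : ∃ J : ℕ, max M 1 ≤ 2 ^ J := ⟨max M 1, Nat.lt_two_pow_self.le⟩
  have hev := G_far Λ ht dl cd hΛ hinj hfar (2 ^ (J + 2)) (1 / 2) (by
    rw [one_div]; exact ENNReal.inv_lt_one.2 (by norm_num))
  have hev2 : ∀ᶠ w in Filter.cofinite, w ∉ F := by
    rw [Filter.eventually_cofinite]; simpa using hF
  obtain ⟨w, hw, hwF⟩ := (hev.and hev2).exists
  refine ⟨w, hwF, ?_⟩
  have := G_diverges1 Λ ht dl cd hΛ (max M 1) hKb w J hJ hw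
  rw [← this]
  simp only [G]
  rw [← tsum_eq_tsum_SL]
  refine tsum_congr fun L => ?_
  split_ifs <;> simp

end Crest.Agent.R154.B5A
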