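import Crest.Agent.R154.B5Words_657
import Crest.Agent.R154.B5Rec_566
import Crest.Agent.R154.Flux2_566

/-! Row 154, block B5 (helper657): the concrete word instance (iid environments).

`X` climbs from `0`; `Y` descends from `(top of X) + w - u`.  -/

set_option autoImplicit false

open MeasureTheory ProbabilityTheory Crest.ProbabilityR.RandomEnvironment
open scoped ENNReal

namespace Crest.Agent.R154.B5W

open Crest.Agent.R154.B5A
open Crest.Agent.R154.Flux566 (lw endp sitesL lev lev_add lev_neg lev_zero lev_self endp_append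
  endp_eq_add measurable_lw locOn_lw)

variable {d : ℕ}

/-- height of a letter, ascending -/
def hu (u : Step d) : Step d → ℤ := fun e => lev u (stepVec e)

/-- height of a letter, descending -/
def hdn (u : Step d) : Step d → ℤ := fun e => - lev u (stepVec e)

lemma lev_endp (u : Step d) (x : Site d) (l : List (Step d)) :
    lev u (endp x l) = lev u x + lv (hu u) l := by
  induction l generalizing x with
  | nil => simp [endp]
  | cons e l ih =>
    simp only [endp]
    rw [ih, lev_add]
    simp only [lv, List.map_cons, List.sum_cons, hu]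
    ring

lemma lv_hdn (u : Step d) (l : List (Step d)) : lv (hdn u) l = - lv (hu u) l := by
  induction l with
  | nil => simp
  | cons e l ih =>
    simp only [lv, List.map_cons, List.sum_cons, hu, hdn] at ih ⊢
    rw [ih]; ring

lemma lw_append (ω : Environment d) (x : Site d) (a b : List (Step d)) :
    lw ω x (a ++ b) = lw ω x a * lw ω (endp x a) b := by
  induction a generalizing x with
  | nil => simp [lw, endp]
  | cons e a ih => simp only [List.cons_append, lw, endp, ih, mul_assoc]

lemma sitesL_append (x : Site d) (a b : List (Step d)) :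
    sitesL x (a ++ b) = sitesL x a ++ sitesL (endp x a) b := by
  induction a generalizing x with
  | nil => simp [sitesL, endp]
  | cons e a ih => simp only [List.cons_append, sitesL, endp, ih]

lemma endp_add (y x : Site d) (l : List (Step d)) : endp (y + x) l = y + endp x l := by
  rw [endp_eq_add, endp_eq_add l x, add_assoc]

lemma mem_sitesL_add (y x s : Site d) (l : List (Step d)) :
    y + s ∈ sitesL (y + x) l ↔ s ∈ sitesL x l := by
  induction l generalizing x with
  | nil => simp [sitesL]
  | cons e l ih =>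
    simp only [sitesL, List.mem_cons, add_right_inj]
    rw [add_assoc, ih]

lemma mem_sitesL {x s : Site d} {l : List (Step d)} (h : s ∈ sitesL x l) :
    ∃ p, p <+: l ∧ p ≠ l ∧ s = endp x p := by
  induction l generalizing x with
  | nil => simp [sitesL] at h
  | cons e l ih =>
    simp only [sitesL, List.mem_cons] at h
    rcases h with rfl | h
    · exact ⟨[], List.nil_prefix, by simp, rfl⟩
    · obtain ⟨p, hp, hne, rfl⟩ := ih h
      refine ⟨e :: p, (List.prefix_cons_inj e).2 hp, fun e' => hne (List.cons.inj e').2, rfl⟩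

lemma lev_mem_up {u : Step d} {n : ℕ} {l : List (Step d)} (hl : l ∈ UpW (hu u) n) {x s : Site d}
    (hs : s ∈ sitesL x l) : lev u x ≤ lev u s ∧ lev u s < lev u x + n := by
  obtain ⟨p, hp, hne, rfl⟩ := mem_sitesL hs
  have := hl.2 p hp hne
  rw [lev_endp]
  constructor <;> linarith [this.1, this.2]

lemma lev_mem_dn {u : Step d} {n : ℕ} {l : List (Step d)} (hl : l ∈ UpW (hdn u) n) {x s : Site d}
    (hs : s ∈ sitesL x l) : lev u s ≤ lev u x ∧ lev u x - n < lev u s := by
  obtain ⟨p, hp, hne, rfl⟩ := mem_sitesL hs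
  have := hl.2 p hp hne
  rw [lv_hdn] at this
  rw [lev_endp]
  constructor <;> linarith [this.1, this.2]

lemma lev_endp_up {u : Step d} {n : ℕ} {l : List (Step d)} (hl : l ∈ UpW (hu u) n) (x : Site d) :
    lev u (endp x l) = lev u x + n := by rw [lev_endp, hl.1]

lemma lev_endp_dn {u : Step d} {n : ℕ} {l : List (Step d)} (hl : l ∈ UpW (hdn u) n) (x : Site d) :
    lev u (endp x l) = lev u x - n := by
  have := hl.1
  rw [lv_hdn] at this
  rw [lev_endp]; linarith

/-! ### annealed weights -/

/-- annealed weight of a word -/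
noncomputable def aw (Q : Measure (Environment d)) (l : List (Step d)) : ℝ≥0∞ := ∫⁻ ω, lw ω 0 l ∂Q

lemma lw_shift (ω : Environment d) (z x : Site d) (l : List (Step d)) :
    lw ω (x + z) l = lw (shiftEnv z ω) x l := by
  induction l generalizing x with
  | nil => rfl
  | cons e l ih =>
    simp only [lw]
    rw [show x + z + stepVec e = (x + stepVec e) + z by abel, ih]
    rfl

lemma aw_at (ν : Measure (Row d)) [IsProbabilityMeasure ν] (x : Site d) (l : List (Step d)) :
    ∫⁻ ω, lw ω x l ∂(iidEnvironmentLaw ν) = aw (iidEnvironmentLaw ν) l := by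
  unfold aw
  rw [← (Q561.iid_shift ν x).lintegral_comp (measurable_lw 0 l)]
  refine lintegral_congr fun ω => ?_
  rw [← lw_shift, zero_add]

lemma aw_nil (Q : Measure (Environment d)) [IsProbabilityMeasure Q] : aw Q [] = 1 := by
  simp [aw, lw]

lemma aw_mul (ν : Measure (Row d)) [IsProbabilityMeasure ν] (x y : Site d) (a b : List (Step d))
    (hd : ∀ s ∈ sitesL x a, s ∉ sitesL y b) :
    ∫⁻ ω, lw ω x a * lw ω y b ∂(iidEnvironmentLaw ν)
      = aw (iidEnvironmentLaw ν) a * aw (iidEnvironmentLaw ν) b := by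
  rw [Q561.iid_lintegral_mul ν (S := {s | s ∈ sitesL x a}) (T := {s | s ∈ sitesL y b}) ?_
    (measurable_lw _ _) (measurable_lw _ _) (locOn_lw _ _) (locOn_lw _ _), aw_at, aw_at]
  rw [Set.disjoint_left]
  exact fun s hs hs' => hd s hs hs'

lemma aw_append (ν : Measure (Row d)) [IsProbabilityMeasure ν] (a b : List (Step d))
    (hd : ∀ s ∈ sitesL 0 a, s ∉ sitesL (endp 0 a) b) :
    aw (iidEnvironmentLaw ν) (a ++ b) = aw (iidEnvironmentLaw ν) a * aw (iidEnvironmentLaw ν) b := by
  rw [← aw_mul ν 0 (endp 0 a) a b hd]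
  exact lintegral_congr fun ω => lw_append ω 0 a b

lemma aw_up (ν : Measure (Row d)) [IsProbabilityMeasure ν] (u : Step d) (m n : ℕ) :
    ∀ a ∈ UpW (hu u) m, ∀ b ∈ UpW (hu u) n,
      aw (iidEnvironmentLaw ν) (a ++ b) = aw (iidEnvironmentLaw ν) a * aw (iidEnvironmentLaw ν) b := by
  intro a ha b hb
  refine aw_append ν a b fun s hs hs' => ?_
  have h1 := (lev_mem_up ha hs).2
  have h2 := (lev_mem_up hb hs').1
  rw [lev_endp_up ha] at h2
  omega

lemma aw_dn (ν : Measure (Row d)) [IsProbabilityMeasure ν] (u : Step d) (m n : ℕ) :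
    ∀ a ∈ UpW (hdn u) m, ∀ b ∈ UpW (hdn u) n,
      aw (iidEnvironmentLaw ν) (a ++ b) = aw (iidEnvironmentLaw ν) a * aw (iidEnvironmentLaw ν) b := by
  intro a ha b hb
  refine aw_append ν a b fun s hs hs' => ?_
  have h1 := (lev_mem_dn ha hs).2
  have h2 := (lev_mem_dn hb hs').1
  rw [lev_endp_dn ha] at h2
  omega

/-! ### the instance -/

/-- lateral displacements -/
def Lat (u : Step d) : Type := {w : Site d // lev u w = 0}

/-- blocks -/
abbrev PB (u : Step d) : Type := Blk (hu u) (hdn u)

/-- height -/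
def ht (u : Step d) : PB u → ℕ := hb (hu u) (hdn u)

/-- weight -/
noncomputable def Lam (ν : Measure (Row d)) [IsProbabilityMeasure ν] (u : Step d) (b : PB u) : ℝ≥0∞ :=
  wt (aw (iidEnvironmentLaw ν)) (aw (iidEnvironmentLaw ν)) b

/-- displacement below a pair crossing -/
def dlp (x : List (Step d) × List (Step d)) (w : Site d) : Site d := w + endp 0 x.1 + endp 0 x.2

lemma lev_dlp {u : Step d} {n : ℕ} {x : List (Step d) × List (Step d)}
    (hx : x ∈ PC (hu u) (hdn u) n) (w : Site d) : lev u (dlp x w) = lev u w := by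
  unfold dlp
  rw [lev_add, lev_add, lev_endp_up hx.1, lev_endp_dn hx.2, lev_zero]
  ring

/-- displacement below a block -/
def dl (u : Step d) (b : PB u) (w : Lat u) : Lat u :=
  ⟨dlp b.1 w.1, by rw [lev_dlp (blk_mem b)]; exact w.2⟩

/-- contact depths of a pair at top displacement `w` -/
def cds (u : Step d) (x : List (Step d) × List (Step d)) (w : Site d) : Set ℕ :=
  {k | ∃ s ∈ sitesL 0 x.1, s ∈ sitesL (endp 0 x.1 + w - stepVec u) x.2 ∧
    (k : ℤ) = lev u (endp 0 x.1) - lev u s}

/-- contact depths of a block -/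
def cd (u : Step d) (w : Lat u) (b : PB u) : Set ℕ := cds u b.1 w.1

lemma hcd (u : Step d) (w : Lat u) (b : PB u) (k : ℕ) (hk : k ∈ cd u w b) :
    1 ≤ k ∧ k ≤ ht u b := by
  obtain ⟨s, hs, _, hk⟩ := hk
  have h1 := lev_mem_up (blk_mem b).1 hs
  have h2 := lev_endp_up (blk_mem b).1 0
  rw [lev_zero] at h1 h2
  unfold ht
  omega

lemma hinj (u : Step d) (b : PB u) : Function.Injective (dl u b) := by
  intro w w' h
  have := congrArg Subtype.val h
  simp only [dl, dlp, add_left_inj] at this
  exact Subtype.ext this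

lemma hfar (u : Step d) (b : PB u) : {w : Lat u | cd u w b ≠ ∅}.Finite := by
  classical
  set A : Finset (Site d) := (sitesL 0 b.1.1).toFinset
  set B : Finset (Site d) := (sitesL 0 b.1.2).toFinset
  have hfin := Finset.finite_toSet ((A ×ˢ B).image fun p => p.1 - p.2 - endp 0 b.1.1 + stepVec u)
  refine Set.Finite.of_injOn (f := fun w : Lat u => w.1) (t := _) ?_ ?_ hfin
  · intro w hw
    obtain ⟨k, s, hs, hs', _⟩ := Set.nonempty_iff_ne_empty.2 hw
    simp only [Finset.coe_image, Set.mem_image, Finset.mem_coe, Finset.mem_product]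
    refine ⟨(s, s - (endp 0 b.1.1 + w.1 - stepVec u)), ⟨by simpa [A] using hs, ?_⟩, ?_⟩
    · have := (mem_sitesL_add (endp 0 b.1.1 + w.1 - stepVec u) 0
        (s - (endp 0 b.1.1 + w.1 - stepVec u)) b.1.2).1 (by simpa using hs')
      simpa [B] using this
    · simp only; abel
  · intro w _ w' _ h
    exact Subtype.ext h

/-- contact depths of a product -/
lemma cds_pm {u : Step d} {m n : ℕ} {b y : List (Step d) × List (Step d)}
    (hb : b ∈ PC (hu u) (hdn u) m) (hy : y ∈ PC (hu u) (hdn u) n) (w : Site d)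
    (hw : lev u w = 0) :
    cds u (pm b y) w = cds u b w ∪ (fun k => m + k) '' cds u y (dlp b w) := by
  have e1 : endp 0 (y.1 ++ b.1) = endp 0 y.1 + endp 0 b.1 := by
    rw [endp_append, endp_eq_add]
  have e2 : endp (endp 0 (y.1 ++ b.1) + w - stepVec u) b.2
      = endp 0 y.1 + dlp b w - stepVec u := by
    rw [endp_eq_add, e1]; unfold dlp; abel
  have hlZ := lev_endp_up hy.1 0
  have hlb := lev_endp_up hb.1 0
  rw [lev_zero] at hlZ hlb
  ext k
  simp only [cds, pm, Set.mem_union, Set.mem_image, Set.mem_ofPred_eq, sitesL_append,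
    List.mem_append, e1, lev_add, hlZ, hlb]
  rw [← e1, e2, e1]
  have hsY : lev u (endp 0 y.1 + endp 0 b.1 + w - stepVec u) = n + m - 1 := by
    rw [sub_eq_add_neg, lev_add, lev_add, lev_add, hlZ, hlb, lev_neg, lev_self, hw]; ring
  have hsY' : lev u (endp 0 y.1 + dlp b w - stepVec u) = n - 1 := by
    rw [sub_eq_add_neg, lev_add, lev_add, hlZ, lev_dlp hb, lev_neg, lev_self, hw]; ring
  constructor
  · rintro ⟨s, h1, h2, hk⟩
    rcases h1 with h1 | h1 <;> rcases h2 with h2 | h2
    · -- s in the lower X-part, upper Y-part: impossible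
      have a := (lev_mem_up hy.1 h1).2
      have c := (lev_mem_dn hb.2 h2).2
      rw [lev_zero] at a
      rw [hsY] at c
      omega
    · -- both lower
      refine Or.inr ⟨k - m, ⟨s, h1, h2, ?_⟩, ?_⟩
      · have a := (lev_mem_up hy.1 h1).2
        rw [lev_zero] at a
        omega
      · have a := (lev_mem_up hy.1 h1).2
        rw [lev_zero] at a
        omega
    · -- both upper
      refine Or.inl ⟨s - endp 0 y.1, ?_, ?_, ?_⟩
      · exact (mem_sitesL_add (endp 0 y.1) 0 (s - endp 0 y.1) b.1).1 (by simpa using h1)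
      · refine (mem_sitesL_add (endp 0 y.1) (endp 0 b.1 + w - stepVec u) (s - endp 0 y.1) b.2).1 ?_
        rw [add_sub_cancel, show endp 0 y.1 + (endp 0 b.1 + w - stepVec u)
          = endp 0 y.1 + endp 0 b.1 + w - stepVec u by abel]
        exact h2
      · rw [sub_eq_add_neg s, lev_add, lev_neg, hlZ]; omega
    · have a := (lev_mem_up hb.1 h1).1
      have c := (lev_mem_dn hy.2 h2).1
      rw [hlZ] at a
      rw [hsY'] at c
      omega
  · rintro (⟨s, h1, h2, hk⟩ | ⟨k', ⟨s, h1, h2, hk⟩, rfl⟩)
    · refine ⟨endp 0 y.1 + s, Or.inr ?_, Or.inl ?_, ?_⟩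
      · have := (mem_sitesL_add (endp 0 y.1) 0 s b.1).2 h1
        simpa using this
      · have := (mem_sitesL_add (endp 0 y.1) (endp 0 b.1 + w - stepVec u) s b.2).2 h2
        rwa [show endp 0 y.1 + (endp 0 b.1 + w - stepVec u)
          = endp 0 y.1 + endp 0 b.1 + w - stepVec u by abel] at this
      · rw [lev_add, hlZ]; omega
    · exact ⟨s, Or.inl h1, Or.inr h2, by push_cast; omega⟩

lemma CD_cat (u : Step d) (L : List (PB u)) (w : Lat u) :
    CD (ht u) (dl u) (cd u) L w = cds u (cat L) w.1 := by
  induction L generalizing w with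
  | nil => simp [CD, cat, cds, sitesL]
  | cons b L ih =>
    rw [CD, ih]
    exact (cds_pm (blk_mem b) (cat_mem L) w.1 w.2).symm

end Crest.Agent.R154.B5W
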