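import Crest.Agent.R154.Flux2_566
import Crest.Agent.R154.Flux1_132

/-!
# Row 154, T0219 (helper802): the surgery for pairs of words

`surgery`: for an iid law, the total weight of all pairs (up crossing `π` of height `n`, down
crossing `ρ` of height `n` started at `endp π + w - e0`) with disjoint sites, summed over `n`, is
finite.
-/

set_option autoImplicit false
set_option linter.unusedSectionVars false
set_option linter.deprecated false

open MeasureTheory ProbabilityTheory Crest.ProbabilityR.RandomEnvironment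
open scoped ENNReal

namespace Crest.Agent.R154.Surg802

open Crest.Agent.R154.Flux566

variable {d : ℕ}

/-! ### words -/

lemma sitesL_append (l l' : List (Step d)) (x : Site d) :
    sitesL x (l ++ l') = sitesL x l ++ sitesL (endp x l) l' := by
  induction l generalizing x with
  | nil => rfl
  | cons e l ih => simp only [List.cons_append, sitesL, endp, ih]

lemma mem_sitesL_shift (l : List (Step d)) (x y z : Site d) :
    z ∈ sitesL (x + y) l ↔ z - y ∈ sitesL x l := by
  induction l generalizing x with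
  | nil => simp [sitesL]
  | cons e l ih =>
    simp only [sitesL, List.mem_cons]
    rw [show x + y + stepVec e = (x + stepVec e) + y by abel, ih]
    refine or_congr_left ?_
    rw [sub_eq_iff_eq_add]

lemma mem_sitesL_zero (l : List (Step d)) (y z : Site d) :
    z ∈ sitesL y l ↔ z - y ∈ sitesL 0 l := by
  have := mem_sitesL_shift l 0 y z
  rwa [zero_add] at this

lemma lw_append (ω : Environment d) (l l' : List (Step d)) (x : Site d) :
    lw ω x (l ++ l') = lw ω x l * lw ω (endp x l) l' := by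
  induction l generalizing x with
  | nil => simp [lw, endp]
  | cons e l ih => simp only [List.cons_append, lw, endp, ih, mul_assoc]

lemma lw_shift (ω : Environment d) (z x : Site d) (l : List (Step d)) :
    lw ω (x + z) l = lw (shiftEnv z ω) x l := by
  induction l generalizing x with
  | nil => rfl
  | cons e l ih =>
    simp only [lw]
    rw [show x + z + stepVec e = (x + stepVec e) + z by abel, ih]
    rfl

lemma fol_spec (l : List (Step d)) (B : Set (Path d)) (X : Path d) (h : X ∈ Fol l B) :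
    shift l.length X ∈ B ∧ X l.length = endp (X 0) l ∧
      ∀ i < l.length, X i ∈ sitesL (X 0) l := by
  induction l generalizing X with
  | nil =>
    refine ⟨?_, rfl, fun i hi => absurd hi (by simp)⟩
    have : shift 0 X = X := by funext i; simp [shift]
    rw [List.length_nil, this]; exact h
  | cons e l ih =>
    obtain ⟨h1, h2⟩ := h
    obtain ⟨h3, h4, h5⟩ := ih (shift 1 X) h2
    have h0 : shift 1 X 0 = X 0 + stepVec e := by rw [← h1]; rfl
    have e1 : shift l.length (shift 1 X) = shift (e :: l).length X := by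
      funext i
      simp only [shift, List.length_cons]
      congr 1
      omega
    refine ⟨by rw [← e1]; exact h3, ?_, ?_⟩
    · rw [h0] at h4
      have e2 : shift 1 X l.length = X (e :: l).length := by
        simp only [shift, List.length_cons]
        congr 1
        omega
      rw [← e2, h4]
      rfl
    · intro i hi
      cases i with
      | zero => simp [sitesL]
      | succ i =>
        have h6 := h5 i (by simpa using hi)
        rw [h0] at h6
        have e3 : shift 1 X i = X (i + 1) := by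
          simp only [shift]; congr 1; omega
        rw [e3] at h6
        simp only [sitesL, List.mem_cons]
        exact Or.inr h6

lemma stepVec_inj {e e' : Step d} (h : stepVec e = stepVec e') : e = e' := by
  by_contra hne
  have h1 := lev_self e
  rw [h] at h1
  obtain ⟨i, b⟩ := e
  obtain ⟨i', b'⟩ := e'
  unfold lev stepVec at h1
  simp only at h1
  by_cases hi : i = i'
  · subst hi
    apply hne
    rw [Pi.single_eq_same] at h1
    cases b <;> cases b' <;> simp_all
  · rw [Pi.single_eq_of_ne hi] at h1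
    split_ifs at h1 <;> simp at h1

lemma fol_det (l l' : List (Step d)) (B B' : Set (Path d)) (X : Path d) (h : X ∈ Fol l B)
    (h' : X ∈ Fol l' B') : l <+: l' ∨ l' <+: l := by
  induction l generalizing l' X with
  | nil => exact Or.inl (List.nil_prefix)
  | cons e l ih =>
    cases l' with
    | nil => exact Or.inr (List.nil_prefix)
    | cons e' l' =>
      obtain ⟨h1, h2⟩ := h
      obtain ⟨h3, h4⟩ := h'
      have he : e = e' := stepVec_inj (add_left_cancel (h1.symm.trans h3))
      subst he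
      rcases ih l' (shift 1 X) h2 h4 with h5 | h5
      · exact Or.inl (by simpa using h5)
      · exact Or.inr (by simpa using h5)

/-- up crossing words of height `n` -/
def IsUp (e0 : Step d) (n : ℕ) (l : List (Step d)) : Prop :=
  (∀ y ∈ sitesL 0 l, 0 ≤ lev e0 y ∧ lev e0 y < n) ∧ lev e0 (endp 0 l) = n

/-- down crossing words of height `n` -/
def IsDn (e0 : Step d) (n : ℕ) (l : List (Step d)) : Prop :=
  (∀ y ∈ sitesL 0 l, -(n : ℤ) < lev e0 y ∧ lev e0 y ≤ 0) ∧ lev e0 (endp 0 l) = -(n : ℤ)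

lemma endp_mem_of_lt {l l' : List (Step d)} (x : Site d) (h : l <+: l') (hne : l ≠ l') :
    endp x l ∈ sitesL x l' := by
  obtain ⟨t, rfl⟩ := h
  cases t with
  | nil => simp at hne
  | cons e t =>
    rw [sitesL_append, List.mem_append]
    exact Or.inr (by simp [sitesL])

lemma IsUp.prefix_eq {e0 : Step d} {n : ℕ} {l l' : List (Step d)} (h : IsUp e0 n l)
    (h' : IsUp e0 n l') (hp : l <+: l') : l = l' := by
  by_contra hne
  have h1 := (h'.1 _ (endp_mem_of_lt 0 hp hne)).2
  rw [h.2] at h1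
  exact absurd h1 (lt_irrefl _)

lemma IsDn.prefix_eq {e0 : Step d} {n : ℕ} {l l' : List (Step d)} (h : IsDn e0 n l)
    (h' : IsDn e0 n l') (hp : l <+: l') : l = l' := by
  by_contra hne
  have h1 := (h'.1 _ (endp_mem_of_lt 0 hp hne)).1
  rw [h.2] at h1
  exact absurd h1 (lt_irrefl _)

/-- disjoint words: total mass of the followed words -/
lemma tsum_fol_le (ω : Environment d) (x : Site d) (Pr : List (Step d) → Prop)
    (hP : ∀ l l', Pr l → Pr l' → l <+: l' → l = l') {B : Set (Path d)}
    (hB : MeasurableSet B) (T : Set (Path d))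
    (hT : ∀ l, Pr l → ∀ X : Path d, X 0 = x → X ∈ Fol l B → X ∈ T) :
    ∑' l : {l : List (Step d) // Pr l}, lw ω x l.1 * quenchedLaw ω (endp x l.1) B
      ≤ quenchedLaw ω x T := by
  have h0 : MeasurableSet {X : Path d | X 0 = x} :=
    measurableSet_of_agree 0 _ fun X Y h => by
      simp only [Set.mem_ofPred_eq]; rw [h 0 le_rfl]
  have h1 : ∀ l : {l : List (Step d) // Pr l}, lw ω x l.1 * quenchedLaw ω (endp x l.1) B
      ≤ quenchedLaw ω x ({X | X 0 = x} ∩ Fol l.1 B) := by
    intro l
    refine (fol_ge ω l.1 x hB).trans ?_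
    refine measure_mono_ae ?_
    filter_upwards [quenched_zero_eq ω x] with X hX hXF
    exact ⟨hX, hXF⟩
  refine (ENNReal.tsum_le_tsum h1).trans ?_
  rw [← measure_iUnion]
  · refine measure_mono ?_
    intro X hX
    rw [Set.mem_iUnion] at hX
    obtain ⟨l, h2, h3⟩ := hX
    exact hT l.1 l.2 X h2 h3
  · rintro l l' hne
    rw [Function.onFun, Set.disjoint_left]
    rintro X ⟨_, h2⟩ ⟨_, h3⟩
    apply hne
    rcases fol_det l.1 l'.1 B B X h2 h3 with h4 | h4
    · exact Subtype.ext (hP _ _ l.2 l'.2 h4)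
    · exact Subtype.ext (hP _ _ l'.2 l.2 h4).symm
  · exact fun l => h0.inter (measurableSet_Fol _ hB)

/-! ### quenched inequalities -/

/-- start of the down walker -/
def yst (e0 : Step d) (w : Site d) (l : List (Step d)) : Site d :=
  endp 0 l + w + stepVec (opp e0)

lemma q_up (e0 : Step d) (n : ℕ) (c : List (Step d))
    (hc : ∀ e ∈ c, lev e0 (stepVec e) = 0) (ω : Environment d) :
    ∑' l : {l : List (Step d) // IsUp e0 n l},
      lw ω 0 l.1 * quenchedLaw ω (endp 0 l.1) (Fol (c ++ [opp e0]) (Down e0))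
      ≤ quenchedLaw ω 0 (maxIs e0 n) := by
  refine tsum_fol_le ω 0 (IsUp e0 n) (fun l l' h h' => h.prefix_eq h')
    (measurableSet_Fol _ (measurableSet_Down e0)) _ fun l hl X hX0 hX => ?_
  obtain ⟨h1, h2, h3⟩ := fol_spec l _ X hX
  rw [hX0] at h2 h3
  have h4 : lev e0 (X l.length) = n := by rw [h2, hl.2]
  refine ⟨⟨l.length, h4⟩, fun j => ?_⟩
  rcases Nat.lt_or_ge j l.length with hj | hj
  · exact (hl.1 _ (h3 j hj)).2.le
  · obtain ⟨i, rfl⟩ := Nat.exists_eq_add_of_le hj
    have h5 := lev_fol e0 c hc (shift l.length X) h1 i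
    simp only [shift, Nat.add_zero] at h5
    rw [h4] at h5
    exact h5

lemma q_dn (e0 : Step d) (n : ℕ) (ω : Environment d) (y : Site d) :
    ∑' l : {l : List (Step d) // IsDn e0 n l}, lw ω y l.1 * qdn e0 ω (endp y l.1)
      ≤ qdn e0 ω y := by
  unfold qdn
  refine tsum_fol_le ω y (IsDn e0 n) (fun l l' h h' => h.prefix_eq h')
    (measurableSet_Down e0) _ fun l hl X hX0 hX => ?_
  obtain ⟨h1, h2, h3⟩ := fol_spec l _ X hX
  rw [hX0] at h2 h3
  have h4 : lev e0 (X l.length) = lev e0 y - n := by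
    rw [h2, endp_eq_add, lev_add, hl.2]; ring
  intro j
  rw [hX0]
  rcases Nat.lt_or_ge j l.length with hj | hj
  · have h5 := (hl.1 _ ((mem_sitesL_zero l y _).1 (h3 j hj))).2
    rw [sub_eq_add_neg, lev_add, lev_neg] at h5
    omega
  · obtain ⟨i, rfl⟩ := Nat.exists_eq_add_of_le hj
    have h5 := h1 i
    simp only [shift, Nat.add_zero] at h5
    rw [h4] at h5
    omega

/-- the quenched surgery -/
lemma q_surg (e0 : Step d) (n : ℕ) (c : List (Step d)) (w : Site d)
    (hc : ∀ e ∈ c, lev e0 (stepVec e) = 0) (hw : ∀ x : Site d, endp x c = x + w)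
    (ω : Environment d) :
    ∑' l : {l : List (Step d) // IsUp e0 n l}, ∑' r : {l : List (Step d) // IsDn e0 n l},
      lw ω 0 l.1 * lw ω (endp 0 l.1) (c ++ [opp e0]) *
        (lw ω (yst e0 w l.1) r.1 * qdn e0 ω (endp (yst e0 w l.1) r.1))
      ≤ quenchedLaw ω 0 (maxIs e0 n) := by
  refine le_trans (ENNReal.tsum_le_tsum fun l => ?_) (q_up e0 n c hc ω)
  rw [ENNReal.tsum_mul_left, mul_assoc]
  refine mul_le_mul_right ?_ _
  refine le_trans (mul_le_mul_right (q_dn e0 n ω _) _) ?_
  have h := fol_ge ω (c ++ [opp e0]) (endp 0 l.1) (measurableSet_Down e0)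
  have he : endp (endp 0 l.1) (c ++ [opp e0]) = yst e0 w l.1 := by
    rw [endp_append, hw]; rfl
  rw [he] at h
  exact h

/-! ### annealed -/

/-- annealed weight of a word -/
noncomputable def aw (ν : Measure (Row d)) (l : List (Step d)) : ℝ≥0∞ :=
  ∫⁻ ω, lw ω 0 l ∂(iidEnvironmentLaw ν)

lemma aw_start (ν : Measure (Row d)) [IsProbabilityMeasure ν] (l : List (Step d)) (y : Site d) :
    ∫⁻ ω, lw ω y l ∂(iidEnvironmentLaw ν) = aw ν l := by
  have h : ∀ ω : Environment d, lw ω y l = lw (shiftEnv y ω) 0 l := fun ω => by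
    rw [← lw_shift, zero_add]
  simp_rw [h]
  exact (Q561.iid_shift ν y).lintegral_comp (measurable_lw 0 l)

lemma measurable_qdn (e0 : Step d) (y : Site d) :
    Measurable fun ω : Environment d => qdn e0 ω y :=
  measurable_quenched_apply y (measurableSet_Down e0)

lemma aqdn_start (ν : Measure (Row d)) [IsProbabilityMeasure ν] (e0 : Step d) (y : Site d) :
    ∫⁻ ω, qdn e0 ω y ∂(iidEnvironmentLaw ν) = ∫⁻ ω, qdn e0 ω 0 ∂(iidEnvironmentLaw ν) := by
  have h : ∀ ω : Environment d, qdn e0 ω y = qdn e0 (shiftEnv y ω) 0 := fun ω => by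
    rw [← qdn_shift, zero_add]
  simp_rw [h]
  exact (Q561.iid_shift ν y).lintegral_comp (measurable_qdn e0 0)

lemma locOn_qdn (e0 : Step d) (y : Site d) (S : Set (Site d))
    (hS : ∀ z, lev e0 z ≤ lev e0 y → z ∈ S) :
    Q561.LocOn S fun ω : Environment d => qdn e0 ω y :=
  Flux132.locOn_dn e0 y S hS

/-- the product formula of the surgery -/
lemma prod_surg (ν : Measure (Row d)) [IsProbabilityMeasure ν] (e0 : Step d) (n : ℕ)
    (c : List (Step d)) (w : Site d) (hlw : lev e0 w = 0)
    (hlev : ∀ x y : Site d, y ∈ sitesL x (c ++ [opp e0]) → lev e0 y = lev e0 x)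
    {l r : List (Step d)} (hl : IsUp e0 n l) (hr : IsDn e0 n r)
    (hdis : ∀ y ∈ sitesL 0 l, y ∉ sitesL (yst e0 w l) r) :
    ∫⁻ ω, lw ω 0 l * lw ω (endp 0 l) (c ++ [opp e0]) *
        (lw ω (yst e0 w l) r * qdn e0 ω (endp (yst e0 w l) r)) ∂(iidEnvironmentLaw ν)
      = aw ν l * aw ν (c ++ [opp e0]) * (aw ν r * ∫⁻ ω, qdn e0 ω 0 ∂(iidEnvironmentLaw ν)) := by
  have hy : lev e0 (yst e0 w l) = n - 1 := by
    unfold yst
    rw [lev_add, lev_add, stepVec_opp, lev_neg, lev_self, hl.2, hlw]; ring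
  have hend : lev e0 (endp (yst e0 w l) r) = -1 := by
    rw [endp_eq_add, lev_add, hr.2, hy]; ring
  have hsr : ∀ z ∈ sitesL (yst e0 w l) r, 0 ≤ lev e0 z ∧ lev e0 z < n := by
    intro z hz
    have h1 := hr.1 _ ((mem_sitesL_zero r _ z).1 hz)
    rw [sub_eq_add_neg, lev_add, lev_neg, hy] at h1
    constructor <;> omega
  have hsc : ∀ z ∈ sitesL (endp 0 l) (c ++ [opp e0]), lev e0 z = n := by
    intro z hz
    rw [hlev _ _ hz, hl.2]
  have hm1 := measurable_lw (d := d) 0 l
  have hm2 := measurable_lw (d := d) (endp 0 l) (c ++ [opp e0])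
  have hm3 := measurable_lw (d := d) (yst e0 w l) r
  have hm4 := measurable_qdn (d := d) e0 (endp (yst e0 w l) r)
  have hd34 : ∫⁻ ω, lw ω (yst e0 w l) r * qdn e0 ω (endp (yst e0 w l) r) ∂(iidEnvironmentLaw ν)
      = aw ν r * ∫⁻ ω, qdn e0 ω 0 ∂(iidEnvironmentLaw ν) := by
    rw [Q561.iid_lintegral_mul ν (S := {z | z ∈ sitesL (yst e0 w l) r})
      (T := {z | lev e0 z ≤ -1}) ?_ hm3 hm4 (locOn_lw _ _) (locOn_qdn e0 _ _ fun z hz => by
        rw [hend] at hz; exact hz), aw_start, aqdn_start]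
    rw [Set.disjoint_left]
    intro z hz hz'
    have h1 := (hsr z hz).1
    have h2 : lev e0 z ≤ -1 := hz'
    omega
  have hd12 : ∫⁻ ω, lw ω 0 l * lw ω (endp 0 l) (c ++ [opp e0]) ∂(iidEnvironmentLaw ν)
      = aw ν l * aw ν (c ++ [opp e0]) := by
    rw [Q561.iid_lintegral_mul ν (S := {z | z ∈ sitesL 0 l})
      (T := {z | z ∈ sitesL (endp 0 l) (c ++ [opp e0])}) ?_ hm1 hm2 (locOn_lw _ _)
      (locOn_lw _ _), aw_start ν (c ++ [opp e0]) (endp 0 l)]
    · rfl
    · rw [Set.disjoint_left]
      intro z hz hz'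
      have h1 := (hl.1 z hz).2
      have h2 := hsc z hz'
      omega
  have hm12 : Measurable fun ω : Environment d =>
      lw ω 0 l * lw ω (endp 0 l) (c ++ [opp e0]) := hm1.mul hm2
  have hm34 : Measurable fun ω : Environment d =>
      lw ω (yst e0 w l) r * qdn e0 ω (endp (yst e0 w l) r) := hm3.mul hm4
  rw [Q561.iid_lintegral_mul ν
    (S := {z | z ∈ sitesL 0 l} ∪ {z | z ∈ sitesL (endp 0 l) (c ++ [opp e0])})
    (T := {z | z ∈ sitesL (yst e0 w l) r} ∪ {z | lev e0 z ≤ -1}) ?_ hm12
    hm34 ?_ ?_, hd12, hd34]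
  · rw [Set.disjoint_left]
    rintro z (hz | hz) (hz' | hz')
    · exact hdis z hz hz'
    · have h1 := (hl.1 z hz).1
      have h2 : lev e0 z ≤ -1 := hz'
      omega
    · have h1 := hsc z hz
      have h2 := (hsr z hz').2
      omega
    · have h1 := hsc z hz
      have h2 : lev e0 z ≤ -1 := hz'
      omega
  · intro ω ω' h
    have e1 := locOn_lw 0 l ω ω' fun z hz => h z (Or.inl hz)
    have e2 := locOn_lw (endp 0 l) (c ++ [opp e0]) ω ω' fun z hz => h z (Or.inr hz)
    simp only at e1 e2 ⊢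
    rw [e1, e2]
  · intro ω ω' h
    have e1 := locOn_lw (yst e0 w l) r ω ω' fun z hz => h z (Or.inl hz)
    have e2 := locOn_qdn e0 (endp (yst e0 w l) r) {z | lev e0 z ≤ -1} (fun z hz => by
        rw [hend] at hz; exact hz) ω ω' fun z hz => h z (Or.inr hz)
    simp only at e1 e2 ⊢
    rw [e1, e2]

open Classical in
/-- **surgery**: the weights of the pairs of words without contact are summable over the height. -/
theorem surgery (ν : Measure (Row d)) [IsProbabilityMeasure ν] (e0 : Step d) (w : Site d)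
    (hlw : lev e0 w = 0) (c0 : ℝ≥0∞)
    (hc0 : ∀ (x : Site d) (e : Step d),
      c0 ≤ ∫⁻ ω : Environment d, ENNReal.ofReal ((ω x).1 e) ∂(iidEnvironmentLaw ν)) :
    c0 ^ (n1 w + 1) * (∫⁻ ω, qdn e0 ω 0 ∂(iidEnvironmentLaw ν)) *
      ∑' n : ℕ, ∑' l : {l : List (Step d) // IsUp e0 n l},
        ∑' r : {l : List (Step d) // IsDn e0 n l},
          (if ∀ y ∈ sitesL 0 l.1, y ∉ sitesL (yst e0 w l.1) r.1 then aw ν l.1 * aw ν r.1 else 0)
      ≤ 1 := by
  obtain ⟨c, hc1, hc2, hc3⟩ := exists_word e0 (opp e0) (n1 w) w hlw rfl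
  have hend : ∀ x : Site d, endp x c = x + w := fun x => (hc3 x).1
  have hlev : ∀ x y : Site d, y ∈ sitesL x (c ++ [opp e0]) → lev e0 y = lev e0 x :=
    fun x y hy => lev_sites e0 (opp e0) c hc1 x y hy
  have hawc : c0 ^ (n1 w + 1) ≤ aw ν (c ++ [opp e0]) := by
    have := ann_lw_ge ν c0 hc0 (c ++ [opp e0]) 0 (hc3 0).2.1
    rwa [List.length_append, hc2, List.length_singleton] at this
  refine le_trans ?_ (tsum_maxIs_le e0 (iidEnvironmentLaw ν))
  rw [← ENNReal.tsum_mul_left]
  refine ENNReal.tsum_le_tsum fun n => ?_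
  rw [← ENNReal.tsum_mul_left]
  have hmm : ∀ (l r : List (Step d)), Measurable fun ω : Environment d =>
      lw ω 0 l * lw ω (endp 0 l) (c ++ [opp e0]) *
        (lw ω (yst e0 w l) r * qdn e0 ω (endp (yst e0 w l) r)) := fun l r =>
    ((measurable_lw _ _).mul (measurable_lw _ _)).mul
      ((measurable_lw _ _).mul (measurable_qdn _ _))
  calc ∑' l : {l : List (Step d) // IsUp e0 n l},
        c0 ^ (n1 w + 1) * (∫⁻ ω, qdn e0 ω 0 ∂(iidEnvironmentLaw ν)) *
        ∑' r : {l : List (Step d) // IsDn e0 n l},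
          (if ∀ y ∈ sitesL 0 l.1, y ∉ sitesL (yst e0 w l.1) r.1 then aw ν l.1 * aw ν r.1 else 0)
      ≤ ∑' l : {l : List (Step d) // IsUp e0 n l}, ∑' r : {l : List (Step d) // IsDn e0 n l},
        ∫⁻ ω, lw ω 0 l.1 * lw ω (endp 0 l.1) (c ++ [opp e0]) *
          (lw ω (yst e0 w l.1) r.1 * qdn e0 ω (endp (yst e0 w l.1) r.1))
          ∂(iidEnvironmentLaw ν) := by
        refine ENNReal.tsum_le_tsum fun l => ?_
        rw [← ENNReal.tsum_mul_left]
        refine ENNReal.tsum_le_tsum fun r => ?_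
        split_ifs with h
        · rw [prod_surg ν e0 n c w hlw hlev l.2 r.2 h]
          calc c0 ^ (n1 w + 1) * (∫⁻ ω, qdn e0 ω 0 ∂(iidEnvironmentLaw ν)) *
                (aw ν l.1 * aw ν r.1)
              ≤ aw ν (c ++ [opp e0]) * (∫⁻ ω, qdn e0 ω 0 ∂(iidEnvironmentLaw ν)) *
                (aw ν l.1 * aw ν r.1) := by gcongr
            _ = _ := by ring
        · rw [mul_zero]; exact zero_le
    _ = ∫⁻ ω, ∑' l : {l : List (Step d) // IsUp e0 n l},
          ∑' r : {l : List (Step d) // IsDn e0 n l},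
          lw ω 0 l.1 * lw ω (endp 0 l.1) (c ++ [opp e0]) *
          (lw ω (yst e0 w l.1) r.1 * qdn e0 ω (endp (yst e0 w l.1) r.1))
          ∂(iidEnvironmentLaw ν) := by
        rw [lintegral_tsum (f := fun (l : {l : List (Step d) // IsUp e0 n l})
          (ω : Environment d) => ∑' r : {l : List (Step d) // IsDn e0 n l},
          lw ω 0 l.1 * lw ω (endp 0 l.1) (c ++ [opp e0]) *
          (lw ω (yst e0 w l.1) r.1 * qdn e0 ω (endp (yst e0 w l.1) r.1)))
          (fun l => (Measurable.ennreal_tsum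
            fun r : {l : List (Step d) // IsDn e0 n l} => hmm l.1 r.1).aemeasurable)]
        refine tsum_congr fun l => ?_
        rw [lintegral_tsum (f := fun (r : {l : List (Step d) // IsDn e0 n l})
          (ω : Environment d) => lw ω 0 l.1 * lw ω (endp 0 l.1) (c ++ [opp e0]) *
          (lw ω (yst e0 w l.1) r.1 * qdn e0 ω (endp (yst e0 w l.1) r.1)))
          (fun r => (hmm l.1 r.1).aemeasurable)]
    _ ≤ ∫⁻ ω, quenchedLaw ω 0 (maxIs e0 n) ∂(iidEnvironmentLaw ν) :=
        lintegral_mono fun ω => q_surg e0 n c w hc1 hend ω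
    _ = annealedProb (iidEnvironmentLaw ν) 0 (maxIs e0 n) := rfl

end Crest.Agent.R154.Surg802
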