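import Crest.Agent.R154.B5Abs_566

/-! Row 154, block B5 (helper657): the combinatorics of pair crossings.

Letters `E` with a height `h : E → ℤ`; `UpW h n` = words which first reach level `n` at their end and
never go below `0`.  A pair crossing of height `n` is `(π, ρ)` with `π ∈ UpW h n`, `ρ ∈ UpW h' n`
(`h' = -h` for the descending walker); upper * lower = `(π_low ++ π_up, ρ_up ++ ρ_low)`.
Unique factorisation into irreducible pairs. -/

set_option autoImplicit false

namespace Crest.Agent.R154.B5W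

open scoped ENNReal
open Crest.Agent.R154.B5A

variable {E : Type*}

/-- level of a word -/
def lv (h : E → ℤ) (l : List E) : ℤ := (l.map h).sum

@[simp] lemma lv_nil (h : E → ℤ) : lv h [] = 0 := by simp [lv]

@[simp] lemma lv_append (h : E → ℤ) (a b : List E) : lv h (a ++ b) = lv h a + lv h b := by
  simp [lv]

/-- crossing words of height `n` -/
def UpW (h : E → ℤ) (n : ℕ) : Set (List E) :=
  {l | lv h l = n ∧ ∀ p, p <+: l → p ≠ l → 0 ≤ lv h p ∧ lv h p < n}

lemma nil_mem (h : E → ℤ) : ([] : List E) ∈ UpW h 0 := by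
  refine ⟨by simp, fun p hp hne => ?_⟩
  exact absurd (List.prefix_nil.1 hp) hne

lemma eq_nil_of_mem_zero {h : E → ℤ} {l : List E} (hl : l ∈ UpW h 0) : l = [] := by
  by_contra hne
  have := hl.2 [] (List.nil_prefix) (fun e => hne e.symm)
  simp at this

lemma prefix_cases {p a b : List E} (hp : p <+: a ++ b) :
    (p <+: a ∧ p ≠ a) ∨ ∃ q, p = a ++ q ∧ q <+: b := by
  by_cases e : p = a
  · exact Or.inr ⟨[], by simp [e], List.nil_prefix⟩
  rcases List.prefix_or_prefix_of_prefix hp (List.prefix_append a b) with h1 | ⟨q, rfl⟩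
  · exact Or.inl ⟨h1, e⟩
  · exact Or.inr ⟨q, rfl, (List.prefix_append_right_inj a).1 hp⟩

lemma mem_append {h : E → ℤ} {a b : List E} {m n : ℕ} (ha : a ∈ UpW h m) (hb : b ∈ UpW h n) :
    a ++ b ∈ UpW h (m + n) := by
  refine ⟨by rw [lv_append, ha.1, hb.1]; push_cast; ring, fun p hp hne => ?_⟩
  rcases prefix_cases hp with ⟨h1, h2⟩ | ⟨q, rfl, hq⟩
  · have := ha.2 p h1 h2
    push_cast
    exact ⟨this.1, by linarith [this.2, (Int.natCast_nonneg n)]⟩
  · have := hb.2 q hq (fun e => hne (by rw [e]))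
    rw [lv_append, ha.1]
    push_cast
    exact ⟨by linarith [this.1, (Int.natCast_nonneg m)], by linarith [this.2]⟩

lemma prefix_of_le {h : E → ℤ} {a b x : List E} {m n : ℕ} (ha : a ∈ UpW h m) (hb : b ∈ UpW h n)
    (hax : a <+: x) (hbx : b <+: x) (hmn : m ≤ n) : a <+: b := by
  rcases List.prefix_or_prefix_of_prefix hax hbx with h1 | h1
  · exact h1
  · by_cases e : b = a
    · rw [e]
    · have := (ha.2 b h1 e).2
      rw [hb.1] at this
      exact absurd (Int.ofNat_lt.1 this) (not_lt.2 hmn)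

lemma split_eq {h : E → ℤ} {a₁ a₂ c₁ c₂ : List E} {p₁ p₂ q₁ : ℕ} (ha₁ : a₁ ∈ UpW h p₁)
    (hc₁ : c₁ ∈ UpW h p₂) (ha₂ : a₂ ∈ UpW h q₁) (he : a₁ ++ a₂ = c₁ ++ c₂) (hp : p₁ ≤ p₂) :
    ∃ z ∈ UpW h (p₂ - p₁), c₁ = a₁ ++ z ∧ a₂ = z ++ c₂ := by
  obtain ⟨z, hz⟩ := prefix_of_le ha₁ hc₁ (List.prefix_append a₁ a₂)
    (he ▸ List.prefix_append c₁ c₂) hp
  have h2 : a₂ = z ++ c₂ := by
    rw [← hz, List.append_assoc] at he
    exact List.append_cancel_left he
  have hlv : lv h z = p₂ - p₁ := by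
    have := hc₁.1
    rw [← hz, lv_append, ha₁.1] at this
    linarith
  refine ⟨z, ⟨by rw [hlv]; push_cast [hp]; ring, fun q hq hne => ?_⟩, hz.symm, h2⟩
  have h3 := hc₁.2 (a₁ ++ q) (by rw [← hz]; exact (List.prefix_append_right_inj a₁).2 hq)
    (fun e => hne (List.append_cancel_left (e.trans hz.symm)))
  rw [lv_append, ha₁.1] at h3
  have h4 := ha₂.2 q (h2 ▸ hq.trans (List.prefix_append z c₂)) (by
    intro e
    have hl := hq.length_le
    have : q.length = z.length + c₂.length := by rw [e, h2, List.length_append]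
    exact hne (hq.eq_of_length (by omega)))
  exact ⟨h4.1, by push_cast [hp]; linarith [h3.2]⟩

variable (h h' : E → ℤ)

/-- pair crossings of height `n` -/
def PC (n : ℕ) : Set (List E × List E) := {x | x.1 ∈ UpW h n ∧ x.2 ∈ UpW h' n}

/-- product, `a` on top of `b` -/
def pm (a b : List E × List E) : List E × List E := (b.1 ++ a.1, a.2 ++ b.2)

lemma pm_nil (a : List E × List E) : pm a ([], []) = a := by simp [pm]

lemma nil_pm (a : List E × List E) : pm ([], []) a = a := by simp [pm]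

lemma pm_assoc (a b c : List E × List E) : pm (pm a b) c = pm a (pm b c) := by simp [pm]

variable {h h'} in
lemma PC_zero {x : List E × List E} (hx : x ∈ PC h h' 0) : x = ([], []) :=
  Prod.ext (eq_nil_of_mem_zero hx.1) (eq_nil_of_mem_zero hx.2)

lemma nil_mem_PC : (([], []) : List E × List E) ∈ PC h h' 0 := ⟨nil_mem h, nil_mem h'⟩

variable {h h'} in
lemma pm_mem {a b : List E × List E} {m n : ℕ} (ha : a ∈ PC h h' m) (hb : b ∈ PC h h' n) :
    pm a b ∈ PC h h' (m + n) :=
  ⟨by rw [add_comm]; exact mem_append hb.1 ha.1, mem_append ha.2 hb.2⟩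

variable {h h'} in
lemma PC_height {x : List E × List E} {m n : ℕ} (hm : x ∈ PC h h' m) (hn : x ∈ PC h h' n) :
    m = n := by
  have := hm.1.1.symm.trans hn.1.1
  exact_mod_cast this

variable {h h'} in
/-- refinement: two factorisations of the same pair crossing are comparable -/
lemma refine_pm {b b' y y' : List E × List E} {m m' k k' : ℕ} (hb : b ∈ PC h h' m)
    (hb' : b' ∈ PC h h' m') (hy : y ∈ PC h h' k) (hy' : y' ∈ PC h h' k')
    (he : pm b y = pm b' y') (hm : m ≤ m') :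
    ∃ z ∈ PC h h' (m' - m), b' = pm b z ∧ y = pm z y' := by
  have hs : m + k = m' + k' := PC_height (pm_mem hb hy) (he ▸ pm_mem hb' hy')
  have e1 : y'.1 ++ b'.1 = y.1 ++ b.1 := (congrArg Prod.fst he).symm
  have e2 : b.2 ++ y.2 = b'.2 ++ y'.2 := congrArg Prod.snd he
  obtain ⟨z1, hz1, ha, hb1⟩ := split_eq hy'.1 hy.1 hb'.1 e1 (by omega)
  obtain ⟨z2, hz2, hc, hd⟩ := split_eq hb.2 hb'.2 hy.2 e2 hm
  refine ⟨(z1, z2), ⟨?_, hz2⟩, Prod.ext hb1 hc, Prod.ext ha hd⟩
  rwa [show m' - m = k - k' by omega]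

/-- irreducible pair crossing -/
def Irr (b : List E × List E) : Prop :=
  ∃ n, 1 ≤ n ∧ b ∈ PC h h' n ∧
    ∀ a c k l, a ∈ PC h h' k → c ∈ PC h h' l → b = pm a c → k = 0 ∨ l = 0

/-- the blocks -/
def Blk : Type _ := {b : List E × List E // Irr h h' b}

/-- height of a block -/
def hb (b : Blk h h') : ℕ := (lv h b.1.1).toNat

variable {h h'}

lemma hb_eq {b : Blk h h'} {n : ℕ} (hn : b.1 ∈ PC h h' n) : hb h h' b = n := by
  rw [hb, hn.1.1]; simp

lemma blk_mem (b : Blk h h') : b.1 ∈ PC h h' (hb h h' b) := by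
  obtain ⟨n, _, hn, _⟩ := b.2
  rwa [hb_eq hn]

lemma one_le_hb (b : Blk h h') : 1 ≤ hb h h' b := by
  obtain ⟨n, h1, hn, _⟩ := b.2
  rwa [hb_eq hn]

lemma blk_irr (b : Blk h h') {a c : List E × List E} {k l : ℕ} (ha : a ∈ PC h h' k)
    (hc : c ∈ PC h h' l) (he : b.1 = pm a c) : k = 0 ∨ l = 0 := by
  obtain ⟨n, _, _, h3⟩ := b.2
  exact h3 a c k l ha hc he

/-- concatenation of a list of blocks (first block on top) -/
def cat : List (Blk h h') → List E × List E
  | [] => ([], [])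
  | b :: L => pm b.1 (cat L)

lemma cat_mem (L : List (Blk h h')) : cat L ∈ PC h h' (HT (hb h h') L) := by
  induction L with
  | nil => exact nil_mem_PC h h'
  | cons b L ih => rw [HT_cons]; exact pm_mem (blk_mem b) ih

lemma cat_inj : Function.Injective (cat : List (Blk h h') → List E × List E) := by
  intro L
  induction L with
  | nil =>
    intro L' he
    cases L' with
    | nil => rfl
    | cons b L' =>
      have h1 := cat_mem (b :: L')
      rw [← he] at h1
      have := PC_height h1 (nil_mem_PC h h')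
      have h2 := one_le_hb b
      rw [HT_cons] at this
      omega
  | cons b L ih =>
    intro L' he
    cases L' with
    | nil =>
      have h1 := cat_mem (b :: L)
      rw [he] at h1
      have := PC_height h1 (nil_mem_PC h h')
      have h2 := one_le_hb b
      rw [HT_cons] at this
      omega
    | cons b' L' =>
      have key : b = b' ∧ cat L = cat L' := by
        rcases le_total (hb h h' b) (hb h h' b') with hle | hle
        · obtain ⟨z, hz, h1, h2⟩ := refine_pm (blk_mem b) (blk_mem b') (cat_mem L) (cat_mem L')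
            he hle
          rcases blk_irr b' (blk_mem b) hz h1 with h3 | h3
          · have := one_le_hb b; omega
          · rw [h3] at hz
            have hz0 := PC_zero hz
            rw [hz0, pm_nil] at h1
            rw [hz0, nil_pm] at h2
            exact ⟨Subtype.ext h1.symm, h2⟩
        · obtain ⟨z, hz, h1, h2⟩ := refine_pm (blk_mem b') (blk_mem b) (cat_mem L') (cat_mem L)
            he.symm hle
          rcases blk_irr b (blk_mem b') hz h1 with h3 | h3
          · have := one_le_hb b'; omega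
          · rw [h3] at hz
            have hz0 := PC_zero hz
            rw [hz0, pm_nil] at h1
            rw [hz0, nil_pm] at h2
            exact ⟨Subtype.ext h1, h2.symm⟩
      rw [key.1, ih key.2]

lemma cat_surj (n : ℕ) : ∀ x ∈ PC h h' n, ∃ L : List (Blk h h'), cat L = x := by
  induction n using Nat.strong_induction_on with
  | _ n ih =>
    intro x hx
    rcases Nat.eq_zero_or_pos n with h0 | h0
    · subst h0
      exact ⟨[], (PC_zero hx).symm⟩
    classical
    have hex : ∃ m, 1 ≤ m ∧ m ≤ n ∧ ∃ b ∈ PC h h' m, ∃ y ∈ PC h h' (n - m), x = pm b y :=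
      ⟨n, h0, le_rfl, x, hx, ([], []), by rw [Nat.sub_self]; exact nil_mem_PC h h',
        (pm_nil x).symm⟩
    set m := Nat.find hex with hm
    obtain ⟨h1, h2, b, hbm, y, hy, he⟩ := Nat.find_spec hex
    have hirr : Irr h h' b := by
      refine ⟨m, h1, hbm, fun a c k l ha hc hac => ?_⟩
      by_contra hcon
      push Not at hcon
      have hkl : m = k + l := PC_height hbm (hac ▸ pm_mem ha hc)
      refine Nat.find_min hex (m := k) (by omega) ⟨by omega, by omega, a, ha, pm c y, ?_, ?_⟩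
      · have := pm_mem hc hy
        rwa [show l + (n - m) = n - k by omega] at this
      · rw [he, hac, pm_assoc]
    obtain ⟨L, hL⟩ := ih (n - m) (by omega) y hy
    refine ⟨(⟨b, hirr⟩ : Blk h h') :: L, ?_⟩
    change pm b (cat L) = x
    rw [hL]
    exact he.symm

/-- lists of total height `n` and pair crossings of height `n` -/
noncomputable def catEquiv (n : ℕ) : {L : List (Blk h h') // HT (hb h h') L = n} ≃ PC h h' n :=
  Equiv.ofBijective (fun L => ⟨cat L.1, by have := cat_mem L.1; rwa [L.2] at this⟩)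
    ⟨fun L L' he => Subtype.ext (cat_inj (congrArg Subtype.val he)), fun x => by
      obtain ⟨L, hL⟩ := cat_surj n x.1 x.2
      exact ⟨⟨L, PC_height (hL ▸ cat_mem L) x.2⟩, Subtype.ext hL⟩⟩

/-- pairs of crossings -/
def pcEquiv (n : ℕ) : UpW h n × UpW h' n ≃ PC h h' n where
  toFun y := ⟨(y.1.1, y.2.1), y.1.2, y.2.2⟩
  invFun x := (⟨x.1.1, x.2.1⟩, ⟨x.1.2, x.2.2⟩)
  left_inv _ := rfl
  right_inv _ := rfl

section weights

variable (a₁ a₂ : List E → ℝ≥0∞)

/-- weight of a block -/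
noncomputable def wt (b : Blk h h') : ℝ≥0∞ := a₁ b.1.1 * a₂ b.1.2

variable {a₁ a₂}

lemma LW_wt (hn₁ : a₁ [] = 1) (hn₂ : a₂ [] = 1)
    (hm₁ : ∀ m n, ∀ a ∈ UpW h m, ∀ b ∈ UpW h n, a₁ (a ++ b) = a₁ a * a₁ b)
    (hm₂ : ∀ m n, ∀ a ∈ UpW h' m, ∀ b ∈ UpW h' n, a₂ (a ++ b) = a₂ a * a₂ b)
    (L : List (Blk h h')) :
    LW (wt a₁ a₂) L = a₁ (cat L).1 * a₂ (cat L).2 := by
  induction L with
  | nil => simp [LW_nil, cat, hn₁, hn₂]
  | cons b L ih =>
    rw [LW_cons, ih]
    simp only [cat, pm, wt]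
    rw [hm₁ _ _ _ (cat_mem L).1 _ (blk_mem b).1, hm₂ _ _ _ (blk_mem b).2 _ (cat_mem L).2]
    ring

open Classical in
/-- **sum over lists of height `n` = sum over pair crossings of height `n`.** -/
theorem tsum_lists (hn₁ : a₁ [] = 1) (hn₂ : a₂ [] = 1)
    (hm₁ : ∀ m n, ∀ a ∈ UpW h m, ∀ b ∈ UpW h n, a₁ (a ++ b) = a₁ a * a₁ b)
    (hm₂ : ∀ m n, ∀ a ∈ UpW h' m, ∀ b ∈ UpW h' n, a₂ (a ++ b) = a₂ a * a₂ b)
    (n : ℕ) (F : List E × List E → ℝ≥0∞) :
    ∑' L : List (Blk h h'), (if HT (hb h h') L = n then LW (wt a₁ a₂) L * F (cat L) else 0)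
      = ∑' x : PC h h' n, a₁ x.1.1 * a₂ x.1.2 * F x.1 := by
  rw [← (catEquiv n).tsum_eq (fun x : PC h h' n => a₁ x.1.1 * a₂ x.1.2 * F x.1)]
  have h1 : ∑' L : List (Blk h h'),
      (if HT (hb h h') L = n then LW (wt a₁ a₂) L * F (cat L) else 0)
      = ∑' L : {L : List (Blk h h') // HT (hb h h') L = n}, LW (wt a₁ a₂) L.1 * F (cat L.1) := by
    have := tsum_subtype {L : List (Blk h h') | HT (hb h h') L = n}
      (fun L => LW (wt a₁ a₂) L * F (cat L))
    rw [show (∑' L : {L : List (Blk h h') // HT (hb h h') L = n},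
      LW (wt a₁ a₂) L.1 * F (cat L.1)) = ∑' L : {L : List (Blk h h') | HT (hb h h') L = n},
        LW (wt a₁ a₂) L.1 * F (cat L.1) from rfl, this]
    refine tsum_congr fun L => ?_
    simp [Set.indicator_apply]
  rw [h1]
  refine tsum_congr fun L => ?_
  rw [LW_wt hn₁ hn₂ hm₁ hm₂]
  rfl

open Classical in
/-- `U_n = (mass of up-crossings) * (mass of down-crossings)` -/
theorem U_eq (hn₁ : a₁ [] = 1) (hn₂ : a₂ [] = 1)
    (hm₁ : ∀ m n, ∀ a ∈ UpW h m, ∀ b ∈ UpW h n, a₁ (a ++ b) = a₁ a * a₁ b)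
    (hm₂ : ∀ m n, ∀ a ∈ UpW h' m, ∀ b ∈ UpW h' n, a₂ (a ++ b) = a₂ a * a₂ b)
    (n : ℕ) :
    U (wt a₁ a₂) (hb h h') n = (∑' π : UpW h n, a₁ π.1) * ∑' ρ : UpW h' n, a₂ ρ.1 := by
  have h1 := tsum_lists (h := h) (h' := h') hn₁ hn₂ hm₁ hm₂ n (fun _ => 1)
  simp only [mul_one] at h1
  rw [U, h1]
  have h2 := (pcEquiv (h := h) (h' := h') n).tsum_eq
    (fun x : PC h h' n => a₁ x.1.1 * a₂ x.1.2)
  rw [← h2]
  change ∑' c : UpW h n × UpW h' n, a₁ c.1.1 * a₂ c.2.1 = _
  rw [ENNReal.tsum_prod (f := fun (π : UpW h n) (ρ : UpW h' n) => a₁ π.1 * a₂ ρ.1),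
    ← ENNReal.tsum_mul_right]
  exact tsum_congr fun π => ENNReal.tsum_mul_left

end weights

end Crest.Agent.R154.B5W
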