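import Mathlib

/-! R154 block B6, pure number part (helper833): slow variation from the two-step recursion. -/

set_option autoImplicit false

open Filter Topology
open scoped BigOperators

namespace Crest.Agent.R154.B6_833

/-- dichotomy: once a ratio is `≥ 1/2` it stays `≥ 7/8`; otherwise the decay is too fast. -/
lemma ratio_of_rec (B : ℕ → ℝ) (hpos : ∀ j, 0 ≤ B j) (hle : ∀ j, B j ≤ 1)
    (j₀ q : ℕ) (c₀ : ℝ)
    (hrec : ∀ j, j₀ ≤ j → B (j+1) - B (j+2) ≤ B j / 16)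
    (hlow : c₀ * (7/8:ℝ)^(j₀+q) ≤ B (j₀+q))
    (hq : (1/8:ℝ)^q < c₀ * (7/8:ℝ)^(j₀+q)) :
    ∀ j, j₀ + q + 1 ≤ j → 7/8 * B j ≤ B (j+1) := by
  have key : ∀ i, j₀ ≤ i → B i / 2 ≤ B (i+1) → ∀ j, i + 1 ≤ j → 7/8 * B j ≤ B (j+1) := by
    intro i hi h2 j hj
    have aux : ∀ j, i + 1 ≤ j → B (j-1) / 2 ≤ B j ∧ 7/8 * B j ≤ B (j+1) := by
      intro j hj
      induction j, hj using Nat.le_induction with
      | base =>
        refine ⟨by simpa using h2, ?_⟩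
        have := hrec i hi
        nlinarith [hpos i]
      | succ j hj ih =>
        have h1 : B j / 2 ≤ B (j+1) := by nlinarith [ih.2, hpos j]
        refine ⟨by simpa using h1, ?_⟩
        have := hrec j (by omega)
        show 7/8 * B (j+1) ≤ B (j+2)
        nlinarith [hpos j]
    exact (aux j hj).2
  by_cases hex : ∃ i, j₀ ≤ i ∧ i ≤ j₀ + q ∧ B i / 2 ≤ B (i+1)
  · obtain ⟨i, h1, h2, h3⟩ := hex
    intro j hj
    exact key i h1 h3 j (by omega)
  · exfalso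
    push Not at hex
    have hdec : ∀ i, i ≤ q → B (j₀ + i) ≤ (1/8:ℝ)^i := by
      intro i
      induction i with
      | zero => intro _; simpa using hle j₀
      | succ i ih =>
        intro hi
        have h1 := hex (j₀+i+1) (by omega) (by omega)
        have h2 := hrec (j₀+i) (by omega)
        have h3 := ih (by omega)
        have h4 : B (j₀ + i + 1) ≤ B (j₀+i) / 8 := by
          have : B (j₀ + i + 2) < B (j₀+i+1) / 2 := h1
          linarith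
        calc B (j₀ + (i+1)) = B (j₀ + i + 1) := by ring_nf
          _ ≤ B (j₀+i) / 8 := h4
          _ ≤ (1/8:ℝ)^i / 8 := by linarith
          _ = (1/8:ℝ)^(i+1) := by rw [pow_succ]; ring
    have := hdec q le_rfl
    linarith

/-- uniform family hypotheses -/
structure SVFam (𝓑 : Set (ℕ → ℝ)) : Prop where
  anti : ∀ f ∈ 𝓑, Antitone f
  pos : ∀ f ∈ 𝓑, ∀ n, 0 ≤ f n
  le1 : ∀ f ∈ 𝓑, ∀ n, f n ≤ 1
  ratio : ∀ ε > (0:ℝ), ∃ J : ℕ, ∀ j ≥ J, ∀ f ∈ 𝓑, (1 - ε) * f (2^j) ≤ f (2^(j+1))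
  low : ∃ c > (0:ℝ), ∀ f ∈ 𝓑, ∀ j, c * (7/8:ℝ)^j ≤ f (2^j)

lemma SVFam.ratio_iter {𝓑 : Set (ℕ → ℝ)} (H : SVFam 𝓑) (t : ℕ) :
    ∀ ε > (0:ℝ), ∃ J : ℕ, ∀ j ≥ J, ∀ f ∈ 𝓑, (1 - ε) * f (2^j) ≤ f (2^(j+t)) := by
  induction t with
  | zero =>
    intro ε hε
    refine ⟨0, fun j _ f hf => ?_⟩
    simp only [add_zero]
    nlinarith [H.pos f hf (2^j)]
  | succ t ih =>
    intro ε hε
    set ε' := min (ε/2) (1/2) with hε'
    have hε'pos : 0 < ε' := by rw [hε']; positivity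
    have h1 : ε' ≤ ε / 2 := min_le_left _ _
    have h2 : ε' ≤ 1/2 := min_le_right _ _
    obtain ⟨J1, h3⟩ := ih ε' hε'pos
    obtain ⟨J2, h4⟩ := H.ratio ε' hε'pos
    refine ⟨max J1 J2, fun j hj f hf => ?_⟩
    have e1 := h3 j (le_trans (le_max_left _ _) hj) f hf
    have e2 := h4 (j+t) (by have := le_trans (le_max_right J1 J2) hj; omega) f hf
    have e3 : f (2^(j+(t+1))) = f (2^(j+t+1)) := by rw [add_assoc]
    rw [e3]
    have p0 := H.pos f hf (2^j)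
    have hq : 1 - ε ≤ (1-ε') * (1-ε') := by nlinarith [sq_nonneg ε']
    have : (1-ε) * f (2^j) ≤ (1-ε') * ((1-ε') * f (2^j)) := by
      rw [← mul_assoc]; exact mul_le_mul_of_nonneg_right hq p0
    have e4 : (1-ε') * ((1-ε') * f (2^j)) ≤ (1-ε') * f (2^(j+t)) :=
      mul_le_mul_of_nonneg_left e1 (by linarith)
    linarith

lemma exists_pow (n : ℕ) (hn : 1 ≤ n) : ∃ J : ℕ, 2^J ≤ n ∧ n < 2^(J+1) := by
  refine ⟨Nat.log 2 n, Nat.pow_log_le_self 2 (by omega), ?_⟩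
  exact Nat.lt_pow_succ_log_self (by norm_num) n

lemma SVFam.sv2 {𝓑 : Set (ℕ → ℝ)} (H : SVFam 𝓑) (C : ℕ) :
    ∀ ε > (0:ℝ), ∃ n₀ : ℕ, ∀ n ≥ n₀, ∀ f ∈ 𝓑, f n - f (C * n) ≤ ε * f n := by
  intro ε hε
  obtain ⟨t, ht⟩ : ∃ t : ℕ, C ≤ 2^t := ⟨C, Nat.lt_two_pow_self.le⟩
  obtain ⟨J, hJ⟩ := H.ratio_iter (t+1) (min ε 1) (by positivity)
  refine ⟨2^J, fun n hn f hf => ?_⟩
  obtain ⟨K, hK1, hK2⟩ := exists_pow n (le_trans Nat.one_le_two_pow hn)
  have hJK : J ≤ K := by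
    by_contra h
    have : K + 1 ≤ J := by omega
    have := Nat.pow_le_pow_right (show 0 < 2 by norm_num) this
    omega
  have h1 := hJ K hJK f hf
  have h2 : f n ≤ f (2^K) := H.anti f hf hK1
  have h3 : f (2^(K+(t+1))) ≤ f (C * n) := by
    apply H.anti f hf
    calc C * n ≤ 2^t * 2^(K+1) := Nat.mul_le_mul ht hK2.le
      _ = 2^(K+(t+1)) := by rw [← pow_add]; ring_nf
  have h4 : min ε 1 ≤ ε := min_le_left _ _
  have h5 : min ε 1 ≤ 1 := min_le_right _ _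
  have h6 : (1 - min ε 1) * f n ≤ (1 - min ε 1) * f (2^K) :=
    mul_le_mul_of_nonneg_left h2 (by linarith)
  have h7 := H.pos f hf n
  nlinarith

lemma SVFam.sum_le {𝓑 : Set (ℕ → ℝ)} (H : SVFam 𝓑) :
    ∃ C₀ > (0:ℝ), ∃ J₁ : ℕ, ∀ j ≥ J₁, ∀ f ∈ 𝓑,
      ∑ h ∈ Finset.range (2^j), f h ≤ C₀ * 2^j * f (2^j) := by
  obtain ⟨J, hJ⟩ := H.ratio (1/8) (by norm_num)
  obtain ⟨c, hc, hlow⟩ := H.low
  refine ⟨max 2 (1 / (c * (7/8)^J)), by positivity, J, ?_⟩
  set C₀ := max (2:ℝ) (1 / (c * (7/8)^J)) with hC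
  have hC2 : 2 ≤ C₀ := le_max_left _ _
  have hC3 : 1 / (c * (7/8)^J) ≤ C₀ := le_max_right _ _
  intro j hj f hf
  induction j, hj using Nat.le_induction with
  | base =>
    have h1 : ∑ h ∈ Finset.range (2^J), f h ≤ ∑ h ∈ Finset.range (2^J), (1:ℝ) :=
      Finset.sum_le_sum fun h _ => H.le1 f hf h
    have h2 : ∑ h ∈ Finset.range (2^J), (1:ℝ) = 2^J := by simp
    have h3 := hlow f hf J
    have hcp : 0 < c * (7/8:ℝ)^J := by positivity
    have h4 : 1 ≤ C₀ * f (2^J) := by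
      calc (1:ℝ) = (1 / (c * (7/8)^J)) * (c * (7/8)^J) := by field_simp
        _ ≤ C₀ * f (2^J) := mul_le_mul hC3 h3 hcp.le (by linarith)
    have h5 : (2:ℝ)^J * 1 ≤ 2^J * (C₀ * f (2^J)) :=
      mul_le_mul_of_nonneg_left h4 (by positivity)
    nlinarith
  | succ j hj ih =>
    have h1 : ∑ h ∈ Finset.range (2^(j+1)), f h
        = ∑ h ∈ Finset.range (2^j), f h + ∑ h ∈ Finset.Ico (2^j) (2^(j+1)), f h := by
      rw [Finset.range_eq_Ico, Finset.range_eq_Ico, Finset.sum_Ico_consecutive]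
      · exact Nat.zero_le _
      · exact Nat.pow_le_pow_right (by norm_num) (Nat.le_succ j)
    have h2 : ∑ h ∈ Finset.Ico (2^j) (2^(j+1)), f h ≤ ∑ h ∈ Finset.Ico (2^j) (2^(j+1)), f (2^j) :=
      Finset.sum_le_sum fun h hh => H.anti f hf (Finset.mem_Ico.mp hh).1
    have h3 : ∑ h ∈ Finset.Ico (2^j) (2^(j+1)), f (2^j) = 2^j * f (2^j) := by
      rw [Finset.sum_const, Nat.card_Ico, nsmul_eq_mul]
      congr 1
      rw [pow_succ]
      have : 2^j * 2 - 2^j = 2^j := by omega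
      rw [this]; push_cast; rfl
    have h4 := hJ j hj f hf
    have p0 := H.pos f hf (2^j)
    have p1 := H.pos f hf (2^(j+1))
    have hp : (0:ℝ) < 2^j := by positivity
    rw [h1]
    have h5 : ∑ h ∈ Finset.range (2^j), f h + ∑ h ∈ Finset.Ico (2^j) (2^(j+1)), f h
        ≤ (C₀ + 1) * 2^j * f (2^j) := by
      rw [h3] at h2; linarith
    have h6 : f (2^j) ≤ 8/7 * f (2^(j+1)) := by linarith
    calc _ ≤ (C₀ + 1) * 2^j * f (2^j) := h5
      _ ≤ (C₀ + 1) * 2^j * (8/7 * f (2^(j+1))) :=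
          mul_le_mul_of_nonneg_left h6 (by positivity)
      _ = ((C₀ + 1) * (8/7)) * (2^j * f (2^(j+1))) := by ring
      _ ≤ (2 * C₀) * (2^j * f (2^(j+1))) := by
          apply mul_le_mul_of_nonneg_right _ (by positivity)
          linarith
      _ = C₀ * 2^(j+1) * f (2^(j+1)) := by rw [pow_succ]; ring

/-- slow variation in the summed form -/
lemma SVFam.sv1 {𝓑 : Set (ℕ → ℝ)} (H : SVFam 𝓑) :
    ∀ ε > (0:ℝ), ∃ n₀ : ℕ, ∀ n ≥ n₀, ∀ f ∈ 𝓑,
      ∑ h ∈ Finset.range n, (f h - f n) ≤ ε * n * f n := by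
  intro ε hε
  obtain ⟨C₀, hC0, J₁, hJ₁⟩ := H.sum_le
  obtain ⟨t, ht⟩ : ∃ t : ℕ, 4 * C₀ / ε ≤ 2^t := by
    obtain ⟨t, ht⟩ := exists_nat_gt (4 * C₀ / ε)
    refine ⟨t, ht.le.trans ?_⟩
    exact_mod_cast Nat.lt_two_pow_self.le
  set ε' := min (ε/4) (1/2) with hε'
  have hε'pos : 0 < ε' := by rw [hε']; positivity
  have hε1 : ε' ≤ ε/4 := min_le_left _ _
  have hε2 : ε' ≤ 1/2 := min_le_right _ _
  obtain ⟨J₂, hJ₂⟩ := H.ratio_iter (t+1) ε' hε'pos
  refine ⟨2^(max J₁ J₂ + t), fun n hn f hf => ?_⟩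
  obtain ⟨K, hK1, hK2⟩ := exists_pow n (le_trans Nat.one_le_two_pow hn)
  have hJK : max J₁ J₂ + t ≤ K := by
    by_contra h
    have : K + 1 ≤ max J₁ J₂ + t := by omega
    have := Nat.pow_le_pow_right (show 0 < 2 by norm_num) this
    omega
  obtain ⟨i, hi⟩ : ∃ i, K = i + t := ⟨K - t, by omega⟩
  have hi1 : J₁ ≤ i := by have := le_max_left J₁ J₂; omega
  have hi2 : J₂ ≤ i := by have := le_max_right J₁ J₂; omega
  have h1 := hJ₁ i hi1 f hf
  have h2 := hJ₂ i hi2 f hf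
  have pn := H.pos f hf n
  have pi' := H.pos f hf (2^i)
  have h3 : f (2^(i+(t+1))) ≤ f n := by
    apply H.anti f hf
    have : i + (t+1) = K + 1 := by omega
    rw [this]; exact hK2.le
  have h4 : f (2^i) ≤ 2 * f n := by nlinarith
  have h5 : f (2^i) - f n ≤ ε/2 * f n := by nlinarith
  have hle : 2^i ≤ n := by
    refine le_trans ?_ hK1
    exact Nat.pow_le_pow_right (by norm_num) (by omega)
  have hsplit : ∑ h ∈ Finset.range n, (f h - f n)
      = ∑ h ∈ Finset.range (2^i), (f h - f n) + ∑ h ∈ Finset.Ico (2^i) n, (f h - f n) := by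
    rw [Finset.range_eq_Ico, Finset.range_eq_Ico, Finset.sum_Ico_consecutive _ (Nat.zero_le _) hle]
  have hA : ∑ h ∈ Finset.range (2^i), (f h - f n) ≤ ∑ h ∈ Finset.range (2^i), f h :=
    Finset.sum_le_sum fun h _ => by linarith
  have hB : ∑ h ∈ Finset.Ico (2^i) n, (f h - f n) ≤ n * (ε/2 * f n) := by
    calc _ ≤ ∑ h ∈ Finset.Ico (2^i) n, (ε/2 * f n) := by
          refine Finset.sum_le_sum fun h hh => ?_
          have := H.anti f hf (Finset.mem_Ico.mp hh).1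
          linarith
      _ = ((n - 2^i : ℕ) : ℝ) * (ε/2 * f n) := by
          rw [Finset.sum_const, Nat.card_Ico, nsmul_eq_mul]
      _ ≤ n * (ε/2 * f n) := by
          apply mul_le_mul_of_nonneg_right _ (by positivity)
          exact_mod_cast Nat.sub_le _ _
  have hC : C₀ * 2^i * f (2^i) ≤ n * (ε/2 * f n) := by
    have e1 : (2:ℝ)^t * 2^i ≤ n := by
      have : 2^t * 2^i ≤ n := by
        rw [← pow_add]; refine le_trans ?_ hK1
        exact Nat.pow_le_pow_right (by norm_num) (by omega)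
      exact_mod_cast this
    have e2 : 4 * C₀ ≤ ε * 2^t := by
      rw [div_le_iff₀ hε] at ht; linarith
    have e3 : C₀ * 2^i * f (2^i) ≤ C₀ * 2^i * (2 * f n) :=
      mul_le_mul_of_nonneg_left h4 (by positivity)
    have e4 : 4 * C₀ * 2^i ≤ ε * n := by
      calc 4 * C₀ * 2^i ≤ (ε * 2^t) * 2^i := mul_le_mul_of_nonneg_right e2 (by positivity)
        _ = ε * (2^t * 2^i) := by ring
        _ ≤ ε * n := mul_le_mul_of_nonneg_left e1 hε.le
    nlinarith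
  rw [hsplit]
  nlinarith

/-- polynomially small lower bound, in the form used for the number of contact stages -/
lemma SVFam.sv3 {𝓑 : Set (ℕ → ℝ)} (H : SVFam 𝓑) :
    ∀ ε > (0:ℝ), ∃ n₀ : ℕ, ∀ n ≥ n₀, ∃ u > (0:ℝ), (∀ f ∈ 𝓑, u ≤ f n) ∧ 1 ≤ ε * n * u := by
  intro ε hε
  obtain ⟨c, hc, hlow⟩ := H.low
  have hlim : Tendsto (fun K : ℕ => ε * c * (7/8) * (7/4:ℝ)^K) atTop atTop := by
    apply Tendsto.const_mul_atTop (by positivity)
    exact tendsto_pow_atTop_atTop_of_one_lt (by norm_num)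
  obtain ⟨K₀, hK₀⟩ := (hlim.eventually_ge_atTop 1).exists_forall_of_atTop
  refine ⟨2^K₀, fun n hn => ?_⟩
  obtain ⟨K, hK1, hK2⟩ := exists_pow n (le_trans Nat.one_le_two_pow hn)
  have hJK : K₀ ≤ K := by
    by_contra h
    have : K + 1 ≤ K₀ := by omega
    have := Nat.pow_le_pow_right (show 0 < 2 by norm_num) this
    omega
  refine ⟨c * (7/8)^(K+1), by positivity, fun f hf => ?_, ?_⟩
  · exact (hlow f hf (K+1)).trans (H.anti f hf hK2.le)
  · have h1 := hK₀ K hJK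
    have h2 : (2:ℝ)^K ≤ n := by exact_mod_cast hK1
    calc (1:ℝ) ≤ ε * c * (7/8) * (7/4:ℝ)^K := h1
      _ = ε * 2^K * (c * (7/8)^(K+1)) := by
          have : (7/4:ℝ)^K = 2^K * (7/8)^K := by rw [← mul_pow]; norm_num
          rw [this, pow_succ]; ring
      _ ≤ ε * n * (c * (7/8)^(K+1)) := by
          apply mul_le_mul_of_nonneg_right _ (by positivity)
          exact mul_le_mul_of_nonneg_left h2 hε.le

end Crest.Agent.R154.B6_833
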