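import Crest.Agent.R154.Explore_850

/-! Row 154, B0c: two walkers, same environment versus independent environments: the pair
(X stopped at S, T stopped at its first contact with the rows used by X) has the same law. -/

set_option autoImplicit false

namespace Crest.Agent.R154

open MeasureTheory ProbabilityTheory Crest.ProbabilityR.RandomEnvironment
open scoped ENNReal

variable {d : ℕ}

/-! ### frozen paths -/

/-- the path frozen at time `t`. -/
noncomputable def freeze (t : ℕ∞) (X : Path d) : Path d := fun n => X (min (n : ℕ∞) t).toNat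

/-- sites whose rows are used before time `t`. -/
def usedE (X : Path d) (t : ℕ∞) : Set (Site d) := {z | ∃ i : ℕ, (i : ℕ∞) < t ∧ X i = z}

/-- first contact (at range `R`) of a path with a set. -/
noncomputable def contact (R : ℕ) (V : Set (Site d)) (X : Path d) : ℕ∞ :=
  firstTime (fun z => z ∉ far R V) X

lemma freeze_top (X : Path d) : freeze ⊤ X = X := by
  funext n
  simp [freeze]

lemma freeze_apply_of_le {t : ℕ∞} {X : Path d} {n : ℕ} (h : (n : ℕ∞) ≤ t) :
    freeze t X n = X n := by
  simp [freeze, min_eq_left h]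

lemma freeze_coe_apply (m : ℕ) (X : Path d) (n : ℕ) : freeze (m : ℕ∞) X n = X (min n m) := by
  unfold freeze
  congr 1

lemma agree_freeze_coe (m : ℕ) (X : Path d) : Agree m X (freeze (m : ℕ∞) X) := by
  intro i hi
  rw [freeze_coe_apply, min_eq_left hi]

lemma freeze_congr {m : ℕ} {X Y : Path d} (h : Agree m X Y) :
    freeze (m : ℕ∞) X = freeze (m : ℕ∞) Y := by
  funext i
  rw [freeze_coe_apply, freeze_coe_apply]
  exact h _ (min_le_right _ _)

lemma usedE_coe (X : Path d) (n : ℕ) : usedE X (n : ℕ∞) = usedBefore X n := by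
  ext z
  simp [usedE, usedBefore]

lemma usedBefore_congr {m : ℕ} {X Y : Path d} (h : Agree m X Y) :
    usedBefore X m = usedBefore Y m := by
  ext z
  constructor
  · rintro ⟨i, hi, rfl⟩; exact ⟨i, hi, (h i hi.le).symm⟩
  · rintro ⟨i, hi, rfl⟩; exact ⟨i, hi, h i hi.le⟩

/-! ### first times -/

lemma firstTime_le {p : Site d → Prop} {X : Path d} {n : ℕ} (h : p (X n)) :
    firstTime p X ≤ n := iInf_le (fun n : {n : ℕ // p (X n)} => ((n : ℕ) : ℕ∞)) ⟨n, h⟩

lemma le_firstTime {p : Site d → Prop} {X : Path d} {t : ℕ∞} (h : ∀ n : ℕ, p (X n) → t ≤ n) :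
    t ≤ firstTime p X := le_iInf fun n => h n n.2

lemma firstTime_spec {p : Site d → Prop} {X : Path d} {n : ℕ} (h : firstTime p X = n) :
    p (X n) ∧ ∀ i < n, ¬ p (X i) := by
  have h2 : ∀ i < n, ¬ p (X i) := by
    intro i hi hp
    have := firstTime_le hp
    rw [h] at this
    have : n ≤ i := by exact_mod_cast this
    omega
  refine ⟨?_, h2⟩
  by_contra hp
  have : ((n + 1 : ℕ) : ℕ∞) ≤ firstTime p X := by
    refine le_firstTime fun i hi => ?_
    have : n < i := by
      rcases Nat.lt_trichotomy i n with h1 | h1 | h1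
      · exact absurd hi (h2 i h1)
      · subst h1; exact absurd hi hp
      · exact h1
    exact_mod_cast this
  rw [h] at this
  have : n + 1 ≤ n := by exact_mod_cast this
  omega

lemma firstTime_eq_iff {p : Site d → Prop} {X : Path d} {n : ℕ} :
    firstTime p X = n ↔ p (X n) ∧ ∀ i < n, ¬ p (X i) := by
  refine ⟨firstTime_spec, fun ⟨h1, h2⟩ => le_antisymm (firstTime_le h1) ?_⟩
  refine le_firstTime fun i hi => ?_
  by_contra hlt
  rw [not_le] at hlt
  exact h2 i (by exact_mod_cast hlt) hi

lemma firstTime_eq_top_iff {p : Site d → Prop} {X : Path d} :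
    firstTime p X = ⊤ ↔ ∀ i, ¬ p (X i) := by
  constructor
  · intro h i hi
    have := firstTime_le hi
    rw [h] at this
    exact absurd this (by simp)
  · intro h
    exact le_antisymm le_top (le_firstTime fun i hi => absurd hi (h i))

lemma isStop_firstTime (p : Site d → Prop) : IsStop (firstTime p) := by
  intro X Y n hXY h
  rw [firstTime_eq_iff] at h ⊢
  refine ⟨by rw [← hXY n le_rfl]; exact h.1, fun i hi => ?_⟩
  rw [← hXY i hi.le]
  exact h.2 i hi

/-- a second form of the stopping property. -/
lemma IsStop.le_iff {T : Path d → ℕ∞} (hT : IsStop T) {X Y : Path d} {n : ℕ} (h : Agree n X Y) :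
    T X ≤ n → T Y = T X := by
  intro hX
  obtain ⟨m, hm⟩ := ENat.ne_top_iff_exists.1 (ne_top_of_le_ne_top (ENat.natCast_ne_top n) hX)
  rw [← hm] at hX ⊢
  exact hT X Y m (h.mono (by exact_mod_cast hX)) hm.symm

lemma isStop_min_nat {T : Path d → ℕ∞} (hT : IsStop T) (k : ℕ) :
    IsStop (fun X => min (T X) k) := by
  intro X Y n hXY h
  simp only at h ⊢
  rcases le_total (T X) k with hk | hk
  · rw [min_eq_left hk] at h
    rw [hT X Y n hXY h, ← h, min_eq_left hk]
  · rw [min_eq_right hk] at h
    have hn : n = k := by exact_mod_cast h.symm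
    subst hn
    rcases eq_or_ne (T Y) n with h' | h'
    · rw [h', min_self]
    · rcases le_total (T Y) n with h'' | h''
      · have := hT.le_iff hXY.symm h''
        rw [this] at hk
        exact absurd (le_antisymm h'' hk) h'
      · rw [min_eq_right h'']

lemma min_nat_lt_top (t : ℕ∞) (k : ℕ) : min t (k : ℕ∞) < ⊤ :=
  lt_of_le_of_lt (min_le_right _ _) (ENat.natCast_lt_top k)

/-! ### pair laws with general initial laws -/

lemma qFrom_univ (ω : Environment d) (μ : Measure (Site d)) : qFrom ω μ Set.univ = μ Set.univ := by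
  rw [qFrom_apply _ _ MeasurableSet.univ]
  simp

instance (ω : Environment d) (μ : Measure (Site d)) [IsFiniteMeasure μ] :
    IsFiniteMeasure (qFrom ω μ) := ⟨by rw [qFrom_univ]; exact measure_lt_top _ _⟩

instance (ω : Environment d) (μ : Measure (Site d)) [IsProbabilityMeasure μ] :
    IsProbabilityMeasure (qFrom ω μ) := ⟨by rw [qFrom_univ]; exact measure_univ⟩

lemma aFrom_univ (Q : Measure (Environment d)) [IsProbabilityMeasure Q] (μ : Measure (Site d)) :
    aFrom Q μ Set.univ = μ Set.univ := by
  rw [aFrom_apply _ _ MeasurableSet.univ]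
  simp_rw [qFrom_univ]
  simp

instance (Q : Measure (Environment d)) [IsProbabilityMeasure Q] (μ : Measure (Site d))
    [IsFiniteMeasure μ] : IsFiniteMeasure (aFrom Q μ) :=
  ⟨by rw [aFrom_univ]; exact measure_lt_top _ _⟩

instance (Q : Measure (Environment d)) [IsProbabilityMeasure Q] (μ : Measure (Site d))
    [IsProbabilityMeasure μ] : IsProbabilityMeasure (aFrom Q μ) :=
  ⟨by rw [aFrom_univ]; exact measure_univ⟩

/-- kernel version of `qFrom`. -/
noncomputable def qKF (μ : Measure (Site d)) : Kernel (Environment d) (Path d) :=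
  ⟨fun ω => qFrom ω μ, measurable_qFrom μ⟩

instance (μ : Measure (Site d)) [IsFiniteMeasure μ] : IsFiniteKernel (qKF (d := d) μ) :=
  ⟨⟨μ Set.univ, measure_lt_top _ _, fun ω => (qFrom_univ ω μ).le⟩⟩

/-- two walkers in the same environment, initial laws `μ`, `ν`. -/
noncomputable def sameFrom (Q : Measure (Environment d)) (μ ν : Measure (Site d)) :
    Measure (Path d × Path d) :=
  Q.bind (fun ω => (qFrom ω μ).prod (qFrom ω ν))

/-- two walkers in independent environments, initial laws `μ`, `ν`. -/
noncomputable def indFrom (Q : Measure (Environment d)) (μ ν : Measure (Site d)) :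
    Measure (Path d × Path d) :=
  (aFrom Q μ).prod (aFrom Q ν)

lemma measurable_prod_qFrom (μ ν : Measure (Site d)) [IsFiniteMeasure μ] [IsFiniteMeasure ν] :
    Measurable fun ω : Environment d => (qFrom ω μ).prod (qFrom ω ν) := by
  have : (fun ω : Environment d => (qFrom ω μ).prod (qFrom ω ν))
      = fun ω => (qKF μ ×ₖ qKF ν) ω := by
    funext ω
    rw [Kernel.prod_apply]
    rfl
  rw [this]
  exact Kernel.measurable _

lemma sameFrom_apply (Q : Measure (Environment d)) (μ ν : Measure (Site d)) [IsFiniteMeasure μ]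
    [IsFiniteMeasure ν] {B : Set (Path d × Path d)} (hB : MeasurableSet B) :
    sameFrom Q μ ν B = ∫⁻ ω, ((qFrom ω μ).prod (qFrom ω ν)) B ∂Q :=
  Measure.bind_apply hB (measurable_prod_qFrom μ ν).aemeasurable

lemma sameFrom_univ (Q : Measure (Environment d)) [IsProbabilityMeasure Q]
    (μ ν : Measure (Site d)) [IsFiniteMeasure μ] [IsFiniteMeasure ν] :
    sameFrom Q μ ν Set.univ = μ Set.univ * ν Set.univ := by
  rw [sameFrom_apply _ _ _ MeasurableSet.univ]
  have : ∀ ω : Environment d, ((qFrom ω μ).prod (qFrom ω ν)) Set.univ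
      = μ Set.univ * ν Set.univ := by
    intro ω
    rw [← Set.univ_prod_univ, Measure.prod_prod, qFrom_univ, qFrom_univ]
  simp_rw [this]
  simp

instance (Q : Measure (Environment d)) [IsProbabilityMeasure Q] (μ ν : Measure (Site d))
    [IsFiniteMeasure μ] [IsFiniteMeasure ν] : IsFiniteMeasure (sameFrom Q μ ν) :=
  ⟨by rw [sameFrom_univ]; exact ENNReal.mul_lt_top (measure_lt_top _ _) (measure_lt_top _ _)⟩

instance (Q : Measure (Environment d)) [IsProbabilityMeasure Q] (μ ν : Measure (Site d))
    [IsProbabilityMeasure μ] [IsProbabilityMeasure ν] : IsProbabilityMeasure (sameFrom Q μ ν) :=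
  ⟨by rw [sameFrom_univ]; simp⟩

instance (Q : Measure (Environment d)) [IsProbabilityMeasure Q] (μ ν : Measure (Site d))
    [IsFiniteMeasure μ] [IsFiniteMeasure ν] : IsFiniteMeasure (indFrom Q μ ν) := by
  unfold indFrom; infer_instance

instance (Q : Measure (Environment d)) [IsProbabilityMeasure Q] (μ ν : Measure (Site d))
    [IsProbabilityMeasure μ] [IsProbabilityMeasure ν] : IsProbabilityMeasure (indFrom Q μ ν) := by
  unfold indFrom; infer_instance

lemma isCountablySpanning_cyls : IsCountablySpanning (cyls d) := by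
  obtain ⟨f, hf⟩ := exists_surjective_nat (Fin 1 → Site d)
  refine ⟨fun k => cyl (ext 0 (f k)) 0, fun k => ⟨_, _, rfl⟩, ?_⟩
  rw [Set.eq_univ_iff_forall]
  intro X
  obtain ⟨k, hk⟩ := hf (hist 0 X)
  rw [Set.mem_iUnion]
  exact ⟨k, by rw [hk]; exact ext_hist 0 X⟩

/-- extensionality on pairs. -/
lemma measure_ext_cyl_prod {μ ν : Measure (Path d × Path d)} [IsFiniteMeasure μ]
    [IsFiniteMeasure ν]
    (h : ∀ (γ δ : Path d) (n m : ℕ), μ (cyl γ n ×ˢ cyl δ m) = ν (cyl γ n ×ˢ cyl δ m)) : μ = ν := by
  have hgen : (inferInstance : MeasurableSpace (Path d × Path d)) =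
      MeasurableSpace.generateFrom (Set.image2 (· ×ˢ ·) (cyls d) (cyls d)) :=
    (generateFrom_eq_prod generateFrom_cyls.symm generateFrom_cyls.symm isCountablySpanning_cyls
      isCountablySpanning_cyls).symm
  have hpi : IsPiSystem (Set.image2 (· ×ˢ ·) (cyls d) (cyls d)) :=
    isPiSystem_cyls.prod isPiSystem_cyls
  refine ext_of_generate_finite _ hgen hpi ?_ ?_
  · rintro _ ⟨_, ⟨γ, n, rfl⟩, _, ⟨δ, m, rfl⟩, rfl⟩
    exact h γ δ n m
  · have : (Set.univ : Set (Path d × Path d))
        = ⋃ h : (Fin 1 → Site d) × (Fin 1 → Site d),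
            cyl (ext 0 h.1) 0 ×ˢ cyl (ext 0 h.2) 0 := by
      ext X
      simp only [Set.mem_univ, Set.mem_iUnion, true_iff]
      exact ⟨(hist 0 X.1, hist 0 X.2), ext_hist 0 X.1, ext_hist 0 X.2⟩
    have hd : Pairwise (Function.onFun Disjoint
        fun h : (Fin 1 → Site d) × (Fin 1 → Site d) =>
          cyl (ext 0 h.1) 0 ×ˢ cyl (ext 0 h.2) 0) := by
      intro h h' hne
      rw [Function.onFun, Set.disjoint_left]
      rintro X ⟨hX, hX1⟩ ⟨hX', hX1'⟩
      rw [mem_cyl_ext_iff] at hX hX' hX1 hX1'
      exact hne (Prod.ext (hX.symm.trans hX') (hX1.symm.trans hX1'))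
    rw [this, measure_iUnion hd fun _ => (measurableSet_cyl _ _).prod (measurableSet_cyl _ _),
      measure_iUnion hd fun _ => (measurableSet_cyl _ _).prod (measurableSet_cyl _ _)]
    exact tsum_congr fun h' => h _ _ _ _

/-! ### the approximating explorations -/

/-- the pair `(X stopped at S, T stopped at its first contact with the rows used by X)`. -/
noncomputable def stopPair (R : ℕ) (S : Path d → ℕ∞) (p : Path d × Path d) : Path d × Path d :=
  (freeze (S p.1) p.1, freeze (contact R (usedE p.1 (S p.1)) p.2) p.2)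

/-- rows of a list of stopped paths. -/
def listRows (s : List (Path d × ℕ)) : Set (Site d) := {z | ∃ q ∈ s, z ∈ usedBefore q.1 q.2}

/-- stopping time in the pair exploration. -/
noncomputable def pairStop (R : ℕ) (S : Path d → ℕ∞) (k : ℕ) (s : List (Path d × ℕ))
    (X : Path d) : ℕ∞ :=
  match s with
  | [] => min (S X) k
  | q :: l => min (contact R (listRows (q :: l)) X) k

/-- the pair exploration, cut at time `k`. -/
noncomputable def pairExp (R : ℕ) (S : Path d → ℕ∞) (μ ν : Measure (Site d)) (k : ℕ) :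
    Explorer d (List (Path d × ℕ)) where
  rows s := listRows s
  init s := match s with
    | [] => μ
    | _ :: _ => ν
  stop := pairStop R S k
  next s X := (freeze (pairStop R S k s X) X, (pairStop R S k s X).toNat) :: s

lemma pairExp_valid (R : ℕ) {S : Path d → ℕ∞} (hS : IsStop S) (μ ν : Measure (Site d)) (k : ℕ) :
    (pairExp R S μ ν k).Valid R where
  isStop s := by
    cases s with
    | nil => exact isStop_min_nat hS k
    | cons q l => exact isStop_min_nat (isStop_firstTime _) k
  det s := by
    intro X Y n hXY hn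
    have hY : pairStop R S k s Y = n := by
      cases s with
      | nil => exact isStop_min_nat hS k X Y n hXY hn
      | cons q l => exact isStop_min_nat (isStop_firstTime _) k X Y n hXY hn
    have hX : pairStop R S k s X = n := hn
    simp only [pairExp, hX, hY, freeze_congr hXY]
  far s := by
    intro X n hn i hi
    cases s with
    | nil =>
      intro a ha
      obtain ⟨q, hq, _⟩ := ha
      exact absurd hq (List.not_mem_nil)
    | cons q l =>
      have h1 : min (contact R (listRows (q :: l)) X) (k : ℕ∞) = n := hn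
      by_contra hcon
      have h2 : contact R (listRows (q :: l)) X ≤ i := firstTime_le hcon
      have h3 : (n : ℕ∞) ≤ i := h1 ▸ (min_le_left _ _).trans h2
      have h4 : n ≤ i := by exact_mod_cast h3
      omega
  rows_next s := by
    intro X n hn z hz
    have hX : pairStop R S k s X = n := hn
    rcases hz with hz | hz
    · obtain ⟨q, hq, hz⟩ := hz
      exact ⟨q, List.mem_cons_of_mem _ hq, hz⟩
    · refine ⟨_, List.mem_cons_self, ?_⟩
      simp only [hX, ENat.toNat_natCast]
      rw [← usedBefore_congr (agree_freeze_coe n X)]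
      exact hz

/-- the cut events. -/
def cutEv (R : ℕ) (S : Path d → ℕ∞) (γ δ : Path d) (n m k : ℕ) : Set (Path d × Path d) :=
  {p | freeze (min (S p.1) k) p.1 ∈ cyl γ n ∧
    freeze (min (contact R (usedE p.1 (min (S p.1) k)) p.2) k) p.2 ∈ cyl δ m}

lemma measurableSet_of_agree_pair (k : ℕ) (A : Set (Path d × Path d))
    (hA : ∀ p q : Path d × Path d, Agree k p.1 q.1 → Agree k p.2 q.2 → p ∈ A → q ∈ A) :
    MeasurableSet A := by
  have : A = (fun p : Path d × Path d => (hist k p.1, hist k p.2)) ⁻¹'
      {h | (ext k h.1, ext k h.2) ∈ A} := by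
    ext p
    constructor
    · intro hp
      exact hA p _ (ext_hist k p.1) (ext_hist k p.2) hp
    · intro hp
      exact hA (ext k (hist k p.1), ext k (hist k p.2)) p (ext_hist k p.1).symm
        (ext_hist k p.2).symm hp
  rw [this]
  have hm : Measurable fun p : Path d × Path d => (hist k p.1, hist k p.2) :=
    ((measurable_hist k).comp measurable_fst).prodMk ((measurable_hist k).comp measurable_snd)
  exact hm (Set.to_countable _).measurableSet

lemma cutEv_congr (R : ℕ) {S : Path d → ℕ∞} (hS : IsStop S) (γ δ : Path d) (n m k : ℕ)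
    (p q : Path d × Path d) (h1 : Agree k p.1 q.1) (h2 : Agree k p.2 q.2)
    (hp : p ∈ cutEv R S γ δ n m k) : q ∈ cutEv R S γ δ n m k := by
  obtain ⟨hp1, hp2⟩ := hp
  obtain ⟨j, hj⟩ := ENat.ne_top_iff_exists.1 (min_nat_lt_top (S p.1) k).ne
  have hjk : j ≤ k := by
    have : (j : ℕ∞) ≤ k := hj ▸ min_le_right _ _
    exact_mod_cast this
  have hq : min (S q.1) (k : ℕ∞) = j :=
    isStop_min_nat hS k p.1 q.1 j (h1.mono hjk) hj.symm
  have e1 : freeze (min (S q.1) k) q.1 = freeze (min (S p.1) k) p.1 := by
    rw [hq, ← hj]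
    exact (freeze_congr (h1.mono hjk)).symm
  have e2 : usedE q.1 (min (S q.1) k) = usedE p.1 (min (S p.1) k) := by
    rw [hq, ← hj, usedE_coe, usedE_coe]
    exact (usedBefore_congr (h1.mono hjk)).symm
  refine ⟨by rw [e1]; exact hp1, ?_⟩
  rw [e2]
  set V := usedE p.1 (min (S p.1) k) with hV
  obtain ⟨l, hl⟩ := ENat.ne_top_iff_exists.1 (min_nat_lt_top (contact R V p.2) k).ne
  have hlk : l ≤ k := by
    have : (l : ℕ∞) ≤ k := hl ▸ min_le_right _ _
    exact_mod_cast this
  have hq2 : min (contact R V q.2) (k : ℕ∞) = l :=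
    isStop_min_nat (isStop_firstTime _) k p.2 q.2 l (h2.mono hlk) hl.symm
  rw [hq2, ← freeze_congr (h2.mono hlk), hl]
  exact hp2

lemma measurableSet_cutEv (R : ℕ) {S : Path d → ℕ∞} (hS : IsStop S) (γ δ : Path d) (n m k : ℕ) :
    MeasurableSet (cutEv R S γ δ n m k) :=
  measurableSet_of_agree_pair k _ fun p q h1 h2 => cutEv_congr R hS γ δ n m k p q h1 h2

/-- payoff of the pair exploration. -/
noncomputable def pairPay (γ δ : Path d) (n m : ℕ) (s : List (Path d × ℕ)) : ℝ≥0∞ :=
  match s with
  | q2 :: q1 :: _ => (cyl γ n).indicator 1 q1.1 * (cyl δ m).indicator 1 q2.1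
  | _ => 0

lemma listRows_single (X : Path d) (n : ℕ) : listRows [(X, n)] = usedBefore X n := by
  ext z
  simp [listRows]

lemma pairPay_eq (R : ℕ) {S : Path d → ℕ∞} (μ ν : Measure (Site d)) (γ δ : Path d)
    (n m k : ℕ) (X T : Path d) :
    pairPay γ δ n m ((pairExp R S μ ν k).next ((pairExp R S μ ν k).next [] X) T)
      = (cutEv R S γ δ n m k).indicator 1 (X, T) := by
  classical
  obtain ⟨j, hj⟩ := ENat.ne_top_iff_exists.1 (min_nat_lt_top (S X) k).ne
  have e1 : pairStop R S k [] X = j := hj.symm
  have e2 : listRows [(freeze (pairStop R S k [] X) X, (pairStop R S k [] X).toNat)]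
      = usedE X (min (S X) k) := by
    rw [e1, listRows_single, ← hj, usedE_coe, ENat.toNat_natCast]
    exact (usedBefore_congr (agree_freeze_coe j X)).symm
  simp only [pairExp, pairPay]
  simp only [pairStop] at e2 ⊢
  rw [e2]
  simp only [Set.indicator_apply, cutEv, Set.mem_ofPred_eq, Pi.one_apply]
  by_cases h1 : freeze (min (S X) k) X ∈ cyl γ n <;>
    by_cases h2 : freeze (min (contact R (usedE X (min (S X) k)) T) k) T ∈ cyl δ m <;>
    simp [h1, h2]

lemma pairStop_lt_top (R : ℕ) (S : Path d → ℕ∞) (k : ℕ) (s : List (Path d × ℕ)) (X : Path d) :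
    pairStop R S k s X < ⊤ := by
  cases s with
  | nil => exact min_nat_lt_top _ _
  | cons q l => exact min_nat_lt_top _ _

/-- the two laws agree on the cut events. -/
lemma cutEv_eq (R : ℕ) {S : Path d → ℕ∞} (hS : IsStop S) (Q : Measure (Environment d))
    [IsProbabilityMeasure Q] (hQ : IndepAt R Q) (μ ν : Measure (Site d)) [IsFiniteMeasure μ]
    [IsFiniteMeasure ν] (γ δ : Path d) (n m k : ℕ) :
    sameFrom Q μ ν (cutEv R S γ δ n m k) = indFrom Q μ ν (cutEv R S γ δ n m k) := by
  have hmeas := measurableSet_cutEv R hS γ δ n m k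
  have key := (pairExp R S μ ν k).explore_prob (pairExp_valid R hS μ ν k) Q hQ
    (pairPay γ δ n m) 2 []
  have huniv : ∀ s, {X | (pairExp R S μ ν k).stop s X < ⊤} = Set.univ := by
    intro s
    rw [Set.eq_univ_iff_forall]
    intro X
    exact pairStop_lt_top R S k s X
  have hq : ∀ ω, (pairExp R S μ ν k).qVal (pairPay γ δ n m) ω 2 []
      = ((qFrom ω μ).prod (qFrom ω ν)) (cutEv R S γ δ n m k) := by
    intro ω
    rw [Measure.prod_apply hmeas]
    simp only [Explorer.qVal, huniv, Measure.restrict_univ]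
    refine lintegral_congr fun X => ?_
    rw [← lintegral_indicator_one (measurable_prodMk_left hmeas)]
    refine lintegral_congr fun T => ?_
    rw [pairPay_eq]
    rfl
  have ha : (pairExp R S μ ν k).aVal (pairPay γ δ n m) Q 2 []
      = ((aFrom Q μ).prod (aFrom Q ν)) (cutEv R S γ δ n m k) := by
    rw [Measure.prod_apply hmeas]
    simp only [Explorer.aVal, huniv, Measure.restrict_univ]
    refine lintegral_congr fun X => ?_
    rw [← lintegral_indicator_one (measurable_prodMk_left hmeas)]
    refine lintegral_congr fun T => ?_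
    rw [pairPay_eq]
    rfl
  rw [sameFrom_apply _ _ _ hmeas, indFrom, ← ha, ← key]
  exact lintegral_congr fun ω => (hq ω).symm

/-! ### passage to the limit -/

lemma agree_freeze_min (t : ℕ∞) (k : ℕ) (X : Path d) :
    Agree k (freeze (min t k) X) (freeze t X) := by
  intro i hi
  unfold freeze
  congr 2
  rw [min_comm t, ← min_assoc]
  congr 1
  exact min_eq_left (by exact_mod_cast hi)

lemma mem_cyl_congr {X Y γ : Path d} {n : ℕ} (h : Agree n X Y) : X ∈ cyl γ n ↔ Y ∈ cyl γ n :=
  ⟨fun hX => h.symm.trans hX, fun hY => h.trans hY⟩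

lemma contact_anti (R : ℕ) {V W : Set (Site d)} (h : V ⊆ W) (X : Path d) :
    contact R W X ≤ contact R V X :=
  le_firstTime fun _ hn => firstTime_le fun hc => hn (far_anti h hc)

lemma eventually_cutEv (R : ℕ) (S : Path d → ℕ∞) (γ δ : Path d) (n m : ℕ)
    (p : Path d × Path d) :
    ∀ᶠ k in Filter.atTop, p ∈ cutEv R S γ δ n m k ↔
      p ∈ stopPair R S ⁻¹' (cyl γ n ×ˢ cyl δ m) := by
  obtain ⟨X, T⟩ := p
  have h1 : ∀ᶠ k in Filter.atTop, Agree m
      (freeze (contact R (usedE X (min (S X) (k : ℕ))) T) T)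
      (freeze (contact R (usedE X (S X)) T) T) := by
    have hsub : ∀ k : ℕ, usedE X (min (S X) k) ⊆ usedE X (S X) := by
      rintro k z ⟨i, hi, rfl⟩
      exact ⟨i, hi.trans_le (min_le_left _ _), rfl⟩
    rcases le_or_gt (m : ℕ∞) (contact R (usedE X (S X)) T) with hc | hc
    · refine Filter.Eventually.of_forall fun k i hi => ?_
      have h2 : ((i : ℕ) : ℕ∞) ≤ contact R (usedE X (S X)) T :=
        le_trans (by exact_mod_cast hi) hc
      rw [freeze_apply_of_le h2,
        freeze_apply_of_le (h2.trans (contact_anti R (hsub k) T))]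
    · obtain ⟨j, hj⟩ := ENat.ne_top_iff_exists.1 (hc.trans (ENat.natCast_lt_top m)).ne
      have hT := (firstTime_spec (p := fun z => z ∉ far R (usedE X (S X))) hj.symm).1
      simp only [far, Set.mem_ofPred_eq, not_forall] at hT
      obtain ⟨a, ⟨l, hl, rfl⟩, ha2⟩ := hT
      filter_upwards [Filter.eventually_gt_atTop l] with k hk
      have h3 : contact R (usedE X (min (S X) k)) T ≤ j := by
        refine firstTime_le ?_
        simp only [far, Set.mem_ofPred_eq, not_forall]
        exact ⟨X l, ⟨l, lt_min hl (by exact_mod_cast hk), rfl⟩, ha2⟩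
      have h4 : contact R (usedE X (min (S X) k)) T = contact R (usedE X (S X)) T :=
        le_antisymm (hj ▸ h3) (contact_anti R (hsub k) T)
      rw [h4]
      exact agree_refl _ _
  filter_upwards [h1, Filter.eventually_ge_atTop n, Filter.eventually_ge_atTop m]
    with k hk hn hm
  simp only [cutEv, Set.mem_ofPred_eq, stopPair, Set.mem_preimage, Set.mem_prod]
  rw [mem_cyl_congr ((agree_freeze_min (S X) k X).mono hn),
    mem_cyl_congr (((agree_freeze_min _ k T).mono hm).trans hk)]

lemma measurable_stopPair (R : ℕ) {S : Path d → ℕ∞} (hS : IsStop S) :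
    Measurable (stopPair (d := d) R S) := by
  have hgen : (inferInstance : MeasurableSpace (Path d × Path d)) =
      MeasurableSpace.generateFrom (Set.image2 (· ×ˢ ·) (cyls d) (cyls d)) :=
    (generateFrom_eq_prod generateFrom_cyls.symm generateFrom_cyls.symm isCountablySpanning_cyls
      isCountablySpanning_cyls).symm
  have h : @Measurable _ _ _ (MeasurableSpace.generateFrom
      (Set.image2 (· ×ˢ ·) (cyls d) (cyls d))) (stopPair (d := d) R S) := by
    refine measurable_generateFrom ?_
    rintro _ ⟨_, ⟨γ, n, rfl⟩, _, ⟨δ, m, rfl⟩, rfl⟩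
    exact measurableSet_of_tendsto_indicator Filter.atTop
      (fun k => measurableSet_cutEv R hS γ δ n m k)
      (fun p => eventually_cutEv R S γ δ n m p)
  exact h.mono le_rfl hgen.le

/-- **SAME ENVIRONMENT = INDEPENDENT ENVIRONMENTS up to the first contact.** -/
theorem same_map_eq_ind_map (R : ℕ) {S : Path d → ℕ∞} (hS : IsStop S)
    (Q : Measure (Environment d)) [IsProbabilityMeasure Q] (hQ : IndepAt R Q)
    (μ ν : Measure (Site d)) [IsFiniteMeasure μ] [IsFiniteMeasure ν] :
    (sameFrom Q μ ν).map (stopPair R S) = (indFrom Q μ ν).map (stopPair R S) := by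
  have hm := measurable_stopPair R hS
  refine measure_ext_cyl_prod fun γ δ n m => ?_
  rw [Measure.map_apply hm ((measurableSet_cyl _ _).prod (measurableSet_cyl _ _)),
    Measure.map_apply hm ((measurableSet_cyl _ _).prod (measurableSet_cyl _ _))]
  have h1 := tendsto_measure_of_tendsto_indicator_of_isFiniteMeasure Filter.atTop
    (sameFrom Q μ ν) (fun k => measurableSet_cutEv R hS γ δ n m k)
    (fun p => eventually_cutEv R S γ δ n m p)
  have h2 := tendsto_measure_of_tendsto_indicator_of_isFiniteMeasure Filter.atTop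
    (indFrom Q μ ν) (fun k => measurableSet_cutEv R hS γ δ n m k)
    (fun p => eventually_cutEv R S γ δ n m p)
  simp_rw [cutEv_eq R hS Q hQ μ ν] at h1
  exact tendsto_nhds_unique h1 h2

/-- set form: events determined by the stopped pair. -/
theorem same_eq_ind (R : ℕ) {S : Path d → ℕ∞} (hS : IsStop S)
    (Q : Measure (Environment d)) [IsProbabilityMeasure Q] (hQ : IndepAt R Q)
    (μ ν : Measure (Site d)) [IsFiniteMeasure μ] [IsFiniteMeasure ν]
    {B : Set (Path d × Path d)} (hB : MeasurableSet B)
    (hdet : ∀ p, stopPair R S p ∈ B ↔ p ∈ B) :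
    sameFrom Q μ ν B = indFrom Q μ ν B := by
  have hm := measurable_stopPair (d := d) R hS
  have hpre : stopPair R S ⁻¹' B = B := by
    ext p
    exact hdet p
  have := congrArg (fun m => m B) (same_map_eq_ind_map R hS Q hQ μ ν)
  simp only [Measure.map_apply hm hB, hpre] at this
  exact this

/-- functional form. -/
theorem lintegral_same_eq_ind (R : ℕ) {S : Path d → ℕ∞} (hS : IsStop S)
    (Q : Measure (Environment d)) [IsProbabilityMeasure Q] (hQ : IndepAt R Q)
    (μ ν : Measure (Site d)) [IsFiniteMeasure μ] [IsFiniteMeasure ν]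
    {G : Path d × Path d → ℝ≥0∞} (hG : Measurable G) :
    ∫⁻ p, G (stopPair R S p) ∂(sameFrom Q μ ν) = ∫⁻ p, G (stopPair R S p) ∂(indFrom Q μ ν) := by
  have hm := measurable_stopPair (d := d) R hS
  rw [← lintegral_map hG hm, ← lintegral_map hG hm, same_map_eq_ind_map R hS Q hQ μ ν]

end Crest.Agent.R154
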