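import Crest.Agent.R154.MkD_561
import Crest.Agent.R154.Fin_804
import Crest.Agent.R154.B6Abs_833

/-! R154 block B6, instance (helper833), part 1: the pair of marked walkers, seen level by level:
heights, first hits, naturalness, contacts.  Deterministic part. -/

set_option autoImplicit false
set_option linter.unusedSectionVars false
set_option linter.deprecated false

open MeasureTheory ProbabilityTheory Filter Set
open scoped ENNReal Topology

namespace Crest.Agent.R154.B6I

open Crest.ProbabilityR.RandomEnvironment Crest.Agent.R154.Q561 Crest.Agent.R154.Ren263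
open Crest.Agent.R154.Mk561
open Crest.Agent.R154.Flux132 (lev)
open Crest.Agent.R154.Fin804 (lev_add lev_step_le)

variable {d : ℕ} (u : Step d)

local notation "shf" => Crest.Agent.R154.Ren263.shift

/-! ### heights -/

/-- height of the marked path above its start (integer). -/
def zt (M : MPath d) (n : ℕ) : ℤ := ∑ i ∈ Finset.range n, lev u (stp (M i))

@[simp] lemma zt_zero (M : MPath d) : zt u M 0 = 0 := by simp [zt]

lemma zt_succ (M : MPath d) (n : ℕ) : zt u M (n+1) = zt u M n + lev u (stp (M n)) := by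
  simp [zt, Finset.sum_range_succ]

lemma lev_zero : lev u (0 : Site d) = 0 := by
  unfold Flux132.lev; split_ifs <;> simp

lemma lev_pos (x : Site d) (M : MPath d) (n : ℕ) : lev u (pos x M n) = lev u x + zt u M n := by
  induction n with
  | zero => simp [pos_zero]
  | succ n ih => rw [pos_succ, lev_add, ih, zt_succ]; ring

lemma zt_congr {M M' : MPath d} {n : ℕ} (h : ∀ i < n, M i = M' i) {k : ℕ} (hk : k ≤ n) :
    zt u M k = zt u M' k := by
  unfold zt
  refine Finset.sum_congr rfl fun i hi => ?_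
  rw [h i (lt_of_lt_of_le (Finset.mem_range.1 hi) hk)]

lemma zt_shift (M : MPath d) (n k : ℕ) : zt u (shf n M) k = zt u M (n+k) - zt u M n := by
  unfold zt Ren263.shift
  rw [Finset.sum_range_add]; ring

lemma zt_step (M : MPath d) (n : ℕ) : |zt u M (n+1) - zt u M n| ≤ 1 := by
  rw [zt_succ]
  have := lev_step_le u (M n).1
  have h : zt u M n + lev u (stp (M n)) - zt u M n = lev u (stepVec (M n).1) := by
    unfold stp; ring
  rw [h]; exact this

lemma lev_self : lev u (stepVec u) = 1 := by
  unfold Flux132.lev stepVec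
  split_ifs <;> simp_all

lemma lev_lat {f : Step d} (hf : f.1 ≠ u.1) : lev u (stepVec f) = 0 := by
  unfold Flux132.lev stepVec
  rw [Pi.single_eq_of_ne (Ne.symm hf)]
  simp

/-! ### first hits -/

/-- `n` is the first time at level `j` -/
def Hit (j : ℕ) (M : MPath d) (n : ℕ) : Prop := zt u M n = j ∧ ∀ k < n, zt u M k < j

/-- `i` is before the first hit of level `j` -/
def bf (j : ℕ) (M : MPath d) (i : ℕ) : Prop := ∀ k ≤ i, zt u M k < j

/-- level `j` is reached -/
def Alv (j : ℕ) (M : MPath d) : Prop := ∃ n, Hit u j M n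

/-- the two paths agree before level `j`. -/
def Eqv (j : ℕ) (M M' : MPath d) : Prop := ∀ n, bf u j M n → M n = M' n

variable {u}

lemma Hit.unique {j : ℕ} {M : MPath d} {n m : ℕ} (h : Hit u j M n) (h' : Hit u j M m) : n = m := by
  rcases lt_trichotomy n m with hlt | heq | hgt
  · have := h'.2 n hlt; rw [h.1] at this; exact absurd this (lt_irrefl _)
  · exact heq
  · have := h.2 m hgt; rw [h'.1] at this; exact absurd this (lt_irrefl _)

lemma hit_zero (M : MPath d) : Hit u 0 M 0 := ⟨by simp, fun k hk => absurd hk (Nat.not_lt_zero _)⟩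

lemma bf_iff_of_hit {j : ℕ} {M : MPath d} {n : ℕ} (h : Hit u j M n) (i : ℕ) :
    bf u j M i ↔ i < n := by
  constructor
  · intro hb
    by_contra hcon
    have := hb n (by omega)
    rw [h.1] at this; exact absurd this (lt_irrefl _)
  · intro hi k hk
    exact h.2 k (by omega)

lemma bf_mono {i j : ℕ} (hij : i ≤ j) {M : MPath d} {n : ℕ} (h : bf u i M n) : bf u j M n :=
  fun k hk => lt_of_lt_of_le (h k hk) (by exact_mod_cast hij)

lemma bf_le {j : ℕ} {M : MPath d} {n m : ℕ} (hmn : m ≤ n) (h : bf u j M n) : bf u j M m :=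
  fun k hk => h k (by omega)

lemma not_bf_zero (M : MPath d) (n : ℕ) : ¬ bf u 0 M n := by
  intro h
  have := h 0 (Nat.zero_le _)
  simp at this

/-- reaching height `≥ j` at time `n` gives a first hit before. -/
lemma exists_hit {j : ℕ} {M : MPath d} {n : ℕ} (h : (j:ℤ) ≤ zt u M n) :
    ∃ m ≤ n, Hit u j M m := by
  classical
  have hex : ∃ m, (j:ℤ) ≤ zt u M m := ⟨n, h⟩
  refine ⟨Nat.find hex, Nat.find_min' hex h, ?_, fun k hk => by
    have := Nat.find_min hex hk; omega⟩
  have h1 := Nat.find_spec hex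
  refine le_antisymm ?_ h1
  rcases Nat.eq_zero_or_pos (Nat.find hex) with h0 | hpos
  · rw [h0]; simp
  · obtain ⟨m, hm⟩ : ∃ m, Nat.find hex = m+1 := ⟨Nat.find hex - 1, by omega⟩
    have h2 := Nat.find_min hex (m := m) (by omega)
    have h3 := zt_step u M m
    rw [abs_le] at h3
    rw [hm]
    omega

lemma Alv.anti {i j : ℕ} (hij : i ≤ j) {M : MPath d} (h : Alv u j M) : Alv u i M := by
  obtain ⟨n, hn⟩ := h
  obtain ⟨m, _, hm⟩ := exists_hit (u := u) (j := i) (M := M) (n := n) (by rw [hn.1]; exact_mod_cast hij)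
  exact ⟨m, hm⟩

lemma Hit.le_of_le {i j : ℕ} (hij : i ≤ j) {M : MPath d} {n m : ℕ} (h : Hit u i M n)
    (h' : Hit u j M m) : n ≤ m := by
  obtain ⟨k, hk, hk'⟩ := exists_hit (u := u) (j := i) (M := M) (n := m)
    (by rw [h'.1]; exact_mod_cast hij)
  rw [h.unique hk']; exact hk

/-- speed one: level `j` is reached at least `j - i` steps after level `i`. -/
lemma Hit.add_le {i j : ℕ} (hij : i ≤ j) {M : MPath d} {n m : ℕ} (h : Hit u i M n)
    (h' : Hit u j M m) : n + (j - i) ≤ m := by
  have key : ∀ k, zt u M (n+k) ≤ i + k := by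
    intro k
    induction k with
    | zero => simp [h.1]
    | succ k ih =>
      have := zt_step u M (n+k)
      rw [abs_le] at this
      have h2 : n + (k+1) = n + k + 1 := by omega
      rw [h2]; push_cast; omega
  have h1 := h.le_of_le hij h'
  have h2 := key (m - n)
  rw [show n + (m-n) = m by omega, h'.1] at h2
  omega

lemma hit_shift_iff {i j : ℕ} (hij : i ≤ j) {M : MPath d} {a : ℕ} (h : Hit u i M a) (n : ℕ) :
    Hit u (j - i) (shf a M) n ↔ Hit u j M (a + n) := by
  have hcast : ((j - i : ℕ) : ℤ) = (j:ℤ) - i := by push_cast [Nat.cast_sub hij]; ring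
  constructor
  · rintro ⟨h1, h2⟩
    rw [zt_shift, h.1, hcast] at h1
    refine ⟨by linarith, fun k hk => ?_⟩
    rcases lt_or_ge k a with hka | hka
    · exact lt_of_lt_of_le (h.2 k hka) (by exact_mod_cast hij)
    · have := h2 (k - a) (by omega)
      rw [zt_shift, h.1, hcast, show a + (k-a) = k by omega] at this
      linarith
  · rintro ⟨h1, h2⟩
    refine ⟨by rw [zt_shift, h.1, hcast]; linarith, fun k hk => ?_⟩
    rw [zt_shift, h.1, hcast]
    have := h2 (a+k) (by omega)
    linarith

lemma bf_shift_iff {i j : ℕ} (hij : i ≤ j) {M : MPath d} {a : ℕ} (h : Hit u i M a) (n : ℕ) :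
    bf u (j - i) (shf a M) n ↔ bf u j M (a + n) := by
  have hcast : ((j - i : ℕ) : ℤ) = (j:ℤ) - i := by push_cast [Nat.cast_sub hij]; ring
  constructor
  · intro hb k hk
    rcases lt_or_ge k a with hka | hka
    · exact lt_of_lt_of_le (h.2 k hka) (by exact_mod_cast hij)
    · have := hb (k - a) (by omega)
      rw [zt_shift, h.1, hcast, show a + (k-a) = k by omega] at this
      linarith
  · intro hb k hk
    rw [zt_shift, h.1, hcast]
    have := hb (a+k) (by omega)
    linarith

/-! ### the equivalence -/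

lemma Eqv.zt_eq {j : ℕ} {M M' : MPath d} (h : Eqv u j M M') :
    ∀ n, (∀ k < n, zt u M k < j) → zt u M n = zt u M' n ∧ ∀ i < n, M i = M' i := by
  intro n hn
  have : ∀ i < n, M i = M' i := fun i hi => h i (fun k hk => hn k (by omega))
  exact ⟨zt_congr u this le_rfl, this⟩

lemma Eqv.bf_imp {j : ℕ} {M M' : MPath d} (h : Eqv u j M M') :
    ∀ n, bf u j M' n → bf u j M n := by
  intro n
  induction n with
  | zero => intro _ k hk; rw [Nat.le_zero.1 hk]; have := ‹bf u j M' 0› 0 le_rfl; simpa using this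
  | succ n ih =>
    intro hb
    have h1 := ih (bf_le (Nat.le_succ n) hb)
    intro k hk
    rcases Nat.lt_or_ge k (n+1) with hlt | hge
    · exact h1 k (by omega)
    · have hk' : k = n+1 := by omega
      subst hk'
      have := (h.zt_eq (n+1) (fun k hk => h1 k (by omega))).1
      rw [this]; exact hb (n+1) le_rfl

lemma Eqv.symm {j : ℕ} {M M' : MPath d} (h : Eqv u j M M') : Eqv u j M' M :=
  fun n hn => (h n (h.bf_imp n hn)).symm

lemma Eqv.refl (j : ℕ) (M : MPath d) : Eqv u j M M := fun _ _ => rfl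

lemma Eqv.mono {i j : ℕ} (hij : i ≤ j) {M M' : MPath d} (h : Eqv u j M M') : Eqv u i M M' :=
  fun n hn => h n (bf_mono hij hn)

lemma Eqv.bf_iff {j : ℕ} {M M' : MPath d} (h : Eqv u j M M') (n : ℕ) :
    bf u j M n ↔ bf u j M' n := ⟨h.symm.bf_imp n, h.bf_imp n⟩

lemma Eqv.hit {j : ℕ} {M M' : MPath d} (h : Eqv u j M M') {n : ℕ} (hn : Hit u j M n) :
    Hit u j M' n := by
  have h1 := h.zt_eq n hn.2
  refine ⟨by rw [← h1.1]; exact hn.1, fun k hk => ?_⟩
  rw [← zt_congr u h1.2 hk.le]; exact hn.2 k hk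

lemma Eqv.hit_iff {j : ℕ} {M M' : MPath d} (h : Eqv u j M M') (n : ℕ) :
    Hit u j M n ↔ Hit u j M' n := ⟨h.hit, h.symm.hit⟩

lemma Eqv.agree {j : ℕ} {M M' : MPath d} (h : Eqv u j M M') {n : ℕ} (hn : Hit u j M n) :
    ∀ i < n, M i = M' i := (h.zt_eq n hn.2).2

lemma eqv_iff_of_hit {j : ℕ} {M M' : MPath d} {n : ℕ} (hn : Hit u j M n) :
    Eqv u j M M' ↔ M' ∈ Cy M n := by
  constructor
  · intro h i hi; exact (h.agree hn i hi).symm
  · intro h i hi
    exact (h i ((bf_iff_of_hit hn i).1 hi)).symm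

variable (u)

/-! ### naturalness of one walker -/

/-- **natural between the levels `i` and `j`**: after the first hit of `i`, `R` forced steps up, then
never below the level `i + R`, until the first hit of `j` -/
def Nt (R i j : ℕ) (M : MPath d) : Prop :=
  ∃ a b, Hit u i M a ∧ Hit u j M b ∧
    ∀ n, a ≤ n → n < b → (n < a + R → M n = (u, true)) ∧ (a + R ≤ n → (i:ℤ) + R ≤ zt u M n)

variable {u}

lemma Nt.alv {R i j : ℕ} {M : MPath d} (h : Nt u R i j M) : Alv u j M := by
  obtain ⟨a, b, _, hb, _⟩ := h; exact ⟨b, hb⟩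

lemma Nt.alv_left {R i j : ℕ} {M : MPath d} (h : Nt u R i j M) : Alv u i M := by
  obtain ⟨a, b, ha, _, _⟩ := h; exact ⟨a, ha⟩

lemma Nt.left {R i j k : ℕ} (hjk : j ≤ k) {M : MPath d} (h : Nt u R i k M) :
    Nt u R i j M := by
  obtain ⟨a, b, ha, hb, H⟩ := h
  obtain ⟨c, hc⟩ := Alv.anti hjk ⟨b, hb⟩
  refine ⟨a, c, ha, hc, fun n hn hnc => H n hn (lt_of_lt_of_le hnc (hc.le_of_le hjk hb))⟩

/-- heights along forced steps. -/
lemma zt_forced {M : MPath d} {a n : ℕ} (h : ∀ m, a ≤ m → m < a + n → M m = (u, true)) :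
    zt u M (a+n) = zt u M a + n := by
  induction n with
  | zero => simp
  | succ n ih =>
    have h1 := ih (fun m h1 h2 => h m h1 (by omega))
    have h2 := h (a+n) (by omega) (by omega)
    rw [show a + (n+1) = a + n + 1 by omega, zt_succ, h1, h2]
    have : lev u (stp ((u, true) : Mark d)) = 1 := lev_self u
    rw [this]; push_cast; ring

lemma Nt.trans {R i j k : ℕ} (hij : i ≤ j) (hjk : j ≤ k) {M : MPath d} (h : Nt u R i j M)
    (h' : Nt u R j k M) : Nt u R i k M := by
  obtain ⟨a, b, ha, hb, H⟩ := h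
  obtain ⟨b', c, hb', hc, H'⟩ := h'
  have : b' = b := hb'.unique hb
  subst this
  refine ⟨a, c, ha, hc, fun n hn hnc => ?_⟩
  have hab := ha.add_le hij hb
  rcases lt_or_ge n b' with hnb | hnb
  · exact H n hn hnb
  · obtain ⟨H1, H2⟩ := H' n hnb hnc
    refine ⟨fun hlt => ?_, fun hge => ?_⟩
    · -- all letters forced from a to b'
      exact H1 (by omega)
    · rcases lt_or_ge n (b' + R) with hnR | hnR
      · -- letters b'..n forced
        have e1 : zt u M n = zt u M b' + (n - b' : ℕ) := by
          have := zt_forced (u := u) (M := M) (a := b') (n := n - b')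
            (fun m h1 h2 => (H' m h1 (by omega)).1 (by omega))
          rwa [show b' + (n - b') = n by omega] at this
        rw [e1, hb.1]
        rcases lt_or_ge j (i + R) with hji | hji
        · -- then b' = a + (j-i)
          have hb2 : b' ≤ a + (j - i) := by
            by_contra hcon
            have e2 := zt_forced (u := u) (M := M) (a := a) (n := j - i)
              (fun m h1 h2 => (H m h1 (by omega)).1 (by omega))
            have e3 := hb.2 (a + (j-i)) (by omega)
            rw [e2, ha.1] at e3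
            have : ((j - i : ℕ) : ℤ) = (j:ℤ) - i := by push_cast [Nat.cast_sub hij]; ring
            rw [this] at e3
            linarith
          have : ((n - b' : ℕ) : ℤ) = (n:ℤ) - b' := by push_cast [Nat.cast_sub hnb]; ring
          rw [this]
          have h5 : (b':ℤ) ≤ a + ((j:ℤ) - i) := by
            have : ((j - i : ℕ) : ℤ) = (j:ℤ) - i := by push_cast [Nat.cast_sub hij]; ring
            rw [← this]; exact_mod_cast hb2
          have h6 : (a:ℤ) + R ≤ n := by exact_mod_cast hge
          linarith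
        · have : (i:ℤ) + R ≤ j := by exact_mod_cast hji
          have h7 : (0:ℤ) ≤ ((n - b' : ℕ) : ℤ) := Int.natCast_nonneg _
          linarith
      · have := H2 hnR
        have h8 : (i:ℤ) ≤ j := by exact_mod_cast hij
        linarith

lemma Eqv.nt {R i j : ℕ} (hij : i ≤ j) {M M' : MPath d} (h : Eqv u j M M') (hN : Nt u R i j M) :
    Nt u R i j M' := by
  obtain ⟨a, b, ha, hb, H⟩ := hN
  refine ⟨a, b, (h.mono hij).hit ha, h.hit hb, fun n hn hnb => ?_⟩
  have hag := h.agree hb
  rw [← hag n hnb, ← zt_congr u hag hnb.le]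
  exact H n hn hnb

lemma nt_shift_iff {R i j k : ℕ} (hij : i ≤ j) (hjk : j ≤ k) {M : MPath d} {a : ℕ}
    (h : Hit u i M a) : Nt u R (j - i) (k - i) (shf a M) ↔ Nt u R j k M := by
  have hik := hij.trans hjk
  have hcast : ((j - i : ℕ) : ℤ) = (j:ℤ) - i := by push_cast [Nat.cast_sub hij]; ring
  constructor
  · rintro ⟨b, c, hb, hc, H⟩
    refine ⟨a+b, a+c, (hit_shift_iff hij h b).1 hb, (hit_shift_iff hik h c).1 hc,
      fun n hn hnc => ?_⟩
    obtain ⟨H1, H2⟩ := H (n-a) (by omega) (by omega)
    have e1 : shf a M (n-a) = M n := by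
      simp only [Ren263.shift]; rw [show a + (n-a) = n by omega]
    have e2 : zt u (shf a M) (n-a) = zt u M n - i := by
      rw [zt_shift, h.1, show a + (n-a) = n by omega]
    rw [e1] at H1
    rw [e2, hcast] at H2
    exact ⟨fun h1 => H1 (by omega), fun h1 => by have := H2 (by omega); linarith⟩
  · rintro ⟨b, c, hb, hc, H⟩
    have hab := h.le_of_le hij hb
    have hac := h.le_of_le hik hc
    refine ⟨b-a, c-a, (hit_shift_iff hij h _).2 (by rwa [show a + (b-a) = b by omega]),
      (hit_shift_iff hik h _).2 (by rwa [show a + (c-a) = c by omega]), fun n hn hnc => ?_⟩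
    obtain ⟨H1, H2⟩ := H (a+n) (by omega) (by omega)
    refine ⟨fun h1 => H1 (by omega), fun h1 => ?_⟩
    have := H2 (by omega)
    rw [zt_shift, h.1, hcast]; linarith

/-- after a natural start at level `i`, all READ sites before the hit of `j` are at levels
`≥ i + R`. -/
lemma Nt.read_ge {R i j : ℕ} {M : MPath d} (h : Nt u R i j M) {a : ℕ} (ha : Hit u i M a)
    {n : ℕ} (hn : a ≤ n) (hb : bf u j M n) (hf : (M n).2 = false) : (i:ℤ) + R ≤ zt u M n := by
  obtain ⟨a', b, ha', hb', H⟩ := h
  have := ha'.unique ha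
  subst this
  obtain ⟨H1, H2⟩ := H n hn ((bf_iff_of_hit hb' n).1 hb)
  rcases lt_or_ge n (a' + R) with h1 | h1
  · have := H1 h1
    rw [this] at hf; simp at hf
  · exact H2 h1

end Crest.Agent.R154.B6I
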