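import Mathlib

/-!
Row 154, block B7 (K-set bound), abstract probability part (helper402).

Sequential experiments `i = 0,1,2,...` on a probability space with a filtration `F`; the `i`-th
experiment is `F (i+1)`-measurable, its conditional law given `F i` is only used through integrals
over `F i`-measurable sets (no conditional expectation in the interface).
-/

open MeasureTheory Filter Finset
open scoped ENNReal

namespace Crest.Agent.R154.KSet

section meas

variable {Ω : Type*} {m : MeasurableSpace Ω}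

theorem meas_mul_ind {w : Ω → ℝ≥0∞} {S : Set Ω} (hw : Measurable w) (hS : MeasurableSet S) :
    Measurable fun ω => w ω * S.indicator 1 ω :=
  hw.mul (measurable_one.indicator hS)

theorem meas_prod {ι : Type*} (s : Finset ι) {f : ι → Ω → ℝ≥0∞} (hf : ∀ i ∈ s, Measurable (f i)) :
    Measurable fun ω => ∏ i ∈ s, f i ω :=
  Finset.measurable_fun_prod s hf

theorem meas_mul {f g : Ω → ℝ≥0∞} (hf : Measurable f) (hg : Measurable g) :
    Measurable fun ω => f ω * g ω := hf.mul hg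

theorem meas_exp {ι : Type*} (s : Finset ι) {f : ι → Ω → ℝ} (hf : ∀ i ∈ s, Measurable (f i))
    (θ : ℝ) : Measurable fun ω => ENNReal.ofReal (Real.exp (θ * ∑ i ∈ s, f i ω)) := by
  refine ENNReal.measurable_ofReal.comp (Real.measurable_exp.comp ?_)
  exact Measurable.const_mul (Finset.measurable_fun_sum s hf) θ

theorem meas_ofReal_exp {f : Ω → ℝ} (hf : Measurable f) :
    Measurable fun ω => ENNReal.ofReal (Real.exp (f ω)) :=
  ENNReal.measurable_ofReal.comp (Real.measurable_exp.comp hf)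

theorem meas_const_sub {f : Ω → ℝ} (hf : Measurable f) (x : ℝ) :
    Measurable fun ω => x - f ω := hf.const_sub x

theorem meas_const_add {f : Ω → ℝ} (hf : Measurable f) (x : ℝ) :
    Measurable fun ω => x + f ω := hf.const_add x

theorem meas_min_one {f : Ω → ℝ} (hf : Measurable f) :
    Measurable fun ω => min 1 (ENNReal.ofReal (f ω)) :=
  measurable_const.min (ENNReal.measurable_ofReal.comp hf)

theorem meas_set_le {f : Ω → ℝ} (hf : Measurable f) (x y : ℝ) :
    MeasurableSet {ω | x + f ω ≤ y} := measurableSet_le (hf.const_add x) measurable_const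

theorem meas_ite_le {f : Ω → ℝ} (hf : Measurable f) (η : ℝ) (x : ℝ≥0∞)
    [∀ ω, Decidable (f ω ≤ η)] :
    Measurable fun ω => if f ω ≤ η then x else (1 : ℝ≥0∞) :=
  Measurable.ite (measurableSet_le hf measurable_const) measurable_const measurable_const

theorem meas_biInter (n : ℕ) {S : ℕ → Set Ω} (hS : ∀ i < n, MeasurableSet (S i)) :
    MeasurableSet (⋂ i ∈ Finset.range n, S i) :=
  Finset.measurableSet_biInter _ fun i hi => hS i (by simpa using hi)

end meas

/-- comparison of set integrals over `m`-measurable sets gives comparison against `m`-measurable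
weights -/
theorem lintegral_mul_mono_of_sets {Ω : Type*} {m m0 : MeasurableSpace Ω} (hm : m ≤ m0)
    (P : Measure Ω)
    {X Y f : Ω → ℝ≥0∞} (hX : Measurable X) (hY : Measurable Y)
    (hf : Measurable[m] f)
    (h : ∀ B, MeasurableSet[m] B → ∫⁻ ω in B, X ω ∂P ≤ ∫⁻ ω in B, Y ω ∂P) :
    ∫⁻ ω, f ω * X ω ∂P ≤ ∫⁻ ω, f ω * Y ω ∂P := by
  have hf0 : Measurable f := hf.mono hm le_rfl
  have key : ∀ Z : Ω → ℝ≥0∞, Measurable Z →
      ∫⁻ ω, f ω * Z ω ∂P = ∫⁻ ω, f ω ∂((P.withDensity Z).trim hm) := by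
    intro Z hZ
    rw [lintegral_trim hm hf, lintegral_withDensity_eq_lintegral_mul _ hZ hf0]
    refine lintegral_congr fun ω => ?_
    simp [mul_comm]
  rw [key X hX, key Y hY]
  refine lintegral_mono' ?_ le_rfl
  rw [Measure.le_iff]
  intro B hB
  rw [trim_measurableSet_eq hm hB, trim_measurableSet_eq hm hB,
    withDensity_apply _ (hm _ hB), withDensity_apply _ (hm _ hB)]
  exact h B hB

variable {Ω : Type*} {m0 : MeasurableSpace Ω}

/-- (U) product supermartingale: events `S i` with predictable upper bounds `q i` of their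
conditional probability, weights `w i` with `w i * q i ≤ 1`. -/
theorem lintegral_prod_indicator_le (P : Measure Ω) [IsProbabilityMeasure P]
    (F : Filtration ℕ m0) (n : ℕ) (S : ℕ → Set Ω) (q w : ℕ → Ω → ℝ≥0∞)
    (hS : ∀ i < n, MeasurableSet[F (i + 1)] (S i))
    (hq : ∀ i < n, Measurable (q i)) (hw : ∀ i < n, Measurable[F i] (w i))
    (hqw : ∀ i < n, ∀ ω, w i ω * q i ω ≤ 1)
    (hcond : ∀ i < n, ∀ B, MeasurableSet[F i] B → P (B ∩ S i) ≤ ∫⁻ ω in B, q i ω ∂P) :
    ∫⁻ ω, ∏ i ∈ range n, (w i ω * (S i).indicator 1 ω) ∂P ≤ 1 := by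
  induction n with
  | zero => simp
  | succ n ih =>
    have ih' := ih (fun i hi => hS i (by omega)) (fun i hi => hq i (by omega))
      (fun i hi => hw i (by omega)) (fun i hi => hqw i (by omega))
      (fun i hi => hcond i (by omega))
    refine le_trans ?_ ih'
    have hprodm : Measurable[F n] fun ω => ∏ i ∈ range n, (w i ω * (S i).indicator 1 ω) := by
      refine meas_prod _ fun i hi => ?_
      have hi' : i < n := by simpa using hi
      exact meas_mul_ind ((hw i (by omega)).mono (F.mono (by omega)) le_rfl)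
        ((F.mono (by omega : i + 1 ≤ n)) _ (hS i (by omega)))
    have hSn : MeasurableSet (S n) := F.le _ _ (hS n (by omega))
    have h1 : ∀ B, MeasurableSet[F n] B →
        ∫⁻ ω in B, (S n).indicator 1 ω ∂P ≤ ∫⁻ ω in B, q n ω ∂P := by
      intro B hB
      rw [lintegral_indicator_one hSn, Measure.restrict_apply hSn, Set.inter_comm]
      exact hcond n (by omega) B hB
    have h2 := lintegral_mul_mono_of_sets (m := F n) (m0 := m0) (F.le n) P
      (X := (S n).indicator 1) (Y := q n)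
      (f := fun ω => (∏ i ∈ range n, (w i ω * (S i).indicator 1 ω)) * w n ω)
      (measurable_one.indicator hSn) (hq n (by omega)) (meas_mul hprodm (hw n (by omega))) h1
    calc ∫⁻ ω, ∏ i ∈ range (n + 1), (w i ω * (S i).indicator 1 ω) ∂P
        = ∫⁻ ω, (∏ i ∈ range n, (w i ω * (S i).indicator 1 ω)) * w n ω
            * (S n).indicator 1 ω ∂P := by
          refine lintegral_congr fun ω => ?_
          rw [prod_range_succ]; ring
      _ ≤ ∫⁻ ω, (∏ i ∈ range n, (w i ω * (S i).indicator 1 ω)) * w n ω * q n ω ∂P := h2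
      _ ≤ ∫⁻ ω, ∏ i ∈ range n, (w i ω * (S i).indicator 1 ω) ∂P := by
          refine lintegral_mono fun ω => ?_
          simp only [mul_assoc]
          calc (∏ i ∈ range n, (w i ω * (S i).indicator 1 ω)) * (w n ω * q n ω)
              ≤ (∏ i ∈ range n, (w i ω * (S i).indicator 1 ω)) * 1 := by
                gcongr; exact hqw n (by omega) ω
            _ = _ := by simp

/-- (L1) exponential moment of a sum of adapted bounded nonnegative summands with conditional mean
`≤ κ`. -/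
theorem lintegral_exp_sum_le (P : Measure Ω) [IsProbabilityMeasure P]
    (F : Filtration ℕ m0) (n : ℕ) (A : ℕ → Ω → ℝ) {b κ θ : ℝ} (hb : 0 < b) (hκ : 0 ≤ κ)
    (hθ : 0 ≤ θ)
    (hA : ∀ i < n, Measurable[F (i + 1)] (A i))
    (h0 : ∀ i < n, ∀ ω, 0 ≤ A i ω) (h1 : ∀ i < n, ∀ ω, A i ω ≤ b)
    (hcond : ∀ i < n, ∀ B, MeasurableSet[F i] B →
      ∫⁻ ω in B, ENNReal.ofReal (A i ω) ∂P ≤ ENNReal.ofReal κ * P B) :
    ∫⁻ ω, ENNReal.ofReal (Real.exp (θ * ∑ i ∈ range n, A i ω)) ∂P
      ≤ ENNReal.ofReal (Real.exp (n * (κ * ((Real.exp (θ * b) - 1) / b)))) := by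
  set c : ℝ := (Real.exp (θ * b) - 1) / b with hc
  have hc0 : 0 ≤ c := by
    rw [hc]; apply div_nonneg _ hb.le
    have := Real.one_le_exp (mul_nonneg hθ hb.le); linarith
  have hexp : ∀ x : ℝ, 0 ≤ x → x ≤ b → Real.exp (θ * x) ≤ 1 + x * c := by
    intro x hx0 hxb
    have ha : 0 ≤ 1 - x / b := by rw [sub_nonneg, div_le_one hb]; exact hxb
    have hb' : 0 ≤ x / b := by positivity
    have hconv := convexOn_exp.2 (Set.mem_univ (0 : ℝ)) (Set.mem_univ (θ * b)) ha hb'
      (sub_add_cancel _ _)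
    have e1 : (1 - x / b) • (0 : ℝ) + (x / b) • (θ * b) = θ * x := by
      simp only [smul_eq_mul]; field_simp; ring
    rw [e1] at hconv
    simp only [smul_eq_mul, Real.exp_zero, mul_one] at hconv
    calc Real.exp (θ * x) ≤ 1 - x / b + x / b * Real.exp (θ * b) := hconv
      _ = 1 + x * c := by rw [hc]; field_simp; ring
  induction n with
  | zero => simp
  | succ n ih =>
    have ih' := ih (fun i hi => hA i (by omega)) (fun i hi => h0 i (by omega))
      (fun i hi => h1 i (by omega)) (fun i hi => hcond i (by omega))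
    have hsm : Measurable[F n] fun ω => ENNReal.ofReal (Real.exp (θ * ∑ i ∈ range n, A i ω)) := by
      refine meas_exp _ (fun i hi => ?_) θ
      have hi' : i < n := by simpa using hi
      exact (hA i (by omega)).mono (F.mono (by omega)) le_rfl
    have hAn : Measurable (A n) := (hA n (by omega)).mono (F.le _) le_rfl
    have hset : ∀ B, MeasurableSet[F n] B →
        ∫⁻ ω in B, ENNReal.ofReal (A n ω) ∂P ≤ ∫⁻ ω in B, (fun _ => ENNReal.ofReal κ) ω ∂P := by
      intro B hB
      simpa using hcond n (by omega) B hB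
    have h2 := lintegral_mul_mono_of_sets (m := F n) (m0 := m0) (F.le n) P
      (X := fun ω => ENNReal.ofReal (A n ω)) (Y := fun _ => ENNReal.ofReal κ)
      (ENNReal.measurable_ofReal.comp hAn) measurable_const hsm hset
    have hsm0 : Measurable fun ω => ENNReal.ofReal (Real.exp (θ * ∑ i ∈ range n, A i ω)) :=
      hsm.mono (F.le n) le_rfl
    calc ∫⁻ ω, ENNReal.ofReal (Real.exp (θ * ∑ i ∈ range (n + 1), A i ω)) ∂P
        ≤ ∫⁻ ω, (ENNReal.ofReal (Real.exp (θ * ∑ i ∈ range n, A i ω))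
            + ENNReal.ofReal c * (ENNReal.ofReal (Real.exp (θ * ∑ i ∈ range n, A i ω))
              * ENNReal.ofReal (A n ω))) ∂P := by
          refine lintegral_mono fun ω => ?_
          simp only
          rw [sum_range_succ, mul_add, Real.exp_add, ← ENNReal.ofReal_mul (Real.exp_pos _).le,
            ← ENNReal.ofReal_mul hc0, ← ENNReal.ofReal_add (Real.exp_pos _).le (by
              have := h0 n (by omega) ω
              positivity)]
          refine ENNReal.ofReal_le_ofReal ?_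
          have := hexp (A n ω) (h0 n (by omega) ω) (h1 n (by omega) ω)
          have he := (Real.exp_pos (θ * ∑ i ∈ range n, A i ω)).le
          nlinarith [mul_le_mul_of_nonneg_left this he]
      _ = ∫⁻ ω, ENNReal.ofReal (Real.exp (θ * ∑ i ∈ range n, A i ω)) ∂P
            + ENNReal.ofReal c * ∫⁻ ω, ENNReal.ofReal (Real.exp (θ * ∑ i ∈ range n, A i ω))
              * ENNReal.ofReal (A n ω) ∂P := by
          rw [lintegral_add_left hsm0, lintegral_const_mul]
          exact hsm0.mul (ENNReal.measurable_ofReal.comp hAn)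
      _ ≤ ∫⁻ ω, ENNReal.ofReal (Real.exp (θ * ∑ i ∈ range n, A i ω)) ∂P
            + ENNReal.ofReal c * ∫⁻ ω, ENNReal.ofReal (Real.exp (θ * ∑ i ∈ range n, A i ω))
              * ENNReal.ofReal κ ∂P := by gcongr
      _ = (1 + ENNReal.ofReal c * ENNReal.ofReal κ)
            * ∫⁻ ω, ENNReal.ofReal (Real.exp (θ * ∑ i ∈ range n, A i ω)) ∂P := by
          rw [lintegral_mul_const _ hsm0]; ring
      _ ≤ ENNReal.ofReal (Real.exp (κ * c))
            * ENNReal.ofReal (Real.exp (n * (κ * c))) := by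
          refine mul_le_mul' ?_ ih'
          rw [← ENNReal.ofReal_mul hc0, ← ENNReal.ofReal_one, ← ENNReal.ofReal_add zero_le_one
            (by positivity)]
          refine ENNReal.ofReal_le_ofReal ?_
          have := Real.add_one_le_exp (κ * c)
          linarith [mul_comm c κ]
      _ = ENNReal.ofReal (Real.exp (((n + 1 : ℕ) : ℝ) * (κ * c))) := by
          rw [← ENNReal.ofReal_mul (Real.exp_pos _).le, ← Real.exp_add]
          congr 2; push_cast; ring

/-- (L1') Bennett-type tail bound: `P (∑ A_i ≥ a) ≤ (e b'... )`: for every `θ ≥ 0`. -/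
theorem tail_sum_le (P : Measure Ω) [IsProbabilityMeasure P]
    (F : Filtration ℕ m0) (n : ℕ) (A : ℕ → Ω → ℝ) {b κ : ℝ} (hb : 0 < b) (hκ : 0 < κ)
    (hn : 0 < n)
    (hA : ∀ i < n, Measurable[F (i + 1)] (A i))
    (h0 : ∀ i < n, ∀ ω, 0 ≤ A i ω) (h1 : ∀ i < n, ∀ ω, A i ω ≤ b)
    (hcond : ∀ i < n, ∀ B, MeasurableSet[F i] B →
      ∫⁻ ω in B, ENNReal.ofReal (A i ω) ∂P ≤ ENNReal.ofReal κ * P B)
    {a : ℝ} (ha : n * κ ≤ a) :
    P {ω | a ≤ ∑ i ∈ range n, A i ω}
      ≤ ENNReal.ofReal ((Real.exp 1 * (n * κ) / a) ^ (a / b)) := by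
  have hnκ : 0 < (n : ℝ) * κ := by positivity
  have ha0 : 0 < a := lt_of_lt_of_le hnκ ha
  set θ : ℝ := Real.log (a / (n * κ)) / b with hθd
  have hlog : 0 ≤ Real.log (a / (n * κ)) :=
    Real.log_nonneg (by rw [le_div_iff₀ hnκ]; linarith)
  have hθ : 0 ≤ θ := div_nonneg hlog hb.le
  have h := lintegral_exp_sum_le P F n A hb hκ.le hθ hA h0 h1 hcond
  have hmeas : Measurable fun ω => ENNReal.ofReal (Real.exp (θ * ∑ i ∈ range n, A i ω)) :=
    meas_exp _ (fun i hi => (hA i (by simpa using hi)).mono (F.le _) le_rfl) θ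
  have hM := mul_meas_ge_le_lintegral (μ := P) hmeas (ENNReal.ofReal (Real.exp (θ * a)))
  have hsub : {ω | a ≤ ∑ i ∈ range n, A i ω} ⊆
      {ω | ENNReal.ofReal (Real.exp (θ * a)) ≤
        ENNReal.ofReal (Real.exp (θ * ∑ i ∈ range n, A i ω))} := by
    intro ω hω
    simp only [Set.mem_ofPred_eq] at hω ⊢
    exact ENNReal.ofReal_le_ofReal (Real.exp_le_exp.2 (mul_le_mul_of_nonneg_left hω hθ))
  have hpos : ENNReal.ofReal (Real.exp (θ * a)) ≠ 0 := by
    simp [Real.exp_pos]
  have hcomb : ENNReal.ofReal (Real.exp (θ * a)) * P {ω | a ≤ ∑ i ∈ range n, A i ω}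
      ≤ ENNReal.ofReal (Real.exp (n * (κ * ((Real.exp (θ * b) - 1) / b)))) :=
    le_trans (mul_le_mul' le_rfl (measure_mono hsub)) (hM.trans h)
  have hθb : Real.exp (θ * b) = a / (n * κ) := by
    rw [hθd, div_mul_cancel₀ _ hb.ne', Real.exp_log (by positivity)]
  have hexp2 : n * (κ * ((Real.exp (θ * b) - 1) / b)) ≤ a / b := by
    rw [hθb]
    have : n * (κ * ((a / (n * κ) - 1) / b)) = (a - n * κ) / b := by
      field_simp
    rw [this]
    exact div_le_div_of_nonneg_right (by linarith) hb.le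
  have hfin : ENNReal.ofReal (Real.exp (θ * a)) ≠ ⊤ := ENNReal.ofReal_ne_top
  rw [mul_comm, ← ENNReal.le_div_iff_mul_le (Or.inl hpos) (Or.inl hfin)] at hcomb
  refine hcomb.trans ?_
  rw [← ENNReal.ofReal_div_of_pos (Real.exp_pos _)]
  refine ENNReal.ofReal_le_ofReal ?_
  rw [← Real.exp_sub]
  have hbase : 0 < Real.exp 1 * (n * κ) / a := by positivity
  rw [Real.rpow_def_of_pos hbase]
  refine Real.exp_le_exp.2 ?_
  have e1 : Real.log (Real.exp 1 * (n * κ) / a) = 1 - Real.log (a / (n * κ)) := by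
    rw [Real.log_div (by positivity) ha0.ne', Real.log_mul (Real.exp_pos 1).ne' hnκ.ne',
      Real.log_exp, Real.log_div ha0.ne' hnκ.ne']
    ring
  rw [e1]
  calc n * (κ * ((Real.exp (θ * b) - 1) / b)) - θ * a ≤ a / b - θ * a := by linarith
    _ = (1 - Real.log (a / (n * κ))) * (a / b) := by rw [hθd]; field_simp

/-- (L2) sequential trials: the `i`-th trial fails with conditional probability `≤ 1 - p i`
(`p i` predictable, real valued, possibly negative).  Then
`P (all fail and ∑ p ≥ M) ≤ exp (-M)`. -/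
theorem all_fail_le (P : Measure Ω) [IsProbabilityMeasure P]
    (F : Filtration ℕ m0) (n : ℕ) (S : ℕ → Set Ω) (p : ℕ → Ω → ℝ)
    (hS : ∀ i < n, MeasurableSet[F (i + 1)] (S i))
    (hp : ∀ i < n, Measurable[F i] (p i))
    (hcond : ∀ i < n, ∀ B, MeasurableSet[F i] B →
      P (B ∩ S i) ≤ ∫⁻ ω in B, ENNReal.ofReal (1 - p i ω) ∂P) (M : ℝ) :
    P ((⋂ i ∈ range n, S i) ∩ {ω | M ≤ ∑ i ∈ range n, p i ω})
      ≤ ENNReal.ofReal (Real.exp (-M)) := by
  have hU := lintegral_prod_indicator_le P F n S (fun i ω => ENNReal.ofReal (1 - p i ω))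
    (fun i ω => ENNReal.ofReal (Real.exp (p i ω))) hS
    (fun i hi => ENNReal.measurable_ofReal.comp
      ((measurable_const.sub ((hp i hi).mono (F.le _) le_rfl))))
    (fun i hi => meas_ofReal_exp (hp i hi))
    (fun i hi ω => by
      rw [← ENNReal.ofReal_mul (Real.exp_pos _).le, ← ENNReal.ofReal_one]
      refine ENNReal.ofReal_le_ofReal ?_
      have h1 := Real.add_one_le_exp (-(p i ω))
      have h2 : Real.exp (p i ω) * Real.exp (-(p i ω)) = 1 := by
        rw [← Real.exp_add]; simp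
      have h3 := Real.exp_pos (p i ω)
      nlinarith [mul_le_mul_of_nonneg_left h1 h3.le])
    hcond
  have hm : Measurable fun ω => ∏ i ∈ range n,
      (ENNReal.ofReal (Real.exp (p i ω)) * (S i).indicator (1 : Ω → ℝ≥0∞) ω) := by
    refine meas_prod _ fun i hi => ?_
    have hi' : i < n := by simpa using hi
    exact meas_mul_ind (meas_ofReal_exp ((hp i hi').mono (F.le _) le_rfl))
      (F.le _ _ (hS i hi'))
  have hM := mul_meas_ge_le_lintegral (μ := P) hm (ENNReal.ofReal (Real.exp M))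
  have hsub : ((⋂ i ∈ range n, S i) ∩ {ω | M ≤ ∑ i ∈ range n, p i ω}) ⊆
      {ω | ENNReal.ofReal (Real.exp M) ≤ ∏ i ∈ range n,
        (ENNReal.ofReal (Real.exp (p i ω)) * (S i).indicator (1 : Ω → ℝ≥0∞) ω)} := by
    rintro ω ⟨h1, h2⟩
    simp only [Set.mem_iInter] at h1
    simp only [Set.mem_ofPred_eq] at h2 ⊢
    have : ∏ i ∈ range n,
        (ENNReal.ofReal (Real.exp (p i ω)) * (S i).indicator (1 : Ω → ℝ≥0∞) ω)
        = ENNReal.ofReal (Real.exp (∑ i ∈ range n, p i ω)) := by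
      rw [Real.exp_sum, ENNReal.ofReal_prod_of_nonneg (fun i _ => (Real.exp_pos _).le)]
      refine Finset.prod_congr rfl fun i hi => ?_
      rw [Set.indicator_of_mem (h1 i hi)]; simp
    rw [this]
    exact ENNReal.ofReal_le_ofReal (Real.exp_le_exp.2 h2)
  have hfin : ENNReal.ofReal (Real.exp M) ≠ ⊤ := ENNReal.ofReal_ne_top
  have hpos : ENNReal.ofReal (Real.exp M) ≠ 0 := by simp [Real.exp_pos]
  have h := (mul_le_mul' le_rfl (measure_mono hsub)).trans (hM.trans hU)
  rw [mul_comm, ← ENNReal.le_div_iff_mul_le (Or.inl hpos) (Or.inl hfin)] at h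
  refine h.trans ?_
  rw [Real.exp_neg, ENNReal.ofReal_inv_of_pos (Real.exp_pos _), one_div]

/-- (L3) the K-set bound, abstract form.  `N` sequential walkers, `Suc i` = the `i`-th (stopped)
walker succeeds, `A i` its capacity, `c i` = loss caused by the explored set.
`r` = number of rounds: `∑ c i ≤ r * ∑ A i`. -/
theorem kset_all_fail_le (P : Measure Ω) [IsProbabilityMeasure P]
    (F : Filtration ℕ m0) (N : ℕ) (hN : 0 < N) (Suc : ℕ → Set Ω) (A c : ℕ → Ω → ℝ)
    {b κ g r : ℝ} (hb : 0 < b) (hκ : 0 < κ) (hr : 0 ≤ r)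
    (hS : ∀ i < N, MeasurableSet[F (i + 1)] (Suc i))
    (hA : ∀ i < N, Measurable[F (i + 1)] (A i))
    (h0 : ∀ i < N, ∀ ω, 0 ≤ A i ω) (h1 : ∀ i < N, ∀ ω, A i ω ≤ b)
    (hAc : ∀ i < N, ∀ B, MeasurableSet[F i] B →
      ∫⁻ ω in B, ENNReal.ofReal (A i ω) ∂P ≤ ENNReal.ofReal κ * P B)
    (hc : ∀ i < N, Measurable[F i] (c i)) (hc0 : ∀ i < N, ∀ ω, 0 ≤ c i ω)
    (hcA : ∀ ω, ∑ i ∈ range N, c i ω ≤ r * ∑ i ∈ range N, A i ω)
    (hg0 : 0 ≤ g) (hg1 : g ≤ 1)
    (hSc : ∀ i < N, ∀ B, MeasurableSet[F i] B →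
      ENNReal.ofReal g * P B ≤ P (B ∩ Suc i) + (∫⁻ ω in B, ENNReal.ofReal (c i ω) ∂P)
        + ENNReal.ofReal κ * P B)
    {a : ℝ} (ha : N * κ ≤ a) :
    P (⋂ i ∈ range N, (Suc i)ᶜ)
      ≤ ENNReal.ofReal (Real.exp (-(N * (g - κ) - r * a)))
        + ENNReal.ofReal ((Real.exp 1 * (N * κ) / a) ^ (a / b)) := by
  have hF := all_fail_le P F N (fun i => (Suc i)ᶜ) (fun i ω => g - κ - c i ω)
    (fun i hi => (hS i hi).compl)
    (fun i hi => meas_const_sub (hc i hi) _)
    (fun i hi B hB => by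
      have hBm : MeasurableSet B := F.le _ _ hB
      have hSm : MeasurableSet (Suc i) := F.le _ _ (hS i hi)
      have hcm : Measurable (c i) := (hc i hi).mono (F.le _) le_rfl
      have hsplit : P (B ∩ Suc i) + P (B ∩ (Suc i)ᶜ) = P B := by
        rw [← Set.sdiff_eq]; exact measure_inter_add_sdiff B hSm
      have key : P (B ∩ (Suc i)ᶜ) + ENNReal.ofReal g * P B
          ≤ P B + (∫⁻ ω in B, ENNReal.ofReal (c i ω) ∂P) + ENNReal.ofReal κ * P B := by
        calc P (B ∩ (Suc i)ᶜ) + ENNReal.ofReal g * P B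
            ≤ P (B ∩ (Suc i)ᶜ) + (P (B ∩ Suc i) + (∫⁻ ω in B, ENNReal.ofReal (c i ω) ∂P)
              + ENNReal.ofReal κ * P B) := by gcongr; exact hSc i hi B hB
          _ = _ := by rw [← hsplit]; ring
      have hgfin : ENNReal.ofReal g * P B ≠ ⊤ :=
        ENNReal.mul_ne_top ENNReal.ofReal_ne_top (measure_ne_top _ _)
      have hrhs : P B + (∫⁻ ω in B, ENNReal.ofReal (c i ω) ∂P) + ENNReal.ofReal κ * P B
          = (∫⁻ ω in B, ENNReal.ofReal (1 - (g - κ - c i ω)) ∂P)
            + ENNReal.ofReal g * P B := by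
        have e1 : (P B : ℝ≥0∞) = ∫⁻ ω in B, 1 ∂P := by simp
        have e2 : ENNReal.ofReal g * P B = ∫⁻ ω in B, ENNReal.ofReal g ∂P := by simp
        have e3 : ENNReal.ofReal κ * P B = ∫⁻ ω in B, ENNReal.ofReal κ ∂P := by simp
        have e4 : (∫⁻ ω in B, 1 ∂P) + (∫⁻ ω in B, ENNReal.ofReal (c i ω) ∂P)
            + ∫⁻ ω in B, ENNReal.ofReal κ ∂P
            = ∫⁻ ω in B, (1 + ENNReal.ofReal (c i ω) + ENNReal.ofReal κ) ∂P := by
          rw [lintegral_add_right _ measurable_const, lintegral_add_left measurable_const]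
        have e5 : (∫⁻ ω in B, ENNReal.ofReal (1 - (g - κ - c i ω)) ∂P)
            + ∫⁻ ω in B, ENNReal.ofReal g ∂P
            = ∫⁻ ω in B, (ENNReal.ofReal (1 - (g - κ - c i ω)) + ENNReal.ofReal g) ∂P := by
          rw [lintegral_add_right _ measurable_const]
        rw [e2, e3, e1, e4, e5]
        refine lintegral_congr fun ω => ?_
        have hcω := hc0 i hi ω
        rw [← ENNReal.ofReal_one, ← ENNReal.ofReal_add (by norm_num) hcω,
          ← ENNReal.ofReal_add (by linarith) hκ.le, ← ENNReal.ofReal_add (by linarith) hg0]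
        congr 1; ring
      rw [hrhs] at key
      exact (ENNReal.add_le_add_iff_right hgfin).1 key)
    (N * (g - κ) - r * a)
  have hT := tail_sum_le P F N A hb hκ hN hA h0 h1 hAc ha
  refine le_trans (measure_mono ?_) ((measure_union_le _ _).trans (add_le_add hF hT))
  intro ω hω
  by_cases h : a ≤ ∑ i ∈ range N, A i ω
  · exact Or.inr h
  · refine Or.inl ⟨hω, ?_⟩
    simp only [Set.mem_ofPred_eq]
    rw [sum_sub_distrib, sum_const, card_range, nsmul_eq_mul]
    have h2 := hcA ω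
    have h3 : r * ∑ i ∈ range N, A i ω ≤ r * a :=
      mul_le_mul_of_nonneg_left (not_le.1 h).le hr
    linarith

/-- (L5) all positive: `S i` has conditional probability `≤ δ + c i` with `∑ c ≤ r ∑ A`; then all
`n` events happen with probability at most `(δ+η)^m + tail`, where at most `n - m` indices have
`c i > η` as long as `∑ A < a`. -/
theorem all_positive_le (P : Measure Ω) [IsProbabilityMeasure P]
    (F : Filtration ℕ m0) (n : ℕ) (hn : 0 < n) (S : ℕ → Set Ω) (A c : ℕ → Ω → ℝ)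
    {b κ δ η r : ℝ} (hb : 0 < b) (hκ : 0 < κ) (hr : 0 ≤ r) (hδ : 0 < δ) (hη : 0 < η)
    (hρ : δ + η ≤ 1)
    (hS : ∀ i < n, MeasurableSet[F (i + 1)] (S i))
    (hA : ∀ i < n, Measurable[F (i + 1)] (A i))
    (h0 : ∀ i < n, ∀ ω, 0 ≤ A i ω) (h1 : ∀ i < n, ∀ ω, A i ω ≤ b)
    (hAc : ∀ i < n, ∀ B, MeasurableSet[F i] B →
      ∫⁻ ω in B, ENNReal.ofReal (A i ω) ∂P ≤ ENNReal.ofReal κ * P B)
    (hc : ∀ i < n, Measurable[F i] (c i)) (hc0 : ∀ i < n, ∀ ω, 0 ≤ c i ω)
    (hcA : ∀ ω, ∑ i ∈ range n, c i ω ≤ r * ∑ i ∈ range n, A i ω)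
    (hSc : ∀ i < n, ∀ B, MeasurableSet[F i] B →
      P (B ∩ S i) ≤ ∫⁻ ω in B, ENNReal.ofReal (δ + c i ω) ∂P)
    {a : ℝ} (ha : n * κ ≤ a) {m : ℕ} (hm : (m : ℝ) ≤ n - r * a / η) :
    P (⋂ i ∈ range n, S i)
      ≤ ENNReal.ofReal ((δ + η) ^ m)
        + ENNReal.ofReal ((Real.exp 1 * (n * κ) / a) ^ (a / b)) := by
  classical
  set ρ : ℝ := δ + η with hρd
  have hρ0 : 0 < ρ := by positivity
  -- predictable weights
  let w : ℕ → Ω → ℝ≥0∞ := fun i ω => if c i ω ≤ η then ENNReal.ofReal (ρ⁻¹) else 1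
  let q : ℕ → Ω → ℝ≥0∞ := fun i ω => min 1 (ENNReal.ofReal (δ + c i ω))
  have hqm : ∀ i < n, Measurable[F i] (q i) := fun i hi =>
    meas_min_one (meas_const_add (hc i hi) δ)
  have hU := lintegral_prod_indicator_le P F n S q w hS
    (fun i hi => (hqm i hi).mono (F.le _) le_rfl)
    (fun i hi => meas_ite_le (hc i hi) η _)
    (fun i hi ω => by
      by_cases h : c i ω ≤ η
      · simp only [w, q, if_pos h]
        calc ENNReal.ofReal ρ⁻¹ * min 1 (ENNReal.ofReal (δ + c i ω))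
            ≤ ENNReal.ofReal ρ⁻¹ * ENNReal.ofReal ρ := by
              gcongr
              exact (min_le_right _ _).trans (ENNReal.ofReal_le_ofReal (by linarith))
          _ = 1 := by
              rw [← ENNReal.ofReal_mul (by positivity), inv_mul_cancel₀ hρ0.ne',
                ENNReal.ofReal_one]
      · simp only [w, q, if_neg h, one_mul]; exact min_le_left _ _)
    (fun i hi B hB => by
      have hBm : MeasurableSet B := F.le _ _ hB
      have hqm' := (hqm i hi).mono (F.le i) le_rfl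
      -- split B according to `δ + c ≤ 1`
      set D : Set Ω := {ω | δ + c i ω ≤ 1} with hD
      have hDm : MeasurableSet[F i] D := meas_set_le (hc i hi) δ 1
      have hDm0 : MeasurableSet D := F.le _ _ hDm
      have a1 : P ((B ∩ D) ∩ S i) ≤ ∫⁻ ω in B ∩ D, q i ω ∂P := by
        refine (hSc i hi (B ∩ D) (MeasurableSet.inter hB hDm)).trans ?_
        refine setLIntegral_mono' (hBm.inter hDm0) fun ω hω => ?_
        simp only [q]
        refine le_min ?_ le_rfl
        rw [← ENNReal.ofReal_one]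
        exact ENNReal.ofReal_le_ofReal hω.2
      have a2 : P ((B \ D) ∩ S i) ≤ ∫⁻ ω in B \ D, q i ω ∂P := by
        refine (measure_mono Set.inter_subset_left).trans ?_
        have : P (B \ D) = ∫⁻ ω in B \ D, 1 ∂P := by simp
        rw [this]
        refine setLIntegral_mono' (hBm.diff hDm0) fun ω hω => ?_
        simp only [q]
        refine le_min le_rfl ?_
        have h2 : ¬ (δ + c i ω ≤ 1) := hω.2
        rw [← ENNReal.ofReal_one]
        exact ENNReal.ofReal_le_ofReal (not_le.1 h2).le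
      calc P (B ∩ S i) ≤ P ((B ∩ D) ∩ S i) + P ((B \ D) ∩ S i) := by
            refine (measure_mono ?_).trans (measure_union_le _ _)
            intro ω hω
            by_cases h : ω ∈ D
            · exact Or.inl ⟨⟨hω.1, h⟩, hω.2⟩
            · exact Or.inr ⟨⟨hω.1, h⟩, hω.2⟩
        _ ≤ (∫⁻ ω in B ∩ D, q i ω ∂P) + ∫⁻ ω in B \ D, q i ω ∂P := add_le_add a1 a2
        _ = ∫⁻ ω in B, q i ω ∂P := lintegral_inter_add_sdiff _ _ hDm0)
  have hmm : Measurable fun ω => ∏ i ∈ range n,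
      (w i ω * (S i).indicator (1 : Ω → ℝ≥0∞) ω) := by
    refine meas_prod _ fun i hi => ?_
    have hi' : i < n := by simpa using hi
    exact meas_mul_ind ((meas_ite_le (hc i hi') η _).mono (F.le _) le_rfl)
      (F.le _ _ (hS i hi'))
  have hM := mul_meas_ge_le_lintegral (μ := P) hmm (ENNReal.ofReal (ρ⁻¹ ^ m))
  have hT := tail_sum_le P F n A hb hκ hn hA h0 h1 hAc ha
  have hρm : 1 ≤ ρ⁻¹ := (one_le_inv₀ hρ0).2 hρ
  have hsub : (⋂ i ∈ range n, S i) ⊆
      {ω | ENNReal.ofReal (ρ⁻¹ ^ m) ≤ ∏ i ∈ range n,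
        (w i ω * (S i).indicator (1 : Ω → ℝ≥0∞) ω)}
      ∪ {ω | a ≤ ∑ i ∈ range n, A i ω} := by
    intro ω hω
    simp only [Set.mem_iInter] at hω
    by_cases h : a ≤ ∑ i ∈ range n, A i ω
    · exact Or.inr h
    · refine Or.inl ?_
      simp only [Set.mem_ofPred_eq]
      have hprod : ∏ i ∈ range n, (w i ω * (S i).indicator (1 : Ω → ℝ≥0∞) ω)
          = ∏ i ∈ range n, w i ω := by
        refine Finset.prod_congr rfl fun i hi => ?_
        rw [Set.indicator_of_mem (hω i hi)]; simp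
      have hcard : ∏ i ∈ range n, w i ω
          = ENNReal.ofReal (ρ⁻¹) ^ ((range n).filter (fun i => c i ω ≤ η)).card := by
        simp only [w]
        rw [Finset.prod_ite]; simp
      have hbad : (((range n).filter (fun i => ¬ c i ω ≤ η)).card : ℝ) * η
          ≤ r * a := by
        calc (((range n).filter (fun i => ¬ c i ω ≤ η)).card : ℝ) * η
            = ∑ i ∈ (range n).filter (fun i => ¬ c i ω ≤ η), η := by simp
          _ ≤ ∑ i ∈ (range n).filter (fun i => ¬ c i ω ≤ η), c i ω :=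
              Finset.sum_le_sum fun i hi => (not_le.1 (Finset.mem_filter.1 hi).2).le
          _ ≤ ∑ i ∈ range n, c i ω :=
              Finset.sum_le_sum_of_subset_of_nonneg (Finset.filter_subset _ _)
                (fun i hi _ => hc0 i (by simpa using hi) ω)
          _ ≤ r * ∑ i ∈ range n, A i ω := hcA ω
          _ ≤ r * a := mul_le_mul_of_nonneg_left (not_le.1 h).le hr
      have hsum : ((range n).filter (fun i => c i ω ≤ η)).card
          + ((range n).filter (fun i => ¬ c i ω ≤ η)).card = n := by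
        rw [Finset.card_filter_add_card_filter_not]; simp
      have hmc : m ≤ ((range n).filter (fun i => c i ω ≤ η)).card := by
        have h5 : (((range n).filter (fun i => ¬ c i ω ≤ η)).card : ℝ) ≤ r * a / η := by
          rw [le_div_iff₀ hη]; exact hbad
        have h6 : (((range n).filter (fun i => c i ω ≤ η)).card : ℝ)
            + ((range n).filter (fun i => ¬ c i ω ≤ η)).card = n := by exact_mod_cast hsum
        have : (m : ℝ) ≤ ((range n).filter (fun i => c i ω ≤ η)).card := by linarith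
        exact_mod_cast this
      rw [hprod, hcard, ENNReal.ofReal_pow (by positivity)]
      refine pow_le_pow_right₀ ?_ hmc
      rw [← ENNReal.ofReal_one]; exact ENNReal.ofReal_le_ofReal hρm
  refine (measure_mono hsub).trans ((measure_union_le _ _).trans (add_le_add ?_ hT))
  have hfin : ENNReal.ofReal (ρ⁻¹ ^ m) ≠ ⊤ := ENNReal.ofReal_ne_top
  have hpos : ENNReal.ofReal (ρ⁻¹ ^ m) ≠ 0 := by
    simp only [ne_eq, ENNReal.ofReal_eq_zero, not_le]; positivity
  have h := hM.trans hU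
  rw [mul_comm, ← ENNReal.le_div_iff_mul_le (Or.inl hpos) (Or.inl hfin)] at h
  refine h.trans ?_
  rw [one_div, ← ENNReal.ofReal_inv_of_pos (by positivity), inv_pow, inv_inv]

/-- (L6) Peierls product: conditional bounds slab by slab multiply. -/
theorem peierls_prod (P : Measure Ω) [IsProbabilityMeasure P]
    (F : Filtration ℕ m0) (n : ℕ) (S : ℕ → Set Ω) (q : ℕ → ℝ≥0∞)
    (hS : ∀ i < n, MeasurableSet[F (i + 1)] (S i))
    (hcond : ∀ i < n, ∀ B, MeasurableSet[F i] B → P (B ∩ S i) ≤ q i * P B) :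
    P (⋂ i ∈ range n, S i) ≤ ∏ i ∈ range n, q i := by
  induction n with
  | zero => simp
  | succ n ih =>
    have ih' := ih (fun i hi => hS i (by omega)) (fun i hi => hcond i (by omega))
    have hmeas : MeasurableSet[F n] (⋂ i ∈ range n, S i) := by
      refine meas_biInter n fun i hi => F.mono (by omega : i + 1 ≤ n) _ (hS i (by omega))
    have e : (⋂ i ∈ range (n + 1), S i) = (⋂ i ∈ range n, S i) ∩ S n := by
      ext ω
      simp only [Set.mem_iInter, mem_range, Set.mem_inter_iff, Nat.lt_succ_iff_lt_or_eq]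
      constructor
      · intro h; exact ⟨fun i hi => h i (Or.inl hi), h n (Or.inr rfl)⟩
      · rintro ⟨h1, h2⟩ i (hi | rfl)
        · exact h1 i hi
        · exact h2
    rw [e, prod_range_succ, mul_comm]
    exact (hcond n (by omega) _ hmeas).trans (mul_le_mul' le_rfl ih')

/-- (L4) blocked cells force all walkers to fail: `Q (∀ i < N, s i ≤ θ) (1-θ)^N ≤ ∫ ∏ (1 - s i)`. -/
theorem blocked_le (Q : Measure Ω) (N : ℕ) (s : ℕ → Ω → ℝ≥0∞)
    (hs : ∀ i < N, Measurable (s i)) (θ : ℝ≥0∞) :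
    Q {ω | ∀ i < N, s i ω ≤ θ} * (1 - θ) ^ N
      ≤ ∫⁻ ω, ∏ i ∈ range N, (1 - s i ω) ∂Q := by
  set E : Set Ω := {ω | ∀ i < N, s i ω ≤ θ} with hE
  have hEm : MeasurableSet E := by
    have : E = ⋂ i ∈ range N, {ω | s i ω ≤ θ} := by
      ext ω; simp [hE]
    rw [this]
    exact meas_biInter N fun i hi => measurableSet_le (hs i hi) measurable_const
  calc Q E * (1 - θ) ^ N = ∫⁻ ω in E, (1 - θ) ^ N ∂Q := by
        rw [setLIntegral_const, mul_comm]
    _ ≤ ∫⁻ ω in E, ∏ i ∈ range N, (1 - s i ω) ∂Q := by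
        refine setLIntegral_mono' hEm fun ω hω => ?_
        calc (1 - θ) ^ N = ∏ _i ∈ range N, (1 - θ) := by simp
          _ ≤ _ := Finset.prod_le_prod' fun i hi =>
            tsub_le_tsub_left (hω i (by simpa using hi)) 1
    _ ≤ ∫⁻ ω, ∏ i ∈ range N, (1 - s i ω) ∂Q := setLIntegral_le_lintegral _ _

/-- the numbers of the K-set bound: for every rate `lam` there are a number of rounds `n`, a
blocking threshold `θ` and `κ0` such that capacity mean `κ ≤ κ0` gives the rate `lam`. -/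
theorem kset_numbers {g lam b : ℝ} (hg : 0 < g) (hg1 : g ≤ 1) (hlam : 0 ≤ lam) (hb : 0 < b) :
    ∃ n : ℕ, 0 < n ∧ ∃ κ0 : ℝ, 0 < κ0 ∧ ∀ κ : ℝ, 0 < κ → κ ≤ κ0 → ∀ k : ℕ, 0 < k →
      ((n * k : ℕ) : ℝ) * κ ≤ g * k / 8 ∧
      Real.exp (-(((n * k : ℕ) : ℝ) * (g - κ) - n * (g * k / 8)))
        + (Real.exp 1 * (((n * k : ℕ) : ℝ) * κ) / (g * k / 8)) ^ ((g * k / 8) / b)
      ≤ (1 - g / 16) ^ (n * k) * Real.exp (-(lam * k)) := by
  obtain ⟨n, hn⟩ := exists_nat_ge (2 * (lam + 1) / g)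
  have hn0 : 0 < (n : ℝ) := lt_of_lt_of_le (by positivity) hn
  have hn0' : 0 < n := by exact_mod_cast hn0
  have hng : 2 * (lam + 1) ≤ n * g := by rw [div_le_iff₀ hg] at hn; exact hn
  set L : ℝ := (g * n / 8 + lam + 1) * (8 * b / g) with hL
  refine ⟨n, hn0', min (g / 8) (min (g / (8 * n)) (g / (8 * Real.exp 1 * n) * Real.exp (-L))),
    by positivity, fun κ hκ hκ0 k hk => ?_⟩
  have hk' : (0 : ℝ) < k := by exact_mod_cast hk
  have hk1 : (1 : ℝ) ≤ k := by exact_mod_cast hk
  have h1 : κ ≤ g / 8 := hκ0.trans (min_le_left _ _)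
  have h2 : κ ≤ g / (8 * n) := hκ0.trans ((min_le_right _ _).trans (min_le_left _ _))
  have h3 : κ ≤ g / (8 * Real.exp 1 * n) * Real.exp (-L) :=
    hκ0.trans ((min_le_right _ _).trans (min_le_right _ _))
  have hcast : ((n * k : ℕ) : ℝ) = n * k := by push_cast; ring
  have hθ : Real.exp (-(g / 8)) ≤ 1 - g / 16 := by
    have hx : Real.exp (-(g / 8)) ≤ 1 / (1 + g / 8) := by
      rw [Real.exp_neg, one_div]
      have := Real.add_one_le_exp (g / 8)
      exact inv_anti₀ (by positivity) (by linarith)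
    refine hx.trans ?_
    rw [div_le_iff₀ (by positivity)]
    nlinarith
  have hθ' : Real.exp (-(g / 8 * (n * k))) ≤ (1 - g / 16) ^ (n * k) := by
    have : Real.exp (-(g / 8 * (n * k))) = (Real.exp (-(g / 8))) ^ (n * k) := by
      rw [← Real.exp_nat_mul]; congr 1; push_cast; ring
    rw [this]
    exact pow_le_pow_left₀ (Real.exp_pos _).le hθ _
  have hhalf : ∀ x y : ℝ, x ≤ y - 1 → Real.exp x ≤ Real.exp y / 2 := by
    intro x y hxy
    have h5 : Real.exp x ≤ Real.exp (y - 1) := Real.exp_le_exp.2 hxy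
    have h6 : Real.exp (y - 1) * Real.exp 1 = Real.exp y := by rw [← Real.exp_add]; ring_nf
    have h7 : (2 : ℝ) ≤ Real.exp 1 := by have := Real.add_one_le_exp (1 : ℝ); linarith
    have h8 := Real.exp_pos (y - 1)
    nlinarith
  refine ⟨?_, ?_⟩
  · rw [hcast]
    rw [le_div_iff₀ (by positivity)] at h2
    nlinarith
  have hA : Real.exp (-(((n * k : ℕ) : ℝ) * (g - κ) - n * (g * k / 8)))
      ≤ Real.exp (-(g / 8 * (n * k)) - lam * k) / 2 := by
    refine hhalf _ _ ?_
    rw [hcast]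
    have e1 : (n : ℝ) * k * κ ≤ n * k * (g / 8) := by gcongr
    have e2 : (lam + 1) * k ≤ n * g / 2 * k := by gcongr; linarith
    nlinarith
  have hB : (Real.exp 1 * (((n * k : ℕ) : ℝ) * κ) / (g * k / 8)) ^ ((g * k / 8) / b)
      ≤ Real.exp (-(g / 8 * (n * k)) - lam * k) / 2 := by
    have hbase : Real.exp 1 * (((n * k : ℕ) : ℝ) * κ) / (g * k / 8) ≤ Real.exp (-L) := by
      rw [hcast, div_le_iff₀ (by positivity)]
      have e3 : κ * (8 * Real.exp 1 * n) ≤ g * Real.exp (-L) := by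
        rw [div_mul_eq_mul_div, le_div_iff₀ (by positivity)] at h3
        exact h3
      have e4 : κ * (8 * Real.exp 1 * n) * k ≤ g * Real.exp (-L) * k := by gcongr
      linarith
    have hb0 : 0 ≤ Real.exp 1 * (((n * k : ℕ) : ℝ) * κ) / (g * k / 8) := by positivity
    calc (Real.exp 1 * (((n * k : ℕ) : ℝ) * κ) / (g * k / 8)) ^ ((g * k / 8) / b)
        ≤ (Real.exp (-L)) ^ ((g * k / 8) / b) :=
          Real.rpow_le_rpow hb0 hbase (by positivity)
      _ = Real.exp (-L * ((g * k / 8) / b)) := by rw [← Real.exp_mul]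
      _ ≤ Real.exp (-(g / 8 * (n * k)) - lam * k) / 2 := by
          refine hhalf _ _ ?_
          have : -L * ((g * k / 8) / b) = -((g * n / 8 + lam + 1) * k) := by
            rw [hL]; field_simp
          rw [this]
          nlinarith
  calc Real.exp (-(((n * k : ℕ) : ℝ) * (g - κ) - n * (g * k / 8)))
        + (Real.exp 1 * (((n * k : ℕ) : ℝ) * κ) / (g * k / 8)) ^ ((g * k / 8) / b)
      ≤ Real.exp (-(g / 8 * (n * k)) - lam * k) / 2
        + Real.exp (-(g / 8 * (n * k)) - lam * k) / 2 := add_le_add hA hB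
    _ = Real.exp (-(g / 8 * (n * k))) * Real.exp (-(lam * k)) := by
        rw [← Real.exp_add]; ring_nf
    _ ≤ (1 - g / 16) ^ (n * k) * Real.exp (-(lam * k)) := by gcongr

/-- **K-set bound, abstract final form.**  For `g ∈ (0,1]`, `lam ≥ 0`, `b > 0` there are `n, κ0`
such that: whenever `k` environment functionals `s 0, .., s (k-1)` on `(Ω', Q)` and `n*k` sequential
walkers on `(Ω, P)` satisfy the walker-side hypotheses with capacity mean `κ ≤ κ0`, then
`Q (∀ l < k, s l ≤ g/16) ≤ exp (-lam k)`. Walker `i` starts in cell `i % k`. -/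
theorem kset_bound {g lam b : ℝ} (hg : 0 < g) (hg1 : g ≤ 1) (hlam : 0 ≤ lam) (hb : 0 < b) :
    ∃ n : ℕ, 0 < n ∧ ∃ κ0 : ℝ, 0 < κ0 ∧ ∀ κ : ℝ, 0 < κ → κ ≤ κ0 → ∀ k : ℕ, 0 < k →
      ∀ {Ω Ω' : Type*} {m0 : MeasurableSpace Ω} {m1 : MeasurableSpace Ω'}
        (P : Measure Ω) [IsProbabilityMeasure P] (Q : Measure Ω')
        (F : Filtration ℕ m0) (Suc : ℕ → Set Ω) (A c : ℕ → Ω → ℝ) (s : ℕ → Ω' → ℝ≥0∞)
        (_ : ∀ i < n * k, MeasurableSet[F (i + 1)] (Suc i))
        (_ : ∀ i < n * k, Measurable[F (i + 1)] (A i))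
        (_ : ∀ i < n * k, ∀ ω, 0 ≤ A i ω) (_ : ∀ i < n * k, ∀ ω, A i ω ≤ b)
        (_ : ∀ i < n * k, ∀ B, MeasurableSet[F i] B →
          ∫⁻ ω in B, ENNReal.ofReal (A i ω) ∂P ≤ ENNReal.ofReal κ * P B)
        (_ : ∀ i < n * k, Measurable[F i] (c i)) (_ : ∀ i < n * k, ∀ ω, 0 ≤ c i ω)
        (_ : ∀ ω, ∑ i ∈ range (n * k), c i ω ≤ n * ∑ i ∈ range (n * k), A i ω)
        (_ : ∀ i < n * k, ∀ B, MeasurableSet[F i] B →
          ENNReal.ofReal g * P B ≤ P (B ∩ Suc i) + (∫⁻ ω in B, ENNReal.ofReal (c i ω) ∂P)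
            + ENNReal.ofReal κ * P B)
        (_ : ∀ l < k, Measurable (s l))
        (_ : ∫⁻ ω', ∏ i ∈ range (n * k), (1 - s (i % k) ω') ∂Q
          ≤ P (⋂ i ∈ range (n * k), (Suc i)ᶜ)),
        Q {ω' | ∀ l < k, s l ω' ≤ ENNReal.ofReal (g / 16)}
          ≤ ENNReal.ofReal (Real.exp (-(lam * k))) := by
  obtain ⟨n, hn, κ0, hκ0, H⟩ := kset_numbers hg hg1 hlam hb
  refine ⟨n, hn, κ0, hκ0, fun κ hκ hκle k hk Ω Ω' m0 m1 P _ Q F Suc A c s hS hA h0 h1 hAc hc hc0
    hcA hSc hs hlink => ?_⟩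
  obtain ⟨Ha, Hb⟩ := H κ hκ hκle k hk
  have hN : 0 < n * k := Nat.mul_pos hn hk
  have h := kset_all_fail_le P F (n * k) hN Suc A c hb hκ (Nat.cast_nonneg n) hS hA h0 h1 hAc hc
    hc0 hcA hg.le hg1 hSc Ha
  have hbl := blocked_le Q (n * k) (fun i => s (i % k))
    (fun i _ => hs _ (Nat.mod_lt _ hk)) (ENNReal.ofReal (g / 16))
  have hsub : {ω' | ∀ l < k, s l ω' ≤ ENNReal.ofReal (g / 16)}
      ⊆ {ω' | ∀ i < n * k, s (i % k) ω' ≤ ENNReal.ofReal (g / 16)} :=
    fun ω' hω' i _ => hω' _ (Nat.mod_lt _ hk)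
  have e1 : (1 - ENNReal.ofReal (g / 16)) ^ (n * k)
      = ENNReal.ofReal ((1 - g / 16) ^ (n * k)) := by
    rw [ENNReal.ofReal_pow (by linarith), ENNReal.ofReal_sub _ (by positivity),
      ENNReal.ofReal_one]
  have hpos : (0 : ℝ) < (1 - g / 16) ^ (n * k) := pow_pos (by linarith) _
  have hfinal : Q {ω' | ∀ l < k, s l ω' ≤ ENNReal.ofReal (g / 16)}
      * ENNReal.ofReal ((1 - g / 16) ^ (n * k))
      ≤ ENNReal.ofReal ((1 - g / 16) ^ (n * k) * Real.exp (-(lam * k))) := by
    rw [← e1]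
    refine (mul_le_mul' (measure_mono hsub) le_rfl).trans (hbl.trans (hlink.trans (h.trans ?_)))
    rw [← ENNReal.ofReal_add (Real.exp_pos _).le (by positivity)]
    exact ENNReal.ofReal_le_ofReal Hb
  rw [ENNReal.ofReal_mul hpos.le, mul_comm (ENNReal.ofReal ((1 - g / 16) ^ (n * k)))] at hfinal
  have hne : ENNReal.ofReal ((1 - g / 16) ^ (n * k)) ≠ 0 := by
    simpa using hpos
  exact (ENNReal.mul_le_mul_iff_left hne ENNReal.ofReal_ne_top).1 hfinal

end Crest.Agent.R154.KSet
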