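import Crest.Agent.R154.RatioA_872
import Crest.Agent.R154.Comp_402

/-! Row 154, B8, step (R) of the composition, part 2: sequence of attempts, and the field `R` of
402's `Comp.Proc`. -/

set_option autoImplicit false
set_option linter.unusedSectionVars false
set_option linter.deprecated false

namespace Crest.Agent.R154.RatioR872

open MeasureTheory ProbabilityTheory Set Filter
open scoped ENNReal

namespace KerSys

variable {S : Type*} [Countable S] {Ω : Type*} {m0 : MeasurableSpace Ω} {P : Measure Ω}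
variable (A : KerSys S P)

/-- start law -/
structure Start (μ : S → ℝ≥0∞) : Prop where
  one : ∑' x, μ x = 1
  supp : ∀ x, x ∉ A.L 0 → μ x = 0

/-- quenched mass of the natural climb to height `h` from the start law `μ`. -/
noncomputable def Sh (μ : S → ℝ≥0∞) (h : ℕ) (ω : Ω) : ℝ≥0∞ := tot (A.push 0 h fun _ => μ) ω

variable {A}

lemma Start.wt {μ : S → ℝ≥0∞} (hμ : A.Start μ) : A.Wt 0 (fun _ => μ) where
  meas _ := @measurable_const _ _ _ (A.F 0) _
  supp _ x hx := hμ.supp x hx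

lemma Sh_le_one {μ : S → ℝ≥0∞} (hμ : A.Start μ) (h : ℕ) (ω : Ω) : A.Sh μ h ω ≤ 1 := by
  refine (A.tot_push_le (Nat.zero_le h) _ ω).trans ?_
  rw [tot, hμ.one]

lemma Sh_anti {μ : S → ℝ≥0∞} {h h' : ℕ} (hh : h ≤ h') (ω : Ω) : A.Sh μ h' ω ≤ A.Sh μ h ω := by
  unfold Sh
  rw [tot_push, tot_push]
  refine ENNReal.tsum_le_tsum fun x => ?_
  gcongr
  exact A.anti 0 h h' ω x (Nat.zero_le h) hh

lemma meas_Sh {μ : S → ℝ≥0∞} (hμ : A.Start μ) (h : ℕ) : Measurable[A.F h] (A.Sh μ h) :=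
  (hμ.wt.push (Nat.zero_le h)).meas_tot

/-- exit law at level `h` -/
noncomputable def exitW (A : KerSys S P) (μ : S → ℝ≥0∞) (h : ℕ) (ω : Ω) (y : S) : ℝ≥0∞ :=
  A.push 0 h (fun _ => μ) ω y / A.Sh μ h ω

lemma wt_exitW {μ : S → ℝ≥0∞} (hμ : A.Start μ) (h : ℕ) : A.Wt h (A.exitW μ h) where
  meas y := ((hμ.wt.push (Nat.zero_le h)).meas y).div (meas_Sh hμ h)
  supp ω y hy := by
    unfold exitW
    rw [(hμ.wt.push (Nat.zero_le h)).supp ω y hy, ENNReal.zero_div]

lemma tot_exitW (μ : S → ℝ≥0∞) (h : ℕ) (ω : Ω) :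
    tot (A.exitW μ h) ω = A.Sh μ h ω / A.Sh μ h ω := by
  unfold tot exitW
  simp_rw [ENNReal.div_eq_inv_mul]
  rw [ENNReal.tsum_mul_left]
  rfl

lemma tot_exitW_le (μ : S → ℝ≥0∞) (h : ℕ) (ω : Ω) : tot (A.exitW μ h) ω ≤ 1 := by
  rw [tot_exitW]
  exact ENNReal.div_self_le_one

lemma tot_exitW_eq {μ : S → ℝ≥0∞} (hμ : A.Start μ) (h : ℕ) (ω : Ω) (h0 : A.Sh μ h ω ≠ 0) :
    tot (A.exitW μ h) ω = 1 := by
  rw [tot_exitW]
  exact ENNReal.div_self h0 (ne_top_of_le_ne_top ENNReal.one_ne_top (Sh_le_one hμ h ω))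

lemma mul_exitW {μ : S → ℝ≥0∞} (hμ : A.Start μ) (h : ℕ) (ω : Ω) (y : S) :
    A.Sh μ h ω * A.exitW μ h ω y = A.push 0 h (fun _ => μ) ω y := by
  unfold exitW
  by_cases h0 : A.Sh μ h ω = 0
  · rw [h0, zero_mul]
    have : A.push 0 h (fun _ => μ) ω y ≤ A.Sh μ h ω := ENNReal.le_tsum y
    rw [h0] at this
    exact (le_antisymm this (zero_le)).symm
  · exact ENNReal.mul_div_cancel h0
      (ne_top_of_le_ne_top ENNReal.one_ne_top (Sh_le_one hμ h ω))

/-- the composition inequality for the masses -/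
lemma Sh_ge {μ : S → ℝ≥0∞} (hμ : A.Start μ) {a b c : ℕ} (hab : a ≤ b) (hbc : b ≤ c) :
    ∀ᵐ ω ∂P, A.Sh μ a ω * tot (A.push b c (A.push a b (A.exitW μ a))) ω ≤ A.Sh μ c ω := by
  filter_upwards [A.comp 0 a b (Nat.zero_le _) hab, A.comp 0 b c (Nat.zero_le _) hbc]
    with ω h1 h2
  have e1 : ∀ y, A.Sh μ a ω * A.push a b (A.exitW μ a) ω y ≤ A.push 0 b (fun _ => μ) ω y := by
    intro y
    calc A.Sh μ a ω * A.push a b (A.exitW μ a) ω y
        = ∑' x, A.push 0 a (fun _ => μ) ω x * A.G a b ω x y := by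
          unfold push
          rw [← ENNReal.tsum_mul_left]
          refine tsum_congr fun x => ?_
          rw [← mul_assoc, mul_exitW hμ]
          rfl
      _ = ∑' x, ∑' x0, μ x0 * (A.G 0 a ω x0 x * A.G a b ω x y) := by
          refine tsum_congr fun x => ?_
          unfold push
          rw [← ENNReal.tsum_mul_right]
          exact tsum_congr fun x0 => by ring
      _ = ∑' x0, μ x0 * ∑' x, (A.G 0 a ω x0 x * A.G a b ω x y) := by
          rw [ENNReal.tsum_comm]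
          exact tsum_congr fun x0 => ENNReal.tsum_mul_left
      _ ≤ ∑' x0, μ x0 * A.G 0 b ω x0 y := by
          refine ENNReal.tsum_le_tsum fun x0 => ?_
          gcongr
          exact h1 x0 y
      _ = _ := rfl
  have e2 : ∀ z, ∑' y, A.push 0 b (fun _ => μ) ω y * A.G b c ω y z
      ≤ A.push 0 c (fun _ => μ) ω z := by
    intro z
    calc ∑' y, A.push 0 b (fun _ => μ) ω y * A.G b c ω y z
        = ∑' y, ∑' x0, μ x0 * (A.G 0 b ω x0 y * A.G b c ω y z) := by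
          refine tsum_congr fun x => ?_
          unfold push
          rw [← ENNReal.tsum_mul_right]
          exact tsum_congr fun x0 => by ring
      _ = ∑' x0, μ x0 * ∑' y, (A.G 0 b ω x0 y * A.G b c ω y z) := by
          rw [ENNReal.tsum_comm]
          exact tsum_congr fun x0 => ENNReal.tsum_mul_left
      _ ≤ ∑' x0, μ x0 * A.G 0 c ω x0 z := by
          refine ENNReal.tsum_le_tsum fun x0 => ?_
          gcongr
          exact h2 x0 z
      _ = _ := rfl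
  calc A.Sh μ a ω * tot (A.push b c (A.push a b (A.exitW μ a))) ω
      = ∑' z, ∑' y, (A.Sh μ a ω * A.push a b (A.exitW μ a) ω y) * A.G b c ω y z := by
        unfold tot
        rw [← ENNReal.tsum_mul_left]
        refine tsum_congr fun z => ?_
        conv_lhs => rw [push]
        rw [← ENNReal.tsum_mul_left]
        exact tsum_congr fun y => by ring
    _ ≤ ∑' z, ∑' y, A.push 0 b (fun _ => μ) ω y * A.G b c ω y z := by
        refine ENNReal.tsum_le_tsum fun z => ENNReal.tsum_le_tsum fun y => ?_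
        gcongr
        exact e1 y
    _ ≤ ∑' z, A.push 0 c (fun _ => μ) ω z := ENNReal.tsum_le_tsum e2
    _ = A.Sh μ c ω := rfl

/-- sequential attempts -/
lemma all_fail [IsProbabilityMeasure P] (F : Filtration ℕ m0) (lv : ℕ → ℕ) (hlv : Monotone lv)
    (E : ℕ → Set Ω) (hE : ∀ j, MeasurableSet[F (lv (j + 1))] (E j)) {q : ℝ≥0∞}
    (T : ℕ) (hq : ∀ j, j < T → ∀ B, MeasurableSet[F (lv j)] B → q * P B ≤ P (B ∩ E j))
    {B : Set Ω} (hB : MeasurableSet[F (lv 0)] B) :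
    ∀ j, j ≤ T → MeasurableSet[F (lv j)] (B ∩ ⋂ l ∈ Finset.range j, (E l)ᶜ) ∧
      P (B ∩ ⋂ l ∈ Finset.range j, (E l)ᶜ) ≤ (1 - q) ^ j * P B := by
  intro j
  induction j with
  | zero => intro _; simpa using hB
  | succ j ih =>
    intro hj
    obtain ⟨h1, h2⟩ := ih (by omega)
    set D := B ∩ ⋂ l ∈ Finset.range j, (E l)ᶜ with hD
    have hset : B ∩ ⋂ l ∈ Finset.range (j + 1), (E l)ᶜ = D \ E j := by
      ext ω
      simp only [hD, mem_inter_iff, mem_iInter, Finset.mem_range, mem_compl_iff, Set.mem_sdiff]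
      constructor
      · rintro ⟨hb, h⟩
        exact ⟨⟨hb, fun l hl => h l (by omega)⟩, h j (by omega)⟩
      · rintro ⟨⟨hb, h⟩, hj'⟩
        refine ⟨hb, fun l hl => ?_⟩
        rcases Nat.lt_succ_iff_lt_or_eq.1 hl with h' | h'
        · exact h l h'
        · rw [h']; exact hj'
    rw [hset]
    have hD' : MeasurableSet[F (lv (j + 1))] D := F.mono (hlv (Nat.le_succ j)) _ h1
    refine ⟨hD'.diff (hE j), ?_⟩
    have h3 := hq j (by omega) D h1
    have hEm : MeasurableSet (E j) := F.le _ _ (hE j)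
    have h4 : P (D \ E j) + P (D ∩ E j) = P D := by
      rw [add_comm]; exact measure_inter_add_sdiff D hEm
    have h5 : P (D \ E j) ≤ (1 - q) * P D := by
      have hfin : q * P D ≠ ∞ := ne_top_of_le_ne_top (measure_ne_top _ _) h3
      have h6 : P (D \ E j) + q * P D ≤ P D := by
        calc _ ≤ P (D \ E j) + P (D ∩ E j) := by gcongr
          _ = P D := h4
      rw [ENNReal.sub_mul (fun _ _ => measure_ne_top _ _), one_mul]
      exact ENNReal.le_sub_of_add_le_right hfin h6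
    calc P (D \ E j) ≤ (1 - q) * P D := h5
      _ ≤ (1 - q) * ((1 - q) ^ j * P B) := by gcongr
      _ = (1 - q) ^ (j + 1) * P B := by ring

/-- the input from the same-environment contact bound (B6, `late_lim`): for a fixed ratio, the pair
energy of the exit law of a natural climb is small, uniformly in the pair of start sites. -/
def SmallEnergy (A : KerSys S P) (n0 : ℕ → ℝ≥0∞ → ℕ) : Prop :=
  ∀ r : ℕ, ∀ ε : ℝ≥0∞, ε ≠ 0 → ∀ n, n0 r ε ≤ n → ∀ a c, a + n ≤ c → c ≤ a + r * n →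
    ∀ x ∈ A.L a, ∀ x' ∈ A.L a,
      ∑' z, ∑' z', (∫⁻ ω, A.G a (a + n) ω x z * A.G a (a + n) ω x' z' ∂P)
        * A.K (a + n) c z z' ≤ ε

/-- the probabilistic core: in `[H,10H]` some exit law continues with mass `≥ p²/4` to `10^k H`. -/
lemma core [IsProbabilityMeasure P] {p : ℝ≥0∞} (hp0 : p ≠ 0)
    (hp : ∀ n, p ≤ A.h n) (hh : ∀ n, A.h n ≤ 1)
    (hpos : ∀ μ, A.Start μ → ∀ h, ∀ᵐ ω ∂P, A.Sh μ h ω ≠ 0)
    {ε : ℝ≥0∞} {T r n0 : ℕ} (hT : 0 < T)
    (hLC : ∀ n, n0 ≤ n → ∀ a c, a + n ≤ c → c ≤ a + r * n →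
      ∀ x ∈ A.L a, ∀ x' ∈ A.L a,
      ∑' z, ∑' z', (∫⁻ ω, A.G a (a + n) ω x z * A.G a (a + n) ω x' z' ∂P)
        * A.K (a + n) c z z' ≤ ε)
    {H k : ℕ} (hk : 1 ≤ k) (hH : T * (n0 + 1) ≤ H) (hr : 10 ^ k * T ≤ r)
    {μ : S → ℝ≥0∞} (hμ : A.Start μ) {B : Set Ω} (hB : MeasurableSet[A.F H] B) :
    P (B ∩ {ω | A.Sh μ (10 ^ k * H) ω < p ^ 2 / 4 * A.Sh μ (10 * H) ω})
      ≤ ((1 - p / 2) ^ T + T * (16 * ε / p ^ 4)) * P B := by
  set n : ℕ := H / T with hn
  have hnT : n * T ≤ H := Nat.div_mul_le_self H T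
  have hn0 : n0 + 1 ≤ n := (Nat.le_div_iff_mul_le hT).2 (by rw [mul_comm]; exact hH)
  have hHn : H < (n + 1) * T := by
    rw [hn, mul_comm]
    exact Nat.lt_mul_div_succ H hT
  have hHn2 : H ≤ 2 * (n * T) := by nlinarith
  -- use steps of height `2n` so that `H ≤ (2n) T`
  set n' : ℕ := 2 * n with hn'
  have hn'T : n' * T ≤ 2 * H := by rw [hn']; nlinarith
  have hn'H : H ≤ n' * T := by rw [hn']; nlinarith
  set lv : ℕ → ℕ := fun j => H + j * n' with hlv
  have hlvm : Monotone lv := fun i j hij => by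
    simp only [hlv]
    exact Nat.add_le_add_left (Nat.mul_le_mul_right _ hij) _
  have hlv0 : lv 0 = H := by simp [hlv]
  have hlvs : ∀ j, lv (j + 1) = lv j + n' := fun j => by simp only [hlv]; ring
  have hlvT : ∀ j, j ≤ T → lv j ≤ 10 * H := by
    intro j hj
    simp only [hlv]
    have : j * n' ≤ T * n' := Nat.mul_le_mul_right _ hj
    nlinarith
  set c : ℕ := 10 ^ k * H with hc
  have h10 : 10 * H ≤ c := by
    rw [hc]
    refine Nat.mul_le_mul_right _ ?_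
    calc 10 = 10 ^ 1 := (pow_one _).symm
      _ ≤ 10 ^ k := Nat.pow_le_pow_right (by norm_num) hk
  have hcr : ∀ a, c ≤ a + r * n' := by
    intro a
    calc c = 10 ^ k * H := rfl
      _ ≤ 10 ^ k * (n' * T) := Nat.mul_le_mul_left _ hn'H
      _ = 10 ^ k * T * n' := by ring
      _ ≤ r * n' := Nat.mul_le_mul_right _ hr
      _ ≤ a + r * n' := Nat.le_add_left _ _
  set w : ℕ → Ω → S → ℝ≥0∞ := fun j => A.exitW μ (lv j) with hw
  set E : ℕ → Set Ω := fun j => {ω | p / 2 ≤ tot (A.push (lv j) (lv (j + 1)) (w j)) ω} with hE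
  set Bd : ℕ → Set Ω := fun j => {ω | p / 2 ≤ tot (A.push (lv j) (lv (j + 1)) (w j)) ω ∧
    tot (A.push (lv (j + 1)) c (A.push (lv j) (lv (j + 1)) (w j))) ω < p ^ 2 / 4} with hBd
  have hw1 : ∀ j, ∀ᵐ ω ∂P, tot (w j) ω = 1 := by
    intro j
    filter_upwards [hpos μ hμ (lv j)] with ω hω
    exact tot_exitW_eq hμ _ ω hω
  have hwW : ∀ j, A.Wt (lv j) (w j) := fun j => wt_exitW hμ _
  have hwl : ∀ j ω, tot (w j) ω ≤ 1 := fun j ω => tot_exitW_le μ _ ω
  have hEm : ∀ j, MeasurableSet[A.F (lv (j + 1))] (E j) := by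
    intro j
    have hm := ((hwW j).push (hlvm (Nat.le_succ j))).meas_tot
    exact @measurableSet_le _ _ _ _ _ (A.F (lv (j + 1))) _ _ _ _ _
      (@measurable_const _ _ _ (A.F (lv (j + 1))) _) hm
  have h1 := (all_fail (P := P) A.F lv hlvm E hEm (q := p / 2) T (fun j _ B hB =>
    good_prob (hlvm (Nat.le_succ j)) (hwW j) (hw1 j) (hp _) (hwl j) hB)
    (B := B) (by rw [hlv0]; exact hB) T le_rfl).2
  have h2 : ∀ j, j < T → P (B ∩ Bd j) ≤ 16 * ε / p ^ 4 * P B := by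
    intro j hj
    refine bad_second (hlvm (Nat.le_succ j)) ((hlvT (j + 1) hj).trans h10) (hwW j) (hwl j) ?_
      (hh _) (hp _) hp0 (A.F.mono (by simp [hlv]) _ hB)
    rw [hlvs]
    refine hLC n' (by omega) (lv j) c ?_ (hcr _)
    rw [← hlvs]
    exact (hlvT (j + 1) hj).trans h10
  have hsub : (B ∩ {ω | A.Sh μ c ω < p ^ 2 / 4 * A.Sh μ (10 * H) ω} : Set Ω)
      ≤ᵐ[P] ((B ∩ ⋂ l ∈ Finset.range T, (E l)ᶜ) ∪ ⋃ j ∈ Finset.range T, (B ∩ Bd j) : Set Ω) := by
    have hall : ∀ᵐ ω ∂P, ∀ j ∈ Finset.range T, A.Sh μ (lv j) ω *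
        tot (A.push (lv (j + 1)) c (A.push (lv j) (lv (j + 1)) (A.exitW μ (lv j)))) ω
          ≤ A.Sh μ c ω := by
      rw [Finset.eventually_all]
      intro j hj
      exact Sh_ge hμ (hlvm (Nat.le_succ j))
        ((hlvT (j + 1) (Finset.mem_range.1 hj)).trans h10)
    filter_upwards [hall] with ω hω
    rintro ⟨hωB, hωS⟩
    by_contra hcon
    have hcon' : ¬ ((ω ∈ B ∩ ⋂ l ∈ Finset.range T, (E l)ᶜ) ∨
        (ω ∈ ⋃ j ∈ Finset.range T, (B ∩ Bd j))) := hcon
    rw [not_or] at hcon'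
    obtain ⟨hc1, hc2⟩ := hcon'
    have hc3 : ∃ l ∈ Finset.range T, ω ∈ E l := by
      by_contra h
      refine hc1 ⟨hωB, ?_⟩
      simp only [mem_iInter, mem_compl_iff]
      intro l hl hE'
      exact h ⟨l, hl, hE'⟩
    obtain ⟨l, hl, hEl⟩ := hc3
    have hBl : ω ∉ Bd l := fun h => hc2 (mem_biUnion (by exact_mod_cast hl) ⟨hωB, h⟩)
    have hm : p ^ 2 / 4 ≤
        tot (A.push (lv (l + 1)) c (A.push (lv l) (lv (l + 1)) (w l))) ω := by
      by_contra h
      exact hBl ⟨hEl, not_le.1 h⟩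
    have h5 := hω l hl
    have h6 : A.Sh μ (10 * H) ω ≤ A.Sh μ (lv l) ω :=
      Sh_anti (hlvT l (Finset.mem_range.1 hl).le) ω
    have h7 : p ^ 2 / 4 * A.Sh μ (10 * H) ω ≤ A.Sh μ c ω := by
      calc p ^ 2 / 4 * A.Sh μ (10 * H) ω ≤
            tot (A.push (lv (l + 1)) c (A.push (lv l) (lv (l + 1)) (w l))) ω * A.Sh μ (lv l) ω := by
            gcongr
        _ = A.Sh μ (lv l) ω *
            tot (A.push (lv (l + 1)) c (A.push (lv l) (lv (l + 1)) (w l))) ω := mul_comm _ _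
        _ ≤ _ := h5
    exact absurd hωS (not_lt.2 h7)
  calc P (B ∩ {ω | A.Sh μ c ω < p ^ 2 / 4 * A.Sh μ (10 * H) ω})
      ≤ P ((B ∩ ⋂ l ∈ Finset.range T, (E l)ᶜ) ∪ ⋃ j ∈ Finset.range T, (B ∩ Bd j)) :=
        measure_mono_ae hsub
    _ ≤ P (B ∩ ⋂ l ∈ Finset.range T, (E l)ᶜ) + P (⋃ j ∈ Finset.range T, (B ∩ Bd j)) :=
        measure_union_le _ _
    _ ≤ (1 - p / 2) ^ T * P B + ∑ j ∈ Finset.range T, P (B ∩ Bd j) := by
        gcongr
        exact measure_biUnion_finset_le _ _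
    _ ≤ (1 - p / 2) ^ T * P B + ∑ j ∈ Finset.range T, (16 * ε / p ^ 4 * P B) := by
        gcongr with j hj
        exact h2 j (Finset.mem_range.1 hj)
    _ = _ := by
        rw [Finset.sum_const, Finset.card_range, nsmul_eq_mul]
        ring

end KerSys

end Crest.Agent.R154.RatioR872
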