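import Crest.Agent.R154.KerPair_872
import Crest.Agent.R154.RatioB_872
import Crest.Agent.R154.B4Inst_797

/-! Row 154, B8: positivity of the natural climbs (fields `hp`, `hpos` of the kernel system). -/

set_option autoImplicit false
set_option linter.unusedSectionVars false
set_option linter.deprecated false

namespace Crest.Agent.R154.RatioR872

open MeasureTheory ProbabilityTheory Set Filter Crest.ProbabilityR.RandomEnvironment
open Crest.Agent.R154.Ren263 hiding lev
open Crest.Agent.R154.Mk561 Crest.Agent.R154.Q561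
open Crest.Agent.R154.Flux132 (lev lev_add lev_neg lev_zero)
open scoped ENNReal

variable {d : ℕ} {Q : Measure (Environment d)} [IsProbabilityMeasure Q] {κ : ℝ} {R : ℕ}

lemma lev_stp (u : Step d) (m : Mark d) : lev u (stp m) = Bind263.zht u m := by
  obtain ⟨⟨i, s⟩, b⟩ := m
  obtain ⟨j, t⟩ := u
  simp only [lev, stp, Bind263.zht, stepVec]
  by_cases h : i = j
  · subst h
    simp only [Pi.single_eq_same, if_true]
    cases s <;> cases t <;> simp
  · have h0 : (Pi.single i (if s = true then (1 : ℤ) else -1) : Site d) j = 0 :=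
      Pi.single_eq_of_ne (Ne.symm h) _
    simp only [h0, h, if_false]
    simp

lemma lev_pos_eq (u : Step d) (x : Site d) (M : MPath d) (n : ℕ) :
    lev u (pos x M n) = lev u x + B4Inst797.zh u M n := by
  induction n with
  | zero => simp [pos_zero]
  | succ n ih => rw [pos_succ, lev_add, ih, B4Inst797.zh_succ, lev_stp, add_assoc]

lemma nat_hit_mem (u : Step d) {n k : ℕ} {s : MPath d} (h1 : s ∈ B4Inst797.Nat0 u R)
    (h2 : B4Inst797.Hit u n k s) : s ∈ ClM u R 0 n k := by
  have hl : ∀ i, lev u (pos 0 s i) = B4Inst797.zh u s i := fun i => by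
    rw [lev_pos_eq, lev_zero, zero_add]
  refine ⟨by rw [hl]; exact h2.1, fun i hi => by rw [hl]; exact h2.2 i hi, fun i _ hR => h1.1 i hR,
    fun i hR _ => ?_⟩
  rw [hl, lev_zero, zero_add]
  exact h1.2 i hR

/-- **hp**: the annealed natural climbs have probability bounded below -/
theorem exists_p (F : Bind263.Frame Q κ R) (u : Step d)
    (hA : annealedProb Q 0 (escapeEvent (B2d.dirVec u)) ≠ 0) :
    ∃ p : ℝ≥0∞, p ≠ 0 ∧ ∀ n, p ≤ hn u R κ Q n := by
  refine ⟨mkAnn κ Q 0 (B4Inst797.Nat0 u R), B4Inst797.nat_ne_zero F u hA, fun n => ?_⟩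
  calc mkAnn κ Q 0 (B4Inst797.Nat0 u R)
      ≤ mkAnn κ Q 0 (ClA u R 0 n ∪ (B4Inst797.Nat0 u R ∩ {s | ∀ k, ¬ B4Inst797.Hit u n k s})) := by
        refine measure_mono fun s hs => ?_
        by_cases hex : ∃ k, B4Inst797.Hit u n k s
        · obtain ⟨k, hk⟩ := hex
          exact Or.inl (mem_iUnion.2 ⟨k, nat_hit_mem u hs hk⟩)
        · exact Or.inr ⟨hs, fun k hk => hex ⟨k, hk⟩⟩
    _ ≤ mkAnn κ Q 0 (ClA u R 0 n)
        + mkAnn κ Q 0 (B4Inst797.Nat0 u R ∩ {s | ∀ k, ¬ B4Inst797.Hit u n k s}) :=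
        measure_union_le _ _
    _ = hn u R κ Q n := by rw [B4Inst797.nat_hit F u n, add_zero, hn]

/-- a letter `(u, b)` usable everywhere -/
lemma Bind263.Frame.exists_flag (F : Bind263.Frame Q κ R) (u : Step d) :
    ∃ b : Bool, (b = true ∨ R = 0) ∧ ∀ᵐ ω ∂Q, ∀ z : Site d, mw κ (ω z) (u, b) ≠ 0 := by
  by_cases hk : 0 < kf d κ
  · refine ⟨true, Or.inl rfl, Eventually.of_forall fun ω z => ?_⟩
    rw [mw_forced]
    simpa using hk
  · have hR : R = 0 := by
      rcases F.frc with h | h
      · exact h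
      · exact absurd h hk
    have h0 : kf d κ = 0 := le_antisymm (not_lt.1 hk) (kf_nonneg κ)
    refine ⟨false, Or.inr hR, ?_⟩
    filter_upwards [F.elp, F.ell] with ω h1 h2 z
    unfold mw
    rw [reg_eq (h2 z)]
    simp only [Bool.false_eq_true, if_false, h0, sub_zero]
    simpa using h1 z u

lemma cy_subset_ClA (u : Step d) (R : ℕ) {b : Bool} (hb : b = true ∨ R = 0) (x : Site d)
    (h : ℕ) : Cy (fun _ => ((u, b) : Mark d)) h ⊆ ClM u R x (lev u x + h) h := by
  intro M hM
  have hup : ∀ k, k ≤ h → lev u (pos x M k) = lev u x + k := by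
    intro k
    induction k with
    | zero => intro _; simp [pos_zero]
    | succ k ih =>
      intro h1
      have e1 := ih (by omega)
      have e2 : M k = (u, b) := hM k (by omega)
      rw [pos_succ, lev_add, e1, e2]
      have : lev u (stp ((u, b) : Mark d)) = 1 := Flux132.lev_step_self u
      rw [this]
      push_cast
      ring
  refine ⟨hup h le_rfl, fun i hi => ?_, fun i hi hiR => ?_, fun i hR hi => ?_⟩
  · rw [hup i hi.le]; omega
  · rcases hb with hb | hb
    · rw [hM i hi, hb]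
    · omega
  · rw [hup i hi]; omega

/-- **hpos**, quenched: a.s. the natural climb from every site has positive quenched mass -/
theorem ae_climb_pos (F : Bind263.Frame Q κ R) (u : Step d) :
    ∀ᵐ ω ∂Q, ∀ (x : Site d) (h : ℕ), mkLaw κ ω x (ClA u R x (lev u x + h)) ≠ 0 := by
  obtain ⟨b, hb, hw⟩ := Bind263.Frame.exists_flag F u
  filter_upwards [hw] with ω hω x h
  refine fun h0 => ?_
  have h1 : mkLaw κ ω x (Cy (fun _ => ((u, b) : Mark d)) h) = 0 :=
    measure_mono_null ((cy_subset_ClA u R hb x h).trans (subset_iUnion _ h)) h0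
  rw [mk_cyl, wgt, Finset.prod_eq_zero_iff] at h1
  obtain ⟨i, _, hi⟩ := h1
  exact hω _ hi

/-- **hpos** for the kernel system -/
theorem kS_hpos (F : Bind263.Frame Q κ R) (u : Step d) (μ : Site d → ℝ≥0∞)
    (hμ : (kS u R κ Q F.stat F.fin).Start μ) (h : ℕ) :
    ∀ᵐ ω ∂Q, (kS u R κ Q F.stat F.fin).Sh μ h ω ≠ 0 := by
  obtain ⟨x, hx⟩ : ∃ x, μ x ≠ 0 := by
    by_contra hcon
    push Not at hcon
    have h1 := hμ.one
    simp [hcon] at h1
  have hx0 : lev u x = 0 := by
    by_contra hne
    exact hx (hμ.supp x hne)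
  filter_upwards [ae_climb_pos F u] with ω hω hS
  unfold KerSys.Sh at hS
  rw [KerSys.tot_push] at hS
  have h2 := ENNReal.tsum_eq_zero.1 hS x
  rcases mul_eq_zero.1 h2 with h3 | h3
  · exact hx h3
  · have e : ∑' y, (kS u R κ Q F.stat F.fin).G 0 h ω x y = mkLaw κ ω x (ClA u R x h) := by
      have : ∀ y, (kS u R κ Q F.stat F.fin).G 0 h ω x y = gk u R κ h ω x y := by
        intro y
        have hx0' : lev u x = ((0 : ℕ) : ℤ) := by simpa using hx0
        simp only [kS, kerSys, hx0', if_true]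
      simp_rw [this]
      exact tsum_gk u R κ h ω x
    have h3' : ∑' y, (kS u R κ Q F.stat F.fin).G 0 h ω x y = 0 := h3
    rw [e] at h3'
    have := hω x h
    rw [hx0, zero_add] at this
    exact this h3'

end Crest.Agent.R154.RatioR872
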