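import Crest.Agent.R154.B6Mv_816
import Crest.Agent.R154.KerP_561

/-! R154 block B6: the input `hp : 0 < pp` of helper833's theorem B6 (helper816). -/

set_option autoImplicit false

open MeasureTheory ProbabilityTheory Filter Set
open scoped ENNReal Topology

namespace Crest.Agent.R154.B6P816

open Crest.Agent.R154.B6I

open Crest.ProbabilityR.RandomEnvironment Crest.Agent.R154.Mk561

variable {d : ℕ} {κ : ℝ} {Q : Measure (Environment d)} [IsProbabilityMeasure Q] {R : ℕ}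
  {u : Step d}

lemma zt_eq_zh (u : Step d) (s : MPath d) (n : ℕ) : zt u s n = B4Inst797.zh u s n := by
  unfold zt B4Inst797.zh
  exact Finset.sum_congr rfl fun i _ => RatioR872.lev_stp u (s i)

lemma nat0_nt {s : MPath d} (h : s ∈ B4Inst797.Nat0 u R) {n k : ℕ}
    (hk : B4Inst797.Hit u n k s) : Nt u R 0 n s := by
  refine ⟨0, k, hit_zero s, ⟨?_, fun i hi => ?_⟩, fun i _ hi => ⟨fun hR => ?_, fun hR => ?_⟩⟩
  · rw [zt_eq_zh]; exact hk.1
  · rw [zt_eq_zh]; exact hk.2 i hi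
  · exact h.1 i (by omega)
  · rw [zt_eq_zh]
    have := h.2 i (by omega)
    push_cast
    linarith

/-- **hp**: one walker is natural for ever with positive probability. -/
theorem pp_pos (F : Bind263.Frame Q κ R) (u : Step d)
    (hA : annealedProb Q 0 (escapeEvent (B2d.dirVec u)) ≠ 0) : 0 < pp u R κ Q := by
  unfold pp
  rw [Measure.real, ENNReal.toReal_pos_iff]
  refine ⟨?_, measure_lt_top _ _⟩
  rw [pos_iff_ne_zero]
  intro h0
  refine B4Inst797.nat_ne_zero F u hA ?_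
  have h1 : mkAnn κ Q 0 (⋃ l : ℕ, (B4Inst797.Nat0 u R ∩ {s | ∀ n, ¬ B4Inst797.Hit u l n s})) = 0 := by
    rw [measure_iUnion_null_iff]
    exact fun l => B4Inst797.nat_hit F u l
  refine measure_mono_null (t := {M | ∀ m, Nt u R 0 m M} ∪
    ⋃ l : ℕ, (B4Inst797.Nat0 u R ∩ {s | ∀ n, ¬ B4Inst797.Hit u l n s})) ?_
    (measure_union_null h0 h1)
  intro s hs
  by_cases hex : ∃ l, ∀ n, ¬ B4Inst797.Hit u l n s
  · obtain ⟨l, hl⟩ := hex
    exact Or.inr (mem_iUnion.2 ⟨l, hs, hl⟩)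
  · push Not at hex
    refine Or.inl fun m => ?_
    obtain ⟨k, hk⟩ := hex m
    exact nat0_nt hs hk

/-- **THEOREM B6, all inputs but KB closed** (`d ≥ 2`, every frame). -/
theorem B6_frame (F : Bind263.Frame Q κ R) (hd : 2 ≤ d) (u : Step d)
    (hA : annealedProb Q 0 (escapeEvent (B2d.dirVec u)) ≠ 0) (hKB : KB u R κ Q) (C : ℕ) :
    ∀ ε > (0:ℝ), ∃ n₀ : ℕ, ∀ n ≥ n₀, ∀ s : SP u,
      ∫⁻ p in {p : PP d | Nt u R 0 n p.1 ∧ Nt u R 0 n p.2}, XE R κ Q (C*n) (tip n s p)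
        ∂(PSm κ Q s.1.1 s.1.2) ≤ ENNReal.ofReal ε :=
  B6_lintegral F.stat F.fin (moves_of_two_le F hd u) (pp_pos F u hA) hKB C

end Crest.Agent.R154.B6P816
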