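import Crest.Agent.R154.KB_424
import Crest.Agent.R154.B6Fin_833

/-! Row 154, B4 (helper424): 833's literal `KB` from the frame and the trunk input. -/

set_option autoImplicit false
set_option linter.unusedVariables false
set_option linter.unusedSectionVars false

open MeasureTheory ProbabilityTheory Filter Set
open scoped ENNReal Topology

namespace Crest.Agent.R154.KB424

open Crest.ProbabilityR.RandomEnvironment Crest.Agent.R154.Q561 Crest.Agent.R154.Ren263
open Crest.Agent.R154.Mk561 Crest.Agent.R154.B6I Crest.Agent.R154.Cont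

variable {d : ℕ} {u : Step d} {R : ℕ} {κ : ℝ} {Q : Measure (Environment d)}
  [IsProbabilityMeasure Q]

lemma zht_eq (u : Step d) (m : Mark d) : ((Flux132.lev u (stp m) : ℤ) : ℝ) = mht (B2d.dirVec u) m := by
  rw [RatioR872.lev_stp, Bind263.mht_dirVec]

lemma hgt_eq_zt (u : Step d) (M : MPath d) (n : ℕ) : hgt (mht (B2d.dirVec u)) M n = (zt u M n : ℝ) := by
  unfold Ren263.hgt zt
  push_cast
  exact Finset.sum_congr rfl fun i _ => (zht_eq u (M i)).symm

lemma NS_eq_stay (u : Step d) : NS u = Ren263.Stay (mht (B2d.dirVec u)) := by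
  ext M
  simp only [NS, Ren263.Stay, Set.mem_ofPred_eq, hgt_eq_zt]
  refine forall_congr' fun n => ?_
  exact_mod_cast Iff.rfl

/-- lower bound of unforced weights, relative to the row -/
def Half (κ : ℝ) (Q : Measure (Environment d)) : Prop :=
  ∃ c : ℝ, 0 < c ∧ ∀ᵐ ω ∂Q, ∀ (z : Site d) (e : Step d), c * (ω z).1 e ≤ (ω z).1 e - kf d κ

/-- no coins -/
lemma half_zero (Q : Measure (Environment d)) : Half 0 Q :=
  ⟨1, one_pos, Filter.Eventually.of_forall fun ω z e => by rw [kf_zero]; linarith⟩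

/-- **KB in the frame, from the trunk input.** -/
theorem kb_frame (F : Bind263.Frame Q κ R) (hA : annealedProb Q 0 (escapeEvent (B2d.dirVec u)) ≠ 0)
    (hc : Half κ Q) (hT : Trunk u κ Q) : B6I.KB u R κ Q := by
  refine KB_of_PS fun ε hε => ?_
  have hp : mkAnn κ Q 0 (NS u) ≠ 0 := by
    rw [NS_eq_stay]
    exact F.hp (B2d.dirVec u) hA
  exact KB_real F.stat F.fin F.frc F.ell hc hp hT ε hε

/-- **UE with constant `κ'`: the frame with coins `κ'/2` satisfies `Half`.** -/
theorem frame_half {κ' : ℝ} (hκ : 0 < κ')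
    (hstat : ∀ z : Site d, MeasurePreserving (shiftEnv z) Q Q)
    (hell : ∀ᵐ ω ∂Q, ∀ (x : Site d) (e : Step d), κ' ≤ (ω x).1 e)
    (hR : IsFiniteRangeDependent Q R) :
    Bind263.Frame Q (κ' / 2) R ∧ kf d (κ' / 2) = κ' / 2 ∧ Half (κ' / 2) Q := by
  have h2 : ∀ᵐ ω ∂Q, ∀ (x : Site d) (e : Step d), κ' / 2 ≤ (ω x).1 e := by
    filter_upwards [hell] with ω hω x e
    linarith [hω x e]
  have hk := Bind263.kf_eq_of_ell (half_pos hκ) h2
  refine ⟨Bind263.frame_ue hstat (half_pos hκ) h2 hR, hk, 1 / 2, by norm_num, ?_⟩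
  filter_upwards [hell] with ω hω z e
  rw [hk]
  linarith [hω z e]

end Crest.Agent.R154.KB424
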