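import Crest.Agent.R154.JBind4_132
import Crest.Agent.R154.KBEnd_424
import Crest.Agent.R154.B6P_816

/-! Row 154 (helper424): THEOREM B6 with no open input, every frame with half coins, `d ≥ 3`. -/

set_option autoImplicit false
set_option linter.unusedVariables false

open MeasureTheory ProbabilityTheory Filter Set
open scoped ENNReal Topology

namespace Crest.Agent.R154.KB424

open Crest.ProbabilityR.RandomEnvironment Crest.Agent.R154.Mk561
open Crest.Agent.R154.B6I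

variable {d : ℕ} {Q : Measure (Environment d)} [IsProbabilityMeasure Q] {κ : ℝ} {R : ℕ}
  {u : Step d}

/-- two lateral directions -/
lemma lateral (hd : 3 ≤ d) (i : Fin d) : ∃ i1 i2 : Fin d, i1 ≠ i ∧ i2 ≠ i ∧ i1 ≠ i2 := by
  have h : 1 < ((Finset.univ : Finset (Fin d)).erase i).card := by
    rw [Finset.card_erase_of_mem (Finset.mem_univ i), Finset.card_univ, Fintype.card_fin]
    omega
  obtain ⟨a, ha, b, hb, hab⟩ := Finset.one_lt_card.1 h
  exact ⟨a, b, (Finset.mem_erase.1 ha).1, (Finset.mem_erase.1 hb).1, hab⟩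

/-- **KB in every frame with half coins, `d ≥ 3`.** -/
theorem kb (F : Bind263.Frame Q κ R) (hd : 3 ≤ d)
    (hA : annealedProb Q 0 (escapeEvent (B2d.dirVec u)) ≠ 0) (hc : Half κ Q) :
    B6I.KB u R κ Q := by
  obtain ⟨i1, i2, h1, h2, h12⟩ := lateral hd u.1
  exact kb_frame F hA hc (J132.trunk F hA h1 h2 h12)

/-- **THEOREM B6, no open input.** -/
theorem b6 (F : Bind263.Frame Q κ R) (hd : 3 ≤ d)
    (hA : annealedProb Q 0 (escapeEvent (B2d.dirVec u)) ≠ 0) (hc : Half κ Q) (C : ℕ) :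
    ∀ ε > (0:ℝ), ∃ n₀ : ℕ, ∀ n ≥ n₀, ∀ s : SP u,
      ∫⁻ p in {p : PP d | Nt u R 0 n p.1 ∧ Nt u R 0 n p.2}, XE R κ Q (C*n) (tip n s p)
        ∂(PSm κ Q s.1.1 s.1.2) ≤ ENNReal.ofReal ε :=
  B6P816.B6_frame F (by omega) u hA (kb F hd hA hc) C

end Crest.Agent.R154.KB424
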