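import Crest.Agent.R154.B6Hyp_833

/-! R154 block B6, instance (helper833), part 6: the contact function `χ` and its restart; the
consequences of the moves; the main theorem for the pair of marked walkers. -/

set_option autoImplicit false
set_option linter.unusedSectionVars false
set_option linter.deprecated false

open MeasureTheory ProbabilityTheory Filter Set
open scoped ENNReal Topology

namespace Crest.Agent.R154.B6I

open Crest.ProbabilityR.RandomEnvironment Crest.Agent.R154.Q561 Crest.Agent.R154.Ren263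
open Crest.Agent.R154.Mk561
open Crest.Agent.R154.Flux132 (lev)
open Crest.Agent.R154.Fin804 (lev_add lev_step_le)

local notation "shf" => Crest.Agent.R154.Ren263.shift

variable {d : ℕ} {u : Step d} {R : ℕ}
variable {κ : ℝ} {Q : Measure (Environment d)} [IsProbabilityMeasure Q]

/-- both natural up to `m`, with a contact before level `m` -/
def EC (u : Step d) (R m : ℕ) : Set (Om u) :=
  {ω | (Nt u R 0 m ω.2.1 ∧ Nt u R 0 m ω.2.2) ∧ ¬ NoC R 0 m ω}

lemma meas_EC (m : ℕ) : MeasurableSet (EC u R m) :=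
  set_of_mp (Measurable.and (Measurable.and ((mp_nt R 0 m).comp meas_p1)
    ((mp_nt R 0 m).comp meas_p2)) (Measurable.not (mp_noC R 0 m)))

lemma dt_EC (m : ℕ) (s : SP u) : Dt u m {p | ((s, p) : Om u) ∈ EC u R m} :=
  (dt_nt (Nat.zero_le m)).inter (dt_noC (Nat.zero_le m) s).compl

variable (R κ Q) in
/-- probability (independent environments) of a contact of two natural walkers, `ℝ≥0∞` -/
noncomputable def XE (m : ℕ) (s : SP u) : ℝ≥0∞ :=
  PIm κ Q s.1.1 s.1.2 {p | ((s, p) : Om u) ∈ EC u R m}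

variable (R κ Q) in
/-- **`χ_m(x,y)`: two independent-environment walkers from `x, y` are natural up to level `m` and
have a contact before level `m`** -/
noncomputable def chi (m : ℕ) (s : SP u) : ℝ := (XE R κ Q m s).toReal

lemma XE_le_one (m : ℕ) (s : SP u) : XE R κ Q m s ≤ 1 := prob_le_one

lemma XE_ne_top (m : ℕ) (s : SP u) : XE R κ Q m s ≠ ⊤ := measure_ne_top _ _

lemma chi_nonneg (m : ℕ) (s : SP u) : 0 ≤ chi R κ Q m s := ENNReal.toReal_nonneg

lemma chi_le_one (m : ℕ) (s : SP u) : chi R κ Q m s ≤ 1 :=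
  ENNReal.toReal_le_of_le_ofReal zero_le_one (by simpa using XE_le_one m s)

variable (R κ Q) in
/-- loss between the levels `k` and `k+m` -/
noncomputable def DE (k m : ℕ) (s : SP u) : ℝ≥0∞ :=
  PIm κ Q s.1.1 s.1.2 ({p | ((s, p) : Om u) ∈ EN u R k k} \
    {p | ((s, p) : Om u) ∈ EN u R (k+m) (k+m)})

lemma EN_anti {k m : ℕ} : EN u R (k+m) (k+m) ⊆ EN u R k k := by
  rintro ω ⟨⟨h1, h2⟩, h3⟩
  refine ⟨⟨h1.left (by omega), h2.left (by omega)⟩, fun i i' f1 f2 f3 => ?_⟩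
  exact h3 i i' (bf_mono (by omega) f1) (bf_mono (by omega) f2) f3

lemma DE_toReal (hR : IsFiniteRangeDependent Q R) (k m : ℕ) (s : SP u) :
    (DE R κ Q k m s).toReal = (sys u R κ Q).b k s - (sys u R κ Q).b (k+m) s := by
  rw [b_eq hR, b_eq hR]
  unfold DE
  exact measureReal_diff (fun p hp => EN_anti hp) (measurableSet_of_dt (j := k+m)
    (fun p hp => ⟨hp.1.1.alv, hp.1.2.alv⟩) (dt_EN le_rfl s))

/-- countable sums over the tips -/
lemma lint_tip (ν : Measure (Om u)) {A : Set (Om u)} (n : ℕ) (X : SP u → ℝ≥0∞) :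
    ∫⁻ ω in A, X (tip n ω.1 ω.2) ∂ν = ∑' t, X t * ν (A ∩ {ω | tip n ω.1 ω.2 = t}) := by
  have hg : Measurable fun ω : Om u => tip n ω.1 ω.2 := meas_tip_comp n fun t => t
  have h1 : ∫⁻ ω in A, X (tip n ω.1 ω.2) ∂ν
      = ∫⁻ t, X t ∂((ν.restrict A).map fun ω : Om u => tip n ω.1 ω.2) :=
    (lintegral_map (measurable_of_countable X) hg).symm
  rw [h1, lintegral_countable']
  refine tsum_congr fun t => ?_
  rw [Measure.map_apply hg (measurableSet_singleton t),
    Measure.restrict_apply (hg (measurableSet_singleton t)), Set.inter_comm]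
  rfl

/-- restart of the contact function at level `j` -/
lemma X_restart (hR : IsFiniteRangeDependent Q R) (X : SP u → ℝ≥0∞) (s : SP u) {j n : ℕ}
    (hjn : j ≤ n) {B : Set (Om u)} (hB : MeasurableSet[Fj u j] B) (hBa : ∀ ω ∈ B, Al u j ω.2) :
    ∫⁻ ω in B ∩ {ω | (Nt u R j n ω.2.1 ∧ Nt u R j n ω.2.2) ∧ NoC R j n ω},
        X (tip n ω.1 ω.2) ∂((sys u R κ Q).P s)
      = ∫⁻ ω in B, (∫⁻ ω' in EN u R (n-j) (n-j), X (tip (n-j) ω'.1 ω'.2)
          ∂((sys u R κ Q).P (tip j ω.1 ω.2))) ∂((sys u R κ Q).P s) := by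
  simp only [lint_tip]
  rw [lintegral_tsum]
  · refine tsum_congr fun t => ?_
    have hm : Measurable fun ω : Om u => (sys u R κ Q).P (tip j ω.1 ω.2)
        (EN u R (n-j) (n-j) ∩ {ω | tip (n-j) ω.1 ω.2 = t}) :=
      meas_tip_comp j fun r => (sys u R κ Q).P r (EN u R (n-j) (n-j) ∩ {ω | tip (n-j) ω.1 ω.2 = t})
    rw [lintegral_const_mul _ hm]
    congr 1
    have hNm : MeasurableSet {ω : Om u | (Nt u R j n ω.2.1 ∧ Nt u R j n ω.2.2) ∧ NoC R j n ω} :=
      set_of_mp (Measurable.and (Measurable.and ((mp_nt R j n).comp meas_p1)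
        ((mp_nt R j n).comp meas_p2)) (mp_noC R j n))
    rw [Set.inter_assoc]
    refine P_restart hR s (k := n-j) hB hBa
      (E := EN u R (n-j) (n-j) ∩ {ω | tip (n-j) ω.1 ω.2 = t}) ?_ (fun r p hp => hp.1.1)
      (hNm.inter (set_of_mp (mp_tip n t))) ?_
    · exact ⟨(meas_EN _ _).inter (set_of_mp (mp_tip _ t)), fun r =>
        (dt_EN le_rfl r).inter (dt_tip _ r t)⟩
    · intro ω hω
      have h1 := shift_iff (R := R) hjn (le_refl n) ω.1 (hBa ω hω)
      constructor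
      · rintro ⟨h2, h3⟩
        refine ⟨h1.1 h2, ?_⟩
        have h4 : Al u n ω.2 := ⟨h2.1.1.alv, h2.1.2.alv⟩
        simp only [Set.mem_ofPred_eq] at h3 ⊢
        rw [tip_shift hjn ω.1 h4]; exact h3
      · rintro ⟨h2, h3⟩
        have h5 := h1.2 h2
        refine ⟨h5, ?_⟩
        have h4 : Al u n ω.2 := ⟨h5.1.1.alv, h5.1.2.alv⟩
        simp only [Set.mem_ofPred_eq] at h3 ⊢
        rw [tip_shift hjn ω.1 h4] at h3; exact h3
  · intro t
    exact ((meas_tip_comp j fun r => X t * (sys u R κ Q).P r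
      (EN u R (n-j) (n-j) ∩ {ω | tip (n-j) ω.1 ω.2 = t}))).aemeasurable

/-- one block: no contact up to `k`, then contact -/
lemma X_step (hR : IsFiniteRangeDependent Q R) (t : SP u) (k m : ℕ) :
    ∫⁻ ω in EN u R k k, XE R κ Q m (tip k ω.1 ω.2) ∂((sys u R κ Q).P t) ≤ DE R κ Q k m t := by
  rw [P_lintegral t (meas_EN _ _) (meas_tip_comp k fun r => XE R κ Q m r)]
  have hBa : ∀ p ∈ {p | ((t, p) : Om u) ∈ EN u R k k}, Al u k p :=
    fun p hp => ⟨hp.1.1.alv, hp.1.2.alv⟩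
  rw [PS_eq_PI (κ := κ) hR t (j := k) hBa (dt_EN le_rfl t) (fun p hp => hp.2)
    (F := fun p => XE R κ Q m (tip k t p)) (fun p q h1 h2 => by rw [tip_eqv t h1 h2])]
  have key := (mult_PI κ hR (u := u)).restart t (j := k) (k := m)
    (B := {p | ((t, p) : Om u) ∈ EN u R k k}) (E := EC u R m) hBa (dt_EN le_rfl t)
    (fun r => dt_EC m r) (fun r p hp => hp.1)
  refine le_trans (le_of_eq key.symm) (measure_mono ?_)
  rintro p ⟨hp1, hp2⟩
  refine ⟨hp1, fun hp3 => ?_⟩
  have hal := hBa p hp1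
  have h1 := shift_iff (R := R) (j := k) (L := k+m) (n := k+m) (by omega) le_rfl t hal
  rw [show k + m - k = m by omega] at h1
  obtain ⟨⟨a, ha⟩, ⟨b, hb⟩⟩ := hal
  have e1 := nt_shift_iff (R := R) (le_refl k) (show k ≤ k+m by omega) ha
  have e2 := nt_shift_iff (R := R) (le_refl k) (show k ≤ k+m by omega) hb
  rw [Nat.sub_self, show k + m - k = m by omega] at e1 e2
  obtain ⟨⟨g1, g2⟩, g3⟩ := hp2
  simp only at g1 g2
  rw [th_eq ha hb] at g1 g2
  refine g3 (h1.1 ⟨⟨e1.1 g1, e2.1 g2⟩, fun i i' f1 f2 f3 => ?_⟩).2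
  exact absurd (hp3.2 i i' f1 f2 f3).1 (not_bf_zero _ _)

lemma chiFP_field (hR : IsFiniteRangeDependent Q R) (s : SP u) (j n m : ℕ) (hjn : j ≤ n)
    (B : Set (Om u)) (hB : MeasurableSet[(sys u R κ Q).F j] B) (hBa : B ⊆ (sys u R κ Q).al j) :
    ∫ ω in B ∩ ((sys u R κ Q).N j n ∩ (sys u R κ Q).nocs j n),
        chi R κ Q m ((sys u R κ Q).st n ω) ∂((sys u R κ Q).P s)
      ≤ ∫ ω in B, ((sys u R κ Q).b (n - j) ((sys u R κ Q).st j ω)
          - (sys u R κ Q).b (n - j + m) ((sys u R κ Q).st j ω)) ∂((sys u R κ Q).P s) := by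
  simp only [← DE_toReal hR]
  rw [nocs_eq hjn]
  have h1 : ∫ ω in B, (DE R κ Q (n-j) m ((sys u R κ Q).st j ω)).toReal ∂((sys u R κ Q).P s)
      = (∫⁻ ω in B, DE R κ Q (n-j) m (tip j ω.1 ω.2) ∂((sys u R κ Q).P s)).toReal :=
    integral_toReal (meas_tip_comp j fun r => DE R κ Q (n-j) m r).aemeasurable
      (Filter.Eventually.of_forall fun ω => measure_lt_top _ _)
  have h2 : ∫ ω in B ∩ ((sys u R κ Q).N j n ∩ {ω | NoC R j n ω}),
        chi R κ Q m ((sys u R κ Q).st n ω) ∂((sys u R κ Q).P s)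
      = (∫⁻ ω in B ∩ {ω | (Nt u R j n ω.2.1 ∧ Nt u R j n ω.2.2) ∧ NoC R j n ω},
          XE R κ Q m (tip n ω.1 ω.2) ∂((sys u R κ Q).P s)).toReal :=
    integral_toReal (meas_tip_comp n fun r => XE R κ Q m r).aemeasurable
      (Filter.Eventually.of_forall fun ω => measure_lt_top _ _)
  rw [h1, h2]
  refine ENNReal.toReal_mono ?_ ?_
  · refine ne_top_of_le_ne_top (measure_ne_top ((sys u R κ Q).P s) B) ?_
    calc ∫⁻ ω in B, DE R κ Q (n-j) m (tip j ω.1 ω.2) ∂((sys u R κ Q).P s)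
        ≤ ∫⁻ _ in B, 1 ∂((sys u R κ Q).P s) := lintegral_mono fun ω => prob_le_one
      _ = (sys u R κ Q).P s B := by simp
  · rw [X_restart hR (fun t => XE R κ Q m t) s hjn hB (fun ω hω => hBa hω)]
    exact lintegral_mono fun ω => X_step hR _ _ _

end Crest.Agent.R154.B6I
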