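import Crest.Agent.R154.B6Sys_833

/-! R154 block B6, instance (helper833), part 5: the hypotheses of the abstract theorem for the pair
of marked walkers (all except the moves). -/

set_option autoImplicit false
set_option linter.unusedSectionVars false
set_option linter.deprecated false

open MeasureTheory ProbabilityTheory Filter Set
open scoped ENNReal Topology

namespace Crest.Agent.R154.B6I

open Crest.ProbabilityR.RandomEnvironment Crest.Agent.R154.Q561 Crest.Agent.R154.Ren263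
open Crest.Agent.R154.Mk561
open Crest.Agent.R154.Flux132 (lev)
open Crest.Agent.R154.Fin804 (lev_add lev_step_le)

local notation "shf" => Crest.Agent.R154.Ren263.shift

variable {d : ℕ} {u : Step d} {R : ℕ}
variable {κ : ℝ} {Q : Measure (Environment d)} [IsProbabilityMeasure Q]

/-- natural up to `n`, no contact up to stage `L`. -/
def EN (u : Step d) (R n L : ℕ) : Set (Om u) :=
  {ω | (Nt u R 0 n ω.2.1 ∧ Nt u R 0 n ω.2.2) ∧ NoC R 0 L ω}

lemma meas_EN (n L : ℕ) : MeasurableSet (EN u R n L) :=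
  set_of_mp (Measurable.and (Measurable.and ((mp_nt R 0 n).comp meas_p1)
    ((mp_nt R 0 n).comp meas_p2)) (mp_noC R 0 L))

lemma dt_EN {n L : ℕ} (hLn : L ≤ n) (s : SP u) :
    Dt u n {p | ((s, p) : Om u) ∈ EN u R n L} :=
  (dt_nt (Nat.zero_le n)).inter ((dt_noC (Nat.zero_le L) s).mono hLn)

instance (s : SP u) : IsProbabilityMeasure ((sys u R κ Q).P s) := (sys u R κ Q).prob s

lemma meas_tip_comp (j : ℕ) {α : Type*} [MeasurableSpace α] (g : SP u → α) :
    Measurable fun ω : Om u => g (tip j ω.1 ω.2) := by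
  have h : Measurable fun ω : Om u => tip j ω.1 ω.2 :=
    measurable_to_countable' fun t => set_of_mp (mp_tip j t)
  exact (measurable_of_countable g).comp h

/-- **fresh restart in the system** -/
lemma P_restart (hR : IsFiniteRangeDependent Q R) (s : SP u) {j k : ℕ} {B G E : Set (Om u)}
    (hB : MeasurableSet[Fj u j] B) (hBa : ∀ ω ∈ B, Al u j ω.2) (hE : MeasurableSet[Fj u k] E)
    (hEN : ∀ t p, ((t, p) : Om u) ∈ E → Nt u R 0 k p.1 ∧ Nt u R 0 k p.2)
    (hG : MeasurableSet G)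
    (hGE : ∀ ω ∈ B, ω ∈ G ↔ ((tip j ω.1 ω.2, th u j ω.2) : Om u) ∈ E) :
    (sys u R κ Q).P s (B ∩ G)
      = ∫⁻ ω in B, (sys u R κ Q).P (tip j ω.1 ω.2) E ∂((sys u R κ Q).P s) := by
  rw [P_apply s (hB.1.inter hG),
    P_lintegral s hB.1 (meas_tip_comp j fun t => (sys u R κ Q).P t E)]
  have h1 : {p : PP d | ((s, p) : Om u) ∈ B ∩ G}
      = {p | ((s, p) : Om u) ∈ B} ∩ {p | ((tip j s p, th u j p) : Om u) ∈ E} := by
    ext p
    simp only [Set.mem_ofPred_eq, Set.mem_inter_iff]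
    exact and_congr_right fun hp => hGE (s, p) hp
  rw [h1]
  have key := (mult_PS κ hR).restart s (B := {p | ((s, p) : Om u) ∈ B}) (j := j) (k := k)
    (fun p hp => hBa (s, p) hp) (hB.2 s) hE.2 hEN
  refine key.trans (lintegral_congr fun p => ?_)
  exact (P_apply _ hE.1).symm

lemma P_restart_real (hR : IsFiniteRangeDependent Q R) (s : SP u) {j k : ℕ} {B G E : Set (Om u)}
    (hB : MeasurableSet[Fj u j] B) (hBa : ∀ ω ∈ B, Al u j ω.2) (hE : MeasurableSet[Fj u k] E)
    (hEN : ∀ t p, ((t, p) : Om u) ∈ E → Nt u R 0 k p.1 ∧ Nt u R 0 k p.2)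
    (hG : MeasurableSet G)
    (hGE : ∀ ω ∈ B, ω ∈ G ↔ ((tip j ω.1 ω.2, th u j ω.2) : Om u) ∈ E) :
    ((sys u R κ Q).P s).real (B ∩ G)
      = ∫ ω in B, ((sys u R κ Q).P (tip j ω.1 ω.2)).real E ∂((sys u R κ Q).P s) := by
  simp only [Measure.real]
  rw [P_restart hR s hB hBa hE hEN hG hGE,
    integral_toReal (meas_tip_comp j fun t => (sys u R κ Q).P t E).aemeasurable]
  exact Filter.Eventually.of_forall fun ω => measure_lt_top _ _

lemma phi_eq {n L : ℕ} (s : SP u) :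
    (sys u R κ Q).φ n L s = ((sys u R κ Q).P s).real (EN u R n L) := by
  unfold B6_833.PairSys.φ
  rw [nocs_eq (Nat.zero_le L)]
  rfl

lemma FP_field (hR : IsFiniteRangeDependent Q R) (s : SP u) (j L n : ℕ) (hjL : j ≤ L)
    (hLn : L ≤ n) (B : Set (Om u)) (hB : MeasurableSet[(sys u R κ Q).F j] B)
    (hBa : B ⊆ (sys u R κ Q).al j) :
    ((sys u R κ Q).P s).real (B ∩ ((sys u R κ Q).N j n ∩ (sys u R κ Q).nocs j L))
      = ∫ ω in B, (sys u R κ Q).φ (n - j) (L - j) ((sys u R κ Q).st j ω)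
          ∂((sys u R κ Q).P s) := by
  simp only [phi_eq]
  rw [nocs_eq hjL]
  refine P_restart_real hR s (k := n - j) hB hBa
    ⟨meas_EN _ _, fun t => dt_EN (by omega) t⟩ (fun t p hp => hp.1) ?_ ?_
  · exact set_of_mp (Measurable.and (Measurable.and ((mp_nt R j n).comp meas_p1)
      ((mp_nt R j n).comp meas_p2)) (mp_noC R j L))
  · intro ω hω
    exact shift_iff hjL hLn ω.1 (hBa hω)

/-! ### one walker -/

variable (u R κ Q) in
/-- probability that one walker is natural up to level `m` -/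
noncomputable def hh (m : ℕ) : ℝ := (mkAnn κ Q 0).real {M | Nt u R 0 m M}

variable (u R κ Q) in
/-- probability that one walker is natural for ever -/
noncomputable def pp : ℝ := (mkAnn κ Q 0).real {M | ∀ m, Nt u R 0 m M}

lemma meas_nt (R i j : ℕ) : MeasurableSet {M : MPath d | Nt u R i j M} := set_of_mp (mp_nt R i j)

lemma pp_le_hh (m : ℕ) : pp u R κ Q ≤ hh u R κ Q m :=
  measureReal_mono (fun _ h => h m)

lemma hh_le_one (m : ℕ) : hh u R κ Q m ≤ 1 := measureReal_le_one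

lemma hh_nonneg (m : ℕ) : 0 ≤ hh u R κ Q m := measureReal_nonneg

lemma hh_anti : Antitone (hh u R κ Q) := fun _ _ h => measureReal_mono (fun _ hM => hM.left h)

lemma hh_lim : Tendsto (hh u R κ Q) atTop (𝓝 (pp u R κ Q)) := by
  have h := tendsto_measure_iInter_atTop (μ := mkAnn κ Q 0)
    (s := fun m => {M : MPath d | Nt u R 0 m M})
    (fun m => (meas_nt R 0 m).nullMeasurableSet) (fun a b hab M hM => hM.left hab)
    ⟨0, measure_ne_top _ _⟩
  have h2 : (⋂ m, {M : MPath d | Nt u R 0 m M}) = {M | ∀ m, Nt u R 0 m M} := by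
    ext M; simp
  rw [h2] at h
  exact (ENNReal.tendsto_toReal (measure_ne_top _ _)).comp h

lemma b_eq (hR : IsFiniteRangeDependent Q R) (m : ℕ) (s : SP u) :
    (sys u R κ Q).b m s = (PIm κ Q s.1.1 s.1.2).real {p | ((s, p) : Om u) ∈ EN u R m m} := by
  unfold B6_833.PairSys.b
  rw [phi_eq]
  simp only [Measure.real]
  rw [P_apply s (meas_EN _ _)]
  congr 1
  exact PS_eq_PI_set hR s (j := m) (fun p hp => ⟨hp.1.1.alv, hp.1.2.alv⟩) (dt_EN le_rfl s)
    (fun p hp => hp.2)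

variable (hstat : ∀ z : Site d, MeasurePreserving (shiftEnv z) Q Q)
include hstat

lemma PI_nt (m : ℕ) (x y : Site d) :
    (PIm κ Q x y).real ({M | Nt u R 0 m M} ×ˢ {M | Nt u R 0 m M}) = hh u R κ Q m ^ 2 := by
  unfold PIm hh
  simp only [Measure.real]
  rw [Measure.prod_prod, mkAnn_stat hstat κ x, mkAnn_stat hstat κ y, ENNReal.toReal_mul, sq]

lemma ub_field (hR : IsFiniteRangeDependent Q R) (s : SP u) (m : ℕ) :
    (sys u R κ Q).b m s ≤ hh u R κ Q m ^ 2 := by
  rw [b_eq hR, ← PI_nt hstat m s.1.1 s.1.2]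
  exact measureReal_mono (fun p hp => ⟨hp.1.1, hp.1.2⟩)

lemma tail_field (s : SP u) (m n : ℕ) (hmn : m ≤ n) :
    (sys u R κ Q).φ m 0 s - (sys u R κ Q).φ n 0 s ≤ 2 * (hh u R κ Q m - pp u R κ Q) := by
  rw [phi_eq, phi_eq]
  simp only [Measure.real]
  rw [P_apply s (meas_EN _ _), P_apply s (meas_EN _ _)]
  set μ := PSm κ Q s.1.1 s.1.2 with hμ
  set A : ℕ → Set (MPath d) := fun m => {M | Nt u R 0 m M} with hA
  have hAm : ∀ m, MeasurableSet (A m) := fun m => meas_nt R 0 m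
  have e : ∀ m, {p : PP d | ((s, p) : Om u) ∈ EN u R m 0} = {p | p.1 ∈ A m ∧ p.2 ∈ A m} := by
    intro m
    ext p
    constructor
    · intro h; exact h.1
    · intro h; exact ⟨h, fun i i' h1 _ _ => absurd h1 (not_bf_zero _ _)⟩
  rw [e, e]
  have hsub : {p : PP d | p.1 ∈ A m ∧ p.2 ∈ A m} ⊆ {p | p.1 ∈ A n ∧ p.2 ∈ A n}
      ∪ ({p | p.1 ∈ A m \ A n} ∪ {p | p.2 ∈ A m \ A n}) := by
    rintro p ⟨h1, h2⟩
    by_cases h3 : p.1 ∈ A n
    · by_cases h4 : p.2 ∈ A n
      · exact Or.inl ⟨h3, h4⟩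
      · exact Or.inr (Or.inr ⟨h2, h4⟩)
    · exact Or.inr (Or.inl ⟨h1, h3⟩)
  have hanti : A n ⊆ A m := fun M hM => hM.left hmn
  have hd : (mkAnn κ Q 0).real (A m \ A n) = hh u R κ Q m - hh u R κ Q n :=
    measureReal_diff hanti (hAm n)
  have h1 : μ.real {p | p.1 ∈ A m \ A n} = hh u R κ Q m - hh u R κ Q n := by
    rw [← hd, hμ]
    simp only [Measure.real]
    rw [PSm_fst κ Q _ _ ((hAm m).diff (hAm n)), mkAnn_stat hstat κ]
  have h2 : μ.real {p | p.2 ∈ A m \ A n} = hh u R κ Q m - hh u R κ Q n := by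
    rw [← hd, hμ]
    simp only [Measure.real]
    rw [PSm_snd κ Q _ _ ((hAm m).diff (hAm n)), mkAnn_stat hstat κ]
  have h3 : μ.real {p | p.1 ∈ A m ∧ p.2 ∈ A m} ≤ μ.real {p | p.1 ∈ A n ∧ p.2 ∈ A n}
      + (μ.real {p | p.1 ∈ A m \ A n} + μ.real {p | p.2 ∈ A m \ A n}) :=
    (measureReal_mono hsub).trans ((measureReal_union_le _ _).trans
      (add_le_add le_rfl (measureReal_union_le _ _)))
  have h4 := pp_le_hh (u := u) (R := R) (κ := κ) (Q := Q) n
  simp only [Measure.real] at h1 h2 h3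
  rw [h1, h2] at h3
  linarith

/-! ### far pairs -/

omit hstat in
lemma pos_dist (x : Site d) (M : MPath d) (n : ℕ) (c : Fin d) :
    |pos x M n c - x c| ≤ n := by
  induction n with
  | zero => simp [pos_zero]
  | succ n ih =>
    rw [pos_succ, Pi.add_apply]
    have h1 : |stp (M n) c| ≤ 1 := by
      unfold stp stepVec
      by_cases h : c = (M n).1.1
      · rw [h, Pi.single_eq_same]; split_ifs <;> norm_num
      · rw [Pi.single_eq_of_ne h]; norm_num
    have h2 : pos x M n c + stp (M n) c - x c = (pos x M n c - x c) + stp (M n) c := by ring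
    rw [h2]
    have := abs_add_le (pos x M n c - x c) (stp (M n) c)
    push_cast
    linarith

/-- pairs of sites at distance `> r` -/
def Far (u : Step d) (r : ℕ) : Set (SP u) := {s | ∃ c, (r:ℤ) < |s.1.1 c - s.1.2 c|}

lemma far_field (hR : IsFiniteRangeDependent Q R) (m : ℕ) (ε : ℝ) (hε : 0 < ε) :
    ∃ r, ∀ s ∈ Far u r, hh u R κ Q m ^ 2 - ε ≤ (sys u R κ Q).b m s := by
  -- the walker hits level `m` before time `K`
  set A : Set (MPath d) := {M | Nt u R 0 m M} with hA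
  set D : ℕ → Set (MPath d) := fun K => {M | Nt u R 0 m M ∧ ∀ n ≤ K, ¬ Hit u m M n} with hD
  have hDm : ∀ K, MeasurableSet (D K) := fun K => set_of_mp (Measurable.and (mp_nt R 0 m)
    (Measurable.forall fun n => Measurable.imp measurable_const (Measurable.not (mp_hit m n))))
  have hlim : Tendsto (fun K => (mkAnn κ Q 0).real (D K)) atTop (𝓝 0) := by
    have h := tendsto_measure_iInter_atTop (μ := mkAnn κ Q 0) (s := D)
      (fun K => (hDm K).nullMeasurableSet)
      (fun a b hab M hM => ⟨hM.1, fun n hn => hM.2 n (hn.trans hab)⟩)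
      ⟨0, measure_ne_top _ _⟩
    have h2 : (⋂ K, D K) = ∅ := by
      rw [Set.eq_empty_iff_forall_notMem]
      intro M hM
      rw [Set.mem_iInter] at hM
      obtain ⟨n, hn⟩ := (hM 0).1.alv
      exact (hM n).2 n le_rfl hn
    rw [h2, measure_empty] at h
    have := (ENNReal.tendsto_toReal (ENNReal.zero_ne_top)).comp h
    rw [ENNReal.toReal_zero] at this
    exact this
  obtain ⟨K, hK⟩ := ((tendsto_order.1 hlim).2 (ε/2) (by positivity)).exists
  refine ⟨2*K + R, fun s hs => ?_⟩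
  obtain ⟨c, hc⟩ := hs
  rw [b_eq hR]
  set A' : Set (MPath d) := A \ D K with hA'
  have hA'm : MeasurableSet A' := (meas_nt R 0 m).diff (hDm K)
  have hsub : A' ×ˢ A' ⊆ {p | ((s, p) : Om u) ∈ EN u R m m} := by
    rintro p ⟨⟨h1, h2⟩, ⟨h3, h4⟩⟩
    refine ⟨⟨h1, h3⟩, ?_⟩
    have g1 : ∃ n ≤ K, Hit u m p.1 n := by
      by_contra hcon; push Not at hcon; exact h2 ⟨h1, hcon⟩
    have g2 : ∃ n ≤ K, Hit u m p.2 n := by
      by_contra hcon; push Not at hcon; exact h4 ⟨h3, hcon⟩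
    obtain ⟨n1, hn1, hh1⟩ := g1
    obtain ⟨n2, hn2, hh2⟩ := g2
    intro i i' f1 f2 f3
    exfalso
    have f1' := (bf_iff_of_hit hh1 i).1 f1
    have f2' := (bf_iff_of_hit hh2 i').1 f2
    have k1 := pos_dist s.1.1 p.1 i c
    have k2 := pos_dist s.1.2 p.2 i' c
    have k3 := f3.2.2 c
    simp only at k1 k2 k3
    rw [abs_le] at k1 k2 k3
    rcases lt_abs.1 hc with hc | hc <;> push_cast at hc <;> omega
  have h1 : (PIm κ Q s.1.1 s.1.2).real (A' ×ˢ A')
      = ((mkAnn κ Q 0).real A')^2 := by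
    unfold PIm
    simp only [Measure.real]
    rw [Measure.prod_prod, mkAnn_stat hstat κ s.1.1, mkAnn_stat hstat κ s.1.2,
      ENNReal.toReal_mul, sq]
  have h2 : (mkAnn κ Q 0).real A' = hh u R κ Q m - (mkAnn κ Q 0).real (D K) :=
    measureReal_diff (fun M hM => hM.1) (hDm K)
  have h3 := measureReal_mono (μ := PIm κ Q s.1.1 s.1.2) hsub
  rw [h1, h2] at h3
  have h4 := hh_le_one (u := u) (R := R) (κ := κ) (Q := Q) m
  have h5 := hh_nonneg (u := u) (R := R) (κ := κ) (Q := Q) m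
  have h6 : 0 ≤ (mkAnn κ Q 0).real (D K) := measureReal_nonneg
  nlinarith

end Crest.Agent.R154.B6I
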