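import Crest.Agent.R154.B6Pair_833

/-! R154 block B6, instance (helper833), part 3: the two pair laws (same environment `PS`,
independent environments `PI`), their fresh restart, and `PS = PI` before the first contact. -/

set_option autoImplicit false
set_option linter.unusedSectionVars false
set_option linter.deprecated false

open MeasureTheory ProbabilityTheory Filter Set
open scoped ENNReal Topology

namespace Crest.Agent.R154.B6I

open Crest.ProbabilityR.RandomEnvironment Crest.Agent.R154.Q561 Crest.Agent.R154.Ren263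
open Crest.Agent.R154.Mk561
open Crest.Agent.R154.Flux132 (lev)
open Crest.Agent.R154.Fin804 (lev_add lev_step_le)

local notation "shf" => Crest.Agent.R154.Ren263.shift

variable {d : ℕ}

/-- two marked walkers in the same environment -/
noncomputable def PSm (κ : ℝ) (Q : Measure (Environment d)) (x y : Site d) : Measure (PP d) :=
  Q.bind (mkK κ x ×ₖ mkK κ y)

/-- two marked walkers in independent environments -/
noncomputable def PIm (κ : ℝ) (Q : Measure (Environment d)) (x y : Site d) : Measure (PP d) :=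
  (mkAnn κ Q x).prod (mkAnn κ Q y)

variable (κ : ℝ) (Q : Measure (Environment d)) [IsProbabilityMeasure Q]

instance (x y : Site d) : IsProbabilityMeasure (PSm κ Q x y) := by
  unfold PSm; infer_instance

instance (x y : Site d) : IsProbabilityMeasure (PIm κ Q x y) := by
  unfold PIm; infer_instance

lemma PSm_apply (x y : Site d) {B : Set (PP d)} (hB : MeasurableSet B) :
    PSm κ Q x y B = ∫⁻ ω, ((mkLaw κ ω x).prod (mkLaw κ ω y)) B ∂Q := by
  rw [PSm, Measure.bind_apply hB (Kernel.measurable _).aemeasurable]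
  refine lintegral_congr fun ω => ?_
  rw [Kernel.prod_apply]; rfl

lemma PSm_prod (x y : Site d) {A B : Set (MPath d)} (hA : MeasurableSet A) (hB : MeasurableSet B) :
    PSm κ Q x y (A ×ˢ B) = ∫⁻ ω, mkLaw κ ω x A * mkLaw κ ω y B ∂Q := by
  rw [PSm_apply κ Q x y (hA.prod hB)]
  exact lintegral_congr fun ω => Measure.prod_prod _ _

lemma PSm_cyl (x y : Site d) (W V : MPath d) (n m : ℕ) :
    PSm κ Q x y (Cy W n ×ˢ Cy V m) = ∫⁻ ω, wgt κ ω x W n * wgt κ ω y V m ∂Q := by
  rw [PSm_prod κ Q x y (measurableSet_Cy _ _) (measurableSet_Cy _ _)]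
  simp only [mk_cyl]

lemma PIm_cyl (x y : Site d) (W V : MPath d) (n m : ℕ) :
    PIm κ Q x y (Cy W n ×ˢ Cy V m)
      = (∫⁻ ω, wgt κ ω x W n ∂Q) * ∫⁻ ω, wgt κ ω y V m ∂Q := by
  unfold PIm
  rw [Measure.prod_prod, mkAnn_apply κ Q x (measurableSet_Cy _ _),
    mkAnn_apply κ Q y (measurableSet_Cy _ _)]
  simp only [mk_cyl]

/-- the marginals of the same-environment law. -/
lemma PSm_fst (x y : Site d) {A : Set (MPath d)} (hA : MeasurableSet A) :
    PSm κ Q x y {p | p.1 ∈ A} = mkAnn κ Q x A := by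
  have : {p : PP d | p.1 ∈ A} = A ×ˢ Set.univ := by ext p; simp
  rw [this, PSm_prod κ Q x y hA MeasurableSet.univ, mkAnn_apply κ Q x hA]
  simp

lemma PSm_snd (x y : Site d) {A : Set (MPath d)} (hA : MeasurableSet A) :
    PSm κ Q x y {p | p.2 ∈ A} = mkAnn κ Q y A := by
  have : {p : PP d | p.2 ∈ A} = Set.univ ×ˢ A := by ext p; simp
  rw [this, PSm_prod κ Q x y MeasurableSet.univ hA, mkAnn_apply κ Q y hA]
  simp

/-! ### locality of words -/

variable {κ Q} {u : Step d} {R : ℕ}

/-- a word stopped at level `j` reads below the level `j` -/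
lemma hit_mem_RdB {x : Site d} {W : MPath d} {n j : ℕ} (h : Hit u j W n) :
    W ∈ RdB {z | lev u z < lev u x + j} x n := by
  intro i hi _
  simp only [Set.mem_ofPred_eq]
  rw [lev_pos]
  have := h.2 i hi
  linarith

/-- a natural word reads at levels `≥ R` -/
lemma nt_mem_RdB {x : Site d} {W : MPath d} {n k : ℕ} (h : Hit u k W n) (hN : Nt u R 0 k W) :
    W ∈ RdB {z | lev u x + R ≤ lev u z} x n := by
  intro i hi hf
  simp only [Set.mem_ofPred_eq]
  rw [lev_pos]
  have := hN.read_ge (hit_zero W) (Nat.zero_le i) ((bf_iff_of_hit h i).2 hi) hf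
  push_cast at this
  linarith

lemma sepR_lev {j j' : ℤ} (h : j + R ≤ j') :
    SepR R {z : Site d | lev u z < j} {z | j' ≤ lev u z} := by
  intro a ha b hb
  refine ⟨u.1, ?_⟩
  simp only [Set.mem_ofPred_eq] at ha hb
  have h1 : (R:ℤ) < lev u b - lev u a := by linarith
  have h2 : |lev u b - lev u a| = |a u.1 - b u.1| := by
    unfold Flux132.lev
    split_ifs
    · rw [abs_sub_comm]
    · congr 1; ring
  rw [← h2]
  exact lt_of_lt_of_le h1 (le_abs_self _)

lemma locOn_wgt {S : Set (Site d)} {x : Site d} {W : MPath d} {n : ℕ} (hW : W ∈ RdB S x n) :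
    LocOn S fun ω => wgt κ ω x W n := fun _ _ h => wgt_local κ h hW

lemma LocOn.mul' {S : Set (Site d)} {f g : Environment d → ℝ≥0∞} (hf : LocOn S f)
    (hg : LocOn S g) : LocOn S fun ω => f ω * g ω := fun ω ω' h => by
  simp only [hf ω ω' h, hg ω ω' h]

lemma wgt_spl (ω : Environment d) (x : Site d) (W W' : MPath d) (n n' : ℕ) :
    wgt κ ω x (spl W n W') (n+n') = wgt κ ω x W n * wgt κ ω (pos x W n) W' n' := by
  have h0 : ∀ i < n, spl W n W' i = W i := fun i hi => spl_lt hi
  rw [wgt_add, wgt_congr κ ω x h0]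
  congr 1
  rw [pos_congr x h0 le_rfl]
  have : shf n (spl W n W') = W' := shift_spl W W' n
  rw [this]

variable (κ) in
/-- **the same-environment law is multiplicative.** -/
lemma mult_PS (hR : IsFiniteRangeDependent Q R) :
    Mult R (fun s : SP u => PSm κ Q s.1.1 s.1.2) where
  prob s := inferInstance
  mul s t j k W V W' V' n m n' m' hW hV hW' hV' hN hN' ht := by
    rw [PSm_cyl, PSm_cyl, PSm_cyl]
    have e1 : ∀ ω, wgt κ ω s.1.1 (spl W n W') (n+n') * wgt κ ω s.1.2 (spl V m V') (m+m')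
        = (wgt κ ω s.1.1 W n * wgt κ ω s.1.2 V m)
          * (wgt κ ω t.1.1 W' n' * wgt κ ω t.1.2 V' m') := by
      intro ω
      rw [wgt_spl, wgt_spl, ht]
      ring
    simp only [e1]
    have hs := s.2
    have l1 : lev u t.1.1 = lev u s.1.1 + j := by rw [ht]; simp only; rw [lev_pos, hW.1]
    have l2 : lev u t.1.2 = lev u s.1.1 + j := by rw [ht]; simp only; rw [lev_pos, hV.1, s.2]
    refine lintegral_mul_sep hR (sepR_lev (R := R) (u := u) (j := lev u s.1.1 + j)
      (j' := lev u s.1.1 + j + R) le_rfl)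
      ((measurable_wgt κ _ _ _).mul (measurable_wgt κ _ _ _))
      ((measurable_wgt κ _ _ _).mul (measurable_wgt κ _ _ _)) ?_ ?_
    · refine LocOn.mul' (locOn_wgt (hit_mem_RdB hW)) (locOn_wgt ?_)
      have := hit_mem_RdB (x := s.1.2) hV
      rw [← hs] at this; exact this
    · refine LocOn.mul' (locOn_wgt ?_) (locOn_wgt ?_)
      · have := nt_mem_RdB (x := t.1.1) hW' hN
        rw [l1] at this; exact this
      · have := nt_mem_RdB (x := t.1.2) hV' hN'
        rw [l2] at this; exact this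

variable (κ) in
/-- one walker: multiplicativity. -/
lemma wgt_mult (hR : IsFiniteRangeDependent Q R) (x : Site d) {j k : ℕ} {W W' : MPath d} {n n' : ℕ}
    (hW : Hit u j W n) (hW' : Hit u k W' n') (hN : Nt u R 0 k W') :
    ∫⁻ ω, wgt κ ω x (spl W n W') (n+n') ∂Q
      = (∫⁻ ω, wgt κ ω x W n ∂Q) * ∫⁻ ω, wgt κ ω (pos x W n) W' n' ∂Q := by
  simp only [wgt_spl]
  refine lintegral_mul_sep hR (sepR_lev (R := R) (u := u) (j := lev u x + j)
      (j' := lev u x + j + R) le_rfl)
      (measurable_wgt κ _ _ _) (measurable_wgt κ _ _ _) (locOn_wgt (hit_mem_RdB hW))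
      (locOn_wgt ?_)
  have := nt_mem_RdB (x := pos x W n) hW' hN
  rw [lev_pos, hW.1] at this; exact this

variable (κ) in
/-- **the independent-environments law is multiplicative.** -/
lemma mult_PI (hR : IsFiniteRangeDependent Q R) :
    Mult R (fun s : SP u => PIm κ Q s.1.1 s.1.2) where
  prob s := inferInstance
  mul s t j k W V W' V' n m n' m' hW hV hW' hV' hN hN' ht := by
    rw [PIm_cyl, PIm_cyl, PIm_cyl, wgt_mult κ hR s.1.1 hW hW' hN, wgt_mult κ hR s.1.2 hV hV' hN',
      ht]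
    ring

/-! ### same = independent before the first contact -/

/-- words without contact -/
lemma PS_eq_PI_cyl (hR : IsFiniteRangeDependent Q R) (s : SP u) {j : ℕ} {W V : MPath d} {n m : ℕ}
    (hW : Hit u j W n) (hV : Hit u j V m) (h : NoC R 0 j ((s, (W, V)) : Om u)) :
    PSm κ Q s.1.1 s.1.2 (Cy W n ×ˢ Cy V m) = PIm κ Q s.1.1 s.1.2 (Cy W n ×ˢ Cy V m) := by
  rw [PSm_cyl, PIm_cyl]
  refine lintegral_mul_sep hR
    (S := {z | ∃ i < n, (W i).2 = false ∧ pos s.1.1 W i = z})
    (T := {z | ∃ i < m, (V i).2 = false ∧ pos s.1.2 V i = z}) ?_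
    (measurable_wgt κ _ _ _) (measurable_wgt κ _ _ _)
    (locOn_wgt fun i hi hf => ⟨i, hi, hf, rfl⟩) (locOn_wgt fun i hi hf => ⟨i, hi, hf, rfl⟩)
  rintro a ⟨i, hi, hf, rfl⟩ b ⟨i', hi', hf', rfl⟩
  by_contra hcon
  push Not at hcon
  have := h i i' ((bf_iff_of_hit hW i).2 hi) ((bf_iff_of_hit hV i').2 hi') ⟨hf, hf', hcon⟩
  exact not_bf_zero _ _ this.1

/-- **SAME = INDEPENDENT before the first contact** (functional form) -/
theorem PS_eq_PI (hR : IsFiniteRangeDependent Q R) (s : SP u) {j : ℕ} {B : Set (PP d)}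
    (hBa : ∀ p ∈ B, Al u j p) (hB : Dt u j B) (hC : ∀ p ∈ B, NoC R 0 j ((s, p) : Om u))
    {F : PP d → ℝ≥0∞} (hF : ∀ p q : PP d, Eqv u j p.1 q.1 → Eqv u j p.2 q.2 → F p = F q) :
    ∫⁻ p in B, F p ∂(PSm κ Q s.1.1 s.1.2) = ∫⁻ p in B, F p ∂(PIm κ Q s.1.1 s.1.2) := by
  rw [lintegral_decomp hBa hB, lintegral_decomp hBa hB]
  refine tsum_congr fun c => ?_
  obtain ⟨c, h1, h2, h3⟩ := c
  have hconst : ∀ μ : Measure (PP d), ∫⁻ p in cylp u c, F p ∂μ
      = F (wx u c.1, wx u c.2) * μ (cylp u c) := by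
    intro μ
    have : ∫⁻ p in cylp u c, F p ∂μ = ∫⁻ _ in cylp u c, F (wx u c.1, wx u c.2) ∂μ := by
      refine setLIntegral_congr_fun (measurableSet_cylp _) fun p hp => ?_
      exact (hF (wx u c.1, wx u c.2) p ((eqv_iff_of_hit h1).2 hp.1)
        ((eqv_iff_of_hit h2).2 hp.2)).symm
    rw [this, setLIntegral_const]
  rw [hconst, hconst]
  congr 1
  exact PS_eq_PI_cyl hR s h1 h2 (hC _ h3)

theorem PS_eq_PI_set (hR : IsFiniteRangeDependent Q R) (s : SP u) {j : ℕ} {B : Set (PP d)}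
    (hBa : ∀ p ∈ B, Al u j p) (hB : Dt u j B) (hC : ∀ p ∈ B, NoC R 0 j ((s, p) : Om u)) :
    PSm κ Q s.1.1 s.1.2 B = PIm κ Q s.1.1 s.1.2 B := by
  have := PS_eq_PI (κ := κ) hR s hBa hB hC (F := fun _ => 1) (fun _ _ _ _ => rfl)
  simpa using this

end Crest.Agent.R154.B6I
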