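import Crest.Agent.R154.B6Hyp2_833

/-! R154 block B6, instance (helper833), part 7: consequences of the moves, main theorem of B6 for
the pair of marked walkers. -/

set_option autoImplicit false
set_option linter.unusedSectionVars false
set_option linter.deprecated false

open MeasureTheory ProbabilityTheory Filter Set
open scoped ENNReal Topology

namespace Crest.Agent.R154.B6I

open Crest.ProbabilityR.RandomEnvironment Crest.Agent.R154.Q561 Crest.Agent.R154.Ren263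
open Crest.Agent.R154.Mk561
open Crest.Agent.R154.Flux132 (lev)
open Crest.Agent.R154.Fin804 (lev_add lev_step_le)

local notation "shf" => Crest.Agent.R154.Ren263.shift

variable {d : ℕ} {u : Step d} {R : ℕ}
variable {κ : ℝ} {Q : Measure (Environment d)} [IsProbabilityMeasure Q]

variable (u R κ Q) in
/-- finite moves of a pair of walkers (816's M1, M2, M3). -/
structure Moves : Prop where
  m1 : ∀ r : ℕ, ∃ c : ℝ≥0∞, 0 < c ∧ ∀ s : SP u, (0 < kf d κ ∨ s.1.1 ≠ s.1.2) →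
    ∃ (W V : MPath d) (n m : ℕ) (t : SP u), Hit u (R+1) W n ∧ Hit u (R+1) V m ∧
      Nt u R 0 (R+1) W ∧ Nt u R 0 (R+1) V ∧ NoC R 0 (R+1) ((s, (W, V)) : Om u) ∧
      t.1 = (pos s.1.1 W n, pos s.1.2 V m) ∧ (∃ c, (r:ℤ) < |t.1.1 c - t.1.2 c|) ∧
      c ≤ PSm κ Q s.1.1 s.1.2 (Cy W n ×ˢ Cy V m)
  m2 : ∀ r : ℕ, ∃ c : ℝ≥0∞, 0 < c ∧ ∀ s : SP u,
    ∃ (W V : MPath d) (n m : ℕ) (t : SP u), Hit u (R+1) W n ∧ Hit u (R+1) V m ∧
      Nt u R 0 (R+1) W ∧ Nt u R 0 (R+1) V ∧
      t.1 = (pos s.1.1 W n, pos s.1.2 V m) ∧ (∃ c, (r:ℤ) < |t.1.1 c - t.1.2 c|) ∧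
      c ≤ PSm κ Q s.1.1 s.1.2 (Cy W n ×ˢ Cy V m)
  m3 : kf d κ = 0 → ∃ c : ℝ≥0∞, 0 < c ∧ ∀ s : SP u, s.1.1 = s.1.2 →
    ∃ (W V : MPath d) (n m : ℕ) (t : SP u), Hit u 1 W n ∧ Hit u 1 V m ∧
      Nt u 0 0 1 W ∧ Nt u 0 0 1 V ∧ ct 0 s (W, V) 0 0 ∧
      t.1 = (pos s.1.1 W n, pos s.1.2 V m) ∧ t.1.1 ≠ t.1.2 ∧
      c ≤ PSm κ Q s.1.1 s.1.2 (Cy W n ×ˢ Cy V m)
  frc : R = 0 ∨ 0 < kf d κ

lemma exists_real {c : ℝ≥0∞} (hc : 0 < c) :
    ∃ c' : ℝ, 0 < c' ∧ ∀ {μ : Measure (PP d)} [IsProbabilityMeasure μ] {A : Set (PP d)},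
      c ≤ μ A → c' ≤ μ.real A := by
  refine ⟨(min c 1).toReal, ENNReal.toReal_pos (by simp [hc.ne']) (by simp), ?_⟩
  intro μ _ A h
  exact ENNReal.toReal_mono (measure_ne_top _ _) ((min_le_left _ _).trans h)

/-- the event that the pair starts with two given words -/
def WB (s : SP u) (W V : MPath d) (n m : ℕ) : Set (Om u) :=
  {ω | ω.1 = s ∧ ω.2 ∈ Cy W n ×ˢ Cy V m}

lemma meas_WB (s : SP u) (W V : MPath d) (n m : ℕ) : MeasurableSet (WB s W V n m) :=
  (measurable_fst (measurableSet_singleton s)).inter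
    (measurable_snd ((measurableSet_Cy _ _).prod (measurableSet_Cy _ _)))

lemma fj_WB {s : SP u} {j : ℕ} {W V : MPath d} {n m : ℕ} (hW : Hit u j W n) (hV : Hit u j V m) :
    MeasurableSet[Fj u j] (WB s W V n m) := by
  refine ⟨meas_WB s W V n m, fun r p q h1 h2 hp => ?_⟩
  obtain ⟨e1, e2, e3⟩ := hp
  have g1 : Hit u j p.1 n := ((eqv_iff_of_hit hW).2 e2).hit hW
  have g2 : Hit u j p.2 m := ((eqv_iff_of_hit hV).2 e3).hit hV
  refine ⟨e1, fun i hi => ?_, fun i hi => ?_⟩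
  · rw [← h1.agree g1 i hi]; exact e2 i hi
  · rw [← h2.agree g2 i hi]; exact e3 i hi

lemma P_WB (s : SP u) (W V : MPath d) (n m : ℕ) :
    ((sys u R κ Q).P s).real (WB s W V n m)
      = (PSm κ Q s.1.1 s.1.2).real (Cy W n ×ˢ Cy V m) := by
  simp only [Measure.real]
  rw [P_apply s (meas_WB s W V n m)]
  congr 2
  ext p
  simp [WB]

/-- **using a move**: follow the two words, then restart. -/
lemma move_le (hR : IsFiniteRangeDependent Q R) {s t : SP u} {a n' L : ℕ} (hL : a ≤ L)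
    (hLn : L ≤ n') {W V : MPath d} {n m : ℕ} (hW : Hit u a W n) (hV : Hit u a V m)
    (ht : t.1 = (pos s.1.1 W n, pos s.1.2 V m)) :
    ((sys u R κ Q).P s).real (WB s W V n m ∩ ((sys u R κ Q).N a n' ∩ (sys u R κ Q).nocs a L))
      = (PSm κ Q s.1.1 s.1.2).real (Cy W n ×ˢ Cy V m) * (sys u R κ Q).φ (n'-a) (L-a) t := by
  have htip : ∀ ω ∈ WB s W V n m, (sys u R κ Q).st a ω = t := by
    rintro ω ⟨e1, e2, e3⟩
    apply Subtype.ext
    change (tip a ω.1 ω.2).1 = t.1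
    have g1 : Hit u a ω.2.1 n := ((eqv_iff_of_hit hW).2 e2).hit hW
    have g2 : Hit u a ω.2.2 m := ((eqv_iff_of_hit hV).2 e3).hit hV
    rw [tip_val ω.1 g1 g2, ht, e1, pos_congr s.1.1 e2 le_rfl, pos_congr s.1.2 e3 le_rfl]
  have hal : WB s W V n m ⊆ (sys u R κ Q).al a := by
    rintro ω ⟨e1, e2, e3⟩
    exact ⟨⟨n, ((eqv_iff_of_hit hW).2 e2).hit hW⟩, ⟨m, ((eqv_iff_of_hit hV).2 e3).hit hV⟩⟩
  rw [FP_field hR s a L n' hL hLn _ (fj_WB hW hV) hal, ← P_WB (R := R) s W V n m]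
  have : ∫ ω in WB s W V n m, (sys u R κ Q).φ (n'-a) (L-a) ((sys u R κ Q).st a ω)
        ∂((sys u R κ Q).P s)
      = ∫ _ in WB s W V n m, (sys u R κ Q).φ (n'-a) (L-a) t ∂((sys u R κ Q).P s) :=
    setIntegral_congr_fun (meas_WB s W V n m) fun ω hω => by
      rw [htip ω hω]
  rw [this, setIntegral_const, smul_eq_mul]

lemma ue1_field (hR : IsFiniteRangeDependent Q R) (hM : Moves u R κ Q) (r : ℕ) :
    ∃ c > (0:ℝ), ∀ s ∈ (sys u R κ Q).Dist, ∃ s' ∈ Far u r, ∀ m,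
      c * (sys u R κ Q).b m s' ≤ (sys u R κ Q).b (m + (R+1)) s := by
  obtain ⟨c, hc, H⟩ := hM.m1 r
  obtain ⟨c', hc', H'⟩ := exists_real (d := d) hc
  refine ⟨c', hc', fun s hs => ?_⟩
  obtain ⟨W, V, n, m, t, hW, hV, hNW, hNV, hNC, ht, hfar, hle⟩ := H s hs
  refine ⟨t, hfar, fun k => ?_⟩
  have h1 := move_le (κ := κ) (Q := Q) hR (s := s) (t := t) (a := R+1) (n' := k + (R+1))
    (L := k + (R+1)) (by omega) le_rfl hW hV ht
  rw [show k + (R+1) - (R+1) = k by omega] at h1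
  have h2 : WB s W V n m ∩ ((sys u R κ Q).N (R+1) (k+(R+1)) ∩
      (sys u R κ Q).nocs (R+1) (k+(R+1))) ⊆
      (sys u R κ Q).N 0 (k+(R+1)) ∩ (sys u R κ Q).nocs 0 (k+(R+1)) := by
    rintro ω ⟨⟨e1, e2, e3⟩, e4, e5⟩
    have q1 := (eqv_iff_of_hit hW).2 e2
    have q2 := (eqv_iff_of_hit hV).2 e3
    refine ⟨(sys u R κ Q).N_trans 0 (R+1) _ (by omega) (by omega) ω
      ⟨q1.nt (Nat.zero_le _) hNW, q2.nt (Nat.zero_le _) hNV⟩ e4, ?_⟩
    rw [nocs_eq (by omega)] at e5 ⊢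
    intro i i' f1 f2 f3
    obtain ⟨g1, g2⟩ := e5 i i' f1 f2 f3
    have := dt_noC (Nat.zero_le (R+1)) s (W, V) ω.2 q1 q2 hNC
    rw [← e1] at this
    exact this i i' g1 g2 f3
  have h3 := measureReal_mono (μ := (sys u R κ Q).P s) h2
  rw [h1] at h3
  refine le_trans ?_ h3
  exact mul_le_mul_of_nonneg_right (H' hle) measureReal_nonneg

lemma phi_anti (s : SP u) {n n' : ℕ} (h : n ≤ n') :
    (sys u R κ Q).φ n' 0 s ≤ (sys u R κ Q).φ n 0 s :=
  measureReal_mono fun ω hω => ⟨⟨hω.1.1.left h, hω.1.2.left h⟩, hω.2⟩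

variable (hstat : ∀ z : Site d, MeasurePreserving (shiftEnv z) Q Q)
include hstat

/-- pairs at a large distance are natural for ever with probability `≥ p²/2`. -/
lemma lower_far (hR : IsFiniteRangeDependent Q R) (hp : 0 < pp u R κ Q) :
    ∃ r, ∀ t ∈ Far u r, ∀ n, pp u R κ Q ^ 2 / 2 ≤ (sys u R κ Q).φ n 0 t := by
  set p := pp u R κ Q with hpdef
  have hε : 0 < p ^ 2 / 4 := by positivity
  obtain ⟨m, hm⟩ := ((tendsto_order.1 (hh_lim (u := u) (R := R) (κ := κ) (Q := Q))).2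
    (p + p^2/8) (by linarith [show 0 < p^2/8 by positivity])).exists
  obtain ⟨r, hr⟩ := far_field hstat hR (u := u) (κ := κ) m (p^2/4) hε
  refine ⟨r, fun t ht n => ?_⟩
  have h1 := hr t ht
  have h2 := pp_le_hh (u := u) (R := R) (κ := κ) (Q := Q) m
  have h3 : (sys u R κ Q).b m t ≤ (sys u R κ Q).φ m 0 t :=
    measureReal_mono fun ω hω => ⟨hω.1, fun l hl hl0 => absurd hl (by omega)⟩
  have h4 : p^2 ≤ hh u R κ Q m ^ 2 := by
    have : 0 ≤ p := hp.le
    nlinarith [h2]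
  rcases le_total n m with hnm | hnm
  · have := phi_anti (κ := κ) (Q := Q) (R := R) t hnm
    linarith
  · have := tail_field hstat (u := u) (R := R) (κ := κ) t m n hnm
    linarith

lemma lower_field (hR : IsFiniteRangeDependent Q R) (hM : Moves u R κ Q)
    (hp : 0 < pp u R κ Q) :
    ∃ c₁ > (0:ℝ), ∀ s n, c₁ ≤ (sys u R κ Q).φ n 0 s := by
  obtain ⟨r, hr⟩ := lower_far hstat hR hp (u := u) (κ := κ)
  obtain ⟨c, hc, H⟩ := hM.m2 r
  obtain ⟨c', hc', H'⟩ := exists_real (d := d) hc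
  refine ⟨c' * (pp u R κ Q ^ 2 / 2), by positivity, fun s n => ?_⟩
  obtain ⟨W, V, k, m, t, hW, hV, hNW, hNV, ht, hfar, hle⟩ := H s
  have h1 := move_le (κ := κ) (Q := Q) hR (s := s) (t := t) (a := R+1) (n' := n + (R+1))
    (L := R+1) le_rfl (by omega) hW hV ht
  rw [show n + (R+1) - (R+1) = n by omega, Nat.sub_self] at h1
  have h2 : WB s W V k m ∩ ((sys u R κ Q).N (R+1) (n+(R+1)) ∩
      (sys u R κ Q).nocs (R+1) (R+1)) ⊆
      (sys u R κ Q).N 0 n ∩ (sys u R κ Q).nocs 0 0 := by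
    rintro ω ⟨⟨e1, e2, e3⟩, e4, _⟩
    have q1 := (eqv_iff_of_hit hW).2 e2
    have q2 := (eqv_iff_of_hit hV).2 e3
    have h5 := (sys u R κ Q).N_trans 0 (R+1) _ (by omega) (by omega) ω
      ⟨q1.nt (Nat.zero_le _) hNW, q2.nt (Nat.zero_le _) hNV⟩ e4
    exact ⟨⟨h5.1.left (by omega), h5.2.left (by omega)⟩, fun l hl hl0 => absurd hl (by omega)⟩
  have h3 := measureReal_mono (μ := (sys u R κ Q).P s) h2
  rw [h1] at h3
  refine le_trans ?_ h3
  exact mul_le_mul (H' hle) (hr t hfar n) (by positivity) measureReal_nonneg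

omit hstat in
/-- forced marks have probability `kf` -/
lemma unforced_ae (hk : kf d κ = 0) (x : Site d) : mkAnn κ Q x {M | (M 0).2 = true} = 0 := by
  have hm : MeasurableSet {M : MPath d | (M 0).2 = true} :=
    set_of_mp ((measurable_of_countable fun m : Mark d => m.2 = true).comp
      (measurable_pi_apply 0))
  have hsub : {M : MPath d | (M 0).2 = true} = ⋃ e : Step d, Cy (fun _ => (e, true)) 1 := by
    ext M
    simp only [Set.mem_ofPred_eq, Set.mem_iUnion]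
    constructor
    · intro h
      refine ⟨(M 0).1, fun i hi => ?_⟩
      have : i = 0 := by omega
      subst this
      exact Prod.ext rfl h
    · rintro ⟨e, he⟩
      rw [he 0 (by omega)]
  rw [hsub]
  refine measure_iUnion_null fun e => ?_
  rw [mkAnn_apply κ Q x (measurableSet_Cy _ _)]
  simp only [mk_cyl]
  have : ∀ ω : Environment d, wgt κ ω x (fun _ => (e, true)) 1 = 0 := by
    intro ω
    rw [wgt_forced κ ω x (fun i _ => rfl), hk]; simp
  simp [this]

omit hstat in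
lemma eqz_field (hM : Moves u R κ Q) (s : SP u) (hs : s ∉ (sys u R κ Q).Dist) (n k : ℕ)
    (hk : R + 1 ≤ k) (_hkn : k ≤ n) : (sys u R κ Q).φ n k s = 0 := by
  have hs' : ¬ (0 < kf d κ ∨ s.1.1 ≠ s.1.2) := hs
  push Not at hs'
  obtain ⟨h1, h2⟩ := hs'
  have hkf : kf d κ = 0 := le_antisymm h1 (kf_nonneg κ)
  have hR0 : R = 0 := by
    rcases hM.frc with h | h
    · exact h
    · exact absurd h (not_lt.2 h1)
  subst hR0
  rw [phi_eq]
  simp only [Measure.real]
  rw [P_apply s (meas_EN _ _)]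
  have h3 : PSm κ Q s.1.1 s.1.2 {p | ((s, p) : Om u) ∈ EN u 0 n k} = 0 := by
    have hm : MeasurableSet {M : MPath d | (M 0).2 = true} :=
      set_of_mp ((measurable_of_countable fun m : Mark d => m.2 = true).comp
        (measurable_pi_apply 0))
    have hsub : {p : PP d | ((s, p) : Om u) ∈ EN u 0 n k} ⊆
        {p | p.1 ∈ {M : MPath d | (M 0).2 = true}} ∪ {p | p.2 ∈ {M : MPath d | (M 0).2 = true}} := by
      intro p hp
      by_contra hcon
      simp only [Set.mem_union, Set.mem_ofPred_eq, not_or, Bool.not_eq_true] at hcon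
      have hb : ∀ M : MPath d, bf u k M 0 := by
        intro M i hi
        rw [Nat.le_zero.1 hi, zt_zero]
        exact_mod_cast (by omega : 0 < k)
      refine not_bf_zero _ _ (hp.2 0 0 (hb _) (hb _) ⟨hcon.1, hcon.2, fun c => ?_⟩).1
      rw [pos_zero, pos_zero, h2]; simp
    refine measure_mono_null hsub ((measure_union_null_iff).2 ⟨?_, ?_⟩)
    · rw [PSm_fst κ Q _ _ hm]; exact unforced_ae hkf _
    · rw [PSm_snd κ Q _ _ hm]; exact unforced_ae hkf _
  rw [h3]; simp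

omit hstat in
lemma ue3_field (hR : IsFiniteRangeDependent Q R) (hM : Moves u R κ Q) :
    ∃ cₑ > (0:ℝ), ∀ s l, ∀ B, MeasurableSet[(sys u R κ Q).F l] B → B ⊆ (sys u R κ Q).al l →
      (∀ ω ∈ B, (sys u R κ Q).st l ω ∉ (sys u R κ Q).Dist) →
      cₑ * ((sys u R κ Q).P s).real B ≤
        ((sys u R κ Q).P s).real (B ∩ ((sys u R κ Q).N l (l+(R+1)) ∩ (sys u R κ Q).cs (l+(R+1)) ∩
          (sys u R κ Q).st (l+(R+1)) ⁻¹' (sys u R κ Q).Dist)) := by
  rcases eq_or_lt_of_le (kf_nonneg (d := d) κ) with hkf | hkf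
  · -- kf = 0
    have hR0 : R = 0 := by
      rcases hM.frc with h | h
      · exact h
      · rw [← hkf] at h; exact absurd h (lt_irrefl _)
    subst hR0
    obtain ⟨c, hc, H⟩ := hM.m3 hkf.symm
    obtain ⟨c', hc', H'⟩ := exists_real (d := d) hc
    refine ⟨c', hc', fun s l B hB hBa hBD => ?_⟩
    set E : Set (Om u) := {ω | ((Nt u 0 0 1 ω.2.1 ∧ Nt u 0 0 1 ω.2.2) ∧ Cs 0 1 ω) ∧
      tip 1 ω.1 ω.2 ∈ (sys u 0 κ Q).Dist} with hE
    have hEm : MeasurableSet[Fj u 1] E := by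
      refine ⟨set_of_mp (Measurable.and (Measurable.and (Measurable.and ((mp_nt 0 0 1).comp meas_p1)
        ((mp_nt 0 0 1).comp meas_p2)) (mp_cs 0 1)) (meas_tip_comp 1 fun t =>
          t ∈ (sys u 0 κ Q).Dist)), fun t p q h1 h2 hp => ?_⟩
      refine ⟨⟨dt_nt (Nat.zero_le 1) p q h1 h2 hp.1.1, dt_cs 0 1 t p q h1 h2 hp.1.2⟩, ?_⟩
      have := hp.2
      simp only at this ⊢
      rw [← tip_eqv t h1 h2]; exact this
    have key := P_restart_real (κ := κ) (Q := Q) hR s (j := l) (k := 1) (B := B)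
      (G := (sys u 0 κ Q).N l (l+(0+1)) ∩ (sys u 0 κ Q).cs (l+(0+1)) ∩
          (sys u 0 κ Q).st (l+(0+1)) ⁻¹' (sys u 0 κ Q).Dist) (E := E) hB (fun ω hω => hBa hω) hEm
      (fun t p hp => hp.1.1) ?_ ?_
    · rw [key]
      have hlow : ∀ ω ∈ B, c' ≤ ((sys u 0 κ Q).P (tip l ω.1 ω.2)).real E := by
        intro ω hω
        have h1 := hBD ω hω
        set t := tip l ω.1 ω.2 with ht
        have h2 : ¬ (0 < kf d κ ∨ t.1.1 ≠ t.1.2) := h1
        push Not at h2
        obtain ⟨W, V, n, m, t', hW, hV, hNW, hNV, hct, ht', hne, hle⟩ := H t h2.2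
        refine (H' hle).trans ?_
        simp only [Measure.real]
        rw [P_apply t hEm.1]
        refine ENNReal.toReal_mono (measure_ne_top _ _) (measure_mono ?_)
        rintro p ⟨e2, e3⟩
        have q1 := (eqv_iff_of_hit hW).2 e2
        have q2 := (eqv_iff_of_hit hV).2 e3
        have hb : ∀ M : MPath d, bf u 1 M 0 := by
          intro M i hi
          rw [Nat.le_zero.1 hi, zt_zero]
          norm_num
        refine ⟨⟨⟨q1.nt (Nat.zero_le _) hNW, q2.nt (Nat.zero_le _) hNV⟩,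
          ⟨0, 0, hb _, hb _, ct_eqv (p := (W, V)) (q := p) q1 q2 (hb _) (hb _) hct,
            fun hcon => not_bf_zero _ _ hcon.1⟩⟩, ?_⟩
        have h5 : tip 1 t p = t' := by
          apply Subtype.ext
          rw [← tip_eqv (p := (W, V)) (q := p) t q1 q2, tip_val (p := (W, V)) t hW hV, ht']
        change tip 1 t p ∈ (sys u 0 κ Q).Dist
        rw [h5]
        exact Or.inr hne
      have h6 : ∫ _ in B, c' ∂((sys u 0 κ Q).P s)
          ≤ ∫ ω in B, ((sys u 0 κ Q).P (tip l ω.1 ω.2)).real E ∂((sys u 0 κ Q).P s) := by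
        refine setIntegral_mono_on (integrable_const _) ?_ hB.1 hlow
        refine Integrable.of_bound
          (meas_tip_comp l fun r => ((sys u 0 κ Q).P r).real E).aestronglyMeasurable 1
          (Filter.Eventually.of_forall fun ω => ?_)
        rw [Real.norm_eq_abs, abs_of_nonneg measureReal_nonneg]
        exact measureReal_le_one
      rw [setIntegral_const, smul_eq_mul, mul_comm] at h6
      exact h6
    · exact set_of_mp (Measurable.and (Measurable.and (Measurable.and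
        ((mp_nt 0 l (l+(0+1))).comp meas_p1) ((mp_nt 0 l (l+(0+1))).comp meas_p2))
        (mp_cs 0 (l+(0+1)))) (meas_tip_comp (l+(0+1)) fun t => t ∈ (sys u 0 κ Q).Dist))
    · intro ω hω
      have h1 := shift_iff (R := 0) (j := l) (L := l+1) (n := l+1) (by omega) le_rfl ω.1 (hBa hω)
      have e0 := noC_iff (R := 0) (j := l) (L := l+1) (by omega) ω
      have e1 := noC_iff (R := 0) (j := 0) (L := 1) (by omega)
        ((tip l ω.1 ω.2, th u l ω.2) : Om u)
      have f0 : Cs 0 (l+1) ω ↔ ¬ NoC 0 l (l+1) ω := by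
        rw [← e0]
        constructor
        · intro h h'; exact h' (l+1) (by omega) le_rfl h
        · intro h; by_contra hcon
          exact h fun l' h1 h2 => by
            have : l' = l+1 := by omega
            subst this; exact hcon
      have f1 : Cs 0 1 ((tip l ω.1 ω.2, th u l ω.2) : Om u)
          ↔ ¬ NoC 0 0 1 ((tip l ω.1 ω.2, th u l ω.2) : Om u) := by
        rw [← e1]
        constructor
        · intro h h'; exact h' 1 (by omega) le_rfl h
        · intro h; by_contra hcon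
          exact h fun l' h1 h2 => by
            have : l' = 1 := by omega
            subst this; exact hcon
      rw [show l + 1 - l = 1 by omega] at h1
      obtain ⟨⟨a, ha⟩, ⟨b, hb⟩⟩ := hBa hω
      have n1 := nt_shift_iff (R := 0) (le_refl l) (show l ≤ l+1 by omega) ha
      have n2 := nt_shift_iff (R := 0) (le_refl l) (show l ≤ l+1 by omega) hb
      rw [Nat.sub_self, show l + 1 - l = 1 by omega] at n1 n2
      have hN : (Nt u 0 l (l+1) ω.2.1 ∧ Nt u 0 l (l+1) ω.2.2) ↔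
          (Nt u 0 0 1 (th u l ω.2).1 ∧ Nt u 0 0 1 (th u l ω.2).2) := by
        rw [th_eq ha hb, n1, n2]
      constructor
      · rintro ⟨⟨g1, g2⟩, g3⟩
        have g1' : Nt u 0 l (l+1) ω.2.1 ∧ Nt u 0 l (l+1) ω.2.2 := g1
        have g2' : Cs 0 (l+1) ω := g2
        refine ⟨⟨hN.1 g1', ?_⟩, ?_⟩
        · rw [f1]
          intro hcon
          exact (f0.1 g2') (h1.2 ⟨hN.1 g1', hcon⟩).2
        · have h4 : Al u (l+1) ω.2 := ⟨g1'.1.alv, g1'.2.alv⟩
          have h5 := tip_shift (j := l) (n := l+1) (by omega) ω.1 h4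
          rw [show l + 1 - l = 1 by omega] at h5
          change tip 1 (tip l ω.1 ω.2) (th u l ω.2) ∈ (sys u 0 κ Q).Dist
          rw [h5]; exact g3
      · rintro ⟨⟨g1, g2⟩, g3⟩
        have g1' := hN.2 g1
        refine ⟨⟨g1', ?_⟩, ?_⟩
        · change Cs 0 (l+1) ω
          rw [f0]
          intro hcon
          exact (f1.1 g2) (h1.1 ⟨g1', hcon⟩).2
        · have h4 : Al u (l+1) ω.2 := ⟨g1'.1.alv, g1'.2.alv⟩
          have h5 := tip_shift (j := l) (n := l+1) (by omega) ω.1 h4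
          rw [show l + 1 - l = 1 by omega] at h5
          change tip (l+1) ω.1 ω.2 ∈ (sys u 0 κ Q).Dist
          rw [← h5]; exact g3
  · refine ⟨1, one_pos, fun s l B hB hBa hBD => ?_⟩
    have : B = ∅ := by
      rw [Set.eq_empty_iff_forall_notMem]
      intro ω hω
      exact hBD ω hω (Or.inl hkf)
    rw [this]; simp

/-- **(KB)**, the output of B4 -/
def KB (u : Step d) (R : ℕ) (κ : ℝ) (Q : Measure (Environment d)) [IsProbabilityMeasure Q] : Prop :=
  ∀ ε > (0:ℝ), ∃ m₀ : ℕ, ∀ m ≥ m₀, ∀ s ∈ (sys u R κ Q).Dist,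
    (sys u R κ Q).b m s - (sys u R κ Q).b (2 * m) s ≤ ε

/-- **the hypotheses of the abstract theorem hold for the pair of marked walkers.** -/
theorem hyp (hR : IsFiniteRangeDependent Q R) (hM : Moves u R κ Q) (hp : 0 < pp u R κ Q)
    (hKB : KB u R κ Q) :
    ∃ c₁ cₑ : ℝ, (sys u R κ Q).Hyp (R+1) c₁ cₑ (fun m => 2 * (hh u R κ Q m - pp u R κ Q))
      (hh u R κ Q) (pp u R κ Q) (Far u) (chi R κ Q) := by
  obtain ⟨c₁, hc₁, hlow⟩ := lower_field hstat hR hM hp
  obtain ⟨cₑ, hcₑ, hue3⟩ := ue3_field hR hM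
  refine ⟨c₁, cₑ, ?_⟩
  exact
    { a1 := by omega
      c₁pos := hc₁
      cₑpos := hcₑ
      FP := FP_field hR
      lower := hlow
      tail := tail_field hstat
      β_lim := by
        have := ((hh_lim (u := u) (R := R) (κ := κ) (Q := Q)).sub_const (pp u R κ Q)).const_mul 2
        simpa using this
      KB := hKB
      eqz := fun s hs n k hk hkn => eqz_field hM s hs n k hk hkn
      ppos := hp
      h_lim := hh_lim
      h_ge := pp_le_hh
      ub := fun s _ m => ub_field hstat hR s m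
      far_dist := by
        rintro r s ⟨c, hc⟩
        refine Or.inr fun h => ?_
        rw [h] at hc
        simp only [sub_self, abs_zero] at hc
        exact absurd hc (not_lt.2 (Int.natCast_nonneg r))
      far := far_field hstat hR
      ue1 := ue1_field hR hM
      ue3 := hue3
      χ0 := chi_nonneg
      χ1 := chi_le_one
      χFP := fun s j n m hjn B hB hBa _ => chiFP_field hR s j n m hjn B hB hBa }

/-- **THEOREM B6** for the pair of marked walkers: from EVERY pair of sites at the same level, in the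
same environment, naturally up to level `n`, the tips at level `n` have small (independent)
contact probability up to level `C n` above. -/
theorem B6 (hR : IsFiniteRangeDependent Q R) (hM : Moves u R κ Q) (hp : 0 < pp u R κ Q)
    (hKB : KB u R κ Q) (C : ℕ) :
    ∀ ε > (0:ℝ), ∃ n₀ : ℕ, ∀ n ≥ n₀, ∀ s : SP u,
      ∫ ω in (sys u R κ Q).N 0 n, chi R κ Q (C * n) (tip n ω.1 ω.2) ∂((sys u R κ Q).P s) ≤ ε := by
  obtain ⟨c₁, cₑ, H⟩ := hyp hstat hR hM hp hKB
  exact B6_833.PairSys.main H C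

/-- **THEOREM B6**, on pairs of marked paths. -/
theorem B6_lintegral (hR : IsFiniteRangeDependent Q R) (hM : Moves u R κ Q)
    (hp : 0 < pp u R κ Q) (hKB : KB u R κ Q) (C : ℕ) :
    ∀ ε > (0:ℝ), ∃ n₀ : ℕ, ∀ n ≥ n₀, ∀ s : SP u,
      ∫⁻ p in {p | Nt u R 0 n p.1 ∧ Nt u R 0 n p.2}, XE R κ Q (C * n) (tip n s p)
        ∂(PSm κ Q s.1.1 s.1.2) ≤ ENNReal.ofReal ε := by
  intro ε hε
  obtain ⟨n₀, hn₀⟩ := B6 hstat hR hM hp hKB C ε hε
  refine ⟨n₀, fun n hn s => ?_⟩
  have h1 := hn₀ n hn s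
  have hNm : MeasurableSet ((sys u R κ Q).N 0 n) := (sys u R κ Q).F_le n _
    ((sys u R κ Q).N_meas 0 n (Nat.zero_le n))
  have h2 : ∫ ω in (sys u R κ Q).N 0 n, chi R κ Q (C * n) (tip n ω.1 ω.2) ∂((sys u R κ Q).P s)
      = (∫⁻ ω in (sys u R κ Q).N 0 n, XE R κ Q (C * n) (tip n ω.1 ω.2)
          ∂((sys u R κ Q).P s)).toReal :=
    integral_toReal (meas_tip_comp n fun r => XE R κ Q (C*n) r).aemeasurable
      (Filter.Eventually.of_forall fun ω => measure_lt_top _ _)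
  have h3 : ∫⁻ ω in (sys u R κ Q).N 0 n, XE R κ Q (C * n) (tip n ω.1 ω.2)
      ∂((sys u R κ Q).P s) ≠ ⊤ := by
    refine ne_top_of_le_ne_top (measure_ne_top ((sys u R κ Q).P s) ((sys u R κ Q).N 0 n)) ?_
    calc ∫⁻ ω in (sys u R κ Q).N 0 n, XE R κ Q (C * n) (tip n ω.1 ω.2) ∂((sys u R κ Q).P s)
        ≤ ∫⁻ _ in (sys u R κ Q).N 0 n, 1 ∂((sys u R κ Q).P s) :=
          lintegral_mono fun ω => XE_le_one _ _
      _ = (sys u R κ Q).P s ((sys u R κ Q).N 0 n) := by simp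
  rw [h2] at h1
  rw [P_lintegral s hNm (meas_tip_comp n fun r => XE R κ Q (C*n) r)] at h1 h3
  exact (ENNReal.le_ofReal_iff_toReal_le h3 hε.le).2 h1

end Crest.Agent.R154.B6I
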