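import Crest.Agent.R154.Quenched_850

/-! Row 154, B0a (helper541): Markov and strong Markov property of `quenchedLaw` with a functional
of the past and the future; almost sure path properties (`X 0 = x`, nearest neighbour). -/

set_option autoImplicit false

namespace Crest.Agent.R154

open MeasureTheory ProbabilityTheory Crest.ProbabilityR.RandomEnvironment
open scoped ENNReal

variable {d : ℕ}

lemma iUnion_cyl_ext (n : ℕ) :
    ⋃ h : Fin (n + 1) → Site d, cyl (ext n h) n = Set.univ := by
  ext X
  simp only [Set.mem_univ, Set.mem_iUnion, iff_true]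
  exact ⟨hist n X, ext_hist n X⟩

lemma pairwise_disjoint_cyl_ext (n : ℕ) : Pairwise (Function.onFun Disjoint
    fun h : Fin (n + 1) → Site d => cyl (ext n h) n) := by
  intro h h' hne
  rw [Function.onFun, Set.disjoint_left]
  intro X hX hX'
  rw [mem_cyl_ext_iff] at hX hX'
  exact hne (hX.symm.trans hX')

/-- Integral as a sum over the cylinders of length `n`. -/
lemma lintegral_eq_tsum_cyl (n : ℕ) (μ : Measure (Path d)) (f : Path d → ℝ≥0∞) :
    ∫⁻ X, f X ∂μ = ∑' h : Fin (n + 1) → Site d, ∫⁻ X in cyl (ext n h) n, f X ∂μ := by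
  rw [← lintegral_iUnion (fun h => measurableSet_cyl _ _) (pairwise_disjoint_cyl_ext n),
    iUnion_cyl_ext, Measure.restrict_univ]

/-- **Markov property at time `n`**, with a functional of the past and the future. -/
theorem markov2 (ω : Environment d) (x : Site d) (n : ℕ) {F : Path d → Path d → ℝ≥0∞}
    (hF1 : ∀ X X', Agree n X X' → F X = F X') (hF2 : ∀ X, Measurable (F X)) :
    ∫⁻ X, F X (shift n X) ∂quenchedLaw ω x
      = ∫⁻ X, ∫⁻ Y, F X Y ∂quenchedLaw ω (X n) ∂quenchedLaw ω x := by
  rw [lintegral_eq_tsum_cyl n, lintegral_eq_tsum_cyl n]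
  refine tsum_congr fun h => ?_
  have hl : ∫⁻ X in cyl (ext n h) n, F X (shift n X) ∂quenchedLaw ω x
      = ∫⁻ X in cyl (ext n h) n, F (ext n h) (shift n X) ∂quenchedLaw ω x := by
    refine setLIntegral_congr_fun (measurableSet_cyl _ _) fun X hX => ?_
    rw [hF1 X (ext n h) hX]
  have hr : ∫⁻ X in cyl (ext n h) n, ∫⁻ Y, F X Y ∂quenchedLaw ω (X n) ∂quenchedLaw ω x
      = ∫⁻ _ in cyl (ext n h) n, ∫⁻ Y, F (ext n h) Y ∂quenchedLaw ω (ext n h n)
          ∂quenchedLaw ω x := by
    refine setLIntegral_congr_fun (measurableSet_cyl _ _) fun X hX => ?_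
    rw [hF1 X (ext n h) hX, hX n le_rfl]
  rw [hl, hr, setLIntegral_const, ← lintegral_map (hF2 _) (measurable_shift n),
    markov_cyl, lintegral_smul_measure, smul_eq_mul, mul_comm]

/-- Markov property for events. -/
theorem markov_event (ω : Environment d) (x : Site d) (n : ℕ) {A B : Set (Path d)}
    (hA : ∀ X Y, Agree n X Y → (X ∈ A ↔ Y ∈ A)) (hB : MeasurableSet B) :
    quenchedLaw ω x (A ∩ shift n ⁻¹' B) = ∫⁻ X in A, quenchedLaw ω (X n) B ∂quenchedLaw ω x := by
  classical
  have hAm : MeasurableSet A := measurableSet_of_agree n A hA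
  have h := markov2 ω x n (F := fun X Y => A.indicator 1 X * B.indicator 1 Y)
    (fun X X' hX => by
      have : A.indicator (1 : Path d → ℝ≥0∞) X = A.indicator 1 X' := by
        simp only [Set.indicator, hA X X' hX, Pi.one_apply]
      simp only [this])
    (fun X => (measurable_one.indicator hB).const_mul _)
  have hl : quenchedLaw ω x (A ∩ shift n ⁻¹' B)
      = ∫⁻ X, A.indicator 1 X * B.indicator 1 (shift n X) ∂quenchedLaw ω x := by
    rw [← lintegral_indicator_one (hAm.inter ((measurable_shift n) hB))]
    refine lintegral_congr fun X => ?_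
    simp only [Set.indicator, Set.mem_inter_iff, Set.mem_preimage, Pi.one_apply]
    by_cases h1 : X ∈ A <;> by_cases h2 : shift n X ∈ B <;> simp [h1, h2]
  rw [hl, h, ← lintegral_indicator hAm]
  refine lintegral_congr fun X => ?_
  rw [lintegral_const_mul _ (measurable_one.indicator hB), lintegral_indicator_one hB]
  by_cases h1 : X ∈ A <;> simp [h1]

/-! ### Stopping times -/

lemma IsStop.iff {τ : Path d → ℕ∞} (h : IsStop τ) {n : ℕ} {X Y : Path d} (hXY : Agree n X Y) :
    τ X = n ↔ τ Y = n := ⟨h X Y n hXY, h Y X n hXY.symm⟩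

lemma IsStop.measurableSet_eq {τ : Path d → ℕ∞} (h : IsStop τ) (n : ℕ) :
    MeasurableSet {X | τ X = n} :=
  measurableSet_of_agree n _ fun _ _ hXY => h.iff hXY

lemma ne_top_eq_iUnion (τ : Path d → ℕ∞) : {X : Path d | τ X ≠ ⊤} = ⋃ n : ℕ, {X | τ X = n} := by
  ext X
  simp only [Set.mem_ofPred_eq, Set.mem_iUnion]
  constructor
  · intro h
    exact ⟨(τ X).toNat, (ENat.natCast_toNat h).symm⟩
  · rintro ⟨n, hn⟩
    rw [hn]; exact ENat.natCast_ne_top n

lemma pairwise_disjoint_eq (τ : Path d → ℕ∞) :
    Pairwise (Function.onFun Disjoint fun n : ℕ => {X : Path d | τ X = n}) := by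
  intro n m hnm
  refine Set.disjoint_left.2 fun X hX hX' => hnm ?_
  simp only [Set.mem_ofPred_eq] at hX hX'
  exact_mod_cast hX.symm.trans hX'

lemma IsStop.measurableSet_ne_top {τ : Path d → ℕ∞} (h : IsStop τ) :
    MeasurableSet {X : Path d | τ X ≠ ⊤} := by
  rw [ne_top_eq_iUnion]
  exact MeasurableSet.iUnion fun n => h.measurableSet_eq n

lemma IsStop.measurable {τ : Path d → ℕ∞} (h : IsStop τ) : Measurable τ := by
  refine measurable_to_countable' fun a => ?_
  induction a with
  | top =>
    have : τ ⁻¹' {⊤} = {X | τ X ≠ ⊤}ᶜ := by ext X; simp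
    rw [this]; exact h.measurableSet_ne_top.compl
  | coe n => exact h.measurableSet_eq n

/-- **Strong Markov property**, with a functional of the past and the future. -/
theorem strong_markov (ω : Environment d) (x : Site d) {τ : Path d → ℕ∞} (hτ : IsStop τ)
    {F : Path d → Path d → ℝ≥0∞} (hF1 : DetBy τ F) (hF2 : ∀ X, Measurable (F X)) :
    ∫⁻ X in {X | τ X ≠ ⊤}, F X (shift (τ X).toNat X) ∂quenchedLaw ω x
      = ∫⁻ X in {X | τ X ≠ ⊤}, ∫⁻ Y, F X Y ∂quenchedLaw ω (X (τ X).toNat) ∂quenchedLaw ω x := by
  classical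
  rw [ne_top_eq_iUnion, lintegral_iUnion hτ.measurableSet_eq (pairwise_disjoint_eq τ),
    lintegral_iUnion hτ.measurableSet_eq (pairwise_disjoint_eq τ)]
  refine tsum_congr fun n => ?_
  have hm := markov2 ω x n (F := fun X Y => {X : Path d | τ X = n}.indicator (fun X => F X Y) X)
    (fun X X' hX => by
      funext Y
      by_cases h1 : τ X = n
      · have h2 : τ X' = n := hτ X X' n hX h1
        rw [Set.indicator_of_mem (show X ∈ {X : Path d | τ X = n} from h1),
          Set.indicator_of_mem (show X' ∈ {X : Path d | τ X = n} from h2), hF1 X X' n hX h1]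
      · have h2 : ¬ τ X' = n := fun h2 => h1 (hτ X' X n hX.symm h2)
        rw [Set.indicator_of_notMem (show X ∉ {X : Path d | τ X = n} from h1),
          Set.indicator_of_notMem (show X' ∉ {X : Path d | τ X = n} from h2)])
    (fun X => by
      by_cases h1 : τ X = n
      · simp only [Set.indicator, Set.mem_ofPred_eq, h1, if_true]
        exact hF2 X
      · simp only [Set.indicator, Set.mem_ofPred_eq, h1, if_false]
        exact measurable_const)
  have hD := hτ.measurableSet_eq n
  rw [← lintegral_indicator hD, ← lintegral_indicator hD]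
  calc ∫⁻ X, {X : Path d | τ X = n}.indicator
          (fun X => F X (shift (τ X).toNat X)) X ∂quenchedLaw ω x
      = ∫⁻ X, {X : Path d | τ X = n}.indicator (fun X' => F X' (shift n X)) X
          ∂quenchedLaw ω x := by
        refine lintegral_congr fun X => ?_
        by_cases h1 : τ X = n
        · rw [Set.indicator_of_mem (show X ∈ {X : Path d | τ X = n} from h1),
            Set.indicator_of_mem (show X ∈ {X : Path d | τ X = n} from h1), h1,
            ENat.toNat_natCast]
        · rw [Set.indicator_of_notMem (show X ∉ {X : Path d | τ X = n} from h1),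
            Set.indicator_of_notMem (show X ∉ {X : Path d | τ X = n} from h1)]
    _ = _ := hm
    _ = _ := by
        refine lintegral_congr fun X => ?_
        by_cases h1 : τ X = n
        · rw [Set.indicator_of_mem (show X ∈ {X : Path d | τ X = n} from h1), h1,
            ENat.toNat_natCast]
          refine lintegral_congr fun Y => ?_
          rw [Set.indicator_of_mem (show X ∈ {X : Path d | τ X = n} from h1)]
        · rw [Set.indicator_of_notMem (show X ∉ {X : Path d | τ X = n} from h1)]
          simp only [Set.indicator, Set.mem_ofPred_eq, h1, if_false, lintegral_zero]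

/-- **Strong Markov property, events**: `A` is decided up to time `τ`, `B` is a future event. -/
theorem strong_markov_event (ω : Environment d) (x : Site d) {τ : Path d → ℕ∞} (hτ : IsStop τ)
    {A B : Set (Path d)} (hA : DetBy τ (· ∈ A)) (hAm : MeasurableSet A) (hB : MeasurableSet B) :
    quenchedLaw ω x ({X | τ X ≠ ⊤} ∩ A ∩ {X | shift (τ X).toNat X ∈ B})
      = ∫⁻ X in {X | τ X ≠ ⊤} ∩ A, quenchedLaw ω (X (τ X).toNat) B ∂quenchedLaw ω x := by
  classical
  have hT := hτ.measurableSet_ne_top
  have hshift : Measurable fun X : Path d => shift (τ X).toNat X := by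
    refine measurable_pi_iff.2 fun i => ?_
    have h1 : Measurable fun X : Path d => (τ X).toNat :=
      (measurable_of_countable ENat.toNat).comp hτ.measurable
    have h2 : Measurable fun p : Path d × ℕ => p.1 (p.2 + i) :=
      measurable_from_prod_countable_left fun n => measurable_pi_apply (n + i)
    exact h2.comp (measurable_id.prodMk h1)
  have h := strong_markov ω x hτ
    (F := fun X Y => A.indicator 1 X * B.indicator 1 Y)
    (fun X X' n hX hn => by
      have : A.indicator (1 : Path d → ℝ≥0∞) X = A.indicator 1 X' := by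
        have := hA X X' n hX hn
        simp only [Set.indicator, this, Pi.one_apply]
      simp only [this])
    (fun X => (measurable_one.indicator hB).const_mul _)
  have hBm : MeasurableSet {X : Path d | shift (τ X).toNat X ∈ B} := hshift hB
  have hl : quenchedLaw ω x ({X | τ X ≠ ⊤} ∩ A ∩ {X | shift (τ X).toNat X ∈ B})
      = ∫⁻ X in {X | τ X ≠ ⊤}, A.indicator 1 X * B.indicator 1 (shift (τ X).toNat X)
          ∂quenchedLaw ω x := by
    rw [← lintegral_indicator hT, ← lintegral_indicator_one ((hT.inter hAm).inter hBm)]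
    refine lintegral_congr fun X => ?_
    by_cases h0 : τ X = ⊤ <;> by_cases h1 : X ∈ A <;> by_cases h2 : shift (τ X).toNat X ∈ B <;>
      simp [Set.indicator, h0, h1, h2]
  rw [hl, h, ← lintegral_indicator hT, ← lintegral_indicator (hT.inter hAm)]
  refine lintegral_congr fun X => ?_
  by_cases h0 : τ X = ⊤
  · simp [Set.indicator, h0]
  · rw [Set.indicator_of_mem (show X ∈ {X : Path d | τ X ≠ ⊤} from h0),
      lintegral_const_mul _ (measurable_one.indicator hB), lintegral_indicator_one hB]
    by_cases h1 : X ∈ A <;> simp [Set.indicator, h0, h1]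

/-! ### almost sure properties -/

lemma quenched_zero_eq (ω : Environment d) (x : Site d) :
    ∀ᵐ X ∂quenchedLaw ω x, X 0 = x := by
  have h : quenchedLaw ω x (cyl (fun _ => x) 0) = 1 := by
    rw [quenched_cyl_zero, if_pos rfl]
  have h2 : {X : Path d | X 0 = x} = cyl (fun _ => x) 0 := by
    ext X; simp [cyl, Agree]
  rw [← prob_compl_eq_zero_iff (measurableSet_cyl _ _), ← h2] at h
  exact h

/-- Almost surely, every step is a step of positive quenched probability. -/
lemma quenched_step_pos (ω : Environment d) (x : Site d) :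
    ∀ᵐ X ∂quenchedLaw ω x, ∀ n, stepP ω (X n) (X (n + 1)) ≠ 0 := by
  rw [ae_all_iff]
  intro n
  have hD : ∀ X Y : Path d, Agree (n + 1) X Y →
      (X ∈ {X : Path d | stepP ω (X n) (X (n + 1)) = 0} ↔
        Y ∈ {X : Path d | stepP ω (X n) (X (n + 1)) = 0}) := by
    intro X Y h
    simp only [Set.mem_ofPred_eq]
    rw [h n (by omega), h (n + 1) le_rfl]
  have : quenchedLaw ω x {X : Path d | stepP ω (X n) (X (n + 1)) = 0} = 0 := by
    have h1 := lintegral_eq_tsum_cyl (n + 1) (quenchedLaw ω x)
      ({X : Path d | stepP ω (X n) (X (n + 1)) = 0}.indicator 1)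
    rw [lintegral_indicator_one (measurableSet_of_agree _ _ hD)] at h1
    rw [h1, ENNReal.tsum_eq_zero]
    intro h
    by_cases h0 : stepP ω (ext (n + 1) h n) (ext (n + 1) h (n + 1)) = 0
    · have h2 : quenchedLaw ω x (cyl (ext (n + 1) h) (n + 1)) = 0 := by
        rw [quenched_cyl_succ, h0, mul_zero]
      rw [Measure.restrict_eq_zero.2 h2, lintegral_zero_measure]
    · rw [setLIntegral_congr_fun (g := fun _ => 0) (measurableSet_cyl _ _)]
      · simp
      · intro X hX
        simp only [Set.indicator, Set.mem_ofPred_eq, Pi.one_apply, ite_eq_right_iff, one_ne_zero,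
          imp_false]
        rw [hX n (by omega), hX (n + 1) le_rfl]
        exact h0
  rw [ae_iff]
  simpa using this

/-- Almost surely, the path is nearest neighbour. -/
lemma quenched_nn (ω : Environment d) (x : Site d) :
    ∀ᵐ X ∂quenchedLaw ω x, ∀ n, ∃ e : Step d, X (n + 1) = X n + stepVec e := by
  filter_upwards [quenched_step_pos ω x] with X hX n
  by_contra hne
  push Not at hne
  exact hX n (stepP_eq_zero ω _ _ fun e he => hne e he.symm)

/-- Transfer of almost sure properties to the annealed law. -/
lemma annealed_ae {Q : Measure (Environment d)} {x : Site d} {A : Set (Path d)}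
    (hA : MeasurableSet A) (h : ∀ᵐ ω ∂Q, ∀ᵐ X ∂quenchedLaw ω x, X ∈ A) :
    ∀ᵐ X ∂annealed Q x, X ∈ A := by
  rw [ae_iff]
  change annealed Q x Aᶜ = 0
  unfold annealed
  rw [Measure.bind_apply hA.compl (measurable_quenched x).aemeasurable,
    lintegral_eq_zero_iff (measurable_quenched_apply x hA.compl)]
  filter_upwards [h] with ω hω
  exact hω

lemma annealed_apply (Q : Measure (Environment d)) (x : Site d) {A : Set (Path d)}
    (hA : MeasurableSet A) : annealed Q x A = annealedProb Q x A := by
  unfold annealed annealedProb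
  rw [Measure.bind_apply hA (measurable_quenched x).aemeasurable]

instance annealed.instProb (Q : Measure (Environment d)) [IsProbabilityMeasure Q] (x : Site d) :
    IsProbabilityMeasure (annealed Q x) := by
  refine ⟨?_⟩
  rw [annealed_apply Q x MeasurableSet.univ]
  simp [annealedProb]

lemma lintegral_annealed (Q : Measure (Environment d)) (x : Site d) {f : Path d → ℝ≥0∞}
    (hf : Measurable f) :
    ∫⁻ X, f X ∂annealed Q x = ∫⁻ ω, ∫⁻ X, f X ∂quenchedLaw ω x ∂Q := by
  unfold annealed
  rw [Measure.lintegral_bind (measurable_quenched x).aemeasurable hf.aemeasurable]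

end Crest.Agent.R154
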