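import Crest.Agent.R154.Levy_132
import Crest.Agent.R154.Strong_541
import Crest.Agent.R154.Prod_561

/-! Row 154, B1b: the trichotomy and Kalikow's 0-1 law for `A_ℓ ∪ A_{-ℓ}`, for a real direction `ℓ`,
both for iid elliptic environments and for uniformly elliptic, stationary, finite range dependent
environments. -/

set_option autoImplicit false

namespace Crest.Agent.R154.Kal132

open MeasureTheory ProbabilityTheory Crest.ProbabilityR.RandomEnvironment
open Filter
open scoped ENNReal Topology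

variable {d : ℕ}

/-- the level in direction `ℓ` -/
def L (ℓ : Fin d → ℝ) (x : Site d) : ℝ := ∑ i, (x i : ℝ) * ℓ i

lemma L_add (ℓ : Fin d → ℝ) (x y : Site d) : L ℓ (x + y) = L ℓ x + L ℓ y := by
  simp only [L, Pi.add_apply, Int.cast_add, add_mul, Finset.sum_add_distrib]

lemma L_neg (ℓ : Fin d → ℝ) (x : Site d) : L (-ℓ) x = - L ℓ x := by
  simp only [L, Pi.neg_apply, mul_neg, Finset.sum_neg_distrib]

lemma L_stepVec (ℓ : Fin d → ℝ) (e : Step d) :
    L ℓ (stepVec e) = (if e.2 then 1 else -1) * ℓ e.1 := by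
  unfold L stepVec
  rw [Finset.sum_eq_single e.1]
  · simp only [Pi.single_eq_same]
    split_ifs <;> simp
  · intro i _ hi
    simp [Pi.single_eq_of_ne hi]
  · intro h
    exact absurd (Finset.mem_univ _) h

/-- a step going strictly up -/
lemma exists_up (ℓ : Fin d → ℝ) (hℓ : ℓ ≠ 0) : ∃ e : Step d, 0 < L ℓ (stepVec e) := by
  obtain ⟨i, hi⟩ : ∃ i, ℓ i ≠ 0 := by
    by_contra h
    push Not at h
    exact hℓ (funext h)
  rcases lt_or_gt_of_ne hi with h | h
  · refine ⟨(i, false), ?_⟩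
    rw [L_stepVec]
    simp; exact h
  · refine ⟨(i, true), ?_⟩
    rw [L_stepVec]
    simp; exact h

/-! ### the trichotomy, deterministic part -/

lemma det_updown (f : ℕ → ℝ) {lam : ℝ} (hlam : 0 < lam)
    (hX : ∀ k : ℤ, (∃ᶠ n in atTop, (k : ℝ) * lam ≤ f n ∧ f n < ((k : ℝ) + 1) * lam) →
      ∃ᶠ n in atTop, ((k : ℝ) + 1) * lam ≤ f n) :
    (∀ M : ℝ, ∃ᶠ n in atTop, M ≤ f n) ∨ Tendsto f atTop atBot := by
  by_contra hcon
  push Not at hcon
  obtain ⟨⟨M, hM⟩, hbot⟩ := hcon
  rw [tendsto_atBot] at hbot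
  push Not at hbot
  obtain ⟨b, hb⟩ := hbot
  have hb' : ∃ᶠ n in atTop, ((⌊b / lam⌋ : ℤ) : ℝ) * lam ≤ f n := by
    have : ∃ᶠ n in atTop, b < f n := by
      simpa only [Filter.Frequently, not_lt] using hb
    refine this.mono fun n hn => ?_
    have h1 : ((⌊b / lam⌋ : ℤ) : ℝ) ≤ b / lam := Int.floor_le _
    have h2 := mul_le_mul_of_nonneg_right h1 hlam.le
    rw [div_mul_cancel₀ _ hlam.ne'] at h2
    linarith
  have hind : ∀ j : ℕ, ∃ᶠ n in atTop, (((⌊b / lam⌋ + j : ℤ)) : ℝ) * lam ≤ f n := by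
    intro j
    induction j with
    | zero => simpa using hb'
    | succ j ih =>
      have hk := hX (⌊b / lam⌋ + j)
      have hc : ((⌊b / lam⌋ + (j + 1 : ℕ) : ℤ) : ℝ) = ((⌊b / lam⌋ + j : ℤ) : ℝ) + 1 := by
        push_cast; ring
      rw [hc]
      by_cases hs : ∃ᶠ n in atTop, ((⌊b / lam⌋ + j : ℤ) : ℝ) * lam ≤ f n ∧
          f n < (((⌊b / lam⌋ + j : ℤ) : ℝ) + 1) * lam
      · exact hk hs
      · rw [not_frequently] at hs
        refine (ih.and_eventually hs).mono ?_
        rintro n ⟨h1, h2⟩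
        by_contra h3
        exact h2 ⟨h1, not_le.1 h3⟩
  obtain ⟨j, hj⟩ := exists_nat_ge ((M - ((⌊b / lam⌋ : ℤ) : ℝ) * lam) / lam)
  have hj' := hind j
  have hev : ∀ᶠ n in atTop, ¬ (M ≤ f n) := by
    simpa only [not_le] using hM
  obtain ⟨n, h1, h2⟩ := (hj'.and_eventually hev).exists
  apply h2
  have h3 : M - ((⌊b / lam⌋ : ℤ) : ℝ) * lam ≤ j * lam := by
    have := mul_le_mul_of_nonneg_right hj hlam.le
    rwa [div_mul_cancel₀ _ hlam.ne'] at this
  push_cast at h1
  nlinarith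

/-! ### one-step and multi-step lower bounds -/

lemma measurableSet_frequently {g : ℕ → Set (Path d)} (hg : ∀ n, MeasurableSet (g n)) :
    MeasurableSet {X : Path d | ∃ᶠ n in atTop, X ∈ g n} := by
  have : {X : Path d | ∃ᶠ n in atTop, X ∈ g n} = ⋂ N : ℕ, ⋃ n : ℕ, ⋃ _ : N ≤ n, g n := by
    ext X
    simp only [Set.mem_ofPred_eq, Set.mem_iInter, Set.mem_iUnion, frequently_atTop, exists_prop]
  rw [this]
  exact MeasurableSet.iInter fun N => MeasurableSet.iUnion fun n => MeasurableSet.iUnion fun _ => hg n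

lemma measurable_coordSet (n : ℕ) (U : Set (Site d)) : MeasurableSet {X : Path d | X n ∈ U} :=
  measurable_pi_apply n (Set.to_countable U).measurableSet

/-- if from `g n` the walk enters `U` at the next step with probability `≥ c` then on
`{g n i.o.}` it visits `U` i.o. -/
lemma freq_of_step (μ : Measure (Path d)) [IsProbabilityMeasure μ] (g : ℕ → Set (Path d))
    (hg : ∀ n, Det n (g n)) (U : Set (Site d)) {c : ℝ≥0∞} (hc : c ≠ 0)
    (h : ∀ n, ∀ γ ∈ g n, c * μ (cyl γ n) ≤ μ (cyl γ n ∩ {X | X (n + 1) ∈ U})) :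
    ∀ᵐ X ∂μ, (∃ᶠ n in atTop, X ∈ g n) → ∃ᶠ n in atTop, X n ∈ U := by
  have key : ∀ N : ℕ, ∀ᵐ X ∂μ, (∃ᶠ n in atTop, X ∈ (if N ≤ n then g n else ∅ : Set (Path d))) →
      X ∈ {X : Path d | ∃ n, N ≤ n ∧ X n ∈ U} := by
    intro N
    have hA : MeasurableSet {X : Path d | ∃ n, N ≤ n ∧ X n ∈ U} := by
      have : {X : Path d | ∃ n, N ≤ n ∧ X n ∈ U} = ⋃ n : ℕ, ⋃ _ : N ≤ n, {X : Path d | X n ∈ U} := by
        ext X; simp
      rw [this]
      exact MeasurableSet.iUnion fun n => MeasurableSet.iUnion fun _ => measurable_coordSet n U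
    refine levy μ hA _ (fun n => ?_) hc (fun n γ hγ => ?_)
    · split_ifs
      · exact hg n
      · intro X Y _; simp
    · split_ifs at hγ with hN
      · refine (h n γ hγ).trans (measure_mono ?_)
        rintro X ⟨h1, h2⟩
        exact ⟨h1, n + 1, by omega, h2⟩
      · exact absurd hγ (Set.notMem_empty _)
  filter_upwards [ae_all_iff.2 key] with X hX hfr
  rw [frequently_atTop]
  intro N
  obtain ⟨n, h1, h2⟩ := hX N (by
    refine (hfr.and_eventually (eventually_ge_atTop N)).mono ?_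
    rintro n ⟨h1, h2⟩
    rw [if_pos h2]; exact h1)
  exact ⟨n, h1, h2⟩

/-- quenched mass of a cylinder and a future event -/
lemma quenched_cyl_shift (ω : Environment d) (x : Site d) (γ : Path d) (n : ℕ) {B : Set (Path d)}
    (hB : MeasurableSet B) :
    quenchedLaw ω x (cyl γ n ∩ shift n ⁻¹' B)
      = quenchedLaw ω x (cyl γ n) * quenchedLaw ω (γ n) B := by
  have h := congrArg (fun ν : Measure (Path d) => ν B) (markov_cyl ω x γ n)
  simp only [Measure.smul_apply, smul_eq_mul] at h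
  rw [Measure.map_apply (measurable_shift n) hB,
    Measure.restrict_apply (measurable_shift n hB)] at h
  rw [Set.inter_comm]; exact h

/-- annealed mass of a cylinder and a future event -/
lemma annealed_cyl_shift (Q : Measure (Environment d)) (x : Site d) (γ : Path d) (n : ℕ)
    {B : Set (Path d)} (hB : MeasurableSet B) :
    annealed Q x (cyl γ n ∩ shift n ⁻¹' B)
      = ∫⁻ ω, quenchedLaw ω x (cyl γ n) * quenchedLaw ω (γ n) B ∂Q := by
  rw [annealed_apply Q x ((measurableSet_cyl γ n).inter (measurable_shift n hB))]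
  unfold annealedProb
  exact lintegral_congr fun ω => quenched_cyl_shift ω x γ n hB

lemma annealed_cyl (Q : Measure (Environment d)) (x : Site d) (γ : Path d) (n : ℕ) :
    annealed Q x (cyl γ n) = ∫⁻ ω, quenchedLaw ω x (cyl γ n) ∂Q := by
  rw [annealed_apply Q x (measurableSet_cyl γ n)]; rfl

/-- the quenched mass of a cylinder only depends on the rows before time `n` -/
lemma locOn_cyl (x : Site d) (γ : Path d) (n : ℕ) (S : Set (Site d)) (hS : ∀ i, i < n → γ i ∈ S) :
    Q561.LocOn S fun ω : Environment d => quenchedLaw ω x (cyl γ n) := by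
  intro ω ω' h
  simp only [quenched_cyl]
  split_ifs
  · exact wt_congr (fun i hi => h _ (hS i hi)) (agree_refl n γ)
  · rfl

lemma quenched_one_step (ω : Environment d) (y : Site d) (U : Set (Site d)) (e : Step d)
    (he : y + stepVec e ∈ U) :
    ENNReal.ofReal ((ω y).1 e) ≤ quenchedLaw ω y {Y : Path d | Y 1 ∈ U} := by
  have h1 := quenched_cyl ω y (fun i => if i = 0 then y else y + stepVec e) 1
  simp only [if_true, wt, Finset.range_one, Finset.prod_singleton, zero_add, one_ne_zero,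
    if_false, stepP_add] at h1
  rw [← h1]
  refine measure_mono fun Y hY => ?_
  have := hY 1 le_rfl
  simp only [one_ne_zero, if_false] at this
  change Y 1 ∈ U
  rw [this]; exact he

lemma measurable_row (x : Site d) (e : Step d) :
    Measurable fun ω : Environment d => ENNReal.ofReal ((ω x).1 e) := by
  refine ENNReal.measurable_ofReal.comp ?_
  exact (measurable_pi_apply e).comp (measurable_subtype_coe.comp (measurable_pi_apply x))

lemma measurable_qcyl (x : Site d) (γ : Path d) (n : ℕ) :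
    Measurable fun ω : Environment d => quenchedLaw ω x (cyl γ n) :=
  measurable_quenched_apply x (measurableSet_cyl γ n)

/-! ### slabs -/

section slab

variable (ℓ : Fin d → ℝ)

/-- UE version of the slab property. -/
lemma slab_ue {Q : Measure (Environment d)} [IsProbabilityMeasure Q] {κ : ℝ} (hκ : 0 < κ)
    (hell : ∀ᵐ ω ∂Q, ∀ (x : Site d) (e : Step d), κ ≤ (ω x).1 e) (S U : Set (Site d))
    (e : Step d) (hSU : ∀ x ∈ S, x + stepVec e ∈ U) :
    ∀ᵐ X ∂annealed Q 0, (∃ᶠ n in atTop, X n ∈ S) → ∃ᶠ n in atTop, X n ∈ U := by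
  refine freq_of_step (annealed Q 0) (fun n => {X | X n ∈ S}) (fun n X Y h => ?_) U
    (c := ENNReal.ofReal κ) (by simpa using hκ) (fun n γ hγ => ?_)
  · have := h n le_rfl
    simp only [Set.mem_ofPred_eq, this]
  · have hB : MeasurableSet {Y : Path d | Y 1 ∈ U} := measurable_coordSet 1 U
    have h := annealed_cyl_shift Q 0 γ n hB
    have hs : shift n ⁻¹' {Y : Path d | Y 1 ∈ U} = {X : Path d | X (n + 1) ∈ U} := rfl
    rw [hs] at h
    rw [h, annealed_cyl, ← lintegral_const_mul _ (measurable_qcyl 0 γ n)]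
    refine lintegral_mono_ae ?_
    filter_upwards [hell] with ω hω
    rw [mul_comm]
    gcongr
    refine le_trans ?_ (quenched_one_step ω (γ n) U e (hSU _ hγ))
    exact ENNReal.ofReal_le_ofReal (hω _ _)

/-- a single site visited i.o. (elliptic). -/
lemma site_ell {Q : Measure (Environment d)} [IsProbabilityMeasure Q]
    (hell : ∀ᵐ ω ∂Q, ∀ (x : Site d) (e : Step d), 0 < (ω x).1 e) (z : Site d) (e : Step d) :
    ∀ᵐ X ∂annealed Q 0, (∃ᶠ n in atTop, X n = z) → ∃ᶠ n in atTop, X n = z + stepVec e := by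
  have hm1 : MeasurableSet {X : Path d | ∃ᶠ n in atTop, X n = z} :=
    measurableSet_frequently fun n => measurable_coordSet n {z}
  have hm2 : MeasurableSet {X : Path d | ∃ᶠ n in atTop, X n = z + stepVec e} :=
    measurableSet_frequently fun n => measurable_coordSet n {z + stepVec e}
  have hm : MeasurableSet {X : Path d | (∃ᶠ n in atTop, X n = z) →
      ∃ᶠ n in atTop, X n = z + stepVec e} := by
    have : {X : Path d | (∃ᶠ n in atTop, X n = z) → ∃ᶠ n in atTop, X n = z + stepVec e}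
        = {X : Path d | ∃ᶠ n in atTop, X n = z}ᶜ ∪
          {X : Path d | ∃ᶠ n in atTop, X n = z + stepVec e} := by
      ext X; simp only [Set.mem_ofPred_eq, Set.mem_union, Set.mem_compl_iff]; tauto
    rw [this]
    exact hm1.compl.union hm2
  refine annealed_ae hm ?_
  filter_upwards [hell] with ω hω
  refine freq_of_step (quenchedLaw ω 0) (fun n => {X | X n = z}) (fun n X Y h => ?_)
    {z + stepVec e} (c := ENNReal.ofReal ((ω z).1 e)) (by simpa using hω z e) (fun n γ hγ => ?_)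
  · have := h n le_rfl
    simp only [Set.mem_ofPred_eq, this]
  · have hB : MeasurableSet {Y : Path d | Y 1 ∈ ({z + stepVec e} : Set (Site d))} :=
      measurable_coordSet 1 _
    have h := quenched_cyl_shift ω 0 γ n hB
    have hs : shift n ⁻¹' {Y : Path d | Y 1 ∈ ({z + stepVec e} : Set (Site d))}
        = {X : Path d | X (n + 1) ∈ ({z + stepVec e} : Set (Site d))} := rfl
    rw [hs] at h
    have hγ' : γ n = z := hγ
    rw [h, mul_comm, hγ']
    gcongr
    exact quenched_one_step ω z _ e rfl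

/-- first visits in a slab (iid elliptic). -/
lemma fresh_iid (ν : Measure (Row d)) [IsProbabilityMeasure ν]
    (hν : ∀ᵐ p ∂ν, ∀ e : Step d, 0 < p.1 e) (S U : Set (Site d))
    (e : Step d) (hSU : ∀ x ∈ S, x + stepVec e ∈ U) :
    ∀ᵐ X ∂annealed (iidEnvironmentLaw ν) 0, (∃ᶠ n in atTop, X n ∈ S ∧ ∀ i, i < n → X i ≠ X n) →
      ∃ᶠ n in atTop, X n ∈ U := by
  set Q := iidEnvironmentLaw ν with hQ
  have hmr : Measurable fun p : Row d => ENNReal.ofReal (p.1 e) :=
    ENNReal.measurable_ofReal.comp ((measurable_pi_apply e).comp measurable_subtype_coe)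
  refine freq_of_step (annealed Q 0) (fun n => {X | X n ∈ S ∧ ∀ i, i < n → X i ≠ X n})
    (fun n X Y h => ?_) U (c := ∫⁻ p, ENNReal.ofReal (p.1 e) ∂ν) ?_ (fun n γ hγ => ?_)
  · simp only [Set.mem_ofPred_eq]
    rw [h n le_rfl]
    refine and_congr_right fun _ => forall_congr' fun i => forall_congr' fun hi => ?_
    rw [h i hi.le]
  · intro h0
    rw [lintegral_eq_zero_iff hmr] at h0
    have : ∀ᵐ p ∂ν, False := by
      filter_upwards [h0, hν] with p h1 h2
      simp only [Pi.zero_apply, ENNReal.ofReal_eq_zero] at h1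
      exact absurd (h2 e) (not_lt.2 h1)
    have h3 : ν Set.univ = 0 := by
      rw [ae_iff] at this
      rw [← this]
      congr 1
      ext p; simp
    simp at h3
  · have hB : MeasurableSet {Y : Path d | Y 1 ∈ U} := measurable_coordSet 1 U
    have h := annealed_cyl_shift Q 0 γ n hB
    have hs : shift n ⁻¹' {Y : Path d | Y 1 ∈ U} = {X : Path d | X (n + 1) ∈ U} := rfl
    rw [hs] at h
    rw [h, annealed_cyl]
    obtain ⟨hγS, hγf⟩ := hγ
    have hind : ∫⁻ ω, quenchedLaw ω 0 (cyl γ n) * ENNReal.ofReal ((ω (γ n)).1 e) ∂Q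
        = (∫⁻ ω, quenchedLaw ω 0 (cyl γ n) ∂Q) * ∫⁻ ω, ENNReal.ofReal ((ω (γ n)).1 e) ∂Q := by
      refine Q561.iid_lintegral_mul ν (S := {γ n}ᶜ) (T := {γ n}) disjoint_compl_left
        (measurable_qcyl 0 γ n) (measurable_row _ _) (locOn_cyl 0 γ n _ fun i hi => ?_) ?_
      · exact hγf i hi
      · intro ω ω' hωω'
        simp only [hωω' (γ n) rfl]
    have hrow : ∫⁻ ω, ENNReal.ofReal ((ω (γ n)).1 e) ∂Q = ∫⁻ p, ENNReal.ofReal (p.1 e) ∂ν := by
      have hmap : Q.map (fun ω : Environment d => ω (γ n)) = ν := by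
        rw [hQ, iidEnvironmentLaw]
        exact Measure.infinitePi_map_eval _ _
      rw [← hmap]
      exact (lintegral_map hmr (measurable_pi_apply (γ n))).symm
    rw [← hrow, mul_comm, ← hind]
    refine lintegral_mono fun ω => ?_
    gcongr
    exact quenched_one_step ω (γ n) U e (hSU _ hγS)

/-- elliptic iid: the slab property. -/
lemma slab_iid (ν : Measure (Row d)) [IsProbabilityMeasure ν]
    (hν : ∀ᵐ p ∂ν, ∀ e : Step d, 0 < p.1 e) (S U : Set (Site d))
    (e : Step d) (hSU : ∀ x ∈ S, x + stepVec e ∈ U) :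
    ∀ᵐ X ∂annealed (iidEnvironmentLaw ν) 0, (∃ᶠ n in atTop, X n ∈ S) →
      ∃ᶠ n in atTop, X n ∈ U := by
  have hell : ∀ᵐ ω ∂(iidEnvironmentLaw ν), ∀ (x : Site d) (e : Step d), 0 < (ω x).1 e := by
    rw [ae_all_iff]
    intro x
    have hmap : (iidEnvironmentLaw ν).map (fun ω : Environment d => ω x) = ν := by
      rw [iidEnvironmentLaw]
      exact Measure.infinitePi_map_eval _ _
    have := hν
    rw [← hmap] at this
    exact ae_of_ae_map (measurable_pi_apply x).aemeasurable this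
  filter_upwards [fresh_iid ν hν S U e hSU, ae_all_iff.2 fun z : Site d =>
    site_ell hell z e] with X h1 h2 hS
  by_cases hfr : ∃ᶠ n in atTop, X n ∈ S ∧ ∀ i, i < n → X i ≠ X n
  · exact h1 hfr
  · rw [not_frequently, eventually_atTop] at hfr
    obtain ⟨N, hN⟩ := hfr
    have hfin : ∃ᶠ n in atTop, ∃ i ∈ Finset.range N, X i ∈ S ∧ X n = X i := by
      refine (hS.and_eventually (eventually_ge_atTop N)).mono ?_
      rintro n ⟨hn1, hn2⟩
      classical
      have hex : ∃ j, X j = X n := ⟨n, rfl⟩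
      have hj := Nat.find_spec hex
      have hjlt : Nat.find hex < N := by
        by_contra hge
        refine hN (Nat.find hex) (not_lt.1 hge) ⟨by rw [hj]; exact hn1, fun i hi hne => ?_⟩
        exact Nat.find_min hex hi (hne.trans hj)
      exact ⟨Nat.find hex, Finset.mem_range.2 hjlt, by rw [hj]; exact hn1, hj.symm⟩
    have : ∃ i ∈ Finset.range N, ∃ᶠ n in atTop, X i ∈ S ∧ X n = X i := by
      by_contra hcon
      have hcon' : ∀ i ∈ Finset.range N, ¬ ∃ᶠ n in atTop, X i ∈ S ∧ X n = X i :=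
        fun i hi h => hcon ⟨i, hi, h⟩
      have hev : ∀ᶠ n in atTop, ∀ i ∈ Finset.range N, ¬ (X i ∈ S ∧ X n = X i) := by
        rw [Finset.eventually_all]
        intro i hi
        exact not_frequently.1 (hcon' i hi)
      obtain ⟨n, ⟨i, hi, h3⟩, h4⟩ := (hfin.and_eventually hev).exists
      exact h4 i hi h3
    obtain ⟨i, -, hi⟩ := this
    have hiS : X i ∈ S := by
      obtain ⟨n, hn⟩ := hi.exists
      exact hn.1
    have h5 := h2 (X i) (hi.mono fun n hn => hn.2)
    exact h5.mono fun n hn => by rw [hn]; exact hSU _ hiS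

end slab

/-! ### the trichotomy -/

/-- the slab property for `Q`. -/
def SlabProp (Q : Measure (Environment d)) : Prop :=
  ∀ (S U : Set (Site d)) (e : Step d), (∀ x ∈ S, x + stepVec e ∈ U) →
    ∀ᵐ X ∂annealed Q 0, (∃ᶠ n in atTop, X n ∈ S) → ∃ᶠ n in atTop, X n ∈ U

theorem slabProp_ue {Q : Measure (Environment d)} [IsProbabilityMeasure Q] {κ : ℝ} (hκ : 0 < κ)
    (hell : ∀ᵐ ω ∂Q, ∀ (x : Site d) (e : Step d), κ ≤ (ω x).1 e) : SlabProp Q :=
  fun S U e h => slab_ue hκ hell S U e h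

theorem slabProp_iid (ν : Measure (Row d)) [IsProbabilityMeasure ν]
    (hν : ∀ᵐ p ∂ν, ∀ e : Step d, 0 < p.1 e) : SlabProp (iidEnvironmentLaw ν) :=
  fun S U e h => slab_iid ν hν S U e h

/-- **trichotomy**: a.s. either the level is unbounded above or it tends to `-∞`. -/
theorem updown {Q : Measure (Environment d)} (hQ : SlabProp Q) (ℓ : Fin d → ℝ) (hℓ : ℓ ≠ 0) :
    ∀ᵐ X ∂annealed Q 0, (∀ M : ℝ, ∃ᶠ n in atTop, M ≤ L ℓ (X n)) ∨
      Tendsto (fun n => L ℓ (X n)) atTop atBot := by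
  obtain ⟨e, he⟩ := exists_up ℓ hℓ
  set lam := L ℓ (stepVec e) with hlam
  have h := ae_all_iff.2 fun k : ℤ => hQ {x | (k : ℝ) * lam ≤ L ℓ x ∧ L ℓ x < ((k : ℝ) + 1) * lam}
    {x | ((k : ℝ) + 1) * lam ≤ L ℓ x} e (by
      rintro x ⟨h1, h2⟩
      simp only [Set.mem_ofPred_eq, L_add]
      nlinarith)
  filter_upwards [h] with X hX
  exact det_updown (fun n => L ℓ (X n)) he hX

/-! ### retry at strict records -/

/-- `D = ∞`: the walk never goes below its starting level. -/
def Stay (ℓ : Fin d → ℝ) : Set (Path d) := {X | ∀ n, L ℓ (X 0) ≤ L ℓ (X n)}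

lemma measurable_L (ℓ : Fin d → ℝ) (n : ℕ) : Measurable fun X : Path d => L ℓ (X n) :=
  (measurable_of_countable (L ℓ)).comp (measurable_pi_apply n)

lemma measurableSet_stay (ℓ : Fin d → ℝ) : MeasurableSet (Stay (d := d) ℓ) := by
  have : Stay ℓ = ⋂ n, {X : Path d | L ℓ (X 0) ≤ L ℓ (X n)} := by
    ext X; simp [Stay]
  rw [this]
  exact MeasurableSet.iInter fun n => measurableSet_le (measurable_L ℓ 0) (measurable_L ℓ n)

/-- the escape event is measurable -/
lemma measurableSet_escape (ℓ : Fin d → ℝ) : MeasurableSet (escapeEvent (d := d) ℓ) := by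
  have : escapeEvent (d := d) ℓ = ⋂ M : ℕ, ⋃ N : ℕ, ⋂ n : ℕ, ⋂ _ : N ≤ n,
      {X : Path d | (M : ℝ) ≤ L ℓ (X n)} := by
    ext X
    simp only [escapeEvent, Set.mem_ofPred_eq, Set.mem_iInter, Set.mem_iUnion]
    rw [tendsto_atTop]
    constructor
    · intro h M
      obtain ⟨N, hN⟩ := eventually_atTop.1 (h (M : ℝ))
      exact ⟨N, fun n hn => hN n hn⟩
    · intro h b
      obtain ⟨M, hM⟩ := exists_nat_ge b
      obtain ⟨N, hN⟩ := h M
      exact eventually_atTop.2 ⟨N, fun n hn => hM.trans (hN n hn)⟩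
  rw [this]
  exact MeasurableSet.iInter fun M => MeasurableSet.iUnion fun N => MeasurableSet.iInter fun n =>
    MeasurableSet.iInter fun _ => measurableSet_le measurable_const (measurable_L ℓ n)

lemma mem_escape_iff (ℓ : Fin d → ℝ) (X : Path d) :
    X ∈ escapeEvent ℓ ↔ Tendsto (fun n => L ℓ (X n)) atTop atTop := Iff.rfl

/-- `Stay`, restricted to a given starting point, only uses rows in the half space. -/
lemma locOn_stay (ℓ : Fin d → ℝ) (y : Site d) (S : Set (Site d)) (hS : ∀ z, L ℓ y ≤ L ℓ z → z ∈ S) :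
    Q561.LocOn S fun ω : Environment d => quenchedLaw ω y (Stay ℓ) := by
  have h0 : ∀ ω : Environment d, quenchedLaw ω y (Stay ℓ)
      = quenchedLaw ω y (Stay ℓ ∩ {X : Path d | X 0 = y}) := by
    intro ω
    refine measure_congr ?_
    filter_upwards [quenched_zero_eq ω y] with X hX
    apply propext
    exact ⟨fun h => ⟨h, hX⟩, fun h => h.1⟩
  simp only [h0]
  refine Q561.locOn_quenched y ((measurableSet_stay ℓ).inter (measurable_coordSet 0 {y})) ?_
  refine Q561.dec_of_forall ?_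
  rintro X ⟨h1, h2⟩ k
  have h2' : X 0 = y := h2
  exact hS _ (h2' ▸ h1 k)

/-- the retry event at time `n`. -/
def Retry (ℓ : Fin d → ℝ) (n : ℕ) : Set (Path d) :=
  {X | ∃ m, n ≤ m ∧ L ℓ (X n) ≤ L ℓ (X m) ∧ shift m X ∈ Stay ℓ}

/-- retry property: at a strict record the walk has, given the past, probability at least
`c * P(D = ∞)` to reach a time after which it never goes back. -/
def RetryProp (Q : Measure (Environment d)) (ℓ : Fin d → ℝ) : Prop :=
  ∃ c : ℝ≥0∞, c ≠ 0 ∧ ∀ (n : ℕ) (γ : Path d), (∀ i, i < n → L ℓ (γ i) < L ℓ (γ n)) →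
    c * annealed Q 0 (Stay ℓ) * annealed Q 0 (cyl γ n) ≤ annealed Q 0 (cyl γ n ∩ Retry ℓ n)

/-- shift invariance of the annealed probability of `Stay` -/
lemma annealed_stay {Q : Measure (Environment d)} [IsProbabilityMeasure Q]
    (hstat : ∀ z : Site d, MeasurePreserving (shiftEnv z) Q Q) (ℓ : Fin d → ℝ) (y : Site d) :
    ∫⁻ ω, quenchedLaw ω y (Stay ℓ) ∂Q = annealed Q 0 (Stay ℓ) := by
  rw [annealed_apply Q 0 (measurableSet_stay ℓ)]
  have h := Q561.annealed_eq_zero_shift (Q := Q) hstat y (measurableSet_stay ℓ)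
  have hs : Q561.tr y ⁻¹' Stay ℓ = Stay ℓ := by
    ext X
    simp only [Stay, Set.mem_preimage, Set.mem_ofPred_eq, Q561.tr, L_add, add_le_add_iff_right]
  rw [hs] at h
  exact h

/-- the straight path -/
def straight (y : Site d) (e : Step d) : Path d := fun i => y + i • stepVec e

lemma L_straight (ℓ : Fin d → ℝ) (y : Site d) (e : Step d) (i : ℕ) :
    L ℓ (straight y e i) = L ℓ y + i * L ℓ (stepVec e) := by
  induction i with
  | zero => simp [straight]
  | succ i ih =>
    have : straight y e (i + 1) = straight y e i + stepVec e := by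
      simp only [straight, succ_nsmul, add_assoc]
    rw [this, L_add, ih]
    push_cast; ring

lemma retry_of {Q : Measure (Environment d)} [IsProbabilityMeasure Q]
    (hstat : ∀ z : Site d, MeasurePreserving (shiftEnv z) Q Q) (ℓ : Fin d → ℝ) (e : Step d)
    (he : 0 ≤ L ℓ (stepVec e)) (K : ℕ) {c : ℝ≥0∞} (hc : c ≠ 0)
    (hlow : ∀ᵐ ω ∂Q, ∀ y : Site d, c ≤ quenchedLaw ω y (cyl (straight y e) K))
    (hind : ∀ (n : ℕ) (γ : Path d), (∀ i, i < n → L ℓ (γ i) < L ℓ (γ n)) →
      ∫⁻ ω, quenchedLaw ω 0 (cyl γ n) * quenchedLaw ω (straight (γ n) e K) (Stay ℓ) ∂Q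
        = (∫⁻ ω, quenchedLaw ω 0 (cyl γ n) ∂Q) *
          ∫⁻ ω, quenchedLaw ω (straight (γ n) e K) (Stay ℓ) ∂Q) :
    RetryProp Q ℓ := by
  refine ⟨c, hc, fun n γ hγ => ?_⟩
  set B : Set (Path d) := cyl (straight (γ n) e) K ∩ shift K ⁻¹' Stay ℓ with hBdef
  have hB : MeasurableSet B :=
    (measurableSet_cyl _ _).inter (measurable_shift K (measurableSet_stay ℓ))
  have h1 : annealed Q 0 (cyl γ n ∩ shift n ⁻¹' B) ≤ annealed Q 0 (cyl γ n ∩ Retry ℓ n) := by
    refine measure_mono ?_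
    rintro X ⟨hX1, hX2, hX3⟩
    have hXn : X n = γ n := hX1 n le_rfl
    have hXK : X (n + K) = straight (γ n) e K := hX2 K le_rfl
    refine ⟨hX1, n + K, by omega, ?_, ?_⟩
    · rw [hXn, hXK, L_straight]
      have : 0 ≤ (K : ℝ) * L ℓ (stepVec e) := by positivity
      linarith
    · have hs : shift (n + K) X = shift K (shift n X) := by
        funext i
        simp only [shift, add_assoc]
      rw [hs]; exact hX3
  refine le_trans ?_ h1
  rw [annealed_cyl_shift Q 0 γ n hB]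
  have h2 : c * annealed Q 0 (Stay ℓ) * annealed Q 0 (cyl γ n)
      = ∫⁻ ω, c * (quenchedLaw ω 0 (cyl γ n) * quenchedLaw ω (straight (γ n) e K) (Stay ℓ)) ∂Q := by
    have hm : Measurable fun ω : Environment d =>
        quenchedLaw ω 0 (cyl γ n) * quenchedLaw ω (straight (γ n) e K) (Stay ℓ) :=
      (measurable_qcyl 0 γ n).mul (measurable_quenched_apply _ (measurableSet_stay ℓ))
    rw [lintegral_const_mul _ hm, hind n γ hγ,
      annealed_stay hstat ℓ (straight (γ n) e K), annealed_cyl]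
    ring
  rw [h2]
  refine lintegral_mono_ae ?_
  filter_upwards [hlow] with ω hω
  rw [hBdef, quenched_cyl_shift ω (γ n) (straight (γ n) e) K (measurableSet_stay ℓ)]
  calc c * (quenchedLaw ω 0 (cyl γ n) * quenchedLaw ω (straight (γ n) e K) (Stay ℓ))
      = quenchedLaw ω 0 (cyl γ n) * (c * quenchedLaw ω (straight (γ n) e K) (Stay ℓ)) := by ring
    _ ≤ _ := by gcongr; exact hω (γ n)

/-- retry property, iid. -/
theorem retry_iid (ν : Measure (Row d)) [IsProbabilityMeasure ν] (ℓ : Fin d → ℝ) (hℓ : ℓ ≠ 0) :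
    RetryProp (iidEnvironmentLaw ν) ℓ := by
  obtain ⟨e, he⟩ := exists_up ℓ hℓ
  refine retry_of (Q561.iid_shift ν) ℓ e he.le 0 (c := 1) one_ne_zero ?_ ?_
  · refine Eventually.of_forall fun ω y => ?_
    rw [quenched_cyl_zero, if_pos]
    simp [straight]
  · intro n γ hγ
    have hs : straight (γ n) e 0 = γ n := by simp [straight]
    rw [hs]
    refine Q561.iid_lintegral_mul ν (S := {x | L ℓ x < L ℓ (γ n)}) (T := {x | L ℓ (γ n) ≤ L ℓ x})
      ?_ (measurable_qcyl 0 γ n) (measurable_quenched_apply _ (measurableSet_stay ℓ))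
      (locOn_cyl 0 γ n _ fun i hi => hγ i hi) (locOn_stay ℓ (γ n) _ fun z hz => hz)
    rw [Set.disjoint_left]
    intro x h1 h2
    simp only [Set.mem_ofPred_eq] at h1 h2
    exact absurd h1 (not_lt.2 h2)

/-- retry property, uniformly elliptic + finite range dependent. -/
theorem retry_ue {Q : Measure (Environment d)} [IsProbabilityMeasure Q]
    (hstat : ∀ z : Site d, MeasurePreserving (shiftEnv z) Q Q) {κ : ℝ} (hκ : 0 < κ)
    (hell : ∀ᵐ ω ∂Q, ∀ (x : Site d) (e : Step d), κ ≤ (ω x).1 e) {R : ℕ}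
    (hR : IsFiniteRangeDependent Q R) (ℓ : Fin d → ℝ) (hℓ : ℓ ≠ 0) : RetryProp Q ℓ := by
  obtain ⟨e, he⟩ := exists_up ℓ hℓ
  obtain ⟨K, hK⟩ := exists_nat_gt ((R : ℝ) * (∑ i, |ℓ i|) / L ℓ (stepVec e))
  have hK' : (R : ℝ) * (∑ i, |ℓ i|) < K * L ℓ (stepVec e) := (div_lt_iff₀ he).1 hK
  refine retry_of hstat ℓ e he.le K (c := ENNReal.ofReal κ ^ K) (pow_ne_zero _ (by simpa using hκ))
    ?_ ?_
  · filter_upwards [hell] with ω hω y
    rw [quenched_cyl, if_pos (by simp [straight]), wt]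
    calc ENNReal.ofReal κ ^ K = ∏ _i ∈ Finset.range K, ENNReal.ofReal κ := by simp
      _ ≤ _ := by
        refine Finset.prod_le_prod' fun i _ => ?_
        have : straight y e (i + 1) = straight y e i + stepVec e := by
          simp only [straight, succ_nsmul, add_assoc]
        rw [this, stepP_add]
        exact ENNReal.ofReal_le_ofReal (hω _ _)
  · intro n γ hγ
    refine Q561.lintegral_mul_of_indep (S := {x | L ℓ x < L ℓ (γ n)})
      (T := {x | L ℓ (straight (γ n) e K) ≤ L ℓ x}) ?_ (measurable_qcyl 0 γ n)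
      (measurable_quenched_apply _ (measurableSet_stay ℓ))
      (locOn_cyl 0 γ n _ fun i hi => hγ i hi) (locOn_stay ℓ _ _ fun z hz => hz)
    refine hR _ _ ?_ ⟨straight (γ n) e K, le_refl (L ℓ (straight (γ n) e K))⟩ ?_
    · refine ⟨γ n - stepVec e, ?_⟩
      have h3 : L ℓ (γ n) = L ℓ (γ n - stepVec e) + L ℓ (stepVec e) := by
        rw [← L_add, sub_add_cancel]
      simp only [Set.mem_ofPred_eq]
      linarith
    · intro a ha b hb
      by_contra hcon
      push Not at hcon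
      simp only [Set.mem_ofPred_eq] at ha hb
      rw [L_straight] at hb
      have h4 : L ℓ b - L ℓ a ≤ (R : ℝ) * ∑ i, |ℓ i| := by
        unfold L
        rw [← Finset.sum_sub_distrib, Finset.mul_sum]
        refine Finset.sum_le_sum fun i _ => ?_
        have h5 : |((a i : ℝ) - b i)| ≤ R := by
          have := hcon i
          have h6 : ((|a i - b i| : ℤ) : ℝ) ≤ ((R : ℤ) : ℝ) := by exact_mod_cast this
          push_cast at h6
          exact h6
        calc (b i : ℝ) * ℓ i - (a i : ℝ) * ℓ i = -(((a i : ℝ) - b i) * ℓ i) := by ring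
          _ ≤ |((a i : ℝ) - b i) * ℓ i| := neg_le_abs _
          _ = |((a i : ℝ) - b i)| * |ℓ i| := abs_mul _ _
          _ ≤ R * |ℓ i| := by gcongr
      linarith

/-! ### Kalikow -/

lemma measurableSet_retryA (ℓ : Fin d → ℝ) (M : ℝ) :
    MeasurableSet {X : Path d | ∃ m, M ≤ L ℓ (X m) ∧ shift m X ∈ Stay ℓ} := by
  have : {X : Path d | ∃ m, M ≤ L ℓ (X m) ∧ shift m X ∈ Stay ℓ}
      = ⋃ m, ({X : Path d | M ≤ L ℓ (X m)} ∩ shift m ⁻¹' Stay ℓ) := by
    ext X; simp
  rw [this]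
  exact MeasurableSet.iUnion fun m => (measurableSet_le measurable_const (measurable_L ℓ m)).inter
    (measurable_shift m (measurableSet_stay ℓ))

/-- if `P(D = ∞) > 0`, a.s. on `{sup = ∞}` the walk escapes. -/
theorem escape_of_unbounded {Q : Measure (Environment d)} [IsProbabilityMeasure Q]
    (ℓ : Fin d → ℝ) (hR : RetryProp Q ℓ) (hp : annealed Q 0 (Stay ℓ) ≠ 0) :
    ∀ᵐ X ∂annealed Q 0, (∀ M : ℝ, ∃ᶠ n in atTop, M ≤ L ℓ (X n)) → X ∈ escapeEvent ℓ := by
  obtain ⟨c, hc, hcb⟩ := hR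
  have key : ∀ M : ℕ, ∀ᵐ X ∂annealed Q 0,
      (∃ᶠ n in atTop, X ∈ {X : Path d | (M : ℝ) ≤ L ℓ (X n) ∧ ∀ i, i < n → L ℓ (X i) < L ℓ (X n)}) →
      X ∈ {X : Path d | ∃ m, (M : ℝ) ≤ L ℓ (X m) ∧ shift m X ∈ Stay ℓ} := by
    intro M
    refine levy (annealed Q 0) (measurableSet_retryA ℓ M) _ (fun n X Y h => ?_)
      (c := c * annealed Q 0 (Stay ℓ)) (mul_ne_zero hc hp) (fun n γ hγ => ?_)
    · simp only [Set.mem_ofPred_eq]
      rw [h n le_rfl]
      refine and_congr_right fun _ => forall_congr' fun i => forall_congr' fun hi => ?_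
      rw [h i hi.le]
    · refine (hcb n γ hγ.2).trans (measure_mono ?_)
      rintro X ⟨hX1, m, hm, hm2, hm3⟩
      refine ⟨hX1, m, ?_, hm3⟩
      have hXn : X n = γ n := hX1 n le_rfl
      rw [hXn] at hm2
      exact hγ.1.trans hm2
  filter_upwards [ae_all_iff.2 key] with X hX hunb
  rw [mem_escape_iff, tendsto_atTop]
  intro b
  obtain ⟨M, hM⟩ := exists_nat_ge b
  have hfr : ∃ᶠ n in atTop, X ∈ {X : Path d | (M : ℝ) ≤ L ℓ (X n) ∧
      ∀ i, i < n → L ℓ (X i) < L ℓ (X n)} := by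
    rw [frequently_atTop]
    intro N
    -- a bound for the levels up to time `N`
    obtain ⟨b', hb'⟩ : ∃ b' : ℝ, ∀ i, i ≤ N → L ℓ (X i) < b' := by
      obtain ⟨b0, hb0⟩ := ((Finset.range (N + 1)).image fun i => L ℓ (X i)).bddAbove
      refine ⟨b0 + 1, fun i hi => ?_⟩
      have : L ℓ (X i) ≤ b0 := hb0 (by
        simp only [Finset.coe_image, Set.mem_image, Finset.coe_range, Set.mem_Iio]
        exact ⟨i, by omega, rfl⟩)
      linarith
    classical
    have hex : ∃ n, max b' M ≤ L ℓ (X n) := (hunb (max b' M)).exists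
    have hsp := Nat.find_spec hex
    refine ⟨Nat.find hex, ?_, (le_max_right _ _).trans hsp, fun i hi => ?_⟩
    · by_contra hlt
      have h1 := hb' (Nat.find hex) (by simp only [not_le] at hlt; exact hlt.le)
      have h2 := (le_max_left b' (M : ℝ)).trans hsp
      linarith
    · exact (not_le.1 (Nat.find_min hex hi)).trans_le hsp
  obtain ⟨m, hm1, hm2⟩ := hX M hfr
  refine eventually_atTop.2 ⟨m, fun n hn => ?_⟩
  have := hm2 (n - m)
  simp only [shift, add_zero, Nat.add_sub_cancel' hn] at this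
  exact hM.trans (hm1.trans this)

/-- `P(A_ℓ) > 0 → P(D = ∞) > 0`. -/
theorem pD_pos {Q : Measure (Environment d)} [IsProbabilityMeasure Q]
    (hstat : ∀ z : Site d, MeasurePreserving (shiftEnv z) Q Q) (ℓ : Fin d → ℝ)
    (h : annealed Q 0 (escapeEvent ℓ) ≠ 0) : annealed Q 0 (Stay ℓ) ≠ 0 := by
  intro h0
  apply h
  have h1 : ∀ᵐ ω ∂Q, ∀ y : Site d, quenchedLaw ω y (Stay ℓ) = 0 := by
    rw [ae_all_iff]
    intro y
    have := annealed_stay hstat ℓ y
    rw [h0, lintegral_eq_zero_iff (measurable_quenched_apply _ (measurableSet_stay ℓ))] at this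
    exact this
  have h2 : ∀ᵐ X ∂annealed Q 0, X ∈ {X : Path d | ∀ n, shift n X ∉ Stay ℓ} := by
    refine annealed_ae ?_ ?_
    · have : {X : Path d | ∀ n, shift n X ∉ Stay ℓ} = ⋂ n, (shift n ⁻¹' Stay ℓ)ᶜ := by
        ext X; simp
      rw [this]
      exact MeasurableSet.iInter fun n => (measurable_shift n (measurableSet_stay ℓ)).compl
    · filter_upwards [h1] with ω hω
      rw [ae_all_iff]
      intro n
      rw [ae_iff]
      simp only [not_not]
      have h3 := markov_event ω 0 n (A := Set.univ) (B := Stay ℓ) (fun X Y _ => by simp)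
        (measurableSet_stay ℓ)
      rw [Set.univ_inter] at h3
      change quenchedLaw ω 0 (shift n ⁻¹' Stay ℓ) = 0
      rw [h3]
      simp [hω]
  rw [measure_eq_zero_iff_ae_notMem]
  filter_upwards [h2] with X hX hesc
  rw [mem_escape_iff] at hesc
  obtain ⟨n, hn⟩ : ∃ n, ∀ m, L ℓ (X n) ≤ L ℓ (X m) := by
    have h4 : Tendsto (fun n => L ℓ (X n)) cofinite atTop := by
      rw [Nat.cofinite_eq_atTop]; exact hesc
    exact h4.exists_forall_le
  refine hX n fun m => ?_
  simp only [shift, add_zero]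
  exact hn _

/-- **Kalikow's 0-1 law** (first form): a.s. `A_ℓ ∪ A_{-ℓ}` if `P(A_ℓ) > 0`. -/
theorem kalikow_ae {Q : Measure (Environment d)} [IsProbabilityMeasure Q]
    (hstat : ∀ z : Site d, MeasurePreserving (shiftEnv z) Q Q) (hS : SlabProp Q)
    (ℓ : Fin d → ℝ) (hℓ : ℓ ≠ 0) (hR : RetryProp Q ℓ)
    (h : annealed Q 0 (escapeEvent ℓ) ≠ 0) :
    ∀ᵐ X ∂annealed Q 0, X ∈ escapeEvent ℓ ∨ X ∈ escapeEvent (-ℓ) := by
  filter_upwards [updown hS ℓ hℓ, escape_of_unbounded ℓ hR (pD_pos hstat ℓ h)] with X h1 h2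
  rcases h1 with h1 | h1
  · exact Or.inl (h2 h1)
  · refine Or.inr ?_
    rw [mem_escape_iff]
    have : (fun n => L (-ℓ) (X n)) = fun n => - L ℓ (X n) := by
      funext n; rw [L_neg]
    rw [this]
    exact tendsto_neg_atBot_atTop.comp h1

lemma annealed_union_eq_one {Q : Measure (Environment d)} [IsProbabilityMeasure Q]
    (ℓ : Fin d → ℝ) (h : ∀ᵐ X ∂annealed Q 0, X ∈ escapeEvent ℓ ∨ X ∈ escapeEvent (-ℓ)) :
    annealed Q 0 (escapeEvent ℓ ∪ escapeEvent (-ℓ)) = 1 := by
  have hm : MeasurableSet (escapeEvent (d := d) ℓ ∪ escapeEvent (-ℓ)) :=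
    (measurableSet_escape ℓ).union (measurableSet_escape (-ℓ))
  rw [← prob_compl_eq_zero_iff hm, measure_eq_zero_iff_ae_notMem]
  filter_upwards [h] with X hX hX'
  exact hX' hX

lemma escape_disjoint (ℓ : Fin d → ℝ) :
    Disjoint (escapeEvent (d := d) ℓ) (escapeEvent (-ℓ)) := by
  rw [Set.disjoint_left]
  intro X h1 h2
  rw [mem_escape_iff] at h1 h2
  have : (fun n => L (-ℓ) (X n)) = fun n => - L ℓ (X n) := by
    funext n; rw [L_neg]
  rw [this] at h2
  have h3 : Tendsto (fun n => L ℓ (X n) + - L ℓ (X n)) atTop atTop := h1.atTop_add_atTop h2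
  simp only [add_neg_cancel] at h3
  have h4 := (h3.eventually_ge_atTop 1).exists
  obtain ⟨n, hn⟩ := h4
  linarith

/-- **Kalikow's 0-1 law**, sum form, for every frame. -/
theorem kalikow_sum {Q : Measure (Environment d)} [IsProbabilityMeasure Q]
    (hstat : ∀ z : Site d, MeasurePreserving (shiftEnv z) Q Q) (hS : SlabProp Q)
    (ℓ : Fin d → ℝ) (hℓ : ℓ ≠ 0) (hR : RetryProp Q ℓ)
    (h : annealedProb Q 0 (escapeEvent ℓ) ≠ 0) :
    annealedProb Q 0 (escapeEvent ℓ) + annealedProb Q 0 (escapeEvent (-ℓ)) = 1 := by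
  rw [← annealed_apply Q 0 (measurableSet_escape ℓ)] at h ⊢
  rw [← annealed_apply Q 0 (measurableSet_escape (-ℓ)),
    ← measure_union (escape_disjoint ℓ) (measurableSet_escape (-ℓ))]
  exact annealed_union_eq_one ℓ (kalikow_ae hstat hS ℓ hℓ hR h)

/-- Kalikow's 0-1 law, iid elliptic environments. -/
theorem kalikow_iid (ν : Measure (Row d)) [IsProbabilityMeasure ν]
    (hν : ∀ᵐ p ∂ν, ∀ e : Step d, 0 < p.1 e) (ℓ : Fin d → ℝ) (hℓ : ℓ ≠ 0)
    (h : annealedProb (iidEnvironmentLaw ν) 0 (escapeEvent ℓ) ≠ 0) :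
    annealedProb (iidEnvironmentLaw ν) 0 (escapeEvent ℓ)
      + annealedProb (iidEnvironmentLaw ν) 0 (escapeEvent (-ℓ)) = 1 :=
  kalikow_sum (Q561.iid_shift ν) (slabProp_iid ν hν) ℓ hℓ (retry_iid ν ℓ hℓ) h

/-- Kalikow's 0-1 law, uniformly elliptic finite range environments. -/
theorem kalikow_ue {Q : Measure (Environment d)} [IsProbabilityMeasure Q]
    (hstat : ∀ z : Site d, MeasurePreserving (shiftEnv z) Q Q) {κ : ℝ} (hκ : 0 < κ)
    (hell : ∀ᵐ ω ∂Q, ∀ (x : Site d) (e : Step d), κ ≤ (ω x).1 e) {R : ℕ}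
    (hR : IsFiniteRangeDependent Q R) (ℓ : Fin d → ℝ) (hℓ : ℓ ≠ 0)
    (h : annealedProb Q 0 (escapeEvent ℓ) ≠ 0) :
    annealedProb Q 0 (escapeEvent ℓ) + annealedProb Q 0 (escapeEvent (-ℓ)) = 1 :=
  kalikow_sum hstat (slabProp_ue hκ hell) ℓ hℓ (retry_ue hstat hκ hell hR ℓ hℓ) h

end Crest.Agent.R154.Kal132
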