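import Crest.Agent.R154.MkB_561

/-! R154, marked walk, part 3: locality with respect to the sites that are READ, product formula,
renewal property of the annealed marked law (stationary, finite range dependent). -/

set_option autoImplicit false

open MeasureTheory ProbabilityTheory Filter
open scoped ENNReal Topology

namespace Crest.Agent.R154.Mk561

open Crest.ProbabilityR.RandomEnvironment Crest.Agent.R154.Q561 Crest.Agent.R154.Ren263

variable {d : ℕ}

/-! ### locality -/

/-- all the sites read before time `n` are in `S` -/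
def RdB (S : Set (Site d)) (x : Site d) (n : ℕ) : Set (MPath d) :=
  {M | ∀ i < n, (M i).2 = false → pos x M i ∈ S}

/-- all the sites read are in `S` -/
def Rd (S : Set (Site d)) (x : Site d) : Set (MPath d) :=
  {M | ∀ i, (M i).2 = false → pos x M i ∈ S}

theorem det_RdB (S : Set (Site d)) (x : Site d) (n : ℕ) : Det n (RdB S x n) := by
  intro s s' h
  refine forall_congr' fun i => forall_congr' fun hi => ?_
  rw [h i hi, pos_congr x h hi.le]

theorem Rd_eq_iInter (S : Set (Site d)) (x : Site d) : Rd S x = ⋂ n, RdB S x n := by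
  ext M
  simp only [Rd, RdB, Set.mem_iInter, Set.mem_ofPred_eq]
  constructor
  · intro h n i _; exact h i
  · intro h i; exact h (i + 1) i (Nat.lt_succ_self i)

theorem RdB_anti (S : Set (Site d)) (x : Site d) : Antitone (RdB S x) :=
  fun _ _ hnm _ hM i hi => hM i (lt_of_lt_of_le hi hnm)

theorem measurableSet_Rd (S : Set (Site d)) (x : Site d) : MeasurableSet (Rd S x) := by
  rw [Rd_eq_iInter]
  exact MeasurableSet.iInter fun n => (det_RdB S x n).measurableSet

theorem mw_local (κ : ℝ) {ω ω' : Environment d} {m : Mark d} {y : Site d}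
    (h : m.2 = false → ω y = ω' y) : mw κ (ω y) m = mw κ (ω' y) m := by
  rcases m with ⟨e, b⟩
  cases b with
  | true => rw [mw_forced, mw_forced]
  | false => rw [h rfl]

theorem wgt_local (κ : ℝ) {S : Set (Site d)} {ω ω' : Environment d} (h : ∀ z ∈ S, ω z = ω' z)
    {x : Site d} {W : MPath d} {n : ℕ} (hW : W ∈ RdB S x n) :
    wgt κ ω x W n = wgt κ ω' x W n := by
  refine Finset.prod_congr rfl fun i hi => ?_
  exact mw_local κ fun hm => h _ (hW i (Finset.mem_range.1 hi) hm)

/-- locality, determined sets -/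
theorem mk_local_det (κ : ℝ) {S : Set (Site d)} {ω ω' : Environment d}
    (h : ∀ z ∈ S, ω z = ω' z) (x : Site d) {n : ℕ} {A : Set (MPath d)} (hA : Det n A)
    (hAS : A ⊆ RdB S x n) : mkLaw κ ω x A = mkLaw κ ω' x A :=
  det_eq hA fun W hW => by rw [mk_cyl, mk_cyl, wgt_local κ h (hAS hW)]

/-- **locality**: events on which only sites of `S` are read -/
theorem mk_local (κ : ℝ) {S : Set (Site d)} {ω ω' : Environment d}
    (h : ∀ z ∈ S, ω z = ω' z) (x : Site d) {B : Set (MPath d)} (hB : MeasurableSet B)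
    (hBS : B ⊆ Rd S x) : mkLaw κ ω x B = mkLaw κ ω' x B := by
  have key : ∀ A ∈ Alg (Mark d), mkLaw κ ω x (A ∩ Rd S x) = mkLaw κ ω' x (A ∩ Rd S x) := by
    rintro A ⟨m, hA⟩
    have hlim : ∀ η : Environment d, Tendsto (fun n => mkLaw κ η x (A ∩ RdB S x n)) atTop
        (𝓝 (mkLaw κ η x (A ∩ Rd S x))) := by
      intro η
      rw [Rd_eq_iInter, Set.inter_iInter]
      refine tendsto_measure_iInter_atTop
        (fun n => (hA.measurableSet.inter (det_RdB S x n).measurableSet).nullMeasurableSet)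
        (fun a b hab => Set.inter_subset_inter_right A (RdB_anti S x hab))
        ⟨0, measure_ne_top _ _⟩
    refine tendsto_nhds_unique_of_eventuallyEq (hlim ω) (hlim ω') ?_
    filter_upwards [eventually_ge_atTop m] with n hn
    exact mk_local_det κ h x ((hA.mono hn).inter (det_RdB S x n)) Set.inter_subset_right
  have e : (mkLaw κ ω x).restrict (Rd S x) = (mkLaw κ ω' x).restrict (Rd S x) := by
    refine ext_of_generate_finite _ generateFrom_Alg isPiSystem_Alg ?_ ?_
    · intro A hA
      have hAm : MeasurableSet A := by obtain ⟨m, hm⟩ := hA; exact hm.measurableSet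
      rw [Measure.restrict_apply hAm, Measure.restrict_apply hAm]
      exact key A hA
    · have := key Set.univ ⟨0, Det.univ 0⟩
      rw [Measure.restrict_apply MeasurableSet.univ, Measure.restrict_apply MeasurableSet.univ]
      exact this
  have h2 := congrArg (fun μ : Measure (MPath d) => μ B) e
  simp only [Measure.restrict_apply hB, Set.inter_eq_left.2 hBS] at h2
  exact h2

/-! ### products -/

/-- two sets of sites are `R`-separated -/
def SepR (R : ℕ) (S T : Set (Site d)) : Prop := ∀ a ∈ S, ∀ b ∈ T, ∃ i, (R : ℤ) < |a i - b i|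

theorem coord_empty : coordSigmaAlgebra (∅ : Set (Site d)) = ⊥ := by
  unfold coordSigmaAlgebra
  have : (fun (ω : Environment d) (x : (∅ : Set (Site d))) => ω x)
      = fun _ => fun x => (Set.notMem_empty _ x.2).elim := by
    funext ω x; exact (Set.notMem_empty _ x.2).elim
  rw [this]
  exact MeasurableSpace.comap_const _

theorem indep_sep {Q : Measure (Environment d)} [IsProbabilityMeasure Q] {R : ℕ}
    (hR : IsFiniteRangeDependent Q R) {S T : Set (Site d)} (h : SepR R S T) :
    Indep (coordSigmaAlgebra S) (coordSigmaAlgebra T) Q := by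
  rcases S.eq_empty_or_nonempty with hS | hS
  · subst hS; rw [coord_empty]; exact indep_bot_left _
  rcases T.eq_empty_or_nonempty with hT | hT
  · subst hT; rw [coord_empty]; exact indep_bot_right _
  exact hR S T hS hT h

/-- **product formula for `R`-separated sets** -/
theorem lintegral_mul_sep {Q : Measure (Environment d)} [IsProbabilityMeasure Q] {R : ℕ}
    (hR : IsFiniteRangeDependent Q R) {S T : Set (Site d)} (h : SepR R S T)
    {f g : Environment d → ℝ≥0∞} (hf : Measurable f) (hg : Measurable g)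
    (hfl : LocOn S f) (hgl : LocOn T g) :
    ∫⁻ ω, f ω * g ω ∂Q = (∫⁻ ω, f ω ∂Q) * ∫⁻ ω, g ω ∂Q :=
  lintegral_mul_of_indep (indep_sep hR h) hf hg hfl hgl

/-- two marked walkers in the same environment whose read sets are `R`-separated -/
theorem mk_two_walkers {Q : Measure (Environment d)} [IsProbabilityMeasure Q] {R : ℕ}
    (hR : IsFiniteRangeDependent Q R) {S T : Set (Site d)} (h : SepR R S T) (κ : ℝ)
    (x y : Site d) {A B : Set (MPath d)} (hA : MeasurableSet A) (hB : MeasurableSet B)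
    (hAS : A ⊆ Rd S x) (hBT : B ⊆ Rd T y) :
    ∫⁻ ω, mkLaw κ ω x A * mkLaw κ ω y B ∂Q = mkAnn κ Q x A * mkAnn κ Q y B := by
  rw [mkAnn_apply κ Q x hA, mkAnn_apply κ Q y hB]
  exact lintegral_mul_sep hR h (measurable_mk_apply κ x hA) (measurable_mk_apply κ y hB)
    (fun _ _ hω => mk_local κ hω x hA hAS) (fun _ _ hω => mk_local κ hω y hB hBT)

/-- **fresh start after a word**: the word reads `S`, the future reads `T`, `S` and `T` separated -/
theorem mkAnn_Cy_shift {Q : Measure (Environment d)} [IsProbabilityMeasure Q]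
    (hstat : ∀ z : Site d, MeasurePreserving (shiftEnv z) Q Q) {R : ℕ}
    (hR : IsFiniteRangeDependent Q R) {S T : Set (Site d)} (h : SepR R S T) (κ : ℝ)
    (x : Site d) (W : MPath d) (n : ℕ) (hW : W ∈ RdB S x n) {B : Set (MPath d)}
    (hB : MeasurableSet B) (hBT : B ⊆ Rd T (pos x W n)) :
    mkAnn κ Q x (Cy W n ∩ shift n ⁻¹' B) = mkAnn κ Q x (Cy W n) * mkAnn κ Q 0 B := by
  rw [mkAnn_apply κ Q x ((measurableSet_Cy W n).inter (measurable_shift n hB)),
    mkAnn_apply κ Q x (measurableSet_Cy W n), ← mkAnn_stat hstat κ (pos x W n),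
    mkAnn_apply κ Q _ hB]
  simp only [markov_Cy κ _ x W n hB, mk_cyl]
  exact lintegral_mul_sep hR h (measurable_wgt κ x W n) (measurable_mk_apply κ _ hB)
    (fun _ _ hω => wgt_local κ hω hW) (fun _ _ hω => mk_local κ hω _ hB hBT)

/-! ### directions -/

/-- height of a site in direction `ℓ` -/
def sht (ℓ : Fin d → ℝ) (z : Site d) : ℝ := ∑ i, (z i : ℝ) * ℓ i

/-- height of a mark -/
def mht (ℓ : Fin d → ℝ) (m : Mark d) : ℝ := sht ℓ (stp m)

theorem sht_zero (ℓ : Fin d → ℝ) : sht ℓ 0 = 0 := by simp [sht]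

theorem sht_add (ℓ : Fin d → ℝ) (z w : Site d) : sht ℓ (z + w) = sht ℓ z + sht ℓ w := by
  simp [sht, add_mul, Finset.sum_add_distrib]

theorem sht_sub (ℓ : Fin d → ℝ) (z w : Site d) : sht ℓ (z - w) = sht ℓ z - sht ℓ w := by
  simp [sht, sub_mul, Finset.sum_sub_distrib]

theorem sht_sum (ℓ : Fin d → ℝ) {ι : Type*} (s : Finset ι) (f : ι → Site d) :
    sht ℓ (∑ i ∈ s, f i) = ∑ i ∈ s, sht ℓ (f i) := by
  classical
  induction s using Finset.induction_on with
  | empty => simp [sht_zero]
  | insert a s ha ih => rw [Finset.sum_insert ha, Finset.sum_insert ha, sht_add, ih]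

theorem sht_pos (ℓ : Fin d → ℝ) (x : Site d) (M : MPath d) (n : ℕ) :
    sht ℓ (pos x M n) = sht ℓ x + hgt (mht ℓ) M n := by
  unfold pos hgt mht
  rw [sht_add, sht_sum]

/-- separation constant -/
def cR (ℓ : Fin d → ℝ) (R : ℕ) : ℝ := R * ∑ i, |ℓ i|

theorem cR_zero (ℓ : Fin d → ℝ) : cR ℓ 0 = 0 := by simp [cR]

theorem cR_nonneg (ℓ : Fin d → ℝ) (R : ℕ) : 0 ≤ cR ℓ R :=
  mul_nonneg (Nat.cast_nonneg _) (Finset.sum_nonneg fun i _ => abs_nonneg _)

theorem sep_of_height (ℓ : Fin d → ℝ) (R : ℕ) {S T : Set (Site d)}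
    (h : ∀ a ∈ S, ∀ b ∈ T, sht ℓ a + cR ℓ R < sht ℓ b) : SepR R S T := by
  intro a ha b hb
  by_contra hcon
  push Not at hcon
  have h1 := h a ha b hb
  have h2 : sht ℓ b - sht ℓ a ≤ cR ℓ R := by
    rw [← sht_sub]
    unfold sht cR
    rw [Finset.mul_sum]
    refine Finset.sum_le_sum fun i _ => ?_
    have h3 : |((b - a) i : ℝ)| ≤ R := by
      have h4 := hcon i
      have h5 : ((|a i - b i| : ℤ) : ℝ) ≤ ((R : ℤ) : ℝ) := by exact_mod_cast h4
      rw [abs_sub_comm] at h5
      simpa using h5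
    calc ((b - a) i : ℝ) * ℓ i ≤ |((b - a) i : ℝ) * ℓ i| := le_abs_self _
      _ = |((b - a) i : ℝ)| * |ℓ i| := abs_mul _ _
      _ ≤ R * |ℓ i| := mul_le_mul_of_nonneg_right h3 (abs_nonneg _)
  linarith

/-- the event "never below the start" reads only sites above the start -/
theorem stay_subset_Rd (ℓ : Fin d → ℝ) (y : Site d) :
    Stay (mht ℓ) ⊆ Rd {z | sht ℓ y ≤ sht ℓ z} y := by
  intro M hM i _
  have := hM i
  change sht ℓ y ≤ sht ℓ (pos y M i)
  rw [sht_pos]; linarith

/-- **renewal, general form** (coins, range `R`): the unforced times before `n` are at height less than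
`H_n - R Σ|ℓ_i|`, the future never goes below its start. -/
theorem renewal_gen {Q : Measure (Environment d)} [IsProbabilityMeasure Q]
    (hstat : ∀ z : Site d, MeasurePreserving (shiftEnv z) Q Q) {R : ℕ}
    (hR : IsFiniteRangeDependent Q R) (κ : ℝ) (ℓ : Fin d → ℝ) {n : ℕ} {A B : Set (MPath d)}
    (hA : Det n A)
    (hrec : ∀ s ∈ A, ∀ i < n, (s i).2 = false → hgt (mht ℓ) s i + cR ℓ R < hgt (mht ℓ) s n)
    (hB : MeasurableSet B) (hBS : B ⊆ Stay (mht ℓ)) :
    mkAnn κ Q 0 (A ∩ shift n ⁻¹' B) = mkAnn κ Q 0 A * mkAnn κ Q 0 B := by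
  have e := det_eq (Φ := (mkAnn κ Q 0).restrict (shift n ⁻¹' B))
    (Ψ := (mkAnn κ Q 0 B) • mkAnn κ Q 0) hA ?_
  · rw [Measure.restrict_apply hA.measurableSet, Measure.smul_apply, smul_eq_mul, mul_comm] at e
    exact e
  · intro W hW
    rw [Measure.restrict_apply (measurableSet_Cy W n), Measure.smul_apply, smul_eq_mul, mul_comm]
    have hsep : SepR R {z | ∃ i < n, (W i).2 = false ∧ pos 0 W i = z}
        {z | sht ℓ (pos 0 W n) ≤ sht ℓ z} := by
      refine sep_of_height ℓ R ?_
      rintro _ ⟨i, hi, hf, rfl⟩ b hb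
      have h1 := hrec W hW i hi hf
      have h2 : sht ℓ (pos 0 W n) ≤ sht ℓ b := hb
      rw [sht_pos, sht_zero] at h2 ⊢
      linarith
    exact mkAnn_Cy_shift hstat hR hsep κ 0 W n (fun i hi hf => ⟨i, hi, hf, rfl⟩) hB
      (hBS.trans (stay_subset_Rd ℓ _))

/-- 263's `Renewal` for the marked walk when the range is `0` (iid environments) -/
theorem renewal_R0 {Q : Measure (Environment d)} [IsProbabilityMeasure Q]
    (hstat : ∀ z : Site d, MeasurePreserving (shiftEnv z) Q Q)
    (hR : IsFiniteRangeDependent Q 0) (κ : ℝ) (ℓ : Fin d → ℝ) :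
    Renewal (mht ℓ) (mkAnn κ Q 0) where
  ren n A B hA hrec hB hBS := by
    refine renewal_gen hstat hR κ ℓ hA ?_ hB hBS
    intro s hs i hi _
    rw [cR_zero, add_zero]
    exact hrec s hs i hi

end Crest.Agent.R154.Mk561
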