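import Crest.Agent.R154.RenG3_263
import Crest.Agent.R154.MkC_561
import Crest.Agent.R154.Kal_132
import Crest.Agent.R154.B2d_419

/-!
Row 154, block B1: binding of the renewal structure to the (marked) annealed walk, all three frames
(iid elliptic; iid uniformly elliptic; uniformly elliptic with range `R`).
-/

set_option autoImplicit false
set_option linter.unusedSectionVars false
set_option linter.deprecated false

namespace Crest.Agent.R154.Bind263

open MeasureTheory ProbabilityTheory Filter Set Crest.ProbabilityR.RandomEnvironment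
open Crest.Agent.R154.Ren263 Crest.Agent.R154.RenG263 Crest.Agent.R154.Mk561
open scoped ENNReal Topology

variable {d : ℕ}

/-- the standing assumptions, common to the three statements -/
structure Frame (Q : Measure (Environment d)) (κ : ℝ) (R : ℕ) : Prop where
  stat : ∀ z : Site d, MeasurePreserving (shiftEnv z) Q Q
  fin : IsFiniteRangeDependent Q R
  ell : ∀ᵐ ω ∂Q, ∀ (z : Site d) (e : Step d), kf d κ ≤ (ω z).1 e
  elp : ∀ᵐ ω ∂Q, ∀ (z : Site d) (e : Step d), 0 < (ω z).1 e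
  slab : Kal132.SlabProp Q
  retry : ∀ ℓ : Fin d → ℝ, ℓ ≠ 0 → Kal132.RetryProp Q ℓ
  frc : R = 0 ∨ 0 < kf d κ

/-- S0219, S0220: iid elliptic, no coins -/
theorem frame_iid (ν : Measure (Row d)) [IsProbabilityMeasure ν]
    (hν : ∀ᵐ p ∂ν, ∀ e : Step d, 0 < p.1 e) : Frame (iidEnvironmentLaw ν) 0 0 where
  stat := Q561.iid_shift ν
  fin := Q561.iid_isFiniteRangeDependent ν 0
  ell := by
    rw [kf_zero]
    exact Eventually.of_forall fun ω z e => (ω z).2.1 e
  elp := by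
    rw [ae_all_iff]
    intro x
    have hmap : (iidEnvironmentLaw ν).map (fun ω : Environment d => ω x) = ν := by
      rw [iidEnvironmentLaw]
      exact Measure.infinitePi_map_eval _ _
    have := hν
    rw [← hmap] at this
    exact ae_of_ae_map (measurable_pi_apply x).aemeasurable this
  slab := Kal132.slabProp_iid ν hν
  retry := fun ℓ hℓ => Kal132.retry_iid ν ℓ hℓ
  frc := Or.inl rfl

lemma kf_eq_of_ell {Q : Measure (Environment d)} [IsProbabilityMeasure Q] {κ : ℝ} (hκ : 0 < κ)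
    (hell : ∀ᵐ ω ∂Q, ∀ (x : Site d) (e : Step d), κ ≤ (ω x).1 e) : kf d κ = κ := by
  obtain ⟨ω, hω⟩ := hell.exists
  refine kf_eq hκ.le ?_
  have h1 := (ω 0).2.2
  have h2 : ∑ _e : Step d, κ ≤ ∑ e : Step d, (ω 0).1 e := Finset.sum_le_sum fun e _ => hω 0 e
  rw [h1] at h2
  simp only [Finset.sum_const, Finset.card_univ, Fintype.card_prod, Fintype.card_fin,
    Fintype.card_bool, nsmul_eq_mul] at h2
  push_cast at h2
  linarith

/-- S0221 (and S0220): uniformly elliptic, range `R` -/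
theorem frame_ue {Q : Measure (Environment d)} [IsProbabilityMeasure Q]
    (hstat : ∀ z : Site d, MeasurePreserving (shiftEnv z) Q Q) {κ : ℝ} (hκ : 0 < κ)
    (hell : ∀ᵐ ω ∂Q, ∀ (x : Site d) (e : Step d), κ ≤ (ω x).1 e) {R : ℕ}
    (hR : IsFiniteRangeDependent Q R) : Frame Q κ R where
  stat := hstat
  fin := hR
  ell := by rw [kf_eq_of_ell hκ hell]; exact hell
  elp := by filter_upwards [hell] with ω hω z e using lt_of_lt_of_le hκ (hω z e)
  slab := Kal132.slabProp_ue hκ hell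
  retry := fun ℓ hℓ => Kal132.retry_ue hstat hκ hell hR ℓ hℓ
  frc := Or.inr (by rw [kf_eq_of_ell hκ hell]; exact hκ)

/-! ### the admissible records of the marked walk -/

/-- admissible records: strict record, and every unforced earlier time is lower by more than `R Σ|ℓ|` -/
def MRec (ℓ : Fin d → ℝ) (R : ℕ) (s : MPath d) (n : ℕ) : Prop :=
  ∀ i < n, hgt (mht ℓ) s i < hgt (mht ℓ) s n ∧
    ((s i).2 = false → hgt (mht ℓ) s i + cR ℓ R < hgt (mht ℓ) s n)

/-- the record system of the marked walk: `K` forced steps `e` -/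
noncomputable def mrs (ℓ : Fin d → ℝ) (R : ℕ) (κ : ℝ) (e : Step d) (K : ℕ)
    (he : 0 < mht ℓ (e, true)) (hK : cR ℓ R ≤ K * mht ℓ (e, true)) : RecSys (mht ℓ) where
  Rec := MRec ℓ R
  det {s s' n} H := by
    refine forall_congr' fun i => forall_congr' fun hi => ?_
    rw [hgt_congr (mht ℓ) H hi.le, hgt_congr (mht ℓ) H le_rfl, H i hi]
  record {s n} hs i hi := (hs i hi).1
  add {s n k} h1 h2 := by
    intro i hi
    rcases Nat.eq_zero_or_pos k with rfl | hk
    · exact h1 i hi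
    · have e2 := (h2 0 hk).1
      rw [hgt_zero, hgt_shift] at e2
      rcases lt_or_ge i n with hin | hin
      · obtain ⟨e1, e3⟩ := h1 i hin
        exact ⟨by linarith, fun hf => by have := e3 hf; linarith⟩
      · obtain ⟨j, rfl⟩ := Nat.exists_eq_add_of_le hin
        obtain ⟨e1, e3⟩ := h2 j (by omega)
        rw [hgt_shift, hgt_shift] at e1 e3
        exact ⟨by linarith, fun hf => by have := e3 hf; linarith⟩
  sub {s n k} h1 := by
    intro i hi
    obtain ⟨e1, e3⟩ := h1 (n + i) (by omega)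
    rw [hgt_shift, hgt_shift]
    exact ⟨by linarith, fun hf => by have := e3 hf; linarith⟩
  K := K
  f := fun _ => (e, true)
  f_up := fun _ _ => he.le
  climb {s n} h1 h2 := by
    have hclimb : ∀ j ≤ K, hgt (mht ℓ) s (n + j) = hgt (mht ℓ) s n + j * mht ℓ (e, true) := by
      intro j
      induction j with
      | zero => intro _; simp
      | succ j ih =>
        intro hj
        rw [← Nat.add_assoc, hgt_succ, ih (by omega), h2 j (by omega)]
        push_cast; ring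
    have hKp : 0 ≤ (K : ℝ) * mht ℓ (e, true) := by positivity
    intro i hi
    rcases lt_or_ge i n with hin | hin
    · have e1 := h1 i hin
      rw [hclimb K le_rfl]
      exact ⟨by linarith, fun _ => by linarith⟩
    · obtain ⟨j, rfl⟩ := Nat.exists_eq_add_of_le hin
      have hj : j < K := by omega
      rw [hclimb K le_rfl, hclimb j hj.le]
      have hjK : (j : ℝ) < K := by exact_mod_cast hj
      refine ⟨by nlinarith, fun hf => ?_⟩
      rw [h2 j hj] at hf
      simp at hf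
  δ := ENNReal.ofReal (kf d κ) ^ K

variable {Q : Measure (Environment d)} [IsProbabilityMeasure Q] {κ : ℝ} {R : ℕ}

lemma climb_prob (Q : Measure (Environment d)) [IsProbabilityMeasure Q] (κ : ℝ) (e : Step d)
    (K n : ℕ) {A : Set (MPath d)} (hA : Det n A) :
    mkAnn κ Q 0 (A ∩ {s | ∀ i < K, s (n + i) = ((e, true) : Mark d)}) =
      ENNReal.ofReal (kf d κ) ^ K * mkAnn κ Q 0 A := by
  set V : MPath d := fun _ => (e, true) with hV
  have hset : {s : MPath d | ∀ i < K, s (n + i) = ((e, true) : Mark d)} =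
      Ren263.shift n ⁻¹' (Cy V K) := rfl
  have hVm : MeasurableSet (Ren263.shift n ⁻¹' (Cy V K)) :=
    Ren263.measurable_shift n (measurableSet_Cy V K)
  rw [hset]
  have key := det_eq (Φ := (mkAnn κ Q 0).restrict (Ren263.shift n ⁻¹' (Cy V K)))
    (Ψ := (ENNReal.ofReal (kf d κ) ^ K) • mkAnn κ Q 0) hA ?_
  · rw [Measure.restrict_apply hA.measurableSet, Measure.smul_apply, smul_eq_mul] at key
    exact key
  · intro W _
    rw [Measure.restrict_apply (measurableSet_Cy W n), Measure.smul_apply, smul_eq_mul,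
      mkAnn_apply κ Q 0 ((measurableSet_Cy W n).inter hVm), mkAnn_apply κ Q 0 (measurableSet_Cy W n),
      ← lintegral_const_mul _ (measurable_mk_apply κ 0 (measurableSet_Cy W n))]
    refine lintegral_congr fun ω => ?_
    rw [markov_Cy κ ω 0 W n (measurableSet_Cy V K), mk_cyl, mk_cyl, mul_comm]
    congr 1
    unfold wgt
    simp only [hV, mw_forced]
    rw [Finset.prod_const, Finset.card_range]

/-- **the renewal structure exists in every frame** -/
theorem Frame.renewal (F : Frame Q κ R) (ℓ : Fin d → ℝ) (e : Step d) (K : ℕ)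
    (he : 0 < mht ℓ (e, true)) (hK : cR ℓ R ≤ K * mht ℓ (e, true)) (hδ : K = 0 ∨ 0 < kf d κ) :
    RenewalG (mrs ℓ R κ e K he hK) (mkAnn κ Q 0) where
  ren n A B hA hrec hB hBS :=
    renewal_gen F.stat F.fin κ ℓ hA (fun s hs i hi hf => (hrec s hs i hi).2 hf) hB hBS
  δ_ne := by
    rcases hδ with rfl | h
    · change ENNReal.ofReal (kf d κ) ^ 0 ≠ 0
      rw [pow_zero]; exact one_ne_zero
    · exact pow_ne_zero _ (by simpa using h)
  clm n A hA := climb_prob Q κ e K n hA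

lemma mht_eq (ℓ : Fin d → ℝ) (e : Step d) (b : Bool) :
    mht ℓ (e, b) = Kal132.L ℓ (stepVec e) := rfl

/-- choice of the climb -/
lemma Frame.exists_climb (F : Frame Q κ R) (ℓ : Fin d → ℝ) (hℓ : ℓ ≠ 0) :
    ∃ (e : Step d) (K : ℕ), 0 < mht ℓ (e, true) ∧ cR ℓ R ≤ K * mht ℓ (e, true) ∧
      (K = 0 ∨ 0 < kf d κ) ∧ (R = 0 → K = 0) := by
  obtain ⟨e, he⟩ := Kal132.exists_up ℓ hℓ
  have he' : 0 < mht ℓ (e, true) := he
  by_cases hR : R = 0
  · subst hR
    exact ⟨e, 0, he', by rw [cR_zero]; simp, Or.inl rfl, fun _ => rfl⟩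
  · obtain ⟨K, hK⟩ := exists_nat_ge (cR ℓ R / mht ℓ (e, true))
    rw [div_le_iff₀ he'] at hK
    exact ⟨e, K, he', hK, Or.inr (F.frc.resolve_left hR), fun h => absurd h hR⟩

/-- **renewal structure in every frame, existence form**; for `R = 0` every strict record is
admissible -/
theorem Frame.exists_renewal (F : Frame Q κ R) (ℓ : Fin d → ℝ) (hℓ : ℓ ≠ 0) :
    ∃ ρ : RecSys (mht ℓ), RenewalG ρ (mkAnn κ Q 0) ∧ (∀ s n, ρ.Rec s n ↔ MRec ℓ R s n) ∧
      (R = 0 → ρ.K = 0) := by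
  obtain ⟨e, K, he, hK, hδ, hR⟩ := F.exists_climb ℓ hℓ
  exact ⟨mrs ℓ R κ e K he hK, F.renewal ℓ e K he hK hδ, fun _ _ => Iff.rfl, hR⟩

lemma mrec_zero (ℓ : Fin d → ℝ) (s : MPath d) (n : ℕ) :
    MRec ℓ 0 s n ↔ Record (mht ℓ) s n := by
  constructor
  · intro H i hi; exact (H i hi).1
  · intro H i hi
    exact ⟨H i hi, fun _ => by rw [cR_zero, add_zero]; exact H i hi⟩

/-! ### the events -/

lemma sht_eq_L (ℓ : Fin d → ℝ) (z : Site d) : sht ℓ z = Kal132.L ℓ z := rfl

lemma L_mpath (ℓ : Fin d → ℝ) (s : MPath d) (n : ℕ) :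
    Kal132.L ℓ (mpath 0 s n) = hgt (mht ℓ) s n := by
  have := sht_pos ℓ 0 s n
  rw [sht_zero, zero_add] at this
  exact this

lemma preimage_stay (ℓ : Fin d → ℝ) :
    mpath 0 ⁻¹' (Kal132.Stay ℓ) = Ren263.Stay (mht ℓ) := by
  ext s
  simp only [mem_preimage, Kal132.Stay, Ren263.Stay, mem_setOf_eq, L_mpath, hgt_zero]

lemma mem_escape_mpath (ℓ : Fin d → ℝ) (s : MPath d) :
    mpath 0 s ∈ escapeEvent ℓ ↔ Tendsto (fun n => hgt (mht ℓ) s n) atTop atTop := by
  rw [Kal132.mem_escape_iff]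
  simp only [L_mpath]

/-- transfer of almost sure events from sites to marks -/
lemma Frame.ae_mpath (F : Frame Q κ R) {p : Path d → Prop} (hp : MeasurableSet {X | p X})
    (h : ∀ᵐ X ∂annealed Q 0, p X) : ∀ᵐ s ∂(mkAnn κ Q 0), p (mpath 0 s) := by
  have hc : MeasurableSet {X | ¬ p X} := hp.compl
  rw [ae_iff] at h ⊢
  have h1 := mkAnn_projection F.ell (0 : Site d) hc
  rw [← annealed_apply Q 0 hc, h] at h1
  exact h1

/-- and back -/
lemma Frame.ae_annealed (F : Frame Q κ R) {p : Path d → Prop} (hp : MeasurableSet {X | p X})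
    (h : ∀ᵐ s ∂(mkAnn κ Q 0), p (mpath 0 s)) : ∀ᵐ X ∂annealed Q 0, p X := by
  have hc : MeasurableSet {X | ¬ p X} := hp.compl
  rw [ae_iff] at h ⊢
  have h1 := mkAnn_projection F.ell (0 : Site d) hc
  rw [← annealed_apply Q 0 hc] at h1
  rw [← h1]
  exact h

lemma Frame.prob_eq (F : Frame Q κ R) {B : Set (Path d)} (hB : MeasurableSet B) :
    mkAnn κ Q 0 (mpath 0 ⁻¹' B) = annealedProb Q 0 B := mkAnn_projection F.ell 0 hB

lemma measurableSet_unb (ℓ : Fin d → ℝ) :
    MeasurableSet {X : Path d | ∀ M : ℝ, ∃ᶠ n in atTop, M ≤ Kal132.L ℓ (X n)} := by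
  have : {X : Path d | ∀ M : ℝ, ∃ᶠ n in atTop, M ≤ Kal132.L ℓ (X n)} =
      ⋂ M : ℕ, {X : Path d | ∃ᶠ n in atTop, (M : ℝ) ≤ Kal132.L ℓ (X n)} := by
    ext X
    simp only [mem_setOf_eq, mem_iInter]
    refine ⟨fun H M => H M, fun H M => ?_⟩
    obtain ⟨N, hN⟩ := exists_nat_ge M
    exact (H N).mono fun n hn => hN.trans hn
  rw [this]
  refine MeasurableSet.iInter fun M => ?_
  have h2 : {X : Path d | ∃ᶠ n in atTop, (M : ℝ) ≤ Kal132.L ℓ (X n)} =
      ⋂ N : ℕ, ⋃ n : ℕ, ⋃ _ : N ≤ n, {X : Path d | (M : ℝ) ≤ Kal132.L ℓ (X n)} := by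
    ext X
    simp only [mem_setOf_eq, mem_iInter, mem_iUnion, frequently_atTop, exists_prop]
  rw [h2]
  exact MeasurableSet.iInter fun N => MeasurableSet.iUnion fun n => MeasurableSet.iUnion fun _ =>
    measurableSet_le measurable_const (Kal132.measurable_L ℓ n)

/-- almost surely the height is unbounded above or tends to `-∞` -/
theorem Frame.updown (F : Frame Q κ R) (ℓ : Fin d → ℝ) (hℓ : ℓ ≠ 0) :
    ∀ᵐ s ∂(mkAnn κ Q 0), (∀ M : ℝ, ∃ n, M ≤ hgt (mht ℓ) s n) ∨
      Tendsto (fun n => hgt (mht ℓ) s n) atTop atBot := by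
  have hm : MeasurableSet {X : Path d | (∀ M : ℝ, ∃ᶠ n in atTop, M ≤ Kal132.L ℓ (X n)) ∨
      Tendsto (fun n => Kal132.L ℓ (X n)) atTop atBot} := by
    have : {X : Path d | (∀ M : ℝ, ∃ᶠ n in atTop, M ≤ Kal132.L ℓ (X n)) ∨
        Tendsto (fun n => Kal132.L ℓ (X n)) atTop atBot} =
        {X : Path d | ∀ M : ℝ, ∃ᶠ n in atTop, M ≤ Kal132.L ℓ (X n)} ∪ escapeEvent (-ℓ) := by
      ext X
      rw [mem_union, Kal132.mem_escape_iff]
      simp only [mem_setOf_eq, Kal132.L_neg]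
      exact or_congr Iff.rfl tendsto_neg_atTop_iff.symm
    rw [this]
    exact (measurableSet_unb ℓ).union (Kal132.measurableSet_escape (-ℓ))
  filter_upwards [F.ae_mpath hm (Kal132.updown F.slab ℓ hℓ)] with s hs
  simp only [L_mpath] at hs
  rcases hs with hs | hs
  · exact Or.inl fun M => (hs M).exists
  · exact Or.inr hs

/-- **hT**: on `Stay` the height is unbounded -/
theorem Frame.hT (F : Frame Q κ R) (ℓ : Fin d → ℝ) (hℓ : ℓ ≠ 0) :
    ∀ᵐ s ∂(mkAnn κ Q 0), s ∈ Ren263.Stay (mht ℓ) → ∀ M : ℝ, ∃ n, M ≤ hgt (mht ℓ) s n := by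
  filter_upwards [F.updown ℓ hℓ] with s hs hst
  rcases hs with hs | hs
  · exact hs
  · exfalso
    obtain ⟨n, hn⟩ := (hs.eventually (eventually_le_atBot (-1))).exists
    have := hst n
    linarith

/-- **hp**: `P(Stay) ≠ 0` if the walk escapes with positive probability -/
theorem Frame.hp (F : Frame Q κ R) (ℓ : Fin d → ℝ)
    (h : annealedProb Q 0 (escapeEvent ℓ) ≠ 0) : mkAnn κ Q 0 (Ren263.Stay (mht ℓ)) ≠ 0 := by
  rw [← annealed_apply Q 0 (Kal132.measurableSet_escape ℓ)] at h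
  have h1 := Kal132.pD_pos F.stat ℓ h
  rw [annealed_apply Q 0 (Kal132.measurableSet_stay ℓ)] at h1
  rw [← preimage_stay, F.prob_eq (Kal132.measurableSet_stay ℓ)]
  exact h1

/-- the height escapes as soon as it is unbounded above -/
theorem Frame.escape (F : Frame Q κ R) (ℓ : Fin d → ℝ) (hℓ : ℓ ≠ 0)
    (h : annealedProb Q 0 (escapeEvent ℓ) ≠ 0) :
    ∀ᵐ s ∂(mkAnn κ Q 0), (∀ M : ℝ, ∃ n, M ≤ hgt (mht ℓ) s n) → mpath 0 s ∈ escapeEvent ℓ := by
  obtain ⟨ρ, hρ, _, _⟩ := F.exists_renewal ℓ hℓ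
  filter_upwards [hρ.ae_tendsto (F.hp ℓ h)] with s hs hM
  rw [mem_escape_mpath]
  exact (hs hM).2

/-- Kalikow's alternative, in the form of B2d -/
theorem Frame.kalikow (F : Frame Q κ R) (ℓ : Fin d → ℝ) (hℓ : ℓ ≠ 0) :
    B2d.Kalikow (annealed Q 0) ℓ :=
  fun h => Kal132.kalikow_ae F.stat F.slab ℓ hℓ (F.retry ℓ hℓ) h

/-- almost surely on `Stay`: the path escapes -/
theorem Frame.stay_escape (F : Frame Q κ R) (ℓ : Fin d → ℝ) (hℓ : ℓ ≠ 0)
    (h : annealedProb Q 0 (escapeEvent ℓ) ≠ 0) :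
    ∀ᵐ s ∂(mkAnn κ Q 0), s ∈ Ren263.Stay (mht ℓ) → mpath 0 s ∈ escapeEvent ℓ := by
  filter_upwards [F.hT ℓ hℓ, F.escape ℓ hℓ h] with s h1 h2 h3
  exact h2 (h1 h3)

/-- almost surely on `A_ℓ`: there are infinitely many regeneration times -/
theorem Frame.reg_of_escape (F : Frame Q κ R) (ℓ : Fin d → ℝ)
    {ρ : RecSys (mht ℓ)} (hρ : RenewalG ρ (mkAnn κ Q 0))
    (h : annealedProb Q 0 (escapeEvent ℓ) ≠ 0) :
    ∀ᵐ s ∂(mkAnn κ Q 0), mpath 0 s ∈ escapeEvent ℓ → ∀ j, ∃ n, j ≤ n ∧ RenG263.Reg ρ s n := by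
  filter_upwards [hρ.ae_tendsto (F.hp ℓ h)] with s hs hM
  rw [mem_escape_mpath] at hM
  refine (hs fun M => ?_).1
  obtain ⟨n, hn⟩ := (hM.eventually (eventually_ge_atTop M)).exists
  exact ⟨n, hn⟩

end Crest.Agent.R154.Bind263
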