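import Crest.Agent.R154.B6Laws_833
import Crest.Agent.R154.Bind_263

/-! R154 block B6, instance: the moves (M1), (M2), (M3) of helper833 #28694 (helper816). -/

set_option autoImplicit false
set_option linter.unusedSectionVars false
set_option linter.deprecated false

open MeasureTheory ProbabilityTheory Filter Set
open scoped ENNReal Topology

namespace Crest.Agent.R154.B6I

open Crest.ProbabilityR.RandomEnvironment Crest.Agent.R154.Q561 Crest.Agent.R154.Ren263
open Crest.Agent.R154.Mk561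
open Crest.Agent.R154.Flux132 (lev)
open Crest.Agent.R154.Fin804 (lev_add lev_step_le)

variable {d : ℕ}

/-- the word: `R` forced letters `u`, then `k` letters `g` with flag `b`, then letters `u` with
flag `b`. -/
def mvw (u g : Step d) (b : Bool) (R k : ℕ) : MPath d := fun i =>
  if i < R then (u, true) else if i < R + k then (g, b) else (u, b)

/-- number of up letters before time `n` -/
def ups (R k n : ℕ) : ℕ := min n R + (n - (R + k))

/-- number of lateral letters before time `n` -/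
def lats (R k n : ℕ) : ℕ := min (n - R) k

lemma mvw_lt {u g : Step d} {b : Bool} {R k i : ℕ} (h : i < R) : mvw u g b R k i = (u, true) :=
  if_pos h

lemma mvw_flag {u g : Step d} {b : Bool} {R k i : ℕ} (h : R ≤ i) : (mvw u g b R k i).2 = b := by
  unfold mvw
  rw [if_neg (by omega)]
  split_ifs <;> rfl

lemma pos_mvw (u g : Step d) (b : Bool) (R k : ℕ) (x : Site d) (n : ℕ) :
    pos x (mvw u g b R k) n = x + (ups R k n) • stepVec u + (lats R k n) • stepVec g := by
  induction n with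
  | zero => simp [pos_zero, ups, lats]
  | succ n ih =>
    rw [pos_succ, ih]
    unfold mvw stp
    by_cases h1 : n < R
    · rw [if_pos h1]
      have e1 : ups R k (n+1) = ups R k n + 1 := by unfold ups; omega
      have e2 : lats R k (n+1) = lats R k n := by unfold lats; omega
      rw [e1, e2, add_smul, one_smul]; abel
    · rw [if_neg h1]
      by_cases h2 : n < R + k
      · rw [if_pos h2]
        have e1 : ups R k (n+1) = ups R k n := by unfold ups; omega
        have e2 : lats R k (n+1) = lats R k n + 1 := by unfold lats; omega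
        rw [e1, e2, add_smul, one_smul]; abel
      · rw [if_neg h2]
        have e1 : ups R k (n+1) = ups R k n + 1 := by unfold ups; omega
        have e2 : lats R k (n+1) = lats R k n := by unfold lats; omega
        rw [e1, e2, add_smul, one_smul]; abel

lemma zt_mvw (u : Step d) {g : Step d} (hg : g.1 ≠ u.1) (b : Bool) (R k n : ℕ) :
    zt u (mvw u g b R k) n = (ups R k n : ℤ) := by
  induction n with
  | zero => simp [ups]
  | succ n ih =>
    rw [zt_succ, ih]
    unfold mvw stp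
    by_cases h1 : n < R
    · rw [if_pos h1]
      have e1 : ups R k (n+1) = ups R k n + 1 := by unfold ups; omega
      rw [e1]; simp only; rw [lev_self]; push_cast; ring
    · rw [if_neg h1]
      by_cases h2 : n < R + k
      · rw [if_pos h2]
        have e1 : ups R k (n+1) = ups R k n := by unfold ups; omega
        rw [e1]; simp only; rw [lev_lat u hg]; ring
      · rw [if_neg h2]
        have e1 : ups R k (n+1) = ups R k n + 1 := by unfold ups; omega
        rw [e1]; simp only; rw [lev_self]; push_cast; ring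

lemma hit_mvw (u : Step d) {g : Step d} (hg : g.1 ≠ u.1) (b : Bool) (R k : ℕ) :
    Hit u (R+1) (mvw u g b R k) (R+k+1) := by
  refine ⟨?_, fun j hj => ?_⟩
  · rw [zt_mvw u hg]
    have : ups R k (R+k+1) = R + 1 := by unfold ups; omega
    rw [this]
  · rw [zt_mvw u hg]
    have : ups R k j < R + 1 := by unfold ups; omega
    exact_mod_cast this

lemma nt_mvw (u : Step d) {g : Step d} (hg : g.1 ≠ u.1) (b : Bool) (R k : ℕ) :
    Nt u R 0 (R+1) (mvw u g b R k) := by
  refine ⟨0, R+k+1, hit_zero _, hit_mvw u hg b R k, fun n _ hn => ⟨fun h => ?_, fun h => ?_⟩⟩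
  · exact mvw_lt (by omega)
  · rw [zt_mvw u hg]
    have : R ≤ ups R k n := by unfold ups; omega
    push_cast
    have h' : (R:ℤ) ≤ (ups R k n : ℤ) := by exact_mod_cast this
    linarith

lemma stepVec_self (g : Step d) : stepVec g g.1 = if g.2 then 1 else -1 := by
  unfold stepVec; rw [Pi.single_eq_same]

/-- tip of the pair `(mvw k, mvw 0)`. -/
lemma lev_tips (u : Step d) {g g' : Step d} (hg : g.1 ≠ u.1) (hg' : g'.1 ≠ u.1) (b b' : Bool)
    (R k k' : ℕ) (s : SP u) :
    lev u (pos s.1.1 (mvw u g b R k) (R+k+1)) = lev u (pos s.1.2 (mvw u g' b' R k') (R+k'+1)) := by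
  rw [lev_pos, lev_pos, (hit_mvw u hg b R k).1, (hit_mvw u hg' b' R k').1, s.2]

lemma diff_tips (u g g' : Step d) (b b' : Bool) (R k : ℕ) (x y : Site d) :
    pos x (mvw u g b R k) (R+k+1) - pos y (mvw u g' b' R 0) (R+0+1) = (x - y) + k • stepVec g := by
  rw [pos_mvw, pos_mvw]
  have e1 : ups R k (R+k+1) = R + 1 := by unfold ups; omega
  have e2 : ups R 0 (R+0+1) = R + 1 := by unfold ups; omega
  have e3 : lats R k (R+k+1) = k := by unfold lats; omega
  have e4 : lats R 0 (R+0+1) = 0 := by unfold lats; omega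
  rw [e1, e2, e3, e4, zero_smul]
  abel

/-! ### weights -/

section weights

variable {κ : ℝ} {Q : Measure (Environment d)} [IsProbabilityMeasure Q] {R : ℕ}

lemma wgt_pos_of {ω : Environment d} (hk : kf d κ = 0) (h0 : ∀ (z : Site d) (e : Step d), 0 < (ω z).1 e)
    (x : Site d) (W : MPath d) (n : ℕ) (hW : ∀ i < n, (W i).2 = false) : wgt κ ω x W n ≠ 0 := by
  unfold wgt
  rw [Finset.prod_ne_zero_iff]
  intro i hi
  have h1 := hW i (Finset.mem_range.1 hi)
  have hreg : reg κ (ω (pos x W i)) = ω (pos x W i) := reg_eq fun e => by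
    rw [hk]; exact (h0 _ e).le
  unfold mw
  rw [h1, hreg, hk]
  simp only [Bool.false_eq_true, if_false, sub_zero]
  exact (ENNReal.ofReal_pos.2 (h0 _ _)).ne'

lemma int_wgt2_pos (F : Bind263.Frame Q κ R) (hk : kf d κ = 0) (x y : Site d) (W V : MPath d)
    (n m : ℕ) (hW : ∀ i < n, (W i).2 = false) (hV : ∀ i < m, (V i).2 = false) :
    0 < ∫⁻ ω, wgt κ ω x W n * wgt κ ω y V m ∂Q := by
  rw [pos_iff_ne_zero]
  intro h
  have hm : Measurable fun ω : Environment d => wgt κ ω x W n * wgt κ ω y V m :=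
    (measurable_wgt κ _ _ _).mul (measurable_wgt κ _ _ _)
  rw [lintegral_eq_zero_iff hm] at h
  obtain ⟨ω, h1, h2⟩ := (F.elp.and h).exists
  have h3 : wgt κ ω x W n * wgt κ ω y V m = 0 := h2
  rcases mul_eq_zero.1 h3 with h4 | h4
  · exact wgt_pos_of hk h1 x W n hW h4
  · exact wgt_pos_of hk h1 y V m hV h4

lemma int_wgt2_stat (F : Bind263.Frame Q κ R) (x : Site d) (W V : MPath d) (n m : ℕ) :
    ∫⁻ ω, wgt κ ω x W n * wgt κ ω x V m ∂Q = ∫⁻ ω, wgt κ ω 0 W n * wgt κ ω 0 V m ∂Q := by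
  have : ∀ ω : Environment d, wgt κ ω x W n * wgt κ ω x V m
      = (fun ω => wgt κ ω 0 W n * wgt κ ω 0 V m) (shiftEnv x ω) := by
    intro ω
    simp only [wgt_shiftEnv, zero_add]
  simp only [this]
  exact (F.stat x).lintegral_comp ((measurable_wgt κ _ _ _).mul (measurable_wgt κ _ _ _))

lemma int_wgt_stat (F : Bind263.Frame Q κ R) (x : Site d) (W : MPath d) (n : ℕ) :
    ∫⁻ ω, wgt κ ω x W n ∂Q = ∫⁻ ω, wgt κ ω 0 W n ∂Q := by
  have : ∀ ω : Environment d, wgt κ ω x W n = (fun ω => wgt κ ω 0 W n) (shiftEnv x ω) := by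
    intro ω
    simp only [wgt_shiftEnv, zero_add]
  simp only [this]
  exact (F.stat x).lintegral_comp (measurable_wgt κ _ _ _)

lemma int_wgt_pos (F : Bind263.Frame Q κ R) (hk : kf d κ = 0) (x : Site d) (W : MPath d)
    (n : ℕ) (hW : ∀ i < n, (W i).2 = false) : 0 < ∫⁻ ω, wgt κ ω x W n ∂Q := by
  have := int_wgt2_pos F hk x x W W n 0 hW (fun i hi => absurd hi (Nat.not_lt_zero _))
  have e : ∀ ω : Environment d, wgt κ ω x W n * wgt κ ω x W 0 = wgt κ ω x W n := by
    intro ω; simp [wgt]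
  simpa only [e] using this

lemma exists_lower {ι : Type*} [Finite ι] (φ : ι → ℝ≥0∞) (h : ∀ i, 0 < φ i) :
    ∃ c : ℝ≥0∞, 0 < c ∧ ∀ i, c ≤ φ i := by
  classical
  have := Fintype.ofFinite ι
  refine ⟨Finset.univ.inf φ, ?_, fun i => Finset.inf_le (Finset.mem_univ i)⟩
  rw [Finset.lt_inf_iff (by simp)]
  exact fun i _ => h i

end weights

/-! ### the moves -/

section moves

variable {κ : ℝ} {Q : Measure (Environment d)} [IsProbabilityMeasure Q] {R : ℕ} {u f : Step d}

/-- the sign which separates the walkers in coordinate `c`. -/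
def sg (x y : Site d) (c : Fin d) : Step d := (c, decide (0 ≤ x c - y c))

lemma sg_sep (x y : Site d) (c : Fin d) (r k : ℕ) (hk : r + 1 ≤ k) :
    (r:ℤ) < |((x - y) + k • stepVec (sg x y c)) c| := by
  have h1 : ((x - y) + k • stepVec (sg x y c)) c = (x c - y c) + k * stepVec (sg x y c) c := by
    simp [Pi.add_apply, Pi.sub_apply]
  have h2 : stepVec (sg x y c) c = if 0 ≤ x c - y c then 1 else -1 := by
    have := stepVec_self (sg x y c)
    simp only [sg, decide_eq_true_eq] at this ⊢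
    exact this
  have hk' : (r:ℤ) + 1 ≤ k := by exact_mod_cast hk
  rw [h1, h2]
  split_ifs with h
  · refine lt_of_lt_of_le ?_ (le_abs_self _)
    linarith
  · refine lt_of_lt_of_le ?_ (neg_le_abs _)
    push Not at h
    linarith

/-- no contact if all letters are forced. -/
lemma noC_forced (g g' : Step d) (k k' : ℕ) (s : SP u) :
    NoC R 0 (R+1) ((s, (mvw u g true R k, mvw u g' true R k')) : Om u) := by
  intro i i' _ _ hct
  exfalso
  have h1 : (mvw u g true R k i).2 = false := hct.1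
  rcases lt_or_ge i R with h | h
  · rw [mvw_lt h] at h1; simp at h1
  · rw [mvw_flag h] at h1; simp at h1

/-- no contact for `R = 0` and different sites at coordinate `c`. -/
lemma noC_sep {c : Fin d} (hc : c ≠ u.1) (k : ℕ) (s : SP u) (hne : s.1.1 c ≠ s.1.2 c)
    {g' : Step d} (hg' : g'.1 ≠ u.1) :
    NoC 0 0 (0+1) ((s, (mvw u (sg s.1.1 s.1.2 c) false 0 k, mvw u g' false 0 0)) : Om u) := by
  intro i i' h1 h2 hct
  exfalso
  have hsg : (sg s.1.1 s.1.2 c).1 ≠ u.1 := hc
  simp only at h1 h2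
  rw [bf_iff_of_hit (hit_mvw u hsg false 0 k)] at h1
  rw [bf_iff_of_hit (hit_mvw u hg' false 0 0)] at h2
  have h3 := hct.2.2 c
  simp only at h3
  have e1 : ups 0 k i = 0 := by unfold ups; omega
  have e2 : ups 0 0 i' = 0 := by unfold ups; omega
  have e3 : lats 0 0 i' = 0 := by unfold lats; omega
  have p1 : pos s.1.1 (mvw u (sg s.1.1 s.1.2 c) false 0 k) i c
      = s.1.1 c + (lats 0 k i : ℤ) * stepVec (sg s.1.1 s.1.2 c) c := by
    rw [pos_mvw, e1]; simp [Pi.add_apply]
  have p2 : pos s.1.2 (mvw u g' false 0 0) i' c = s.1.2 c := by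
    rw [pos_mvw, e2, e3]; simp [Pi.add_apply]
  rw [p1, p2] at h3
  have h4 : stepVec (sg s.1.1 s.1.2 c) c = if 0 ≤ s.1.1 c - s.1.2 c then 1 else -1 := by
    have := stepVec_self (sg s.1.1 s.1.2 c)
    simp only [sg, decide_eq_true_eq] at this ⊢
    exact this
  rw [h4] at h3
  have h5 : (0:ℤ) ≤ (lats 0 k i : ℤ) := Int.natCast_nonneg _
  rw [Nat.cast_zero] at h3
  have h6 := abs_nonpos_iff.1 h3
  split_ifs at h6 with h
  · have : s.1.1 c - s.1.2 c ≠ 0 := sub_ne_zero.2 hne
    have h7 : 0 < s.1.1 c - s.1.2 c := lt_of_le_of_ne h this.symm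
    linarith
  · push Not at h
    linarith

lemma weight_forced (g g' : Step d) (k k' : ℕ) (x y : Site d) (n m : ℕ) :
    PSm κ Q x y (Cy (mvw u g true R k) n ×ˢ Cy (mvw u g' true R k') m)
      = ENNReal.ofReal (kf d κ) ^ n * ENNReal.ofReal (kf d κ) ^ m := by
  have h1 : ∀ g k i, (mvw u g true R k i).2 = true := by
    intro g k i
    rcases lt_or_ge i R with h | h
    · rw [mvw_lt h]
    · rw [mvw_flag h]
  rw [PSm_cyl]
  have : ∀ ω : Environment d, wgt κ ω x (mvw u g true R k) n * wgt κ ω y (mvw u g' true R k') m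
      = ENNReal.ofReal (kf d κ) ^ n * ENNReal.ofReal (kf d κ) ^ m := by
    intro ω
    rw [wgt_forced κ ω x fun i _ => h1 g k i, wgt_forced κ ω y fun i _ => h1 g' k' i]
  simp only [this, lintegral_const, measure_univ, mul_one]

/-- levels of a pair agree at the height coordinate. -/
lemma sp_height (s : SP u) : s.1.1 u.1 = s.1.2 u.1 := by
  have := s.2
  unfold Flux132.lev at this
  split_ifs at this
  · exact this
  · exact neg_injective this

lemma exists_coord (s : SP u) (h : s.1.1 ≠ s.1.2) : ∃ c, c ≠ u.1 ∧ s.1.1 c ≠ s.1.2 c := by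
  obtain ⟨c, hc⟩ := Function.ne_iff.1 h
  refine ⟨c, ?_, hc⟩
  rintro rfl
  exact hc (sp_height s)

/-- **(M1)** a move of the pair, without contact, to a pair at distance `> r`. -/
theorem exists_move (F : Bind263.Frame Q κ R) (hf : f.1 ≠ u.1) (r : ℕ) :
    ∃ c : ℝ≥0∞, 0 < c ∧ ∀ s : SP u, (0 < kf d κ ∨ s.1.1 ≠ s.1.2) →
      ∃ (W V : MPath d) (n m : ℕ) (t : SP u), Hit u (R+1) W n ∧ Hit u (R+1) V m ∧
        Nt u R 0 (R+1) W ∧ Nt u R 0 (R+1) V ∧ NoC R 0 (R+1) ((s, (W, V)) : Om u) ∧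
        t.1 = (pos s.1.1 W n, pos s.1.2 V m) ∧ (∃ c, (r:ℤ) < |t.1.1 c - t.1.2 c|) ∧
        c ≤ PSm κ Q s.1.1 s.1.2 (Cy W n ×ˢ Cy V m) := by
  rcases (kf_nonneg (d := d) κ).lt_or_eq with hk | hk
  · -- forced letters
    refine ⟨ENNReal.ofReal (kf d κ) ^ (R+(r+1)+1) * ENNReal.ofReal (kf d κ) ^ (R+0+1), ?_,
      fun s _ => ?_⟩
    · have := ENNReal.ofReal_pos.2 hk
      exact ENNReal.mul_pos (pow_ne_zero _ this.ne') (pow_ne_zero _ this.ne')
    · set g := sg s.1.1 s.1.2 f.1 with hg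
      have hgu : g.1 ≠ u.1 := hf
      refine ⟨mvw u g true R (r+1), mvw u f true R 0, R+(r+1)+1, R+0+1,
        ⟨(pos s.1.1 (mvw u g true R (r+1)) (R+(r+1)+1), pos s.1.2 (mvw u f true R 0) (R+0+1)),
          lev_tips u hgu hf true true R (r+1) 0 s⟩, hit_mvw u hgu true R (r+1),
        hit_mvw u hf true R 0, nt_mvw u hgu true R (r+1), nt_mvw u hf true R 0,
        noC_forced g f (r+1) 0 s, rfl, ⟨f.1, ?_⟩, ?_⟩
      · simp only
        have := diff_tips u g f true true R (r+1) s.1.1 s.1.2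
        rw [← Pi.sub_apply, this]
        exact sg_sep s.1.1 s.1.2 f.1 r (r+1) le_rfl
      · rw [weight_forced]
  · have hR : R = 0 := by
      rcases F.frc with h | h
      · exact h
      · rw [← hk] at h; exact absurd h (lt_irrefl _)
    subst hR
    obtain ⟨c, hc, hle⟩ := exists_lower (ι := Step d)
      (fun g => (∫⁻ ω, wgt κ ω 0 (mvw u g false 0 (r+1)) (0+(r+1)+1) ∂Q)
        * ∫⁻ ω, wgt κ ω 0 (mvw u f false 0 0) (0+0+1) ∂Q) (fun g => by
        refine ENNReal.mul_pos ?_ ?_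
        · exact (int_wgt_pos F hk.symm _ _ _ fun i _ => mvw_flag (Nat.zero_le i)).ne'
        · exact (int_wgt_pos F hk.symm _ _ _ fun i _ => mvw_flag (Nat.zero_le i)).ne')
    refine ⟨c, hc, fun s hs => ?_⟩
    have hne : s.1.1 ≠ s.1.2 := by
      rcases hs with h | h
      · rw [← hk] at h; exact absurd h (lt_irrefl _)
      · exact h
    obtain ⟨a, ha, hane⟩ := exists_coord s hne
    set g := sg s.1.1 s.1.2 a with hg
    have hgu : g.1 ≠ u.1 := ha
    have hN : NoC 0 0 (0+1) ((s, (mvw u g false 0 (r+1), mvw u f false 0 0)) : Om u) :=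
      noC_sep ha (r+1) s hane hf
    refine ⟨mvw u g false 0 (r+1), mvw u f false 0 0, 0+(r+1)+1, 0+0+1,
      ⟨(pos s.1.1 (mvw u g false 0 (r+1)) (0+(r+1)+1), pos s.1.2 (mvw u f false 0 0) (0+0+1)),
        lev_tips u hgu hf false false 0 (r+1) 0 s⟩, hit_mvw u hgu false 0 (r+1),
      hit_mvw u hf false 0 0, nt_mvw u hgu false 0 (r+1), nt_mvw u hf false 0 0,
      hN, rfl, ⟨a, ?_⟩, ?_⟩
    · simp only
      have := diff_tips u g f false false 0 (r+1) s.1.1 s.1.2
      rw [← Pi.sub_apply, this]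
      exact sg_sep s.1.1 s.1.2 a r (r+1) le_rfl
    · rw [PS_eq_PI_cyl F.fin s (hit_mvw u hgu false 0 (r+1)) (hit_mvw u hf false 0 0) hN, PIm_cyl,
        int_wgt_stat F s.1.1, int_wgt_stat F s.1.2]
      exact hle g

/-- **(M3)** `kf = 0` (so `R = 0`): two walkers at the same site are separated in one level. -/
theorem exists_split (F : Bind263.Frame Q κ R) (hf : f.1 ≠ u.1) (hk : kf d κ = 0) :
    ∃ c : ℝ≥0∞, 0 < c ∧ ∀ s : SP u, s.1.1 = s.1.2 →
      ∃ (W V : MPath d) (n m : ℕ) (t : SP u), Hit u 1 W n ∧ Hit u 1 V m ∧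
        Nt u 0 0 1 W ∧ Nt u 0 0 1 V ∧ ct 0 s (W, V) 0 0 ∧
        t.1 = (pos s.1.1 W n, pos s.1.2 V m) ∧ t.1.1 ≠ t.1.2 ∧
        c ≤ PSm κ Q s.1.1 s.1.2 (Cy W n ×ˢ Cy V m) := by
  refine ⟨∫⁻ ω, wgt κ ω 0 (mvw u f false 0 1) (0+1+1) * wgt κ ω 0 (mvw u f false 0 0) (0+0+1) ∂Q,
    int_wgt2_pos F hk _ _ _ _ _ _ (fun i _ => mvw_flag (Nat.zero_le i))
      (fun i _ => mvw_flag (Nat.zero_le i)), fun s hs => ?_⟩
  refine ⟨mvw u f false 0 1, mvw u f false 0 0, 0+1+1, 0+0+1,
    ⟨(pos s.1.1 (mvw u f false 0 1) (0+1+1), pos s.1.2 (mvw u f false 0 0) (0+0+1)),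
      lev_tips u hf hf false false 0 1 0 s⟩, hit_mvw u hf false 0 1,
    hit_mvw u hf false 0 0, nt_mvw u hf false 0 1, nt_mvw u hf false 0 0,
    ⟨mvw_flag le_rfl, mvw_flag le_rfl, fun c => ?_⟩, rfl, ?_, ?_⟩
  · rw [pos_zero, pos_zero, hs]; simp
  · simp only
    intro h
    have h1 := diff_tips u f f false false 0 1 s.1.1 s.1.2
    rw [h, hs] at h1
    simp only [sub_self, zero_add, one_smul] at h1
    have h2 := congrFun h1 f.1
    rw [stepVec_self] at h2
    simp only [Pi.zero_apply] at h2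
    split_ifs at h2 <;> simp at h2
  · rw [PSm_cyl, ← hs, int_wgt2_stat F s.1.1]

/-- **(M2)** a move of the pair, from every state, to a pair at distance `> r`. -/
theorem exists_move' (F : Bind263.Frame Q κ R) (hf : f.1 ≠ u.1) (r : ℕ) :
    ∃ c : ℝ≥0∞, 0 < c ∧ ∀ s : SP u,
      ∃ (W V : MPath d) (n m : ℕ) (t : SP u), Hit u (R+1) W n ∧ Hit u (R+1) V m ∧
        Nt u R 0 (R+1) W ∧ Nt u R 0 (R+1) V ∧
        t.1 = (pos s.1.1 W n, pos s.1.2 V m) ∧ (∃ c, (r:ℤ) < |t.1.1 c - t.1.2 c|) ∧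
        c ≤ PSm κ Q s.1.1 s.1.2 (Cy W n ×ˢ Cy V m) := by
  obtain ⟨c, hc, H⟩ := exists_move F hf r
  rcases (kf_nonneg (d := d) κ).lt_or_eq with hk | hk
  · refine ⟨c, hc, fun s => ?_⟩
    obtain ⟨W, V, n, m, t, h1, h2, h3, h4, _, h6, h7, h8⟩ := H s (Or.inl hk)
    exact ⟨W, V, n, m, t, h1, h2, h3, h4, h6, h7, h8⟩
  · have hR : R = 0 := by
      rcases F.frc with h | h
      · exact h
      · rw [← hk] at h; exact absurd h (lt_irrefl _)
    subst hR
    set c' : ℝ≥0∞ := ∫⁻ ω, wgt κ ω 0 (mvw u f false 0 (r+1)) (0+(r+1)+1)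
      * wgt κ ω 0 (mvw u f false 0 0) (0+0+1) ∂Q with hc'
    have hc'0 : 0 < c' := int_wgt2_pos F hk.symm _ _ _ _ _ _ (fun i _ => mvw_flag (Nat.zero_le i))
      (fun i _ => mvw_flag (Nat.zero_le i))
    refine ⟨min c c', lt_min hc hc'0, fun s => ?_⟩
    by_cases hs : s.1.1 = s.1.2
    · refine ⟨mvw u f false 0 (r+1), mvw u f false 0 0, 0+(r+1)+1, 0+0+1,
        ⟨(pos s.1.1 (mvw u f false 0 (r+1)) (0+(r+1)+1), pos s.1.2 (mvw u f false 0 0) (0+0+1)),
          lev_tips u hf hf false false 0 (r+1) 0 s⟩, hit_mvw u hf false 0 (r+1),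
        hit_mvw u hf false 0 0, nt_mvw u hf false 0 (r+1), nt_mvw u hf false 0 0,
        rfl, ⟨f.1, ?_⟩, ?_⟩
      · simp only
        have h1 := diff_tips u f f false false 0 (r+1) s.1.1 s.1.2
        rw [← Pi.sub_apply, h1, hs]
        have h2 : ((s.1.2 - s.1.2 : Site d) + (r+1) • stepVec f) f.1
            = ((r:ℤ)+1) * stepVec f f.1 := by simp [Pi.add_apply]
        rw [h2, stepVec_self]
        split_ifs
        · refine lt_of_lt_of_le ?_ (le_abs_self _)
          linarith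
        · refine lt_of_lt_of_le ?_ (neg_le_abs _)
          linarith
      · refine le_trans (min_le_right _ _) ?_
        rw [PSm_cyl, ← hs, int_wgt2_stat F s.1.1]
    · obtain ⟨W, V, n, m, t, h1, h2, h3, h4, _, h6, h7, h8⟩ := H s (Or.inr hs)
      exact ⟨W, V, n, m, t, h1, h2, h3, h4, h6, h7, le_trans (min_le_left _ _) h8⟩

end moves

end Crest.Agent.R154.B6I
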