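import Crest.Agent.R154.B6Main_833
import Crest.Agent.R154.B6Moves_816

/-! R154 block B6: the structure `Moves` of helper833 from helper816's moves. -/

set_option autoImplicit false

open MeasureTheory ProbabilityTheory

namespace Crest.Agent.R154.B6I

open Crest.ProbabilityR.RandomEnvironment Crest.Agent.R154.Mk561

variable {d : ℕ} {κ : ℝ} {Q : Measure (Environment d)} [IsProbabilityMeasure Q] {R : ℕ}
  {u f : Step d}

/-- **the moves of the pair frame exist in every frame** (`d ≥ 2`: a lateral direction `f`). -/
theorem moves_of_frame (F : Bind263.Frame Q κ R) (hf : f.1 ≠ u.1) : Moves u R κ Q where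
  m1 := exists_move F hf
  m2 := exists_move' F hf
  m3 hk := exists_split F hf hk
  frc := F.frc

/-- `d ≥ 2`. -/
theorem moves_of_two_le (F : Bind263.Frame Q κ R) (hd : 2 ≤ d) (u : Step d) : Moves u R κ Q := by
  have : ∃ a : Fin d, a ≠ u.1 := by
    haveI : Nontrivial (Fin d) := Fin.nontrivial_iff_two_le.2 hd
    exact exists_ne u.1
  obtain ⟨a, ha⟩ := this
  exact moves_of_frame F (f := (a, true)) ha

end Crest.Agent.R154.B6I
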