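import Crest.Agent.R154.B6Def_833

/-! R154 block B6, instance (helper833), part 2: pairs of marked walkers; fresh restart of the pair
at the first hits of a level, for every family of pair laws which is multiplicative on natural
cylinders (same environment: `PS`; independent environments: `PI`). -/

set_option autoImplicit false
set_option linter.unusedSectionVars false
set_option linter.deprecated false

open MeasureTheory ProbabilityTheory Filter Set
open scoped ENNReal Topology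

namespace Crest.Agent.R154.B6I

open Crest.ProbabilityR.RandomEnvironment Crest.Agent.R154.Q561 Crest.Agent.R154.Ren263
open Crest.Agent.R154.Mk561
open Crest.Agent.R154.Flux132 (lev)
open Crest.Agent.R154.Fin804 (lev_add lev_step_le)

local notation "shf" => Crest.Agent.R154.Ren263.shift

variable {d : ℕ} (u : Step d)

/-- pairs of sites at the same level -/
abbrev SP : Type := {q : Site d × Site d // lev u q.1 = lev u q.2}

/-- pairs of marked paths -/
abbrev PP (d : ℕ) : Type := MPath d × MPath d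

/-- start pair and pair of marked paths -/
abbrev Om : Type := SP u × PP d

variable {u}

/-- the read sites at the times `i` of the first and `i'` of the second walker are within `R`. -/
def ct (R : ℕ) (s : SP u) (p : PP d) (i i' : ℕ) : Prop :=
  (p.1 i).2 = false ∧ (p.2 i').2 = false ∧
    ∀ c, |pos s.1.1 p.1 i c - pos s.1.2 p.2 i' c| ≤ (R : ℤ)

/-- new contact in stage `l` -/
def Cs (R l : ℕ) (ω : Om u) : Prop :=
  ∃ i i', bf u l ω.2.1 i ∧ bf u l ω.2.2 i' ∧ ct R ω.1 ω.2 i i' ∧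
    ¬ (bf u (l-1) ω.2.1 i ∧ bf u (l-1) ω.2.2 i')

/-- no contact between the stages `j` and `L`, all at once. -/
def NoC (R j L : ℕ) (ω : Om u) : Prop :=
  ∀ i i', bf u L ω.2.1 i → bf u L ω.2.2 i' → ct R ω.1 ω.2 i i' →
    bf u j ω.2.1 i ∧ bf u j ω.2.2 i'

lemma noC_iff {R j L : ℕ} (hjL : j ≤ L) (ω : Om u) :
    (∀ l, j < l → l ≤ L → ¬ Cs R l ω) ↔ NoC R j L ω := by
  constructor
  · induction L, hjL using Nat.le_induction with
    | base => intro _ i i' h1 h2 _; exact ⟨h1, h2⟩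
    | succ L hL ih =>
      intro H i i' h1 h2 h3
      have h4 := H (L+1) (by omega) le_rfl
      have h5 : bf u L ω.2.1 i ∧ bf u L ω.2.2 i' := by
        by_contra hcon
        exact h4 ⟨i, i', h1, h2, h3, by simpa using hcon⟩
      exact ih (fun l hl hlL => H l hl (by omega)) i i' h5.1 h5.2 h3
  · rintro H l hl hlL ⟨i, i', h1, h2, h3, h4⟩
    obtain ⟨h5, h6⟩ := H i i' (bf_mono hlL h1) (bf_mono hlL h2) h3
    exact h4 ⟨bf_mono (by omega) h5, bf_mono (by omega) h6⟩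

/-! ### the tips -/

variable (u) in
/-- first hitting time of level `j` (junk `0` if not reached) -/
noncomputable def hn (j : ℕ) (M : MPath d) : ℕ :=
  open Classical in if h : Alv u j M then h.choose else 0

lemma hn_eq {j : ℕ} {M : MPath d} {n : ℕ} (h : Hit u j M n) : hn u j M = n := by
  have h' : Alv u j M := ⟨n, h⟩
  unfold hn
  rw [dif_pos h']
  exact h'.choose_spec.unique h

lemma hit_hn {j : ℕ} {M : MPath d} (h : Alv u j M) : Hit u j M (hn u j M) := by
  obtain ⟨n, hn'⟩ := h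
  rw [hn_eq hn']; exact hn'

/-- both alive at level `j`. -/
def Al (u : Step d) (j : ℕ) (p : PP d) : Prop := Alv u j p.1 ∧ Alv u j p.2

lemma tip_aux {j : ℕ} (s : SP u) {p : PP d} (h : Al u j p) :
    lev u (pos s.1.1 p.1 (hn u j p.1)) = lev u (pos s.1.2 p.2 (hn u j p.2)) := by
  rw [lev_pos, lev_pos, (hit_hn h.1).1, (hit_hn h.2).1, s.2]

/-- the pair of sites at the first hits of level `j` -/
noncomputable def tip (j : ℕ) (s : SP u) (p : PP d) : SP u :=
  open Classical in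
  if h : Al u j p then ⟨(pos s.1.1 p.1 (hn u j p.1), pos s.1.2 p.2 (hn u j p.2)), tip_aux s h⟩
  else s

lemma tip_val {j : ℕ} (s : SP u) {p : PP d} {a b : ℕ} (h1 : Hit u j p.1 a) (h2 : Hit u j p.2 b) :
    (tip j s p).1 = (pos s.1.1 p.1 a, pos s.1.2 p.2 b) := by
  have h : Al u j p := ⟨⟨a, h1⟩, ⟨b, h2⟩⟩
  unfold tip
  rw [dif_pos h]
  change (pos s.1.1 p.1 (hn u j p.1), pos s.1.2 p.2 (hn u j p.2)) = _
  rw [hn_eq h1, hn_eq h2]

/-- the pair of futures from the first hits of level `j` -/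
noncomputable def th (u : Step d) (j : ℕ) (p : PP d) : PP d :=
  (shf (hn u j p.1) p.1, shf (hn u j p.2) p.2)

lemma th_eq {j : ℕ} {p : PP d} {a b : ℕ} (h1 : Hit u j p.1 a) (h2 : Hit u j p.2 b) :
    th u j p = (shf a p.1, shf b p.2) := by
  unfold th; rw [hn_eq h1, hn_eq h2]

/-! ### determined sets -/

/-- `B` is determined by the two paths up to the first hits of level `j`. -/
def Dt (u : Step d) (j : ℕ) (B : Set (PP d)) : Prop :=
  ∀ p q : PP d, Eqv u j p.1 q.1 → Eqv u j p.2 q.2 → p ∈ B → q ∈ B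

lemma Dt.mono {i j : ℕ} (hij : i ≤ j) {B : Set (PP d)} (h : Dt u i B) : Dt u j B :=
  fun p q h1 h2 hp => h p q (h1.mono hij) (h2.mono hij) hp

lemma Dt.inter {j : ℕ} {B C : Set (PP d)} (h : Dt u j B) (h' : Dt u j C) : Dt u j (B ∩ C) :=
  fun p q h1 h2 hp => ⟨h p q h1 h2 hp.1, h' p q h1 h2 hp.2⟩

lemma Dt.compl {j : ℕ} {B : Set (PP d)} (h : Dt u j B) : Dt u j Bᶜ :=
  fun p q h1 h2 hp hq => hp (h q p h1.symm h2.symm hq)

lemma alv_eqv {j : ℕ} {M M' : MPath d} (h : Eqv u j M M') (hM : Alv u j M) : Alv u j M' := by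
  obtain ⟨n, hn⟩ := hM; exact ⟨n, h.hit hn⟩

lemma dt_al (j : ℕ) : Dt u j {p | Al u j p} :=
  fun _ _ h1 h2 hp => ⟨alv_eqv h1 hp.1, alv_eqv h2 hp.2⟩

lemma tip_eqv {j : ℕ} (s : SP u) {p q : PP d} (h1 : Eqv u j p.1 q.1) (h2 : Eqv u j p.2 q.2) :
    tip j s p = tip j s q := by
  by_cases h : Al u j p
  · obtain ⟨⟨a, ha⟩, ⟨b, hb⟩⟩ := h
    apply Subtype.ext
    rw [tip_val s ha hb, tip_val s (h1.hit ha) (h2.hit hb)]
    rw [pos_congr _ (h1.agree ha) le_rfl, pos_congr _ (h2.agree hb) le_rfl]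
  · have h' : ¬ Al u j q := fun h' => h ⟨alv_eqv h1.symm h'.1, alv_eqv h2.symm h'.2⟩
    unfold tip
    rw [dif_neg h, dif_neg h']

lemma dt_tip (j : ℕ) (s t : SP u) : Dt u j {p | tip j s p = t} :=
  fun p q h1 h2 hp => by
    simp only [Set.mem_ofPred_eq] at hp ⊢
    rw [← tip_eqv s h1 h2]; exact hp

lemma dt_nt {R i j : ℕ} (hij : i ≤ j) : Dt u j {p | Nt u R i j p.1 ∧ Nt u R i j p.2} :=
  fun _ _ h1 h2 hp => ⟨h1.nt hij hp.1, h2.nt hij hp.2⟩

lemma ct_eqv {R j : ℕ} {s : SP u} {p q : PP d} (h1 : Eqv u j p.1 q.1) (h2 : Eqv u j p.2 q.2)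
    {i i' : ℕ} (hi : bf u j p.1 i) (hi' : bf u j p.2 i') (h : ct R s p i i') : ct R s q i i' := by
  obtain ⟨e1, e2, e3⟩ := h
  have a1 : ∀ k < i + 1, p.1 k = q.1 k := fun k hk => h1 k (bf_le (by omega) hi)
  have a2 : ∀ k < i' + 1, p.2 k = q.2 k := fun k hk => h2 k (bf_le (by omega) hi')
  refine ⟨by rw [← a1 i (by omega)]; exact e1, by rw [← a2 i' (by omega)]; exact e2, fun c => ?_⟩
  rw [← pos_congr s.1.1 a1 (Nat.le_succ i), ← pos_congr s.1.2 a2 (Nat.le_succ i')]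
  exact e3 c

lemma dt_cs (R l : ℕ) (s : SP u) : Dt u l {p | Cs R l ((s, p) : Om u)} := by
  rintro p q h1 h2 ⟨i, i', e1, e2, e3, e4⟩
  refine ⟨i, i', (h1.bf_iff i).1 e1, (h2.bf_iff i').1 e2, ct_eqv h1 h2 e1 e2 e3, fun hcon => e4 ?_⟩
  have m1 : Eqv u (l-1) p.1 q.1 := h1.mono (Nat.sub_le _ _)
  have m2 : Eqv u (l-1) p.2 q.2 := h2.mono (Nat.sub_le _ _)
  exact ⟨(m1.bf_iff i).2 hcon.1, (m2.bf_iff i').2 hcon.2⟩

lemma dt_noC {R j L : ℕ} (hjL : j ≤ L) (s : SP u) : Dt u L {p | NoC R j L ((s, p) : Om u)} := by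
  intro p q h1 h2 H i i' e1 e2 e3
  have e1' : bf u L p.1 i := (h1.bf_iff i).2 e1
  have e2' : bf u L p.2 i' := (h2.bf_iff i').2 e2
  obtain ⟨f1, f2⟩ := H i i' e1' e2' (ct_eqv h1.symm h2.symm e1 e2 e3)
  exact ⟨((h1.mono hjL).bf_iff i).1 f1, ((h2.mono hjL).bf_iff i').1 f2⟩

/-! ### shifting a pair -/

/-- **naturalness and no contact, restarted at level `j`.** -/
lemma shift_iff {R j L n : ℕ} (hjL : j ≤ L) (hLn : L ≤ n) (s : SP u) {p : PP d} (h : Al u j p) :
    ((Nt u R j n p.1 ∧ Nt u R j n p.2) ∧ NoC R j L ((s, p) : Om u)) ↔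
      ((Nt u R 0 (n-j) (th u j p).1 ∧ Nt u R 0 (n-j) (th u j p).2) ∧
        NoC R 0 (L-j) ((tip j s p, th u j p) : Om u)) := by
  obtain ⟨⟨a, ha⟩, ⟨b, hb⟩⟩ := h
  rw [th_eq ha hb]
  have hjn := hjL.trans hLn
  have e1 := nt_shift_iff (R := R) (le_refl j) hjn ha
  have e2 := nt_shift_iff (R := R) (le_refl j) hjn hb
  rw [Nat.sub_self] at e1 e2
  rw [e1, e2]
  refine and_congr_right fun hN => ?_
  have htip := tip_val s ha hb
  have hctc : ∀ i i', ct R (tip j s p) (shf a p.1, shf b p.2) i i' ↔ ct R s p (a+i) (b+i') := by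
    intro i i'
    unfold ct
    rw [htip]
    simp only [pos_shift]
    simp only [Ren263.shift]
  constructor
  · intro H i i' f1 f2 f3
    exfalso
    simp only at f1 f2
    rw [bf_shift_iff hjL ha] at f1
    rw [bf_shift_iff hjL hb] at f2
    rw [hctc] at f3
    have := (H _ _ f1 f2 f3).1
    rw [bf_iff_of_hit ha] at this
    omega
  · intro H i i' f1 f2 f3
    simp only at f1 f2
    rcases lt_or_ge i a with hia | hia
    · rcases lt_or_ge i' b with hib | hib
      · exact ⟨(bf_iff_of_hit ha i).2 hia, (bf_iff_of_hit hb i').2 hib⟩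
      · -- first before level j, second after: not in contact
        exfalso
        have g1 := hN.2.read_ge hb hib (bf_mono hLn f2) f3.2.1
        have g2 := ha.2 i hia
        have g3 := f3.2.2
        have g4 : |lev u (pos s.1.1 p.1 i) - lev u (pos s.1.2 p.2 i')| ≤ R := by
          have := g3 u.1
          unfold Flux132.lev
          split_ifs
          · exact this
          · rw [show -pos s.1.1 p.1 i u.1 - -pos s.1.2 p.2 i' u.1
              = -(pos s.1.1 p.1 i u.1 - pos s.1.2 p.2 i' u.1) by ring, abs_neg]; exact this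
        rw [lev_pos, lev_pos, s.2, abs_le] at g4
        omega
    · rcases lt_or_ge i' b with hib | hib
      · exfalso
        have g1 := hN.1.read_ge ha hia (bf_mono hLn f1) f3.1
        have g2 := hb.2 i' hib
        have g3 := f3.2.2
        have g4 : |lev u (pos s.1.1 p.1 i) - lev u (pos s.1.2 p.2 i')| ≤ R := by
          have := g3 u.1
          unfold Flux132.lev
          split_ifs
          · exact this
          · rw [show -pos s.1.1 p.1 i u.1 - -pos s.1.2 p.2 i' u.1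
              = -(pos s.1.1 p.1 i u.1 - pos s.1.2 p.2 i' u.1) by ring, abs_neg]; exact this
        rw [lev_pos, lev_pos, s.2, abs_le] at g4
        omega
      · exfalso
        obtain ⟨i, rfl⟩ := Nat.exists_eq_add_of_le hia
        obtain ⟨i', rfl⟩ := Nat.exists_eq_add_of_le hib
        rw [← hctc] at f3
        rw [← bf_shift_iff hjL ha] at f1
        rw [← bf_shift_iff hjL hb] at f2
        exact not_bf_zero _ _ (H i i' f1 f2 f3).1

/-- the tip at level `n` of the shifted pair. -/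
lemma tip_shift {j n : ℕ} (hjn : j ≤ n) (s : SP u) {p : PP d} (h : Al u n p) :
    tip (n-j) (tip j s p) (th u j p) = tip n s p := by
  obtain ⟨⟨a', ha'⟩, ⟨b', hb'⟩⟩ := h
  obtain ⟨a, ha⟩ := Alv.anti hjn ⟨a', ha'⟩
  obtain ⟨b, hb⟩ := Alv.anti hjn ⟨b', hb'⟩
  have h1 := ha.le_of_le hjn ha'
  have h2 := hb.le_of_le hjn hb'
  rw [th_eq ha hb]
  apply Subtype.ext
  rw [tip_val s ha' hb']
  have e1 : Hit u (n-j) (shf a p.1) (a'-a) :=
    (hit_shift_iff hjn ha _).2 (by rwa [show a + (a'-a) = a' by omega])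
  have e2 : Hit u (n-j) (shf b p.2) (b'-b) :=
    (hit_shift_iff hjn hb _).2 (by rwa [show b + (b'-b) = b' by omega])
  rw [tip_val (p := (shf a p.1, shf b p.2)) _ e1 e2, tip_val s ha hb]
  simp only [pos_shift]
  rw [show a + (a'-a) = a' by omega, show b + (b'-b) = b' by omega]

/-! ### decomposition into cylinders -/

/-- finite words -/
abbrev Wx (d : ℕ) : Type := Σ n : ℕ, (Fin n → Mark d)

/-- a path with a given initial word -/
def wx (u : Step d) (w : Wx d) : MPath d := fun i => if h : i < w.1 then w.2 ⟨i, h⟩ else (u, true)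

lemma mem_cy_wx {w : Wx d} {M : MPath d} : M ∈ Cy (wx u w) w.1 ↔ (fun i : Fin w.1 => M i) = w.2 := by
  constructor
  · intro h
    funext i
    have := h i i.2
    rw [this]; simp [wx]
  · intro h i hi
    have := congrFun h ⟨i, hi⟩
    simp only at this
    rw [this]; simp [wx, hi]

/-- the pair cylinder of two words -/
def cylp (u : Step d) (c : Wx d × Wx d) : Set (PP d) :=
  Cy (wx u c.1) c.1.1 ×ˢ Cy (wx u c.2) c.2.1

lemma measurableSet_cylp (c : Wx d × Wx d) : MeasurableSet (cylp u c) :=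
  (measurableSet_Cy _ _).prod (measurableSet_Cy _ _)

/-- the words stopped at level `j` inside `B` -/
abbrev Bix (u : Step d) (j : ℕ) (B : Set (PP d)) : Type :=
  {c : Wx d × Wx d // Hit u j (wx u c.1) c.1.1 ∧ Hit u j (wx u c.2) c.2.1 ∧
    (wx u c.1, wx u c.2) ∈ B}

instance (j : ℕ) (B : Set (PP d)) : Countable (Bix u j B) := inferInstance

lemma decomp {j : ℕ} {B : Set (PP d)} (hBa : ∀ p ∈ B, Al u j p) (hB : Dt u j B) :
    B = ⋃ c : Bix u j B, cylp u c.1 := by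
  ext p
  rw [Set.mem_iUnion]
  constructor
  · intro hp
    obtain ⟨⟨a, ha⟩, ⟨b, hb⟩⟩ := hBa p hp
    have k1 : p.1 ∈ Cy (wx u ⟨a, fun i => p.1 i⟩) a := mem_cy_wx.2 rfl
    have k2 : p.2 ∈ Cy (wx u ⟨b, fun i => p.2 i⟩) b := mem_cy_wx.2 rfl
    have k1' : wx u ⟨a, fun i => p.1 i⟩ ∈ Cy p.1 a := fun i hi => (k1 i hi).symm
    have k2' : wx u ⟨b, fun i => p.2 i⟩ ∈ Cy p.2 b := fun i hi => (k2 i hi).symm
    have q1 := (eqv_iff_of_hit ha).2 k1'
    have q2 := (eqv_iff_of_hit hb).2 k2'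
    exact ⟨⟨(⟨a, fun i => p.1 i⟩, ⟨b, fun i => p.2 i⟩), q1.hit ha, q2.hit hb,
      hB p (_, _) q1 q2 hp⟩, k1, k2⟩
  · rintro ⟨⟨c, h1, h2, h3⟩, k1, k2⟩
    exact hB (wx u c.1, wx u c.2) p ((eqv_iff_of_hit h1).2 k1) ((eqv_iff_of_hit h2).2 k2) h3

lemma pairwise_cylp {j : ℕ} {B : Set (PP d)} :
    Pairwise (Function.onFun Disjoint fun c : Bix u j B => cylp u c.1) := by
  rintro ⟨c, h1, h2, h3⟩ ⟨c', h1', h2', h3'⟩ hne
  rw [Function.onFun, Set.disjoint_left]
  rintro p ⟨k1, k2⟩ ⟨k1', k2'⟩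
  apply hne
  have q1 := ((eqv_iff_of_hit h1).2 k1).hit h1
  have q2 := ((eqv_iff_of_hit h2).2 k2).hit h2
  have q1' := ((eqv_iff_of_hit h1').2 k1').hit h1'
  have q2' := ((eqv_iff_of_hit h2').2 k2').hit h2'
  have e1 := q1.unique q1'
  have e2 := q2.unique q2'
  rw [mem_cy_wx] at k1 k2 k1' k2'
  obtain ⟨⟨n, w⟩, ⟨m, v⟩⟩ := c
  obtain ⟨⟨n', w'⟩, ⟨m', v'⟩⟩ := c'
  simp only at e1 e2
  subst e1 e2
  simp only at k1 k2 k1' k2'
  subst k1 k2 k1' k2'
  rfl

lemma lintegral_decomp {j : ℕ} {B : Set (PP d)} (hBa : ∀ p ∈ B, Al u j p) (hB : Dt u j B)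
    (μ : Measure (PP d)) (F : PP d → ℝ≥0∞) :
    ∫⁻ p in B, F p ∂μ = ∑' c : Bix u j B, ∫⁻ p in cylp u c.1, F p ∂μ := by
  conv_lhs => rw [decomp hBa hB]
  exact lintegral_iUnion (fun c : Bix u j B => measurableSet_cylp c.1) pairwise_cylp F

lemma measure_decomp {j : ℕ} {B : Set (PP d)} (hBa : ∀ p ∈ B, Al u j p) (hB : Dt u j B)
    (μ : Measure (PP d)) : μ B = ∑' c : Bix u j B, μ (cylp u c.1) := by
  conv_lhs => rw [decomp hBa hB]
  exact measure_iUnion pairwise_cylp (fun c : Bix u j B => measurableSet_cylp c.1)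

lemma measurableSet_of_dt {j : ℕ} {B : Set (PP d)} (hBa : ∀ p ∈ B, Al u j p) (hB : Dt u j B) :
    MeasurableSet B := by
  rw [decomp hBa hB]
  exact MeasurableSet.iUnion fun c => measurableSet_cylp c.1

lemma measurable_shf (n : ℕ) : Measurable (shf n : MPath d → MPath d) :=
  measurable_pi_lambda _ fun _ => measurable_pi_apply _

/-! ### fresh restart -/

/-- multiplicative families of pair laws -/
structure Mult (R : ℕ) (μ : SP u → Measure (PP d)) : Prop where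
  prob : ∀ s, IsProbabilityMeasure (μ s)
  mul : ∀ (s t : SP u) (j k : ℕ) (W V W' V' : MPath d) (n m n' m' : ℕ),
    Hit u j W n → Hit u j V m → Hit u k W' n' → Hit u k V' m' →
    Nt u R 0 k W' → Nt u R 0 k V' → t.1 = (pos s.1.1 W n, pos s.1.2 V m) →
    μ s (Cy (spl W n W') (n+n') ×ˢ Cy (spl V m V') (m+m'))
      = μ s (Cy W n ×ˢ Cy V m) * μ t (Cy W' n' ×ˢ Cy V' m')

variable {R : ℕ} {μ : SP u → Measure (PP d)}

/-- restart on one cylinder -/
lemma Mult.cyl (hμ : Mult R μ) (s t : SP u) {j k : ℕ} {W V : MPath d} {n m : ℕ}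
    (hW : Hit u j W n) (hV : Hit u j V m) (ht : t.1 = (pos s.1.1 W n, pos s.1.2 V m))
    {E : Set (PP d)} (hEd : Dt u k E)
    (hEN : ∀ p ∈ E, Nt u R 0 k p.1 ∧ Nt u R 0 k p.2) :
    μ s ((Cy W n ×ˢ Cy V m) ∩ (Prod.map (shf n) (shf m)) ⁻¹' E)
      = μ s (Cy W n ×ˢ Cy V m) * μ t E := by
  have hEa : ∀ p ∈ E, Al u k p := fun p hp => ⟨(hEN p hp).1.alv, (hEN p hp).2.alv⟩
  have hEm := measurableSet_of_dt hEa hEd
  have hC : MeasurableSet (Cy W n ×ˢ Cy V m : Set (PP d)) :=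
    (measurableSet_Cy _ _).prod (measurableSet_Cy _ _)
  have hsh : Measurable (Prod.map (shf n) (shf m) : PP d → PP d) :=
    (measurable_shf n).prodMap (measurable_shf m)
  have e1 : μ s ((Cy W n ×ˢ Cy V m) ∩ (Prod.map (shf n) (shf m)) ⁻¹' E)
      = (((μ s).restrict (Cy W n ×ˢ Cy V m)).map (Prod.map (shf n) (shf m))) E := by
    rw [Measure.map_apply hsh hEm, Measure.restrict_apply (hsh hEm), Set.inter_comm]
  rw [e1, measure_decomp hEa hEd, measure_decomp hEa hEd (μ t), ← ENNReal.tsum_mul_left]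
  refine tsum_congr fun c => ?_
  obtain ⟨c, h1, h2, h3⟩ := c
  rw [Measure.map_apply hsh (measurableSet_cylp _),
    Measure.restrict_apply (hsh (measurableSet_cylp _))]
  obtain ⟨n1, n2⟩ := hEN _ h3
  simp only at n1 n2
  have := hμ.mul s t j k W V _ _ n m _ _ hW hV h1 h2 n1 n2 ht
  rw [cylp, ← this]
  congr 1
  rw [← cy_inter_shift, ← cy_inter_shift]
  ext p
  simp only [Set.mem_inter_iff, Set.mem_preimage, Set.mem_prod, Prod.map]
  tauto

/-- **FRESH RESTART OF THE PAIR at level `j`.** -/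
theorem Mult.restart (hμ : Mult R μ) (s : SP u) {j k : ℕ} {B : Set (PP d)}
    (hBa : ∀ p ∈ B, Al u j p) (hB : Dt u j B) {E : Set (Om u)}
    (hEd : ∀ t, Dt u k {p | ((t, p) : Om u) ∈ E})
    (hEN : ∀ t p, ((t, p) : Om u) ∈ E → Nt u R 0 k p.1 ∧ Nt u R 0 k p.2) :
    μ s (B ∩ {p | ((tip j s p, th u j p) : Om u) ∈ E})
      = ∫⁻ p in B, μ (tip j s p) {q | ((tip j s p, q) : Om u) ∈ E} ∂(μ s) := by
  rw [lintegral_decomp hBa hB]
  have e0 : B ∩ {p | ((tip j s p, th u j p) : Om u) ∈ E}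
      = ⋃ c : Bix u j B, (cylp u c.1 ∩ {p | ((tip j s p, th u j p) : Om u) ∈ E}) := by
    conv_lhs => rw [decomp hBa hB]
    rw [Set.iUnion_inter]
  -- on one cylinder
  have key : ∀ c : Bix u j B, ∃ t : SP u, (∀ p ∈ cylp u c.1, tip j s p = t) ∧
      cylp u c.1 ∩ {p | ((tip j s p, th u j p) : Om u) ∈ E}
        = cylp u c.1 ∩ (Prod.map (shf c.1.1.1) (shf c.1.2.1)) ⁻¹' {p | ((t, p) : Om u) ∈ E} ∧
      μ s (cylp u c.1 ∩ (Prod.map (shf c.1.1.1) (shf c.1.2.1)) ⁻¹' {p | ((t, p) : Om u) ∈ E})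
        = μ s (cylp u c.1) * μ t {p | ((t, p) : Om u) ∈ E} := by
    rintro ⟨c, h1, h2, h3⟩
    refine ⟨tip j s (wx u c.1, wx u c.2), ?_, ?_, ?_⟩
    · rintro p ⟨k1, k2⟩
      exact (tip_eqv (p := (wx u c.1, wx u c.2)) (q := p) s ((eqv_iff_of_hit h1).2 k1)
        ((eqv_iff_of_hit h2).2 k2)).symm
    · ext p
      simp only [Set.mem_inter_iff, Set.mem_ofPred_eq, Set.mem_preimage]
      refine and_congr_right fun hp => ?_
      obtain ⟨k1, k2⟩ := hp
      have q1 := (eqv_iff_of_hit h1).2 k1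
      have q2 := (eqv_iff_of_hit h2).2 k2
      rw [← tip_eqv (p := (wx u c.1, wx u c.2)) (q := p) s q1 q2,
        th_eq (p := p) (q1.hit h1) (q2.hit h2)]
      rfl
    · exact hμ.cyl s (tip j s (wx u c.1, wx u c.2)) h1 h2
        (tip_val (p := (wx u c.1, wx u c.2)) s h1 h2) (hEd _) (fun p hp => hEN _ p hp)
  have hEm : ∀ t, MeasurableSet {p | ((t, p) : Om u) ∈ E} := fun t =>
    measurableSet_of_dt (j := k) (fun p hp => ⟨(hEN t p hp).1.alv, (hEN t p hp).2.alv⟩) (hEd t)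
  rw [e0, measure_iUnion]
  · refine tsum_congr fun c => ?_
    obtain ⟨t, k1, k2, k3⟩ := key c
    rw [k2, k3]
    have : ∫⁻ p in cylp u c.1, μ (tip j s p) {q | ((tip j s p, q) : Om u) ∈ E} ∂(μ s)
        = ∫⁻ _ in cylp u c.1, μ t {q | ((t, q) : Om u) ∈ E} ∂(μ s) := by
      refine setLIntegral_congr_fun (measurableSet_cylp _) fun p hp => ?_
      rw [k1 p hp]
    rw [this, setLIntegral_const, mul_comm]
  · intro c c' hne
    exact (pairwise_cylp hne).mono Set.inter_subset_left Set.inter_subset_left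
  · intro c
    obtain ⟨t, k1, k2, k3⟩ := key c
    rw [k2]
    exact (measurableSet_cylp _).inter
      (((measurable_shf _).prodMap (measurable_shf _)) (hEm t))

end Crest.Agent.R154.B6I
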